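import Crest.Agent.T157.RnOb_60

/-!
# Row 157, block B/R (helper49): linear and quadratic forms in a row (`LinStmt`, `QuadStmt`)
-/

set_option autoImplicit false

noncomputable section

namespace Crest.Agent.T157.Rn

open MeasureTheory ProbabilityTheory Real Filter Topology
open Crest.Agent.R238.Gap Crest.Agent.R238.GapPc Crest.Agent.R253.Meh74
open scoped NNReal ENNReal

namespace L49

variable {n : ℕ}

/-! ### the order calculus: square roots, small first moments -/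

section order
variable {Ω : ℕ → Type} [∀ n, MeasurableSpace (Ω n)] {T : ℕ → Type} {P : ∀ n, Measure (Ω n)}
  {a : ℕ → ℝ} {A : ∀ n, T n → Prop} {X : ∀ n, T n → Ω n → ℝ}

theorem ob_sqrt [∀ n, IsProbabilityMeasure (P n)] (h : Ob P (fun n => a n ^ 2) A X) :
    Ob P a A fun n t ω => √(X n t ω) :=
  ⟨fun n t => (h.1 n t).sqrt, fun q => by
    obtain ⟨C, hC⟩ := h.2 q
    refine ⟨NNReal.sqrt C, hC.mono fun n hn t ht => ?_⟩
    have h1 := eLpNorm_norm_rpow (p := (q : ℝ≥0∞)) (μ := P n) (fun ω => √(X n t ω)) (q := 2) two_pos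
    have h2 : eLpNorm (fun ω => ‖√(X n t ω)‖ ^ (2 : ℝ)) q (P n) ≤ eLpNorm (X n t) q (P n) :=
      eLpNorm_mono fun ω => by
        rw [Real.norm_eq_abs, Real.norm_eq_abs, Real.norm_eq_abs, Real.rpow_two, sq_abs, abs_sq,
          Real.sq_sqrt']
        exact max_le (le_abs_self _) (abs_nonneg _)
    have h3 : eLpNorm (fun ω => √(X n t ω)) q (P n) ≤
        eLpNorm (fun ω => √(X n t ω)) (q * ENNReal.ofReal 2) (P n) :=
      eLpNorm_le_eLpNorm_of_exponent_le (le_mul_of_one_le_right' (by simp))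
        (h.1 n t).sqrt.aestronglyMeasurable
    refine h3.trans ((ENNReal.rpow_le_rpow_iff two_pos).1 ?_)
    rw [← h1]
    refine (h2.trans (hn t ht)).trans (le_of_eq ?_)
    rw [ENNReal.rpow_two, mul_pow, ← ENNReal.coe_pow, NNReal.sq_sqrt, enorm_pow]⟩

theorem oo_sqrt [∀ n, IsProbabilityMeasure (P n)] (h : Oo P A X) :
    Oo P A fun n t ω => √(X n t ω) := by
  obtain ⟨d, hd, h⟩ := h
  refine ⟨fun n => √|d n|, by simpa using hd.abs.sqrt, ob_sqrt (h.mono 1 (.of_forall fun n => ?_))⟩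
  rw [sq_sqrt (abs_nonneg _), abs_abs, one_mul]

theorem oo_of_l1 [∀ n, IsProbabilityMeasure (P n)] (hX : Ob P (rt 0) A X)
    (h : ∀ ε : ℝ≥0∞, 0 < ε → ∀ᶠ n in atTop, ∀ t, A n t → eLpNorm (X n t) 1 (P n) ≤ ε) :
    Oo P A X := by
  refine Oo.of_prob hX fun η hη ε hε => ?_
  have h0 : ENNReal.ofReal η ≠ 0 := by simpa using hη
  filter_upwards [h _ (ENNReal.mul_pos h0 hε.ne')] with n hn t ht
  have h1 := mul_meas_ge_le_lintegral₀ (μ := P n) (hX.meas n t).enorm.aemeasurable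
    (ENNReal.ofReal η)
  have h2 := hn t ht
  rw [eLpNorm_one_eq_lintegral_enorm] at h2
  refine le_trans (measure_mono fun ω hω => ?_)
    ((ENNReal.mul_le_mul_iff_right h0 ENNReal.ofReal_ne_top).1 (h1.trans h2))
  simp only [Set.mem_ofPred_eq] at hω ⊢
  rw [Real.enorm_eq_ofReal_abs]
  exact ENNReal.ofReal_le_ofReal hω.le

end order

/-! ### conditioning on the complement of a row -/

lemma fub {α β : Type*} [MeasurableSpace α] [MeasurableSpace β] (μ : Measure α) (ν : Measure β)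
    [SFinite ν] {G : α × β → ℝ} (hG : Measurable G) {g : α → ℝ} {q : ℝ≥0∞} (hq : q ≠ ∞)
    (h : ∀ a, eLpNorm (fun b => G (a, b)) q ν ≤ ‖g a‖ₑ) :
    eLpNorm G q (μ.prod ν) ≤ eLpNorm g q μ := by
  rcases eq_or_ne q 0 with rfl | h0
  · simp
  have hp : 0 < q.toReal := ENNReal.toReal_pos h0 hq
  rw [eLpNorm_eq_lintegral_rpow_enorm_toReal h0 hq, eLpNorm_eq_lintegral_rpow_enorm_toReal h0 hq,
    lintegral_prod _ (hG.enorm.pow_const _).aemeasurable]
  refine ENNReal.rpow_le_rpow (lintegral_mono fun a => ?_) (by positivity)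
  have h1 := ENNReal.rpow_le_rpow (h a) hp.le
  rwa [eLpNorm_eq_lintegral_rpow_enorm_toReal h0 hq, ← ENNReal.rpow_mul, one_div,
    inv_mul_cancel₀ hp.ne', ENNReal.rpow_one] at h1

/-- a row with the planted means -/
def sh (β ρ : ℝ) (i : Fin n) (x : E n) : Fin n → ℝ := fun l => x l + mn β ρ n s(i, l)

lemma mp_sh (β ρ : ℝ) (i : Fin n) : MeasurePreserving (sh β ρ i) (gam n) (PR β ρ i) := by
  have hm : Measurable (sh β ρ i) := by unfold sh; fun_prop
  refine ⟨hm, ?_⟩
  have hl : Measurable (WithLp.toLp 2 : (Fin n → ℝ) → E n) := by fun_prop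
  have e : ∀ l : Fin n, (gaussianReal 0 1).map (· + mn β ρ n s(i, l)) =
      gaussianReal (mn β ρ n s(i, l)) 1 := fun l => by rw [gaussianReal_map_add_const, zero_add]
  rw [gam, ← map_pi_eq_stdGaussian, Measure.map_map hm hl, PR]
  simp_rw [← e]
  exact Measure.pi_map_pi (μ := fun _ : Fin n => gaussianReal 0 1)
    (f := fun l x => x + mn β ρ n s(i, l)) fun _ => by fun_prop

lemma row_le (β ρ : ℝ) (i : Fin n) {F g : Env n → ℝ} (hF : Measurable F) {q : ℝ≥0∞} (hq : q ≠ ∞)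
    (h : ∀ ω, eLpNorm (fun x => F (rs i ω (sh β ρ i x))) q (gam n) ≤ ‖g ω‖ₑ) :
    eLpNorm F q (PP β ρ n) ≤ eLpNorm g q (PP β ρ n) := by
  have mp := (mp_rs β ρ i).comp ((MeasurePreserving.id (PP β ρ n)).prod (mp_sh β ρ i))
  rw [← eLpNorm_comp_measurePreserving hF.aestronglyMeasurable mp]
  exact fub _ _ (hF.comp mp.measurable) hq h

lemma J_rs (β ρ : ℝ) {i l : Fin n} (h : l ≠ i) (ω : Env n) (x : E n) :
    J (rs i ω (sh β ρ i x)) i l = (x l + β / √n) / √n := by
  rw [J, rs_row, sh, mn, if_neg (by simpa using h.symm)]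

/-! ### Gaussian linear forms -/

/-- moments of the standard Gaussian -/
def kq (q : ℕ) : ℝ := (eLpNorm id q (gaussianReal 0 1)).toReal

lemma kq_nonneg (q : ℕ) : 0 ≤ kq q := ENNReal.toReal_nonneg

lemma kq_eq (q : ℕ) : eLpNorm id q (gaussianReal 0 1) = ENNReal.ofReal (kq q) :=
  (ENNReal.ofReal_toReal (memLp_id_gaussianReal' q (by simp)).2.ne).symm

lemma lin0 (q : ℕ) (S : Finset (Fin n)) (c : Fin n → ℝ) :
    eLpNorm (fun x : E n => ∑ l ∈ S, x l * c l) q (gam n) ≤
      ENNReal.ofReal (kq q * √(∑ l ∈ S, c l ^ 2)) := by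
  classical
  set v : E n := WithLp.toLp 2 fun l => if l ∈ S then c l else 0 with hv
  have hn : ‖v‖ = √(∑ l ∈ S, c l ^ 2) := by
    rw [EuclideanSpace.norm_eq]
    congr 1
    simp [hv, Finset.sum_ite_mem]
  have e : (fun x : E n => ∑ l ∈ S, x l * c l) = id ∘ innerSL ℝ v := by
    funext x
    simp [hv, PiLp.inner_apply, Finset.sum_ite_mem]
  have h1 : (gam n).map (innerSL ℝ v) = (gaussianReal 0 1).map (‖v‖ * ·) := by
    rw [IsGaussian.map_eq_gaussianReal, integral_strongDual_stdGaussian, variance_dual_stdGaussian,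
      gaussianReal_map_const_mul, innerSL_apply_norm, mul_zero, mul_one]
    congr 1
    ext
    simp
  rw [e, ← eLpNorm_map_measure (by fun_prop) (by fun_prop), h1,
    eLpNorm_map_measure (by fun_prop) (by fun_prop)]
  have e2 : (id ∘ fun x : ℝ => ‖v‖ * x) = ‖v‖ • (id : ℝ → ℝ) := rfl
  rw [e2, eLpNorm_const_smul, kq_eq, ENNReal.ofReal_mul (kq_nonneg q), mul_comm, ← hn,
    Real.enorm_eq_ofReal (norm_nonneg _)]

lemma add_const_le {α : Type*} [MeasurableSpace α] {μ : Measure α} [IsProbabilityMeasure μ]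
    {f : α → ℝ} (hf : Measurable f) {q : ℝ≥0∞} (hq : 1 ≤ q) {B c C : ℝ} (hB : 0 ≤ B)
    (h : eLpNorm f q μ ≤ ENNReal.ofReal B) (hc : |c| ≤ C) :
    eLpNorm (fun x => f x + c) q μ ≤ ENNReal.ofReal (B + C) := by
  refine (eLpNorm_add_le (f := f) (g := fun _ => c) hf.aestronglyMeasurable
    aestronglyMeasurable_const hq).trans ?_
  rw [ENNReal.ofReal_add hB ((abs_nonneg _).trans hc)]
  refine add_le_add h ((eLpNorm_le_of_ae_bound (C := C) (.of_forall fun _ => hc)).trans ?_)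
  simp

lemma abs_sum_le (S : Finset (Fin n)) (c : Fin n → ℝ) :
    |∑ l ∈ S, c l| ≤ √n * √(∑ l ∈ S, c l ^ 2) := by
  rw [← sqrt_mul (Nat.cast_nonneg n)]
  refine abs_le_sqrt ((sq_sum_le_card_mul_sum_sq).trans ?_)
  have : (S.card : ℝ) ≤ n := by exact_mod_cast (Finset.card_le_univ S).trans (Fintype.card_fin n).le
  gcongr

lemma lin1 (hn : 0 < n) (β : ℝ) {q : ℕ} (hq : 1 ≤ q) (S : Finset (Fin n)) (c : Fin n → ℝ) :
    eLpNorm (fun x : E n => ∑ l ∈ S, (x l + β / √n) * c l) q (gam n) ≤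
      ENNReal.ofReal ((kq q + |β|) * √(∑ l ∈ S, c l ^ 2)) := by
  have h0 : (0 : ℝ) < √n := sqrt_pos.2 (by exact_mod_cast hn)
  simp_rw [add_mul, Finset.sum_add_distrib]
  refine add_const_le (by fun_prop) (by exact_mod_cast hq) (mul_nonneg (kq_nonneg q) (sqrt_nonneg _))
    (lin0 q S c) ?_
  rw [← Finset.mul_sum, abs_mul, abs_div, abs_of_pos h0]
  refine (mul_le_mul_of_nonneg_left (abs_sum_le S c) (by positivity)).trans (le_of_eq ?_)
  field_simp

/-! ### Gaussian quadratic forms -/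

lemma mom2 (k l : Fin n) : ∫ x : E n, x l * x k ∂(gam n) = if l = k then 1 else 0 := by
  rw [ibp_gam (c1_coord l).c (c1_coord l).g k ((c1_coord l).p k)]
  simp only [pd_coord]
  split_ifs <;> simp

lemma mom4 (k a p q : Fin n) : ∫ x : E n, x a * (x p * x q) * x k ∂(gam n) =
    (if a = k then 1 else 0) * (if p = q then 1 else 0) +
      ((if p = k then 1 else 0) * (if a = q then 1 else 0) +
        (if q = k then 1 else 0) * (if a = p then 1 else 0)) := by
  have hc := (c1_coord a).mul ((c1_coord p).mul (c1_coord q))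
  rw [ibp_gam hc.c hc.g k (hc.p k)]
  have e : ∀ x : E n, pd k (fun x : E n => x a * (x p * x q)) x =
      (if a = k then 1 else 0) * (x p * x q) + ((if p = k then 1 else 0) * (x a * x q) +
        (if q = k then 1 else 0) * (x a * x p)) := by
    intro x
    rw [(c1_coord a).pd_mul ((c1_coord p).mul (c1_coord q)),
      (c1_coord p).pd_mul (c1_coord q), pd_coord, pd_coord, pd_coord]
    ring
  simp_rw [e]
  have i : ∀ p q : Fin n, Integrable (fun x : E n => x p * x q) (gam n) := fun p q =>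
    integrable_of_PG ((c1_coord p).mul (c1_coord q)).cont ((c1_coord p).mul (c1_coord q)).g
  have i4 : Integrable (fun x : E n => (if p = k then (1 : ℝ) else 0) * (x a * x q) +
      (if q = k then (1 : ℝ) else 0) * (x a * x p)) (gam n) :=
    ((i a q).const_mul _).add ((i a p).const_mul _)
  rw [integral_add ((i p q).const_mul _) i4,
    integral_add ((i a q).const_mul _) ((i a p).const_mul _),
    integral_const_mul, integral_const_mul, integral_const_mul, mom2, mom2, mom2]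

/-- centred product -/
def yy (p : Fin n × Fin n) (x : E n) : ℝ := x p.1 * x p.2 - if p.1 = p.2 then 1 else 0

lemma c1_yy (p : Fin n × Fin n) : C1 (yy p) := ((c1_coord p.1).mul (c1_coord p.2)).sub (c1_const _)

lemma int_yy (p r : Fin n × Fin n) : ∫ x, yy p x * yy r x ∂gam n =
    (if r = p then 1 else 0) + if r = p.swap then 1 else 0 := by
  obtain ⟨a, k⟩ := p
  obtain ⟨p, q⟩ := r
  have i : ∀ p q : Fin n, Integrable (fun x : E n => x p * x q) (gam n) := fun p q =>
    integrable_of_PG ((c1_coord p).mul (c1_coord q)).cont ((c1_coord p).mul (c1_coord q)).g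
  have c4 := ((c1_coord a).mul ((c1_coord p).mul (c1_coord q))).mul (c1_coord k)
  have i4 := integrable_of_PG c4.cont c4.g
  have e : ∀ x : E n, yy (a, k) x * yy (p, q) x = x a * (x p * x q) * x k -
      ((if p = q then 1 else 0) * (x a * x k) + ((if a = k then 1 else 0) * (x p * x q) -
        (if a = k then 1 else 0) * (if p = q then 1 else 0))) := fun x => by
    simp only [yy]; ring
  simp_rw [e]
  have j1 : Integrable (fun x : E n => (if a = k then (1 : ℝ) else 0) * (x p * x q) -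
      (if a = k then 1 else 0) * (if p = q then 1 else 0)) (gam n) :=
    ((i p q).const_mul _).sub (integrable_const _)
  have j2 : Integrable (fun x : E n => (if p = q then (1 : ℝ) else 0) * (x a * x k) +
      ((if a = k then (1 : ℝ) else 0) * (x p * x q) -
        (if a = k then 1 else 0) * (if p = q then 1 else 0))) (gam n) :=
    ((i a k).const_mul _).add j1
  rw [integral_sub i4 j2, integral_add ((i a k).const_mul _) j1,
    integral_sub ((i p q).const_mul _) (integrable_const _), integral_const_mul,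
    integral_const_mul, mom4, mom2, mom2, integral_const, probReal_univ, one_smul]
  simp only [Prod.swap, Prod.mk.injEq, ite_and, @eq_comm _ a p, @eq_comm _ a q]
  split_ifs <;> norm_num

lemma quad0 (S : Finset (Fin n)) (M : Fin n × Fin n → ℝ) :
    eLpNorm (fun x : E n => ∑ p ∈ S ×ˢ S, M p * yy p x) 2 (gam n) ≤
      ENNReal.ofReal (2 * √(∑ p ∈ S ×ˢ S, M p ^ 2)) := by
  have hc : C1 fun x : E n => ∑ p ∈ S ×ˢ S, M p * yy p x :=
    C1.sum fun p _ => (c1_const _).mul (c1_yy p)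
  have hi : ∀ p r : Fin n × Fin n, Integrable (fun x => M p * M r * (yy p x * yy r x)) (gam n) :=
    fun p r => (integrable_of_PG ((c1_yy p).mul (c1_yy r)).cont ((c1_yy p).mul (c1_yy r)).g).const_mul _
  have hH : 0 ≤ ∑ p ∈ S ×ˢ S, M p ^ 2 := Finset.sum_nonneg fun _ _ => sq_nonneg _
  have key : ∫ x, (∑ p ∈ S ×ˢ S, M p * yy p x) ^ 2 ∂gam n ≤ 4 * ∑ p ∈ S ×ˢ S, M p ^ 2 := by
    have e : ∀ x : E n, (∑ p ∈ S ×ˢ S, M p * yy p x) ^ 2 =
        ∑ p ∈ S ×ˢ S, ∑ r ∈ S ×ˢ S, M p * M r * (yy p x * yy r x) := fun x => by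
      rw [sq, Finset.sum_mul_sum]
      exact Finset.sum_congr rfl fun _ _ => Finset.sum_congr rfl fun _ _ => by ring
    simp_rw [e]
    rw [integral_finsetSum _ fun p _ => integrable_finsetSum _ fun r _ => hi p r]
    have e2 : ∀ p ∈ S ×ˢ S, ∫ x, ∑ r ∈ S ×ˢ S, M p * M r * (yy p x * yy r x) ∂gam n ≤
        2 * M p ^ 2 + M p.swap ^ 2 := fun p hp => by
      have hp' : p.swap ∈ S ×ˢ S := by
        rw [Finset.mem_product] at hp ⊢; exact ⟨hp.2, hp.1⟩
      rw [integral_finsetSum _ fun r _ => hi p r]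
      simp_rw [integral_const_mul, int_yy, mul_add, Finset.sum_add_distrib, mul_ite, mul_one,
        mul_zero, Finset.sum_ite_eq', if_pos hp, if_pos hp']
      nlinarith [sq_nonneg (M p - M p.swap), sq_nonneg (M p), sq_nonneg (M p.swap)]
    refine (Finset.sum_le_sum e2).trans ?_
    have e3 : ∑ p ∈ S ×ˢ S, M p.swap ^ 2 = ∑ p ∈ S ×ˢ S, M p ^ 2 := by
      rw [Finset.sum_product, Finset.sum_product, Finset.sum_comm]; rfl
    rw [Finset.sum_add_distrib, e3, ← Finset.mul_sum]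
    linarith
  have hm : MemLp (fun x : E n => ∑ p ∈ S ×ˢ S, M p * yy p x) 2 (gam n) :=
    (memLp_two_iff_integrable_sq hc.cont.aestronglyMeasurable).2
      (integrable_of_PG (hc.cont.pow 2) (PG_sq hc.g))
  rw [hm.eLpNorm_eq_integral_rpow_norm two_ne_zero ENNReal.ofNat_ne_top]
  refine ENNReal.ofReal_le_ofReal ?_
  simp only [ENNReal.toReal_ofNat, Real.rpow_two, Real.norm_eq_abs, sq_abs]
  rw [← one_div, ← Real.sqrt_eq_rpow]
  refine (sqrt_le_sqrt key).trans (le_of_eq ?_)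
  rw [sqrt_mul (by norm_num), show (4 : ℝ) = 2 ^ 2 by norm_num, sqrt_sq (by norm_num)]

lemma add_le3 {α : Type*} [MeasurableSpace α] {μ : Measure α} {f g : α → ℝ} (hf : Measurable f)
    (hg : Measurable g) {B C : ℝ} (hB : 0 ≤ B) (hC : 0 ≤ C)
    (h1 : eLpNorm f 2 μ ≤ ENNReal.ofReal B) (h2 : eLpNorm g 2 μ ≤ ENNReal.ofReal C) :
    eLpNorm (fun x => f x + g x) 2 μ ≤ ENNReal.ofReal (B + C) := by
  rw [ENNReal.ofReal_add hB hC]
  exact (eLpNorm_add_le hf.aestronglyMeasurable hg.aestronglyMeasurable one_le_two).trans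
    (add_le_add h1 h2)

lemma marg_le (hn : 0 < n) (β : ℝ) (S : Finset (Fin n)) (M : Fin n → Fin n → ℝ) :
    √(∑ l ∈ S, (β / √n * ∑ k ∈ S, M l k) ^ 2) ≤ |β| * √(∑ l ∈ S, ∑ k ∈ S, M l k ^ 2) := by
  have h0 : (0 : ℝ) < n := by exact_mod_cast hn
  rw [← sqrt_sq_eq_abs, ← sqrt_mul (sq_nonneg _), Finset.mul_sum]
  refine sqrt_le_sqrt (Finset.sum_le_sum fun l _ => ?_)
  have h1 : (S.card : ℝ) ≤ n := by
    exact_mod_cast (Finset.card_le_univ S).trans (Fintype.card_fin n).le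
  have h2 : (∑ k ∈ S, M l k) ^ 2 ≤ n * ∑ k ∈ S, M l k ^ 2 :=
    sq_sum_le_card_mul_sum_sq.trans (by gcongr)
  rw [mul_pow, div_pow, sq_sqrt h0.le]
  refine (mul_le_mul_of_nonneg_left h2 (by positivity)).trans (le_of_eq ?_)
  field_simp

/-- the constant of the quadratic bound -/
def kk (β : ℝ) : ℝ := 2 + kq 2 * |β| + (kq 2 + |β|) * |β|

lemma kk_nonneg (β : ℝ) : 0 ≤ kk β := by have := kq_nonneg 2; unfold kk; positivity

lemma quad1 (hn : 0 < n) (β : ℝ) (S : Finset (Fin n)) (M : Fin n → Fin n → ℝ) :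
    eLpNorm (fun x : E n => ∑ l ∈ S, ∑ k ∈ S, (x l + β / √n) * (x k + β / √n) * M l k -
      ∑ l ∈ S, M l l) 2 (gam n) ≤ ENNReal.ofReal (kk β * √(∑ l ∈ S, ∑ k ∈ S, M l k ^ 2)) := by
  have hk := kq_nonneg 2
  have e : ∀ x : E n, ∑ l ∈ S, ∑ k ∈ S, (x l + β / √n) * (x k + β / √n) * M l k - ∑ l ∈ S, M l l =
      ∑ p ∈ S ×ˢ S, M p.1 p.2 * yy p x + ∑ l ∈ S, x l * (β / √n * ∑ k ∈ S, M l k) +
        ∑ k ∈ S, (x k + β / √n) * (β / √n * ∑ l ∈ S, M l k) := fun x => by
    have e1 : ∑ l ∈ S, M l l = ∑ l ∈ S, ∑ k ∈ S, M l k * if l = k then 1 else 0 :=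
      Finset.sum_congr rfl fun l hl => by simp [hl]
    simp_rw [Finset.mul_sum]
    rw [Finset.sum_product, Finset.sum_comm (f := fun k l => (x k + β / √n) * (β / √n * M l k)),
      e1]
    simp only [← Finset.sum_add_distrib, ← Finset.sum_sub_distrib, yy]
    exact Finset.sum_congr rfl fun _ _ => Finset.sum_congr rfl fun _ _ => by ring
  simp_rw [e]
  have h1 := quad0 S fun p => M p.1 p.2
  have h2 := (lin0 2 S fun l => β / √n * ∑ k ∈ S, M l k).trans
    (ENNReal.ofReal_le_ofReal (mul_le_mul_of_nonneg_left (marg_le hn β S M) hk))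
  have h3 := (lin1 hn β one_le_two S fun k => β / √n * ∑ l ∈ S, M l k).trans
    (ENNReal.ofReal_le_ofReal (mul_le_mul_of_nonneg_left (marg_le hn β S fun k l => M l k)
      (by positivity)))
  rw [Finset.sum_comm (f := fun k l => M l k ^ 2)] at h3
  rw [Finset.sum_product (f := fun p : Fin n × Fin n => M p.1 p.2 ^ 2)] at h1
  have m1 : Measurable fun x : E n => ∑ p ∈ S ×ˢ S, M p.1 p.2 * yy p x := by unfold yy; fun_prop
  refine (add_le3 (m1.add (by fun_prop)) (by fun_prop) (by positivity) (by positivity)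
    (add_le3 m1 (by fun_prop) (by positivity) (by positivity) h1 h2) h3).trans (le_of_eq ?_)
  congr 1
  unfold kk
  ring

lemma entry (β ρ : ℝ) :
    Ob (PP β ρ) (rt 0) (fun n (_ : Fin n × Fin n) => True) fun _ p ω => ω s(p.1, p.2) :=
  ⟨fun _ _ => measurable_pi_apply _, fun q => by
    refine ⟨(kq (q + 1) + (|ρ| + |β|)).toNNReal, (eventually_ge_atTop 1).mono fun n hn p _ => ?_⟩
    set e := s(p.1, p.2)
    have mp : MeasurePreserving (fun ω : Env n => ω e) (PP β ρ n) (gaussianReal (mn β ρ n e) 1) :=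
      measurePreserving_eval (fun e => gaussianReal (mn β ρ n e) 1) e
    have mq : MeasurePreserving (fun x : ℝ => x + mn β ρ n e) (gaussianReal 0 1)
        (gaussianReal (mn β ρ n e) 1) :=
      ⟨by fun_prop, by rw [gaussianReal_map_add_const, zero_add]⟩
    have h1 : |mn β ρ n e| ≤ |ρ| + |β| := by
      unfold mn
      split_ifs
      · linarith [abs_nonneg β]
      · rw [abs_div, abs_of_nonneg (sqrt_nonneg _)]
        linarith [abs_nonneg ρ, div_le_self (abs_nonneg β) (one_le_sqrt_nat hn)]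
    have h2 := add_const_le (μ := gaussianReal 0 1) measurable_id (q := (q + 1 : ℕ)) (by simp)
      (kq_nonneg _) (kq_eq (q + 1)).le h1
    rw [rt_zero, enorm_one, mul_one]
    refine (eLpNorm_le_eLpNorm_of_exponent_le (q := (q + 1 : ℕ)) (by simp)
      (measurable_pi_apply _).aestronglyMeasurable).trans ?_
    have h3 := eLpNorm_comp_measurePreserving (p := (q + 1 : ℕ)) (g := id)
      aestronglyMeasurable_id mp
    have h4 := eLpNorm_comp_measurePreserving (p := (q + 1 : ℕ)) (g := id)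
      aestronglyMeasurable_id mq
    exact h3.trans_le (h4.symm.trans_le h2)⟩

end L49

open L49

theorem linStmt : LinStmt := fun β ρ => by
  refine ⟨entry β ρ, ?_, fun T A a i S w h1 h2 => ?_⟩
  · exact (Ob.mulR (entry β ρ) (Ob.const (a := rt (-1)) (fun n _ => (√n)⁻¹) 1
      (.of_forall fun n _ _ => by rw [rt_neg_one, one_mul]))).congr' fun n p ω => by
        rw [J, div_eq_mul_inv]
  have hm : ∀ n t, Measurable fun ω => ∑ l ∈ S n t, J ω (i n t) l * w n t l ω := fun n t =>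
    Finset.measurable_sum _ fun l _ => (measurable_J _ _).mul (h2.1 n (t, l))
  have hg := ob_sqrt (Ob.avg (Z := fun n t l ω => w n t l ω ^ 2) S (h2.pow 2))
  refine ⟨hm, fun q => ?_⟩
  obtain ⟨C, hC⟩ := (hg.smul (kq (q + 1) + |β|)).2 (q + 1)
  refine ⟨C, (hC.and (eventually_gt_atTop 0)).mono fun n hn t ht => ?_⟩
  refine (eLpNorm_le_eLpNorm_of_exponent_le (q := (q + 1 : ℕ)) (by simp)
    (hm n t).aestronglyMeasurable).trans (le_trans ?_ (hn.1 t ht))
  refine row_le β ρ (i n t) (hm n t) (by simp) fun ω => ?_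
  have h0 : (0 : ℝ) < n := by exact_mod_cast hn.2
  have e : ∀ x : E n, ∑ l ∈ S n t, J (rs (i n t) ω (sh β ρ (i n t) x)) (i n t) l *
      w n t l (rs (i n t) ω (sh β ρ (i n t) x)) =
      ∑ l ∈ S n t, (x l + β / √n) * (w n t l ω / √n) := fun x =>
    Finset.sum_congr rfl fun l hl => by
      rw [J_rs β ρ (ne_of_mem_of_not_mem hl (h1 n t ht).1), ((h1 n t ht).2 l hl).rs]; ring
  simp_rw [e]
  refine (lin1 hn.2 β (by omega) _ _).trans ?_
  simp_rw [div_pow, sq_sqrt h0.le, ← Finset.sum_div]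
  exact Real.ofReal_le_enorm _

theorem quadStmt : QuadStmt := fun β ρ T A i S M h1 h2 h3 h4 => by
  classical
  have hF := h4.sub (Ob.avg (Z := fun n t l => M n t l l) S h2)
  have o1 : Oo (PP β ρ) (fun n (p : (T n × Fin n) × Fin n) => (A n p.1.1 ∧ p.1.2 ∈ S n p.1.1) ∧
      p.2 ∈ (S n p.1.1).erase p.1.2) fun n p ω => M n p.1.1 p.1.2 p.2 ω :=
    h3.reindex (T' := fun n => (T n × Fin n) × Fin n) (fun n p => (p.1.1, p.1.2, p.2)) fun n p h =>
      ⟨h.1.1, h.1.2, (Finset.mem_erase.1 h.2).2, (Finset.mem_erase.1 h.2).1.symm⟩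
  have o2 := Oo.avg (A := fun n (p : T n × Fin n) => A n p.1 ∧ p.2 ∈ S n p.1)
    (Z := fun n (p : T n × Fin n) k ω => M n p.1 p.2 k ω * M n p.1 p.2 k ω)
    (fun n p => (S n p.1).erase p.2) (o1.mul_ob o1.ob)
  have o3 : Oo (PP β ρ) (fun n (p : T n × Fin n) => A n p.1 ∧ p.2 ∈ S n p.1)
      fun n p ω => M n p.1 p.2 p.2 ω ^ 2 * (n : ℝ)⁻¹ :=
    Oo.ob_mul (h2.pow0 2) (Oo.det (fun n _ => (n : ℝ)⁻¹) tendsto_inv_atTop_nhds_zero_nat
      (.of_forall fun n _ _ => (abs_of_nonneg (by positivity)).le))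
  have o4 := (oo_sqrt (Oo.avg (Z := fun n t l ω => (∑ k ∈ (S n t).erase l,
    M n t l k ω * M n t l k ω) / n + M n t l l ω ^ 2 * (n : ℝ)⁻¹) S (o2.add o3))).smul (kk β)
  refine oo_of_l1 hF fun ε hε => ?_
  filter_upwards [o4.small 2 hε, eventually_gt_atTop 0] with n hn hn0 t ht
  refine (eLpNorm_le_eLpNorm_of_exponent_le one_le_two
    (hF.1 n t).aestronglyMeasurable).trans (le_trans ?_ (hn t ht))
  refine row_le β ρ (i n t) (hF.1 n t) (by simp) fun ω => ?_
  have h0 : (0 : ℝ) < n := by exact_mod_cast hn0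
  have hs : √(n : ℝ) * √n = n := mul_self_sqrt h0.le
  have hi : ∀ l ∈ S n t, l ≠ i n t := fun l hl e => (h1 n t ht).1 (e ▸ hl)
  have e : (fun x : E n => ∑ l ∈ S n t, ∑ k ∈ S n t, J (rs (i n t) ω (sh β ρ (i n t) x)) (i n t) l *
      J (rs (i n t) ω (sh β ρ (i n t) x)) (i n t) k * M n t l k (rs (i n t) ω (sh β ρ (i n t) x)) -
      (∑ l ∈ S n t, M n t l l (rs (i n t) ω (sh β ρ (i n t) x))) / n) =
      (n : ℝ)⁻¹ • fun x : E n => ∑ l ∈ S n t, ∑ k ∈ S n t,
        (x l + β / √n) * (x k + β / √n) * M n t l k ω - ∑ l ∈ S n t, M n t l l ω := by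
    funext x
    rw [Pi.smul_apply, smul_eq_mul, mul_sub, Finset.mul_sum, Finset.mul_sum, Finset.sum_div]
    congr 1
    · refine Finset.sum_congr rfl fun l hl => ?_
      rw [Finset.mul_sum]
      refine Finset.sum_congr rfl fun k hk => ?_
      rw [J_rs β ρ (hi l hl), J_rs β ρ (hi k hk), ((h1 n t ht).2 l hl k hk).rs, div_mul_div_comm, hs]
      ring
    · refine Finset.sum_congr rfl fun l hl => ?_
      rw [((h1 n t ht).2 l hl l hl).rs]
      ring
  have e2 : (∑ l ∈ S n t, ((∑ k ∈ (S n t).erase l, M n t l k ω * M n t l k ω) / n +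
      M n t l l ω ^ 2 * (n : ℝ)⁻¹)) / n =
      (n : ℝ)⁻¹ ^ 2 * ∑ l ∈ S n t, ∑ k ∈ S n t, M n t l k ω ^ 2 := by
    rw [Finset.sum_div, Finset.mul_sum]
    refine Finset.sum_congr rfl fun l hl => ?_
    rw [← Finset.sum_erase_add _ _ hl]
    simp only [sq]
    ring
  beta_reduce
  rw [e, eLpNorm_const_smul, e2, sqrt_mul (sq_nonneg _), sqrt_sq (by positivity),
    mul_left_comm, enorm_mul]
  exact mul_le_mul_right ((quad1 hn0 β _ _).trans (Real.ofReal_le_enorm _)) _

theorem linGlue : LinGlue := fun _ => linStmt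

theorem quadGlue : QuadGlue := fun _ => quadStmt

end Crest.Agent.T157.Rn

end
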