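import Crest.Agent.T157.RnDef_60

/-!
# Row 157, block B/R (helper6): the law of large numbers for self-avoiding fields
-/

set_option autoImplicit false

noncomputable section

namespace Crest.Agent.T157.Rn.Lln6

open MeasureTheory ProbabilityTheory Real Matrix Filter Topology
open Crest.Agent.R238.Gap Crest.Agent.R238.GapPc Crest.Agent.R253.Meh74
open Crest.Agent.T157.E (Cube gv)
open Crest.Agent.T157.Tw
open Crest.Agent.T157.Pl (one)
open scoped NNReal ENNReal

section order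
variable {Ω : ℕ → Type} [∀ n, MeasurableSpace (Ω n)] {T T' : ℕ → Type} {P : ∀ n, Measure (Ω n)}
  {A : ∀ n, T n → Prop} {X Y : ∀ n, T n → Ω n → ℝ} {a : ℕ → ℝ}

/-- eventually bounded by `r` in `L^q` -/
def Bd (P : ∀ n, Measure (Ω n)) (q : ℕ) (A : ∀ n, T n → Prop) (X : ∀ n, T n → Ω n → ℝ) (r : ℝ) :
    Prop := ∀ᶠ n in atTop, ∀ t, A n t → eLpNorm (X n t) q (P n) ≤ ENNReal.ofReal r

/-- `ε`-characterisation of `Oo` -/
theorem oo_iff : Oo P A X ↔ (∀ n t, Measurable (X n t)) ∧ ∀ q r, 0 < r → Bd P q A X r := by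
  constructor
  · rintro ⟨d, hd, hm, h⟩
    refine ⟨hm, fun q ε hε => ?_⟩
    obtain ⟨C, hC⟩ := h q
    have h1 : Tendsto (fun n => ‖d n‖ₑ) atTop (𝓝 0) := by simpa using hd.enorm
    have : Tendsto (fun n => (C : ℝ≥0∞) * ‖d n‖ₑ) atTop (𝓝 0) := by
      simpa using ENNReal.Tendsto.const_mul h1 (Or.inr ENNReal.coe_ne_top)
    filter_upwards [hC, this.eventually (ge_mem_nhds (ENNReal.ofReal_pos.2 hε))] with n h1 h2 t ht
      using (h1 t ht).trans h2
  · rintro ⟨hm, h⟩
    classical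
    let p : ℕ → ℕ → Prop := fun n k => ∀ q ∈ Set.Iic k, ∀ t, A n t →
      eLpNorm (X n t) q (P n) ≤ ENNReal.ofReal (1 / ((k : ℝ) + 1))
    have hp : ∀ k, ∀ᶠ n in atTop, p n k := fun k =>
      (eventually_all_finite (Set.finite_Iic k)).2 fun q _ => h q _ (by positivity)
    have hK : ∀ k, ∀ᶠ n in atTop,
        k ≤ Nat.findGreatest (p n) n ∧ p n (Nat.findGreatest (p n) n) := fun k => by
      filter_upwards [hp k, eventually_ge_atTop k] with n h1 h2
      exact ⟨Nat.le_findGreatest h2 h1, Nat.findGreatest_spec h2 h1⟩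
    refine ⟨fun n => 1 / ((Nat.findGreatest (p n) n : ℝ) + 1),
      tendsto_one_div_add_atTop_nhds_zero_nat.comp
        (tendsto_atTop.2 fun k => (hK k).mono fun _ h => h.1), hm,
      fun q => ⟨1, (hK q).mono fun n h1 t ht => ?_⟩⟩
    rw [Real.enorm_eq_ofReal (by positivity), ENNReal.coe_one, one_mul]
    exact h1.2 q h1.1 t ht

lemma ob_re {A' : ∀ n, T' n → Prop} (h : Ob P a A X) (r : ∀ n, T' n → T n)
    (hA : ∀ n t, A' n t → A n (r n t)) : Ob P a A' fun n t => X n (r n t) :=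
  ⟨fun n _ => h.1 n _, fun q => (h.2 q).imp fun _ hC => hC.mono fun n h1 t ht => h1 _ (hA n t ht)⟩

lemma oo_re {A' : ∀ n, T' n → Prop} (h : Oo P A X) (r : ∀ n, T' n → T n)
    (hA : ∀ n t, A' n t → A n (r n t)) : Oo P A' fun n t => X n (r n t) :=
  h.imp fun _ hd => ⟨hd.1, ob_re hd.2 r hA⟩

lemma bd_add {q : ℕ} {r s : ℝ} (hr : 0 ≤ r) (hs : 0 ≤ s) (mX : ∀ n t, Measurable (X n t))
    (mY : ∀ n t, Measurable (Y n t)) (hX : Bd P q A X r) (hY : Bd P q A Y s) :
    Bd P q A (fun n t ω => X n t ω + Y n t ω) (r + s) := by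
  filter_upwards [hX, hY] with n h1 h2 t ht
  rcases q.eq_zero_or_pos with rfl | hq
  · simp
  rw [ENNReal.ofReal_add hr hs]
  exact (eLpNorm_add_le (mX n t).aestronglyMeasurable (mY n t).aestronglyMeasurable
    (by exact_mod_cast hq)).trans (add_le_add (h1 t ht) (h2 t ht))

lemma bd_smul {q : ℕ} {r c : ℝ} (hc : 0 ≤ c) (hX : Bd P q A X r) :
    Bd P q A (fun n t ω => c * X n t ω) (c * r) := by
  filter_upwards [hX] with n h1 t ht
  rw [ENNReal.ofReal_mul hc, ← Real.enorm_eq_ofReal hc]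
  exact (eLpNorm_const_smul_le (c := c) (f := X n t)).trans (by gcongr; exact h1 t ht)

lemma bd_dom {q : ℕ} {r : ℝ} (hY : Bd P q A Y r)
    (h : ∀ᶠ n in atTop, ∀ t, A n t → ∀ ω, |X n t ω| ≤ |Y n t ω|) : Bd P q A X r := by
  filter_upwards [hY, h] with n h1 h2 t ht
  exact (eLpNorm_mono (h2 t ht)).trans (h1 t ht)

lemma bd_det [∀ n, IsProbabilityMeasure (P n)] {q : ℕ} {r : ℝ}
    (h : ∀ᶠ n in atTop, ∀ t, A n t → ∀ ω, |X n t ω| ≤ r) : Bd P q A X r := by
  filter_upwards [h] with n h1 t ht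
  simpa using eLpNorm_le_of_ae_bound (p := q) (μ := P n) (.of_forall (h1 t ht))

lemma bd_sq {q : ℕ} (h : Ob P (rt 0) A X) : ∃ C : ℝ, 0 ≤ C ∧ Bd P q A (fun n t ω => X n t ω ^ 2) C := by
  obtain ⟨C, hC⟩ := h.2 (q * 2)
  refine ⟨(C : ℝ) ^ 2, by positivity, hC.mono fun n h1 t ht => ?_⟩
  have e := eLpNorm_norm_rpow (p := q) (μ := P n) (X n t) two_pos
  simp only [Real.rpow_two, Real.norm_eq_abs, sq_abs, ENNReal.ofReal_ofNat] at e
  have h2 := h1 t ht
  simp only [rt, zpow_zero, enorm_one, mul_one, Nat.cast_mul, Nat.cast_ofNat] at h2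
  rw [e, ENNReal.ofReal_pow C.coe_nonneg, ENNReal.ofReal_coe_nnreal, ENNReal.rpow_two]
  gcongr

lemma oo_add (hX : Oo P A X) (hY : Oo P A Y) : Oo P A fun n t ω => X n t ω + Y n t ω := by
  rw [oo_iff] at *
  refine ⟨fun n t => (hX.1 n t).add (hY.1 n t), fun q r hr => ?_⟩
  have := bd_add (by positivity) (by positivity) hX.1 hY.1 (hX.2 q (r / 2) (by positivity))
    (hY.2 q (r / 2) (by positivity))
  rwa [add_halves] at this

lemma oo_abs (hX : Oo P A X) : Oo P A fun n t ω => |X n t ω| := by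
  rw [oo_iff] at *
  exact ⟨fun n t => (hX.1 n t).abs, fun q r hr =>
    bd_dom (hX.2 q r hr) (.of_forall fun _ _ _ _ => (abs_abs _).le)⟩

lemma oo_fsum {κ : Type} (s : Finset κ) {X : κ → ∀ n, T n → Ω n → ℝ} (h : ∀ j, Oo P A (X j)) :
    Oo P A fun n t ω => ∑ j ∈ s, X j n t ω := by
  classical
  induction s using Finset.induction_on with
  | empty => exact oo_iff.2 ⟨fun _ _ => by simp, fun q r _ => .of_forall fun _ _ _ => by simp⟩
  | insert j s hj ih => simpa only [Finset.sum_insert hj] using oo_add (h j) ih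

lemma oo_avg {S : ∀ n, T n → Finset (Fin n)} {X : ∀ n, T n × Fin n → Ω n → ℝ}
    (h : Oo P (fun n (p : T n × Fin n) => A n p.1 ∧ p.2 ∈ S n p.1) X) :
    Oo P A fun n t ω => (∑ l ∈ S n t, X n (t, l) ω) / n := by
  rw [oo_iff] at *
  refine ⟨fun n t => (Finset.measurable_sum _ fun l _ => h.1 n _).div_const _, fun q r hr => ?_⟩
  filter_upwards [h.2 q r hr, eventually_gt_atTop 0] with n h1 hn t ht
  rcases q.eq_zero_or_pos with rfl | hq
  · simp
  have n0 : (0 : ℝ) < n := by exact_mod_cast hn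
  have e : (fun ω => (∑ l ∈ S n t, X n (t, l) ω) / n) =
      ((n : ℝ)⁻¹) • ∑ l ∈ S n t, X n (t, l) := by
    funext ω; simp [div_eq_inv_mul]
  rw [e]
  refine eLpNorm_const_smul_le.trans ?_
  have h2 := (eLpNorm_sum_le (μ := P n) (p := q) (f := fun l => X n (t, l)) (s := S n t)
    (fun l _ => (h.1 n _).aestronglyMeasurable) (by exact_mod_cast hq)).trans
    (Finset.sum_le_card_nsmul _ _ _ fun l hl => h1 (t, l) ⟨ht, hl⟩)
  have h3 : ((S n t).card : ℝ) ≤ n := by
    exact_mod_cast (Finset.card_le_univ _).trans_eq (Fintype.card_fin n)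
  refine (mul_le_mul_right h2 _).trans ?_
  rw [nsmul_eq_mul, Real.enorm_eq_ofReal (by positivity), ← ENNReal.ofReal_natCast,
    ← ENNReal.ofReal_mul (by positivity), ← ENNReal.ofReal_mul (by positivity)]
  refine ENNReal.ofReal_le_ofReal ?_
  rw [inv_mul_le_iff₀ n0]
  gcongr

lemma oo_imp [∀ n, IsProbabilityMeasure (P n)] (hX : Ob P (rt 0) A X) (c : ℝ) (hY : Oo P A Y)
    (h : ∀ ε > (0 : ℝ), ∃ δ > (0 : ℝ), ∀ n t ω, A n t → |Y n t ω| ≤ δ → |X n t ω - c| ≤ ε) :
    Oo P A fun n t ω => X n t ω - c := by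
  rw [oo_iff] at *
  refine ⟨fun n t => (hX.1 n t).sub_const c, fun q r hr => ?_⟩
  obtain ⟨C, C0, hC⟩ := bd_sq (q := q) hX
  obtain ⟨δ, δ0, hδ⟩ := h (r / 3) (by positivity)
  set η := r / 3 / (C + 1) with hη
  have η0 : 0 < η := by positivity
  set M := (1 / η + |c|) / δ with hM
  have M0 : 0 < M := by positivity
  have b1 : Bd P q A (fun _ _ _ => r / 3) (r / 3) :=
    bd_det (.of_forall fun _ _ _ _ => (abs_of_pos (by positivity)).le)
  have b2 := bd_smul η0.le hC
  have b3 := bd_smul M0.le (bd_dom (X := fun n t ω => |Y n t ω|)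
    (hY.2 q (r / 3 / M) (by positivity)) (.of_forall fun _ _ _ _ => (abs_abs _).le))
  have m2 : ∀ n t, Measurable fun ω => η * X n t ω ^ 2 := fun n t =>
    ((hX.1 n t).pow_const 2).const_mul η
  have b4 := bd_add (by positivity) (by positivity)
    (fun n t => measurable_const.add (m2 n t)) (fun n t => (hY.1 n t).abs.const_mul M)
    (bd_add (by positivity) (by positivity) (fun _ _ => measurable_const) m2 b1 b2) b3
  have b5 := bd_dom (X := fun n t ω => X n t ω - c) b4 (.of_forall fun n t ht ω => by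
    refine le_trans ?_ (le_abs_self _)
    simp only [Pi.add_apply]
    have p1 : 0 ≤ η * X n t ω ^ 2 := by positivity
    have p2 : 0 ≤ M * |Y n t ω| := by positivity
    rcases le_or_gt |Y n t ω| δ with h1 | h1
    · linarith [hδ n t ω ht h1]
    · have p3 : 1 / η + |c| ≤ M * |Y n t ω| := by
        rw [hM, div_mul_eq_mul_div, le_div_iff₀ δ0]; gcongr
      have p4 : |X n t ω| ≤ η * X n t ω ^ 2 + 1 / η := by
        have e : η * (1 / η) = 1 := by field_simp
        rw [← sq_abs]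
        refine le_of_mul_le_mul_left ?_ η0
        nlinarith [sq_nonneg (η * |X n t ω| - 1)]
      linarith [abs_sub (X n t ω) c])
  refine b5.mono fun n h1 t ht => (h1 t ht).trans (ENNReal.ofReal_le_ofReal ?_)
  have e1 : M * (r / 3 / M) = r / 3 := by field_simp
  have e2 : η * C ≤ r / 3 := by
    rw [hη, div_mul_eq_mul_div, div_le_iff₀ (by positivity)]; nlinarith
  linarith

end order

variable {n m : ℕ}

lemma rs_row (l k : Fin n) (ω : Env n) (z : Fin n → ℝ) : rs l ω z s(l, k) = z k :=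
  (show Function.Injective fun k : Fin n => s(l, k) from
    fun _ _ h => Sym2.congr_right.1 h).extend_apply z ω k

lemma rs_off {l : Fin n} {e : Sym2 (Fin n)} (h : l ∉ e) (ω : Env n) (z : Fin n → ℝ) :
    rs l ω z e = ω e :=
  Function.extend_apply' z ω e fun ⟨_, hk⟩ => h (hk ▸ Sym2.mem_mk_left _ _)

lemma net_ri {β ρ : ℝ} {u : Fm m} (h : Net β ρ u) {I : Finset (Fin n)} {k l : Fin n}
    (hl : l ∈ I.erase k) (σ : Cube n) : RI k (u n (I.erase k) l σ) := fun ω ω' hω =>
  h.loc n _ l σ σ ω ω' hl (fun _ _ => rfl) fun a ha b hb _ => hω _ fun hk => by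
    rcases Sym2.mem_iff.1 hk with rfl | rfl
    · exact Finset.notMem_erase _ _ ha
    · exact Finset.notMem_erase _ _ hb

/-- the coefficients of row `l` -/
def WW (c : Fin m → ℝ) (S : Finset (Fin n)) (l : Fin n) (v : Fin n → E m) :
    Matrix (Fin m) (Fin n) ℝ := fun a k => if k = l then c a else if k ∈ S then v k a / √n else 0

lemma sum_WW (c : Fin m → ℝ) {S : Finset (Fin n)} {l : Fin n} (hl : l ∉ S) (v : Fin n → E m)
    (a : Fin m) (g : Fin n → ℝ) :
    ∑ k, WW c S l v a k * g k = c a * g l + ∑ k ∈ S, v k a / √n * g k := by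
  have e : ∀ k, WW c S l v a k * g k =
      (if k = l then c a * g k else 0) + if k ∈ S then v k a / √n * g k else 0 := fun k => by
    unfold WW
    by_cases h : k = l
    · simp [h, hl]
    · by_cases h' : k ∈ S <;> simp [h, h']
  simp only [e, Finset.sum_add_distrib, Finset.sum_ite_eq', Finset.mem_univ, if_true,
    Finset.sum_ite_mem, Finset.univ_inter]

lemma sqrt_div (n : ℕ) (x y : ℝ) : x / √n * (y / √n) = x * y / n := by
  rw [div_mul_div_comm, Real.mul_self_sqrt (Nat.cast_nonneg n)]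

lemma WW_gram (c : Fin m → ℝ) {S : Finset (Fin n)} {l : Fin n} (hl : l ∉ S) (v : Fin n → E m)
    (a a' : Fin m) :
    (WW c S l v * (WW c S l v)ᵀ) a a' = (∑ k ∈ S, v k a * v k a') / n + c a * c a' := by
  rw [Matrix.mul_apply]
  simp only [transpose_apply]
  rw [sum_WW c hl, add_comm, Finset.sum_div]
  congr 1
  · refine Finset.sum_congr rfl fun k hk => ?_
    have : k ≠ l := fun h => hl (h ▸ hk)
    simp only [WW, if_neg this, if_pos hk, sqrt_div n]
  · simp [WW]

/-- the row average of a function of the field is a Gaussian integral -/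
lemma Ei_eq {β ρ : ℝ} {u : Fm m} (h : Net β ρ u) (c : Fin m → ℝ) (φ : E m → ℝ) (I : Finset (Fin n))
    (l : Fin n) (σ : Cube n) (ω : Env n) :
    Ei β ρ l (fun ω => φ (fieldOf c u n I l σ ω)) ω =
      ∫ z, φ (WithLp.toLp 2 (WW c (I.erase l) l (fun k => u n (I.erase l) k σ ω) *ᵥ z) +
        WithLp.toLp 2 fun a => β * ((∑ k ∈ I.erase l, u n (I.erase l) k σ ω a) / n) + ρ * c a)
        ∂gv (Fin n) := by
  have e : PR β ρ l = Pl.tilted false fun k => mn β ρ n s(l, k) := by
    simp only [PR, Pl.tilted, Pl.tl_false]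
  rw [Ei, e, Pl.integral_tilted_false]
  congr 1
  funext z
  congr 1
  ext a
  have hl := Finset.notMem_erase l I
  simp only [fieldOf, PiLp.add_apply, mulVec, dotProduct, sum_WW c hl, J, rs_row, Pi.add_apply]
  have e1 : mn β ρ n s(l, l) = ρ := by simp [mn]
  have e2 : ∑ k ∈ I.erase l, (z k + mn β ρ n s(l, k)) / √n *
      u n (I.erase l) k σ (rs l ω (z + fun k => mn β ρ n s(l, k))) a =
      ∑ k ∈ I.erase l, (u n (I.erase l) k σ ω a / √n * z k +
        β * (u n (I.erase l) k σ ω a / n)) := by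
    refine Finset.sum_congr rfl fun k hk => ?_
    have e3 : mn β ρ n s(l, k) = β / √n := by
      simp [mn, (Finset.ne_of_mem_erase hk).symm]
    rw [net_ri h hk σ _ ω fun e he => rs_off he _ _, e3]
    have := sqrt_div n β (u n (I.erase l) k σ ω a)
    rw [mul_div_assoc] at this
    rw [← this]
    ring
  rw [e1, e2, Finset.sum_add_distrib, ← Finset.mul_sum, ← Finset.sum_div]
  ring

lemma tendsto_rt : Tendsto (rt (-1)) atTop (𝓝 0) := by
  have : rt (-1) = fun n : ℕ => (√(n : ℝ))⁻¹ := by funext n; simp [rt]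
  rw [this]
  exact tendsto_inv_atTop_zero.comp (Real.tendsto_sqrt_atTop.comp tendsto_natCast_atTop_atTop)

theorem lln : LlnGlue := by
  intro hC hG hT hS h0 β ρ b c u h1 φ hφ N
  have hX := (h0 β ρ b c u h1).net
  set Ψ := ∫ z, φ (z + b.v) ∂gam b.m with hΨ
  have hB : ∀ {T : ℕ → Type} (A : ∀ n, T n → Prop) (I : ∀ n, T n → Finset (Fin n))
      (l : ∀ n, T n → Fin n) a, Ob (PP β ρ) (rt 0) A
        fun n t ω => fieldOf c u n (I n t) (l n t) (one n) ω a := fun A I l a =>
    ob_re (hX.B a) (fun n t => ⟨I n t, one n, l n t, l n t, l n t⟩) fun _ _ _ => trivial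
  have b0 : Ob (PP β ρ) (rt 0) (fun n (p : Ix n × Fin n) => Big N p.1.I ∧ p.2 ∈ p.1.I)
      fun n p ω => φ (fieldOf c u n p.1.I p.2 (one n) ω) :=
    (hT β ρ _ _ _ φ _ (hB _ (fun n (p : Ix n × Fin n) => p.1.I) fun n p => p.2)).1
      (hS.mono _ _ _ hφ)
  have hA := (hC β ρ Ix fun n t => Big N t.I).2 (fun n t => t.I)
    (fun n t l ω => φ (fieldOf c u n t.I l (one n) ω))
    (fun n t l k ω => φ (fieldOf c u n (t.I.erase k) l (one n) ω)) b0
    (fun n t _ l hl k _ hlk ω ω' hω =>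
      congrArg φ (net_ri hX (Finset.mem_erase.2 ⟨hlk, hl⟩) (one n) ω ω' hω))
    ⟨rt (-1), tendsto_rt, ((hT β ρ _ _ _ φ _
      (hB _ (fun n (p : Ix n × Fin n × Fin n) => p.1.I.erase p.2.2) fun n p => p.2.1)).2 _ _
      (hB _ (fun n (p : Ix n × Fin n × Fin n) => p.1.I) fun n p => p.2.1)
      fun a => ob_re (A' := fun n (p : Ix n × Fin n × Fin n) =>
          Big N p.1.I ∧ p.2.1 ∈ p.1.I ∧ p.2.2 ∈ p.1.I ∧ p.2.1 ≠ p.2.2) (hX.D a)
        (fun n p => ⟨p.1.I, one n, p.2.1, p.2.2, p.2.2⟩) fun _ _ h => h.2.2.2.symm).1 hφ⟩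
  have hE := (hC β ρ _ _).1 _ (fun n (p : Ix n × Fin n) => p.2) _ b0
  have big : ∀ n (p : Ix n × Fin n), Big N p.1.I ∧ p.2 ∈ p.1.I → Big (N + 1) (p.1.I.erase p.2) :=
    fun n p h => by
      have := Finset.pred_card_le_card_erase (s := p.1.I) (a := p.2)
      have := h.1
      unfold Big at *
      omega
  have hY := oo_add
    (oo_fsum Finset.univ fun a => oo_fsum Finset.univ fun a' => oo_abs (oo_re (h1.gram a a' (N + 1))
      (fun n (p : Ix n × Fin n) => ⟨p.1.I.erase p.2, one n, p.2, p.2, p.2⟩) big))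
    (oo_fsum Finset.univ fun a => oo_abs (oo_re (h1.mean a (N + 1))
      (fun n (p : Ix n × Fin n) => ⟨p.1.I.erase p.2, one n, p.2, p.2, p.2⟩) big))
  have hI := oo_avg (A := fun n (t : Ix n) => Big N t.I) (S := fun n t => t.I)
      (oo_imp hE Ψ hY fun ε hε => by
    obtain ⟨δ, δ0, hδ⟩ := hG b.m φ hφ b.v ε hε
    refine ⟨δ, δ0, fun n p ω _ h => ?_⟩
    replace h := (le_abs_self _).trans h
    rw [Ei_eq h1.net]
    refine hδ n _ _ (fun a => le_trans ?_ h) fun a a' => le_trans ?_ h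
    · refine le_add_of_nonneg_of_le (by positivity) ?_
      exact Finset.single_le_sum (f := fun a => |β * ((∑ l ∈ p.1.I.erase p.2,
        u n (p.1.I.erase p.2) l (one n) ω a) / n) + ρ * c a - b.g a|) (fun _ _ => abs_nonneg _)
        (Finset.mem_univ a)
    · refine le_add_of_le_of_nonneg ?_ (by positivity)
      rw [WW_gram c (Finset.notMem_erase _ _)]
      refine le_trans ?_ (Finset.single_le_sum (fun _ _ => by positivity) (Finset.mem_univ a))
      exact Finset.single_le_sum (f := fun a' => |(∑ l ∈ p.1.I.erase p.2,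
        u n (p.1.I.erase p.2) l (one n) ω a * u n (p.1.I.erase p.2) l (one n) ω a') / n +
          c a * c a' - if a = a' then 1 else 0|) (fun _ _ => abs_nonneg _) (Finset.mem_univ a'))
  have hD : Oo (PP β ρ) (fun n (t : Ix n) => Big N t.I)
      fun n t _ => Ψ * ((t.I.card : ℝ) / n - 1) := by
    refine oo_iff.2 ⟨fun _ _ => measurable_const, fun q r hr => bd_det ?_⟩
    filter_upwards [(tendsto_const_div_atTop_nhds_zero_nat (|Ψ| * N)).eventually
      (ge_mem_nhds hr), eventually_gt_atTop 0] with n h2 hn t ht _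
    have n0 : (0 : ℝ) < n := by exact_mod_cast hn
    have h3 : (t.I.card : ℝ) ≤ n := by
      exact_mod_cast (Finset.card_le_univ _).trans_eq (Fintype.card_fin n)
    have h4 : (n : ℝ) ≤ t.I.card + N := by exact_mod_cast ht
    refine le_trans ?_ h2
    rw [abs_mul, mul_div_assoc, div_sub_one n0.ne', abs_div, abs_of_pos n0]
    gcongr
    exact abs_le.2 ⟨by linarith, by linarith⟩
  convert oo_add (oo_add hA hI) hD using 4 with n t ω
  simp only [Finset.sum_sub_distrib, Finset.sum_const, nsmul_eq_mul]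
  ring

end Crest.Agent.T157.Rn.Lln6

namespace Crest.Agent.T157.Rn

theorem llnGlue : LlnGlue := Lln6.lln

end Crest.Agent.T157.Rn

end
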