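import Crest.Agent.T157.RnDef_60

/-!
# Row 157, block B/R (helper60): the order calculus `Ob`, `Oo`; resampling of a row
-/

set_option autoImplicit false

noncomputable section

namespace Crest.Agent.T157.Rn

open MeasureTheory ProbabilityTheory Real Filter Topology
open Crest.ProbabilityR.SpinGlassDynamics
open scoped NNReal ENNReal

section order
variable {Ω : ℕ → Type} [∀ n, MeasurableSpace (Ω n)] {T T' : ℕ → Type} {P : ∀ n, Measure (Ω n)}
  {a b d : ℕ → ℝ} {A B : ∀ n, T n → Prop} {A' : ∀ n, T' n → Prop} {X Y : ∀ n, T n → Ω n → ℝ}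
  {p q s : ℤ}

theorem Ob.meas (h : Ob P a A X) (n : ℕ) (t : T n) : Measurable (X n t) := h.1 n t

theorem Ob.reindex (h : Ob P a A X) (r : ∀ n, T' n → T n) (hA : ∀ n t, A' n t → A n (r n t)) :
    Ob P a A' fun n t => X n (r n t) :=
  ⟨fun n _ => h.1 n _, fun q => (h.2 q).imp fun _ hC => hC.mono fun n hn t ht => hn _ (hA n t ht)⟩

theorem Ob.restrict (h : Ob P a A X) (hA : ∀ n t, B n t → A n t) : Ob P a B X :=
  h.reindex (fun _ t => t) hA

theorem Ob.dom (h : Ob P a A X) (hm : ∀ n t, Measurable (Y n t))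
    (hd : ∀ᶠ n in atTop, ∀ t, A n t → ∀ ω, |Y n t ω| ≤ |X n t ω|) : Ob P a A Y :=
  ⟨hm, fun q => (h.2 q).imp fun _ hC => (hC.and hd).mono fun _ hn t ht =>
    (eLpNorm_mono (hn.2 t ht)).trans (hn.1 t ht)⟩

/-- domination by a (nonnegative) bound -/
theorem Ob.of_le (h : Ob P a A X) (hm : ∀ n t, Measurable (Y n t))
    (hd : ∀ᶠ n in atTop, ∀ t, A n t → ∀ ω, |Y n t ω| ≤ X n t ω) : Ob P a A Y :=
  h.dom hm (hd.mono fun _ hn t ht ω => (hn t ht ω).trans (le_abs_self _))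

theorem Ob.congr (h : Ob P a A X) (hm : ∀ n t, Measurable (Y n t))
    (he : ∀ᶠ n in atTop, ∀ t, A n t → ∀ ω, X n t ω = Y n t ω) : Ob P a A Y :=
  h.dom hm (he.mono fun _ hn t ht ω => by rw [hn t ht ω])

theorem Ob.congr' (h : Ob P a A X) (he : ∀ n t ω, X n t ω = Y n t ω) : Ob P a A Y := by
  have : X = Y := by funext n t ω; exact he n t ω
  exact this ▸ h

lemma enorm_le_of_abs {x y K : ℝ} (h : |x| ≤ K * |y|) : ‖x‖ₑ ≤ (K.toNNReal : ℝ≥0∞) * ‖y‖ₑ := by
  rw [Real.enorm_eq_ofReal_abs, Real.enorm_eq_ofReal_abs]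
  refine (ENNReal.ofReal_le_ofReal h).trans ?_
  rw [ENNReal.ofReal_mul' (abs_nonneg _)]
  rfl

theorem Ob.mono (h : Ob P a A X) (K : ℝ) (hab : ∀ᶠ n in atTop, |a n| ≤ K * |b n|) : Ob P b A X :=
  ⟨h.1, fun q => by
    obtain ⟨C, hC⟩ := h.2 q
    refine ⟨C * K.toNNReal, (hC.and hab).mono fun n hn t ht => (hn.1 t ht).trans ?_⟩
    rw [ENNReal.coe_mul, mul_assoc]
    gcongr
    exact enorm_le_of_abs hn.2⟩

theorem Ob.const [∀ n, IsProbabilityMeasure (P n)] (c : ∀ n, T n → ℝ) (K : ℝ)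
    (h : ∀ᶠ n in atTop, ∀ t, A n t → |c n t| ≤ K * |a n|) : Ob P a A fun n t _ => c n t :=
  ⟨fun _ _ => measurable_const, fun q => ⟨K.toNNReal, h.mono fun n hn t ht => by
    rcases Nat.eq_zero_or_pos q with rfl | hq
    · simp
    rw [eLpNorm_const _ (by exact_mod_cast hq.ne') (IsProbabilityMeasure.ne_zero _)]
    simpa using enorm_le_of_abs (hn t ht)⟩⟩

theorem Ob.zero : Ob P a A fun _ _ _ => 0 :=
  ⟨fun _ _ => measurable_const, fun _ => ⟨0, .of_forall fun _ _ _ => by simp⟩⟩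

/-- bounded variables -/
theorem Ob.bdd [∀ n, IsProbabilityMeasure (P n)] (hm : ∀ n t, Measurable (X n t)) (K : ℝ)
    (h : ∀ᶠ n in atTop, ∀ t, A n t → ∀ ω, |X n t ω| ≤ K) : Ob P (rt 0) A X :=
  (Ob.const (a := rt 0) (fun _ _ => K) |K| (.of_forall fun _ _ _ => by simp [rt])).of_le hm h

theorem Ob.add (hX : Ob P a A X) (hY : Ob P a A Y) : Ob P a A fun n t ω => X n t ω + Y n t ω :=
  ⟨fun n t => (hX.1 n t).add (hY.1 n t), fun q => by
    obtain ⟨C, hC⟩ := hX.2 q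
    obtain ⟨D, hD⟩ := hY.2 q
    refine ⟨C + D, (hC.and hD).mono fun n hn t ht => ?_⟩
    rcases Nat.eq_zero_or_pos q with rfl | hq
    · simp
    rw [ENNReal.coe_add, add_mul]
    exact (eLpNorm_add_le (hX.1 n t).aestronglyMeasurable (hY.1 n t).aestronglyMeasurable
      (by exact_mod_cast hq)).trans (add_le_add (hn.1 t ht) (hn.2 t ht))⟩

theorem Ob.neg (hX : Ob P a A X) : Ob P a A fun n t ω => -X n t ω :=
  hX.dom (fun n t => (hX.1 n t).neg) (.of_forall fun _ _ _ _ => (abs_neg _).le)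

theorem Ob.abs (hX : Ob P a A X) : Ob P a A fun n t ω => |X n t ω| :=
  hX.dom (fun n t => (hX.1 n t).abs) (.of_forall fun _ _ _ _ => (abs_abs _).le)

theorem Ob.sub (hX : Ob P a A X) (hY : Ob P a A Y) : Ob P a A fun n t ω => X n t ω - Y n t ω :=
  (hX.add hY.neg).congr' fun _ _ _ => (sub_eq_add_neg _ _).symm

lemma eLpNorm_mul_le {α : Type*} [MeasurableSpace α] (μ : Measure α) {f g : α → ℝ}
    (hf : Measurable f) (hg : Measurable g) (q : ℕ) :
    eLpNorm (fun x => f x * g x) q μ ≤ eLpNorm f (2 * q : ℕ) μ * eLpNorm g (2 * q : ℕ) μ := by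
  have : ENNReal.HolderTriple ((2 * q : ℕ) : ℝ≥0∞) ((2 * q : ℕ) : ℝ≥0∞) (q : ℝ≥0∞) := ⟨by
    rw [Nat.cast_mul, Nat.cast_ofNat, ENNReal.mul_inv (by simp) (by simp), ← add_mul,
      ENNReal.inv_two_add_inv_two, one_mul]⟩
  exact eLpNorm_smul_le_mul_eLpNorm (φ := f) hg.aestronglyMeasurable hf.aestronglyMeasurable

theorem Ob.mul (hX : Ob P a A X) (hY : Ob P b A Y) :
    Ob P (fun n => a n * b n) A fun n t ω => X n t ω * Y n t ω :=
  ⟨fun n t => (hX.1 n t).mul (hY.1 n t), fun q => by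
    obtain ⟨C, hC⟩ := hX.2 (2 * q)
    obtain ⟨D, hD⟩ := hY.2 (2 * q)
    refine ⟨C * D, (hC.and hD).mono fun n hn t ht => ?_⟩
    refine (eLpNorm_mul_le _ (hX.1 n t) (hY.1 n t) q).trans
      ((mul_le_mul' (hn.1 t ht) (hn.2 t ht)).trans_eq ?_)
    rw [ENNReal.coe_mul, enorm_mul]; ring⟩

/-- a factor of order one on the left -/
theorem Ob.mul_left (hX : Ob P (rt 0) A X) (hY : Ob P a A Y) :
    Ob P a A fun n t ω => X n t ω * Y n t ω :=
  (hX.mul hY).mono 1 (.of_forall fun n => by simp [rt])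

/-- a factor of order one on the right -/
theorem Ob.mul_right (hX : Ob P a A X) (hY : Ob P (rt 0) A Y) :
    Ob P a A fun n t ω => X n t ω * Y n t ω :=
  (hX.mul hY).mono 1 (.of_forall fun n => by simp [rt])

theorem Ob.smul (hX : Ob P a A X) (c : ℝ) : Ob P a A fun n t ω => c * X n t ω :=
  ⟨fun n t => (hX.1 n t).const_mul c, fun q => by
    obtain ⟨C, hC⟩ := hX.2 q
    refine ⟨‖c‖₊ * C, hC.mono fun n hn t ht => ?_⟩
    rw [ENNReal.coe_mul, mul_assoc]
    exact (eLpNorm_const_smul_le (c := c) (f := X n t)).trans (mul_le_mul' le_rfl (hn t ht))⟩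

theorem Ob.div_const (hX : Ob P a A X) (c : ℝ) : Ob P a A fun n t ω => X n t ω / c :=
  (hX.smul c⁻¹).congr' fun _ _ _ => by ring

theorem Ob.pow [∀ n, IsProbabilityMeasure (P n)] (hX : Ob P a A X) (k : ℕ) :
    Ob P (fun n => a n ^ k) A fun n t ω => X n t ω ^ k := by
  induction k with
  | zero => exact Ob.const (fun _ _ => 1) 1 (.of_forall fun _ _ _ => by simp) |>.congr' (by simp)
  | succ k ih => simpa only [pow_succ] using ih.mul hX

theorem Ob.pow0 [∀ n, IsProbabilityMeasure (P n)] (hX : Ob P (rt 0) A X) (k : ℕ) :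
    Ob P (rt 0) A fun n t ω => X n t ω ^ k :=
  (hX.pow k).mono 1 (.of_forall fun n => by simp [rt])

/-- sums over a fixed finite set -/
theorem Ob.fsum' {ι : Type*} (S : Finset ι) {Z : ι → ∀ n, T n → Ω n → ℝ}
    (h : ∀ i ∈ S, Ob P a A (Z i)) : Ob P a A fun n t ω => ∑ i ∈ S, Z i n t ω := by
  classical
  induction S using Finset.induction_on with
  | empty => simpa using Ob.zero
  | insert i S hi ih =>
    simpa only [Finset.sum_insert hi] using (h i (Finset.mem_insert_self _ _)).add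
      (ih fun j hj => h j (Finset.mem_insert_of_mem hj))

theorem Ob.fsum {ι : Type*} [Fintype ι] {Z : ι → ∀ n, T n → Ω n → ℝ} (h : ∀ i, Ob P a A (Z i)) :
    Ob P a A fun n t ω => ∑ i, Z i n t ω := Ob.fsum' _ fun i _ => h i

/-- sums over sites -/
theorem Ob.sum (S : ∀ n, T n → Finset (Fin n)) {Z : ∀ n, T n → Fin n → Ω n → ℝ}
    (h : Ob P a (fun n (p : T n × Fin n) => A n p.1 ∧ p.2 ∈ S n p.1) fun n p => Z n p.1 p.2) :
    Ob P (fun n => n * a n) A fun n t ω => ∑ l ∈ S n t, Z n t l ω :=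
  ⟨fun n t => Finset.measurable_sum _ fun l _ => h.1 n (t, l), fun q => by
    obtain ⟨C, hC⟩ := h.2 q
    refine ⟨C, hC.mono fun n hn t ht => ?_⟩
    rcases Nat.eq_zero_or_pos q with rfl | hq
    · simp
    beta_reduce
    rw [← Finset.sum_fn]
    refine (eLpNorm_sum_le (fun l _ => (h.1 n (t, l)).aestronglyMeasurable)
      (by exact_mod_cast hq)).trans ((Finset.sum_le_card_nsmul _ _ _
        fun l hl => hn (t, l) ⟨ht, hl⟩).trans ?_)
    rw [nsmul_eq_mul, enorm_mul, mul_left_comm]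
    gcongr
    have : (S n t).card ≤ n := by simpa using Finset.card_le_univ (S n t)
    simpa using this⟩

theorem Ob.div_n (h : Ob P (fun n => n * a n) A X) : Ob P a A fun n t ω => X n t ω / n :=
  ⟨fun n t => (h.1 n t).div_const _, fun q => by
    obtain ⟨C, hC⟩ := h.2 q
    refine ⟨C, (hC.and (eventually_gt_atTop 0)).mono fun n hn t ht => ?_⟩
    have e : (fun ω => X n t ω / n) = (n : ℝ)⁻¹ • X n t := by funext ω; simp [div_eq_inv_mul]
    have hn0 : (n : ℝ) ≠ 0 := by exact_mod_cast hn.2.ne'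
    beta_reduce
    rw [e]
    refine eLpNorm_const_smul_le.trans ((mul_le_mul' le_rfl (hn.1 t ht)).trans_eq ?_)
    rw [mul_left_comm, ← enorm_mul, inv_mul_cancel_left₀ hn0]⟩

/-- averages over sites -/
theorem Ob.avg (S : ∀ n, T n → Finset (Fin n)) {Z : ∀ n, T n → Fin n → Ω n → ℝ}
    (h : Ob P a (fun n (p : T n × Fin n) => A n p.1 ∧ p.2 ∈ S n p.1) fun n p => Z n p.1 p.2) :
    Ob P a A fun n t ω => (∑ l ∈ S n t, Z n t l ω) / n := (h.sum S).div_n

/-- case distinction on the index -/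
theorem Ob.ite (c : ∀ n, T n → Prop) [∀ n t, Decidable (c n t)]
    (hX : Ob P a (fun n t => A n t ∧ c n t) X) (hY : Ob P a (fun n t => A n t ∧ ¬c n t) Y) :
    Ob P a A fun n t ω => if c n t then X n t ω else Y n t ω :=
  ⟨fun n t => by
    by_cases h : c n t
    · simpa [h] using hX.1 n t
    · simpa [h] using hY.1 n t, fun q => by
    obtain ⟨C, hC⟩ := hX.2 q
    obtain ⟨D, hD⟩ := hY.2 q
    refine ⟨C + D, (hC.and hD).mono fun n hn t ht => ?_⟩
    rw [ENNReal.coe_add, add_mul]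
    by_cases h : c n t
    · simpa [h] using (hn.1 t ⟨ht, h⟩).trans le_self_add
    · simpa [h] using (hn.2 t ⟨ht, h⟩).trans le_add_self⟩

/-- the same variable on two parts of the index set -/
theorem Ob.cases (c : ∀ n, T n → Prop) (hX : Ob P a (fun n t => A n t ∧ c n t) X)
    (hY : Ob P a (fun n t => A n t ∧ ¬c n t) X) : Ob P a A X := by
  classical
  exact (hX.ite c hY).congr' fun _ _ _ => ite_self _

theorem Ob.bool (σ : ∀ n, T n → Bool) {Z : Bool → ∀ n, T n → Ω n → ℝ} (h : ∀ s, Ob P a A (Z s)) :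
    Ob P a A fun n t => Z (σ n t) n t :=
  (((h true).restrict fun _ _ h => h.1).ite (fun n t => σ n t = true)
    ((h false).restrict fun _ _ h => h.1)).congr' fun n t ω => by cases σ n t <;> simp

theorem Ob.memLp (h : Ob P a A X) (q : ℕ) : ∀ᶠ n in atTop, ∀ t, A n t → MemLp (X n t) q (P n) := by
  obtain ⟨C, hC⟩ := h.2 q
  exact hC.mono fun n hn t ht => ⟨(h.1 n t).aestronglyMeasurable,
    (hn t ht).trans_lt (ENNReal.mul_lt_top ENNReal.coe_lt_top enorm_lt_top)⟩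

/-! ### the rates `rt p` -/

lemma rt_zero (n : ℕ) : rt 0 n = 1 := by simp [rt]
lemma rt_nonneg (p : ℤ) (n : ℕ) : 0 ≤ rt p n := zpow_nonneg (sqrt_nonneg _) _
lemma one_le_sqrt_nat {n : ℕ} (hn : 1 ≤ n) : (1 : ℝ) ≤ √n := one_le_sqrt.2 (by exact_mod_cast hn)
lemma rt_le {n : ℕ} (hn : 1 ≤ n) (h : p ≤ q) : rt p n ≤ rt q n :=
  zpow_le_zpow_right₀ (one_le_sqrt_nat hn) h
lemma rt_add {n : ℕ} (hn : 1 ≤ n) (p q : ℤ) : rt (p + q) n = rt p n * rt q n :=
  zpow_add₀ (one_pos.trans_le (one_le_sqrt_nat hn)).ne' p q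
lemma rt_two (n : ℕ) : rt 2 n = n := by
  rw [rt, zpow_two, mul_self_sqrt (Nat.cast_nonneg n)]
lemma rt_neg_one (n : ℕ) : rt (-1) n = (√n)⁻¹ := by simp [rt]
lemma rt_pow (p : ℤ) (k n : ℕ) : rt p n ^ k = rt (p * k) n := by rw [rt, rt, zpow_mul, zpow_natCast]

lemma tendsto_rt (h : p < 0) : Tendsto (rt p) atTop (𝓝 0) :=
  (tendsto_zpow_atTop_zero h).comp (tendsto_sqrt_atTop.comp tendsto_natCast_atTop_atTop)

theorem Ob.monoR (h : Ob P (rt p) A X) (hpq : p ≤ q) : Ob P (rt q) A X :=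
  h.mono 1 ((eventually_ge_atTop 1).mono fun n hn => by
    rw [one_mul, abs_of_nonneg (rt_nonneg _ _), abs_of_nonneg (rt_nonneg _ _)]; exact rt_le hn hpq)

theorem Ob.mulR (hX : Ob P (rt p) A X) (hY : Ob P (rt q) A Y) (h : p + q ≤ s := by norm_num) :
    Ob P (rt s) A fun n t ω => X n t ω * Y n t ω :=
  Ob.monoR ((hX.mul hY).mono 1 ((eventually_ge_atTop 1).mono fun n hn => by
    rw [one_mul, rt_add hn])) h

theorem Ob.powR {k : ℕ} (hX : Ob P (fun n => rt p n ^ k) A X) (h : p * k ≤ s := by norm_num) :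
    Ob P (rt s) A X :=
  Ob.monoR (hX.mono 1 (.of_forall fun n => by rw [one_mul, rt_pow])) h

theorem Ob.sumR (S : ∀ n, T n → Finset (Fin n)) {Z : ∀ n, T n → Fin n → Ω n → ℝ}
    (h : Ob P (rt p) (fun n (p : T n × Fin n) => A n p.1 ∧ p.2 ∈ S n p.1) fun n p => Z n p.1 p.2)
    (hs : 2 + p ≤ s := by norm_num) : Ob P (rt s) A fun n t ω => ∑ l ∈ S n t, Z n t l ω :=
  Ob.monoR ((h.sum S).mono 1 ((eventually_ge_atTop 1).mono fun n hn => by
    rw [one_mul, rt_add hn, rt_two])) hs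

/-! ### `o (1)` -/

theorem Ob.oo' (h : Ob P d A X) (hd : Tendsto d atTop (𝓝 0)) : Oo P A X := ⟨d, hd, h⟩

theorem Ob.oo (h : Ob P (rt p) A X) (hp : p < 0 := by norm_num) : Oo P A X :=
  ⟨_, tendsto_rt hp, h⟩

theorem Oo.meas (h : Oo P A X) (n : ℕ) (t : T n) : Measurable (X n t) :=
  h.choose_spec.2.1 n t

theorem Oo.ob (h : Oo P A X) : Ob P (rt 0) A X := by
  obtain ⟨d, hd, h⟩ := h
  refine h.mono 1 ((hd.abs.eventually (eventually_le_nhds (b := 1) (by norm_num))).mono fun n hn => ?_)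
  simpa [rt] using hn

theorem Oo.zero : Oo P A fun _ _ _ => 0 := ⟨fun _ => 0, tendsto_const_nhds, Ob.zero⟩

theorem Oo.reindex (h : Oo P A X) (r : ∀ n, T' n → T n) (hA : ∀ n t, A' n t → A n (r n t)) :
    Oo P A' fun n t => X n (r n t) := h.imp fun _ h => ⟨h.1, h.2.reindex r hA⟩

theorem Oo.restrict (h : Oo P A X) (hA : ∀ n t, B n t → A n t) : Oo P B X :=
  h.reindex (fun _ t => t) hA

theorem Oo.dom (h : Oo P A X) (hm : ∀ n t, Measurable (Y n t))
    (hd : ∀ᶠ n in atTop, ∀ t, A n t → ∀ ω, |Y n t ω| ≤ |X n t ω|) : Oo P A Y :=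
  h.imp fun _ h => ⟨h.1, h.2.dom hm hd⟩

theorem Oo.of_le (h : Oo P A X) (hm : ∀ n t, Measurable (Y n t))
    (hd : ∀ᶠ n in atTop, ∀ t, A n t → ∀ ω, |Y n t ω| ≤ X n t ω) : Oo P A Y :=
  h.imp fun _ h => ⟨h.1, h.2.of_le hm hd⟩

theorem Oo.congr (h : Oo P A X) (hm : ∀ n t, Measurable (Y n t))
    (he : ∀ᶠ n in atTop, ∀ t, A n t → ∀ ω, X n t ω = Y n t ω) : Oo P A Y :=
  h.imp fun _ h => ⟨h.1, h.2.congr hm he⟩

theorem Oo.congr' (h : Oo P A X) (he : ∀ n t ω, X n t ω = Y n t ω) : Oo P A Y :=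
  h.imp fun _ h => ⟨h.1, h.2.congr' he⟩

/-- a common rate -/
theorem Oo.both (hX : Oo P A X) {Z : ∀ n, T' n → Ω n → ℝ} (hZ : Oo P A' Z) :
    ∃ d : ℕ → ℝ, Tendsto d atTop (𝓝 0) ∧ Ob P d A X ∧ Ob P d A' Z := by
  obtain ⟨d, hd, hX⟩ := hX
  obtain ⟨e, he, hZ⟩ := hZ
  refine ⟨fun n => |d n| + |e n|, by simpa using hd.abs.add he.abs,
    hX.mono 1 (.of_forall fun n => ?_), hZ.mono 1 (.of_forall fun n => ?_)⟩ <;>
  · rw [one_mul, abs_of_nonneg (a := |d n| + |e n|) (by positivity)]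
    simp

theorem Oo.add (hX : Oo P A X) (hY : Oo P A Y) : Oo P A fun n t ω => X n t ω + Y n t ω :=
  (hX.both hY).imp fun _ h => ⟨h.1, h.2.1.add h.2.2⟩

theorem Oo.sub (hX : Oo P A X) (hY : Oo P A Y) : Oo P A fun n t ω => X n t ω - Y n t ω :=
  (hX.both hY).imp fun _ h => ⟨h.1, h.2.1.sub h.2.2⟩

theorem Oo.neg (hX : Oo P A X) : Oo P A fun n t ω => -X n t ω := hX.imp fun _ h => ⟨h.1, h.2.neg⟩
theorem Oo.abs (hX : Oo P A X) : Oo P A fun n t ω => |X n t ω| := hX.imp fun _ h => ⟨h.1, h.2.abs⟩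

theorem Oo.smul (hX : Oo P A X) (c : ℝ) : Oo P A fun n t ω => c * X n t ω :=
  hX.imp fun _ h => ⟨h.1, h.2.smul c⟩

theorem Oo.div_const (hX : Oo P A X) (c : ℝ) : Oo P A fun n t ω => X n t ω / c :=
  hX.imp fun _ h => ⟨h.1, h.2.div_const c⟩

theorem Oo.mul_ob (hX : Oo P A X) (hY : Ob P (rt 0) A Y) :
    Oo P A fun n t ω => X n t ω * Y n t ω := hX.imp fun _ h => ⟨h.1, h.2.mul_right hY⟩

theorem Oo.ob_mul (hX : Ob P (rt 0) A X) (hY : Oo P A Y) :
    Oo P A fun n t ω => X n t ω * Y n t ω := hY.imp fun _ h => ⟨h.1, hX.mul_left h.2⟩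

theorem Oo.fsum' {ι : Type*} (S : Finset ι) {Z : ι → ∀ n, T n → Ω n → ℝ}
    (h : ∀ i ∈ S, Oo P A (Z i)) : Oo P A fun n t ω => ∑ i ∈ S, Z i n t ω := by
  classical
  induction S using Finset.induction_on with
  | empty => simpa using Oo.zero
  | insert i S hi ih =>
    simpa only [Finset.sum_insert hi] using (h i (Finset.mem_insert_self _ _)).add
      (ih fun j hj => h j (Finset.mem_insert_of_mem hj))

theorem Oo.fsum {ι : Type*} [Fintype ι] {Z : ι → ∀ n, T n → Ω n → ℝ} (h : ∀ i, Oo P A (Z i)) :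
    Oo P A fun n t ω => ∑ i, Z i n t ω := Oo.fsum' _ fun i _ => h i

theorem Oo.avg (S : ∀ n, T n → Finset (Fin n)) {Z : ∀ n, T n → Fin n → Ω n → ℝ}
    (h : Oo P (fun n (p : T n × Fin n) => A n p.1 ∧ p.2 ∈ S n p.1) fun n p => Z n p.1 p.2) :
    Oo P A fun n t ω => (∑ l ∈ S n t, Z n t l ω) / n := h.imp fun _ h => ⟨h.1, h.2.avg S⟩

theorem Oo.ite (c : ∀ n, T n → Prop) [∀ n t, Decidable (c n t)]
    (hX : Oo P (fun n t => A n t ∧ c n t) X) (hY : Oo P (fun n t => A n t ∧ ¬c n t) Y) :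
    Oo P A fun n t ω => if c n t then X n t ω else Y n t ω :=
  (hX.both hY).imp fun _ h => ⟨h.1, h.2.1.ite c h.2.2⟩

theorem Oo.cases (c : ∀ n, T n → Prop) (hX : Oo P (fun n t => A n t ∧ c n t) X)
    (hY : Oo P (fun n t => A n t ∧ ¬c n t) X) : Oo P A X :=
  (hX.both hY).imp fun _ h => ⟨h.1, h.2.1.cases c h.2.2⟩

/-- deterministic terms -/
theorem Oo.det [∀ n, IsProbabilityMeasure (P n)] (c : ∀ n, T n → ℝ) (hd : Tendsto d atTop (𝓝 0))
    (h : ∀ᶠ n in atTop, ∀ t, A n t → |c n t| ≤ d n) : Oo P A fun n t _ => c n t :=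
  ⟨d, hd, Ob.const c 1 (h.mono fun n hn t ht => (hn t ht).trans (by simpa using le_abs_self _))⟩

/-- the fraction of missing sites -/
theorem Oo.card [∀ n, IsProbabilityMeasure (P n)] (S : ∀ n, T n → Finset (Fin n)) (N : ℕ)
    (h : ∀ n t, A n t → Big N (S n t)) : Oo P A fun n t _ => ((S n t).card : ℝ) / n - 1 := by
  refine Oo.det _ (tendsto_const_div_atTop_nhds_zero_nat (N : ℝ))
    ((eventually_gt_atTop 0).mono fun n hn t ht => ?_)
  have h0 : (0 : ℝ) < n := by exact_mod_cast hn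
  have h1 : ((S n t).card : ℝ) ≤ n := by exact_mod_cast (by simpa using Finset.card_le_univ (S n t))
  have h2 : (n : ℝ) ≤ (S n t).card + N := by exact_mod_cast h n t ht
  rw [div_sub_one h0.ne', abs_div, abs_of_pos h0, abs_of_nonpos (by linarith)]
  gcongr
  linarith

lemma Big.erase {n N : ℕ} {I : Finset (Fin n)} (h : Big N I) (i : Fin n) :
    Big (N + 1) (I.erase i) := by
  have := Finset.pred_card_le_card_erase (s := I) (a := i)
  unfold Big at h ⊢
  omega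

lemma Big.univ (n N : ℕ) : Big N (Finset.univ : Finset (Fin n)) := by simp [Big]

theorem Oo.small (h : Oo P A X) (q : ℕ) {ε : ℝ≥0∞} (hε : 0 < ε) :
    ∀ᶠ n in atTop, ∀ t, A n t → eLpNorm (X n t) q (P n) ≤ ε := by
  obtain ⟨d, hd, h⟩ := h
  obtain ⟨C, hC⟩ := h.2 q
  have h1 : Tendsto (fun n => (C : ℝ≥0∞) * ‖d n‖ₑ) atTop (𝓝 0) := by
    simpa using ENNReal.Tendsto.const_mul (a := C) (continuous_enorm.tendsto _ |>.comp hd)
      (Or.inr ENNReal.coe_ne_top)
  exact (hC.and (h1.eventually (ge_mem_nhds hε))).mono fun n hn t ht => (hn.1 t ht).trans hn.2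

/-- the diagonal argument -/
theorem Oo.of_all (hm : ∀ n t, Measurable (X n t))
    (h : ∀ q : ℕ, ∀ ε : ℝ≥0∞, 0 < ε → ∀ᶠ n in atTop, ∀ t, A n t → eLpNorm (X n t) q (P n) ≤ ε) :
    Oo P A X := by
  set σ : ℕ → ℕ → ℝ≥0∞ := fun q n => ⨆ t, ⨆ _ : A n t, eLpNorm (X n t) q (P n) with hσ
  have h1 : ∀ q, Tendsto (σ q) atTop (𝓝 0) := fun q => ENNReal.tendsto_nhds_zero.2 fun ε hε =>
    (h q ε hε).mono fun n hn => iSup₂_le hn
  set τ : ℕ → ℕ → ℝ := fun n q => (1 / 2) ^ q * (min 1 (σ q n)).toReal with hτ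
  have hb : ∀ n q, (min 1 (σ q n)).toReal ≤ 1 := fun n q =>
    ENNReal.toReal_le_of_le_ofReal zero_le_one (by simp)
  have h0 : ∀ n q, 0 ≤ τ n q := fun n q => by positivity
  have hle : ∀ n q, τ n q ≤ (1 / 2) ^ q := fun n q => mul_le_of_le_one_right (by positivity) (hb n q)
  have hs : ∀ n, Summable (τ n) := fun n => .of_nonneg_of_le (h0 n) (hle n) summable_geometric_two
  have h2 : Tendsto (fun n => ∑' q, τ n q) atTop (𝓝 (∑' _ : ℕ, (0 : ℝ))) := by
    refine tendsto_tsum_of_dominated_convergence summable_geometric_two (fun q => ?_)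
      (.of_forall fun n q => by rw [Real.norm_of_nonneg (h0 n q)]; exact hle n q)
    have := ((ENNReal.tendsto_toReal (a := min 1 0) (by simp)).comp
      (tendsto_const_nhds.min (h1 q))).const_mul ((1 / 2 : ℝ) ^ q)
    simpa [hτ] using this
  refine ⟨fun n => ∑' q, τ n q, by simpa using h2, hm, fun q => ⟨2 ^ q,
    ((h1 q).eventually (ge_mem_nhds one_pos)).mono fun n hn t ht => ?_⟩⟩
  have h3 : τ n q ≤ ∑' q, τ n q := (hs n).le_tsum q fun j _ => h0 n j
  have h4 : σ q n ≠ ⊤ := (hn.trans_lt ENNReal.one_lt_top).ne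
  refine (le_iSup₂_of_le (f := fun t (_ : A n t) => eLpNorm (X n t) q (P n)) t ht le_rfl).trans ?_
  have h5 : |(σ q n).toReal| ≤ 2 ^ q * |∑' q, τ n q| := by
    rw [abs_of_nonneg ENNReal.toReal_nonneg, abs_of_nonneg ((h0 n q).trans h3)]
    refine le_trans (le_of_eq ?_) (mul_le_mul_of_nonneg_left h3 (by positivity))
    simp only [hτ, min_eq_right hn]
    rw [← mul_assoc, ← mul_pow]; simp
  have h6 := enorm_le_of_abs h5
  rw [Real.enorm_toReal h4] at h6
  refine h6.trans_eq ?_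
  congr 2
  ext; simp

/-- bounded moments and convergence in probability -/
theorem Oo.of_prob [∀ n, IsProbabilityMeasure (P n)] (hX : Ob P (rt 0) A X)
    (h : ∀ η : ℝ, 0 < η → ∀ ε : ℝ≥0∞, 0 < ε → ∀ᶠ n in atTop, ∀ t, A n t →
      P n {ω | η < |X n t ω|} ≤ ε) : Oo P A X := by
  refine Oo.of_all hX.1 fun q ε hε => ?_
  rcases Nat.eq_zero_or_pos q with rfl | hq
  · simp
  rcases eq_or_ne ε ⊤ with rfl | hε'
  · simp
  obtain ⟨C, hC⟩ := hX.2 (2 * q)
  have h2 : ε / 2 ≠ 0 := (ENNReal.half_pos hε.ne').ne'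
  have h2' : ε / 2 ≠ ⊤ := ENNReal.div_ne_top hε' two_ne_zero
  have hη : 0 < (ε / 2).toReal := ENNReal.toReal_pos h2 h2'
  have hq' : (0 : ℝ) < (2 * q : ℕ) := by positivity
  have hlim : Tendsto (fun x : ℝ≥0∞ => (C : ℝ≥0∞) * x ^ (1 / ((2 * q : ℕ) : ℝ))) (𝓝 0) (𝓝 0) := by
    have := ENNReal.Tendsto.const_mul (a := C) ((ENNReal.continuous_rpow_const
      (y := 1 / ((2 * q : ℕ) : ℝ))).tendsto 0) (Or.inr ENNReal.coe_ne_top)
    rwa [ENNReal.zero_rpow_of_pos (by positivity), mul_zero] at this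
  obtain ⟨δ, hδ, hδ'⟩ : ∃ δ : ℝ≥0∞, 0 < δ ∧ (C : ℝ≥0∞) * δ ^ (1 / ((2 * q : ℕ) : ℝ)) ≤ ε / 2 :=
    (((hlim.eventually (ge_mem_nhds (pos_iff_ne_zero.2 h2))).filter_mono
      (nhdsWithin_le_nhds (s := Set.Ioi 0))).and self_mem_nhdsWithin).exists.imp fun _ h => ⟨h.2, h.1⟩
  filter_upwards [hC, h _ hη δ hδ] with n h3 h4 t ht
  set η := (ε / 2).toReal
  set S := {ω | η < |X n t ω|}
  have hS : MeasurableSet S := measurableSet_lt measurable_const (hX.1 n t).abs
  have hI : Measurable (S.indicator fun _ => (1 : ℝ)) := measurable_const.indicator hS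
  calc eLpNorm (X n t) q (P n)
      ≤ eLpNorm ((fun _ => η) + fun ω => |X n t ω| * S.indicator (fun _ => 1) ω) q (P n) := by
        refine eLpNorm_mono_real fun ω => ?_
        by_cases hω : ω ∈ S
        · simp [hω, hη.le]
        · simpa [hω] using not_lt.1 hω
    _ ≤ ε / 2 + ε / 2 := by
        refine (eLpNorm_add_le aestronglyMeasurable_const
          ((hX.1 n t).abs.mul hI).aestronglyMeasurable (by exact_mod_cast hq)).trans
          (add_le_add ?_ ?_)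
        · rw [eLpNorm_const _ (by exact_mod_cast hq.ne') (IsProbabilityMeasure.ne_zero _)]
          rw [measure_univ, ENNReal.one_rpow, mul_one, Real.enorm_toReal h2']
        · refine (eLpNorm_mul_le _ (hX.1 n t).abs hI q).trans (le_trans (mul_le_mul' ?_ ?_) hδ')
          · refine (eLpNorm_mono (g := X n t) fun ω => by simp).trans ?_
            simpa [rt] using h3 t ht
          · rw [eLpNorm_indicator_const hS (by exact_mod_cast (by omega : 2 * q ≠ 0))
              (ENNReal.natCast_ne_top _), enorm_one, one_mul, ENNReal.toReal_natCast]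
            exact ENNReal.rpow_le_rpow (h4 t ht) (by positivity)
    _ = ε := ENNReal.add_halves ε

theorem Oo.prob (h : Oo P A X) {η : ℝ} (hη : 0 < η) {ε : ℝ≥0∞} (hε : 0 < ε) :
    ∀ᶠ n in atTop, ∀ t, A n t → P n {ω | η < |X n t ω|} ≤ ε := by
  have h0 : ENNReal.ofReal η ≠ 0 := by simpa using hη
  filter_upwards [h.small 1 (ENNReal.mul_pos h0 hε.ne')] with n hn t ht
  have h1 := mul_meas_ge_le_lintegral₀ (μ := P n) (h.meas n t).enorm.aemeasurable (ENNReal.ofReal η)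
  have h2 := hn t ht
  rw [Nat.cast_one, eLpNorm_one_eq_lintegral_enorm] at h2
  refine le_trans (measure_mono fun ω hω => ?_)
    ((ENNReal.mul_le_mul_iff_right h0 ENNReal.ofReal_ne_top).1 (h1.trans h2))
  simp only [Set.mem_ofPred_eq] at hω ⊢
  rw [Real.enorm_eq_ofReal_abs]
  exact ENNReal.ofReal_le_ofReal hω.le

/-- `X` is small as soon as `Y` is -/
theorem Oo.of_imp [∀ n, IsProbabilityMeasure (P n)] (hX : Ob P (rt 0) A X) (hY : Oo P A Y)
    (h : ∀ ε > (0 : ℝ), ∃ δ > (0 : ℝ), ∀ᶠ n in atTop, ∀ t, A n t → ∀ ω,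
      |Y n t ω| ≤ δ → |X n t ω| ≤ ε) : Oo P A X := by
  refine Oo.of_prob hX fun η hη ε hε => ?_
  obtain ⟨δ, hδ, h⟩ := h η hη
  filter_upwards [h, hY.prob hδ hε] with n h1 h2 t ht
  exact le_trans (measure_mono fun ω hω => not_le.1 fun h => not_le.2 hω (h1 t ht ω h)) (h2 t ht)

/-- bounded moments and a small second moment -/
theorem Oo.of_l2 [∀ n, IsProbabilityMeasure (P n)] (hX : Ob P (rt 0) A X)
    (h : ∀ ε > (0 : ℝ), ∀ᶠ n in atTop, ∀ t, A n t → ∫ ω, X n t ω ^ 2 ∂P n ≤ ε) : Oo P A X := by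
  refine Oo.of_prob hX fun η hη ε hε => ?_
  rcases eq_or_ne ε ⊤ with rfl | hε'
  · simp
  have he := ENNReal.toReal_pos hε.ne' hε'
  filter_upwards [h (η ^ 2 * ε.toReal) (by positivity), hX.memLp 2] with n h1 h2 t ht
  have h3 := mul_meas_ge_le_integral_of_nonneg (μ := P n) (f := fun ω => X n t ω ^ 2)
    (.of_forall fun _ => sq_nonneg _) (by simpa using (h2 t ht).integrable_sq) (η ^ 2)
  have h4 := le_of_mul_le_mul_left (h3.trans (h1 t ht)) (by positivity)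
  refine le_trans (measure_mono (t := {ω | η ^ 2 ≤ X n t ω ^ 2}) fun ω hω => ?_)
    ((ENNReal.toReal_le_toReal (measure_ne_top _ _) hε').1 h4)
  simp only [Set.mem_ofPred_eq] at hω ⊢
  rw [← sq_abs (X n t ω)]
  exact pow_le_pow_left₀ hη.le hω.le 2

theorem Oo.l1 (h : Oo P A X) {ε : ℝ} (hε : 0 < ε) : ∀ᶠ n in atTop, ∀ t, A n t →
    Integrable (X n t) (P n) ∧ ∫ ω, |X n t ω| ∂P n ≤ ε := by
  filter_upwards [h.small 1 (ε := ENNReal.ofReal ε) (by simpa using hε), h.ob.memLp 1] with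
    n h1 h2 t ht
  have hi : Integrable (X n t) (P n) := memLp_one_iff_integrable.1 (by simpa using h2 t ht)
  refine ⟨hi, ?_⟩
  have h3 := h1 t ht
  rw [Nat.cast_one, eLpNorm_one_eq_lintegral_enorm, ← ofReal_integral_norm_eq_lintegral_enorm hi,
    ENNReal.ofReal_le_ofReal_iff hε.le] at h3
  exact h3

theorem Oo.l2 (h : Oo P A X) {ε : ℝ} (hε : 0 < ε) : ∀ᶠ n in atTop, ∀ t, A n t →
    Integrable (fun ω => X n t ω ^ 2) (P n) ∧ ∫ ω, X n t ω ^ 2 ∂P n ≤ ε := by
  filter_upwards [(h.mul_ob h.ob).l1 hε] with n h1 t ht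
  simpa only [abs_mul_self, sq] using h1 t ht

/-- first moments of a variable of order `a` -/
theorem Ob.l1 (h : Ob P a A X) : ∃ C : ℝ, 0 ≤ C ∧ ∀ᶠ n in atTop, ∀ t, A n t →
    Integrable (X n t) (P n) ∧ ∫ ω, |X n t ω| ∂P n ≤ C * |a n| := by
  obtain ⟨C, hC⟩ := h.2 1
  refine ⟨C, C.2, ?_⟩
  filter_upwards [hC, h.memLp 1] with n h1 h2 t ht
  have hi : Integrable (X n t) (P n) := memLp_one_iff_integrable.1 (by simpa using h2 t ht)
  refine ⟨hi, ?_⟩
  have h3 := h1 t ht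
  rw [Nat.cast_one, eLpNorm_one_eq_lintegral_enorm, ← ofReal_integral_norm_eq_lintegral_enorm hi,
    Real.enorm_eq_ofReal_abs, ← ENNReal.ofReal_coe_nnreal, ← ENNReal.ofReal_mul C.coe_nonneg,
    ENNReal.ofReal_le_ofReal_iff (by positivity)] at h3
  exact h3

end order

/-! ### resampling -/

section mp
variable {ι κ : Type} [Fintype ι] [Fintype κ]

theorem mp_extend {e : κ → ι} (he : Function.Injective e) (μ : ι → Measure ℝ)
    [∀ i, IsProbabilityMeasure (μ i)] :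
    MeasurePreserving (fun p : (ι → ℝ) × (κ → ℝ) => Function.extend e p.2 p.1)
      ((Measure.pi μ).prod (Measure.pi fun k => μ (e k))) (Measure.pi μ) := by
  classical
  have hm : Measurable fun p : (ι → ℝ) × (κ → ℝ) => Function.extend e p.2 p.1 := by
    refine measurable_pi_lambda _ fun i => ?_
    by_cases h : ∃ k, e k = i
    · obtain ⟨k, rfl⟩ := h
      simp only [he.extend_apply]; fun_prop
    · simp only [Function.extend_apply' _ _ _ h]; fun_prop
  refine ⟨hm, (Measure.pi_eq fun s hs => ?_).symm⟩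
  rw [Measure.map_apply hm (MeasurableSet.univ_pi hs)]
  have e1 : (fun p : (ι → ℝ) × (κ → ℝ) => Function.extend e p.2 p.1) ⁻¹' Set.univ.pi s =
      (Set.univ.pi fun i => if ∃ k, e k = i then Set.univ else s i) ×ˢ
        Set.univ.pi fun k => s (e k) := by
    ext ⟨ω, z⟩
    simp only [Set.mem_preimage, Set.mem_pi, Set.mem_univ, true_imp_iff, Set.mem_prod]
    refine ⟨fun h => ⟨fun i => ?_, fun k => by simpa only [he.extend_apply] using h (e k)⟩,
      fun h i => ?_⟩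
    · split_ifs with hi
      · trivial
      · simpa only [Function.extend_apply' _ _ _ hi] using h i
    · by_cases hi : ∃ k, e k = i
      · obtain ⟨k, rfl⟩ := hi
        simpa only [he.extend_apply] using h.2 k
      · simpa only [Function.extend_apply' _ _ _ hi, hi, if_false] using h.1 i
  rw [e1, Measure.prod_prod, Measure.pi_pi, Measure.pi_pi,
    ← Finset.prod_filter_mul_prod_filter_not Finset.univ (fun i => ∃ k, e k = i) fun i => μ i (s i),
    mul_comm]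
  congr 1
  · refine Finset.prod_bij (fun k _ => e k) (fun k _ => by simp) (fun _ _ _ _ h => he h)
      (fun i hi => ?_) fun _ _ => rfl
    obtain ⟨k, rfl⟩ := (Finset.mem_filter.1 hi).2
    exact ⟨k, Finset.mem_univ _, rfl⟩
  · rw [Finset.prod_filter]
    refine Finset.prod_congr rfl fun i _ => ?_
    split_ifs <;> simp

theorem mp_comp {e : κ → ι} (he : Function.Injective e) (μ : ι → Measure ℝ)
    [∀ i, IsProbabilityMeasure (μ i)] :
    MeasurePreserving (fun (ω : ι → ℝ) k => ω (e k)) (Measure.pi μ) (Measure.pi fun k => μ (e k)) := by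
  have hm : Measurable fun (ω : ι → ℝ) k => ω (e k) := by fun_prop
  refine ⟨hm, ?_⟩
  have h := mp_extend he μ
  conv_lhs => rw [← h.map_eq]
  rw [Measure.map_map hm h.measurable]
  have : ((fun (ω : ι → ℝ) k => ω (e k)) ∘ fun p : (ι → ℝ) × (κ → ℝ) =>
      Function.extend e p.2 p.1) = Prod.snd := by
    funext p k; simp [he.extend_apply]
  rw [this]
  exact measurePreserving_snd.map_eq

end mp

variable {n : ℕ}

lemma row_inj (i : Fin n) : Function.Injective fun l : Fin n => s(i, l) :=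
  fun _ _ h => Sym2.congr_right.1 h

lemma rs_row (i : Fin n) (ω : Env n) (z : Fin n → ℝ) (l : Fin n) : rs i ω z s(i, l) = z l :=
  (row_inj i).extend_apply z ω l

lemma rs_off (i : Fin n) (ω : Env n) (z : Fin n → ℝ) {e : Sym2 (Fin n)} (h : i ∉ e) :
    rs i ω z e = ω e :=
  Function.extend_apply' _ _ _ fun ⟨_, hl⟩ => h (hl ▸ Sym2.mem_mk_left _ _)

lemma RI.rs {α : Type} {i : Fin n} {Y : Env n → α} (h : RI i Y) (ω : Env n) (z : Fin n → ℝ) :
    Y (rs i ω z) = Y ω := h _ _ fun _ he => rs_off i ω z he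

lemma rs_congr {i : Fin n} {ω ω' : Env n} (h : ∀ e, i ∉ e → ω e = ω' e) (z : Fin n → ℝ) :
    rs i ω z = rs i ω' z := by
  funext e
  by_cases he : i ∈ e
  · obtain ⟨l, rfl⟩ := Sym2.mem_iff_exists.1 he
    rw [rs_row, rs_row]
  · rw [rs_off i ω z he, rs_off i ω' z he, h e he]

lemma J_symm (ω : Env n) (i l : Fin n) : J ω i l = J ω l i := by rw [J, J, Sym2.eq_swap]

lemma measurable_J (i l : Fin n) : Measurable fun ω : Env n => J ω i l := by unfold J; fun_prop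

lemma RI_J {i j l : Fin n} (hj : j ≠ i) (hl : l ≠ i) : RI i fun ω : Env n => J ω j l :=
  fun ω ω' h => by simp only [J]; rw [h _ (by simp [hj.symm, hl.symm])]

lemma measurable_hf (β ρ : ℝ) (I : Finset (Fin n)) (k : Fin n) (σ : E.Cube n) :
    Measurable (hf β ρ I k σ) := by unfold hf J; fun_prop

lemma measurable_pk (β ρ : ℝ) (I : Finset (Fin n)) (k : Fin n) (σ : E.Cube n) :
    Measurable (pk β ρ I k σ) := (Tw.continuous_hb _).measurable.comp (measurable_hf β ρ I k σ)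

lemma RI_hf (β ρ : ℝ) {I : Finset (Fin n)} {i k : Fin n} (hi : i ∉ I) (hk : k ≠ i) (σ : E.Cube n) :
    RI i (hf β ρ I k σ) := fun ω ω' h => by
  rw [hf, hf, h _ (by simp [hk.symm])]
  congr 2
  refine Finset.sum_congr rfl fun l hl => ?_
  exact congrArg (· * _) (RI_J hk (fun e => hi (e ▸ Finset.mem_of_mem_erase hl)) ω ω' h)

lemma abs_pk_le (β ρ : ℝ) (I : Finset (Fin n)) (k : Fin n) (σ : E.Cube n) (ω : Env n) :
    |pk β ρ I k σ ω| ≤ 1 := by
  rw [pk, abs_of_pos (Tw.hb_pos _ _)]; exact Tw.hb_le _ _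

/-- removing the site `i` changes the local field at `k` by one coupling -/
lemma hf_erase (β ρ : ℝ) {I : Finset (Fin n)} {i k : Fin n} (hi : i ∈ I) (hk : k ≠ i)
    (σ : E.Cube n) (ω : Env n) :
    hf β ρ I k σ ω = hf β ρ (I.erase i) k σ ω + β * (J ω k i * Tw.sg (σ i)) := by
  rw [hf, hf, Finset.erase_right_comm,
    ← Finset.sum_erase_add _ _ (Finset.mem_erase.2 ⟨hk.symm, hi⟩)]
  ring

/-- a variable of the subsystem `I` does not see the rows outside `I` -/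
lemma Net.ri {β ρ : ℝ} {m : ℕ} {u : Fm m} (h : Net β ρ u) {I : Finset (Fin n)} {i l : Fin n}
    (hi : i ∉ I) (hl : l ∈ I) (σ : E.Cube n) : RI i (u n I l σ) := fun ω ω' hω =>
  h.loc n I l σ σ ω ω' hl (fun _ _ => rfl) fun a ha b hb _ => hω _ (by
    simp only [Sym2.mem_iff, not_or]
    exact ⟨fun e => hi (e ▸ ha), fun e => hi (e ▸ hb)⟩)

lemma Net.measc {β ρ : ℝ} {m : ℕ} {u : Fm m} (h : Net β ρ u) (I : Finset (Fin n)) (l : Fin n)
    (σ : E.Cube n) (a : Fin m) : Measurable fun ω => u n I l σ ω a := h.B a |>.1 n ⟨I, σ, l, l, l⟩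

theorem mp_rs (β ρ : ℝ) (i : Fin n) : MeasurePreserving
    (fun p : Env n × (Fin n → ℝ) => rs i p.1 p.2) ((PP β ρ n).prod (PR β ρ i)) (PP β ρ n) :=
  mp_extend (row_inj i) _

theorem mpStmt : MpStmt := fun β ρ n => ⟨mp_rs β ρ, by
  have he : Function.Injective fun p : Pair n => s(p.1.1, p.1.2) := by
    rintro ⟨⟨a, b⟩, hab⟩ ⟨⟨c, d⟩, hcd⟩ h
    rcases Sym2.eq_iff.1 h with ⟨rfl, rfl⟩ | ⟨rfl, rfl⟩
    · rfl
    · exact absurd hab (not_lt.2 hcd.le)
  have e : Pl.pl false n β = Measure.pi fun p : Pair n => gaussianReal (mn β ρ n s(p.1.1, p.1.2)) 1 := by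
    rw [Pl.pl, Pl.tilted]
    congr 1
    funext p
    rw [Pl.tl_false, mn, if_neg (by simpa using p.2.ne), Pl.th]
  rw [e]
  exact mp_comp he fun e => gaussianReal (mn β ρ n e) 1⟩

end Crest.Agent.T157.Rn

end
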