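import Crest.Agent.T157.RnSm_16
import Crest.Agent.T157.RnOb_60

/-!
# Row 157, block B/R: `Rn.TayStmt` (helper16)
-/

set_option autoImplicit false

noncomputable section

namespace Crest.Agent.T157.Rn

open Real Finset MeasureTheory Filter
open Crest.Agent.R238.Gap Crest.Agent.R238.GapPc Crest.Agent.R253.Meh74
open Crest.Agent.T157.Tw

namespace Tay16

variable {m : ℕ}

/-- `ℓ¹` norm -/
def nm (X : E m) : ℝ := ∑ a, |X a|

theorem nm_nonneg (X : E m) : 0 ≤ nm X := sum_nonneg fun _ _ => abs_nonneg _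

theorem norm_le_nm (X : E m) : ‖X‖ ≤ nm X := by
  rw [EuclideanSpace.norm_eq, sqrt_le_left (nm_nonneg X)]
  simpa [nm] using sum_sq_le_sq_sum_of_nonneg (s := univ) (f := fun a => |X a|)
    fun _ _ => abs_nonneg _

/-- remainders of order `k` -/
def Bd (k : ℕ) (R : E m → E m → ℝ) : Prop :=
  ∃ (K : ℝ) (p : ℕ), 0 ≤ K ∧ ∀ X Y, |R X Y| ≤ K * (1 + nm X + nm Y) ^ p * nm (Y - X) ^ k

theorem Bd.add {k : ℕ} {R S : E m → E m → ℝ} (h : Bd k R) (h' : Bd k S) :
    Bd k fun X Y => |R X Y| + |S X Y| := by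
  obtain ⟨K, p, hK, h⟩ := h
  obtain ⟨K', p', hK', h'⟩ := h'
  refine ⟨K + K', p + p', by positivity, fun X Y => ?_⟩
  have a0 : 1 ≤ 1 + nm X + nm Y := by linarith [nm_nonneg X, nm_nonneg Y]
  have d0 := pow_nonneg (nm_nonneg (Y - X)) k
  have a1 := mul_le_mul_of_nonneg_right (mul_le_mul_of_nonneg_left
    (pow_le_pow_right₀ a0 (Nat.le_add_right p p')) hK) d0
  have a2 := mul_le_mul_of_nonneg_right (mul_le_mul_of_nonneg_left
    (pow_le_pow_right₀ a0 (Nat.le_add_left p' p)) hK') d0
  rw [abs_of_nonneg (by positivity)]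
  linarith [h X Y, h' X Y]

theorem Bd.sum {k : ℕ} {ι : Type} (S : Finset ι) {R : ι → E m → E m → ℝ} (h : ∀ a, Bd k (R a)) :
    Bd k fun X Y => ∑ a ∈ S, |R a X Y| := by
  classical
  induction S using Finset.induction_on with
  | empty => exact ⟨0, 0, le_rfl, fun X Y => by simp⟩
  | insert a s ha ih =>
    have := (h a).add ih
    have e : ∀ X Y, abs (∑ a ∈ s, |R a X Y|) = ∑ a ∈ s, |R a X Y| := fun X Y =>
      abs_of_nonneg (sum_nonneg fun _ _ => abs_nonneg _)
    simpa only [sum_insert ha, e] using this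

theorem Bd.step {k : ℕ} {R : E m → E m → ℝ} {S : Fin m → E m → E m → ℝ} (hS : ∀ a, Bd k (S a))
    (h0 : ∀ X, R X X = 0) (hd : ∀ (X v : E m) (r : ℝ),
      HasDerivAt (fun r : ℝ => R X (X + r • v)) (∑ a, S a X (X + r • v) * v a) r) :
    Bd (k + 1) R := by
  obtain ⟨K, p, hK, h⟩ := Bd.sum univ hS
  refine ⟨K * 2 ^ p, p, by positivity, fun X Y => ?_⟩
  have n1 := nm_nonneg X
  have n2 := nm_nonneg Y
  have n3 := nm_nonneg (Y - X)
  have := Sm16.mvt (a := 0) (b := 1) (C := K * 2 ^ p * (1 + nm X + nm Y) ^ p * nm (Y - X) ^ (k + 1))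
    (hd X (Y - X)) fun r hr => by
      rw [Set.uIcc_of_le zero_le_one] at hr
      have b1 : nm (X + r • (Y - X)) ≤ nm X + nm Y := by
        simp only [nm, ← sum_add_distrib]
        refine sum_le_sum fun a _ => ?_
        have : (X + r • (Y - X)) a = (1 - r) * X a + r * Y a := by simp; ring
        rw [this]
        refine (abs_add_le _ _).trans (add_le_add ?_ ?_)
        · rw [abs_mul, abs_of_nonneg (sub_nonneg.2 hr.2)]
          exact mul_le_of_le_one_left (abs_nonneg _) (by linarith [hr.1])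
        · rw [abs_mul, abs_of_nonneg hr.1]
          exact mul_le_of_le_one_left (abs_nonneg _) hr.2
      have b2 : nm (X + r • (Y - X) - X) ≤ nm (Y - X) := by
        refine sum_le_sum fun a _ => ?_
        have : (X + r • (Y - X) - X) a = r * (Y - X) a := by simp
        rw [this, abs_mul, abs_of_nonneg hr.1]
        exact mul_le_of_le_one_left (abs_nonneg _) hr.2
      have b3 : |∑ a, S a X (X + r • (Y - X)) * (Y - X) a| ≤
          (∑ a, |S a X (X + r • (Y - X))|) * nm (Y - X) := by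
        rw [sum_mul]
        refine (abs_sum_le_sum_abs _ _).trans (sum_le_sum fun a _ => ?_)
        rw [abs_mul]
        exact mul_le_mul_of_nonneg_left (single_le_sum (f := fun a => |(Y - X) a|)
          (fun _ _ => abs_nonneg _) (mem_univ a)) (abs_nonneg _)
      have b4 := (le_abs_self _).trans (h X (X + r • (Y - X)))
      have b5 : (1 + nm X + nm (X + r • (Y - X))) ^ p ≤ 2 ^ p * (1 + nm X + nm Y) ^ p := by
        rw [← mul_pow]
        exact pow_le_pow_left₀ (by linarith [nm_nonneg (X + r • (Y - X))]) (by linarith) p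
      have b6 := mul_le_mul (mul_le_mul_of_nonneg_left b5 hK) (pow_le_pow_left₀ (nm_nonneg _) b2 k)
        (pow_nonneg (nm_nonneg _) k) (by positivity)
      have b7 := mul_le_mul_of_nonneg_right (b4.trans b6) n3
      rw [pow_succ]
      linarith
  simpa [h0] using this

theorem seg {φ : E m → ℝ} (h : C1 φ) (X v : E m) (r : ℝ) :
    HasDerivAt (fun r : ℝ => φ (X + r • v)) (∑ a, pd a φ (X + r • v) * v a) r := by
  have h1 : HasDerivAt (fun r : ℝ => X + r • v) v r := by
    simpa using ((hasDerivAt_id r).smul_const v).const_add X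
  refine ((h.diff _).hasFDerivAt.comp_hasDerivAt r h1).congr_deriv ?_
  rw [fderiv_apply_eq_sum]
  exact sum_congr rfl fun a _ => mul_comm _ _

theorem bd0 {φ : E m → ℝ} (h : PG φ) : Bd 0 fun _ Y => φ Y := by
  obtain ⟨K, p, hK, h⟩ := pg_nonneg h
  refine ⟨K, p, hK, fun X Y => (h Y).trans ?_⟩
  rw [pow_zero, mul_one]
  exact mul_le_mul_of_nonneg_left (pow_le_pow_left₀ (by positivity)
    (by linarith [norm_le_nm Y, nm_nonneg X]) p) hK

theorem bd1 {φ : E m → ℝ} (h : Tm 1 φ) : Bd 1 fun X Y => φ Y - φ X :=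
  Bd.step (fun a => bd0 (h.2 a).2) (fun _ => sub_self _) fun X v r => (seg h.1 X v r).sub_const _

theorem bd2 {φ : E m → ℝ} (h : Tm 2 φ) :
    Bd 2 fun X Y => φ Y - φ X - ∑ a, pd a φ X * (Y a - X a) :=
  Bd.step (fun a => bd1 (h.2 a)) (fun _ => by simp) fun X v r => by
    have h1 := ((seg h.1 X v r).sub_const (φ X)).sub
      ((hasDerivAt_id r).mul_const (∑ a, pd a φ X * v a))
    refine (h1.congr_of_eventuallyEq (.of_forall fun r => ?_)).congr_deriv ?_
    · simp only [PiLp.add_apply, PiLp.smul_apply, smul_eq_mul, add_sub_cancel_left, Pi.sub_apply,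
        id, mul_sum]
      congr 1
      exact sum_congr rfl fun a _ => by ring
    · simp only [sub_mul, sum_sub_distrib, one_mul]

theorem bd3 {φ : E m → ℝ} (h : Tm 3 φ) :
    Bd 3 fun X Y => φ Y - φ X - ∑ a, pd a φ X * (Y a - X a) -
      (∑ a, ∑ a', pd a (pd a' φ) X * ((Y a - X a) * (Y a' - X a'))) / 2 :=
  Bd.step (fun a => bd2 (h.2 a)) (fun _ => by simp) fun X v r => by
    have h1 := (((seg h.1 X v r).sub_const (φ X)).sub
      ((hasDerivAt_id r).mul_const (∑ a, pd a φ X * v a))).sub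
      (((hasDerivAt_pow 2 r).mul_const (∑ a, ∑ a', pd a (pd a' φ) X * (v a * v a'))).div_const 2)
    refine (h1.congr_of_eventuallyEq (.of_forall fun r => ?_)).congr_deriv ?_
    · simp only [PiLp.add_apply, PiLp.smul_apply, smul_eq_mul, add_sub_cancel_left, Pi.sub_apply,
        id, mul_sum]
      congr 2
      · exact sum_congr rfl fun a _ => by ring
      · exact sum_congr rfl fun a _ => sum_congr rfl fun a' _ => by ring
    · simp only [PiLp.add_apply, PiLp.smul_apply, smul_eq_mul, add_sub_cancel_left, sub_mul,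
        sum_sub_distrib, one_mul, sum_mul]
      congr 1
      rw [sum_comm (f := fun x x_1 => pd x_1 (pd x φ) X * (r * v x_1) * v x), show ((2 : ℕ) : ℝ) * r ^ (2 - 1) * (∑ a, ∑ a', pd a (pd a' φ) X * (v a * v a'))
        / 2 = r * ∑ a, ∑ a', pd a (pd a' φ) X * (v a * v a') by norm_num; ring]
      simp only [mul_sum]
      exact sum_congr rfl fun a _ => sum_congr rfl fun a' _ => by ring

section ob
variable {Ω : ℕ → Type} [∀ n, MeasurableSpace (Ω n)] {T : ℕ → Type} {P : ∀ n, Measure (Ω n)}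
  [∀ n, IsProbabilityMeasure (P n)] {a d : ℕ → ℝ} {A : ∀ n, T n → Prop}
  {X Y : ∀ n, T n → Ω n → E m}

omit [∀ n, IsProbabilityMeasure (P n)] in
theorem measV (hX : ∀ i, Ob P a A fun n t ω => X n t ω i) (n : ℕ) (t : T n) :
    Measurable (X n t) :=
  (WithLp.measurable_toLp 2 _).comp (measurable_pi_lambda (fun ω i => X n t ω i) fun i => (hX i).1 n t)

theorem Bd.ob {k : ℕ} {R : E m → E m → ℝ} (h : Bd k R) (hc : Continuous fun p : E m × E m => R p.1 p.2)
    (hX : ∀ i, Ob P (rt 0) A fun n t ω => X n t ω i) (hY : ∀ i, Ob P (rt 0) A fun n t ω => Y n t ω i)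
    (hd : ∀ i, Ob P d A fun n t ω => Y n t ω i - X n t ω i) :
    Ob P (fun n => d n ^ k) A fun n t ω => R (X n t ω) (Y n t ω) := by
  obtain ⟨K, p, -, h⟩ := h
  have h1 : Ob P (rt 0) A fun n t ω => (1 : ℝ) :=
    Ob.bdd (fun _ _ => measurable_const) 1 (.of_forall fun _ _ _ _ => by simp)
  have h2 := ((((h1.add (Ob.fsum fun i => (hX i).abs)).add (Ob.fsum fun i => (hY i).abs)).pow0 p).smul
    K).mul_left ((Ob.fsum fun i => (hd i).abs).pow k)
  exact h2.of_le (fun n t => hc.measurable.comp ((measV hX n t).prodMk (measV hY n t)))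
    (.of_forall fun n t _ ω => h _ _)

end ob

end Tay16

open Tay16

theorem tayStmt : TayStmt := by
  intro β ρ T A m φ X hX
  refine ⟨fun h => ?_, fun Y d hY hd => ⟨fun h => ?_, fun h => ?_, fun h => ?_⟩⟩
  · exact ((bd0 h.2).ob (d := rt 0) (h.1.comp continuous_snd) hX hX fun i => (hX i).sub (hX i)).mono
      1 (.of_forall fun n => by simp [rt])
  · have c := h.1.cont
    exact ((bd1 h).ob (by fun_prop) hX hY hd).mono 1 (.of_forall fun n => by simp)
  · have c := h.1.cont
    have c1 := h.1.contp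
    exact (bd2 h).ob (by fun_prop) hX hY hd
  · have c := h.1.cont
    have c1 := h.1.contp
    have c2 := fun a a' => (h.2 a').1.contp a
    exact (bd3 h).ob (by fun_prop) hX hY hd

end Crest.Agent.T157.Rn

end
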