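import Crest.Agent.T157.RnDef_60

/-!
# Row 157, block B/R: `X0Glue` and `BaseGlue` (helper15)
-/

set_option autoImplicit false
set_option maxHeartbeats 400000
set_option synthInstance.maxHeartbeats 40000

noncomputable section

namespace Crest.Agent.T157.Rn

open MeasureTheory ProbabilityTheory Real Matrix Filter Topology
open Crest.Agent.R238.Gap Crest.Agent.R238.GapPc Crest.Agent.R253.Meh74
open Crest.Agent.T157.E (Cube)
open Crest.Agent.T157.Tw
open Crest.Agent.T157.Pl (one cmul)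
open scoped NNReal ENNReal

namespace X15

section order
variable {Ω : ℕ → Type} [∀ n, MeasurableSpace (Ω n)] {T T' : ℕ → Type} {P : ∀ n, Measure (Ω n)}
  {a b : ℕ → ℝ} {A : ∀ n, T n → Prop} {X Y Z : ∀ n, T n → Ω n → ℝ}

theorem ob_re {A' : ∀ n, T' n → Prop} (h : Ob P a A X) (r : ∀ n, T' n → T n)
    (hA : ∀ n t, A' n t → A n (r n t)) : Ob P a A' fun n t => X n (r n t) :=
  ⟨fun _ _ => h.1 _ _, fun q => (h.2 q).imp fun _ hC => hC.mono fun n hn t ht => hn _ (hA n t ht)⟩

theorem ob_add (hX : Ob P a A X) (hY : Ob P a A Y) (hm : ∀ n t, Measurable (Z n t))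
    (h : ∀ n t, A n t → ∀ ω, |Z n t ω| ≤ |X n t ω| + |Y n t ω|) : Ob P a A Z := by
  refine ⟨hm, fun q => ?_⟩
  rcases Nat.eq_zero_or_pos q with rfl | hq
  · exact ⟨0, .of_forall fun n t _ => by simp⟩
  obtain ⟨C, hC⟩ := hX.2 q
  obtain ⟨D, hD⟩ := hY.2 q
  refine ⟨C + D, ?_⟩
  filter_upwards [hC, hD] with n h1 h2 t ht
  calc eLpNorm (Z n t) q (P n)
      ≤ eLpNorm ((fun ω => ‖X n t ω‖) + fun ω => ‖Y n t ω‖) q (P n) :=
        eLpNorm_mono_real fun ω => h n t ht ω
    _ ≤ eLpNorm (fun ω => ‖X n t ω‖) q (P n) + eLpNorm (fun ω => ‖Y n t ω‖) q (P n) :=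
        eLpNorm_add_le (hX.1 n t).norm.aestronglyMeasurable (hY.1 n t).norm.aestronglyMeasurable
          (by exact_mod_cast hq)
    _ ≤ _ := by
        rw [eLpNorm_norm, eLpNorm_norm, ENNReal.coe_add, add_mul]
        exact add_le_add (h1 t ht) (h2 t ht)

theorem ob_mul (hX : Ob P a A X) (hY : Ob P b A Y) :
    Ob P (fun n => a n * b n) A fun n t ω => X n t ω * Y n t ω := by
  refine ⟨fun n t => (hX.1 n t).mul (hY.1 n t), fun q => ?_⟩
  obtain ⟨C, hC⟩ := hX.2 (2 * q)
  obtain ⟨D, hD⟩ := hY.2 (2 * q)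
  refine ⟨C * D, ?_⟩
  have : ENNReal.HolderTriple ((2 * q : ℕ) : ℝ≥0∞) ((2 * q : ℕ) : ℝ≥0∞) (q : ℝ≥0∞) := ⟨by
    push_cast
    rw [ENNReal.mul_inv (by simp) (by simp), ← add_mul, ENNReal.inv_two_add_inv_two, one_mul]⟩
  filter_upwards [hC, hD] with n h1 h2 t ht
  calc _ ≤ eLpNorm (X n t) (2 * q : ℕ) (P n) * eLpNorm (Y n t) (2 * q : ℕ) (P n) :=
        eLpNorm_smul_le_mul_eLpNorm (hY.1 n t).aestronglyMeasurable (hX.1 n t).aestronglyMeasurable
    _ ≤ (C * ‖a n‖ₑ) * (D * ‖b n‖ₑ) := mul_le_mul' (h1 t ht) (h2 t ht)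
    _ = _ := by rw [enorm_mul, ENNReal.coe_mul]; ring

theorem ob_dom (hX : Ob P a A X) (K : ℝ) (hm : ∀ n t, Measurable (Z n t))
    (h : ∀ n t, A n t → ∀ ω, Z n t ω = K * X n t ω) : Ob P a A Z := by
  refine ⟨hm, fun q => ?_⟩
  obtain ⟨C, hC⟩ := hX.2 q
  refine ⟨‖K‖₊ * C, hC.mono fun n h1 t ht => ?_⟩
  have e : Z n t = K • X n t := funext (h n t ht)
  rw [e, eLpNorm_const_smul, ENNReal.coe_mul, mul_assoc]
  exact mul_le_mul_right (h1 t ht) _

theorem ob_det [∀ n, IsProbabilityMeasure (P n)] (K : ℝ) (hm : ∀ n t, Measurable (Z n t))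
    (h : ∀ n t, A n t → ∀ ω, |Z n t ω| ≤ |K * a n|) : Ob P a A Z := by
  refine ⟨hm, fun q => ⟨‖K‖₊, .of_forall fun n t ht => ?_⟩⟩
  refine (eLpNorm_le_of_ae_bound (C := |K * a n|) (ae_of_all _ (h n t ht))).trans ?_
  rw [measure_univ, ENNReal.one_rpow, one_mul, ← Real.norm_eq_abs, ofReal_norm, enorm_mul]
  rfl

theorem oo_dom (hX : Oo P A X) (K : ℝ) (hm : ∀ n t, Measurable (Z n t))
    (h : ∀ n t, A n t → ∀ ω, Z n t ω = K * X n t ω) : Oo P A Z :=
  hX.imp fun _ hd => ⟨hd.1, ob_dom hd.2 K hm h⟩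

end order

theorem rt_mul0 : (fun n => rt (-1) n * rt 0 n) = rt (-1) := funext fun n => by simp [rt]

theorem rt_mul1 : (fun n => rt (-1) n * rt (-1) n) = rt (-2) := funext fun n => by
  simp [rt, _root_.zpow_neg, zpow_ofNat, sq, -Real.sq_sqrt, -Real.mul_self_sqrt]

variable {n m : ℕ} {β ρ : ℝ}

theorem sg_cmul (z σ : Cube n) (l : Fin n) : sg (cmul z σ l) = sg (z l) * sg (σ l) := by
  unfold cmul; cases z l <;> cases σ l <;> simp [sg]

theorem sg_sq (s : Bool) : sg s * sg s = 1 := by cases s <;> simp [sg]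

theorem meas_co {u : Fm m} (h : ∀ n I l σ, Measurable (u n I l σ)) (I : Finset (Fin n)) (l : Fin n)
    (σ : Cube n) (a : Fin m) : Measurable fun ω => u n I l σ ω a :=
  (measurable_pi_apply a).comp ((WithLp.measurable_ofLp _ _).comp (h n I l σ))

theorem msub {f g : Env n → ℝ} (hf : Measurable f) (hg : Measurable g) :
    Measurable fun ω => f ω - g ω := hf.sub hg

theorem mmul {f g : Env n → ℝ} (hf : Measurable f) (hg : Measurable g) :
    Measurable fun ω => f ω * g ω := hf.mul hg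

theorem meas_J (i l : Fin n) : Measurable fun ω : Env n => J ω i l :=
  (measurable_pi_apply _).div_const _

theorem ri {u : Fm m} (h : Net β ρ u) {K : Finset (Fin n)} {i l : Fin n} (hi : i ∉ K) (hl : l ∈ K)
    (σ : Cube n) : RI i (u n K l σ) := fun ω ω' hω =>
  h.loc n K l σ σ ω ω' hl (fun _ _ => rfl) fun a ha b hb _ => hω _ (by
    rw [Sym2.mem_iff]
    rintro (rfl | rfl)
    · exact hi ha
    · exact hi hb)

theorem sum_split {K : Finset (Fin n)} (k : Fin n) (f : Fin n → ℝ) :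
    |∑ l ∈ K, f l| ≤ |f k| + |∑ l ∈ K.erase k, f l| := by
  by_cases hk : k ∈ K
  · rw [← Finset.add_sum_erase _ _ hk]; exact abs_add_le _ _
  · rw [Finset.erase_eq_of_notMem hk]; exact le_add_of_nonneg_left (abs_nonneg _)

theorem del_eq (c : Fin m → ℝ) (u : Fm m) (I : Finset (Fin n)) (i j : Fin n) (σ : Cube n)
    (ω : Env n) (a : Fin m) : fieldOf c u n I i σ ω a - fieldOf c u n (I.erase j) i σ ω a =
      (if j ∈ I.erase i then J ω i j * u n (I.erase i) j σ ω a else 0) +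
      ∑ l ∈ (I.erase i).erase j,
        J ω i l * (u n (I.erase i) l σ ω a - u n ((I.erase i).erase j) l σ ω a) := by
  simp only [fieldOf, Finset.erase_right_comm (a := j) (b := i), mul_sub, Finset.sum_sub_distrib]
  split_ifs with hj
  · rw [← Finset.add_sum_erase _ _ hj]; ring
  · rw [Finset.erase_eq_of_notMem hj]; ring

theorem abs_ite {p : Prop} [Decidable p] (x : ℝ) : |if p then x else 0| ≤ |x| := by
  split_ifs <;> simp

end X15

open X15

theorem x0Glue : X0Glue := by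
  intro hL β ρ b c u h
  obtain ⟨hE, hJ, hlin⟩ := hL β ρ
  have hu := h.net
  have hmeas : ∀ n I l σ, Measurable (fieldOf c u n I l σ) := fun n I l σ =>
    (WithLp.measurable_toLp _ _).comp (measurable_pi_lambda _ fun a =>
      ((measurable_pi_apply _).const_mul _).add (Finset.measurable_sum _ fun k _ =>
        (meas_J _ _).mul (meas_co hu.meas _ _ _ _)))
  have hco := fun n => meas_co (n := n) hmeas
  have mu := fun n => meas_co (n := n) hu.meas
  refine ⟨⟨hmeas, ?_, ?_, fun a => ?_, fun a => ?_, fun a => ?_, fun a => ?_⟩, ?_, ?_⟩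
  · intro n I i σ σ' ω ω' hi hσ hω
    ext a
    simp only [fieldOf]
    congr 1
    · by_cases hρ : ρ = 0
      · simp [h.hc0 hρ]
      · rw [hω i hi i hi (.inr hρ)]
    · refine Finset.sum_congr rfl fun l hl => ?_
      have hl' := Finset.mem_erase.1 hl
      rw [J, J, hω i hi l hl'.2 (.inl hl'.1.symm), hu.loc n _ l σ σ' ω ω' hl
        (fun k hk => hσ k (Finset.mem_of_mem_erase hk)) fun a ha b hb =>
          hω a (Finset.mem_of_mem_erase ha) b (Finset.mem_of_mem_erase hb)]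
  · intro n I i σ z ω
    ext a
    simp only [fieldOf, PiLp.smul_apply, smul_eq_mul, mul_add, Finset.mul_sum]
    congr 1
    · simp only [gz, Sym2.lift_mk, if_true]; ring
    · refine Finset.sum_congr rfl fun l hl => ?_
      have hl' := (Finset.mem_erase.1 hl).1
      rw [hu.gau]
      simp only [J, gz, Sym2.lift_mk, if_neg hl'.symm, PiLp.smul_apply, smul_eq_mul]
      linear_combination (sg (z i) * ω s(i, l) / √n * u n (I.erase i) l σ ω a) * sg_sq (z l)
  · refine ob_add (ob_dom (Z := fun n (t : Ix n) ω => c a * ω s(t.i, t.i))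
      (ob_re hE (fun n t => (t.i, t.i)) fun _ _ _ => trivial) (c a)
        (fun n t => (measurable_pi_apply _).const_mul _) fun _ _ _ _ => rfl)
      (hlin Ix (fun _ _ => True) (rt 0) (fun _ t => t.i) (fun _ t => t.I.erase t.i)
        (fun n t l ω => u n (t.I.erase t.i) l t.σ ω a)
        (fun n t _ => ⟨Finset.notMem_erase _ _, fun l hl ω ω' hω => by
          beta_reduce
          rw [ri hu (Finset.notMem_erase _ _) hl _ ω ω' hω]⟩)
        (ob_re (hu.B a) (fun n (p : Ix n × Fin n) => ⟨p.1.I.erase p.1.i, p.1.σ, p.2, p.2, p.2⟩)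
          fun _ _ _ => trivial))
      (fun n t => hco n _ _ _ _) fun n t _ ω => abs_add_le _ _
  · have h1 := ob_mul (ob_re (A' := fun n (t : Ix n) => t.k ≠ t.i) hJ (fun n t => (t.i, t.k))
        fun _ _ _ => trivial)
      (ob_add (Z := fun n (t : Ix n) ω => u n (t.I.erase t.i) t.k t.σ ω a -
          u n (t.I.erase t.i) t.k (fl t.σ t.k) ω a)
        (ob_re (hu.B a) (fun n t => ⟨t.I.erase t.i, t.σ, t.k, t.k, t.k⟩) fun _ _ _ => trivial)
        (ob_re (hu.B a) (fun n t => ⟨t.I.erase t.i, fl t.σ t.k, t.k, t.k, t.k⟩)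
          fun _ _ _ => trivial)
        (fun n t => msub (mu n _ _ _ _) (mu n _ _ _ _))
        fun _ _ _ _ => abs_sub _ _)
    rw [rt_mul0] at h1
    refine ob_add h1 (hlin Ix _ (rt (-1)) (fun _ t => t.i) (fun _ t => (t.I.erase t.i).erase t.k)
      (fun n t l ω => u n (t.I.erase t.i) l t.σ ω a - u n (t.I.erase t.i) l (fl t.σ t.k) ω a)
      (fun n t _ => ⟨by simp, fun l hl ω ω' hω => by
        beta_reduce
        have hl' := Finset.mem_of_mem_erase hl
        rw [ri hu (Finset.notMem_erase _ _) hl' t.σ ω ω' hω,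
          ri hu (Finset.notMem_erase _ _) hl' (fl t.σ t.k) ω ω' hω]⟩)
      (ob_re (hu.F a) (fun n (p : Ix n × Fin n) => ⟨p.1.I.erase p.1.i, p.1.σ, p.2, p.2, p.1.k⟩)
        fun _ _ hp => (Finset.mem_erase.1 hp.2).1.symm))
      (fun n t => msub (hco n _ _ _ _) (hco n _ _ _ _)) fun n t _ ω => ?_
    refine le_trans (le_of_eq (congrArg _ ?_)) (sum_split t.k fun l => J ω t.i l *
      (u n (t.I.erase t.i) l t.σ ω a - u n (t.I.erase t.i) l (fl t.σ t.k) ω a))
    simp only [fieldOf, mul_sub, Finset.sum_sub_distrib]; ring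
  · have h1 := ob_mul (ob_re (A' := fun n (t : Ix n) => t.j ≠ t.i) hJ (fun n t => (t.i, t.j))
        fun _ _ _ => trivial)
      (ob_re (hu.B a) (fun n t => ⟨t.I.erase t.i, t.σ, t.j, t.j, t.j⟩) fun _ _ _ => trivial)
    rw [rt_mul0] at h1
    refine ob_add h1 (hlin Ix _ (rt (-1)) (fun _ t => t.i) (fun _ t => (t.I.erase t.i).erase t.j)
      (fun n t l ω => u n (t.I.erase t.i) l t.σ ω a - u n ((t.I.erase t.i).erase t.j) l t.σ ω a)
      (fun n t _ => ⟨by simp, fun l hl ω ω' hω => by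
        beta_reduce
        rw [ri hu (Finset.notMem_erase _ _) (Finset.mem_of_mem_erase hl) t.σ ω ω' hω,
          ri hu (i := t.i) (by simp) hl t.σ ω ω' hω]⟩)
      (ob_re (hu.D a) (fun n (p : Ix n × Fin n) => ⟨p.1.I.erase p.1.i, p.1.σ, p.2, p.1.j, p.2⟩)
        fun _ _ hp => (Finset.mem_erase.1 hp.2).1.symm))
      (fun n t => msub (hco n _ _ _ _) (hco n _ _ _ _)) fun n t _ ω => ?_
    rw [del_eq]
    exact (abs_add_le _ _).trans (add_le_add_left (abs_ite _) _)
  · let A : ∀ n, Ix n → Prop := fun n t => t.k ≠ t.i ∧ t.j ≠ t.i ∧ t.k ≠ t.j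
    have h1 := ob_mul (ob_re (A' := A) hJ (fun n t => (t.i, t.j)) fun _ _ _ => trivial)
      (ob_re (hu.F a) (fun n t => ⟨t.I.erase t.i, t.σ, t.j, t.j, t.k⟩) fun _ _ ht => ht.2.2)
    have h2 := ob_mul (ob_re (A' := A) hJ (fun n t => (t.i, t.k)) fun _ _ _ => trivial)
      (ob_add (Z := fun n (t : Ix n) ω => u n (t.I.erase t.i) t.k t.σ ω a -
          u n ((t.I.erase t.i).erase t.j) t.k t.σ ω a - (u n (t.I.erase t.i) t.k (fl t.σ t.k) ω a -
          u n ((t.I.erase t.i).erase t.j) t.k (fl t.σ t.k) ω a))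
        (ob_re (hu.D a) (fun n t => ⟨t.I.erase t.i, t.σ, t.k, t.j, t.k⟩) fun _ _ ht => ht.2.2.symm)
        (ob_re (hu.D a) (fun n t => ⟨t.I.erase t.i, fl t.σ t.k, t.k, t.j, t.k⟩)
          fun _ _ ht => ht.2.2.symm)
        (fun n t => msub (msub (mu n _ _ _ _) (mu n _ _ _ _)) (msub (mu n _ _ _ _) (mu n _ _ _ _)))
        fun _ _ _ _ => abs_sub _ _)
    rw [rt_mul1] at h1 h2
    have h3 := hlin Ix A (rt (-2)) (fun _ t => t.i)
      (fun _ t => ((t.I.erase t.i).erase t.j).erase t.k)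
      (fun n t l ω => u n (t.I.erase t.i) l t.σ ω a - u n (t.I.erase t.i) l (fl t.σ t.k) ω a -
        (u n ((t.I.erase t.i).erase t.j) l t.σ ω a -
          u n ((t.I.erase t.i).erase t.j) l (fl t.σ t.k) ω a))
      (fun n t _ => ⟨by simp, fun l hl ω ω' hω => by
        beta_reduce
        have hl1 := Finset.mem_of_mem_erase hl
        have hl2 := Finset.mem_of_mem_erase hl1
        rw [ri hu (Finset.notMem_erase _ _) hl2 t.σ ω ω' hω,
          ri hu (Finset.notMem_erase _ _) hl2 (fl t.σ t.k) ω ω' hω,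
          ri hu (i := t.i) (by simp) hl1 t.σ ω ω' hω,
          ri hu (i := t.i) (by simp) hl1 (fl t.σ t.k) ω ω' hω]⟩)
      (ob_re (hu.FD a) (fun n (p : Ix n × Fin n) => ⟨p.1.I.erase p.1.i, p.1.σ, p.2, p.1.j, p.1.k⟩)
        fun _ _ hp => ⟨(Finset.mem_erase.1 hp.2).1.symm,
          (Finset.mem_erase.1 (Finset.mem_of_mem_erase hp.2)).1.symm, hp.1.2.2⟩)
    refine ob_add h1 (ob_add (Z := fun n (t : Ix n) ω => ∑ l ∈ (t.I.erase t.i).erase t.j,
        J ω t.i l * (u n (t.I.erase t.i) l t.σ ω a - u n (t.I.erase t.i) l (fl t.σ t.k) ω a -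
        (u n ((t.I.erase t.i).erase t.j) l t.σ ω a -
          u n ((t.I.erase t.i).erase t.j) l (fl t.σ t.k) ω a))) h2 h3
      (fun n t => Finset.measurable_sum _ fun l _ => mmul (meas_J _ _)
        (msub (msub (mu n _ _ _ _) (mu n _ _ _ _)) (msub (mu n _ _ _ _) (mu n _ _ _ _))))
      fun n t _ ω => ?_)
      (fun n t => msub (msub (hco n _ _ _ _) (hco n _ _ _ _)) (msub (hco n _ _ _ _) (hco n _ _ _ _)))
      fun n t _ ω => ?_
    · refine (sum_split t.k _).trans (le_of_eq ?_)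
      congr 2; ring
    · rw [sub_sub_sub_comm, del_eq, del_eq, add_sub_add_comm, ← Finset.sum_sub_distrib]
      refine (abs_add_le _ _).trans (add_le_add ?_ (le_of_eq (congrArg _ ?_)))
      · split_ifs
        · rw [mul_sub]
        · simp [-abs_mul]
      · exact Finset.sum_congr rfl fun l _ => by ring
  · intro n I i σ ω
    ext a
    simp only [fieldOf]
    congr 1
    refine Finset.sum_congr rfl fun l hl => ?_
    rw [hu.loc n _ l (fl σ i) σ ω ω hl (fun k hk => Function.update_of_ne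
      (Finset.mem_erase.1 hk).1 _ _) fun _ _ _ _ _ => rfl]
  · intro n I i σ ω
    have e : fld b 0 (fieldOf c u n I i σ ω) = ∑ a, b.g a * fieldOf c u n I i σ ω a := by
      simp [fld, Bath.v, PiLp.inner_apply, mul_comm]
    rw [e, hf, ← h.hc, dotProduct, Finset.sum_mul, Finset.mul_sum]
    simp only [fieldOf, mul_add, Finset.sum_add_distrib, Finset.mul_sum]
    congr 1
    · exact Finset.sum_congr rfl fun a _ => by ring
    · rw [Finset.sum_comm]
      refine Finset.sum_congr rfl fun l _ => ?_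
      rw [mul_left_comm, ← h.span n (I.erase i) l σ ω, Finset.mul_sum]
      exact Finset.sum_congr rfl fun a _ => by ring

namespace X15

variable {n m : ℕ} {β ρ : ℝ}

/-- the first layer -/
def u0 (α : Fin m → ℝ) : Fm m := fun _ _ l σ _ => WithLp.toLp 2 fun a => α a * sg (σ l)

theorem fl_ne (σ : Cube n) {k l : Fin n} (h : k ≠ l) : fl σ k l = σ l :=
  Function.update_of_ne h.symm _ _

theorem oo_card (K : ℝ) (N : ℕ) {Z : ∀ n, Ix n → Env n → ℝ}
    (h : ∀ n t ω, Z n t ω = K * ((t.I.card : ℝ) / n - 1)) :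
    Oo (PP β ρ) (fun n (t : Ix n) => Big N t.I) Z := by
  refine ⟨fun n => (N : ℝ) / n, tendsto_const_div_atTop_nhds_zero_nat _, ob_det K
    (fun n t => by rw [show Z n t = fun _ => _ from funext (h n t)]; exact measurable_const)
    fun n t ht ω => ?_⟩
  have hn : (0 : ℝ) < n := by exact_mod_cast t.i.pos
  have h1 : (t.I.card : ℝ) ≤ n := by
    exact_mod_cast (Finset.card_le_univ t.I).trans_eq (Fintype.card_fin n)
  have h2 : (n : ℝ) ≤ t.I.card + N := by exact_mod_cast ht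
  rw [h, abs_mul, abs_mul]
  refine mul_le_mul_of_nonneg_left ?_ (abs_nonneg K)
  rw [div_sub_one hn.ne', abs_div, abs_div]
  refine div_le_div_of_nonneg_right ?_ (abs_nonneg _)
  rw [abs_of_nonpos (by linarith), abs_of_nonneg (Nat.cast_nonneg N)]
  linarith

theorem meas_hf (I : Finset (Fin n)) (k : Fin n) (σ : Cube n) : Measurable (hf β ρ I k σ) :=
  ((measurable_pi_apply _).const_mul _).add
    ((Finset.measurable_sum _ fun _ _ => (meas_J _ _).mul_const _).const_mul _)

theorem gm_u0 (I : Finset (Fin n)) {l : Fin n} (hl : l ∈ I) (x y : ℝ) (ω : Env n) :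
    Gm β ρ I (fun σ => x * sg (σ l)) (fun σ => y * sg (σ l)) (one n) ω =
      x * y * (4 * hb (hf β ρ I l (one n) ω) false) := by
  rw [Gm, Finset.sum_eq_single_of_mem l hl fun k _ hk => by rw [fl_ne _ hk]; ring]
  simp [pk, fl, Pl.one, sg]; ring

theorem gm_sp (b : Bath) (X : E b.m) : gm b (sp _).1 (sp _).1 X = 4 * hb (fld b 0 X) false := by
  simp [gm, sp, sg, pd]; ring

theorem sp_od (m : ℕ) : sp m ∈ Od m := fun s _ => by cases s <;> simp [sp, sg]

end X15

theorem baseGlue_15 : BaseGlue := by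
  intro hS hM hX hLl β ρ b c α h
  have z0 : ∀ {a : ℕ → ℝ} {A : ∀ n, Ix n → Prop} {Z : ∀ n, Ix n → Env n → ℝ},
      (∀ n t, Measurable (Z n t)) → (∀ n t, A n t → ∀ ω, Z n t ω = 0) → Ob (PP β ρ) a A Z :=
    fun hm hz => ob_det 0 hm fun n t ht ω => by simp [hz n t ht ω]
  have v1 : V1 β ρ b c (u0 α) := by
    refine ⟨⟨fun _ _ _ _ => measurable_const, fun n I l σ σ' ω ω' hl hσ _ => by
      simp only [u0, hσ l hl], fun n I l σ z ω => ?_, fun a => ?_, fun a => ?_, fun a => ?_,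
      fun a => ?_⟩, fun n I l σ ω => ?_, h.hc, h.hc0, fun a a' N => ?_, fun a N => ?_⟩
    · ext a
      simp only [u0, sg_cmul, PiLp.smul_apply, smul_eq_mul]; ring
    · refine ob_det (α a) (fun _ _ => measurable_const) fun n t _ ω => ?_
      simp only [u0, rt, zpow_zero, abs_mul]
      cases t.σ t.i <;> simp [sg]
    · exact z0 (fun _ _ => by simp only [u0]; exact measurable_const) fun n t ht ω => by simp only [u0, fl_ne _ ht, sub_self]
    · exact z0 (fun _ _ => by simp only [u0]; exact measurable_const) fun n t ht ω => by simp only [u0, sub_self]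
    · exact z0 (fun _ _ => by simp only [u0]; exact measurable_const) fun n t ht ω => by simp only [u0, sub_self]
    · rw [← h.sp, dotProduct, Finset.sum_mul]
      exact Finset.sum_congr rfl fun a _ => by simp only [u0]; ring
    · refine oo_card (α a * α a') N fun n t ω => ?_
      rw [← h.on]
      simp [u0, Pl.one, sg]; ring
    · refine oo_card (β * α a) N fun n t ω => ?_
      rw [← h.g]
      simp [u0, Pl.one, sg]; ring
  have x0 := hX _ _ _ _ _ v1
  have ll := hLl _ _ _ _ _ v1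
  obtain ⟨-, m1, m2⟩ := hM b _ (sp_od b.m)
  have m3 := (m2 _ (sp_od b.m)).2
  refine ⟨u0 α, v1, fun a a' N => ?_, fun a a' N => ?_, fun a N => ?_⟩
  · have h1 := ll (gm b (sp _).1 (sp _).1) (hS.gm b 1 _ _ (fun s => hS.const _ _ _)
      fun s => hS.const _ _ _) N
    have e : ∀ n (t : Ix n) (ω : Env n), (∑ l ∈ t.I, Gm β ρ t.I (fun σ => u0 α n t.I l σ ω a)
        (fun σ => u0 α n t.I l σ ω a') (one n) ω) / n - 2 * b.A a a' = α a * α a' *
        ((∑ l ∈ t.I, gm b (sp _).1 (sp _).1 (fieldOf c (u0 α) n t.I l (one n) ω)) / n -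
          ∫ z, gm b (sp _).1 (sp _).1 (z + b.v) ∂gam b.m) := fun n t ω => by
      rw [← m3, h.en, mul_sub, ← mul_div_assoc, Finset.mul_sum]
      congr 1
      · congr 1
        refine Finset.sum_congr rfl fun l hl => ?_
        rw [gm_sp, x0.fld]
        exact gm_u0 _ hl _ _ _
      · ring
    obtain ⟨d, hd, h1⟩ := h1
    refine ⟨d, hd, ob_dom h1 _ (fun n t => ?_) fun n t _ ω => e n t ω⟩
    rw [funext (e n t)]
    exact (h1.1 n t).const_mul _
  · refine ⟨fun _ => 0, tendsto_const_nhds, z0 (fun n t => Finset.measurable_sum _ fun k _ =>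
      mmul ((continuous_hb _).measurable.comp (meas_hf _ _ _))
        (by simp only [u0]; exact measurable_const)) fun n t ht ω => ?_⟩
    refine Finset.sum_eq_zero fun k _ => ?_
    by_cases hk : k = t.i
    · have : k ≠ t.j := hk ▸ ht.2.2.2
      simp only [u0, fl_ne _ this, sub_self, mul_zero]
    · simp only [u0, fl_ne _ hk, sub_self, mul_zero, zero_mul]
  · have h1 := ll (fun X => 4 * (hb (fld b 0 X) true * hb (fld b 0 X) false))
      (hS.mul _ _ _ _ (hS.const _ _ _) (hS.mul _ _ _ _ (hS.hb b 0 true 1) (hS.hb b 0 false 1))) N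
    simp only [← hS.sech] at h1
    have m4 : (imp b 0).En (sp _) (sp _) = ∫ z, sech2 (fld b 0 (z + b.v)) ∂gam b.m := by
      rw [m1]
      refine integral_congr_ae (ae_of_all _ fun z => ?_)
      simp [sp, sg]; ring
    have e : ∀ n (t : Ix n) (ω : Env n), β * ((∑ l ∈ t.I, sech2 (hf β ρ t.I l (one n) ω) / 2 *
        (u0 α n t.I l (one n) ω a - u0 α n t.I l (fl (one n) l) ω a)) / n) - (b.A *ᵥ b.g) a =
        β * α a * ((∑ l ∈ t.I, sech2 (fld b 0 (fieldOf c (u0 α) n t.I l (one n) ω))) / n -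
          ∫ z, sech2 (fld b 0 (z + b.v)) ∂gam b.m) := fun n t ω => by
      have e1 : (b.A *ᵥ b.g) a = β * α a * (imp b 0).En (sp _) (sp _) := by
        rw [← h.sp, mulVec, dotProduct, dotProduct, Finset.sum_mul, Finset.sum_mul]
        exact Finset.sum_congr rfl fun a' _ => by rw [h.en]; ring
      have e2 : ∑ l ∈ t.I, sech2 (hf β ρ t.I l (one n) ω) / 2 *
          (u0 α n t.I l (one n) ω a - u0 α n t.I l (fl (one n) l) ω a) =
          α a * ∑ l ∈ t.I, sech2 (fld b 0 (fieldOf c (u0 α) n t.I l (one n) ω)) := by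
        rw [Finset.mul_sum]
        refine Finset.sum_congr rfl fun l _ => ?_
        rw [x0.fld]
        simp [u0, fl, Pl.one, sg]; ring
      rw [e1, e2, m4]; ring
    obtain ⟨d, hd, h1⟩ := h1
    refine ⟨d, hd, ob_dom h1 _ (fun n t => ?_) fun n t _ ω => e n t ω⟩
    rw [funext (e n t)]
    exact (h1.1 n t).const_mul _

end Crest.Agent.T157.Rn

end
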