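import Crest.Agent.T157.RnV_66

/-!
# Row 157, block B/R: energies of the fields, `Rn.X2Glue` (helper79)
-/

set_option autoImplicit false

noncomputable section

namespace Crest.Agent.T157.Rn

open MeasureTheory ProbabilityTheory Real Matrix Filter Topology Finset
open Crest.Agent.R238.Gap Crest.Agent.R238.GapPc Crest.Agent.R253.Meh74
open Crest.Agent.T157.E (Cube)
open Crest.Agent.T157.Tw
open Crest.Agent.T157.Pl (one cmul)
open scoped NNReal ENNReal

namespace X79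
open V66

section order
variable {Ω : ℕ → Type} [∀ n, MeasurableSpace (Ω n)] {T : ℕ → Type} {P : ∀ n, Measure (Ω n)}
  {a : ℕ → ℝ} {A : ∀ n, T n → Prop} {X Y : ∀ n, T n → Ω n → ℝ} {p q r : ℤ}

lemma ob_dom (h : Ob P a A X) (hY : ∀ n t, Measurable (Y n t))
    (e : ∀ n t, A n t → ∀ ω, |Y n t ω| ≤ |X n t ω|) : Ob P a A Y :=
  ⟨hY, fun q => (h.2 q).imp fun _ hC => hC.mono fun n hn t ht =>
    (eLpNorm_mono (e n t ht)).trans (hn t ht)⟩

lemma ob_det [∀ n, IsProbabilityMeasure (P n)] : Ob P a A fun n _ _ => a n :=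
  ⟨fun _ _ => measurable_const, fun q => ⟨1, .of_forall fun n t _ =>
    (eLpNorm_le_of_ae_bound (C := |a n|) (.of_forall fun _ => le_rfl)).trans_eq
      (by simp [Real.enorm_eq_ofReal_abs])⟩⟩

lemma ob_monoR (h : Ob P (rt p) A X) (e : p ≤ r) : Ob P (rt r) A X :=
  ob_mono h ((eventually_ge_atTop 1).mono fun n hn => by
    have h1 : 1 ≤ √(n : ℝ) := Real.one_le_sqrt.2 (by exact_mod_cast hn)
    rw [rt, rt, abs_of_nonneg (by positivity), abs_of_nonneg (by positivity)]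
    exact zpow_le_zpow_right₀ h1 e)

lemma ob_mulR (h : Ob P (rt p) A X) (h' : Ob P (rt q) A Y) (e : p + q ≤ r) :
    Ob P (rt r) A fun n t ω => X n t ω * Y n t ω := ob_monoR (ob_mono (ob_mul h h') (rt_mul p q)) e

lemma ob_sum [∀ n, IsProbabilityMeasure (P n)] (S : ∀ n, T n → Finset (Fin n))
    {X : ∀ n, T n → Fin n → Ω n → ℝ}
    (h : Ob P (rt p) (fun n (z : T n × Fin n) => A n z.1 ∧ z.2 ∈ S n z.1) fun n z => X n z.1 z.2)
    (e : 2 + p ≤ r) : Ob P (rt r) A fun n t ω => ∑ l ∈ S n t, X n t l ω := by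
  refine ob_congr (ob_mulR (ob_det (a := rt 2)) (ob_avg S h) e)
    (fun n t => measurable_sum _ fun l _ => h.1 n (t, l)) fun n t _ ω => ?_
  rcases n.eq_zero_or_pos with rfl | hn
  · simp [eq_empty_of_isEmpty]
  · have : (n : ℝ) ≠ 0 := by exact_mod_cast hn.ne'
    rw [rt, zpow_ofNat, Real.sq_sqrt (Nat.cast_nonneg n)]
    field_simp

lemma oo_of (h : Ob P (rt (-1)) A X) : Oo P A X :=
  ⟨_, (Real.tendsto_sqrt_atTop.comp tendsto_natCast_atTop_atTop).inv_tendsto_atTop.congr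
    fun n => by simp [rt], h⟩

lemma oo_congr (h : Oo P A X) (hY : ∀ n t, Measurable (Y n t))
    (e : ∀ n t, A n t → ∀ ω, Y n t ω = X n t ω) : Oo P A Y := h.imp fun _ h => ⟨h.1, ob_congr h.2 hY e⟩

end order

variable {β ρ : ℝ} {m n : ℕ} {u : Fm m}

/-- discrete derivative at the planted configuration -/
def dd (u : Fm m) (a : Fin m) (I : Finset (Fin n)) (l k : Fin n) (ω : Env n) : ℝ :=
  u n I l (one n) ω a - u n I l (fl (one n) k) ω a

/-- the energy matrix -/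
def GG (β ρ : ℝ) (u : Fm m) (a a' : Fin m) (I : Finset (Fin n)) (l l' : Fin n) (ω : Env n) : ℝ :=
  ∑ k ∈ I, pk β ρ I k (one n) ω * (dd u a I l k ω * dd u a' I l' k ω)

lemma meas_J (i l : Fin n) : Measurable fun ω : Env n => J ω i l :=
  (measurable_pi_apply _).div_const _

lemma meas_pk (I : Finset (Fin n)) (k : Fin n) (σ : Cube n) : Measurable (pk β ρ I k σ) :=
  (continuous_hb _).measurable.comp (((measurable_pi_apply _).const_mul _).add
    ((measurable_sum _ fun l _ => (meas_J k l).mul_const _).const_mul _))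

lemma meas_dd (hu : Net β ρ u) (a : Fin m) (I : Finset (Fin n)) (l k : Fin n) :
    Measurable (dd u a I l k) := (hu.F a).1 n ⟨I, one n, l, l, k⟩

lemma meas_GG (hu : Net β ρ u) (a a' : Fin m) (I : Finset (Fin n)) (l l' : Fin n) :
    Measurable (GG β ρ u a a' I l l') :=
  measurable_sum _ fun k _ => (meas_pk I k _).mul ((meas_dd hu a I l k).mul (meas_dd hu a' I l' k))

lemma not_mem_mk {i a b : Fin n} (ha : i ≠ a) (hb : i ≠ b) : i ∉ s(a, b) := by
  simp [ha, hb]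

lemma ri_J {i j l : Fin n} (hj : i ≠ j) (hl : i ≠ l) {ω ω' : Env n}
    (h : ∀ e, i ∉ e → ω e = ω' e) : J ω j l = J ω' j l := by
  rw [J, J, h _ (not_mem_mk hj hl)]

lemma ri_GG (hu : Net β ρ u) (a a' : Fin m) {I : Finset (Fin n)} {i l l' : Fin n} (hi : i ∉ I)
    (hl : l ∈ I) (hl' : l' ∈ I) : RI i (GG β ρ u a a' I l l') := fun ω ω' h => by
  have ne : ∀ a ∈ I, i ≠ a := fun a ha e => hi (e ▸ ha)
  have e : ∀ l ∈ I, ∀ σ, u n I l σ ω = u n I l σ ω' := fun l hl σ =>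
    hu.loc n I l σ σ ω ω' hl (fun _ _ => rfl) fun a ha b hb _ => h _ (not_mem_mk (ne a ha) (ne b hb))
  refine sum_congr rfl fun k hk => ?_
  have e2 : ∑ l ∈ I.erase k, J ω k l * sg (one n l) = ∑ l ∈ I.erase k, J ω' k l * sg (one n l) :=
    sum_congr rfl fun l hl => by rw [ri_J (ne k hk) (ne l (mem_of_mem_erase hl)) h]
  simp only [dd, e l hl, e l' hl', pk, hf, h _ (not_mem_mk (ne k hk) (ne k hk)), e2]

lemma dd_field (c : Fin m → ℝ) (a : Fin m) (I : Finset (Fin n)) (i k : Fin n) (ω : Env n) :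
    dd (fieldOf c u) a I i k ω = ∑ l ∈ I.erase i, J ω i l * dd u a (I.erase i) l k ω := by
  simp only [dd, fieldOf, mul_sub, sum_sub_distrib]
  ring

lemma bilin (a a' : Fin m) (I : Finset (Fin n)) (i j : Fin n) (ω : Env n) :
    ∑ k ∈ I, pk β ρ I k (one n) ω * ((∑ l ∈ I, J ω i l * dd u a I l k ω) *
      ∑ l ∈ I, J ω j l * dd u a' I l k ω) =
      ∑ l ∈ I, ∑ l' ∈ I, J ω i l * J ω j l' * GG β ρ u a a' I l l' ω := by
  simp only [GG, sum_mul_sum]
  simp only [mul_sum]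
  rw [sum_comm]
  refine sum_congr rfl fun l _ => ?_
  rw [sum_comm]
  exact sum_congr rfl fun l' _ => sum_congr rfl fun k _ => by ring

lemma big_erase {N : ℕ} {I : Finset (Fin n)} (h : Big N I) (i : Fin n) : Big (N + 1) (I.erase i) := by
  have := pred_card_le_card_erase (s := I) (a := i)
  unfold Big at *
  omega

section gen
variable {T : ℕ → Type} {A : ∀ n, T n → Prop} (I : ∀ n, T n → Finset (Fin n))
  (l k j : ∀ n, T n → Fin n)

lemma ob_dd0 (hu : Net β ρ u) (a : Fin m) :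
    Ob (PP β ρ) (rt 0) A fun n t => dd u a (I n t) (l n t) (k n t) :=
  ob_sub (ob_reindex (hu.B a) (fun n t => ⟨I n t, one n, l n t, l n t, l n t⟩) fun _ _ _ => trivial)
    (ob_reindex (hu.B a) (fun n t => ⟨I n t, fl (one n) (k n t), l n t, l n t, l n t⟩)
      fun _ _ _ => trivial)

lemma ob_dd1 (hu : Net β ρ u) (a : Fin m) (h : ∀ n t, A n t → k n t ≠ l n t) :
    Ob (PP β ρ) (rt (-1)) A fun n t => dd u a (I n t) (l n t) (k n t) :=
  ob_reindex (hu.F a) (fun n t => ⟨I n t, one n, l n t, l n t, k n t⟩) h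

lemma ob_dd2 (hu : Net β ρ u) (a : Fin m)
    (h : ∀ n t, A n t → k n t ≠ l n t ∧ j n t ≠ l n t ∧ k n t ≠ j n t) :
    Ob (PP β ρ) (rt (-2)) A fun n t ω =>
      dd u a (I n t) (l n t) (k n t) ω - dd u a ((I n t).erase (j n t)) (l n t) (k n t) ω :=
  ob_reindex (hu.FD a) (fun n t => ⟨I n t, one n, l n t, j n t, k n t⟩) h

lemma ob_pk : Ob (PP β ρ) (rt 0) A fun n t => pk β ρ (I n t) (k n t) (one n) :=
  ob_dom ob_det (fun _ _ => meas_pk _ _ _) fun n t _ ω => by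
    rw [pk, abs_of_pos (hb_pos _ _)]
    simpa [rt] using hb_le _ _

lemma ob_J (hL : LinStmt) : Ob (PP β ρ) (rt (-1)) A fun n t ω => J ω (l n t) (k n t) :=
  ob_reindex (hL β ρ).2.1 (fun n t => (l n t, k n t)) fun _ _ _ => trivial

lemma ob_dp (hL : LinStmt) (hS : SmStmt) : Ob (PP β ρ) (rt (-1)) A fun n t ω =>
    pk β ρ (I n t) (k n t) (one n) ω - pk β ρ ((I n t).erase (j n t)) (k n t) (one n) ω :=
  ob_dom (ob_smul β (ob_J k j hL)) (fun _ _ => (meas_pk _ _ _).sub (meas_pk _ _ _))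
    fun n t _ ω => (hS.lip _ _ _).trans (by
      rw [hf, hf, add_sub_add_left_eq_sub, ← mul_sub, erase_right_comm, abs_mul, abs_mul]
      refine mul_le_mul_of_nonneg_left ?_ (abs_nonneg _)
      by_cases h : j n t ∈ (I n t).erase (k n t)
      · rw [← add_sum_erase _ _ h, add_sub_cancel_right]; simp [one_apply, sg]
      · rw [erase_eq_of_notMem h, sub_self, abs_zero]; exact abs_nonneg _)

lemma ob_GG (hu : Net β ρ u) (a a' : Fin m) (h : ∀ n t, A n t → l n t ∈ I n t) :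
    Ob (PP β ρ) (rt 0) A fun n t => GG β ρ u a a' (I n t) (l n t) (l n t) := by
  set B : ∀ n, T n × Fin n → Prop := fun n z => A n z.1 ∧ z.2 ∈ (I n z.1).erase (l n z.1) with hB
  have x : ∀ a, Ob (PP β ρ) (rt (-1)) B fun n z => dd u a (I n z.1) (l n z.1) z.2 := fun a =>
    ob_dd1 (A := B) (fun n z => I n z.1) (fun n z => l n z.1) (fun _ z => z.2) hu a
      fun _ _ h => ne_of_mem_erase h.2
  have y := ob_mulR (r := -2) (ob_pk (β := β) (ρ := ρ) (A := B) (fun n z => I n z.1) fun _ z => z.2)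
    (ob_mulR (r := -2) (x a) (x a') (by norm_num)) (by norm_num)
  refine ob_congr (ob_add (ob_mulR (ob_pk I l) (ob_mulR (r := 0) (ob_dd0 I l l hu a)
    (ob_dd0 I l l hu a') (by norm_num)) (by norm_num))
    (ob_sum (p := -2) (fun n t => (I n t).erase (l n t)) (X := fun n t k ω =>
      pk β ρ (I n t) k (one n) ω * (dd u a (I n t) (l n t) k ω * dd u a' (I n t) (l n t) k ω))
      y (by norm_num))) (fun _ _ => meas_GG hu _ _ _ _ _) fun n t ht ω => ?_
  exact (add_sum_erase _ (fun k => pk β ρ (I n t) k (one n) ω *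
    (dd u a (I n t) (l n t) k ω * dd u a' (I n t) (l n t) k ω)) (h n t ht)).symm

end gen

variable {b : Bath} {c : Fin b.m → ℝ} {v : Fm b.m}

lemma gl (hL : LinStmt) (hQ : QuadStmt) (hS : SmStmt) (hu : Net β ρ v) (h2 : V2 β ρ b v)
    (hX : X0 β ρ b (fieldOf c v)) (a a' : Fin b.m) (N : ℕ) :
    Oo (PP β ρ) (fun n (t : Ix n) => Big N t.I ∧ t.i ∈ t.I) fun _ t ω =>
      GG β ρ (fieldOf c v) a a' t.I t.i t.i ω - 2 * b.A a a' := by
  set A : ∀ n, Ix n → Prop := fun n t => Big N t.I ∧ t.i ∈ t.I with hA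
  set K : ∀ n, Ix n → Finset (Fin n) := fun n t => t.I.erase t.i with hK
  set B : ∀ n, Ix n × Fin n → Prop := fun n z => A n z.1 ∧ z.2 ∈ K n z.1 with hB
  have x : ∀ a, Ob (PP β ρ) (rt (-1)) B fun n z => dd (fieldOf c v) a z.1.I z.1.i z.2 := fun a =>
    ob_dd1 (A := B) (fun _ z => z.1.I) (fun _ z => z.1.i) (fun _ z => z.2) hX.net a
      fun _ _ h => ne_of_mem_erase h.2
  have xx := ob_mulR (r := -2) (x a) (x a') (by norm_num)
  have eQ : ∀ n (t : Ix n) ω, ∑ l ∈ K n t, ∑ k ∈ K n t, J ω t.i l * J ω t.i k *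
      GG β ρ v a a' (K n t) l k ω = ∑ k ∈ K n t, pk β ρ (K n t) k (one n) ω *
        (dd (fieldOf c v) a t.I t.i k ω * dd (fieldOf c v) a' t.I t.i k ω) := fun n t ω => by
    simp only [dd_field]
    exact (bilin _ _ _ _ _ _).symm
  have q1 := ob_GG (A := B) (fun n z => K n z.1) (fun _ z => z.2) hu a a' fun _ _ h => h.2
  have q2 := oo_reindex (A' := fun n (z : Ix n × Fin n × Fin n) => A n z.1 ∧ z.2.1 ∈ K n z.1 ∧
    z.2.2 ∈ K n z.1 ∧ z.2.1 ≠ z.2.2) (h2.go a a' (N + 1))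
    (fun n z => ⟨K n z.1, one n, z.2.1, z.2.2, z.2.1⟩) fun _ _ h => ⟨big_erase h.1.1 _, h.2⟩
  have q3 := ob_sum (r := 0) (A := A) K (X := fun n t k ω => pk β ρ (K n t) k (one n) ω *
      (dd (fieldOf c v) a t.I t.i k ω * dd (fieldOf c v) a' t.I t.i k ω))
    (ob_mulR (r := -2) (ob_pk (β := β) (ρ := ρ) (A := B) (fun n z => K n z.1) fun _ z => z.2) xx
      (by norm_num)) (by norm_num)
  have q := hQ β ρ Ix A (fun _ t => t.i) K (fun n t l k => GG β ρ v a a' (K n t) l k)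
    (fun n t _ => ⟨notMem_erase _ _, fun l hl k hk => ri_GG hu a a' (notMem_erase _ _) hl hk⟩)
    q1 q2 (by simpa only [eQ] using q3)
  have g : Oo (PP β ρ) A fun n t ω => (∑ l ∈ K n t, GG β ρ v a a' (K n t) l l ω) / n - 2 * b.A a a' :=
    oo_reindex (h2.gl a a' (N + 1)) (fun n (t : Ix n) => ⟨K n t, one n, t.i, t.i, t.i⟩)
      fun _ _ h => big_erase h.1 _
  have e := oo_of (ob_sum (p := -3) (A := A) K (X := fun n t k ω =>
      (pk β ρ t.I k (one n) ω - pk β ρ (K n t) k (one n) ω) *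
        (dd (fieldOf c v) a t.I t.i k ω * dd (fieldOf c v) a' t.I t.i k ω))
    (ob_mulR (ob_dp (β := β) (ρ := ρ) (A := B) (fun _ z => z.1.I) (fun _ z => z.2) (fun _ z => z.1.i)
      hL hS) xx (by norm_num)) (by norm_num))
  refine oo_eq (oo_add (oo_add q g) e) fun n t ω => ?_
  rw [eQ, GG, ← sum_erase (a := t.i) _ (by simp [dd, hX.ind])]
  simp only [sub_mul, sum_sub_distrib]
  ring

lemma go (hL : LinStmt) (hS : SmStmt) (hu : Net β ρ v) (h2 : V2 β ρ b v)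
    (hX : X0 β ρ b (fieldOf c v)) (a a' : Fin b.m) (N : ℕ) :
    Oo (PP β ρ) (fun n (t : Ix n) => Big N t.I ∧ t.i ∈ t.I ∧ t.j ∈ t.I ∧ t.i ≠ t.j) fun _ t =>
      GG β ρ (fieldOf c v) a a' t.I t.i t.j := by
  set A : ∀ n, Ix n → Prop := fun n t => Big N t.I ∧ t.i ∈ t.I ∧ t.j ∈ t.I ∧ t.i ≠ t.j with hA
  set K : ∀ n, Ix n → Finset (Fin n) := fun n t => (t.I.erase t.i).erase t.j with hK
  have ni : ∀ n (t : Ix n), t.i ∉ K n t := fun n t h => notMem_erase _ _ (mem_of_mem_erase h)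
  have nj : ∀ n (t : Ix n), t.j ∉ K n t := fun n t => notMem_erase _ _
  have ki : ∀ {n} {t : Ix n} {k}, k ∈ K n t → k ≠ t.i := fun h => ne_of_mem_erase (mem_of_mem_erase h)
  have kj : ∀ {n} {t : Ix n} {k}, k ∈ K n t → k ≠ t.j := fun h => ne_of_mem_erase h
  -- the coefficients of row `i`
  obtain ⟨d, hd, o1⟩ := oo_reindex (A' := fun n (z : (Ix n × Fin n) × Fin n) =>
      (A n z.1.1 ∧ z.1.2 ∈ K n z.1.1) ∧ z.2 ∈ (K n z.1.1).erase z.1.2) (h2.go a a' (N + 1 + 1))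
    (fun n z => ⟨K n z.1.1, one n, z.1.2, z.2, z.2⟩) fun _ _ h =>
      ⟨big_erase (big_erase h.1.1.1 _) _, h.1.2, mem_of_mem_erase h.2, (ne_of_mem_erase h.2).symm⟩
  have o2 := (hL β ρ).2.2 (fun n => Ix n × Fin n) (fun n z => A n z.1 ∧ z.2 ∈ K n z.1) d
    (fun _ z => z.1.j) (fun n z => (K n z.1).erase z.2) (fun n z l => GG β ρ v a a' (K n z.1) z.2 l)
    (fun n z h => ⟨fun e => nj n z.1 (mem_of_mem_erase e), fun l hl =>
      ri_GG hu a a' (nj n z.1) h.2 (mem_of_mem_erase hl)⟩) o1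
  obtain ⟨d', hd', o3⟩ := oo_congr (Y := fun n (z : Ix n × Fin n) ω => ∑ l ∈ K n z.1,
      J ω z.1.j l * GG β ρ v a a' (K n z.1) z.2 l ω)
    (oo_add (oo_of (ob_mulR (ob_J (fun _ z => z.1.j) (fun _ z => z.2) hL)
      (ob_GG (fun n z => K n z.1) (fun _ z => z.2) hu a a' fun _ _ h => h.2) (by norm_num)))
      ⟨d, hd, o2⟩)
    (fun n z => measurable_sum _ fun l _ => (meas_J _ _).mul (meas_GG hu _ _ _ _ _))
    fun n z h ω => (add_sum_erase _ _ h.2).symm
  have o4 := (hL β ρ).2.2 Ix A d' (fun _ t => t.i) K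
    (fun n t l ω => ∑ l' ∈ K n t, J ω t.j l' * GG β ρ v a a' (K n t) l l' ω)
    (fun n t h => ⟨ni n t, fun l hl ω ω' e => sum_congr rfl fun l' hl' => by
      rw [ri_J h.2.2.2 (ki hl').symm e, ri_GG hu a a' (ni n t) hl hl' ω ω' e]⟩) o3
  -- the errors
  set B : ∀ n, Ix n × Fin n → Prop := fun n z => A n z.1 ∧ z.2 ∈ K n z.1 with hB
  have x1 : Ob (PP β ρ) (rt (-1)) B fun n z => dd (fieldOf c v) a z.1.I z.1.i z.2 :=
    ob_dd1 (A := B) (fun _ z => z.1.I) (fun _ z => z.1.i) (fun _ z => z.2) hX.net a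
      fun _ _ h => ki h.2
  have y1 : Ob (PP β ρ) (rt (-1)) B fun n z => dd (fieldOf c v) a' z.1.I z.1.j z.2 :=
    ob_dd1 (A := B) (fun _ z => z.1.I) (fun _ z => z.1.j) (fun _ z => z.2) hX.net a'
      fun _ _ h => kj h.2
  have x1' : Ob (PP β ρ) (rt (-1)) B fun n z => dd (fieldOf c v) a (z.1.I.erase z.1.j) z.1.i z.2 :=
    ob_dd1 (A := B) (fun _ z => z.1.I.erase z.1.j) (fun _ z => z.1.i) (fun _ z => z.2) hX.net a
      fun _ _ h => ki h.2
  have x2 := ob_dd2 (A := B) (fun _ z => z.1.I) (fun _ z => z.1.i) (fun _ z => z.2) (fun _ z => z.1.j)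
    hX.net a fun _ _ h => ⟨ki h.2, h.1.2.2.2.symm, kj h.2⟩
  have y2 := ob_dd2 (A := B) (fun _ z => z.1.I) (fun _ z => z.1.j) (fun _ z => z.2) (fun _ z => z.1.i)
    hX.net a' fun _ _ h => ⟨kj h.2, h.1.2.2.2, ki h.2⟩
  have p0 := ob_pk (β := β) (ρ := ρ) (A := B) (fun n z => K n z.1) fun _ z => z.2
  have p1 := ob_add (ob_dp (β := β) (ρ := ρ) (A := B) (fun _ z => z.1.I) (fun _ z => z.2)
    (fun _ z => z.1.i) hL hS) (ob_dp (A := B) (fun _ z => z.1.I.erase z.1.i) (fun _ z => z.2)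
      (fun _ z => z.1.j) hL hS)
  have e := oo_of (ob_sum (p := -3) K (X := fun n t k ω =>
      (pk β ρ t.I k (one n) ω - pk β ρ (t.I.erase t.i) k (one n) ω +
        (pk β ρ (t.I.erase t.i) k (one n) ω - pk β ρ (K n t) k (one n) ω)) *
        (dd (fieldOf c v) a t.I t.i k ω * dd (fieldOf c v) a' t.I t.j k ω) +
      pk β ρ (K n t) k (one n) ω *
        ((dd (fieldOf c v) a t.I t.i k ω - dd (fieldOf c v) a (t.I.erase t.j) t.i k ω) *
          dd (fieldOf c v) a' t.I t.j k ω + dd (fieldOf c v) a (t.I.erase t.j) t.i k ω *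
          (dd (fieldOf c v) a' t.I t.j k ω - dd (fieldOf c v) a' (t.I.erase t.i) t.j k ω)))
    (ob_add (ob_mulR p1 (ob_mulR (r := -2) x1 y1 (by norm_num)) (by norm_num))
      (ob_mulR p0 (ob_add (ob_mulR (r := -3) x2 y1 (by norm_num)) (ob_mulR x1' y2 (by norm_num)))
        (by norm_num))) (by norm_num))
  refine oo_eq (oo_add ⟨d', hd', o4⟩ e) fun n t ω => ?_
  have e1 := bilin (β := β) (ρ := ρ) (u := v) a a' (K n t) t.i t.j ω
  have e2 : ∀ k, dd (fieldOf c v) a (t.I.erase t.j) t.i k ω =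
      ∑ l ∈ K n t, J ω t.i l * dd v a (K n t) l k ω := fun k => by
    rw [dd_field, erase_right_comm]
  have e3 : ∀ k, dd (fieldOf c v) a' (t.I.erase t.i) t.j k ω =
      ∑ l ∈ K n t, J ω t.j l * dd v a' (K n t) l k ω := fun k => dd_field _ _ _ _ _ _
  simp only [← e2, ← e3, mul_assoc, ← mul_sum] at e1
  rw [← e1, GG, ← sum_erase (a := t.i) _ (by simp [dd, hX.ind]),
    ← sum_erase (a := t.j) _ (by simp [dd, hX.ind]), ← sum_add_distrib]
  exact sum_congr rfl fun k _ => by ring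

end X79

theorem x2Glue : X2Glue := fun hL hQ hS h0 β ρ b c u h1 h2 =>
  ⟨X79.gl hL hQ hS h1.net h2 (h0 β ρ b c u h1), X79.go hL hS h1.net h2 (h0 β ρ b c u h1)⟩

end Crest.Agent.T157.Rn

end
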