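import Crest.Agent.T157.RnV_66

/-!
# Row 157, block B/R (helper73): the generator on the fields (`Rn.X3Glue`)
-/

set_option autoImplicit false

noncomputable section

namespace Crest.Agent.T157.Rn

open MeasureTheory ProbabilityTheory Real Matrix Filter Topology
open Crest.Agent.R238.Gap Crest.Agent.R238.GapPc Crest.Agent.R253.Meh74
open Crest.Agent.T157.E (Cube)
open Crest.Agent.T157.Tw
open Crest.Agent.T157.Pl (one cmul)
open scoped NNReal ENNReal

namespace X73

open V66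

section order
variable {Ω : ℕ → Type} [∀ n, MeasurableSpace (Ω n)] {T : ℕ → Type} {P : ∀ n, Measure (Ω n)}
  {a : ℕ → ℝ} {A : ∀ n, T n → Prop} {X Y : ∀ n, T n → Ω n → ℝ}

lemma ob_dom (h : Ob P a A X) (hY : ∀ n t, Measurable (Y n t))
    (e : ∀ n t, A n t → ∀ ω, |Y n t ω| ≤ |X n t ω|) : Ob P a A Y :=
  ⟨hY, fun q => (h.2 q).imp fun _ hC => hC.mono fun n hn t ht =>
    (eLpNorm_mono fun ω => e n t ht ω).trans (hn t ht)⟩

lemma ob_det (c : ℕ → ℝ) (h : Ob P a A X) :
    Ob P (fun n => c n * a n) A fun n t ω => c n * X n t ω := by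
  refine ⟨fun n t => (h.1 n t).const_mul _, fun q => (h.2 q).imp fun C hC =>
    hC.mono fun n hn t ht => ?_⟩
  refine (eLpNorm_const_smul_le (c := c n) (f := X n t)).trans ?_
  rw [enorm_mul, mul_left_comm]
  exact mul_le_mul_right (hn t ht) _

lemma ob_sum (S : ∀ n, T n → Finset (Fin n)) {X : ∀ n, T n → Fin n → Ω n → ℝ}
    (h : Ob P a (fun n (p : T n × Fin n) => A n p.1 ∧ p.2 ∈ S n p.1) fun n p => X n p.1 p.2) :
    Ob P (fun n => (n : ℝ) * a n) A fun n t ω => ∑ l ∈ S n t, X n t l ω := by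
  refine ob_congr (ob_det (fun n => (n : ℝ)) (ob_avg S h))
    (fun n t => Finset.measurable_sum _ fun l _ => h.1 n (t, l)) fun n t _ ω => ?_
  rcases Nat.eq_zero_or_pos n with rfl | hn
  · simp [Finset.eq_empty_of_isEmpty]
  · have : (n : ℝ) ≠ 0 := by exact_mod_cast hn.ne'
    field_simp

lemma rt_tendsto : Tendsto (rt (-1)) atTop (𝓝 0) := by
  have h : Tendsto (fun n : ℕ => √(n : ℝ)) atTop atTop :=
    tendsto_sqrt_atTop.comp tendsto_natCast_atTop_atTop
  refine h.inv_tendsto_atTop.congr fun n => ?_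
  simp [rt]

lemma ob_oo (h : Ob P (rt (-1)) A X) : Oo P A X := ⟨_, rt_tendsto, h⟩

lemma n_rt (p : ℤ) : ∀ᶠ n : ℕ in atTop, |(n : ℝ) * rt p n| ≤ |rt (2 + p) n| :=
  (rt_mul 2 p).mono fun n hn => by
    have : rt 2 n = n := by
      rw [rt, zpow_ofNat, sq_sqrt (Nat.cast_nonneg _)]
    rwa [this] at hn

lemma oo_congr (h : Oo P A X) (hY : ∀ n t, Measurable (Y n t))
    (e : ∀ n t, A n t → ∀ ω, Y n t ω = X n t ω) : Oo P A Y :=
  h.imp fun _ h => ⟨h.1, ob_congr h.2 hY e⟩

lemma oo_fsum {ι : Type} (S : Finset ι) {X : ι → ∀ n, T n → Ω n → ℝ}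
    (h : ∀ i, Oo P A (X i)) : Oo P A fun n t ω => ∑ i ∈ S, X i n t ω := by
  classical
  induction S using Finset.induction_on with
  | empty => simpa using ob_oo (P := P) (A := A) ob_zero
  | insert k s hk ih => simpa [Finset.sum_insert hk] using oo_add (h k) ih

end order

variable {β ρ : ℝ} {m n : ℕ}

/-- the component along `v` -/
def ph (v : Fin m → ℝ) (u : Fm m) (I : Finset (Fin n)) (l : Fin n) (σ : Cube n) (ω : Env n) : ℝ :=
  ∑ a, v a * u n I l σ ω a

/-- the difference under the flip of `k` -/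
def dp (v : Fin m → ℝ) (u : Fm m) (I : Finset (Fin n)) (l k : Fin n) (ω : Env n) : ℝ :=
  ph v u I l (one n) ω - ph v u I l (fl (one n) k) ω

lemma ph_field (v c : Fin m → ℝ) (u : Fm m) (I : Finset (Fin n)) (i : Fin n) (σ : Cube n)
    (ω : Env n) : ph v (fieldOf c u) I i σ ω =
      (v ⬝ᵥ c) * ω s(i, i) + ∑ l ∈ I.erase i, J ω i l * ph v u (I.erase i) l σ ω := by
  simp only [ph, fieldOf, mul_add, Finset.sum_add_distrib, dotProduct, Finset.sum_mul,
    Finset.mul_sum]
  rw [Finset.sum_comm]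
  congr 1
  · exact Finset.sum_congr rfl fun _ _ => by ring
  · exact Finset.sum_congr rfl fun _ _ => Finset.sum_congr rfl fun _ _ => by ring

lemma dp_field (v c : Fin m → ℝ) (u : Fm m) (I : Finset (Fin n)) (i k : Fin n) (ω : Env n) :
    dp v (fieldOf c u) I i k ω = ∑ l ∈ I.erase i, J ω i l * dp v u (I.erase i) l k ω := by
  simp only [dp, ph_field, mul_sub, Finset.sum_sub_distrib]
  ring

lemma hf_erase {I : Finset (Fin n)} {i k : Fin n} (hi : i ∈ I) (hk : k ≠ i) (ω : Env n) :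
    hf β ρ I k (one n) ω = hf β ρ (I.erase i) k (one n) ω + β * J ω i k := by
  have h1 : i ∈ I.erase k := Finset.mem_erase.2 ⟨hk.symm, hi⟩
  have h2 : J ω k i = J ω i k := by rw [J, J, Sym2.eq_swap]
  unfold hf
  rw [← Finset.add_sum_erase _ _ h1, Finset.erase_right_comm, h2]
  simp only [one_apply, sg, if_true]
  ring

lemma meas_J (i l : Fin n) : Measurable fun ω : Env n => J ω i l :=
  (measurable_pi_apply _).div_const _

lemma meas_hf (I : Finset (Fin n)) (k : Fin n) (σ : Cube n) : Measurable (hf β ρ I k σ) :=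
  ((measurable_pi_apply _).const_mul _).add
    ((Finset.measurable_sum _ fun l _ => (meas_J k l).mul_const _).const_mul _)

lemma meas_pk (I : Finset (Fin n)) (k : Fin n) (σ : Cube n) : Measurable (pk β ρ I k σ) :=
  (continuous_hb _).measurable.comp (meas_hf I k σ)

lemma meas_sech2 : Measurable sech2 := by
  unfold sech2
  exact measurable_const.div (Real.continuous_cosh.measurable.pow_const 2)

lemma sech2_le (h : ℝ) : |sech2 h / 2| ≤ 1 := by
  have h1 := Real.one_le_cosh h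
  have h2 : 1 ≤ cosh h ^ 2 := one_le_pow₀ h1
  have h3 : sech2 h ≤ 1 := by unfold sech2; rw [div_le_one (by linarith)]; exact h2
  have h4 : 0 ≤ sech2 h := by unfold sech2; positivity
  rw [abs_le]; constructor <;> linarith

lemma meas_ph {u : Fm m} (hu : Net β ρ u) (v : Fin m → ℝ) (I : Finset (Fin n)) (l : Fin n)
    (σ : Cube n) : Measurable (ph v u I l σ) :=
  Finset.measurable_sum _ fun a _ => Measurable.const_mul
    ((measurable_pi_apply a).comp ((WithLp.measurable_ofLp _ _).comp (hu.meas n I l σ))) _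

lemma meas_dp {u : Fm m} (hu : Net β ρ u) (v : Fin m → ℝ) (I : Finset (Fin n)) (l k : Fin n) :
    Measurable (dp v u I l k) := (meas_ph hu v I l _).sub (meas_ph hu v I l _)

lemma not_mem {I : Finset (Fin n)} {i a b : Fin n} (ha : a ∈ I.erase i) (hb : b ∈ I.erase i) :
    i ∉ s(a, b) := by
  rw [Sym2.mem_iff]
  rintro (h | h)
  · exact Finset.ne_of_mem_erase ha h.symm
  · exact Finset.ne_of_mem_erase hb h.symm

lemma ri_ph {u : Fm m} (hu : Net β ρ u) (v : Fin m → ℝ) {I : Finset (Fin n)} {i l : Fin n}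
    (hl : l ∈ I.erase i) (σ : Cube n) : RI i (ph v u (I.erase i) l σ) := fun ω ω' h => by
  unfold ph
  rw [hu.loc n _ l σ σ ω ω' hl (fun _ _ => rfl) fun a ha b hb _ => h _ (not_mem ha hb)]

lemma ri_hf {I : Finset (Fin n)} {i k : Fin n} (hk : k ∈ I.erase i) (σ : Cube n) :
    RI i (hf β ρ (I.erase i) k σ) := fun ω ω' h => by
  unfold hf
  rw [h _ (not_mem hk hk)]
  congr 2
  refine Finset.sum_congr rfl fun l hl => ?_
  rw [J, J, h _ (not_mem hk (Finset.mem_of_mem_erase hl))]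

lemma ob_ph {u : Fm m} (hu : Net β ρ u) (v : Fin m → ℝ) :
    Ob (PP β ρ) (rt 0) (fun n (_ : Ix n) => True) fun _ t ω => ph v u t.I t.i t.σ ω :=
  ob_fsum _ fun a => ob_smul (v a) (hu.B a)

lemma ob_dp {u : Fm m} (hu : Net β ρ u) (v : Fin m → ℝ) :
    Ob (PP β ρ) (rt (-1)) (fun n (t : Ix n) => t.k ≠ t.i) fun _ t ω => dp v u t.I t.i t.k ω := by
  have h := ob_reindex (ob_fsum Finset.univ fun a => ob_smul (v a) (hu.F a))
    (A' := fun n (t : Ix n) => t.k ≠ t.i) (fun n t => { t with σ := one n }) fun _ _ h => h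
  refine ob_congr h (fun n t => meas_dp hu v _ _ _) fun n t _ ω => ?_
  simp only [dp, ph, mul_sub, Finset.sum_sub_distrib]

lemma big_erase {N : ℕ} {I : Finset (Fin n)} (h : Big N I) (i : Fin n) : Big (N + 1) (I.erase i) := by
  have := Finset.pred_card_le_card_erase (s := I) (a := i)
  unfold Big at *
  omega

/-- the matrix of the quadratic term -/
def Mq (β ρ : ℝ) (v : Fin m → ℝ) (u : Fm m) (I : Finset (Fin n)) (l k : Fin n) (ω : Env n) : ℝ :=
  sech2 (hf β ρ I k (one n) ω) / 2 * dp v u I l k ω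

/-- the remainder of the rate -/
def rm (β ρ : ℝ) (I : Finset (Fin n)) (i k : Fin n) (ω : Env n) : ℝ :=
  pk β ρ I k (one n) ω - pk β ρ (I.erase i) k (one n) ω +
    sech2 (hf β ρ (I.erase i) k (one n) ω) / 2 * (β * J ω i k)

lemma meas_Mq {u : Fm m} (hu : Net β ρ u) (v : Fin m → ℝ) (I : Finset (Fin n)) (l k : Fin n) :
    Measurable (Mq β ρ v u I l k) :=
  ((meas_sech2.comp (meas_hf I k _)).div_const _).mul (meas_dp hu v I l k)

lemma meas_rm (I : Finset (Fin n)) (i k : Fin n) : Measurable (rm β ρ I i k) :=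
  ((meas_pk I k _).sub (meas_pk _ k _)).add
    (((meas_sech2.comp (meas_hf _ k _)).div_const _).mul ((meas_J i k).const_mul _))

lemma rm_le (hS : SmStmt) {I : Finset (Fin n)} {i k : Fin n} (hi : i ∈ I) (hk : k ≠ i)
    (ω : Env n) : |rm β ρ I i k ω| ≤ (β * J ω i k) ^ 2 := by
  have h := hS.tay (hf β ρ (I.erase i) k (one n) ω) (hf β ρ I k (one n) ω) false
  rw [hf_erase hi hk, add_sub_cancel_left] at h
  unfold rm pk
  rw [hf_erase hi hk]
  convert h using 2
  simp only [one_apply, sg, Bool.not_true, Bool.false_eq_true, if_false]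
  ring

lemma Mq_le (v : Fin m → ℝ) (u : Fm m) (I : Finset (Fin n)) (l k : Fin n) (ω : Env n) :
    |Mq β ρ v u I l k ω| ≤ |dp v u I l k ω| := by
  rw [Mq, abs_mul]
  exact mul_le_of_le_one_left (abs_nonneg _) (sech2_le _)

lemma form_eq (v c : Fin m → ℝ) (u : Fm m) (I : Finset (Fin n)) (i : Fin n) (ω : Env n) :
    ∑ l ∈ I.erase i, ∑ k ∈ I.erase i, J ω i l * J ω i k * Mq β ρ v u (I.erase i) l k ω =
      ∑ k ∈ I.erase i, sech2 (hf β ρ (I.erase i) k (one n) ω) / 2 *
        (J ω i k * dp v (fieldOf c u) I i k ω) := by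
  rw [Finset.sum_comm]
  refine Finset.sum_congr rfl fun k _ => ?_
  rw [dp_field, Finset.mul_sum, Finset.mul_sum]
  exact Finset.sum_congr rfl fun l _ => by rw [Mq]; ring

lemma nL_eq (v c : Fin m → ℝ) (u : Fm m) {I : Finset (Fin n)} {i : Fin n} (hi : i ∈ I)
    (ω : Env n) (h0 : dp v (fieldOf c u) I i i ω = 0) :
    nL β ρ I (fun σ => ph v (fieldOf c u) I i σ ω) (one n) ω =
      ∑ l ∈ I.erase i, J ω i l * nL β ρ (I.erase i) (fun σ => ph v u (I.erase i) l σ ω) (one n) ω -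
      β * ∑ l ∈ I.erase i, ∑ k ∈ I.erase i, J ω i l * J ω i k * Mq β ρ v u (I.erase i) l k ω +
      ∑ k ∈ I.erase i, rm β ρ I i k ω * dp v (fieldOf c u) I i k ω := by
  have e1 : ∑ l ∈ I.erase i, J ω i l *
      nL β ρ (I.erase i) (fun σ => ph v u (I.erase i) l σ ω) (one n) ω =
      ∑ k ∈ I.erase i, pk β ρ (I.erase i) k (one n) ω * dp v (fieldOf c u) I i k ω := by
    simp only [nL, dp_field, Finset.mul_sum]
    rw [Finset.sum_comm]
    exact Finset.sum_congr rfl fun k _ => Finset.sum_congr rfl fun l _ => by rw [dp]; ring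
  have e2 : nL β ρ I (fun σ => ph v (fieldOf c u) I i σ ω) (one n) ω =
      ∑ k ∈ I.erase i, pk β ρ I k (one n) ω * dp v (fieldOf c u) I i k ω := by
    rw [nL, ← Finset.add_sum_erase _ _ hi]
    change _ * dp v (fieldOf c u) I i i ω + _ = _
    rw [h0, mul_zero, zero_add]
    rfl
  rw [e1, e2, form_eq v c, Finset.mul_sum, ← Finset.sum_sub_distrib, ← Finset.sum_add_distrib]
  exact Finset.sum_congr rfl fun k _ => by rw [rm]; ring

theorem main : X3Glue := by
  intro hL hQ hS hX0 β ρ b c U u h1 h2 h3 v hv N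
  have hu := h1.net
  have hX := hX0 β ρ b c u h1
  obtain ⟨hc, h3⟩ := h3 v hv
  obtain ⟨-, hJ, hL⟩ := hL β ρ
  set A : ∀ n, Ix n → Prop := fun n t => Big N t.I ∧ t.i ∈ t.I with hA
  -- first term
  have T1 : Oo (PP β ρ) A fun n t ω => ∑ l ∈ t.I.erase t.i, J ω t.i l *
      (nL β ρ (t.I.erase t.i) (fun σ => ph v u (t.I.erase t.i) l σ ω) (one n) ω -
        ph (b.A *ᵥ v) u (t.I.erase t.i) l (one n) ω) := by
    obtain ⟨d, hd, h⟩ := h3 (N + 1)
    refine ⟨d, hd, hL Ix A d (fun _ t => t.i) (fun _ t => t.I.erase t.i) (fun n t l ω =>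
      nL β ρ (t.I.erase t.i) (fun σ => ph v u (t.I.erase t.i) l σ ω) (one n) ω -
        ph (b.A *ᵥ v) u (t.I.erase t.i) l (one n) ω)
      (fun n t _ => ⟨Finset.notMem_erase _ _, fun l hl ω ω' e => ?_⟩) ?_⟩
    · simp only [nL, pk, ri_ph hu _ hl _ ω ω' e]
      congr 1
      exact Finset.sum_congr rfl fun k hk => by rw [ri_hf hk _ ω ω' e]
    · exact ob_reindex h (fun n (p : Ix n × Fin n) =>
        { p.1 with I := p.1.I.erase p.1.i, i := p.2 }) fun n p hp => ⟨big_erase hp.1.1 _, hp.2⟩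
  -- increments of the field
  have D1 : Ob (PP β ρ) (rt (-1)) (fun n (p : Ix n × Fin n) => A n p.1 ∧ p.2 ∈ p.1.I.erase p.1.i)
      fun n p ω => dp v (fieldOf c u) p.1.I p.1.i p.2 ω :=
    ob_reindex (ob_dp hX.net v) (fun n (p : Ix n × Fin n) => { p.1 with k := p.2 })
      fun n p hp => Finset.ne_of_mem_erase hp.2
  have J1 : Ob (PP β ρ) (rt (-1)) (fun n (p : Ix n × Fin n) => A n p.1 ∧ p.2 ∈ p.1.I.erase p.1.i)
      fun n p ω => J ω p.1.i p.2 :=
    ob_reindex hJ (fun n (p : Ix n × Fin n) => (p.1.i, p.2)) fun _ _ _ => trivial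
  -- second term
  have T2 : Oo (PP β ρ) A fun n t ω => ∑ l ∈ t.I.erase t.i, ∑ k ∈ t.I.erase t.i,
      J ω t.i l * J ω t.i k * Mq β ρ v u (t.I.erase t.i) l k ω -
        (∑ l ∈ t.I.erase t.i, Mq β ρ v u (t.I.erase t.i) l l ω) / n := by
    refine hQ β ρ Ix A (fun _ t => t.i) (fun _ t => t.I.erase t.i)
      (fun n t l k => Mq β ρ v u (t.I.erase t.i) l k)
      (fun n t _ => ⟨Finset.notMem_erase _ _, fun l hl k hk ω ω' e => ?_⟩) ?_ ?_ ?_
    · simp only [Mq, dp, ri_ph hu _ hl _ ω ω' e, ri_hf hk _ ω ω' e]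
    · refine ob_dom (ob_sub
        (ob_reindex (ob_ph hu v) (fun n (p : Ix n × Fin n) =>
          { p.1 with I := p.1.I.erase p.1.i, i := p.2, σ := one n }) fun _ _ _ => trivial)
        (ob_reindex (ob_ph hu v) (fun n (p : Ix n × Fin n) =>
          { p.1 with I := p.1.I.erase p.1.i, i := p.2, σ := fl (one n) p.2 }) fun _ _ _ => trivial))
        (fun n p => meas_Mq hu v _ _ _) fun n p _ ω => Mq_le _ _ _ _ _ _
    · refine ob_oo (ob_dom (ob_reindex (ob_dp hu v) (fun n (p : Ix n × Fin n × Fin n) =>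
          { p.1 with I := p.1.I.erase p.1.i, i := p.2.1, k := p.2.2 }) fun n p hp => hp.2.2.2.symm)
        (fun n p => meas_Mq hu v _ _ _) fun n p _ ω => Mq_le _ _ _ _ _ _)
    · have h4 : Ob (PP β ρ) (rt (-2))
          (fun n (p : Ix n × Fin n) => A n p.1 ∧ p.2 ∈ p.1.I.erase p.1.i) fun n p ω =>
          sech2 (hf β ρ (p.1.I.erase p.1.i) p.2 (one n) ω) / 2 *
            (J ω p.1.i p.2 * dp v (fieldOf c u) p.1.I p.1.i p.2 ω) :=
        ob_dom (ob_mono (ob_mul J1 D1) (rt_mul (-1) (-1)))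
          (fun n p => ((meas_sech2.comp (meas_hf _ _ _)).div_const _).mul
            ((meas_J _ _).mul (meas_dp hX.net v _ _ _))) fun n p _ ω => by
          rw [abs_mul]
          exact mul_le_of_le_one_left (abs_nonneg _) (sech2_le _)
      have h5 := ob_mono (ob_sum (A := A) (fun _ t => t.I.erase t.i)
        (X := fun n t k ω => sech2 (hf β ρ (t.I.erase t.i) k (one n) ω) / 2 *
          (J ω t.i k * dp v (fieldOf c u) t.I t.i k ω)) h4) (n_rt (-2))
      refine ob_congr h5 (fun n t => Finset.measurable_sum _ fun l _ =>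
        Finset.measurable_sum _ fun k _ => ((meas_J _ _).mul (meas_J _ _)).mul
          (meas_Mq hu v _ _ _)) fun n t _ ω => form_eq v c u _ _ _
  -- third term
  have T3 : Oo (PP β ρ) A fun n t ω =>
      β * ((∑ l ∈ t.I.erase t.i, Mq β ρ v u (t.I.erase t.i) l l ω) / n) - (b.A *ᵥ v) ⬝ᵥ b.g := by
    refine oo_eq (oo_fsum Finset.univ fun a => oo_smul (v a) (oo_reindex (h2.dl a (N + 1))
      (A' := A) (fun n t => { t with I := t.I.erase t.i }) fun n t ht => big_erase ht.1 _))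
      fun n t ω => ?_
    have hs : b.Aᵀ = b.A := b.psd.1
    have e : (b.A *ᵥ v) ⬝ᵥ b.g = ∑ a, v a * (b.A *ᵥ b.g) a := by
      rw [← hs, Matrix.mulVec_transpose, ← Matrix.dotProduct_mulVec, hs]; rfl
    simp only [e, mul_sub, Finset.sum_sub_distrib, Mq, dp, ph, Finset.mul_sum, Finset.sum_div,
      sub_div]
    congr 1
    congr 1 <;> rw [Finset.sum_comm] <;>
      exact Finset.sum_congr rfl fun _ _ => Finset.sum_congr rfl fun _ _ => by ring
  -- fourth term
  have T4 : Oo (PP β ρ) A fun n t ω =>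
      ∑ k ∈ t.I.erase t.i, rm β ρ t.I t.i k ω * dp v (fieldOf c u) t.I t.i k ω := by
    have h4 : Ob (PP β ρ) (rt (-2))
        (fun n (p : Ix n × Fin n) => A n p.1 ∧ p.2 ∈ p.1.I.erase p.1.i) fun n p ω =>
        rm β ρ p.1.I p.1.i p.2 ω :=
      ob_dom (ob_mono (ob_mul (ob_smul β J1) (ob_smul β J1)) (rt_mul (-1) (-1)))
        (fun n p => meas_rm _ _ _) fun n p hp ω => by
        refine (rm_le hS hp.1.2 (Finset.ne_of_mem_erase hp.2) ω).trans ?_
        rw [sq]; exact le_abs_self _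
    exact ob_oo (ob_mono (ob_sum (A := A) (fun _ t => t.I.erase t.i)
      (X := fun n t k ω => rm β ρ t.I t.i k ω * dp v (fieldOf c u) t.I t.i k ω)
      (ob_mono (ob_mul h4 D1) (rt_mul (-2) (-1)))) (n_rt (-2 + -1)))
  refine oo_congr (oo_add (oo_add (oo_add T1 (oo_smul (-β) T2)) (oo_smul (-1) T3)) T4)
    (fun n t => ?_) fun n t ht ω => ?_
  · refine Measurable.sub (Finset.measurable_sum _ fun k _ => (meas_pk _ _ _).mul
      ((meas_ph hX.net v _ _ _).sub (meas_ph hX.net v _ _ _)))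
      (Finset.measurable_sum _ fun a _ => Measurable.const_mul (Measurable.sub_const ?_ _) _)
    exact (measurable_pi_apply a).comp ((WithLp.measurable_ofLp _ _).comp (hX.net.meas n _ _ _))
  · have h0 : dp v (fieldOf c u) t.I t.i t.i ω = 0 := by simp only [dp, ph, hX.ind, sub_self]
    have e1 := nL_eq (β := β) (ρ := ρ) v c u ht.2 ω h0
    have e2 := ph_field (b.A *ᵥ v) c u t.I t.i (one n) ω
    rw [hc, zero_mul, zero_add] at e2
    have e3 : ∑ a, (b.A *ᵥ v) a * (fieldOf c u n t.I t.i (one n) ω a - b.g a) =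
        ph (b.A *ᵥ v) (fieldOf c u) t.I t.i (one n) ω - (b.A *ᵥ v) ⬝ᵥ b.g := by
      simp only [mul_sub, Finset.sum_sub_distrib, ph, dotProduct]
    change nL β ρ t.I (fun σ => ph v (fieldOf c u) t.I t.i σ ω) (one n) ω - _ = _
    rw [e1, e3, e2]
    simp only [mul_sub, Finset.sum_sub_distrib]
    ring

end X73

theorem x3Glue : X3Glue := X73.main

end Crest.Agent.T157.Rn

end
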