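import Crest.Agent.T157.RnLoc_60
import Crest.Agent.T157.RnBase_54
import Crest.Agent.T157.RnCav_89
import Crest.Agent.T157.RnGam_80
import Crest.Agent.T157.RnLam_77
import Crest.Agent.T157.RnLin_49
import Crest.Agent.T157.RnLln_6
import Crest.Agent.T157.RnOut_10
import Crest.Agent.T157.RnTay_16
import Crest.Agent.T157.RnX0_15
import Crest.Agent.T157.RnX2_79
import Crest.Agent.T157.RnX3_73
import Crest.Agent.T157.LcAp_79
import Crest.Agent.T157.LcBd_77
import Crest.Agent.T157.LcCal_52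
import Crest.Agent.T157.LcExt_3
import Crest.Agent.T157.LcFam_29
import Crest.Agent.T157.LcFix_20
import Crest.Agent.T157.LcGal_44
import Crest.Agent.T157.LcOne_67
import Crest.Agent.T157.LcSpec_3

/-!
# Row 157, block B/R (helper60): realisation, local solutions, lower bound: assembly
-/

set_option autoImplicit false

namespace Crest.Agent.T157.Rn

open Crest.Agent.T157.Tw

theorem x0Stmt : X0Stmt := x0Glue linStmt
theorem llnStmt : LlnStmt := llnGlue (cavGlue mpStmt) gcStmt tayStmt smStmt x0Stmt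

/-- **(R)** -/
theorem realStmt : RealStmt :=
  real_of x0Stmt llnStmt (x2Glue linStmt quadStmt smStmt x0Stmt) (x3Glue linStmt quadStmt smStmt x0Stmt)
    (gamGlue tayStmt smStmt) (genGlue tayStmt smStmt) (v1Glue tayStmt smStmt modelStmt)
    (v23Glue smStmt modelStmt) (baseGlue smStmt modelStmt x0Stmt llnStmt)

theorem outStmt : OutStmt := outGlue mpStmt smStmt modelStmt realStmt

theorem lamPos_of (h : Top.PoinHi) : LamPos :=
  lamPosGlue okStmt zeroStmt smStmt modelStmt outStmt h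

theorem loc0 : Loc0 :=
  have fa := famGlue cal polApi
  have ga := galGlue cal polApi fa
  have fx := fixGlue cal polApi (specGlue cal polApi)
  have bd := bdGlue cal polApi
  loc0_of cal fa fx ga.1 (oneGlue cal polApi fa bd fx ga.1 ga.2 (apGlue cal polApi fa wsStmt bd ga.1))
    (extGlue cal polApi fa).1 (extGlue cal polApi fa).2

/-- approximate resolvents below the edge -/
theorem res {𝒞 : Cls} (h𝒞 : ∀ m, 𝒞.C m = PV m) {β a : ℝ} (h0 : 0 < β) (h1 : β < 1)
    (ha : a ∈ Set.Ico 0 (lam 𝒞 β)) : Res β a (Gs 𝒞 β a) (1 / (lam 𝒞 β - a) ^ 2) :=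
  res_of loc0 outStmt h𝒞 h0 h1 ha

/-- **the lower bound** -/
theorem lb (h : Top.PoinHi) {𝒞 : Cls} (h𝒞 : ∀ m, 𝒞.C m = PV m) {β : ℝ} (h0 : 0 < β) (h1 : β < 1) :
    0 < lam 𝒞 β ∧ lam 𝒞 β ≤ (1 - β) ^ 2 ∧ Low.LB β (lam 𝒞 β) :=
  ⟨lamPos_of h 𝒞 h𝒞 β h0.le h1, (lamStmt 𝒞 β h0.le h1).2.1,
    lb_of loc0 outStmt (lamPos_of h) h𝒞 h0 h1⟩

end Crest.Agent.T157.Rn
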