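import Crest.Agent.T157.RegDef_94

/-!
# Row 157, part B (helper66): `Reg.BasStmt`
-/

set_option autoImplicit false

noncomputable section

namespace Crest.Agent.T157.Reg

open Matrix Real Filter Topology Function
open Crest.Agent.T157.E hiding mean
open Crest.Agent.T157.Tap (V Mx)
open Crest.Agent.T157.Rec (grad fl grad_eq sv_mul_self grad_update)
open Crest.Agent.T157.Da.Gr
open Crest.Agent.T157.Chain22 (sg IsP mean hbRC RC)

namespace Bas66

variable {n : ℕ} {W : Mx n}

theorem mu_pos (W : Mx n) (x : Cube n) : 0 < mu W x := ising_pos W 0 x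

theorem site_eq (hW : Wᵀ = W) (y : V n) (f : Cube n → ℝ) (x : Cube n) (i : Fin n) :
    siteM (ising W y) f i x - f x = (tt W y x i - sv x i) * grad f x i := by
  have e : siteM (ising W y) f i x = (ising W y x * f x + ising W y (fl x i) * f (fl x i)) /
      (ising W y x + ising W y (fl x i)) := by
    have e : x = update x i (x i) := by rw [update_eq_self]
    rw [siteM, Rec.fl]
    cases h : x i
    · rw [h] at e; rw [← e, Bool.not_false, add_comm, add_comm (ising W y x)]
    · rw [h] at e; rw [← e, Bool.not_true]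
  have h0 := ising_pos W y x
  have h1 := exp_pos (loc W y x i)
  rw [e, ising_fl hW, val_fl f, tt, tanh_eq]
  have hs : sv x i = 1 ∨ sv x i = -1 := mul_self_eq_one_iff.1 (sv_mul_self x i)
  rcases hs with hs | hs <;> rw [hs]
  · rw [one_mul, two_mul, neg_add, exp_add, exp_neg]; field_simp; ring
  · rw [neg_one_mul, mul_neg, neg_neg, two_mul, exp_add, exp_neg]; field_simp; ring

theorem grad_gen (hW : Wᵀ = W) (F : Cube n → ℝ) (x : Cube n) (i : Fin n) :
    grad (gen (mu W) F) x i = ∑ k, (Tk W x k + al W x i k) * jac (grad F) x i k - grad F x i +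
      bb W (grad F) x i := by
  rw [mu, funext (gen_ising hW 0 F), grad_sum]
  have : grad F x i = ∑ k, if i = k then grad F x k -
      2 * sv x i * grad (fun z => grad F z i) x k else 0 := by
    rw [Finset.sum_ite_eq, if_pos (Finset.mem_univ i), grad_self]; ring
  rw [bb, mulVec, dotProduct, this, ← Finset.sum_sub_distrib, ← Finset.sum_add_distrib]
  refine Finset.sum_congr rfl fun k _ => ?_
  rw [grad_mul, congrFun (Rec.grad_sub _ _ x) i, Pi.sub_apply, grad_sv, grad_comm F x k i]
  simp only [Tk, al, jac, am, of_apply]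
  rw [val_fl (fun z => grad F z i) x k, val_fl (fun z => tt W 0 z k) x i]
  have hk := sv_mul_self x k
  split_ifs
  · linear_combination (-(tt W 0 x k) + 2 * sv x i * grad (fun z => tt W 0 z k) x i) *
      grad (fun z => grad F z i) x k * hk
  · linear_combination (-(tt W 0 x k) + 2 * sv x i * grad (fun z => tt W 0 z k) x i) *
      grad (fun z => grad F z i) x k * hk

theorem int (hW : Wᵀ = W) (h : ℝ) (f : Cube n → ℝ) :
    grad (Qh W h f) = stp W h (grad f) (bb W (grad f)) := by
  funext x i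
  have e := congrFun (Rec.grad_add f (fun x => h * gen (mu W) f x) x) i
  rw [Rec.grad_const_mul, Pi.add_apply, Pi.smul_apply, smul_eq_mul, grad_gen hW] at e
  exact e

theorem gen_eq (hW : Wᵀ = W) (f : Cube n → ℝ) (x : Cube n) :
    gen (mu W) f x = ∑ k, Tk W x k * (f (fl x k) - f x) := by
  rw [mu, gen_ising hW]
  refine Finset.sum_congr rfl fun k _ => ?_
  rw [val_fl f, Tk]
  linear_combination -(tt W 0 x k) * grad f x k * sv_mul_self x k

theorem wm (W : Mx n) {h H : ℝ} {v : Cube n → ℝ} (h0 : 0 ≤ h) (h1 : h * n ≤ 1)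
    (hv : Wm (mu W) H v) : ∃ v', Wm (mu W) H v' ∧ ∀ f, mean v (Qh W h f) = mean v' f := by
  rcases Nat.eq_zero_or_pos n with rfl | hn
  · exact ⟨v, hv, fun f => by congr 1; funext x; simp [Qh, gen]⟩
  set c := hbRC hn (mu_pos W) with hc
  have a0 : 0 ≤ h * n := by positivity
  have p0 : ∀ y, 0 ≤ ∑ x, v x * c.P x y := fun y =>
    Finset.sum_nonneg fun x _ => mul_nonneg (hv.1.nn x) (c.nn x y)
  have key : ∀ f, mean v (Qh W h f) =
      mean (fun y => (1 - h * n) * v y + h * n * ∑ x, v x * c.P x y) f := fun f => by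
    simp only [mean, Qh, Chain22.gen_eq hn (mu_pos W), ← hc, add_mul, Finset.sum_add_distrib,
      mulVec, dotProduct, mul_add, mul_sub, sub_mul, Finset.sum_sub_distrib, Finset.mul_sum,
      Finset.sum_mul, one_mul]
    rw [Finset.sum_comm (f := fun y x => h * n * (v x * c.P x y) * f y)]
    have e1 : ∑ x, ∑ y, v x * (h * (n * (c.P x y * f y))) =
        ∑ x, ∑ y, h * n * (v x * c.P x y) * f y :=
      Finset.sum_congr rfl fun x _ => Finset.sum_congr rfl fun y _ => by ring
    have e2 : ∑ x, v x * (h * (n * f x)) = ∑ x, h * n * v x * f x :=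
      Finset.sum_congr rfl fun x _ => by ring
    rw [e1, e2]
    ring
  refine ⟨_, ⟨⟨fun y => add_nonneg (mul_nonneg (sub_nonneg.2 h1) (hv.1.nn y))
    (mul_nonneg a0 (p0 y)), ?_⟩, fun y => ?_⟩, key⟩
  · rw [Finset.sum_add_distrib, ← Finset.mul_sum, ← Finset.mul_sum, Finset.sum_comm]
    simp only [← Finset.mul_sum, c.row, mul_one, hv.1.sum1]
    ring
  · have h2 : ∑ x, v x * c.P x y ≤ exp H * prob (mu W) y := by
      rw [show prob (mu W) y = ∑ x, c.π x * c.P x y from (c.stat y).symm, Finset.mul_sum]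
      refine Finset.sum_le_sum fun x _ => ?_
      rw [← mul_assoc]
      exact mul_le_mul_of_nonneg_right (hv.2 x) (c.nn x y)
    nlinarith [mul_le_mul_of_nonneg_left h2 a0,
      mul_le_mul_of_nonneg_left (hv.2 y) (sub_nonneg.2 h1)]

theorem lim_pow (c : ℝ) {u : ℝ} (hu : 0 ≤ u) :
    Tendsto (fun h : ℝ => (1 - h * c) ^ ⌊u / h⌋₊) (𝓝[>] 0) (𝓝 (exp (-(u * c)))) := by
  have d : HasDerivAt (fun h : ℝ => log (1 - h * c)) (-c) 0 := by
    have := (((hasDerivAt_id (0 : ℝ)).mul_const c).const_sub 1).log (by simp)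
    simpa using this
  have t1 := d.tendsto_slope_zero_right
  have t2 := (tendsto_nat_floor_mul_div_atTop hu).comp (tendsto_inv_nhdsGT_zero (𝕜 := ℝ))
  have t3 := (continuous_exp.tendsto _).comp (t2.mul t1)
  rw [mul_neg] at t3
  refine t3.congr' ?_
  have e : ∀ᶠ h : ℝ in 𝓝 0, 0 < 1 - h * c :=
    (by fun_prop : Continuous fun h : ℝ => 1 - h * c).continuousAt.eventually
      (lt_mem_nhds (by simp))
  filter_upwards [e.filter_mono nhdsWithin_le_nhds, self_mem_nhdsWithin] with h h1 h2
  have h3 : h ≠ 0 := ne_of_gt h2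
  simp only [Function.comp, zero_add, zero_mul, sub_zero, log_one, smul_eq_mul]
  rw [← exp_log h1, ← exp_nat_mul, log_exp, div_eq_mul_inv u]
  congr 1
  field_simp

theorem iter_spec (hn : 0 < n) (W : Mx n) (h : ℝ) (f : Cube n → ℝ) (m : ℕ) :
    (Qh W h)^[m] f = ∑ j, ((1 - h * (n * (1 - (hbRC hn (mu_pos W)).ev j))) ^ m *
      Chain22.ip (hbRC hn (mu_pos W)).π f ((hbRC hn (mu_pos W)).φ j)) •
        (hbRC hn (mu_pos W)).φ j := by
  set c := hbRC hn (mu_pos W) with hc
  induction m with
  | zero => simpa using c.expand f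
  | succ m ih =>
    rw [iterate_succ_apply', ih]
    funext x
    rw [Qh, Chain22.gen_eq hn (mu_pos W), ← hc, mulVec_sum]
    simp only [mulVec_smul, c.P_φ, Finset.sum_apply, Pi.smul_apply, smul_eq_mul,
      ← Finset.sum_sub_distrib, Finset.mul_sum, ← Finset.sum_add_distrib]
    exact Finset.sum_congr rfl fun j _ => by ring

theorem lim (hn : 0 < n) (W : Mx n) {u : ℝ} (hu : 0 ≤ u) (f : Cube n → ℝ) (x : Cube n) :
    Tendsto (fun h : ℝ => (Qh W h)^[⌊u / h⌋₊] f x) (𝓝[>] 0) (𝓝 (sg (mu W) u f x)) := by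
  simp only [iter_spec hn, Finset.sum_apply, Pi.smul_apply, smul_eq_mul, mul_assoc]
  rw [Chain22.sg_eq hn (mu_pos W), RC.H_mulVec_spec]
  refine tendsto_finsetSum _ fun j _ => Tendsto.mul_const _ ?_
  rw [mul_comm (n : ℝ) u, mul_assoc]
  exact lim_pow _ hu

theorem sv_neg (x : Cube n) : sv (neg x) = -sv x := funext fun _ => spin_not _

theorem fl_neg (x : Cube n) (j : Fin n) : fl (neg x) j = neg (fl x j) := by
  funext k
  by_cases h : k = j
  · subst h; simp [fl, neg]
  · simp [fl, neg, h]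

theorem tt_neg (W : Mx n) (x : Cube n) (k : Fin n) : tt W 0 (neg x) k = -tt W 0 x k := by
  rw [tt, tt, ← tanh_neg]
  congr 1
  simp only [loc, sv_neg, mulVec_neg, Pi.neg_apply, Pi.zero_apply]
  ring

theorem am_neg (W : Mx n) (x : Cube n) : am W (neg x) = am W x := by
  ext i k
  simp only [am, of_apply, grad_eq, fl_neg, tt_neg, sv_neg, Pi.neg_apply]
  ring

theorem Tk_neg (W : Mx n) (x : Cube n) (k : Fin n) : Tk W (neg x) k = Tk W x k := by
  simp only [Tk, tt_neg, sv_neg, Pi.neg_apply]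
  ring

theorem al_neg (W : Mx n) (x : Cube n) : al W (neg x) = al W x := by
  ext i k
  simp only [al, of_apply, fl_neg, tt_neg, sv_neg, Pi.neg_apply]
  ring

theorem jac_neg {ω : VF n} (hω : Odd ω) (x : Cube n) : jac ω (neg x) = -jac ω x := by
  ext i k
  simp only [jac, of_apply, fl_neg, hω _, Pi.neg_apply, Matrix.neg_apply]
  ring

theorem odd_bb (W : Mx n) {ω : VF n} (hω : Odd ω) : Odd (bb W ω) := fun x => by
  rw [bb, bb, am_neg, hω, mulVec_neg]

theorem odd_stp (W : Mx n) (h : ℝ) {ω σ : VF n} (hω : Odd ω) (hσ : Odd σ) :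
    Odd (stp W h ω σ) := fun x => by
  funext i
  simp only [stp, Tk_neg, al_neg, jac_neg hω, hω x, hσ x, Pi.neg_apply, Matrix.neg_apply, mul_neg,
    Finset.sum_neg_distrib]
  ring

theorem tt_fl (W : Mx n) (y : V n) (x : Cube n) (i : Fin n) : tt W y (fl x i) i = tt W y x i := by
  rw [tt, tt, loc_fl, if_pos rfl, sub_zero]

theorem grad_fl (f : Cube n → ℝ) (x : Cube n) (i : Fin n) : grad f (fl x i) i = grad f x i :=
  grad_update f x i _

theorem sv_fl_self (x : Cube n) (i : Fin n) : sv (fl x i) i = -sv x i := by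
  simp [sv, fl, spin_not]

/-- the spin may be replaced by its conditional mean -/
theorem mean_sv_mul (hW : Wᵀ = W) (i : Fin n) {G : Cube n → ℝ} (hG : ∀ x, G (fl x i) = G x) :
    mean (prob (mu W)) (fun x => sv x i * G x) =
      mean (prob (mu W)) fun x => tt W 0 x i * G x := by
  rw [← Chain22.mean_siteM (mu_pos W) i]
  congr 1
  funext x
  have := site_eq hW 0 (fun x => sv x i * G x) x i
  rw [grad_eq, hG, sv_fl_self] at this
  rw [mu]
  linear_combination this + (tt W 0 x i - sv x i) * G x * sv_mul_self x i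

theorem dir_eq (hW : Wᵀ = W) (f : Cube n → ℝ) :
    dir (mu W) f = mean (prob (mu W)) fun x => ∑ k, (1 - tt W 0 x k ^ 2) * grad f x k ^ 2 := by
  simp only [mean, Finset.mul_sum]
  rw [Finset.sum_comm]
  refine Finset.sum_congr rfl fun i _ => ?_
  have h := mean_sv_mul hW i (G := fun x => tt W 0 x i * grad f x i ^ 2) fun x => by
    rw [tt_fl, grad_fl]
  have e : ∀ x, prob (mu W) x * (f x - siteM (mu W) f i x) ^ 2 =
      prob (mu W) x * ((1 - tt W 0 x i ^ 2) * grad f x i ^ 2) -
      2 * (prob (mu W) x * (sv x i * (tt W 0 x i * grad f x i ^ 2))) +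
      2 * (prob (mu W) x * (tt W 0 x i * (tt W 0 x i * grad f x i ^ 2))) := fun x => by
    rw [← neg_sub, mu, site_eq hW]
    linear_combination prob (ising W 0) x * grad f x i ^ 2 * sv_mul_self x i
  simp only [e, Finset.sum_add_distrib, Finset.sum_sub_distrib, ← Finset.mul_sum]
  simp only [mean] at h
  rw [h]
  ring

end Bas66

open Bas66 in
/-- **task 771** -/
theorem basStmt : BasStmt :=
  ⟨fun _ _ hW => int hW, fun _ _ hW => gen_eq hW,
    fun _ W _ _ _ _ h0 h1 hv => wm W (by exact_mod_cast h0) (by exact_mod_cast h1) hv,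
    fun _ W hn _ hu => lim hn W hu, fun _ W _ => odd_bb W, fun _ W h _ _ => odd_stp W h,
    fun _ _ hW => dir_eq hW⟩

end Crest.Agent.T157.Reg

end
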