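import Crest.Agent.T157.RegDef_94

/-!
# Row 157, part B (helper54): bounds on the coefficients of the intertwined equation
-/

set_option autoImplicit false

noncomputable section

namespace Crest.Agent.T157.Reg

open Matrix Real
open Crest.Agent.T157.E hiding mean
open Crest.Agent.T157.Eig
open Crest.Agent.T157.Tap (V Mx)
open Crest.Agent.T157.Rec (grad fl grad_eq sv_mul_self sv_fl_ne)
open Crest.Agent.T157.Da.Gr

namespace Coef54

lemma lip {f f' : ℝ → ℝ} (hf : ∀ x, HasDerivAt f (f' x) x) {d M : ℝ}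
    (h : ∀ x, |x| ≤ |d| → |f' x| ≤ M) : |f d - f 0| ≤ M * |d| := by
  have := (convex_closedBall (0 : ℝ) |d|).norm_image_sub_le_of_norm_hasDerivWithin_le
    (fun x _ => (hf x).hasDerivWithinAt) (fun x hx => h x (by simpa using hx))
    (x := 0) (y := d) (by simp) (by simp)
  simpa using this

lemma tay {f f' f'' : ℝ → ℝ} (hf : ∀ x, HasDerivAt f (f' x) x) (hf' : ∀ x, HasDerivAt f' (f'' x) x)
    {M : ℝ} (h : ∀ x, |f'' x| ≤ M) (d : ℝ) : |f d - f 0 - d * f' 0| ≤ M * d ^ 2 := by
  have := lip (f := fun x => f x - x * f' 0) (f' := fun x => f' x - f' 0) (d := d) (M := M * |d|)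
    (fun x => ((hf x).sub ((hasDerivAt_id x).mul_const (f' 0))).congr_deriv (by simp)) fun x hx =>
      (lip hf' fun y _ => h y).trans (mul_le_mul_of_nonneg_left hx ((abs_nonneg _).trans (h 0)))
  rw [mul_assoc, ← sq, sq_abs] at this
  convert this using 2
  ring

/-- derivatives of `tanh` -/
def t1 (x : ℝ) : ℝ := 1 - tanh x ^ 2
def t2 (x : ℝ) : ℝ := -2 * tanh x * (1 - tanh x ^ 2)
def t3 (x : ℝ) : ℝ := (-2 + 6 * tanh x ^ 2) * (1 - tanh x ^ 2)
def t4 (x : ℝ) : ℝ := (16 * tanh x - 24 * tanh x ^ 3) * (1 - tanh x ^ 2)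

lemma d0 (y x : ℝ) : HasDerivAt (fun x => tanh (y - x)) (-t1 (y - x)) x :=
  (hasDerivAt_tanh (y - x)).comp_const_sub y x

lemma d1 (y x : ℝ) : HasDerivAt (fun x => t1 (y - x)) (-t2 (y - x)) x :=
  (((d0 y x).pow 2).const_sub 1).congr_deriv (by simp only [t1, t2]; ring)

lemma d2 (y x : ℝ) : HasDerivAt (fun x => t2 (y - x)) (-t3 (y - x)) x :=
  (((d0 y x).const_mul (-2)).mul (d1 y x)).congr_deriv (by simp only [t1, t2, t3]; ring)

lemma d3 (y x : ℝ) : HasDerivAt (fun x => t3 (y - x)) (-t4 (y - x)) x :=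
  (((((d0 y x).pow 2).const_mul 6).const_add (-2)).mul (d1 y x)).congr_deriv
    (by simp only [t1, t2, t4, Pi.pow_apply]; ring)

lemma t1_nn (x : ℝ) : 0 ≤ t1 x := sech_nonneg x
lemma t1_le (x : ℝ) : t1 x ≤ 1 := sub_le_self _ (sq_nonneg _)

lemma t2_le' (x : ℝ) : |t2 x| ≤ 2 * t1 x := by
  rw [t2, abs_mul, abs_of_nonneg (sech_nonneg x), abs_mul]
  refine mul_le_mul_of_nonneg_right ?_ (t1_nn x)
  have := abs_tanh_lt_one x
  norm_num; linarith

lemma t2_le (x : ℝ) : |t2 x| ≤ 2 := (t2_le' x).trans (by linarith [t1_le x])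

lemma t3_le (x : ℝ) : |t3 x| ≤ 4 := by
  have h := tanh_sq_lt_one x
  have h0 := sq_nonneg (tanh x)
  rw [t3, abs_le]
  constructor <;> nlinarith

lemma t4_le (x : ℝ) : |t4 x| ≤ 40 := by
  have h := abs_lt.1 (abs_tanh_lt_one x)
  have h1 : |tanh x ^ 3| ≤ 1 := by
    rw [abs_pow]; exact pow_le_one₀ (abs_nonneg _) (abs_tanh_lt_one x).le
  have h2 := abs_le.1 h1
  have h3 : |16 * tanh x - 24 * tanh x ^ 3| ≤ 40 := abs_le.2 ⟨by linarith, by linarith⟩
  rw [t4, abs_mul, abs_of_nonneg (sech_nonneg x)]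
  exact (mul_le_of_le_one_right (abs_nonneg _) (t1_le x)).trans h3

lemma a1 (h c : ℝ) : |tanh (h - c) - tanh h| ≤ |c| * (exp (2 * |c|) * t1 h) := by
  obtain ⟨q, e, q0, -, q2, -⟩ := tanh_diff h c
  rw [abs_sub_comm, e, abs_mul, abs_of_nonneg q0]
  exact mul_le_mul_of_nonneg_left q2 (abs_nonneg _)

lemma a2 (h c : ℝ) : |tanh (h - c) - tanh h + c * t1 h| ≤ 2 * c ^ 2 := by
  simpa using tay (d0 h) (fun x => (d1 h x).neg) (M := 2) (fun x => by simpa using t2_le _) c

lemma a3 (h c : ℝ) : |t1 (h - c) - t1 h| ≤ 2 * |c| := by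
  simpa using lip (d1 h) (d := c) (M := 2) fun x _ => by simpa using t2_le _

lemma a4 (h c : ℝ) : |t1 (h - c) - t1 h + c * t2 h| ≤ 4 * c ^ 2 := by
  simpa using tay (d1 h) (fun x => (d2 h x).neg) (M := 4) (fun x => by simpa using t3_le _) c

lemma a4' (h c : ℝ) : |t2 (h - c) - t2 h + c * t3 h| ≤ 40 * c ^ 2 := by
  simpa using tay (d2 h) (fun x => (d3 h x).neg) (M := 40) (fun x => by simpa using t4_le _) c

lemma a5 (h c d : ℝ) : |tanh (h - c - d) - tanh (h - c) - tanh (h - d) + tanh h| ≤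
    2 * (exp (2 * (|c| + |d|)) * t1 h) * |d| * |c| := by
  have := lip (fun x => (d0 (h - d) x).sub (d0 h x)) (d := c)
    (M := 2 * (exp (2 * (|c| + |d|)) * t1 h) * |d|) fun x hx => by
      have := lip (d1 (h - x)) (d := d) (M := 2 * (exp (2 * (|c| + |d|)) * t1 h)) fun y hy => by
        rw [abs_neg]
        refine (t2_le' _).trans (mul_le_mul_of_nonneg_left ((sech_le h _).trans
          (mul_le_mul_of_nonneg_right (exp_le_exp.2 ?_) (t1_nn h))) zero_le_two)
        rw [show h - x - y - h = -(x + y) by ring, abs_neg]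
        linarith [abs_add_le x y]
      rw [sub_zero, sub_right_comm] at this
      rw [← abs_neg]
      convert this using 2
      ring
  simp only [Pi.sub_apply, sub_zero, sub_right_comm h d c] at this
  convert this using 2
  ring

lemma a6 (h c d : ℝ) : |tanh (h - c - d) - tanh (h - c) - tanh (h - d) + tanh h +
    (d * (t1 (h - c) - t1 h) + c * (t1 (h - d) - t1 h) + c * d * t2 h)| ≤ 40 * d ^ 2 * c ^ 2 := by
  have := tay (fun x => ((d0 (h - d) x).sub (d0 h x)).add ((d1 h x).const_mul d))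
    (fun x => ((d1 (h - d) x).neg.sub (d1 h x).neg).add ((d2 h x).neg.const_mul d))
    (M := 40 * d ^ 2) (fun x => by
      have := a4' (h - x) d
      rw [sub_right_comm] at this
      simpa using this) c
  simp only [Pi.sub_apply, Pi.add_apply, sub_zero, sub_right_comm h d c] at this
  convert this using 2
  ring

variable {n : ℕ} {W : Mx n} {K : ℝ}

lemma op_sq (hW : Wᵀ = W) (hK : opn W ≤ K) {R : Mx n} {b : ℝ} (hb : 0 ≤ b)
    (h : ∀ i k, |R i k| ≤ b * W i k ^ 2) : opn R ≤ b * K ^ 2 := by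
  have hc : ∀ k, ∑ i, b * W i k ^ 2 ≤ b * K ^ 2 := fun k => by
    rw [← Finset.mul_sum]
    exact mul_le_mul_of_nonneg_left ((row_sq_le W k).trans
      (pow_le_pow_left₀ (opn_nonneg W) hK 2)) hb
  have hr : ∀ i, ∑ k, b * W i k ^ 2 ≤ b * K ^ 2 := fun i => by
    simpa only [herm_apply (herm_iff.2 hW) i] using hc i
  refine opn_le_of_sq (by positivity) fun v => ?_
  calc (R *ᵥ v) ⬝ᵥ (R *ᵥ v) ≤ ∑ i, b * K ^ 2 * ∑ k, b * W i k ^ 2 * (v k * v k) := by
        refine Finset.sum_le_sum fun i _ => ?_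
        rw [← sq]
        refine (Finset.sum_sq_le_sum_mul_sum_of_sq_le_mul _ (f := fun k => b * W i k ^ 2)
          (g := fun k => b * W i k ^ 2 * (v k * v k)) (fun k _ => by positivity)
          (fun k _ => mul_nonneg (by positivity) (mul_self_nonneg _)) fun k _ => ?_).trans
          (mul_le_mul_of_nonneg_right (hr i) (Finset.sum_nonneg fun k _ =>
            mul_nonneg (by positivity) (mul_self_nonneg _)))
        rw [mul_pow, ← mul_assoc, ← sq, ← sq, ← sq_abs (R i k)]
        exact mul_le_mul_of_nonneg_right (pow_le_pow_left₀ (abs_nonneg _) (h i k) 2) (sq_nonneg _)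
    _ ≤ _ := by
        rw [← Finset.mul_sum, Finset.sum_comm, sq (b * K ^ 2), mul_assoc (b * K ^ 2), dotProduct,
          Finset.mul_sum _ fun k => v k * v k]
        refine mul_le_mul_of_nonneg_left (Finset.sum_le_sum fun k _ => ?_)
          (mul_nonneg hb (sq_nonneg K))
        rw [← Finset.sum_mul]
        exact mul_le_mul_of_nonneg_right (hc k) (mul_self_nonneg _)

lemma op_main (hW : Wᵀ = W) (hK : opn W ≤ K) {M : Mx n} (p q : V n) {a b : ℝ} (ha : 0 ≤ a)
    (hb : 0 ≤ b) (hp : ∀ i, |p i| ≤ 1) (hq : ∀ k, |q k| ≤ a)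
    (h : ∀ i k, |M i k - p i * off W i k * q k| ≤ b * W i k ^ 2) :
    opn M ≤ 2 * K * a + b * K ^ 2 := by
  have K0 : 0 ≤ K := (opn_nonneg W).trans hK
  have h1 : opn (off W) ≤ 2 * K := by
    have : off W = W - diagonal fun i => W i i := by
      ext i j; by_cases e : i = j <;> simp [off, e]
    rw [this]
    linarith [opn_sub_le W (diagonal fun i => W i i),
      opn_diagonal_le K0 fun i => (abs_entry_le W i i).trans hK]
  have h2 : opn (diagonal p * off W * diagonal q) ≤ 1 * (2 * K) * a :=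
    (opn_mul_le _ _).trans (mul_le_mul ((opn_mul_le _ _).trans (mul_le_mul
      (opn_diagonal_le zero_le_one hp) h1 (opn_nonneg _) zero_le_one)) (opn_diagonal_le ha hq)
      (opn_nonneg _) (by positivity))
  have h3 := op_sq hW hK (R := M - diagonal p * off W * diagonal q) hb fun i k => by
    simpa using h i k
  have h4 := opn_add_le (diagonal p * off W * diagonal q) (M - diagonal p * off W * diagonal q)
  rw [add_sub_cancel] at h4
  linarith

end Coef54

open Coef54

theorem coefStmt : CoefStmt := by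
  intro K
  have e0 := exp_pos (8 * K)
  refine ⟨16 * exp (8 * K) + 4 * |K| + 8 * K ^ 2 + 320, by
    nlinarith [abs_nonneg K, sq_nonneg K], fun n W hN x => ?_⟩
  obtain ⟨hW, hK, -⟩ := hN
  have K0 : 0 ≤ K := (opn_nonneg W).trans hK
  have K2 := sq_nonneg K
  rw [abs_of_nonneg K0]
  set C := 16 * exp (8 * K) + 4 * K + 8 * K ^ 2 + 320 with hC
  have hs : ∀ i, |sv x i| = 1 := fun i =>
    (abs_eq zero_le_one).2 (mul_self_eq_one_iff.1 (sv_mul_self x i))
  set c : Mx n := of fun i k => 2 * sv x i * off W i k with hc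
  set h := loc W 0 x with hh
  have c1 : ∀ i k, |c i k| ≤ 2 * |W i k| := fun i k => by
    simp only [hc, of_apply, off, abs_mul, hs]
    split_ifs <;> simp
  have c2 : ∀ i k, |c i k| ≤ 2 * K := fun i k =>
    (c1 i k).trans (by linarith [abs_entry_le W i k])
  have c3 : ∀ i k, c i k ^ 2 ≤ 4 * W i k ^ 2 := fun i k => by
    have := pow_le_pow_left₀ (abs_nonneg _) (c1 i k) 2
    rwa [mul_pow, sq_abs, sq_abs, show (2 : ℝ) ^ 2 = 4 by norm_num] at this
  have l1 : ∀ i k, tt W 0 (fl x i) k = tanh (h k - c i k) := fun i k => by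
    simp only [tt, loc_fl, hc, of_apply, off, herm_apply (herm_iff.2 hW) k i]
    split_ifs <;> simp [hh]
  have l2 : ∀ i j k, i ≠ j → tt W 0 (fl (fl x i) j) k = tanh (h k - c i k - c j k) :=
    fun i j k e => by
    simp only [tt, loc_fl, hc, of_apply, off, herm_apply (herm_iff.2 hW) k, sv_fl_ne x e.symm]
    split_ifs <;> simp [hh]
  have l0 : ∀ k, tt W 0 x k = tanh (h k) := fun k => rfl
  have T1 : ∀ k, Tk W x k * (1 - Tk W x k) = t1 (h k) / 4 := fun k => by
    rw [Tk, t1, l0]; linear_combination (-(tanh (h k)) ^ 2 / 4) * sv_mul_self x k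
  have st : ∀ k y, |sv x k * tanh y| < 1 := fun k y => by
    rw [abs_mul, hs, one_mul]; exact abs_tanh_lt_one y
  have hf : ∀ (k : Fin n) (y : ℝ), |sv x k * y / 2| = |y| / 2 := fun k y => by
    rw [abs_div, abs_mul, hs, one_mul, abs_two]
  refine ⟨fun k => ?_, fun i k => ?_, fun i k => ?_, ?_, ?_, fun i j k e => ?_,
    c, of fun i k => sv x k * (t1 (h k - c i k) - t1 (h k)) / 2, fun k => sv x k * t2 (h k) / 2,
    ?_, ?_, fun i k => ⟨?_, ?_⟩, fun k => ?_, fun i j k e => ?_⟩
  · have := abs_lt.1 (st k (h k))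
    rw [Tk, l0]; constructor <;> linarith
  · have := abs_lt.1 (st k (h k - c i k))
    simp only [Tk, al, of_apply, l1]; constructor <;> linarith
  · simp only [al, of_apply, l1, l0, T1, neg_div, abs_neg, hf]
    have h1 : exp (2 * |c i k|) ≤ exp (8 * K) := exp_le_exp.2 (by linarith [c2 i k])
    have h2 := (a1 (h k) (c i k)).trans (mul_le_mul (c1 i k) (mul_le_mul_of_nonneg_right h1
      (t1_nn _)) (mul_nonneg (exp_pos _).le (t1_nn _)) (by positivity))
    have h3 := mul_nonneg (abs_nonneg (W i k)) (t1_nn (h k))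
    nlinarith [mul_le_mul_of_nonneg_right (show 4 * exp (8 * K) ≤ C by nlinarith) h3]
  · refine (op_main hW hK (sv x) (fun k => sv x k * t1 (h k)) (a := 1) (b := 4) zero_le_one
      (by norm_num) (fun i => (hs i).le) (fun k => ?_) fun i k => ?_).trans (by nlinarith)
    · rw [abs_mul, hs, one_mul, abs_of_nonneg (t1_nn _)]; exact t1_le _
    · rw [show al W x i k - sv x i * off W i k * (sv x k * t1 (h k)) = -(sv x k *
        (tanh (h k - c i k) - tanh (h k) + c i k * t1 (h k)) / 2) by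
          simp only [al, of_apply, l1, l0]; simp only [hc, of_apply]; ring, abs_neg, hf]
      linarith [a2 (h k) (c i k), c3 i k]
  · refine (op_main hW hK (fun _ => 1) (fun k => t1 (h k)) (a := 1) (b := 4) zero_le_one
      (by norm_num) (fun i => by simp) (fun k => ?_) fun i k => ?_).trans (by nlinarith)
    · rw [abs_of_nonneg (t1_nn _)]; exact t1_le _
    · rw [show am W x i k - 1 * off W i k * t1 (h k) = -(sv x i *
        (tanh (h k - c i k) - tanh (h k) + c i k * t1 (h k)) / 2) by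
          simp only [am, of_apply, grad_eq, l1, l0]; simp only [hc, of_apply]
          linear_combination (off W i k * t1 (h k)) * sv_mul_self x i, abs_neg, hf]
      linarith [a2 (h k) (c i k), c3 i k]
  · simp only [mx, l2 i j k e, l1, l0, T1, neg_div, abs_neg, hf]
    have h1 : exp (2 * (|c i k| + |c j k|)) ≤ exp (8 * K) :=
      exp_le_exp.2 (by linarith [c2 i k, c2 j k])
    have h0 := t1_nn (h k)
    have h2 : _ ≤ 2 * (exp (8 * K) * t1 (h k)) * (2 * |W j k|) * (2 * |W i k|) :=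
      (a5 (h k) (c i k) (c j k)).trans (by gcongr; exacts [c1 j k, c1 i k])
    have h3 := mul_nonneg (mul_nonneg (abs_nonneg (W i k)) (abs_nonneg (W j k))) h0
    nlinarith [mul_le_mul_of_nonneg_right (show 16 * exp (8 * K) ≤ C by nlinarith) h3]
  · refine (op_main hW hK (sv x) (fun _ => 2) (a := 2) (b := 0) zero_le_two le_rfl
      (fun i => (hs i).le) (fun k => by simp) fun i k => ?_).trans (by nlinarith)
    rw [show c i k - sv x i * off W i k * 2 = 0 by simp only [hc, of_apply]; ring]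
    simp
  · refine (op_main hW hK (sv x) (fun k => -(sv x k * t2 (h k))) (a := 2) (b := 8) zero_le_two
      (by norm_num) (fun i => (hs i).le) (fun k => ?_) fun i k => ?_).trans (by nlinarith)
    · rw [abs_neg, abs_mul, hs, one_mul]; exact t2_le _
    · rw [of_apply, show sv x k * (t1 (h k - c i k) - t1 (h k)) / 2 -
        sv x i * off W i k * -(sv x k * t2 (h k)) =
        sv x k * (t1 (h k - c i k) - t1 (h k) + c i k * t2 (h k)) / 2 by
          simp only [hc, of_apply]; ring, hf]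
      linarith [a4 (h k) (c i k), c3 i k]
  · exact (c1 i k).trans (mul_le_mul_of_nonneg_right (by nlinarith) (abs_nonneg _))
  · rw [of_apply, hf]
    refine le_trans (by linarith [a3 (h k) (c i k), c1 i k] : _ ≤ 2 * |W i k|)
      (mul_le_mul_of_nonneg_right (by nlinarith) (abs_nonneg _))
  · rw [hf]
    nlinarith [t2_le (h k)]
  · rw [show mx W x i j k - _ = -(sv x k * (tanh (h k - c i k - c j k) - tanh (h k - c i k) -
        tanh (h k - c j k) + tanh (h k) + (c j k * (t1 (h k - c i k) - t1 (h k)) +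
        c i k * (t1 (h k - c j k) - t1 (h k)) + c i k * c j k * t2 (h k))) / 2) by
      simp only [mx, of_apply, l2 i j k e, l1, l0]; ring, abs_neg, hf]
    have h1 := mul_le_mul (c3 j k) (c3 i k) (sq_nonneg _) (by positivity)
    have h2 := mul_nonneg (sq_nonneg (W i k)) (sq_nonneg (W j k))
    nlinarith [a6 (h k) (c i k) (c j k),
      mul_le_mul_of_nonneg_right (show 320 ≤ C by nlinarith) h2]

end Crest.Agent.T157.Reg

end
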