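import Crest.Agent.T157.S6Cmp_20
import Crest.Agent.T157.RegBas_66
import Crest.Agent.T157.RegCoef_54

/-!
# Row 157, block S6 (helper28): decay in `L^{3/2}` and `L^2` under a change of rates, edge Harnack
-/

set_option autoImplicit false

noncomputable section

namespace Crest.Agent.T157.S6k

open Real Set Filter Topology
open Crest.Agent.T157.E Crest.Agent.T157.Rec Crest.Agent.T157.S6b
open Crest.Agent.T157.Chain22 (sg sg_add sg_zero hasDerivAt_sg)

/-- `|u| ^ (3/2)` -/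
def ph (u : ℝ) : ℝ := |u| * √|u|

/-- the price of a change of rate in `L^{3/2}` -/
def cst (r r' : ℝ) : ℝ := (r' - r) ^ 2 * (2 * r + r') / (2 * r ^ 2)

theorem ph_nn (u : ℝ) : 0 ≤ ph u := mul_nonneg (abs_nonneg _) (sqrt_nonneg _)

theorem continuous_ph : Continuous ph := continuous_abs.mul (continuous_sqrt.comp continuous_abs)

theorem ph_rpow (u : ℝ) : ph u = |u| ^ (3 / 2 : ℝ) := by
  rw [ph, sqrt_eq_rpow, show (3 / 2 : ℝ) = 1 + 1 / 2 by norm_num,
    rpow_add' (abs_nonneg u) (by norm_num), rpow_one]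

theorem ph_mul_abs (p : ℝ) : ph (p * |p|) = |p| ^ 3 := by
  rw [ph, abs_mul, abs_abs, sqrt_mul_self (abs_nonneg p)]; ring

theorem exists_root (u : ℝ) : ∃ p, p * |p| = u := by
  rcases le_total 0 u with h | h
  · exact ⟨√u, by rw [abs_of_nonneg (sqrt_nonneg _), mul_self_sqrt h]⟩
  · refine ⟨-√(-u), ?_⟩
    rw [abs_neg, abs_of_nonneg (sqrt_nonneg _), neg_mul, mul_self_sqrt (by linarith), neg_neg]

theorem ph_mono {u v : ℝ} (h : |u| ≤ |v|) : ph u ≤ ph v :=
  mul_le_mul h (sqrt_le_sqrt h) (sqrt_nonneg _) (abs_nonneg _)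

theorem ph_mul (a u : ℝ) : ph (a * u) = ph a * ph u := by
  rw [ph, ph, ph, abs_mul, sqrt_mul (abs_nonneg a)]; ring

theorem ph_sq (d : ℝ) : ph (d ^ 2) = |d| ^ 3 := by
  have := ph_mul_abs |d|
  rwa [abs_abs, abs_mul_abs_self, ← sq] at this

/-- Young's inequality for the pair `(3/2, 3)` -/
theorem young (v y : ℝ) : 3 / 2 * (v * y) - |y| ^ 3 / 2 ≤ ph v := by
  obtain ⟨p, rfl⟩ := exists_root v
  rw [ph_mul_abs]
  have h : p * |p| * y ≤ |p| ^ 2 * |y| := by
    refine (le_abs_self _).trans (le_of_eq ?_)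
    rw [abs_mul, abs_mul, abs_abs]; ring
  nlinarith [mul_nonneg (sq_nonneg (|p| - |y|)) (add_nonneg (abs_nonneg p)
    (add_nonneg (abs_nonneg p) (abs_nonneg y)))]

theorem young' (d v : ℝ) {θ : ℝ} (hθ : 0 < θ) :
    d * v ≤ 2 / 3 * θ * ph v + 1 / 3 * (θ ^ 2)⁻¹ * |d| ^ 3 := by
  have h := young v (d / θ)
  rw [abs_div, abs_of_pos hθ, div_pow] at h
  have := mul_le_mul_of_nonneg_left h hθ.le
  have e : θ * (3 / 2 * (v * (d / θ)) - |d| ^ 3 / θ ^ 3 / 2) =
      3 / 2 * (d * v) - 1 / 2 * (θ ^ 2)⁻¹ * |d| ^ 3 := by field_simp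
  rw [e] at this
  linarith

/-- convexity -/
theorem ph_conv {r : ℝ} (h0 : 0 ≤ r) (h1 : r ≤ 1) (u v : ℝ) :
    ph (u + r * (v - u)) ≤ (1 - r) * ph u + r * ph v := by
  obtain ⟨p, hp⟩ := exists_root (u + r * (v - u))
  have a := mul_le_mul_of_nonneg_left (young u p) (sub_nonneg.2 h1)
  have b := mul_le_mul_of_nonneg_left (young v p) h0
  have c : (u + r * (v - u)) * p = |p| ^ 3 := by
    rw [← hp, mul_right_comm, ← abs_mul_abs_self]; ring
  rw [← hp, ph_mul_abs]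
  nlinarith

/-- the jump inequality -/
theorem jump {r r' : ℝ} (hr : 0 < r) (hr' : 0 ≤ r') (p v : ℝ) :
    3 / 2 * p * (r' * (v - p * |p|)) ≤ r * (ph v - ph (p * |p|)) + cst r r' * ph (p * |p|) := by
  have h := mul_le_mul_of_nonneg_left (young v (r' / r * p)) hr.le
  rw [abs_mul, abs_of_nonneg (div_nonneg hr' hr.le)] at h
  have c : p * (p * |p|) = |p| ^ 3 := by rw [← mul_assoc, ← abs_mul_abs_self]; ring
  rw [ph_mul_abs, cst]
  have e : r * (3 / 2 * (v * (r' / r * p)) - (r' / r * |p|) ^ 3 / 2) =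
      3 / 2 * (r' * (v * p)) - r' ^ 3 / (2 * r ^ 2) * |p| ^ 3 := by field_simp
  have e2 : (r' - r) ^ 2 * (2 * r + r') / (2 * r ^ 2) = r' ^ 3 / (2 * r ^ 2) - 3 / 2 * r' + r := by
    field_simp; ring
  rw [e] at h
  rw [e2]
  have e3 : 3 / 2 * p * (r' * (v - p * |p|)) = 3 / 2 * (r' * (v * p)) - 3 / 2 * r' * |p| ^ 3 := by
    rw [← c]; ring
  rw [e3]
  nlinarith

theorem jump2 {r : ℝ} (hr : 0 < r) (r' u v : ℝ) :
    2 * u * (r' * (v - u)) ≤ r * (v ^ 2 - u ^ 2) + (r' - r) ^ 2 / r * u ^ 2 := by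
  have e : r * (v ^ 2 - u ^ 2) + (r' - r) ^ 2 / r * u ^ 2 - 2 * u * (r' * (v - u)) =
      (r * (v - u) - (r' - r) * u) ^ 2 / r := by field_simp; ring
  have : 0 ≤ (r * (v - u) - (r' - r) * u) ^ 2 / r := by positivity
  linarith

theorem tch_ph {U : ℝ → ℝ} {U' s p : ℝ} (h : HasDerivAt U U' s) (hp : p * |p| = U s) :
    Tch (fun u => ph (U u)) s (3 / 2 * p * U') := by
  refine ⟨fun u => 3 / 2 * (U u * p) - |p| ^ 3 / 2, 3 / 2 * (U' * p),
    ((h.mul_const p).const_mul _).sub_const _, ?_, Eventually.of_forall fun u => young _ _,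
    le_of_eq (by ring)⟩
  have c : p * |p| * p = |p| ^ 3 := by rw [mul_right_comm, ← abs_mul_abs_self]; ring
  simp only [← hp, ph_mul_abs, c]; ring

theorem sq_div_le {r r' b : ℝ} (h0 : 0 < r) (h1 : r < 1) (h : |r' - r| ≤ b * (4 * r * (1 - r))) :
    (r' - r) ^ 2 / r ≤ 64 / 27 * b ^ 2 := by
  rw [div_le_iff₀ h0]
  have a : (r' - r) ^ 2 ≤ (b * (4 * r * (1 - r))) ^ 2 := by
    rw [← sq_abs]; exact pow_le_pow_left₀ (abs_nonneg _) h 2
  have c : r * (1 - r) ^ 2 ≤ 4 / 27 := by nlinarith [mul_nonneg (sq_nonneg (r - 1 / 3)) (by linarith : (0 : ℝ) ≤ 4 / 3 - r)]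
  have := mul_le_mul_of_nonneg_left c (by positivity : 0 ≤ 16 * b ^ 2 * r)
  nlinarith

theorem cst_le {r r' b : ℝ} (h0 : 0 < r) (h1 : r < 1) (hb : 0 ≤ b)
    (h : |r' - r| ≤ b * (4 * r * (1 - r))) : cst r r' ≤ (3 / 2 + 2 * b) * (64 / 27 * b ^ 2) := by
  have a := sq_div_le h0 h1 h
  have e : cst r r' = (2 * r + r') / (2 * r) * ((r' - r) ^ 2 / r) := by rw [cst]; field_simp
  have c : (2 * r + r') / (2 * r) ≤ 3 / 2 + 2 * b := by
    rw [div_le_iff₀ (by positivity)]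
    have := (abs_le.1 h).2
    nlinarith [mul_nonneg hb (sq_nonneg r)]
  rw [e]
  exact mul_le_mul c a (by positivity) (by positivity)

theorem cst_self (r : ℝ) : cst r r = 0 := by simp [cst]

variable {n : ℕ} {w : Cube n → ℝ} {r r' : Cube n → Fin n → ℝ}

/-- `r` are the flip rates of the heat bath of `w` -/
structure Rt (w : Cube n → ℝ) (r : Cube n → Fin n → ℝ) : Prop where
  wpos : ∀ x, 0 < w x
  pos : ∀ x j, 0 < r x j
  lt : ∀ x j, r x j < 1
  flip : ∀ x j, r (fl x j) j = 1 - r x j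
  gen : ∀ F x, gen w F x = ∑ j, r x j * (F (fl x j) - F x)

/-- **decay in `L^{3/2}`** of a flow with other rates -/
theorem dec32 (hn : 0 < n) (h : Rt w r) (hr' : ∀ x j, 0 ≤ r' x j) {A : ℝ → Cube n → ℝ} {c l : ℝ}
    (hA : ∀ s x, HasDerivAt (fun u => A u x)
      (∑ j, r' x j * (A s (fl x j) - A s x) - l * A s x) s)
    (hc : ∀ x, ∑ j, cst (r x j) (r' x j) ≤ c) {s : ℝ} (hs : 0 ≤ s) (x : Cube n) :
    ph (A s x) ≤ exp ((c - 3 / 2 * l) * s) * sg w s (fun z => ph (A 0 z)) x := by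
  refine cmp0 hn h.wpos (Φ := fun u z => ph (A u z)) (T := s) (fun z => (continuous_ph.comp
    (continuous_iff_continuousAt.2 fun u => (hA u z).continuousAt)).continuousOn)
    (fun u _ z => ?_) s ⟨hs, le_rfl⟩ x
  obtain ⟨p, hp⟩ := exists_root (A u z)
  refine (tch_ph (hA u z) hp).mono ?_
  have c3 : p * (p * |p|) = ph (p * |p|) := by
    rw [ph_mul_abs, ← mul_assoc, ← abs_mul_abs_self]; ring
  have k : ∑ j, 3 / 2 * p * (r' z j * (A u (fl z j) - p * |p|)) ≤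
      ∑ j, (r z j * (ph (A u (fl z j)) - ph (p * |p|)) + cst (r z j) (r' z j) * ph (p * |p|)) :=
    Finset.sum_le_sum fun j _ => jump (h.pos z j) (hr' z j) p _
  rw [Finset.sum_add_distrib, ← Finset.mul_sum, ← Finset.sum_mul] at k
  have k2 := mul_le_mul_of_nonneg_right (hc z) (ph_nn (p * |p|))
  have c4 : l * (p * (p * |p|)) = l * ph (p * |p|) := by rw [c3]
  rw [h.gen, ← hp]
  linarith

/-- **decay in `L^2`** of a flow with other rates -/
theorem dec2 (hn : 0 < n) (h : Rt w r) {A : ℝ → Cube n → ℝ} {c l : ℝ}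
    (hA : ∀ s x, HasDerivAt (fun u => A u x)
      (∑ j, r' x j * (A s (fl x j) - A s x) - l * A s x) s)
    (hc : ∀ x, ∑ j, (r' x j - r x j) ^ 2 / r x j ≤ c) {s : ℝ} (hs : 0 ≤ s) (x : Cube n) :
    A s x ^ 2 ≤ exp ((c - 2 * l) * s) * sg w s (fun z => A 0 z ^ 2) x := by
  refine cmp0 hn h.wpos (Φ := fun u z => A u z ^ 2) (T := s) (fun z => ((continuous_iff_continuousAt.2
    fun u => (hA u z).continuousAt).pow 2).continuousOn) (fun u _ z => ?_) s ⟨hs, le_rfl⟩ x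
  refine Tch.of_deriv ((hA u z).pow 2) ?_
  have k : ∑ j, 2 * A u z * (r' z j * (A u (fl z j) - A u z)) ≤
      ∑ j, (r z j * (A u (fl z j) ^ 2 - A u z ^ 2) + (r' z j - r z j) ^ 2 / r z j * A u z ^ 2) :=
    Finset.sum_le_sum fun j _ => jump2 (h.pos z j) _ _ _
  rw [Finset.sum_add_distrib, ← Finset.mul_sum, ← Finset.sum_mul] at k
  have k2 := mul_le_mul_of_nonneg_right (hc z) (sq_nonneg (A u z))
  rw [h.gen]
  norm_num
  nlinarith

/-- Jensen -/
theorem ph_sg (hn : 0 < n) (h : Rt w r) (F : Cube n → ℝ) {s : ℝ} (hs : 0 ≤ s) (x : Cube n) :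
    ph (sg w s F x) ≤ sg w s (fun z => ph (F z)) x := by
  have := dec32 hn h (r' := r) (fun x j => (h.pos x j).le) (A := fun u => sg w u F) (c := 0) (l := 0)
    (fun s x => (hasDerivAt_sg hn h.wpos F x s).congr_deriv (by rw [h.gen]; ring))
    (fun x => by simp [cst_self]) hs x
  simpa [sg_zero hn h.wpos] using this

theorem fl_fl (x : Cube n) (k : Fin n) : fl (fl x k) k = x := by
  funext i; by_cases e : i = k
  · subst e; simp [fl]
  · simp [fl, Function.update_of_ne e]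

theorem fl_comm (x : Cube n) (j k : Fin n) : fl (fl x j) k = fl (fl x k) j := by
  by_cases e : j = k
  · rw [e]
  · funext i
    by_cases a : i = k
    · subst a; simp [fl, Function.update_of_ne (Ne.symm e), Function.update_of_ne e]
    · by_cases b : i = j
      · subst b; simp [fl, Function.update_of_ne a]
      · simp [fl, Function.update_of_ne a, Function.update_of_ne b]

/-- **edge Harnack inequality** -/
theorem harnack (hn : 0 < n) (h : Rt w r) {k : Fin n} {a K : ℝ} (ha : 0 ≤ a) (hK : 1 ≤ K * (1 - a))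
    (ha1 : a < 1) (hc : ∀ x, ∑ j ∈ Finset.univ.erase k, cst (r x j) (r (fl x k) j) ≤ a)
    {F : Cube n → ℝ} (hF : ∀ x, F (fl x k) = F x) {s : ℝ} (hs : 0 ≤ s) (x : Cube n) :
    ph (sg w s F (fl x k)) ≤ K * sg w s (fun z => ph (F z)) x := by
  have K1 : 1 + a ≤ K := by
    by_contra hh
    have : K * (1 - a) < (1 + a) * (1 - a) := mul_lt_mul_of_pos_right (lt_of_not_ge hh) (by linarith)
    nlinarith
  have K0 : 0 ≤ K := by linarith
  refine sub_nonpos.1 (maxp (D := fun u z => ph (sg w u F (fl z k)) - K * sg w u (fun z => ph (F z)) z)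
    (T := s) (C := 0) (fun z => ((continuous_ph.comp (continuous_iff_continuousAt.2 fun u =>
      (hasDerivAt_sg hn h.wpos F _ u).continuousAt)).sub (continuous_const.mul
      (continuous_iff_continuousAt.2 fun u =>
        (hasDerivAt_sg hn h.wpos _ z u).continuousAt))).continuousOn)
    (fun u hu z hm hp => ?_) (fun z => ?_) s ⟨hs, le_rfl⟩ x)
  swap
  · simp only [sg_zero hn h.wpos, hF]
    nlinarith [ph_nn (F z)]
  set U := sg w u F with hU
  set G := sg w u (fun z => ph (F z)) with hG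
  have J : ∀ z, ph (U z) ≤ G z := fun z => ph_sg hn h F hu.1.le z
  obtain ⟨p, hp'⟩ := exists_root (U (fl z k))
  have t := (tch_ph (hasDerivAt_sg hn h.wpos F (fl z k) u) hp').add
    (Tch.of_deriv ((hasDerivAt_sg hn h.wpos (fun z => ph (F z)) z u).const_mul K).neg le_rfl)
  refine (t.mono ?_).of_le (by simp [sub_eq_add_neg]) (Eventually.of_forall fun u => by
    simp [sub_eq_add_neg])
  rw [h.gen, h.gen, ← hU, ← hG, ← Finset.add_sum_erase _ _ (Finset.mem_univ k),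
    ← Finset.add_sum_erase _ _ (Finset.mem_univ k), fl_fl, h.flip]
  have k1 : ∑ j ∈ Finset.univ.erase k, 3 / 2 * p * (r (fl z k) j * (U (fl (fl z k) j) - p * |p|)) ≤
      ∑ j ∈ Finset.univ.erase k, (r z j * (ph (U (fl (fl z k) j)) - ph (p * |p|)) +
        cst (r z j) (r (fl z k) j) * ph (p * |p|)) :=
    Finset.sum_le_sum fun j _ => jump (h.pos z j) (h.pos _ j).le p _
  have k2 : ∑ j ∈ Finset.univ.erase k, r z j * (ph (U (fl (fl z k) j)) - ph (p * |p|)) ≤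
      ∑ j ∈ Finset.univ.erase k, K * (r z j * (G (fl z j) - G z)) :=
    Finset.sum_le_sum fun j _ => by
      have := hm (fl z j)
      simp only [fl_comm z j k] at this
      rw [hp']
      nlinarith [h.pos z j]
  rw [Finset.sum_add_distrib, ← Finset.mul_sum, ← Finset.sum_mul] at k1
  rw [← Finset.mul_sum] at k2
  have k3 := mul_le_mul_of_nonneg_right (hc z) (ph_nn (p * |p|))
  have r0 := h.pos z k
  have r1 := h.lt z k
  have k4 := jump (r := 1 - r z k) (r' := 1 - r z k) (by linarith) (by linarith) p (U z)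
  rw [cst_self] at k4
  rw [← hp'] at hp ⊢
  have j1 := J z
  have j2 := J (fl z k)
  rw [← hp'] at j2
  set P := ph (p * |p|)
  have g0 : 0 ≤ G z := (ph_nn _).trans j1
  -- `P > K G z`
  have q1 : 0 ≤ K * r z k * (G (fl z k) - P) := mul_nonneg (mul_nonneg K0 r0.le) (by linarith)
  have q2 : 0 ≤ (1 - r z k) * (G z - ph (U z)) := mul_nonneg (by linarith) (by linarith)
  have c1 : 0 ≤ K * r z k + 1 - r z k - a := by nlinarith
  have q3 : 0 ≤ (K * r z k + 1 - r z k - a) * (P - K * G z) := mul_nonneg c1 (by linarith)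
  have c2 : 0 ≤ K ^ 2 * r z k + K * (1 - 2 * r z k - a) - (1 - r z k) := by
    have b1 : 0 ≤ (1 - r z k) * (K * (1 - a) - 1) := mul_nonneg (by linarith) (by linarith)
    have b2 : 0 ≤ r z k * (K * (K - (1 + a))) := mul_nonneg r0.le (mul_nonneg K0 (by linarith))
    nlinarith
  have q4 := mul_nonneg c2 g0
  nlinarith

theorem harnack' (hn : 0 < n) (h : Rt w r) {k : Fin n} {a K : ℝ} (ha : 0 ≤ a) (hK : 1 ≤ K * (1 - a))
    (ha1 : a < 1) (hc : ∀ x, ∑ j ∈ Finset.univ.erase k, cst (r x j) (r (fl x k) j) ≤ a)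
    {F : Cube n → ℝ} (hF : ∀ x, F (fl x k) = F x) {s : ℝ} (hs : 0 ≤ s) (x : Cube n) {θ : ℝ}
    (h0 : 0 ≤ θ) (h1 : θ ≤ 1) :
    ph (sg w s F x + θ * (sg w s F (fl x k) - sg w s F x)) ≤ K * sg w s (fun z => ph (F z)) x := by
  have a1 := harnack hn h ha hK ha1 hc hF hs x
  have a2 := ph_sg hn h F hs x
  have K1 : 1 ≤ K := by
    by_contra hh
    have := lt_of_not_ge hh
    rcases le_total 0 K with k0 | k0 <;> nlinarith
  have g0 := (ph_nn _).trans a2
  have a3 := ph_conv h0 h1 (sg w s F x) (sg w s F (fl x k))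
  nlinarith [mul_le_mul_of_nonneg_left a1 h0, mul_le_mul_of_nonneg_left a2 (sub_nonneg.2 h1),
    mul_nonneg (mul_nonneg (sub_nonneg.2 h1) (sub_nonneg.2 K1)) g0]

/-! ### the Ising rates -/

section ising
open Matrix
open Crest.Agent.T157.Tap (V Mx)
open Crest.Agent.T157.Reg (mu Tk)
open Crest.Agent.T157.Da.Gr
variable {W : Mx n}

theorem abs_sv (x : Cube n) (i : Fin n) : |sv x i| = 1 :=
  (abs_eq zero_le_one).2 (mul_self_eq_one_iff.1 (sv_mul_self x i))

theorem rt_mu (hW : Wᵀ = W) : Rt (mu W) (Tk W) := by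
  have st : ∀ (x : Cube n) k, |sv x k * tt W 0 x k| < 1 := fun x k => by
    rw [abs_mul, abs_sv, one_mul]; exact abs_tanh_lt_one _
  refine ⟨Reg.Bas66.mu_pos W, fun x j => ?_, fun x j => ?_, fun x j => ?_, Reg.Bas66.gen_eq hW⟩
  · have := abs_lt.1 (st x j); rw [Tk]; linarith
  · have := abs_lt.1 (st x j); rw [Tk]; linarith
  · rw [Tk, Tk, Reg.Bas66.tt_fl, Reg.Bas66.sv_fl_self]; ring

theorem four_Tk (x : Cube n) (j : Fin n) : 4 * Tk W x j * (1 - Tk W x j) = 1 - tt W 0 x j ^ 2 := by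
  rw [Tk]; linear_combination (-(tt W 0 x j) ^ 2) * sv_mul_self x j

theorem abs_Tk_fl (hW : Wᵀ = W) (x : Cube n) {k j : Fin n} (e : j ≠ k) :
    |Tk W (fl x k) j - Tk W x j| ≤
      exp (4 * |W k j|) * |W k j| * (4 * Tk W x j * (1 - Tk W x j)) := by
  have s : W j k = W k j := by rw [← congrFun (congrFun hW k) j, transpose_apply]
  have l1 : tt W 0 (fl x k) j = tanh (loc W 0 x j - 2 * sv x k * W k j) := by
    rw [tt, loc_fl, if_neg e.symm, s]
  have c : |2 * sv x k * W k j| = 2 * |W k j| := by rw [abs_mul, abs_mul, abs_sv, abs_two, mul_one]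
  have a := Reg.Coef54.a1 (loc W 0 x j) (2 * sv x k * W k j)
  rw [c, ← l1] at a
  have e2 : Tk W (fl x k) j - Tk W x j = -(sv x j * (tt W 0 (fl x k) j - tt W 0 x j)) / 2 := by
    rw [Tk, Tk, sv_fl_ne x e]; ring
  rw [four_Tk, e2, abs_div, abs_neg, abs_mul, abs_sv, one_mul, abs_two]
  have e3 : exp (2 * (2 * |W k j|)) = exp (4 * |W k j|) := by congr 1; ring
  rw [e3] at a
  change |tt W 0 (fl x k) j - tt W 0 x j| ≤ _ * (_ * (1 - tt W 0 x j ^ 2)) at a
  linarith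

/-- the constant `c⋆` -/
def cs (e b2 : ℝ) : ℝ := 64 / 27 * (exp (8 * e) * b2)

theorem sum_b_le {k : Fin n} {e b2 : ℝ} (he : ∀ j, |W k j| ≤ e) (hb : ∑ j, W k j ^ 2 ≤ b2) :
    ∑ j ∈ Finset.univ.erase k, 64 / 27 * (exp (4 * |W k j|) * |W k j|) ^ 2 ≤ cs e b2 := by
  rw [← Finset.mul_sum, cs]
  refine mul_le_mul_of_nonneg_left ?_ (by norm_num)
  calc _ ≤ ∑ j ∈ Finset.univ.erase k, exp (8 * e) * W k j ^ 2 := Finset.sum_le_sum fun j _ => by
        rw [mul_pow, sq_abs, sq, ← exp_add]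
        exact mul_le_mul_of_nonneg_right (exp_le_exp.2 (by linarith [he j])) (sq_nonneg _)
    _ ≤ _ := by
        rw [← Finset.mul_sum]
        exact mul_le_mul_of_nonneg_left ((Finset.sum_le_sum_of_subset_of_nonneg
          (Finset.subset_univ _) fun j _ _ => sq_nonneg _).trans hb) (exp_pos _).le

theorem sum_sq_le (hW : Wᵀ = W) {k : Fin n} {e b2 : ℝ} (he : ∀ j, |W k j| ≤ e)
    (hb : ∑ j, W k j ^ 2 ≤ b2) (x : Cube n) {ρ : Fin n → ℝ} (hρ : ∀ j, j ≠ k → |ρ j - Tk W x j| ≤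
      exp (4 * |W k j|) * |W k j| * (4 * Tk W x j * (1 - Tk W x j))) :
    ∑ j ∈ Finset.univ.erase k, (ρ j - Tk W x j) ^ 2 / Tk W x j ≤ cs e b2 :=
  (Finset.sum_le_sum fun j hj => sq_div_le ((rt_mu hW).pos x j) ((rt_mu hW).lt x j)
    (hρ j (Finset.ne_of_mem_erase hj))).trans (sum_b_le he hb)

theorem sum_cst_le (hW : Wᵀ = W) {k : Fin n} {e b2 : ℝ} (he : ∀ j, |W k j| ≤ e)
    (hb : ∑ j, W k j ^ 2 ≤ b2) (x : Cube n) {ρ : Fin n → ℝ} (hρ : ∀ j, j ≠ k → |ρ j - Tk W x j| ≤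
      exp (4 * |W k j|) * |W k j| * (4 * Tk W x j * (1 - Tk W x j))) :
    ∑ j ∈ Finset.univ.erase k, cst (Tk W x j) (ρ j) ≤ (3 / 2 + 2 * (exp (4 * e) * e)) * cs e b2 := by
  have e0 : 0 ≤ e := (abs_nonneg _).trans (he k)
  refine le_trans ?_ (mul_le_mul_of_nonneg_left (sum_b_le he hb) (by positivity))
  rw [Finset.mul_sum]
  refine Finset.sum_le_sum fun j hj => (cst_le ((rt_mu hW).pos x j) ((rt_mu hW).lt x j)
    (by positivity) (hρ j (Finset.ne_of_mem_erase hj))).trans ?_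
  have : exp (4 * |W k j|) * |W k j| ≤ exp (4 * e) * e :=
    mul_le_mul (exp_le_exp.2 (by linarith [he j])) (he j) (abs_nonneg _) (exp_pos _).le
  exact mul_le_mul_of_nonneg_right (by linarith) (by positivity)

/-- **(HK)** for the Ising heat bath; `θ = Tk W x k` is the heat bath average at `k` -/
theorem hk_mu (hn : 0 < n) (hW : Wᵀ = W) {k : Fin n} {e b2 a K : ℝ} (he : ∀ j, |W k j| ≤ e)
    (hb : ∑ j, W k j ^ 2 ≤ b2) (ha : (3 / 2 + 2 * (exp (4 * e) * e)) * cs e b2 ≤ a) (ha1 : a < 1)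
    (hK : 1 ≤ K * (1 - a)) {F : Cube n → ℝ} (hF : ∀ x, F (fl x k) = F x) {s : ℝ} (hs : 0 ≤ s)
    (x : Cube n) {θ : ℝ} (h0 : 0 ≤ θ) (h1 : θ ≤ 1) :
    ph (sg (mu W) s F x + θ * (sg (mu W) s F (fl x k) - sg (mu W) s F x)) ≤
      K * sg (mu W) s (fun z => ph (F z)) x := by
  have e0 : 0 ≤ e := (abs_nonneg _).trans (he k)
  have b0 : 0 ≤ b2 := (Finset.sum_nonneg fun j _ => sq_nonneg _).trans hb
  refine harnack' hn (rt_mu hW) (le_trans (by rw [cs]; positivity) ha) hK ha1 (fun x =>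
    (sum_cst_le hW he hb x fun j hj => abs_Tk_fl hW x hj).trans ha) hF hs x h0 h1

/-- **(AlDec)**: `A` is free of `s_k` and follows rates `ρ` off `k` with killing rate `l` -/
theorem al_mu (hn : 0 < n) (hW : Wᵀ = W) {k : Fin n} {e b2 l : ℝ} (he : ∀ j, |W k j| ≤ e)
    (hb : ∑ j, W k j ^ 2 ≤ b2) {ρ : Cube n → Fin n → ℝ} (h0 : ∀ x j, 0 ≤ ρ x j)
    (hρ : ∀ x j, j ≠ k → |ρ x j - Tk W x j| ≤
      exp (4 * |W k j|) * |W k j| * (4 * Tk W x j * (1 - Tk W x j)))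
    {A : ℝ → Cube n → ℝ} (hF : ∀ s x, A s (fl x k) = A s x)
    (hA : ∀ s x, HasDerivAt (fun u => A u x)
      (∑ j ∈ Finset.univ.erase k, ρ x j * (A s (fl x j) - A s x) - l * A s x) s)
    {s : ℝ} (hs : 0 ≤ s) (x : Cube n) :
    ph (A s x) ≤ exp (((3 / 2 + 2 * (exp (4 * e) * e)) * cs e b2 - 3 / 2 * l) * s) *
      sg (mu W) s (fun z => ph (A 0 z)) x ∧
    A s x ^ 2 ≤ exp ((cs e b2 - 2 * l) * s) * sg (mu W) s (fun z => A 0 z ^ 2) x := by
  have R := rt_mu hW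
  have d : ∀ s x, HasDerivAt (fun u => A u x) (∑ j, (if j = k then Tk W x k else ρ x j) *
      (A s (fl x j) - A s x) - l * A s x) s := fun s x => (hA s x).congr_deriv (by
    rw [← Finset.add_sum_erase _ _ (Finset.mem_univ k), hF, sub_self, mul_zero, zero_add]
    congr 1
    exact Finset.sum_congr rfl fun j hj => by rw [if_neg (Finset.ne_of_mem_erase hj)])
  refine ⟨dec32 hn R (fun x j => ?_) d (fun x => ?_) hs x, dec2 hn R d (fun x => ?_) hs x⟩
  · split_ifs; exacts [(R.pos x k).le, h0 x j]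
  · rw [← Finset.add_sum_erase _ _ (Finset.mem_univ k), if_pos rfl, cst_self, zero_add]
    refine le_trans (le_of_eq ?_) (sum_cst_le hW he hb x (hρ x))
    exact Finset.sum_congr rfl fun j hj => by rw [if_neg (Finset.ne_of_mem_erase hj)]
  · rw [← Finset.add_sum_erase _ _ (Finset.mem_univ k), if_pos rfl, sub_self]
    refine le_trans (le_of_eq ?_) (sum_sq_le hW he hb x (hρ x))
    rw [zero_pow two_ne_zero, zero_div, zero_add]
    exact Finset.sum_congr rfl fun j hj => by rw [if_neg (Finset.ne_of_mem_erase hj)]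

/-- numerics: `c⋆ ≤ 2.4 b2` for `e ≤ 0.001` -/
theorem cs_num {e b2 : ℝ} (e0 : 0 ≤ e) (e1 : e ≤ 1 / 1000) (b0 : 0 ≤ b2) :
    cs e b2 ≤ 12 / 5 * b2 ∧ (3 / 2 + 2 * (exp (4 * e) * e)) * cs e b2 ≤ 3 / 2 * (12 / 5 * b2) := by
  have h8 : exp (8 * e) ≤ 1 + 1 / 120 := by
    have a := exp_bound_div_one_sub_of_interval' (x := 1 / 125) (by norm_num) (by norm_num)
    have b := exp_le_exp.2 (show 8 * e ≤ 1 / 125 by linarith)
    have c : (1 : ℝ) / (1 - 1 / 125) ≤ 1 + 1 / 120 := by norm_num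
    linarith
  have h4 : exp (4 * e) ≤ 1 + 1 / 120 := (exp_le_exp.2 (by linarith)).trans h8
  have h5 : exp (4 * e) * e ≤ (1 + 1 / 120) * (1 / 1000) := mul_le_mul h4 e1 e0 (by norm_num)
  have h6 : exp (8 * e) * b2 ≤ (1 + 1 / 120) * b2 := mul_le_mul_of_nonneg_right h8 b0
  have h7 : cs e b2 ≤ 64 / 27 * (1 + 1 / 120) * b2 := by rw [cs]; linarith
  have h9 : 0 ≤ cs e b2 := by rw [cs]; positivity
  exact ⟨by linarith, by nlinarith⟩

end ising

end Crest.Agent.T157.S6k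

end
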