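import Crest.Agent.T157.BTop_95

/-!
# Row 157, block S6 (helper28): closing the return loop in time
-/

set_option autoImplicit false

noncomputable section

namespace Crest.Agent.T157.S6k

open Real Set intervalIntegral
open MeasureTheory (volume intervalIntegral_intervalIntegral_swap)
open Crest.Agent.T157.E Crest.Agent.T157.Rv Crest.Agent.T157.B
open Crest.Agent.T157.Chain22 (sg sg_zero)

theorem swap_cont {F : ℝ → ℝ → ℝ} (hF : Continuous F.uncurry) (a b c d : ℝ) :
    ∫ x in a..b, ∫ y in c..d, F x y = ∫ y in c..d, ∫ x in a..b, F x y :=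
  intervalIntegral_intervalIntegral_swap ((hF.continuousOn.integrableOn_compact
    ((isCompact_uIcc (a := a) (b := b)).prod (isCompact_uIcc (a := c) (b := d)))).mono_set
      (prod_mono uIoc_subset_uIcc uIoc_subset_uIcc))

theorem int_mono {F : ℝ → ℝ} (hF : Continuous F) (h0 : ∀ u, 0 ≤ F u) {a b c d : ℝ} (h1 : c ≤ a)
    (h2 : a ≤ b) (h3 : b ≤ d) : ∫ u in a..b, F u ≤ ∫ u in c..d, F u :=
  integral_mono_interval h1 h2 h3 (Filter.Eventually.of_forall h0) (hF.intervalIntegrable _ _)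

/-- Young's inequality for a delay -/
theorem conv_le {F q : ℝ → ℝ} (hF : Continuous F) (h0 : ∀ u, 0 ≤ F u) (hq : Continuous q)
    {α β p t : ℝ} (q0 : ∀ s ∈ Icc α β, 0 ≤ q s) (a0 : 0 ≤ α) (ab : α ≤ β) (bp : β ≤ p) (pt : p ≤ t) :
    ∫ r in p..t, ∫ s in α..β, q s * F (r - s) ≤ (∫ s in α..β, q s) * ∫ u in (0 : ℝ)..t, F u := by
  rw [swap_cont (F := fun r s => q s * F (r - s)) (by fun_prop), ← integral_mul_const]
  refine integral_mono_on ab ((continuous_parametric_intervalIntegral_of_continuous'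
    (f := fun s r => q s * F (r - s)) (by fun_prop) p t).intervalIntegrable _ _)
    ((hq.mul continuous_const).intervalIntegrable _ _) fun s hs => ?_
  rw [integral_const_mul, integral_comp_sub_right]
  exact mul_le_mul_of_nonneg_left (int_mono hF h0 (by linarith [hs.2]) (by linarith)
    (by linarith [hs.1])) (q0 s hs)

/-- the delay inequality, integrated -/
theorem loop {Y J Z q : ℝ → ℝ} (hY : Continuous Y) (hJ : Continuous J) (hZ : Continuous Z)
    (hq : Continuous q) (Y0 : ∀ u, 0 ≤ Y u) (J0 : ∀ u, 0 ≤ J u) (Z0 : ∀ u, 0 ≤ Z u)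
    {τ T g1 g2 δ η B : ℝ} (hτ : 0 ≤ τ) (q0 : ∀ s ∈ Icc 0 (τ + 1), 0 ≤ q s)
    (hg1 : 0 ≤ g1) (hg2 : ∫ s in (0 : ℝ)..(τ + 1), q s ≤ g2) (hδ : 0 ≤ δ) (hη : 0 ≤ η) (hB : 0 ≤ B)
    (hg : g1 + g2 + δ ≤ 1)
    (h : ∀ r, τ + 1 ≤ r → r ≤ T → (1 - 2 / 3 * (g1 + g2) - δ) * Y r ≤
      1 / 3 * (g1 * (∫ s in τ..(τ + 1), Y (r - s)) + ∫ s in (0 : ℝ)..(τ + 1), q s * Y (r - s)) +
        η * J r + B * (∫ s in τ..(τ + 1), J (r - s)) + Z r)
    {t : ℝ} (t0 : 0 ≤ t) (t1 : t ≤ T) :
    (1 - g1 - g2 - δ) * ∫ r in (0 : ℝ)..t, Y r ≤ (∫ r in (0 : ℝ)..(τ + 1), Y r) +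
      (η + B) * (∫ r in (0 : ℝ)..t, J r) + ∫ r in (0 : ℝ)..t, Z r := by
  have p0 : (0 : ℝ) ≤ τ + 1 := by linarith
  have g20 : 0 ≤ g2 := (integral_nonneg p0 q0).trans hg2
  have iY : 0 ≤ ∫ r in (0 : ℝ)..t, Y r := integral_nonneg t0 fun u _ => Y0 u
  have iJ : 0 ≤ ∫ r in (0 : ℝ)..t, J r := integral_nonneg t0 fun u _ => J0 u
  have iZ : 0 ≤ ∫ r in (0 : ℝ)..t, Z r := integral_nonneg t0 fun u _ => Z0 u
  have iP : 0 ≤ ∫ r in (0 : ℝ)..(τ + 1), Y r := integral_nonneg p0 fun u _ => Y0 u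
  rcases le_total t (τ + 1) with tp | tp
  · have := int_mono hY Y0 le_rfl t0 tp
    nlinarith [mul_nonneg (add_nonneg hη hB) iJ, mul_nonneg (add_nonneg (add_nonneg hg1 g20) hδ) iY]
  have c1 : Continuous fun r => ∫ s in τ..(τ + 1), Y (r - s) :=
    continuous_parametric_intervalIntegral_of_continuous' (f := fun r s => Y (r - s)) (by fun_prop) _ _
  have c2 : Continuous fun r => ∫ s in (0 : ℝ)..(τ + 1), q s * Y (r - s) :=
    continuous_parametric_intervalIntegral_of_continuous' (f := fun r s => q s * Y (r - s))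
      (by fun_prop) _ _
  have c3 : Continuous fun r => ∫ s in τ..(τ + 1), J (r - s) :=
    continuous_parametric_intervalIntegral_of_continuous' (f := fun r s => J (r - s)) (by fun_prop) _ _
  have m := integral_mono_on (μ := volume) tp (Continuous.intervalIntegrable
    (u := fun r => (1 - 2 / 3 * (g1 + g2) - δ) * Y r) (by fun_prop) _ _)
    (Continuous.intervalIntegrable (by fun_prop) _ _) fun r hr => h r hr.1 (hr.2.trans t1)
  rw [integral_const_mul, integral_add (Continuous.intervalIntegrable (by fun_prop) _ _)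
    (hZ.intervalIntegrable _ _), integral_add (Continuous.intervalIntegrable (by fun_prop) _ _)
    (Continuous.intervalIntegrable (by fun_prop) _ _), integral_add
    (Continuous.intervalIntegrable (by fun_prop) _ _) (Continuous.intervalIntegrable (by fun_prop) _ _),
    integral_const_mul, integral_const_mul, integral_const_mul, integral_add
    (Continuous.intervalIntegrable (by fun_prop) _ _) (c2.intervalIntegrable _ _),
    integral_const_mul] at m
  have e1 := conv_le hY Y0 (q := fun _ => 1) continuous_const (α := τ) (β := τ + 1)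
    (fun _ _ => zero_le_one) hτ (by linarith) le_rfl tp
  have e2 := conv_le hY Y0 hq q0 le_rfl p0 le_rfl tp
  have e3 := conv_le hJ J0 (q := fun _ => 1) continuous_const (α := τ) (β := τ + 1)
    (fun _ _ => zero_le_one) hτ (by linarith) le_rfl tp
  simp only [one_mul, integral_const, add_sub_cancel_left, smul_eq_mul, mul_one] at e1 e3
  have e4 := int_mono hJ J0 p0 tp le_rfl
  have e5 := int_mono hZ Z0 p0 tp le_rfl
  have e6 := integral_add_adjacent_intervals (μ := volume) (hY.intervalIntegrable 0 (τ + 1))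
    (hY.intervalIntegrable (τ + 1) t)
  have e7 := mul_le_mul_of_nonneg_right hg2 iY
  nlinarith [mul_le_mul_of_nonneg_left e1 hg1, mul_le_mul_of_nonneg_left e3 hB,
    mul_le_mul_of_nonneg_left e4 hη, mul_nonneg (add_nonneg (add_nonneg hg1 g20) hδ) iP]

/-- the return kernel -/
def kq (k l σ : ℝ) (ρ : ℝ → ℝ) (s : ℝ) : ℝ :=
  k ^ 2 * exp (σ * s) * ∫ u in (0 : ℝ)..s, exp (-(l * u)) * ρ (s - u)

theorem continuous_kq (k l σ : ℝ) {ρ : ℝ → ℝ} (hρ : Continuous ρ) : Continuous (kq k l σ ρ) := by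
  have : Continuous fun s : ℝ => ∫ u in (0 : ℝ)..s, exp (-(l * u)) * ρ (s - u) :=
    continuous_parametric_intervalIntegral_of_continuous
      (f := fun s u => exp (-(l * u)) * ρ (s - u)) (by fun_prop) continuous_id
  unfold kq; fun_prop

theorem kq_nonneg (k l σ : ℝ) {ρ : ℝ → ℝ} {p : ℝ} (h0 : ∀ v ∈ Icc 0 p, 0 ≤ ρ v) :
    ∀ s ∈ Icc 0 p, 0 ≤ kq k l σ ρ s := fun s hs =>
  mul_nonneg (by positivity) (integral_nonneg hs.1 fun u hu => mul_nonneg (exp_pos _).le
    (h0 _ ⟨by linarith [hu.2], by linarith [hu.1, hs.2]⟩))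

theorem int_kq (k : ℝ) {l σ : ℝ} (hl : σ < l) {ρ : ℝ → ℝ} (hρ : Continuous ρ) {p : ℝ} (hp : 0 ≤ p)
    (h0 : ∀ v ∈ Icc 0 p, 0 ≤ ρ v) : ∫ s in (0 : ℝ)..p, kq k l σ ρ s ≤
      k ^ 2 * (∫ v in (0 : ℝ)..p, exp (σ * v) * ρ v) / (l - σ) := by
  -- `ψ s = e^{-(l-σ)s} ∫_0^s e^{l v} ρ v`, `ψ' = -(l-σ) ψ + e^{σ s} ρ s`
  have cv : Continuous fun v => exp (l * v) * ρ v := by fun_prop
  set G : ℝ → ℝ := fun s => ∫ v in (0 : ℝ)..s, exp (l * v) * ρ v with hG
  have dG : ∀ s, HasDerivAt G (exp (l * s) * ρ s) s := fun s =>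
    (cv.integral_hasStrictDerivAt 0 s).hasDerivAt
  have cG : Continuous G := continuous_iff_continuousAt.2 fun s => (dG s).continuousAt
  have e : ∀ s, kq k l σ ρ s = k ^ 2 * (exp (-((l - σ) * s)) * G s) := fun s => by
    have : ∫ u in (0 : ℝ)..s, exp (-(l * u)) * ρ (s - u) = exp (-(l * s)) * G s := by
      have a := integral_comp_sub_left (fun v => exp (l * v) * ρ v) (a := 0) (b := s) s
      rw [sub_self, sub_zero] at a
      rw [hG]; simp only
      rw [← a, ← integral_const_mul]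
      congr 1; ext u
      rw [← mul_assoc, ← exp_add]; congr 2; ring
    rw [kq, this, mul_assoc, ← mul_assoc (exp _), ← exp_add]; congr 3; ring
  have d : ∀ s, HasDerivAt (fun s => exp (-((l - σ) * s)) * G s)
      (exp (σ * s) * ρ s - (l - σ) * (exp (-((l - σ) * s)) * G s)) s := fun s => by
    refine (((hasDerivAt_id' s).const_mul (l - σ)).neg.exp.mul (dG s)).congr_deriv ?_
    simp only [Pi.neg_apply]
    rw [← mul_assoc (exp _) (exp _), ← exp_add, show -((l - σ) * s) + l * s = σ * s by ring]; ring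
  have f := integral_eq_sub_of_hasDerivAt (a := 0) (b := p) (fun s _ => d s)
    (Continuous.intervalIntegrable (by fun_prop) _ _)
  rw [integral_sub (Continuous.intervalIntegrable (by fun_prop) _ _)
    (Continuous.intervalIntegrable (by fun_prop) _ _), integral_const_mul] at f
  have G0 : G 0 = 0 := by simp [hG]
  have Gp : 0 ≤ G p := integral_nonneg hp fun v hv => mul_nonneg (exp_pos _).le (h0 v hv)
  simp only [e]
  rw [integral_const_mul, mul_div_assoc]
  refine mul_le_mul_of_nonneg_left ?_ (sq_nonneg k)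
  rw [le_div_iff₀ (sub_pos.2 hl)]
  rw [G0] at f
  nlinarith [mul_nonneg (exp_pos (-((l - σ) * p))).le Gp]

/-- the gain of the loop is at most `0.8` -/
theorem gain_num {b a b2 Rh : ℝ} (b0 : 0 ≤ b) (a0 : 1 / 2 ≤ a) (a1 : a ≤ (1 - b) ^ 2) (b1 : b ≤ 1)
    (h2 : b2 ≤ b ^ 2 + 1 / 1000) (hR : Rh ≤ 3 * b ^ 2 + 1 / 1000) :
    1 / 4 ≤ 1 - 12 / 5 * b2 - 2 * a / 3 ∧ a ≤ 1 - 6 / 5 * b2 + 1 / 500 - b ∧
    1 ≤ (8 / 7 : ℝ) ^ 3 * (1 - 3 / 2 * (12 / 5 * b2)) ∧
    (8 / 7 : ℝ) ^ 2 * Rh ≤ 4 / 5 * (1 - 12 / 5 * b2 - 2 * a / 3) := by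
  have h : b ≤ 293 / 1000 := by
    by_contra hh
    have := lt_of_not_ge hh
    nlinarith
  refine ⟨by nlinarith, by nlinarith, by nlinarith, by nlinarith⟩

variable {n : ℕ} {w f : Cube n → ℝ}

theorem continuous_I (hn : 0 < n) (hw : ∀ x, 0 < w x) (hf : ∀ x, 0 < f x) :
    Continuous fun u : ℝ => II w (sg w (max u 0) f) := by
  have c0 : Continuous fun u : ℝ => max u 0 := continuous_id.max continuous_const
  have : Continuous fun u : ℝ => ent w (sg w (max u 0) f) := continuous_iff_continuousAt.2 fun u =>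
    ContinuousAt.comp (f := fun u : ℝ => max u 0) (g := fun s => ent w (sg w s f))
      (hasDerivAt_ent_sg hn hw (sg_pos hn hw (le_max_right u 0) hf)).continuousAt c0.continuousAt
  exact ((continuous_HI hn hw hf).sub this).congr fun u => by simp

theorem int_I_le (hn : 0 < n) (hw : ∀ x, 0 < w x) (hf : ∀ x, 0 < f x) {p : ℝ} (hp : 0 ≤ p) :
    ∫ u in (0 : ℝ)..p, II w (sg w (max u 0) f) ≤ ent w f := by
  have e : ∫ u in (0 : ℝ)..p, II w (sg w (max u 0) f) = ∫ u in (0 : ℝ)..p, II w (sg w u f) :=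
    integral_congr fun u hu => by rw [uIcc_of_le hp] at hu; simp only [max_eq_left hu.1]
  have i : IntervalIntegrable (fun u => II w (sg w u f)) volume 0 p :=
    ((continuous_I hn hw hf).continuousOn.congr (s := uIcc 0 p) fun u hu => by
      rw [uIcc_of_le hp] at hu; simp only [max_eq_left hu.1]).intervalIntegrable
  have d := integral_eq_sub_of_hasDerivAt (a := 0) (b := p) (f := fun u => -ent w (sg w u f))
    (f' := fun u => II w (sg w u f)) (fun u hu => by
      rw [uIcc_of_le hp] at hu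
      exact (hasDerivAt_ent_sg hn hw (sg_pos hn hw hu.1 hf)).neg.congr_deriv (neg_neg _)) i
  rw [e, d, sg_zero hn hw]
  linarith [ent_nn hw (sg_nn hn hw hp fun x => (hf x).le)]

/-- **(Loop)** the delay inequality for `X` pays every deficit dominated by `X` -/
theorem paid_loop (hn : 0 < n) (hw : ∀ x, 0 < w x) (hf : ∀ x, 0 < f x) {D : (Cube n → ℝ) → ℝ}
    {X q : ℝ → ℝ} (hX : ContinuousOn X (Ici 0)) (hq : Continuous q)
    {a τ T g1 g2 δ γ η η' B C A N N' : ℝ} (ha : 0 < a) (hτ : 0 ≤ τ)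
    (q0 : ∀ s ∈ Icc 0 (τ + 1), 0 ≤ q s) (hg1 : 0 ≤ g1) (hg2 : ∫ s in (0 : ℝ)..(τ + 1), q s ≤ g2)
    (hδ : 0 ≤ δ) (hγ : 0 < γ) (hg : g1 + g2 + δ + γ ≤ 1) (hη : 0 ≤ η') (hB : 0 ≤ B) (hC : 0 ≤ C)
    (hA : 0 ≤ A) (hN : 0 ≤ N) (hN' : 0 ≤ N')
    (X0 : ∀ s, 0 ≤ s → 0 ≤ X s ∧ X s ≤ A * II w (sg w s f))
    (hD : ∀ s, 0 ≤ s → s ≤ T → D (sg w s f) ≤
      η * (ent w (sg w s f) + II w (sg w s f)) + C * X s + N)
    (h : ∀ r, τ + 1 ≤ r → r ≤ T → (1 - 2 / 3 * (g1 + g2) - δ) * (exp (2 * a * r) * X r) ≤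
      1 / 3 * (g1 * (∫ s in τ..(τ + 1), exp (2 * a * (r - s)) * X (r - s)) +
        ∫ s in (0 : ℝ)..(τ + 1), q s * (exp (2 * a * (r - s)) * X (r - s))) +
      η' * (exp (2 * a * r) * II w (sg w r f)) +
      B * (∫ s in τ..(τ + 1), exp (2 * a * (r - s)) * II w (sg w (r - s) f)) + N' * exp (2 * a * r)) :
    Paid w D a (η + C * (η' + B) / γ)
      (C * A * exp (2 * a * (τ + 1)) / γ + (C * N' / γ + N) / (2 * a)) T f := by
  have c0 : Continuous fun u : ℝ => max u 0 := continuous_id.max continuous_const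
  set Y : ℝ → ℝ := fun u => exp (2 * a * u) * X (max u 0) with hY
  set J : ℝ → ℝ := fun u => exp (2 * a * u) * II w (sg w (max u 0) f) with hJ
  have cI := continuous_I hn hw hf
  have cX : Continuous fun u : ℝ => X (max u 0) := hX.comp_continuous c0 fun u => le_max_right u 0
  have cE : Continuous fun u : ℝ => exp (2 * a * u) := by fun_prop
  have cY : Continuous Y := cE.mul cX
  have cJ : Continuous J := cE.mul cI
  have I0 : ∀ u, 0 ≤ II w (sg w (max u 0) f) := fun u =>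
    II_nn hn hw (sg_pos hn hw (le_max_right u 0) hf)
  have Y0 : ∀ u, 0 ≤ Y u := fun u => mul_nonneg (exp_pos _).le (X0 _ (le_max_right u 0)).1
  have J0 : ∀ u, 0 ≤ J u := fun u => mul_nonneg (exp_pos _).le (I0 u)
  have p0 : (0 : ℝ) ≤ τ + 1 := by linarith
  have L := fun t t0 t1 => loop cY cJ (Z := fun r => N' * exp (2 * a * r)) (by fun_prop) hq Y0 J0
    (fun u => by positivity) (T := T) hτ q0 hg1 hg2 hδ hη hB (by linarith) (fun r r0 r1 => by
      have m : ∀ {α : ℝ}, 0 ≤ α → α ≤ τ + 1 → ∀ s ∈ uIcc α (τ + 1), max (r - s) 0 = r - s :=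
        fun h0 h1 s hs => max_eq_left (by rw [uIcc_of_le h1] at hs; linarith [hs.2])
      have e1 : ∫ s in τ..(τ + 1), Y (r - s) = ∫ s in τ..(τ + 1), exp (2 * a * (r - s)) * X (r - s) :=
        integral_congr fun s hs => by simp only [hY, m hτ (by linarith) s hs]
      have e2 : ∫ s in (0 : ℝ)..(τ + 1), q s * Y (r - s) =
          ∫ s in (0 : ℝ)..(τ + 1), q s * (exp (2 * a * (r - s)) * X (r - s)) :=
        integral_congr fun s hs => by simp only [hY, m le_rfl p0 s hs]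
      have e3 : ∫ s in τ..(τ + 1), J (r - s) =
          ∫ s in τ..(τ + 1), exp (2 * a * (r - s)) * II w (sg w (r - s) f) :=
        integral_congr fun s hs => by simp only [hJ, m hτ (by linarith) s hs]
      rw [e1, e2, e3]
      simp only [hY, hJ, max_eq_left (p0.trans r0)]
      exact h r r0 r1) (t := t) t0 t1
  have dE : ∀ s, HasDerivAt (fun s => (exp (2 * a * s) - 1) / (2 * a)) (exp (2 * a * s)) s := fun s => by
    refine (((((hasDerivAt_id s).const_mul (2 * a)).exp).sub_const 1).div_const (2 * a)).congr_deriv ?_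
    simp only [id]; field_simp
  have iE : ∀ s, ∫ r in (0 : ℝ)..s, N' * exp (2 * a * r) = N' * ((exp (2 * a * s) - 1) / (2 * a)) :=
    fun s => by
      rw [integral_const_mul, integral_eq_sub_of_hasDerivAt (fun u _ => dE u)
        (Continuous.intervalIntegrable (by fun_prop) _ _)]
      simp
  have iP : ∫ r in (0 : ℝ)..(τ + 1), Y r ≤ A * exp (2 * a * (τ + 1)) * ent w f := by
    refine le_trans ?_ (mul_le_mul_of_nonneg_left (int_I_le hn hw hf p0) (by positivity))
    rw [← integral_const_mul]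
    refine integral_mono_on p0 (cY.intervalIntegrable _ _)
      (Continuous.intervalIntegrable (by fun_prop) _ _) fun u hu => ?_
    have := mul_le_mul (exp_le_exp.2 (mul_le_mul_of_nonneg_left hu.2 (by positivity : 0 ≤ 2 * a)))
      (X0 _ (le_max_right u 0)).2 (X0 _ (le_max_right u 0)).1 (exp_pos _).le
    simp only [hY]; linarith
  refine ⟨fun s => C * (∫ r in (0 : ℝ)..s, Y r) - C * (η' + B) / γ * (∫ r in (0 : ℝ)..s, J r) +
      N * ((exp (2 * a * s) - 1) / (2 * a)),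
    fun s => C * Y s - C * (η' + B) / γ * J s + N * exp (2 * a * s), by simp, fun s s0 s1 =>
    ⟨(((cY.integral_hasStrictDerivAt 0 s).hasDerivAt.const_mul C).sub
      ((cJ.integral_hasStrictDerivAt 0 s).hasDerivAt.const_mul _)).add ((dE s).const_mul N), ?_, ?_⟩⟩
  · have k := mul_le_mul_of_nonneg_left (hD s s0 s1) (exp_pos (2 * a * s)).le
    have k2 : 0 ≤ C * (η' + B) / γ * (exp (2 * a * s) * ent w (sg w s f)) :=
      mul_nonneg (by positivity) (mul_nonneg (exp_pos _).le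
        (ent_nn hw (sg_nn hn hw s0 fun x => (hf x).le)))
    simp only [hY, hJ, max_eq_left s0]
    nlinarith
  · have l := L s s0 s1
    rw [iE] at l
    have iY : 0 ≤ ∫ r in (0 : ℝ)..s, Y r := integral_nonneg s0 fun u _ => Y0 u
    have l2 : γ * (∫ r in (0 : ℝ)..s, Y r) ≤ A * exp (2 * a * (τ + 1)) * ent w f +
        (η' + B) * (∫ r in (0 : ℝ)..s, J r) + N' * ((exp (2 * a * s) - 1) / (2 * a)) := by
      nlinarith [mul_le_mul_of_nonneg_right (show γ ≤ 1 - g1 - g2 - δ by linarith) iY]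
    have l3 := mul_le_mul_of_nonneg_left l2 (div_nonneg hC hγ.le)
    rw [show C / γ * (γ * ∫ r in (0 : ℝ)..s, Y r) = C * ∫ r in (0 : ℝ)..s, Y r by field_simp] at l3
    have i6 : (exp (2 * a * s) - 1) / (2 * a) ≤ exp (2 * a * s) / (2 * a) := by gcongr; linarith
    have H0 := ent_nn hw fun x => (hf x).le
    have H1 := II_nn hn hw hf
    have P1 : 0 ≤ C * A * exp (2 * a * (τ + 1)) / γ := by positivity
    have P2 : 0 ≤ (C * N' / γ + N) / (2 * a) := by positivity
    have P3 := mul_le_mul_of_nonneg_left i6 (by positivity : 0 ≤ C * N' / γ + N)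
    have e1 : (C * N' / γ + N) * (exp (2 * a * s) / (2 * a)) =
        (C * N' / γ + N) / (2 * a) * exp (2 * a * s) := by ring
    have e2 : C / γ * (A * exp (2 * a * (τ + 1)) * ent w f + (η' + B) * (∫ r in (0 : ℝ)..s, J r) +
        N' * ((exp (2 * a * s) - 1) / (2 * a))) = C * A * exp (2 * a * (τ + 1)) / γ * ent w f +
        C * (η' + B) / γ * (∫ r in (0 : ℝ)..s, J r) +
        C * N' / γ * ((exp (2 * a * s) - 1) / (2 * a)) := by ring
    simp only
    nlinarith [mul_nonneg P1 H1, mul_nonneg P1 (exp_pos (2 * a * s)).le, mul_nonneg P2 H0,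
      mul_nonneg P2 H1]

end Crest.Agent.T157.S6k

end
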