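import Crest.Agent.T157.S6Def_93
import Crest.Agent.T157.S6Fl_47
import Crest.Agent.T157.S6Hk_28
import Crest.Agent.T157.S6Lp_28

/-!
# Row 157, block S6 (helper28): `DecStmt` and `LoopStmt`
-/

set_option autoImplicit false

noncomputable section

namespace Crest.Agent.T157.S6k

open Real Set intervalIntegral Filter Topology
open MeasureTheory (volume ae_restrict_iff' ae_of_all)

/-! ### integrals over a triangle -/

theorem cont_tri {Y : Type*} [TopologicalSpace Y] {F : Y → ℝ → ℝ} (hF : Continuous F.uncurry)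
    {b : Y → ℝ} (hb : Continuous b) : Continuous fun y => ∫ v in (0 : ℝ)..b y, F y v :=
  continuous_parametric_intervalIntegral_of_continuous hF hb

theorem tri_congr {F G : ℝ → ℝ → ℝ} {s : ℝ} (hs : 0 ≤ s)
    (h : ∀ u v, 0 ≤ u → 0 ≤ v → u + v ≤ s → F u v = G u v) :
    ∫ u in (0 : ℝ)..s, ∫ v in (0 : ℝ)..(s - u), F u v =
      ∫ u in (0 : ℝ)..s, ∫ v in (0 : ℝ)..(s - u), G u v :=
  integral_congr fun u hu => by
    rw [uIcc_of_le hs] at hu
    exact integral_congr fun v hv => by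
      rw [uIcc_of_le (sub_nonneg.2 hu.2)] at hv
      exact h u v hu.1 hv.1 (by linarith [hv.2])

theorem tri_mono {F G : ℝ → ℝ → ℝ} (hF : Continuous F.uncurry) (hG : Continuous G.uncurry) {s : ℝ}
    (hs : 0 ≤ s) (h : ∀ u v, 0 ≤ u → 0 ≤ v → u + v ≤ s → F u v ≤ G u v) :
    ∫ u in (0 : ℝ)..s, ∫ v in (0 : ℝ)..(s - u), F u v ≤
      ∫ u in (0 : ℝ)..s, ∫ v in (0 : ℝ)..(s - u), G u v :=
  integral_mono_on hs ((cont_tri hF (by fun_prop)).intervalIntegrable _ _)
    ((cont_tri hG (by fun_prop)).intervalIntegrable _ _) fun u hu =>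
    integral_mono_on (sub_nonneg.2 hu.2) ((hF.uncurry_left u).intervalIntegrable _ _)
      ((hG.uncurry_left u).intervalIntegrable _ _) fun v hv => h u v hu.1 hv.1 (by linarith [hv.2])

theorem tri_add {F G : ℝ → ℝ → ℝ} (hF : Continuous F.uncurry) (hG : Continuous G.uncurry) (s : ℝ) :
    ∫ u in (0 : ℝ)..s, ∫ v in (0 : ℝ)..(s - u), (F u v + G u v) =
      (∫ u in (0 : ℝ)..s, ∫ v in (0 : ℝ)..(s - u), F u v) +
        ∫ u in (0 : ℝ)..s, ∫ v in (0 : ℝ)..(s - u), G u v := by
  rw [← integral_add ((cont_tri hF (by fun_prop)).intervalIntegrable _ _)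
    ((cont_tri hG (by fun_prop)).intervalIntegrable _ _)]
  exact integral_congr fun u _ => integral_add ((hF.uncurry_left u).intervalIntegrable _ _)
    ((hG.uncurry_left u).intervalIntegrable _ _)

theorem tri_mul (F : ℝ → ℝ → ℝ) (c s : ℝ) :
    ∫ u in (0 : ℝ)..s, ∫ v in (0 : ℝ)..(s - u), c * F u v =
      c * ∫ u in (0 : ℝ)..s, ∫ v in (0 : ℝ)..(s - u), F u v := by
  simp only [integral_const_mul]

theorem im {F : ℝ → ℝ} (hF : Continuous F) {t a b : ℝ} (h0 : ∀ u ∈ Icc 0 t, 0 ≤ F u) (h1 : 0 ≤ a)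
    (h2 : a ≤ b) (h3 : b ≤ t) : ∫ u in a..b, F u ≤ ∫ u in (0 : ℝ)..t, F u :=
  integral_mono_interval h1 h2 h3 ((ae_restrict_iff' measurableSet_Ioc).2
    (ae_of_all _ fun u hu => h0 u ⟨hu.1.le, hu.2⟩)) (hF.intervalIntegrable _ _)

theorem sh {F : ℝ → ℝ} (hF : Continuous F) {t p s : ℝ} (h0 : ∀ u ∈ Icc 0 t, 0 ≤ F u) (h1 : 0 ≤ s)
    (h2 : s ≤ p) (h3 : p ≤ t) : ∫ r in p..t, F (r - s) ≤ ∫ u in (0 : ℝ)..t, F u := by
  rw [integral_comp_sub_right]
  exact im hF h0 (by linarith) (by linarith) (by linarith)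

theorem cv1 {F q : ℝ → ℝ} (hF : Continuous F) (hq : Continuous q) {α β c p t : ℝ}
    (h0 : ∀ u ∈ Icc 0 t, 0 ≤ F u) (q0 : ∀ s ∈ Icc α β, 0 ≤ q s) (a0 : 0 ≤ c + α) (ab : α ≤ β)
    (bp : c + β ≤ p) (pt : p ≤ t) : ∫ r in p..t, ∫ s in α..β, q s * F (r - c - s) ≤
      (∫ s in α..β, q s) * ∫ u in (0 : ℝ)..t, F u := by
  rw [swap_cont (F := fun r s => q s * F (r - c - s)) (by fun_prop), ← integral_mul_const]
  refine integral_mono_on ab ((continuous_parametric_intervalIntegral_of_continuous'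
    (f := fun s r => q s * F (r - c - s)) (by fun_prop) p t).intervalIntegrable _ _)
    ((hq.mul continuous_const).intervalIntegrable _ _) fun s hs => ?_
  simp only [sub_sub]
  rw [integral_const_mul]
  exact mul_le_mul_of_nonneg_left (sh hF h0 (by linarith [hs.1]) (by linarith [hs.2]) pt) (q0 s hs)

theorem cv2 {F : ℝ → ℝ} {K : ℝ → ℝ → ℝ} (hF : Continuous F) (hK : Continuous K.uncurry) {p t : ℝ}
    (h0 : ∀ u ∈ Icc 0 t, 0 ≤ F u) (K0 : ∀ u v, 0 ≤ u → 0 ≤ v → u + v ≤ p → 0 ≤ K u v) (p0 : 0 ≤ p)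
    (pt : p ≤ t) : ∫ r in p..t, ∫ u in (0 : ℝ)..p, ∫ v in (0 : ℝ)..(p - u), K u v * F (r - u - v) ≤
      (∫ u in (0 : ℝ)..p, ∫ v in (0 : ℝ)..(p - u), K u v) * ∫ u in (0 : ℝ)..t, F u := by
  have c : Continuous (Function.uncurry fun r u => ∫ v in (0 : ℝ)..(p - u), K u v * F (r - u - v)) :=
    cont_tri (F := fun (y : ℝ × ℝ) v => K y.2 v * F (y.1 - y.2 - v)) (by fun_prop) (by fun_prop)
  rw [swap_cont c, ← integral_mul_const]
  refine integral_mono_on p0 ((continuous_parametric_intervalIntegral_of_continuous'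
    (f := fun u r => ∫ v in (0 : ℝ)..(p - u), K u v * F (r - u - v)) (c.comp continuous_swap)
    p t).intervalIntegrable _ _) (((cont_tri hK (by fun_prop)).mul
      continuous_const).intervalIntegrable _ _) fun u hu => ?_
  exact cv1 hF (hK.uncurry_left u) h0 (fun v hv => K0 u v hu.1 hv.1 (by linarith [hv.2]))
    (by linarith [hu.1]) (sub_nonneg.2 hu.2) (by linarith) pt

/-- the mass of the return kernel -/
theorem ker {ρ : ℝ → ℝ} (hρ : Continuous ρ) {θ σ t B s : ℝ} (k : ℝ) (h0 : ∀ v ∈ Icc 0 t, 0 ≤ ρ v)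
    (hB : ∫ v in (0 : ℝ)..t, ρ v * exp (σ * v) ≤ B) (hθ : σ < θ) (hs : s ∈ Icc 0 t) :
    ∫ u in (0 : ℝ)..s, ∫ v in (0 : ℝ)..(s - u), k ^ 2 * ρ v * exp (-(θ * u) + σ * (u + v)) ≤
      k ^ 2 * B / (θ - σ) := by
  have l := sub_pos.2 hθ
  have n0 : ∀ v ∈ Icc 0 t, 0 ≤ ρ v * exp (σ * v) := fun v hv => mul_nonneg (h0 v hv) (exp_pos _).le
  have B0 : 0 ≤ B := (integral_nonneg (hs.1.trans hs.2) n0).trans hB
  have d : ∀ u, HasDerivAt (fun u => -exp (-((θ - σ) * u)) / (θ - σ)) (exp (-((θ - σ) * u))) u :=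
    fun u => (((((hasDerivAt_id u).const_mul (θ - σ)).neg).exp.neg).div_const (θ - σ)).congr_deriv
      (by simp only [id, Pi.neg_apply]; field_simp)
  calc _ ≤ ∫ u in (0 : ℝ)..s, k ^ 2 * B * exp (-((θ - σ) * u)) := by
        refine integral_mono_on hs.1 ((cont_tri (F := fun u v => k ^ 2 * ρ v *
          exp (-(θ * u) + σ * (u + v))) (by fun_prop) (by fun_prop)).intervalIntegrable _ _)
          (Continuous.intervalIntegrable (by fun_prop) _ _) fun u hu => ?_
        have e : ∀ v, k ^ 2 * ρ v * exp (-(θ * u) + σ * (u + v)) =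
            k ^ 2 * exp (-((θ - σ) * u)) * (ρ v * exp (σ * v)) := fun v => by
          rw [show -(θ * u) + σ * (u + v) = -((θ - σ) * u) + σ * v by ring, exp_add]; ring
        simp only [e, integral_const_mul]
        have i := (im (by fun_prop) n0 le_rfl (sub_nonneg.2 hu.2)
          (by linarith [hu.1, hs.2])).trans hB
        rw [mul_right_comm _ B]
        exact mul_le_mul_of_nonneg_left i (by positivity)
    _ ≤ _ := by
        rw [integral_const_mul, integral_eq_sub_of_hasDerivAt (fun u _ => d u)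
          (Continuous.intervalIntegrable (by fun_prop) _ _), mul_div_assoc]
        have := div_pos (exp_pos (-((θ - σ) * s))) l
        rw [mul_assoc, div_eq_mul_one_div B]
        refine mul_le_mul_of_nonneg_left (mul_le_mul_of_nonneg_left ?_ B0) (sq_nonneg k)
        simp only [mul_zero, neg_zero, exp_zero, neg_div]
        linarith

end Crest.Agent.T157.S6k

namespace Crest.Agent.T157.S6a

open Matrix Real Set intervalIntegral Filter Topology
open MeasureTheory (volume)
open Crest.Agent.T157.E Crest.Agent.T157.S6k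
open Crest.Agent.T157.Tap (V Mx)
open Crest.Agent.T157.Chain22 (sg sg_zero)
open Crest.Agent.T157.Reg (VF mu Tk)
open Crest.Agent.T157.S6h (dl Fr cp FrV cw rc Lc)

theorem alf_zero {n : ℕ} {W : Mx n} (hn : 0 < n) (ω : VF n) (x : Cube n) (k : Fin n) :
    alf W ω 0 x k = ω x k := by
  rw [alf, sg_zero hn (S6h.cw_pos W k), neg_zero, exp_zero, one_mul, cp]

theorem decStmt : DecStmt := fun γ hγ => by
  have c : ContinuousAt (fun e : ℝ => (3 / 2 + 2 * (exp (4 * e) * e)) * exp (8 * e)) 0 := by fun_prop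
  obtain ⟨e, h1, e0⟩ : ∃ e : ℝ, (3 / 2 + 2 * (exp (4 * e) * e)) * exp (8 * e) < 3 / 2 + γ ∧ 0 < e :=
    (((c.eventually_lt continuousAt_const (by simpa using hγ)).filter_mono nhdsWithin_le_nhds).and
      (self_mem_nhdsWithin (s := Ioi (0 : ℝ)))).exists
  refine ⟨e, e0, fun n W b c ok hc c1 K hK => ?_⟩
  have b0 := sq_nonneg b
  have k1 : (3 / 2 + 2 * (exp (4 * e) * e)) * cs e (b ^ 2) ≤ 3 / 2 * c := by
    have := mul_le_mul_of_nonneg_right h1.le (by positivity : 0 ≤ 64 / 27 * b ^ 2)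
    have := mul_le_mul_of_nonneg_left (show 64 / 27 * b ^ 2 ≤ 3 / 2 by linarith) hγ.le
    rw [cs]; nlinarith
  have k2 : cs e (b ^ 2) ≤ c := by
    have : 0 ≤ exp (4 * e) * e * cs e (b ^ 2) := by rw [cs]; positivity
    nlinarith
  have A : ∀ ω : VF n, FrV ω → ∀ s ≥ (0 : ℝ), ∀ x k, _ := fun ω hω s hs x k =>
    al_mu ok.pos ok.sym (ok.ent k) (ok.row k) (l := 1) (ρ := fun x j => rc W k j x)
      (A := fun s x => alf W ω s x k) (fun x j => (S6h.rc_pos W k j x).le) (fun x j hj => by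
        have s : W j k = W k j := by rw [← congrFun (congrFun ok.sym k) j, transpose_apply]
        have := (S6h.abs_rc_sub ok.sym hj.symm x).trans (S6h.abs_am_le W x k j).2
        rwa [s, S6h.c_eq] at this)
      (fun s x => by simp only [alf, (hω k).sg_cw ok.pos ok.sym s x]) (fun s x => by
        refine ((hasDerivAt_neg s).exp.mul
          (S6h.hasDerivAt_sg_cw ok.pos ok.sym (hω k) x s)).congr_deriv ?_
        simp only [alf, Lc, dl, Finset.mul_sum, ← mul_sub, mul_left_comm (exp (-s))]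
        ring) hs x
  simp only [alf_zero ok.pos, ph_rpow] at A
  have P := Reg.Bas66.mu_pos W
  refine ⟨fun ω hω s hs x k => (A ω hω s hs x k).1.trans (mul_le_mul_of_nonneg_right
    (exp_le_exp.2 (by nlinarith)) (Rec.sg_nonneg ok.pos P hs (fun z => by positivity) x)),
    fun ω hω s hs x k => (A ω hω s hs x k).2.trans (mul_le_mul_of_nonneg_right
    (exp_le_exp.2 (by nlinarith)) (Rec.sg_nonneg ok.pos P hs (fun z => by positivity) x)),
    fun k F hF v hv x => ?_⟩
  have := hk_mu ok.pos ok.sym (ok.ent k) (ok.row k) k1 c1 hK hF hv x (S6h.Tk_pos W x k).le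
    (S6h.Tk_lt W x k).le
  simpa only [ph_rpow, Ek, dl] using this

theorem loopStmt : LoopStmt := by
  intro X I ρ a θ k B τ η Γ ζ t ha hθ hτ hη hΓ hζ ht hX hI hρ X0 ρ0 hB hg h
  set σ := 2 * a / 3 with hσ
  set p := τ + 1 with hp
  have p0 : 0 ≤ p := by linarith
  set Y : ℝ → ℝ := fun r => exp (2 * a * r) * X r with hY
  set J : ℝ → ℝ := fun r => exp (2 * a * r) * I r with hJ
  set K : ℝ → ℝ → ℝ := fun u v => k ^ 2 * ρ v * exp (-(θ * u) + σ * (u + v)) with hK
  have cY : Continuous Y := by fun_prop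
  have cJ : Continuous J := by fun_prop
  have cK : Continuous K.uncurry := by fun_prop
  have I0 : ∀ u ∈ Icc 0 t, 0 ≤ I u := fun u hu => by linarith [(X0 u hu).1, (X0 u hu).2]
  have Y0 : ∀ u ∈ Icc 0 t, 0 ≤ Y u := fun u hu => mul_nonneg (exp_pos _).le (X0 u hu).1
  have J0 : ∀ u ∈ Icc 0 t, 0 ≤ J u := fun u hu => mul_nonneg (exp_pos _).le (I0 u hu)
  have iY := integral_nonneg (μ := volume) ht Y0
  have iJ := integral_nonneg (μ := volume) ht J0
  have E := exp_pos (2 * a * p)
  have z0 : 0 ≤ 10 * ζ * exp (2 * a * t) / (2 * a) := by positivity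
  have st : ∀ q, 0 ≤ q → q ≤ p → q ≤ t → ∫ r in (0 : ℝ)..q, Y r ≤
      2 * exp (2 * a * p) * ∫ r in (0 : ℝ)..t, I r := fun q q0 q1 q2 => by
    refine le_trans ?_ (mul_le_mul_of_nonneg_left (im hI I0 le_rfl q0 q2) (by positivity))
    rw [← integral_const_mul]
    refine integral_mono_on q0 (cY.intervalIntegrable _ _)
      (Continuous.intervalIntegrable (by fun_prop) _ _) fun u hu => ?_
    have m := X0 u ⟨hu.1, hu.2.trans q2⟩
    have := mul_le_mul (exp_le_exp.2 (mul_le_mul_of_nonneg_left (hu.2.trans q1)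
      (by positivity : 0 ≤ 2 * a))) m.2 m.1 E.le
    simp only [hY]; linarith
  have iI := mul_nonneg E.le (integral_nonneg (μ := volume) ht I0)
  have G0 : 0 ≤ η + Γ * exp (2 * a * p) := by positivity
  rcases le_total t p with tp | tp
  · nlinarith [st t ht tp le_rfl, mul_nonneg G0 iJ]
  have c1 : Continuous fun r => ∫ s in τ..p, exp (-((θ - σ) * s)) * Y (r - 0 - s) :=
    continuous_parametric_intervalIntegral_of_continuous'
      (f := fun r s => exp (-((θ - σ) * s)) * Y (r - 0 - s)) (by fun_prop) _ _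
  have c2 : Continuous fun r => ∫ u in (0 : ℝ)..p, ∫ v in (0 : ℝ)..(p - u), K u v * Y (r - u - v) :=
    continuous_parametric_intervalIntegral_of_continuous'
      (f := fun r u => ∫ v in (0 : ℝ)..(p - u), K u v * Y (r - u - v)) (cont_tri
        (F := fun (y : ℝ × ℝ) v => K y.2 v * Y (y.1 - y.2 - v)) (by fun_prop) (by fun_prop)) _ _
  have c3 : Continuous fun r => ∫ s in τ..p, exp (2 * a * s) * J (r - 0 - s) :=
    continuous_parametric_intervalIntegral_of_continuous'
      (f := fun r s => exp (2 * a * s) * J (r - 0 - s)) (by fun_prop) _ _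
  have m := integral_mono_on (μ := volume) tp (Continuous.intervalIntegrable
    (u := fun r => (19 / 20 - 2 / 3 * gn θ σ k B τ) * Y r) (by fun_prop) _ _)
    (Continuous.intervalIntegrable (u := fun r => 1 / 3 * (∫ s in τ..p, exp (-((θ - σ) * s)) *
      Y (r - 0 - s)) + 1 / 3 * (∫ u in (0 : ℝ)..p, ∫ v in (0 : ℝ)..(p - u), K u v * Y (r - u - v)) +
      η * J r + Γ * (∫ s in τ..p, exp (2 * a * s) * J (r - 0 - s)) + ζ * exp (2 * a * r))
      (by fun_prop) _ _) fun r hr => by
    have e1 : ∫ s in τ..p, exp (-((θ - σ) * s)) * Y (r - 0 - s) =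
        exp (2 * a * r) * ∫ s in τ..p, exp (-((θ + 2 * σ) * s)) * X (r - s) := by
      rw [← integral_const_mul]
      refine integral_congr fun s _ => ?_
      simp only [hY, sub_zero, ← mul_assoc, ← exp_add]
      congr 2; rw [hσ]; ring
    have e2 : ∫ u in (0 : ℝ)..p, ∫ v in (0 : ℝ)..(p - u), K u v * Y (r - u - v) =
        exp (2 * a * r) * ∫ u in (0 : ℝ)..p, ∫ v in (0 : ℝ)..(p - u),
          k ^ 2 * ρ v * exp (-(θ * u) - 2 * σ * (u + v)) * X (r - u - v) := by
      rw [← tri_mul]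
      refine tri_congr p0 fun u v _ _ _ => ?_
      have : exp (-(θ * u) + σ * (u + v)) * exp (2 * a * (r - u - v)) =
          exp (2 * a * r) * exp (-(θ * u) - 2 * σ * (u + v)) := by
        rw [← exp_add, ← exp_add]; congr 1; rw [hσ]; ring
      simp only [hY, hK]
      linear_combination (k ^ 2 * ρ v * X (r - u - v)) * this
    have e3 : ∫ s in τ..p, exp (2 * a * s) * J (r - 0 - s) =
        exp (2 * a * r) * ∫ s in τ..p, I (r - s) := by
      rw [← integral_const_mul]
      refine integral_congr fun s _ => ?_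
      simp only [hJ, sub_zero, ← mul_assoc, ← exp_add]
      congr 2; ring
    have := mul_le_mul_of_nonneg_left (h r hr) (exp_pos (2 * a * r)).le
    rw [AA] at this
    rw [e1, e2, e3]; simp only [hY, hJ]; linarith
  rw [integral_const_mul, integral_add (Continuous.intervalIntegrable (by fun_prop) _ _)
    (Continuous.intervalIntegrable (by fun_prop) _ _), integral_add
    (Continuous.intervalIntegrable (by fun_prop) _ _) (Continuous.intervalIntegrable (by fun_prop) _ _),
    integral_add (Continuous.intervalIntegrable (by fun_prop) _ _)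
    (Continuous.intervalIntegrable (by fun_prop) _ _), integral_add
    (Continuous.intervalIntegrable (by fun_prop) _ _) (Continuous.intervalIntegrable (by fun_prop) _ _),
    integral_const_mul, integral_const_mul, integral_const_mul, integral_const_mul,
    integral_const_mul] at m
  have bx : ∀ {q : ℝ → ℝ} {M : ℝ}, Continuous q → (∀ s ∈ Icc τ p, q s ≤ M) → ∫ s in τ..p, q s ≤ M :=
    fun hq hM => by
      have := integral_mono_on (μ := volume) (by linarith : τ ≤ p) (hq.intervalIntegrable _ _)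
        (continuous_const.intervalIntegrable _ _) hM
      simpa [hp] using this
  have e1 := (cv1 cY (q := fun s => exp (-((θ - σ) * s))) (by fun_prop) (α := τ) (β := p) (c := 0) Y0
    (fun _ _ => (exp_pos _).le) (by linarith) (by linarith) (by linarith) tp).trans
    (mul_le_mul_of_nonneg_right (bx (M := exp (-((θ - σ) * τ))) (by fun_prop) fun s hs =>
      exp_le_exp.2 (by nlinarith [hs.1])) iY)
  have e2 := (cv2 cY cK Y0 (fun u v u0 v0 uv => mul_nonneg (mul_nonneg (sq_nonneg _)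
    (ρ0 v ⟨v0, by linarith⟩)) (exp_pos _).le) p0 tp).trans
    (mul_le_mul_of_nonneg_right (ker hρ k ρ0 hB hθ ⟨p0, le_rfl⟩) iY)
  have e3 := (cv1 cJ (q := fun s => exp (2 * a * s)) (by fun_prop) (α := τ) (β := p) (c := 0) J0
    (fun _ _ => (exp_pos _).le) (by linarith) (by linarith) (by linarith) tp).trans
    (mul_le_mul_of_nonneg_right (bx (M := exp (2 * a * p)) (by fun_prop) fun s hs =>
      exp_le_exp.2 (by nlinarith [hs.2])) iJ)
  have e4 := im cJ J0 p0 tp le_rfl
  have e5 : ∫ r in p..t, exp (2 * a * r) ≤ exp (2 * a * t) / (2 * a) := by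
    rw [integral_eq_sub_of_hasDerivAt (f := fun r => exp (2 * a * r) / (2 * a)) (fun u _ =>
      (((hasDerivAt_id u).const_mul (2 * a)).exp.div_const (2 * a)).congr_deriv
        (by simp only [id]; field_simp)) (Continuous.intervalIntegrable (by fun_prop) _ _)]
    linarith [div_pos E (by positivity : 0 < 2 * a)]
  have e6 := integral_add_adjacent_intervals (μ := volume) (cY.intervalIntegrable 0 p)
    (cY.intervalIntegrable p t)
  have e7 := st p p0 le_rfl tp
  have iP : 0 ≤ ∫ r in (0 : ℝ)..p, Y r := integral_nonneg p0 fun u hu => Y0 u ⟨hu.1, hu.2.trans tp⟩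
  have g0 : 0 ≤ gn θ σ k B τ := add_nonneg (exp_pos _).le (div_nonneg (mul_nonneg (sq_nonneg _)
    ((integral_nonneg p0 fun v hv => mul_nonneg (ρ0 v hv) (exp_pos _).le).trans hB)) (by linarith))
  have e8 := mul_le_mul_of_nonneg_right hg iY
  have e9 := mul_nonneg g0 iP
  have e0 := add_le_add e1 e2
  rw [← add_mul, ← gn] at e0
  rw [eq_sub_of_add_eq' e6] at m
  rw [mul_div_assoc]
  linarith [mul_le_mul_of_nonneg_left e3 hΓ, mul_le_mul_of_nonneg_left e4 hη,
    mul_le_mul_of_nonneg_left e5 hζ]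

end Crest.Agent.T157.S6a

end
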