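import Crest.Agent.T157.RecD_77

/-!
# Row 157, block S6 (helper20): maximum principle and comparison with the semigroup
-/

set_option autoImplicit false

noncomputable section

namespace Crest.Agent.T157.S6b

open Real Set Filter Topology MeasureTheory
open Crest.Agent.T157.E Crest.Agent.T157.Rec
open Crest.Agent.T157.Chain22 (sg sg_add sg_zero hasDerivAt_sg)

/-- `D` is touched from below at time `s` (from the left) by a function of slope at most `r` -/
def Tch (D : ℝ → ℝ) (s r : ℝ) : Prop :=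
  ∃ (φ : ℝ → ℝ) (d : ℝ), HasDerivAt φ d s ∧ φ s = D s ∧ (∀ᶠ u in 𝓝[<] s, φ u ≤ D u) ∧ d ≤ r

theorem Tch.of_deriv {D : ℝ → ℝ} {s d r : ℝ} (h : HasDerivAt D d s) (hd : d ≤ r) : Tch D s r :=
  ⟨D, d, h, rfl, Eventually.of_forall fun _ => le_rfl, hd⟩

theorem Tch.mono {D : ℝ → ℝ} {s r r' : ℝ} (h : Tch D s r) (hr : r ≤ r') : Tch D s r' := by
  obtain ⟨φ, d, h1, h2, h3, h4⟩ := h
  exact ⟨φ, d, h1, h2, h3, h4.trans hr⟩

theorem Tch.add {D E : ℝ → ℝ} {s r r' : ℝ} (h : Tch D s r) (h' : Tch E s r') :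
    Tch (fun u => D u + E u) s (r + r') := by
  obtain ⟨φ, d, h1, h2, h3, h4⟩ := h
  obtain ⟨ψ, e, g1, g2, g3, g4⟩ := h'
  refine ⟨fun u => φ u + ψ u, d + e, h1.add g1, by simp only [h2, g2], ?_, add_le_add h4 g4⟩
  filter_upwards [h3, g3] with u a b using add_le_add a b

theorem Tch.sum {ι : Type*} (S : Finset ι) {D : ι → ℝ → ℝ} {s : ℝ} {r : ι → ℝ}
    (h : ∀ i ∈ S, Tch (D i) s (r i)) : Tch (fun u => ∑ i ∈ S, D i u) s (∑ i ∈ S, r i) := by
  classical
  induction S using Finset.induction_on with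
  | empty => simpa using Tch.of_deriv (hasDerivAt_const s (0 : ℝ)) le_rfl
  | insert a S ha ih =>
    simp only [Finset.sum_insert ha]
    exact (h a (Finset.mem_insert_self _ _)).add (ih fun i hi => h i (Finset.mem_insert_of_mem hi))

/-- multiplication by a nonnegative differentiable factor -/
theorem Tch.mul {D c : ℝ → ℝ} {s r c' : ℝ} (h : Tch D s r) (hc : HasDerivAt c c' s)
    (h0 : ∀ u, 0 ≤ c u) : Tch (fun u => c u * D u) s (c' * D s + c s * r) := by
  obtain ⟨φ, d, h1, h2, h3, h4⟩ := h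
  refine ⟨fun u => c u * φ u, c' * φ s + c s * d, hc.mul h1, by simp only [h2], ?_, ?_⟩
  · filter_upwards [h3] with u a using mul_le_mul_of_nonneg_left a (h0 u)
  · rw [h2]; exact add_le_add le_rfl (mul_le_mul_of_nonneg_left h4 (h0 s))

theorem Tch.const_mul {D : ℝ → ℝ} {s r c : ℝ} (h : Tch D s r) (h0 : 0 ≤ c) :
    Tch (fun u => c * D u) s (c * r) := by
  simpa using h.mul (hasDerivAt_const s c) fun _ => h0

/-- composition with a monotone differentiable function -/
theorem Tch.comp {D g : ℝ → ℝ} {s r g' : ℝ} (h : Tch D s r) (hg : HasDerivAt g g' (D s))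
    (hm : Monotone g) : Tch (fun u => g (D u)) s (g' * r) := by
  obtain ⟨φ, d, h1, h2, h3, h4⟩ := h
  have g0 : 0 ≤ g' := hg.deriv ▸ hm.deriv_nonneg
  refine ⟨fun u => g (φ u), g' * d, ?_, by simp only [h2], ?_, mul_le_mul_of_nonneg_left h4 g0⟩
  · exact HasDerivAt.comp s (h2 ▸ hg) h1
  · filter_upwards [h3] with u a using hm a

/-- a minorant that agrees at `s` -/
theorem Tch.of_le {D E : ℝ → ℝ} {s r : ℝ} (h : Tch D s r) (he : D s = E s)
    (hl : ∀ᶠ u in 𝓝[<] s, D u ≤ E u) : Tch E s r := by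
  obtain ⟨φ, d, h1, h2, h3, h4⟩ := h
  refine ⟨φ, d, h1, h2.trans he, ?_, h4⟩
  filter_upwards [h3, hl] with u a b using a.trans b

theorem Tch.nonneg {D : ℝ → ℝ} {s r : ℝ} (h : Tch D s r) (hm : ∀ᶠ u in 𝓝[<] s, D u ≤ D s) :
    0 ≤ r := by
  obtain ⟨φ, d, h1, h2, h3, h4⟩ := h
  refine le_trans ?_ h4
  have t := (hasDerivAt_iff_tendsto_slope_left_right.1 h1).1
  refine ge_of_tendsto t ?_
  filter_upwards [h3, hm, self_mem_nhdsWithin] with u a b c
  rw [slope_def_field]
  exact div_nonneg_of_nonpos (by linarith) (by have : u < s := c; linarith)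

/-- **maximum principle** on a finite set -/
theorem maxp {X : Type*} [Finite X] {D : ℝ → X → ℝ} {T C : ℝ}
    (hc : ∀ x, ContinuousOn (fun u => D u x) (Icc 0 T))
    (h : ∀ s ∈ Ioc 0 T, ∀ x, (∀ z, D s z ≤ D s x) → 0 < D s x → Tch (fun u => D u x) s (C * D s x))
    (h0 : ∀ x, D 0 x ≤ 0) : ∀ s ∈ Icc 0 T, ∀ x, D s x ≤ 0 := by
  intro s hs x
  by_contra hp
  have hp : 0 < D s x := lt_of_not_ge hp
  have s0 : 0 < s := by
    rcases hs.1.eq_or_lt with e | e
    · rw [← e] at hp; exact absurd (h0 x) (not_le.2 hp)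
    · exact e
  set ε := exp (-(C * s)) * D s x / (2 * s) with hε
  have e0 : 0 < ε := by positivity
  set G : ℝ → X → ℝ := fun u z => exp (-(C * u)) * D u z - ε * u with hG
  have cG : ∀ z, ContinuousOn (fun u => G u z) (Icc 0 T) := fun z =>
    ((by fun_prop : Continuous fun u => exp (-(C * u))).continuousOn.mul (hc z)).sub
      (by fun_prop : Continuous fun u => ε * u).continuousOn
  have ex : ∀ z, ∃ u ∈ Icc 0 T, IsMaxOn (fun u => G u z) (Icc 0 T) u := fun z =>
    isCompact_Icc.exists_isMaxOn ⟨s, hs⟩ (cG z)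
  choose σ hσ hmax using ex
  have : Nonempty X := ⟨x⟩
  obtain ⟨y, hy⟩ := Finite.exists_max fun z => G (σ z) z
  have hall : ∀ u ∈ Icc 0 T, ∀ z, G u z ≤ G (σ y) y := fun u hu z => (hmax z hu).trans (hy z)
  have pos : 0 < G (σ y) y := by
    refine lt_of_lt_of_le ?_ (hall s hs x)
    have : ε * s = exp (-(C * s)) * D s x / 2 := by rw [hε]; field_simp
    have := mul_pos (exp_pos (-(C * s))) hp
    simp only [hG]; linarith
  have t0 : 0 < σ y := by
    rcases (hσ y).1.eq_or_lt with e | e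
    · rw [← e] at pos
      have := h0 y
      simp only [hG, mul_zero, neg_zero, exp_zero, one_mul, sub_zero] at pos
      linarith
    · exact e
  have ep := exp_pos (-(C * σ y))
  have Dp : 0 < D (σ y) y := by
    have : 0 < exp (-(C * σ y)) * D (σ y) y := by
      have := mul_pos e0 t0
      simp only [hG] at pos; linarith
    exact (pos_iff_pos_of_mul_pos this).1 ep
  have Dm : ∀ z, D (σ y) z ≤ D (σ y) y := fun z => by
    have := hall _ (hσ y) z
    simp only [hG] at this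
    exact le_of_mul_le_mul_left (by linarith) ep
  have k1 := ((h _ ⟨t0, (hσ y).2⟩ y Dm Dp).mul (c := fun u => exp (-(C * u)))
    ((hasDerivAt_id' (σ y)).const_mul C).neg.exp fun u => (exp_pos _).le).add
    (Tch.of_deriv ((hasDerivAt_id' (σ y)).const_mul ε).neg le_rfl)
  have := k1.nonneg (by
    filter_upwards [Ioo_mem_nhdsLT t0] with u hu
    have := hall u ⟨hu.1.le, hu.2.le.trans (hσ y).2⟩ y
    simp only [hG] at this
    simp only [Pi.neg_apply]
    linarith)
  simp only [Pi.neg_apply] at this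
  nlinarith

variable {n : ℕ} {w : Cube n → ℝ}

theorem gen_nonpos (hw : ∀ x, 0 < w x) {F : Cube n → ℝ} {x : Cube n} (h : ∀ z, F z ≤ F x) :
    gen w F x ≤ 0 := by
  refine Finset.sum_nonpos fun i _ => sub_nonpos.2 ?_
  have a := hw (Function.update x i true)
  have b := hw (Function.update x i false)
  rw [siteM, div_le_iff₀ (by positivity)]
  nlinarith [h (Function.update x i true), h (Function.update x i false)]

theorem gen_sub (w F G : Cube n → ℝ) (x : Cube n) :
    gen w (fun z => F z - G z) x = gen w F x - gen w G x := by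
  simp only [gen, siteM, ← Finset.sum_sub_distrib]
  exact Finset.sum_congr rfl fun i _ => by ring

theorem gen_const_mul (w : Cube n → ℝ) (c : ℝ) (F : Cube n → ℝ) (x : Cube n) :
    gen w (fun z => c * F z) x = c * gen w F x := by
  simp only [gen, siteM, Finset.mul_sum]
  exact Finset.sum_congr rfl fun i _ => by ring

/-- **comparison with a supersolution** -/
theorem cmp_super (hw : ∀ x, 0 < w x) {Φ U U' g : ℝ → Cube n → ℝ} {T C : ℝ}
    (hc : ∀ x, ContinuousOn (fun u => Φ u x) (Icc 0 T))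
    (h : ∀ s ∈ Ioc 0 T, ∀ x, Tch (fun u => Φ u x) s (gen w (Φ s) x + C * Φ s x + g s x))
    (hU : ∀ s ∈ Icc 0 T, ∀ x, HasDerivAt (fun u => U u x) (U' s x) s)
    (hU' : ∀ s ∈ Ioc 0 T, ∀ x, gen w (U s) x + C * U s x + g s x ≤ U' s x)
    (h0 : ∀ x, Φ 0 x ≤ U 0 x) : ∀ s ∈ Icc 0 T, ∀ x, Φ s x ≤ U s x := by
  intro s hs x
  refine sub_nonpos.1 (maxp (D := fun u z => Φ u z - U u z) (C := C) (T := T) (fun z => (hc z).sub
    fun u hu => (hU u hu z).continuousAt.continuousWithinAt) (fun s hs x hm _ => ?_)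
    (fun z => sub_nonpos.2 (h0 z)) s hs x)
  have k := (h s hs x).add (Tch.of_deriv (hU s ⟨hs.1.le, hs.2⟩ x).neg le_rfl)
  have e := gen_nonpos hw (F := fun z => Φ s z - U s z) hm
  rw [gen_sub] at e
  refine (k.mono ?_).of_le (by simp [sub_eq_add_neg]) (Eventually.of_forall fun u => by
    simp [sub_eq_add_neg])
  linarith [hU' s hs x]

theorem cont_sg_fam (hn : 0 < n) (hw : ∀ x, 0 < w x) {Y : Type*} [TopologicalSpace Y] {t : Y → ℝ}
    {g : Y → Cube n → ℝ} (ht : Continuous t) (hg : ∀ z, Continuous fun y => g y z) (x : Cube n) :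
    Continuous fun y => sg w (t y) (g y) x := by
  have e : ∀ u y, hbCt w u x y = sg w u (Pi.single y 1) x := fun u y => by
    simp [sg, Pi.single_apply]
  refine continuous_finsetSum _ fun y _ => Continuous.mul ?_ (hg y)
  simp only [e]
  exact (continuous_iff_continuousAt.2 fun u =>
    (hasDerivAt_sg hn hw (Pi.single y 1) x u).continuousAt).comp ht

theorem sg_integral (w : Cube n → ℝ) (t a b : ℝ) {g : ℝ → Cube n → ℝ}
    (hg : ∀ z, Continuous fun u => g u z) (x : Cube n) :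
    sg w t (fun z => ∫ u in a..b, g u z) x = ∫ u in a..b, sg w t (g u) x := by
  simp only [sg]
  rw [intervalIntegral.integral_finsetSum (f := fun y u => hbCt w t x y * g u y) fun y _ =>
    ((continuous_const.mul (hg y)).intervalIntegrable a b)]
  exact Finset.sum_congr rfl fun y _ => (intervalIntegral.integral_const_mul _ _).symm

/-- Duhamel term -/
def duh (w : Cube n → ℝ) (C : ℝ) (g : ℝ → Cube n → ℝ) (s : ℝ) (x : Cube n) : ℝ :=
  ∫ u in (0 : ℝ)..s, exp (C * (s - u)) * sg w (s - u) (g u) x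

theorem duh_eq (hn : 0 < n) (hw : ∀ x, 0 < w x) (C : ℝ) {g : ℝ → Cube n → ℝ}
    (hg : ∀ z, Continuous fun u => g u z) (s : ℝ) (x : Cube n) : duh w C g s x =
    exp (C * s) * sg w s (fun z => ∫ u in (0 : ℝ)..s, exp (-(C * u)) * sg w (-u) (g u) z) x := by
  rw [sg_integral w s 0 s (g := fun u z => exp (-(C * u)) * sg w (-u) (g u) z) (fun z => (by fun_prop : Continuous fun u => exp (-(C * u))).mul
    (cont_sg_fam hn hw continuous_neg hg z)), ← intervalIntegral.integral_const_mul, duh]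
  congr 1; ext u
  rw [sg_const_mul, sub_eq_add_neg s u, sg_add hn hw, ← mul_assoc, ← exp_add]
  congr 2; ring

theorem hasDerivAt_duh (hn : 0 < n) (hw : ∀ x, 0 < w x) (C : ℝ) {g : ℝ → Cube n → ℝ}
    (hg : ∀ z, Continuous fun u => g u z) (s : ℝ) (x : Cube n) :
    HasDerivAt (fun u => duh w C g u x) (gen w (duh w C g s) x + C * duh w C g s x + g s x) s := by
  have c : ∀ z, Continuous fun u => exp (-(C * u)) * sg w (-u) (g u) z := fun z =>
    (by fun_prop : Continuous fun u => exp (-(C * u))).mul (cont_sg_fam hn hw continuous_neg hg z)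
  have e : duh w C g s = fun x => exp (C * s) *
      sg w s (fun z => ∫ u in (0 : ℝ)..s, exp (-(C * u)) * sg w (-u) (g u) z) x :=
    funext fun x => duh_eq hn hw C hg s x
  simp only [duh_eq hn hw C hg]
  have d := ((hasDerivAt_id' s).const_mul C).exp.mul (hasDerivAt_sg_fam hn hw
    (F := fun s z => ∫ u in (0 : ℝ)..s, exp (-(C * u)) * sg w (-u) (g u) z)
    (fun z => (((c z).integral_hasStrictDerivAt 0 s).hasDerivAt)) x)
  refine d.congr_deriv ?_
  rw [e, gen_const_mul, gen_sg hn hw, sg_add_fun, sg_const_mul, ← congrFun (sg_add hn hw s (-s) (g s)) x,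
    add_neg_cancel, sg_zero hn hw, mul_add, ← mul_assoc (exp (C * s)) (exp _), ← exp_add,
    add_neg_cancel, exp_zero]
  ring

/-- **comparison**: `∂ Φ ≤ L Φ + C Φ + g` gives `Φ_s ≤ e^{Cs} P_s Φ_0 + ∫ e^{C(s-u)} P_{s-u} g_u` -/
theorem cmp (hn : 0 < n) (hw : ∀ x, 0 < w x) {Φ g : ℝ → Cube n → ℝ} {T C : ℝ}
    (hc : ∀ x, ContinuousOn (fun u => Φ u x) (Icc 0 T)) (hg : ∀ z, Continuous fun u => g u z)
    (h : ∀ s ∈ Ioc 0 T, ∀ x, Tch (fun u => Φ u x) s (gen w (Φ s) x + C * Φ s x + g s x)) :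
    ∀ s ∈ Icc 0 T, ∀ x, Φ s x ≤ exp (C * s) * sg w s (Φ 0) x + duh w C g s x := by
  refine cmp_super hw (U := fun s x => exp (C * s) * sg w s (Φ 0) x + duh w C g s x) hc h
    (fun s _ x => (((hasDerivAt_id' s).const_mul C).exp.mul (hasDerivAt_sg hn hw (Φ 0) x s)).add
      (hasDerivAt_duh hn hw C hg s x)) (fun s _ x => le_of_eq ?_) fun x => by
    simp [duh, sg_zero hn hw]
  have e := gen_sub w (fun x => exp (C * s) * sg w s (Φ 0) x + duh w C g s x) (duh w C g s) x
  simp only [add_sub_cancel_right, gen_const_mul] at e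
  linear_combination -e

/-- no source -/
theorem cmp0 (hn : 0 < n) (hw : ∀ x, 0 < w x) {Φ : ℝ → Cube n → ℝ} {T C : ℝ}
    (hc : ∀ x, ContinuousOn (fun u => Φ u x) (Icc 0 T))
    (h : ∀ s ∈ Ioc 0 T, ∀ x, Tch (fun u => Φ u x) s (gen w (Φ s) x + C * Φ s x)) :
    ∀ s ∈ Icc 0 T, ∀ x, Φ s x ≤ exp (C * s) * sg w s (Φ 0) x := by
  intro s hs x
  have := cmp hn hw (C := C) (g := fun _ _ => 0) hc (fun _ => continuous_const)
    (fun s hs x => (h s hs x).mono (by simp)) s hs x
  simpa [duh, sg] using this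

/-- a dissipated quantity: `∂ Φ ≤ L Φ + C Φ - B`, `Φ ≥ 0` bounds `Φ_s + ∫ e^{C(s-u)} P_{s-u} B_u` -/
theorem cmp_diss (hn : 0 < n) (hw : ∀ x, 0 < w x) {Φ B : ℝ → Cube n → ℝ} {T C : ℝ}
    (hc : ∀ x, ContinuousOn (fun u => Φ u x) (Icc 0 T)) (hB : ∀ z, Continuous fun u => B u z)
    (h : ∀ s ∈ Ioc 0 T, ∀ x, Tch (fun u => Φ u x) s (gen w (Φ s) x + C * Φ s x - B s x)) :
    ∀ s ∈ Icc 0 T, ∀ x, Φ s x + duh w C B s x ≤ exp (C * s) * sg w s (Φ 0) x := by
  intro s hs x
  have := cmp hn hw (C := C) (g := fun u z => -1 * B u z) hc (fun z => continuous_const.mul (hB z))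
    (fun s hs x => (h s hs x).mono (by linarith)) s hs x
  have e : duh w C (fun u z => -1 * B u z) s x = -duh w C B s x := by
    simp only [duh, sg_const_mul, ← intervalIntegral.integral_neg]
    congr 1; ext u; ring
  linarith

end Crest.Agent.T157.S6b

end
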