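import Crest.Agent.T157.S6Du_85
import Crest.Agent.T157.S6Def_93
import Crest.Agent.T157.S6Mh_68

/-!
# Row 157, block S6 (helper85): `DuStmt` and `ContStmt`
-/

set_option autoImplicit false

noncomputable section

namespace Crest.Agent.T157.S6a

open Matrix Real Finset
open Crest.Agent.T157.E
open Crest.Agent.T157.Tap (V Mx)
open Crest.Agent.T157.Rec (grad fl)
open Crest.Agent.T157.Chain22 (sg sg_zero)
open Crest.Agent.T157.Reg (VF mu Tk am)
open Crest.Agent.T157.Reg.Bas66 (mu_pos)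
open Crest.Agent.T157.S6h Crest.Agent.T157.S6x
open Crest.Agent.T157.S6 (cc)
open Crest.Agent.T157.S6b (cont_sg_fam)

namespace Du85

variable {n : ℕ} {W : Mx n} {ρ : ℝ → ℝ} {ψ ω : VF n}

/-- the scalars `y^k` as a field -/
def yV (W : Mx n) (ψ : VF n) (k : Fin n) (v : ℝ) : VF n := fun x j => yy W ψ v k j x

theorem yy_self (W : Mx n) (ψ : VF n) (v : ℝ) (k : Fin n) : yy W ψ v k k = fun _ => 0 :=
  funext fun _ => if_pos rfl

theorem yy_ne (W : Mx n) (ψ : VF n) (v : ℝ) {k j : Fin n} (h : j ≠ k) : yy W ψ v k j =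
    sg (cw W j) v fun z => qq W z j k * Ec W k j (cp ψ k) z := funext fun _ => if_neg h

theorem yW_eq (W : Mx n) (ρ : ℝ → ℝ) (ψ : VF n) (v : ℝ) (k : Fin n) :
    yW W ρ ψ v k = pr k (yV W ψ k v) (Wk W ρ v k) := by
  funext x j
  by_cases h : j = k
  · simp [yW, pr, yy, h]
  · rw [pr, if_neg h]; rfl

theorem Phi_eq (W : Mx n) (ρ : ℝ → ℝ) (ψ : VF n) (v : ℝ) :
    Phi W ρ ψ v = ∑ k, pr k (yV W ψ k v) (Wk W ρ v k) := by
  funext x j
  simp only [Phi, yW_eq, Finset.sum_apply]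

theorem er_eq' (W : Mx n) (ρ : ℝ → ℝ) (ψ : VF n) (v : ℝ) (k : Fin n) (x : Cube n) (j : Fin n) :
    er W ρ ψ v k x j = S6x.er W k (yV W ψ k v) (Wk W ρ v k) x j +
      if j = k then Ret W ρ ψ v x k else 0 := by
  have := er_eq (W := W) k (yV W ψ k v) (Wk W ρ v k) x j
  rw [er, yW_eq]
  congr 1
  rw [sub_eq_iff_eq_add', ← this]
  by_cases h : j = k
  · subst h
    simp [yy_self, Lc, dl]
  · rw [if_neg h]; rfl

theorem Err_eq (W : Mx n) (ρ : ℝ → ℝ) (ψ : VF n) (v : ℝ) :
    Err W ρ ψ v = ∑ k, S6x.er W k (yV W ψ k v) (Wk W ρ v k) + Ret W ρ ψ v := by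
  funext x j
  simp [Err, er_eq', Finset.sum_apply, sum_add_distrib]

theorem fr_qq (hW : Wᵀ = W) (j k : Fin n) : Fr j fun z => qq W z j k := fun x => by
  unfold qq
  split_ifs with h
  · simp [cc, Da.Gr.tt, Da.Gr.loc_fl, ← S6b.sym hW j k, h]
  · exact congrArg (· / W j k) (am_fl W x j k)

theorem am_qq (hW : Wᵀ = W) (x : Cube n) {j k : Fin n} (h : j ≠ k) :
    qq W x j k * W j k = am W x j k := by
  unfold qq
  split_ifs with h0
  · obtain ⟨q, e, -⟩ := am_q W x h
    rw [e, ← S6b.sym hW j k, h0, mul_zero, zero_mul]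
  · exact div_mul_cancel₀ _ h0

theorem fr_y0 (hW : Wᵀ = W) (ψ : VF n) (j k : Fin n) :
    Fr j fun z => qq W z j k * Ec W k j (cp ψ k) z := fun x =>
  congrArg₂ _ (fr_qq hW j k x) (fr_Ec W k j _ x)

theorem fr_yV (hn : 0 < n) (hW : Wᵀ = W) (ψ : VF n) (k : Fin n) (v : ℝ) (j : Fin n) (h : j ≠ k) :
    Fr j (cp (yV W ψ k v) j) := by
  rw [show cp (yV W ψ k v) j = _ from yy_ne W ψ v h]
  exact (fr_y0 hW ψ j k).sg_cw hn hW v

theorem hasDerivAt_yV (hn : 0 < n) (hW : Wᵀ = W) (ψ : VF n) (k : Fin n) (v : ℝ) (x : Cube n)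
    (j : Fin n) (h : j ≠ k) :
    HasDerivAt (fun s => yV W ψ k s x j) (Lc W j (cp (yV W ψ k v) j) x) v := by
  rw [show cp (yV W ψ k v) j = _ from yy_ne W ψ v h]
  simp only [yV, yy_ne W ψ _ h]
  exact hasDerivAt_sg_cw hn hW (fr_y0 hW ψ j k) x v

theorem hasDerivAt_Wk (hn : 0 < n) (hW : Wᵀ = W) (hρ : Continuous ρ) (k : Fin n) (v : ℝ)
    (x : Cube n) (j : Fin n) (h : j ≠ k) :
    HasDerivAt (fun s => Wk W ρ s k x j) (LL W (Wk W ρ v k) x j) v := by
  refine (S6.hasDerivAt_Yf hn W hρ _ v x j).congr_deriv ?_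
  rw [grad_gen_LL hW, Pi.single_eq_of_ne h, mul_zero, sub_zero]; rfl

theorem fr_Ek (W : Mx n) (k : Fin n) (F : Cube n → ℝ) : Fr k (Ek W k F) := fun x => by
  rw [Ek, Ek, Tk_fl, dl, dl, fl_fl]; ring

theorem frV_alf (hn : 0 < n) (hW : Wᵀ = W) (h : FrV ω) (u : ℝ) : FrV (alf W ω u) := fun k x =>
  congrArg (exp (-u) * ·) ((h k).sg_cw hn hW u x)

theorem alf_zero (hn : 0 < n) (W : Mx n) (ω : VF n) : alf W ω 0 = ω := by
  funext x k
  rw [alf, neg_zero, exp_zero, one_mul, sg_zero hn (cw_pos W k)]; rfl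

theorem hasDerivAt_alf (hn : 0 < n) (hW : Wᵀ = W) (h : FrV ω) (s : ℝ) (x : Cube n) (k : Fin n) :
    HasDerivAt (fun r => alf W ω r x k) (Lc W k (cp (alf W ω s) k) x - alf W ω s x k) s := by
  refine ((hasDerivAt_neg' s).exp.mul (hasDerivAt_sg_cw hn hW (h k) x s)).congr_deriv ?_
  simp only [Lc, dl, cp, alf, mul_sum, ← mul_sub, mul_left_comm (exp (-s))]
  ring

theorem frV_Ret (W : Mx n) (ρ : ℝ → ℝ) (ψ : VF n) (v : ℝ) : FrV (Ret W ρ ψ v) := fun k x =>
  congrArg (ρ v * ·) (fr_Ek W k _ x)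

section cont
variable {Y : Type*} [TopologicalSpace Y] {Ψ : Y → VF n} {t : Y → ℝ}

theorem cont_ev (hΨ : Continuous Ψ) (x : Cube n) (k : Fin n) : Continuous fun y => Ψ y x k :=
  (continuous_apply k).comp ((continuous_apply x).comp hΨ)

theorem cont_alf (hn : 0 < n) (W : Mx n) (ω : VF n) : Continuous (alf W ω) :=
  continuous_pi fun x => continuous_pi fun k => continuous_neg.rexp.mul
    (cont_sg_fam hn (cw_pos W k) (g := fun _ => cp ω k) continuous_id (fun _ => continuous_const) x)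

theorem cont_ka (hn : 0 < n) (W : Mx n) (hΨ : Continuous Ψ) (ht : Continuous t) (k : Fin n)
    (x : Cube n) : Continuous fun y => ka W (Ψ y) (t y) k x :=
  cont_sg_fam hn (mu_pos W) ht (fun z => continuous_const.mul (cont_ev hΨ z k)) x

theorem cont_yy (hn : 0 < n) (W : Mx n) (hΨ : Continuous Ψ) (ht : Continuous t) (k j : Fin n)
    (x : Cube n) : Continuous fun y => yy W (Ψ y) (t y) k j x := by
  unfold yy
  split_ifs
  · exact continuous_const
  · exact cont_sg_fam hn (cw_pos W j) ht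
      (fun z => continuous_const.mul (cont_Ec (fun z => cont_ev hΨ z k) _ _ _)) x

theorem cont_yV (hn : 0 < n) (W : Mx n) (hΨ : Continuous Ψ) (ht : Continuous t) (k : Fin n) :
    Continuous fun y => yV W (Ψ y) k (t y) :=
  continuous_pi fun x => continuous_pi fun j => cont_yy hn W hΨ ht k j x

theorem cont_Wk (hn : 0 < n) (W : Mx n) (hρ : Continuous ρ) (k : Fin n) :
    Continuous fun v => Wk W ρ v k :=
  continuous_pi fun x => continuous_pi fun j => S6.cont_Yf hn W hρ _ x j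

theorem cont_aa (W : Mx n) {F : Y → Cube n → ℝ} (hF : ∀ x, Continuous fun y => F y x) (x : Cube n) :
    Continuous fun y => aa W (F y) x :=
  continuous_finsetSum _ fun _ _ => (continuous_const.mul ((hF _).sub (hF _))).pow 2

theorem cont_Z1 (hn : 0 < n) (W : Mx n) (hΨ : Continuous Ψ) (ht : Continuous t) (k : Fin n)
    (x : Cube n) : Continuous fun y => Z1 W (Ψ y) (t y) k x :=
  ((cont_ka hn W hΨ ht k x).pow 2).add (continuous_finsetSum _ fun j _ =>
    ((cont_yy hn W hΨ ht k j x).sub (cont_ka hn W hΨ ht k x)).pow 2)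

theorem cont_Z2 (hn : 0 < n) (W : Mx n) (hΨ : Continuous Ψ) (ht : Continuous t) (k : Fin n)
    (x : Cube n) : Continuous fun y => Z2 W (Ψ y) (t y) k x :=
  ((cont_Z1 hn W hΨ ht k x).add (cont_aa W (cont_ka hn W hΨ ht k) x)).add
    (continuous_finsetSum _ fun j _ =>
      cont_aa W (fun z => (cont_yy hn W hΨ ht k j z).sub (cont_ka hn W hΨ ht k z)) x)

theorem cont_Phi (hn : 0 < n) (W : Mx n) (hρ : Continuous ρ) (hΨ : Continuous Ψ)
    (ht : Continuous t) : Continuous fun y => Phi W ρ (Ψ y) (t y) := by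
  simp only [Phi_eq]
  exact continuous_finsetSum _ fun k _ => cont_pr k (cont_yV hn W hΨ ht k) ((cont_Wk hn W hρ k).comp ht)

theorem cont_Ret (hn : 0 < n) (W : Mx n) (hρ : Continuous ρ) (hΨ : Continuous Ψ)
    (ht : Continuous t) : Continuous fun y => Ret W ρ (Ψ y) (t y) :=
  continuous_pi fun _ => continuous_pi fun k => (hρ.comp ht).mul ((cont_ka hn W hΨ ht k _).add
    (continuous_const.mul ((cont_ka hn W hΨ ht k _).sub (cont_ka hn W hΨ ht k _))))

theorem cont_Err (hn : 0 < n) (W : Mx n) (hρ : Continuous ρ) (hΨ : Continuous Ψ)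
    (ht : Continuous t) : Continuous fun y => Err W ρ (Ψ y) (t y) := by
  simp only [Err_eq]
  exact (continuous_finsetSum _ fun k _ => cont_er k (cont_yV hn W hΨ ht k)
    ((cont_Wk hn W hρ k).comp ht)).add (cont_Ret hn W hρ hΨ ht)

end cont

theorem frV_Phi (hn : 0 < n) (hW : Wᵀ = W) (ρ : ℝ → ℝ) (ψ : VF n) (v : ℝ) : FrV (Phi W ρ ψ v) := by
  rw [Phi_eq]
  exact S6x.FrV.sum _ fun k _ => frV_pr (fr_yV hn hW ψ k v) (frV_grad _)

theorem frV_Err (hn : 0 < n) (hW : Wᵀ = W) (ρ : ℝ → ℝ) (ψ : VF n) (v : ℝ) : FrV (Err W ρ ψ v) := by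
  rw [Err_eq]
  exact (S6x.FrV.sum _ fun k _ => frV_er hW (fr_yV hn hW ψ k v) (frV_grad _)).add (frV_Ret W ρ ψ v)

/-- one launch, on forms -/
theorem eL_hop (hn : 0 < n) (hW : Wᵀ = W) (hρ : Continuous ρ) (ψ : VF n) {v : ℝ} (hv : 0 ≤ v) :
    eL W v (S6x.hop W ψ) = Phi W ρ ψ v + du W (Ret W ρ ψ) v - du W (Err W ρ ψ) v := by
  have c1 : Continuous (Ret W ρ ψ) := cont_Ret hn W hρ continuous_const continuous_id
  have c2 : Continuous (Err W ρ ψ) := cont_Err hn W hρ continuous_const continuous_id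
  have := eL_pr (W := W) (y := yV W ψ) (ω := fun k v => Wk W ρ v k)
    (fun k => cont_yV hn W continuous_const continuous_id k) (cont_Wk hn W hρ) (fr_yV hn hW ψ)
    (fun k v => frV_grad _) (hasDerivAt_yV hn hW ψ) (hasDerivAt_Wk hn hW hρ) hv
  rw [sum_pr (W := W) ψ fun k x j h => by
    rw [yV, yy_ne W ψ 0 h, sg_zero hn (cw_pos W j), Wk, S6.Yf_zero hn, ← am_qq hW x h]
    simp only [mulVec_single_one, col_apply]; ring] at this
  rw [this, add_sub_assoc, sub_eq_add_neg, ← Phi_eq, ← neg_sub (du W (Err W ρ ψ) v),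
    ← du_sub W c2 c1]
  simp only [Err_eq, add_sub_cancel_right]

theorem dv_add (W : Mx n) (U U' : VF n) (x : Cube n) : dv W (U + U') x = dv W U x + dv W U' x := by
  simp only [dv, Pi.add_apply, mul_add, sum_add_distrib]

theorem dv_sub (W : Mx n) (U U' : VF n) (x : Cube n) : dv W (U - U') x = dv W U x - dv W U' x := by
  simp only [dv, Pi.sub_apply, mul_sub, sum_sub_distrib]

theorem cont_dv (W : Mx n) {Y : Type*} [TopologicalSpace Y] {U : Y → VF n} (hU : Continuous U)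
    (x : Cube n) : Continuous fun y => dv W (U y) x :=
  continuous_finsetSum _ fun k _ => continuous_const.mul (cont_ev hU x k)

theorem dv_integral (W : Mx n) {U : ℝ → VF n} (hU : Continuous U) (a b : ℝ) (x : Cube n) :
    dv W (∫ r in a..b, U r) x = ∫ r in a..b, dv W (U r) x := by
  simp only [dv, integral_ev hU, ← intervalIntegral.integral_const_mul]
  exact (intervalIntegral.integral_finsetSum fun k _ =>
    (continuous_const.mul (cont_ev hU x k)).intervalIntegrable _ _).symm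

theorem dv_du (hn : 0 < n) (hW : Wᵀ = W) {g : ℝ → VF n} (hg : Continuous g) (hF : ∀ r, FrV (g r))
    (v : ℝ) (x : Cube n) :
    dv W (du W g v) x = ∫ r in (0 : ℝ)..v, sg (mu W) (v - r) (dv W (g r)) x := by
  simp only [sg_dv hn hW (hF _)]
  exact dv_integral W (cont_eL W (continuous_const.sub continuous_id) hg) _ _ x

end Du85

open Du85

theorem duStmt : DuStmt := fun n W h ρ hρ ω hω => by
  have hn := h.pos
  have hW := h.sym
  refine ⟨frV_alf hn hW hω, fun v => ⟨frV_Phi hn hW ρ ω v, frV_Ret W ρ ω v, frV_Err hn hW ρ ω v⟩,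
    fun t ht x => ?_⟩
  have e := eL_al (frV_alf hn hW hω) (hasDerivAt_alf hn hW hω) ht
  rw [alf_zero hn] at e
  rw [sg_dv hn hW hω, e, dv_add, du, dv_integral W (cont_eL W (t := fun r => t - r) (by fun_prop)
    (cont_hop (cont_alf hn W ω)))]
  congr 1
  refine intervalIntegral.integral_congr fun u hu => ?_
  rw [Set.uIcc_of_le ht] at hu
  have c1 : Continuous (Ret W ρ (alf W ω u)) := cont_Ret hn W hρ continuous_const continuous_id
  have c2 : Continuous (Err W ρ (alf W ω u)) := cont_Err hn W hρ continuous_const continuous_id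
  have i : ∀ {g : ℝ → VF n}, Continuous g → IntervalIntegrable
      (fun v => sg (mu W) (t - u - v) (dv W (g v)) x) MeasureTheory.volume 0 (t - u) := fun hg =>
    (cont_sg_fam hn (mu_pos W) (continuous_const.sub continuous_id) (cont_dv W hg) x).intervalIntegrable _ _
  rw [intervalIntegral.integral_sub (i c1) (i c2), ← dv_du hn hW c1 (frV_Ret W ρ _),
    ← dv_du hn hW c2 (frV_Err hn hW ρ _), ← add_sub_assoc, ← dv_add, ← dv_sub,
    ← eL_hop hn hW hρ _ (sub_nonneg.2 hu.2)]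

theorem contStmt : ContStmt := fun n W h ρ hρ ω x k => by
  have hn := h.pos
  have c : Continuous fun p : ℝ × ℝ => alf W ω p.1 := (cont_alf hn W ω).comp continuous_fst
  refine ⟨cont_ev (cont_alf hn W ω) x k, cont_ka hn W c continuous_snd k x,
    cont_Z1 hn W c continuous_snd k x, cont_Z2 hn W c continuous_snd k x,
    cont_ev (cont_Phi hn W hρ c continuous_snd) x k, cont_ev (cont_Ret hn W hρ c continuous_snd) x k,
    cont_ev (cont_Err hn W hρ c continuous_snd) x k, fun f hf => ?_⟩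
  have a : ∀ z, Continuous fun s : ℝ => B.dn (mu W) (sg (mu W) |s| f) z := fun z =>
    continuous_const.mul (cont_sg_fam hn (mu_pos W) (g := fun _ => f) continuous_abs
      (fun _ => continuous_const) z)
  have p : ∀ (s : ℝ) z, 0 < B.dn (mu W) (sg (mu W) |s| f) z := fun s z =>
    mul_pos (mu_pos W z) (Rv.sg_pos hn (mu_pos W) (abs_nonneg s) hf z)
  simp only [dd, siteM]
  exact ((((a _).mul continuous_const).add ((a _).mul continuous_const)).div ((a _).add (a _))
    fun s => (add_pos (p s _) (p s _)).ne').sub continuous_const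

end Crest.Agent.T157.S6a

end
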