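import Crest.Agent.T157.S6DefC_93
import Crest.Agent.T157.S6Dl_28

/-!
# Row 157, block S6 (helper28): the diagonal part and the return, paired on the way
-/

set_option autoImplicit false

noncomputable section

namespace Crest.Agent.T157.S6a

open Matrix Real Set intervalIntegral
open Crest.Agent.T157.E Crest.Agent.T157.S6k
open Crest.Agent.T157.Tap (V Mx)
open Crest.Agent.T157.Chain22 (sg sg_add ip_sg_symm)
open Crest.Agent.T157.Reg (VF mu Tk)
open Crest.Agent.T157.Reg.Bas66 (mu_pos)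
open Crest.Agent.T157.S6h (dl Fr cp FrV dv)
open Crest.Agent.T157.S6 (cc)

variable {n : ℕ} {W : Mx n}

theorem ev_sg (hn : 0 < n) (g F : Cube n → ℝ) (s : ℝ) :
    ev W g (sg (mu W) s F) = ev W (sg (mu W) s g) F := ip_sg_symm hn (mu_pos W) s g F

theorem ev_mono {g F G : Cube n → ℝ} (hg : ∀ x, 0 ≤ g x) (h : ∀ x, F x ≤ G x) :
    ev W g F ≤ ev W g G :=
  (Chain22.isP_prob' (mu_pos W)).mean_mono fun x => mul_le_mul_of_nonneg_left (h x) (hg x)

theorem ev_lin (g F G : Cube n → ℝ) (a b : ℝ) :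
    ev W g (fun x => a * F x + b * G x) = a * ev W g F + b * ev W g G := by
  simp only [ev, mean, Finset.mul_sum, ← Finset.sum_add_distrib]
  exact Finset.sum_congr rfl fun x _ => by ring

theorem ev_smul (g F : Cube n → ℝ) (a : ℝ) : ev W g (fun x => a * F x) = a * ev W g F := by
  simpa using ev_lin (W := W) g F F a 0

theorem cont_ev {Y : Type*} [TopologicalSpace Y] {g F : Y → Cube n → ℝ}
    (hg : ∀ x, Continuous fun y => g y x) (hF : ∀ x, Continuous fun y => F y x) :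
    Continuous fun y => ev W (g y) (F y) :=
  continuous_finsetSum _ fun x _ => continuous_const.mul ((hg x).mul (hF x))

/-- Young's inequality and reversibility -/
theorem pair (hn : 0 < n) {g : Cube n → ℝ} (hg : ∀ x, 0 ≤ g x) (d : VF n) {A ω : VF n} {M s θ : ℝ}
    (hθ : 0 < θ) (h : ∀ x k, |A x k| ^ (3 / 2 : ℝ) ≤
      M * sg (mu W) s (fun z => |ω z k| ^ (3 / 2 : ℝ)) x) :
    ev W g (fun x => d x ⬝ᵥ A x) ≤
      2 / 3 * (θ * M) * ev W (sg (mu W) s g) (fun x => ∑ j, |ω x j| ^ (3 / 2 : ℝ)) +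
        1 / 3 * (θ ^ 2)⁻¹ * ev W g fun x => ∑ k, |d x k| ^ 3 := by
  rw [← ev_sg hn, ← ev_lin]
  refine ev_mono hg fun x => ?_
  rw [Rec.sg_sum, Finset.mul_sum, Finset.mul_sum, ← Finset.sum_add_distrib]
  refine Finset.sum_le_sum fun k _ => (young' (d x k) (A x k) hθ).trans ?_
  have := mul_le_mul_of_nonneg_left (h x k) hθ.le
  rw [ph_rpow]; linarith

/-- the return in `L^{3/2}` -/
theorem Dec.ret {θ θ' K : ℝ} (h : Dec W θ θ' K) (hn : 0 < n) (hK : 0 ≤ K) {ω : VF n} (hω : FrV ω)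
    {u v : ℝ} (hu : 0 ≤ u) (hv : 0 ≤ v) (ha : FrV (alf W ω u)) (x : Cube n) (k : Fin n) :
    |Ek W k (ka W (alf W ω u) v k) x| ^ (3 / 2 : ℝ) ≤
      K * exp (-(3 / 2 * θ * u)) * sg (mu W) (v + u) (fun z => |ω z k| ^ (3 / 2 : ℝ)) x := by
  refine (h.hk k _ (fun z => ?_) v hv x).trans ?_
  · rw [show alf W ω u (Rec.fl z k) k = alf W ω u z k from ha k z, cc, cc, Reg.Bas66.tt_fl]
  rw [mul_assoc, sg_add hn (mu_pos W), ← Rec.sg_const_mul _ v (exp _)]
  refine mul_le_mul_of_nonneg_left (Rec.sg_mono hn (mu_pos W) hv (fun z => ?_) x) hK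
  refine le_trans (rpow_le_rpow (abs_nonneg _) ?_ (by norm_num)) (h.a32 ω hω u hu z k)
  have : 0 ≤ cc W z k := Da.Gr.sech_nonneg (Da.Gr.loc W 0 z k)
  rw [abs_mul, abs_of_nonneg this]
  exact mul_le_of_le_one_left (abs_nonneg _) (sub_le_self _ (sq_nonneg _))

theorem eaGlue : EaGlue := by
  intro hR hD hC n W ok ρ θ θ' k t σ B g ω dec cρ ρ0 hB hk hσ g0 g1 hω s hs
  have hn := ok.pos
  have P := mu_pos W
  set M := ev W (sg (mu W) s g) (fun x => ∑ j, |ω x j| ^ (3 / 2 : ℝ)) with hM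
  have M0 : 0 ≤ M := (Chain22.isP_prob' P).mean_nonneg fun x => mul_nonneg
    (Rec.sg_nonneg hn P hs.1 (fun z => (g0 z).le) x) (Finset.sum_nonneg fun _ _ => by positivity)
  have fa := (hD n W ok ρ cρ ω hω).1
  have t1 : ev W g (dv W (alf W ω s)) ≤
      2 / 3 * exp (-((θ - σ) * s)) * M + 1 / 3 * (exp (-((θ + 2 * σ) * s)) * X3 W g) := by
    rw [(hR n W ok g g0 g1).2.2.2.1 _ (fa s)]
    refine (pair hn (fun x => (g0 x).le) _ (exp_pos ((θ / 2 + σ) * s))
      (dec.a32 ω hω s hs.1)).trans (le_of_eq ?_)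
    rw [← exp_add, sq, ← exp_add, ← Real.exp_neg, mul_assoc (1 / 3), X3]
    congr 4 <;> ring
  obtain ⟨X, cX, hX⟩ : ∃ X : ℝ → ℝ, Continuous X ∧ ∀ r, 0 ≤ r → X r = X3 W (sg (mu W) r g) :=
    ⟨fun r => X3 W (sg (mu W) |r| g), cont_ev (fun x => S6b.cont_sg_fam hn P (g := fun _ => g)
      continuous_abs (fun _ => continuous_const) x) fun x => continuous_finsetSum _ fun j _ =>
      ((hC n W ok ρ cρ ω x j).2.2.2.2.2.2.2 g g0).abs.pow 3, fun r hr => by
      simp only [abs_of_nonneg hr]⟩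
  have cL : Continuous (Function.uncurry fun u v =>
      ev W g (sg (mu W) (s - u - v) (dv W (Ret W ρ (alf W ω u) v)))) :=
    cont_ev (g := fun _ => g) (F := fun p : ℝ × ℝ => sg (mu W) (s - p.1 - p.2)
      (dv W (Ret W ρ (alf W ω p.1) p.2))) (fun _ => continuous_const) fun x =>
      S6b.cont_sg_fam hn P (by fun_prop) (fun z => continuous_finsetSum _ fun j _ =>
        continuous_const.mul (hC n W ok ρ cρ ω z j).2.2.2.2.2.1) x
  have t2 := tri_mono cL (G := fun u v => 2 / 3 * M * (k ^ 2 * ρ v * exp (-(θ * u) + σ * (u + v))) +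
      1 / 3 * (k ^ 2 * ρ v * exp (-(θ * u) - 2 * σ * (u + v)) * X (s - u - v)))
    (by fun_prop) hs.1 fun u v u0 v0 uv => by
    have r0 : 0 ≤ s - u - v := by linarith
    have p0 := Rv.sg_pos hn P r0 g0
    have R := hR n W ok _ p0 ((Rec.mean_sg' hn P _ g).trans g1)
    have ρv := ρ0 v ⟨v0, by linarith [hs.2]⟩
    have q := mul_le_mul_of_nonneg_left (pair (W := W) hn (fun x => (p0 x).le)
      (dd W (sg (mu W) (s - u - v) g)) (A := fun x k => Ek W k (ka W (alf W ω u) v k) x)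
      (div_pos (exp_pos (θ * u / 2 + σ * (u + v))) hk)
      (dec.ret hn (by positivity) hω u0 v0 (fa u))) ρv
    rw [← sg_add hn P, show v + u + (s - u - v) = s by ring, ← hM, ← ev_smul] at q
    rw [ev_sg hn, R.2.2.2.1 _ ((hD n W ok ρ cρ _ (fa u)).2.1 v).2.1, hX _ r0]
    refine le_trans (le_of_eq ?_) (q.trans (le_of_eq ?_))
    · congr 1; funext x
      simp only [Ret, dotProduct, Finset.mul_sum, mul_left_comm (ρ v)]
    · have e1 : exp (θ * u / 2 + σ * (u + v)) * exp (-(3 / 2 * θ * u)) =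
          exp (-(θ * u) + σ * (u + v)) := by rw [← exp_add]; congr 1; ring
      have e2 : ((exp (θ * u / 2 + σ * (u + v)) / k) ^ 2)⁻¹ =
          k ^ 2 * exp (-(θ * u) - 2 * σ * (u + v)) := by
        rw [div_pow, inv_div, div_eq_mul_inv, sq (exp _), ← exp_add, ← Real.exp_neg]; congr 2; ring
      rw [e2, ← e1, X3]; field_simp
  rw [tri_add (by fun_prop) (by fun_prop), tri_mul, tri_mul] at t2
  rw [tri_congr (F := fun u v => k ^ 2 * ρ v * exp (-(θ * u) - 2 * σ * (u + v)) * X (s - u - v))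
    (G := fun u v => k ^ 2 * ρ v * exp (-(θ * u) - 2 * σ * (u + v)) * X3 W (sg (mu W) (s - u - v) g))
    hs.1 fun u v _ _ uv => by rw [hX _ (by linarith)]] at t2
  have := mul_le_mul_of_nonneg_left (ker cρ k ρ0 hB hσ hs) M0
  rw [gn]; linarith

end Crest.Agent.T157.S6a

end
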