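import Crest.Agent.T157.S6Eq_20
import Crest.Agent.T157.S6Ho_47
import Crest.Agent.T157.RegCoef_54

/-!
# Row 157, block S6 (helper20): (P) for the generator on one-forms, and the marker equations
-/

set_option autoImplicit false

noncomputable section

namespace Crest.Agent.T157.S6b

open Real Matrix Finset Set
open Crest.Agent.T157.E hiding mean
open Crest.Agent.T157.Eig (opn opn_nonneg nrm_mulVec_le abs_entry_le)
open Crest.Agent.T157.Tap (V Mx)
open Crest.Agent.T157.Rec (grad fl grad_eq sv_mul_self)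
open Crest.Agent.T157.Da.Gr (tt loc loc_fl row_sq_le)
open Crest.Agent.T157.Chain22 (sg)
open Crest.Agent.T157.Reg (VF mu Tk am off)
open Crest.Agent.T157.Reg.Coef54 (op_main a2 t1)
open Crest.Agent.T157.S6h

variable {n : ℕ} {W : Mx n} {K : ℝ}

theorem rt_mu (hn : 0 < n) (hW : Wᵀ = W) : Rt (mu W) (Tk W) :=
  ⟨hn, Reg.Bas66.mu_pos W, fun x i => ⟨(Tk_pos W x i).le, (Tk_lt W x i).le⟩, gen_dl hW⟩

theorem sym (hW : Wᵀ = W) (i j : Fin n) : W i j = W j i := by rw [← hW, transpose_apply, hW]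

theorem nr_mulVec (M : Mx n) (v : V n) : nr (M *ᵥ v) ≤ opn M * nr v := nrm_mulVec_le M v

theorem col_sq (hK : opn W ≤ K) (k : Fin n) : ∑ j, W j k ^ 2 ≤ K ^ 2 :=
  (row_sq_le W k).trans (pow_le_pow_left₀ (opn_nonneg W) hK 2)

theorem am_near (hW : Wᵀ = W) (x : Cube n) (i k : Fin n) :
    |am W x i k - 1 * off W i k * (1 - tt W 0 x k ^ 2)| ≤ 4 * W i k ^ 2 := by
  by_cases h : i = k
  · subst h; simp [am_self, off, sq_nonneg]
  have := a2 (loc W 0 x k) (2 * sv x i * W k i)
  rw [show am W x i k - 1 * off W i k * (1 - tt W 0 x k ^ 2) = -(sv x i *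
    (tanh (loc W 0 x k - 2 * sv x i * W k i) - tanh (loc W 0 x k) + 2 * sv x i * W k i *
      t1 (loc W 0 x k)) / 2) by
    simp only [am, of_apply, grad_eq, tt, loc_fl, if_neg h, off, t1, sym hW i k]
    linear_combination (W k i * (1 - tanh (loc W 0 x k) ^ 2)) * sv_mul_self x i,
    abs_neg, abs_div, abs_mul, abs_sv, abs_two, sym hW i k]
  nlinarith [sv_mul_self x i, sq_nonneg (W k i)]

theorem c_mem (W : Mx n) (x : Cube n) (k : Fin n) : 0 ≤ 1 - tt W 0 x k ^ 2 ∧ 1 - tt W 0 x k ^ 2 ≤ 1 :=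
  ⟨Da.Gr.sech_nonneg _, sub_le_self _ (sq_nonneg _)⟩

theorem opn_am (hW : Wᵀ = W) (hK : opn W ≤ K) (x : Cube n) : opn (am W x) ≤ 2 * K + 4 * K ^ 2 := by
  simpa using op_main hW hK (fun _ => 1) (fun k => 1 - tt W 0 x k ^ 2) (a := 1) zero_le_one
    (by norm_num) (fun _ => by simp) (fun k => by
      rw [abs_of_nonneg (c_mem W x k).1]; exact (c_mem W x k).2) (am_near hW x)

/-- relative change of the rates -/
def bK (K : ℝ) : ℝ := 4 * exp (4 * K)

theorem bK_pos (K : ℝ) : 0 < bK K := by unfold bK; positivity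

theorem rc_rel (hW : Wᵀ = W) (hK : opn W ≤ K) {k j : Fin n} (h : k ≠ j) (x : Cube n) :
    |rc W k j x - Tk W x j| ≤ Tk W x j * (bK K * |W j k|) := by
  refine (abs_rc_rel hW h x).trans ?_
  have := exp_le_exp.2 (show 4 * |W j k| ≤ 4 * K by linarith [abs_entry_le W j k])
  have := mul_le_mul_of_nonneg_right this (mul_nonneg (abs_nonneg (W j k)) (Tk_pos W x j).le)
  rw [bK]; nlinarith

theorem rc_le (hW : Wᵀ = W) (hK : opn W ≤ K) {k j : Fin n} (h : k ≠ j) (x : Cube n) :
    rc W k j x ≤ Tk W x j * (1 + bK K * K) := by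
  have := mul_le_mul_of_nonneg_left ((abs_entry_le W j k).trans hK)
    (mul_pos (Tk_pos W x j) (bK_pos K)).le
  nlinarith [(abs_le.1 (rc_rel hW hK h x)).2]

/-- the change of rate of `j` on the edges of direction `k` -/
def dr (W : Mx n) (x : Cube n) : Mx n := of fun k j => if k = j then 0 else rc W k j x - Tk W x j

theorem Lc_eq (hW : Wᵀ = W) {k : Fin n} {F : Cube n → ℝ} (h : Fr k F) (x : Cube n) :
    Lc W k F x = gen (mu W) F x + ∑ j, dr W x k j * dl j F x := by
  rw [gen_dl hW, ← sum_add_distrib, ← add_sum_erase _ _ (mem_univ k), h.dl_self, Lc]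
  simp only [mul_zero, add_zero, zero_add]
  exact sum_congr rfl fun j hj => by rw [dr, of_apply, if_neg (ne_of_mem_erase hj).symm]; ring

theorem dr_le (hW : Wᵀ = W) (hK : opn W ≤ K) (x : Cube n) (k j : Fin n) (v : ℝ) :
    |dr W x k j * v| ≤ Tk W x j * (bK K * |W j k| * |v|) := by
  rw [abs_mul, ← mul_assoc]
  refine mul_le_mul_of_nonneg_right ?_ (abs_nonneg _)
  rw [dr, of_apply]
  split_ifs with h
  · rw [abs_zero]; exact mul_nonneg (Tk_pos W x j).le (mul_nonneg (bK_pos K).le (abs_nonneg _))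
  · exact rc_rel hW hK h x

theorem dr_sq (hK : opn W ≤ K) (k : Fin n) : ∑ j, (bK K * |W j k|) ^ 2 ≤ (bK K * K) ^ 2 := by
  simp only [mul_pow, sq_abs, ← mul_sum]
  exact mul_le_mul_of_nonneg_left (col_sq hK k) (sq_nonneg _)

/-- size of the twisted noise of `LL` -/
def bL (K : ℝ) : ℝ := bK K * K + (1 + bK K * K) * K

theorem twF_LL (hW : Wᵀ = W) (hK : opn W ≤ K) {U : VF n} (hU : FrV U) (g : VF n) (x : Cube n) :
    TwF (Tk W) U (fun z k => LL W U z k + g z k) x (bL K) (2 * K + 4 * K ^ 2) (nr (g x)) := by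
  have K0 : 0 ≤ K := (opn_nonneg W).trans hK
  have b0 := mul_nonneg (bK_pos K).le K0
  have h1 := tw_rate (u := U x) (v := inc U x) (fun j => (Tk_pos W x j).le) (δ := dr W x)
    (c := fun k j => bK K * |W j k|) (fun k j => dr_le hW hK x k j _) (dr_sq hK)
  have h2 := tw_hop (u := U x) (r := Tk W x) (v := inc U x) (β := (1 + bK K * K) * K) (by positivity)
    (g := fun k => ∑ i ∈ univ.erase k, am W x k i * (rc W i k x * inc U x k i)) fun k => by
      refine (abs_sum_le_sum_abs _ _).trans ?_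
      have e : ∀ i ∈ univ.erase k, |am W x k i * (rc W i k x * inc U x k i)| ≤
          Tk W x k * (1 + bK K * K) * (|W i k| * |inc U x k i|) := fun i hi => by
        rw [abs_mul, abs_mul, abs_of_pos (rc_pos W i k x)]
        have := mul_le_mul (abs_am_le W x k i).1 (rc_le hW hK (ne_of_mem_erase hi) x)
          (rc_pos W i k x).le (abs_nonneg _)
        nlinarith [mul_le_mul_of_nonneg_right this (abs_nonneg (inc U x k i))]
      have T0 := mul_nonneg (Tk_pos W x k).le (show 0 ≤ 1 + bK K * K by positivity)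
      refine ((sum_le_sum e).trans (sum_le_sum_of_subset_of_nonneg (subset_univ _)
        fun i _ _ => by positivity)).trans ?_
      rw [← mul_sum]
      have d := dot_le (fun i => |W i k|) fun i => |inc U x k i|
      have d1 : nr (fun i => |W i k|) ≤ K := nr_le K0 (by
        simpa only [dotProduct, ← sq, sq_abs] using col_sq hK k)
      have d2 : (nr fun i => |inc U x k i|) = nr (inc U x k) := by
        simp only [nr, dotProduct, abs_mul_abs_self]
      rw [d2] at d
      have := mul_le_mul_of_nonneg_left (d.trans (mul_le_mul_of_nonneg_right d1 (nr_nn _))) T0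
      rw [dotProduct] at this
      linarith
  have h3 : Tw (Tk W x) (U x) (inc U x) (U x ⬝ᵥ (am W x *ᵥ U x) - U x ⬝ᵥ U x + U x ⬝ᵥ g x) 0
      (2 * K + 4 * K ^ 2) (nr (g x)) := tw_of_le (by
    have a := dot_le (U x) (am W x *ᵥ U x)
    have b := mul_le_mul_of_nonneg_left ((nr_mulVec (am W x) (U x)).trans
      (mul_le_mul_of_nonneg_right (opn_am hW hK x) (nr_nn _))) (nr_nn (U x))
    nlinarith [dot_le (U x) (g x), nr_sq (U x), dn (U x)])
  refine ((h1.add h2 b0 (by positivity)).add h3 (by positivity) le_rfl).mono (le_of_eq ?_)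
    (by positivity) (by rw [bL, add_zero]) (by simp) (by simp)
  simp only [dotProduct, ← sum_add_distrib, ← sum_sub_distrib]
  refine sum_congr rfl fun k _ => ?_
  have e : (am W x *ᵥ U x) k = ∑ i ∈ univ.erase k, am W x k i * U x i := by
    rw [mulVec, dotProduct, ← add_sum_erase _ _ (mem_univ k), am_self, zero_mul, zero_add]
  rw [LL, Lc_eq hW (hU k), gen_dl hW, e]
  simp only [Ec, dl, cp, inc, Pi.sub_apply, mul_add (am W x k _), sum_add_distrib]
  ring

theorem bL_nn (hK : opn W ≤ K) : 0 ≤ bL K := by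
  have K0 : 0 ≤ K := (opn_nonneg W).trans hK
  have := bK_pos K
  unfold bL; positivity

/-- rate of `(P)`, `q = 3/2` -/
def cP (K : ℝ) : ℝ := c32 (bL K) (2 * K + 4 * K ^ 2)
/-- rate of `(P)`, `q = 2` -/
def cP2 (K : ℝ) : ℝ := 2 * bL K ^ 2 + 2 * (2 * K + 4 * K ^ 2) + 1

theorem nr_rpow {κ : Type*} [Fintype κ] (u : κ → ℝ) : nr u ^ (3 / 2 : ℝ) = (u ⬝ᵥ u) ^ (3 / 4 : ℝ) := by
  rw [nr, sqrt_eq_rpow, ← rpow_mul (dn u)]; norm_num

/-- **(P)** for `∂ U = LL U + g`, `q = 3/2` -/
theorem P32_LL (hn : 0 < n) (hW : Wᵀ = W) (hK : opn W ≤ K) {U g : ℝ → VF n} (hU : ∀ s, FrV (U s))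
    (hd : ∀ s x k, HasDerivAt (fun u => U u x k) (LL W (U s) x k + g s x k) s)
    (hg : ∀ x k, Continuous fun u => g u x k) {s : ℝ} (hs : 0 ≤ s) (x : Cube n) :
    (U s x ⬝ᵥ U s x) ^ (3 / 4 : ℝ) ≤
      exp (cP K * s) * sg (mu W) s (fun z => (U 0 z ⬝ᵥ U 0 z) ^ (3 / 4 : ℝ)) x +
        duh (mu W) (cP K) (fun u z => (g u z ⬝ᵥ g u z) ^ (3 / 4 : ℝ)) s x := by
  have K0 : 0 ≤ K := (opn_nonneg W).trans hK
  simpa only [nb, zero_add, nr_rpow, cP] using P32' (rt_mu hn hW) (bL_nn hK) (by positivity) (T := s)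
    (γ := fun u z => nr (g u z)) hd (fun z => (cont_dot (hg z) (hg z)).sqrt) (fun _ _ => nr_nn _)
    (fun u _ z => twF_LL hW hK (hU u) (g u) z) s ⟨hs, le_rfl⟩ x

/-- **(P)** for `∂ U = LL U + g`, `q = 2` -/
theorem P2_LL (hn : 0 < n) (hW : Wᵀ = W) (hK : opn W ≤ K) {U g : ℝ → VF n} (hU : ∀ s, FrV (U s))
    (hd : ∀ s x k, HasDerivAt (fun u => U u x k) (LL W (U s) x k + g s x k) s)
    (hg : ∀ x k, Continuous fun u => g u x k) {s : ℝ} (hs : 0 ≤ s) (x : Cube n) :
    U s x ⬝ᵥ U s x ≤ exp (cP2 K * s) * sg (mu W) s (fun z => U 0 z ⬝ᵥ U 0 z) x +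
      duh (mu W) (cP2 K) (fun u z => g u z ⬝ᵥ g u z) s x := by
  have h := rt_mu hn hW
  have := P2 h (T := s) (γ := fun u z => nr (g u z)) hd (fun z => (cont_dot (hg z) (hg z)).sqrt)
    (fun u _ z => twF_LL hW hK (hU u) (g u) z) s ⟨hs, le_rfl⟩ x
  have k := duh_nonneg h.hn h.hw (C := cP2 K) hs (fun u _ z => GaF_nn h (U u) z) x
  simp only [nr_sq] at this
  unfold cP2 at *
  linarith

/-! ### the marker equations -/

theorem twF_al (hW : Wᵀ = W) (hK : opn W ≤ K) {k : Fin n} {F : Cube n → ℝ} (hF : Fr k F) {l : ℝ}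
    (hl : 0 ≤ l) (x : Cube n) :
    TwF (Tk W) (one F) (one fun z => Lc W k F z - l * F z) x (bK K * K) 0 0 := by
  have h1 := tw_rate (u := one F x) (v := inc (one F) x) (fun j => (Tk_pos W x j).le)
    (δ := fun _ j => dr W x k j) (c := fun _ j => bK K * |W j k|) (fun _ j => dr_le hW hK x k j _)
    fun _ => dr_sq hK k
  refine h1.mono ?_ (mul_nonneg (bK_pos K).le ((opn_nonneg W).trans hK)) le_rfl le_rfl le_rfl
  simp only [dotProduct, one, inc, Finset.univ_unique, sum_singleton, Pi.sub_apply, Lc_eq hW hF, gen_dl hW, dl]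
  nlinarith [mul_nonneg hl (mul_self_nonneg (F x))]

/-- operator norm of the relative change of rates -/
def bM (K : ℝ) : ℝ := 8 * K + 20 * exp (4 * K) * K ^ 2

theorem nr_dr (hW : Wᵀ = W) (hK : opn W ≤ K) (x : Cube n) (v : V n) :
    nr (dr W x *ᵥ v) ≤ bM K * nr fun i => Tk W x i * v i := by
  have e : dr W x *ᵥ v = (of fun j i => dr W x j i / Tk W x i) *ᵥ fun i => Tk W x i * v i := by
    funext j
    rw [mulVec, mulVec, dotProduct, dotProduct]
    refine sum_congr rfl fun i _ => ?_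
    have := (Tk_pos W x i).ne'
    simp only [of_apply]; field_simp
  rw [e]
  refine (nr_mulVec _ _).trans (mul_le_mul_of_nonneg_right ?_ (nr_nn _))
  refine (op_main hW hK (fun j => (sv x j + tt W 0 x j) / 2) (fun i => 4 * sv x i * (1 - Tk W x i))
    (a := 4) (b := 20 * exp (4 * K)) (by norm_num) (by positivity) (fun j => ?_) (fun i => ?_)
    fun j i => ?_).trans (le_of_eq (by rw [bM]; ring))
  · have := abs_add_le (sv x j) (tt W 0 x j)
    have t : |tt W 0 x j| < 1 := abs_tanh_lt_one (loc W 0 x j)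
    rw [abs_div, abs_two]
    linarith [abs_sv x j]
  · rw [abs_mul, abs_mul, abs_sv, abs_of_pos (sub_pos.2 (Tk_lt W x i))]
    norm_num; linarith [Tk_pos W x i]
  · by_cases h : j = i
    · simp only [of_apply, dr, off, if_pos h, zero_div, mul_zero, zero_mul, sub_zero, abs_zero]
      positivity
    have T0 := Tk_pos W x i
    have a := rc_expand hW h x
    have b := exp_le_exp.2 (show 4 * |W i j| ≤ 4 * K by linarith [abs_entry_le W i j])
    rw [show (of fun j i => dr W x j i / Tk W x i) j i - (sv x j + tt W 0 x j) / 2 * off W j i *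
        (4 * sv x i * (1 - Tk W x i)) = (rc W j i x - Tk W x i - sv x i * W i j *
        (1 - tt W 0 x i ^ 2) * (sv x j + tt W 0 x j) / 2) / Tk W x i by
      simp only [of_apply, dr, off, if_neg h, c_eq, sym hW j i]; field_simp,
      abs_div, abs_of_pos T0, div_le_iff₀ T0, sym hW j i]
    refine a.trans ?_
    have c := mul_le_mul b (c_le W x i) (c_mem W x i).1 (exp_pos _).le
    nlinarith [mul_le_mul_of_nonneg_right c (sq_nonneg (W i j))]

theorem bM_nn (hK : opn W ≤ K) : 0 ≤ bM K := by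
  have K0 : 0 ≤ K := (opn_nonneg W).trans hK
  unfold bM; positivity

/-- `z_j = y_j - ka` off the marker `k` -/
theorem twF_z (hW : Wᵀ = W) (hK : opn W ≤ K) (k : Fin n) {y : VF n} (hy : ∀ j, j ≠ k → Fr j (cp y j))
    (F : Cube n → ℝ) (x : Cube n) :
    TwF (Tk W) (fun z j => if j = k then 0 else y z j - F z)
      (fun z j => if j = k then 0 else Lc W j (cp y j) z - gen (mu W) F z) x (bK K * K) 0
      (bM K * √(aS (Tk W) F x)) := by
  set Z : VF n := fun z j => if j = k then 0 else y z j - F z with hZ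
  have h1 := tw_rate (u := Z x) (v := inc Z x) (fun j => (Tk_pos W x j).le) (δ := dr W x)
    (c := fun k j => bK K * |W j k|) (fun k j => dr_le hW hK x k j _) (dr_sq hK)
  have b0 := mul_nonneg (bK_pos K).le ((opn_nonneg W).trans hK)
  refine (h1.add (tw_src (dr W x *ᵥ fun i => dl i F x)) b0 le_rfl).mono (le_of_eq ?_) (by linarith)
    (by linarith) (by linarith) ?_
  · simp only [dotProduct, ← sum_add_distrib, ← sum_sub_distrib]
    refine sum_congr rfl fun j _ => ?_
    by_cases h : j = k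
    · simp [hZ, h]
    rw [if_neg h, Lc_eq hW (hy j h), gen_dl hW, gen_dl hW, mulVec, dotProduct]
    simp only [inc, hZ, if_neg h, Pi.sub_apply, dl, cp, ← mul_add, ← mul_sub, ← sum_add_distrib,
      ← sum_sub_distrib]
    congr 1
    exact sum_congr rfl fun i _ => by ring
  · rw [zero_add]
    refine (nr_dr hW hK x _).trans (le_of_eq ?_)
    simp only [nr, aS, dotProduct, dl, sq]

/-- the initial value of `z` -/
theorem z0_le (hW : Wᵀ = W) (hK : opn W ≤ K) (k : Fin n) (F : Cube n → ℝ) (x : Cube n) {q : V n}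
    {c b : ℝ} (hq : ∀ j, j ≠ k → |q j| ≤ 1 ∧ |q j - c| ≤ b * |W k j|) :
    ∑ j, (if j = k then 0 else q j * Ec W k j F x - c * F x) ^ 2 ≤
      (2 * (b * K) ^ 2 + 2 * (1 + bK K * K) ^ 2) * (F x ^ 2 + aS (Tk W) F x) := by
  have e : ∀ j, (if j = k then 0 else q j * Ec W k j F x - c * F x) ^ 2 ≤
      2 * b ^ 2 * F x ^ 2 * W j k ^ 2 + 2 * (1 + bK K * K) ^ 2 * (Tk W x j * dl j F x) ^ 2 := fun j => by
    split_ifs with h
    · rw [zero_pow two_ne_zero]; positivity
    obtain ⟨q1, q2⟩ := hq j h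
    have a1 : (q j - c) ^ 2 ≤ b ^ 2 * W j k ^ 2 := by
      rw [← sq_abs, sym hW j k, ← sq_abs (W k j), ← mul_pow]
      exact pow_le_pow_left₀ (abs_nonneg _) q2 2
    have a2 : (q j * rc W k j x) ^ 2 ≤ (Tk W x j * (1 + bK K * K)) ^ 2 := by
      rw [← sq_abs, abs_mul, abs_of_pos (rc_pos W k j x)]
      exact pow_le_pow_left₀ (mul_nonneg (abs_nonneg _) (rc_pos W k j x).le)
        ((mul_le_of_le_one_left (rc_pos W k j x).le q1).trans (rc_le hW hK (Ne.symm h) x)) 2
    rw [Ec]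
    nlinarith [mul_le_mul_of_nonneg_right a1 (sq_nonneg (F x)),
      mul_le_mul_of_nonneg_right a2 (sq_nonneg (dl j F x)),
      sq_nonneg ((q j - c) * F x - q j * rc W k j x * dl j F x)]
  refine (sum_le_sum fun j _ => e j).trans ?_
  rw [sum_add_distrib, ← mul_sum, ← mul_sum]
  have a := mul_le_mul_of_nonneg_left (col_sq hK k) (show 0 ≤ 2 * b ^ 2 * F x ^ 2 by positivity)
  have s : ∑ j, (Tk W x j * dl j F x) ^ 2 = aS (Tk W) F x := rfl
  rw [s]
  nlinarith [mul_nonneg (sq_nonneg (b * K)) (aS_nn (r := Tk W) F x),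
    mul_nonneg (sq_nonneg (1 + bK K * K)) (sq_nonneg (F x))]

end Crest.Agent.T157.S6b

end
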