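import Crest.Agent.T157.S6EbA_83
import Crest.Agent.T157.S6Def_93
import Crest.Agent.T157.S6PL_20

/-!
# Row 157, block S6 (helper83): (ErrBd)
-/

set_option autoImplicit false

noncomputable section

namespace Crest.Agent.T157.S6a

open Matrix Real Finset
open Crest.Agent.T157.E Crest.Agent.T157.Eig
open Crest.Agent.T157.Tap (V Mx)
open Crest.Agent.T157.Rec (grad fl)
open Crest.Agent.T157.Reg (VF mu Tk am jac)
open Crest.Agent.T157.S6h
open Crest.Agent.T157.S6e

namespace Eb83

variable {n : ℕ} {W : Mx n}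

/-- the edge rates, with the true rate on the diagonal -/
def qm (W : Mx n) (x : Cube n) : Mx n := of fun j i => if i = j then Tk W x i else rc W j i x

theorem co (h : Ok W 1 1) (x : Cube n) : Co W (am W x) (qm W x) (Tk W x) (sv x) 1 (4 * exp 4) where
  K0 := zero_le_one
  c0 := by positivity
  sym i j := by conv_lhs => rw [← h.sym, transpose_apply]
  row := h.row
  ha j i := by
    have := (abs_am_le W x j i).1
    rwa [← h.sym, transpose_apply, h.sym] at this
  a0 := am_self W x
  r0 i := (Tk_pos W x i).le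
  q1 j i := by
    rw [qm, of_apply]
    split_ifs
    · exact abs_le.2 ⟨by linarith [Tk_pos W x i], (Tk_lt W x i).le⟩
    · exact abs_le.2 ⟨by linarith [rc_pos W j i x], (rc_lt W j i x).le⟩
  hq j i := by
    have hT := Tk_pos W x i
    rw [qm, of_apply]
    split_ifs with e
    · rw [sub_self, abs_zero]; positivity
    · refine (abs_rc_rel h.sym (Ne.symm e) x).trans ?_
      have e1 : W i j = W j i := by conv_lhs => rw [← h.sym, transpose_apply]
      rw [e1]
      have : exp (4 * |W j i|) ≤ exp 4 := exp_le_exp.2 (by linarith [h.ent j i])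
      gcongr
  hs := abs_sv x

theorem sum_er (k : Fin n) (f : Fin n → ℝ) :
    ∑ i ∈ univ.erase k, f i = ∑ i, if i = k then 0 else f i := by
  rw [← sum_erase univ (a := k) (f := fun i => if i = k then 0 else f i) (if_pos rfl)]
  exact sum_congr rfl fun i hi => (if_neg (ne_of_mem_erase hi)).symm

variable (W) (ρ : ℝ → ℝ) (ψ : VF n) (v : ℝ) (x : Cube n) (T : Finset (Fin n))

/-- the marker scalars at `x` -/
def mk : Mk (Fin n) where
  ka k := if k ∈ T then ka W ψ v k x else 0
  dk k i := if k ∈ T then dl i (ka W ψ v k) x else 0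
  z k j := if k ∈ T ∧ j ≠ k then zz W ψ v k j x else 0
  dz k j i := if k ∈ T ∧ j ≠ k then dl i (zz W ψ v k j) x else 0

/-- the fields -/
def wm : Mx n := of fun i k => if k ∈ T then Om W ρ v x i k else 0

/-- their Jacobians -/
def Xm : Matrix (Fin n × Fin n) (Fin n) ℝ :=
  of fun p j => if p.1 ∈ T then grad (cp (Wk W ρ v p.1) j) x p.2 else 0

theorem er_ep (j k : Fin n) : (if k ∈ T then er W ρ ψ v k x j else 0) =
    ∑ i, ep (am W x) (qm W x) (wm W ρ v x T) (sv x) (Xm W ρ v x T) (mk W ψ v x T) j k i +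
      δ j k * ((if k ∈ T then ρ v else 0) *
        ((mk W ψ v x T).ka k + Tk W x k * (mk W ψ v x T).dk k k)) := by
  by_cases hk : k ∈ T
  swap
  · simp [ep, mk, hk]
  have y0 : yy W ψ v k k = fun _ => 0 := funext fun _ => if_pos rfl
  have X1 : ∀ i j, -2 * sv x i * Xm W ρ v x T (k, i) j = Wk W ρ v k (fl x i) j - Wk W ρ v k x j :=
    fun i j => by rw [Xm, of_apply, if_pos hk, ← dl_eq]; rfl
  have X2 : ∀ i j, -2 * sv x j * Xm W ρ v x T (k, i) j = Wk W ρ v k (fl x j) i - Wk W ρ v k x i :=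
    fun i j => by
      rw [← X1 j i, Xm, of_apply, of_apply, if_pos hk, if_pos hk]
      exact congrArg _ (Da.Gr.grad_comm _ x _ _)
  have w1 : ∀ i, wm W ρ v x T i k = Wk W ρ v k x i := fun i => if_pos hk
  have d0 : ∀ i, Wk W ρ v k (fl x i) i - Wk W ρ v k x i = 0 := fun i =>
    sub_eq_zero.2 (frV_grad _ i x)
  rw [if_pos hk, if_pos hk]
  by_cases h : j = k
  · subst h
    simp only [er, LL, Lc, Ret, Ek, ep, X2, w1, y0, cp, yW, dl, mk, hk, δ, if_true, zero_mul, sub_self,
      mul_zero, sum_const_zero, zero_add, zero_sub, one_mul, sum_er, true_and, sum_neg_distrib]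
    congr 2
    refine sum_congr rfl fun i _ => ?_
    by_cases hi : i = j
    · simp only [hi, if_true]
    · simp only [hi, if_false, Ec, dl, cp, yW, zz, qm, of_apply, Ne.symm hi, ne_eq, not_false_eq_true,
        if_true]
      ring
  · simp only [er, LL, Lc, ep, X1, X2, w1, cp, yW, dl, mk, hk, δ, h, if_true, if_false, zero_mul,
      add_zero, sum_er, true_and, ne_eq, not_false_eq_true, sum_mul, mul_add, mul_sub, mul_sum]
    rw [← sub_eq_zero]
    have e : ∀ A B C D E F G H : ℝ, G = H → A + (B - G + C) - (D - H + E) - F =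
        A + B + C - D - E - F := fun A B C D E F G H e => by rw [e]; ring
    rw [e _ _ _ _ _ _ _ _ rfl]
    simp only [sub_self, add_zero, ← sum_add_distrib, ← sum_sub_distrib]
    refine sum_eq_zero fun i _ => ?_
    by_cases hi : i = j
    · subst hi
      have := d0 i
      simp only [if_true, h, if_false, am_self, sub_eq_zero.1 this]
      ring
    · by_cases hi' : i = k
      · subst hi'
        simp only [hi, if_false, if_true, Ec, dl, cp, yW, zz, qm, of_apply, Ne.symm hi, y0]
        ring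
      · simp only [hi, hi', if_false, Ec, dl, cp, yW, zz, qm, of_apply, Ne.symm hi, not_false_eq_true,
          if_true]
        ring

theorem sum_ite (f : Fin n → ℝ) : ∑ k, (if k ∈ T then f k else 0) = ∑ k ∈ T, f k := by
  rw [sum_ite_mem, univ_inter]

theorem aa_nn (F : Cube n → ℝ) : 0 ≤ aa W F x := sum_nonneg fun _ _ => sq_nonneg _

theorem sz : Sz (Tk W x) (mk W ψ v x T) √(∑ k ∈ T, Z2 W ψ v k x) := by
  have p1 : ∀ k, 0 ≤ ∑ j, zz W ψ v k j x ^ 2 := fun k => sum_nonneg fun _ _ => sq_nonneg _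
  have p2 : ∀ k, 0 ≤ ∑ j, aa W (zz W ψ v k j) x := fun k => sum_nonneg fun _ _ => aa_nn W x _
  have p3 := fun k => aa_nn W x (ka W ψ v k)
  have p4 := fun k => sq_nonneg (ka W ψ v k x)
  have e : √(∑ k ∈ T, Z2 W ψ v k x) ^ 2 = ∑ k, if k ∈ T then Z2 W ψ v k x else 0 := by
    rw [sum_ite, sq_sqrt (sum_nonneg fun k _ => by
      unfold Z2 Z1; linarith [p1 k, p2 k, p3 k, p4 k])]
  refine ⟨sqrt_nonneg _, ?_, ?_, ?_, ?_⟩ <;> rw [e] <;> refine sum_le_sum fun k _ => ?_ <;>
    by_cases hk : k ∈ T <;> simp only [mk, hk, if_true, if_false, true_and, false_and, mul_zero,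
      ne_eq, OfNat.ofNat_ne_zero, not_false_eq_true, zero_pow, sum_const_zero, le_refl, Z2, Z1]
  · linarith [p1 k, p2 k, p3 k]
  · have : ∑ j, (if ¬j = k then zz W ψ v k j x else 0) ^ 2 ≤ ∑ j, zz W ψ v k j x ^ 2 :=
      sum_le_sum fun j _ => by split_ifs <;> simp [sq_nonneg]
    linarith [p2 k, p3 k, p4 k]
  · have : ∑ i, (Tk W x i * dl i (ka W ψ v k) x) ^ 2 = aa W (ka W ψ v k) x := rfl
    linarith [p1 k, p2 k, p4 k]
  · have : ∑ j, ∑ i, (Tk W x i * if ¬j = k then dl i (zz W ψ v k j) x else 0) ^ 2 ≤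
        ∑ j, aa W (zz W ψ v k j) x := sum_le_sum fun j _ => by
      split_ifs
      · simpa using aa_nn W x _
      · rfl
    linarith [p1 k, p3 k, p4 k]

variable {W ρ v x T}

theorem mul_wm (j k : Fin n) :
    (am W x * wm W ρ v x T) j k = if k ∈ T then (am W x * Om W ρ v x) j k else 0 := by
  simp only [mul_apply, wm, of_apply]
  split_ifs <;> simp

theorem opn_Xm {o ε : ℝ} (h : Loc W ρ v x T o ε) : opn (Xm W ρ v x T) ≤ |ε| := by
  rw [← opn_transpose]
  refine opn_le_of_sq (abs_nonneg ε) fun u => ?_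
  have h1 := h.xs fun k i => -(sv x i * u (k, i)) / 2
  have e1 : ∀ j, ((Xm W ρ v x T)ᵀ *ᵥ u) j =
      ∑ k ∈ T, ∑ i, jac (Wk W ρ v k) x j i * (-(sv x i * u (k, i)) / 2) := fun j => by
    rw [← sum_ite]
    simp only [mulVec, dotProduct, transpose_apply, Fintype.sum_prod_type, Xm, of_apply]
    refine sum_congr rfl fun k _ => ?_
    split_ifs
    · refine sum_congr rfl fun i _ => ?_
      have : jac (Wk W ρ v k) x j i = dl i (cp (Wk W ρ v k) j) x := rfl
      rw [this, dl_eq]
      linear_combination (-grad (cp (Wk W ρ v k) j) x i * u (k, i)) * Rec.sv_mul_self x i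
    · simp
  have e2 : ∑ k ∈ T, ∑ i, (-(sv x i * u (k, i)) / 2) ^ 2 ≤ u ⬝ᵥ u := by
    rw [dotProduct, Fintype.sum_prod_type]
    refine le_trans (sum_le_sum fun k _ => sum_le_sum fun i _ => ?_)
      (sum_le_sum_of_subset_of_nonneg (subset_univ T) fun k _ _ =>
        sum_nonneg fun i _ => mul_self_nonneg _)
    have := Rec.sv_mul_self x i
    have e : (-(sv x i * u (k, i)) / 2) ^ 2 = u (k, i) * u (k, i) / 4 := by
      linear_combination (u (k, i) * u (k, i) / 4) * this
    rw [e]; linarith [mul_self_nonneg (u (k, i))]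
  rw [sq_abs]
  simp only [dotProduct, e1, ← sq] at h1 ⊢
  exact h1.trans (mul_le_mul_of_nonneg_left (by simpa only [dotProduct, ← sq] using e2) (sq_nonneg _))

end Eb83

open Eb83 in
/-- **(ErrBd)** -/
theorem errStmt : ErrStmt := by
  refine ⟨1 + cE 1 6 (4 * exp 4) ^ 2, by linarith [sq_nonneg (cE 1 6 (4 * exp 4))],
    fun n W h ρ ψ _ v x T o ε hL => ⟨?_, ?_⟩⟩
  · have hz := sz W ψ v x T
    have key := err_le (co h x) (A := 6) ((S6b.opn_am h.sym h.op x).trans (by norm_num))
      (w := wm W ρ v x T) (ρ := fun k => if k ∈ T then ρ v else 0) (abs_nonneg ε)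
      (fun l => by
        rw [sq_abs]
        refine le_trans (le_of_eq ?_) (hL.rh l)
        rw [← Eb83.sum_ite T]
        exact sum_congr rfl fun k _ => by
          by_cases hk : k ∈ T <;> simp only [wm, of_apply, hk, if_true, if_false]
          norm_num)
      (fun j => by
        rw [sq_abs]
        refine le_trans (le_of_eq ?_) (hL.rh' j)
        rw [← Eb83.sum_ite (T.erase j), sum_er]
        refine sum_congr rfl fun k _ => ?_
        rw [mul_wm]
        by_cases h1 : k = j <;> by_cases h2 : k ∈ T <;> simp [h1, h2])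
      (fun k => by
        rw [mul_wm]
        split_ifs with hk
        · exact (hL.th k hk).trans (le_abs_self ε)
        · simp)
      (opn_Xm hL) (fun k i => by
        rw [Xm, of_apply]
        split_ifs
        · have : cp (Wk W ρ v k) i (fl x i) = cp (Wk W ρ v k) i x := frV_grad _ i x
          rw [Rec.grad_eq]
          show sv x i * (cp (Wk W ρ v k) i x - cp (Wk W ρ v k) i (fl x i)) / 2 = 0
          rw [this, sub_self, mul_zero, zero_div]
        · rfl) (m := Eb83.mk W ψ v x T) (fun k => by simp [Eb83.mk]) (fun k i => by simp [Eb83.mk]) hz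
    simp only [← er_ep, Eb83.sum_ite] at key
    have h0 : 0 ≤ ∑ k ∈ T, Z2 W ψ v k x := by
      have := (sum_nonneg fun _ _ => sq_nonneg _).trans hz.ka
      exact sum_nonneg fun k _ => add_nonneg (add_nonneg (add_nonneg (sq_nonneg _)
        (sum_nonneg fun _ _ => sq_nonneg _)) (aa_nn W x _)) (sum_nonneg fun _ _ => aa_nn W x _)
    have h1 := pow_le_pow_left₀ (nrm_nonneg _) key 2
    rw [nrm_sq, mul_pow, mul_pow, sq_abs, sq_sqrt h0] at h1
    simp only [dotProduct, ← sq] at h1
    have := mul_nonneg (sq_nonneg ε) h0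
    linarith
  · have e : ∀ j, ∑ k ∈ T, yW W ρ ψ v k x j = ∑ k ∈ T, ka W ψ v k x * Om W ρ v x j k +
        ∑ k ∈ T, Om W ρ v x j k * zz W ψ v k j x := fun j => by
      rw [← sum_add_distrib]
      exact sum_congr rfl fun k _ => by simp only [yW, Om, zz, of_apply]; ring
    have h1 := hL.om fun k => ka W ψ v k x
    have h2 : ∑ j, (∑ k ∈ T, Om W ρ v x j k * zz W ψ v k j x) ^ 2 ≤ ε ^ 2 * ∑ k ∈ T, Z1 W ψ v k x :=
      calc _ ≤ ∑ j, ε ^ 2 * ∑ k ∈ T, zz W ψ v k j x ^ 2 := sum_le_sum fun j _ =>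
            (sum_mul_sq_le_sq_mul_sq _ _ _).trans (mul_le_mul_of_nonneg_right (hL.rh j)
              (sum_nonneg fun _ _ => sq_nonneg _))
        _ ≤ _ := by
            rw [← mul_sum, sum_comm]
            exact mul_le_mul_of_nonneg_left (sum_le_sum fun k _ =>
              le_add_of_nonneg_left (sq_nonneg _)) (sq_nonneg _)
    have h3 : ∑ j, (∑ k ∈ T, yW W ρ ψ v k x j) ^ 2 ≤
        ∑ j, (2 * (∑ k ∈ T, ka W ψ v k x * Om W ρ v x j k) ^ 2 +
          2 * (∑ k ∈ T, Om W ρ v x j k * zz W ψ v k j x) ^ 2) := sum_le_sum fun j _ => by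
      rw [e]
      nlinarith [sq_nonneg (∑ k ∈ T, ka W ψ v k x * Om W ρ v x j k -
        ∑ k ∈ T, Om W ρ v x j k * zz W ψ v k j x)]
    rw [sum_add_distrib, ← mul_sum, ← mul_sum] at h3
    linarith

end Crest.Agent.T157.S6a
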