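import Crest.Agent.T157.S6Eq_20

/-!
# Row 157, block S6 (helper20): the bulk part of the end step, abstract inequalities
-/

set_option autoImplicit false

noncomputable section

namespace Crest.Agent.T157.S6b

open Real Matrix Finset Set MeasureTheory
open Crest.Agent.T157.Chain22 (IsP mean)

variable {κ ι Ω : Type*} [Fintype κ] [Fintype ι] [Fintype Ω]

theorem nr_add (u v : κ → ℝ) : nr (u + v) ≤ nr u + nr v :=
  nr_le (add_nonneg (nr_nn u) (nr_nn v)) (by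
    rw [add_dotProduct, dotProduct_add, dotProduct_add, dotProduct_comm v u]
    nlinarith [dot_le u v, nr_sq u, nr_sq v])

theorem add_dot_le (u v : κ → ℝ) : (u + v) ⬝ᵥ (u + v) ≤ 2 * (u ⬝ᵥ u) + 2 * (v ⬝ᵥ v) := by
  have := dn (u - v)
  rw [sub_dotProduct, dotProduct_sub, dotProduct_sub] at this
  rw [add_dotProduct, dotProduct_add, dotProduct_add]
  linarith

theorem jensen {ϖ f : Ω → ℝ} (hϖ : IsP ϖ) (hf : ∀ y, 0 ≤ f y) {q : ℝ} (h0 : 0 ≤ q) (h1 : q ≤ 1) :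
    mean ϖ (fun y => f y ^ q) ≤ mean ϖ f ^ q :=
  (concaveOn_rpow h0 h1).le_map_sum (fun y _ => hϖ.nn y) hϖ.sum1 fun y _ => hf y

theorem young2 {x y l : ℝ} (hl : 0 < l) : x * y ≤ l * x ^ 2 + y ^ 2 / (4 * l) := by
  have : l * x ^ 2 + y ^ 2 / (4 * l) - x * y = (2 * l * x - y) ^ 2 / (4 * l) := by field_simp; ring
  have : 0 ≤ (2 * l * x - y) ^ 2 / (4 * l) := by positivity
  linarith

/-- the markers with a large size form a small set, the others contribute little -/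
theorem split {e : ι → κ → ℝ} {Z : ι → ℝ} {a b θ m : ℝ} (hZ : ∀ k, 0 ≤ Z k) (hθ : 0 < θ) (ha : 0 ≤ a)
    (hb : 0 ≤ b) (hΛ : ∀ T : Finset ι, (∑ k ∈ T, e k) ⬝ᵥ (∑ k ∈ T, e k) ≤ a * ∑ k ∈ T, Z k)
    (hδ : a ^ 2 * θ ≤ b ^ 2) (h : ∑ k, Z k ≤ θ ^ 2 * m) : ∃ (T : Finset ι) (r : κ → ℝ),
    (T.card : ℝ) ≤ m ∧ ∑ k, e k = ∑ k ∈ T, e k + r ∧ r ⬝ᵥ r ≤ b * ∑ k, Z k ^ (3 / 4 : ℝ) := by
  classical
  refine ⟨univ.filter fun k => θ ^ 2 < Z k, _, ?_, (sum_filter_add_sum_filter_not _ _ _).symm,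
    (hΛ _).trans ?_⟩
  · refine le_of_mul_le_mul_left (le_trans ?_ h) (pow_pos hθ 2)
    rw [mul_comm, ← nsmul_eq_mul]
    exact (card_nsmul_le_sum _ _ _ fun k hk => (mem_filter.1 hk).2.le).trans
      (sum_le_sum_of_subset_of_nonneg (subset_univ _) fun k _ _ => hZ k)
  · have t : a * √θ ≤ b := (abs_le_of_sq_le_sq' (by rwa [mul_pow, sq_sqrt hθ.le]) hb).2
    have : ∑ k ∈ univ.filter fun k => ¬ θ ^ 2 < Z k, Z k ≤ √θ * ∑ k, Z k ^ (3 / 4 : ℝ) := by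
      rw [mul_sum]
      refine (sum_le_sum fun k hk => ?_).trans (sum_le_sum_of_subset_of_nonneg (subset_univ _)
        fun k _ _ => mul_nonneg (sqrt_nonneg _) (rpow_nonneg (hZ k) _))
      have a := r4_mono (hZ k) (not_lt.1 (mem_filter.1 hk).2)
      rw [show θ ^ 2 = √θ ^ 4 by rw [show √θ ^ 4 = (√θ ^ 2) ^ 2 by ring, sq_sqrt hθ.le],
        r4_of_pow (sqrt_nonneg _)] at a
      rw [r4_cube (hZ k)]
      nlinarith [r4_pow (hZ k), mul_le_mul_of_nonneg_right a (pow_nonneg (r4_nn (hZ k)) 3)]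
    have s0 : 0 ≤ ∑ k, Z k ^ (3 / 4 : ℝ) := sum_nonneg fun k _ => rpow_nonneg (hZ k) _
    nlinarith [mul_le_mul_of_nonneg_left this ha, mul_le_mul_of_nonneg_right t s0]

/-- the bulk of the ansatz paired with `d` -/
theorem phi_pt {e : ι → κ → ℝ} {Z ka : ι → ℝ} {d : κ → ℝ} {Λ ε o θ m N b l l' : ℝ}
    (hZ : ∀ k, 0 ≤ Z k) (hθ : 0 < θ) (hm : 0 < m) (hΛ0 : 0 ≤ Λ) (hl : 0 < l) (hl' : 0 < l')
    (hb : b = 0 ∨ b = 1)
    (hΛ : ∀ T : Finset ι, (∑ k ∈ T, e k) ⬝ᵥ (∑ k ∈ T, e k) ≤ 4 * Λ ^ 2 * ∑ k ∈ T, Z k)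
    (hε : b = 0 → ∀ T : Finset ι, (T.card : ℝ) ≤ m → (∑ k ∈ T, e k) ⬝ᵥ (∑ k ∈ T, e k) ≤
      2 * o ^ 2 * ∑ k ∈ T, ka k ^ 2 + 2 * ε ^ 2 * ∑ k ∈ T, Z k)
    (h1 : Λ ^ 4 * θ ≤ ε ^ 4) (hN : (d ⬝ᵥ d) * (4 * Λ ^ 2 * ∑ k, Z k) ≤ N ^ 2) (N0 : 0 ≤ N) :
    d ⬝ᵥ ∑ k, e k ≤ (l + l') * (d ⬝ᵥ d) + o ^ 2 / l * ∑ k, ka k ^ 2 +
      (2 * ε ^ 2 / l' + nr d * (2 * Λ / (θ * √m))) * (∑ k, Z k + ∑ k, Z k ^ (3 / 4 : ℝ)) + N * b := by
  have z0 : 0 ≤ ∑ k, Z k := sum_nonneg fun k _ => hZ k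
  have s0 : 0 ≤ ∑ k, Z k ^ (3 / 4 : ℝ) := sum_nonneg fun k _ => rpow_nonneg (hZ k) _
  have k0 : 0 ≤ ∑ k, ka k ^ 2 := sum_nonneg fun k _ => sq_nonneg _
  have d0 := nr_nn d
  have q1 : 0 ≤ (l + l') * (d ⬝ᵥ d) := mul_nonneg (by positivity) (dn d)
  have q2 : 0 ≤ o ^ 2 / l * ∑ k, ka k ^ 2 := by positivity
  have q3 : 0 ≤ 2 * ε ^ 2 / l' * (∑ k, Z k + ∑ k, Z k ^ (3 / 4 : ℝ)) := by positivity
  have q4 : 0 ≤ nr d * (2 * Λ / (θ * √m) * ∑ k, Z k) := by positivity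
  have q5 : 0 ≤ nr d * (2 * Λ / (θ * √m) * ∑ k, Z k ^ (3 / 4 : ℝ)) := by positivity
  refine (dot_le _ _).trans ?_
  rcases hb with rfl | rfl
  · rcases le_total (∑ k, Z k) (θ ^ 2 * m) with c | c
    · obtain ⟨T, r, t1, t2, t3⟩ := split (b := 4 * ε ^ 2) hZ hθ (by positivity) (by positivity) hΛ
        (by nlinarith) c
      have t4 := (hε rfl T t1).trans (add_le_add (mul_le_mul_of_nonneg_left
        (sum_le_sum_of_subset_of_nonneg (subset_univ T) fun k _ _ => sq_nonneg _) (by positivity))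
        (mul_le_mul_of_nonneg_left (sum_le_sum_of_subset_of_nonneg (subset_univ T)
          fun k _ _ => hZ k) (by positivity)))
      have a0 : 0 ≤ 4 * o ^ 2 * ∑ k, ka k ^ 2 := by positivity
      have b0 : 0 ≤ 8 * ε ^ 2 * (∑ k, Z k + ∑ k, Z k ^ (3 / 4 : ℝ)) := by positivity
      have t5 : nr (∑ k, e k) ≤ √(4 * o ^ 2 * ∑ k, ka k ^ 2) +
          √(8 * ε ^ 2 * (∑ k, Z k + ∑ k, Z k ^ (3 / 4 : ℝ))) := by
        refine nr_le (by positivity) ?_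
        rw [add_sq, sq_sqrt a0, sq_sqrt b0, mul_assoc 2, ← sqrt_mul a0]
        nth_rewrite 1 [t2]
        nth_rewrite 1 [t2]
        nlinarith [add_dot_le (∑ k ∈ T, e k) r, mul_nonneg (sq_nonneg ε) z0, sqrt_nonneg
          (4 * o ^ 2 * (∑ k, ka k ^ 2) * (8 * ε ^ 2 * (∑ k, Z k + ∑ k, Z k ^ (3 / 4 : ℝ))))]
      have y1 := young2 (x := nr d) (y := √(4 * o ^ 2 * ∑ k, ka k ^ 2)) hl
      have y2 := young2 (x := nr d) (y := √(8 * ε ^ 2 * (∑ k, Z k + ∑ k, Z k ^ (3 / 4 : ℝ)))) hl'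
      rw [sq_sqrt a0, nr_sq, show 4 * o ^ 2 * (∑ k, ka k ^ 2) / (4 * l) = o ^ 2 / l * ∑ k, ka k ^ 2 by
        field_simp] at y1
      rw [sq_sqrt b0, nr_sq, show 8 * ε ^ 2 * (∑ k, Z k + ∑ k, Z k ^ (3 / 4 : ℝ)) / (4 * l') =
        2 * ε ^ 2 / l' * (∑ k, Z k + ∑ k, Z k ^ (3 / 4 : ℝ)) by field_simp; ring] at y2
      nlinarith [mul_le_mul_of_nonneg_left t5 d0]
    · have : nr (∑ k, e k) ≤ 2 * Λ / (θ * √m) * ∑ k, Z k := nr_le (by positivity) ((hΛ univ).trans (by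
        rw [mul_pow, div_pow, mul_pow θ, sq_sqrt hm.le, div_mul_eq_mul_div, le_div_iff₀ (by positivity)]
        nlinarith [mul_le_mul_of_nonneg_left c (show 0 ≤ 4 * Λ ^ 2 * ∑ k, Z k by positivity)]))
      nlinarith [mul_le_mul_of_nonneg_left this d0]
  · have : nr d * nr (∑ k, e k) ≤ N := (abs_le_of_sq_le_sq' (by
      rw [mul_pow, nr_sq, nr_sq]
      exact (mul_le_mul_of_nonneg_left (hΛ univ) (dn d)).trans hN) N0).2
    nlinarith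

/-- the error field -/
theorem err_pt {e : ι → κ → ℝ} {Z : ι → ℝ} {L δ θ m μ N b : ℝ} (hZ : ∀ k, 0 ≤ Z k) (hθ : 0 < θ)
    (hL : 0 ≤ L) (hδ : 0 ≤ δ) (hμ : 0 < μ) (hN : 0 ≤ N) (hb : b = 0 ∨ b = 1)
    (hΛ : ∀ T : Finset ι, (∑ k ∈ T, e k) ⬝ᵥ (∑ k ∈ T, e k) ≤ L ^ 4 * ∑ k ∈ T, Z k)
    (hε : b = 0 → ∀ T : Finset ι, (T.card : ℝ) ≤ m →
      (∑ k ∈ T, e k) ⬝ᵥ (∑ k ∈ T, e k) ≤ δ ^ 4 * ∑ k ∈ T, Z k)
    (h1 : (L ^ 4) ^ 2 * θ ≤ (δ ^ 4) ^ 2) (h2 : μ ^ 4 = θ ^ 2 * m) (h3 : L ^ 4 * ∑ k, Z k ≤ N ^ 4) :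
    ((∑ k, e k) ⬝ᵥ (∑ k, e k)) ^ (3 / 4 : ℝ) ≤
      (2 * δ) ^ 3 * (∑ k, Z k + ∑ k, Z k ^ (3 / 4 : ℝ)) ^ (3 / 4 : ℝ) +
      L ^ 3 / μ * (∑ k, Z k + ∑ k, Z k ^ (3 / 4 : ℝ)) + N ^ 3 * b := by
  have z0 : 0 ≤ ∑ k, Z k := sum_nonneg fun k _ => hZ k
  have s0 : 0 ≤ ∑ k, Z k ^ (3 / 4 : ℝ) := sum_nonneg fun k _ => rpow_nonneg (hZ k) _
  have e0 := r4_nn (dn (∑ k, e k))
  have e4 := r4_pow (dn (∑ k, e k))
  have cr := hΛ univ
  have p0 := r4_nn (add_nonneg z0 s0)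
  have p4 := r4_pow (add_nonneg z0 s0)
  rw [r4_cube (dn _), r4_cube (add_nonneg z0 s0)]
  rw [← e4] at cr
  have q1 : 0 ≤ (2 * δ) ^ 3 * r4 (∑ k, Z k + ∑ k, Z k ^ (3 / 4 : ℝ)) ^ 3 := by positivity
  have q2 : 0 ≤ L ^ 3 / μ * ∑ k, Z k ^ (3 / 4 : ℝ) := by positivity
  have q3 : 0 ≤ L ^ 3 / μ * ∑ k, Z k := by positivity
  rcases hb with rfl | rfl
  · rcases le_total (∑ k, Z k) (θ ^ 2 * m) with c | c
    · obtain ⟨T, r, t1, t2, t3⟩ := split hZ hθ (by positivity) (by positivity) hΛ h1 c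
      have t4 := (hε rfl T t1).trans (mul_le_mul_of_nonneg_left
        (sum_le_sum_of_subset_of_nonneg (subset_univ T) fun k _ _ => hZ k) (by positivity))
      have : r4 ((∑ k, e k) ⬝ᵥ ∑ k, e k) ≤ 2 * δ * r4 (∑ k, Z k + ∑ k, Z k ^ (3 / 4 : ℝ)) := by
        refine (pow_le_pow_iff_left₀ e0 (by positivity) four_ne_zero).1 ?_
        rw [e4, mul_pow, p4, t2]
        nlinarith [add_dot_le (∑ k ∈ T, e k) r, mul_nonneg (pow_nonneg hδ 4) (add_nonneg z0 s0)]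
      have := pow_le_pow_left₀ e0 this 3
      rw [mul_pow] at this
      linarith
    · have : r4 ((∑ k, e k) ⬝ᵥ (∑ k, e k)) ^ 3 * μ ≤ L ^ 3 * ∑ k, Z k := by
        refine (pow_le_pow_iff_left₀ (by positivity) (by positivity) four_ne_zero).1 ?_
        have a := mul_le_mul (pow_le_pow_left₀ (by positivity) cr 3) (h2.le.trans c) (by positivity)
          (by positivity)
        nlinarith
      rw [← le_div_iff₀ hμ, ← div_mul_eq_mul_div] at this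
      linarith
  · have := pow_le_pow_left₀ e0 ((pow_le_pow_iff_left₀ e0 hN four_ne_zero).1 (cr.trans h3)) 3
    linarith

theorem r_le {r E a q k N β : ℝ} (hr : 0 ≤ r) (hE : 1 ≤ E) (ha : 0 < a) (hq : 0 ≤ q)
    (hN : 0 ≤ N) (hβ : 0 ≤ β) (h : r ^ 3 ≤ E * (a ^ 3 * q ^ 3 + k * q ^ 4 + N ^ 3 * β ^ 3)) :
    r ^ 2 ≤ 9 * E ^ 2 * (a ^ 2 * q ^ 2 + k ^ 2 / a ^ 4 * q ^ 4 + N ^ 2 * β ^ 2) := by
  have E0 : 0 < E := by linarith
  have g : ∀ z, 0 ≤ z → r ^ 3 ≤ 3 * E * z ^ 3 → r ^ 2 ≤ 9 * E ^ 2 * z ^ 2 := fun z z0 hz => by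
    have : r ≤ 3 * E * z := (pow_le_pow_iff_left₀ hr (by positivity) three_ne_zero).1 (hz.trans (by
      rw [mul_pow (3 * E)]
      exact mul_le_mul_of_nonneg_right (le_self_pow₀ (by linarith) three_ne_zero) (pow_nonneg z0 3)))
    nlinarith [pow_le_pow_left₀ hr this 2]
  have p1 : 0 ≤ E ^ 2 * (a ^ 2 * q ^ 2) := by positivity
  have p2 : 0 ≤ E ^ 2 * (k ^ 2 / a ^ 4 * q ^ 4) := by positivity
  have p3 : 0 ≤ E ^ 2 * (N ^ 2 * β ^ 2) := by positivity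
  by_cases c1 : r ^ 3 ≤ 3 * E * (a * q) ^ 3
  · nlinarith [g _ (by positivity) c1]
  by_cases c3 : r ^ 3 ≤ 3 * E * (N * β) ^ 3
  · nlinarith [g _ (by positivity) c3]
  have c2 : r ^ 3 ≤ 3 * E * (k * q ^ 4) := by nlinarith
  rcases le_total (r ^ 2) (a ^ 2 * q ^ 2) with c | c
  · nlinarith [mul_le_mul_of_nonneg_right (one_le_pow₀ hE : 1 ≤ E ^ 2)
      (show 0 ≤ a ^ 2 * q ^ 2 by positivity)]
  rcases hq.eq_or_lt with e | e
  · subst e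
    have : r ^ 3 ≤ 3 * E * 0 ^ 3 := by simpa using c2
    nlinarith [g 0 le_rfl this]
  have : r ^ 2 ≤ 9 * E ^ 2 * (k ^ 2 / a ^ 4 * q ^ 4) := by
    rw [div_mul_eq_mul_div, ← mul_div_assoc, le_div_iff₀ (by positivity)]
    refine le_of_mul_le_mul_right ?_ (pow_pos e 4)
    nlinarith [pow_le_pow_left₀ (by positivity) c2 2, mul_le_mul_of_nonneg_left
      (pow_le_pow_left₀ (by positivity) c 2) (sq_nonneg r)]
  nlinarith

/-- the propagated error paired with `d` -/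
theorem err_pair {ϖ F S b : Ω → ℝ} {R d : κ → ℝ} {E a k N l : ℝ} (hϖ : IsP ϖ) (hS : ∀ y, 0 ≤ S y)
    (hb : ∀ y, 0 ≤ b y) (hE : 1 ≤ E) (ha : 0 < a) (hN : 0 ≤ N) (hl : 0 < l)
    (hF : ∀ y, F y ≤ a ^ 3 * S y ^ (3 / 4 : ℝ) + k * S y + N ^ 3 * b y)
    (hR : (R ⬝ᵥ R) ^ (3 / 4 : ℝ) ≤ E * mean ϖ F) :
    -(d ⬝ᵥ R) ≤ l * (d ⬝ᵥ d) + ((9 * E ^ 2 * a ^ 2) ^ 2 / (4 * l) + nr d * (9 * E ^ 2 * k ^ 2 / a ^ 4)) *
      mean ϖ S + nr d * (9 * E ^ 2 * N ^ 2) * mean ϖ b ^ (2 / 3 : ℝ) := by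
  have Q0 := hϖ.mean_nonneg hS
  have B0 := hϖ.mean_nonneg hb
  have m1 : mean ϖ F ≤ a ^ 3 * mean ϖ S ^ (3 / 4 : ℝ) + k * mean ϖ S + N ^ 3 * mean ϖ b := by
    refine (hϖ.mean_mono hF).trans ?_
    have := mul_le_mul_of_nonneg_left (jensen hϖ hS (q := 3 / 4) (by norm_num) (by norm_num))
      (pow_pos ha 3).le
    simp only [mean, mul_add, sum_add_distrib, mul_left_comm (ϖ _), ← mul_sum] at this ⊢
    linarith
  have b3 : (mean ϖ b ^ (1 / 3 : ℝ)) ^ 3 = mean ϖ b := by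
    rw [← rpow_natCast, ← rpow_mul B0]; norm_num
  have b2 : (mean ϖ b ^ (1 / 3 : ℝ)) ^ 2 = mean ϖ b ^ (2 / 3 : ℝ) := by
    rw [← rpow_natCast, ← rpow_mul B0]; norm_num
  have h := r_le (r4_nn (dn R)) hE ha (r4_nn Q0) hN (rpow_nonneg B0 (1 / 3)) (by
    rw [← r4_cube (dn R), ← r4_cube Q0, r4_pow Q0, b3]
    exact hR.trans (mul_le_mul_of_nonneg_left m1 (by linarith)))
  rw [r4_sq (dn R), r4_sq Q0, r4_pow Q0, b2] at h
  have y := young2 (x := nr d) (y := 9 * E ^ 2 * a ^ 2 * √(mean ϖ S)) hl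
  rw [nr_sq, mul_pow _ (√_), sq_sqrt Q0] at y
  have z := dot_le d (-R)
  rw [dotProduct_neg, nr, nr, neg_dotProduct_neg, ← nr] at z
  have := mul_le_mul_of_nonneg_left h (nr_nn d)
  have e : ((9 * E ^ 2 * a ^ 2) ^ 2 / (4 * l) + nr d * (9 * E ^ 2 * k ^ 2 / a ^ 4)) * mean ϖ S =
    (9 * E ^ 2 * a ^ 2) ^ 2 * mean ϖ S / (4 * l) +
      nr d * (9 * E ^ 2 * (k ^ 2 / a ^ 4 * mean ϖ S)) := by ring
  rw [e]
  nlinarith

/-! ### integration -/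

theorem int_le' {f g : ℝ → ℝ} {s : ℝ} (hs : 0 ≤ s) (hg : Continuous g) (h0 : ∀ u ∈ Icc 0 s, 0 ≤ g u)
    (h : ∀ u ∈ Icc 0 s, f u ≤ g u) : ∫ u in (0 : ℝ)..s, f u ≤ ∫ u in (0 : ℝ)..s, g u := by
  by_cases c : IntervalIntegrable f volume 0 s
  · exact intervalIntegral.integral_mono_on hs c (hg.intervalIntegrable _ _) h
  · rw [intervalIntegral.integral_undef c]; exact intervalIntegral.integral_nonneg hs h0

theorem int_mean (ν h : Ω → ℝ) {f : ι → ℝ → Ω → ℝ} (hf : ∀ i x, Continuous fun u => f i u x) (s : ℝ) :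
    ∫ u in (0 : ℝ)..s, mean ν (fun x => h x * ∑ i, f i u x) =
      mean ν fun x => h x * ∑ i, ∫ u in (0 : ℝ)..s, f i u x := by
  simp only [mean]
  rw [intervalIntegral.integral_finsetSum (f := fun x u => ν x * (h x * ∑ i, f i u x)) fun x _ =>
    (continuous_const.mul (continuous_const.mul (continuous_finsetSum _ fun i _ =>
      hf i x))).intervalIntegrable _ _]
  refine sum_congr rfl fun x _ => ?_
  rw [intervalIntegral.integral_const_mul, intervalIntegral.integral_const_mul,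
    intervalIntegral.integral_finsetSum fun i _ => (hf i x).intervalIntegrable _ _]

theorem cont_mean (ν h : Ω → ℝ) {f : ι → ℝ → Ω → ℝ} (hf : ∀ i x, Continuous fun u => f i u x) :
    Continuous fun u => mean ν (fun x => h x * ∑ i, f i u x) :=
  continuous_finsetSum _ fun x _ => continuous_const.mul (continuous_const.mul
    (continuous_finsetSum _ fun i _ => hf i x))

theorem integ {ν h : Ω → ℝ} {A : ℝ → ℝ} {B : ℝ → ℝ → ℝ} {Ξ : ι → ℝ → Ω → ℝ} {Θ : ι → ℝ → ℝ → Ω → ℝ}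
    {Γ : ι → Ω → ℝ} {s c c' : ℝ} (hν : IsP ν) (h0 : ∀ x, 0 ≤ h x) (hs : 0 ≤ s) (hc : 0 ≤ c)
    (hc' : 0 ≤ c') (cΞ : ∀ i x, Continuous fun u => Ξ i u x)
    (cΘ : ∀ i x, Continuous fun p : ℝ × ℝ => Θ i p.1 p.2 x) (Ξ0 : ∀ i u x, 0 ≤ Ξ i u x)
    (Θ0 : ∀ i, ∀ u ∈ Icc 0 s, ∀ v ∈ Icc 0 (s - u), ∀ x, 0 ≤ Θ i u v x)
    (hA : ∀ u ∈ Icc 0 s, A u ≤ c + mean ν fun x => h x * ∑ i, Ξ i u x)
    (hB : ∀ u ∈ Icc 0 s, ∀ v ∈ Icc 0 (s - u), -B u v ≤ c' + mean ν fun x => h x * ∑ i, Θ i u v x)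
    (hΓ : ∀ i x, ∫ u in (0 : ℝ)..s, (Ξ i u x + ∫ v in (0 : ℝ)..s - u, Θ i u v x) ≤ Γ i x) :
    ∫ u in (0 : ℝ)..s, (A u - ∫ v in (0 : ℝ)..s - u, B u v) ≤
      s * c + s ^ 2 * c' + mean ν fun x => h x * ∑ i, Γ i x := by
  have c1 : ∀ i x, Continuous fun u => Ξ i u x + ∫ v in (0 : ℝ)..s - u, Θ i u v x := fun i x =>
    (cΞ i x).add (intervalIntegral.continuous_parametric_intervalIntegral_of_continuous
      (f := fun u v => Θ i u v x) (cΘ i x) (by fun_prop))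
  have c2 := cont_mean ν h c1
  refine (int_le' hs (g := fun u => (c + s * c') + mean ν fun x => h x *
    ∑ i, (Ξ i u x + ∫ v in (0 : ℝ)..s - u, Θ i u v x)) (continuous_const.add c2) (fun u hu => ?_)
    fun u hu => ?_).trans ?_
  · exact add_nonneg (by positivity) (hν.mean_nonneg fun x => mul_nonneg (h0 x) (sum_nonneg fun i _ =>
      add_nonneg (Ξ0 i u x) (intervalIntegral.integral_nonneg (sub_nonneg.2 hu.2)
        fun v hv => Θ0 i u hu v hv x)))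
  · have c3 : ∀ i x, Continuous fun v => Θ i u v x := fun i x =>
      (cΘ i x).comp (Continuous.prodMk_right u)
    have c4 := cont_mean ν h c3
    have a := int_le' (sub_nonneg.2 hu.2) (g := fun v => c' + mean ν fun x => h x * ∑ i, Θ i u v x)
      (continuous_const.add c4) (fun v hv => add_nonneg hc' (hν.mean_nonneg fun x =>
        mul_nonneg (h0 x) (sum_nonneg fun i _ => Θ0 i u hu v hv x))) (hB u hu)
    rw [intervalIntegral.integral_neg, intervalIntegral.integral_add intervalIntegrable_const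
      (c4.intervalIntegrable _ _), int_mean ν h c3] at a
    have b := hA u hu
    simp only [intervalIntegral.integral_const, sub_zero, smul_eq_mul, mean, mul_add,
      sum_add_distrib] at a b ⊢
    nlinarith [mul_nonneg hu.1 hc']
  · rw [intervalIntegral.integral_add intervalIntegrable_const (c2.intervalIntegrable _ _),
      int_mean ν h c1]
    have := hν.mean_mono fun x => mul_le_mul_of_nonneg_left (sum_le_sum (s := univ) fun i _ => hΓ i x)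
      (h0 x)
    simp only [intervalIntegral.integral_const, sub_zero, smul_eq_mul]
    linarith

end Crest.Agent.T157.S6b

end
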