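import Crest.Agent.T157.S6DefC_93
import Crest.Agent.T157.S6EbA_20

/-!
# Row 157, block S6 (helper20): the leaf (End B)
-/

set_option autoImplicit false

noncomputable section

namespace Crest.Agent.T157.S6a

open Matrix Real Finset
open Crest.Agent.T157.E hiding mean
open Crest.Agent.T157.Tap (V Mx)
open Crest.Agent.T157.Rec (sg_const_mul sg_mono sg_nonneg sg_sum sg_add_fun)
open Crest.Agent.T157.Chain22 (sg sg_zero sg_add IsP mean isP_hbCt ip_sg_symm mean_sg)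
open Crest.Agent.T157.Reg (VF mu)
open Crest.Agent.T157.Rv (Warm)
open Crest.Agent.T157.S6h Crest.Agent.T157.S6b

namespace Eb20

variable {n : ℕ} {W : Mx n}

theorem mu_pos (W : Mx n) (x : Cube n) : 0 < mu W x := exp_pos _

theorem loc_sub {ρ : ℝ → ℝ} {v o ε : ℝ} {x : Cube n} (h : Loc W ρ v x univ o ε) (T : Finset (Fin n)) :
    Loc W ρ v x T o ε where
  om w := by simpa [ite_mul, sum_ite_mem] using h.om fun k => if k ∈ T then w k else 0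
  rh l := (sum_le_sum_of_subset_of_nonneg (subset_univ T) fun _ _ _ => sq_nonneg _).trans (h.rh l)
  rh' j := (sum_le_sum_of_subset_of_nonneg (erase_subset_erase j (subset_univ T))
    fun _ _ _ => sq_nonneg _).trans (h.rh' j)
  th k _ := h.th k (mem_univ k)
  xs u := by simpa [sum_ite_mem] using h.xs fun k i => if k ∈ T then u k i else 0

theorem dot_eq (T : Finset (Fin n)) (e : Fin n → V n) :
    (∑ k ∈ T, e k) ⬝ᵥ (∑ k ∈ T, e k) = ∑ j, (∑ k ∈ T, e k j) ^ 2 := by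
  simp only [dotProduct, Finset.sum_apply, sq]

/-- the law with density `g` -/
def nu (W : Mx n) (g : Cube n → ℝ) (x : Cube n) : ℝ := prob (mu W) x * g x

theorem ev_eq (g F : Cube n → ℝ) : ev W g F = mean (nu W g) F := by
  simp only [ev, E.mean, mean, nu, mul_assoc]

theorem prob_nn (W : Mx n) (x : Cube n) : 0 ≤ prob (mu W) x :=
  div_nonneg (mu_pos W x).le (sum_nonneg fun y _ => (mu_pos W y).le)

theorem isP_nu {D : ℝ} {g : Cube n → ℝ} (h : Warm (mu W) D g) : IsP (nu W g) :=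
  ⟨fun x => mul_nonneg (prob_nn W x) (h.1 x).le, h.2.1⟩

theorem nu_sg (hn : 0 < n) (g F : Cube n → ℝ) (s : ℝ) :
    mean (nu W g) (sg (mu W) s F) = ev W (sg (mu W) s g) F := by
  rw [← ev_eq]; exact ip_sg_symm hn (mu_pos W) s g F

theorem mean_lin (ν f g : Cube n → ℝ) (a b : ℝ) :
    mean ν (fun x => a * f x + b * g x) = a * mean ν f + b * mean ν g := by
  simp only [mean, mul_add, sum_add_distrib, mul_left_comm (ν _), ← mul_sum]

theorem bad (hn : 0 < n) {D p r : ℝ} {g : Cube n → ℝ} (h : Warm (mu W) D g) {G : Finset (Cube n)}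
    (hG : ∑ x ∈ Gᶜ, prob (mu W) x ≤ p) (hr : 0 ≤ r) :
    mean (nu W g) (fun x => sg (mu W) r (fun y => if y ∈ G then 0 else 1) x ^ (2 / 3 : ℝ)) ≤
      (exp D * p) ^ (2 / 3 : ℝ) := by
  have b0 : ∀ x, 0 ≤ sg (mu W) r (fun y => if y ∈ G then 0 else 1) x :=
    sg_nonneg hn (mu_pos W) hr fun y => by split_ifs <;> norm_num
  refine (jensen (isP_nu h) b0 (by norm_num) (by norm_num)).trans
    (rpow_le_rpow ((isP_nu h).mean_nonneg b0) ?_ (by norm_num))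
  have e : mean (prob (mu W)) (fun y => if y ∈ G then 0 else 1) = ∑ x ∈ Gᶜ, prob (mu W) x := by
    simp only [mean, mul_ite, mul_zero, mul_one, ← mem_compl, ← ite_not (_ ∈ G), sum_ite_mem,
      univ_inter]
  refine le_trans ?_ (mul_le_mul_of_nonneg_left hG (exp_pos D).le)
  rw [← e, ← mean_sg hn (mu_pos W) r, mean, mean, mul_sum]
  refine sum_le_sum fun x _ => ?_
  rw [nu, ← mul_assoc, mul_comm (exp D)]
  exact mul_le_mul_of_nonneg_right (mul_le_mul_of_nonneg_left (h.2.2 x) (prob_nn W x)) (b0 x)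

theorem ka_sq (h : Ok W 1 1) {θ θ' K : ℝ} (hD : Dec W θ θ' K) {ω : VF n} (hω : FrV ω) {u s : ℝ}
    (hu : u ∈ Set.Icc 0 s) (x : Cube n) : ∑ k, ka W (alf W ω u) (s - u) k x ^ 2 ≤
      exp (-(θ' * u)) * sg (mu W) s (fun z => ω z ⬝ᵥ ω z) x := by
  have t := sub_nonneg.2 hu.2
  have e := sg_add h.pos (mu_pos W) (s - u) u
  simp only [sub_add_cancel] at e
  simp only [dotProduct, sg_sum, mul_sum, ← sq]
  refine sum_le_sum fun k _ => ?_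
  rw [e, ← sg_const_mul]
  refine ((isP_hbCt h.pos (mu_pos W) t x).mean_sq_le _).trans (sg_mono h.pos (mu_pos W) t
    (fun z => le_trans ?_ (hD.a2 ω hω u hu.1 z k)) x)
  have a : 0 ≤ S6.cc W z k := Da.Gr.sech_nonneg _
  have b : S6.cc W z k ≤ 1 := sub_le_self _ (sq_nonneg _)
  nlinarith [mul_le_mul_of_nonneg_right (show S6.cc W z k ^ 2 ≤ 1 by nlinarith)
    (sq_nonneg (alf W ω u z k))]

/-- the two exponents -/
def pw (b : Bool) : ℝ := if b then 1 else 3 / 4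

theorem sum_pw (f : ℝ → Fin n → ℝ) : ∑ i : Bool × Fin n, f (pw i.1) i.2 =
    ∑ k, f 1 k + ∑ k, f (3 / 4) k := by
  simp [Fintype.sum_prod_type, pw]

theorem pw_cases (b : Bool) : pw b = 1 ∨ pw b = 3 / 4 := by cases b <;> simp [pw]

theorem cnt_le (hn : 0 < n) {ω : VF n} (hω : ∀ x k, |ω x k| ≤ 4) {s : ℝ} (hs : 0 ≤ s) (x : Cube n) :
    ∑ i : Bool × Fin n, sg (mu W) s (fun z => (ω z i.2 ^ 2) ^ pw i.1) x ≤
      32 * sg (mu W) s (cnt ω) x := by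
  rw [← sg_sum, ← sg_const_mul]
  refine sg_mono hn (mu_pos W) hs (fun z => ?_) x
  rw [sum_pw fun q k => (ω z k ^ 2) ^ q, ← sum_add_distrib, cnt, mul_sum]
  refine sum_le_sum fun k _ => ?_
  split_ifs with e
  · simp [e]
  have a : ω z k ^ 2 ≤ 16 := by nlinarith [abs_le.1 (hω z k)]
  have b := (rpow_le_rpow (sq_nonneg _) a (show (0 : ℝ) ≤ 3 / 4 by norm_num)).trans
    (rpow_le_self_of_one_le (by norm_num) (by norm_num))
  rw [rpow_one]; linarith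

theorem Z1_nn (ψ : VF n) (v : ℝ) (k : Fin n) (x : Cube n) : 0 ≤ Z1 W ψ v k x :=
  add_nonneg (sq_nonneg _) (sum_nonneg fun _ _ => sq_nonneg _)

theorem Z1_le (ψ : VF n) (v : ℝ) (k : Fin n) (x : Cube n) : Z1 W ψ v k x ≤ S6a.Z2 W ψ v k x := by
  have a : ∀ F, 0 ≤ aa W F x := fun F => sum_nonneg fun _ _ => sq_nonneg _
  have b : 0 ≤ ∑ j, aa W (zz W ψ v k j) x := sum_nonneg fun _ _ => a _
  rw [S6a.Z2]; linarith [a (ka W ψ v k)]

/-! ### numbers -/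

/-- weights -/
def g1 (E c s ε l : ℝ) : ℝ := 648 * E ^ 4 * c ^ 2 * (s + 1) ^ 2 * ε ^ 2 / l
/-- weights -/
def g2 (E c Λ ε m : ℝ) : ℝ := 9 * E ^ 2 * c * Λ ^ 7 / (ε ^ 6 * √m)

section num
variable {E c s ε l l' Λ m Cq Cp C : ℝ}

theorem n1 (E1 : 1 ≤ E) (c1 : 1 ≤ c) (s0 : 0 ≤ s) (l0 : 0 < l) :
    2 * ε ^ 2 / (l / (2 * (s + 1))) ≤ g1 E c s ε l := by
  rw [div_div_eq_mul_div, g1]
  refine div_le_div_of_nonneg_right ?_ l0.le
  have : 1 ≤ E ^ 4 * c ^ 2 * (s + 1) := one_le_mul_of_one_le_of_one_le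
    (one_le_mul_of_one_le_of_one_le (one_le_pow₀ E1) (one_le_pow₀ c1)) (by linarith)
  have p : 0 ≤ (s + 1) * ε ^ 2 := by positivity
  linarith [mul_le_mul_of_nonneg_right this p]

theorem n2 (E1 : 1 ≤ E) (c1 : 1 ≤ c) (ε0 : 0 < ε) (ε1 : ε ≤ 1) (Λ1 : 1 ≤ Λ) (m0 : 0 < m) :
    2 * Λ / ((ε / Λ) ^ 4 * √m) ≤ g2 E c Λ ε m := by
  have sm := sqrt_pos.2 m0
  rw [g2, show 2 * Λ / ((ε / Λ) ^ 4 * √m) = 2 * ε ^ 2 * Λ ^ 5 / (ε ^ 6 * √m) by field_simp]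
  refine div_le_div_of_nonneg_right ?_ (by positivity)
  have a : 1 ≤ E ^ 2 * c * Λ ^ 2 := one_le_mul_of_one_le_of_one_le
    (one_le_mul_of_one_le_of_one_le (one_le_pow₀ E1) c1) (one_le_pow₀ Λ1)
  have p : 0 ≤ Λ ^ 5 := by positivity
  linarith [mul_le_mul_of_nonneg_right a p, mul_le_mul_of_nonneg_right (pow_le_one₀ (n := 2) ε0.le ε1) p]

theorem n3 {Ko a θ u : ℝ} (a0 : 0 ≤ a) (ha : 2 * a ≤ θ) (u0 : 0 ≤ u) (s0 : 0 ≤ s) (l0 : 0 < l) :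
    (Ko * exp (-(a * (s - u))) + ε) ^ 2 / (l / (s + 1)) * exp (-(θ * u)) ≤
      2 * (s + 1) * (Ko ^ 2 * exp (-(2 * a * s)) + ε ^ 2) / l := by
  rw [div_div_eq_mul_div, div_mul_eq_mul_div]
  refine div_le_div_of_nonneg_right ?_ l0.le
  have e1 : exp (-(θ * u)) ≤ exp (-(2 * a * u)) := exp_le_exp.2 (by nlinarith)
  have e2 : exp (-(2 * a * u)) ≤ 1 := exp_le_one_iff.2 (by nlinarith)
  have e3 : exp (-(a * (s - u))) ^ 2 * exp (-(2 * a * u)) = exp (-(2 * a * s)) := by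
    rw [← exp_nat_mul, ← exp_add]; congr 1; push_cast; ring
  have e4 : (Ko * exp (-(a * (s - u))) + ε) ^ 2 ≤ 2 * (Ko ^ 2 * exp (-(a * (s - u))) ^ 2 + ε ^ 2) := by
    nlinarith [sq_nonneg (Ko * exp (-(a * (s - u))) - ε)]
  have e5 := mul_le_mul e4 e1 (exp_pos _).le (by positivity)
  have e6 : (Ko * exp (-(a * (s - u))) + ε) ^ 2 * exp (-(θ * u)) ≤
      2 * (Ko ^ 2 * exp (-(2 * a * s)) + ε ^ 2) := by
    rw [← e3]; linarith [mul_le_mul_of_nonneg_left e2 (sq_nonneg ε)]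
  linarith [mul_le_mul_of_nonneg_left e6 (show 0 ≤ s + 1 by positivity)]

theorem n4 {δ : ℝ} (hδ : δ ^ 2 = c * ε) (s0 : 0 ≤ s) (l0 : 0 < l) :
    (9 * E ^ 2 * (2 * δ) ^ 2) ^ 2 / (4 * (l / (2 * (s + 1) ^ 2))) = g1 E c s ε l := by
  rw [g1, mul_pow 2 δ, hδ]; field_simp; ring

theorem n5 {δ L μ : ℝ} (c1 : 1 ≤ c) (ε0 : 0 < ε) (Λ1 : 1 ≤ Λ) (m0 : 0 < m) (hδ : δ ^ 2 = c * ε)
    (hL : L ^ 2 = c * Λ) (hμ : μ ^ 2 = (ε / Λ) ^ 4 * √m) :
    9 * E ^ 2 * (L ^ 3 / μ) ^ 2 / (2 * δ) ^ 4 ≤ g2 E c Λ ε m := by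
  have sm := sqrt_pos.2 m0
  rw [div_pow, hμ, show (2 * δ) ^ 4 = 16 * (δ ^ 2) ^ 2 by ring, hδ,
    show (L ^ 3) ^ 2 = (L ^ 2) ^ 3 by ring, hL, g2]
  have : 9 * E ^ 2 * ((c * Λ) ^ 3 / ((ε / Λ) ^ 4 * √m)) / (16 * (c * ε) ^ 2) =
    9 * E ^ 2 * c * Λ ^ 7 / (ε ^ 6 * √m) / 16 := by field_simp
  rw [this]
  exact div_le_self (by positivity) (by norm_num)

theorem fin {DD Ω P M1 M2 Kt N : ℝ} (c1 : 1 ≤ c) (q1 : 1 ≤ Cq) (p1 : 1 ≤ Cp) (s0 : 0 ≤ s)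
    (hE : E = exp (Cp * s)) (hC : C = 21000 * (c ^ 2 * Cq) + 4 * Cp + Cq + 2) (l0 : 0 < l)
    (l0' : 0 < l') (ε0 : 0 < ε) (Λ1 : 1 ≤ Λ) (m0 : 0 < m) (D0 : 0 ≤ DD) (Ω0 : 0 ≤ Ω) (P0 : 0 ≤ P)
    (m1 : 0 ≤ M1) (m2 : 0 ≤ M2) (K0 : 0 ≤ Kt) :
    s * ((l / (s + 1) + l' / (2 * (s + 1))) * DD + 2 * (s + 1) * Kt / l * Ω + 16 * Cq * Λ * N ^ 2 * P) +
      s ^ 2 * (l' / (2 * (s + 1) ^ 2) * DD + 72 * E ^ 2 * c * Cq * Λ * N ^ 2 * P) +
      (32 * (Cq * exp (Cq * s)) * g1 E c s ε l' * M1 + 32 * (Cq * exp (Cq * s)) * g2 E c Λ ε m * M2) ≤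
    (l + l') * DD + C * (s + 1) ^ 2 * Kt / l * Ω + C * exp (C * s) * ε ^ 2 / l' * M1 +
      C * Λ ^ 7 * exp (C * s) / (ε ^ 6 * √m) * M2 + C * Λ * exp (C * s) * (N ^ 2 * P) := by
  have sm := sqrt_pos.2 m0
  have cq : 1 ≤ c ^ 2 * Cq := one_le_mul_of_one_le_of_one_le (one_le_pow₀ c1) q1
  have E1 : 1 ≤ E := hE ▸ one_le_exp (by positivity)
  have X : exp (Cq * s) * E ^ 4 * (s + 1) ^ 2 ≤ exp (C * s) := by
    have : (s + 1) ^ 2 ≤ exp s ^ 2 := pow_le_pow_left₀ (by positivity) (add_one_le_exp s) 2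
    refine (mul_le_mul_of_nonneg_left this (by positivity)).trans ?_
    rw [hE, ← exp_nat_mul, ← exp_nat_mul, ← exp_add, ← exp_add, exp_le_exp, hC]
    push_cast; linarith [mul_nonneg (zero_le_one.trans cq) s0]
  have Q1 : 1 ≤ exp (Cq * s) := one_le_exp (by positivity)
  have E2 : 1 ≤ E ^ 2 := one_le_pow₀ E1
  have S2 : 1 ≤ (s + 1) ^ 2 := one_le_pow₀ (by linarith)
  have Cc : 21000 * (c ^ 2 * Cq) ≤ C := by linarith
  have cc : c * Cq ≤ c ^ 2 * Cq := mul_le_mul_of_nonneg_right (by nlinarith) (by linarith)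
  have X1 : exp (Cq * s) * E ^ 2 ≤ exp (C * s) := le_trans (by
    linarith [mul_le_mul_of_nonneg_left (one_le_mul_of_one_le_of_one_le E2 S2)
      (show 0 ≤ exp (Cq * s) * E ^ 2 by positivity)]) X
  have X2 : E ^ 2 * (s + 1) ^ 2 ≤ exp (C * s) := le_trans (by
    linarith [mul_le_mul_of_nonneg_left (one_le_mul_of_one_le_of_one_le Q1 E2)
      (show 0 ≤ E ^ 2 * (s + 1) ^ 2 by positivity)]) X
  have t1 : s * (l / (s + 1) + l' / (2 * (s + 1))) + s ^ 2 * (l' / (2 * (s + 1) ^ 2)) ≤ l + l' := by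
    have u1 : s * (l / (s + 1)) ≤ l := by
      rw [← mul_div_assoc, div_le_iff₀ (by positivity)]; linarith
    have u2 : s * (l' / (2 * (s + 1))) ≤ l' / 2 := by
      rw [← mul_div_assoc, div_le_iff₀ (by positivity)]; linarith
    have u3 : s ^ 2 * (l' / (2 * (s + 1) ^ 2)) ≤ l' / 2 := by
      rw [← mul_div_assoc, div_le_iff₀ (by positivity)]; linarith [mul_nonneg s0 l0'.le]
    linarith
  have t2 : s * (2 * (s + 1)) ≤ C * (s + 1) ^ 2 := by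
    linarith [mul_le_mul_of_nonneg_right (show 2 ≤ C by linarith) (sq_nonneg (s + 1))]
  have t3 : 32 * (Cq * exp (Cq * s)) * g1 E c s ε l' ≤ C * exp (C * s) * ε ^ 2 / l' := by
    rw [g1, ← mul_div_assoc]
    refine div_le_div_of_nonneg_right ?_ l0'.le
    have := mul_le_mul (show 20736 * (c ^ 2 * Cq) ≤ C by linarith) X (by positivity) (by linarith)
    linarith [mul_le_mul_of_nonneg_right this (sq_nonneg ε)]
  have t4 : 32 * (Cq * exp (Cq * s)) * g2 E c Λ ε m ≤ C * Λ ^ 7 * exp (C * s) / (ε ^ 6 * √m) := by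
    rw [g2, ← mul_div_assoc]
    refine div_le_div_of_nonneg_right ?_ (by positivity)
    have := mul_le_mul (show 288 * (c * Cq) ≤ C by linarith) X1 (by positivity) (by linarith)
    linarith [mul_le_mul_of_nonneg_right this (show 0 ≤ Λ ^ 7 by positivity)]
  have t5 : s * (16 * Cq) + s ^ 2 * (72 * E ^ 2 * c * Cq) ≤ C * exp (C * s) := by
    have v1 : Cq ≤ c * Cq := le_mul_of_one_le_left (by linarith) c1
    have v2 : s ≤ E ^ 2 * (s + 1) ^ 2 := by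
      linarith [mul_le_mul_of_nonneg_right E2 (sq_nonneg (s + 1)), sq_nonneg s]
    have v3 : E ^ 2 * s ^ 2 ≤ E ^ 2 * (s + 1) ^ 2 :=
      mul_le_mul_of_nonneg_left (by linarith) (sq_nonneg E)
    have := mul_le_mul (show 88 * (c * Cq) ≤ C by linarith) X2 (by positivity) (by linarith)
    linarith [mul_le_mul v1 v2 s0 (by positivity), mul_le_mul_of_nonneg_left v3
      (show 0 ≤ c * Cq by positivity)]
  have r2 := mul_le_mul_of_nonneg_right t2 (show 0 ≤ Kt / l * Ω by positivity)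
  rw [mul_div_assoc (2 * (s + 1)), mul_div_assoc (C * (s + 1) ^ 2)]
  linarith [mul_le_mul_of_nonneg_right t1 D0, mul_le_mul_of_nonneg_right t3 m1,
    mul_le_mul_of_nonneg_right t4 m2,
    mul_le_mul_of_nonneg_right t5 (show 0 ≤ Λ * (N ^ 2 * P) by positivity)]

end num

theorem Z2_nn (ψ : VF n) (v : ℝ) (k : Fin n) (x : Cube n) : 0 ≤ S6a.Z2 W ψ v k x :=
  (Z1_nn ψ v k x).trans (Z1_le ψ v k x)

/-- indicator of the bad set -/
def bd (G : Finset (Cube n)) (y : Cube n) : ℝ := if y ∈ G then 0 else 1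

theorem bd01 (G : Finset (Cube n)) (y : Cube n) : bd G y = 0 ∨ bd G y = 1 := by
  by_cases e : y ∈ G <;> simp [bd, e]

theorem bd0 {G : Finset (Cube n)} {y : Cube n} (e : bd G y = 0) : y ∈ G := by
  by_contra e'; simp [bd, e'] at e

theorem bd_nn (G : Finset (Cube n)) (y : Cube n) : 0 ≤ bd G y := by
  rcases bd01 G y with e | e <;> simp [e]

variable {ρ : ℝ → ℝ} {ψ : VF n} {v c Cq E Λ ε o m s l l' : ℝ} {G : Finset (Cube n)} {d : V n}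

/-- (ErrBd) at one time -/
def EB (W : Mx n) (ρ : ℝ → ℝ) (ψ : VF n) (v c : ℝ) : Prop :=
  ∀ (x : Cube n) (T : Finset (Fin n)) (o ε : ℝ), Loc W ρ v x T o ε →
  ∑ j, (∑ k ∈ T, er W ρ ψ v k x j) ^ 2 ≤ c * ε ^ 2 * ∑ k ∈ T, S6a.Z2 W ψ v k x ∧
  ∑ j, (∑ k ∈ T, yW W ρ ψ v k x j) ^ 2 ≤
    2 * o ^ 2 * ∑ k ∈ T, ka W ψ v k x ^ 2 + 2 * ε ^ 2 * ∑ k ∈ T, Z1 W ψ v k x

theorem bulk {x : Cube n} (hE : EB W ρ ψ v c) (hΛ : Loc W ρ v x univ Λ Λ)
    (hG : x ∈ G → ∀ T : Finset (Fin n), (T.card : ℝ) ≤ m → Loc W ρ v x T o ε)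
    (hz : ∑ k, S6a.Z2 W ψ v k x ≤ n * (Cq * n ^ 2 * 4 ^ 2)) (hd : d ⬝ᵥ d ≤ n * 4) (E1 : 1 ≤ E)
    (c1 : 1 ≤ c) (q1 : 1 ≤ Cq) (s0 : 0 ≤ s) (l0 : 0 < l) (l0' : 0 < l') (ε0 : 0 < ε) (ε1 : ε ≤ 1)
    (Λ1 : 1 ≤ Λ) (m0 : 0 < m) : d ⬝ᵥ Phi W ρ ψ v x ≤ (l / (s + 1) + l' / (2 * (s + 1))) * (d ⬝ᵥ d) +
      o ^ 2 / (l / (s + 1)) * ∑ k, ka W ψ v k x ^ 2 + 16 * Cq * Λ * n ^ 2 * bd G x ^ (2 / 3 : ℝ) +
      (g1 E c s ε l' + nr d * g2 E c Λ ε m) * ∑ i : Bool × Fin n, Z1 W ψ v i.2 x ^ pw i.1 := by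
  have e : Phi W ρ ψ v x = ∑ k, yW W ρ ψ v k x := by funext j; simp only [Phi, Finset.sum_apply]
  have z1 := (sum_le_sum fun k _ => Z1_le ψ v k x).trans hz
  have k := phi_pt (e := fun k => yW W ρ ψ v k x) (d := d) (o := o) (ε := ε) (θ := (ε / Λ) ^ 4)
    (ka := fun k => ka W ψ v k x) (N := 16 * Cq * Λ * n ^ 2) (l := l / (s + 1))
    (l' := l' / (2 * (s + 1))) (fun k => Z1_nn ψ v k x) (by positivity) m0
    (by linarith : 0 ≤ Λ) (by positivity) (by positivity) (bd01 G x) (fun T => by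
      rw [dot_eq]
      refine (hE x T Λ Λ (loc_sub hΛ T)).2.trans ?_
      have : ∑ k ∈ T, ka W ψ v k x ^ 2 ≤ ∑ k ∈ T, Z1 W ψ v k x :=
        sum_le_sum fun k _ => le_add_of_nonneg_right (sum_nonneg fun _ _ => sq_nonneg _)
      linarith [mul_le_mul_of_nonneg_left this (sq_nonneg Λ)]) (fun hb T hT => by
      rw [dot_eq]; exact (hE x T _ _ (hG (bd0 hb) T hT)).2) (le_of_eq (by field_simp)) (by
      refine (mul_le_mul hd (mul_le_mul_of_nonneg_left z1 (by positivity))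
        (mul_nonneg (by positivity) (sum_nonneg fun k _ => Z1_nn _ _ _ _)) (by positivity)).trans ?_
      linarith [mul_le_mul_of_nonneg_right q1 (show 0 ≤ Cq * Λ ^ 2 * n ^ 4 by positivity)])
    (by positivity)
  have s1 : 0 ≤ ∑ k, Z1 W ψ v k x + ∑ k, Z1 W ψ v k x ^ (3 / 4 : ℝ) := add_nonneg
    (sum_nonneg fun k _ => Z1_nn _ _ _ _) (sum_nonneg fun k _ => rpow_nonneg (Z1_nn _ _ _ _) _)
  have k1 := mul_le_mul_of_nonneg_right (add_le_add (n1 (ε := ε) E1 c1 s0 l0')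
    (mul_le_mul_of_nonneg_left (n2 E1 c1 ε0 ε1 Λ1 m0) (nr_nn d))) s1
  have k4 : bd G x ^ (2 / 3 : ℝ) = bd G x := by rcases bd01 G x with e | e <;> simp [e]
  rw [e, sum_pw fun q k => Z1 W ψ v k x ^ q, k4]
  simp only [rpow_one]
  linarith

theorem error {x : Cube n} {U : V n} {r : ℝ} (hn : 0 < n) (hE : EB W ρ ψ v c)
    (hΛ : ∀ y, Loc W ρ v y univ Λ Λ)
    (hG : ∀ y ∈ G, ∀ T : Finset (Fin n), (T.card : ℝ) ≤ m → Loc W ρ v y T o ε)
    (hz : ∀ y, ∑ k, S6a.Z2 W ψ v k y ≤ n * (Cq * n ^ 2 * 4 ^ 2)) (hd : d ⬝ᵥ d ≤ n * 4) (r0 : 0 ≤ r)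
    (hU : (U ⬝ᵥ U) ^ (3 / 4 : ℝ) ≤
      E * sg (mu W) r (fun z => (Err W ρ ψ v z ⬝ᵥ Err W ρ ψ v z) ^ (3 / 4 : ℝ)) x) (E1 : 1 ≤ E)
    (c1 : 1 ≤ c) (q1 : 1 ≤ Cq) (s0 : 0 ≤ s) (l0' : 0 < l') (ε0 : 0 < ε) (Λ1 : 1 ≤ Λ) (m0 : 0 < m) :
    -(d ⬝ᵥ U) ≤ l' / (2 * (s + 1) ^ 2) * (d ⬝ᵥ d) +
      72 * E ^ 2 * c * Cq * Λ * n ^ 2 * sg (mu W) r (bd G) x ^ (2 / 3 : ℝ) +
      (g1 E c s ε l' + nr d * g2 E c Λ ε m) *
        ∑ i : Bool × Fin n, sg (mu W) r (fun z => S6a.Z2 W ψ v i.2 z ^ pw i.1) x := by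
  have hw := mu_pos W
  obtain ⟨L, L0, hL⟩ : ∃ L, 0 < L ∧ L ^ 2 = c * Λ := ⟨√(c * Λ), by positivity, sq_sqrt (by positivity)⟩
  obtain ⟨δ, δ0, hδ⟩ : ∃ δ, 0 < δ ∧ δ ^ 2 = c * ε := ⟨√(c * ε), by positivity, sq_sqrt (by positivity)⟩
  have L4 : L ^ 4 = (c * Λ) ^ 2 := by rw [← hL]; ring
  have δ4 : δ ^ 4 = (c * ε) ^ 2 := by rw [← hδ]; ring
  obtain ⟨μ, μ0, μ4, μ2⟩ : ∃ μ, 0 < μ ∧ μ ^ 4 = ((ε / Λ) ^ 4) ^ 2 * m ∧ μ ^ 2 = (ε / Λ) ^ 4 * √m :=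
    ⟨r4 _, r4_pos (by positivity), r4_pow (by positivity), by
      rw [r4_sq (by positivity), sqrt_mul (sq_nonneg _), sqrt_sq (by positivity)]⟩
  obtain ⟨N, N0, N4⟩ : ∃ N, 0 ≤ N ∧ N ^ 4 = (c * Λ) ^ 2 * (n * (Cq * n ^ 2 * 4 ^ 2)) :=
    ⟨r4 _, r4_nn (by positivity), r4_pow (by positivity)⟩
  have g3 : nr d * N ^ 2 ≤ 8 * c * Cq * Λ * n ^ 2 := (abs_le_of_sq_le_sq' (by
    rw [mul_pow, nr_sq, ← pow_mul, N4]
    refine (mul_le_mul_of_nonneg_right hd (by positivity)).trans ?_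
    linarith [mul_le_mul_of_nonneg_right q1 (show 0 ≤ c ^ 2 * Cq * Λ ^ 2 * n ^ 4 by positivity)])
    (by positivity)).2
  have s1 : ∀ y, 0 ≤ ∑ k, S6a.Z2 W ψ v k y + ∑ k, S6a.Z2 W ψ v k y ^ (3 / 4 : ℝ) := fun y => add_nonneg
    (sum_nonneg fun k _ => Z2_nn _ _ _ _) (sum_nonneg fun k _ => rpow_nonneg (Z2_nn _ _ _ _) _)
  have k := err_pair (isP_hbCt hn hw r0 x) (d := d) (a := 2 * δ) (k := L ^ 3 / μ) (N := N)
    (l := l' / (2 * (s + 1) ^ 2)) s1 (bd_nn G) E1 (by positivity) N0 (by positivity) (fun y => by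
      have e : Err W ρ ψ v y = ∑ k, er W ρ ψ v k y := by funext j; simp only [Err, Finset.sum_apply]
      have c2 : c ≤ c ^ 2 := by nlinarith
      rw [e]
      refine err_pt (m := m) (θ := (ε / Λ) ^ 4) (fun k => Z2_nn _ _ k y) (by positivity) L0.le δ0.le
        μ0 N0 (bd01 G y) (fun T => ?_) (fun hb T hT => ?_) ?_ μ4 ?_
      · rw [dot_eq, L4, mul_pow]
        exact (hE y T Λ Λ (loc_sub (hΛ y) T)).1.trans (mul_le_mul_of_nonneg_right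
          (mul_le_mul_of_nonneg_right c2 (sq_nonneg _)) (sum_nonneg fun k _ => Z2_nn _ _ k y))
      · rw [dot_eq, δ4, mul_pow]
        exact (hE y T _ _ (hG y (bd0 hb) T hT)).1.trans (mul_le_mul_of_nonneg_right
          (mul_le_mul_of_nonneg_right c2 (sq_nonneg _)) (sum_nonneg fun k _ => Z2_nn _ _ k y))
      · rw [L4, δ4]; exact le_of_eq (by field_simp)
      · rw [L4, N4]; exact mul_le_mul_of_nonneg_left (hz y) (sq_nonneg _)) hU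
  have e1 : ∑ i : Bool × Fin n, sg (mu W) r (fun z => S6a.Z2 W ψ v i.2 z ^ pw i.1) x =
      mean (hbCt (mu W) r x) fun y => ∑ k, S6a.Z2 W ψ v k y + ∑ k, S6a.Z2 W ψ v k y ^ (3 / 4 : ℝ) := by
    rw [← sg_sum]
    refine sum_congr rfl fun y _ => ?_
    beta_reduce
    rw [sum_pw fun q k => S6a.Z2 W ψ v k y ^ q]
    simp only [rpow_one]
  have k1 := mul_le_mul_of_nonneg_right (mul_le_mul_of_nonneg_left (n5 (E := E) c1 ε0 Λ1 m0 hδ hL μ2)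
    (nr_nn d)) ((isP_hbCt hn hw r0 x).mean_nonneg s1)
  have k2 := mul_le_mul_of_nonneg_right g3 (show 0 ≤ 9 * E ^ 2 * sg (mu W) r (bd G) x ^ (2 / 3 : ℝ) from
    mul_nonneg (by positivity) (rpow_nonneg (sg_nonneg hn hw r0 (bd_nn G) x) _))
  have e2 : mean (hbCt (mu W) r x) (bd G) = sg (mu W) r (bd G) x := rfl
  rw [n4 hδ s0 l0', e2] at k
  rw [e1]
  linarith

theorem mean3 (ν f1 f2 f3 : Cube n → ℝ) (a b : ℝ) :
    mean ν (fun x => a * f1 x + b * f2 x + f3 x) = a * mean ν f1 + b * mean ν f2 + mean ν f3 := by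
  simp only [mean, mul_add, sum_add_distrib, mul_left_comm (ν _), ← mul_sum]

end Eb20

open Eb20

theorem ebGlue : EbGlue := by
  rintro hR ⟨Cp, p1, hP⟩ ⟨Cq, q1, hQ⟩ hD hC ⟨c, c1, hE⟩
  refine ⟨21000 * (c ^ 2 * Cq) + 4 * Cp + Cq + 2, by
    linarith [one_le_mul_of_one_le_of_one_le (one_le_pow₀ (n := 2) c1) q1], ?_⟩
  intro n W h ρ θ θ' K t m a Ko ε Λ p σ B D g ω hDec hF hg hω h4 m0 a0 ha K0 ε0 ε1 Λ1 p0 s hs l l0 l' l0'
  obtain ⟨-, d2, -, dP, -⟩ := hR n W h g hg.1 hg.2.1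
  obtain ⟨G, hG, hgood⟩ := hF.good
  obtain ⟨eq1, eq2⟩ := hQ n W h ω hω
  have fa := (hD n W h ρ hF.cont ω hω).1
  have fP := fun u => (hD n W h ρ hF.cont _ (fa u)).2.1
  have ct := hC n W h ρ hF.cont ω
  have hν := isP_nu hg
  have hw := mu_pos W
  have hn := h.pos
  have s0 := hs.1
  have E1 : 1 ≤ exp (Cp * s) := one_le_exp (by positivity)
  have P0 : 0 ≤ (exp D * p) ^ (2 / 3 : ℝ) := rpow_nonneg (by positivity) _
  have D0 := hν.mean_nonneg fun x => dn (dd W g x)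
  have Ω0 := hν.mean_nonneg (sg_nonneg hn hw s0 fun z => dn (ω z))
  rw [nu_sg hn] at Ω0
  have dd4 : ∀ x, dd W g x ⬝ᵥ dd W g x ≤ n * 4 := fun x =>
    (sum_le_sum (g := fun _ => (4 : ℝ)) fun k _ => by
      have := abs_le.1 (d2 x k)
      nlinarith only [this]).trans (by simp)
  have zz : ∀ u ≥ (0 : ℝ), ∀ v ≥ (0 : ℝ), ∀ x, ∑ k, S6a.Z2 W (alf W ω u) v k x ≤
      n * (Cq * n ^ 2 * 4 ^ 2) := fun u hu v hv x =>
    (sum_le_sum (g := fun _ => Cq * n ^ 2 * 4 ^ 2) fun k _ => eq2 4 h4 u hu v hv x k).trans (by simp)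
  have hh : ∀ x, 0 ≤ g1 (exp (Cp * s)) c s ε l' + nr (dd W g x) * g2 (exp (Cp * s)) c Λ ε m :=
    fun x => by have := nr_nn (dd W g x); unfold g1 g2; positivity
  have pp : ∀ b, 0 ≤ pw b := fun b => by rcases pw_cases b with e | e <;> rw [e] <;> norm_num
  have cn : ∀ x, 0 ≤ sg (mu W) s (cnt ω) x := sg_nonneg hn hw s0 fun z =>
    sum_nonneg fun k _ => by split_ifs <;> norm_num
  have m1 := hν.mean_nonneg cn
  have m2 := hν.mean_nonneg fun x => mul_nonneg (sqrt_nonneg (dd W g x ⬝ᵥ dd W g x)) (cn x)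
  rw [ev_eq g fun x => dd W g x ⬝ᵥ dd W g x, ev_eq g, ← nu_sg hn g (cnt ω)]
  refine le_trans ?_ (fin c1 q1 p1 s0 rfl rfl l0 l0' ε0 Λ1 m0 D0 Ω0 P0 m1 m2 (by positivity))
  refine (integ (Ξ := fun (i : Bool × Fin n) u x => Z1 W (alf W ω u) (s - u) i.2 x ^ pw i.1)
    (Θ := fun (i : Bool × Fin n) u v x =>
      sg (mu W) (s - u - v) (fun z => S6a.Z2 W (alf W ω u) v i.2 z ^ pw i.1) x) hν hh s0
    (by positivity) (by positivity)
    (fun i x => ((ct x i.2).2.2.1.comp (continuous_id.prodMk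
      (continuous_const.sub continuous_id))).rpow_const fun _ => Or.inr (pp _))
    (fun i x => cont_sg_fam hn hw (t := fun p : ℝ × ℝ => s - p.1 - p.2) (by fun_prop)
      (fun z => (ct z i.2).2.2.2.1.rpow_const fun _ => Or.inr (pp _)) x)
    (fun i u x => rpow_nonneg (Z1_nn _ _ _ _) _)
    (fun i u _ v hv x => sg_nonneg hn hw (sub_nonneg.2 hv.2) (fun z => rpow_nonneg (Z2_nn _ _ _ _) _) x)
    (fun u hu => ?_) (fun u hu v hv => ?_) fun i x => eq1 _ (pw_cases i.1) s s0 x i.2).trans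
    (add_le_add le_rfl ?_)
  · have v0 : s - u ∈ Set.Icc 0 t := ⟨sub_nonneg.2 hu.2, (sub_le_self _ hu.1).trans hs.2⟩
    have b1 := bad hn hg hG le_rfl
    simp only [sg_zero hn hw] at b1
    rw [dP _ (fP u _).1, ev_eq]
    refine (hν.mean_mono fun x => (bulk (G := G) (hE n W h ρ _ (fa u) _) (hF.glob _ v0 x)
      (fun hx => hgood x hx _ v0) (zz u hu.1 _ v0.1 x) (dd4 x) E1 c1 q1 s0 l0 l0' ε0 ε1 Λ1 m0).trans
      (add_le_add (add_le_add (add_le_add le_rfl ((mul_le_mul_of_nonneg_left (ka_sq h hDec hω hu x)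
        (by positivity)).trans ((mul_assoc _ _ _).ge.trans (mul_le_mul_of_nonneg_right
          (n3 a0 ha hu.1 s0 l0) (sg_nonneg hn hw s0 (fun z => dn (ω z)) x))))) le_rfl) le_rfl)).trans ?_
    simp only [add_assoc]
    rw [show ∀ (a b : ℝ) (f1 f2 f3 f4 : Cube n → ℝ), (fun x => a * f1 x + (b * f2 x + (f3 x + f4 x))) =
      fun x => a * f1 x + b * f2 x + (f3 + f4) x from fun _ _ _ _ _ _ => by
        funext x; simp only [Pi.add_apply, add_assoc], mean3, Chain22.mean_add, nu_sg hn, add_assoc]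
    refine add_le_add le_rfl (add_le_add le_rfl (add_le_add ?_ le_rfl))
    exact (Chain22.mean_smul _ _ _).trans_le (mul_le_mul_of_nonneg_left b1 (by positivity))
  · have r0 := sub_nonneg.2 hv.2
    have v0 : v ∈ Set.Icc 0 t := ⟨hv.1, hv.2.trans ((sub_le_self _ hu.1).trans hs.2)⟩
    obtain ⟨U, fU, eU, hU⟩ := hP n W h _ (fP u v).2.2 _ r0
    rw [eU, dP _ fU, ev_eq, ← neg_one_mul, ← Chain22.mean_smul]
    refine (hν.mean_mono fun x => (neg_one_mul _).trans_le (error (G := G) hn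
      (hE n W h ρ _ (fa u) _) (hF.glob _ v0) (fun y hy => hgood y hy _ v0) (zz u hu.1 _ hv.1) (dd4 x) r0
      ((hU x).trans (mul_le_mul_of_nonneg_right (exp_le_exp.2 (mul_le_mul_of_nonneg_left
        ((sub_le_self _ hv.1).trans (sub_le_self _ hu.1)) (zero_le_one.trans p1)))
        (sg_nonneg hn hw r0 (fun z => rpow_nonneg (dn _) _) x))) E1 c1 q1 s0 l0' ε0 Λ1 m0)).trans ?_
    rw [mean3]
    exact add_le_add (add_le_add le_rfl (mul_le_mul_of_nonneg_left (bad hn hg hG r0)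
      (by positivity))) le_rfl
  · rw [← mean_lin]
    refine hν.mean_mono fun x => ?_
    rw [← mul_sum]
    refine (mul_le_mul_of_nonneg_left (mul_le_mul_of_nonneg_left (cnt_le hn h4 s0 x)
      (by positivity)) (hh x)).trans_eq ?_
    rw [nr]; ring

end Crest.Agent.T157.S6a

end
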