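import Crest.Agent.T157.RegDef_94
import Crest.Agent.T157.ChainMix_22
import Crest.Agent.T157.NrmG_84

/-!
# Row 157, part B (helper66): `Reg.NiceStmt`
-/

set_option autoImplicit false

noncomputable section

namespace Crest.Agent.T157.Reg

open Matrix Real Filter Topology MeasureTheory ProbabilityTheory
open Crest.ProbabilityR.SpinGlassDynamics
open Crest.Agent.T157.E hiding mean gv
open Crest.Agent.T157.Eig Crest.Agent.T157.Conc
open Crest.Agent.T157.Tap (V Mx)
open scoped ENNReal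

variable {n : ℕ}

theorem Nice.mono {W : Mx n} {K K' : ℝ} (h : Nice W K) (hK : K ≤ K') : Nice W K' :=
  ⟨h.1, h.2.1.trans hK, fun i => (h.2.2 i).trans (div_le_div_of_nonneg_right
    (pow_le_pow_left₀ ((opn_nonneg W).trans h.2.1) hK 4) (Nat.cast_nonneg n))⟩

theorem Nice.smul {W : Mx n} {K β : ℝ} (h : Nice W K) (h0 : 0 ≤ β) (h1 : β ≤ 1) :
    Nice (β • W) K := by
  refine ⟨by rw [transpose_smul, h.1], ?_, fun i => le_trans ?_ (h.2.2 i)⟩
  · rw [opn_smul, abs_of_nonneg h0]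
    exact (mul_le_of_le_one_left (opn_nonneg W) h1).trans h.2.1
  · refine Finset.sum_le_sum fun k _ => ?_
    rw [Matrix.smul_apply, smul_eq_mul, mul_pow]
    exact mul_le_of_le_one_left (by positivity) (pow_le_one₀ h0 h1)

theorem mu_Jmat (β : ℝ) (g : Pair n → ℝ) : mu (β • Jmat n g) = gibbsWeight n β g :=
  (gibbsWeight_eq_ising β g).symm

namespace Nice66

instance : Fact ((1 : ℝ≥0∞) ≤ 4) := ⟨by norm_num⟩

/-- the `ℓ⁴` norm -/
def l4 (v : Fin n → ℝ) : ℝ := ‖(WithLp.toLp 4 v : PiLp 4 fun _ : Fin n => ℝ)‖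

lemma l4_nonneg (v : Fin n → ℝ) : 0 ≤ l4 v := norm_nonneg _

lemma l4_pow (v : Fin n → ℝ) : l4 v ^ 4 = ∑ k, v k ^ 4 := by
  rw [l4, PiLp.norm_eq_of_nat 4 (by norm_num), one_div,
    rpow_inv_natCast_pow (Finset.sum_nonneg fun _ _ => by positivity) (by norm_num)]
  exact Finset.sum_congr rfl fun k _ => by
    rw [Real.norm_eq_abs, show 4 = 2 * 2 from rfl, pow_mul, pow_mul, sq_abs]

lemma l4_sub (v w : Fin n → ℝ) : |l4 v - l4 w| ≤ l4 (v - w) := abs_norm_sub_norm_le _ _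

lemma l4_row_le (g : Pair n → ℝ) (i : Fin n) : l4 (Jmat n g i) ≤ opn (Jmat n g) := by
  refine (pow_le_pow_iff_left₀ (l4_nonneg _) (opn_nonneg _) (by norm_num : 4 ≠ 0)).1 ?_
  have h1 := Da.Gr.row_sq_le (Jmat n g) i
  simp only [Jmat_symm g _ i] at h1
  have h2 : ∑ k, (Jmat n g i k ^ 2) ^ 2 ≤ (∑ k, Jmat n g i k ^ 2) ^ 2 :=
    Finset.sum_sq_le_sq_sum_of_nonneg fun _ _ => sq_nonneg _
  rw [l4_pow]
  simp only [← pow_mul] at h2
  refine h2.trans ((pow_le_pow_left₀ (Finset.sum_nonneg fun _ _ => sq_nonneg _) h1 2).trans ?_)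
  rw [← pow_mul]

lemma elip (i : Fin n) : ELip (√(2 / n)) fun g => l4 (Jmat n g i) := fun x y => by
  refine (l4_sub _ _).trans ?_
  have e : Jmat n x i - Jmat n y i = Jmat n (x - y) i := by rw [← Nrm.Jmat_sub]; rfl
  rw [e]
  exact (l4_row_le _ i).trans (Nrm.opn_Jmat_le _)

/-- fourth moment of the standard Gaussian -/
def M4 : ℝ := ∫ x, x ^ 4 ∂gaussianReal 0 1

lemma M4_nonneg : 0 ≤ M4 := integral_nonneg fun _ => by positivity

lemma int4 : Integrable (fun x : ℝ => x ^ 4) (gaussianReal 0 1) := by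
  have := (memLp_id_gaussianReal (μ := 0) (v := 1) 4).integrable_norm_pow (p := 4) (by norm_num)
  refine this.congr (.of_forall fun x => ?_)
  simp only [id, Real.norm_eq_abs]
  rw [show 4 = 2 * 2 from rfl, pow_mul, pow_mul, sq_abs]

lemma entry (i k : Fin n) : Integrable (fun g => Jmat n g i k ^ 4) (gv (Pair n)) ∧
    ∫ g, Jmat n g i k ^ 4 ∂gv (Pair n) ≤ M4 / n ^ 2 := by
  have key : ∀ p : Pair n, Integrable (fun g : Pair n → ℝ => (g p / √n) ^ 4) (gv (Pair n)) ∧
      ∫ g, (g p / √n) ^ 4 ∂gv (Pair n) ≤ M4 / n ^ 2 := fun p => by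
    have mp : MeasurePreserving (fun g : Pair n → ℝ => g p) (gv (Pair n)) (gaussianReal 0 1) :=
      measurePreserving_eval (fun _ : Pair n => gaussianReal 0 1) p
    have e : √(n : ℝ) ^ 4 = n ^ 2 := by
      rw [show 4 = 2 * 2 from rfl, pow_mul, sq_sqrt (Nat.cast_nonneg n)]
    simp only [div_pow, e]
    refine ⟨(mp.integrable_comp_of_integrable int4).div_const _, le_of_eq ?_⟩
    rw [integral_div, M4, ← mp.map_eq, integral_map mp.measurable.aemeasurable (by fun_prop)]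
  have := M4_nonneg
  unfold Jmat
  split_ifs
  · exact key _
  · exact key _
  · simp only [ne_eq, OfNat.ofNat_ne_zero, not_false_eq_true, zero_pow, integrable_const,
      integral_zero, true_and]
    positivity

lemma mean_le (i : Fin n) {c : ℝ} (hc : 0 < c) (h : c ^ 4 * n = 1) :
    ∫ g, l4 (Jmat n g i) ∂gv (Pair n) ≤ (M4 + 1) * c := by
  have hn : (0 : ℝ) < n := by
    rcases (Nat.cast_nonneg (α := ℝ) n).eq_or_lt with h0 | h0
    · rw [← h0] at h; simp at h
    · exact h0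
  have hi : Integrable (fun g => ∑ k, Jmat n g i k ^ 4) (gv (Pair n)) :=
    integrable_finsetSum _ fun k _ => (entry i k).1
  have h1 : ∫ g, ∑ k, Jmat n g i k ^ 4 ∂gv (Pair n) ≤ M4 * c ^ 4 := by
    rw [integral_finsetSum _ fun k _ => (entry i k).1]
    refine (Finset.sum_le_card_nsmul _ _ _ fun k _ => (entry i k).2).trans (le_of_eq ?_)
    rw [eq_div_of_mul_eq hn.ne' h]
    simp only [Finset.card_univ, Fintype.card_fin, nsmul_eq_mul]
    field_simp
  refine (integral_mono (elip i).integrable ((hi.div_const (c ^ 3)).add (integrable_const c))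
    fun g => ?_).trans ?_
  · change l4 _ ≤ (∑ k, Jmat n g i k ^ 4) / c ^ 3 + c
    rw [← l4_pow]
    have h0 := l4_nonneg (Jmat n g i)
    set u := l4 (Jmat n g i)
    rcases le_total u c with h2 | h2
    · exact h2.trans (le_add_of_nonneg_left (by positivity))
    · refine le_trans ?_ (le_add_of_nonneg_right hc.le)
      rw [le_div_iff₀ (by positivity), show u ^ 4 = u * u ^ 3 by ring]
      gcongr
  · change ∫ g, (∑ k, Jmat n g i k ^ 4) / c ^ 3 + c ∂gv (Pair n) ≤ _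
    rw [integral_add (hi.div_const _) (integrable_const c), integral_div, integral_const,
      probReal_univ, one_smul, add_mul, one_mul]
    refine add_le_add ?_ le_rfl
    rw [div_le_iff₀ (by positivity)]
    exact h1.trans (le_of_eq (by ring))

lemma tail (hn : 0 < n) : (disorderLaw n).real {g | ¬ ∀ i, ∑ k, Jmat n g i k ^ 4 ≤ (M4 + 2) ^ 4 / n}
    ≤ n * exp (-(√n / 4)) := by
  have n0 : (0 : ℝ) < n := by exact_mod_cast hn
  have s0 : 0 < √(n : ℝ) := sqrt_pos.2 n0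
  set c := (√(√(n : ℝ)))⁻¹ with hc
  have c0 : 0 < c := inv_pos.2 (sqrt_pos.2 s0)
  have c2 : c ^ 2 = (√(n : ℝ))⁻¹ := by rw [hc, inv_pow, sq_sqrt s0.le]
  have c4 : c ^ 4 * n = 1 := by
    rw [show 4 = 2 * 2 from rfl, pow_mul, c2, inv_pow, sq_sqrt n0.le, inv_mul_cancel₀ n0.ne']
  have hs : {g | ¬ ∀ i, ∑ k, Jmat n g i k ^ 4 ≤ (M4 + 2) ^ 4 / n} ⊆
      ⋃ i, {g | c ≤ l4 (Jmat n g i) - ∫ g, l4 (Jmat n g i) ∂gv (Pair n)} := fun g hg => by
    obtain ⟨i, hi⟩ := not_forall.1 hg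
    refine Set.mem_iUnion.2 ⟨i, ?_⟩
    by_contra h
    refine hi ?_
    have h1 : l4 (Jmat n g i) ≤ (M4 + 2) * c := by
      have := mean_le i c0 c4
      have : l4 (Jmat n g i) - ∫ g, l4 (Jmat n g i) ∂gv (Pair n) < c := not_le.1 h
      linarith
    rw [← l4_pow, div_eq_mul_one_div, ← eq_div_of_mul_eq n0.ne' c4, ← mul_pow]
    exact pow_le_pow_left₀ (l4_nonneg _) h1 4
  refine (measureReal_mono hs).trans ((measureReal_iUnion_fintype_le _).trans ?_)
  refine (Finset.sum_le_card_nsmul _ _ _ fun i _ => tail_lip (elip i) c0.le).trans (le_of_eq ?_)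
  simp only [Finset.card_univ, Fintype.card_fin, nsmul_eq_mul]
  congr 2
  rw [sq_sqrt (by positivity), c2]
  have := mul_self_sqrt n0.le
  field_simp
  nlinarith

lemma lim : Tendsto (fun n : ℕ => (n : ℝ) * exp (-(√n / 4))) atTop (𝓝 0) := by
  have h1 : Tendsto (fun n : ℕ => √(n : ℝ) / 4) atTop atTop :=
    (tendsto_sqrt_atTop.comp tendsto_natCast_atTop_atTop).atTop_div_const (by norm_num)
  have h2 := ((tendsto_pow_mul_exp_neg_atTop_nhds_zero 2).comp h1).const_mul 16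
  rw [mul_zero] at h2
  refine h2.congr fun n => ?_
  simp only [Function.comp, div_pow, sq_sqrt (Nat.cast_nonneg (α := ℝ) n)]
  ring

end Nice66

open Nice66 in
/-- **task 782** -/
theorem niceStmt : NiceStmt := by
  have := M4_nonneg
  refine ⟨M4 + 18, by positivity, ?_⟩
  have h : Top.Whp disorderLaw fun n g => ∀ i, ∑ k, Jmat n g i k ^ 4 ≤ (M4 + 2) ^ 4 / n :=
    Top.whp_of_real_le lim ((eventually_gt_atTop 0).mono fun n hn => tail hn)
  refine (Chain22.whp_opn'.and h).imp fun n g hg β h0 h1 => Nice.smul ?_ h0 h1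
  refine ⟨Jmat_transpose g, by linarith [hg.1], fun i => (hg.2 i).trans ?_⟩
  gcongr
  norm_num

end Crest.Agent.T157.Reg

end
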