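import Crest.Agent.T157.S6DefC_93
import Crest.Agent.T157.S6Lp_28
import Crest.Agent.T157.RegNice_66

/-!
# Row 157, block S6 (helper45): the final glue
-/

set_option autoImplicit false

noncomputable section

namespace Crest.Agent.T157.S6a

open Matrix Real Filter Finset
open Crest.ProbabilityR.SpinGlassDynamics (disorderLaw gibbsWeight)
open Crest.Agent.T157.E Crest.Agent.T157.Eig
open Crest.Agent.T157.Tap (V Mx)
open Crest.Agent.T157.Chain22 (sg)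
open Crest.Agent.T157.Reg (VF mu Nice)
open Crest.Agent.T157.Rv

namespace L45

variable {n : ℕ} {W : Mx n}

theorem ok_mono {b e b' e' : ℝ} (h : Ok W b e) (b0 : 0 ≤ b) (hb : b ≤ b') (he : e ≤ e') :
    Ok W b' e' :=
  ⟨h.pos, h.sym, h.dg, h.op, fun i => (h.row i).trans (pow_le_pow_left₀ b0 hb 2),
    fun i j => (h.ent i j).trans he⟩

theorem mu_pos (W : Mx n) (x : Cube n) : 0 < mu W x := exp_pos _

theorem ev_mono {g F G : Cube n → ℝ} (hg : ∀ x, 0 < g x) (h : ∀ x, F x ≤ G x) :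
    ev W g F ≤ ev W g G :=
  (Chain22.isP_prob' (mu_pos W)).mean_mono fun x => mul_le_mul_of_nonneg_left (h x) (hg x).le

theorem X3_le (hW : Ok W 1 1) (red : RedStmt) {g : Cube n → ℝ} (hg : ∀ x, 0 < g x)
    (h1 : mean (mu W) g = 1) : 0 ≤ X3 W g ∧ X3 W g ≤ 2 * II (mu W) g := by
  obtain ⟨-, r2, r3, -⟩ := red n W hW g hg h1
  refine ⟨(Chain22.isP_prob' (mu_pos W)).mean_nonneg fun x => mul_nonneg (hg x).le (by positivity),
    ?_⟩
  have h2 : X3 W g ≤ ev W g fun x => 2 * (dd W g x ⬝ᵥ dd W g x) := ev_mono hg fun x => by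
    rw [dotProduct, mul_sum]
    refine sum_le_sum fun k _ => ?_
    have := r2 x k
    have e : dd W g x k * dd W g x k = |dd W g x k| ^ 2 := by rw [sq_abs, sq]
    rw [e]
    nlinarith [sq_nonneg |dd W g x k|]
  have h3 : (ev W g fun x => 2 * (dd W g x ⬝ᵥ dd W g x)) =
      2 * ev W g fun x => dd W g x ⬝ᵥ dd W g x := by
    simp only [ev, mean]
    rw [mul_sum]
    exact sum_congr rfl fun x _ => by ring
  linarith

theorem AA_congr {X X' ρ : ℝ → ℝ} (h : ∀ s, 0 ≤ s → X s = X' s) (θ σ k : ℝ) {τ r : ℝ} (hτ : 0 ≤ τ)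
    (hr : τ + 1 ≤ r) : AA X ρ θ σ k τ r = AA X' ρ θ σ k τ r := by
  unfold AA
  congr 1
  · refine intervalIntegral.integral_congr fun s hs => ?_
    rw [Set.uIcc_of_le (by linarith)] at hs
    simp only [h (r - s) (by linarith [hs.2])]
  · refine intervalIntegral.integral_congr fun u hu => ?_
    rw [Set.uIcc_of_le (by linarith)] at hu
    refine intervalIntegral.integral_congr fun v hv => ?_
    rw [Set.uIcc_of_le (by linarith [hu.2])] at hv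
    simp only [h (r - u - v) (by linarith [hv.2])]

theorem core (hW : Ok W 1 1) (red : RedStmt) (cont : ContStmt) (loop : LoopStmt)
    {f : Cube n → ℝ} (hf : ∀ x, 0 < f x) (h1 : mean (mu W) f = 1)
    {ρ : ℝ → ℝ} {a θ k Bb τ η η3 Γ ζ R CH u N T : ℝ}
    (hb : ∀ g, (∀ x, 0 < g x) → mean (mu W) g = 1 → ev W g (G0 W R) ≤ CH * (ent (mu W) g + 1))
    (cρ : Continuous ρ) (ρ0 : ∀ v ∈ Set.Icc 0 (τ + 1), 0 ≤ ρ v)
    (ρ1 : ∫ v in (0 : ℝ)..(τ + 1), ρ v * exp (2 * a / 3 * v) ≤ Bb)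
    (ha : 0 < a) (hθ : 2 * a / 3 < θ) (hτ : 0 ≤ τ) (h3 : 0 ≤ η3) (hΓ : 0 ≤ Γ) (hζ : 0 ≤ ζ)
    (hg : gn θ (2 * a / 3) k Bb τ ≤ 17 / 20)
    (step : ∀ r ≥ τ + 1, (19 / 20 - 2 / 3 * gn θ (2 * a / 3) k Bb τ) * X3 W (sg (mu W) r f) ≤
      1 / 3 * AA (fun s => X3 W (sg (mu W) s f)) ρ θ (2 * a / 3) k τ r +
        η3 * II (mu W) (sg (mu W) r f) +
        Γ * (∫ s in τ..(τ + 1), II (mu W) (sg (mu W) (r - s) f)) + ζ)
    (η0 : 0 < η) (η1 : η ≤ 1) (R1 : 1 ≤ R) (R2 : 12 * CH ≤ η * R)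
    (R3 : (2 * R + 1) * (8 * exp (2 * R) / (η / 8)) ^ 3 ≤ u)
    (n1 : 10 * u * (η3 + Γ * exp (2 * a * (τ + 1))) ≤ η / 2)
    (n2 : 20 * u * exp (2 * a * (τ + 1)) ≤ N) (n3 : (10 * u * ζ + 1) / (2 * a) ≤ N) :
    B.Paid (mu W) (fun f => B.Df (B.dn (mu W) f) (mu W)) a η N T f := by
  have hn := hW.pos
  have hw := mu_pos W
  have u0 : 0 ≤ u := le_trans (by positivity) R3
  have N0 : 0 ≤ N := le_trans (by positivity) n2
  have p1 : ∀ s, 0 ≤ s → ∀ x, 0 < sg (mu W) s f x := fun s s0 => sg_pos hn hw s0 hf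
  have p2 : ∀ s, mean (mu W) (sg (mu W) s f) = 1 := fun s => (Chain22.mean_sg hn hw s f).trans h1
  obtain ⟨X, hX⟩ : ∃ X : ℝ → ℝ, X = fun s => X3 W (sg (mu W) |s| f) := ⟨_, rfl⟩
  obtain ⟨I, hI⟩ : ∃ I : ℝ → ℝ, I = fun s => II (mu W) (sg (mu W) (max s 0) f) := ⟨_, rfl⟩
  have eX : ∀ s, 0 ≤ s → X s = X3 W (sg (mu W) s f) := fun s s0 => by
    simp only [hX, abs_of_nonneg s0]
  have eI : ∀ s, 0 ≤ s → I s = II (mu W) (sg (mu W) s f) := fun s s0 => by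
    simp only [hI, max_eq_left s0]
  have cX : Continuous X := by
    have c1 : ∀ x, Continuous fun s : ℝ => sg (mu W) |s| f x := fun x =>
      (B.continuous_sg hn hw f x).comp continuous_abs
    have c2 : ∀ x k, Continuous fun s : ℝ => dd W (sg (mu W) |s| f) x k := fun x k =>
      (cont n W hW ρ cρ 0 x k).2.2.2.2.2.2.2 f hf
    rw [hX]
    exact continuous_finsetSum _ fun x _ => continuous_const.mul ((c1 x).mul
      (continuous_finsetSum _ fun k _ => (c2 x k).abs.pow 3))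
  have cI : Continuous I := by rw [hI]; exact S6k.continuous_I hn hw hf
  have cE : Continuous fun s : ℝ => exp (2 * a * s) := by fun_prop
  have cL : Continuous fun s : ℝ => exp (2 * a * s) * (u * X s - η / 2 * I s + 1) := by fun_prop
  refine ⟨fun t => ∫ s in (0 : ℝ)..t, exp (2 * a * s) * (u * X s - η / 2 * I s + 1),
    fun s => exp (2 * a * s) * (u * X s - η / 2 * I s + 1), by simp, fun t t0 _ =>
    ⟨(cL.integral_hasStrictDerivAt 0 t).hasDerivAt, ?_, ?_⟩⟩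
  · refine mul_le_mul_of_nonneg_left ?_ (exp_pos _).le
    have a1 := (red n W hW _ (p1 t t0) (p2 t)).2.2.2.2 (η / 8) R (by positivity) (by linarith) R1
    have a2 := hb _ (p1 t t0) (p2 t)
    have a3 := (X3_le hW red (p1 t t0) (p2 t)).1
    have a4 := ent_nn hw fun x => (p1 t t0 x).le
    have a5 : 12 / R * ev W (sg (mu W) t f) (G0 W R) ≤ η * (ent (mu W) (sg (mu W) t f) + 1) := by
      calc _ ≤ 12 / R * (CH * (ent (mu W) (sg (mu W) t f) + 1)) := by gcongr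
        _ = 12 * CH / R * (ent (mu W) (sg (mu W) t f) + 1) := by ring
        _ ≤ _ := by gcongr; rwa [div_le_iff₀ (by linarith)]
    have a6 := mul_le_mul_of_nonneg_right R3 a3
    rw [eX t t0, eI t t0]
    linarith
  · have l1 := loop X I ρ a θ k Bb τ η3 Γ ζ t ha hθ hτ h3 hΓ hζ t0 cX cI cρ
      (fun s hs => by rw [eX s hs.1, eI s hs.1]; exact X3_le hW red (p1 s hs.1) (p2 s)) ρ0 ρ1 hg
      fun r hr => by
        have r0 : 0 ≤ r := by linarith [hr.1]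
        have e1 : ∫ s in τ..(τ + 1), I (r - s) =
            ∫ s in τ..(τ + 1), II (mu W) (sg (mu W) (r - s) f) :=
          intervalIntegral.integral_congr fun s hs => by
            rw [Set.uIcc_of_le (by linarith)] at hs
            exact eI (r - s) (by linarith [hs.2, hr.1])
        rw [eX r r0, eI r r0, e1, AA_congr eX _ _ _ hτ hr.1]
        exact step r hr.1
    have l2 : ∫ r in (0 : ℝ)..t, I r ≤ ent (mu W) f := by rw [hI]; exact S6k.int_I_le hn hw hf t0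
    have l3 : ∫ r in (0 : ℝ)..t, exp (2 * a * r) ≤ exp (2 * a * t) / (2 * a) := by
      rw [intervalIntegral.integral_comp_mul_left (fun x => exp x) (by positivity), integral_exp,
        smul_eq_mul, mul_zero, exp_zero, inv_mul_eq_div]
      gcongr; linarith
    have l4 : 0 ≤ ∫ r in (0 : ℝ)..t, exp (2 * a * r) * I r :=
      intervalIntegral.integral_nonneg t0 fun r hr => mul_nonneg (exp_pos _).le (by
        rw [eI r hr.1]; exact II_nn hn hw (p1 r hr.1))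
    have e2 : ∫ s in (0 : ℝ)..t, exp (2 * a * s) * (u * X s - η / 2 * I s + 1) =
        u * (∫ s in (0 : ℝ)..t, exp (2 * a * s) * X s) -
          η / 2 * (∫ s in (0 : ℝ)..t, exp (2 * a * s) * I s) + ∫ s in (0 : ℝ)..t, exp (2 * a * s) := by
      rw [← intervalIntegral.integral_const_mul, ← intervalIntegral.integral_const_mul,
        ← intervalIntegral.integral_sub (Continuous.intervalIntegrable (by fun_prop) _ _)
          (Continuous.intervalIntegrable (by fun_prop) _ _),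
        ← intervalIntegral.integral_add (Continuous.intervalIntegrable (by fun_prop) _ _)
          (Continuous.intervalIntegrable (by fun_prop) _ _)]
      exact intervalIntegral.integral_congr fun s _ => by ring
    have b1 := mul_le_mul_of_nonneg_left l1 u0
    have b2 := mul_le_mul_of_nonneg_right n1 l4
    have b3 : 20 * u * exp (2 * a * (τ + 1)) * ∫ r in (0 : ℝ)..t, I r ≤ N * ent (mu W) f :=
      (mul_le_mul_of_nonneg_left l2 (by positivity)).trans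
        (mul_le_mul_of_nonneg_right n2 (ent_nn hw fun x => (hf x).le))
    have b4 := mul_le_mul_of_nonneg_right n3 (exp_pos (2 * a * t)).le
    have b5 := mul_nonneg N0 (II_nn hn hw hf)
    have e3 : (10 * u * ζ + 1) / (2 * a) * exp (2 * a * t) =
        u * (10 * ζ * exp (2 * a * t) / (2 * a)) + exp (2 * a * t) / (2 * a) := by ring
    simp only [e2]
    nlinarith

theorem numR {CH η ω x : ℝ} (hC : 1 ≤ CH) (hη : 0 < η) (hω : 0 < ω)
    (hx : (1 + 12 * CH / η + (64 / η) ^ 3 + 18 * CH / ω) ^ 2 ≤ x) :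
    ∃ R ≥ (1 : ℝ), exp x ^ 2 * exp (-(R ^ 2 / CH)) = 1 ∧ 12 * CH ≤ η * R ∧
      (2 * R + 1) * (8 * exp (2 * R) / (η / 8)) ^ 3 ≤ exp (ω * x) := by
  have x0 : 0 ≤ x := le_trans (by positivity) hx
  have p1 : 0 ≤ 12 * CH / η := by positivity
  have p2 : 0 ≤ (64 / η) ^ 3 := by positivity
  have p3 : 0 ≤ 18 * CH / ω := by positivity
  have e1 : √(2 * CH * x) ^ 2 = 2 * CH * x := sq_sqrt (by positivity)
  have h1 : 1 + 12 * CH / η + (64 / η) ^ 3 + 18 * CH / ω ≤ √(2 * CH * x) :=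
    le_sqrt_of_sq_le (hx.trans (by nlinarith))
  generalize √(2 * CH * x) = R at *
  refine ⟨R, by linarith, ?_, ?_, ?_⟩
  · rw [e1, ← exp_nat_mul, ← exp_add, exp_eq_one_iff]; push_cast; field_simp; ring
  · rw [mul_comm η, ← div_le_iff₀ hη]; linarith
  · have a1 : 2 * R + 1 ≤ exp (2 * R) := add_one_le_exp _
    have a2 : (64 / η) ^ 3 ≤ exp R := by linarith [add_one_le_exp R]
    have a3 : 18 * CH ≤ R * ω := by rw [← div_le_iff₀ hω]; linarith
    have R0 : 0 ≤ R := by linarith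
    have a4 : 9 * R ≤ ω * x := by
      have : 2 * CH * (9 * R) ≤ 2 * CH * (ω * x) := by nlinarith
      exact le_of_mul_le_mul_left this (by positivity)
    calc _ = (2 * R + 1) * (64 / η) ^ 3 * exp (2 * R) ^ 3 := by field_simp; ring
      _ ≤ exp (2 * R) * exp R * exp (2 * R) ^ 3 := by gcongr
      _ = exp (9 * R) := by rw [← exp_nat_mul, ← exp_add, ← exp_add]; congr 1; push_cast; ring
      _ ≤ _ := exp_le_exp.2 a4

theorem num1 {C κ δ c c' ω η x : ℝ} (hC : 0 ≤ C) (x0 : 0 ≤ x) (hη : 0 < η)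
    (h1 : C * exp C ≤ exp (ω * x)) (h2 : 40 / η ≤ exp (ω * x)) (h3 : 2 ≤ exp (ω * x))
    (h4 : 14 * ω + 7 * κ + 7 * (C * δ) + 6 * c' ≤ c / 4) :
    (C * exp (κ * x) * exp (C * (δ * x + 1))) ^ 7 *
        √((exp ((1 - c) * x) + exp ((1 - c) * x)) / exp ((1 - c / 2) * x)) ≤
      exp (-c' * x) ^ 6 * (η / (40 * exp (ω * x))) ^ 3 := by
  have a1 : √((exp ((1 - c) * x) + exp ((1 - c) * x)) / exp ((1 - c / 2) * x)) ≤
      exp (ω * x) * exp (-(c / 4) * x) := by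
    rw [sqrt_le_left (by positivity), div_le_iff₀ (exp_pos _), mul_pow, mul_assoc, ← exp_nat_mul,
      ← exp_nat_mul, ← exp_add, ← two_mul]
    have : ((2 : ℕ) : ℝ) * (-(c / 4) * x) + (1 - c / 2) * x = (1 - c) * x := by push_cast; ring
    rw [this, exp_nat_mul]
    gcongr; nlinarith
  have a2 : C * exp (κ * x) * exp (C * (δ * x + 1)) ≤ exp (ω * x) * exp ((κ + C * δ) * x) := by
    calc _ = C * exp C * exp ((κ + C * δ) * x) := by
          rw [mul_assoc, mul_assoc, ← exp_add, ← exp_add]; congr 2; ring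
      _ ≤ _ := by gcongr
  have a3 : exp (-(2 * ω * x)) ≤ η / (40 * exp (ω * x)) := by
    rw [div_le_iff₀ hη] at h2
    rw [le_div_iff₀ (by positivity)]
    have e : exp (-(2 * ω * x)) * (exp (ω * x) * η * exp (ω * x)) = η := by
      rw [mul_right_comm (exp (ω * x)) η, ← exp_add, ← mul_assoc, ← exp_add]
      rw [show -(2 * ω * x) + (ω * x + ω * x) = 0 by ring, exp_zero, one_mul]
    rw [← e]; gcongr
  calc _ ≤ (exp (ω * x) * exp ((κ + C * δ) * x)) ^ 7 * (exp (ω * x) * exp (-(c / 4) * x)) := by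
        gcongr
    _ ≤ exp (-c' * x) ^ 6 * exp (-(2 * ω * x)) ^ 3 := by
        simp only [← exp_add, ← exp_nat_mul]
        refine exp_le_exp.2 ?_
        push_cast
        nlinarith [mul_le_mul_of_nonneg_right h4 x0]
    _ ≤ _ := by gcongr

theorem num2 {C δ c' ω η x a a' e' : ℝ} (hC : 0 ≤ C) (x0 : 0 ≤ x) (hη : 0 < η) (hδ : 0 ≤ δ)
    (h1 : C * exp C ≤ exp (ω * x)) (h2 : 40 / η ≤ exp (ω * x)) (h3 : 2 ≤ exp (ω * x))
    (h4 : exp (2 * a) ≤ exp (ω * x)) (h5 : δ * x + 1 ≤ exp (ω * x))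
    (h6 : 15 * ω + 2 * e' ≤ 2 * (a' - a) * δ) (h7 : 15 * ω + (C + 2 * a) * δ ≤ 2 * c') :
    10 * exp (ω * x) * (η / (40 * exp (ω * x)) + C * (δ * x + 1) ^ 4 *
      (exp (e' * x) ^ 2 * exp (-(2 * a' * (δ * x))) + exp (C * (δ * x + 1)) * exp (-c' * x) ^ 2) /
        (η / (40 * exp (ω * x))) ^ 3 * exp (2 * a * (δ * x + 1))) ≤ η / 2 := by
  have u0 := exp_pos (ω * x)
  have hC' : C ≤ exp (ω * x) := le_trans (le_mul_of_one_le_right hC (one_le_exp hC)) h1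
  have a1 : C * (exp (e' * x) ^ 2 * exp (-(2 * a' * (δ * x)))) * exp (2 * a * (δ * x)) ≤
      exp (ω * x) * exp (-(15 * ω * x)) := by
    rw [mul_assoc]
    gcongr
    simp only [← exp_add, ← exp_nat_mul]
    refine exp_le_exp.2 ?_
    push_cast
    nlinarith [mul_le_mul_of_nonneg_right h6 x0]
  have a2 : C * (exp (C * (δ * x + 1)) * exp (-c' * x) ^ 2) * exp (2 * a * (δ * x)) ≤
      exp (ω * x) * exp (-(15 * ω * x)) := by
    calc _ = C * exp C * (exp (C * (δ * x)) * exp (-c' * x) ^ 2 * exp (2 * a * (δ * x))) := by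
          rw [mul_add, mul_one, exp_add]; ring
      _ ≤ _ := by
          gcongr
          simp only [← exp_add, ← exp_nat_mul]
          refine exp_le_exp.2 ?_
          push_cast
          nlinarith [mul_le_mul_of_nonneg_right h7 x0]
  have a3 : exp (ω * x) ^ 15 * exp (-(15 * ω * x)) = 1 := by
    rw [← exp_nat_mul, ← exp_add, exp_eq_one_iff]; push_cast; ring
  have e2 : exp (2 * a * (δ * x + 1)) = exp (2 * a) * exp (2 * a * (δ * x)) := by
    rw [← exp_add]; congr 1; ring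
  have p0 : 0 ≤ δ * x + 1 := by positivity
  rw [e2]
  generalize exp (e' * x) ^ 2 * exp (-(2 * a' * (δ * x))) = A at *
  generalize exp (C * (δ * x + 1)) * exp (-c' * x) ^ 2 = A' at *
  generalize exp (2 * a * (δ * x)) = E at *
  have w0 := exp_pos (-(15 * ω * x))
  generalize exp (-(15 * ω * x)) = w at *
  generalize exp (ω * x) = u at *
  have a4 : C * (A + A') * E ≤ u * (u * w) := by nlinarith [mul_pos u0 w0]
  have a5 : 40 / η * u ^ 4 * (δ * x + 1) ^ 4 * (40 / η) ^ 3 * exp (2 * a) * (C * (A + A') * E) ≤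
      u * u ^ 4 * u ^ 4 * u ^ 3 * u * (u * (u * w)) := by
    rcases le_total 0 (C * (A + A') * E) with h | h
    · gcongr
    · exact (mul_nonpos_of_nonneg_of_nonpos (by positivity) h).trans (by positivity)
  have e3 : 10 * u * (η / (40 * u) + C * (δ * x + 1) ^ 4 * (A + A') / (η / (40 * u)) ^ 3 *
      (exp (2 * a) * E)) = η / 4 + η / 4 * (40 / η * u ^ 4 * (δ * x + 1) ^ 4 * (40 / η) ^ 3 *
        exp (2 * a) * (C * (A + A') * E)) := by field_simp; ring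
  have e4 : u * u ^ 4 * u ^ 4 * u ^ 3 * u * (u * (u * w)) = 1 := by rw [← a3]; ring
  rw [e3]
  rw [e4] at a5
  nlinarith

theorem num4 {C κ δ c' ω x D m : ℝ} (hC : 0 ≤ C) (x0 : 0 ≤ x)
    (h1 : C * exp C ≤ exp (ω * x)) (h3 : 20 ≤ exp (ω * x))
    (h4 : 10 * ω + 8 * κ + 8 * (C * δ) + 6 * c' ≤ 1) (h5 : 3 * x ≤ D) (h6 : 5 / 2 * D ≤ m) :
    10 * exp (ω * x) * ((C * exp (κ * x) * exp (C * (δ * x + 1))) ^ 8 / exp (-c' * x) ^ 6 *
      (exp x ^ 2 * (exp (-D) + (exp D * exp (-m)) ^ (2 / 3 : ℝ)))) ≤ 1 := by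
  have a1 : (exp D * exp (-m)) ^ (2 / 3 : ℝ) ≤ exp (-D) := by
    rw [← exp_add, ← exp_mul]; exact exp_le_exp.2 (by linarith)
  have a2 : C * exp (κ * x) * exp (C * (δ * x + 1)) ≤ exp (ω * x) * exp ((κ + C * δ) * x) := by
    calc _ = C * exp C * exp ((κ + C * δ) * x) := by
          rw [mul_assoc, mul_assoc, ← exp_add, ← exp_add]; congr 2; ring
      _ ≤ _ := by gcongr
  calc _ ≤ 10 * exp (ω * x) * ((exp (ω * x) * exp ((κ + C * δ) * x)) ^ 8 / exp (-c' * x) ^ 6 *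
        (exp x ^ 2 * (exp (-D) + exp (-D)))) := by gcongr
    _ = 20 * (exp (ω * x) * ((exp (ω * x) * exp ((κ + C * δ) * x)) ^ 8 / exp (-c' * x) ^ 6 *
        (exp x ^ 2 * exp (-D)))) := by ring
    _ ≤ exp (ω * x) * (exp (ω * x) * ((exp (ω * x) * exp ((κ + C * δ) * x)) ^ 8 /
        exp (-c' * x) ^ 6 * (exp x ^ 2 * exp (-D)))) := by gcongr
    _ ≤ 1 := by
        simp only [← exp_add, ← exp_nat_mul, ← exp_sub]
        refine exp_le_one_iff.2 ?_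
        push_cast
        nlinarith [mul_le_mul_of_nonneg_right h4 x0]

theorem exω {p q r s : ℝ} (hp : 0 < p) (hq : 0 < q) (hr : 0 < r) (hs : 0 < s) :
    ∃ ω > (0 : ℝ), ω ≤ p ∧ ω ≤ q ∧ ω ≤ r ∧ ω ≤ s :=
  ⟨min (min p q) (min r s), by positivity, (min_le_left _ _).trans (min_le_left _ _),
    (min_le_left _ _).trans (min_le_right _ _), (min_le_right _ _).trans (min_le_left _ _),
    (min_le_right _ _).trans (min_le_right _ _)⟩

theorem neg_mono {β a c c' e η η' : ℝ} {D : B.Fn} (hc : c' ≤ c) (hη : η' ≤ η)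
    (h : Top.Whp disorderLaw fun n g => ∀ f, Warm (gibbsWeight n β g) ((n : ℝ) ^ (1 - c')) f →
      B.Paid (gibbsWeight n β g) (D n g) a η' ((n : ℝ) ^ e) (1 * log n) f) :
    Top.Whp disorderLaw fun n g => ∀ f, Warm (gibbsWeight n β g) ((n : ℝ) ^ (1 - c)) f →
      B.Paid (gibbsWeight n β g) (D n g) a η ((n : ℝ) ^ e) (1 * log n) f := by
  refine h.mono ?_
  filter_upwards [eventually_gt_atTop 0] with n hn g h1 f hf
  have hw : ∀ x, 0 < gibbsWeight n β g x := fun x => by rw [← Reg.mu_Jmat]; exact mu_pos _ x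
  exact (h1 f (hf.mono (rpow_le_rpow_of_exponent_le (by exact_mod_cast hn) (by linarith)))).mono
    hn hw hf.1 (fun _ _ => le_rfl) hη le_rfl le_rfl

theorem num5 {θ σ τ B : ℝ} (s1 : 1 / 4 ≤ θ - σ) (h1 : 76 ≤ τ) (h2 : (8 / 7 : ℝ) ^ 2 * B ≤ 4 / 5 * (θ - σ)) :
    gn θ σ (8 / 7) B τ ≤ 17 / 20 := by
  have s2 : exp (-((θ - σ) * τ)) ≤ 1 / 20 := by
    rw [exp_neg, one_div]
    refine inv_anti₀ (by norm_num) (le_trans ?_ (add_one_le_exp _))
    nlinarith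
  have s3 : (8 / 7 : ℝ) ^ 2 * B / (θ - σ) ≤ 4 / 5 := by rwa [div_le_iff₀ (by linarith)]
  unfold gn
  linarith

theorem num3 {ω x a δ e : ℝ} (x0 : 0 ≤ x) (u3 : 20 ≤ exp (ω * x)) (u4 : exp (2 * a) ≤ exp (ω * x))
    (h : 3 * ω + 2 * a * δ ≤ e) :
    20 * exp (ω * x) * exp (2 * a * (δ * x + 1)) ≤ exp (e * x) := by
  calc _ = 20 * exp (ω * x) * exp (2 * a) * exp (2 * a * (δ * x)) := by
        rw [mul_add, mul_one, exp_add]; ring
    _ ≤ exp (ω * x) * exp (ω * x) * exp (ω * x) * exp (2 * a * (δ * x)) := by gcongr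
    _ ≤ _ := by
        simp only [← exp_add]
        refine exp_le_exp.2 ?_
        nlinarith [mul_le_mul_of_nonneg_right h x0]

theorem num6 {ω x a e z : ℝ} (x0 : 0 ≤ x) (a0 : 0 < a) (hz : z ≤ 1) (h1 : 1 / a ≤ exp (ω * x))
    (h : ω ≤ e) : (z + 1) / (2 * a) ≤ exp (e * x) := by
  calc _ ≤ (1 + 1) / (2 * a) := by gcongr
    _ = 1 / a := by field_simp; norm_num
    _ ≤ exp (ω * x) := h1
    _ ≤ _ := by gcongr

/-- the choice of the small exponents -/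
structure Pa (a a' c c' C δ ω e η : ℝ) : Prop where
  a0 : 0 < a
  aa : a < a'
  c0 : 0 < c
  c1 : c ≤ 1 / 2
  c2 : 0 < c'
  C1 : 1 ≤ C
  δ0 : 0 < δ
  ω0 : 0 < ω
  η0 : 0 < η
  η1 : η ≤ 1
  i1 : 14 * ω + 7 * (c / 100) + 7 * (C * δ) + 6 * c' ≤ c / 4
  i2 : 15 * ω + 2 * ((a' - a) * δ / 2) ≤ 2 * (a' - a) * δ
  i3 : 15 * ω + (C + 2 * a) * δ ≤ 2 * c'
  i4 : 10 * ω + 8 * (c / 100) + 8 * (C * δ) + 6 * c' ≤ 1
  i5 : 3 * ω + 2 * a * δ ≤ e
  i6 : ω ≤ e

theorem exPa {a a' c c' C e η δ0 : ℝ} (a0 : 0 < a) (aa : a < a') (hc : 0 < c) (c1 : c ≤ 1 / 2)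
    (c2 : 0 < c') (c3 : c' ≤ c / 100) (C1 : 1 ≤ C) (he : 0 < e) (η0 : 0 < η) (η1 : η ≤ 1)
    (d0 : 0 < δ0) : ∃ δ ω, δ ≤ δ0 ∧ Pa a a' c c' C δ ω e η := by
  obtain ⟨δ, δp, d1, d2, d3, d4⟩ := exω d0 (show 0 < c / 100 / C by positivity)
    (show 0 < c' / (C + 2 * a) by positivity) (show 0 < e / 2 / (2 * a) by positivity)
  rw [le_div_iff₀' (by positivity)] at d2 d3 d4
  have ad : 0 < (a' - a) * δ := mul_pos (by linarith) δp
  obtain ⟨ω, ωp, w1, w2, w3, w4⟩ := exω (show 0 < c / 300 by positivity)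
    (show 0 < (a' - a) * δ / 15 by positivity) (show 0 < c' / 15 by positivity)
    (show 0 < e / 6 by positivity)
  exact ⟨δ, ω, d1, a0, aa, hc, c1, c2, C1, δp, ωp, η0, η1, by linarith, by linarith, by linarith,
    by linarith, by linarith, by linarith⟩

/-- the step inequality with the constant `C` -/
def StepC (C : ℝ) : Prop := ∀ (n : ℕ) (W : Mx n), Ok W 1 1 →
  ∀ (ρ : ℝ → ℝ) (θ θ' k τ m a Ko ε Λ p σ B D L η : ℝ) (f : Cube n → ℝ), Dec W θ θ' (k ^ 3) →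
  Facts W ρ (τ + 1) m a Ko ε Λ p σ B → Warm (mu W) D f → 0 < k → 0 ≤ τ → 0 < m → 0 ≤ a →
  2 * a ≤ θ' → 0 ≤ σ → σ < θ → 0 ≤ Ko → 0 < ε → ε ≤ 1 → 1 ≤ Λ → 0 ≤ p → 0 ≤ D → 1 ≤ L → 0 < η →
  η ≤ 1 → (C * Λ * exp (C * (τ + 1))) ^ 7 * √((D + L) / m) ≤ ε ^ 6 * η ^ 3 → ∀ r ≥ τ + 1,
  (19 / 20 - 2 / 3 * gn θ σ k B τ) * X3 W (sg (mu W) r f) ≤
    1 / 3 * AA (fun s => X3 W (sg (mu W) s f)) ρ θ σ k τ r + η * II (mu W) (sg (mu W) r f) +
    C * (τ + 1) ^ 4 * (Ko ^ 2 * exp (-(2 * a * τ)) + exp (C * (τ + 1)) * ε ^ 2) / η ^ 3 *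
      (∫ s in τ..(τ + 1), II (mu W) (sg (mu W) (r - s) f)) +
    (C * Λ * exp (C * (τ + 1))) ^ 8 / ε ^ 6 * (n ^ 2 * (exp (-L) + (exp D * p) ^ (2 / 3 : ℝ)))

theorem fix (hW : Ok W 1 1) (red : RedStmt) (cont : ContStmt) (loop : LoopStmt)
    {a a' c c' C δ ω e η CH θ θ' Bb x T : ℝ} (step : StepC C) (pa : Pa a a' c c' C δ ω e η)
    (x0 : 0 ≤ x) (en : (n : ℝ) = exp x) (CH1 : 1 ≤ CH)
    (hb : ∀ f, (∀ x, 0 < f x) → mean (mu W) f = 1 → ∀ R ≥ (0 : ℝ),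
      ev W f (G0 W R) ≤ CH * (ent (mu W) f + n ^ 2 * exp (-(R ^ 2 / CH))))
    (de : Dec W θ θ' ((8 / 7) ^ 3)) (s0 : 2 * a' ≤ θ') (s1 : 1 / 4 ≤ θ - 2 * a / 3)
    (s2 : (8 / 7 : ℝ) ^ 2 * Bb ≤ 4 / 5 * (θ - 2 * a / 3)) {ρ : ℝ → ℝ}
    (fa : Facts W ρ (δ * x + 1) (exp ((1 - c / 2) * x)) a' (exp ((a' - a) * δ / 2 * x))
      (exp (-c' * x)) (exp (c / 100 * x)) (exp (-exp ((1 - c / 2) * x))) (2 * a / 3) Bb)
    (v1 : (1 + 12 * CH / η + (64 / η) ^ 3 + 18 * CH / ω) ^ 2 ≤ x) (v2 : 76 ≤ δ * x)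
    (v3 : C * exp C + 40 / η + exp (2 * a) + 1 / a + 20 ≤ exp (ω * x))
    (v4 : 2 * δ * x ≤ exp (ω * x)) (v5 : 3 * x ≤ exp ((1 - c) * x))
    (v6 : 5 / 2 * exp ((1 - c) * x) ≤ exp ((1 - c / 2) * x))
    {f : Cube n → ℝ} (hf : Warm (mu W) (exp ((1 - c) * x)) f) :
    B.Paid (mu W) (fun f => B.Df (B.dn (mu W) f) (mu W)) a η (exp (e * x)) T f := by
  have a0 := pa.a0
  have hη := pa.η0
  have C0 : 0 ≤ C := zero_le_one.trans pa.C1
  have δp := pa.δ0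
  have c0 := pa.c0
  obtain ⟨R, R1, R0, R2, R3⟩ := numR CH1 hη pa.ω0 v1
  have t1 : 0 ≤ C * exp C := by positivity
  have t2 : 0 ≤ 40 / η := by positivity
  have t3 : 0 ≤ exp (2 * a) := by positivity
  have t4 : 0 ≤ 1 / a := by positivity
  have u1 : C * exp C ≤ exp (ω * x) := by linarith only [v3, t2, t3, t4]
  have u2 : 40 / η ≤ exp (ω * x) := by linarith only [v3, t1, t3, t4]
  have u3 : 20 ≤ exp (ω * x) := by linarith only [v3, t1, t2, t3, t4]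
  have u4 : exp (2 * a) ≤ exp (ω * x) := by linarith only [v3, t1, t2, t4]
  have u5 : 1 / a ≤ exp (ω * x) := by linarith only [v3, t1, t2, t3]
  have u6 : 2 ≤ exp (ω * x) := by linarith only [u3]
  have u7 : δ * x + 1 ≤ exp (ω * x) := by linarith only [v4, v2]
  have D1 : 1 ≤ exp ((1 - c) * x) := one_le_exp (mul_nonneg (by linarith only [pa.c1]) x0)
  have y1 : exp (-c' * x) ≤ 1 :=
    exp_le_one_iff.2 (mul_nonpos_of_nonpos_of_nonneg (neg_nonpos.2 pa.c2.le) x0)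
  have y2 : η / (40 * exp (ω * x)) ≤ 1 := by
    rw [div_le_one (by positivity)]; linarith only [u3, pa.η1]
  have y3 : 2 * a / 3 < θ := by linarith only [s1]
  have y4 : 0 ≤ δ * x := by positivity
  have y5 : 0 < η / (40 * exp (ω * x)) := by positivity
  have st := step n W hW ρ θ θ' (8 / 7) (δ * x) (exp ((1 - c / 2) * x)) a'
    (exp ((a' - a) * δ / 2 * x)) (exp (-c' * x)) (exp (c / 100 * x))
    (exp (-exp ((1 - c / 2) * x))) (2 * a / 3) Bb (exp ((1 - c) * x))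
    (exp ((1 - c) * x)) (η / (40 * exp (ω * x))) f de fa hf (by norm_num) y4
    (exp_pos _) (a0.trans pa.aa).le s0 (by positivity) y3 (exp_pos _).le
    (exp_pos _) y1 (one_le_exp (by positivity)) (exp_pos _).le
    (exp_pos _).le D1 y5 y2 (num1 C0 x0 hη u1 u2 u6 pa.i1)
  have n4 := num4 C0 x0 u1 u3 pa.i4 v5 v6
  rw [← en] at n4 R0
  refine core hW red cont loop hf.1 hf.2.1 (CH := CH) (fun g g1 g2 => ?_) fa.cont fa.nn fa.int a0
    y3 y4 y5.le (by positivity) (by positivity) (num5 s1 v2 s2) st hη pa.η1 R1 R2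
    R3 (num2 C0 x0 hη δp.le u1 u2 u6 u4 u7 pa.i2 pa.i3) (num3 x0 u3 u4 pa.i5)
    (num6 x0 a0 n4 u5 pa.i6)
  have := hb g g1 g2 R (zero_le_one.trans R1)
  rwa [R0] at this

theorem numβ {β l a a' : ℝ} (b0 : 0 < β) (b1 : β < 1) (hl : l ≤ (1 - β) ^ 2) (l2 : 1 / 2 < l)
    (aa : a < a') (al : a' < l) : β ≤ 3 / 10 ∧ β + β / 1000 ≤ 1 ∧
      64 / 27 * (β + β / 1000) ^ 2 + β ^ 2 / 100 ≤ 12 / 5 * β ^ 2 ∧ 3 / 2 * (12 / 5 * β ^ 2) < 1 ∧
      1 ≤ (8 / 7 : ℝ) ^ 3 * (1 - 3 / 2 * (12 / 5 * β ^ 2)) ∧ 2 * a' ≤ 2 - 12 / 5 * β ^ 2 ∧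
      1 / 4 ≤ 1 - 12 / 5 * β ^ 2 - 2 * a / 3 ∧
      (8 / 7 : ℝ) ^ 2 * (3 * β ^ 2 + 1 / 1000) ≤ 4 / 5 * (1 - 12 / 5 * β ^ 2 - 2 * a / 3) := by
  have b3 : β ≤ 3 / 10 := by
    by_contra hh
    have := lt_of_not_ge hh
    nlinarith
  obtain ⟨g1, -, g3, g4⟩ := S6k.gain_num (b2 := β ^ 2) (Rh := 3 * β ^ 2 + 1 / 1000) b0.le l2.le hl
    b1.le (by linarith) le_rfl
  exact ⟨b3, by linarith, by nlinarith, by nlinarith, g3, by nlinarith, by linarith, by linarith⟩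

end L45

open L45 in
theorem locGlue : LocGlue := by
  intro hA nice ok red hb dec cont step loop facts β l 𝒬 b0 b1 hl q1 q2 q3 l2 a a0 al c0 hc0
  refine ⟨1, one_pos, fun e he η0 hη0 => ?_⟩
  refine neg_mono (min_le_left c0 (1 / 2)) (min_le_left η0 1) ?_
  obtain ⟨c, hc, c1, hcc⟩ : ∃ c > (0 : ℝ), c ≤ 1 / 2 ∧ min c0 (1 / 2) = c :=
    ⟨_, lt_min hc0 (by norm_num), min_le_right _ _, rfl⟩
  obtain ⟨η, hη, η1, hηη⟩ : ∃ η > (0 : ℝ), η ≤ 1 ∧ min η0 1 = η :=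
    ⟨_, lt_min hη0 one_pos, min_le_right _ _, rfl⟩
  rw [hcc, hηη]
  obtain ⟨a', aa, a'l⟩ := exists_between al
  obtain ⟨b3, b4, b5, b6, b7, b8, b9, b10⟩ := numβ b0 b1 hl l2 aa a'l
  obtain ⟨K1, k1, hA⟩ := hA β b0.le b1
  obtain ⟨K2, k2, nice⟩ := nice
  obtain ⟨CH, CH1, hb⟩ := hb (K1 + K2) (add_pos k1 k2)
  obtain ⟨e0, e00, dec⟩ := dec (β ^ 2 / 100) (by positivity)
  obtain ⟨C, C1, step⟩ := step
  obtain ⟨c', c'0, c'1, facts⟩ := facts β l 𝒬 b0 b1 l2 hl q1 q2 q3 a a' a0 aa a'l (1 / 1000)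
    (by norm_num) c hc (by linarith only [c1])
  obtain ⟨δ0, δ00, facts⟩ := facts (c / 100) (by positivity)
  obtain ⟨δ, ω, d1, pa⟩ := exPa a0 aa hc c1 c'0 c'1 C1 he hη η1 δ00
  have δp := pa.δ0
  refine (((hA.and nice).and (ok β b0 b3 (β / 1000) (by positivity) (min e0 1)
    (lt_min e00 one_pos))).and (facts δ δp d1 ((a' - a) * δ / 2)
      (half_pos (mul_pos (sub_pos.2 aa) δp)))).mono ?_
  filter_upwards [eventually_gt_atTop 0,
    ev_log ((1 + 12 * CH / η + (64 / η) ^ 3 + 18 * CH / ω) ^ 2), ev_log (76 / δ),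
    ev_le (C * exp C + 40 / η + exp (2 * a) + 1 / a + 20) pa.ω0, B.ev_log_le (2 * δ) pa.ω0,
    B.ev_log_le 3 (show 0 < 1 - c by linarith only [c1]),
    B.ev_mul (5 / 2) (show 1 - c < 1 - c / 2 by linarith only [hc])]
    with n hn v1 v2 v3 v4 v5 v6 g ⟨⟨⟨at1, ni⟩, ok⟩, ρ, fa⟩ f hf
  have hn' : (0 : ℝ) < n := by exact_mod_cast hn
  have ni := ni β b0.le b1.le
  rw [← Reg.mu_Jmat] at at1 hf
  have goal : B.DfF β n g = fun f => B.Df (B.dn (mu (β • Jmat n g)) f) (mu (β • Jmat n g)) := by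
    ext f; rw [B.DfF, Reg.mu_Jmat]
  rw [goal, ← Reg.mu_Jmat]
  generalize β • Jmat n g = W at *
  simp only [rp hn] at v3 v4 v5 v6 fa hf ⊢
  have bb0 : 0 ≤ β + β / 1000 := by positivity
  have ok1 : Ok W 1 1 := ok_mono ok bb0 b4 (min_le_right _ _)
  rw [div_le_iff₀' δp] at v2
  exact fix ok1 red cont loop step pa (log_natCast_nonneg n) (exp_log hn').symm CH1
    (hb n W ok1 (Reg.Nice.mono ni (le_add_of_nonneg_left k1.le))
      (at1.mono (mu_pos W) (le_add_of_nonneg_right k2.le) le_rfl))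
    (dec n W _ _ (ok_mono ok bb0 le_rfl (min_le_left _ _)) b5 b6 _ b7) b8 b9 b10 fa
    v1 v2 v3 v4 v5 v6 hf

end Crest.Agent.T157.S6a

end
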