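import Crest.Agent.T157.S6Def_93
import Crest.Agent.T157.RegNice_66

/-!
# Row 157, block S6 (helper90): the couplings (`S6a.OkStmt`)
-/

set_option autoImplicit false

noncomputable section

namespace Crest.Agent.T157.S6a

open Matrix Real Filter Topology MeasureTheory
open Crest.ProbabilityR.SpinGlassDynamics (disorderLaw Pair)
open Crest.Agent.T157.E hiding mean gv
open Crest.Agent.T157.Eig Crest.Agent.T157.Conc

namespace Ok90

variable {n : ℕ}

lemma elip (i : Fin n) : ELip (√(2 / n)) fun g => nrm (Jmat n g i) := fun x y => by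
  have e : Jmat n x i - Jmat n y i = Jmat n (x - y) i := by rw [← Nrm.Jmat_sub]; rfl
  have h1 := nrm_add_le (Jmat n x i - Jmat n y i) (Jmat n y i)
  have h2 := nrm_add_le (-(Jmat n x i - Jmat n y i)) (Jmat n x i)
  rw [sub_add_cancel] at h1
  rw [nrm_neg, neg_sub, sub_add_cancel] at h2
  refine le_trans (abs_le.2 ⟨by linarith, by linarith⟩ : _ ≤ nrm (Jmat n x i - Jmat n y i)) ?_
  rw [e]
  refine le_trans ((nrm_le_iff (opn_nonneg _)).2 ?_) (Nrm.opn_Jmat_le _)
  have h3 := Da.Gr.row_sq_le (Jmat n (x - y)) i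
  simpa only [Jmat_symm (x - y) _ i, sq, dotProduct] using h3

lemma entry (i k : Fin n) : Integrable (fun g => Jmat n g i k * Jmat n g i k) (gv (Pair n)) ∧
    ∫ g, Jmat n g i k * Jmat n g i k ∂gv (Pair n) ≤ 1 / n := by
  have key : ∀ p : Pair n, Integrable (fun g : Pair n → ℝ => g p / √n * (g p / √n)) (gv (Pair n)) ∧
      ∫ g, g p / √n * (g p / √n) ∂gv (Pair n) ≤ 1 / n := fun p => by
    simp only [div_mul_div_comm, mul_self_sqrt (Nat.cast_nonneg (α := ℝ) n)]
    exact ⟨(Nrm.integrable_sq_coord p).div_const _, by rw [integral_div, Nrm.integral_sq_coord]⟩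
  unfold Jmat
  split_ifs
  · exact key _
  · exact key _
  · simp

lemma mean_le (hn : 0 < n) (i : Fin n) : ∫ g, nrm (Jmat n g i) ∂gv (Pair n) ≤ 1 := by
  have n0 : (0 : ℝ) < n := by exact_mod_cast hn
  have hi : Integrable (fun g => Jmat n g i ⬝ᵥ Jmat n g i) (gv (Pair n)) :=
    integrable_finsetSum _ fun k _ => (entry i k).1
  have h1 : ∫ g, Jmat n g i ⬝ᵥ Jmat n g i ∂gv (Pair n) ≤ 1 := by
    simp only [dotProduct]
    rw [integral_finsetSum _ fun k _ => (entry i k).1]
    refine (Finset.sum_le_card_nsmul _ _ _ fun k _ => (entry i k).2).trans (le_of_eq ?_)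
    simp only [Finset.card_univ, Fintype.card_fin, nsmul_eq_mul]
    field_simp
  refine (integral_mono (elip i).integrable ((hi.add (integrable_const 1)).div_const 2)
    fun g => ?_).trans ?_
  · change nrm _ ≤ (Jmat n g i ⬝ᵥ Jmat n g i + 1) / 2
    nlinarith [nrm_sq (Jmat n g i), sq_nonneg (nrm (Jmat n g i) - 1)]
  · change ∫ g, (Jmat n g i ⬝ᵥ Jmat n g i + 1) / 2 ∂gv (Pair n) ≤ _
    rw [integral_div, integral_add hi (integrable_const 1), integral_const, probReal_univ, one_smul]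
    linarith

lemma lim {c : ℝ} (hc : 0 < c) : Tendsto (fun n : ℕ => (n : ℝ) * exp (-(n * c))) atTop (𝓝 0) := by
  have h1 : Tendsto (fun n : ℕ => (n : ℝ) * c) atTop atTop :=
    tendsto_natCast_atTop_atTop.atTop_mul_const hc
  have h2 := ((tendsto_pow_mul_exp_neg_atTop_nhds_zero 1).comp h1).div_const c
  rw [zero_div] at h2
  refine h2.congr fun n => ?_
  simp only [Function.comp, pow_one]
  field_simp

/-- the rows of the coupling matrix have length at most `1 + t` -/
theorem whp_row {t : ℝ} (ht : 0 < t) :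
    Top.Whp disorderLaw fun n g => ∀ i, nrm (Jmat n g i) ≤ 1 + t := by
  refine Top.whp_of_real_le (lim (by positivity : 0 < t ^ 2 / 4))
    ((eventually_gt_atTop 0).mono fun n hn => ?_)
  have n0 : (0 : ℝ) < n := by exact_mod_cast hn
  have hs : {g | ¬ ∀ i, nrm (Jmat n g i) ≤ 1 + t} ⊆
      ⋃ i, {g | t ≤ nrm (Jmat n g i) - ∫ g, nrm (Jmat n g i) ∂gv (Pair n)} := fun g hg => by
    obtain ⟨i, hi⟩ := not_forall.1 hg
    refine Set.mem_iUnion.2 ⟨i, ?_⟩
    change t ≤ _
    linarith [mean_le hn i, not_le.1 hi]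
  refine (measureReal_mono hs).trans ((measureReal_iUnion_fintype_le _).trans ?_)
  refine (Finset.sum_le_card_nsmul _ _ _ fun i _ => tail_lip (elip i) ht.le).trans (le_of_eq ?_)
  simp only [Finset.card_univ, Fintype.card_fin, nsmul_eq_mul]
  congr 2
  rw [sq_sqrt (by positivity)]
  field_simp
  ring

theorem whp_opn {t : ℝ} (ht : 0 < t) : Top.Whp disorderLaw fun n g => opn (Jmat n g) ≤ 2 + t := by
  have h := (lim (by positivity : 0 < t ^ 2 / 4)).const_mul 2
  rw [mul_zero] at h
  refine Top.whp_of_real_le h ((eventually_ge_atTop 1).mono fun n hn => ?_)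
  have n0 : (1 : ℝ) ≤ n := by exact_mod_cast hn
  refine (measureReal_mono fun g hg => (not_le.1 hg).le).trans ((Nrm.Jmat_opn_tail ht.le).trans ?_)
  rw [mul_div_assoc]
  exact mul_le_mul_of_nonneg_left (le_mul_of_one_le_left (exp_pos _).le n0) zero_le_two

end Ok90

open Ok90 in
theorem okStmt : OkStmt := fun β b0 b1 γ hγ e he => by
  obtain ⟨K, -, hK⟩ := Reg.niceStmt
  refine ((hK.and (whp_row hγ)).and (whp_opn one_pos)).mono ?_
  filter_upwards [eventually_gt_atTop 0,
    tendsto_natCast_atTop_atTop.eventually_ge_atTop (K ^ 4 / e ^ 4)] with n hn hn' g ⟨⟨h1, h2⟩, h3⟩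
  have n0 : (0 : ℝ) < n := by exact_mod_cast hn
  obtain ⟨a1, -, a2⟩ := h1 β b0.le (by linarith)
  refine ⟨hn, a1, fun i => by simp [Jmat_diag], ?_, fun i => ?_, fun i j => ?_⟩
  · rw [opn_smul, abs_of_pos b0]
    nlinarith [opn_nonneg (Jmat n g)]
  · have c1 := pow_le_pow_left₀ (nrm_nonneg _) (h2 i) 2
    have c2 : ∑ j, (β • Jmat n g) i j ^ 2 = β ^ 2 * nrm (Jmat n g i) ^ 2 := by
      simp only [nrm_sq, dotProduct, Finset.mul_sum, Matrix.smul_apply, smul_eq_mul]
      exact Finset.sum_congr rfl fun j _ => by ring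
    rw [c2]
    refine (mul_le_mul_of_nonneg_left c1 (sq_nonneg β)).trans ?_
    rw [← mul_pow]
    exact pow_le_pow_left₀ (by positivity) (by nlinarith) 2
  · have c1 : (β • Jmat n g) i j ^ 4 ≤ e ^ 4 := by
      refine ((Finset.single_le_sum (f := fun k => (β • Jmat n g) i k ^ 4)
        (fun _ _ => by positivity) (Finset.mem_univ j)).trans (a2 i)).trans ?_
      rw [div_le_iff₀ n0, mul_comm]
      exact (div_le_iff₀ (by positivity)).1 hn'
    rw [← Even.pow_abs (by decide)] at c1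
    exact (pow_le_pow_iff_left₀ (abs_nonneg _) he.le (by norm_num)).1 c1

end Crest.Agent.T157.S6a

end
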