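import Crest.Agent.T157.S6Def_93
import Crest.Agent.T157.S6Fl_47
import Crest.Agent.T157.S6PL_20

/-!
# Row 157, block S6 (helper20): the leaves (P) and (Eq)
-/

set_option autoImplicit false

noncomputable section

namespace Crest.Agent.T157.S6a

open Matrix Real Finset
open Crest.Agent.T157.E Crest.Agent.T157.Eig
open Crest.Agent.T157.Tap (V Mx)
open Crest.Agent.T157.Rec (fl sg_const_mul sg_mono sg_const sg_nonneg)
open Crest.Agent.T157.Da.Gr (loc tt loc_fl)
open Crest.Agent.T157.Chain22 (sg sg_zero hasDerivAt_sg)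
open Crest.Agent.T157.Reg (VF mu Tk am off)
open Crest.Agent.T157.Reg.Bas66 (mu_pos)
open Crest.Agent.T157.S6h Crest.Agent.T157.S6 Crest.Agent.T157.S6b

theorem pStmt : PStmt := by
  have c0 : 0 ≤ cP 1 := by unfold cP c32 bL bK; positivity
  refine ⟨cP 1 + 1, by linarith, fun n W h U hU s hs =>
    ⟨eL W s U, hU.eL h.sym s, sg_dv h.pos h.sym hU s, fun x => ?_⟩⟩
  have := P32_LL h.pos h.sym h.op (U := fun s => eL W s U) (g := fun _ => 0)
    (fun s => hU.eL h.sym s) (fun s x k => by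
      simpa using hasDerivAt_ev (hasDerivAt_eL h.sym hU s) x k) (fun _ _ => continuous_const) hs x
  simp only [eL_zero, Pi.zero_apply, dotProduct_zero, zero_rpow (show (3 / 4 : ℝ) ≠ 0 by norm_num),
    duh, sg_const h.pos (mu_pos W), mul_zero, intervalIntegral.integral_zero, add_zero] at this
  exact this.trans (mul_le_mul_of_nonneg_right (exp_le_exp.2 (by nlinarith))
    (sg_nonneg h.pos (mu_pos W) hs (fun z => rpow_nonneg (dn _) _) x))

namespace Pe20

variable {n : ℕ} {W : Mx n} {K : ℝ}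

theorem twF_z' (hW : Wᵀ = W) (hK : opn W ≤ K) {y : VF n} (hy : FrV y) (F : Cube n → ℝ) (x : Cube n) :
    TwF (Tk W) (fun z j => y z j - F z) (fun z j => Lc W j (cp y j) z - gen (mu W) F z) x (bK K * K) 0
      (bM K * √(aS (Tk W) F x)) := by
  set Z : VF n := fun z j => y z j - F z with hZ
  have h1 := tw_rate (u := Z x) (v := inc Z x) (fun j => (Tk_pos W x j).le) (δ := dr W x)
    (c := fun k j => bK K * |W j k|) (fun k j => dr_le hW hK x k j _) (dr_sq hK)
  have b0 := mul_nonneg (bK_pos K).le ((opn_nonneg W).trans hK)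
  refine (h1.add (tw_src (dr W x *ᵥ fun i => dl i F x)) b0 le_rfl).mono (le_of_eq ?_) (by linarith)
    (by linarith) (by linarith) ?_
  · simp only [dotProduct, ← sum_add_distrib, ← sum_sub_distrib]
    refine sum_congr rfl fun j _ => ?_
    rw [Lc_eq hW (hy j), gen_dl hW, gen_dl hW, mulVec, dotProduct]
    simp only [inc, hZ, Pi.sub_apply, dl, cp, ← mul_add, ← mul_sub, ← sum_add_distrib,
      ← sum_sub_distrib]
    congr 1
    exact sum_congr rfl fun i _ => by ring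
  · rw [zero_add]
    refine (nr_dr hW hK x _).trans (le_of_eq ?_)
    simp only [nr, aS, dotProduct, dl, sq]

theorem cc_abs (W : Mx n) (x : Cube n) (k : Fin n) : |cc W x k| ≤ 1 :=
  abs_le.2 ⟨le_trans (by norm_num) (c_mem W x k).1, (c_mem W x k).2⟩

theorem qq_le (hW : Wᵀ = W) (x : Cube n) {j k : Fin n} (h : j ≠ k) :
    |qq W x j k| ≤ 1 ∧ |qq W x j k - cc W x k| ≤ 4 * |W k j| := by
  rw [qq, sym hW k j]
  split_ifs with e
  · exact ⟨cc_abs W x k, by simp⟩
  have p := abs_pos.2 e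
  have a := am_near hW x j k
  simp only [off, of_apply, if_neg h, one_mul] at a
  refine ⟨by rw [abs_div, div_le_one p, sym hW j k]; exact (abs_am_le W x j k).1, ?_⟩
  rw [show am W x j k / W j k - cc W x k = (am W x j k - W j k * (1 - tt W 0 x k ^ 2)) / W j k by
    rw [cc]; field_simp, abs_div, div_le_iff₀ p, mul_assoc, abs_mul_abs_self, ← sq]
  exact a

theorem fr_qq (hW : Wᵀ = W) {j k : Fin n} (h : j ≠ k) : Fr j fun x => qq W x j k := fun x => by
  simp only [qq, am_fl]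
  split_ifs with e
  · simp only [cc, tt, loc_fl, if_neg h, sym hW k j, e, mul_zero, sub_zero]
  · rfl

theorem fr_src (hW : Wᵀ = W) (ψ : VF n) {j k : Fin n} (h : j ≠ k) :
    Fr j fun z => qq W z j k * Ec W k j (cp ψ k) z := fun x => by
  have a := fr_qq hW h x
  simp only at a ⊢
  rw [a, fr_Ec]

theorem fr_yy (hn : 0 < n) (hW : Wᵀ = W) (ψ : VF n) (v : ℝ) (k : Fin n) :
    FrV fun x j => yy W ψ v k j x := fun j x => by
  simp only [cp, yy]
  split_ifs with e
  · rfl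
  · exact (fr_src hW ψ e).sg_cw hn hW v x

theorem fr_alf (hn : 0 < n) (hW : Wᵀ = W) {ω : VF n} (h : FrV ω) (s : ℝ) : FrV (alf W ω s) :=
  fun k x => by simp only [cp, alf]; rw [(h k).sg_cw hn hW s x]

/-- the constant of the marker equations -/
def b0 : ℝ := bK 1 + bM 1 + 2 * (4 * 1) ^ 2 + 2 * (1 + bK 1 * 1) ^ 2 + 1

theorem b0_ge : bK 1 * 1 ≤ b0 ∧ bM 1 ≤ b0 ∧ 2 * (4 * 1) ^ 2 + 2 * (1 + bK 1 * 1) ^ 2 + 1 ≤ b0 ^ 2 ∧
    1 ≤ b0 := by
  have a := bK_pos 1
  have b : 0 ≤ bM 1 := by unfold bM; positivity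
  have c := sq_nonneg (1 + bK 1 * 1)
  have d : 1 ≤ b0 := by unfold b0; linarith
  refine ⟨by unfold b0; linarith, by unfold b0; linarith, ?_, d⟩
  have : 2 * (4 * 1) ^ 2 + 2 * (1 + bK 1 * 1) ^ 2 + 1 ≤ b0 := by unfold b0; linarith
  nlinarith

theorem mk (h : Ok W 1 1) {ω : VF n} (hω : FrV ω) (k : Fin n) :
    Mk (mu W) (Tk W) b0 (fun u => cp (alf W ω u) k)
      (fun u z => Lc W k (cp (alf W ω u) k) z - 1 * cp (alf W ω u) k z)
      (fun u v => ka W (alf W ω u) v k) (fun u v x j => zz W (alf W ω u) v k j x)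
      (fun u v x j => Lc W j (yy W (alf W ω u) v k j) x - gen (mu W) (ka W (alf W ω u) v k) x) where
  da s x := by
    refine ((hasDerivAt_neg s).exp.mul (hasDerivAt_sg_cw h.pos h.sym (hω k) x s)).congr_deriv ?_
    simp only [Lc, dl, cp, alf, ← mul_sub, mul_left_comm _ (exp (-s)), ← mul_sum]
    ring
  ta s x := (twF_al h.sym h.op (fr_alf h.pos h.sym hω s k) zero_le_one x).mono le_rfl
    (by linarith [bK_pos 1]) b0_ge.1 le_rfl le_rfl
  dk u v x := hasDerivAt_sg h.pos (mu_pos W) _ x v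
  k0 u x := by
    simp only [ka, sg_zero h.pos (mu_pos W), mul_pow, cp]
    exact mul_le_of_le_one_left (sq_nonneg _) ((sq_le_one_iff_abs_le_one _).2 (cc_abs W x k))
  dz u v x j := by
    refine HasDerivAt.sub ?_ (hasDerivAt_sg h.pos (mu_pos W) _ x v)
    by_cases e : j = k
    · simp only [yy, if_pos e, Lc, dl, sub_self, mul_zero, sum_const_zero]
      exact hasDerivAt_const _ _
    · have : yy W (alf W ω u) v k j = sg (cw W j) v
          fun z => qq W z j k * Ec W k j (cp (alf W ω u) k) z := funext fun _ => if_neg e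
      simp only [this, yy, if_neg e]
      exact hasDerivAt_sg_cw h.pos h.sym (fr_src h.sym _ e) x v
  tz u v x := (twF_z' h.sym h.op (fr_yy h.pos h.sym _ v k) _ x).mono le_rfl
    (by linarith [bK_pos 1]) b0_ge.1 le_rfl (mul_le_mul_of_nonneg_right b0_ge.2.1 (sqrt_nonneg _))
  z0 u x := by
    have a := z0_le h.sym h.op k (cp (alf W ω u) k) x (q := fun j => qq W x j k) (c := cc W x k)
      (b := 4) fun j hj => qq_le h.sym x hj
    have b : (cc W x k * cp (alf W ω u) k x) ^ 2 ≤ cp (alf W ω u) k x ^ 2 := by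
      rw [mul_pow]
      exact mul_le_of_le_one_left (sq_nonneg _) ((sq_le_one_iff_abs_le_one _).2 (cc_abs W x k))
    have e : ∀ j, zz W (alf W ω u) 0 k j x * zz W (alf W ω u) 0 k j x =
        (if j = k then 0 else qq W x j k * Ec W k j (cp (alf W ω u) k) x -
          cc W x k * cp (alf W ω u) k x) ^ 2 +
        if j = k then (cc W x k * cp (alf W ω u) k x) ^ 2 else 0 := fun j => by
      simp only [zz, yy, ka, sg_zero h.pos (mu_pos W), sg_zero h.pos (cw_pos W j), cp]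
      split_ifs <;> ring
    simp only [dotProduct, e, sum_add_distrib, sum_ite_eq', mem_univ, if_true]
    nlinarith [mul_le_mul_of_nonneg_right b0_ge.2.2.1 (add_nonneg (sq_nonneg (cp (alf W ω u) k x))
      (aS_nn (r := Tk W) (cp (alf W ω u) k) x)), aS_nn (r := Tk W) (cp (alf W ω u) k) x]

theorem Z1_eq (ψ : VF n) (v : ℝ) (k : Fin n) (x : Cube n) : Z1 W ψ v k x =
    ka W ψ v k x ^ 2 + (fun j => zz W ψ v k j x) ⬝ᵥ fun j => zz W ψ v k j x := by
  simp only [Z1, dotProduct, sq]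

theorem Z2_eq (ψ : VF n) (v : ℝ) (k : Fin n) : S6a.Z2 W ψ v k =
    S6b.Z2 (Tk W) (ka W ψ v k) fun x j => zz W ψ v k j x := by
  funext x
  rw [S6a.Z2, S6b.Z2, Z1_eq]
  congr 1
  simp only [aa, aV, dotProduct, mul_sum]
  rw [sum_comm]
  exact sum_congr rfl fun i _ => sum_congr rfl fun j _ => by simp only [inc, dl, Pi.sub_apply]; ring

theorem abs_sg_le {w F : Cube n → ℝ} (hn : 0 < n) (hw : ∀ x, 0 < w x) {s M : ℝ} (hs : 0 ≤ s)
    (h : ∀ x, |F x| ≤ M) (x : Cube n) : |sg w s F x| ≤ M := by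
  have a := sg_mono hn hw hs (fun z => (abs_le.1 (h z)).1) x
  have b := sg_mono hn hw hs (fun z => (abs_le.1 (h z)).2) x
  rw [sg_const hn hw] at a b
  exact abs_le.2 ⟨a, b⟩

theorem aa_le {F : Cube n → ℝ} {M : ℝ} (h : ∀ x, |F x| ≤ M) (x : Cube n) :
    aa W F x ≤ n * (2 * M) ^ 2 := by
  refine (sum_le_sum (g := fun _ => (2 * M) ^ 2) fun i _ => ?_).trans (by simp)
  rw [← sq_abs, abs_mul, abs_of_pos (Tk_pos W x i)]
  refine pow_le_pow_left₀ (mul_nonneg (Tk_pos W x i).le (abs_nonneg _)) ((mul_le_of_le_one_left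
    (abs_nonneg _) (Tk_lt W x i).le).trans ((abs_sub _ _).trans ?_)) 2
  linarith [h (fl x i), h x]

theorem alf_le (h : Ok W 1 1) {ω : VF n} {M u : ℝ} (hM : ∀ x k, |ω x k| ≤ M) (hu : 0 ≤ u)
    (x : Cube n) (k : Fin n) : |alf W ω u x k| ≤ M := by
  rw [alf, abs_mul, abs_of_pos (exp_pos _)]
  exact (mul_le_of_le_one_left (abs_nonneg _) (exp_le_one_iff.2 (by linarith))).trans
    (abs_sg_le h.pos (cw_pos W k) hu (fun z => hM z k) x)

theorem Z2_le (h : Ok W 1 1) {ψ : VF n} {M v : ℝ} (hM : ∀ x k, |ψ x k| ≤ M) (hv : 0 ≤ v)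
    (k : Fin n) (x : Cube n) : S6a.Z2 W ψ v k x ≤ 25 * n ^ 2 * M ^ 2 := by
  have M0 : 0 ≤ M := (abs_nonneg _).trans (hM x k)
  have a1 : ∀ x, |ka W ψ v k x| ≤ M := abs_sg_le h.pos (mu_pos W) hv fun z => by
    rw [abs_mul]; exact (mul_le_of_le_one_left (abs_nonneg _) (cc_abs W z k)).trans (hM z k)
  have a2 : ∀ j x, |zz W ψ v k j x| ≤ 2 * M := fun j x => by
    have : |yy W ψ v k j x| ≤ M := by
      rw [yy]
      split_ifs with e
      · rwa [abs_zero]
      refine abs_sg_le h.pos (cw_pos W j) hv (fun z => ?_) x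
      rw [abs_mul]
      refine (mul_le_of_le_one_left (abs_nonneg _) (qq_le h.sym z e).1).trans ?_
      have r0 := rc_pos W k j z
      have r1 := rc_lt W k j z
      have p := abs_le.1 (hM z k)
      have q := abs_le.1 (hM (fl z j) k)
      simp only [Ec, dl, cp]
      exact abs_le.2 ⟨by nlinarith, by nlinarith⟩
    exact (abs_sub _ _).trans (by linarith [a1 x])
  have b1 : ka W ψ v k x ^ 2 ≤ M ^ 2 := sq_le_sq' (abs_le.1 (a1 x)).1 (abs_le.1 (a1 x)).2
  have b2 : ∑ j, zz W ψ v k j x ^ 2 ≤ n * (2 * M) ^ 2 :=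
    (sum_le_sum (g := fun _ => (2 * M) ^ 2) fun j _ =>
      sq_le_sq' (abs_le.1 (a2 j x)).1 (abs_le.1 (a2 j x)).2).trans (by simp)
  have b3 := aa_le (W := W) a1 x
  have b4 : ∑ j, aa W (zz W ψ v k j) x ≤ n * (n * (2 * (2 * M)) ^ 2) :=
    (sum_le_sum (g := fun _ => n * (2 * (2 * M)) ^ 2) fun j _ => aa_le (a2 j) x).trans (by simp)
  have n1 : (1 : ℝ) ≤ n := Nat.one_le_cast.2 h.pos
  rw [S6a.Z2, Z1]
  nlinarith [mul_le_mul_of_nonneg_right (show (n : ℝ) ≤ n ^ 2 by nlinarith) (sq_nonneg M),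
    mul_le_mul_of_nonneg_right n1 (sq_nonneg M)]

end Pe20

open Pe20

theorem eqStmt : EqStmt := by
  have b1 := b0_ge.2.2.2
  have c1 : 0 ≤ k32 b0 := by unfold k32; positivity
  have c2 : 0 ≤ r32 b0 := by unfold r32 c32; positivity
  have c3 := sq_nonneg b0
  refine ⟨12 * b0 ^ 2 + 25 + 2 * k32 b0 + r32 b0, by linarith, fun n W h ω hω =>
    ⟨fun p hp t ht x k => ?_, fun M hM u hu v hv x k => ?_⟩⟩
  · have m := mk h hω k
    have r := rt_mu h.pos h.sym
    have e : ∀ y, cp (alf W ω 0) k y = ω y k := fun y => by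
      simp [cp, alf, sg_zero h.pos (cw_pos W k)]
    have g : ∀ {a b : ℝ}, 0 ≤ a → a ≤ 12 * b0 ^ 2 + 25 + 2 * k32 b0 + r32 b0 →
        b ≤ 12 * b0 ^ 2 + 25 + 2 * k32 b0 + r32 b0 → ∀ q : ℝ,
        a * (exp (b * t) * sg (mu W) t (fun z => (ω z k ^ 2) ^ q) x) ≤
        (12 * b0 ^ 2 + 25 + 2 * k32 b0 + r32 b0) * exp ((12 * b0 ^ 2 + 25 + 2 * k32 b0 + r32 b0) * t) *
          sg (mu W) t (fun z => (ω z k ^ 2) ^ q) x := fun a0 ha hb q => by
      rw [← mul_assoc]
      exact mul_le_mul_of_nonneg_right (mul_le_mul ha (exp_le_exp.2 (mul_le_mul_of_nonneg_right hb ht))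
        (exp_pos _).le (by linarith)) (sg_nonneg h.pos (mu_pos W) ht
          (fun z => rpow_nonneg (sq_nonneg _) _) x)
    rcases hp with rfl | rfl
    · refine le_trans ?_ (g (a := 12 * b0 ^ 2 + 4) (b := 2 * b0 ^ 2 + 2) (by positivity) (by linarith)
        (by linarith) 1)
      simpa only [rpow_one, Z1_eq, Z2_eq, e] using m.eq2 r ht x
    · refine le_trans ?_ (g (a := 2 * k32 b0) (b := r32 b0) (by positivity) (by linarith)
        (by linarith) (3 / 4))
      simpa only [Z1_eq, Z2_eq, e] using m.eq32 r (by linarith) ht x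
  · refine (Z2_le h (alf_le h hM hu) hv k x).trans ?_
    gcongr
    linarith

end Crest.Agent.T157.S6a

end
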