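import Crest.Agent.T157.S6Red_39
import Crest.Agent.T157.S6Def_93

/-!
# Row 157, block S6 (helper39): the leaves `RedStmt`, `HbStmt`, `FStmt`
-/

set_option autoImplicit false

noncomputable section

namespace Crest.Agent.T157.S6a

open Matrix Real Set
open Crest.Agent.T157.E hiding mean
open Crest.Agent.T157.Tap (V Mx)
open Crest.Agent.T157.Da.Gr (loc)
open Crest.Agent.T157.Chain22 (sg mean isP_prob')
open Crest.Agent.T157.Ent (cnd brg mean_congr mean_add' mean_const_mul mean_sum')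
open Crest.Agent.T157.Reg (VF mu Nice)
open Crest.Agent.T157.Reg.Bas66 (mu_pos)
open Crest.Agent.T157.S6h Crest.Agent.T157.B Crest.Agent.T157.S6r
open Crest.Agent.T157.Rv (II Warm)

variable {n : ℕ} {W : Mx n} {v f : Cube n → ℝ}

namespace Rd39

theorem dd_eq (W : Mx n) (f : Cube n → ℝ) : dd W f = dk (dn (mu W) f) W := rfl

theorem ev_eq (h1 : E.mean (mu W) f = 1) (F : Cube n → ℝ) :
    ev W f F = mean (prob (dn (mu W) f)) F := (mean_dn (mu_pos W) h1 F).symm

theorem X3_eq (h1 : E.mean (mu W) f = 1) : X3 W f = S6r.X3 W (dn (mu W) f) := ev_eq h1 _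

theorem brg_sym {u a : ℝ} (hu : 0 < u) (ha : 0 < a) :
    2 * (u - a) ^ 2 ≤ (u + a) * (brg u a + brg a u) := by
  wlog h : a ≤ u generalizing u a
  · have := this ha hu (le_of_not_ge h); linarith
  have k := le_log_one_add_of_nonneg (div_nonneg (sub_nonneg.2 h) ha.le)
  rw [show 1 + (u - a) / a = u / a by field_simp; ring, log_div hu.ne' ha.ne',
    show (u - a) / a + 2 = (u + a) / a by field_simp; ring, mul_div_assoc', div_div_div_cancel_right₀ ha.ne',
    div_le_iff₀ (add_pos hu ha)] at k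
  unfold brg
  nlinarith [mul_le_mul_of_nonneg_left k (sub_nonneg.2 h)]

theorem dk_sq_le' (hv : ∀ x, 0 < v x) (hW : Wᵀ = W) (x : Cube n) (k : Fin n) :
    dk v W x k ^ 2 ≤ kS v (mu W) k x + kS (mu W) v k x := by
  have h : ∀ b, dk v W x k ^ 2 / 2 ≤ (cnd v k x b + cnd (mu W) k x b) *
      (brg (cnd v k x b) (cnd (mu W) k x b) + brg (cnd (mu W) k x b) (cnd v k x b)) := fun b => by
    have k1 := brg_sym (Ent.cnd_pos hv k x b) (Ent.cnd_pos (mu_pos W) k x b)
    have e := congrArg (· ^ 2) (dk_cnd hv hW x k b)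
    simp only [sq_abs, div_pow] at e
    linarith
  have h1 := (Ent.isP_cnd hv k x).sum1
  have h2 := (Ent.isP_cnd (mu_pos W) k x).sum1
  rw [Fintype.sum_bool] at h1 h2
  have p := fun b => add_pos (Ent.cnd_pos hv k x b) (Ent.cnd_pos (mu_pos W) k x b)
  have a := h true
  have b := h false
  have p1 := p true
  have p2 := p false
  rw [kS_brg hv (mu_pos W), kS_brg (mu_pos W) hv, add_add_add_comm]
  have e : cnd v k x false + cnd (mu W) k x false = 2 - (cnd v k x true + cnd (mu W) k x true) := by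
    linarith
  rw [e] at b p2
  generalize cnd v k x true + cnd (mu W) k x true = s at *
  generalize brg (cnd v k x true) (cnd (mu W) k x true) + brg (cnd (mu W) k x true) (cnd v k x true) = A at *
  generalize brg (cnd v k x false) (cnd (mu W) k x false) +
    brg (cnd (mu W) k x false) (cnd v k x false) = B at *
  have d0 := sq_nonneg (dk v W x k)
  refine le_of_mul_le_mul_left ?_ (mul_pos p1 p2)
  nlinarith [mul_le_mul_of_nonneg_left a p2.le, mul_le_mul_of_nonneg_left b p1.le,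
    mul_nonneg d0 (sq_nonneg (s - 1))]

theorem mean_G0' {K R : ℝ} (K0 : 0 < K) (hW : Nice W K) (hA : Ent.AT (mu W) K 0) (hR : 0 ≤ R) :
    mean (prob (mu W)) (G0 W R) ≤
      1024 * K ^ 6 * exp (1 / (64 * K ^ 3)) * (n * exp (-(R ^ 2 / (64 * K ^ 3)))) := by
  have h : ∀ k : Fin n, mean (prob (mu W)) (fun x => max (|loc W 0 x k| - R / 2) 0 ^ 2) ≤
      1024 * K ^ 6 * exp (1 / (64 * K ^ 3)) * exp (-(R ^ 2 / (64 * K ^ 3))) := fun k => by
    have m : ∀ τ, mean (prob (mu W)) (fun x => exp (τ * loc W 0 x k)) ≤ exp (4 * K * K ^ 2 * τ ^ 2) :=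
      fun τ => by
        have := Low.herbst_grad k.pos (mu_pos W) K0.le hA (F := fun x => loc W 0 x k) (γ := K ^ 2)
          (fun x => by
            rw [Reg.S42.grad_sq, ← Finset.sum_div]; linarith [Reg.S42.loc_lip hW x k]) τ
        rwa [Chain22.emean_eq _ fun x => loc W 0 x k,
          Reg.S42.mean_odd W fun x => Reg.S42.loc_neg W x k, mul_zero, zero_add] at this
    have θ0 : 0 < (R + 1) / (16 * K ^ 3) := by positivity
    refine ((isP_prob' (mu_pos W)).mean_mono fun x => exc_le _ _ θ0).trans ?_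
    rw [mean_const_mul, mean_add']
    refine (mul_le_mul_of_nonneg_left (add_le_add (m _) (m _)) (by positivity)).trans ?_
    have e : -((R + 1) / (16 * K ^ 3) * (R / 2)) + 4 * K * K ^ 2 * ((R + 1) / (16 * K ^ 3)) ^ 2 =
        1 / (64 * K ^ 3) + -(R ^ 2 / (64 * K ^ 3)) := by field_simp; ring
    rw [neg_sq, ← two_mul, mul_assoc, mul_left_comm _ 2, ← exp_add, e, ← mul_assoc, mul_assoc _ (exp _),
      ← exp_add]
    refine mul_le_mul_of_nonneg_right ?_ (exp_pos _).le
    rw [div_pow, div_div_eq_mul_div, div_mul_eq_mul_div, div_le_iff₀ (by positivity)]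
    nlinarith [mul_le_mul_of_nonneg_left (one_le_pow₀ (le_add_of_nonneg_left hR : 1 ≤ R + 1) (n := 2))
      (by positivity : 0 ≤ 1024 * K ^ 6)]
  refine (mean_sum' _ _).trans_le ((Finset.sum_le_sum fun k _ => h k).trans_eq ?_)
  simp only [Finset.sum_const, Finset.card_univ, Fintype.card_fin, nsmul_eq_mul]; ring

end Rd39

open Rd39

theorem redStmt : RedStmt := fun n W hW f hf h1 => by
  have hv := dn_pos (mu_pos W) hf
  refine ⟨frV_dk _ W, abs_dk_le hv hW.sym, ?_, fun U hU => ?_, fun η R η0 η1 hR => ?_⟩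
  · rw [ev_eq h1, II_mean (mu_pos W) hf h1]
    exact (isP_prob' hv).mean_mono fun x => Finset.sum_le_sum fun k _ =>
      (sq _).symm.trans_le (dk_sq_le' hv hW.sym x k)
  · rw [ev_eq h1, ev_eq h1]; exact mean_dv hv W hU
  · rw [II_mean (mu_pos W) hf h1, X3, ev_eq h1, ev_eq h1, ← mean_const_mul, ← mean_const_mul,
      ← mean_const_mul, ← mean_add', ← mean_add']
    refine (mean_sum' _ _).symm.trans_le ((isP_prob' hv).mean_mono fun x => ?_)
    simp only [G0, Finset.mul_sum, ← Finset.sum_add_distrib]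
    refine Finset.sum_le_sum fun k _ => (site_le hv hW.sym η0 (by linarith) hR x k).trans ?_
    have e : exp (2 * R + 1) ≤ 8 * exp (2 * R) := by
      rw [exp_add, mul_comm]
      exact mul_le_mul_of_nonneg_right (exp_one_lt_d9.le.trans (by norm_num)) (exp_pos _).le
    have := add_nonneg (kS_nn hv (mu_pos W) k x) (kS_nn (mu_pos W) hv k x)
    rw [dd_eq]
    gcongr
    linarith

theorem hbStmt : HbStmt := fun K K0 => by
  have c1 : 0 < 1024 * K ^ 6 * exp (1 / (64 * K ^ 3)) := by positivity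
  have c2 : 0 < K ^ 3 := by positivity
  refine ⟨1 + 64 * K ^ 3 + 2 * (1024 * K ^ 6 * exp (1 / (64 * K ^ 3))), by linarith,
    fun n W hW hN hA f hf h1 R hR => ?_⟩
  have k2 := Reg.Sb51.gen (mu_pos W) K0 hA _ (by positivity) (G0_sb hN hW.dg (R / 2))
    (isP_prob' (dn_pos (mu_pos W) hf))
  rw [kl_dn (mu_pos W) hf h1, ← ev_eq h1] at k2
  have k3 := mean_G0' K0 hN hA hR
  have e0 := Rv.ent_nn (mu_pos W) fun x => (hf x).le
  set c := 1024 * K ^ 6 * exp (1 / (64 * K ^ 3))
  have k4 : (n : ℝ) * exp (-(R ^ 2 / (64 * K ^ 3))) ≤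
      n ^ 2 * exp (-(R ^ 2 / (1 + 64 * K ^ 3 + 2 * c))) :=
    mul_le_mul (by exact_mod_cast Nat.le_self_pow two_ne_zero n) (exp_le_exp.2 (neg_le_neg
      (div_le_div_of_nonneg_left (sq_nonneg _) (by positivity) (by linarith)))) (exp_pos _).le
      (by positivity)
  have k5 : 0 ≤ (n : ℝ) ^ 2 * exp (-(R ^ 2 / (1 + 64 * K ^ 3 + 2 * c))) := by positivity
  change ev W f (G0 W R) ≤ 2 * mean (prob (mu W)) (G0 W R) + _ at k2
  nlinarith [mul_le_mul_of_nonneg_left k4 c1.le, mul_nonneg c2.le e0, mul_nonneg c1.le e0,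
    mul_nonneg c2.le k5]

theorem hbGlue : HbGlue := fun _ _ => hbStmt

theorem fStmt : FStmt := fun n W hW D L M f G hf _ _ hG s1 s2 t h1 h2 h3 => by
  have hw := mu_pos W
  have k := fF hW.pos hW.sym hf (fun x => (hG x).1) h1 h2 h3 L
  have k1 := mul_le_mul_of_nonneg_left (((isP_prob' hw).mean_mono fun x => (hG x).2).trans_eq
    ((isP_prob' hw).mean_const M)) (exp_pos (-L)).le
  rw [intervalIntegral.integral_congr (g := FI W f G t) fun s hs => by
    rw [uIcc_of_le h2] at hs
    exact ev_eq (hf.sg hW.pos hw (by linarith [hs.2])).2.1 _,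
    ev_eq (hf.sg hW.pos hw (by linarith)).2.1]
  linarith

end Crest.Agent.T157.S6a

end
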