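import Crest.Agent.T157.S6Sa_93

/-!
# Row 157, block S6 (helper93): the end step
-/

set_option autoImplicit false

noncomputable section

namespace Crest.Agent.T157.S6a

open Matrix Real Filter Finset intervalIntegral
open Crest.Agent.T157.E
open Crest.Agent.T157.Tap (V Mx)
open Crest.Agent.T157.Chain22 (sg sg_add)
open Crest.Agent.T157.Reg (VF mu)
open Crest.Agent.T157.Rv (Warm II)
open Crest.Agent.T157.S6h (FrV dv)

namespace St93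

/-- the constants -/
theorem consts {C Λ T m N ε η : ℝ} (hC : 1 ≤ C) (hΛ : 1 ≤ Λ) (hT : 0 ≤ T) (hm : 0 < m) (hN : 1 ≤ N)
    (e0 : 0 < ε) (e1 : ε ≤ 1) (h0 : 0 < η) (h1 : η ≤ 1)
    (h : (540 * C * Λ * exp (540 * C * T)) ^ 7 * √(N / m) ≤ ε ^ 6 * η ^ 3) :
    C * Λ ^ 7 * exp (C * T) / (ε ^ 6 * √m) * (9 * √N) * (η ^ 3)⁻¹ ≤ 1 / 60 ∧
    8 * (C * Λ ^ 7 * exp (C * T) / (ε ^ 6 * √m)) ≤ (540 * C * Λ * exp (540 * C * T)) ^ 8 / ε ^ 6 ∧
    C * Λ * exp (C * T) ≤ (540 * C * Λ * exp (540 * C * T)) ^ 8 / ε ^ 6 ∧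
    exp (C * T) ≤ exp (540 * C * T) := by
  have x1 : exp (C * T) ≤ exp (540 * C * T) := exp_le_exp.2 (by nlinarith [mul_nonneg (zero_le_one.trans hC) hT])
  have x0 : 1 ≤ exp (C * T) := one_le_exp (by positivity)
  set E := exp (540 * C * T)
  set E0 := exp (C * T)
  have E1 : 1 ≤ E := x0.trans x1
  have c1 : 1 ≤ 540 * C * E := by nlinarith
  have l7 : 1 ≤ Λ ^ 7 := one_le_pow₀ hΛ
  have l1 : Λ ≤ Λ ^ 7 := le_self_pow₀ hΛ (by norm_num)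
  have q1 : 1 ≤ 540 * C * Λ * E := by nlinarith
  have a7 : 540 * (C * Λ ^ 7 * E0) ≤ (540 * C * Λ * E) ^ 7 := by
    have e : (540 * C * Λ * E) ^ 7 = (540 * C * E) ^ 7 * Λ ^ 7 := by ring
    have : 540 * C * E0 ≤ (540 * C * E) ^ 7 :=
      le_trans (by nlinarith) (le_self_pow₀ c1 (by norm_num))
    rw [e]; nlinarith
  have a8 : (540 * C * Λ * E) ^ 7 ≤ (540 * C * Λ * E) ^ 8 := pow_le_pow_right₀ q1 (by norm_num)
  have p0 : 0 < C * Λ ^ 7 * E0 := by positivity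
  have p1 : 1 ≤ C * Λ ^ 7 * E0 := by nlinarith [mul_le_mul hC l7 zero_le_one (zero_le_one.trans hC)]
  have sm : 0 < √m := sqrt_pos.2 hm
  have sN : 1 ≤ √N := by rw [← sqrt_one]; exact sqrt_le_sqrt hN
  have e6 : ε ^ 6 ≤ 1 := pow_le_one₀ e0.le e1
  have e3 : η ^ 3 ≤ 1 := pow_le_one₀ h0.le h1
  have f6 : 0 < ε ^ 6 := by positivity
  have f3 : 0 < η ^ 3 := by positivity
  rw [sqrt_div' _ hm.le, ← mul_div_assoc, div_le_iff₀ sm] at h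
  have k1 : 540 * (C * Λ ^ 7 * E0) * √N ≤ ε ^ 6 * η ^ 3 * √m :=
    (mul_le_mul_of_nonneg_right a7 (sqrt_nonneg _)).trans h
  have k2 : 1 ≤ √m := by
    have : ε ^ 6 * η ^ 3 ≤ 1 := mul_le_one₀ e6 f3.le e3
    nlinarith [mul_le_mul p1 sN zero_le_one p0.le]
  refine ⟨?_, ?_, ?_, x1⟩
  · rw [← div_eq_mul_inv, div_mul_eq_mul_div, div_div, div_le_div_iff₀ (by positivity) (by norm_num)]
    nlinarith
  · rw [← mul_div_assoc]
    exact div_le_div₀ (by positivity) (by nlinarith) f6 (le_mul_of_one_le_right f6.le k2)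
  · rw [le_div_iff₀ f6]
    have : C * Λ * E0 ≤ C * Λ ^ 7 * E0 := by gcongr
    have p2 : 0 < C * Λ * E0 := by positivity
    nlinarith

theorem avg {F1 F2 F3 : ℝ → ℝ} (h1 : Continuous F1) (h2 : Continuous F2) (h3 : Continuous F3)
    {X K a b c τ : ℝ} (h : ∀ s ∈ Set.Icc τ (τ + 1), X ≤ K + (a * F1 s + b * F2 s + c * F3 s)) :
    X ≤ K + ((a * ∫ s in τ..(τ + 1), F1 s) + (b * ∫ s in τ..(τ + 1), F2 s) +
      c * ∫ s in τ..(τ + 1), F3 s) := by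
  have i1 : IntervalIntegrable (fun s => a * F1 s) MeasureTheory.volume τ (τ + 1) :=
    (h1.intervalIntegrable _ _).const_mul a
  have i2 : IntervalIntegrable (fun s => b * F2 s) MeasureTheory.volume τ (τ + 1) :=
    (h2.intervalIntegrable _ _).const_mul b
  have i3 : IntervalIntegrable (fun s => c * F3 s) MeasureTheory.volume τ (τ + 1) :=
    (h3.intervalIntegrable _ _).const_mul c
  have av := integral_mono_on (f := fun _ => X) (g := fun s => K + (a * F1 s + b * F2 s + c * F3 s))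
    (by linarith : τ ≤ τ + 1) intervalIntegrable_const
    (intervalIntegrable_const.add ((i1.add i2).add i3)) h
  rw [integral_add intervalIntegrable_const ((i1.add i2).add i3), integral_add (i1.add i2) i3,
    integral_add i1 i2] at av
  simpa only [integral_const_mul, integral_const, add_sub_cancel_left, one_smul] using av

theorem ar5 {C s τ a Ko ε Y X : ℝ} (C1 : 1 ≤ C) (t0 : 0 ≤ τ) (s0 : τ ≤ s) (s1 : s ≤ τ + 1)
    (a0 : 0 ≤ a) (e0 : 0 < ε) (Y0 : 0 ≤ Y) (h : Y ≤ 2 * X) :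
    C * (s + 1) ^ 2 * (Ko ^ 2 * exp (-(2 * a * s)) + ε ^ 2) /
      (120 * (C * (τ + 2) ^ 2 * (Ko ^ 2 * exp (-(2 * a * τ)) + ε ^ 2))) * Y ≤ X / 60 := by
  have : C * (s + 1) ^ 2 * (Ko ^ 2 * exp (-(2 * a * s)) + ε ^ 2) /
      (120 * (C * (τ + 2) ^ 2 * (Ko ^ 2 * exp (-(2 * a * τ)) + ε ^ 2))) ≤ 1 / 120 := by
    rw [div_le_div_iff₀ (by positivity) (by norm_num), one_mul, mul_comm]
    have h1 : exp (-(2 * a * s)) ≤ exp (-(2 * a * τ)) := exp_le_exp.2 (by nlinarith)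
    have h2 : (s + 1) ^ 2 ≤ (τ + 2) ^ 2 := by nlinarith
    gcongr
  calc _ ≤ 1 / 120 * (2 * X) := mul_le_mul this h Y0 (by norm_num)
    _ = _ := by ring

theorem ar6 {C E E0 ε η M X : ℝ} (C1 : 1 ≤ C) (E1 : 0 < E) (hE : E ≤ E0) (e0 : 0 < ε) (h0 : 0 < η)
    (M0 : 0 ≤ M) (h : M ≤ (η ^ 3)⁻¹ * X) :
    C * E * ε ^ 2 / (60 * (C * E0 * ε ^ 2) * (η ^ 3)⁻¹) * M ≤ X / 60 := by
  have E2 : 0 < E0 := E1.trans_le hE
  have : C * E * ε ^ 2 / (60 * (C * E0 * ε ^ 2) * (η ^ 3)⁻¹) ≤ η ^ 3 / 60 := by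
    rw [div_le_iff₀ (by positivity), show η ^ 3 / 60 * (60 * (C * E0 * ε ^ 2) * (η ^ 3)⁻¹) =
      C * E0 * ε ^ 2 by field_simp]
    gcongr
  calc _ ≤ η ^ 3 / 60 * ((η ^ 3)⁻¹ * X) := mul_le_mul this h M0 (by positivity)
    _ = _ := by field_simp

theorem ar4 {c N Q M X y N1 e : ℝ} (c0 : 0 ≤ c) (hN : 1 ≤ N) (M0 : 0 ≤ M) (hM : M ≤ y * X)
    (X0 : 0 ≤ X) (n1 : 1 ≤ N1) (e0 : 0 ≤ e) (h1 : c * (9 * √N) * y ≤ 1 / 60)
    (h : Q ≤ 8 * (N * M + N1 * e)) :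
    c * (√N)⁻¹ * Q + c * (√N / 4 * M) ≤ X / 60 + 8 * c * (N1 ^ 2 * e) := by
  have S1 : 1 ≤ √N := by rw [← sqrt_one]; exact sqrt_le_sqrt hN
  have e2 : √N * √N = N := mul_self_sqrt (by linarith)
  generalize √N = S at *
  have S0 : 0 < S := by linarith
  have a1 : S⁻¹ * Q ≤ 8 * S * M + 8 * (N1 ^ 2 * e) := by
    refine (mul_le_mul_of_nonneg_left h (inv_pos.2 S0).le).trans ?_
    have a2 : S⁻¹ * (N1 * e) ≤ 1 * (N1 ^ 2 * e) := by
      gcongr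
      · exact inv_le_one_of_one_le₀ S1
      · nlinarith
    have a3 : S⁻¹ * (8 * (N * M + N1 * e)) = 8 * S * M + 8 * (S⁻¹ * (N1 * e)) := by
      rw [← e2]; field_simp
    linarith
  have a4 : c * (9 * S) * M ≤ X / 60 :=
    calc _ ≤ c * (9 * S) * (y * X) := by gcongr
      _ = c * (9 * S) * y * X := by ring
      _ ≤ 1 / 60 * X := mul_le_mul_of_nonneg_right h1 X0
      _ = _ := by ring
  have a5 := mul_le_mul_of_nonneg_left a1 c0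
  have a6 : 0 ≤ c * S * M := by positivity
  linarith

theorem ar7 {C τ P ε η E0 E : ℝ} (C1 : 1 ≤ C) (t0 : 0 ≤ τ) (P0 : 0 ≤ P) (h0 : 0 < η) (h1 : η ≤ 1)
    (E1 : 1 ≤ E0) (hE : E0 ≤ E) :
    120 * (C * (τ + 2) ^ 2 * (P + ε ^ 2)) + 60 * (C * E0 * ε ^ 2) * (η ^ 3)⁻¹ ≤
      540 * C * (τ + 1) ^ 4 * (P + E * ε ^ 2) / η ^ 3 := by
  have a1 : P + ε ^ 2 ≤ P + E * ε ^ 2 :=
    add_le_add le_rfl (le_mul_of_one_le_left (sq_nonneg _) (E1.trans hE))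
  have a2 : E0 * ε ^ 2 ≤ P + E * ε ^ 2 := le_add_of_nonneg_of_le P0 (by gcongr)
  have a3 : 1 ≤ (η ^ 3)⁻¹ := (one_le_inv₀ (by positivity)).2 (pow_le_one₀ h0.le h1)
  have a4 : 1 ≤ (τ + 1) ^ 2 := by nlinarith
  have a5 : (τ + 2) ^ 2 ≤ 4 * (τ + 1) ^ 4 := by nlinarith
  have a6 : 1 ≤ (τ + 1) ^ 4 := by nlinarith
  have A0 : 0 ≤ P + E * ε ^ 2 := le_trans (by positivity) a1
  generalize P + E * ε ^ 2 = A at *
  have a7 : 120 * (C * (τ + 2) ^ 2 * (P + ε ^ 2)) ≤ 120 * (C * (4 * (τ + 1) ^ 4) * A) * (η ^ 3)⁻¹ :=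
    le_trans (by gcongr) (le_mul_of_one_le_right (by positivity) a3)
  have a8 : 60 * (C * E0 * ε ^ 2) * (η ^ 3)⁻¹ ≤ 60 * (C * ((τ + 1) ^ 4 * A)) * (η ^ 3)⁻¹ := by
    have := a2.trans (le_mul_of_one_le_left A0 a6)
    rw [mul_assoc C]
    exact mul_le_mul_of_nonneg_right (mul_le_mul_of_nonneg_left
      (mul_le_mul_of_nonneg_left this (by linarith)) (by norm_num)) (by linarith)
  rw [div_eq_mul_inv]
  linarith

theorem ar9 {g X Xb y : ℝ} (g0 : 0 ≤ g) (y0 : 0 ≤ y) (h1 : Xb ≤ X) (h2 : X ≤ Xb + y) :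
    (19 / 20 - 2 / 3 * g) * X ≤ (19 / 20 - 2 / 3 * g) * Xb + y := by
  rcases le_total 0 (19 / 20 - 2 / 3 * g) with c | c <;> nlinarith

theorem ar10 {X a1 a2 g1 g2 e1 r1 r2 t1 t2 t3 t4 t5 u1 u4 u4' u5 : ℝ} (b1 : X = a1 + a2)
    (b2 : a1 ≤ 2 / 3 * g1 + 1 / 3 * (e1 + r1)) (b3 : a2 ≤ t1 + t2 + t3 + t4 + t5) (y1 : g1 ≤ g2)
    (y2 : r1 ≤ r2) (y5 : t2 ≤ X / 60) (y6 : t3 ≤ X / 60) (y9 : t4 ≤ u4 + u4') (y10 : t5 ≤ u5)
    (y11 : t1 ≤ u1) :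
    X ≤ 2 / 3 * g2 + 1 / 3 * r2 + X / 30 + u4' + u5 + (1 / 3 * e1 + u1 + u4) := by linarith

theorem ar11 {X Y g r2 u4' u5 e1 u1 u4 w y v1 z1 z2 : ℝ}
    (av : X ≤ 2 / 3 * (g * X) + 1 / 3 * r2 + X / 30 + u4' + u5 + (1 / 3 * e1 + u1 + u4))
    (j4 : u4 + u4' ≤ X / 60 + w) (j6 : u1 ≤ v1) (j7 : w ≤ z1) (j8 : u5 ≤ z2)
    (j9 : Y ≤ (19 / 20 - 2 / 3 * g) * X + y) : Y ≤ 1 / 3 * (e1 + r2) + y + v1 + (z1 + z2) := by
  linarith

variable {n : ℕ} {W : Mx n} {f : Cube n → ℝ}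

/-- `X` along the flow -/
def Xc (W : Mx n) (f : Cube n → ℝ) (s : ℝ) : ℝ := X3 W (sg (mu W) |s| f)
/-- `I` along the flow -/
def Ic (W : Mx n) (f : Cube n → ℝ) (s : ℝ) : ℝ := II (mu W) (sg (mu W) (max s 0) f)
/-- the integrand of (F) -/
def Qc (W : Mx n) (f G : Cube n → ℝ) (r s : ℝ) : ℝ := ev W (sg (mu W) |r - s| f) fun x =>
  dd W (sg (mu W) |r - s| f) x ⬝ᵥ dd W (sg (mu W) |r - s| f) x * sg (mu W) s G x
/-- the integrand of the return -/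
def Hc (W : Mx n) (f : Cube n → ℝ) (ρ : ℝ → ℝ) (θ σ k r u v : ℝ) : ℝ :=
  k ^ 2 * ρ v * exp (-(θ * u) - 2 * σ * (u + v)) * Xc W f (r - u - v)

theorem cont_d (hC : ContStmt) (hW : Ok W 1 1) (hf : ∀ x, 0 < f x) (x : Cube n) (k : Fin n) :
    Continuous fun s : ℝ => dd W (sg (mu W) |s| f) x k :=
  (hC n W hW (fun _ => 0) continuous_const 0 x k).2.2.2.2.2.2.2 f hf

theorem cont_f (hW : Ok W 1 1) (f : Cube n → ℝ) (x : Cube n) :
    Continuous fun s : ℝ => sg (mu W) |s| f x :=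
  (B.continuous_sg hW.pos (mu_pos W) f x).comp continuous_abs

theorem cont_X (hC : ContStmt) (hW : Ok W 1 1) (hf : ∀ x, 0 < f x) : Continuous (Xc W f) :=
  cont_ev W (cont_f hW f) fun x => continuous_finsetSum _ fun k _ => (cont_d hC hW hf x k).abs.pow 3

theorem Xc_nn (hW : Ok W 1 1) (hf : ∀ x, 0 < f x) (s : ℝ) : 0 ≤ Xc W f s :=
  ev_nn (Rv.sg_pos hW.pos (mu_pos W) (abs_nonneg s) hf) fun x => sum_nonneg fun k _ => by positivity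

theorem cont_Q (hC : ContStmt) (hW : Ok W 1 1) (hf : ∀ x, 0 < f x) (G : Cube n → ℝ) (r : ℝ) :
    Continuous (Qc W f G r) := by
  have cr : Continuous fun s : ℝ => r - s := by fun_prop
  exact cont_ev W (fun x => (cont_f hW f x).comp cr) fun x =>
    (continuous_finsetSum _ fun k _ => ((cont_d hC hW hf x k).comp cr).mul
      ((cont_d hC hW hf x k).comp cr)).mul (B.continuous_sg hW.pos (mu_pos W) _ x)

theorem cont_H (hC : ContStmt) (hW : Ok W 1 1) (hf : ∀ x, 0 < f x) {ρ : ℝ → ℝ} (hρ : Continuous ρ)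
    (θ σ k r : ℝ) : Continuous fun q : ℝ × ℝ => Hc W f ρ θ σ k r q.1 q.2 := by
  have := cont_X hC hW hf
  unfold Hc; fun_prop

theorem AA_eq (W : Mx n) (f : Cube n → ℝ) (ρ : ℝ → ℝ) (θ σ k : ℝ) {τ r : ℝ} (t0 : 0 ≤ τ)
    (hr : τ + 1 ≤ r) : AA (fun s => X3 W (sg (mu W) s f)) ρ θ σ k τ r =
      (∫ s in τ..(τ + 1), exp (-((θ + 2 * σ) * s)) * Xc W f (r - s)) +
        ∫ u in (0 : ℝ)..(τ + 1), ∫ v in (0 : ℝ)..(τ + 1 - u), Hc W f ρ θ σ k r u v := by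
  rw [AA]
  congr 1
  · refine integral_congr fun s hs => ?_
    rw [Set.uIcc_of_le (by linarith)] at hs
    simp only [Xc, abs_of_nonneg (show 0 ≤ r - s by linarith [hs.2])]
  · refine integral_congr fun u hu => integral_congr fun v hv => ?_
    rw [Set.uIcc_of_le (by linarith)] at hu
    rw [Set.uIcc_of_le (by linarith [hu.2])] at hv
    simp only [Hc, Xc, abs_of_nonneg (show 0 ≤ r - u - v by linarith [hv.2])]

theorem ret_le (hC : ContStmt) (hW : Ok W 1 1) (hf : ∀ x, 0 < f x) {ρ : ℝ → ℝ} (hρ : Continuous ρ)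
    (θ σ k : ℝ) {t r s : ℝ} (h0 : ∀ v ∈ Set.Icc 0 t, 0 ≤ ρ v) (s0 : 0 ≤ s) (s1 : s ≤ t) (hr : t ≤ r) :
    (∫ u in (0 : ℝ)..s, ∫ v in (0 : ℝ)..(s - u), k ^ 2 * ρ v *
      exp (-(θ * u) - 2 * σ * (u + v)) * X3 W (sg (mu W) (s - u - v) (sg (mu W) (r - s) f))) ≤
      ∫ u in (0 : ℝ)..t, ∫ v in (0 : ℝ)..(t - u), Hc W f ρ θ σ k r u v := by
  refine le_trans (le_of_eq ?_) (tri_mono (cont_H hC hW hf hρ θ σ k r) s0 s1 fun u v _ v0 uv =>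
    mul_nonneg (mul_nonneg (mul_nonneg (sq_nonneg _) (h0 v ⟨v0, by linarith⟩))
      (exp_pos _).le) (Xc_nn hW hf _))
  refine integral_congr fun u hu => integral_congr fun v hv => ?_
  rw [Set.uIcc_of_le s0] at hu
  rw [Set.uIcc_of_le (by linarith [hu.2])] at hv
  simp only [Hc, Xc]
  rw [← sg_add hW.pos (mu_pos W), abs_of_nonneg (by linarith [hv.2]),
    show s - u - v + (r - s) = r - u - v by ring]

theorem root_le (hW : Ok W 1 1) (hf : ∀ x, 0 < f x) {G : Cube n → ℝ} (hG : ∀ x, 0 ≤ G x) {r s S : ℝ}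
    (s0 : 0 ≤ s) (s1 : 0 ≤ r - s) (S0 : 0 < S) :
    ev W (sg (mu W) (r - s) f) (fun x => √(dd W (sg (mu W) (r - s) f) x ⬝ᵥ
      dd W (sg (mu W) (r - s) f) x) * sg (mu W) s G x) ≤
      S⁻¹ * Qc W f G r s + S / 4 * ev W (sg (mu W) r f) G := by
  have e : ev W (sg (mu W) r f) G = ev W (sg (mu W) (r - s) f) (sg (mu W) s G) := by
    rw [ev_sg hW.pos s, ← sg_add hW.pos (mu_pos W), add_sub_cancel]
  simp only [Qc, abs_of_nonneg s1]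
  rw [e, ← ev_mul, ← ev_mul, ← ev_add]
  exact ev_mono (Rv.sg_pos hW.pos (mu_pos W) s1 hf) fun x =>
    sqrt_mul_le (sum_nonneg fun k _ => mul_self_nonneg _)
      (Rec.sg_nonneg hW.pos (mu_pos W) s0 hG x) S0

end St93

open St93

theorem stepGlue : StepGlue := by
  rintro hR hF hD hC hA ⟨C, C1, hB⟩
  refine ⟨540 * C, by linarith, ?_⟩
  intro n W hW ρ θ θ' k τ m a Ko ε Λ p σ B D L η f hd hf hw k0 t0 m0 a0 a1 s0 s1 K0 e0 e1 l1 p0 D0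
    L1 h0 h1 hs r hr
  have N1 : 1 ≤ D + L := by linarith
  obtain ⟨c1, c2, c3, c4⟩ := consts C1 l1 (by linarith : 0 ≤ τ + 1) m0 N1 e0 e1 h0 h1 hs
  clear hs
  have hn := hW.pos
  have w0 := mu_pos W
  have wm : ∀ s, 0 ≤ s → Warm (mu W) D (sg (mu W) s f) := fun s hs => Rv.Warm.sg hn w0 hs hw
  have r0 : 0 ≤ r := by linarith
  obtain ⟨d1, d2, d3, d4, -⟩ := hR n W hW _ (wm r r0).1 (wm r r0).2.1
  have fr0 := (wm r r0).1
  obtain ⟨ω, hω⟩ : ∃ ω, ω = om η (dd W (sg (mu W) r f)) := ⟨_, rfl⟩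
  obtain ⟨Xb, hXb⟩ : ∃ Xb, Xb = ev W (sg (mu W) r f) (xb η (dd W (sg (mu W) r f))) := ⟨_, rfl⟩
  have o1 : FrV ω := hω ▸ frV_om d1
  have o2 : ∀ x k, |ω x k| ≤ 4 := hω ▸ abs_om d2
  have X0 : 0 ≤ Xb := hXb ▸ ev_nn fr0 (xb_nn η _)
  have x1 : ev W (sg (mu W) r f) (dv W ω) = Xb := by rw [d4 ω o1, hXb]; simp only [hω, dot_om]
  have x2 : ev W (sg (mu W) r f) (fun x => ∑ j, |ω x j| ^ (3 / 2 : ℝ)) = Xb := by
    rw [hXb]; simp only [hω, om_32]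
  have x3 : ev W (sg (mu W) r f) (fun x => ω x ⬝ᵥ ω x) ≤ 2 * Xb := by
    rw [hXb, ← ev_mul, hω]; exact ev_mono fr0 (om_sq d2)
  have x4 : ev W (sg (mu W) r f) (cnt ω) ≤ (η ^ 3)⁻¹ * Xb := by
    rw [hXb, ← ev_mul, hω]; exact ev_mono fr0 (cnt_om h0 _)
  have x5 : Xb ≤ X3 W (sg (mu W) r f) := hXb ▸ ev_mono fr0 (xb_le η _)
  have x6 : X3 W (sg (mu W) r f) ≤ Xb + η * II (mu W) (sg (mu W) r f) := by
    refine (ev_mono fr0 (le_xb h0.le _)).trans ?_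
    rw [ev_add, ev_mul, hXb]
    exact add_le_add le_rfl (mul_le_mul_of_nonneg_left d3 h0.le)
  clear hω hXb d1 d2 d3 d4
  have M0 : 0 ≤ ev W (sg (mu W) r f) (cnt ω) := ev_nn fr0 fun x => (cnt_bd ω x).1
  have B0 : 0 ≤ B := le_trans (integral_nonneg (by linarith) fun v hv =>
    mul_nonneg (hf.nn v hv) (exp_pos _).le) hf.int
  have g0 : 0 ≤ gn θ σ k B τ :=
    add_nonneg (exp_pos _).le (div_nonneg (mul_nonneg (sq_nonneg _) B0) (sub_pos.2 s1).le)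
  have C0 : 0 < C := lt_of_lt_of_le one_pos C1
  have l2 : 0 < Λ := lt_of_lt_of_le one_pos l1
  have S0 : 0 < √(D + L) := sqrt_pos.2 (by linarith)
  have l0 : 0 < 120 * (C * (τ + 2) ^ 2 * (Ko ^ 2 * exp (-(2 * a * τ)) + ε ^ 2)) := by positivity
  have l0' : 0 < 60 * (C * exp (C * (τ + 1)) * ε ^ 2) * (η ^ 3)⁻¹ := by positivity
  have z0 : 0 ≤ (n : ℝ) ^ 2 * (exp D * p) ^ (2 / 3 : ℝ) := by positivity
  have c30 : 0 ≤ C * Λ ^ 7 * exp (C * (τ + 1)) / (ε ^ 6 * √m) := by positivity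
  have av := avg (X := Xb) (τ := τ) (F1 := fun s => exp (-((θ + 2 * σ) * s)) * Xc W f (r - s))
    (F2 := fun s => Ic W f (r - s)) (F3 := Qc W f (cnt ω) r) (a := 1 / 3)
    (b := 120 * (C * (τ + 2) ^ 2 * (Ko ^ 2 * exp (-(2 * a * τ)) + ε ^ 2)) +
      60 * (C * exp (C * (τ + 1)) * ε ^ 2) * (η ^ 3)⁻¹)
    (c := C * Λ ^ 7 * exp (C * (τ + 1)) / (ε ^ 6 * √m) * (√(D + L))⁻¹)
    (K := 2 / 3 * (gn θ σ k B τ * Xb) + 1 / 3 * (∫ u in (0 : ℝ)..(τ + 1),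
      ∫ v in (0 : ℝ)..(τ + 1 - u), Hc W f ρ θ σ k r u v) + Xb / 30 +
      C * Λ ^ 7 * exp (C * (τ + 1)) / (ε ^ 6 * √m) * (√(D + L) / 4 * ev W (sg (mu W) r f) (cnt ω)) +
      C * Λ * exp (C * (τ + 1)) * ((n : ℝ) ^ 2 * (exp D * p) ^ (2 / 3 : ℝ)))
    (by have := cont_X hC hW hw.1; fun_prop)
    ((S6k.continuous_I hn w0 hw.1).comp (continuous_const.sub continuous_id))
    (cont_Q hC hW hw.1 _ r) fun s hs => by
    have u0 : 0 ≤ s := t0.trans hs.1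
    have u1 : 0 ≤ r - s := by linarith [hs.2]
    have wg := wm _ u1
    have e1' : sg (mu W) s (sg (mu W) (r - s) f) = sg (mu W) r f := by
      rw [← sg_add hn w0, add_sub_cancel]
    have b1 := split hD hC hW hf.cont o1 (sg (mu W) (r - s) f) u0
    have b2 := hA n W hW ρ θ θ' k (τ + 1) σ B _ ω hd hf.cont hf.nn hf.int k0 s1 wg.1 wg.2.1 o1 s
      ⟨u0, hs.2⟩
    have b3 := hB n W hW ρ θ θ' _ (τ + 1) m a Ko ε Λ p σ B D _ ω hd hf wg o1 o2 m0 a0 a1 K0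
      e0 e1 l1 p0 s ⟨u0, hs.2⟩ _ l0 _ l0'
    have b4 := (hR n W hW _ wg.1 wg.2.1).2.2.1
    rw [e1'] at b1 b2 b3
    rw [x1] at b1
    rw [x2] at b2
    have y1 : gn θ σ k B s * Xb ≤ gn θ σ k B τ * Xb := mul_le_mul_of_nonneg_right
      (add_le_add (exp_le_exp.2 (neg_le_neg (mul_le_mul_of_nonneg_left hs.1 (sub_pos.2 s1).le)))
        le_rfl) X0
    have y2 := ret_le hC hW hw.1 hf.cont θ σ k hf.nn u0 hs.2 hr
    have y3 : Xc W f (r - s) = X3 W (sg (mu W) (r - s) f) := by simp only [Xc, abs_of_nonneg u1]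
    have y4 : Ic W f (r - s) = II (mu W) (sg (mu W) (r - s) f) := by simp only [Ic, max_eq_left u1]
    have es : exp (C * s) ≤ exp (C * (τ + 1)) :=
      exp_le_exp.2 (mul_le_mul_of_nonneg_left hs.2 C0.le)
    have y5 := ar5 (Ko := Ko) C1 t0 hs.1 hs.2 a0 e0
      (ev_nn fr0 fun x => sum_nonneg fun k _ => mul_self_nonneg (ω x k)) x3
    have y6 := ar6 C1 (exp_pos _) es e0 h0 M0 x4
    have y7 := root_le hW hw.1 (fun z => (cnt_bd ω z).1) u0 u1 S0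
    have y8 : C * Λ ^ 7 * exp (C * s) / (ε ^ 6 * √m) ≤
        C * Λ ^ 7 * exp (C * (τ + 1)) / (ε ^ 6 * √m) :=
      div_le_div_of_nonneg_right (mul_le_mul_of_nonneg_left es (by positivity)) (by positivity)
    have y9 := mul_le_mul y8 y7 (ev_nn wg.1 fun x => mul_nonneg (sqrt_nonneg _)
      (Rec.sg_nonneg hn w0 u0 (fun z => (cnt_bd ω z).1) x)) c30
    have y10 := mul_le_mul_of_nonneg_right
      (mul_le_mul_of_nonneg_left es (mul_pos C0 l2).le) z0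
    have y11 := mul_le_mul_of_nonneg_left b4 (add_pos l0 l0').le
    rw [mul_add, ← mul_assoc] at y9
    rw [mul_assoc (2 / 3 : ℝ)] at b2
    rw [← y3] at b2
    rw [← y4] at y11
    exact ar10 b1 b2 b3 y1 y2 y5 y6 y9 y10 y11
  have j2 : ∫ s in τ..(τ + 1), II (mu W) (sg (mu W) (r - s) f) =
      ∫ s in τ..(τ + 1), Ic W f (r - s) := by
    refine integral_congr fun s hs => ?_
    rw [Set.uIcc_of_le (by linarith)] at hs
    simp only [Ic, max_eq_left (show 0 ≤ r - s by linarith [hs.2])]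
  have j3 : ∫ s in τ..(τ + 1), Qc W f (cnt ω) r s ≤
      8 * ((D + L) * ev W (sg (mu W) r f) (cnt ω) + n * exp (-L)) := by
    refine le_trans (le_of_eq ?_) (hF n W hW D L n f (cnt ω) hw D0 (by linarith) (cnt_bd ω) τ (τ + 1)
      r t0 (by linarith) hr)
    refine integral_congr fun s hs => ?_
    rw [Set.uIcc_of_le (by linarith)] at hs
    simp only [Qc, abs_of_nonneg (show 0 ≤ r - s by linarith [hs.2])]
  have I0 : 0 ≤ ∫ s in τ..(τ + 1), Ic W f (r - s) := integral_nonneg (by linarith) fun s _ =>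
    Rv.II_nn hn w0 (wm _ (le_max_right _ _)).1
  have j4 := ar4 c30 N1 M0 x4 X0 (by exact_mod_cast hn) (exp_pos _).le c1 j3
  have j5 := ar7 (ε := ε) (P := Ko ^ 2 * exp (-(2 * a * τ))) C1 t0 (by positivity) h0 h1
    (one_le_exp (by positivity)) c4
  have j6 := mul_le_mul_of_nonneg_right j5 I0
  have j7 := mul_le_mul_of_nonneg_right c2 (show 0 ≤ (n : ℝ) ^ 2 * exp (-L) by positivity)
  have j8 := mul_le_mul_of_nonneg_right c3 z0
  have j9 := ar9 g0 (mul_nonneg h0.le (Rv.II_nn hn w0 fr0)) x5 x6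
  rw [AA_eq W f ρ θ σ k t0 hr, j2, mul_add ((n : ℝ) ^ 2), mul_add (_ / ε ^ 6)]
  exact ar11 av j4 j6 j7 j8 j9

end Crest.Agent.T157.S6a

end
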