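import Crest.Agent.T157.BLbc_62
import Crest.Agent.T157.RnAll_60
import Crest.Agent.T157.LmDef_76
import Crest.Agent.T157.S6All_68

/-!
# Row 157: the subcritical statement from the outputs of the blocks S1, S5, S6 (helper88)
-/

set_option autoImplicit false

namespace Crest.Agent.T157.TopZ

/-- what the collective family `𝓕` has to deliver; `𝒞` is the polynomial class -/
structure BIn (𝒞 : Tw.Cls) (𝓕 : ℝ → Set B.Ob) : Prop where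
  lim : ∀ β, 0 < β → β < 1 → ∀ Φ ∈ 𝓕 β, Lm.Lim β Φ
  rg : ∀ β, 0 < β → β < 1 → ∀ c > (0 : ℝ), ∃ c' > (0 : ℝ), ∀ Φ ∈ 𝓕 β, Lm.Rg β c c' Φ
  stat : ∀ β, 0 < β → β < 1 → B.Stat1 β (Tw.lam 𝒞 β) (Lm.Qo β '' 𝓕 β)

theorem parts_of (hO : Lm.OutStmt) {𝒞 : Tw.Cls} (h𝒞 : ∀ m, 𝒞.C m = Tw.PV m)
    {𝓕 : ℝ → Set B.Ob} (h : BIn 𝒞 𝓕) :
    ∃ ls, B.Parts (Tw.lam 𝒞) ls fun β => Lm.Qo β '' 𝓕 β := by
  have key : ∀ β, ∃ ls, 0 < β → β < 1 → 0 < ls ∧ ls ≤ Tw.lam 𝒞 β ∧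
      B.Dec β ls (Lm.Qo β '' 𝓕 β) ∧ (ls < Tw.lam 𝒞 β → Low.LBC β ls) := fun β => by
    by_cases hβ : 0 < β ∧ β < 1
    · obtain ⟨ls, h1⟩ := hO β hβ.1.le hβ.2 (𝓕 β) _ (Rn.lb Rv.poinHi h𝒞 hβ.1 hβ.2).1
        (h.lim β hβ.1 hβ.2) (h.rg β hβ.1 hβ.2)
      exact ⟨ls, fun _ _ => h1⟩
    · exact ⟨0, fun h0 h1 => absurd ⟨h0, h1⟩ hβ⟩
  choose ls hls using key
  refine ⟨ls, fun β h0 h1 => (Rn.lb Rv.poinHi h𝒞 h0 h1).2.1,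
    fun β h0 h1 => ⟨(hls β h0 h1).1, (hls β h0 h1).2.1⟩,
    fun β h0 h1 => Or.inl (Rn.lb Rv.poinHi h𝒞 h0 h1).2.2,
    fun β h0 h1 => (hls β h0 h1).2.2.2, ?_, h.stat, fun β h0 h1 => (hls β h0 h1).2.2.1,
    fun β h0 h1 => S6a.locStmt68 Rv.at0 β _ _ h0 h1
      ((hls β h0 h1).2.1.trans (Rn.lb Rv.poinHi h𝒞 h0 h1).2.1)⟩
  rintro β _ ⟨Φ, -, rfl⟩ n g x
  exact sq_nonneg _

/-- **S0230** from the blocks S1 and S5 -/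
theorem r30_of (hO : Lm.OutStmt) {𝒞 : Tw.Cls} (h𝒞 : ∀ m, 𝒞.C m = Tw.PV m)
    {𝓕 : ℝ → Set B.Ob} (h : BIn 𝒞 𝓕) : Top.R30 :=
  let ⟨_, hP⟩ := parts_of hO h𝒞 h
  Lbc.r30 hP

end Crest.Agent.T157.TopZ
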