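import Crest.Agent.T157.FrS_98

/-!
Row 157 (helper98): the determinant bound `|det (1 - D (βW + M - β² avg D))| ≤ exp n(β² χ²/2 + ε)`
uniformly over all diagonals `D` and all symmetric `M` of bounded Frobenius norm.
-/

set_option autoImplicit false
set_option linter.unusedSimpArgs false
set_option maxHeartbeats 400000

noncomputable section

namespace Crest.Agent.T157.Fr

open Matrix Finset MeasureTheory ProbabilityTheory Filter
open Crest.Agent.T157.Eig Crest.Agent.T157.Cond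

variable {ι : Type*} [Fintype ι] [DecidableEq ι]

lemma exists_spec {H : Matrix ι ι ℝ} (hH : Hᵀ = H) : ∃ l : ι → ℝ, (∀ k, |l k| ≤ opn H) ∧
    (∀ t : ℝ, (H + t • (1 : Matrix ι ι ℝ)).det = ∏ k, (l k + t)) ∧
    ∀ ζ : ℂ, ζ.im ≠ 0 → (cx H + ζ • (1 : Matrix ι ι ℂ))⁻¹.trace = ∑ k, ((l k : ℂ) + ζ)⁻¹ := by
  have hh : H.IsHermitian := by
    rw [IsHermitian, conjTranspose_eq_transpose_of_trivial]; exact hH
  obtain ⟨U, hU1, hU2, hsp⟩ : ∃ U : Matrix ι ι ℝ, U * Uᵀ = 1 ∧ Uᵀ * U = 1 ∧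
      H = U * diagonal hh.eigenvalues * Uᵀ := by
    refine ⟨hh.eigenvectorUnitary, ?_, ?_, ?_⟩
    · simpa [star_eq_conjTranspose] using Unitary.coe_mul_star_self hh.eigenvectorUnitary
    · simpa [star_eq_conjTranspose] using Unitary.coe_star_mul_self hh.eigenvectorUnitary
    · have := hh.spectral_theorem
      simpa [Unitary.conjStarAlgAut_apply, star_eq_conjTranspose] using this
  generalize hh.eigenvalues = l at hsp
  refine ⟨l, fun k => ?_, fun t => ?_, fun ζ hζ => ?_⟩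
  · have e : diagonal l = Uᵀ * H * U := by
      rw [hsp, ← Matrix.mul_assoc, ← Matrix.mul_assoc, hU2, Matrix.one_mul, Matrix.mul_assoc, hU2,
        Matrix.mul_one]
    have h1 := abs_entry_le (Uᵀ * H * U) k k
    rw [← e, diagonal_apply_eq, e] at h1
    have h2 := opn_isom_le hU2
    have h3 : opn Uᵀ ≤ 1 := by rwa [opn_transpose]
    refine h1.trans ((opn_mul_le _ _).trans ?_)
    calc _ ≤ (1 * opn H) * 1 := mul_le_mul ((opn_mul_le _ _).trans
          (mul_le_mul_of_nonneg_right h3 (opn_nonneg H))) h2 (opn_nonneg U)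
          (by rw [one_mul]; exact opn_nonneg H)
      _ = _ := by ring
  · have e : H + t • (1 : Matrix ι ι ℝ) = U * diagonal (fun k => l k + t) * Uᵀ := by
      rw [← diagonal_add, Matrix.mul_add, Matrix.add_mul, ← hsp, ← smul_one_eq_diagonal,
        Matrix.mul_smul, Matrix.smul_mul, Matrix.mul_one, hU1]
    have hd : U.det * Uᵀ.det = 1 := by rw [← det_mul, hU1, det_one]
    rw [e, det_mul, det_mul, det_diagonal, mul_right_comm, hd, one_mul]
  · have h1 : cx U * cx Uᵀ = 1 := by rw [← cx_mul, hU1, cx_one]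
    have h2 : cx Uᵀ * cx U = 1 := by rw [← cx_mul, hU2, cx_one]
    have e : cx H + ζ • (1 : Matrix ι ι ℂ) =
        cx U * diagonal (fun k => (l k : ℂ) + ζ) * cx Uᵀ := by
      rw [← diagonal_add, Matrix.mul_add, Matrix.add_mul, ← smul_one_eq_diagonal,
        Matrix.mul_smul, Matrix.smul_mul, Matrix.mul_one, h1, hsp, cx_mul, cx_mul, cx_diagonal]
    have hne : ∀ k, (l k : ℂ) + ζ ≠ 0 := fun k h => hζ (by simpa using congrArg Complex.im h)
    have e2 : (cx H + ζ • (1 : Matrix ι ι ℂ))⁻¹ =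
        cx U * diagonal (fun k => ((l k : ℂ) + ζ)⁻¹) * cx Uᵀ := by
      refine inv_eq_right_inv ?_
      rw [e, Matrix.mul_assoc, ← Matrix.mul_assoc (cx Uᵀ), ← Matrix.mul_assoc (cx Uᵀ), h2,
        Matrix.one_mul, Matrix.mul_assoc, ← Matrix.mul_assoc (diagonal _), diagonal_mul_diagonal]
      simp [mul_inv_cancel₀ (hne _), h1]
    rw [e2, trace_mul_cycle, h2, Matrix.one_mul, trace_diagonal]

lemma exists_round (B : Matrix ι ι ℝ) (D : ι → ℝ) {θ : ℝ} (hθ : 0 ≤ θ) : ∃ D' : ι → ℝ,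
    (∀ i, (D' i = D i ∧ θ ≤ |D i|) ∨ (|D' i| = θ ∧ |D i| ≤ θ)) ∧
    |(1 - diagonal D * B).det| ≤ |(1 - diagonal D' * B).det| := by
  have key : ∀ t : Finset ι, ∃ D' : ι → ℝ,
      (∀ i ∈ t, (D' i = D i ∧ θ ≤ |D i|) ∨ (|D' i| = θ ∧ |D i| ≤ θ)) ∧ (∀ i ∉ t, D' i = D i) ∧
      |(1 - diagonal D * B).det| ≤ |(1 - diagonal D' * B).det| := by
    intro t
    induction t using Finset.induction_on with
    | empty => exact ⟨D, by simp, fun _ _ => rfl, le_rfl⟩
    | insert j t hj ih =>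
      obtain ⟨D', h1, h2, h3⟩ := ih
      by_cases hc : θ ≤ |D j|
      · refine ⟨D', fun i hi => ?_, fun i hi => h2 i fun h => hi (mem_insert_of_mem h), h3⟩
        rcases mem_insert.1 hi with rfl | hi
        · exact Or.inl ⟨h2 _ hj, hc⟩
        · exact h1 i hi
      push Not at hc
      obtain ⟨α, γ, hf⟩ : ∃ α γ : ℝ, ∀ x : ℝ,
          (1 - diagonal (Function.update D' j x) * B).det = α + x * γ := by
        refine ⟨((1 - diagonal D' * B).updateRow j (Pi.single j 1)).det,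
          ((1 - diagonal D' * B).updateRow j (-B j)).det, fun x => ?_⟩
        rw [← det_updateRow_smul, ← det_updateRow_add]
        congr 1
        ext i k
        by_cases h : i = j
        · subst h; simp [one_apply, Pi.single_apply, eq_comm, sub_eq_add_neg]
        · simp [updateRow_ne h, Function.update_of_ne h]
      have h4 : (1 - diagonal D' * B).det = α + D j * γ := by
        rw [← hf, ← h2 j hj, Function.update_eq_self]
      obtain ⟨x, hx, hxle⟩ : ∃ x : ℝ, |x| = θ ∧ |α + D j * γ| ≤ |α + x * γ| := by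
        have h5 := abs_lt.1 hc
        have h6 : D j ^ 2 ≤ θ ^ 2 := by nlinarith
        have h7 := mul_le_mul_of_nonneg_right h6 (sq_nonneg γ)
        rcases le_total 0 (α * γ) with h | h
        · refine ⟨θ, abs_of_nonneg hθ, sq_le_sq.1 ?_⟩
          nlinarith [mul_nonneg h (sub_pos.2 h5.2).le]
        · refine ⟨-θ, by rw [abs_neg, abs_of_nonneg hθ], sq_le_sq.1 ?_⟩
          nlinarith [mul_nonneg (neg_nonneg.2 h) (sub_pos.2 h5.1).le]
      refine ⟨Function.update D' j x, fun i hi => ?_, fun i hi => ?_, ?_⟩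
      · by_cases h : i = j
        · subst h; right; simpa using ⟨hx, hc.le⟩
        · rw [Function.update_of_ne h]
          exact h1 i ((mem_insert.1 hi).resolve_left h)
      · rw [Function.update_of_ne fun h => hi (by rw [h]; exact mem_insert_self _ _)]
        exact h2 i fun h => hi (mem_insert_of_mem h)
      · rw [hf]; exact h3.trans (h4 ▸ hxle)
  obtain ⟨D', h1, -, h3⟩ := key univ
  exact ⟨D', fun i => h1 i (mem_univ i), h3⟩

lemma hasDerivAt_log_norm {f : ℝ → ℂ} {f' : ℂ} {y : ℝ} (h : HasDerivAt f f' y)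
    (h0 : (f y).im ≠ 0) : HasDerivAt (fun t => Real.log ‖f t‖) (f' / f y).re y := by
  have h1 := h.clog_real (Or.inr h0)
  have h2 := Complex.reCLM.hasFDerivAt.comp_hasDerivAt y h1
  simpa only [Function.comp_def, Complex.reCLM_apply, Complex.log_re] using h2

/-- the shifted diagonal -/
def ay (a : ι → ℝ) (y : ℝ) : ι → ℂ := fun i => (a i : ℂ) + y * Complex.I

section path
variable {a : ι → ℝ} {s : ℝ}

omit [Fintype ι] [DecidableEq ι] in
lemma ay_im (a : ι → ℝ) (y : ℝ) (i : ι) : (ay a y i).im = y := by simp [ay]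

omit [Fintype ι] [DecidableEq ι] in
lemma abs_le_ay (a : ι → ℝ) (y : ℝ) (i : ι) : |a i| ≤ ‖ay a y i‖ := by
  simpa [ay] using Complex.abs_re_le_norm (ay a y i)

omit [Fintype ι] [DecidableEq ι] in
lemma ay_le (a : ι → ℝ) {y : ℝ} (hy : 0 ≤ y) (i : ι) : ‖ay a y i‖ ≤ |a i| + y := by
  refine (norm_add_le _ _).trans ?_
  simp [abs_of_nonneg hy]

omit [DecidableEq ι] in
lemma norm_mv_le {b : ι → ℂ} {c : ℝ} (hc : 0 < c) (h : ∀ i, c ≤ ‖b i‖) (s : ℝ) :
    ‖mv s b‖ ≤ s ^ 2 * Fintype.card ι / c := by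
  rw [mv, norm_mul, Complex.norm_real, Real.norm_of_nonneg (sq_nonneg s), mul_div_assoc]
  refine mul_le_mul_of_nonneg_left ((norm_sum_le _ _).trans ?_) (sq_nonneg s)
  calc _ ≤ ∑ _i : ι, c⁻¹ := sum_le_sum fun i _ => by rw [norm_inv]; exact inv_anti₀ hc (h i)
    _ = _ := by simp [div_eq_mul_inv]

omit [DecidableEq ι] in
lemma Sv_ay_le (ha : ∀ i, 1 ≤ |a i|) (s y : ℝ) : Sv s (ay a y) ≤ s ^ 2 * ∑ i, (a i)⁻¹ ^ 2 := by
  refine mul_le_mul_of_nonneg_left (sum_le_sum fun i _ => ?_) (sq_nonneg s)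
  rw [norm_inv, ← sq_abs (a i)⁻¹, abs_inv]
  exact pow_le_pow_left₀ (by positivity) (inv_anti₀ (by linarith [ha i]) (abs_le_ay a y i)) 2

omit [DecidableEq ι] in
lemma im_zeta (a : ι → ℝ) (s y : ℝ) :
    ((y : ℂ) * Complex.I + mv s (ay a y)).im = y * (1 - Sv s (ay a y)) := by
  have h2 : ∀ j, ((ay a y j)⁻¹).im = -(y * ‖(ay a y j)⁻¹‖ ^ 2) := fun j => by
    rw [Complex.inv_im, ay_im, norm_inv, inv_pow, Complex.sq_norm]; ring
  simp only [Complex.add_im, mv, Complex.im_ofReal_mul, Complex.im_sum, Sv, h2, sum_neg_distrib,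
    ← mul_sum, Complex.I_im]
  ring

/-- the potential along the path -/
def Fp (s : ℝ) (a l : ι → ℝ) (y : ℝ) : ℝ :=
  ∑ k, Real.log ‖(l k : ℂ) + (y * Complex.I + mv s (ay a y))‖ - ∑ i, Real.log ‖ay a y i‖ -
    (mv s (ay a y) ^ 2).re / (2 * s ^ 2)

omit [DecidableEq ι] in
lemma hasDerivAt_Fp (hs : 0 < s) (hN : s ^ 2 * Fintype.card ι ≤ 1) (ha : ∀ i, 1 ≤ |a i|)
    (l : ι → ℝ) {y : ℝ} (hy : 0 < y) (hz : ((y : ℂ) * Complex.I + mv s (ay a y)).im ≠ 0) :
    ∃ w : ℂ, ‖w‖ ≤ 2 ∧ HasDerivAt (Fp s a l) ((w * (((s ^ 2 : ℝ) : ℂ) *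
      ∑ k, ((l k : ℂ) + (y * Complex.I + mv s (ay a y)))⁻¹ - mv s (ay a y))).re / s ^ 2) y := by
  have hI : HasDerivAt (fun t : ℝ => (t : ℂ) * Complex.I) Complex.I y := by
    simpa using (Complex.ofRealCLM.hasDerivAt (x := y)).mul_const Complex.I
  have hay : ∀ i, HasDerivAt (fun t : ℝ => ay a t i) Complex.I y := fun i => hI.const_add _
  have hne : ∀ i, ay a y i ≠ 0 := fun i h => by
    have := abs_le_ay a y i; rw [h, norm_zero] at this; linarith [ha i]
  obtain ⟨M', hM', hM⟩ : ∃ M' : ℂ, ‖M'‖ ≤ 1 ∧ HasDerivAt (fun t : ℝ => mv s (ay a t)) M' y := by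
    refine ⟨((s ^ 2 : ℝ) : ℂ) * ∑ i, -Complex.I / ay a y i ^ 2, ?_,
      (HasDerivAt.fun_sum fun i _ => (hay i).inv (hne i)).const_mul _⟩
    rw [norm_mul, Complex.norm_real, Real.norm_of_nonneg (sq_nonneg s)]
    refine le_trans (mul_le_mul_of_nonneg_left ((norm_sum_le _ _).trans ?_) (sq_nonneg s)) hN
    calc _ ≤ ∑ _i : ι, (1 : ℝ) := sum_le_sum fun i _ => by
          rw [norm_div, norm_neg, Complex.norm_I, norm_pow]
          exact div_le_one_of_le₀ (one_le_pow₀ ((ha i).trans (abs_le_ay a y i))) (by positivity)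
      _ = _ := by simp
  refine ⟨Complex.I + M', (norm_add_le _ _).trans (by rw [Complex.norm_I]; linarith), ?_⟩
  have h1 := HasDerivAt.fun_sum (u := univ) fun k _ =>
    hasDerivAt_log_norm (((hI.add hM).const_add (l k : ℂ))) (by simpa using hz)
  have h2 := HasDerivAt.fun_sum (u := univ) fun i _ =>
    hasDerivAt_log_norm (hay i) (by rw [ay_im]; exact hy.ne')
  have h3 := (Complex.reCLM.hasFDerivAt.comp_hasDerivAt y (hM.fun_pow 2)).div_const (2 * s ^ 2)
  have h4 := (h1.fun_sub h2).fun_sub h3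
  refine HasDerivAt.congr_deriv h4 ?_
  symm
  rw [← Complex.re_sum, ← Complex.re_sum, Complex.reCLM_apply, div_eq_iff (by positivity)]
  have hs2 : (s ^ 2 : ℝ) ≠ 0 := by positivity
  have e : ∀ u v w : ℂ, (u.re - v.re - w.re / (2 * s ^ 2)) * s ^ 2 =
      (((s ^ 2 : ℝ) : ℂ) * u - ((s ^ 2 : ℝ) : ℂ) * v - ((1 / 2 : ℝ) : ℂ) * w).re := fun u v w => by
    simp only [Complex.sub_re, Complex.re_ofReal_mul]; field_simp
  rw [e]
  congr 1
  simp only [Pi.add_apply, div_eq_mul_inv, ← mul_sum, mv]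
  push_cast; ring

/-- the path estimate -/
lemma Fp_le (hs : 0 < s) (hN : s ^ 2 * Fintype.card ι ≤ 1) {A0 κ y0 T e : ℝ}
    (ha : ∀ i, 1 ≤ |a i| ∧ |a i| ≤ A0) (hκ : 0 < κ) (hS : s ^ 2 * ∑ i, (a i)⁻¹ ^ 2 ≤ 1 - κ)
    (hy0 : 0 < y0) (hT : y0 ≤ T) {X : Matrix ι ι ℝ} (hX : Xᵀ = X)
    (hbox : ∀ d, Box (A0 + T + 1) (y0 * κ) d → |s| * cn (err s d X) ≤ e) (he : e ≤ y0 * κ)
    {l : ι → ℝ} (hl : ∀ ζ : ℂ, ζ.im ≠ 0 →
      (cx (diagonal a - X) + ζ • (1 : Matrix ι ι ℂ))⁻¹.trace = ∑ k, ((l k : ℂ) + ζ)⁻¹) :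
    |Fp s a l T - Fp s a l y0| ≤ 4 * e / (κ * s ^ 2) * (T - y0) := by
  have ha1 : ∀ i, 1 ≤ |a i| := fun i => (ha i).1
  have key : ∀ y ∈ Set.Icc y0 T, ∃ f' : ℝ, HasDerivAt (Fp s a l) f' y ∧
      ‖f'‖ ≤ 4 * e / (κ * s ^ 2) := fun y hy => by
    have hy' : 0 < y := hy0.trans_le hy.1
    have hSy : Sv s (ay a y) ≤ 1 - κ := (Sv_ay_le ha1 s y).trans hS
    have hm1 : ‖mv s (ay a y)‖ ≤ 1 :=
      (norm_mv_le one_pos (fun i => (ha1 i).trans (abs_le_ay a y i)) s).trans (by rwa [div_one])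
    have hyk : y0 * κ ≤ y * (1 - Sv s (ay a y)) :=
      mul_le_mul hy.1 (by linarith) hκ.le hy'.le
    have him : ∀ i, y0 * κ ≤ (ay a y i + mv s (ay a y)).im := fun i => by
      rw [im_add_mv (ay_im a y)]; exact hyk
    have hz := im_zeta a s y
    have hz0 : ((y : ℂ) * Complex.I + mv s (ay a y)).im ≠ 0 := by
      rw [hz]; exact ((mul_pos hy0 hκ).trans_le hyk).ne'
    obtain ⟨w, hw, hd⟩ := hasDerivAt_Fp hs hN ha1 l hy' hz0
    refine ⟨_, hd, ?_⟩
    have hb := hbox (fun i => ay a y i + mv s (ay a y)) fun i => ⟨him i,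
      (norm_add_le _ _).trans (by linarith [ay_le a hy'.le i, (ha i).2, hy.2])⟩
    have hne : ∀ i, ay a y i ≠ 0 := fun i h => by
      have := abs_le_ay a y i; rw [h, norm_zero] at this; linarith [ha1 i]
    have h1 := mtr_sub_mv hne hκ hSy (mul_pos hy0 hκ) him hX (hb.trans he)
    have hZ : Zm (fun i => ay a y i + mv s (ay a y)) X =
        cx (diagonal a - X) + ((y : ℂ) * Complex.I + mv s (ay a y)) • (1 : Matrix ι ι ℂ) := by
      ext i j
      by_cases h : i = j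
      · subst h; simp [Zm, ay]; ring
      · simp [Zm, h]
    rw [mtr, res, hZ, hl _ hz0] at h1
    rw [norm_div, Real.norm_of_nonneg (sq_nonneg s), div_le_iff₀ (by positivity)]
    calc _ ≤ 2 * (2 * e / κ) := by
          refine (Complex.abs_re_le_norm _).trans ?_
          rw [norm_mul]
          exact mul_le_mul hw (h1.trans (by gcongr)) (norm_nonneg _) (by norm_num)
      _ = _ := by field_simp; ring
  choose! f' hf' hb using key
  exact norm_image_sub_le_of_norm_deriv_le_segment' (f' := f')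
    (fun y hy => (hf' y hy).hasDerivWithinAt) (fun y hy => hb y (Set.Ico_subset_Icc_self hy)) T
    ⟨hT, le_rfl⟩

omit [DecidableEq ι] in
lemma Fp_end (hs : 0 < s) (hN : s ^ 2 * Fintype.card ι ≤ 1) (ha : ∀ i, 1 ≤ |a i|) {l : ι → ℝ}
    {K T : ℝ} (hK : 0 ≤ K) (hl : ∀ k, |l k| ≤ K) (hT : 1 ≤ T) :
    Fp s a l T ≤ Fintype.card ι * ((K + 2) / T) := by
  have hT0 : 0 < T := by linarith
  have hT' : ∀ i, T ≤ ‖ay a T i‖ := fun i => by
    have := Complex.im_le_norm (ay a T i); rwa [ay_im] at this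
  have hm := norm_mv_le hT0 hT' s
  have hm1 : ‖mv s (ay a T)‖ ≤ 1 := hm.trans (div_le_one_of_le₀ (by linarith) hT0.le)
  have h1 : ∀ k, Real.log ‖(l k : ℂ) + (T * Complex.I + mv s (ay a T))‖ ≤
      Real.log T + (K + 1) / T := fun k => by
    have h2 : ‖(l k : ℂ) + (T * Complex.I + mv s (ay a T))‖ ≤ T * (1 + (K + 1) / T) := by
      refine (norm_add_le _ _).trans ((add_le_add le_rfl (norm_add_le _ _)).trans ?_)
      rw [norm_mul, Complex.norm_real, Complex.norm_real, Complex.norm_I, Real.norm_eq_abs,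
        Real.norm_of_nonneg hT0.le, mul_add, mul_div_cancel₀ _ hT0.ne']
      linarith [hl k]
    have h3 : 0 ≤ (K + 1) / T := by positivity
    have h4 := Real.log_le_sub_one_of_pos (x := 1 + (K + 1) / T) (by positivity)
    have h5 := Real.log_nonneg hT
    rcases (norm_nonneg ((l k : ℂ) + (T * Complex.I + mv s (ay a T)))).eq_or_lt with h0 | h0
    · rw [← h0, Real.log_zero]; linarith
    · refine (Real.log_le_log h0 h2).trans ?_
      rw [Real.log_mul hT0.ne' (by positivity)]; linarith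
  have h2 : ∑ k, Real.log ‖(l k : ℂ) + (T * Complex.I + mv s (ay a T))‖ ≤
      Fintype.card ι * (Real.log T + (K + 1) / T) :=
    (sum_le_sum fun k _ => h1 k).trans (by simp [mul_add])
  have h3 : Fintype.card ι * Real.log T ≤ ∑ i, Real.log ‖ay a T i‖ :=
    le_trans (by simp) (sum_le_sum fun i _ => Real.log_le_log hT0 (hT' i))
  have h4 : -((mv s (ay a T) ^ 2).re / (2 * s ^ 2)) ≤ Fintype.card ι * (1 / T) := by
    have h5 : -(mv s (ay a T) ^ 2).re ≤ s ^ 2 * Fintype.card ι / T * 1 := by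
      refine (neg_le_abs _).trans ((Complex.abs_re_le_norm _).trans ?_)
      rw [norm_pow, sq]
      exact mul_le_mul hm hm1 (norm_nonneg _) (by positivity)
    rw [← neg_div, div_le_iff₀ (by positivity)]
    refine h5.trans ?_
    have : 0 ≤ s ^ 2 * Fintype.card ι / T := by positivity
    calc _ ≤ s ^ 2 * Fintype.card ι / T * 2 := by gcongr; norm_num
      _ = _ := by ring
  have e : (Fintype.card ι : ℝ) * ((K + 2) / T) =
      Fintype.card ι * ((K + 1) / T) + Fintype.card ι * (1 / T) := by ring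
  unfold Fp
  rw [mul_add] at h2
  linarith

end path

/-- deterministic determinant bound -/
theorem det_core {s κ θ y0 T K e : ℝ} (hs : 0 < s) (hN : s ^ 2 * Fintype.card ι ≤ 1)
    {X : Matrix ι ι ℝ} (hX : Xᵀ = X) (hK : opn X ≤ K) {D : ι → ℝ} (hD : ∀ i, 0 ≤ D i ∧ D i ≤ 1)
    (hκ : 0 < κ) (hθ : 0 < θ) (hθ1 : θ ≤ 1) (hS : s ^ 2 * ∑ i, D i ^ 2 + θ ^ 2 ≤ 1 - κ)
    (hy0 : 0 < y0) (hy1 : y0 ≤ 1) (hr1 : y0 ^ 2 + 2 * θ ≤ 1) (hT : 1 ≤ T)
    (hbox : ∀ d, Box (1 / θ + T + 1) (y0 * κ) d → |s| * cn (err s d X) ≤ e) (he0 : 0 ≤ e)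
    (he : e ≤ y0 * κ) :
    |(1 - diagonal D * (X - (s ^ 2 * ∑ i, D i) • (1 : Matrix ι ι ℝ))).det| ≤
      Real.exp ((s ^ 2 * ∑ i, D i) ^ 2 / (2 * s ^ 2) + Fintype.card ι *
        ((y0 ^ 2 + 2 * θ) / (y0 * κ) + 3 / 2 * (y0 ^ 2 + 2 * θ) + y0 + (1 / θ + K + 2) / T) +
        4 * e / (κ * s ^ 2) * T) := by
  obtain ⟨m, hm⟩ : ∃ m : ℝ, m = s ^ 2 * ∑ i, D i := ⟨_, rfl⟩
  obtain ⟨r, hr⟩ : ∃ r : ℝ, r = y0 ^ 2 + 2 * θ := ⟨_, rfl⟩
  rw [← hm, ← hr]
  have hr0 : 0 ≤ r := by rw [hr]; positivity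
  obtain ⟨D', hD', hle⟩ := exists_round (X - m • (1 : Matrix ι ι ℝ)) D hθ.le
  have hb : ∀ i, θ ≤ |D' i| ∧ |D' i| ≤ 1 ∧ |D' i - D i| ≤ 2 * θ ∧ D' i ^ 2 ≤ D i ^ 2 + θ ^ 2 :=
    fun i => by
      rcases hD' i with ⟨h1, h2⟩ | ⟨h1, h2⟩
      · rw [h1]
        exact ⟨h2, abs_le.2 ⟨by linarith [(hD i).1], (hD i).2⟩, by simp; positivity,
          by nlinarith⟩
      · refine ⟨h1.ge, h1.trans_le hθ1, (abs_sub _ _).trans (by linarith), ?_⟩
        rw [← sq_abs (D' i), h1]; nlinarith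
  have hne : ∀ i, D' i ≠ 0 := fun i h => by
    have := (hb i).1; rw [h, abs_zero] at this; linarith
  obtain ⟨a, ha⟩ : ∃ a : ι → ℝ, ∀ i, a i = (D' i)⁻¹ := ⟨_, fun _ => rfl⟩
  have hai : ∀ i, (a i)⁻¹ = D' i := fun i => by rw [ha, inv_inv]
  have ha1 : ∀ i, 1 ≤ |a i| ∧ |a i| ≤ 1 / θ := fun i => by
    rw [ha, abs_inv, one_div]
    exact ⟨(one_le_inv₀ (abs_pos.2 (hne i))).2 (hb i).2.1, inv_anti₀ hθ (hb i).1⟩
  have hSa : s ^ 2 * ∑ i, (a i)⁻¹ ^ 2 ≤ 1 - κ := by
    simp only [hai]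
    have h1 : ∑ i, D' i ^ 2 ≤ ∑ i, D i ^ 2 + Fintype.card ι * θ ^ 2 :=
      (sum_le_sum fun i _ => (hb i).2.2.2).trans (by simp [sum_add_distrib])
    have h2 := mul_le_mul_of_nonneg_left h1 (sq_nonneg s)
    have h3 := mul_le_mul_of_nonneg_right hN (sq_nonneg θ)
    linarith
  have hH : (diagonal a - X)ᵀ = diagonal a - X := by rw [transpose_sub, diagonal_transpose, hX]
  obtain ⟨l, hl1, hl2, hl3⟩ := exists_spec hH
  have hK0 : 0 ≤ K := (opn_nonneg X).trans hK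
  have hlK : ∀ k, |l k| ≤ 1 / θ + K := fun k => (hl1 k).trans ((opn_sub_le _ _).trans
    (add_le_add (opn_diagonal_le (by positivity) fun i => (ha1 i).2) hK))
  have h1 := Fp_le hs hN ha1 hκ hSa hy0 (hy1.trans hT) hX hbox he hl3
  have h2 := Fp_end hs hN (fun i => (ha1 i).1) (by positivity) hlK hT
  have h3 : Fp s a l y0 ≤ Fintype.card ι * ((1 / θ + K + 2) / T) + 4 * e / (κ * s ^ 2) * T := by
    have h4 : 4 * e / (κ * s ^ 2) * (T - y0) ≤ 4 * e / (κ * s ^ 2) * T :=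
      mul_le_mul_of_nonneg_left (by linarith) (by positivity)
    linarith [(abs_le.1 h1).1]
  have hdet : (1 - diagonal D' * (X - m • (1 : Matrix ι ι ℝ))).det =
      (∏ i, D' i) * ∏ k, (l k + m) := by
    rw [← hl2, ← det_diagonal, ← det_mul]
    congr 1
    have : diagonal D' * diagonal a = 1 := by
      rw [diagonal_mul_diagonal, ← diagonal_one]
      congr 1; ext i; rw [ha, mul_inv_cancel₀ (hne i)]
    rw [Matrix.mul_add, Matrix.mul_sub, Matrix.mul_sub, this]; abel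
  obtain ⟨M, hM⟩ : ∃ M : ℂ, M = mv s (ay a y0) := ⟨_, rfl⟩
  have hre : |M.re - m| ≤ s ^ 2 * Fintype.card ι * r := by
    rw [hM, hm, mv, Complex.re_ofReal_mul, Complex.re_sum, ← mul_sub, ← sum_sub_distrib, abs_mul,
      abs_of_nonneg (sq_nonneg s), mul_assoc]
    refine mul_le_mul_of_nonneg_left ((abs_sum_le_sum_abs _ _).trans ?_) (sq_nonneg s)
    refine (sum_le_sum (g := fun _ => r) fun i _ => ?_).trans (by simp)
    have h5 : 1 ≤ a i ^ 2 := by rw [← sq_abs]; exact one_le_pow₀ (ha1 i).1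
    have h6 : a i ≠ 0 := fun h => by rw [h] at h5; norm_num at h5
    have h7 : ((ay a y0 i)⁻¹).re - D' i = -(y0 ^ 2 / (a i * (a i ^ 2 + y0 ^ 2))) := by
      rw [Complex.inv_re, ay, Complex.normSq_add_mul_I, ← hai]
      simp only [Complex.add_re, Complex.ofReal_re, Complex.mul_re, Complex.I_re, mul_zero,
        Complex.ofReal_im, Complex.I_im, mul_one, sub_self, add_zero]
      field_simp; ring
    have h8 : |((ay a y0 i)⁻¹).re - D' i| ≤ y0 ^ 2 := by
      rw [h7, abs_neg, abs_div, abs_mul, abs_of_nonneg (sq_nonneg y0),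
        abs_of_nonneg (by positivity : 0 ≤ a i ^ 2 + y0 ^ 2)]
      exact div_le_self (sq_nonneg _) (one_le_mul_of_one_le_of_one_le (ha1 i).1
        (by linarith [sq_nonneg y0]))
    have h9 := abs_sub_le ((ay a y0 i)⁻¹).re (D' i) (D i)
    linarith [(hb i).2.2.1]
  have hre1 : |M.re - m| ≤ r := hre.trans (mul_le_of_le_one_left hr0 hN)
  have him : y0 * κ ≤ ((y0 : ℂ) * Complex.I + M).im := by
    have h5 := (Sv_ay_le (fun i => (ha1 i).1) s y0).trans hSa
    rw [hM, im_zeta]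
    exact mul_le_mul_of_nonneg_left (by linarith) hy0.le
  have hyk : 0 < y0 * κ := mul_pos hy0 hκ
  have hk : ∀ k, |l k + m| ≤ Real.exp (Real.log ‖(l k : ℂ) + (y0 * Complex.I + M)‖ +
      r / (y0 * κ)) := fun k => by
    have h5 : y0 * κ ≤ ‖(l k : ℂ) + (y0 * Complex.I + M)‖ := by
      refine le_trans ?_ (Complex.im_le_norm _)
      rw [Complex.add_im, Complex.ofReal_im, zero_add]; exact him
    have h6 : |l k + M.re| ≤ ‖(l k : ℂ) + (y0 * Complex.I + M)‖ := by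
      simpa using Complex.abs_re_le_norm ((l k : ℂ) + (y0 * Complex.I + M))
    rw [Real.exp_add, Real.exp_log (hyk.trans_le h5)]
    have h7 := Real.add_one_le_exp (r / (y0 * κ))
    have h8 : r ≤ ‖(l k : ℂ) + (y0 * Complex.I + M)‖ * (r / (y0 * κ)) := by
      calc r = y0 * κ * (r / (y0 * κ)) := by field_simp
        _ ≤ _ := mul_le_mul_of_nonneg_right h5 (by positivity)
    have h9 : |l k + m| ≤ |l k + M.re| + |M.re - m| := by
      have := abs_sub (l k + M.re) (M.re - m)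
      rwa [show l k + M.re - (M.re - m) = l k + m by ring] at this
    nlinarith [mul_le_mul_of_nonneg_left h7 (norm_nonneg ((l k : ℂ) + (y0 * Complex.I + M)))]
  have hi : ∀ i, |D' i| ≤ Real.exp (y0 - Real.log ‖ay a y0 i‖) := fun i => by
    have h5 : 0 < |a i| := by linarith [(ha1 i).1]
    have h6 : 0 < ‖ay a y0 i‖ := h5.trans_le (abs_le_ay a y0 i)
    rw [Real.exp_sub, Real.exp_log h6, ← hai, abs_inv, le_div_iff₀ h6, inv_mul_le_iff₀ h5]
    have h7 := Real.add_one_le_exp y0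
    have h8 := ay_le a hy0.le i
    nlinarith [(ha1 i).1, mul_le_mul_of_nonneg_left h7 h5.le]
  have hm0 : 0 ≤ m := by
    rw [hm]; exact mul_nonneg (sq_nonneg s) (sum_nonneg fun i _ => (hD i).1)
  have hm1 : m ≤ 1 := by
    rw [hm]
    refine le_trans (mul_le_mul_of_nonneg_left ?_ (sq_nonneg s)) hN
    exact (sum_le_sum (g := fun _ => (1 : ℝ)) fun i _ => (hD i).2).trans (by simp)
  have hM2 : (M ^ 2).re / (2 * s ^ 2) ≤ m ^ 2 / (2 * s ^ 2) + Fintype.card ι * (3 / 2 * r) := by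
    have h5 : (M ^ 2).re ≤ m ^ 2 + 3 * (s ^ 2 * Fintype.card ι * r) := by
      have h6 : (M ^ 2).re = M.re ^ 2 - M.im ^ 2 := by rw [sq, Complex.mul_re]; ring
      have h7 : M.re ^ 2 - m ^ 2 ≤ |M.re - m| * 3 := by
        have h8 : |M.re + m| ≤ 3 := by
          have := abs_le.1 hre1
          rw [← hr] at hr1
          exact abs_le.2 ⟨by linarith, by linarith⟩
        calc _ = (M.re - m) * (M.re + m) := by ring
          _ ≤ |M.re - m| * |M.re + m| := by rw [← abs_mul]; exact le_abs_self _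
          _ ≤ _ := mul_le_mul_of_nonneg_left h8 (abs_nonneg _)
      linarith [sq_nonneg M.im]
    calc _ ≤ (m ^ 2 + 3 * (s ^ 2 * Fintype.card ι * r)) / (2 * s ^ 2) := by gcongr
      _ = _ := by field_simp
  refine hle.trans ?_
  rw [hdet, abs_mul, abs_prod, abs_prod]
  calc _ ≤ (∏ i, Real.exp (y0 - Real.log ‖ay a y0 i‖)) *
        ∏ k, Real.exp (Real.log ‖(l k : ℂ) + (y0 * Complex.I + M)‖ + r / (y0 * κ)) :=
        mul_le_mul (prod_le_prod (fun _ _ => abs_nonneg _) fun i _ => hi i)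
          (prod_le_prod (fun _ _ => abs_nonneg _) fun k _ => hk k)
          (prod_nonneg fun _ _ => abs_nonneg _) (prod_nonneg fun _ _ => (Real.exp_pos _).le)
    _ ≤ _ := by
      rw [← Real.exp_sum, ← Real.exp_sum, ← Real.exp_add, Real.exp_le_exp, sum_sub_distrib,
        sum_add_distrib]
      simp only [sum_const, card_univ, nsmul_eq_mul]
      unfold Fp at h3
      rw [← hM] at h3
      linarith

end Crest.Agent.T157.Fr
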