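import Crest.Agent.T157.FrS_98
import Crest.Agent.T157.St0_44

/-!
Row 157 (helper98): the input `St.RMT` of the ascent algorithm (helper44).
-/

set_option autoImplicit false
set_option linter.unusedSimpArgs false
set_option maxHeartbeats 400000

noncomputable section

namespace Crest.Agent.T157.Fr

open Matrix Finset MeasureTheory ProbabilityTheory Filter
open Crest.ProbabilityR.SpinGlassDynamics
open Crest.Agent.T157.Eig Crest.Agent.T157.Cond Crest.Agent.T157.St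
open Crest.Agent.T157.E (gv Jmat Wmat)

variable {n : ℕ}

lemma res_eq_Km {A : Matrix (Fin n) (Fin n) ℝ} (hA : Aᵀ = A) (D : Fin n → ℝ) (w1 : ℝ) {w2 : ℝ}
    (hw : 0 < w2) : res (fun i => ((D i + w1 : ℝ) : ℂ) + w2 * Complex.I) A =
      cx (Bm A D w1 * Km A D w1 w2) - ((w2 : ℂ) * Complex.I) • cx (Km A D w1 w2) := by
  have hB : (Bm A D w1)ᴴ = Bm A D w1 := by
    rw [conjTranspose_eq_transpose_of_trivial, Bm, transpose_sub, diagonal_transpose, hA]
  have hpd : (Bm A D w1 * Bm A D w1 + (w2 ^ 2) • (1 : Matrix (Fin n) (Fin n) ℝ)).PosDef := by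
    have h1 : (Bm A D w1 * Bm A D w1).PosSemidef := by
      have := posSemidef_conjTranspose_mul_self (Bm A D w1)
      rwa [hB] at this
    exact PosDef.posSemidef_add h1 (PosDef.one.smul (by positivity))
  have hK : (Bm A D w1 * Bm A D w1 + (w2 ^ 2) • (1 : Matrix (Fin n) (Fin n) ℝ)) *
      Km A D w1 w2 = 1 := mul_nonsing_inv _ ((isUnit_iff_isUnit_det _).1 hpd.isUnit)
  have hK' := congrArg cx hK
  rw [cx_mul, cx_add, cx_mul, cx_smul, cx_one] at hK'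
  have hZ : Zm (fun i => ((D i + w1 : ℝ) : ℂ) + w2 * Complex.I) A =
      cx (Bm A D w1) + ((w2 : ℂ) * Complex.I) • (1 : Matrix (Fin n) (Fin n) ℂ) := by
    ext i j
    by_cases h : i = j
    · subst h; simp [Zm, Bm]; ring
    · simp [Zm, Bm, h]
  rw [res, hZ]
  refine inv_eq_right_inv ?_
  refine Eq.trans ?_ hK'
  rw [cx_mul]
  have : (w2 : ℂ) * Complex.I * (w2 * Complex.I) = -((w2 ^ 2 : ℝ) : ℂ) := by
    push_cast; linear_combination (w2 : ℂ) ^ 2 * Complex.I_mul_I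
  generalize cx (Bm A D w1) = B
  generalize cx (Km A D w1 w2) = K
  simp only [Matrix.add_mul, Matrix.mul_sub, Matrix.mul_smul, Matrix.smul_mul, Matrix.one_mul,
    smul_smul, Matrix.mul_assoc, smul_add, this, neg_smul]
  abel

lemma trace_cx {ι : Type*} [Fintype ι] (M : Matrix ι ι ℝ) : (cx M).trace = (M.trace : ℂ) := by
  simp [trace]

/-- deterministic form -/
theorem rmt_of_err {β K γ ε e : ℝ} (hβ : 0 < β) (hn : 0 < n) {A : Matrix (Fin n) (Fin n) ℝ}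
    (hA : Aᵀ = A) (hγ : 0 < γ)
    (h : ∀ d, Box (K + 2 + β) (γ ^ 2) d → |β / √n| * cn (err (β / √n) d A) ≤ e)
    (he : e ≤ γ ^ 2) (he2 : 2 * e / (γ * β ^ 2) ≤ ε) : RMT β A K γ ε := by
  intro D hD u1 u2 h1 h2 h3 h4 h5
  have hn0 : (0 : ℝ) < n := Nat.cast_pos.2 hn
  have hs2 : (β / √n) ^ 2 = β ^ 2 / n := by rw [div_pow, Real.sq_sqrt hn0.le]
  set a : Fin n → ℂ := fun i => ((D i + u1 : ℝ) : ℂ) + u2 * Complex.I with ha
  have haim : ∀ i, (a i).im = u2 := fun i => by simp [ha]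
  have hu2 : 0 < u2 := hγ.trans_le h3
  have ha0 : ∀ i, a i ≠ 0 := fun i h => by
    have := haim i; rw [h] at this; simp at this; linarith
  have hns : ∀ i, Complex.normSq (a i) = (D i + u1) ^ 2 + u2 ^ 2 := fun i => by
    rw [ha]; exact Complex.normSq_add_mul_I _ _
  have hS : Sv (β / √n) a = β ^ 2 * g2 D u1 u2 := by
    simp only [Sv, hs2, g2, av, norm_inv, inv_pow, Complex.sq_norm, hns]; ring
  have hre : (mv (β / √n) a).re = β ^ 2 * gr D u1 u2 := by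
    rw [mv, Complex.re_ofReal_mul, Complex.re_sum, hs2]
    simp only [gr, av, Complex.inv_re, hns]
    simp only [ha, Complex.add_re, Complex.ofReal_re, Complex.mul_re, Complex.I_re, mul_zero,
      Complex.ofReal_im, Complex.I_im, mul_one, sub_self, add_zero, div_eq_mul_inv]
    ring
  have him : (mv (β / √n) a).im = -(β ^ 2 * (u2 * g2 D u1 u2)) := by
    have := im_add_mv haim (β / √n) ⟨0, hn⟩
    rw [Complex.add_im, haim, hS] at this
    linarith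
  have hSκ : Sv (β / √n) a ≤ 1 - γ := by rw [hS]; unfold ku at h5; linarith
  have hw2 : γ ^ 2 ≤ u2 * ku β D u1 u2 := by nlinarith
  have hd : (fun i => a i + mv (β / √n) a) = fun i =>
      ((D i + (u1 + β ^ 2 * gr D u1 u2) : ℝ) : ℂ) + (u2 * ku β D u1 u2 : ℝ) * Complex.I := by
    ext i
    apply Complex.ext
    · rw [Complex.add_re, hre]
      simp only [ha, Complex.add_re, Complex.ofReal_re, Complex.mul_re, Complex.I_re, mul_zero,
        Complex.ofReal_im, Complex.I_im, mul_one, sub_self, add_zero]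
      ring
    · rw [Complex.add_im, him, haim]
      simp only [Complex.add_im, Complex.ofReal_re, Complex.mul_im, Complex.I_re, mul_zero,
        Complex.ofReal_im, Complex.I_im, mul_one, add_zero, zero_add, ku]
      ring
  have hdim : ∀ i, γ ^ 2 ≤ (a i + mv (β / √n) a).im := fun i => by
    rw [im_add_mv haim, hS]; exact hw2
  have hmv : ‖mv (β / √n) a‖ ≤ β := by
    have hY : |β / √n| * cn (fun i => (a i)⁻¹) ≤ 1 := by
      have := Sv_eq (β / √n) a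
      exact abs_le_of_sq_le_sq' (by nlinarith) zero_le_one |>.2
    rw [mv, norm_mul, Complex.norm_real, Real.norm_of_nonneg (sq_nonneg _)]
    have h6 := (norm_sum_le _ _).trans (sum_norm_le_cn fun i => (a i)⁻¹)
    rw [Fintype.card_fin] at h6
    have hsq : 0 < √(n : ℝ) := Real.sqrt_pos.2 hn0
    rw [abs_of_pos (by positivity)] at hY
    calc _ ≤ (β / √n) ^ 2 * (√n * cn fun i => (a i)⁻¹) := by gcongr
      _ = β * (β / √n * cn fun i => (a i)⁻¹) := by field_simp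
      _ ≤ β * 1 := by gcongr
      _ = β := mul_one β
  have hbox : Box (K + 2 + β) (γ ^ 2) fun i => a i + mv (β / √n) a := fun i => by
    refine ⟨hdim i, (norm_add_le _ _).trans (add_le_add ((norm_add_le _ _).trans ?_) hmv)⟩
    rw [norm_mul, Complex.norm_real, Complex.norm_real, Complex.norm_I, Real.norm_eq_abs,
      Real.norm_eq_abs, abs_of_pos hu2, abs_of_nonneg (by linarith [(hD i).1])]
    linarith [(hD i).2]
  have h7 := h _ hbox
  have h8 := mtr_sub_mv ha0 hγ hSκ (by positivity) hdim hA (h7.trans he)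
  have h9 : ‖mtr (β / √n) (fun i => a i + mv (β / √n) a) A - mv (β / √n) a‖ ≤ β ^ 2 * ε := by
    refine h8.trans ?_
    rw [div_le_iff₀ (by positivity)] at he2
    rw [div_le_iff₀ hγ]
    nlinarith
  rw [hd, mtr, res_eq_Km hA D _ (by nlinarith [sq_pos_of_pos hγ]), trace_sub, trace_smul, trace_cx,
    trace_cx, hs2] at h9
  have h10 := (Complex.abs_re_le_norm _).trans h9
  have h11 := (Complex.abs_im_le_norm _).trans h9
  rw [Complex.sub_re, hre, Complex.re_ofReal_mul] at h10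
  rw [Complex.sub_im, him, Complex.im_ofReal_mul] at h11
  simp only [smul_eq_mul, Complex.sub_re, Complex.ofReal_re, Complex.mul_re, Complex.I_re, mul_zero,
    Complex.ofReal_im, Complex.I_im, mul_one, sub_self, zero_mul, Complex.mul_im, add_zero,
    sub_zero, Complex.sub_im, zero_add, zero_sub] at h10 h11
  have hβ2 : 0 < β ^ 2 := by positivity
  constructor
  · refine le_of_mul_le_mul_left ?_ hβ2
    rw [← abs_of_pos hβ2, ← abs_mul, abs_of_pos hβ2]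
    refine le_of_eq_of_le ?_ h10
    congr 1; ring
  · refine le_of_mul_le_mul_left ?_ hβ2
    rw [← abs_of_pos hβ2, ← abs_mul, abs_of_pos hβ2, ← abs_neg]
    refine le_of_eq_of_le ?_ h11
    congr 1; ring

lemma rmt_params {β : ℝ} (hβ : 0 < β) (C : ℝ) (hC : 0 < C) : ∀ᶠ n : ℕ in atTop, ∀ η : ℝ, 0 < η →
    η ≤ 1 → 1 ≤ η ^ 80 * n → ∃ ρ : ℝ, 1 ≤ ρ ∧ ρ ^ 5 ≤ n ∧ (η ^ 6)⁻¹ + 2 + β + 3 * β ≤ n ∧
      ((η ^ 6)⁻¹ + 2 + β + 3 * β) / ((η ^ 2) ^ 2) ^ 2 + 2 * β ^ 2 / ((η ^ 2) ^ 2) ^ 3 ≤ ρ ∧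
      C / ρ ≤ (η ^ 2) ^ 2 ∧ 2 * (C / ρ) / (η ^ 2 * β ^ 2) ≤ η ^ 4 := by
  obtain ⟨M, hM1, hM3, hM4, hCM, hCM2⟩ : ∃ M : ℝ, 1 ≤ M ∧ 3 + 4 * β + 2 * β ^ 2 ≤ M ∧
      3 + 4 * β ≤ M ∧ C ≤ M ∧ 2 * C / β ^ 2 ≤ M := by
    have h1 : 0 ≤ 2 * C / β ^ 2 := by positivity
    have h2 : 0 ≤ β ^ 2 := by positivity
    exact ⟨3 + 4 * β + 2 * β ^ 2 + C + 2 * C / β ^ 2, by linarith, by linarith, by linarith,
      by linarith, by linarith⟩
  filter_upwards [(tendsto_natCast_atTop_atTop (R := ℝ)).eventually_ge_atTop (M ^ 40)] with n hn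
  intro η hη hη1 hηn
  obtain ⟨x, hx0, rfl⟩ : ∃ x : ℝ, 0 < x ∧ η = x⁻¹ := ⟨η⁻¹, inv_pos.2 hη, (inv_inv η).symm⟩
  have hx1 : 1 ≤ x := (inv_le_one₀ hx0).1 hη1
  have hxn : x ^ 80 ≤ n := by
    rw [inv_pow, ← div_eq_inv_mul, one_le_div (by positivity)] at hηn; exact hηn
  have hn0 : (0 : ℝ) ≤ n := Nat.cast_nonneg n
  have hρ5 : (M * x ^ 14) ^ 5 ≤ n := by
    refine le_of_pow_le_pow_left₀ (n := 8) (by norm_num) hn0 ?_
    calc ((M * x ^ 14) ^ 5) ^ 8 = M ^ 40 * (x ^ 80) ^ 7 := by ring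
      _ ≤ (n : ℝ) * (n : ℝ) ^ 7 := by gcongr
      _ = _ := by ring
  have hp : ∀ j k : ℕ, j ≤ k → x ^ j ≤ x ^ k := fun j k h => pow_le_pow_right₀ hx1 h
  have h1 : ∀ k : ℕ, 1 ≤ x ^ k := fun k => one_le_pow₀ hx1
  have hρ1 : 1 ≤ M * x ^ 14 := one_le_mul_of_one_le_of_one_le hM1 (h1 14)
  have hA : (x⁻¹ ^ 6)⁻¹ + 2 + β + 3 * β ≤ (3 + 4 * β) * x ^ 6 := by
    rw [inv_pow, inv_inv]
    have := mul_le_mul_of_nonneg_left (h1 6) (by positivity : 0 ≤ 2 + 4 * β)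
    linarith
  refine ⟨M * x ^ 14, hρ1, hρ5, ?_, ?_, ?_, ?_⟩
  · calc _ ≤ (3 + 4 * β) * x ^ 6 := hA
      _ ≤ M * x ^ 14 := mul_le_mul hM4 (hp 6 14 (by norm_num)) (by positivity) (by linarith)
      _ ≤ (M * x ^ 14) ^ 5 := le_self_pow₀ hρ1 (by norm_num)
      _ ≤ n := hρ5
  · calc _ ≤ (3 + 4 * β) * x ^ 6 / ((x⁻¹ ^ 2) ^ 2) ^ 2 + 2 * β ^ 2 / ((x⁻¹ ^ 2) ^ 2) ^ 3 :=
          add_le_add (div_le_div_of_nonneg_right hA (by positivity)) le_rfl
      _ = (3 + 4 * β) * x ^ 14 + 2 * β ^ 2 * x ^ 12 := by field_simp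
      _ ≤ (3 + 4 * β) * x ^ 14 + 2 * β ^ 2 * x ^ 14 :=
          add_le_add le_rfl (mul_le_mul_of_nonneg_left (hp 12 14 (by norm_num)) (by positivity))
      _ = (3 + 4 * β + 2 * β ^ 2) * x ^ 14 := by ring
      _ ≤ _ := mul_le_mul_of_nonneg_right hM3 (by positivity)
  · rw [div_le_iff₀ (by positivity)]
    calc C ≤ M * x ^ 10 := hCM.trans (le_mul_of_one_le_right (by linarith) (h1 10))
      _ = _ := by field_simp
  · have hM0 : 0 < M := by linarith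
    calc _ = 2 * C / β ^ 2 / M / x ^ 8 * x⁻¹ ^ 4 := by field_simp
      _ ≤ 1 * x⁻¹ ^ 4 := mul_le_mul_of_nonneg_right
          ((div_le_self (by positivity) (h1 8)).trans (div_le_one_of_le₀ hCM2 hM0.le))
          (by positivity)
      _ = _ := one_mul _

/-- **`RMT` for `β • Wmat`** -/
theorem rmt_Wmat {β : ℝ} (hβ : 0 < β) : ∀ᶠ n : ℕ in atTop, ∀ η : ℝ, 0 < η → η ≤ 1 →
    1 ≤ η ^ 80 * n → ((disorderLaw n).prod (gv (Fin n))).real
      {p | ¬ RMT β (β • Wmat n p.1 p.2) (η ^ 6)⁻¹ (η ^ 2) (η ^ 4)} ≤ Real.exp (-n) := by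
  filter_upwards [unif_simple_Wmat hβ, rmt_params hβ (Cβ β) (by unfold Cβ; positivity),
    eventually_gt_atTop 0] with n h hp hn η hη hη1 hηn
  obtain ⟨ρ, h1, h2, h3, h4, h5, h6⟩ := hp η hη hη1 hηn
  have hA : (η ^ 2) ^ 2 ≤ (η ^ 6)⁻¹ + 2 + β := by
    have : (η ^ 2) ^ 2 ≤ 1 := pow_le_one₀ (by positivity) (pow_le_one₀ hη.le hη1)
    have : 0 < (η ^ 6)⁻¹ := by positivity
    linarith
  refine le_trans (measureReal_mono fun p hp => ?_) (h ρ ((η ^ 6)⁻¹ + 2 + β) ((η ^ 2) ^ 2) h1 h2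
    (by positivity) hA (by linarith) (le_trans (add_le_add
      (div_le_div_of_nonneg_right (by linarith) (by positivity)) le_rfl) h4))
  by_contra hc
  simp only [Set.mem_setOf_eq, not_exists, not_and, not_lt] at hc
  exact hp (rmt_of_err hβ hn (by rw [transpose_smul, E.Wmat_transpose]) (by positivity) hc h5 h6)

/-- **`RMT` for `β • Jmat`** -/
theorem rmt_Jmat {β : ℝ} (hβ : 0 < β) : ∀ᶠ n : ℕ in atTop, ∀ η : ℝ, 0 < η → η ≤ 1 →
    1 ≤ η ^ 80 * n → (disorderLaw n).real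
      {g | ¬ RMT β (β • Jmat n g) (η ^ 6)⁻¹ (η ^ 2) (η ^ 4)} ≤ 2 * Real.exp (-(n / 2)) := by
  filter_upwards [unif_simple_Jmat hβ, rmt_params hβ (Cβ β + 3 * β ^ 2) (by unfold Cβ; positivity),
    eventually_gt_atTop 0] with n h hp hn η hη hη1 hηn
  obtain ⟨ρ, h1, h2, h3, h4, h5, h6⟩ := hp η hη hη1 hηn
  have hA : (η ^ 2) ^ 2 ≤ (η ^ 6)⁻¹ + 2 + β := by
    have : (η ^ 2) ^ 2 ≤ 1 := pow_le_one₀ (by positivity) (pow_le_one₀ hη.le hη1)
    have : 0 < (η ^ 6)⁻¹ := by positivity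
    linarith
  refine le_trans (measureReal_mono fun p hp => ?_) (h ρ ((η ^ 6)⁻¹ + 2 + β) ((η ^ 2) ^ 2) h1 h2
    (by positivity) hA h3 h4)
  by_contra hc
  simp only [Set.mem_setOf_eq, not_exists, not_and, not_lt] at hc
  exact hp (rmt_of_err hβ hn (by rw [transpose_smul, E.Jmat_transpose]) (by positivity) hc h5 h6)

end Crest.Agent.T157.Fr
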