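import Crest.Agent.T157.FrC_98

/-!
Row 157 (helper98), freeness with diagonals: asymptotic form of the uniform Dyson equation.
-/

set_option autoImplicit false
set_option linter.unusedSimpArgs false

noncomputable section

namespace Crest.Agent.T157.Fr

open Matrix Finset MeasureTheory ProbabilityTheory Filter
open Crest.ProbabilityR.SpinGlassDynamics
open Crest.Agent.T157.Eig Crest.Agent.T157.Cond
open Crest.Agent.T157.E (gv Jmat Wmat)

/-- the constant of `unif_simple` -/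
def Cβ (β : ℝ) : ℝ := β * (2 * β ^ 2 + 6 * β + 5)

lemma eventually_log_pow (C : ℝ) (k : ℕ) : ∀ᶠ n : ℕ in atTop, C * Real.log n ^ k ≤ n := by
  have h := (Real.isLittleO_pow_log_id_atTop (n := k)).const_mul_left C
  have h2 := (tendsto_natCast_atTop_atTop (R := ℝ)).eventually (h.bound one_pos)
  filter_upwards [h2] with n hn
  simp only [id, one_mul, Real.norm_natCast] at hn
  exact (le_abs_self _).trans hn

lemma Lam_fin {n : ℕ} (hn : 0 < n) (β A η : ℝ) :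
    Lam (Fin n) (β / √n) A η = A / η ^ 2 + 2 * β ^ 2 / η ^ 3 := by
  have hn' : (0 : ℝ) < n := Nat.cast_pos.2 hn
  rw [Lam, Fintype.card_fin, div_pow, Real.sq_sqrt hn'.le, div_mul_cancel₀ _ hn'.ne']

theorem pfail_thr {β : ℝ} (hβ : 0 < β) : ∀ᶠ n : ℕ in atTop, ∀ ρ A η : ℝ, 1 ≤ ρ → ρ ^ 5 ≤ n →
    0 < η → η ≤ A → A ≤ n → A / η ^ 2 + 2 * β ^ 2 / η ^ 3 ≤ ρ →
    pfail (Fin n) (β / √n) A η (1 / √n) (√n / ρ) ≤ Real.exp (-n) ∧
    |β / √n| * thr (Fin n) (β / √n) A η (1 / √n) (√n / ρ) ≤ Cβ β / ρ := by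
  filter_upwards [eventually_log_pow ((28 * β ^ 2) ^ 5) 5, eventually_ge_atTop 3] with n hlog hn3
  intro ρ A η hρ hρn hη hA hAn hL
  have hn : 0 < n := by omega
  have hn' : (3 : ℝ) ≤ n := by exact_mod_cast hn3
  have hn0 : (0 : ℝ) < n := by linarith
  have hsq : 0 < √(n : ℝ) := Real.sqrt_pos.2 hn0
  have hss : √(n : ℝ) * √n = n := Real.mul_self_sqrt hn0.le
  have hρ0 : 0 < ρ := by linarith
  have hA0 : 0 < A := hη.trans_le hA
  set Λ := A / η ^ 2 + 2 * β ^ 2 / η ^ 3 with hΛ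
  have hΛ0 : 0 < Λ := by positivity
  have hηΛ : 1 / η ≤ ρ := by
    have : 1 / η ≤ A / η ^ 2 := by
      rw [div_le_div_iff₀ hη (by positivity)]; nlinarith
    have h5 : 0 ≤ 2 * β ^ 2 / η ^ 3 := by positivity
    linarith
  have hρ4 : ρ ^ 4 ≤ n := (pow_le_pow_right₀ hρ (by norm_num)).trans hρn
  have hρ3 : ρ ^ 3 ≤ n := (pow_le_pow_right₀ hρ (by norm_num)).trans hρn
  have hρ2 : ρ ^ 2 ≤ √n := Real.le_sqrt_of_sq_le (by rw [← pow_mul]; exact hρ4)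
  constructor
  · have hlog1 : 1 ≤ Real.log n := by
      rw [Real.le_log_iff_exp_le hn0]
      exact Real.exp_one_lt_d9.le.trans (by linarith)
    have hsn : √(n : ℝ) ≤ n := Real.sqrt_le_iff.2 ⟨hn0.le, by nlinarith⟩
    have h1 : 2 * A / (1 / √n) + 3 ≤ Real.exp (3 * Real.log n) := by
      have : Real.exp (3 * Real.log n) = (n : ℝ) ^ 3 := by
        rw [show (3 : ℝ) * Real.log n = (3 : ℕ) * Real.log n by norm_num, Real.exp_nat_mul,
          Real.exp_log hn0]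
      rw [this, div_div_eq_mul_div, div_one]
      have : A * √n ≤ n * n := by gcongr
      nlinarith
    have h2 : ρ ^ 4 * (28 * β ^ 2 * Real.log n) ≤ n := by
      refine le_of_pow_le_pow_left₀ (n := 5) (by norm_num) hn0.le ?_
      calc _ = (ρ ^ 5) ^ 4 * ((28 * β ^ 2) ^ 5 * Real.log n ^ 5) := by ring
        _ ≤ (n : ℝ) ^ 4 * n := by gcongr
        _ = _ := by ring
    have h3 : 7 * n * Real.log n ≤ (√n / ρ) ^ 2 / (4 * (β / √n) ^ 2 * Λ ^ 2) := by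
      rw [le_div_iff₀ (by positivity), div_pow, div_pow, Real.sq_sqrt hn0.le,
        le_div_iff₀ (by positivity)]
      calc _ = ρ ^ 2 * Λ ^ 2 * (28 * β ^ 2 * Real.log n) := by field_simp; norm_num
        _ ≤ ρ ^ 2 * ρ ^ 2 * (28 * β ^ 2 * Real.log n) := by gcongr
        _ ≤ _ := by rw [← pow_add]; exact h2
    rw [pfail, Lam_fin hn, ← hΛ, Fintype.card_fin]
    calc _ ≤ Real.exp (3 * Real.log n) ^ (2 * n) * Real.exp (-(7 * n * Real.log n)) := by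
          gcongr
          rw [neg_div]; linarith
      _ = Real.exp (-(n * Real.log n)) := by
          rw [← Real.exp_nat_mul, ← Real.exp_add]; congr 1; push_cast; ring
      _ ≤ _ := by gcongr; nlinarith
  · rw [thr, Lam_fin hn, ← hΛ, Fintype.card_fin, abs_of_pos (by positivity), Cβ]
    have e : β / √n * (√n * (2 * (β / √n) ^ 2 / η ^ 2 + (6 * (β / √n) + 4 * (1 / √n)) * Λ) +
        √n / ρ) = β * (2 * β ^ 2 * ((1 / η) ^ 2 / n) + (6 * β + 4) * (Λ / √n) + 1 / ρ) := by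
      rw [div_pow, Real.sq_sqrt hn0.le]; field_simp
    have h1 : (1 / η) ^ 2 / n ≤ 1 / ρ := by
      rw [div_le_div_iff₀ hn0 hρ0]
      have : (1 / η) ^ 2 ≤ ρ ^ 2 := by gcongr
      nlinarith
    have h2 : Λ / √n ≤ 1 / ρ := by
      rw [div_le_div_iff₀ hsq hρ0]; nlinarith
    rw [e]
    calc _ ≤ β * (2 * β ^ 2 * (1 / ρ) + (6 * β + 4) * (1 / ρ) + 1 / ρ) := by gcongr
      _ = _ := by ring

/-- **uniform Dyson equation, asymptotic form** (`ρ` is any bound for the Lipschitz constant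
with `ρ⁵ ≤ n`) -/
theorem unif_simple {β : ℝ} (hβ : 0 < β) : ∀ᶠ n : ℕ in atTop, ∀ ρ A η : ℝ, 1 ≤ ρ → ρ ^ 5 ≤ n →
    0 < η → η ≤ A → A ≤ n → A / η ^ 2 + 2 * β ^ 2 / η ^ 3 ≤ ρ →
    (goe (Fin n) (β / √n)).real {W | ∃ d, Box A η d ∧
      Cβ β / ρ < |β / √n| * cn (err (β / √n) d W)} ≤ Real.exp (-n) := by
  filter_upwards [pfail_thr hβ, eventually_gt_atTop 0] with n h hn ρ A η hρ hρn hη hA hAn hL
  obtain ⟨h1, h2⟩ := h ρ A η hρ hρn hη hA hAn hL
  have hsq : 0 < √(n : ℝ) := Real.sqrt_pos.2 (Nat.cast_pos.2 hn)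
  have hs : 0 < β / √n := by positivity
  refine le_trans (measureReal_mono ?_) ((unif_goe hs hη hA (δ := 1 / √n) (t := √n / ρ)
    (by positivity) (by positivity)).trans h1)
  rintro W ⟨d, hd, h⟩
  exact ⟨d, hd, lt_of_mul_lt_mul_left (h2.trans_lt h) (abs_nonneg _)⟩

theorem unif_simple_Wmat {β : ℝ} (hβ : 0 < β) : ∀ᶠ n : ℕ in atTop, ∀ ρ A η : ℝ, 1 ≤ ρ →
    ρ ^ 5 ≤ n → 0 < η → η ≤ A → A ≤ n → A / η ^ 2 + 2 * β ^ 2 / η ^ 3 ≤ ρ →
    ((disorderLaw n).prod (gv (Fin n))).real {p | ∃ d, Box A η d ∧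
      Cβ β / ρ < |β / √n| * cn (err (β / √n) d (β • Wmat n p.1 p.2))} ≤ Real.exp (-n) := by
  filter_upwards [unif_simple hβ] with n h ρ A η hρ hρn hη hA hAn hL
  exact (real_preimage_le (mp_smul_Wmat β) _).trans (h ρ A η hρ hρn hη hA hAn hL)

lemma mp_smul_goe (n : ℕ) (β : ℝ) : MeasurePreserving (fun W : Matrix (Fin n) (Fin n) ℝ => β • W)
    (goe (Fin n) (1 / √n)) (goe (Fin n) (β / √n)) :=
  ⟨(continuous_const_smul β).measurable, by rw [goe_smul, mul_one_div]⟩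

theorem unif_simple_smul {β : ℝ} (hβ : 0 < β) : ∀ᶠ n : ℕ in atTop, ∀ ρ A η : ℝ, 1 ≤ ρ →
    ρ ^ 5 ≤ n → 0 < η → η ≤ A → A ≤ n → A / η ^ 2 + 2 * β ^ 2 / η ^ 3 ≤ ρ →
    (goe (Fin n) (1 / √n)).real {W | ∃ d, Box A η d ∧
      Cβ β / ρ < |β / √n| * cn (err (β / √n) d (β • W))} ≤ Real.exp (-n) := by
  filter_upwards [unif_simple hβ] with n h ρ A η hρ hρn hη hA hAn hL
  exact (real_preimage_le (mp_smul_goe n β) _).trans (h ρ A η hρ hρn hη hA hAn hL)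

/-- the version for the zero-diagonal matrix -/
theorem unif_simple_Jmat {β : ℝ} (hβ : 0 < β) : ∀ᶠ n : ℕ in atTop, ∀ ρ A η : ℝ, 1 ≤ ρ →
    ρ ^ 5 ≤ n → 0 < η → η ≤ A → A + 3 * β ≤ n → (A + 3 * β) / η ^ 2 + 2 * β ^ 2 / η ^ 3 ≤ ρ →
    (disorderLaw n).real {g | ∃ d, Box A η d ∧
      (Cβ β + 3 * β ^ 2) / ρ < |β / √n| * cn (err (β / √n) d (β • Jmat n g))} ≤
      2 * Real.exp (-(n / 2)) := by
  filter_upwards [pfail_thr hβ, eventually_gt_atTop 0] with n h hn ρ A η hρ hρn hη hA hAn hL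
  obtain ⟨h1, h2⟩ := h ρ (A + 3 * β) η hρ hρn hη (by linarith) hAn hL
  have hn0 : (0 : ℝ) < n := Nat.cast_pos.2 hn
  have hsq : 0 < √(n : ℝ) := Real.sqrt_pos.2 hn0
  have hρ0 : 0 < ρ := by linarith
  have hηΛ : 1 / η ≤ ρ := by
    have : 1 / η ≤ (A + 3 * β) / η ^ 2 := by
      rw [div_le_div_iff₀ hη (by positivity)]; nlinarith
    have h5 : 0 ≤ 2 * β ^ 2 / η ^ 3 := by positivity
    linarith
  have hρ2 : ρ ^ 2 ≤ √n := Real.le_sqrt_of_sq_le (by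
    rw [← pow_mul]; exact (pow_le_pow_right₀ hρ (by norm_num)).trans hρn)
  have h3 : |β / √n| * (3 * β / η) ≤ 3 * β ^ 2 / ρ := by
    rw [abs_of_pos (by positivity)]
    calc _ = 3 * β ^ 2 * ((1 / η) / √n) := by field_simp
      _ ≤ 3 * β ^ 2 * (ρ / ρ ^ 2) := by gcongr
      _ = _ := by field_simp
  have h4 : Real.exp (-n) ≤ Real.exp (-(n / 2)) := by gcongr; linarith
  refine le_trans (measureReal_mono ?_) ((unif_Jmat hβ hn hη hA (δ := 1 / √n) (t := √n / ρ)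
    (by positivity) (by positivity)).trans (by linarith))
  rintro g ⟨d, hd, h⟩
  refine ⟨d, hd, lt_of_mul_lt_mul_left ?_ (abs_nonneg (β / √n))⟩
  rw [add_div] at h
  rw [mul_add]
  linarith

end Crest.Agent.T157.Fr
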