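import Crest.Agent.T157.SLE_23
import Crest.Agent.T157.EntE_34

/-!
Row 157, part A (helper34): one stage of localisation for the entropy, with bad events whose cost
is a localised variance of `√F`; the small-set Poincare inequality pays for them.
-/

set_option autoImplicit false
set_option linter.unusedSectionVars false

noncomputable section

namespace Crest.Agent.T157.Glue

open MeasureTheory Set Real Matrix
open Crest.Agent.T157.E Crest.Agent.T157.SL

section gen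
variable {Ω ι : Type*} [Fintype Ω] [Fintype ι] [DecidableEq ι] {φ : Ω → ι → ℝ} {u w F : Ω → ℝ}
  {D s t : ℝ}

theorem mean_mul_sq_le (hu : Wt u) (f g : Ω → ℝ) :
    mean u (fun x => f x * g x) ^ 2 ≤ mean u (fun x => f x ^ 2) * mean u fun x => g x ^ 2 := by
  simpa only [Chain22.ip, sq, mean] using hu.isP.ip_sq_le f g

theorem dev_sq_le (hu : Wt u) (hD : ∀ x x', (φ x - φ x') ⬝ᵥ (φ x - φ x') ≤ D) (c : ι → ℝ) (x : Ω) :
    (c ⬝ᵥ φ x - mean u fun y => c ⬝ᵥ φ y) ^ 2 ≤ D * (c ⬝ᵥ c) := by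
  have h1 := mean_mul_sq_le hu (fun y => c ⬝ᵥ φ x - c ⬝ᵥ φ y) fun _ => 1
  simp only [mul_one, one_pow, hu.mean_const, mean_sub] at h1
  refine h1.trans (hu.mean_le fun y => ?_)
  rw [← dotProduct_sub, mul_comm]
  refine le_trans ?_ (mul_le_mul_of_nonneg_left (hD x y) (dot_self_nonneg c))
  simpa only [sq, dotProduct] using Finset.sum_mul_sq_le_sq_mul_sq Finset.univ c (φ x - φ y)

/-- `|Cov (g², φ)|² ≤ 4 D Var g E g²` -/
theorem covV_sq_le_var (hu : Wt u) (hD : ∀ x x', (φ x - φ x') ⬝ᵥ (φ x - φ x') ≤ D) (g : Ω → ℝ) :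
    covV u (fun x => g x ^ 2) φ ⬝ᵥ covV u (fun x => g x ^ 2) φ ≤
      4 * D * var u g * mean u fun x => g x ^ 2 := by
  set c := covV u (fun x => g x ^ 2) φ
  set m := mean u g
  set l := fun x => c ⬝ᵥ φ x - mean u fun y => c ⬝ᵥ φ y with hl
  have l0 : mean u l = 0 := by rw [hl, mean_sub, hu.mean_const, sub_self]
  have h1 : c ⬝ᵥ c = mean u fun x => (g x - m) * ((g x + m) * l x) := by
    nth_rewrite 1 [covV_dot, hu.cov_eq']
    have : (fun x => (g x - m) * ((g x + m) * l x)) = fun x => g x ^ 2 * l x - m ^ 2 * l x := by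
      ext x; ring
    rw [this, mean_sub, mean_const_mul, l0, mul_zero, sub_zero]
  have h2 := mean_mul_sq_le hu (fun x => g x - m) fun x => (g x + m) * l x
  have hm : m ^ 2 ≤ mean u fun x => g x ^ 2 := by
    simpa only [mul_one, one_pow, hu.mean_const] using mean_mul_sq_le hu g fun _ => 1
  obtain ⟨x0, -⟩ := hu.exists_pos
  have D0 : 0 ≤ D := (dot_self_nonneg _).trans (hD x0 x0)
  have c0 := dot_self_nonneg c
  have h3 : mean u (fun x => ((g x + m) * l x) ^ 2) ≤ 4 * mean u (fun x => g x ^ 2) * (D * (c ⬝ᵥ c)) := by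
    refine (hu.mean_mono (g := fun x => (2 * g x ^ 2 + 2 * m ^ 2) * (D * (c ⬝ᵥ c))) fun x => ?_).trans ?_
    · rw [mul_pow]
      exact mul_le_mul (by nlinarith [sq_nonneg (g x - m)]) (dev_sq_le hu hD c x) (sq_nonneg _)
        (by positivity)
    · rw [mean_mul_const, mean_add, mean_const_mul, hu.mean_const]
      exact mul_le_mul_of_nonneg_right (by linarith) (by positivity)
  have v0 := hu.var_nonneg g
  have e0 : 0 ≤ mean u fun x => g x ^ 2 := hu.mean_nonneg fun _ => sq_nonneg _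
  rw [← h1] at h2
  rcases c0.eq_or_lt with h | h
  · rw [← h]; positivity
  refine le_of_mul_le_mul_right ?_ h
  have h4 := h2.trans (mul_le_mul_of_nonneg_left h3 v0)
  change _ ≤ var u g * _ at h4
  nlinarith

theorem covV_sq_le_dev (hu : Wt u) (hD : ∀ x x', (φ x - φ x') ⬝ᵥ (φ x - φ x') ≤ D)
    (hF : ∀ x, 0 ≤ F x) (c : ℝ) :
    covV u F φ ⬝ᵥ covV u F φ ≤ 4 * D * mean u (fun x => (√(F x) - c) ^ 2) * mean u F := by
  have h := covV_sq_le_var hu hD fun x => √(F x)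
  simp only [sq_sqrt (hF _)] at h
  obtain ⟨x0, -⟩ := hu.exists_pos
  have D0 : 0 ≤ D := (dot_self_nonneg _).trans (hD x0 x0)
  exact h.trans (mul_le_mul_of_nonneg_right (mul_le_mul_of_nonneg_left (hu.var_le_mean _ c)
    (by positivity)) (hu.mean_nonneg hF))

/-- the bad term of the entropy is a localised variance of `√F` -/
theorem bad_ent (hw : Wt w) (ht : 0 ≤ t) {A : Set (ι → ℝ)} (hA : MeasurableSet A)
    (hD : ∀ x x', (φ x - φ x') ⬝ᵥ (φ x - φ x') ≤ D) (hF : ∀ x, 0 ≤ F x) (h0 : 0 < mean w F) (c : ℝ) :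
    (slE φ w t fun _ => A.indicator fun y => covV (post φ w t y) F φ ⬝ᵥ covV (post φ w t y) F φ /
      (2 * mean (post φ w t y) F)) ≤ 2 * D * mean w fun x => (√(F x) - c) ^ 2 * px φ t A x := by
  have m := ((eg_mean (φ := φ) hw fun x => (√(F x) - c) ^ 2).mg (mem_univ t)).indicator hA
  rw [← slE_indicator_mean hw ht hA, ← slE_const_mul]
  refine slE_mono hw (.of_mg fun _ => ((eg_entD (Metric.isBounded_Icc t t) hw hF h0).mg
    (left_mem_Icc.2 le_rfl)).indicator hA) (.of_mg fun _ => m.const_mul _) fun _ y => ?_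
  by_cases hy : y ∈ A
  swap
  · simp [hy]
  simp only [indicator_of_mem hy]
  have h1 := hw.mean_post_pos hF h0 φ t y
  rw [div_le_iff₀ (by positivity)]
  exact (covV_sq_le_dev (hw.post φ t y) hD hF c).trans_eq (by ring)

/-- the good term: covariance bounds on a ball of fields -/
theorem good_ent (hw : Wt w) (hD : ∀ x x', (φ x - φ x') ⬝ᵥ (φ x - φ x') ≤ D) (hF : ∀ x, 0 ≤ F x)
    (h0 : 0 < mean w F) {α : ℝ} (hα : 0 < α) (y : ι → ℝ)
    (h : ∀ v, α ^ 2 * (v ⬝ᵥ v) ≤ 4 * D → ∀ u,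
      u ⬝ᵥ covMat (post φ w t (y + v)) φ *ᵥ u ≤ α * (u ⬝ᵥ u)) :
    covV (post φ w t y) F φ ⬝ᵥ covV (post φ w t y) F φ / (2 * mean (post φ w t y) F) ≤
      α * ent (post φ w t y) F := by
  have h1 := hw.mean_post_pos hF h0 φ t y
  refine covV_sq_le_ent (hw.post φ t y) hF h1 hα fun r hr u => ?_
  rw [post_post, add_zero]
  refine h _ ?_ u
  have h2 := covV_sq_le_dev (hw.post φ t y) hD hF 0
  simp only [sub_zero, sq_sqrt (hF _)] at h2
  obtain ⟨x0, -⟩ := hw.exists_pos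
  have D0 : 0 ≤ D := (dot_self_nonneg _).trans (hD x0 x0)
  set m := mean (post φ w t y) F
  set c := covV (post φ w t y) F φ
  have e : α ^ 2 * (((r / (α * m)) • c) ⬝ᵥ ((r / (α * m)) • c)) = r ^ 2 * (c ⬝ᵥ c) / m ^ 2 := by
    simp only [smul_dotProduct, dotProduct_smul, smul_eq_mul]
    field_simp
  rw [e, div_le_iff₀ (by positivity)]
  have h3 : r ^ 2 ≤ 1 := by nlinarith [hr.1, hr.2]
  nlinarith [mul_le_mul_of_nonneg_right h3 (dot_self_nonneg c)]

/-- **one stage of localisation** -/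
theorem stage_ent (hw : Wt w) (hs : 0 ≤ s) (hst : s ≤ t)
    (hD : ∀ x x', (φ x - φ x') ⬝ᵥ (φ x - φ x') ≤ D) (hF : ∀ x, 0 ≤ F x) (h0 : 0 < mean w F)
    {α ε : ℝ → ℝ} (hα : ContinuousOn α (Icc s t)) (hε : ContinuousOn ε (Icc s t))
    (α0 : ∀ r ∈ Icc s t, 0 < α r) (ε0 : ∀ r ∈ Icc s t, 0 ≤ ε r) {A : ℝ → Set (ι → ℝ)}
    (hA : ∀ r, MeasurableSet (A r))
    (good : ∀ r ∈ Ioo s t, ∀ y ∉ A r, ∀ v, α r ^ 2 * (v ⬝ᵥ v) ≤ 4 * D → ∀ u,
      u ⬝ᵥ covMat (post φ w r (y + v)) φ *ᵥ u ≤ α r * (u ⬝ᵥ u)) (c : ℝ)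
    (bad : ∀ r ∈ Ioo s t, 2 * D * mean w (fun x => (√(F x) - c) ^ 2 * px φ r (A r) x) ≤ ε r) :
    ex φ w (fun p => ent (pw φ w p) F) s ≤
      exp (∫ r in s..t, α r) * (ex φ w (fun p => ent (pw φ w p) F) t + ∫ r in s..t, ε r) :=
  ent_conserve hw hs hst hF h0 hα hε (fun r hr => (α0 r hr).le) ε0 hA
    (fun r hr y hy => good_ent hw hD hF h0 (α0 r (Ioo_subset_Icc_self hr)) y (good r hr y hy))
    fun r hr => (bad_ent hw (hs.trans hr.1.le) (hA r) hD hF h0 c).trans (bad r hr)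

theorem ent_post_zero (hw : Wt w) (hF : ∀ x, 0 ≤ F x) (h0 : mean w F = 0) (t : ℝ) (y : ι → ℝ) :
    ent (post φ w t y) F = 0 := by
  refine Ent.ent_eq_zero_of_mean (hw.post φ t y).isP hF (le_antisymm (not_lt.1 fun h => ?_)
    ((hw.post φ t y).mean_nonneg hF))
  obtain ⟨x, h1, h2⟩ := ((hw.post φ t y).mean_pos_iff hF).1 h
  exact ((hw.mean_pos_iff hF).2 ⟨x, (pos_iff_pos_of_mul_pos h1).2 (exp_pos _), h2⟩).ne' h0

/-- one stage with constant rates -/
theorem stage_const (hw : Wt w) (hs : 0 ≤ s) (hst : s ≤ t)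
    (hD : ∀ x x', (φ x - φ x') ⬝ᵥ (φ x - φ x') ≤ D) (hF : ∀ x, 0 ≤ F x)
    {α ε : ℝ} (α0 : 0 < α) (ε0 : 0 ≤ ε) {A : ℝ → Set (ι → ℝ)} (hA : ∀ r, MeasurableSet (A r))
    (good : ∀ r ∈ Ioo s t, ∀ y ∉ A r, ∀ v, α ^ 2 * (v ⬝ᵥ v) ≤ 4 * D → ∀ u,
      u ⬝ᵥ covMat (post φ w r (y + v)) φ *ᵥ u ≤ α * (u ⬝ᵥ u)) (c : ℝ)
    (bad : ∀ r ∈ Ioo s t, 2 * D * mean w (fun x => (√(F x) - c) ^ 2 * px φ r (A r) x) ≤ ε) :
    ex φ w (fun p => ent (pw φ w p) F) s ≤
      exp ((t - s) * α) * (ex φ w (fun p => ent (pw φ w p) F) t + (t - s) * ε) := by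
  rcases (hw.mean_nonneg hF).eq_or_lt with h0 | h0
  · simp only [ent_post_zero hw hF h0.symm, ex_const hw]
    have := sub_nonneg.2 hst
    positivity
  simpa using stage_ent hw hs hst hD hF h0 (α := fun _ => α) (ε := fun _ => ε) continuousOn_const
    continuousOn_const (fun _ _ => α0) (fun _ _ => ε0) hA good c bad

theorem mean_px_le_of (hw : Wt w) {A : Set (ι → ℝ)} {δ : ℝ} (h : ∀ x, px φ t A x ≤ δ) {k : Ω → ℝ}
    (hk : ∀ x, 0 ≤ k x) : mean w (fun x => k x * px φ t A x) ≤ δ * mean w k := by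
  rw [mul_comm, ← mean_mul_const]
  exact hw.mean_mono fun x => mul_le_mul_of_nonneg_left (h x) (hk x)

theorem px_le {A : Set (ι → ℝ)} (hA : MeasurableSet A) (x : Ω) {B : Set (ι → ℝ)}
    (h : ∀ z, t • φ x + √t • z ∈ A → z ∈ B) : px φ t A x ≤ (gv ι).real B := by
  rw [px, map_measureReal_apply (by fun_prop) hA]
  exact measureReal_mono h

end gen

/-! ### the small-set Poincare inequality -/

variable {n : ℕ} {w : Cube n → ℝ}

/-- Poincare inequality with constant `C / n` for functions with exponentially small support -/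
def SSP (w : Cube n → ℝ) (ε C : ℝ) : Prop := ∀ g : Cube n → ℝ,
  mean w (Ent.ind fun x => g x ≠ 0) ≤ exp (-(ε * n)) → n * mean w (fun x => g x ^ 2) ≤ C * dir w g

theorem dir_le_of_abs (hw : ∀ x, 0 < w x) {f g : Cube n → ℝ}
    (h : ∀ x y, |f x - f y| ≤ |g x - g y|) : dir w f ≤ dir w g := by
  rw [dir_eq_dir2, dir_eq_dir2, Chain22.dir2_eq_sum hw, Chain22.dir2_eq_sum hw]
  exact Finset.sum_le_sum fun i _ => (Chain22.siteRC hw i).D_le_of_abs h

theorem dir_sqrt_le (hw : ∀ x, 0 < w x) {F : Cube n → ℝ} (hF : ∀ x, 0 ≤ F x) :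
    dir w (fun x => √(F x)) ≤ ∑ i, Ent.entS w F i := by
  rw [Ent.dir_eq_sum]
  refine Finset.sum_le_sum fun i _ => ?_
  rw [Ent.dirS_eq hw]
  exact (Chain22.isP_prob' hw).mean_mono fun x => (Ent.isP_cnd hw i x).var_sqrt_le_ent fun _ => hF _

theorem SSP.mono {ε C ε' C' : ℝ} (h : SSP w ε C) (hw : ∀ x, 0 < w x) (hε : ε ≤ ε') (hC : C ≤ C') :
    SSP w ε' C' := fun g hg =>
  (h g (hg.trans (exp_le_exp.2 (neg_le_neg (mul_le_mul_of_nonneg_right hε n.cast_nonneg))))).trans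
    (mul_le_mul_of_nonneg_right hC (Ent.dir_nonneg hw g))

/-- a weight `k ≤ 1` of small mean carries little variance -/
theorem SSP.weight {ε C : ℝ} (h : SSP w ε C) (hw : ∀ x, 0 < w x) (hC : 0 ≤ C) (f : Cube n → ℝ)
    {k : Cube n → ℝ} (k0 : ∀ x, 0 ≤ k x) (k1 : ∀ x, k x ≤ 1) {p : ℝ} (hp : mean w k ≤ p) :
    n * mean w (fun x => (f x - mean w f) ^ 2 * k x) ≤
      4 * C * dir w f + 4 * n * exp (ε * n) * p * var w f := by
  have hW := Wt.of_pos hw
  have p0 : 0 ≤ p := (hW.mean_nonneg k0).trans hp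
  have d0 := Ent.dir_nonneg hw f
  rcases (hW.var_nonneg f).eq_or_lt with v0 | v0
  · have : mean w (fun x => (f x - mean w f) ^ 2 * k x) ≤ var w f :=
      hW.mean_mono fun x => mul_le_of_le_one_right (sq_nonneg _) (k1 x)
    rw [← v0] at this ⊢
    nlinarith [mul_nonneg hC d0, mul_le_mul_of_nonneg_left this (n.cast_nonneg (α := ℝ))]
  set m := mean w f
  set τ := √(exp (ε * n) * var w f)
  have τ2 : τ ^ 2 = exp (ε * n) * var w f := sq_sqrt (by positivity)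
  have τ0 : 0 ≤ τ := sqrt_nonneg _
  set g := fun x => max (|f x - m| - τ) 0 with hg
  have h1 : mean w (Ent.ind fun x => g x ≠ 0) ≤ exp (-(ε * n)) := by
    have : τ ^ 2 * mean w (Ent.ind fun x => g x ≠ 0) ≤ var w f := by
      rw [← mean_const_mul]
      refine hW.mean_mono fun x => ?_
      by_cases hx : g x ≠ 0
      · rw [Ent.ind_pos (p := fun x => g x ≠ 0) hx, mul_one, ← sq_abs (f x - m)]
        exact pow_le_pow_left₀ τ0 (not_lt.1 fun h => hx (max_eq_right (by linarith))) 2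
      · rw [Ent.ind_neg (p := fun x => g x ≠ 0) hx, mul_zero]; positivity
    rw [τ2, mul_right_comm] at this
    rw [exp_neg, inv_eq_one_div, le_div_iff₀' (exp_pos _)]
    exact le_of_mul_le_mul_right (by linarith) v0
  have h2 := (h g h1).trans (mul_le_mul_of_nonneg_left (dir_le_of_abs hw (g := f) fun x y => by
    refine (abs_max_sub_max_le_abs _ _ _).trans ?_
    rw [sub_sub_sub_cancel_right]
    exact (abs_abs_sub_abs_le _ _).trans_eq (by rw [sub_sub_sub_cancel_right])) hC)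
  have h3 : mean w (fun x => (f x - m) ^ 2 * k x) ≤ 4 * τ ^ 2 * p + 4 * mean w fun x => g x ^ 2 := by
    refine (hW.mean_mono (g := fun x => 4 * τ ^ 2 * k x + 4 * g x ^ 2) fun x => ?_).trans ?_
    · rw [← sq_abs (f x - m)]
      have a0 := abs_nonneg (f x - m)
      have g1 : |f x - m| - τ ≤ g x := le_max_left _ _
      have g0 : 0 ≤ g x := le_max_right _ _
      have : |f x - m| ^ 2 ≤ 2 * τ ^ 2 + 2 * g x ^ 2 := by nlinarith [sq_nonneg (τ - g x)]
      nlinarith [mul_le_mul_of_nonneg_right this (k0 x), mul_nonneg (sq_nonneg τ) (k0 x),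
        mul_le_of_le_one_right (sq_nonneg (g x)) (k1 x)]
    · rw [mean_add, mean_const_mul, mean_const_mul]
      gcongr
  rw [τ2] at h3
  nlinarith [mul_le_mul_of_nonneg_left h3 (n.cast_nonneg (α := ℝ))]

/-- from a defective logarithmic Sobolev inequality -/
theorem ssp_of_dlsi (hw : ∀ x, 0 < w x) {ε K : ℝ} (hε : 0 < ε) (h : ∀ f : Cube n → ℝ,
    ent w (fun x => f x ^ 2) ≤ K * dir w f + ε * n * mean w fun x => f x ^ 2) :
    SSP w (2 * ε) (K / ε) := fun g hg => by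
  have h1 := Ent.ent_ge_of_supp (Chain22.isP_prob' hw) (f := fun x => g x ^ 2) (fun _ => sq_nonneg _)
    (p := fun x => g x ≠ 0) (fun x hx h => hx (by simp [h])) hg
  rw [one_div, log_inv, log_exp, neg_neg] at h1
  have h2 := h g
  rw [div_mul_eq_mul_div, le_div_iff₀ hε]
  change _ * mean w _ ≤ ent w _ at h1
  linarith

end Crest.Agent.T157.Glue

end
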