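import Crest.Agent.T157.HdK_20

/-!
# Row 157, part B, S6 (LC): the cut, the crossing error, the two-point form of (K) (helper20)
-/

set_option autoImplicit false

noncomputable section

namespace Crest.Agent.T157.Hd

open Real

/-- the cut difference `(|a - b| - η (a + b))₊` -/
def cut (η a b : ℝ) : ℝ := max (|a - b| - η * (a + b)) 0

/-- the sign of `a - b` -/
def sgn (a b : ℝ) : ℝ := if b ≤ a then 1 else -1

/-- the linear piece of the cut with sign `τ` -/
def lin (η τ a b : ℝ) : ℝ := τ * (a - b) - η * (a + b)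

/-- the crossing error at `(a', b')` seen from `(a, b)` -/
def cer (η a b a' b' : ℝ) : ℝ := cut η a' b' - lin η (sgn a b) a' b'

/-- the symmetrised Bregman dissipation of `(√A - √B)²` -/
def Qd (a b a' b' : ℝ) : ℝ := (a' * b - a * b') ^ 2 * (1 / (a * b) + 1 / (a' * b'))

lemma cut_nonneg (η a b : ℝ) : 0 ≤ cut η a b := le_max_right _ _

lemma cut_symm (η a b : ℝ) : cut η a b = cut η b a := by rw [cut, cut, abs_sub_comm, add_comm]

lemma cut_le {η a b : ℝ} (hη : 0 ≤ η) (ha : 0 ≤ a) (hb : 0 ≤ b) : cut η a b ≤ |a - b| :=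
  max_le (by nlinarith) (abs_nonneg _)

lemma sgn_mul (a b : ℝ) : sgn a b * (a - b) = |a - b| := by
  unfold sgn; split_ifs with h
  · rw [abs_of_nonneg (by linarith), one_mul]
  · rw [abs_of_neg (by linarith)]; ring

lemma abs_sgn (a b : ℝ) : |sgn a b| = 1 := by unfold sgn; split_ifs <;> simp

lemma sgn_symm {a b : ℝ} (h : a ≠ b) : sgn b a = -sgn a b := by
  unfold sgn
  rcases lt_or_gt_of_ne h with h | h
  · rw [if_pos h.le, if_neg (not_le.2 h), neg_neg]
  · rw [if_neg (not_le.2 h), if_pos h.le]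

lemma lin_self {η a b : ℝ} (h : 0 < cut η a b) : lin η (sgn a b) a b = cut η a b := by
  rw [lin, sgn_mul]
  unfold cut at h ⊢
  rcases le_total (|a - b| - η * (a + b)) 0 with h' | h'
  · rw [max_eq_right h'] at h; exact absurd h (lt_irrefl _)
  · rw [max_eq_left h']

lemma ne_of_cut_pos {η a b : ℝ} (hη : 0 ≤ η) (ha : 0 ≤ a) (hb : 0 ≤ b) (h : 0 < cut η a b) :
    a ≠ b := fun e => by
  have := cut_le hη ha hb
  rw [e, sub_self, abs_zero] at this
  rw [e] at h; linarith

lemma loud_of_cut_pos {η a b : ℝ} (h : 0 < cut η a b) : η * (a + b) < |a - b| := by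
  unfold cut at h
  rcases le_total (|a - b| - η * (a + b)) 0 with h' | h'
  · rw [max_eq_right h'] at h; exact absurd h (lt_irrefl _)
  · rw [max_eq_left h'] at h; linarith

lemma cer_nonneg (η a b a' b' : ℝ) : 0 ≤ cer η a b a' b' := by
  have h1 : sgn a b * (a' - b') ≤ |a' - b'| :=
    (le_abs_self _).trans (by rw [abs_mul, abs_sgn, one_mul])
  have h2 : |a' - b'| - η * (a' + b') ≤ cut η a' b' := le_max_left _ _
  unfold cer lin; linarith

lemma cer_symm {η a b : ℝ} (a' b' : ℝ) (h : a ≠ b) : cer η b a b' a' = cer η a b a' b' := by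
  rw [cer, cer, cut_symm, sgn_symm h, lin, lin]; ring

lemma Qd_nonneg {a b a' b' : ℝ} (ha : 0 < a) (hb : 0 < b) (ha' : 0 < a') (hb' : 0 < b') :
    0 ≤ Qd a b a' b' := by unfold Qd; positivity

lemma Qd_symm (a b a' b' : ℝ) : Qd b a b' a' = Qd a b a' b' := by unfold Qd; ring

lemma Qd_swap (a b a' b' : ℝ) : Qd a' b' a b = Qd a b a' b' := by unfold Qd; ring

private lemma cer_aux {η a b a' b' : ℝ} (hη : 0 ≤ η) (_hη1 : η < 1) (ha : 0 < a) (hb : 0 < b)
    (ha' : 0 < a') (hb' : 0 < b') (h : 0 < cut η a b) (hab : b ≤ a) :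
    cut η a b * cer η a b a' b' ≤ Qd a b a' b' ∧ cer η a b a' b' ^ 2 ≤ 4 * Qd a b a' b' := by
  have hQ := Qd_nonneg ha hb ha' hb'
  have hs : sgn a b = 1 := if_pos hab
  have hg := lin_self h
  rw [hs, lin] at hg
  set g := cut η a b with hgd
  rcases le_or_gt 0 (lin η 1 a' b') with hl | hl
  · have e : cer η a b a' b' = 0 := by
      rw [cer, hs, cut]
      unfold lin at hl ⊢
      have : 0 ≤ a' - b' := by nlinarith
      rw [abs_of_nonneg this, max_eq_left (by linarith)]; ring
    rw [e]; constructor <;> linarith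
  · set l := -lin η 1 a' b' with hld
    have hl0 : 0 < l := by linarith
    have hle : l = (1 + η) * b' - (1 - η) * a' := by rw [hld, lin]; ring
    have hge : g = (1 - η) * a - (1 + η) * b := by linarith
    have e0 := cer_nonneg η a b a' b'
    have e1 : cer η a b a' b' ≤ 2 * l := by
      rw [cer, hs]
      have : cut η a' b' ≤ l := max_le (by
        rcases le_total 0 (a' - b') with h' | h'
        · rw [abs_of_nonneg h']; unfold lin at hl; linarith
        · rw [abs_of_nonpos h']; nlinarith) hl0.le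
      linarith
    set D := a * b' - a' * b with hD
    have d1 : (1 + η) * D = l * a + g * a' := by rw [hle, hge, hD]; ring
    have d2 : (1 - η) * D = l * b + g * b' := by rw [hle, hge, hD]; ring
    have d3 : (l * a + g * a') * (l * b + g * b') ≤ D ^ 2 := by
      rw [← d1, ← d2]; nlinarith [sq_nonneg (η * D)]
    have hQe : Qd a b a' b' = D ^ 2 / (a * b) + D ^ 2 / (a' * b') := by
      rw [Qd, hD]; ring
    have q1 : l ^ 2 ≤ D ^ 2 / (a * b) := by
      rw [le_div_iff₀ (by positivity)]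
      nlinarith [mul_pos (mul_pos hl0 ha) (mul_pos h hb'), mul_pos (mul_pos h ha') (mul_pos hl0 hb),
        mul_pos (mul_pos h ha') (mul_pos h hb')]
    have q2 : g ^ 2 ≤ D ^ 2 / (a' * b') := by
      rw [le_div_iff₀ (by positivity)]
      nlinarith [mul_pos (mul_pos hl0 ha) (mul_pos h hb'), mul_pos (mul_pos h ha') (mul_pos hl0 hb),
        mul_pos (mul_pos hl0 ha) (mul_pos hl0 hb)]
    constructor
    · nlinarith [sq_nonneg (g - l), mul_le_mul_of_nonneg_left e1 h.le]
    · nlinarith [sq_nonneg g]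

/-- the crossing error is paid by the dissipation -/
theorem cer_le {η a b a' b' : ℝ} (hη : 0 ≤ η) (hη1 : η < 1) (ha : 0 < a) (hb : 0 < b)
    (ha' : 0 < a') (hb' : 0 < b') (h : 0 < cut η a b) :
    cut η a b * cer η a b a' b' ≤ Qd a b a' b' ∧ cer η a b a' b' ^ 2 ≤ 4 * Qd a b a' b' := by
  rcases le_total b a with hab | hab
  · exact cer_aux hη hη1 ha hb ha' hb' h hab
  · have := cer_aux hη hη1 hb ha hb' ha' (by rwa [cut_symm]) hab
    rwa [cer_symm a' b' (ne_of_cut_pos hη ha.le hb.le h), Qd_symm, ← cut_symm] at this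

/-- the weight of the owed term -/
def zt (ε p : ℝ) : ℝ := min (1 + ε) ((1 + ε⁻¹) * p)

lemma zt_le (ε p : ℝ) : zt ε p ≤ 1 + ε := min_le_left _ _
lemma zt_le' (ε p : ℝ) : zt ε p ≤ (1 + ε⁻¹) * p := min_le_right _ _
lemma zt_pos {ε p : ℝ} (hε : 0 < ε) (hp : 0 < p) : 0 < zt ε p := lt_min (by linarith) (by positivity)

/-- weighted Cauchy–Schwarz on two points: `p, q` are the flip probabilities at the two ends -/
lemma zt_cs {ε p q : ℝ} (hε : 0 < ε) (hε1 : ε ≤ 1) (hp : 0 < p) (hq : 0 < q) (h : p + q = 1)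
    (X Y : ℝ) : p * q * (X + Y) ^ 2 ≤ q * (zt ε p * X ^ 2) + p * (zt ε q * Y ^ 2) := by
  have k : ∀ p : ℝ, 0 < p → p / zt ε p ≤ max p ε / (1 + ε) := fun p hp => by
    rw [div_le_div_iff₀ (zt_pos hε hp) (by linarith), zt, mul_min_of_nonneg _ _ (by positivity)]
    refine le_min (mul_le_mul_of_nonneg_right (le_max_left _ _) (by linarith)) ?_
    have : p * (1 + ε) = ε * ((1 + ε⁻¹) * p) := by field_simp; ring
    rw [this]
    exact mul_le_mul_of_nonneg_right (le_max_right _ _) (by positivity)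
  have z1 := zt_pos hε hp
  have z2 := zt_pos hε hq
  have hs : p / zt ε p + q / zt ε q ≤ 1 := by
    refine (add_le_add (k p hp) (k q hq)).trans ?_
    rw [← add_div, div_le_one (by linarith)]
    rcases le_total p ε with h1 | h1 <;> rcases le_total q ε with h2 | h2 <;>
      simp only [max_eq_left, max_eq_right, h1, h2] <;> linarith
  set α := p / zt ε p with hα
  set β := q / zt ε q with hβ
  have a0 : 0 < α := by positivity
  have b0 : 0 < β := by positivity
  have e1 : zt ε p = p / α := by rw [hα]; field_simp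
  have e2 : zt ε q = q / β := by rw [hβ]; field_simp
  have key : (X + Y) ^ 2 ≤ X ^ 2 / α + Y ^ 2 / β := by
    rw [div_add_div _ _ a0.ne' b0.ne', le_div_iff₀ (by positivity)]
    have h1 : (X + Y) ^ 2 * (α * β) ≤ (α + β) * (X ^ 2 * β + α * Y ^ 2) := by
      nlinarith [sq_nonneg (β * X - α * Y)]
    have h2 : 0 ≤ X ^ 2 * β + α * Y ^ 2 := by positivity
    nlinarith
  rw [e1, e2]
  calc p * q * (X + Y) ^ 2 ≤ p * q * (X ^ 2 / α + Y ^ 2 / β) :=
        mul_le_mul_of_nonneg_left key (by positivity)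
    _ = _ := by ring

/-! ### the two-point form -/

/-- with `p/q = e^{2h}`, `a, b > 0` the square roots of the density, `m` the conditional mean -/
theorem two_point {p q a b : ℝ} (hp : 0 < p) (hq : 0 < q) (h1 : p + q = 1) (ha : 0 < a) (hb : 0 < b) :
    let h := (log p - log q) / 2
    let k := h + (log a - log b)
    let m := p * a ^ 2 + q * b ^ 2
    m * klr h k = p * (a ^ 2 * log (a ^ 2)) + q * (b ^ 2 * log (b ^ 2)) - m * log m ∧
    m * (klr h k + klr k h) = p * q * ((a ^ 2 - b ^ 2) * (log (a ^ 2) - log (b ^ 2))) ∧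
    m * Sq h k = p * q * (a - b) ^ 2 ∧ tanh h = p - q := by
  intro h k m
  have hm : 0 < m := by positivity
  set s := √(p * q) with hs
  have hs0 : 0 < s := sqrt_pos.2 (by positivity)
  have hss : s ^ 2 = p * q := sq_sqrt (by positivity)
  have ls : log s = (log p + log q) / 2 := by
    rw [hs, log_sqrt (by positivity), log_mul hp.ne' hq.ne']
  have eh : exp h = p / s := by
    rw [← exp_log (div_pos hp hs0), log_div hp.ne' hs0.ne', ls]; congr 1; simp only [h]; ring
  have enh : exp (-h) = q / s := by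
    rw [← exp_log (div_pos hq hs0), log_div hq.ne' hs0.ne', ls]; congr 1; simp only [h]; ring
  have ey : exp (log a - log b) = a / b := by rw [exp_sub, exp_log ha, exp_log hb]
  have eny : exp (-(log a - log b)) = b / a := by rw [neg_sub, exp_sub, exp_log ha, exp_log hb]
  have ek : exp k = p / s * (a / b) := by rw [← eh, ← ey, ← exp_add]
  have enk : exp (-k) = q / s * (b / a) := by
    rw [← enh, ← eny, ← exp_add]; congr 1; simp only [k]; ring
  have ch : cosh h = 1 / (2 * s) := by rw [cosh_eq, eh, enh, ← add_div, h1]; field_simp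
  have sh : sinh h = (p - q) / (2 * s) := by rw [sinh_eq, eh, enh]; field_simp
  have ck : cosh k = m / (2 * s * a * b) := by rw [cosh_eq, ek, enk]; simp only [m]; field_simp
  have sk : sinh k = (p * a ^ 2 - q * b ^ 2) / (2 * s * a * b) := by
    rw [sinh_eq, ek, enk]; field_simp
  have th : tanh h = p - q := by rw [tanh_eq_sinh_div_cosh, ch, sh]; field_simp
  have tk : m * tanh k = p * a ^ 2 - q * b ^ 2 := by rw [tanh_eq_sinh_div_cosh, ck, sk]; field_simp
  have lc : log (cosh k) - log (cosh h) = log m - log a - log b := by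
    rw [← log_div (cosh_pos _).ne' (cosh_pos _).ne', ck, ch,
      show m / (2 * s * a * b) / (1 / (2 * s)) = m / (a * b) by field_simp,
      log_div hm.ne' (by positivity), log_mul ha.ne' hb.ne']; ring
  have hk : k - h = log a - log b := by simp only [k]; ring
  refine ⟨?_, ?_, ?_, th⟩
  · rw [klr, hk, log_pow, log_pow]
    push_cast
    have : m = p * a ^ 2 + q * b ^ 2 := rfl
    linear_combination (log a - log b) * tk - m * lc + (log a + log b) * this
  · rw [kl_add_rev, show h - k = -(log a - log b) by rw [← hk]; ring, log_pow, log_pow, th]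
    push_cast
    have : m = p * a ^ 2 + q * b ^ 2 := rfl
    have hq' : q = 1 - p := by linarith
    linear_combination (log a - log b) * tk - (log a - log b) * (p - q) * this
      - (log a - log b) * (p * a ^ 2 - q * b ^ 2) * h1
  · have s2 : sinh ((h - k) / 2) ^ 2 = (a - b) ^ 2 / (4 * a * b) := by
      have c2 := cosh_two_mul ((h - k) / 2)
      rw [show 2 * ((h - k) / 2) = -(log a - log b) by rw [← hk]; ring, cosh_neg, cosh_eq, ey, eny,
        cosh_sq] at c2
      have : sinh ((h - k) / 2) ^ 2 = ((a / b + b / a) / 2 - 1) / 2 := by linarith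
      rw [this]; field_simp; ring
    rw [Sq, s2, ch, ck, ← hss]; field_simp; ring

lemma abs_log_le {η a b : ℝ} (hη1 : η < 1) (ha : 0 < a) (hb : 0 < b) (h : |a - b| ≤ η * (a + b)) :
    |log a - log b| ≤ 2 * η / (1 - η) := by
  have key : ∀ a b : ℝ, 0 < a → 0 < b → a - b ≤ η * (a + b) → log a - log b ≤ 2 * η / (1 - η) := by
    intro a b ha hb h
    rw [← log_div ha.ne' hb.ne']
    refine (log_le_sub_one_of_pos (div_pos ha hb)).trans ?_
    rw [div_sub_one hb.ne', div_le_div_iff₀ hb (by linarith)]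
    nlinarith
  rw [abs_le] at h ⊢
  constructor
  · have := key b a hb ha (by linarith); linarith
  · exact key a b ha hb h.2

/-- **(K) with the cut**: `2 ent - cov ≤ κ (4ht - 3t²) p q cut² + η₀/(1-η₀) cov` on one edge -/
theorem two_point_cut {p q a b η η₀ : ℝ} (hp : 0 < p) (hq : 0 < q) (h1 : p + q = 1) (ha : 0 < a)
    (hb : 0 < b) (hη : 0 ≤ η) (hηη : η < η₀) (hη1 : η₀ < 1) :
    2 * (p * (a ^ 2 * log (a ^ 2)) + q * (b ^ 2 * log (b ^ 2)) -
        (p * a ^ 2 + q * b ^ 2) * log (p * a ^ 2 + q * b ^ 2)) -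
      p * q * ((a ^ 2 - b ^ 2) * (log (a ^ 2) - log (b ^ 2))) ≤
    (η₀ / (η₀ - η)) ^ 2 * ((4 * ((log p - log q) / 2) * (p - q) - 3 * (p - q) ^ 2) *
        (p * q * cut η a b ^ 2)) +
      η₀ / (1 - η₀) * (p * q * ((a ^ 2 - b ^ 2) * (log (a ^ 2) - log (b ^ 2)))) := by
  obtain ⟨e1, e2, e3, e4⟩ := two_point hp hq h1 ha hb
  rw [← e1, ← e2]
  set h := (log p - log q) / 2 with hh
  set k := h + (log a - log b) with hk
  set m := p * a ^ 2 + q * b ^ 2 with hm
  have hm0 : 0 < m := by positivity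
  have hc := coef_nonneg h
  rw [e4] at hc
  have hc0 : 0 ≤ 4 * h * (p - q) - 3 * (p - q) ^ 2 := (sq_nonneg _).trans hc
  have h4 := four_Sq_le h k
  have hS := Sq_nonneg h k
  have hη0 : 0 < η₀ := by linarith
  have t2 : 0 ≤ η₀ / (1 - η₀) * (m * (klr h k + klr k h)) :=
    mul_nonneg (div_nonneg hη0.le (by linarith)) (mul_nonneg hm0.le (by linarith))
  rcases le_total |a - b| (η₀ * (a + b)) with hq' | hl
  · have t1 : 0 ≤ (η₀ / (η₀ - η)) ^ 2 * ((4 * h * (p - q) - 3 * (p - q) ^ 2) *
        (p * q * cut η a b ^ 2)) := by positivity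
    have l1 := abs_log_le hη1 ha hb hq'
    have l2 := (le_abs_self _).trans (abs_T_le h k)
    rw [show h - k = -(log a - log b) by rw [hk]; ring, abs_neg] at l2
    have l3 : klr h k - klr k h ≤ η₀ / (1 - η₀) * (klr h k + klr k h) := by
      have : 2 * |log a - log b| * Sq h k ≤ η₀ / (1 - η₀) * (4 * Sq h k) := by
        have := mul_le_mul_of_nonneg_right l1 hS
        rw [mul_div_assoc] at this
        linarith
      have h5 := mul_le_mul_of_nonneg_left h4 (div_nonneg hη0.le (by linarith : 0 ≤ 1 - η₀))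
      linarith
    have := mul_le_mul_of_nonneg_left l3 hm0.le
    nlinarith
  · have l1 := mul_le_mul_of_nonneg_left (K_ineq h k) hm0.le
    rw [e4] at l1
    have l2 : (η₀ - η) * |a - b| ≤ η₀ * cut η a b := by
      have : |a - b| - η * (a + b) ≤ cut η a b := le_max_left _ _
      nlinarith
    have l3 : (a - b) ^ 2 ≤ (η₀ / (η₀ - η)) ^ 2 * cut η a b ^ 2 := by
      rw [← mul_pow, ← sq_abs (a - b)]
      refine pow_le_pow_left₀ (abs_nonneg _) ?_ 2
      rw [div_mul_eq_mul_div, le_div_iff₀ (by linarith)]; linarith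
    have l4 := mul_le_mul_of_nonneg_left l3 (mul_nonneg hc0 (mul_pos hp hq).le)
    have l5 : m * ((4 * h * (p - q) - 3 * (p - q) ^ 2) * Sq h k) =
        (4 * h * (p - q) - 3 * (p - q) ^ 2) * (p * q) * (a - b) ^ 2 := by
      rw [mul_left_comm, e3]; ring
    have l6 : (4 * h * (p - q) - 3 * (p - q) ^ 2) * (p * q) * ((η₀ / (η₀ - η)) ^ 2 * cut η a b ^ 2) =
        (η₀ / (η₀ - η)) ^ 2 * ((4 * h * (p - q) - 3 * (p - q) ^ 2) * (p * q * cut η a b ^ 2)) := by
      ring
    have l7 : m * (klr h k - klr k h) = 2 * (m * klr h k) - m * (klr h k + klr k h) := by ring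
    linarith

end Crest.Agent.T157.Hd

end
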