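import Crest.Agent.T157.HdC_20
import Crest.Agent.T157.RecB_77

/-!
# Row 157, part B, S6 (LC): the deficit `kl - rev` is paid by one integration by parts (helper20)
-/

set_option autoImplicit false

noncomputable section

namespace Crest.Agent.T157.Hd

open Real Function Finset
open Crest.Agent.T157.E
open Crest.Agent.T157.Rec (fl)

variable {n : ℕ} {v w f : Cube n → ℝ}

/-- flip probability of the site `j` at `x` -/
def pf (w : Cube n → ℝ) (x : Cube n) (j : Fin n) : ℝ := w (fl x j) / (w x + w (fl x j))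

/-- flip difference -/
def df (g : Cube n → ℝ) (x : Cube n) (j : Fin n) : ℝ := g (fl x j) - g x

/-- invariance under the flip of the site `i` -/
def Inv (i : Fin n) (g : Cube n → ℝ) : Prop := ∀ x, g (fl x i) = g x

@[simp] lemma fl_fl (x : Cube n) (i : Fin n) : fl (fl x i) i = x := by simp [fl]

lemma fl_comm (x : Cube n) (i j : Fin n) : fl (fl x i) j = fl (fl x j) i := by
  by_cases h : i = j
  · rw [h]
  · simp only [fl, update_of_ne h, update_of_ne (Ne.symm h)]
    exact update_comm h _ _ _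

lemma upd_cases (x : Cube n) (i : Fin n) :
    (update x i true = x ∧ update x i false = fl x i) ∨
      (update x i true = fl x i ∧ update x i false = x) := by
  cases h : x i
  · right; exact ⟨by rw [fl, h]; rfl, by rw [← h, update_eq_self]⟩
  · left; exact ⟨by rw [← h, update_eq_self], by rw [fl, h]; rfl⟩

lemma upd_fl (x : Cube n) (i : Fin n) (b : Bool) : update (fl x i) i b = update x i b := by
  rw [fl, update_idem]

lemma sum_fl (i : Fin n) (F : Cube n → ℝ) : ∑ x, F (fl x i) = ∑ x, F x :=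
  Equiv.sum_comp (Function.Involutive.toPerm (fun x : Cube n => fl x i) fun x => fl_fl x i) F

lemma sum_half (i : Fin n) (F : Cube n → ℝ) : ∑ x, F x = (∑ x, (F x + F (fl x i))) / 2 := by
  rw [sum_add_distrib, sum_fl]; ring

lemma siteM_fl (w g : Cube n → ℝ) (i : Fin n) (x : Cube n) :
    siteM w g i x = (w x * g x + w (fl x i) * g (fl x i)) / (w x + w (fl x i)) := by
  rcases upd_cases x i with ⟨h1, h2⟩ | ⟨h1, h2⟩ <;> rw [siteM, h1, h2]
  rw [add_comm (w x * g x), add_comm (w x)]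

lemma pf_pos (hw : ∀ x, 0 < w x) (x : Cube n) (j : Fin n) : 0 < pf w x j :=
  div_pos (hw _) (add_pos (hw _) (hw _))

lemma pf_add (hw : ∀ x, 0 < w x) (x : Cube n) (j : Fin n) : pf w x j + pf w (fl x j) j = 1 := by
  have := add_pos (hw x) (hw (fl x j))
  rw [pf, pf, fl_fl, add_comm (w (fl x j)) (w x), ← add_div, add_comm, div_self this.ne']

lemma pf_le_one (hw : ∀ x, 0 < w x) (x : Cube n) (j : Fin n) : pf w x j ≤ 1 := by
  linarith [pf_add hw x j, pf_pos hw (fl x j) j]

/-- detailed balance -/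
lemma w_pf (w : Cube n → ℝ) (x : Cube n) (j : Fin n) :
    w (fl x j) * pf w (fl x j) j = w x * pf w x j := by
  rw [pf, pf, fl_fl, add_comm (w (fl x j))]; ring

lemma siteM_pf (hw : ∀ x, 0 < w x) (g : Cube n → ℝ) (i : Fin n) (x : Cube n) :
    siteM w g i x = pf w (fl x i) i * g x + pf w x i * g (fl x i) := by
  have := add_pos (hw x) (hw (fl x i))
  rw [siteM_fl, pf, pf, fl_fl, add_comm (w (fl x i)) (w x)]; ring

lemma inv_siteM (w g : Cube n → ℝ) (i : Fin n) : Inv i (siteM w g i) := fun x => by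
  rw [fl, Chain22.siteM_update]

lemma df_fl (g : Cube n → ℝ) (x : Cube n) (j : Fin n) : df g (fl x j) j = -df g x j := by
  rw [df, df, fl_fl]; ring

lemma gen_pf (hw : ∀ x, 0 < w x) (g : Cube n → ℝ) (x : Cube n) :
    gen w g x = ∑ j, pf w x j * df g x j := by
  refine sum_congr rfl fun j _ => ?_
  rw [siteM_pf hw, df, show pf w (fl x j) j = 1 - pf w x j by linarith [pf_add hw x j]]; ring

/-- edge swap -/
lemma swap (w : Cube n → ℝ) (j : Fin n) (G : Cube n → ℝ) :
    ∑ x, w x * (pf w x j * G (fl x j)) = ∑ x, w x * (pf w x j * G x) := by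
  rw [← sum_fl j fun x => w x * (pf w x j * G x)]
  exact sum_congr rfl fun x _ => by rw [← mul_assoc, ← mul_assoc, w_pf]

/-- conditioning on the spins off `i` -/
lemma sum_siteM (hw : ∀ x, 0 < w x) (i : Fin n) (g : Cube n → ℝ) {k : Cube n → ℝ} (hk : Inv i k) :
    ∑ x, w x * (k x * siteM w g i x) = ∑ x, w x * (k x * g x) := by
  rw [sum_half i, sum_half i fun x => w x * (k x * g x)]
  refine congrArg (· / 2) (sum_congr rfl fun x _ => ?_)
  have := add_pos (hw x) (hw (fl x i))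
  rw [hk, inv_siteM, siteM_fl]; field_simp

/-- change of the weight for invariant functions -/
lemma sum_transfer (i : Fin n) {V W k : Cube n → ℝ} (hV : Inv i V) (hW : Inv i W) (hk : Inv i k)
    (h : ∀ x, (v x + v (fl x i)) * V x = (w x + w (fl x i)) * W x) :
    ∑ x, v x * (V x * k x) = ∑ x, w x * (W x * k x) := by
  rw [sum_half i, sum_half i fun x => w x * (W x * k x)]
  refine congrArg (· / 2) (sum_congr rfl fun x _ => ?_)
  rw [hV, hW, hk]; linear_combination k x * h x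

/-- integration by parts -/
lemma ibp (hv : ∀ x, 0 < v x) (G χ : Cube n → ℝ) :
    ∑ x, v x * (G x * -gen v χ x) = ∑ j, (∑ x, v x * (pf v x j * (df χ x j * df G x j))) / 2 := by
  simp only [gen_pf hv, ← sum_neg_distrib, mul_sum]
  rw [sum_comm]
  refine sum_congr rfl fun j _ => ?_
  have h := swap v j fun x => G x * -df χ x j
  simp only [df_fl, neg_neg] at h
  have e : ∀ x, v x * (pf v x j * (df χ x j * df G x j)) =
      v x * (pf v x j * (G (fl x j) * df χ x j)) + v x * (pf v x j * (G x * -df χ x j)) :=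
    fun x => by rw [df.eq_1 G]; ring
  simp only [e, sum_add_distrib, h]
  rw [add_self_div_two]
  exact sum_congr rfl fun x _ => by ring

/-- integration by parts against `V φ²` -/
lemma ibp_sq (hv : ∀ x, 0 < v x) (V φ χ : Cube n → ℝ) :
    ∑ x, v x * (V x * φ x ^ 2 * -gen v χ x) =
      ∑ j, ∑ x, v x * (pf v x j * (df χ x j * (V x * φ x * df φ x j))) +
      ∑ j, (∑ x, v x * (pf v x j * (df χ x j * df V x j * (φ x * φ (fl x j))))) / 2 := by
  rw [ibp hv (fun x => V x * φ x ^ 2), ← sum_add_distrib]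
  refine sum_congr rfl fun j _ => ?_
  have h := swap v j fun x => df χ x j * (V x * φ x * df φ x j)
  simp only [df_fl] at h
  have e : ∀ x, v x * (pf v x j * (df χ x j * df (fun x => V x * φ x ^ 2) x j)) =
      v x * (pf v x j * (-df χ x j * (V (fl x j) * φ (fl x j) * -df φ x j))) +
      v x * (pf v x j * (df χ x j * (V x * φ x * df φ x j))) +
      v x * (pf v x j * (df χ x j * df V x j * (φ x * φ (fl x j)))) :=
    fun x => by simp only [df]; ring
  simp only [e, sum_add_distrib, h]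
  ring

/-- the cross term -/
lemma cross_le (hv : ∀ x, 0 < v x) (j : Fin n) {a : Cube n → ℝ} (ha : Inv j a) (φ : Cube n → ℝ) :
    ∑ x, v x * (pf v x j * (a x * (φ x * φ (fl x j)))) ≤ (∑ x, v x * (|a x| * φ x ^ 2)) / 2 := by
  rw [sum_half j, sum_half j fun x => v x * (|a x| * φ x ^ 2)]
  rw [div_div, le_div_iff₀ (by norm_num), div_mul_eq_mul_div, div_le_iff₀ (by norm_num), sum_mul,
    sum_mul]
  refine sum_le_sum fun x _ => ?_
  rw [ha, fl_fl, ← mul_assoc (v (fl x j)), w_pf, pf]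
  have h1 := hv x
  have h2 := hv (fl x j)
  set A := v x
  set B := v (fl x j)
  set s := φ x
  set t := φ (fl x j)
  have k1 : a x * (s * t) ≤ |a x| * |s * t| := by rw [← abs_mul]; exact le_abs_self _
  have k2 : 4 * (A * B) * |s * t| ≤ (A + B) * (A * s ^ 2 + B * t ^ 2) := by
    rw [abs_mul, ← sq_abs s, ← sq_abs t]
    nlinarith [sq_nonneg (A * |s| - B * |t|), mul_nonneg (mul_pos h1 h2).le (sq_nonneg (|s| - |t|))]
  have k3 : A * (B / (A + B)) * (4 * |s * t|) ≤ A * s ^ 2 + B * t ^ 2 := by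
    rw [← mul_div_assoc, div_mul_eq_mul_div, div_le_iff₀ (by positivity)]; linarith
  have k4 : 0 ≤ A * (B / (A + B)) := by positivity
  nlinarith [mul_le_mul_of_nonneg_left k1 k4, mul_le_mul_of_nonneg_left k3 (abs_nonneg (a x))]

/-! ### the objects of the site `i` -/

/-- the local field (half log-odds) -/
def hl (w : Cube n → ℝ) (i : Fin n) (x : Cube n) : ℝ :=
  (log (w (update x i true)) - log (w (update x i false))) / 2

/-- the conditional variance weight `μ₊ μ₋` -/
def cw (w : Cube n → ℝ) (i : Fin n) (x : Cube n) : ℝ := pf w x i * pf w (fl x i) i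

/-- the test weight `4 tanh h μ₊ μ₋` -/
def Wt (w : Cube n → ℝ) (i : Fin n) (x : Cube n) : ℝ := 4 * tanh (hl w i x) * cw w i x

/-- the cut difference along the edge `i` -/
def ph (η : ℝ) (F : Cube n → ℝ) (i : Fin n) (x : Cube n) : ℝ := cut η (F x) (F (fl x i))

/-- the crossing error along `j` -/
def ce (η : ℝ) (F : Cube n → ℝ) (i : Fin n) (x : Cube n) (j : Fin n) : ℝ :=
  cer η (F x) (F (fl x i)) (F (fl x j)) (F (fl (fl x j) i))

/-- the dissipation on the face `(i, j)` -/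
def Qf (F : Cube n → ℝ) (i : Fin n) (x : Cube n) (j : Fin n) : ℝ :=
  Qd (F x) (F (fl x i)) (F (fl x j)) (F (fl (fl x j) i))

/-- the direction field -/
def Ad (v χ : Cube n → ℝ) (i : Fin n) (x : Cube n) (j : Fin n) : ℝ :=
  if j = i then 0 else siteM v (fun z => pf v z j * df χ z j) i x

/-- the weight of the owed term -/
def zeta (ε η : ℝ) (w F : Cube n → ℝ) (i : Fin n) (x : Cube n) : ℝ :=
  if 0 < ph η F i x then zt ε (pf w x i) else 0

/-- entropy production of the site `i` -/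
def iiS (w f : Cube n → ℝ) (i : Fin n) : ℝ :=
  ∑ x, prob w x * ((f x - siteM w f i x) * (log (f x) - siteM w (fun x => log (f x)) i x))

lemma dir2_log (w f : Cube n → ℝ) : dir2 w f (fun x => log (f x)) = ∑ i, iiS w f i := rfl

lemma inv_hl (w : Cube n → ℝ) (i : Fin n) : Inv i (hl w i) := fun x => by simp only [hl, upd_fl]
lemma inv_cw (w : Cube n → ℝ) (i : Fin n) : Inv i (cw w i) := fun x => by
  rw [cw, cw, fl_fl, mul_comm]
lemma inv_Wt (w : Cube n → ℝ) (i : Fin n) : Inv i (Wt w i) := fun x => by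
  rw [Wt, Wt, inv_hl, inv_cw]
lemma inv_ph (η : ℝ) (F : Cube n → ℝ) (i : Fin n) : Inv i (ph η F i) := fun x => by
  rw [ph, ph, fl_fl, cut_symm]
lemma inv_Ad (v χ : Cube n → ℝ) (i j : Fin n) : Inv i fun x => Ad v χ i x j := fun x => by
  simp only [Ad]; split_ifs
  · rfl
  · exact inv_siteM _ _ _ _
lemma cw_pos (hw : ∀ x, 0 < w x) (i : Fin n) (x : Cube n) : 0 < cw w i x :=
  mul_pos (pf_pos hw _ _) (pf_pos hw _ _)
lemma ph_nonneg (η : ℝ) (F : Cube n → ℝ) (i : Fin n) (x : Cube n) : 0 ≤ ph η F i x := cut_nonneg _ _ _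
lemma ce_nonneg (η : ℝ) (F : Cube n → ℝ) (i : Fin n) (x : Cube n) (j : Fin n) : 0 ≤ ce η F i x j :=
  cer_nonneg _ _ _ _ _
lemma Qf_nonneg {F : Cube n → ℝ} (hF : ∀ x, 0 < F x) (i : Fin n) (x : Cube n) (j : Fin n) :
    0 ≤ Qf F i x j := Qd_nonneg (hF _) (hF _) (hF _) (hF _)
lemma abs_Wt_le (hw : ∀ x, 0 < w x) (i : Fin n) (x : Cube n) : |Wt w i x| ≤ 4 * cw w i x := by
  have := cw_pos hw i x
  rw [Wt, abs_mul, abs_mul, abs_of_pos this, abs_of_pos four_pos]
  nlinarith [abs_tanh_lt (hl w i x)]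
lemma cw_le (hw : ∀ x, 0 < w x) (i : Fin n) (x : Cube n) : cw w i x ≤ pf w x i :=
  mul_le_of_le_one_right (pf_pos hw _ _).le (pf_le_one hw _ _)
lemma zeta_nonneg (hw : ∀ x, 0 < w x) {ε : ℝ} (hε : 0 < ε) (η : ℝ) (F : Cube n → ℝ) (i : Fin n)
    (x : Cube n) : 0 ≤ zeta ε η w F i x := by
  unfold zeta; split_ifs
  · exact (zt_pos hε (pf_pos hw _ _)).le
  · exact le_rfl
lemma zeta_le {ε : ℝ} (hε : 0 < ε) (η : ℝ) (w F : Cube n → ℝ) (i : Fin n) (x : Cube n) :
    zeta ε η w F i x ≤ 1 + ε := by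
  unfold zeta; split_ifs
  · exact zt_le _ _
  · linarith

/-- the crossing error and the dissipation -/
theorem ph_ce_le {η : ℝ} (hη : 0 ≤ η) (hη1 : η < 1) {F : Cube n → ℝ} (hF : ∀ x, 0 < F x)
    (i : Fin n) (x : Cube n) (j : Fin n) : ph η F i x * ce η F i x j ≤ Qf F i x j := by
  rcases (ph_nonneg η F i x).eq_or_lt with h | h
  · rw [← h, zero_mul]; exact Qf_nonneg hF i x j
  · exact (cer_le hη hη1 (hF _) (hF _) (hF _) (hF _) h).1

theorem ce_sq_le {η : ℝ} (hη : 0 ≤ η) (hη1 : η < 1) {F : Cube n → ℝ} (hF : ∀ x, 0 < F x)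
    {i : Fin n} {x : Cube n} (h : 0 < ph η F i x) (j : Fin n) : ce η F i x j ^ 2 ≤ 4 * Qf F i x j :=
  (cer_le hη hη1 (hF _) (hF _) (hF _) (hF _) h).2

/-- the own-side field -/
lemma hl_own (hw : ∀ x, 0 < w x) (i : Fin n) (x : Cube n) :
    hl w i x * tanh (hl w i x) = (log (pf w (fl x i) i) - log (pf w x i)) / 2 *
      (pf w (fl x i) i - pf w x i) ∧ tanh (hl w i x) ^ 2 = (pf w (fl x i) i - pf w x i) ^ 2 := by
  have hs := add_pos (hw x) (hw (fl x i))
  have t := (two_point (pf_pos hw (fl x i) i) (pf_pos hw x i) (by linarith [pf_add hw x i])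
    one_pos one_pos).2.2.2
  have e : (log (pf w (fl x i) i) - log (pf w x i)) / 2 = (log (w x) - log (w (fl x i))) / 2 := by
    rw [pf, pf, fl_fl, log_div (hw _).ne' (by linarith), log_div (hw _).ne' hs.ne', add_comm]; ring
  rw [← t, e]
  rcases upd_cases x i with ⟨h1, h2⟩ | ⟨h1, h2⟩ <;> rw [hl, h1, h2]
  · exact ⟨rfl, rfl⟩
  · rw [show (log (w (fl x i)) - log (w x)) / 2 = -((log (w x) - log (w (fl x i))) / 2) by ring,
      tanh_neg]
    exact ⟨by ring, by ring⟩

lemma iiS_eq (hw : ∀ x, 0 < w x) (f : Cube n → ℝ) (i : Fin n) : iiS w f i =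
    (∑ x, w x * (cw w i x * ((f x - f (fl x i)) * (log (f x) - log (f (fl x i)))))) / Zw w := by
  simp only [iiS, prob, div_mul_eq_mul_div, ← sum_div]
  refine congrArg (· / _) ?_
  rw [sum_half i, sum_half i fun x => w x * (cw w i x * _)]
  refine congrArg (· / 2) (sum_congr rfl fun x _ => ?_)
  have := add_pos (hw x) (hw (fl x i))
  rw [inv_siteM, inv_siteM, inv_cw, fl_fl, siteM_fl, siteM_fl, cw, pf, pf, fl_fl,
    add_comm (w (fl x i)) (w x)]
  field_simp; ring

lemma entS_eq' (hw : ∀ x, 0 < w x) (f : Cube n → ℝ) (i : Fin n) : Ent.entS w f i =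
    (∑ x, w x * (pf w (fl x i) i * (f x * log (f x)) + pf w x i * (f (fl x i) * log (f (fl x i))) -
      (pf w (fl x i) i * f x + pf w x i * f (fl x i)) *
        log (pf w (fl x i) i * f x + pf w x i * f (fl x i)))) / Zw w := by
  rw [Ent.entS_eq hw, ← Chain22.mean_siteM hw i fun x => f x * log (f x), ← Ent.mean_sub']
  simp only [Chain22.mean, prob, div_mul_eq_mul_div, ← sum_div, siteM_pf hw]
  rfl

/-- (K) with the cut, summed over the edges of the site `i` -/
theorem def_le (hw : ∀ x, 0 < w x) (hf : ∀ x, 0 < f x) (i : Fin n) {η η₀ : ℝ} (hη : 0 ≤ η)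
    (hηη : η < η₀) (hη1 : η₀ < 1) :
    2 * Ent.entS w f i - iiS w f i ≤ η₀ / (1 - η₀) * iiS w f i + (η₀ / (η₀ - η)) ^ 2 *
      ((∑ x, w x * ((4 * hl w i x * tanh (hl w i x) - 3 * tanh (hl w i x) ^ 2) *
        (cw w i x * ph η (fun x => √(f x)) i x ^ 2))) / Zw w) := by
  have hZ : 0 < Zw w := Chain22.sum_w_pos hw
  rw [entS_eq' hw, iiS_eq hw, ← mul_div_assoc, ← mul_div_assoc, ← mul_div_assoc, ← sub_div,
    ← add_div]
  refine div_le_div_of_nonneg_right ?_ hZ.le
  simp only [mul_sum, ← sum_sub_distrib, ← sum_add_distrib]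
  refine sum_le_sum fun x _ => ?_
  have t := two_point_cut (pf_pos hw (fl x i) i) (pf_pos hw x i) (by linarith [pf_add hw x i])
    (sqrt_pos.2 (hf x)) (sqrt_pos.2 (hf (fl x i))) hη hηη hη1
  simp only [sq_sqrt (hf _).le] at t
  obtain ⟨o1, o2⟩ := hl_own hw i x
  have := mul_le_mul_of_nonneg_left t (hw x).le
  rw [mul_assoc 4 (hl w i x), o1, o2, cw, ph]
  linarith

/-- the main term -/
lemma main_le (hw : ∀ x, 0 < w x) (F : Cube n → ℝ) (i : Fin n) {η ε θ : ℝ}
    (hη : 0 ≤ η) (hε : 0 < ε) (hε1 : ε ≤ 1) (hθ : 0 < θ) {A : Cube n → Fin n → ℝ}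
    (hA : ∀ j, Inv i fun x => A x j) :
    ∑ x, w x * (Wt w i x * (ph η F i x * ∑ j, A x j *
      (lin η (sgn (F x) (F (fl x i))) (F (fl x j)) (F (fl (fl x j) i)) - ph η F i x))) ≤
    4 / θ * ∑ x, w x * (tanh (hl w i x) ^ 2 * (cw w i x * ph η F i x ^ 2)) +
      θ * (1 + η) ^ 2 * ∑ x, w x * (zeta ε η w F i x * (∑ j, A x j * df F x j) ^ 2) := by
  have s := sum_siteM hw i (fun x => zeta ε η w F i x * (∑ j, A x j * df F x j) ^ 2)
    (k := fun _ => 1) fun _ => rfl
  simp only [one_mul] at s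
  rw [← s, mul_sum, mul_sum, ← sum_add_distrib]
  refine sum_le_sum fun x _ => ?_
  rw [mul_left_comm (4 / θ), mul_left_comm (θ * _), ← mul_add]
  refine mul_le_mul_of_nonneg_left ?_ (hw x).le
  have hc := cw_pos hw i x
  rw [siteM_pf hw]
  rcases (ph_nonneg η F i x).eq_or_lt with h | h
  · have := zeta_nonneg hw hε η F i x
    have := zeta_nonneg hw hε η F i (fl x i)
    have := pf_pos hw x i
    have := pf_pos hw (fl x i) i
    rw [← h]; simp only [zero_mul, mul_zero, ne_eq, OfNat.ofNat_ne_zero, not_false_eq_true, zero_pow,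
      zero_add]
    positivity
  · have hA' : ∀ j, A (fl x i) j = A x j := fun j => hA j x
    rw [zeta, zeta, inv_ph, if_pos h, if_pos h]
    simp only [hA']
    set X := ∑ j, A x j * df F x j
    set Y := ∑ j, A x j * df F (fl x i) j
    set τ := sgn (F x) (F (fl x i)) with hτ
    have e : ∑ j, A x j * (lin η τ (F (fl x j)) (F (fl (fl x j) i)) - ph η F i x) =
        (τ - η) * X - (τ + η) * Y := by
      rw [ph, ← lin_self h, ← hτ]
      simp only [X, Y, mul_sum, ← sum_sub_distrib]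
      exact sum_congr rfl fun j _ => by rw [lin, lin, df, df, fl_comm x i j]; ring
    rw [e]
    have cs := zt_cs hε hε1 (pf_pos hw x i) (pf_pos hw (fl x i) i) (pf_add hw x i) |X| |Y|
    rw [sq_abs, sq_abs, ← cw] at cs
    have hτ1 : |τ| = 1 := abs_sgn _ _
    set L := (τ - η) * X - (τ + η) * Y
    have l1 : |L| ≤ (1 + η) * (|X| + |Y|) := by
      refine (abs_sub _ _).trans ?_
      rw [abs_mul, abs_mul, mul_add]
      refine add_le_add (mul_le_mul_of_nonneg_right ?_ (abs_nonneg _))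
        (mul_le_mul_of_nonneg_right ?_ (abs_nonneg _))
      · exact (abs_sub _ _).trans (by rw [hτ1, abs_of_nonneg hη])
      · exact (abs_add_le _ _).trans (by rw [hτ1, abs_of_nonneg hη])
    have l2 : L ^ 2 ≤ (1 + η) ^ 2 * (|X| + |Y|) ^ 2 := by
      rw [← mul_pow, ← sq_abs L]; exact pow_le_pow_left₀ (abs_nonneg _) l1 2
    set t := tanh (hl w i x)
    set φ := ph η F i x
    have l3 : 4 * t * φ * L ≤ 4 / θ * (t ^ 2 * φ ^ 2) + θ * L ^ 2 := by
      have : 4 / θ * (t ^ 2 * φ ^ 2) + θ * L ^ 2 - 4 * t * φ * L = (2 * t * φ - θ * L) ^ 2 / θ := by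
        field_simp; ring
      have h2 : 0 ≤ (2 * t * φ - θ * L) ^ 2 / θ := by positivity
      linarith
    have l4 := mul_le_mul_of_nonneg_left l3 hc.le
    have l5 := mul_le_mul_of_nonneg_left l2 (mul_pos hc hθ).le
    have l6 := mul_le_mul_of_nonneg_left cs (by positivity : 0 ≤ θ * (1 + η) ^ 2)
    rw [Wt]
    nlinarith

/-- **Hardy inequality.**  `v` is the weight of the integration by parts (`w` itself with
`V = Wt w i`, or the cavity weight with `V = cosh h * Wt w i`). -/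
theorem hardy (hw : ∀ x, 0 < w x) (hv : ∀ x, 0 < v x) (F : Cube n → ℝ)
    (i : Fin n) {η ε θ : ℝ} (hη : 0 ≤ η) (hε : 0 < ε) (hε1 : ε ≤ 1) (hθ : 0 < θ)
    {V χ r : Cube n → ℝ} (hV : Inv i V)
    (hVW : ∀ x, (v x + v (fl x i)) * V x = (w x + w (fl x i)) * Wt w i x)
    (hχ : ∀ x, -gen v χ x = hl w i x - r x) :
    ∑ x, w x * ((4 * hl w i x * tanh (hl w i x) - 4 / θ * tanh (hl w i x) ^ 2) *
        (cw w i x * ph η F i x ^ 2)) ≤
      θ * (1 + η) ^ 2 * ∑ x, w x * (zeta ε η w F i x * (∑ j, Ad v χ i x j * df F x j) ^ 2) +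
      (∑ x, v x * (ph η F i x ^ 2 * ∑ j, |df χ x j * df V x j|)) / 4 +
      ∑ x, w x * (Wt w i x * (ph η F i x * ∑ j, Ad v χ i x j * ce η F i x j)) +
      ∑ x, v x * (V x * (ph η F i x ^ 2 * r x)) := by
  have iφ := inv_ph η F i
  have m := main_le hw F i hη hε hε1 hθ (A := Ad v χ i) (inv_Ad v χ i)
  have t1 := sum_transfer i hV (inv_Wt w i) (k := fun x => ph η F i x ^ 2 * hl w i x)
    (fun x => by beta_reduce; rw [iφ, inv_hl]) hVW
  have b := ibp_sq hv V (ph η F i) χ
  have c : ∑ j, (∑ x, v x * (pf v x j * (df χ x j * df V x j * (ph η F i x * ph η F i (fl x j))))) / 2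
      ≤ (∑ x, v x * (ph η F i x ^ 2 * ∑ j, |df χ x j * df V x j|)) / 4 := by
    simp only [mul_sum]
    rw [sum_comm, sum_div]
    refine sum_le_sum fun j _ => ?_
    have := cross_le hv j (a := fun x => df χ x j * df V x j)
      (fun x => by simp only [df_fl]; ring) (ph η F i)
    simp only [mul_comm (ph η F i _ ^ 2)]
    linarith
  have d : ∑ j, ∑ x, v x * (pf v x j * (df χ x j * (V x * ph η F i x * df (ph η F i) x j))) =
      ∑ x, w x * (Wt w i x * (ph η F i x * ∑ j, Ad v χ i x j * df (ph η F i) x j)) := by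
    have id : ∀ j, Inv i fun x => df (ph η F i) x j := fun j x => by
      simp only [df]; rw [fl_comm, iφ, iφ]
    rw [← sum_transfer i hV (inv_Wt w i) (fun x => by
      rw [iφ]; exact congrArg _ (sum_congr rfl fun j _ => by
        rw [show Ad v χ i (fl x i) j = Ad v χ i x j from inv_Ad v χ i j x,
          show df (ph η F i) (fl x i) j = df (ph η F i) x j from id j x])) hVW]
    simp only [mul_sum]
    rw [sum_comm (s := univ) (t := univ) (f := fun x j => v x * (V x * _))]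
    refine sum_congr rfl fun j _ => ?_
    by_cases hj : j = i
    · subst hj
      refine sum_congr rfl fun x _ => ?_
      rw [df.eq_1 (ph η F j), iφ, sub_self]; ring
    · have := sum_siteM hv i (fun z => pf v z j * df χ z j)
        (k := fun x => V x * ph η F i x * df (ph η F i) x j) fun x => by
          beta_reduce
          rw [hV, iφ, show df (ph η F i) (fl x i) j = df (ph η F i) x j from id j x]
      simp only [Ad, if_neg hj]
      refine Eq.trans ?_ (this.symm.trans ?_) <;> exact sum_congr rfl fun x _ => by ring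
  have e : ∑ x, w x * (Wt w i x * (ph η F i x * ∑ j, Ad v χ i x j * df (ph η F i) x j)) =
      ∑ x, w x * (Wt w i x * (ph η F i x * ∑ j, Ad v χ i x j *
        (lin η (sgn (F x) (F (fl x i))) (F (fl x j)) (F (fl (fl x j) i)) - ph η F i x))) +
      ∑ x, w x * (Wt w i x * (ph η F i x * ∑ j, Ad v χ i x j * ce η F i x j)) := by
    rw [← sum_add_distrib]
    refine sum_congr rfl fun x _ => ?_
    rw [← mul_add, ← mul_add, ← mul_add, ← sum_add_distrib]
    congr 3
    exact sum_congr rfl fun j _ => by rw [df, ce, cer, ph.eq_1 η F i (fl x j)]; ring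
  have g1 : ∑ x, v x * (V x * (ph η F i x ^ 2 * hl w i x)) =
      ∑ x, v x * (V x * ph η F i x ^ 2 * -gen v χ x) + ∑ x, v x * (V x * (ph η F i x ^ 2 * r x)) := by
    rw [← sum_add_distrib]
    exact sum_congr rfl fun x _ => by rw [hχ]; ring
  have g2 : ∑ x, w x * ((4 * hl w i x * tanh (hl w i x) - 4 / θ * tanh (hl w i x) ^ 2) *
        (cw w i x * ph η F i x ^ 2)) = ∑ x, w x * (Wt w i x * (ph η F i x ^ 2 * hl w i x)) -
      4 / θ * ∑ x, w x * (tanh (hl w i x) ^ 2 * (cw w i x * ph η F i x ^ 2)) := by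
    rw [mul_sum, ← sum_sub_distrib]
    exact sum_congr rfl fun x _ => by rw [Wt]; ring
  linarith

/-- **(LC), level 0, one site** -/
theorem lc0 (hw : ∀ x, 0 < w x) (hv : ∀ x, 0 < v x) (hf : ∀ x, 0 < f x)
    (i : Fin n) {η η₀ ε : ℝ} (hη : 0 ≤ η) (hηη : η < η₀) (hη1 : η₀ < 1) (hε : 0 < ε) (hε1 : ε ≤ 1)
    {V χ r : Cube n → ℝ} (hV : Inv i V)
    (hVW : ∀ x, (v x + v (fl x i)) * V x = (w x + w (fl x i)) * Wt w i x)
    (hχ : ∀ x, -gen v χ x = hl w i x - r x) :
    let F := fun x => √(f x)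
    2 * Ent.entS w f i - iiS w f i ≤ η₀ / (1 - η₀) * iiS w f i + (η₀ / (η₀ - η)) ^ 2 *
      ((4 / 3 * (1 + η) ^ 2 * ∑ x, w x * (zeta ε η w F i x * (∑ j, Ad v χ i x j * df F x j) ^ 2) +
        (∑ x, v x * (ph η F i x ^ 2 * ∑ j, |df χ x j * df V x j|)) / 4 +
        ∑ x, w x * (Wt w i x * (ph η F i x * ∑ j, Ad v χ i x j * ce η F i x j)) +
        ∑ x, v x * (V x * (ph η F i x ^ 2 * r x))) / Zw w) := by
  intro F
  have hZ : 0 < Zw w := Chain22.sum_w_pos hw
  refine (def_le hw hf i hη hηη hη1).trans (add_le_add le_rfl (mul_le_mul_of_nonneg_left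
    (div_le_div_of_nonneg_right ?_ hZ.le) (sq_nonneg _)))
  have := hardy hw hv F i hη hε hε1 (θ := 4 / 3) (by norm_num)
    hV hVW hχ
  rwa [show (4 : ℝ) / (4 / 3) = 3 by norm_num] at this

end Crest.Agent.T157.Hd

end
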