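import Mathlib

/-!
# Row 157, part B, S6 (LC): the two-point inequality (K) (helper20, after helper65)

`μ± ∝ e^{±h}`, `ν± ∝ e^{±k}`; `klr h k = KL(ν|μ)`, `klr k h = KL(μ|ν)`, `Sq h k = 1 - BC²`.
-/

set_option autoImplicit false

noncomputable section

namespace Crest.Agent.T157.Hd

open Real

/-- `KL(ν|μ)` for the two-point laws with half log-odds `k` (ν) and `h` (μ) -/
def klr (h k : ℝ) : ℝ := (k - h) * tanh k - log (cosh k) + log (cosh h)

/-- `1 - BC²`, the squared sine of the angle between `√μ` and `√ν` -/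
def Sq (h k : ℝ) : ℝ := sinh ((h - k) / 2) ^ 2 / (cosh h * cosh k)

lemma Sq_nonneg (h k : ℝ) : 0 ≤ Sq h k :=
  div_nonneg (sq_nonneg _) (mul_pos (cosh_pos _) (cosh_pos _)).le

lemma Sq_symm (h k : ℝ) : Sq h k = Sq k h := by
  unfold Sq
  rw [show (h - k) / 2 = -((k - h) / 2) by ring, sinh_neg, neg_sq, mul_comm]

lemma Sq_neg (h k : ℝ) : Sq (-h) (-k) = Sq h k := by
  unfold Sq
  rw [show (-h - -k) / 2 = -((h - k) / 2) by ring, sinh_neg, neg_sq, cosh_neg, cosh_neg]

lemma klr_neg (h k : ℝ) : klr (-h) (-k) = klr h k := by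
  unfold klr
  rw [tanh_neg, cosh_neg, cosh_neg]; ring

lemma cosh_mul_cosh (M s : ℝ) :
    cosh (M + s) * cosh (M - s) = (cosh (2 * M) + cosh (2 * s)) / 2 := by
  rw [cosh_add, cosh_sub, cosh_two_mul, cosh_two_mul]
  have h1 := cosh_sq M
  have h2 := cosh_sq s
  nlinarith [h1, h2]

lemma hasDerivAt_tanh' (x : ℝ) : HasDerivAt tanh (1 / cosh x ^ 2) x := by
  have h := (hasDerivAt_sinh x).div (hasDerivAt_cosh x) (cosh_pos x).ne'
  have e : (fun y => sinh y / cosh y) = tanh := by funext y; rw [tanh_eq_sinh_div_cosh]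
  have e2 : (cosh x * cosh x - sinh x * sinh x) / cosh x ^ 2 = 1 / cosh x ^ 2 := by
    congr 1; have := cosh_sq x; nlinarith
  rw [e2] at h
  exact e ▸ h

lemma hasDerivAt_logcosh (x : ℝ) : HasDerivAt (fun y => log (cosh y)) (tanh x) x := by
  have h := (hasDerivAt_cosh x).log (cosh_pos x).ne'
  rw [tanh_eq_sinh_div_cosh]; exact h

lemma tanh_le_self {x : ℝ} (hx : 0 ≤ x) : tanh x ≤ x := by
  have hm : Monotone fun y => y - tanh y := by
    refine monotone_of_deriv_nonneg (fun y => ?_) fun y => ?_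
    · exact ((hasDerivAt_id y).sub (hasDerivAt_tanh' y)).differentiableAt
    · have := ((hasDerivAt_id' y).sub (hasDerivAt_tanh' y)).deriv
      rw [show (fun y => y - tanh y) = (fun y => y) - tanh from rfl, this]
      have h1 : 1 ≤ cosh y ^ 2 := by nlinarith [one_le_cosh y]
      have : 1 / cosh y ^ 2 ≤ 1 := by rw [div_le_one (by positivity)]; exact h1
      linarith
  have := hm hx
  simp only [tanh_zero, sub_zero] at this
  linarith

lemma tanh_mono {x y : ℝ} (h : x ≤ y) : tanh x ≤ tanh y := by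
  have hm : Monotone tanh := by
    refine monotone_of_deriv_nonneg (fun y => (hasDerivAt_tanh' y).differentiableAt) fun y => ?_
    rw [(hasDerivAt_tanh' y).deriv]; positivity
  exact hm h

lemma tanh_nn {x : ℝ} (h : 0 ≤ x) : 0 ≤ tanh x := by
  simpa using tanh_mono h

lemma abs_tanh_lt (x : ℝ) : |tanh x| < 1 := by
  rw [tanh_eq_sinh_div_cosh, abs_div, abs_of_pos (cosh_pos x), div_lt_one (cosh_pos x)]
  have := cosh_sq x
  have h2 : |sinh x| ^ 2 < cosh x ^ 2 := by rw [sq_abs]; linarith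
  exact lt_of_pow_lt_pow_left₀ 2 (cosh_pos x).le h2

/-- `T = kl - rev` at `h = M + s`, `k = M - s` -/
def Tf (M s : ℝ) : ℝ :=
  2 * (log (cosh (M + s)) - log (cosh (M - s))) - 2 * s * (tanh (M + s) + tanh (M - s))

lemma T_eq (h k : ℝ) : klr h k - klr k h = Tf ((h + k) / 2) ((h - k) / 2) := by
  unfold klr Tf
  rw [show (h + k) / 2 + (h - k) / 2 = h by ring, show (h + k) / 2 - (h - k) / 2 = k by ring]
  ring

/-- `tanh (M+s) + tanh (M-s) = 2 tanh M - 2 tanh M * S` -/
lemma tanh_add_tanh (M s : ℝ) :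
    tanh (M + s) + tanh (M - s) = 2 * tanh M - 2 * tanh M * Sq (M + s) (M - s) := by
  unfold Sq
  rw [show (M + s - (M - s)) / 2 = s by ring]
  have h1 := cosh_pos (M + s)
  have h2 := cosh_pos (M - s)
  have h3 := cosh_pos M
  simp only [tanh_eq_sinh_div_cosh]
  field_simp
  rw [cosh_add, cosh_sub, sinh_add, sinh_sub]
  have e1 := cosh_sq M
  have e2 := cosh_sq s
  have : cosh M ^ 2 * (cosh s ^ 2 - sinh s ^ 2) =
      cosh M ^ 2 * cosh s ^ 2 - sinh M ^ 2 * sinh s ^ 2 - sinh s ^ 2 := by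
    rw [e1]; ring
  linear_combination 2 * sinh M * this

/-- `2 y tanh M S - T = 4 s tanh M - 2 (log cosh (M+s) - log cosh (M-s))` is monotone in `s` for `M ≥ 0` -/
lemma Tf_le {M s : ℝ} (hM : 0 ≤ M) (hs : 0 ≤ s) : Tf M s ≤ 4 * s * tanh M * Sq (M + s) (M - s) := by
  have hd : ∀ u, HasDerivAt (fun u => 4 * u * tanh M - 2 * (log (cosh (M + u)) - log (cosh (M - u))))
      (4 * tanh M - 2 * (tanh (M + u) + tanh (M - u))) u := by
    intro u
    have a1 := (hasDerivAt_logcosh (M + u)).comp u ((hasDerivAt_id' u).const_add M)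
    have a2 := (hasDerivAt_logcosh (M - u)).comp u ((hasDerivAt_id' u).const_sub M)
    have a3 := (((hasDerivAt_id' u).const_mul 4).mul_const (tanh M)).sub ((a1.sub a2).const_mul 2)
    exact a3.congr_deriv (by ring)
  have hm : Monotone fun u => 4 * u * tanh M - 2 * (log (cosh (M + u)) - log (cosh (M - u))) := by
    refine monotone_of_deriv_nonneg (fun u => (hd u).differentiableAt) fun u => ?_
    rw [(hd u).deriv, tanh_add_tanh]
    have := mul_nonneg (tanh_nn hM) (Sq_nonneg (M + u) (M - u))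
    linarith
  have := hm hs
  simp only [mul_zero, zero_mul, add_zero, sub_zero, sub_self] at this
  unfold Tf
  rw [tanh_add_tanh]
  nlinarith

lemma Tf_neg_s (M s : ℝ) : Tf M (-s) = -Tf M s := by
  unfold Tf
  rw [show M + -s = M - s by ring, show M - -s = M + s by ring]; ring

lemma Tf_neg_M (M s : ℝ) : Tf (-M) s = -Tf M s := by
  unfold Tf
  rw [show -M + s = -(M - s) by ring, show -M - s = -(M + s) by ring, cosh_neg, cosh_neg,
    tanh_neg, tanh_neg]; ring

lemma Tf_nonneg {M s : ℝ} (hM : 0 ≤ M) (hs : 0 ≤ s) : 0 ≤ Tf M s := by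
  have hd : ∀ u, HasDerivAt (Tf M) (-(2 * u) * (1 / cosh (M + u) ^ 2 - 1 / cosh (M - u) ^ 2)) u := by
    intro u
    have a1 := (hasDerivAt_logcosh (M + u)).comp u ((hasDerivAt_id' u).const_add M)
    have a2 := (hasDerivAt_logcosh (M - u)).comp u ((hasDerivAt_id' u).const_sub M)
    have b1 := (hasDerivAt_tanh' (M + u)).comp u ((hasDerivAt_id' u).const_add M)
    have b2 := (hasDerivAt_tanh' (M - u)).comp u ((hasDerivAt_id' u).const_sub M)
    have a3 := ((a1.sub a2).const_mul 2).sub (((hasDerivAt_id' u).const_mul 2).mul (b1.add b2))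
    exact a3.congr_deriv (by simp only [Pi.add_apply, Function.comp]; ring)
  have hm : MonotoneOn (Tf M) (Set.Ici 0) := by
    refine monotoneOn_of_deriv_nonneg (convex_Ici 0)
      (fun u _ => (hd u).continuousAt.continuousWithinAt)
      (fun u _ => (hd u).differentiableAt.differentiableWithinAt) fun u hu => ?_
    rw [(hd u).deriv]
    have hu0 : 0 < u := by simpa using hu
    have h1 : cosh (M - u) ≤ cosh (M + u) := by
      rw [cosh_le_cosh, abs_of_nonneg (by linarith : 0 ≤ M + u), abs_le]; constructor <;> linarith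
    have h2 : 1 / cosh (M + u) ^ 2 ≤ 1 / cosh (M - u) ^ 2 :=
      one_div_le_one_div_of_le (pow_pos (cosh_pos _) 2) (pow_le_pow_left₀ (cosh_pos _).le h1 2)
    nlinarith
  have := hm (Set.mem_Ici.2 le_rfl) (Set.mem_Ici.2 hs) hs
  have h0 : Tf M 0 = 0 := by simp [Tf]
  linarith

/-- `|kl - rev| ≤ 2 |h - k| |tanh M| S` -/
lemma abs_Tf_le (M s : ℝ) : |Tf M s| ≤ 4 * |s| * |tanh M| * Sq (M + s) (M - s) := by
  wlog hM : 0 ≤ M generalizing M s
  · have := this (-M) (-s) (by linarith)
    rw [Tf_neg_M, Tf_neg_s, neg_neg, abs_neg, tanh_neg, abs_neg,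
      show -M + -s = -(M + s) by ring, show -M - -s = -(M - s) by ring, Sq_neg] at this
    exact this
  wlog hs : 0 ≤ s generalizing s
  · have := this (-s) (by linarith)
    rw [Tf_neg_s, abs_neg, abs_neg, show M + -s = M - s by ring, show M - -s = M + s by ring,
      Sq_symm] at this
    exact this
  rw [abs_of_nonneg (Tf_nonneg hM hs), abs_of_nonneg hs, abs_of_nonneg (tanh_nn hM)]
  exact Tf_le hM hs

lemma coef_nonneg (h : ℝ) : tanh h ^ 2 ≤ 4 * h * tanh h - 3 * tanh h ^ 2 := by
  wlog hh : 0 ≤ h generalizing h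
  · have := this (-h) (by linarith)
    rw [tanh_neg] at this; nlinarith
  nlinarith [tanh_le_self hh, tanh_nn hh]

/-- **(K)** `kl - rev ≤ (4 h tanh h - 3 tanh² h) S` for all `h, k` -/
theorem K_ineq (h k : ℝ) : klr h k - klr k h ≤ (4 * h * tanh h - 3 * tanh h ^ 2) * Sq h k := by
  wlog hM : 0 ≤ h + k generalizing h k
  · have := this (-h) (-k) (by linarith)
    rw [klr_neg, klr_neg, Sq_neg, tanh_neg] at this
    nlinarith
  have hS := Sq_nonneg h k
  have hc := coef_nonneg h
  rw [T_eq]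
  set M := (h + k) / 2 with hMd
  set s := (h - k) / 2 with hsd
  have hM0 : 0 ≤ M := by rw [hMd]; linarith
  rcases le_total 0 s with hs | hs
  · have h1 := Tf_le hM0 hs
    rw [show M + s = h by rw [hMd, hsd]; ring, show M - s = k by rw [hMd, hsd]; ring] at h1
    have hh : h = M + s := by rw [hMd, hsd]; ring
    have hh0 : 0 ≤ h := by linarith
    have t1 := tanh_le_self hh0
    have t2 := tanh_le_self hM0
    have t3 : tanh M ≤ tanh h := tanh_mono (by linarith)
    have t4 := tanh_nn hM0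
    have : 4 * s * tanh M ≤ 4 * h * tanh h - 3 * tanh h ^ 2 := by
      have e : s = h - M := by linarith
      rw [e]
      nlinarith [sq_nonneg (tanh h - 2 * tanh M), mul_nonneg (sub_nonneg.2 t1) (sub_nonneg.2 t3),
        mul_nonneg (sub_nonneg.2 t2) t4]
    nlinarith
  · have h1 := Tf_nonneg hM0 (neg_nonneg.2 hs)
    rw [Tf_neg_s] at h1
    nlinarith [sq_nonneg (tanh h)]

/-- `|kl - rev| ≤ 2 |h - k| S` -/
theorem abs_T_le (h k : ℝ) : |klr h k - klr k h| ≤ 2 * |h - k| * Sq h k := by
  rw [T_eq]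
  have h1 := abs_Tf_le ((h + k) / 2) ((h - k) / 2)
  rw [show (h + k) / 2 + (h - k) / 2 = h by ring, show (h + k) / 2 - (h - k) / 2 = k by ring,
    abs_div, abs_two] at h1
  have h2 := (abs_tanh_lt ((h + k) / 2)).le
  have h3 := mul_nonneg (abs_nonneg (h - k)) (Sq_nonneg h k)
  nlinarith

/-- `kl + rev = (h - k) (tanh h - tanh k)` -/
lemma kl_add_rev (h k : ℝ) : klr h k + klr k h = (h - k) * (tanh h - tanh k) := by
  unfold klr; ring

lemma tanh_sub_tanh (h k : ℝ) : tanh h - tanh k = sinh (h - k) / (cosh h * cosh k) := by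
  have h1 := cosh_pos h
  have h2 := cosh_pos k
  simp only [tanh_eq_sinh_div_cosh]
  rw [sinh_sub]; field_simp

/-- `4 S ≤ kl + rev` -/
theorem four_Sq_le (h k : ℝ) : 4 * Sq h k ≤ klr h k + klr k h := by
  rw [kl_add_rev, tanh_sub_tanh, Sq, ← mul_div_assoc, ← mul_div_assoc]
  refine div_le_div_of_nonneg_right ?_ (mul_pos (cosh_pos _) (cosh_pos _)).le
  have key : ∀ s : ℝ, 0 ≤ s → sinh s ^ 2 ≤ s * (sinh s * cosh s) := by
    intro s hs
    have h1 := tanh_le_self hs
    rw [tanh_eq_sinh_div_cosh, div_le_iff₀ (cosh_pos s)] at h1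
    have h2 : 0 ≤ sinh s := sinh_nonneg_iff.2 hs
    nlinarith
  set s := (h - k) / 2 with hs
  have e : h - k = 2 * s := by rw [hs]; ring
  rw [e, sinh_two_mul]
  rcases le_total 0 s with h0 | h0
  · nlinarith [key s h0]
  · have := key (-s) (by linarith)
    rw [sinh_neg, cosh_neg] at this
    nlinarith

/-- `S ≤ KL` (either order, `Sq` is symmetric) -/
theorem Sq_le_klr (h k : ℝ) : Sq h k ≤ klr h k := by
  -- `S = 1 - BC²  ≤ -log BC² ≤ KL`
  set M := (h + k) / 2 with hM
  have hc : cosh h * cosh k = cosh M ^ 2 + sinh ((h - k) / 2) ^ 2 := by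
    have := cosh_mul_cosh M ((h - k) / 2)
    rw [show M + (h - k) / 2 = h by rw [hM]; ring, show M - (h - k) / 2 = k by rw [hM]; ring,
      cosh_two_mul, cosh_two_mul] at this
    nlinarith [cosh_sq M, cosh_sq ((h - k) / 2)]
  have hp : 0 < cosh h * cosh k := mul_pos (cosh_pos _) (cosh_pos _)
  have h1 : Sq h k = 1 - cosh M ^ 2 / (cosh h * cosh k) := by
    rw [Sq, eq_sub_iff_add_eq, ← add_div, div_eq_one_iff_eq hp.ne', hc]; ring
  have h2 : log (cosh M ^ 2 / (cosh h * cosh k)) ≤ cosh M ^ 2 / (cosh h * cosh k) - 1 :=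
    log_le_sub_one_of_pos (div_pos (pow_pos (cosh_pos _) 2) hp)
  rw [log_div (pow_pos (cosh_pos _) 2).ne' hp.ne', log_pow, log_mul (cosh_pos _).ne' (cosh_pos _).ne']
    at h2
  -- convexity of `log cosh`: `log cosh M ≥ log cosh k + (M - k) tanh k`
  have h3 : ∀ u, log (cosh k) + (u - k) * tanh k ≤ log (cosh u) := by
    intro u
    have hd : ∀ v, HasDerivAt (fun v => log (cosh v) - (v - k) * tanh k) (tanh v - tanh k) v := by
      intro v
      have := (hasDerivAt_logcosh v).sub (((hasDerivAt_id' v).sub_const k).mul_const (tanh k))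
      exact this.congr_deriv (by ring)
    rcases le_total k u with hu | hu
    · have hm : MonotoneOn (fun v => log (cosh v) - (v - k) * tanh k) (Set.Ici k) := by
        refine monotoneOn_of_deriv_nonneg (convex_Ici k)
          (fun v _ => (hd v).continuousAt.continuousWithinAt)
          (fun v _ => (hd v).differentiableAt.differentiableWithinAt) fun v hv => ?_
        rw [(hd v).deriv]
        have : k < v := by simpa using hv
        linarith [tanh_mono this.le]
      have := hm (Set.mem_Ici.2 le_rfl) (Set.mem_Ici.2 hu) hu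
      simp only [sub_self, zero_mul, sub_zero] at this
      linarith
    · have hm : AntitoneOn (fun v => log (cosh v) - (v - k) * tanh k) (Set.Iic k) := by
        refine antitoneOn_of_deriv_nonpos (convex_Iic k)
          (fun v _ => (hd v).continuousAt.continuousWithinAt)
          (fun v _ => (hd v).differentiableAt.differentiableWithinAt) fun v hv => ?_
        rw [(hd v).deriv]
        have : v < k := by simpa using hv
        linarith [tanh_mono this.le]
      have := hm (Set.mem_Iic.2 hu) (Set.mem_Iic.2 le_rfl) hu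
      simp only [sub_self, zero_mul, sub_zero] at this
      linarith
  have h4 := h3 M
  rw [show M - k = (h - k) / 2 by rw [hM]; ring] at h4
  unfold klr
  push_cast at h2
  nlinarith

theorem Sq_le_rev (h k : ℝ) : Sq h k ≤ klr k h := by rw [Sq_symm]; exact Sq_le_klr k h

end Crest.Agent.T157.Hd

end
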