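import Crest.Agent.T157.TwA_30
import Crest.Agent.T157.TwOk_42

/-!
# Row 157, block B/S4b (helper3): Gaussian polynomial calculus, part A (algebra, projections)
-/

set_option autoImplicit false
set_option linter.all false

noncomputable section

namespace Crest.Agent.T157.Hm

open MeasureTheory ProbabilityTheory Real Set Filter
open Crest.Agent.R238.Gap Crest.Agent.R238.GapPc Crest.Agent.R238.GapPoinc Crest.Agent.R253.Meh74
open Crest.Agent.T157.Tw

variable {m : ℕ}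

/-- polynomial functions of degree `< D` -/
def Pl (m : ℕ) : ℕ → Submodule ℝ (E m → ℝ)
  | 0 => ⊥
  | D + 1 =>
    { carrier := {f | ∃ (c : ℝ) (r : Fin m → E m → ℝ), (∀ j, r j ∈ Pl m D) ∧
        f = fun x => c + ∑ j, x j * r j x}
      add_mem' := by
        rintro _ _ ⟨c, r, hr, rfl⟩ ⟨c', r', hr', rfl⟩
        refine ⟨c + c', fun j => r j + r' j, fun j => add_mem (hr j) (hr' j), funext fun x => ?_⟩
        simp only [Pi.add_apply, mul_add, Finset.sum_add_distrib]; ring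
      zero_mem' := ⟨0, fun _ => 0, fun _ => zero_mem _, funext fun x => by simp⟩
      smul_mem' := by
        rintro a _ ⟨c, r, hr, rfl⟩
        refine ⟨a * c, fun j => a • r j, fun j => Submodule.smul_mem _ a (hr j), funext fun x => ?_⟩
        simp only [Pi.smul_apply, smul_eq_mul, mul_add, Finset.mul_sum]
        congr 1
        exact Finset.sum_congr rfl fun j _ => by ring }

lemma mem_zero {f : E m → ℝ} : f ∈ Pl m 0 ↔ f = 0 := Submodule.mem_bot ℝ

lemma mem_succ {D : ℕ} {f : E m → ℝ} : f ∈ Pl m (D + 1) ↔ ∃ (c : ℝ) (r : Fin m → E m → ℝ),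
    (∀ j, r j ∈ Pl m D) ∧ f = fun x => c + ∑ j, x j * r j x := Iff.rfl

lemma le_succ : ∀ D : ℕ, Pl m D ≤ Pl m (D + 1)
  | 0 => bot_le
  | D + 1 => by
    rintro _ ⟨c, r, hr, rfl⟩
    exact ⟨c, r, fun j => le_succ D (hr j), rfl⟩

lemma mono {D D' : ℕ} (h : D ≤ D') : Pl m D ≤ Pl m D' := monotone_nat_of_le_succ le_succ h

lemma const_mem (D : ℕ) (c : ℝ) : (fun _ => c) ∈ Pl m (D + 1) :=
  ⟨c, fun _ => 0, fun _ => zero_mem _, funext fun x => by simp⟩

lemma add_mem' {D : ℕ} {f g : E m → ℝ} (hf : f ∈ Pl m D) (hg : g ∈ Pl m D) :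
    (fun x => f x + g x) ∈ Pl m D := add_mem hf hg
lemma sub_mem' {D : ℕ} {f g : E m → ℝ} (hf : f ∈ Pl m D) (hg : g ∈ Pl m D) :
    (fun x => f x - g x) ∈ Pl m D := sub_mem hf hg
lemma smul_mem' {D : ℕ} (c : ℝ) {f : E m → ℝ} (hf : f ∈ Pl m D) :
    (fun x => c * f x) ∈ Pl m D := Submodule.smul_mem _ c hf
lemma sum_mem' {D : ℕ} {ι : Type*} (S : Finset ι) {f : ι → E m → ℝ} (hf : ∀ i ∈ S, f i ∈ Pl m D) :
    (fun x => ∑ i ∈ S, f i x) ∈ Pl m D := by
  have := Submodule.sum_mem _ hf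
  rwa [show ∑ i ∈ S, f i = fun x => ∑ i ∈ S, f i x from funext fun x => Finset.sum_apply _ _ _]
    at this

lemma lin_mul_mem {D : ℕ} (u : Fin m → ℝ) {r : E m → ℝ} (hr : r ∈ Pl m D) :
    (fun x => (∑ j, u j * x j) * r x) ∈ Pl m (D + 1) :=
  ⟨0, fun j x => u j * r x, fun j => smul_mem' _ hr, funext fun x => by
    rw [zero_add, Finset.sum_mul]; exact Finset.sum_congr rfl fun j _ => by ring⟩

lemma mulX_mem {D : ℕ} (j : Fin m) {r : E m → ℝ} (hr : r ∈ Pl m D) :
    (fun x => x j * r x) ∈ Pl m (D + 1) := by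
  have := lin_mul_mem (Pi.single j 1) hr
  simpa [Pi.single_apply] using this

lemma mulX_mem' {D : ℕ} (j : Fin m) {r : E m → ℝ} (hr : r ∈ Pl m (D - 1)) :
    (fun x => x j * r x) ∈ Pl m D := by
  cases D with
  | zero => rw [mem_zero.1 hr]; exact mem_zero.2 (funext fun x => by simp)
  | succ D => exact mulX_mem j hr

lemma c1 : ∀ {D : ℕ} {f : E m → ℝ}, f ∈ Pl m D → C1 f
  | 0, f, h => by rw [mem_zero.1 h]; exact c1_const 0
  | D + 1, _, ⟨c, r, hr, rfl⟩ =>
    (c1_const c).add (C1.sum fun j _ => (c1_coord j).mul (c1 (hr j)))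

lemma pd_const (c : ℝ) (i : Fin m) (x : E m) : pd i (fun _ : E m => c) x = 0 := by simp [pd]

lemma pd_form (c : ℝ) {r : Fin m → E m → ℝ} (hr : ∀ j, C1 (r j)) (i : Fin m) :
    pd i (fun x => c + ∑ j, x j * r j x) = fun x => r i x + ∑ j, x j * pd i (r j) x := by
  funext x
  rw [(c1_const c).pd_add (C1.sum fun j _ => (c1_coord j).mul (hr j)), pd_const, zero_add,
    pd_sum' fun j _ => (c1_coord j).mul (hr j)]
  simp only [(c1_coord _).pd_mul (hr _), pd_coord, Finset.sum_add_distrib, ite_mul, one_mul,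
    zero_mul, Finset.sum_ite_eq', Finset.mem_univ, if_true]

lemma pd_mem' : ∀ {D : ℕ} {f : E m → ℝ}, f ∈ Pl m D → ∀ i, pd i f ∈ Pl m (D - 1)
  | 0, f, h, i => by
    rw [mem_zero.1 h]; exact mem_zero.2 (funext fun x => pd_const 0 i x)
  | D + 1, _, ⟨c, r, hr, rfl⟩, i => by
    rw [pd_form c fun j => c1 (hr j)]
    exact add_mem' (hr i) (sum_mem' _ fun j _ => mulX_mem' j (pd_mem' (hr j) i))

lemma pd_mem {D : ℕ} {f : E m → ℝ} (h : f ∈ Pl m (D + 1)) (i : Fin m) : pd i f ∈ Pl m D :=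
  pd_mem' h i

lemma pd_mem_self {D : ℕ} {f : E m → ℝ} (h : f ∈ Pl m D) (i : Fin m) : pd i f ∈ Pl m D :=
  pd_mem (le_succ D h) i

lemma mul_mem : ∀ {D D' : ℕ} {f g : E m → ℝ}, f ∈ Pl m (D + 1) → g ∈ Pl m D' →
    (fun x => f x * g x) ∈ Pl m (D + D')
  | 0, D', _, g, ⟨c, r, hr, rfl⟩, hg => by
    have : (fun x : E m => (c + ∑ j, x j * r j x) * g x) = fun x => c * g x :=
      funext fun x => by simp [fun j => mem_zero.1 (hr j)]
    rw [this, zero_add]; exact smul_mem' c hg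
  | D + 1, D', _, g, ⟨c, r, hr, rfl⟩, hg => by
    have : (fun x : E m => (c + ∑ j, x j * r j x) * g x) =
        fun x => c * g x + ∑ j, x j * (r j x * g x) := funext fun x => by
      rw [add_mul, Finset.sum_mul]; simp only [mul_assoc]
    rw [this, show D + 1 + D' = D + D' + 1 by ring]
    exact add_mem' (smul_mem' c (mono (by omega) hg))
      (sum_mem' _ fun j _ => mulX_mem j (mul_mem (hr j) hg))

lemma shift_mem : ∀ {D : ℕ} {f : E m → ℝ}, f ∈ Pl m D → ∀ v : E m, (fun z => f (z + v)) ∈ Pl m D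
  | 0, f, h, v => by rw [mem_zero.1 h]; exact zero_mem _
  | D + 1, _, ⟨c, r, hr, rfl⟩, v => by
    have : (fun z : E m => c + ∑ j, (z + v) j * r j (z + v)) =
        fun z => (c + ∑ j, z j * r j (z + v)) + ∑ j, v j * r j (z + v) := funext fun z => by
      simp only [PiLp.add_apply, add_mul, Finset.sum_add_distrib]; ring
    show (fun z : E m => c + ∑ j, (z + v) j * r j (z + v)) ∈ _
    rw [this]
    exact add_mem' ⟨c, _, fun j => shift_mem (hr j) v, rfl⟩
      (sum_mem' _ fun j _ => smul_mem' _ (le_succ D (shift_mem (hr j) v)))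

lemma neg_mem' : ∀ {D : ℕ} {f : E m → ℝ}, f ∈ Pl m D → (fun z => f (-z)) ∈ Pl m D
  | 0, f, h => by rw [mem_zero.1 h]; exact zero_mem _
  | D + 1, _, ⟨c, r, hr, rfl⟩ =>
    ⟨c, fun j z => -1 * r j (-z), fun j => smul_mem' _ (neg_mem' (hr j)), funext fun z => by simp⟩

/-- Euler operator -/
def Eu (f : E m → ℝ) (x : E m) : ℝ := ∑ j, x j * pd j f x

lemma euler : ∀ {D : ℕ} {f : E m → ℝ}, f ∈ Pl m (D + 1) → (fun x => Eu f x - D * f x) ∈ Pl m D
  | 0, _, ⟨c, r, hr, rfl⟩ => mem_zero.2 (funext fun x => by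
      simp [Eu, fun j => mem_zero.1 (hr j), pd_const])
  | D + 1, _, ⟨c, r, hr, rfl⟩ => by
    refine ⟨-(D + 1 : ℕ) * c, fun j x => Eu (r j) x - D * r j x, fun j => euler (hr j),
      funext fun x => ?_⟩
    simp only [Eu, pd_form c fun j => c1 (hr j), mul_add, mul_sub, Finset.mul_sum,
      Finset.sum_add_distrib, Finset.sum_sub_distrib]
    rw [Finset.sum_comm]
    have e1 : ∑ y, ∑ i, x i * (x y * pd i (r y) x) = ∑ y, ∑ i, x y * (x i * pd i (r y) x) :=
      Finset.sum_congr rfl fun _ _ => Finset.sum_congr rfl fun _ _ => by ring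
    have e2 : ∑ i, ((D + 1 : ℕ) : ℝ) * (x i * r i x) =
        ∑ i, x i * (D * r i x) + ∑ i, x i * r i x := by
      rw [← Finset.sum_add_distrib]
      exact Finset.sum_congr rfl fun _ _ => by push_cast; ring
    rw [e1, e2]; ring

/-- the number operator -/
def N0 (f : E m → ℝ) (x : E m) : ℝ := ∑ j, (x j * pd j f x - pd j (pd j f) x)

lemma N0_sub {D : ℕ} {f : E m → ℝ} (h : f ∈ Pl m (D + 1)) :
    (fun x => N0 f x - D * f x) ∈ Pl m D := by
  have : (fun x => N0 f x - D * f x) =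
      fun x => (Eu f x - D * f x) - ∑ j, pd j (pd j f) x := funext fun x => by
    simp only [N0, Eu, Finset.sum_sub_distrib]; ring
  rw [this]
  exact sub_mem' (euler h) (sum_mem' _ fun j _ => pd_mem_self (pd_mem h j) j)

lemma N0_mem {D : ℕ} {f : E m → ℝ} (h : f ∈ Pl m D) : N0 f ∈ Pl m D :=
  sum_mem' _ fun j _ => sub_mem' (mulX_mem' j (pd_mem' h j)) (pd_mem_self (pd_mem_self h j) j)

instance fin_Pl : ∀ D : ℕ, Module.Finite ℝ (Pl m D)
  | 0 => Module.Finite.bot ℝ _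
  | D + 1 => by
    haveI := fin_Pl D
    let L : (ℝ × (Fin m → Pl m D)) →ₗ[ℝ] Pl m (D + 1) :=
      { toFun := fun p => ⟨fun x => p.1 + ∑ j, x j * (p.2 j).1 x, p.1, _, fun j => (p.2 j).2, rfl⟩
        map_add' := fun p q => Subtype.ext (funext fun x => by
          simp [mul_add, Finset.sum_add_distrib]; ring)
        map_smul' := fun a p => Subtype.ext (funext fun x => by
          simp only [Prod.smul_fst, Prod.smul_snd, Pi.smul_apply, Submodule.coe_smul, smul_eq_mul,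
            RingHom.id_apply, mul_add, Finset.mul_sum]
          congr 1
          exact Finset.sum_congr rfl fun j _ => by ring) }
    refine Module.Finite.of_surjective L ?_
    rintro ⟨_, c, r, hr, rfl⟩
    exact ⟨(c, fun j => ⟨r j, hr j⟩), rfl⟩

/-! ### the scalar product -/

/-- continuous, of polynomial growth -/
structure C0 (f : E m → ℝ) : Prop where
  c : Continuous f
  g : PG f

lemma C0.add {f g : E m → ℝ} (hf : C0 f) (hg : C0 g) : C0 fun x => f x + g x :=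
  ⟨hf.c.add hg.c, hf.g.add hg.g⟩
lemma C0.sub {f g : E m → ℝ} (hf : C0 f) (hg : C0 g) : C0 fun x => f x - g x :=
  ⟨hf.c.sub hg.c, hf.g.sub hg.g⟩
lemma C0.mul {f g : E m → ℝ} (hf : C0 f) (hg : C0 g) : C0 fun x => f x * g x :=
  ⟨hf.c.mul hg.c, hf.g.mul hg.g⟩
lemma c0_const (c : ℝ) : C0 fun _ : E m => c := ⟨continuous_const, pg_const c⟩
lemma C0.sum {ι : Type*} (S : Finset ι) {f : ι → E m → ℝ} (hf : ∀ i ∈ S, C0 (f i)) :
    C0 fun x => ∑ i ∈ S, f i x :=
  ⟨continuous_finsetSum _ fun i hi => (hf i hi).c, PG.sum _ fun i hi => (hf i hi).g⟩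
lemma C0.int {f : E m → ℝ} (hf : C0 f) : Integrable f (gam m) := integrable_of_PG hf.c hf.g
lemma C0.shift {f : E m → ℝ} (hf : C0 f) (v : E m) : C0 fun z => f (z + v) :=
  ⟨hf.c.comp (continuous_id.add continuous_const), pg_shift hf.g v⟩
lemma c0_of {f : E m → ℝ} (hf : C1 f) : C0 f := ⟨hf.cont, hf.g⟩
lemma c0_pd {f : E m → ℝ} (hf : C1 f) (i : Fin m) : C0 (pd i f) := ⟨hf.contp i, hf.p i⟩
lemma c0 {D : ℕ} {f : E m → ℝ} (h : f ∈ Pl m D) : C0 f := c0_of (c1 h)

/-- Gaussian scalar product -/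
def ip (f g : E m → ℝ) : ℝ := ∫ x, f x * g x ∂gam m

lemma ip_comm (f g : E m → ℝ) : ip f g = ip g f := by simp only [ip, mul_comm]
lemma ip_self_nonneg (f : E m → ℝ) : 0 ≤ ip f f := integral_nonneg fun _ => mul_self_nonneg _
lemma ip_add {f g h : E m → ℝ} (hf : C0 f) (hg : C0 g) (hh : C0 h) :
    ip (fun x => f x + g x) h = ip f h + ip g h := by
  simp only [ip, add_mul]; exact integral_add (hf.mul hh).int (hg.mul hh).int
lemma ip_sub {f g h : E m → ℝ} (hf : C0 f) (hg : C0 g) (hh : C0 h) :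
    ip (fun x => f x - g x) h = ip f h - ip g h := by
  simp only [ip, sub_mul]; exact integral_sub (hf.mul hh).int (hg.mul hh).int
lemma ip_smul (c : ℝ) (f h : E m → ℝ) : ip (fun x => c * f x) h = c * ip f h := by
  simp only [ip, mul_assoc]; exact integral_const_mul _ _
lemma ip_sum {ι : Type*} (S : Finset ι) {f : ι → E m → ℝ} {h : E m → ℝ} (hf : ∀ i ∈ S, C0 (f i))
    (hh : C0 h) : ip (fun x => ∑ i ∈ S, f i x) h = ∑ i ∈ S, ip (f i) h := by
  simp only [ip, Finset.sum_mul]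
  exact integral_finsetSum _ fun i hi => ((hf i hi).mul hh).int
lemma ip_add' {f g h : E m → ℝ} (hf : C0 f) (hg : C0 g) (hh : C0 h) :
    ip h (fun x => f x + g x) = ip h f + ip h g := by
  rw [ip_comm, ip_add hf hg hh, ip_comm f, ip_comm g]
lemma ip_sub' {f g h : E m → ℝ} (hf : C0 f) (hg : C0 g) (hh : C0 h) :
    ip h (fun x => f x - g x) = ip h f - ip h g := by
  rw [ip_comm, ip_sub hf hg hh, ip_comm f, ip_comm g]
lemma ip_smul' (c : ℝ) (f h : E m → ℝ) : ip h (fun x => c * f x) = c * ip h f := by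
  rw [ip_comm, ip_smul, ip_comm]
lemma ip_sum' {ι : Type*} (S : Finset ι) {f : ι → E m → ℝ} {h : E m → ℝ}
    (hf : ∀ i ∈ S, C0 (f i)) (hh : C0 h) :
    ip h (fun x => ∑ i ∈ S, f i x) = ∑ i ∈ S, ip h (f i) := by
  rw [ip_comm, ip_sum S hf hh]; simp only [ip_comm h]

lemma eq_zero_of_ip {f : E m → ℝ} (hf : C0 f) (h : ip f f = 0) : f = 0 := by
  haveI := O42.openPos (m := m)
  have h1 := (integral_eq_zero_iff_of_nonneg (fun x => mul_self_nonneg (f x)) (hf.mul hf).int).1 h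
  have h2 := (Continuous.ae_eq_iff_eq (gam m) (hf.mul hf).c continuous_const).1 h1
  exact funext fun x => mul_self_eq_zero.1 (congrFun h2 x)

lemma ip_sq_le {f g : E m → ℝ} (hf : C0 f) (hg : C0 g) : ip f g ^ 2 ≤ ip f f * ip g g := by
  have h : ∀ t : ℝ, 0 ≤ ip f f * (t * t) + 2 * ip f g * t + ip g g := fun t => by
    have h1 := ip_self_nonneg fun x => t * f x + g x
    have ht := (c0_const t).mul hf
    rw [ip_add ht hg (ht.add hg), ip_add' ht hg ht, ip_add' ht hg hg, ip_smul, ip_smul, ip_smul',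
      ip_smul', ip_comm g f] at h1
    linarith
  have := discrim_le_zero h
  unfold discrim at this
  nlinarith

/-- adjoint of the derivative -/
lemma ip_adj {f g : E m → ℝ} (hf : C1 f) (hg : C1 g) (i : Fin m) :
    ip f (fun x => x i * g x - pd i g x) = ip (pd i f) g := by
  have h := ibp_prod hf hg i
  have e : ∀ x : E m, f x * (x i * g x - pd i g x) = -(f x * (pd i g x - x i * g x)) :=
    fun x => by ring
  simp only [ip, e, integral_neg, h, neg_neg]

lemma ip_N0 {D : ℕ} {f g : E m → ℝ} (hf : C1 f) (hg : g ∈ Pl m D) :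
    ip f (N0 g) = ∑ j, ip (pd j f) (pd j g) := by
  have h1 : ∀ j, C1 (pd j g) := fun j => c1 (pd_mem_self hg j)
  unfold N0
  rw [ip_sum' _ (fun j _ => ((c0_of (c1_coord j)).mul (c0_of (h1 j))).sub (c0_pd (h1 j) j))
    (c0_of hf)]
  exact Finset.sum_congr rfl fun j _ => ip_adj hf (h1 j) j

/-! ### orthonormal bases and projections -/

/-- the space of continuous functions of polynomial growth -/
def V0 (m : ℕ) : Submodule ℝ (E m → ℝ) where
  carrier := {f | C0 f}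
  add_mem' hf hg := hf.add hg
  zero_mem' := c0_const 0
  smul_mem' c _ hf := (c0_const c).mul hf

/-- the scalar product, bundled -/
def ipB (m : ℕ) : V0 m →ₗ[ℝ] V0 m →ₗ[ℝ] ℝ :=
  LinearMap.mk₂ ℝ (fun f g => ip f.1 g.1) (fun f g h => ip_add f.2 g.2 h.2)
    (fun c f g => ip_smul c f.1 g.1) (fun h f g => ip_add' f.2 g.2 h.2)
    (fun c f g => ip_smul' c g.1 f.1)

lemma exists_on (m D : ℕ) : ∃ (M : ℕ) (h : Fin M → E m → ℝ), (∀ k, h k ∈ Pl m D) ∧
    (∀ k l, ip (h k) (h l) = if k = l then 1 else 0) ∧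
    ∀ q ∈ Pl m D, q = fun x => ∑ k, ip q (h k) * h k x := by
  let H : Pre (V0 m) := ⟨ipB m, 0, 0⟩
  have ok : H.Ok := ⟨fun u v => ip_comm _ _, fun _ _ => rfl, fun u => ip_self_nonneg _,
    fun _ => le_rfl, fun _ _ => rfl⟩
  let S : Submodule ℝ (V0 m) := (Pl m D).comap (V0 m).subtype
  let ι : Pl m D →ₗ[ℝ] V0 m := Submodule.inclusion fun f hf => c0 hf
  obtain ⟨n, b, hb⟩ := Module.Finite.exists_fin (R := ℝ) (M := Pl m D)
  obtain ⟨M, f, on, hf, hT⟩ := gram ok S (T := range fun k => ι (b k)) (finite_range _)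
    (by rintro _ ⟨k, rfl⟩; exact (b k).2)
  refine ⟨M, fun k => (f k).1, hf, on, fun q hq => ?_⟩
  have h1 : ∀ y : Pl m D, ι y ∈ spn ok f := fun y => by
    have hy : y ∈ Submodule.span ℝ (range b) := by rw [hb]; trivial
    refine Submodule.span_induction (p := fun y _ => ι y ∈ spn ok f) ?_ ?_ ?_ ?_ hy
    · rintro _ ⟨k, rfl⟩; exact hT _ ⟨k, rfl⟩
    · rw [map_zero]; exact zero_mem _
    · intro x y _ _ h1 h2; rw [map_add]; exact add_mem h1 h2
    · intro a x _ h1; rw [map_smul]; exact Submodule.smul_mem _ a h1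
  have h2 : InSp H f (ι ⟨q, hq⟩) := h1 _
  have h3 := eq_zero_of_ip (ι ⟨q, hq⟩ - ∑ k, H.N (ι ⟨q, hq⟩) (f k) • f k).2 h2
  funext x
  have h4 := congrFun h3 x
  simp only [Submodule.coe_sub, Submodule.coe_sum, Submodule.coe_smul, Pi.sub_apply,
    Finset.sum_apply, Pi.smul_apply, smul_eq_mul, Pi.zero_apply] at h4
  exact sub_eq_zero.1 h4

/-- the dimension of `Pl m D` -/
def dm (m D : ℕ) : ℕ := (exists_on m D).choose
/-- an orthonormal basis of `Pl m D` -/
def hm (m D : ℕ) : Fin (dm m D) → E m → ℝ := (exists_on m D).choose_spec.choose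

lemma hm_mem (D : ℕ) (k : Fin (dm m D)) : hm m D k ∈ Pl m D :=
  (exists_on m D).choose_spec.choose_spec.1 k
lemma hm_on (D : ℕ) (k l : Fin (dm m D)) : ip (hm m D k) (hm m D l) = if k = l then 1 else 0 :=
  (exists_on m D).choose_spec.choose_spec.2.1 k l
lemma hm_span {D : ℕ} {q : E m → ℝ} (hq : q ∈ Pl m D) :
    q = fun x => ∑ k, ip q (hm m D k) * hm m D k x :=
  (exists_on m D).choose_spec.choose_spec.2.2 q hq

/-- orthogonal projection onto `Pl m D` -/
def pr (D : ℕ) (G : E m → ℝ) (x : E m) : ℝ := ∑ k, ip G (hm m D k) * hm m D k x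

lemma pr_mem (D : ℕ) (G : E m → ℝ) : pr D G ∈ Pl m D :=
  sum_mem' _ fun k _ => smul_mem' _ (hm_mem D k)

lemma pr_of_mem {D : ℕ} {q : E m → ℝ} (hq : q ∈ Pl m D) : pr D q = q := (hm_span hq).symm

lemma ip_pr {D : ℕ} {G r : E m → ℝ} (hG : C0 G) (hr : r ∈ Pl m D) : ip (pr D G) r = ip G r := by
  have h0 : ∀ k, C0 (hm m D k) := fun k => c0 (hm_mem D k)
  have h1 : ∀ l, ip (pr D G) (hm m D l) = ip G (hm m D l) := fun l => by
    unfold pr
    rw [ip_sum _ (fun k _ => (c0_const _).mul (h0 k)) (h0 l)]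
    simp only [ip_smul, hm_on, mul_ite, mul_one, mul_zero, Finset.sum_ite_eq', Finset.mem_univ,
      if_true]
  rw [hm_span hr, ip_sum' _ (fun k _ => (c0_const _).mul (h0 k)) (c0 (pr_mem D G)),
    ip_sum' _ (fun k _ => (c0_const _).mul (h0 k)) hG]
  simp only [ip_smul', h1]

lemma ip_res {D : ℕ} {G r : E m → ℝ} (hG : C0 G) (hr : r ∈ Pl m D) :
    ip (fun x => G x - pr D G x) r = 0 := by
  rw [ip_sub hG (c0 (pr_mem D G)) (c0 hr), ip_pr hG hr, sub_self]

lemma pr_unique {D : ℕ} {G q : E m → ℝ} (hG : C0 G) (hq : q ∈ Pl m D)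
    (h : ∀ r ∈ Pl m D, ip q r = ip G r) : pr D G = q := by
  rw [← pr_of_mem hq]
  funext x
  simp only [pr, h _ (hm_mem D _)]

lemma pr_add {D : ℕ} {F G : E m → ℝ} (hF : C0 F) (hG : C0 G) :
    pr D (fun x => F x + G x) = fun x => pr D F x + pr D G x := funext fun x => by
  simp only [pr, ip_add hF hG (c0 (hm_mem D _)), add_mul, Finset.sum_add_distrib]

lemma pr_smul {D : ℕ} (c : ℝ) (F : E m → ℝ) :
    pr D (fun x => c * F x) = fun x => c * pr D F x := funext fun x => by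
  simp only [pr, ip_smul, Finset.mul_sum, mul_assoc]

/-- Pythagoras -/
lemma pyth {D : ℕ} {G : E m → ℝ} (hG : C0 G) : ip G G = ip (pr D G) (pr D G) +
    ip (fun x => G x - pr D G x) (fun x => G x - pr D G x) := by
  have hp := c0 (pr_mem D G)
  rw [ip_sub' hG hp (hG.sub hp), ip_res hG (pr_mem D G), ip_sub hG hp hG, ip_pr hG (pr_mem D G),
    ip_comm G (pr D G)]
  ring

lemma pr_le {D : ℕ} {G : E m → ℝ} (hG : C0 G) : ip (pr D G) (pr D G) ≤ ip G G := by
  rw [pyth (D := D) hG]; linarith [ip_self_nonneg fun x => G x - pr D G x]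

lemma res_le {D : ℕ} {G : E m → ℝ} (hG : C0 G) :
    ip (fun x => G x - pr D G x) (fun x => G x - pr D G x) ≤ ip G G := by
  rw [pyth (D := D) hG]; linarith [ip_self_nonneg (pr D G)]

/-- **(P1)** -/
theorem pd_pr (D : ℕ) {G : E m → ℝ} (hG : C1 G) (j : Fin m) :
    pd j (pr (D + 1) G) = pr D (pd j G) := by
  refine (pr_unique (c0_pd hG j) (pd_mem (pr_mem _ G) j) fun r hr => ?_).symm
  rw [← ip_adj (c1 (pr_mem _ G)) (c1 hr), ← ip_adj hG (c1 hr)]
  exact ip_pr (c0_of hG) (sub_mem' (mulX_mem j hr) (le_succ D (pd_mem_self hr j)))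

/-- the Dirichlet energy -/
def en (f : E m → ℝ) : ℝ := ∑ j, ip (pd j f) (pd j f)

lemma en_nonneg (f : E m → ℝ) : 0 ≤ en f := Finset.sum_nonneg fun _ _ => ip_self_nonneg _

lemma split {D : ℕ} {q : E m → ℝ} (hq : q ∈ Pl m (D + 1)) :
    en q = en (pr D q) + D * ip (fun x => q x - pr D q x) (fun x => q x - pr D q x) := by
  have hp := pr_mem D q
  set h : E m → ℝ := fun x => q x - pr D q x with hh
  have hm' : h ∈ Pl m (D + 1) := sub_mem' hq (le_succ D hp)
  have o : ∀ r ∈ Pl m D, ip h r = 0 := fun r hr => ip_res (c0 hq) hr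
  have e1 : en h = D * ip h h := by
    have := o _ (N0_sub hm')
    rw [ip_sub' (c0 (N0_mem hm')) ((c0_const _).mul (c0 hm')) (c0 hm'), ip_smul',
      ip_N0 (c1 hm') hm'] at this
    exact sub_eq_zero.1 this
  have e2 : ∑ j, ip (pd j h) (pd j (pr D q)) = 0 := by
    rw [← ip_N0 (c1 hm') hp]; exact o _ (N0_mem hp)
  have e3 : ∀ j, pd j q = fun x => pd j h x + pd j (pr D q) x := fun j => by
    funext x
    rw [← (c1 hm').pd_add (c1 hp)]
    congr 1; funext y; simp [hh]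
  have e4 : ∀ j, ip (pd j q) (pd j q) = ip (pd j h) (pd j h) + 2 * ip (pd j h) (pd j (pr D q)) +
      ip (pd j (pr D q)) (pd j (pr D q)) := fun j => by
    have a := c0_pd (c1 hm') j
    have b := c0_pd (c1 hp) j
    rw [e3 j, ip_add a b (a.add b), ip_add' a b a, ip_add' a b b, ip_comm (pd j (pr D q)) (pd j h)]
    ring
  rw [← e1]
  simp only [en, e4, Finset.sum_add_distrib, ← Finset.mul_sum, e2]
  ring

/-- **(P3)** -/
theorem en_le : ∀ {D : ℕ} {q : E m → ℝ}, q ∈ Pl m (D + 1) → en q ≤ D * ip q q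
  | 0, q, hq => by
    have : ∀ j, pd j q = 0 := fun j => mem_zero.1 (pd_mem hq j)
    simp [en, this, ip]
  | D + 1, q, hq => by
    have h1 := en_le (pr_mem (D + 1) q)
    have h2 := ip_self_nonneg (pr (D + 1) q)
    rw [split hq, pyth (D := D + 1) (c0 hq)]
    push_cast
    linarith

/-- **(P2)** for polynomials -/
theorem le_en_poly (D : ℕ) : ∀ {D' : ℕ} {q : E m → ℝ}, q ∈ Pl m D' → (∀ r ∈ Pl m D, ip q r = 0) →
    D * ip q q ≤ en q
  | 0, q, hq, _ => by rw [mem_zero.1 hq]; simpa [ip] using en_nonneg (0 : E m → ℝ)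
  | D' + 1, q, hq, ho => by
    rcases le_or_gt D D' with h | h
    · have h1 := le_en_poly D (pr_mem D' q) fun r hr => by
        rw [ip_pr (c0 hq) (mono h hr)]; exact ho r hr
      have h2 := ip_self_nonneg fun x => q x - pr D' q x
      have h3 : (D : ℝ) ≤ D' := by exact_mod_cast h
      rw [split hq, pyth (D := D') (c0 hq)]
      nlinarith
    · rw [ho q (mono h hq), mul_zero]; exact en_nonneg q

end Crest.Agent.T157.Hm
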