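import Crest.Agent.T157.HmA_3

/-!
# Row 157, block B/S4b (helper3): Gaussian polynomial calculus, part B (density, (P2))
-/

set_option autoImplicit false
set_option linter.all false

noncomputable section

namespace Crest.Agent.T157.Hm

open MeasureTheory ProbabilityTheory Real Set Filter Topology
open Crest.Agent.R238.Gap Crest.Agent.R238.GapPc Crest.Agent.R238.GapPoinc Crest.Agent.R253.Meh74
open Crest.Agent.T157.Tw
open scoped ENNReal

variable {m : ℕ}

lemma inner_pow_mem (t : E m) : ∀ k : ℕ, (fun x : E m => (inner ℝ x t) ^ k) ∈ Pl m (k + 1)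
  | 0 => by simpa using const_mem (m := m) 0 1
  | k + 1 => by
    have := lin_mul_mem (fun j => t j) (inner_pow_mem t k)
    convert this using 2 with x
    rw [pow_succ', PiLp.inner_apply]
    simp [mul_comm]

lemma int_exp (t : E m) (c : ℝ) : Integrable (fun x : E m => exp (c * inner ℝ x t)) (gam m) := by
  have h := IsGaussian.map_eq_gaussianReal (μ := gam m) (innerSL ℝ t)
  have h1 := integrable_exp_mul_gaussianReal (μ := (gam m)[innerSL ℝ t])
    (v := (Var[innerSL ℝ t; gam m]).toNNReal) c
  rw [← h] at h1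
  have h2 := (integrable_map_measure h1.aestronglyMeasurable
    (innerSL ℝ t).continuous.measurable.aemeasurable).1 h1
  refine h2.congr (ae_of_all _ fun x => ?_)
  simp [real_inner_comm]

lemma memLp_exp (t : E m) : MemLp (fun x : E m => exp |inner ℝ x t|) 2 (gam m) := by
  have hc : Continuous fun x : E m => exp |inner ℝ x t| := by fun_prop
  rw [memLp_two_iff_integrable_sq hc.aestronglyMeasurable]
  refine ((int_exp t 2).add (int_exp t (-2))).mono' (hc.pow 2).aestronglyMeasurable
    (ae_of_all _ fun x => ?_)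
  rw [Real.norm_eq_abs, abs_of_nonneg (sq_nonneg _), ← exp_nat_mul]
  have h1 := exp_pos (2 * inner ℝ x t)
  have h2 := exp_pos (-2 * inner ℝ x t)
  simp only [Pi.add_apply]
  rcases abs_cases (inner ℝ x t) with h | h
  · rw [h.1]; push_cast; linarith
  · rw [h.1]; push_cast; rw [mul_neg, ← neg_mul]; linarith

lemma C0.memLp {f : E m → ℝ} (hf : C0 f) : MemLp f 2 (gam m) :=
  (memLp_two_iff_integrable_sq hf.c.aestronglyMeasurable).2
    (by simpa only [sq] using (hf.mul hf).int)

lemma fourier_zero {u : E m → ℝ} (hu : MemLp u 2 (gam m))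
    (h : ∀ D, ∀ p ∈ Pl m D, ∫ x, u x * p x ∂gam m = 0) (t : E m) :
    ∫ x, (u x : ℂ) * Complex.exp (inner ℝ x t * Complex.I) ∂gam m = 0 := by
  set F : ℕ → E m → ℂ := fun N x => ∑ k ∈ Finset.range N,
    (Complex.I ^ k / k.factorial) * ((u x * (inner ℝ x t) ^ k : ℝ) : ℂ) with hF
  have hi : ∀ k : ℕ, Integrable (fun x => u x * (inner ℝ x t) ^ k) (gam m) := fun k =>
    hu.integrable_mul (c0 (inner_pow_mem t k)).memLp
  have hi' : ∀ k : ℕ, Integrable (fun x => (Complex.I ^ k / k.factorial) *
      ((u x * (inner ℝ x t) ^ k : ℝ) : ℂ)) (gam m) := fun k => (hi k).ofReal.const_mul _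
  have h0 : ∀ N, ∫ x, F N x ∂gam m = 0 := fun N => by
    simp only [hF]
    rw [integral_finsetSum _ fun k _ => hi' k]
    refine Finset.sum_eq_zero fun k _ => ?_
    rw [integral_const_mul, integral_complex_ofReal, h _ _ (inner_pow_mem t k)]
    simp
  have hb : Integrable (fun x => |u x| * exp |inner ℝ x t|) (gam m) :=
    hu.abs.integrable_mul (memLp_exp t)
  have hlim := tendsto_integral_of_dominated_convergence (F := F)
    (f := fun x => (u x : ℂ) * Complex.exp (inner ℝ x t * Complex.I)) _
    (fun N => (integrable_finsetSum _ fun k _ => hi' k).aestronglyMeasurable) hb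
    (fun N => ae_of_all _ fun x => by
      refine (norm_sum_le _ _).trans ?_
      have e : ∀ k : ℕ, ‖(Complex.I ^ k / k.factorial) * ((u x * (inner ℝ x t) ^ k : ℝ) : ℂ)‖ =
          |u x| * (|inner ℝ x t| ^ k / k.factorial) := fun k => by
        rw [norm_mul, norm_div, norm_pow, Complex.norm_I, one_pow, Complex.norm_real,
          Complex.norm_natCast, Real.norm_eq_abs, abs_mul, abs_pow]
        ring
      simp only [e, ← Finset.mul_sum]
      exact mul_le_mul_of_nonneg_left (Real.sum_le_exp_of_nonneg (abs_nonneg _) N) (abs_nonneg _))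
    (ae_of_all _ fun x => by
      have hs := ((NormedSpace.expSeries_div_hasSum_exp
        ((inner ℝ x t : ℝ) * Complex.I)).mul_left (u x : ℂ)).tendsto_sum_nat
      rw [← Complex.exp_eq_exp_ℂ] at hs
      refine hs.congr fun N => Finset.sum_congr rfl fun k _ => ?_
      push_cast
      rw [mul_pow]; ring)
  simp only [h0] at hlim
  exact (tendsto_nhds_unique hlim tendsto_const_nhds)

/-- polynomials are total in Gaussian `L²` -/
theorem ae_zero_of_orth {u : E m → ℝ} (hu : MemLp u 2 (gam m))
    (h : ∀ D, ∀ p ∈ Pl m D, ∫ x, u x * p x ∂gam m = 0) : u =ᵐ[gam m] 0 := by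
  have hi : Integrable u (gam m) := hu.integrable one_le_two
  have hm := hi.aestronglyMeasurable.aemeasurable
  have hm' : AEMeasurable (fun x => -u x) (gam m) := hm.neg
  have f1 : ∫⁻ x, ENNReal.ofReal (u x) ∂gam m ≠ ∞ := hi.lintegral_lt_top.ne
  have f2 : ∫⁻ x, ENNReal.ofReal (-u x) ∂gam m ≠ ∞ := hi.neg.lintegral_lt_top.ne
  haveI := isFiniteMeasure_withDensity f1
  haveI := isFiniteMeasure_withDensity f2
  have hb : ∀ t : E m, ∀ {v : E m → ℝ}, Integrable v (gam m) →
      Integrable (fun x => v x • Complex.exp (inner ℝ x t * Complex.I)) (gam m) := by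
    intro t v hv
    refine hv.norm.mono' (hv.aestronglyMeasurable.smul
      (by fun_prop : Continuous fun x : E m =>
        Complex.exp (inner ℝ x t * Complex.I)).aestronglyMeasurable) (ae_of_all _ fun x => ?_)
    rw [norm_smul, Complex.norm_exp_ofReal_mul_I, mul_one]
  have key : (gam m).withDensity (fun x => ENNReal.ofReal (u x)) =
      (gam m).withDensity (fun x => ENNReal.ofReal (-u x)) := by
    refine Measure.ext_of_charFun (funext fun t => ?_)
    rw [charFun_apply, charFun_apply,
      integral_withDensity_eq_integral_toReal_smul₀ hm.ennreal_ofReal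
        (ae_of_all _ fun _ => ENNReal.ofReal_lt_top),
      integral_withDensity_eq_integral_toReal_smul₀ hm'.ennreal_ofReal
        (ae_of_all _ fun _ => ENNReal.ofReal_lt_top), ← sub_eq_zero]
    simp only [ENNReal.toReal_ofReal', Pi.neg_apply]
    rw [← integral_sub (hb t (v := fun x => max (u x) 0) hi.pos_part)
      (hb t (v := fun x => max (-u x) 0) hi.neg_part), ← fourier_zero hu h t]
    refine integral_congr_ae (ae_of_all _ fun x => ?_)
    simp only [Complex.real_smul]
    rw [← sub_mul, ← Complex.ofReal_sub, max_zero_sub_max_neg_zero_eq_self]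
  have h2 := (withDensity_eq_iff hm.ennreal_ofReal hm'.ennreal_ofReal f1).1 key
  filter_upwards [h2] with x hx
  show u x = 0
  rcases le_total 0 (u x) with h0 | h0
  · rw [ENNReal.ofReal_of_nonpos (show -u x ≤ 0 by linarith), ENNReal.ofReal_eq_zero] at hx
    exact le_antisymm hx h0
  · rw [ENNReal.ofReal_of_nonpos h0, eq_comm, ENNReal.ofReal_eq_zero] at hx
    exact le_antisymm h0 (by linarith)

/-- testing against polynomials controls the norm -/
theorem ip_le_of_test {f : E m → ℝ} (hf : C0 f) {c : ℝ} (hc : 0 ≤ c)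
    (h : ∀ D, ∀ p ∈ Pl m D, ip f p ^ 2 ≤ c * ip p p) : ip f f ≤ c := by
  let S : Submodule ℝ (Lp ℝ 2 (gam m)) :=
    { carrier := {u | ∃ D, ∃ p ∈ Pl m D, (u : E m → ℝ) =ᵐ[gam m] p}
      add_mem' := by
        rintro u v ⟨D, p, hp, hu⟩ ⟨D', q, hq, hv⟩
        exact ⟨max D D', p + q, add_mem (mono (le_max_left _ _) hp) (mono (le_max_right _ _) hq),
          (Lp.coeFn_add u v).trans (hu.add hv)⟩
      zero_mem' := ⟨0, 0, zero_mem _, Lp.coeFn_zero _ _ _⟩
      smul_mem' := by
        rintro a u ⟨D, p, hp, hu⟩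
        exact ⟨D, a • p, Submodule.smul_mem _ a hp, (Lp.coeFn_smul a u).trans (hu.const_smul a)⟩ }
  have hin : ∀ (u v : Lp ℝ 2 (gam m)) (p q : E m → ℝ), (u : E m → ℝ) =ᵐ[gam m] p →
      (v : E m → ℝ) =ᵐ[gam m] q → inner ℝ u v = ip p q := by
    intro u v p q hu hv
    rw [L2.inner_def]
    refine integral_congr_ae ?_
    filter_upwards [hu, hv] with x h1 h2
    simp [h1, h2, mul_comm]
  have hS : S.topologicalClosure = ⊤ := by
    rw [Submodule.topologicalClosure_eq_top_iff, Submodule.eq_bot_iff]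
    intro u hu
    rw [Lp.eq_zero_iff_ae_eq_zero]
    refine ae_zero_of_orth (Lp.memLp u) fun D p hp => ?_
    have h1 := (Submodule.mem_orthogonal' S u).1 hu ((c0 hp).memLp.toLp p)
      ⟨D, p, hp, MemLp.coeFn_toLp _⟩
    rwa [hin u _ u p (ae_eq_refl _) (MemLp.coeFn_toLp _)] at h1
  set F := hf.memLp.toLp f with hF
  have hFf : (F : E m → ℝ) =ᵐ[gam m] f := MemLp.coeFn_toLp _
  have hcl : IsClosed {u : Lp ℝ 2 (gam m) | inner ℝ F u ^ 2 ≤ c * inner ℝ u u} :=
    isClosed_le (by fun_prop) (by fun_prop)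
  have hsub : (S : Set (Lp ℝ 2 (gam m))) ⊆ {u | inner ℝ F u ^ 2 ≤ c * inner ℝ u u} := by
    rintro u ⟨D, p, hp, hu⟩
    rw [mem_setOf_eq, hin F u f p hFf hu, hin u u p p hu hu]
    exact h D p hp
  have hFm : F ∈ S.topologicalClosure := by rw [hS]; trivial
  have h3 := closure_minimal hsub hcl hFm
  rw [mem_setOf_eq, hin F F f f hFf hFf] at h3
  by_contra hcon
  push Not at hcon
  nlinarith

/-- **(P2)**, orthogonality form -/
theorem le_en (D : ℕ) {f : E m → ℝ} (hf : C1 f) (ho : ∀ r ∈ Pl m D, ip f r = 0) :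
    D * ip f f ≤ en f := by
  rcases Nat.eq_zero_or_pos D with rfl | hD
  · simpa using en_nonneg f
  have hD' : (0 : ℝ) < D := by exact_mod_cast hD
  rw [mul_comm, ← le_div_iff₀ hD']
  refine ip_le_of_test (c0_of hf) (div_nonneg (en_nonneg f) hD'.le) fun D' p hp => ?_
  set K := max D D' with hK
  have hp' : p ∈ Pl m (K + 1) := mono ((le_max_right _ _).trans (Nat.le_succ _)) hp
  have h1 := le_en_poly D (pr_mem (K + 1) f) fun r hr => by
    rw [ip_pr (c0_of hf) (mono ((le_max_left _ _).trans (Nat.le_succ _)) hr)]; exact ho r hr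
  have h2 : en (pr (K + 1) f) ≤ en f := Finset.sum_le_sum fun j _ => by
    rw [pd_pr K hf j]; exact pr_le (c0_pd hf j)
  rw [← ip_pr (c0_of hf) hp']
  refine (ip_sq_le (c0 (pr_mem _ f)) (c0 hp)).trans
    (mul_le_mul_of_nonneg_right ?_ (ip_self_nonneg p))
  rw [le_div_iff₀ hD']; linarith

lemma c1_res (D : ℕ) {G : E m → ℝ} (hG : C1 G) : C1 fun x => G x - pr D G x :=
  hG.sub (c1 (pr_mem D G))

lemma pd_sub {f g : E m → ℝ} (hf : C1 f) (hg : C1 g) (j : Fin m) :
    pd j (fun x => f x - g x) = fun x => pd j f x - pd j g x := by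
  funext x
  have h := (hf.sub hg).pd_add hg j x
  simp only [sub_add_cancel] at h
  linarith

/-- the derivative of the residual is the residual of the derivative -/
lemma pd_res (D : ℕ) {G : E m → ℝ} (hG : C1 G) (j : Fin m) :
    pd j (fun x => G x - pr (D + 1) G x) = fun x => pd j G x - pr D (pd j G) x := by
  rw [pd_sub hG (c1 (pr_mem _ G)), pd_pr D hG]

/-- **(P2)** -/
theorem res_le_en (D : ℕ) {G : E m → ℝ} (hG : C1 G) :
    D * ip (fun x => G x - pr D G x) (fun x => G x - pr D G x) ≤ en G := by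
  cases D with
  | zero => simpa using en_nonneg G
  | succ D =>
    refine (le_en (D + 1) (c1_res _ hG) fun r hr => ip_res (c0_of hG) hr).trans
      (Finset.sum_le_sum fun j _ => ?_)
    rw [pd_res D hG j]; exact res_le (c0_pd hG j)

/-! ### dictionary with `MvPolynomial` -/

lemma monomial_mem : ∀ (k : ℕ) (α : Fin m →₀ ℕ), (α.sum fun _ e => e) = k →
    (fun x : E m => α.prod fun i e => x i ^ e) ∈ Pl m (k + 1) := by
  intro k α
  induction α using Finsupp.induction_linear generalizing k with
  | zero => rintro rfl; simpa using const_mem (m := m) 0 1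
  | add a b ha hb =>
    rintro rfl
    have := mul_mem (ha _ rfl) (hb _ rfl)
    rw [Finsupp.sum_add_index' (fun _ => rfl) (fun _ _ _ => rfl), add_assoc]
    convert this using 2 with x
    rw [Finsupp.prod_add_index' (fun _ => pow_zero _) (fun _ _ _ => pow_add _ _ _)]
  | single i e =>
    rintro rfl
    simp only [Finsupp.sum_single_index, Finsupp.prod_single_index, pow_zero]
    induction e with
    | zero => simpa using const_mem (m := m) 0 1
    | succ e ih => simpa only [pow_succ'] using mulX_mem i ih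

lemma eval_mem {D : ℕ} (p : MvPolynomial (Fin m) ℝ) (hp : p.totalDegree < D) :
    (fun x : E m => MvPolynomial.eval (fun i => x i) p) ∈ Pl m D := by
  have e : (fun x : E m => MvPolynomial.eval (fun i => x i) p) =
      fun x => ∑ α ∈ p.support, p.coeff α * α.prod fun i e => x i ^ e :=
    funext fun x => MvPolynomial.eval_eq _ _
  rw [e]
  exact sum_mem' _ fun α hα => smul_mem' _
    (mono ((Nat.succ_le_succ (MvPolynomial.le_totalDegree hα)).trans hp) (monomial_mem _ α rfl))

lemma exists_eval : ∀ {D : ℕ} {f : E m → ℝ}, f ∈ Pl m D → ∃ p : MvPolynomial (Fin m) ℝ,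
    p.totalDegree ≤ D - 1 ∧ ∀ x, f x = MvPolynomial.eval (fun i => x i) p
  | 0, f, h => ⟨0, by simp, fun x => by simp [mem_zero.1 h]⟩
  | D + 1, _, ⟨c, r, hr, rfl⟩ => by
    cases D with
    | zero => exact ⟨MvPolynomial.C c, by simp, fun x => by simp [fun j => mem_zero.1 (hr j)]⟩
    | succ D =>
      choose p hp hp' using fun j => exists_eval (hr j)
      refine ⟨MvPolynomial.C c + ∑ j, MvPolynomial.X j * p j, ?_, fun x => by simp [hp']⟩
      refine (MvPolynomial.totalDegree_add _ _).trans (max_le (by simp) ?_)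
      refine MvPolynomial.totalDegree_finsetSum_le fun j _ => ?_
      refine (MvPolynomial.totalDegree_mul _ _).trans ?_
      have := hp j
      rw [MvPolynomial.totalDegree_X]
      omega

end Crest.Agent.T157.Hm
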