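import Crest.Agent.T157.HmB_3
import Crest.Agent.T157.TwLin_84

/-!
# Row 157, block B/S4b (helper3): polynomial calculus over a bath (pairs of functions), (P1)–(P4)
-/

set_option autoImplicit false
set_option linter.all false

noncomputable section

namespace Crest.Agent.T157.Hm

open MeasureTheory ProbabilityTheory Real Set Filter Topology Matrix
open Crest.Agent.R238.Gap Crest.Agent.R238.GapPc Crest.Agent.R238.GapPoinc Crest.Agent.R253.Meh74
open Crest.Agent.T157.Tw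

variable {m : ℕ}

/-- pairs of functions -/
abbrev Fn (m : ℕ) : Type := Bool → E m → ℝ

/-- pairs of polynomials of degree `< D` -/
def PQ (D : ℕ) (F : Fn m) : Prop := ∀ s, F s ∈ Pl m D
/-- partial derivative of a pair -/
def dd (j : Fin m) (F : Fn m) : Fn m := fun s => pd j (F s)

lemma cp0 {F : Fn m} (h : F ∈ CP m) (s : Bool) : C0 (F s) := ⟨(h s).1, (h s).2⟩
lemma cp_of0 {F : Fn m} (h : ∀ s, C0 (F s)) : F ∈ CP m := fun s => ⟨(h s).c, (h s).g⟩
lemma cv_cp {F : Fn m} (h : F ∈ CV m) : F ∈ CP m := cp_of0 fun s => c0_of (h s)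
lemma dd_cp {F : Fn m} (h : F ∈ CV m) (j : Fin m) : dd j F ∈ CP m := cp_of0 fun s => c0_pd (h s) j
lemma PQ.cv {D : ℕ} {F : Fn m} (h : PQ D F) : F ∈ CV m := fun s => c1 (h s)
lemma PQ.cp {D : ℕ} {F : Fn m} (h : PQ D F) : F ∈ CP m := cv_cp h.cv
lemma PQ.dd {D : ℕ} {F : Fn m} (h : PQ (D + 1) F) (j : Fin m) : PQ D (dd j F) :=
  fun s => pd_mem (h s) j
lemma PQ.dd' {D : ℕ} {F : Fn m} (h : PQ D F) (j : Fin m) : PQ D (Hm.dd j F) :=
  fun s => pd_mem_self (h s) j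
lemma PQ.mono {D D' : ℕ} {F : Fn m} (h : PQ D F) (hD : D ≤ D') : PQ D' F :=
  fun s => Hm.mono hD (h s)
lemma pq_spin (D : ℕ) (φ : Bool → ℝ) : PQ (D + 1) (fun s (_ : E m) => φ s) :=
  fun s => const_mem D (φ s)

lemma cp_add {F G : Fn m} (hF : F ∈ CP m) (hG : G ∈ CP m) :
    (fun s X => F s X + G s X) ∈ CP m := add_mem hF hG
lemma cp_sub {F G : Fn m} (hF : F ∈ CP m) (hG : G ∈ CP m) :
    (fun s X => F s X - G s X) ∈ CP m := sub_mem hF hG
lemma cp_mul' {F G : Fn m} (hF : F ∈ CP m) (hG : G ∈ CP m) :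
    (fun s X => F s X * G s X) ∈ CP m := cp_mul hF hG
lemma cp_smul (c : ℝ) {F : Fn m} (hF : F ∈ CP m) : (fun s X => c * F s X) ∈ CP m :=
  Submodule.smul_mem _ c hF
lemma cp_sum {ι : Type*} (S : Finset ι) {F : ι → Fn m} (hF : ∀ i ∈ S, F i ∈ CP m) :
    (fun s X => ∑ i ∈ S, F i s X) ∈ CP m := cp_of0 fun s => C0.sum S fun i hi => cp0 (hF i hi) s
lemma cp_spin (φ : Bool → ℝ) : (fun s (_ : E m) => φ s) ∈ CP m := cp_of0 fun s => c0_const _

/-- the submodule of pairs of polynomials of degree `< D` -/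
def PD (m D : ℕ) : Submodule ℝ (CV m) where
  carrier := {F | PQ D F.1}
  add_mem' hF hG s := add_mem (hF s) (hG s)
  zero_mem' _ := zero_mem _
  smul_mem' c _ hF s := Submodule.smul_mem _ c (hF s)

instance (m D : ℕ) : Module.Finite ℝ (PD m D) := by
  let L : (Bool → Pl m D) →ₗ[ℝ] PD m D :=
    { toFun := fun p => ⟨⟨fun s => (p s).1, fun s => c1 (p s).2⟩, fun s => (p s).2⟩
      map_add' := fun _ _ => rfl
      map_smul' := fun _ _ => rfl }
  exact Module.Finite.of_surjective L fun F => ⟨fun s => ⟨F.1.1 s, F.2 s⟩, rfl⟩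

section bath

variable (b : Bath) (ξ : ℝ)

/-- the function in the Gaussian variable `Z = X - s g` -/
def zs (s : Bool) (f : E b.m → ℝ) : E b.m → ℝ := fun z => f (z + sg s • b.v)

/-- `L²` scalar product of the impurity -/
def iq (F G : Fn b.m) : ℝ := ex b ξ fun s X => F s X * G s X

lemma iq_eq (F G : Fn b.m) : iq b ξ F G = ∑ s, hb ξ s * ip (zs b s (F s)) (zs b s (G s)) := rfl

variable {b}

lemma c0_zs {f : E b.m → ℝ} (h : C0 f) (s : Bool) : C0 (zs b s f) := h.shift _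
lemma c1_zs {f : E b.m → ℝ} (h : C1 f) (s : Bool) : C1 (zs b s f) := O42.c1_shift h _
lemma pd_zs (s : Bool) (f : E b.m → ℝ) (j : Fin b.m) : pd j (zs b s f) = zs b s (pd j f) := by
  funext z; simp only [zs, pd]; exact congrArg (fun L : E b.m →L[ℝ] ℝ => L (e j))
    (fderiv_comp_add_right (𝕜 := ℝ) (f := f) (x := z) _)
lemma zs_mem {D : ℕ} {f : E b.m → ℝ} (h : f ∈ Pl b.m D) (s : Bool) : zs b s f ∈ Pl b.m D :=
  shift_mem h _

lemma ex_congr {F G : Fn b.m} (h : ∀ s X, F s X = G s X) : ex b ξ F = ex b ξ G := by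
  rw [show F = G from funext fun s => funext (h s)]
lemma ex_add' {F G : Fn b.m} (hF : F ∈ CP b.m) (hG : G ∈ CP b.m) :
    ex b ξ (fun s X => F s X + G s X) = ex b ξ F + ex b ξ G := ex_add b ξ hF hG
lemma ex_sub' {F G : Fn b.m} (hF : F ∈ CP b.m) (hG : G ∈ CP b.m) :
    ex b ξ (fun s X => F s X - G s X) = ex b ξ F - ex b ξ G := O42.ex_sub b ξ hF hG
lemma ex_smul' (c : ℝ) (F : Fn b.m) : ex b ξ (fun s X => c * F s X) = c * ex b ξ F :=
  ex_smul b ξ c F
lemma ex_sum' {ι : Type*} (S : Finset ι) {F : ι → Fn b.m} (hF : ∀ i ∈ S, F i ∈ CP b.m) :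
    ex b ξ (fun s X => ∑ i ∈ S, F i s X) = ∑ i ∈ S, ex b ξ (F i) := by
  classical
  induction S using Finset.induction_on with
  | empty => simpa using O42.ex_const b ξ 0
  | insert i S hi ih =>
    simp only [Finset.sum_insert hi]
    rw [ex_add' ξ (hF i (by simp)) (cp_sum S fun j hj => hF j (by simp [hj])),
      ih fun j hj => hF j (by simp [hj])]
lemma ex_le {F G : Fn b.m} (hF : F ∈ CP b.m) (hG : G ∈ CP b.m) (h : ∀ s X, F s X ≤ G s X) :
    ex b ξ F ≤ ex b ξ G := by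
  rw [← sub_nonneg, ← ex_sub' ξ hG hF]
  exact O42.ex_nonneg b ξ fun s X => sub_nonneg.2 (h s X)
lemma ex_le_cond {F G : Fn b.m} (hF : F ∈ CP b.m) (hG : G ∈ CP b.m)
    (h : ∀ X, ∑ s, hb (fld b ξ X) s * F s X ≤ ∑ s, hb (fld b ξ X) s * G s X) :
    ex b ξ F ≤ ex b ξ G := by
  rw [← sub_nonneg, ← ex_sub' ξ hG hF]
  refine O42.ex_nonneg_cond b ξ (cp_sub hG hF) fun X => ?_
  simpa only [mul_sub, Finset.sum_sub_distrib, sub_nonneg] using h X
lemma ex_eq_cond {F G : Fn b.m} (hF : F ∈ CP b.m) (hG : G ∈ CP b.m)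
    (h : ∀ X, ∑ s, hb (fld b ξ X) s * F s X = ∑ s, hb (fld b ξ X) s * G s X) :
    ex b ξ F = ex b ξ G :=
  le_antisymm (ex_le_cond ξ hF hG fun X => (h X).le) (ex_le_cond ξ hG hF fun X => (h X).ge)

lemma iq_comm (F G : Fn b.m) : iq b ξ F G = iq b ξ G F := ex_congr ξ fun _ _ => mul_comm _ _
lemma iq_nonneg (F : Fn b.m) : 0 ≤ iq b ξ F F := O42.ex_nonneg b ξ fun _ _ => mul_self_nonneg _
lemma iq_add {F G H : Fn b.m} (hF : F ∈ CP b.m) (hG : G ∈ CP b.m) (hH : H ∈ CP b.m) :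
    iq b ξ (fun s X => F s X + G s X) H = iq b ξ F H + iq b ξ G H := by
  simp only [iq, add_mul]; exact ex_add' ξ (cp_mul' hF hH) (cp_mul' hG hH)
lemma iq_sub {F G H : Fn b.m} (hF : F ∈ CP b.m) (hG : G ∈ CP b.m) (hH : H ∈ CP b.m) :
    iq b ξ (fun s X => F s X - G s X) H = iq b ξ F H - iq b ξ G H := by
  simp only [iq, sub_mul]; exact ex_sub' ξ (cp_mul' hF hH) (cp_mul' hG hH)
lemma iq_smul (c : ℝ) (F H : Fn b.m) : iq b ξ (fun s X => c * F s X) H = c * iq b ξ F H := by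
  simp only [iq, mul_assoc]; exact ex_smul' ξ c _
lemma iq_sum {ι : Type*} (S : Finset ι) {F : ι → Fn b.m} {H : Fn b.m}
    (hF : ∀ i ∈ S, F i ∈ CP b.m) (hH : H ∈ CP b.m) :
    iq b ξ (fun s X => ∑ i ∈ S, F i s X) H = ∑ i ∈ S, iq b ξ (F i) H := by
  simp only [iq, Finset.sum_mul]; exact ex_sum' ξ S fun i hi => cp_mul' (hF i hi) hH
lemma iq_add' {F G H : Fn b.m} (hF : F ∈ CP b.m) (hG : G ∈ CP b.m) (hH : H ∈ CP b.m) :
    iq b ξ H (fun s X => F s X + G s X) = iq b ξ H F + iq b ξ H G := by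
  rw [iq_comm, iq_add ξ hF hG hH, iq_comm ξ F, iq_comm ξ G]
lemma iq_sub' {F G H : Fn b.m} (hF : F ∈ CP b.m) (hG : G ∈ CP b.m) (hH : H ∈ CP b.m) :
    iq b ξ H (fun s X => F s X - G s X) = iq b ξ H F - iq b ξ H G := by
  rw [iq_comm, iq_sub ξ hF hG hH, iq_comm ξ F, iq_comm ξ G]
lemma iq_smul' (c : ℝ) (F H : Fn b.m) : iq b ξ H (fun s X => c * F s X) = c * iq b ξ H F := by
  rw [iq_comm, iq_smul, iq_comm]
lemma iq_sum' {ι : Type*} (S : Finset ι) {F : ι → Fn b.m} {H : Fn b.m}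
    (hF : ∀ i ∈ S, F i ∈ CP b.m) (hH : H ∈ CP b.m) :
    iq b ξ H (fun s X => ∑ i ∈ S, F i s X) = ∑ i ∈ S, iq b ξ H (F i) := by
  rw [iq_comm, iq_sum ξ S hF hH]; simp only [iq_comm ξ H]
lemma iq_one (F : Fn b.m) : iq b ξ F (fun _ _ => 1) = ex b ξ F := ex_congr ξ fun _ _ => mul_one _

lemma iq_sq_le {F G : Fn b.m} (hF : F ∈ CP b.m) (hG : G ∈ CP b.m) :
    iq b ξ F G ^ 2 ≤ iq b ξ F F * iq b ξ G G := by
  have h : ∀ t : ℝ, 0 ≤ iq b ξ F F * (t * t) + 2 * iq b ξ F G * t + iq b ξ G G := fun t => by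
    have h1 := iq_nonneg ξ fun s X => t * F s X + G s X
    have ht := cp_smul t hF
    rw [iq_add ξ ht hG (cp_add ht hG), iq_add' ξ ht hG ht, iq_add' ξ ht hG hG, iq_smul, iq_smul,
      iq_smul', iq_smul', iq_comm ξ G F] at h1
    linarith
  have := discrim_le_zero h
  unfold discrim at this
  nlinarith

lemma N_iq (F G : CV b.m) : (imp b ξ).N F G = iq b ξ F.1 G.1 - ex b ξ F.1 * ex b ξ G.1 := rfl

/-! ### the projection -/

variable (b) in
/-- projection onto pairs of polynomials of degree `< D`; it does not depend on `ξ` -/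
def prP (D : ℕ) (G : Fn b.m) : Fn b.m := fun s X => pr D (zs b s (G s)) (X + -(sg s • b.v))

lemma zs_prP (D : ℕ) (G : Fn b.m) (s : Bool) : zs b s (prP b D G s) = pr D (zs b s (G s)) := by
  funext z; simp [zs, prP]

lemma prP_mem (D : ℕ) (G : Fn b.m) : PQ D (prP b D G) := fun s => shift_mem (pr_mem D _) _

lemma prP_of_mem {D : ℕ} {G : Fn b.m} (h : PQ D G) : prP b D G = G := by
  funext s X; simp [prP, pr_of_mem (zs_mem (h s) s), zs]

lemma iq_prP {D : ℕ} {G r : Fn b.m} (hG : G ∈ CP b.m) (hr : PQ D r) :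
    iq b ξ (prP b D G) r = iq b ξ G r := by
  simp only [iq_eq, zs_prP, ip_pr (c0_zs (cp0 hG _) _) (zs_mem (hr _) _)]

/-- **(P1)** -/
theorem dd_prP (D : ℕ) {G : Fn b.m} (hG : G ∈ CV b.m) (j : Fin b.m) :
    dd j (prP b (D + 1) G) = prP b D (dd j G) := by
  funext s X
  have h := congrFun (pd_zs s (prP b (D + 1) G s) j) (X + -(sg s • b.v))
  rw [zs_prP, pd_pr D (c1_zs (hG s) s), pd_zs] at h
  simp only [zs, neg_add_cancel_right] at h
  exact h.symm

variable (b) in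
/-- the residual of the projection -/
def rsP (D : ℕ) (G : Fn b.m) : Fn b.m := fun s X => G s X - prP b D G s X

lemma rsP_cp (D : ℕ) {G : Fn b.m} (hG : G ∈ CP b.m) : rsP b D G ∈ CP b.m :=
  cp_sub hG (prP_mem D G).cp
lemma rsP_cv (D : ℕ) {G : Fn b.m} (hG : G ∈ CV b.m) : rsP b D G ∈ CV b.m :=
  fun s => (hG s).sub ((prP_mem D G).cv s)
lemma zs_rsP (D : ℕ) (G : Fn b.m) (s : Bool) :
    zs b s (rsP b D G s) = fun z => zs b s (G s) z - pr D (zs b s (G s)) z := by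
  rw [← zs_prP]; rfl
lemma iq_rsP {D : ℕ} {G r : Fn b.m} (hG : G ∈ CP b.m) (hr : PQ D r) :
    iq b ξ (rsP b D G) r = 0 := by
  unfold rsP; rw [iq_sub ξ hG (prP_mem D G).cp hr.cp, iq_prP ξ hG hr, sub_self]
lemma dd_rsP (D : ℕ) {G : Fn b.m} (hG : G ∈ CV b.m) (j : Fin b.m) :
    dd j (rsP b (D + 1) G) = rsP b D (dd j G) := by
  funext s
  have := pd_sub (hG s) ((prP_mem (D + 1) G).cv s) j
  refine this.trans (funext fun X => ?_)
  exact congrArg (fun F : Fn b.m => pd j (G s) X - F s X) (dd_prP D hG j)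
lemma rsP_le (D : ℕ) {G : Fn b.m} (hG : G ∈ CP b.m) :
    iq b ξ (rsP b D G) (rsP b D G) ≤ iq b ξ G G := by
  rw [iq_eq, iq_eq]
  refine Finset.sum_le_sum fun s _ => mul_le_mul_of_nonneg_left ?_ (hb_pos _ _).le
  rw [zs_rsP]; exact res_le (c0_zs (cp0 hG s) s)

lemma sum_iq_dd (G : Fn b.m) :
    ∑ j, iq b ξ (dd j G) (dd j G) = ∑ s, hb ξ s * en (zs b s (G s)) := by
  simp only [iq_eq, en, Finset.mul_sum, pd_zs]
  rw [Finset.sum_comm]; rfl

/-- **(P2)** -/
theorem rsP_le_dd (D : ℕ) {G : Fn b.m} (hG : G ∈ CV b.m) :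
    D * iq b ξ (rsP b D G) (rsP b D G) ≤ ∑ j, iq b ξ (dd j G) (dd j G) := by
  rw [sum_iq_dd, iq_eq, Finset.mul_sum]
  refine Finset.sum_le_sum fun s _ => ?_
  rw [mul_left_comm, zs_rsP]
  exact mul_le_mul_of_nonneg_left (res_le_en D (c1_zs (hG s) s)) (hb_pos _ _).le

/-- **(P3)**, with the variance -/
theorem dd_le {D : ℕ} {q : Fn b.m} (hq : PQ (D + 1) q) (c : ℝ) :
    ∑ j, iq b ξ (dd j q) (dd j q) ≤
      D * iq b ξ (fun s X => q s X - c) (fun s X => q s X - c) := by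
  have h : ∀ j, dd j q = dd j (fun s X => q s X - c) := fun j => by
    funext s X
    simp only [dd, pd_sub (hq.cv s) (c1_const c), pd_const, sub_zero]
  simp only [h]
  rw [sum_iq_dd, iq_eq, Finset.mul_sum]
  refine Finset.sum_le_sum fun s _ => ?_
  rw [mul_left_comm]
  exact mul_le_mul_of_nonneg_left (en_le (zs_mem (sub_mem' (hq s) (const_mem D c)) s))
    (hb_pos _ _).le

/-! ### integration by parts -/

variable (b) in
/-- the adjoint of `dd j` -/
def ds (j : Fin b.m) (q : Fn b.m) : Fn b.m :=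
  fun s X => (X j - sg s * b.g j) * q s X - pd j (q s) X

lemma ds_mem {D : ℕ} {q : Fn b.m} (hq : PQ D q) (j : Fin b.m) : PQ (D + 1) (ds b j q) := fun s => by
  have : ds b j q s = fun X => (X j * q s X - sg s * b.g j * q s X) - pd j (q s) X :=
    funext fun X => by simp only [ds]; ring
  rw [this]
  exact sub_mem' (sub_mem' (mulX_mem j (hq s)) (smul_mem' _ (le_succ D (hq s))))
    (le_succ D (pd_mem_self (hq s) j))

lemma ds_cp {q : Fn b.m} (hq : q ∈ CV b.m) (j : Fin b.m) : ds b j q ∈ CP b.m := cp_of0 fun s =>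
  (((c0_of (c1_coord j)).sub (c0_const _)).mul (c0_of (hq s))).sub (c0_pd (hq s) j)

lemma iq_ds {F q : Fn b.m} (hF : F ∈ CV b.m) (hq : q ∈ CV b.m) (j : Fin b.m) :
    iq b ξ F (ds b j q) = iq b ξ (dd j F) q := by
  simp only [iq_eq]
  refine Finset.sum_congr rfl fun s _ => ?_
  have h := ip_adj (c1_zs (hF s) s) (c1_zs (hq s) s) j
  rw [pd_zs, pd_zs] at h
  have e : zs b s (ds b j q s) = fun x => x j * zs b s (q s) x - zs b s (pd j (q s)) x := by
    funext x; simp [zs, ds, Bath.v]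
  rw [e, h]; rfl

lemma ex_ds {q : Fn b.m} (hq : q ∈ CV b.m) (j : Fin b.m) : ex b ξ (ds b j q) = 0 := by
  rw [← iq_one, iq_comm, iq_ds ξ (fun _ => c1_const 1) hq]
  refine (ex_congr ξ fun s X => ?_).trans (O42.ex_const b ξ 0)
  simp [dd, pd_const]

variable (b) in
/-- pointwise-in-`s` bath energy -/
def bt (F G : Fn b.m) : ℝ := ∑ a, ∑ a', b.A a a' * iq b ξ (dd a F) (dd a' G)

variable (b) in
/-- the Ornstein–Uhlenbeck part of minus the generator -/
def NN (F : Fn b.m) : Fn b.m := fun s X => ∑ a, ∑ a', b.A a a' * ds b a (dd a' F) s X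

lemma NN_cp {F : Fn b.m} (hF : ∀ a, dd a F ∈ CV b.m) : NN b F ∈ CP b.m :=
  cp_sum _ fun a _ => cp_sum _ fun a' _ => cp_smul _ (ds_cp (hF a') a)

lemma NN_mem {D : ℕ} {F : Fn b.m} (hF : PQ D F) : PQ D (NN b F) := by
  cases D with
  | zero =>
    intro s
    refine mem_zero.2 (funext fun X => ?_)
    have : ∀ a, dd a F s = fun _ => 0 := fun a => mem_zero.1 (hF.dd' a s)
    simp [NN, ds, this, pd_const]
  | succ D =>
    exact fun s => sum_mem' _ fun a _ => sum_mem' _ fun a' _ => smul_mem' _ (ds_mem (hF.dd a') a s)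

lemma iq_NN {G F : Fn b.m} (hG : G ∈ CV b.m) (hF : ∀ a, dd a F ∈ CV b.m) :
    iq b ξ G (NN b F) = bt b ξ G F := by
  refine (iq_sum' ξ _ (F := fun a s X => ∑ a', b.A a a' * ds b a (dd a' F) s X)
    (fun a _ => cp_sum _ fun a' _ => cp_smul _ (ds_cp (hF a') a)) (cv_cp hG)).trans ?_
  refine Finset.sum_congr rfl fun a _ => ?_
  refine (iq_sum' ξ _ (F := fun a' s X => b.A a a' * ds b a (dd a' F) s X)
    (fun a' _ => cp_smul _ (ds_cp (hF a') a)) (cv_cp hG)).trans ?_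
  refine Finset.sum_congr rfl fun a' _ => ?_
  rw [iq_smul', iq_ds ξ hG (hF a')]

/-! ### the spin part -/

variable (b) in
/-- `F - E[F | X]` -/
def rs (F : Fn b.m) : Fn b.m := fun s X => F s X - ∑ t, hb (fld b ξ X) t * F t X
variable (b) in
/-- `Cov (F, s | X)` -/
def psi (F : Fn b.m) : Fn b.m := fun _ X => sech2 (fld b ξ X) / 2 * (F true X - F false X)
variable (b) in
/-- `E[s | X]` -/
def tt (X : E b.m) : ℝ := hb (fld b ξ X) true - hb (fld b ξ X) false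

lemma En_iq (F G : CV b.m) :
    (imp b ξ).En F G = iq b ξ (rs b ξ F.1) (rs b ξ G.1) + bt b ξ F.1 G.1 := Lin84.En_eq b ξ F G

lemma hasDerivAt_hb (h : ℝ) (t : Bool) : HasDerivAt (fun h => hb h t) (sg t * sech2 h / 2) h := by
  have hc := cosh_pos h
  have h1 : HasDerivAt (fun h => exp (sg t * h)) (exp (sg t * h) * sg t) h := by
    simpa using ((hasDerivAt_id h).const_mul (sg t)).exp
  have h2 := h1.div ((hasDerivAt_cosh h).const_mul 2) (by positivity)
  refine h2.congr_deriv ?_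
  have e1 := cosh_add_sinh h
  have e2 := cosh_sub_sinh h
  have e3 := cosh_sq' h
  unfold sech2
  cases t
  · simp only [sg, Bool.false_eq_true, if_false, neg_mul, one_mul, ← e2]
    field_simp
    nlinarith
  · simp only [sg, if_true, one_mul, ← e1]
    field_simp
    nlinarith

lemma sech2_le (h : ℝ) : sech2 h ≤ 1 := by
  unfold sech2
  have := one_le_cosh h
  rw [div_le_one (by positivity)]; nlinarith
lemma sech2_pos (h : ℝ) : 0 < sech2 h := by
  unfold sech2; have := cosh_pos h; positivity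

lemma hasFDerivAt_fld (X : E b.m) : HasFDerivAt (fld b ξ) (innerSL ℝ b.v) X :=
  ((innerSL ℝ b.v).hasFDerivAt).const_add ξ

lemma pd_hb (t : Bool) (j : Fin b.m) (X : E b.m) :
    pd j (fun X => hb (fld b ξ X) t) X = sg t * sech2 (fld b ξ X) / 2 * b.g j := by
  have h := (hasDerivAt_hb (fld b ξ X) t).comp_hasFDerivAt X (hasFDerivAt_fld ξ X)
  have : pd j (fun X => hb (fld b ξ X) t) X = _ := congrArg (fun L : E b.m →L[ℝ] ℝ => L (e j)) h.fderiv
  rw [this]
  simp [e, Bath.v, EuclideanSpace.inner_single_right]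

lemma contDiff_hb (t : Bool) : ContDiff ℝ 1 fun h => hb h t := by
  unfold hb
  exact ContDiff.div (by fun_prop) (by fun_prop) fun h => by have := cosh_pos h; positivity

lemma c0_hb (t : Bool) : C0 fun X => hb (fld b ξ X) t := cp0 (hb_cp b ξ t) true

lemma c0_sech : C0 fun X => sech2 (fld b ξ X) := by
  simp only [← O42.hb_mul]
  exact (c0_const 4).mul ((c0_hb ξ true).mul (c0_hb ξ false))

lemma c1_hb (t : Bool) : C1 fun X => hb (fld b ξ X) t :=
  ⟨(contDiff_hb t).comp (contDiff_const.add (innerSL ℝ b.v).contDiff), (c0_hb ξ t).g, fun j => by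
    have : pd j (fun X => hb (fld b ξ X) t) = fun X => (sg t * b.g j / 2) * sech2 (fld b ξ X) :=
      funext fun X => by rw [pd_hb]; ring
    rw [this]; exact ((c0_const _).mul (c0_sech ξ)).g⟩

lemma c1_sech : C1 fun X => sech2 (fld b ξ X) := by
  simp only [← O42.hb_mul]
  exact ((c1_hb ξ true).mul (c1_hb ξ false)).smul 4

lemma pd_smul {f : E m → ℝ} (c : ℝ) (hf : C1 f) (j : Fin m) (x : E m) :
    pd j (fun x => c * f x) x = c * pd j f x := by
  rw [(c1_const c).pd_mul hf, pd_const, zero_mul, zero_add]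

lemma pd_sech (j : Fin b.m) (X : E b.m) :
    pd j (fun X => sech2 (fld b ξ X)) X = -2 * tt b ξ X * b.g j * sech2 (fld b ξ X) := by
  have : (fun X => sech2 (fld b ξ X)) =
      fun X => 4 * (hb (fld b ξ X) true * hb (fld b ξ X) false) := by
    simp only [O42.hb_mul]
  rw [this, pd_smul 4 ((c1_hb ξ true).mul (c1_hb ξ false)), (c1_hb ξ true).pd_mul (c1_hb ξ false),
    pd_hb, pd_hb]
  simp only [sg, tt, if_true, Bool.false_eq_true, if_false]
  ring

lemma tt_sq_le (X : E b.m) : tt b ξ X ^ 2 ≤ 1 := by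
  have h1 := hb_sum (fld b ξ X)
  have h2 := hb_pos (fld b ξ X) true
  have h3 := hb_pos (fld b ξ X) false
  unfold tt; nlinarith

lemma c0_tt : C0 (tt b ξ) := (c0_hb ξ true).sub (c0_hb ξ false)

lemma rs_cp {F : Fn b.m} (hF : F ∈ CP b.m) : rs b ξ F ∈ CP b.m := (rsL b ξ ⟨F, hF⟩).2
lemma rs_cv {F : Fn b.m} (hF : F ∈ CV b.m) : rs b ξ F ∈ CV b.m := fun s =>
  (hF s).sub (C1.sum fun t _ => (c1_hb ξ t).mul (hF t))
lemma psi_cp {F : Fn b.m} (hF : F ∈ CP b.m) : psi b ξ F ∈ CP b.m := cp_of0 fun _ =>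
  ((c0_sech ξ).mul (c0_const 2⁻¹)).mul ((cp0 hF true).sub (cp0 hF false))
lemma psi_cv {F : Fn b.m} (hF : F ∈ CV b.m) : psi b ξ F ∈ CV b.m := fun _ =>
  ((c1_sech ξ).mul (c1_const 2⁻¹)).mul ((hF true).sub (hF false))

/-- **(P4)** -/
theorem dd_rs {F : Fn b.m} (hF : F ∈ CV b.m) (j : Fin b.m) :
    dd j (rs b ξ F) = fun s X => rs b ξ (dd j F) s X - b.g j * psi b ξ F s X := by
  funext s X
  have h1 := congrFun (pd_sub (hF s) (C1.sum (s := Finset.univ) fun t _ => (c1_hb ξ t).mul (hF t)) j) X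
  refine h1.trans ?_
  rw [pd_sum' fun t _ => (c1_hb ξ t).mul (hF t)]
  simp only [(c1_hb ξ _).pd_mul (hF _), pd_hb, Fintype.sum_bool, rs, dd, psi, sg, if_true,
    Bool.false_eq_true, if_false]
  ring

theorem dd_psi {F : Fn b.m} (hF : F ∈ CV b.m) (j : Fin b.m) : dd j (psi b ξ F) =
    fun s X => psi b ξ (dd j F) s X - 2 * b.g j * (tt b ξ X * psi b ξ F s X) := by
  funext s X
  have e : psi b ξ F s = fun X => (1 / 2) * (sech2 (fld b ξ X) * (F true X - F false X)) :=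
    funext fun X => by simp only [psi]; ring
  have hs := (hF true).sub (hF false)
  simp only [dd]
  rw [e, pd_smul _ ((c1_sech ξ).mul hs), (c1_sech ξ).pd_mul hs, pd_sech,
    pd_sub (hF true) (hF false)]
  simp only [psi, dd]
  ring

lemma iq_rs {F G : Fn b.m} (hF : F ∈ CP b.m) (hG : G ∈ CP b.m) :
    iq b ξ (rs b ξ F) (rs b ξ G) = iq b ξ (rs b ξ F) G := by
  refine ex_eq_cond ξ (cp_mul' (rs_cp ξ hF) (rs_cp ξ hG)) (cp_mul' (rs_cp ξ hF) hG) fun X => ?_
  have h := hb_sum (fld b ξ X)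
  simp only [rs, Fintype.sum_bool]
  rw [show hb (fld b ξ X) false = 1 - hb (fld b ξ X) true by linarith]
  ring

lemma rs_le {F : Fn b.m} (hF : F ∈ CP b.m) : iq b ξ (rs b ξ F) (rs b ξ F) ≤ iq b ξ F F := by
  refine ex_le_cond ξ (cp_mul' (rs_cp ξ hF) (rs_cp ξ hF)) (cp_mul' hF hF) fun X => ?_
  have h := hb_sum (fld b ξ X)
  simp only [rs, Fintype.sum_bool]
  rw [show hb (fld b ξ X) false = 1 - hb (fld b ξ X) true by linarith]
  nlinarith [sq_nonneg (hb (fld b ξ X) true * F true X + (1 - hb (fld b ξ X) true) * F false X)]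

lemma psi_le {F : Fn b.m} (hF : F ∈ CP b.m) :
    iq b ξ (psi b ξ F) (psi b ξ F) ≤ iq b ξ (rs b ξ F) (rs b ξ F) := by
  refine ex_le_cond ξ (cp_mul' (psi_cp ξ hF) (psi_cp ξ hF)) (cp_mul' (rs_cp ξ hF) (rs_cp ξ hF))
    fun X => ?_
  have h := hb_sum (fld b ξ X)
  have h1 := sech2_le (fld b ξ X)
  have h2 := sech2_pos (fld b ξ X)
  simp only [rs, psi, Fintype.sum_bool]
  rw [← O42.hb_mul] at h1 h2 ⊢
  rw [show hb (fld b ξ X) false = 1 - hb (fld b ξ X) true by linarith] at h1 h2 ⊢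
  nlinarith [mul_nonneg (mul_nonneg h2.le (sub_nonneg.2 h1)) (sq_nonneg (F true X - F false X))]

lemma ex_psi {F : Fn b.m} (hF : F ∈ CP b.m) :
    ex b ξ (psi b ξ F) = iq b ξ (rs b ξ F) (fun s _ => sg s) := by
  refine ex_eq_cond ξ (psi_cp ξ hF) (cp_mul' (rs_cp ξ hF) (cp_spin sg)) fun X => ?_
  have h := hb_sum (fld b ξ X)
  simp only [rs, psi, Fintype.sum_bool, sg, if_true, Bool.false_eq_true, if_false]
  rw [← O42.hb_mul, show hb (fld b ξ X) false = 1 - hb (fld b ξ X) true by linarith]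
  ring

lemma ex_rs {F : Fn b.m} (hF : F ∈ CP b.m) : ex b ξ (rs b ξ F) = 0 := by
  refine (ex_eq_cond ξ (rs_cp ξ hF) (cp_spin fun _ => 0) fun X => ?_).trans (O42.ex_const b ξ 0)
  have h := hb_sum (fld b ξ X)
  simp only [rs, Fintype.sum_bool]
  rw [show hb (fld b ξ X) false = 1 - hb (fld b ξ X) true by linarith]
  ring

end bath

end Crest.Agent.T157.Hm
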