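import Crest.Agent.T157.KDef_36
import Crest.Agent.T157.ZLip_85

/-!
# Row 157, block S5 (helper66): channel averages of spin-free integrands
-/

set_option autoImplicit false
set_option linter.unusedSectionVars false

noncomputable section

namespace Crest.Agent.T157.K.Ba66

open MeasureTheory ProbabilityTheory Real Matrix Finset Filter
open Crest.Agent.T157.E Crest.Agent.T157.Eig
open Crest.Agent.T157.Tap (V Mx th DD)
open Crest.Agent.T157.Rec (grad)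
open Crest.Agent.T157.Conc (ELip en)
open Crest.Agent.T157.Reg (jac neg)
open Crest.Agent.T157.S3.Hb (Vp)
open Crest.Agent.T157.Z (cp)
open Crest.Agent.T157.Z.L85 (nrm_mono nrm_le_of_bd abs_cp_le)

variable {n : ℕ} {κ ι : Type} [Fintype κ] [DecidableEq κ] [Fintype ι] [DecidableEq ι]

/-! ### norms, clips -/

lemma en_eq (u : κ → ℝ) : en u = nrm u := by simp [en, nrm, dotProduct, sq]
lemma nrm_zero : nrm (0 : κ → ℝ) = 0 := nrm_eq_zero.2 rfl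
lemma nrm_comm (u v : κ → ℝ) : nrm (u - v) = nrm (v - u) := by rw [← nrm_neg, neg_sub]
lemma abs_nrm_sub (u v : κ → ℝ) : |nrm u - nrm v| ≤ nrm (u - v) := by
  simpa only [en_eq] using Conc.abs_en_sub_le u v
lemma sq_add_le (u v : κ → ℝ) : nrm (u + v) ^ 2 ≤ 2 * nrm u ^ 2 + 2 * nrm v ^ 2 := by
  have := pow_le_pow_left₀ (nrm_nonneg _) (nrm_add_le u v) 2
  nlinarith [sq_nonneg (nrm u - nrm v)]
lemma sq_sub_le (u v : κ → ℝ) : nrm (u - v) ^ 2 ≤ 2 * nrm u ^ 2 + 2 * nrm v ^ 2 := by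
  simpa only [sub_eq_add_neg, nrm_neg] using sq_add_le u (-v)

lemma cp_lip (η : ℝ) (u v : V n) : nrm (cp η u - cp η v) ≤ nrm (u - v) := nrm_mono fun i =>
  (abs_max_sub_max_le_max _ _ _ _).trans (max_le (by simp)
    ((abs_min_sub_min_le_max _ _ _ _).trans (max_le (by simp) le_rfl)))
lemma cp_neg {η : ℝ} (h : 0 ≤ η) (u : V n) : cp η (-u) = -cp η u := funext fun i => by
  simp only [cp, Pi.neg_apply, max_def, min_def]; split_ifs <;> linarith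
lemma exc_eq {η : ℝ} (h : 0 ≤ η) (u : V n) : exc η u = nrm (u - cp η u) ^ 2 := by
  rw [nrm_sq, exc, dotProduct]
  refine sum_congr rfl fun i _ => ?_
  simp only [cp, Pi.sub_apply, max_def, min_def]
  rcases abs_cases (u i) with e | e <;> rw [e.1] <;> split_ifs <;> nlinarith
lemma exc_lip {η : ℝ} (h : 0 ≤ η) (u v : V n) : |√(exc η u) - √(exc η v)| ≤ 2 * nrm (u - v) := by
  rw [exc_eq h, exc_eq h, sqrt_sq (nrm_nonneg _), sqrt_sq (nrm_nonneg _)]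
  refine (abs_nrm_sub _ _).trans ?_
  rw [sub_sub_sub_comm]
  linarith [nrm_sub_le (u - v) (cp η u - cp η v), cp_lip η u v]
lemma exc_nn (η : ℝ) (u : V n) : 0 ≤ exc η u := sum_nonneg fun _ _ => sq_nonneg _
lemma exc_le {η : ℝ} (h : 0 ≤ η) (u : V n) : exc η u ≤ nrm u ^ 2 := by
  rw [nrm_sq, exc, dotProduct]
  refine sum_le_sum fun i _ => ?_
  rw [← sq, ← sq_abs (u i)]
  exact pow_le_pow_left₀ (le_max_right _ _) (max_le (by linarith) (abs_nonneg _)) 2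

lemma sqrt_add_lip {a b a' b' : ℝ} (ha : 0 ≤ a) (hb : 0 ≤ b) (ha' : 0 ≤ a') (hb' : 0 ≤ b') :
    |√(a + b) - √(a' + b')| ≤ |√a - √a'| + |√b - √b'| := by
  have e : ∀ {a b : ℝ}, 0 ≤ a → 0 ≤ b → √(a + b) = nrm ![√a, √b] := fun ha hb => by
    simp [nrm, mul_self_sqrt ha, mul_self_sqrt hb]
  rw [e ha hb, e ha' hb']
  refine (abs_nrm_sub _ _).trans ?_
  simpa [en_eq] using Conc.en_le_sum (![√a, √b] - ![√a', √b'])

lemma cont_of_lip {u : (κ → ℝ) → ι → ℝ} {M : ℝ} (h : ∀ ζ ζ', nrm (u ζ - u ζ') ≤ M * nrm (ζ - ζ')) :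
    Continuous u := continuous_pi fun i => ELip.continuous (L := M) fun ζ ζ' => by
  rw [en_eq]; exact (abs_apply_le_nrm (u ζ - u ζ') i).trans (h ζ ζ')

lemma nrm_grad {F : (κ → ℝ) → ℝ} {L : ℝ} (hL : 0 ≤ L) (h : ELip L F) (x : κ → ℝ) :
    nrm (Conc.grad F x) ≤ L := by
  have := h.gr2_le x
  rw [Conc.gr2_eq, en_eq] at this
  exact (abs_le_of_sq_le_sq' this hL).2

/-! ### monotonicity -/

lemma R0.mono {e e' : ℝ} {u : Cube n → V n} (h : R0 e u) (k : e ≤ e') : R0 e' u :=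
  ⟨fun s i => (h.sup s i).trans k, fun s => (h.op s).trans k⟩
lemma RF.mono {e e' : ℝ} {u : Cube n → (κ → ℝ) → V n} (h : RF e u) (k : e ≤ e') : RF e' u :=
  ⟨fun ζ => R0.mono (h.r0 ζ) k, fun s ζ ζ' =>
    (h.lip s ζ ζ').trans (mul_le_mul_of_nonneg_right k (nrm_nonneg _))⟩
lemma SB.mono {c c' : ℝ} {X : Cube n → ℝ} (h : SB c X) (k : c ≤ c') : SB c' X :=
  fun s => ⟨(h s).1, (h s).2.trans (mul_le_mul_of_nonneg_right k (h s).1)⟩
lemma RE.mono {e e' : ℝ} {X : Cube n → (κ → ℝ) → ℝ} (h : RE e X) (h0 : 0 ≤ e) (k : e ≤ e') :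
    RE e' X :=
  ⟨fun ζ => SB.mono (h.sb ζ) (pow_le_pow_left₀ h0 k 2), fun s => (h.lip s).mono k, h.bd⟩
lemma BS.mono {F X : F2 n} {g ω β : U2 n} {e e' L L' : ℝ} (h : BS F g ω β X e L) (h0 : 0 ≤ e)
    (k : e ≤ e') (l : L ≤ L') : BS F g ω β X e' L' :=
  ⟨h.der, fun s y => ⟨(h.gr s y).1.trans l, (h.gr s y).2.trans l⟩, h.app, RF.mono h.rω k,
    RF.mono h.rβ k, RE.mono h.rX h0 k, h.oω, h.oβ⟩

lemma rf_free {u : (κ → ℝ) → V n} {e : ℝ} (h0 : 0 ≤ e) (h1 : ∀ ζ i, |u ζ i| ≤ e)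
    (h2 : ∀ ζ ζ', nrm (u ζ - u ζ') ≤ e * nrm (ζ - ζ')) : RF e fun _ : Cube n => u :=
  ⟨fun ζ => ⟨fun _ => h1 ζ, fun s => by
    rw [show jac (fun _ => u ζ) s = 0 from by ext i j; simp [jac]]
    exact opn_le_of_nrm h0 fun v => by
      rw [zero_mulVec, nrm_zero]; exact mul_nonneg h0 (nrm_nonneg _)⟩,
    fun _ => h2⟩

/-! ### channel averages -/

variable {P : Matrix κ (Fin n) ℝ} {s : Cube n}

/-- bounded and continuous -/
def BC (f : (κ → ℝ) → ℝ) : Prop := Continuous f ∧ ∃ B, ∀ ζ, |f ζ| ≤ B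
/-- bounded and continuous field -/
def BV (u : (κ → ℝ) → V n) : Prop := Continuous u ∧ ∃ B, ∀ ζ, nrm (u ζ) ≤ B
/-- admissible weight -/
def Wg (w : ℝ → ℝ) : Prop := Continuous w ∧ ∀ t, |w t| ≤ 2 * exp (2 * |t|)

lemma BC.int {f : (κ → ℝ) → ℝ} (h : BC f) (a : κ → ℝ) : Integrable (fun z => f (a + z)) (gv κ) := by
  obtain ⟨c, B, h⟩ := h
  exact (integrable_const B).mono' (by fun_prop) (.of_forall fun _ => h _)
lemma BV.sq {u : (κ → ℝ) → V n} (h : BV u) : BC fun ζ => nrm (u ζ) ^ 2 := by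
  obtain ⟨c, B, h⟩ := h
  exact ⟨(continuous_nrm.comp c).pow 2, B ^ 2, fun ζ => by
    rw [abs_sq]; exact pow_le_pow_left₀ (nrm_nonneg _) (h ζ) 2⟩
lemma BV.sub {u v : (κ → ℝ) → V n} (h : BV u) (k : BV v) : BV (u - v) := by
  obtain ⟨c, B, h⟩ := h
  obtain ⟨c', B', k⟩ := k
  exact ⟨c.sub c', B + B', fun ζ => (nrm_sub_le _ _).trans (add_le_add (h ζ) (k ζ))⟩

lemma cav_mono {f g : (κ → ℝ) → ℝ} (hf : BC f) (hg : BC g) (h : ∀ ζ, f ζ ≤ g ζ) :
    cav P (fun _ => f) s ≤ cav P (fun _ => g) s := integral_mono (hf.int _) (hg.int _) fun _ => h _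
lemma cav_le {f : (κ → ℝ) → ℝ} (hf : BC f) {c : ℝ} (h : ∀ ζ, f ζ ≤ c) : cav P (fun _ => f) s ≤ c :=
  (integral_mono (hf.int _) (integrable_const c) fun _ => h _).trans_eq (by simp)

lemma abs_one_of {a : ℝ} (h : a * a = 1) : |a| = 1 := by
  rcases mul_self_eq_one_iff.1 h with e | e <;> simp [e]

lemma int_w {w : ℝ → ℝ} (hw : Wg w) {u : (κ → ℝ) → V n} (hu : BV u) (j : Fin n) :
    Integrable (fun z => w (sv s j * (Pᵀ *ᵥ z) j) * u (P *ᵥ sv s + z) j) (gv κ) := by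
  obtain ⟨c, B, h⟩ := hu
  have := hw.1
  have l : ELip (en (Pᵀ j)) fun z => |(Pᵀ *ᵥ z) j| := fun x y =>
    (abs_abs_sub_abs_le_abs_sub _ _).trans (Conc.elip_dot (Pᵀ j) x y)
  refine (((l.integrable_exp 2).const_mul 2).mul_const B).mono' (by fun_prop) (.of_forall fun z => ?_)
  have e : |sv s j * (Pᵀ *ᵥ z) j| = |(Pᵀ *ᵥ z) j| := by
    rw [abs_mul, abs_one_of (Rec.sv_mul_self s j), one_mul]
  rw [norm_mul, ← e]
  exact mul_le_mul (hw.2 _) ((abs_apply_le_nrm _ j).trans (h _)) (norm_nonneg _) (by positivity)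

lemma cw_sub_u {w : ℝ → ℝ} (hw : Wg w) {u v : (κ → ℝ) → V n} (hu : BV u) (hv : BV v) :
    cwv P P w (fun _ => u) s - cwv P P w (fun _ => v) s = cwv P P w (fun _ => u - v) s :=
  funext fun j => ((integral_sub (int_w hw hu j) (int_w hw hv j)).symm.trans
    (by simp only [cwv, Pi.sub_apply, mul_sub]))
lemma cw_sub_w {w w' : ℝ → ℝ} (hw : Wg w) (hw' : Wg w') {u : (κ → ℝ) → V n} (hu : BV u) :
    cwv P P w (fun _ => u) s - cwv P P w' (fun _ => u) s =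
      cwv P P (fun t => w t - w' t) (fun _ => u) s :=
  funext fun j => ((integral_sub (int_w hw hu j) (int_w hw' hu j)).symm.trans
    (by simp only [cwv, sub_mul]))

lemma sv_neg (x : Cube n) : sv (neg x) = -sv x := by
  ext i
  simp only [sv, Reg.neg, Pi.neg_apply]
  cases x i <;> simp [Crest.ProbabilityR.SpinGlassDynamics.spin]

instance gvNeg : (gv κ).IsNegInvariant := by
  have : (gaussianReal 0 1).IsNegInvariant :=
    ⟨by simpa [Measure.neg] using gaussianReal_map_neg (μ := 0) (v := 1)⟩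
  infer_instance

lemma cw_odd (w : ℝ → ℝ) {u v : (κ → ℝ) → V n} (h : ∀ ζ, u (-ζ) = -v ζ) :
    cwv P P w (fun _ => u) (neg s) = -cwv P P w (fun _ => v) s := funext fun j => by
  rw [Pi.neg_apply, cwv, cwv, ← integral_neg, ← integral_neg_eq_self]
  simp only [sv_neg, mulVec_neg, Pi.neg_apply, neg_mul, ← neg_add, h, mul_neg, neg_neg]

lemma cs (Cs : CsStmt) {k A : ℝ} (hk : ∀ j, (Pᵀ * P) j j = k) {w : ℝ → ℝ} (hw : Wg w)
    (hA : ∫ t, w (√k * t) ^ 2 ∂gaussianReal 0 1 ≤ A) {u : (κ → ℝ) → V n} (hu : BV u) :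
    nrm (cwv P P w (fun _ => u) s) ^ 2 ≤ A * cav P (fun _ ζ => nrm (u ζ) ^ 2) s := by
  obtain ⟨c, B, h⟩ := hu
  exact Cs n κ P P w _ k 2 2 A B hw.1 hw.2 hk hA (fun _ => c) (fun _ ζ => (h ζ).trans
    (le_mul_of_one_le_right ((nrm_nonneg _).trans (h ζ)) (by linarith [nrm_nonneg ζ]))) s

lemma wg_one : Wg fun _ => 1 :=
  ⟨continuous_const, fun t => by
    rw [abs_one]; linarith [one_le_exp (show 0 ≤ 2 * |t| by positivity)]⟩
lemma cs_one (Cs : CsStmt) {k : ℝ} (hk : ∀ j, (Pᵀ * P) j j = k) {u : (κ → ℝ) → V n} (hu : BV u) :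
    nrm (cwv P P (fun _ => 1) (fun _ => u) s) ^ 2 ≤ cav P (fun _ ζ => nrm (u ζ) ^ 2) s := by
  simpa using cs (s := s) Cs hk wg_one (A := 1) (by simp) hu

/-- Minkowski -/
lemma mink {f g : (κ → ℝ) → ℝ} (hf : BC f) (hg : BC g) (g0 : ∀ ζ, 0 ≤ g ζ) {d : ℝ} (hd : 0 ≤ d)
    (h : ∀ ζ, √(f ζ) ≤ √(g ζ) + d) : √(cav P (fun _ => f) s) ≤ √(cav P (fun _ => g) s) + d := by
  have hs : BC fun ζ => √(g ζ) := by
    obtain ⟨c, B, b⟩ := hg
    exact ⟨c.sqrt, √B, fun ζ => by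
      rw [abs_of_nonneg (sqrt_nonneg _)]; exact sqrt_le_sqrt ((le_abs_self _).trans (b ζ))⟩
  have i1 := hg.int (P *ᵥ sv s)
  have i2 := hs.int (P *ᵥ sv s)
  have lin : ∀ a b : ℝ, ∫ z, (g (P *ᵥ sv s + z) + a * √(g (P *ᵥ sv s + z)) + b) ∂gv κ =
      cav P (fun _ => g) s + a * cav P (fun _ ζ => √(g ζ)) s + b := fun a b => by
    have i3 : Integrable (fun z => g (P *ᵥ sv s + z) + a * √(g (P *ᵥ sv s + z))) (gv κ) :=
      i1.add (i2.const_mul a)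
    rw [integral_add i3 (integrable_const b), integral_add i1 (i2.const_mul a), integral_const_mul]
    simp [cav]
  set m := cav P (fun _ ζ => √(g ζ)) s
  have h1 : m ≤ √(cav P (fun _ => g) s) := le_sqrt_of_sq_le <| by
    have := integral_nonneg (μ := gv κ) (f := fun z => g (P *ᵥ sv s + z) +
      (-2 * m) * √(g (P *ᵥ sv s + z)) + m ^ 2) fun z => by
      have := sq_sqrt (g0 (P *ᵥ sv s + z))
      simp only [Pi.zero_apply]; nlinarith [sq_nonneg (√(g (P *ᵥ sv s + z)) - m)]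
    rw [lin] at this; nlinarith
  have h2 : cav P (fun _ => f) s ≤ cav P (fun _ => g) s + 2 * d * m + d ^ 2 := by
    rw [← lin]
    refine integral_mono (hf.int _) ((i1.add (i2.const_mul _)).add (integrable_const _)) fun z => ?_
    have := (sqrt_le_left (by positivity)).1 (h (P *ᵥ sv s + z))
    have := sq_sqrt (g0 (P *ᵥ sv s + z))
    simp only; nlinarith
  have h3 := sq_sqrt (show 0 ≤ cav P (fun _ => g) s from integral_nonneg fun _ => g0 _)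
  refine (sqrt_le_left (by positivity)).2 ?_
  nlinarith [mul_le_mul_of_nonneg_left h1 hd]

/-- jointly Lipschitz field -/
def JL (M : ℝ) (U : (κ → ℝ) → V n → V n) : Prop :=
  ∀ ζ y ζ' y', nrm (U ζ y - U ζ' y') ≤ M * (nrm (ζ - ζ') + nrm (y - y'))
/-- jointly Lipschitz function -/
def JS (M : ℝ) (f : (κ → ℝ) → V n → ℝ) : Prop :=
  ∀ ζ y ζ' y', |f ζ y - f ζ' y'| ≤ M * (nrm (ζ - ζ') + nrm (y - y'))

lemma JL.fst {M : ℝ} {U : (κ → ℝ) → V n → V n} (h : JL M U) (y : V n) (ζ ζ' : κ → ℝ) :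
    nrm (U ζ y - U ζ' y) ≤ M * nrm (ζ - ζ') := by simpa [nrm_zero] using h ζ y ζ' y
lemma JL.snd {M : ℝ} {U : (κ → ℝ) → V n → V n} (h : JL M U) (ζ : κ → ℝ) (y y' : V n) :
    nrm (U ζ y - U ζ y') ≤ M * nrm (y - y') := by simpa [nrm_zero] using h ζ y ζ y'
lemma JS.fst {M : ℝ} {f : (κ → ℝ) → V n → ℝ} (h : JS M f) (y : V n) : ELip M fun ζ => f ζ y :=
  fun ζ ζ' => by simpa [nrm_zero, en_eq] using h ζ y ζ' y
lemma JS.snd {M : ℝ} {f : (κ → ℝ) → V n → ℝ} (h : JS M f) (ζ : κ → ℝ) : ELip M (f ζ) :=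
  fun y y' => by simpa [nrm_zero, en_eq] using h ζ y ζ y'

section der
variable {G : (κ → ℝ) → V n → ℝ} {L : ℝ}

lemma cont_fd2 (h : ContDiff ℝ 1 fun p : (κ → ℝ) × V n => G p.1 p.2) :
    Continuous fun p : (κ → ℝ) × V n => fderiv ℝ (G p.1) p.2 :=
  Continuous.fderiv_one (f := fun (p : (κ → ℝ) × V n) y => G p.1 y)
    (h.comp ((contDiff_fst.comp contDiff_fst).prodMk contDiff_snd)) continuous_snd

lemma cont_g2 (h : ContDiff ℝ 1 fun p : (κ → ℝ) × V n => G p.1 p.2) :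
    Continuous fun p : (κ → ℝ) × V n => Conc.grad (G p.1) p.2 :=
  continuous_pi fun _ => (cont_fd2 h).clm_apply continuous_const

lemma der_fst (h : ContDiff ℝ 1 fun p : (κ → ℝ) × V n => G p.1 p.2) (y : V n) :
    Der (fun (_ : Cube n) ζ => G ζ y) fun _ ζ => Conc.grad (fun ζ => G ζ y) ζ := fun _ => by
  have h1 : ContDiff ℝ 1 fun ζ => G ζ y := h.comp (contDiff_id.prodMk contDiff_const)
  exact ⟨h1.differentiable one_ne_zero, continuous_pi fun _ =>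
    (h1.continuous_fderiv one_ne_zero).clm_apply continuous_const, Conc.fderiv_eq_dot _⟩

lemma der_snd (h : ContDiff ℝ 1 fun p : (κ → ℝ) × V n => G p.1 p.2) (hL : 0 ≤ L) (hG : JS L G) :
    Der (fun s y => cav P (fun _ ζ => G ζ y) s) fun s y =>
      cwv P P (fun _ => 1) (fun _ ζ => Conc.grad (G ζ) y) s := fun s => by
  have c := cont_fd2 h
  have bd : ∀ ζ y, ‖fderiv ℝ (G ζ) y‖ ≤ L * Fintype.card (Fin n) := fun ζ y =>
    ContinuousLinearMap.opNorm_le_bound _ (by positivity) fun v => by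
      rw [Conc.fderiv_eq_dot, mul_assoc]
      exact (Conc.abs_dot_le _ _).trans (mul_le_mul ((en_eq _).trans_le (nrm_grad hL (hG.snd ζ) y))
        (Conc.en_le_card_norm v) (Conc.en_nonneg _) hL)
  have cz : ∀ y, Continuous fun z => fderiv ℝ (G (P *ᵥ sv s + z)) y := fun y =>
    c.comp (f := fun z => (P *ᵥ sv s + z, y)) (by fun_prop)
  have key : ∀ y, HasFDerivAt (fun y => cav P (fun _ ζ => G ζ y) s)
      (∫ z, fderiv ℝ (G (P *ᵥ sv s + z)) y ∂gv κ) y := fun y =>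
    hasFDerivAt_integral_of_dominated_of_fderiv_le (F := fun y z => G (P *ᵥ sv s + z) y)
      (F' := fun y z => fderiv ℝ (G (P *ᵥ sv s + z)) y) univ_mem
      (.of_forall fun y => ((hG.fst y).continuous.comp (by fun_prop)).aestronglyMeasurable)
      (ELip.integrable (L := L) fun z z' => by simpa using hG.fst y (P *ᵥ sv s + z) (P *ᵥ sv s + z'))
      (cz y).aestronglyMeasurable (.of_forall fun z y _ => bd _ y) (integrable_const _)
      (.of_forall fun z y _ => (((h.comp (contDiff_const.prodMk contDiff_id)).differentiable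
        one_ne_zero) y).hasFDerivAt)
  refine ⟨fun y => (key y).differentiableAt, continuous_pi fun j => continuous_of_dominated
    (bound := fun _ => L) (fun y => (continuous_const.mul ((cz y).clm_apply
      continuous_const)).aestronglyMeasurable) (fun y => .of_forall fun z => ?_) (integrable_const _)
    (.of_forall fun z => continuous_const.mul ((c.comp (f := fun y => (P *ᵥ sv s + z, y))
      (by fun_prop)).clm_apply continuous_const)), fun y v => ?_⟩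
  · rw [one_mul]; exact (abs_apply_le_nrm _ j).trans (nrm_grad hL (hG.snd _) y)
  · refine (Conc.fderiv_eq_dot _ y v).trans (sum_congr rfl fun j _ => ?_)
    rw [Conc.grad, (key y).fderiv, ContinuousLinearMap.integral_apply
      ((integrable_const _).mono' (cz y).aestronglyMeasurable (.of_forall fun z => bd _ y))]
    simp only [cwv, one_mul, Conc.grad]

end der

/-- splitting of a channel -/
lemma cav_rows {P' : Matrix ι (Fin n) ℝ} (F : (κ → ℝ) → (ι → ℝ) → ℝ)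
    (h : Integrable (fun p : (κ → ℝ) × (ι → ℝ) => F (P *ᵥ sv s + p.1) (P' *ᵥ sv s + p.2))
      ((gv κ).prod (gv ι))) :
    cav (fromRows P P') (fun _ ζ => F (fun k => ζ (.inl k)) fun i => ζ (.inr i)) s =
      ∫ z, ∫ z', F (P *ᵥ sv s + z) (P' *ᵥ sv s + z') ∂gv ι ∂gv κ := by
  rw [← integral_prod _ h, ← (measurePreserving_sumPiEquivProdPi (X := fun _ : κ ⊕ ι => ℝ)
    fun _ => gaussianReal 0 1).integral_comp']
  simp only [cav, fromRows_mulVec]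
  rfl

/-! ### the three leaves of `BaseGlue` -/

/-- certificate for a spin-free integrand -/
structure Ct (P : Matrix κ (Fin n) ℝ) (G : (κ → ℝ) → V n → ℝ) (U Bq : (κ → ℝ) → V n → V n)
    (Er : (κ → ℝ) → V n → ℝ) (L η : ℝ) : Prop where
  c1 : ContDiff ℝ 1 fun p : (κ → ℝ) × V n => G p.1 p.2
  lip : JS L G
  app : ∀ ζ y, nrm (Pᵀ *ᵥ Conc.grad (fun ζ => G ζ y) ζ - U ζ y) ^ 2 +
    nrm (Conc.grad (G ζ) y - Bq ζ y) ^ 2 ≤ Er ζ y
  lU : JL η U
  lB : JL η Bq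
  lE : JS η fun ζ y => √(Er ζ y)
  sB : ∀ ζ y i, |Bq ζ y i| ≤ η
  oU : ∀ ζ y, U (-ζ) (-y) = -U ζ y
  oB : ∀ ζ y, Bq (-ζ) (-y) = -Bq ζ y
  bd : ∃ B, ∀ ζ y, 0 ≤ Er ζ y ∧ Er ζ y ≤ B ∧ nrm (U ζ y) ≤ B

/-- a certified spin-free integrand passes through a channel -/
def ChanStmt : Prop := ∀ B : ℝ, ∃ C ≥ (1 : ℝ), ∀ (n : ℕ) (κ : Type) [Fintype κ] [DecidableEq κ]
  (P : Matrix κ (Fin n) ℝ) (k L Λ η : ℝ) (G : (κ → ℝ) → V n → ℝ) (U Bq : (κ → ℝ) → V n → V n)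
  (Er : (κ → ℝ) → V n → ℝ), opn P ≤ B → 0 ≤ k → k ≤ B → (∀ j, (Pᵀ * P) j j = k) → 0 ≤ L → 1 ≤ Λ →
  0 ≤ η → Ct P G U Bq Er L η → ∃ g ω β, BS (fun s y => cav P (fun _ ζ => G ζ y) s) g ω β
    (fun s y => cav P (fun _ ζ => C * (exp (-(Λ ^ 2 / C)) * L ^ 2 + Er ζ y + exc η (U ζ y))) s)
    (C * exp (2 * Λ) * η) (C * L)
def ChanGlue : Prop := GradStmt → WStmt → CsStmt → RFStmt → REStmt → ChanStmt

/-- `E (aa * tanh (s + W)) = s` for `s = ±1` -/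
def aa : ℝ := (∫ t, tanh (1 + t) ∂gaussianReal 0 1)⁻¹
/-- the channel `(Q s + z, s + z')` -/
def PP (Q : Mx n) : Matrix (Fin n ⊕ Fin n) (Fin n) ℝ := fromRows Q 1
def z1 (ζ : κ ⊕ ι → ℝ) : κ → ℝ := fun i => ζ (.inl i)
def z2 (ζ : κ ⊕ ι → ℝ) : ι → ℝ := fun i => ζ (.inr i)
def vv (Q : Mx n) (ζ : Fin n ⊕ Fin n → ℝ) (y : V n) : V n := aa • th (z2 ζ) - pt Q y (z1 ζ)
def GG (Q : Mx n) (E : V n → V n → V n) (ζ : Fin n ⊕ Fin n → ℝ) (y : V n) : ℝ :=
  E (Q *ᵥ z1 ζ) y ⬝ᵥ vv Q ζ y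
def UU (Q : Mx n) (E : V n → V n → V n) (Bx : V n → V n → V n → V n) (ζ : Fin n ⊕ Fin n → ℝ)
    (y : V n) : V n :=
  (Q * Q) *ᵥ (Bx (Q *ᵥ z1 ζ) y (vv Q ζ y) - DD (pt Q y (z1 ζ)) * E (Q *ᵥ z1 ζ) y) +
    aa • (DD (th (z2 ζ)) * E (Q *ᵥ z1 ζ) y)
def BB (Q : Mx n) (E : V n → V n → V n) (By : V n → V n → V n → V n) (ζ : Fin n ⊕ Fin n → ℝ)
    (y : V n) : V n := By (Q *ᵥ z1 ζ) y (vv Q ζ y) - DD (pt Q y (z1 ζ)) * E (Q *ᵥ z1 ζ) y
def EE (Q : Mx n) (Er : V n → V n → V n → ℝ) (ζ : Fin n ⊕ Fin n → ℝ) (y : V n) : ℝ :=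
  49 * Er (Q *ᵥ z1 ζ) y (vv Q ζ y)

/-- the one-step observable is a channel average of a spin-free integrand -/
def RepStmt : Prop := ∀ (n : ℕ) (Q : Mx n) (E : V n → V n → V n) (M : ℝ), BLO M E →
  psi0 Q E = fun s y => cav (PP Q) (fun _ ζ => GG Q E ζ y) s
/-- its certificate -/
def CertStmt : Prop := ∃ c ≥ (1 : ℝ), ∀ (n : ℕ) (Q : Mx n) (E : V n → V n → V n)
  (Bx By : V n → V n → V n → V n) (Er : V n → V n → V n → ℝ) (M N : ℝ), Qᵀ = Q → opn Q ≤ 3 →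
  opn (Q * Q) ≤ 7 → 1 ≤ M → 1 ≤ N → BLO M E → BP E Bx By Er (|aa| + 1) N →
  Ct (PP Q) (GG Q E) (UU Q E Bx) (BB Q E By) (EE Q Er) (c * M * √n) (c * M * N)

end Crest.Agent.T157.K.Ba66

end
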