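import Crest.Agent.T157.KBaA_66

/-!
# Row 157, block S5 (helper75): a certified spin-free integrand passes through a channel
-/

set_option autoImplicit false
set_option linter.unusedSectionVars false

noncomputable section

namespace Crest.Agent.T157.K.Ba66

open MeasureTheory ProbabilityTheory Real Matrix Finset Filter
open Crest.Agent.T157.E Crest.Agent.T157.Eig
open Crest.Agent.T157.Tap (V Mx th DD)
open Crest.Agent.T157.Rec (grad)
open Crest.Agent.T157.Conc (ELip en)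
open Crest.Agent.T157.Reg (jac neg)
open Crest.Agent.T157.S3.Hb (Vp)
open Crest.Agent.T157.Z (cp)
open Crest.Agent.T157.Z.L85 (nrm_mono nrm_le_of_bd abs_cp_le)

namespace C75

variable {n : ℕ} {κ : Type} [Fintype κ] [DecidableEq κ] {P : Matrix κ (Fin n) ℝ} {s : Cube n}
  {f g : (κ → ℝ) → ℝ}

lemma bc_const (c : ℝ) : BC fun _ : κ → ℝ => c := ⟨continuous_const, |c|, fun _ => le_rfl⟩
lemma bc_add (hf : BC f) (hg : BC g) : BC fun ζ => f ζ + g ζ := by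
  obtain ⟨c, B, h⟩ := hf
  obtain ⟨c', B', k⟩ := hg
  exact ⟨c.add c', B + B', fun ζ => (abs_add_le _ _).trans (add_le_add (h ζ) (k ζ))⟩
lemma bc_mul (a : ℝ) (hf : BC f) : BC fun ζ => a * f ζ := by
  obtain ⟨c, B, h⟩ := hf
  exact ⟨continuous_const.mul c, |a| * B, fun ζ => by
    rw [abs_mul]; exact mul_le_mul_of_nonneg_left (h ζ) (abs_nonneg a)⟩
lemma cav_add (hf : BC f) (hg : BC g) :
    cav P (fun _ ζ => f ζ + g ζ) s = cav P (fun _ => f) s + cav P (fun _ => g) s :=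
  integral_add (hf.int _) (hg.int _)
lemma cav_mul (a : ℝ) (f : (κ → ℝ) → ℝ) : cav P (fun _ ζ => a * f ζ) s = a * cav P (fun _ => f) s :=
  integral_const_mul _ _
lemma cav_const (c : ℝ) : cav P (fun _ _ => c) s = c := by simp [cav]
lemma cav_nn (h : ∀ ζ, 0 ≤ f ζ) : 0 ≤ cav P (fun _ => f) s := integral_nonneg fun _ => h _

lemma wg_of {w : ℝ → ℝ} (hc : Continuous w) (h : ∀ u, 0 ≤ w u ∧ w u ≤ 1 + exp (-2 * u)) : Wg w :=
  ⟨hc, fun t => by
    have h1 := one_le_exp (show 0 ≤ 2 * |t| by positivity)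
    have h2 : exp (-2 * t) ≤ exp (2 * |t|) := exp_le_exp.2 (by linarith [neg_abs_le t])
    rw [abs_of_nonneg (h t).1]; linarith [(h t).2]⟩

lemma int_sq {w : ℝ → ℝ} (hc : Continuous w) (h : ∀ u, 0 ≤ w u ∧ w u ≤ 1 + exp (-2 * u)) (a : ℝ) :
    Integrable (fun u => w (a * u) ^ 2) (gaussianReal 0 1) := by
  refine ((integrable_const 2).add ((integrable_exp_mul_gaussianReal (-4 * a)).const_mul 2)).mono'
    (by fun_prop) (.of_forall fun u => ?_)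
  have e : exp (-4 * a * u) = exp (-2 * (a * u)) ^ 2 := by rw [sq, ← exp_add]; congr 1; ring
  have := pow_le_pow_left₀ (h (a * u)).1 (h (a * u)).2 2
  rw [Real.norm_eq_abs, abs_sq, Pi.add_apply, e]
  nlinarith [sq_nonneg (1 - exp (-2 * (a * u)))]

lemma le_of_sq {x a c d : ℝ} (h : x ^ 2 ≤ a * d ^ 2) (ha : a ≤ c ^ 2) (hc : 0 ≤ c) (hd : 0 ≤ d) :
    x ≤ c * d :=
  (abs_le_of_sq_le_sq' (h.trans (by rw [mul_pow]; gcongr)) (mul_nonneg hc hd)).2

end C75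

open C75

set_option maxHeartbeats 1000000 in
theorem chanGlue : ChanGlue := by
  intro Gr W Cs Rf Re B
  obtain ⟨Cw, w1, W⟩ := W B
  obtain ⟨Cr, r1, Rf⟩ := Rf B
  obtain ⟨Ce, e1, Re⟩ := Re B
  set D : ℝ := 3 * Ce + Cr * Cw + Cw * (2 * B ^ 2 + 4) with hD
  have rw1 : 1 ≤ Cr * Cw := one_le_mul_of_one_le_of_one_le r1 w1
  have wB : 0 ≤ Cw * B ^ 2 := by positivity
  have D1 : 3 * Ce ≤ D := by nlinarith
  have D2 : Cr * Cw ≤ D := by nlinarith
  have D3 : 2 * (Cw * B ^ 2) + 4 * Cw ≤ D := by nlinarith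
  have D4 : 3 ≤ D := by linarith
  have D5 : D ≤ D ^ 2 := by nlinarith
  have D6 : D ^ 2 ≤ (D ^ 2) ^ 2 := by nlinarith
  clear_value D
  refine ⟨D ^ 2, by linarith, fun n κ _ _ P k L Λ η G U Bq Er hP k0 kB hk L0 Λ1 η0 h => ?_⟩
  obtain ⟨w2, wc, wb, wi, wd⟩ := W k Λ k0 kB (by linarith) (rho k) (by simp)
  have x1 : 1 ≤ exp (2 * Λ) := one_le_exp (by linarith)
  have B0 : 0 ≤ B := k0.trans kB
  have b1 : ∀ u, 0 ≤ rho k u ∧ rho k u ≤ 1 + exp (-2 * u) := fun u =>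
    ⟨(wb u).1.le.trans (wb u).2.1, (wb u).2.2⟩
  have b2 : ∀ u, 0 ≤ rh k Λ u ∧ rh k Λ u ≤ 1 + exp (-2 * u) := fun u =>
    ⟨(wb u).1.le, (wb u).2.1.trans (wb u).2.2⟩
  have c2 : Continuous (rh k Λ) := w2.1.continuous
  have g1 := wg_of wc b1
  have g2 := wg_of c2 b2
  have g3 : Wg fun t => rho k t - rh k Λ t := wg_of (wc.sub c2) fun u =>
    ⟨sub_nonneg.2 (wb u).2.1, by linarith [(b1 u).2, (b2 u).1]⟩
  have i2 : ∫ t, rh k Λ (√k * t) ^ 2 ∂gaussianReal 0 1 ≤ Cw :=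
    (integral_mono (int_sq c2 b2 _) (int_sq wc b1 _) fun t =>
      pow_le_pow_left₀ (b2 _).1 (wb _).2.1 2).trans wi
  obtain ⟨Bd, hB⟩ := h.bd
  -- the fields
  have n1 : ∀ y ζ, nrm (Pᵀ *ᵥ Conc.grad (fun ζ => G ζ y) ζ) ≤ B * L := fun y ζ =>
    (nrm_mulVec_le _ _).trans (mul_le_mul (by rwa [opn_transpose]) (nrm_grad L0 (h.lip.fst y) ζ)
      (nrm_nonneg _) B0)
  have v1 : ∀ y, BV fun ζ => Pᵀ *ᵥ Conc.grad (fun ζ => G ζ y) ζ := fun y =>
    ⟨continuous_const.matrix_mulVec (der_fst h.c1 y fun _ => true).2.1, _, n1 y⟩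
  have v2 : ∀ y, BV fun ζ => U ζ y := fun y => ⟨cont_of_lip (h.lU.fst y), Bd, fun ζ => (hB ζ y).2.2⟩
  have l3 : ∀ y ζ ζ', nrm (cp η (U ζ y) - cp η (U ζ' y)) ≤ η * nrm (ζ - ζ') := fun y ζ ζ' =>
    (cp_lip _ _ _).trans (h.lU.fst y ζ ζ')
  have v3 : ∀ y, BV fun ζ => cp η (U ζ y) := fun y =>
    ⟨cont_of_lip (l3 y), _, fun ζ => nrm_le_of_bd (abs_cp_le η0 _)⟩
  have v4 : ∀ y, BV fun ζ => Conc.grad (G ζ) y := fun y =>
    ⟨(cont_g2 h.c1).comp (f := fun ζ => (ζ, y)) (by fun_prop), L, fun ζ => nrm_grad L0 (h.lip.snd ζ) y⟩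
  have v5 : ∀ y, BV fun ζ => Bq ζ y := fun y =>
    ⟨cont_of_lip (h.lB.fst y), _, fun ζ => nrm_le_of_bd (h.sB ζ y)⟩
  have q1 : ∀ y, BC fun ζ => Er ζ y := fun y =>
    ⟨((h.lE.fst y).continuous.pow 2).congr fun ζ => sq_sqrt (hB ζ y).1, Bd, fun ζ => by
      rw [abs_of_nonneg (hB ζ y).1]; exact (hB ζ y).2.1⟩
  have q2 : ∀ y, BC fun ζ => exc η (U ζ y) := fun y => by
    simp only [exc_eq η0]; exact ((v2 y).sub (v3 y)).sq
  have gs : ∀ s y, grad (fun s => cav P (fun _ ζ => G ζ y) s) s =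
      cwv P P (rho k) (fun _ ζ => Pᵀ *ᵥ Conc.grad (fun ζ => G ζ y) ζ) s := fun s y => by
    rw [Gr n κ P _ _ L k (der_fst h.c1 y) (fun _ ζ => nrm_grad L0 (h.lip.fst y) ζ) hk s]
    ext j; simp [cwv, Rec.grad_const]
  have s1 : ∀ s y, cav P (fun _ ζ => nrm (Pᵀ *ᵥ Conc.grad (fun ζ => G ζ y) ζ) ^ 2) s ≤
      B ^ 2 * L ^ 2 := fun s y => cav_le (v1 y).sq fun ζ => by
    rw [← mul_pow]; exact pow_le_pow_left₀ (nrm_nonneg _) (n1 y ζ) 2
  -- the error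
  set c := exp (-(Λ ^ 2 / D ^ 2)) * L ^ 2 with hc
  have c0 : 0 ≤ c := by positivity
  have q3 : ∀ y, BC fun ζ => D ^ 2 * (c + Er ζ y + exc η (U ζ y)) := fun y =>
    bc_mul _ (bc_add (bc_add (bc_const c) (q1 y)) (q2 y))
  have f0 : ∀ ζ y, 0 ≤ D ^ 2 * (c + Er ζ y + exc η (U ζ y)) := fun ζ y =>
    mul_nonneg (sq_nonneg _) (add_nonneg (add_nonneg c0 (hB ζ y).1) (exc_nn _ _))
  have lf : JS (D * (3 * η)) fun ζ y => √(D ^ 2 * (c + Er ζ y + exc η (U ζ y))) := fun ζ y ζ' y' => by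
    have a1 := sqrt_add_lip (add_nonneg c0 (hB ζ y).1) (exc_nn η (U ζ y)) (add_nonneg c0 (hB ζ' y').1)
      (exc_nn η (U ζ' y'))
    have a2 := sqrt_add_lip c0 (hB ζ y).1 c0 (hB ζ' y').1
    have a3 := exc_lip η0 (U ζ y) (U ζ' y')
    have a4 := h.lU ζ y ζ' y'
    have a5 := h.lE ζ y ζ' y'
    rw [sub_self, abs_zero, zero_add] at a2
    simp only [sqrt_mul (sq_nonneg D), sqrt_sq (by linarith : 0 ≤ D), ← mul_sub, abs_mul,
      abs_of_nonneg (by linarith : 0 ≤ D), mul_assoc]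
    refine mul_le_mul_of_nonneg_left ?_ (by linarith)
    linarith
  have E0 : ∀ a, 0 ≤ a → a ≤ D ^ 2 → a * η ≤ D ^ 2 * exp (2 * Λ) * η := fun a a0 ha =>
    mul_le_mul_of_nonneg_right (ha.trans (le_mul_of_one_le_right (sq_nonneg D) x1)) η0
  have lipy : ∀ {w : ℝ → ℝ} {u : (κ → ℝ) → V n → V n}, Wg w →
      ∫ t, w (√k * t) ^ 2 ∂gaussianReal 0 1 ≤ Cw → (∀ y, BV fun ζ => u ζ y) →
      (∀ ζ y y', nrm (u ζ y - u ζ y') ≤ η * nrm (y - y')) → ∀ s y y',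
      nrm (cwv P P w (fun _ ζ => u ζ y) s - cwv P P w (fun _ ζ => u ζ y') s) ≤
        D ^ 2 * exp (2 * Λ) * η * nrm (y - y') := by
    intro w u hw hi hu hl s y y'
    rw [cw_sub_u hw (hu y) (hu y')]
    have a1 := (cs (s := s) Cs hk hw hi ((hu y).sub (hu y'))).trans (mul_le_mul_of_nonneg_left
      (cav_le ((hu y).sub (hu y')).sq fun ζ => pow_le_pow_left₀ (nrm_nonneg _) (hl ζ y y') 2)
      (by linarith))
    refine (le_of_sq (c := Cw) a1 (by nlinarith) (by linarith)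
      (mul_nonneg η0 (nrm_nonneg _))).trans ?_
    rw [← mul_assoc]
    exact mul_le_mul_of_nonneg_right (E0 Cw (by linarith) (by linarith)) (nrm_nonneg _)
  refine ⟨_, fun s y => cwv P P (rh k Λ) (fun _ ζ => cp η (U ζ y)) s,
    fun s y => cwv P P (fun _ => 1) (fun _ ζ => Bq ζ y) s, der_snd h.c1 L0 h.lip,
    fun s y => ⟨?_, ?_⟩, fun s y => ?_, ⟨fun y => ?_, ?_⟩, ⟨fun y => ?_, ?_⟩,
    ⟨fun y => ?_, fun s y y' => ?_, ?_⟩, fun s y => ?_, fun s y => ?_⟩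
  · rw [gs]
    refine le_of_sq (a := Cw * B ^ 2) ?_ (by linarith) (sq_nonneg D) L0
    rw [mul_assoc]
    exact (cs Cs hk g1 wi (v1 y)).trans (mul_le_mul_of_nonneg_left (s1 s y) (by linarith))
  · refine le_of_sq (a := 1) ?_ (by linarith) (sq_nonneg D) L0
    rw [one_mul]
    exact (cs_one Cs hk (v4 y)).trans (cav_le (v4 y).sq fun ζ =>
      pow_le_pow_left₀ (nrm_nonneg _) (nrm_grad L0 (h.lip.snd ζ) y) 2)
  · have t1 := (cs (s := s) Cs hk g3 wd (v1 y)).trans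
      (mul_le_mul_of_nonneg_left (s1 s y) (by positivity))
    have t2 := cs (s := s) Cs hk g2 i2 ((v1 y).sub (v2 y))
    have t3 := cs (s := s) Cs hk g2 i2 ((v2 y).sub (v3 y))
    have t4 := cs_one (s := s) Cs hk ((v4 y).sub (v5 y))
    have t5 := cav_mono (P := P) (s := s) (bc_add ((v1 y).sub (v2 y)).sq ((v4 y).sub (v5 y)).sq) (q1 y)
      fun ζ => h.app ζ y
    have t6 : cav P (fun _ ζ => nrm (((fun ζ => U ζ y) - fun ζ => cp η (U ζ y)) ζ) ^ 2) s =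
        cav P (fun _ ζ => exc η (U ζ y)) s := by simp only [exc_eq η0]; rfl
    rw [cav_add ((v1 y).sub (v2 y)).sq ((v4 y).sub (v5 y)).sq] at t5
    rw [← cw_sub_w g1 g2 (v1 y)] at t1
    rw [← cw_sub_u g2 (v1 y) (v2 y)] at t2
    rw [← cw_sub_u g2 (v2 y) (v3 y), t6] at t3
    rw [gs, cw_sub_u wg_one (v4 y) (v5 y), cav_mul, cav_add (bc_add (bc_const c) (q1 y)) (q2 y),
      cav_add (bc_const c) (q1 y), cav_const]
    have p2 := cav_nn (P := P) (s := s) fun ζ => sq_nonneg (nrm (((fun ζ => Pᵀ *ᵥ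
      Conc.grad (fun ζ => G ζ y) ζ) - fun ζ => U ζ y) ζ))
    have p4 := cav_nn (P := P) (s := s) fun ζ => sq_nonneg (nrm (((fun ζ => Conc.grad (G ζ) y) -
      fun ζ => Bq ζ y) ζ))
    have p3 := cav_nn (P := P) (s := s) fun ζ => exc_nn η (U ζ y)
    have x2 : exp (-(Λ ^ 2 / Cw)) * L ^ 2 ≤ c := mul_le_mul_of_nonneg_right (exp_le_exp.2
      (neg_le_neg (div_le_div_of_nonneg_left (sq_nonneg Λ) (by linarith) (by linarith)))) (sq_nonneg L)
    generalize cwv P P (rho k) (fun _ ζ => Pᵀ *ᵥ Conc.grad (fun ζ => G ζ y) ζ) s = a0 at *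
    generalize cwv P P (rh k Λ) (fun _ ζ => Pᵀ *ᵥ Conc.grad (fun ζ => G ζ y) ζ) s = a1 at *
    generalize cwv P P (rh k Λ) (fun _ ζ => U ζ y) s = a2 at *
    generalize cwv P P (rh k Λ) (fun _ ζ => cp η (U ζ y)) s = a3 at *
    have u1 := sq_add_le (a0 - a1) (a1 - a2 + (a2 - a3))
    have u2 := sq_add_le (a1 - a2) (a2 - a3)
    rw [show a0 - a1 + (a1 - a2 + (a2 - a3)) = a0 - a3 by abel] at u1
    have u3 := mul_le_mul_of_nonneg_left x2 wB
    have u4 := mul_le_mul_of_nonneg_right (show 2 * (Cw * B ^ 2) ≤ D ^ 2 by linarith) c0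
    have u5 := mul_le_mul_of_nonneg_right (show 4 * Cw ≤ D ^ 2 by linarith) p2
    have u6 := mul_le_mul_of_nonneg_right (show 4 * Cw ≤ D ^ 2 by linarith) p3
    have u7 := mul_le_mul_of_nonneg_right (show 1 ≤ D ^ 2 by linarith) p4
    have u8 := mul_le_mul_of_nonneg_left t5 (sq_nonneg D)
    nlinarith
  · refine R0.mono (Rf n κ P P _ _ _ η hP hP w2 (rf_free η0 (fun ζ => abs_cp_le η0 _) (l3 y))) ?_
    rw [← mul_assoc]
    gcongr; linarith
  · exact lipy (u := fun ζ y => cp η (U ζ y)) g2 i2 v3 fun ζ y y' =>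
      (cp_lip _ _ _).trans (h.lU.snd ζ y y')
  · refine R0.mono (Rf n κ P P (fun _ => 1) _ 1 η hP hP ⟨differentiable_const _, fun _ _ => by simp⟩
      (rf_free η0 (fun ζ => h.sB ζ y) (h.lB.fst y))) ?_
    exact E0 _ (by linarith) (by nlinarith)
  · exact lipy wg_one (by simpa using w1) v5 h.lB.snd
  · refine SB.mono (Re n κ P _ (D * (3 * η)) hP (by positivity) ⟨fun ζ s => ⟨f0 ζ y, ?_⟩,
      fun _ => lf.fst y, ?_⟩) (pow_le_pow_left₀ (by positivity) ?_ 2)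
    · simp only [Vp, sub_self, max_self, ne_eq, two_ne_zero, not_false_eq_true, zero_pow, sum_const_zero]
      exact mul_nonneg (sq_nonneg _) (f0 ζ y)
    · obtain ⟨-, B', k⟩ := q3 y
      exact ⟨B', fun _ ζ => (le_abs_self _).trans (k ζ)⟩
    · exact le_of_eq_of_le (by ring) (E0 (3 * Ce * D) (by positivity) (by nlinarith))
  · have d0 : 0 ≤ D * (3 * η) * en (y - y') := mul_nonneg (by positivity) (Conc.en_nonneg _)
    have m1 := mink (P := P) (s := s) (q3 y) (q3 y') (fun ζ => f0 ζ y') d0 fun ζ => by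
      linarith [(abs_le.1 (lf.snd ζ y y')).2]
    have m2 := mink (P := P) (s := s) (q3 y') (q3 y) (fun ζ => f0 ζ y) d0 fun ζ => by
      linarith [(abs_le.1 (lf.snd ζ y y')).1]
    refine (abs_le.2 ⟨by linarith, by linarith⟩ : _ ≤ D * (3 * η) * en (y - y')).trans
      (mul_le_mul_of_nonneg_right ?_ (Conc.en_nonneg _))
    exact le_of_eq_of_le (by ring) (E0 (3 * D) (by positivity) (by nlinarith))
  · refine ⟨D ^ 2 * (c + Bd + Bd ^ 2), fun s y => cav_le (q3 y) fun ζ => ?_⟩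
    have := (exc_le η0 (U ζ y)).trans (pow_le_pow_left₀ (nrm_nonneg _) (hB ζ y).2.2 2)
    exact mul_le_mul_of_nonneg_left (by linarith [(hB ζ y).2.1]) (sq_nonneg D)
  · exact cw_odd _ fun ζ => by rw [h.oU, cp_neg η0]
  · exact cw_odd _ fun ζ => h.oB ζ y

end Crest.Agent.T157.K.Ba66

end
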