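import Crest.Agent.T157.KBaT_66

/-!
# Row 157, block S5 (helper66): assembly of the base of the backward pass
-/

set_option autoImplicit false
set_option linter.unusedSectionVars false

noncomputable section

namespace Crest.Agent.T157.K.Ba66

open MeasureTheory ProbabilityTheory Real Matrix Finset Filter
open Crest.Agent.T157.E Crest.Agent.T157.Eig
open Crest.Agent.T157.Tap (V Mx th DD)
open Crest.Agent.T157.Reg (jac)
open Crest.Agent.T157.Conc (ELip)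
open Crest.Agent.T157.K.Tl48 (nrm_inl nrm_elim fub wt_is)

variable {n : ℕ} {κ ι : Type} [Fintype κ] [DecidableEq κ] [Fintype ι] [DecidableEq ι]

lemma opn_rows {P : Matrix κ (Fin n) ℝ} {R : Matrix ι (Fin n) ℝ} {a b : ℝ} (h : opn P ≤ a)
    (k : opn R ≤ b) : opn (fromRows P R) ≤ a + b :=
  opn_le_of_nrm (add_nonneg ((opn_nonneg _).trans h) ((opn_nonneg _).trans k)) fun v => by
    rw [fromRows_mulVec, add_mul]
    exact (nrm_elim _ _).trans (add_le_add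
      ((nrm_mulVec_le _ _).trans (mul_le_mul_of_nonneg_right h (nrm_nonneg _)))
      ((nrm_mulVec_le _ _).trans (mul_le_mul_of_nonneg_right k (nrm_nonneg _))))

lemma Ct.mono {P : Matrix κ (Fin n) ℝ} {G Er : (κ → ℝ) → V n → ℝ} {U Bq : (κ → ℝ) → V n → V n}
    {L L' η η' : ℝ} (h : Ct P G U Bq Er L η) (l : L ≤ L') (k : η ≤ η') : Ct P G U Bq Er L' η' :=
  have D0 : ∀ (ζ ζ' : κ → ℝ) (y y' : V n), 0 ≤ nrm (ζ - ζ') + nrm (y - y') :=
    fun _ _ _ _ => add_nonneg (nrm_nonneg _) (nrm_nonneg _)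
  ⟨h.c1, fun _ _ _ _ => (h.lip _ _ _ _).trans (mul_le_mul_of_nonneg_right l (D0 _ _ _ _)), h.app,
    fun _ _ _ _ => (h.lU _ _ _ _).trans (mul_le_mul_of_nonneg_right k (D0 _ _ _ _)),
    fun _ _ _ _ => (h.lB _ _ _ _).trans (mul_le_mul_of_nonneg_right k (D0 _ _ _ _)),
    fun _ _ _ _ => (h.lE _ _ _ _).trans (mul_le_mul_of_nonneg_right k (D0 _ _ _ _)),
    fun _ _ _ => (h.sB _ _ _).trans k, h.oU, h.oB, h.bd⟩

lemma y_lip (r : ℝ) (ζ ζ' : κ ⊕ Fin n → ℝ) :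
    nrm (√r • z2 ζ - √r • z2 ζ') ≤ √r * nrm (ζ - ζ') := by
  rw [← smul_sub, nrm_smul, abs_of_nonneg (sqrt_nonneg r)]
  exact mul_le_mul_of_nonneg_left (nrm_inl (ζ - ζ')).2 (sqrt_nonneg r)

lemma d3 (r : ℝ) {M : ℝ} (hM : 0 ≤ M) (ζ ζ' : κ ⊕ Fin n → ℝ) :
    M * (nrm (z1 ζ - z1 ζ') + nrm (√r • z2 ζ - √r • z2 ζ')) ≤ M * (1 + √r) * nrm (ζ - ζ') := by
  rw [mul_assoc, add_mul, one_mul]
  exact mul_le_mul_of_nonneg_left (add_le_add (nrm_inl (ζ - ζ')).1 (y_lip r ζ ζ')) hM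

lemma pm_cav (J : Mx n) (P : Matrix κ (Fin n) ℝ) {r : ℝ} (r0 : 0 ≤ r) (H : (κ → ℝ) → V n → ℝ)
    (h : BC fun ζ : κ ⊕ Fin n → ℝ => H (z1 ζ) (√r • z2 ζ)) :
    PM J r (fun s y => cav P (fun _ ζ => H ζ y) s) =
      mean (ising J 0) (cav (fromRows P (√r • (1 : Mx n))) fun _ ζ => H (z1 ζ) (√r • z2 ζ)) := by
  obtain ⟨hc, B, hb⟩ := h
  refine Finset.sum_congr rfl fun s _ => congrArg _ ?_
  rw [cav, fub (F := fun z => H (z1 (fromRows P (√r • (1 : Mx n)) *ᵥ sv s + z))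
    (√r • z2 (fromRows P (√r • (1 : Mx n)) *ᵥ sv s + z)))
    (hc.comp (continuous_const.add continuous_id)) fun z => hb _]
  refine integral_congr_ae (.of_forall fun g => integral_congr_ae (.of_forall fun z => ?_))
  have e2 : √r • z2 (fromRows P (√r • (1 : Mx n)) *ᵥ sv s + Sum.elim z g) = r • sv s + √r • g := by
    ext i
    simp only [z2, fromRows_mulVec, smul_mulVec, one_mulVec, Pi.smul_apply, Pi.add_apply,
      Sum.elim_inr, smul_eq_mul, mul_add, ← mul_assoc, mul_self_sqrt r0]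
  have e3 : z1 (fromRows P (√r • (1 : Mx n)) *ᵥ sv s + Sum.elim z g) = P *ᵥ sv s + z := by
    ext i; simp only [z1, fromRows_mulVec, Pi.add_apply, Sum.elim_inl]
  simp only [e2, e3]

lemma cav_comb {P : Matrix κ (Fin n) ℝ} {f g : (κ → ℝ) → ℝ} (hf : BC f) (hg : BC g) (C c : ℝ) :
    cav P (fun _ ζ => C * (c + f ζ + g ζ)) =
      fun s => C * (c + cav P (fun _ => f) s + cav P (fun _ => g) s) := funext fun s => by
  have i : Integrable (fun z => c + f (P *ᵥ sv s + z)) (gv κ) := (integrable_const c).add (hf.int _)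
  rw [cav, integral_const_mul, integral_add i (hg.int _), integral_add (integrable_const c) (hf.int _)]
  simp [cav]

lemma BC.comb {f g : (κ → ℝ) → ℝ} (hf : BC f) (hg : BC g) (C c : ℝ) :
    BC fun ζ => C * (c + f ζ + g ζ) := by
  obtain ⟨cf, A, a⟩ := hf
  obtain ⟨cg, B, b⟩ := hg
  refine ⟨by fun_prop, |C| * (|c| + A + B), fun ζ => ?_⟩
  rw [abs_mul]
  exact mul_le_mul_of_nonneg_left ((abs_add_three _ _ _).trans (by linarith [a ζ, b ζ])) (abs_nonneg _)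

lemma le_ex {a Λ : ℝ} (a0 : 0 ≤ a) (h : 1 ≤ Λ) : a ≤ exp (a * Λ) :=
  (le_mul_of_one_le_right a0 h).trans (by linarith [add_one_le_exp (a * Λ)])

lemma tl {a C Λ : ℝ} (a1 : 1 ≤ a) (h : a ≤ C) : exp (-(Λ ^ 2 / a)) ≤ exp (-(Λ ^ 2 / C)) :=
  exp_le_exp.2 (neg_le_neg (div_le_div_of_nonneg_left (sq_nonneg _) (by linarith) h))

theorem base (ch : ChanStmt) (rp : RepStmt) (cc : ConcStmt) (rv : RevStmt) (bp : BpStmt) :
    BaseStmt := by
  intro m E hN hD K0 r r0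
  have q0 := sqrt_nonneg r
  have a0 := abs_nonneg aa
  obtain ⟨Cb, b1, bp⟩ := bp m E hN hD (|aa| + 1) K0 (|aa| + 4 + √r)
  obtain ⟨Cc, c1, ch⟩ := ch 5
  obtain ⟨Ck, k1, cc⟩ := cc K0 (|aa| + 4 + √r)
  obtain ⟨c, d1, ct⟩ := certStmt
  have cb : 1 ≤ c * Cb := one_le_mul_of_one_le_of_one_le d1 b1
  obtain ⟨a, ha⟩ : ∃ a, a = c * Cb * (1 + √r) := ⟨_, rfl⟩
  have la : c * Cb ≤ a := ha ▸ le_mul_of_one_le_right (by linarith) (by linarith)
  have a1 : 1 ≤ a := cb.trans la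
  obtain ⟨K, hK⟩ : ∃ K, K = Cc * (a ^ 2 + 49 + Ck * a ^ 2) := ⟨_, rfl⟩
  have K0' : 0 ≤ K := by rw [hK]; positivity
  have ca : Cc ≤ Cc * a := le_mul_of_one_le_right (by linarith) a1
  obtain ⟨C, hC⟩ : ∃ C, C = K + Cc * a + 3 + 2 * Cb + Ck := ⟨_, rfl⟩
  refine ⟨C, by linarith, fun n J Q jq Λ l1 => ?_⟩
  obtain ⟨q1, q2, q3⟩ := rv.opQ n J Q jq
  obtain ⟨hE, bp⟩ := bp n J
  obtain ⟨Bx, By, Er, hB, bp⟩ := bp Λ l1
  have l0 : 0 ≤ Λ := by linarith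
  have N1 : 1 ≤ exp (Cb * Λ) := one_le_exp (by positivity)
  obtain ⟨N, hN⟩ : ∃ N, N = exp (Cb * Λ) := ⟨_, rfl⟩
  have ct := ct n Q _ Bx By Er Cb _ jq.qs q1 q2 b1 N1 hE hB
  rw [← hN] at ct N1
  have e0 : 0 < a * N := by positivity
  have M0 : 0 ≤ c * Cb * N := by positivity
  have eM : c * Cb * N * (1 + √r) = a * N := by rw [ha]; ring
  have p4 : opn (PP Q) ≤ 3 + 1 := opn_rows q1 opn_one_le
  obtain ⟨g, ω, β, hS⟩ := ch n _ (PP Q) 5 (a * √n) Λ (Λ * (a * N)) _ _ _ _ (by linarith) (by norm_num)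
    le_rfl (fun j => by
      rw [PP, transpose_fromRows, fromCols_mul_fromRows, Matrix.add_apply, q3]; norm_num)
    (by positivity) l1 (by positivity) (ct.mono (mul_le_mul_of_nonneg_right la (sqrt_nonneg _))
      ((mul_le_mul_of_nonneg_right la (by linarith)).trans (le_mul_of_one_le_left e0.le l1)))
  rw [← rp n Q _ _ hE] at hS
  refine ⟨g, ω, β, _, BS.mono hS (by positivity) ?_ ?_, fun hat => ?_⟩
  · have h1 := le_ex (a := Cc * a) (by linarith) l1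
    have h2 : Λ ≤ exp Λ := by linarith [add_one_le_exp Λ]
    calc _ = Cc * a * Λ * exp (2 * Λ) * N := by ring
      _ ≤ exp (Cc * a * Λ) * exp Λ * exp (2 * Λ) * exp (Cb * Λ) := by rw [hN]; gcongr
      _ ≤ _ := by
        rw [← exp_add, ← exp_add, ← exp_add, exp_le_exp, hC]
        nlinarith [mul_nonneg K0' l0, mul_nonneg (zero_le_one.trans b1) l0,
          mul_nonneg (zero_le_one.trans k1) l0]
  · rw [← mul_assoc]; exact mul_le_mul_of_nonneg_right (by linarith) (sqrt_nonneg _)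
  obtain ⟨B, hb⟩ := ct.bd
  have η0 : 0 ≤ Λ * (a * N) := by positivity
  have lU : ∀ ζ ζ' : (Fin n ⊕ Fin n) ⊕ Fin n → ℝ, nrm (UU Q (Eh E n J) Bx (z1 ζ) (√r • z2 ζ) -
      UU Q (Eh E n J) Bx (z1 ζ') (√r • z2 ζ')) ≤ a * N * nrm (ζ - ζ') := fun ζ ζ' =>
    (ct.lU _ _ _ _).trans (eM ▸ d3 r M0 ζ ζ')
  have bE : BC fun ζ : (Fin n ⊕ Fin n) ⊕ Fin n → ℝ => EE Q Er (z1 ζ) (√r • z2 ζ) := by
    have : ELip (a * N) fun ζ : (Fin n ⊕ Fin n) ⊕ Fin n → ℝ => √(EE Q Er (z1 ζ) (√r • z2 ζ)) :=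
      fun ζ ζ' => (ct.lE _ _ _ _).trans (by rw [en_eq, ← eM]; exact d3 r M0 ζ ζ')
    exact ⟨(this.continuous.pow 2).congr fun ζ => sq_sqrt (hb _ _).1, B, fun ζ => by
      rw [abs_of_nonneg (hb _ _).1]; exact (hb _ _).2.1⟩
  have bX : BC fun ζ : (Fin n ⊕ Fin n) ⊕ Fin n → ℝ =>
      exc (Λ * (a * N)) (UU Q (Eh E n J) Bx (z1 ζ) (√r • z2 ζ)) :=
    ⟨(Tl48.exc_cont _).comp (cont_of_lip lU), B ^ 2, fun ζ => (Tl48.exc_le η0 _).trans
      (pow_le_pow_left₀ (nrm_nonneg _) (hb _ _).2.2 2)⟩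
  have ea : EA (ising J 0) K0 :=
    ⟨fun _ => exp_pos _, fun s => by simp [ising, sv_neg, mulVec_neg], hat⟩
  have p3 : opn (fromRows (PP Q) (√r • (1 : Mx n))) ≤ |aa| + 4 + √r :=
    (opn_rows p4 (b := √r) (by
      rw [opn_smul, abs_of_nonneg q0]; exact mul_le_of_le_one_right q0 opn_one_le)).trans (by linarith)
  have yn : ∀ ζ : (Fin n ⊕ Fin n) ⊕ Fin n → ℝ, √r • z2 (-ζ) = -(√r • z2 ζ) := fun ζ => smul_neg _ _
  have t1 := bp _ _ _ (fun ζ => Q *ᵥ z1 (z1 ζ)) (fun ζ => √r • z2 ζ)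
    (fun ζ => vv Q (z1 ζ) (√r • z2 ζ)) ea p3
    ⟨fun ζ => x_neg _, fun ζ ζ' => (x_lip q1 _ _).trans
      (mul_le_mul (by linarith) (nrm_inl (ζ - ζ')).1 (nrm_nonneg _) (by linarith))⟩
    ⟨yn, fun ζ ζ' => (y_lip r ζ ζ').trans (mul_le_mul_of_nonneg_right (by linarith) (nrm_nonneg _))⟩
    ⟨fun ζ => by simp only [yn]; exact v_neg _ _, fun ζ ζ' => (v_lip q1 _ _ _ _).trans (by
      have h1 : nrm (z1 ζ - z1 ζ') ≤ nrm (ζ - ζ') := (nrm_inl (ζ - ζ')).1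
      nlinarith [y_lip r ζ ζ', nrm_nonneg (ζ - ζ')])⟩
  have t2 := cc n _ _ _ (fun _ ζ => UU Q (Eh E n J) Bx (z1 ζ) (√r • z2 ζ)) (a * N) _ ea p3 e0 η0
    (fun _ ζ => by simp only [yn]; exact ct.oU _ _)
    (fun s ζ => by
      rw [show jac (fun _ : Cube n => UU Q (Eh E n J) Bx (z1 ζ) (√r • z2 ζ)) s = 0 from by
        ext; simp [jac], opn_zero]; exact e0.le) fun _ => lU
  rw [mul_div_cancel_right₀ _ e0.ne'] at t2
  rw [pm_cav J (PP Q) r0 (fun ζ y => Cc * (exp (-(Λ ^ 2 / Cc)) * (a * √n) ^ 2 + EE Q Er ζ y +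
    exc (Λ * (a * N)) (UU Q (Eh E n J) Bx ζ y))) (bE.comb bX _ _), cav_comb bE bX, SL.mean_const_mul,
    SL.mean_add, SL.mean_add, (wt_is J 0).mean_const]
  have e49 : (cav (fromRows (PP Q) (√r • (1 : Mx n))) fun _ ζ => EE Q Er (z1 ζ) (√r • z2 ζ)) =
      fun s => 49 * cav (fromRows (PP Q) (√r • (1 : Mx n))) (fun _ ζ => Er (Q *ᵥ z1 (z1 ζ)) (√r • z2 ζ)
        (vv Q (z1 ζ) (√r • z2 ζ))) s := funext fun s => integral_const_mul _ _
  simp only [e49]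
  rw [SL.mean_const_mul, mul_pow, sq_sqrt n.cast_nonneg]
  rw [sub_eq_add_neg, exp_add, ← hN] at t1
  have T := exp_pos (-(Λ ^ 2 / C))
  have u1 := tl (Λ := Λ) c1 (show Cc ≤ C by linarith)
  have u2 := tl (Λ := Λ) b1 (show Cb ≤ C by linarith)
  have u3 := tl (Λ := Λ) k1 (show Ck ≤ C by linarith)
  have NN : 1 ≤ N ^ 2 := one_le_pow₀ N1
  have N2 : N ≤ N ^ 2 := by nlinarith
  have h1 := le_ex K0' l1
  calc _ ≤ Cc * (exp (-(Λ ^ 2 / C)) * (a ^ 2 * n) * N ^ 2 + 49 * (n * (N ^ 2 * exp (-(Λ ^ 2 / C)))) +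
        Ck * n * (a * N) ^ 2 * exp (-(Λ ^ 2 / C))) := by
        refine mul_le_mul_of_nonneg_left (add_le_add (add_le_add ?_ ?_) (t2.trans ?_)) (by linarith)
        · exact (mul_le_mul_of_nonneg_right u1 (by positivity)).trans
            (le_mul_of_one_le_right (by positivity) NN)
        · exact mul_le_mul_of_nonneg_left (t1.trans (by gcongr)) (by norm_num)
        · gcongr
    _ = n * (K * N ^ 2 * exp (-(Λ ^ 2 / C))) := by rw [hK]; ring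
    _ ≤ n * (exp (K * Λ) * exp (Cb * Λ) ^ 2 * exp (-(Λ ^ 2 / C))) := by rw [hN]; gcongr
    _ ≤ _ := by
      rw [sq (exp _), ← exp_add, ← exp_add, ← exp_add]
      refine mul_le_mul_of_nonneg_left (exp_le_exp.2 ?_) n.cast_nonneg
      have : (K + 2 * Cb) * Λ ≤ C * Λ := mul_le_mul_of_nonneg_right (by linarith) l0
      linarith

end Crest.Agent.T157.K.Ba66

end
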