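import Crest.Agent.T157.KBaA_66

/-!
# Row 157, block S5 (helper53): the one-step observable as a spin-free channel average
-/

set_option autoImplicit false

noncomputable section

namespace Crest.Agent.T157.K.Ba66

open MeasureTheory ProbabilityTheory Real Matrix Finset Filter
open Crest.Agent.T157.E Crest.Agent.T157.Eig
open Crest.Agent.T157.Tap (V Mx th)

namespace R53

lemma cont_tanh : Continuous tanh :=
  continuous_iff_continuousAt.2 fun x => (Da.Gr.hasDerivAt_tanh x).continuousAt

lemma int_tanh {α : Type} [MeasurableSpace α] [TopologicalSpace α] [OpensMeasurableSpace α]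
    {μ : Measure α} [IsFiniteMeasure μ] {f : α → ℝ} (hf : Continuous f) :
    Integrable (fun t => tanh (f t)) μ :=
  (integrable_const 1).mono' (cont_tanh.comp hf).stronglyMeasurable.aestronglyMeasurable
    (.of_forall fun _ => (abs_tanh_lt_one _).le)

instance : (gaussianReal 0 1).IsNegInvariant :=
  ⟨by simpa [Measure.neg] using gaussianReal_map_neg (μ := 0) (v := 1)⟩

lemma int_neg : ∫ t, tanh (-1 + t) ∂gaussianReal 0 1 = -∫ t, tanh (1 + t) ∂gaussianReal 0 1 := by
  rw [← integral_neg, ← integral_neg_eq_self]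
  simp only [← neg_add, tanh_neg]

lemma int_pos : 0 < ∫ t, tanh (1 + t) ∂gaussianReal 0 1 := by
  have p : ∀ t : ℝ, 0 < tanh (1 + t) - tanh (-1 + t) := fun t => by
    obtain ⟨ξ, -, h⟩ := Da.Gr.mvt (1 + t) (-1 + t)
    rw [h]
    exact mul_pos (by linarith) (sub_pos.2 (tanh_sq_lt_one ξ))
  have i1 := int_tanh (μ := gaussianReal 0 1) (f := fun t => 1 + t) (by fun_prop)
  have i2 := int_tanh (μ := gaussianReal 0 1) (f := fun t => -1 + t) (by fun_prop)
  have := (integral_pos_iff_support_of_nonneg (μ := gaussianReal 0 1) (fun t => (p t).le)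
    (i1.sub i2)).2 (by
      rw [(Set.eq_univ_of_forall fun t => (p t).ne' : Function.support _ = _)]; simp)
  rw [integral_sub i1 i2, int_neg] at this
  linarith

lemma int_spin {n : ℕ} (s : Cube n) (i : Fin n) :
    aa * ∫ z, tanh (sv s i + z i) ∂gv (Fin n) = sv s i := by
  rw [show ∫ z, tanh (sv s i + z i) ∂gv (Fin n) = ∫ t, tanh (sv s i + t) ∂gaussianReal 0 1 from
    integral_comp_eval (μ := fun _ => gaussianReal 0 1) (i := i) (f := fun t : ℝ => tanh (sv s i + t))
      (cont_tanh.comp (continuous_const_add _)).aestronglyMeasurable, aa]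
  rcases mul_self_eq_one_iff.1 (Rec.sv_mul_self s i) with e | e <;> rw [e]
  · exact inv_mul_cancel₀ int_pos.ne'
  · rw [int_neg, mul_neg, inv_mul_cancel₀ int_pos.ne']

end R53

open R53

theorem repStmt : RepStmt := by
  intro n Q E M hE
  funext s y
  have c : Continuous fun x => E x y :=
    cont_of_lip (M := M) fun x x' => by simpa [nrm_zero] using hE.lip x y x' y
  have ct := cont_tanh
  refine Eq.trans ?_ (cav_rows (P := Q) (P' := 1) (s := s)
    (fun a b => E (Q *ᵥ a) y ⬝ᵥ (aa • th b - pt Q y a)) ?_).symm
  · refine integral_congr_ae (.of_forall fun z => ?_)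
    have i := fun j => (int_tanh (μ := gv (Fin n)) (f := fun z => sv s j + z j)
      (by fun_prop)).const_mul aa
    simp only [dotProduct, one_mulVec, Pi.sub_apply, Pi.smul_apply, th, Pi.add_apply, smul_eq_mul]
    refine Eq.trans (sum_congr rfl fun j _ => ?_)
      (integral_finsetSum _ fun j _ => ((i j).sub (integrable_const _)).const_mul _).symm
    simp only [Pi.sub_apply]
    rw [integral_const_mul, integral_sub (i j) (integrable_const _), integral_const_mul, int_spin]
    simp
  · refine (integrable_const (∑ _j : Fin n, M * (|aa| + 1))).mono'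
      (Continuous.aestronglyMeasurable ?_) (.of_forall fun p => ?_)
    · simp only [dotProduct, pt, th, Pi.sub_apply, Pi.smul_apply]
      fun_prop
    · refine (abs_sum_le_sum_abs _ _).trans (sum_le_sum fun j _ => ?_)
      rw [abs_mul]
      refine mul_le_mul (hE.sup _ _ _) ((abs_sub _ _).trans (add_le_add ?_ (abs_tanh_lt_one _).le))
        (abs_nonneg _) ((abs_nonneg _).trans (hE.sup 0 0 j))
      rw [Pi.smul_apply, smul_eq_mul, abs_mul]
      exact mul_le_of_le_one_right (abs_nonneg _) (abs_tanh_lt_one _).le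

end Crest.Agent.T157.K.Ba66

end
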