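import Crest.Agent.T157.KBaA_66
import Crest.Agent.T157.KTl_48

/-!
# Row 157, block S5 (helper66): the certificate of the one-step integrand
-/

set_option autoImplicit false
set_option linter.unusedSectionVars false

noncomputable section

namespace Crest.Agent.T157.K.Ba66

open MeasureTheory ProbabilityTheory Real Matrix Finset Filter
open Crest.Agent.T157.E Crest.Agent.T157.Eig
open Crest.Agent.T157.Tap (V Mx th DD)
open Crest.Agent.T157.K.Tl48 (nrm_inl abs_DD th_lip DD_lip)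
open Crest.Agent.T157.Z.L85 (nrm_le_of_bd)

variable {n : ℕ} {κ : Type} [Fintype κ] [DecidableEq κ]

lemma cd_tanh : ContDiff ℝ 1 tanh := by
  rw [show tanh = fun x => sinh x / cosh x from funext tanh_eq_sinh_div_cosh]
  exact contDiff_sinh.div contDiff_cosh fun x => (cosh_pos x).ne'

lemma hd_tanh (x : ℝ) : HasDerivAt tanh (1 - tanh x ^ 2) x := by
  have c := (cosh_pos x).ne'
  have h := (hasDerivAt_sinh x).div (hasDerivAt_cosh x) c
  have e : tanh = sinh / cosh := funext tanh_eq_sinh_div_cosh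
  rw [← e] at h
  refine h.congr_deriv ?_
  rw [tanh_eq_sinh_div_cosh]; field_simp

lemma hd_th (a d : ℝ) : HasDerivAt (fun t : ℝ => tanh (a + t * d)) ((1 - tanh a ^ 2) * d) 0 := by
  have := (hd_tanh (a + 0 * d)).comp (0 : ℝ) (((hasDerivAt_id' (0 : ℝ)).mul_const d).const_add a)
  rw [zero_mul, add_zero, one_mul] at this
  exact this

lemma hl {W : Type} [NormedAddCommGroup W] [NormedSpace ℝ W] {F : (κ → ℝ) → W}
    (hF : Differentiable ℝ F) (x d : κ → ℝ) :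
    HasDerivAt (fun t : ℝ => F (x + t • d)) (fderiv ℝ F x d) 0 :=
  (hF x).hasFDerivAt.hasLineDerivAt d

lemma line0 {F : V n → V n} (hF : Differentiable ℝ F) (x d : V n) {v : ℝ → V n} {v' : V n}
    (hv : ∀ i, HasDerivAt (fun t => v t i) (v' i) 0) :
    HasDerivAt (fun t : ℝ => F (x + t • d) ⬝ᵥ v t) (fderiv ℝ F x d ⬝ᵥ v 0 + F x ⬝ᵥ v') 0 := by
  have := HasDerivAt.fun_sum (u := univ) fun i _ => ((hasDerivAt_pi.1 (hl hF x d)) i).fun_mul (hv i)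
  simpa [dotProduct, sum_add_distrib] using this

lemma line {F : V n → V n} (hF : Differentiable ℝ F) (x d : V n) {v : ℝ → V n} {v' : V n}
    (hv : ∀ i, HasDerivAt (fun t => v t i) (v' i) 0) :
    HasDerivAt (fun t : ℝ => F (x + t • d) ⬝ᵥ v t)
      (Conc.grad (fun x => v 0 ⬝ᵥ F x) x ⬝ᵥ d + F x ⬝ᵥ v') 0 := by
  have h1 := line0 hF x d (v := fun _ => v 0) (v' := 0) fun _ => hasDerivAt_const _ _
  have h2 := hl (F := fun x => v 0 ⬝ᵥ F x) (by unfold dotProduct; fun_prop) x d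
  simp only [dotProduct_comm (v 0)] at h2 ⊢
  have := h2.unique h1
  rw [Conc.fderiv_eq_dot, dotProduct_zero, add_zero] at this
  rw [show Conc.grad (fun x => F x ⬝ᵥ v 0) x ⬝ᵥ d = _ from this]
  exact line0 hF x d hv

lemma eq_of_dot {u v : V n} (h : ∀ w, u ⬝ᵥ w = v ⬝ᵥ w) : u = v :=
  funext fun i => by simpa using h (Pi.single i 1)

variable {Q : Mx n} {E : V n → V n → V n}

lemma gg_c1 (h : ContDiff ℝ 1 fun p : V n × V n => E p.1 p.2) :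
    ContDiff ℝ 1 fun p : (Fin n ⊕ Fin n → ℝ) × V n => GG Q E p.1 p.2 := by
  have q : ContDiff ℝ 1 fun p : (Fin n ⊕ Fin n → ℝ) × V n => Q *ᵥ z1 p.1 :=
    contDiff_pi.2 fun i => by simp only [mulVec, dotProduct, z1]; fun_prop
  have e := h.comp (q.prodMk contDiff_snd)
  refine ContDiff.sum (s := univ) (f := fun i (p : (Fin n ⊕ Fin n → ℝ) × V n) =>
    E (Q *ᵥ z1 p.1) p.2 i * vv Q p.1 p.2 i) fun i _ => (contDiff_pi.1 e i).mul ?_
  exact (contDiff_const.mul (cd_tanh.comp (f := fun p : (Fin n ⊕ Fin n → ℝ) × V n => p.1 (.inr i))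
    (by fun_prop))).sub (cd_tanh.comp (contDiff_pi.1 (contDiff_snd.add q) i))

lemma grad_z (hs : Qᵀ = Q) (h : ContDiff ℝ 1 fun p : V n × V n => E p.1 p.2)
    (ζ : Fin n ⊕ Fin n → ℝ) (y : V n) : (PP Q)ᵀ *ᵥ Conc.grad (fun ζ => GG Q E ζ y) ζ =
      (Q * Q) *ᵥ (Conc.grad (fun x => vv Q ζ y ⬝ᵥ E x y) (Q *ᵥ z1 ζ) -
        DD (pt Q y (z1 ζ)) * E (Q *ᵥ z1 ζ) y) + aa • (DD (th (z2 ζ)) * E (Q *ᵥ z1 ζ) y) := by
  refine eq_of_dot fun w => ?_
  have h1 := hl (F := fun ζ => GG Q E ζ y)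
    (((gg_c1 h).comp (contDiff_id.prodMk contDiff_const)).differentiable one_ne_zero) ζ (PP Q *ᵥ w)
  have a1 : ∀ t : ℝ, Q *ᵥ z1 (ζ + t • PP Q *ᵥ w) = Q *ᵥ z1 ζ + t • (Q * Q) *ᵥ w := fun t => by
    rw [← mulVec_mulVec, ← mulVec_smul Q, ← mulVec_add]
    exact congrArg _ (funext fun i => by simp [z1, PP])
  have h2 := line (F := fun x => E x y)
    ((h.comp (contDiff_id.prodMk contDiff_const)).differentiable one_ne_zero) (Q *ᵥ z1 ζ)
    ((Q * Q) *ᵥ w) (v := fun t => vv Q (ζ + t • PP Q *ᵥ w) y)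
    (v' := aa • (DD (th (z2 ζ)) * w) - DD (pt Q y (z1 ζ)) * (Q * Q) *ᵥ w) fun i => by
      have := ((hd_th (z2 ζ i) (w i)).const_mul aa).sub
        (hd_th ((y + Q *ᵥ z1 ζ) i) (((Q * Q) *ᵥ w) i))
      refine (this.congr_of_eventuallyEq (.of_forall fun t => ?_)).congr_deriv rfl
      simp only [vv, pt, a1]
      simp [th, z2, PP, add_assoc]
  simp only [GG, a1] at h1
  have := h1.unique h2
  rw [Conc.fderiv_eq_dot] at this
  have qq : (Q * Q)ᵀ = Q * Q := by rw [transpose_mul, hs]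
  rw [mulVec_transpose, ← dotProduct_mulVec, add_dotProduct, ← qq, mulVec_transpose,
    ← dotProduct_mulVec]
  refine Eq.trans this ?_
  simp only [zero_smul, add_zero, dotProduct, ← sum_add_distrib, Pi.sub_apply, Pi.mul_apply,
    Pi.smul_apply, smul_eq_mul]
  exact sum_congr rfl fun i _ => by ring

lemma grad_y (h : ContDiff ℝ 1 fun p : V n × V n => E p.1 p.2) (ζ : Fin n ⊕ Fin n → ℝ) (y : V n) :
    Conc.grad (GG Q E ζ) y = Conc.grad (fun y' => vv Q ζ y ⬝ᵥ E (Q *ᵥ z1 ζ) y') y -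
      DD (pt Q y (z1 ζ)) * E (Q *ᵥ z1 ζ) y := by
  refine eq_of_dot fun w => ?_
  have h1 := hl (F := GG Q E ζ)
    (((gg_c1 h).comp (contDiff_const.prodMk contDiff_id)).differentiable one_ne_zero) y w
  have h2 := line (F := E (Q *ᵥ z1 ζ))
    ((h.comp (contDiff_const.prodMk contDiff_id)).differentiable one_ne_zero) y w
    (v := fun t => vv Q ζ (y + t • w)) (v' := -(DD (pt Q y (z1 ζ)) * w)) fun i => by
      have := (hd_th ((y + Q *ᵥ z1 ζ) i) (w i)).const_sub (aa * tanh (z2 ζ i))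
      refine (this.congr_of_eventuallyEq (.of_forall fun t => ?_)).congr_deriv rfl
      simp [vv, pt, th, add_right_comm]
  have := h1.unique h2
  rw [Conc.fderiv_eq_dot] at this
  refine Eq.trans this ?_
  simp only [zero_smul, add_zero, dotProduct, ← sum_add_distrib, Pi.sub_apply, Pi.mul_apply,
    Pi.neg_apply]
  exact sum_congr rfl fun i _ => by ring

lemma nrm_th (h h' : V n) : nrm (th h - th h') ≤ nrm (h - h') :=
  Z.L85.nrm_mono fun _ => th_lip _ _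

lemma nrm_mul {u v : V n} {c : ℝ} (hc : 0 ≤ c) (h : ∀ i, |u i| ≤ c) : nrm (u * v) ≤ c * nrm v :=
  Tl48.nrm_mono hc fun i => by
    rw [Pi.mul_apply, abs_mul]; exact mul_le_mul_of_nonneg_right (h i) (abs_nonneg _)

lemma nrm_DE {M : ℝ} (hM : 0 ≤ M) (h h' : V n) {e e' : V n} (he : ∀ i, |e' i| ≤ M) :
    nrm (DD (th h) * e - DD (th h') * e') ≤ nrm (e - e') + 2 * M * nrm (h - h') := by
  rw [show DD (th h) * e - DD (th h') * e' = DD (th h) * (e - e') + e' * (DD (th h) - DD (th h'))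
    by ring]
  have := nrm_mul (v := e - e') zero_le_one (abs_DD h)
  have h2 := nrm_mul (v := DD (th h) - DD (th h')) hM he
  have h3 : nrm (DD (th h) - DD (th h')) ≤ 2 * nrm (h - h') := Tl48.nrm_mono zero_le_two (DD_lip h h')
  nlinarith [nrm_add_le (DD (th h) * (e - e')) (e' * (DD (th h) - DD (th h')))]

lemma x_lip (q : opn Q ≤ 3) (ζ ζ' : Fin n ⊕ Fin n → ℝ) :
    nrm (Q *ᵥ z1 ζ - Q *ᵥ z1 ζ') ≤ 3 * nrm (ζ - ζ') := by
  rw [← mulVec_sub]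
  exact (nrm_mulVec_le _ _).trans (mul_le_mul q (nrm_inl (ζ - ζ')).1 (nrm_nonneg _) (by norm_num))

lemma h_lip (q : opn Q ≤ 3) (ζ ζ' : Fin n ⊕ Fin n → ℝ) (y y' : V n) :
    nrm (y + Q *ᵥ z1 ζ - (y' + Q *ᵥ z1 ζ')) ≤ nrm (y - y') + 3 * nrm (ζ - ζ') := by
  rw [add_sub_add_comm]; linarith [nrm_add_le (y - y') (Q *ᵥ z1 ζ - Q *ᵥ z1 ζ'), x_lip q ζ ζ']

lemma v_lip (q : opn Q ≤ 3) (ζ ζ' : Fin n ⊕ Fin n → ℝ) (y y' : V n) :
    nrm (vv Q ζ y - vv Q ζ' y') ≤ (|aa| + 3) * nrm (ζ - ζ') + nrm (y - y') := by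
  rw [vv, vv, sub_sub_sub_comm, ← smul_sub]
  refine (nrm_sub_le _ _).trans ?_
  rw [nrm_smul]
  have h1 := mul_le_mul_of_nonneg_left ((nrm_th (z2 ζ) (z2 ζ')).trans (nrm_inl (ζ - ζ')).2)
    (abs_nonneg aa)
  have h2 := (nrm_th _ _).trans (h_lip q ζ ζ' y y')
  rw [pt, pt]
  linarith

lemma v_abs (ζ : Fin n ⊕ Fin n → ℝ) (y : V n) (i : Fin n) : |vv Q ζ y i| ≤ |aa| + 1 := by
  refine (abs_sub _ _).trans (add_le_add ?_ (abs_tanh_lt_one _).le)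
  rw [Pi.smul_apply, smul_eq_mul, abs_mul]
  exact mul_le_of_le_one_right (abs_nonneg _) (abs_tanh_lt_one _).le

lemma th_neg (h : V n) : th (-h) = -th h := funext fun _ => tanh_neg _
lemma DD_neg (h : V n) : DD (-h) = DD h := funext fun i => by simp [DD]
lemma x_neg (ζ : Fin n ⊕ Fin n → ℝ) : Q *ᵥ z1 (-ζ) = -(Q *ᵥ z1 ζ) := mulVec_neg _ _
lemma pt_neg (ζ : Fin n ⊕ Fin n → ℝ) (y : V n) : pt Q (-y) (z1 (-ζ)) = -pt Q y (z1 ζ) := by
  rw [pt, x_neg, ← neg_add, th_neg, pt]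
lemma t2_neg (ζ : Fin n ⊕ Fin n → ℝ) : th (z2 (-ζ)) = -th (z2 ζ) := th_neg _
lemma v_neg (ζ : Fin n ⊕ Fin n → ℝ) (y : V n) : vv Q (-ζ) (-y) = -vv Q ζ y := by
  rw [vv, pt_neg, t2_neg, vv, smul_neg, neg_sub']

theorem certStmt : CertStmt := by
  have a0 := abs_nonneg aa
  refine ⟨12 * |aa| + 105, by linarith, fun n Q E Bx By Er M N hs q1 q2 M1 N1 hE hB => ?_⟩
  have M0 : 0 ≤ M := by linarith
  have N0 : 0 ≤ N := by linarith
  have MN : M ≤ M * N := le_mul_of_one_le_right M0 N1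
  have NM : N ≤ M * N := le_mul_of_one_le_left N0 M1
  have eL : ∀ ζ y ζ' y', nrm (E (Q *ᵥ z1 ζ) y - E (Q *ᵥ z1 ζ') y') ≤
      3 * M * (nrm (ζ - ζ') + nrm (y - y')) := fun ζ y ζ' y' => (hE.lip _ _ _ _).trans <| by
    nlinarith [x_lip q1 ζ ζ', nrm_nonneg (y - y')]
  have dL : JL (9 * M) fun ζ y => DD (pt Q y (z1 ζ)) * E (Q *ᵥ z1 ζ) y := fun ζ y ζ' y' =>
    (nrm_DE M0 _ _ (hE.sup _ _)).trans <| by
      nlinarith [eL ζ y ζ' y', h_lip q1 ζ ζ' y y', nrm_nonneg (y - y')]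
  have d2 : JL (5 * M) fun ζ y => DD (th (z2 ζ)) * E (Q *ᵥ z1 ζ) y := fun ζ y ζ' y' =>
    (nrm_DE M0 _ _ (hE.sup _ _)).trans <| by
      have : nrm (z2 ζ - z2 ζ') ≤ nrm (ζ - ζ') := (nrm_inl (ζ - ζ')).2
      nlinarith [eL ζ y ζ' y', nrm_nonneg (y - y')]
  have bL : ∀ ζ y ζ' y', nrm (Bx (Q *ᵥ z1 ζ) y (vv Q ζ y) - Bx (Q *ᵥ z1 ζ') y' (vv Q ζ' y')) +
      nrm (By (Q *ᵥ z1 ζ) y (vv Q ζ y) - By (Q *ᵥ z1 ζ') y' (vv Q ζ' y')) +
      |√(Er (Q *ᵥ z1 ζ) y (vv Q ζ y)) - √(Er (Q *ᵥ z1 ζ') y' (vv Q ζ' y'))| ≤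
      (|aa| + 6) * (M * N) * (nrm (ζ - ζ') + nrm (y - y')) := fun ζ y ζ' y' =>
    (hB.lip _ _ _ _ _ _).trans <| by
      rw [mul_comm (|aa| + 6), mul_assoc]
      refine mul_le_mul NM ?_ (add_nonneg (add_nonneg (nrm_nonneg _) (nrm_nonneg _))
        (nrm_nonneg _)) (by positivity)
      nlinarith [x_lip q1 ζ ζ', v_lip q1 ζ ζ' y y', nrm_nonneg (y - y')]
  have fin : ∀ {c x D : ℝ}, 0 ≤ D → c ≤ 12 * |aa| + 105 → x ≤ c * (M * N) * D →
      x ≤ (12 * |aa| + 105) * M * N * D := fun hD hc hx => hx.trans <| by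
    rw [mul_assoc _ M]; gcongr
  have D0 : ∀ (ζ ζ' : Fin n ⊕ Fin n → ℝ) (y y' : V n), 0 ≤ nrm (ζ - ζ') + nrm (y - y') :=
    fun _ _ _ _ => add_nonneg (nrm_nonneg _) (nrm_nonneg _)
  have nE : ∀ x y, nrm (E x y) ≤ M * √n := fun x y => by
    simpa only [abs_of_nonneg M0] using nrm_le_of_bd (hE.sup x y)
  refine ⟨gg_c1 hB.c1, fun ζ y ζ' y' => ?_, fun ζ y => ?_, fun ζ y ζ' y' => ?_, fun ζ y ζ' y' => ?_,
    fun ζ y ζ' y' => ?_, fun ζ y i => ?_, fun ζ y => ?_, fun ζ y => ?_, ?_⟩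
  · have nv : nrm (vv Q ζ y) ≤ (|aa| + 1) * √n := by
      simpa only [abs_of_nonneg (show 0 ≤ |aa| + 1 by linarith)] using nrm_le_of_bd (v_abs ζ y)
    rw [show GG Q E ζ y - GG Q E ζ' y' = (E (Q *ᵥ z1 ζ) y - E (Q *ᵥ z1 ζ') y') ⬝ᵥ vv Q ζ y +
      E (Q *ᵥ z1 ζ') y' ⬝ᵥ (vv Q ζ y - vv Q ζ' y') by
        rw [sub_dotProduct, dotProduct_sub, GG, GG]; ring]
    have vl : nrm (vv Q ζ y - vv Q ζ' y') ≤ (|aa| + 3) * (nrm (ζ - ζ') + nrm (y - y')) := by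
      nlinarith [v_lip q1 ζ ζ' y y', nrm_nonneg (y - y')]
    have d0 := D0 ζ ζ' y y'
    refine (abs_add_le _ _).trans ((add_le_add ((abs_dot_le _ _).trans (mul_le_mul (eL _ _ _ _) nv
      (nrm_nonneg _) (by positivity))) ((abs_dot_le _ _).trans (mul_le_mul (nE _ _) vl
      (nrm_nonneg _) (by positivity)))).trans ?_)
    have : 0 ≤ M * √n * (nrm (ζ - ζ') + nrm (y - y')) := by positivity
    nlinarith
  · rw [grad_z hs hB.c1, grad_y hB.c1, UU, BB, EE, add_sub_add_right_eq_sub, ← mulVec_sub,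
      sub_sub_sub_cancel_right, sub_sub_sub_cancel_right]
    have h1 := hB.app (Q *ᵥ z1 ζ) y _ (v_abs (Q := Q) ζ y)
    have h2 := pow_le_pow_left₀ (nrm_nonneg _) ((nrm_mulVec_le (Q * Q) (Conc.grad
      (fun x => vv Q ζ y ⬝ᵥ E x y) (Q *ᵥ z1 ζ) - Bx (Q *ᵥ z1 ζ) y (vv Q ζ y))).trans
      (mul_le_mul_of_nonneg_right q2 (nrm_nonneg _))) 2
    nlinarith [sq_nonneg (nrm (Conc.grad (fun y' => vv Q ζ y ⬝ᵥ E (Q *ᵥ z1 ζ) y') y -
      By (Q *ᵥ z1 ζ) y (vv Q ζ y)))]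
  · have d0 := D0 ζ ζ' y y'
    refine fin d0 le_rfl ?_
    rw [UU, UU, add_sub_add_comm, ← mulVec_sub, ← smul_sub, sub_sub_sub_comm]
    refine (nrm_add_le _ _).trans ?_
    rw [nrm_smul]
    have h1 := mul_le_mul_of_nonneg_left (d2 ζ y ζ' y') a0
    have h2 := (nrm_mulVec_le (Q * Q) _).trans (mul_le_mul q2 ((nrm_sub_le _ _).trans (add_le_add
      (((le_add_of_nonneg_right (nrm_nonneg _)).trans (le_add_of_nonneg_right (abs_nonneg _))).trans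
      (bL ζ y ζ' y')) (dL ζ y ζ' y'))) (nrm_nonneg _) (by norm_num))
    have h3 := mul_le_mul_of_nonneg_right MN d0
    nlinarith [mul_le_mul_of_nonneg_left h3 a0]
  · have d0 := D0 ζ ζ' y y'
    refine fin d0 (c := |aa| + 15) (by linarith) ?_
    rw [BB, BB, sub_sub_sub_comm]
    have h2 := (nrm_sub_le _ _).trans (add_le_add
      (((le_add_of_nonneg_left (nrm_nonneg _)).trans (le_add_of_nonneg_right (abs_nonneg _))).trans
      (bL ζ y ζ' y')) (dL ζ y ζ' y'))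
    nlinarith [mul_le_mul_of_nonneg_right MN d0]
  · have d0 := D0 ζ ζ' y y'
    refine fin d0 (c := 7 * (|aa| + 6)) (by linarith) ?_
    have s7 : √49 = 7 := by rw [show (49 : ℝ) = 7 ^ 2 by norm_num, sqrt_sq (by norm_num)]
    simp only [EE, sqrt_mul (show (0 : ℝ) ≤ 49 by norm_num), s7]
    rw [← mul_sub, abs_mul, abs_of_pos (show (0 : ℝ) < 7 by norm_num)]
    linarith [(le_add_of_nonneg_left (add_nonneg (nrm_nonneg _) (nrm_nonneg _))).trans (bL ζ y ζ' y')]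
  · refine (abs_sub _ _).trans ?_
    have h1 := (hB.sup (Q *ᵥ z1 ζ) y (vv Q ζ y) i).2
    have h2 := mul_le_mul (abs_DD (y + Q *ᵥ z1 ζ) i) (hE.sup (Q *ᵥ z1 ζ) y i) (abs_nonneg _) zero_le_one
    rw [Pi.mul_apply, abs_mul, pt, mul_assoc]
    nlinarith [mul_nonneg a0 (mul_nonneg M0 N0)]
  · rw [UU, UU, x_neg, v_neg, pt_neg, t2_neg, DD_neg, DD_neg, hE.odd, (hB.odd _ _ _).1, mul_neg, mul_neg,
      smul_neg, ← neg_sub', mulVec_neg, neg_add]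
  · rw [BB, BB, x_neg, v_neg, pt_neg, DD_neg, hE.odd, (hB.odd _ _ _).2, mul_neg, ← neg_sub']
  · obtain ⟨B, hb⟩ := hB.bd
    refine ⟨49 * |B| + 7 * (|N| * √n + M * √n) + |aa| * (M * √n), fun ζ y => ?_⟩
    have h0 := hb (Q *ᵥ z1 ζ) y (vv Q ζ y)
    have h1 : ∀ h x, nrm (DD (th h) * E x y) ≤ M * √n := fun h x =>
      (nrm_mul zero_le_one (abs_DD h)).trans ((one_mul _).trans_le (nE _ _))
    have h2 := (nrm_mulVec_le (Q * Q) _).trans (mul_le_mul q2 ((nrm_sub_le _ _).trans (add_le_add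
      (nrm_le_of_bd fun i => (hB.sup (Q *ᵥ z1 ζ) y (vv Q ζ y) i).1) (h1 (y + Q *ᵥ z1 ζ) (Q *ᵥ z1 ζ))))
      (nrm_nonneg _) (by norm_num))
    have h3 := mul_le_mul_of_nonneg_left (h1 (z2 ζ) (Q *ᵥ z1 ζ)) a0
    have h4 : 0 ≤ 7 * (|N| * √n + M * √n) + |aa| * (M * √n) := by positivity
    refine ⟨mul_nonneg (by norm_num) h0.1, by rw [EE]; linarith [le_abs_self B], ?_⟩
    refine (nrm_add_le _ _).trans ?_
    rw [nrm_smul, pt]
    linarith [abs_nonneg B]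

end Crest.Agent.T157.K.Ba66

end
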