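import Crest.Agent.T157.KBaF_66
import Crest.Agent.T157.KBaC_75
import Crest.Agent.T157.KBaR_53

/-!
# Row 157, block S5 (helper66): the base of the backward pass
-/

namespace Crest.Agent.T157.K

theorem baseGlue : BaseGlue := fun gr w cs rf re cc rv bp =>
  Ba66.base (Ba66.chanGlue gr w cs rf re) Ba66.repStmt cc rv bp

end Crest.Agent.T157.K
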