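import Crest.Agent.T157.ZDef_73

/-!
# Row 157, part B, package (Z) (helper11): closure of the approximable words, back-propagation
-/

set_option autoImplicit false

noncomputable section

namespace Crest.Agent.T157.Z

open MeasureTheory Matrix Filter Set
open Crest.Agent.T157.E Crest.Agent.T157.Eig Crest.Agent.T157.Tap

namespace ApB11

variable {n m : ℕ}

lemma nrm_mono {u v : V n} (h : ∀ i, |u i| ≤ v i) : nrm u ≤ nrm v :=
  Real.sqrt_le_sqrt (Finset.sum_le_sum fun i _ => by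
    rw [← abs_mul_abs_self (u i)]; exact mul_self_le_mul_self (abs_nonneg _) (h i))

lemma nrm_abs (u : V n) : nrm (fun i => |u i|) = nrm u := by
  simp only [nrm, dotProduct, abs_mul_abs_self]

lemma nrm_sum_le {I : Type} (s : Finset I) (u : I → V n) : nrm (∑ l ∈ s, u l) ≤ ∑ l ∈ s, nrm (u l) :=
  Finset.le_sum_of_subadditive nrm nrm_zero.le nrm_add_le s u

lemma nrm_tri (u v w : V n) : nrm (u - w) ≤ nrm (u - v) + nrm (v - w) := by
  simpa using nrm_add_le (u - v) (v - w)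

lemma lip_le {φ : (Fin m → ℝ) → ℝ} {L : NNReal} (h : LipschitzWith L φ) (u v : Fin m → ℝ) :
    |φ u - φ v| ≤ L * ∑ l, |u l - v l| := by
  refine (h.dist_le_mul u v).trans (mul_le_mul_of_nonneg_left ?_ L.2)
  refine (dist_pi_le_iff (by positivity)).2 fun l => ?_
  exact Finset.single_le_sum (f := fun l => |u l - v l|) (fun _ _ => abs_nonneg _)
    (Finset.mem_univ l)

lemma nrm_map {φ : (Fin m → ℝ) → ℝ} {L : NNReal} (h : LipschitzWith L φ) (U X : Fin m → V n) :
    nrm ((fun i => φ fun l => U l i) - fun i => φ fun l => X l i) ≤ L * ∑ l, nrm (U l - X l) := by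
  refine (nrm_mono (v := (L : ℝ) • ∑ l, fun i => |(U l - X l) i|) fun i => ?_).trans ?_
  · simpa using lip_le h (fun l => U l i) fun l => X l i
  · rw [nrm_smul, NNReal.abs_eq]
    exact mul_le_mul_of_nonneg_left ((nrm_sum_le _ _).trans_eq (by simp only [nrm_abs])) L.2

lemma bd_map {ι : Type} {φ : (Fin m → ℝ) → ℝ} (h : OL φ) {X : Fin m → Nt ι} (hX : ∀ l, Bd (X l)) :
    Bd fun n J a i => φ fun l => X l n J a i := by
  obtain ⟨ho, L, hL⟩ := h
  choose M hM using hX
  have h0 : φ 0 = 0 := by have := ho 0; rw [neg_zero] at this; linarith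
  refine ⟨L * ∑ l, M l, fun n J a i => ?_⟩
  have := lip_le hL (fun l => X l n J a i) 0
  simp only [h0, Pi.zero_apply, sub_zero] at this
  exact this.trans (mul_le_mul_of_nonneg_left (Finset.sum_le_sum fun l _ => hM l n J a i) L.2)

lemma lip_mul {X : Type} [PseudoMetricSpace X] {f g : X → ℝ} {L L' : NNReal} {A B : ℝ}
    (hf : LipschitzWith L f) (hg : LipschitzWith L' g) (hA : ∀ x, |f x| ≤ A) (hB : ∀ x, |g x| ≤ B) :
    ∃ K, LipschitzWith K fun x => f x * g x := by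
  refine ⟨_, LipschitzWith.of_dist_le' (K := |A| * L' + |B| * L) fun x y => ?_⟩
  have h1 := hf.dist_le_mul x y
  have h2 := hg.dist_le_mul x y
  rw [Real.dist_eq] at h1 h2 ⊢
  rw [show f x * g x - f y * g y = f x * (g x - g y) + g y * (f x - f y) by ring]
  refine (abs_add_le _ _).trans ?_
  rw [abs_mul, abs_mul, add_mul, mul_assoc, mul_assoc]
  exact add_le_add (mul_le_mul ((hA x).trans (le_abs_self A)) h2 (abs_nonneg _) (abs_nonneg _))
    (mul_le_mul ((hB y).trans (le_abs_self B)) h1 (abs_nonneg _) (abs_nonneg _))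

lemma ol_lin (t : Fin m → ℝ) : OL fun u : Fin m → ℝ => t ⬝ᵥ u :=
  ⟨fun u => dotProduct_neg t u, _,
    (LinearMap.toContinuousLinearMap (dotProductBilin ℝ ℝ t)).lipschitz⟩

lemma clip_neg {M : ℝ} (hM : 0 ≤ M) (x : ℝ) : max (-M) (min M (-x)) = -max (-M) (min M x) := by
  simp only [max_def, min_def]; split_ifs <;> linarith

lemma ol_ev {ψ : (Fin m → ℝ) → ℝ} (h : EL ψ) {M : ℝ} (hM : 0 ≤ M) :
    OL fun v : Fin (m + 1) → ℝ => ψ (fun l => v l.succ) * max (-M) (min M (v 0)) := by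
  obtain ⟨he, ⟨L, hL⟩, B, hB⟩ := h
  refine ⟨fun v => ?_, lip_mul (L := L * 1) (A := B) (B := M) (hL.comp ?_)
    (((LipschitzWith.eval (0 : Fin (m + 1))).const_min M).const_max (-M)) (fun _ => hB _) fun v =>
      abs_le.2 ⟨le_max_left _ _, max_le (by linarith) (min_le_left _ _)⟩⟩
  · beta_reduce
    rw [Pi.neg_apply, clip_neg hM, mul_neg]; exact congrArg (fun x => -(x * _)) (he _)
  · exact LipschitzWith.of_dist_le_mul fun u v => by
      rw [NNReal.coe_one, one_mul]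
      exact (dist_pi_le_iff dist_nonneg).2 fun l => dist_le_pi_dist u v l.succ

lemma avg_le {u v : V n} {A B : ℝ} (hA : 0 ≤ A) (hB : 0 ≤ B) (hu : nrm u ≤ A * √n)
    (hv : nrm v ≤ B * √n) : |avg (u * v)| ≤ A * B := by
  rw [avg, abs_div, Nat.abs_cast]
  refine div_le_of_le_mul₀ (Nat.cast_nonneg n) (by positivity) ((abs_dot_le u v).trans ?_)
  calc _ ≤ A * √n * (B * √n) := mul_le_mul hu hv (nrm_nonneg _) (by positivity)
    _ = A * B * (√n * √n) := by ring
    _ = _ := by rw [Real.mul_self_sqrt (Nat.cast_nonneg n)]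

lemma sc_le {u w z x y z' : V n} {C e : ℝ} (hC : 0 ≤ C) (e0 : 0 ≤ e) (e1 : e ≤ 1)
    (hu : nrm u ≤ C * √n) (hw : nrm w ≤ C * √n) (hz : nrm z ≤ C * √n) (h1 : nrm (u - x) ≤ e * √n)
    (h2 : nrm (w - y) ≤ e * √n) (h3 : nrm (z - z') ≤ e * √n) :
    nrm (avg (u * w) • z - avg (x * y) • z') ≤ e * (3 * (C + 1) ^ 2) * √n := by
  have s0 := Real.sqrt_nonneg (n : ℝ)
  have es := mul_le_mul_of_nonneg_right e1 s0
  have hx : nrm x ≤ (C + 1) * √n := by
    have := nrm_sub_le u (u - x); rw [sub_sub_cancel] at this; linarith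
  have hz' : nrm z' ≤ (C + 1) * √n := by
    have := nrm_sub_le z (z - z'); rw [sub_sub_cancel] at this; linarith
  have a1 := avg_le hC hC hu hw
  have a2 := avg_le e0 hC h1 hw
  have a3 := avg_le (by linarith) e0 hx h2
  have ee : avg (u * w) • z - avg (x * y) • z' =
      avg (u * w) • (z - z') + avg ((u - x) * w) • z' + avg (x * (w - y)) • z' := by
    have : avg (x * y) = avg (u * w) - avg ((u - x) * w) - avg (x * (w - y)) := by
      simp only [avg, ← sub_div, ← Finset.sum_sub_distrib, Pi.mul_apply, Pi.sub_apply]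
      congr 2; ext i; ring
    rw [this]; module
  rw [ee]
  refine (nrm_add_le _ _).trans ((add_le_add_left (nrm_add_le _ _) _).trans ?_)
  rw [nrm_smul, nrm_smul, nrm_smul]
  have b1 := mul_le_mul a1 h3 (nrm_nonneg _) (by positivity)
  have b2 := mul_le_mul a2 hz' (nrm_nonneg _) (by positivity)
  have b3 := mul_le_mul a3 hz' (nrm_nonneg _) (by positivity)
  have b4 : 0 ≤ e * √n := by positivity
  have b5 : 0 ≤ C * (e * √n) := by positivity
  linarith

section
variable (hL : LipStmt) (hH : HpStmt) (hU : UIStmt) (hA : ApA) {ι : Type} [Fintype ι] {β : ℝ}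
  {c d : ι → ℝ}

include hH in
lemma hp_mono {P Q : ∀ n, Mx n → (ι → V n) → Prop} (h : Hp β c d P)
    (hPQ : ∀ n J a, P n J a → Q n J a) : Hp β c d Q :=
  hH.mono ι β c d P Q h (Eventually.of_forall hPQ)

include hH in
lemma hp_inl {P : ∀ n, Mx n → (ι → V n) → Prop} (h : Hp β c d P) (m : ℕ) :
    Hp β (Sum.elim c (0 : Fin m → ℝ)) (Sum.elim d 1) fun n J a => P n J fun l => a (.inl l) :=
  hH.emb ι (ι ⊕ Fin m) β _ _ Function.Embedding.inl P h

include hH hA in
lemma ap_map {φ : (Fin m → ℝ) → ℝ} {U : Fin m → Nt ι} (hφ : OL φ) (h : ∀ l, Ap β c d (U l)) :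
    Ap β c d fun n J a i => φ fun l => U l n J a i := fun ε hε => by
  obtain ⟨L, hl⟩ := hφ.2
  obtain ⟨k, X, hX, hp⟩ := hA.com ι β c d m U h (ε / (L * m + 1)) (by positivity)
  refine ⟨k, _, Nw.map φ X hφ False.elim fun l => (hX l).1, bd_map hφ fun l => (hX l).2,
    hp_mono hH hp fun n J a ha => (nrm_map hl _ _).trans ?_⟩
  refine (mul_le_mul_of_nonneg_left (Finset.sum_le_sum fun l _ => ha l) L.2).trans ?_
  rw [Finset.sum_const, Finset.card_univ, Fintype.card_fin, nsmul_eq_mul, ← mul_assoc, ← mul_assoc,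
    mul_div_assoc']
  refine mul_le_mul_of_nonneg_right ?_ (Real.sqrt_nonneg _)
  rw [div_le_iff₀ (by positivity)]
  change (L : ℝ) * m * ε ≤ _
  linarith

include hH hA in
lemma ap_lin (t : Fin m → ℝ) {U : Fin m → Nt ι} (h : ∀ l, Ap β c d (U l)) :
    Ap β c d fun n J a => ∑ l, t l • U l n J a := by
  convert ap_map hH hA (ol_lin t) h using 4 with n J a
  ext i; simp [dotProduct]

include hH hA in
lemma ap_congr {U W : Nt ι} (h : Ap β c d W) (hp : Hp β c d fun n J a => U n J a = W n J a) :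
    Ap β c d U := hA.lim ι β c d U fun ε hε => ⟨W, h, hp_mono hH hp fun n J a ha => by
      rw [ha, sub_self, nrm_zero]; positivity⟩

include hL hH hU in
lemma ap_tJ (hβ : β ∈ Icc (0 : ℝ) 1) {U : Nt ι} (h : Ap β c d U) :
    Ap β c d fun n J a => tJ J *ᵥ U n J a := fun ε hε => by
  obtain ⟨k, X, hX, hb, hp⟩ := h (ε / 6) (by positivity)
  have hY := Nw.mul X hX hb
  obtain ⟨M, hM, hq⟩ := hU _ β hβ (Sum.elim c 0) (Sum.elim d 1) _ hY (ε / 2) (by positivity)
  refine ⟨k, _, (hL.clip _ _ M hM hY).1, (hL.clip _ _ M hM hY).2,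
    hp_mono hH (hH.and _ β _ _ _ _ hp hq) fun n J a ha => (nrm_tri _ (tJ J *ᵥ X n J a) _).trans ?_⟩
  rw [← mulVec_sub]
  have := (nrm_mulVec_le (tJ J) _).trans (mul_le_mul (hL.tJ_le n J).1 ha.1 (nrm_nonneg _) (by norm_num))
  linarith [ha.2]

end

end ApB11

open ApB11 in
theorem apBGlue : ApBGlue := fun hL hH hU hA =>
  { map := fun _ _ _ _ _ _ _ _ _ hφ h => ap_map hH hA hφ h
    ev := fun ι _ β _ c d m ψ U W hψ h hW => hA.lim ι β c d _ fun ε hε => by
      obtain ⟨B, hB⟩ := hψ.2.2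
      have B0 : 0 ≤ B := (abs_nonneg _).trans (hB 0)
      obtain ⟨M, hM, hp⟩ := (hA.bd ι β c d W hW).2 (ε / (B + 1)) (by positivity)
      refine ⟨_, ap_map hH hA (U := Fin.cons W U) (ol_ev hψ hM) (Fin.cases hW h),
        hp_mono hH hp fun n J a ha => ?_⟩
      refine (nrm_mono (v := B • fun i => |(W n J a - cp M (W n J a)) i|) fun i => ?_).trans ?_
      · simp only [Pi.sub_apply, Fin.cons_succ, Fin.cons_zero, ← mul_sub, abs_mul, Pi.smul_apply,
          smul_eq_mul, cp]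
        exact mul_le_mul_of_nonneg_right (hB _) (abs_nonneg _)
      · rw [nrm_smul, nrm_abs, abs_of_nonneg B0]
        refine (mul_le_mul_of_nonneg_left ha.1 B0).trans ?_
        rw [← mul_assoc, mul_div_assoc']
        refine mul_le_mul_of_nonneg_right ?_ (Real.sqrt_nonneg _)
        rw [div_le_iff₀ (by positivity)]; linarith
    add := fun ι _ β _ c d U W s t hU' hW => by
      simpa using ap_lin hH hA ![s, t] (U := ![U, W]) (Fin.forall_fin_two.2 ⟨hU', hW⟩)
    sum := fun ι _ β _ c d m U h => by simpa using ap_lin hH hA 1 h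
    mul := fun ι _ β hβ c d U h => by
      obtain ⟨K, hg⟩ := hH.good ι β hβ c d
      exact ⟨ap_congr hH hA (ap_tJ hL hH hU hβ h) (hp_mono hH hg fun n J a ha => by
        rw [(hL.tJ_le n J).2 ha.2.1]), ap_tJ hL hH hU hβ h,
        ap_congr hH hA (ap_tJ hL hH hU hβ h) (hp_mono hH hg fun n J a ha => by
          rw [(hL.tJ_le n J).2 ha.2.1, ha.1])⟩
    sc := fun ι _ β _ c d U W Z hU' hW hZ ε hε => by
      obtain ⟨C1, c1, p1⟩ := (hA.bd ι β c d U hU').1
      obtain ⟨C2, c2, p2⟩ := (hA.bd ι β c d W hW).1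
      obtain ⟨C3, c3, p3⟩ := (hA.bd ι β c d Z hZ).1
      obtain ⟨C, hC⟩ : ∃ C, C = C1 + C2 + C3 := ⟨_, rfl⟩
      have C0 : 0 ≤ C := by linarith
      obtain ⟨k, X, hX, hp⟩ := hA.com ι β c d 3 ![U, W, Z] (fun l => by fin_cases l <;> assumption)
        (min 1 (ε / (3 * (C + 1) ^ 2))) (by positivity)
      obtain ⟨M0, b0⟩ := (hX 0).2
      obtain ⟨M1, b1⟩ := (hX 1).2
      obtain ⟨M2, b2⟩ := (hX 2).2
      refine ⟨k, _, Nw.sc (X 0) (X 1) (X 2) (hX 0).1 (hX 1).1 (hX 2).1 (hX 0).2 (hX 1).2 (hX 2).2,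
        ⟨|M0| * |M1| * |M2|, fun n J a i => ?_⟩, hp_mono hH (hH.and _ β _ _ _ _ hp
          (hp_inl hH (hH.and _ β _ _ _ _ p1 (hH.and _ β _ _ _ _ p2 p3)) k)) fun n J a ha => ?_⟩
      · have bb : ∀ {v : V n} {M : ℝ}, (∀ i, |v i| ≤ M) → nrm v ≤ |M| * √n := fun {v M} h =>
          (nrm_mono (v := fun _ => |M|) fun i => (h i).trans (le_abs_self M)).trans_eq (by
            simp [nrm, dotProduct, mul_comm, Real.sqrt_mul_self_eq_abs])
        beta_reduce
        rw [Pi.smul_apply, smul_eq_mul, abs_mul]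
        exact mul_le_mul (avg_le (abs_nonneg _) (abs_nonneg _) (bb (b0 n J a)) (bb (b1 n J a)))
          ((b2 n J a i).trans (le_abs_self _)) (abs_nonneg _) (by positivity)
      · have s0 := Real.sqrt_nonneg (n : ℝ)
        refine (sc_le C0 (by positivity) (min_le_left _ _) (ha.2.1.trans (by gcongr; linarith))
          (ha.2.2.1.trans (by gcongr; linarith)) (ha.2.2.2.trans (by gcongr; linarith))
          (ha.1 0) (ha.1 1) (ha.1 2)).trans (mul_le_mul_of_nonneg_right ?_ s0)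
        exact (le_div_iff₀ (by positivity)).1 (min_le_right _ _) }

namespace ApB11

variable {n m : ℕ} {E : Type} [NormedAddCommGroup E] [NormedSpace ℝ E]

lemma hd_dot {F : E → V n} {F' : E →L[ℝ] V n} {a : E} (h : HasFDerivAt F F' a) (u : V n) :
    HasFDerivAt (fun a' => u ⬝ᵥ F a')
      ((LinearMap.toContinuousLinearMap (dotProductBilin ℝ ℝ u)).comp F') a :=
  (LinearMap.toContinuousLinearMap (dotProductBilin ℝ ℝ u)).hasFDerivAt.comp a h

lemma fd_dot {F : E → V n} {a : E} (h : DifferentiableAt ℝ F a) (u : V n) (v : E) :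
    fderiv ℝ (fun a' => u ⬝ᵥ F a') a v = u ⬝ᵥ fderiv ℝ F a v := by
  rw [(hd_dot h.hasFDerivAt u).fderiv]; rfl

lemma fd_map {φ : (Fin m → ℝ) → ℝ} (hφ : Differentiable ℝ φ) {X : Fin m → E → V n} {a : E}
    (h : ∀ l, DifferentiableAt ℝ (X l) a) (u : V n) (v : E) :
    fderiv ℝ (fun a' => u ⬝ᵥ fun i => φ fun l => X l a' i) a v = ∑ l, fderiv ℝ (fun a' =>
      (fun i => fderiv ℝ φ (fun l => X l a i) (Pi.single l 1) * u i) ⬝ᵥ X l a') a v := by
  have h1 : ∀ i, HasFDerivAt (fun a' => φ fun l => X l a' i) ((fderiv ℝ φ fun l => X l a i).comp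
      (ContinuousLinearMap.pi fun l => (ContinuousLinearMap.proj i).comp (fderiv ℝ (X l) a))) a :=
    fun i => (hφ _).hasFDerivAt.comp a
      (hasFDerivAt_pi.2 fun l => hasFDerivAt_pi'.1 (h l).hasFDerivAt i)
  rw [(hd_dot (hasFDerivAt_pi.2 h1) u).fderiv, Finset.sum_congr rfl fun l _ => fd_dot (h l) _ v]
  change ∑ i, u i * fderiv ℝ φ (fun l => X l a i) (fun l => fderiv ℝ (X l) a v i) = _
  simp only [dotProduct]
  rw [Finset.sum_comm]
  refine Finset.sum_congr rfl fun i _ => ?_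
  rw [pi_eq_sum_univ' (fun l => fderiv ℝ (X l) a v i), map_sum, Finset.mul_sum]
  exact Finset.sum_congr rfl fun l _ => by rw [map_smul, smul_eq_mul]; ring

lemma fd_sc {X Y Z : E → V n} {a : E} (hX : DifferentiableAt ℝ X a) (hY : DifferentiableAt ℝ Y a)
    (hZ : DifferentiableAt ℝ Z a) (u : V n) (v : E) :
    fderiv ℝ (fun a' => u ⬝ᵥ avg (X a' * Y a') • Z a') a v =
      fderiv ℝ (fun a' => (avg (X a * Y a) • u) ⬝ᵥ Z a') a v +
      (fderiv ℝ (fun a' => (avg (u * Z a) • Y a) ⬝ᵥ X a') a v +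
        fderiv ℝ (fun a' => (avg (u * Z a) • X a) ⬝ᵥ Y a') a v) := by
  have h1 := HasFDerivAt.fun_sum (u := Finset.univ) fun i _ =>
    (hasFDerivAt_pi'.1 hX.hasFDerivAt i).fun_mul (hasFDerivAt_pi'.1 hY.hasFDerivAt i)
  have h2 := (h1.mul_const (n : ℝ)⁻¹).fun_mul (hd_dot hZ.hasFDerivAt u)
  have e : (fun a' => u ⬝ᵥ avg (X a' * Y a') • Z a') =
      fun a' => (∑ i, X a' i * Y a' i) * (n : ℝ)⁻¹ * (u ⬝ᵥ Z a') := by
    ext a'; rw [dotProduct_smul]; rfl
  rw [e, h2.fderiv, fd_dot hX, fd_dot hY, fd_dot hZ]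
  simp only [smul_dotProduct, avg, Pi.mul_apply, smul_eq_mul, _root_.add_apply,
    _root_.smul_apply, _root_.sum_apply, ContinuousLinearMap.comp_apply,
    ContinuousLinearMap.proj_apply, LinearMap.coe_toContinuousLinearMap', dotProductBilin_apply_apply,
    Finset.sum_add_distrib, div_eq_mul_inv]
  simp only [dotProduct]
  ring

lemma el_d {φ : (Fin m → ℝ) → ℝ} (h : OL φ) (hs : SmL φ) (l : Fin m) :
    EL fun u => fderiv ℝ φ u (Pi.single l 1) := by
  obtain ⟨ho, L, hL⟩ := h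
  obtain ⟨hd, L', hL'⟩ := hs
  refine ⟨fun u => ?_, ⟨_, (ContinuousLinearMap.apply ℝ ℝ (Pi.single l 1)).lipschitz.comp hL'⟩,
    L * ‖(Pi.single l 1 : Fin m → ℝ)‖, fun u => ((fderiv ℝ φ u).le_opNorm _).trans
      (mul_le_mul_of_nonneg_right (norm_fderiv_le_of_lipschitz ℝ hL) (norm_nonneg _))⟩
  have h1 := ((hd (-u)).hasFDerivAt.comp u (hasFDerivAt_id u).neg).neg
  have e : (-(φ ∘ Neg.neg) : (Fin m → ℝ) → ℝ) = φ := by ext x; simp [ho]
  rw [e] at h1
  beta_reduce
  rw [h1.fderiv]; simp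

end ApB11

open ApB11 in
theorem bpGlue : BPGlue := by
  intro hL hH hA hB ι _ _ β hβ c d j X hX
  have net : ∀ {X : Nt ι}, Nw True X → Ap β c d X := fun h => hA.net ι β hβ c d _ (hL.mono ι _ _ h)
  have df : ∀ {X : Nt ι}, Nw True X → ∀ n J a, DifferentiableAt ℝ (X n J) a :=
    fun h n J a => hL.diff ι _ h n J a
  induction hX with
  | inp j' =>
    intro U hU
    convert hB.add ι β hβ c d U U (if j' = j then 1 else 0) 0 hU hU using 1
    ext n J a k
    rw [adj, fd_dot (differentiableAt_apply j' a), (hasFDerivAt_apply j' a).fderiv]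
    by_cases h : j' = j <;> simp [h]
  | map φ X ho hs hX ih =>
    intro U hU
    convert hB.sum ι β hβ c d _ _ fun l => ih l _
      (hB.ev ι β hβ c d _ _ X U (el_d ho (hs trivial) l) (fun l => net (hX l)) hU) using 1
    ext n J a k
    rw [adj, fd_map (hs trivial).1 fun l => df (hX l) n J a, Finset.sum_apply]; rfl
  | mul X hX _ ih =>
    intro U hU
    convert ih _ (hB.mul ι β hβ c d U hU).2.2 using 1
    ext n J a k
    simp only [adj, dotProduct_mulVec, mulVec_transpose]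
  | sc X Y Z hX hY hZ _ _ _ ihX ihY ihZ =>
    intro U hU
    convert hB.add ι β hβ c d _ _ 1 1 (ihZ _ (hB.sc ι β hβ c d X Y U (net hX) (net hY) hU))
      (hB.add ι β hβ c d _ _ 1 1 (ihX _ (hB.sc ι β hβ c d U Z Y hU (net hZ) (net hY)))
        (ihY _ (hB.sc ι β hβ c d U Z X hU (net hZ) (net hX)))) using 1
    ext n J a k
    rw [adj, fd_sc (df hX n J a) (df hY n J a) (df hZ n J a), one_smul, one_smul, one_smul, one_smul]
    rfl

end Crest.Agent.T157.Z

end
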