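import Crest.Agent.T157.ZLip_85
import Crest.Agent.T157.ZApB_11
import Crest.Agent.T157.ConcL_16
import Crest.Agent.T157.NrmG_84

/-!
# Row 157, part B, block S5 (helper91): certificates of back-propagation through a network
-/

set_option autoImplicit false

noncomputable section

namespace Crest.Agent.T157.K.Bp91

open Real Matrix Finset
open Crest.Agent.T157.Eig
open Crest.Agent.T157.Tap (V Mx avg)
open Crest.Agent.T157.Z (Nt Nw Bd cp nA tJ)
open Crest.Agent.T157.Z.L85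

/-! ### growth in the level -/

/-- at most exponential -/
def Gr (s : ℝ → ℝ) : Prop := ∃ C, ∀ Λ, 1 ≤ Λ → |s Λ| ≤ exp (C * Λ)

lemma Gr.const (c : ℝ) : Gr fun _ => c := ⟨|c|, fun Λ h =>
  (le_mul_of_one_le_right (abs_nonneg c) h).trans (by linarith [add_one_le_exp (|c| * Λ)])⟩

lemma Gr.id : Gr fun Λ => Λ := ⟨1, fun Λ h => by
  rw [abs_of_nonneg (by linarith), one_mul]; linarith [add_one_le_exp Λ]⟩

lemma Gr.mul {s t : ℝ → ℝ} (hs : Gr s) (ht : Gr t) : Gr fun Λ => s Λ * t Λ := by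
  obtain ⟨C, hC⟩ := hs
  obtain ⟨D, hD⟩ := ht
  refine ⟨C + D, fun Λ h => ?_⟩
  rw [abs_mul, add_mul, exp_add]
  exact mul_le_mul (hC Λ h) (hD Λ h) (abs_nonneg _) (exp_pos _).le

lemma Gr.add {s t : ℝ → ℝ} (hs : Gr s) (ht : Gr t) : Gr fun Λ => s Λ + t Λ := by
  obtain ⟨C, hC⟩ := hs
  obtain ⟨D, hD⟩ := ht
  refine ⟨max C D + 1, fun Λ h => (abs_add_le _ _).trans ?_⟩
  have h1 := (hC Λ h).trans (exp_le_exp.2 (mul_le_mul_of_nonneg_right (le_max_left C D) (by linarith)))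
  have h2 := (hD Λ h).trans (exp_le_exp.2 (mul_le_mul_of_nonneg_right (le_max_right C D) (by linarith)))
  rw [add_mul, exp_add, one_mul]
  nlinarith [add_one_le_exp Λ, exp_pos (max C D * Λ)]

lemma Gr.sum {I : Type} (S : Finset I) {s : I → ℝ → ℝ} (h : ∀ l, Gr (s l)) :
    Gr fun Λ => ∑ l ∈ S, s l Λ := by
  classical
  induction S using Finset.induction_on with
  | empty => simpa using Gr.const 0
  | insert a S ha ih => simpa only [sum_insert ha] using (h a).add ih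

/-! ### classes -/

variable {n : ℕ} {ι : Type} [Fintype ι]

/-- rows and weights -/
abbrev Pa (ι : Type) (n : ℕ) : Type := (ι → V n) × V n
/-- distance -/
def dn (p q : Pa ι n) : ℝ := nA (p.1 - q.1) + nrm (p.2 - q.2)

lemma dn_nonneg (p q : Pa ι n) : 0 ≤ dn p q := add_nonneg (nA_nonneg _) (nrm_nonneg _)

lemma cont_of_lip {R : Pa ι n → ℝ} {M : ℝ} (h : ∀ p q, |R p - R q| ≤ M * dn p q) : Continuous R := by
  refine continuous_iff_continuousAt.2 fun x => tendsto_iff_norm_sub_tendsto_zero.2 ?_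
  have c : Continuous fun y => M * dn y x := by
    have := continuous_nrm (ι := Fin n)
    unfold dn nA; fun_prop
  have h1 := c.tendsto x
  rw [show dn x x = 0 by simp [dn, nA], mul_zero] at h1
  exact squeeze_zero (fun _ => norm_nonneg _) (fun y => h y x) h1

/-- odd and Lipschitz -/
structure OL (M : ℝ) (u : Pa ι n → V n) : Prop where
  nn : 0 ≤ M
  odd : ∀ p, u (-p) = -u p
  lip : ∀ p q, nrm (u p - u q) ≤ M * dn p q
/-- with bounded entries -/
structure OB (M : ℝ) (u : Pa ι n → V n) : Prop extends OL M u where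
  sup : ∀ p i, |u p i| ≤ M
/-- bounded and continuous -/
def BC (R : Pa ι n → ℝ) : Prop := Continuous R ∧ ∃ B, ∀ p, |R p| ≤ B
/-- a second moment functional with tails `δ` at the level `Λ` -/
structure Fn (Λ δ : ℝ) (T : (Pa ι n → ℝ) → ℝ) : Prop where
  d0 : 0 ≤ δ
  le : ∀ R R1 R2 c, BC R → BC R1 → BC R2 → 0 ≤ c → (∀ p, R p ^ 2 ≤ c * (R1 p ^ 2 + R2 p ^ 2)) →
    T R ≤ c * (T R1 + T R2)
  cc : ∀ u L, 0 < L → OL L u → T (fun p => nrm (u p - cp (Λ * L) (u p))) ≤ L ^ 2 * δ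
/-- errors -/
structure EC (Λ M : ℝ) (R : Pa ι n → ℝ) : Prop where
  nn : ∀ p, 0 ≤ R p
  bd : ∃ B, ∀ p, R p ≤ B
  lip : ∀ p q, |R p - R q| ≤ M * dn p q
  tl : ∀ δ T, Fn Λ δ T → T R ≤ M ^ 2 * δ
/-- certificate -/
def Ct (Λ M : ℝ) (G : Pa ι n → V n) : Prop :=
  ∃ B R, OB M B ∧ EC Λ M R ∧ ∀ p, nrm (G p - B p) ≤ R p

variable {Λ M M' a b c : ℝ} {u v w G G' : Pa ι n → V n} {R R' : Pa ι n → ℝ}

lemma OB.mono (h : OB M u) (hM : M ≤ M') : OB M' u :=
  ⟨⟨h.nn.trans hM, h.odd, fun p q => (h.lip p q).trans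
    (mul_le_mul_of_nonneg_right hM (dn_nonneg p q))⟩, fun p i => (h.sup p i).trans hM⟩

lemma OB.zero (hM : 0 ≤ M) : OB M fun _ : Pa ι n => (0 : V n) :=
  ⟨⟨hM, fun _ => neg_zero.symm, fun p q => by simpa using mul_nonneg hM (dn_nonneg p q)⟩,
    fun _ _ => by simpa using hM⟩

lemma OB.add (h : OB M u) (h' : OB M' v) : OB (M + M') fun p => u p + v p :=
  ⟨⟨add_nonneg h.nn h'.nn, fun p => by rw [h.odd, h'.odd, neg_add], fun p q => by
    rw [add_sub_add_comm, add_mul]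
    exact (nrm_add_le _ _).trans (add_le_add (h.lip p q) (h'.lip p q))⟩,
    fun p i => (abs_add_le _ _).trans (add_le_add (h.sup p i) (h'.sup p i))⟩

lemma OB.sc (hu : OB a u) (hv : OB b v) (hw : OB c w) :
    OB (3 * (a * b * c)) fun p => avg (u p * v p) • w p := by
  have a0 := hu.nn
  have b0 := hv.nn
  have c0 := hw.nn
  refine ⟨⟨by positivity, fun p => by rw [hu.odd, hv.odd, hw.odd, neg_mul_neg, smul_neg],
    fun p q => ?_⟩, fun p i => ?_⟩
  · have e : avg (u p * v p) • w p - avg (u q * v q) • w q = avg (u p * v p) • (w p - w q) +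
        (avg ((u p - u q) * v p) • w q + avg ((v p - v q) * u q) • w q) := by
      rw [← add_smul, smul_sub, sub_add, ← sub_smul]
      congr 2
      simp only [avg_mul, sub_dotProduct, dotProduct_comm (v p), dotProduct_comm (v q)]
      ring
    have g1 := mul_le_mul (abs_avg_le (hu.sup p) (hv.sup p)) (hw.lip p q) (nrm_nonneg _)
      (by positivity)
    have g2 := (abs_avg_mul_le (u := u p - u q) (hv.sup p) (hw.sup q)).trans
      (mul_le_mul_of_nonneg_left (hu.lip p q) (by positivity))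
    have g3 := (abs_avg_mul_le (u := v p - v q) (hu.sup q) (hw.sup q)).trans
      (mul_le_mul_of_nonneg_left (hv.lip p q) (by positivity))
    rw [abs_of_nonneg a0, abs_of_nonneg b0] at g1
    rw [abs_of_nonneg b0, abs_of_nonneg c0] at g2
    rw [abs_of_nonneg a0, abs_of_nonneg c0] at g3
    rw [e]
    refine (nrm_add_le _ _).trans ((add_le_add le_rfl (nrm_add_le _ _)).trans ?_)
    rw [nrm_smul, nrm_smul, nrm_smul]
    linarith
  · have g := mul_le_mul (abs_avg_le (hu.sup p) (hv.sup p)) (hw.sup p i) (abs_nonneg _)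
      (by positivity)
    rw [abs_of_nonneg a0, abs_of_nonneg b0] at g
    rw [Pi.smul_apply, smul_eq_mul, abs_mul]
    linarith [show 0 ≤ a * b * c by positivity]

/-- an even bounded multiplier -/
lemma OB.ev {d : Pa ι n → V n} (hv : OB a v) (b0 : 0 ≤ b) (he : ∀ p, d (-p) = d p)
    (hs : ∀ p i, |d p i| ≤ b) (hl : ∀ p q, nrm (d p - d q) ≤ b * dn p q) :
    OB (2 * (b * a)) fun p => d p * v p := by
  have a0 := hv.nn
  have t : ∀ (x y : V n) (c : ℝ), 0 ≤ c → (∀ i, |x i| ≤ c) → nrm (x * y) ≤ c * nrm y :=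
    fun x y c c0 h => (nrm_mono (v := c • y) fun i => by
      rw [Pi.mul_apply, Pi.smul_apply, smul_eq_mul, abs_mul, abs_mul, abs_of_nonneg c0]
      exact mul_le_mul_of_nonneg_right (h i) (abs_nonneg _)).trans_eq (by
        rw [nrm_smul, abs_of_nonneg c0])
  refine ⟨⟨by positivity, fun p => by rw [he, hv.odd, mul_neg], fun p q => ?_⟩, fun p i => ?_⟩
  · rw [show d p * v p - d q * v q = d p * (v p - v q) + v q * (d p - d q) by ring]
    have g1 := (t _ (v p - v q) b b0 (hs p)).trans (mul_le_mul_of_nonneg_left (hv.lip p q) b0)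
    have g2 := (t _ (d p - d q) a a0 (hv.sup q)).trans (mul_le_mul_of_nonneg_left (hl p q) a0)
    linarith [nrm_add_le (d p * (v p - v q)) (v q * (d p - d q))]
  · rw [Pi.mul_apply, abs_mul]
    linarith [mul_le_mul (hs p i) (hv.sup p i) (abs_nonneg _) b0, mul_nonneg b0 a0]

lemma clip_lip (η s t : ℝ) : |max (-η) (min η s) - max (-η) (min η t)| ≤ |s - t| ∧
    |s - max (-η) (min η s) - (t - max (-η) (min η t))| ≤ |s - t| := by
  simp only [max_def, min_def, abs_le]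
  rcases abs_cases (s - t) with h | h <;> split_ifs <;> refine ⟨⟨?_, ?_⟩, ?_, ?_⟩ <;> linarith

lemma OL.clip {η : ℝ} (h : OL M u) (hη : M ≤ η) : OB η fun p => cp η (u p) :=
  ⟨⟨h.nn.trans hη, fun p => funext fun i => by
    rw [h.odd]; exact Z.ApB11.clip_neg (h.nn.trans hη) _, fun p q =>
      (nrm_mono (v := u p - u q) fun i => (clip_lip η _ _).1).trans ((h.lip p q).trans
        (mul_le_mul_of_nonneg_right hη (dn_nonneg p q)))⟩, fun p => abs_cp_le (h.nn.trans hη) _⟩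

lemma EC.bc (h : EC Λ M R) : BC R :=
  ⟨cont_of_lip h.lip, h.bd.imp fun _ hB p => by rw [abs_of_nonneg (h.nn p)]; exact hB p⟩

lemma EC.mono (h : EC Λ M R) (M0 : 0 ≤ M) (hM : M ≤ M') : EC Λ M' R :=
  ⟨h.nn, h.bd, fun p q => (h.lip p q).trans (mul_le_mul_of_nonneg_right hM (dn_nonneg p q)),
    fun δ T hT => (h.tl δ T hT).trans
      (mul_le_mul_of_nonneg_right (pow_le_pow_left₀ M0 hM 2) hT.d0)⟩

lemma EC.zero (hM : 0 ≤ M) : EC Λ M fun _ : Pa ι n => 0 :=
  ⟨fun _ => le_rfl, ⟨0, fun _ => le_rfl⟩, fun p q => by simpa using mul_nonneg hM (dn_nonneg p q),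
    fun δ T hT => by
      have z : BC fun _ : Pa ι n => (0 : ℝ) := ⟨continuous_const, 0, fun _ => by simp⟩
      linarith [hT.le _ _ _ 0 z z z le_rfl fun _ => by simp, mul_nonneg (sq_nonneg M) hT.d0]⟩

lemma EC.comb (h : EC Λ M R) (h' : EC Λ M' R') (M0 : 0 ≤ M) (M1 : 0 ≤ M') (c0 : 0 ≤ c) :
    EC Λ (2 * c * (M + M')) fun p => c * (R p + R' p) := by
  obtain ⟨B, hB⟩ := h.bd
  obtain ⟨B', hB'⟩ := h'.bd
  have l : ∀ p q, |c * (R p + R' p) - c * (R q + R' q)| ≤ 2 * c * (M + M') * dn p q := fun p q => by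
    rw [← mul_sub, add_sub_add_comm, abs_mul, abs_of_nonneg c0]
    have := mul_le_mul_of_nonneg_left
      ((abs_add_le _ _).trans (add_le_add (h.lip p q) (h'.lip p q))) c0
    linarith [mul_nonneg c0 (mul_nonneg (add_nonneg M0 M1) (dn_nonneg p q))]
  have n0 : ∀ p, 0 ≤ c * (R p + R' p) := fun p => mul_nonneg c0 (add_nonneg (h.nn p) (h'.nn p))
  have bd : ∀ p, c * (R p + R' p) ≤ c * (B + B') := fun p =>
    mul_le_mul_of_nonneg_left (add_le_add (hB p) (hB' p)) c0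
  refine ⟨n0, ⟨_, bd⟩, l, fun δ T hT => ?_⟩
  have h1 := hT.le _ R R' (2 * c ^ 2) ⟨cont_of_lip l, _, fun p => (abs_of_nonneg (n0 p)).trans_le (bd p)⟩
    h.bc h'.bc (by positivity) fun p => by
      nlinarith [mul_nonneg (sq_nonneg c) (sq_nonneg (R p - R' p))]
  have h2 := mul_le_mul_of_nonneg_left (add_le_add (h.tl δ T hT) (h'.tl δ T hT))
    (show 0 ≤ 2 * c ^ 2 by positivity)
  have := hT.d0
  linarith [show 0 ≤ c ^ 2 * M ^ 2 * δ by positivity, show 0 ≤ c ^ 2 * M' ^ 2 * δ by positivity,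
    show 0 ≤ c ^ 2 * (M * M') * δ by positivity]

lemma EC.clip (h : OL M u) (hM : 0 < M) (hΛ : 0 ≤ Λ) (hb : ∃ B, ∀ p, nrm (u p) ≤ B) :
    EC Λ M fun p => nrm (u p - cp (Λ * M) (u p)) := by
  have l : ∀ x y : V n, |nrm (x - cp (Λ * M) x) - nrm (y - cp (Λ * M) y)| ≤ nrm (x - y) :=
    fun x y => by
      simp only [← Nrm.en_eq_nrm]
      refine (Conc.abs_en_sub_le _ _).trans ?_
      simp only [Nrm.en_eq_nrm]
      exact nrm_mono fun i => (clip_lip _ _ _).2
  refine ⟨fun _ => nrm_nonneg _, hb.imp fun B hB p => le_trans (nrm_mono fun i => ?_) (hB p),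
    fun p q => (l _ _).trans (h.lip p q), fun δ T hT => hT.cc u M hM h⟩
  have := (clip_lip (Λ * M) (u p i) 0).2
  have e := mul_nonneg hΛ hM.le
  rwa [min_eq_right e, max_eq_right (neg_nonpos.2 e), sub_zero, sub_zero, sub_zero] at this

lemma Ct.nn (h : Ct Λ M G) : 0 ≤ M := let ⟨_, _, h, _⟩ := h; h.nn

lemma Ct.mono (h : Ct Λ M G) (hM : M ≤ M') : Ct Λ M' G :=
  let ⟨B, R, h1, h2, h3⟩ := h
  ⟨B, R, h1.mono hM, h2.mono h1.nn hM, h3⟩

lemma OB.ct (h : OB M G) : Ct Λ M G := ⟨G, _, h, .zero h.nn, fun _ => by simp⟩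

lemma Ct.add (h : Ct Λ M G) (h' : Ct Λ M' G') : Ct Λ (2 * (M + M')) fun p => G p + G' p := by
  obtain ⟨B, R, h1, h2, h3⟩ := h
  obtain ⟨B', R', k1, k2, k3⟩ := h'
  refine ⟨_, _, (h1.add k1).mono (by linarith [h1.nn, k1.nn]), by
    simpa only [mul_one] using h2.comb k2 h1.nn k1.nn zero_le_one, fun p => ?_⟩
  rw [add_sub_add_comm, one_mul]
  exact (nrm_add_le _ _).trans (add_le_add (h3 p) (k3 p))

lemma Ct.sum {I : Type} (S : Finset I) {M : I → ℝ} {G : I → Pa ι n → V n}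
    (h : ∀ l, Ct Λ (M l) (G l)) : Ct Λ (2 ^ #S * ∑ l ∈ S, M l) fun p => ∑ l ∈ S, G l p := by
  classical
  induction S using Finset.induction_on with
  | empty => simpa using (OB.zero le_rfl).ct
  | insert a S ha ih =>
    simp only [sum_insert ha, card_insert_of_notMem ha, pow_succ]
    refine ((h a).add ih).mono ?_
    linarith [le_mul_of_one_le_left (h a).nn (one_le_pow₀ (n := #S) (one_le_two (α := ℝ)))]

/-! ### the adjoint -/

variable [DecidableEq ι]

/-- transposed Jacobian in the row `j` -/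
def ad (F : (ι → V n) → V n) (j : ι) (a : ι → V n) (v : V n) : V n := fun k =>
  fderiv ℝ (fun a' => v ⬝ᵥ F a') a (Pi.single j (Pi.single k 1))

lemma grad_row {f : (ι → V n) → ℝ} (hf : Differentiable ℝ f) (a : ι → V n) (j : ι) (x : V n) :
    Conc.grad (fun h => f (a + Pi.single j h)) x =
      fun k => fderiv ℝ f (a + Pi.single j x) (Pi.single j (Pi.single k 1)) := by
  funext k
  have := (hf (a + Pi.single j x)).hasFDerivAt.comp x
    ((ContinuousLinearMap.single ℝ (fun _ : ι => V n) j).hasFDerivAt.const_add a)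
  exact congrArg (· (Pi.single k 1)) this.fderiv

lemma nA_single (j : ι) (x : V n) : nA (Pi.single j x : ι → V n) = nrm x := by
  rw [nA, sum_eq_single j (fun l _ h => by simp [h]) (by simp), Pi.single_eq_same]

lemma ad_sub {F : (ι → V n) → V n} {L : ℝ} (hF : Differentiable ℝ F) (L0 : 0 ≤ L)
    (hL : ∀ a a', nrm (F a - F a') ≤ L * nA (a - a')) (j : ι) (a : ι → V n) (v v' : V n) :
    nrm (ad F j a v - ad F j a v') ≤ L * nrm (v - v') := by
  have e : ad F j a v - ad F j a v' = ad F j a (v - v') := by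
    funext k; simp only [ad, Pi.sub_apply, Z.ApB11.fd_dot (hF a)]; rw [sub_dotProduct]
  have d : Differentiable ℝ fun a' => (v - v') ⬝ᵥ F a' := fun a =>
    (Z.ApB11.hd_dot (hF a).hasFDerivAt _).differentiableAt
  have h : Conc.ELip (L * nrm (v - v')) fun h => (v - v') ⬝ᵥ F (a + Pi.single j h) := fun x y => by
    rw [← dotProduct_sub, Nrm.en_eq_nrm, mul_comm L, mul_assoc]
    refine (abs_dot_le _ _).trans (mul_le_mul_of_nonneg_left ((hL _ _).trans_eq ?_) (nrm_nonneg _))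
    rw [add_sub_add_left_eq_sub, ← Pi.single_sub, nA_single]
  have h1 := h.gr2_le 0
  rw [Conc.gr2_eq, grad_row d, Pi.single_zero, add_zero, Nrm.en_eq_nrm] at h1
  rw [e]
  exact (pow_le_pow_iff_left₀ (nrm_nonneg _) (mul_nonneg L0 (nrm_nonneg _)) two_ne_zero).1 h1

omit [DecidableEq ι] in
lemma lipA {sm : Prop} {X : Nt ι} (h : Nw sm X) :
    ∃ L ≥ (0 : ℝ), ∀ n J a a', nrm (X n J a - X n J a') ≤ L * nA (a - a') :=
  let ⟨L, L0, hL⟩ := lip h
  ⟨L, L0, fun n J a a' => by simpa using hL n J J a a'⟩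

omit [DecidableEq ι] in
lemma ob_net {sm : Prop} {X : Nt ι} (h : Nw sm X) (hb : Bd X) :
    ∃ M, ∀ n J, OB M fun p : Pa ι n => X n J p.1 := by
  obtain ⟨L, L0, hL⟩ := lipA h
  obtain ⟨M, hM⟩ := hb
  exact ⟨L + |M|, fun n J => ⟨⟨by positivity, fun p => odd h n J p.1, fun p q => (hL n J _ _).trans
    (mul_le_mul (by linarith [abs_nonneg M]) (le_add_of_nonneg_right (nrm_nonneg _)) (nA_nonneg _)
      (by positivity))⟩, fun p i => (hM n J _ i).trans (by linarith [le_abs_self M])⟩⟩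

/-- **back-propagation with certificates** -/
theorem net {X : Nt ι} (hX : Nw True X) (j : ι) : ∀ s, Gr s → ∃ M, Gr M ∧ ∀ n J Λ, 1 ≤ Λ →
    ∀ v : Pa ι n → V n, OB (s Λ) v → Ct Λ (M Λ) fun p => ad (X n J) j p.1 (v p) := by
  induction hX with
  | inp j' =>
    refine fun s hs => ⟨s, hs, fun n J Λ _ v hv => ?_⟩
    have e : ∀ p : Pa ι n, ad (fun a => a j') j p.1 (v p) = if j' = j then v p else 0 := fun p => by
      funext k
      rw [ad, Z.ApB11.fd_dot (differentiableAt_apply j' p.1), (hasFDerivAt_apply j' p.1).fderiv]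
      by_cases h : j' = j <;> simp [h]
    simp only [e]
    split_ifs
    exacts [hv.ct, (OB.zero hv.nn).ct]
  | @map m φ X ho hs hX ih =>
    intro s hG
    choose K K0 hK using fun l => lipA (hX l)
    choose he L hL B hB using fun l =>
      (show (∀ u, _) ∧ ∃ L, _ ∧ ∃ B, _ from
        let ⟨h1, ⟨L, h2⟩, h3⟩ := Z.ApB11.el_d ho (hs trivial) l
        ⟨h1, L, h2, h3⟩)
    choose M hM hC using fun l => ih l _ ((Gr.const 2).mul
      ((Gr.const (|B l| + L l * ∑ k, K k)).mul hG))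
    refine ⟨_, (Gr.const (2 ^ #(univ : Finset (Fin m)))).mul (Gr.sum univ hM), fun n J Λ h1 v hv => ?_⟩
    have S0 : 0 ≤ ∑ k, K k := sum_nonneg fun k _ => K0 k
    convert Ct.sum univ fun l => hC l n J Λ h1 _ (hv.ev
      (d := fun p i => fderiv ℝ φ (fun l => X l n J p.1 i) (Pi.single l 1)) (by positivity)
      (fun p => funext fun i => ?_) (fun p i => (hB l _).trans ?_) fun p q => ?_) using 2 with p
    · funext k
      rw [ad, Z.ApB11.fd_map (hs trivial).1 fun l => diff (hX l) n J p.1, Finset.sum_apply]; rfl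
    · refine Eq.trans ?_ (he l fun k => X k n J p.1 i)
      simp only [Prod.fst_neg, odd (hX _)]; rfl
    · linarith [le_abs_self (B l), mul_nonneg (L l).coe_nonneg S0]
    · refine (Z.ApB11.nrm_map (hL l) (fun k => X k n J p.1) fun k => X k n J q.1).trans ?_
      have h2 : ∑ k, nrm (X k n J p.1 - X k n J q.1) ≤ (∑ k, K k) * dn p q := by
        rw [sum_mul]
        exact sum_le_sum fun k _ => (hK k n J _ _).trans (mul_le_mul_of_nonneg_left
          (le_add_of_nonneg_right (nrm_nonneg _)) (K0 k))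
      linarith [mul_le_mul_of_nonneg_left h2 (L l).coe_nonneg, mul_nonneg (abs_nonneg (B l)) (dn_nonneg p q)]
  | mul X hX _ ih =>
    intro s hG
    obtain ⟨L, L0, hL⟩ := lipA hX
    have g := ((Gr.const 3).mul hG).add (Gr.const 1)
    obtain ⟨M, hM, hC⟩ := ih _ (Gr.id.mul g)
    refine ⟨_, (Gr.const 2).mul (hM.add ((Gr.const (2 * L)).mul (g.add (Gr.const 0)))),
      fun n J Λ h1 v hv => ?_⟩
    have s0 := hv.nn
    have t : ∀ x : V n, nrm ((tJ J)ᵀ *ᵥ x) ≤ 3 * nrm x := fun x => (nrm_mulVec_le _ _).trans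
      (mul_le_mul_of_nonneg_right ((opn_transpose _).trans_le (opn_tJ J)) (nrm_nonneg _))
    have ou : OL (3 * s Λ + 1) fun p => (tJ J)ᵀ *ᵥ v p := ⟨by positivity,
      fun p => by rw [hv.odd, mulVec_neg], fun p q => by
        rw [← mulVec_sub]; linarith [t (v p - v q), hv.lip p q, dn_nonneg p q]⟩
    have ec := (EC.clip ou (by positivity) (zero_le_one.trans h1) ⟨_, fun p => (t _).trans
      (mul_le_mul_of_nonneg_left (nrm_le_of_bd (hv.sup p)) zero_le_three)⟩).comb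
        (.zero le_rfl) ou.nn le_rfl L0
    have c2 : Ct Λ (2 * L * (3 * s Λ + 1 + 0)) fun p => ad (X n J) j p.1 ((tJ J)ᵀ *ᵥ v p) -
        ad (X n J) j p.1 (cp (Λ * (3 * s Λ + 1)) ((tJ J)ᵀ *ᵥ v p)) :=
      ⟨_, _, .zero (by positivity), ec, fun p => by
        rw [sub_zero, add_zero]; exact ad_sub (diff hX n J) L0 (hL n J) j _ _ _⟩
    convert (hC n J Λ h1 _ (ou.clip (le_mul_of_one_le_left ou.nn h1))).add c2 using 2 with p
    rw [add_sub_cancel]
    funext k
    simp only [ad, dotProduct_mulVec, mulVec_transpose]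
  | sc X Y W hX hY hZ bX bY bZ ihX ihY ihZ =>
    intro s hG
    obtain ⟨a, ha⟩ := ob_net hX bX
    obtain ⟨b, hb⟩ := ob_net hY bY
    obtain ⟨c, hc⟩ := ob_net hZ bZ
    obtain ⟨M1, g1, c1⟩ := ihZ _ ((Gr.const 3).mul ((Gr.const (a * b)).mul hG))
    obtain ⟨M2, g2, c2⟩ := ihX _ ((Gr.const 3).mul ((hG.mul (Gr.const c)).mul (Gr.const b)))
    obtain ⟨M3, g3, c3⟩ := ihY _ ((Gr.const 3).mul ((hG.mul (Gr.const c)).mul (Gr.const a)))
    refine ⟨_, (Gr.const 2).mul (g1.add ((Gr.const 2).mul (g2.add g3))), fun n J Λ h1 v hv => ?_⟩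
    convert (c1 n J Λ h1 _ ((ha n J).sc (hb n J) hv)).add
      ((c2 n J Λ h1 _ (hv.sc (hc n J) (hb n J))).add (c3 n J Λ h1 _ (hv.sc (hc n J) (ha n J))))
      using 2 with p
    funext k
    rw [ad, Z.ApB11.fd_sc (diff hX n J p.1) (diff hY n J p.1) (diff hZ n J p.1)]
    rfl

omit [DecidableEq ι] in
lemma c1 {X : Nt ι} (h : Nw True X) (n : ℕ) (J : Mx n) : ContDiff ℝ 1 (X n J) := by
  induction h with
  | inp j => fun_prop
  | map φ X _ hs _ ih =>
    obtain ⟨hd, L, hL⟩ := hs trivial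
    exact contDiff_pi.2 fun i => (contDiff_one_iff_fderiv.2 ⟨hd, hL.continuous⟩).comp
      (contDiff_pi.2 fun l => contDiff_pi.1 (ih l) i)
  | mul X _ _ ih => exact (LinearMap.toContinuousLinearMap (toLin' (tJ J))).contDiff.comp ih
  | sc X Y Z _ _ _ _ _ _ iX iY iZ =>
    refine ContDiff.smul (f := fun a => (∑ i, X n J a i * Y n J a i) * (n : ℝ)⁻¹) ?_ iZ
    exact (ContDiff.sum fun i _ => (contDiff_pi.1 iX i).mul (contDiff_pi.1 iY i)).mul contDiff_const

end Crest.Agent.T157.K.Bp91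

end
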