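import Crest.Agent.T157.KTc_36

/-!
# Row 157, thermal calculus (helper22): networks of approximable words, bounded continuous letters
-/

set_option autoImplicit false

noncomputable section

namespace Crest.Agent.T157.K

open MeasureTheory Matrix Set Filter
open Crest.Agent.T157.E Crest.Agent.T157.Eig
open Crest.Agent.T157.Tap (V Mx)
open Crest.Agent.T157.Z (Nt Nw Bd cp Ap Hp nA lipStmt hpStmt uiStmt apA apB)
open Crest.Agent.T157.Z.ApB11 (hp_mono nrm_mono nrm_abs nrm_tri clip_neg)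

theorem compStmt : CompStmt := by
  intro ι κ _ _ β hβ c d X U hX hU ε hε
  obtain ⟨L, L0, hL⟩ := lipStmt.lip ι False X hX
  set e := Fintype.equivFin ι
  obtain ⟨m, Y, hY, hp⟩ := apA.com κ β c d _ (fun l => U (e.symm l)) (fun l => hU _)
    (ε / (2 * (L * Fintype.card ι + 1))) (by positivity)
  have hZ := lipStmt.comp ι _ False X (fun j => Y (e j)) hX fun j => (hY _).1
  obtain ⟨M, hM, hq⟩ := uiStmt _ β hβ (Sum.elim c 0) (Sum.elim d 1) _ hZ (ε / 2) (by positivity)
  refine ⟨m, _, (lipStmt.clip _ _ M hM hZ).1, (lipStmt.clip _ _ M hM hZ).2,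
    hp_mono hpStmt (hpStmt.and _ β _ _ _ _ hp hq) fun n J a ha =>
      (nrm_tri _ (X n J fun j => Y (e j) n J a) _).trans ?_⟩
  have h1 := hL n J J (fun j => U j n J fun l => a (.inl l)) fun j => Y (e j) n J a
  rw [sub_self, opn_zero, mul_zero, add_zero] at h1
  have h2 : nA ((fun j => U j n J fun l => a (.inl l)) - fun j => Y (e j) n J a) ≤
      Fintype.card ι * (ε / (2 * (L * Fintype.card ι + 1)) * √n) := by
    unfold nA
    refine (Finset.sum_le_sum fun j _ => ?_).trans_eq (by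
      rw [Finset.sum_const, Finset.card_univ, nsmul_eq_mul])
    simpa using ha.1 (e j)
  have h3 : L * (Fintype.card ι * (ε / (2 * (L * Fintype.card ι + 1)) * √n)) ≤ ε / 2 * √n := by
    rw [← mul_assoc, ← mul_assoc]
    refine mul_le_mul_of_nonneg_right ?_ (Real.sqrt_nonneg _)
    rw [mul_div_assoc', div_le_iff₀ (by positivity)]
    nlinarith
  linarith [ha.2, mul_le_mul_of_nonneg_left h2 L0]

namespace Ce22

variable {n : ℕ}

/-- Lipschitz approximation that keeps the parity -/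
lemma approx {f : ℝ → ℝ} (hf : Continuous f) {M σ R δ : ℝ} (hM : ∀ t, |f t| ≤ M)
    (hσ : σ = 1 ∨ σ = -1) (hs : ∀ t, f (-t) = σ * f t) (hR : 0 ≤ R) (hδ : 0 < δ) :
    ∃ g : ℝ → ℝ, (∀ t, g (-t) = σ * g t) ∧ (∃ L, LipschitzWith L g) ∧ (∀ t, |g t| ≤ M + δ) ∧
      ∀ t, |t| ≤ R → |f t - g t| ≤ δ := by
  obtain ⟨p, hp⟩ := exists_polynomial_near_of_continuousOn (-R) R f hf.continuousOn δ hδ
  have hc : ContDiff ℝ 1 fun x : ℝ => p.eval x := by
    simpa using Polynomial.contDiff_aeval (𝕜 := ℝ) p 1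
  obtain ⟨K, hK⟩ := hc.contDiffOn.exists_lipschitzOnWith one_ne_zero (convex_Icc (-R) R)
    isCompact_Icc
  have hm : ∀ t : ℝ, max (-R) (min R t) ∈ Icc (-R) R := fun t =>
    ⟨le_max_left _ _, max_le (by linarith) (min_le_left _ _)⟩
  have hl : LipschitzWith 1 fun t : ℝ => max (-R) (min R t) :=
    (LipschitzWith.id.const_min R).const_max (-R)
  have hh : LipschitzWith (K * 1) fun t : ℝ => p.eval (max (-R) (min R t)) :=
    lipschitzOnWith_univ.1 (hK.comp hl.lipschitzOnWith fun t _ => hm t)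
  set h : ℝ → ℝ := fun t => p.eval (max (-R) (min R t))
  have hb : ∀ t, |h t| ≤ M + δ := fun t => by
    have := abs_sub_abs_le_abs_sub (h t) (f (max (-R) (min R t)))
    linarith [hp _ (hm t), hM (max (-R) (min R t))]
  have ha : ∀ t, |t| ≤ R → |h t - f t| ≤ δ := fun t ht => by
    have := (hp _ (hm t)).le
    rw [abs_le] at ht
    have e : max (-R) (min R t) = t := by rw [min_eq_right ht.2, max_eq_right ht.1]
    simpa only [h, e] using this
  refine ⟨fun t => (h t + σ * h (-t)) / 2, fun t => ?_, ⟨K * 1, ?_⟩, fun t => ?_, fun t ht => ?_⟩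
  · rcases hσ with rfl | rfl <;> simp only [neg_neg] <;> ring
  · refine LipschitzWith.of_dist_le_mul fun x y => ?_
    have h1 := hh.dist_le_mul x y
    have h2 := hh.dist_le_mul (-x) (-y)
    rw [dist_neg_neg] at h2
    rw [Real.dist_eq (h _), abs_le] at h1 h2
    rw [Real.dist_eq (_ / 2), abs_le]
    rcases hσ with rfl | rfl <;> constructor <;> linarith [h1.1, h1.2, h2.1, h2.2]
  · have h1 := hb t; have h2 := hb (-t)
    rw [abs_le] at h1 h2 ⊢
    rcases hσ with rfl | rfl <;> constructor <;> linarith [h1.1, h1.2, h2.1, h2.2]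
  · have h1 := ha t ht; have h2 := ha (-t) (by rwa [abs_neg])
    rw [hs, abs_le] at h2
    rw [abs_le] at h1 ⊢
    rcases hσ with rfl | rfl <;> constructor <;> linarith [h1.1, h1.2, h2.1, h2.2]

lemma abs_cp {M : ℝ} (hM : 0 ≤ M) (u : V n) (i : Fin n) : |cp M u i| ≤ M :=
  abs_le.2 ⟨le_max_left _ _, max_le (by linarith) (min_le_left _ _)⟩

lemma nrm_one : nrm (fun _ : Fin n => (1 : ℝ)) = √n := by simp [nrm, dotProduct]

/-- few sites are large -/
lemma est {φ : ℝ → ℝ} {A δ R M : ℝ} (hR : 0 < R) (hM : 0 ≤ M) (hδ : 0 ≤ δ) (h1 : ∀ t, |φ t| ≤ A)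
    (h2 : ∀ t, |t| ≤ R → |φ t| ≤ δ) (B U : V n) :
    nrm (fun i => φ (B i) * U i) ≤ A * nrm (U - cp M U) + M * (δ * √n + A / R * nrm B) := by
  have A0 : 0 ≤ A := (abs_nonneg _).trans (h1 0)
  refine (nrm_mono (v := A • (fun i => |(U - cp M U) i|) +
    M • (δ • (fun _ => (1 : ℝ)) + (A / R) • fun i => |B i|)) fun i => ?_).trans ?_
  · have e : φ (B i) * U i = φ (B i) * (U i - cp M U i) + φ (B i) * cp M U i := by ring
    have h3 : |φ (B i)| ≤ δ + A / R * |B i| := by
      rcases le_total |B i| R with h | h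
      · exact (h2 _ h).trans (le_add_of_nonneg_right (by positivity))
      · have : A ≤ A / R * |B i| := by
          rw [div_mul_eq_mul_div, le_div_iff₀ hR]; exact mul_le_mul_of_nonneg_left h A0
        linarith [h1 (B i)]
    simp only [Pi.add_apply, Pi.smul_apply, smul_eq_mul, Pi.sub_apply, mul_one]
    rw [e]
    refine (abs_add_le _ _).trans (add_le_add ?_ ?_)
    · rw [abs_mul]; exact mul_le_mul_of_nonneg_right (h1 _) (abs_nonneg _)
    · rw [abs_mul, mul_comm]; exact mul_le_mul (abs_cp hM U i) h3 (abs_nonneg _) hM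
  · refine (nrm_add_le _ _).trans (add_le_add ?_ ?_)
    · rw [nrm_smul, nrm_abs, abs_of_nonneg A0]
    · rw [nrm_smul, abs_of_nonneg hM]
      refine mul_le_mul_of_nonneg_left ((nrm_add_le _ _).trans_eq ?_) hM
      rw [nrm_smul, nrm_smul, nrm_abs, nrm_one, abs_of_nonneg hδ, abs_of_nonneg (by positivity)]

/-- the choice of the accuracies -/
lemma num {A C M ε s x y : ℝ} (A0 : 0 < A) (C0 : 0 ≤ C) (M0 : 0 ≤ M) (hε : 0 < ε) (s0 : 0 ≤ s)
    (hx : x ≤ ε / (3 * A) * s) (hy : y ≤ C * s) :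
    A * x + M * (min 1 (ε / (3 * (M + 1))) * s + A / (3 * M * A * C / ε + 1) * y) ≤ ε * s := by
  have h1 : A * x ≤ ε / 3 * s := (mul_le_mul_of_nonneg_left hx A0.le).trans_eq (by field_simp)
  have h2 : M * min 1 (ε / (3 * (M + 1))) ≤ ε / 3 := by
    refine (mul_le_mul_of_nonneg_left (min_le_right _ _) M0).trans ?_
    rw [mul_div_assoc', div_le_iff₀ (by positivity)]; nlinarith
  have h3 : M * (A / (3 * M * A * C / ε + 1) * C) ≤ ε / 3 := by
    rw [div_mul_eq_mul_div, mul_div_assoc', div_le_iff₀ (by positivity)]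
    have : ε / 3 * (3 * M * A * C / ε + 1) = M * (A * C) + ε / 3 := by field_simp
    linarith
  have h4 : M * (A / (3 * M * A * C / ε + 1) * y) ≤ M * (A / (3 * M * A * C / ε + 1) * (C * s)) := by
    gcongr
  nlinarith [mul_le_mul_of_nonneg_right h2 s0, mul_le_mul_of_nonneg_right h3 s0]

lemma lip1 {g : ℝ → ℝ} (h : ∃ L, LipschitzWith L g) :
    ∃ L, LipschitzWith L fun u : Fin 1 → ℝ => g (u 0) :=
  let ⟨_, hL⟩ := h; ⟨_, hL.comp (LipschitzWith.eval 0)⟩

end Ce22
open Ce22

theorem evStmt : EvStmt := by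
  intro ι _ β hβ c d f B U hf ⟨M, hM⟩ hB
  have M0 : 0 ≤ M := (abs_nonneg _).trans (hM 0)
  obtain ⟨C, C0, hC⟩ := (apA.bd ι β c d B hB).1
  have bd : ∀ {g : ℝ → ℝ} {x : ℝ}, (∀ t, |g t| ≤ M + min 1 x) → ∀ t, |f t - g t| ≤ 2 * M + 1 :=
    fun {g x} h t => (abs_sub _ _).trans (by linarith [hM t, h t, min_le_left 1 x])
  refine ⟨fun ho => apA.lim ι β c d _ fun ε hε => ?_, fun he hU => apA.lim ι β c d _ fun ε hε => ?_⟩
  · obtain ⟨g, g1, g2, g3, g4⟩ := approx hf hM (Or.inr rfl) (fun t => by rw [ho, neg_one_mul])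
      (R := 3 * 1 * (2 * M + 1) * C / ε + 1) (δ := min 1 (ε / (3 * (1 + 1)))) (by positivity)
      (by positivity)
    refine ⟨_, apB.map ι β hβ c d 1 (fun u => g (u 0)) (fun _ => B)
      ⟨fun u => by simpa using g1 (u 0), lip1 g2⟩ fun _ => hB, hp_mono hpStmt hC fun n J a ha => ?_⟩
    have h1 := est (φ := fun t => f t - g t) (M := 1) (by positivity) zero_le_one (by positivity)
      (bd g3) g4 (B n J a) fun _ => 1
    have e : ((fun _ => 1) - cp 1 fun _ => 1 : V n) = 0 := by funext i; simp [cp]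
    rw [e, nrm_zero] at h1
    refine le_trans (le_of_eq ?_) (h1.trans (num (by positivity) C0 zero_le_one hε
      (Real.sqrt_nonneg _) (by positivity) ha))
    congr 1; funext i; simp
  · obtain ⟨M', M0', hq⟩ := (apA.bd ι β c d U hU).2 (ε / (3 * (2 * M + 1))) (by positivity)
    obtain ⟨g, g1, g2, g3, g4⟩ := approx hf hM (Or.inl rfl) (fun t => by rw [he, one_mul])
      (R := 3 * M' * (2 * M + 1) * C / ε + 1) (δ := min 1 (ε / (3 * (M' + 1)))) (by positivity)
      (by positivity)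
    refine ⟨_, apB.ev ι β hβ c d 1 (fun u => g (u 0)) (fun _ => B) U
      ⟨fun u => by simpa using g1 (u 0), lip1 g2, _, fun u => g3 (u 0)⟩ (fun _ => hB) hU,
      hp_mono hpStmt (hpStmt.and _ β _ _ _ _ hC hq) fun n J a ha => ?_⟩
    have h1 := est (φ := fun t => f t - g t) (by positivity) M0' (by positivity)
      (bd g3) g4 (B n J a) (U n J a)
    refine le_trans (le_of_eq ?_) (h1.trans (num (by positivity) C0 M0' hε
      (Real.sqrt_nonneg _) ha.2.1 ha.1))
    congr 1; funext i; simp [sub_mul]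

end Crest.Agent.T157.K

end
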