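import Crest.Agent.T157.KMdDef_93
import Crest.Agent.T157.KPg_11

/-!
# Row 157, block S5 (helper42): the certificates of a target hold at most base points
-/

set_option autoImplicit false

noncomputable section

namespace Crest.Agent.T157.Md

open MeasureTheory Real Matrix Finset Filter Topology
open Crest.Agent.T157.E Crest.Agent.T157.Eig Crest.Agent.T157.K
open Crest.Agent.T157.Tap (V Mx)
open Crest.Agent.T157.Reg (jac neg)
open Crest.Agent.T157.SL (Wt MG law)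
open Crest.Agent.T157.Z (Nt Nw Bd)
open Crest.Agent.T157.K.Pg11

variable {n : ℕ}

/-- the part of `Tgt` which does not see the target -/
structure Crt (J Q : Mx n) (y0 : V n) (c Λ M e η δ : ℝ) (k : ℕ) (E : V n → V n → V n) : Prop where
  ps : ∃ g ω β X e' L, BS (psi Q E k) g ω β X e' L ∧ 0 ≤ e' ∧ e' ≤ e ∧ L ≤ e * √n ∧
    (mean (ising J y0) fun s => X s y0) ≤ δ * n
  xs : ∀ j < k, (mean (ising J y0) fun s => xS Q c Λ (c * M) (dirS Q E) j s y0) ≤ δ * n
  jx : (mean (ising J y0) fun s => exc η (J *ᵥ gR Q c Λ M k E s y0)) ≤ δ * n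

theorem Crt.tgt {J Q : Mx n} {y0 a : V n} {c Λ M e η δ A0 : ℝ} {k : ℕ} {E : V n → V n → V n}
    (h : Crt J Q y0 c Λ M e η δ k E) (hb : BLO M E) (ha : nrm a ≤ A0 * √n)
    (hd : mean (ising J y0) (dev Q E a y0) ≤ δ * n) : Tgt J Q y0 c Λ M e η δ A0 k E a :=
  ⟨hb, ha, hd, h.ps, h.xs, h.jx⟩

namespace Crt42

theorem blo_mono {M M' : ℝ} {E : V n → V n → V n} (h : BLO M E) (hM : M ≤ M') : BLO M' E :=
  ⟨fun x y i => (h.sup x y i).trans hM, fun x y x' y' => (h.lip x y x' y').trans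
    (mul_le_mul_of_nonneg_right hM (add_nonneg (nrm_nonneg _) (nrm_nonneg _))), h.odd⟩

/-- Markov's inequality for thermal means -/
theorem mkv (hR : RevStmt) (J : Mx n) {r t u e : ℝ} {X : F2 n} (r0 : 0 ≤ r) (t0 : 0 < t)
    (hX : RE e X) (h : PM J r X ≤ t * u) :
    (law sv (ising J 0) r).real {y | ¬ (mean (ising J y) fun s => X s y) ≤ t} ≤ u := by
  have := SL.isProb_law (φ := sv) (s := r) (wt J 0)
  obtain ⟨B, hB⟩ := re_abs hX
  have c : ∀ s, Continuous fun y : V n => ising J y s := fun s => by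
    simp only [ising, dotProduct]; fun_prop
  have hc : Continuous fun y : V n => mean (ising J y) fun s => X s y :=
    continuous_finsetSum _ fun s _ => ((c s).div (continuous_finsetSum _ fun x _ => c x)
      fun y => (wt J y).pos.ne').mul (re_cont hX s)
  have mg : MG fun y : V n => mean (ising J y) fun s => X s y :=
    .of_bdd hc.measurable B fun y => (wt J y).abs_mean_le fun s => hB s y
  have := mul_meas_ge_le_integral_of_nonneg (μ := law sv (ising J 0) r)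
    (.of_forall fun y => (wt J y).mean_nonneg fun s => re_nn hX s y) mg.int_law t
  rw [SL.integral_law (wt J 0) mg.meas (.of_mg fun _ => mg)] at this
  have e1 := hR.pm n J r X r0 (re_mg hX)
  refine (measureReal_mono (fun y hy => (not_le.1 hy).le)).trans (le_of_mul_le_mul_left ?_ t0)
  exact this.trans (e1.symm.le.trans h)

theorem ev_exp {C : ℝ} (hC : 0 < C) (a b : ℝ) {u : ℝ} (hu : 0 < u) :
    ∀ᶠ x in atTop, b * exp (a * x - x ^ 2 / C) ≤ u := by
  have h1 : Tendsto (fun x : ℝ => a * x - x ^ 2 / C) atTop atBot := by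
    have : Tendsto (fun x : ℝ => x * (a - x / C)) atTop atBot := tendsto_id.atTop_mul_atBot₀
      (tendsto_atBot_add_const_left _ a (tendsto_neg_atTop_atBot.comp (tendsto_id.atTop_div_const hC)))
    exact this.congr fun x => by ring
  have := ((tendsto_exp_atBot.comp h1).const_mul b).eventually
    (ge_mem_nhds (show b * 0 < u by rwa [mul_zero]))
  exact this

theorem ea {J : Mx n} {K0 : ℝ} (h : Ent.AT (ising J 0) K0 0) : EA (ising J 0) K0 := by
  refine ⟨fun _ => exp_pos _, fun s => ?_, h⟩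
  have : sv (Reg.neg s) = -sv s := by
    ext i; cases hs : s i <;> simp [sv, Reg.neg, hs, Crest.ProbabilityR.SpinGlassDynamics.spin]
  simp [ising, this, mulVec_neg]

/-- the excess of `J g` under the planted law -/
theorem pm_jx (hC : ConcStmt) (K0 : ℝ) {r : ℝ} (r0 : 0 ≤ r) : ∃ C ≥ (1 : ℝ), ∀ (n : ℕ) (J : Mx n)
    (g : U2 n) (e η : ℝ), opn J ≤ 3 → Ent.AT (ising J 0) K0 0 → 0 < e → 0 ≤ η → RF e g → OddJ g →
    (PM J r fun s y => exc η (J *ᵥ g s y)) ≤
      C * n * (3 * (1 + √r) * e) ^ 2 * exp (-((η / (3 * (1 + √r) * e)) ^ 2 / C)) := by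
  obtain ⟨C, h1, H⟩ := hC K0 √r
  refine ⟨C, h1, fun n J g e η hJ hat e0 η0 hg ho => ?_⟩
  have q0 := sqrt_nonneg r
  have key := H n (Fin n) (√r • (1 : Mx n)) (ising J 0) (fun s ζ => J *ᵥ g s (√r • ζ))
    (3 * (1 + √r) * e) η (ea hat) (opn_le_of_nrm q0 fun v => by
      rw [smul_mulVec, one_mulVec, nrm_smul, abs_of_nonneg q0]) (by positivity) η0
    (fun s ζ => by simp only []; rw [smul_neg, ho, mulVec_neg])
    (fun s ζ => by
      have : jac (fun s => J *ᵥ g s (√r • ζ)) s = J * jac (fun s => g s (√r • ζ)) s := by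
        ext i j
        simp only [jac, of_apply, mul_apply, mulVec, dotProduct, ← sum_sub_distrib, mul_sub]
      rw [this]
      refine (opn_mul_le _ _).trans ((mul_le_mul hJ ((hg.r0 _).op s) (opn_nonneg _)
        (by norm_num)).trans (by nlinarith [mul_nonneg q0 e0.le])))
    fun s ζ ζ' => by
      rw [← mulVec_sub]
      have := hg.lip s (√r • ζ) (√r • ζ')
      rw [← smul_sub, nrm_smul, abs_of_nonneg q0] at this
      refine (nrm_mulVec_le _ _).trans ((mul_le_mul hJ this (nrm_nonneg _) (by norm_num)).trans ?_)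
      nlinarith [mul_nonneg e0.le (nrm_nonneg (ζ - ζ'))]
  refine le_of_eq_of_le (sum_congr rfl fun s _ => congrArg _ (integral_congr_ae (.of_forall fun z => ?_))) key
  simp only [smul_mulVec, one_mulVec, smul_add, smul_smul, mul_self_sqrt r0]

end Crt42

open Crt42

/-- one constant for the direction field of a network -/
theorem ev_blo (hB : BpStmt) {m : ℕ} {E : Nt (Bool ⊕ Fin m)} (h1 : Nw True E) (h2 : Bd E) :
    ∀ᶠ M in atTop, ∀ (n : ℕ) (J : Mx n), BLO M (Eh E n J) := by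
  obtain ⟨C, -, H⟩ := hB m E h1 h2 1 0 0
  filter_upwards [eventually_ge_atTop C] with M hM n J using blo_mono (H n J).1 hM

/-- **the certificates hold at most base points** -/
def CrtStmt : Prop := ∃ c0 : ℝ, ∀ c ≥ c0, ∀ (ι : Type) [Fintype ι] (m : ι → ℕ)
  (E : ∀ b, Nt (Bool ⊕ Fin (m b))) (k : ℕ) (K0 r M δ ε : ℝ), (∀ b, Nw True (E b) ∧ Bd (E b)) →
  0 ≤ r → 0 < M → 0 < δ → 0 < ε → (∀ b n J, BLO M (Eh (E b) n J)) →
  ∀ᶠ Λ in atTop, ∀ᶠ e in atTop, ∀ᶠ η in atTop, ∀ (n : ℕ) (J Q : Mx n), 0 < n → JQ J Q →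
    Ent.AT (ising J 0) K0 0 →
    (law sv (ising J 0) r).real {y0 | ¬ ∀ b, Crt J Q y0 c Λ M e η δ k (Eh (E b) n J)} ≤ ε

theorem crt_one (hR : RevStmt) (hPs : PsiStmt) (hP : ProgStmt) (hD : DirStmt) (hT : TailStmt)
    (hC : ConcStmt) (hG : RegStmt) : ∃ c0 : ℝ, ∀ c ≥ c0, ∀ (m : ℕ) (E : Nt (Bool ⊕ Fin m)) (k : ℕ)
    (K0 r M δ ε : ℝ), Nw True E → Bd E → 0 ≤ r → 0 < M → 0 < δ → 0 < ε →
    (∀ n J, BLO M (Eh E n J)) → ∀ᶠ Λ in atTop, ∀ᶠ e in atTop, ∀ᶠ η in atTop,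
    ∀ (n : ℕ) (J Q : Mx n), 0 < n → JQ J Q → Ent.AT (ising J 0) K0 0 →
      (law sv (ising J 0) r).real {y0 | ¬ Crt J Q y0 c Λ M e η δ k (Eh E n J)} ≤ ε := by
  obtain ⟨c1, hP⟩ := hP
  obtain ⟨c2, c21, hD⟩ := hD
  obtain ⟨c3, hG⟩ := hG
  refine ⟨max c1 (max c2 c3), fun c hc m E k K0 r M δ ε h1 h2 r0 M0 δ0 ε0 hb => ?_⟩
  have d1 : c1 ≤ c := (le_max_left _ _).trans hc
  have d2 : c2 ≤ c := ((le_max_left _ _).trans (le_max_right _ _)).trans hc
  have d3 : c3 ≤ c := ((le_max_right _ _).trans (le_max_right _ _)).trans hc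
  have c0 : 0 < c := by linarith
  obtain ⟨C1, C11, H1⟩ := hPs m E h1 h2 k K0 r r0
  obtain ⟨C2, C21, H2⟩ := hT K0 r r0
  obtain ⟨C3, C31, H3⟩ := pm_jx hC K0 r0
  obtain ⟨u, u0, hu⟩ : ∃ u : ℝ, 0 < u ∧ (k + 2) * u = ε := ⟨ε / (k + 2), by positivity, by field_simp⟩
  have du := mul_pos δ0 u0
  obtain ⟨Λ1, l1, l2⟩ := ((eventually_ge_atTop 1).and (ev_exp (by linarith : 0 < C1) C1 1 du)).exists
  filter_upwards [eventually_ge_atTop 1,
    ev_exp (by linarith : 0 < C2) (2 * c * k) (C2 * (c * M) ^ 2) du] with Λ Λ1' hΛ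
  filter_upwards [eventually_ge_atTop (exp (C1 * Λ1)), eventually_ge_atTop C1] with e e1 e2
  have eR0 : 0 < eR c Λ M k := by unfold eR; positivity
  obtain ⟨ρ, hρ⟩ : ∃ ρ, ρ = 3 * (1 + √r) * eR c Λ M k := ⟨_, rfl⟩
  have ρ0 : 0 < ρ := by rw [hρ]; positivity
  filter_upwards [eventually_ge_atTop 0, (tendsto_id.atTop_div_const ρ0).eventually
    (ev_exp (by linarith : 0 < C3) 0 (C3 * ρ ^ 2) du)] with η η0 hη n J Q n0 jq hat
  have := SL.isProb_law (φ := sv) (s := r) (wt J 0)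
  have n0' : (0 : ℝ) < n := by exact_mod_cast n0
  have dn := mul_pos δ0 n0'
  obtain ⟨g, ω, β, X, b1, b2⟩ := H1 n J Q jq Λ1 l1
  obtain ⟨f1, f2, -⟩ := hD n J Q (Eh E n J) M jq M0.le (hb n J)
  have f1' := rf_mono f1 (mul_le_mul_of_nonneg_right d2 M0.le)
  obtain ⟨g1, g2, g3⟩ := hG c d3 n J Q Λ M k (Eh E n J) jq Λ1' M0.le (hb n J)
  have a1 := mkv hR J r0 dn b1.rX (u := u) ((b2 hat).trans (by nlinarith))
  have a3 := mkv hR J r0 dn (g3 η η0) (u := u) ((H3 n J _ _ η jq.op hat eR0 η0 g1 g2).trans (by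
    rw [← hρ]
    simp only [zero_mul, zero_sub, id] at hη
    nlinarith))
  have a2 : ∀ j ∈ range k, (law sv (ising J 0) r).real {y | ¬ (mean (ising J y) fun s =>
      xS Q c Λ (c * M) (dirS Q (Eh E n J)) j s y) ≤ δ * n} ≤ u := fun j hj => by
    obtain ⟨p1, p2, p3, -⟩ := hP c d1 n J Q Λ (c * M) (dirS Q (Eh E n J)) j jq Λ1' (by positivity) f1'
    have q0 : 0 < exp (c * j * Λ) * (c * M) := by positivity
    refine mkv hR J r0 dn p3 ((H2 n J Q _ _ _ jq hat q0 (by positivity) p1 (p2 f2)).trans ?_)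
    rw [mul_div_cancel_right₀ _ q0.ne', mul_pow, ← exp_nat_mul]
    have j1 : (j : ℝ) ≤ k := by exact_mod_cast (mem_range.1 hj).le
    have : exp ((2 : ℕ) * (c * j * Λ)) * exp (-(Λ ^ 2 / C2)) ≤ exp (2 * c * k * Λ - Λ ^ 2 / C2) := by
      rw [← exp_add, exp_le_exp]
      push_cast
      nlinarith [mul_le_mul_of_nonneg_left j1 (by positivity : 0 ≤ c * Λ)]
    have t1 := mul_le_mul_of_nonneg_left this (by positivity : 0 ≤ C2 * (c * M) ^ 2)
    nlinarith [mul_le_mul_of_nonneg_left (t1.trans hΛ) n0'.le]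
  refine (measureReal_mono (s₂ := ({y | ¬ (mean (ising J y) fun s => X s y) ≤ δ * n} ∪
    ⋃ j ∈ range k, {y | ¬ (mean (ising J y) fun s =>
      xS Q c Λ (c * M) (dirS Q (Eh E n J)) j s y) ≤ δ * n}) ∪ {y | ¬ (mean (ising J y) fun s =>
      exc η (J *ᵥ gR Q c Λ M k (Eh E n J) s y)) ≤ δ * n}) fun y hy => ?_).trans ?_
  · by_contra hn
    simp only [Set.mem_union, Set.mem_iUnion, Set.mem_ofPred_eq, not_or, not_not, not_exists] at hn
    exact hy ⟨⟨g, ω, β, X, _, _, b1, (exp_pos _).le, e1,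
      mul_le_mul_of_nonneg_right e2 (sqrt_nonneg _), hn.1.1⟩, fun j hj => hn.1.2 j (mem_range.2 hj), hn.2⟩
  · refine (measureReal_union_le _ _).trans ((add_le_add ((measureReal_union_le _ _).trans
      (add_le_add a1 ((measureReal_biUnion_finset_le _ _).trans (sum_le_sum a2)))) a3).trans ?_)
    rw [sum_const, card_range, nsmul_eq_mul]
    linarith

theorem crtGlue (hR : RevStmt) (hPs : PsiStmt) (hP : ProgStmt) (hD : DirStmt) (hT : TailStmt)
    (hC : ConcStmt) (hG : RegStmt) : CrtStmt := by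
  obtain ⟨c0, H⟩ := crt_one hR hPs hP hD hT hC hG
  refine ⟨c0, fun c hc ι _ m E k K0 r M δ ε hE r0 M0 δ0 ε0 hb => ?_⟩
  obtain ⟨u, u0, hu⟩ : ∃ u : ℝ, 0 < u ∧ (Fintype.card ι + 1) * u = ε :=
    ⟨ε / (Fintype.card ι + 1), by positivity, by field_simp⟩
  have h := eventually_all.2 fun b => H c hc (m b) (E b) k K0 r M δ u (hE b).1 (hE b).2 r0 M0 δ0 u0 (hb b)
  filter_upwards [h] with Λ h
  filter_upwards [eventually_all.2 h] with e h
  filter_upwards [eventually_all.2 h] with η h n J Q n0 jq hat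
  have := SL.isProb_law (φ := sv) (s := r) (wt J 0)
  refine (measureReal_mono (s₂ := ⋃ b ∈ (univ : Finset ι),
    {y0 | ¬ Crt J Q y0 c Λ M e η δ k (Eh (E b) n J)}) (fun y hy => ?_) (measure_ne_top _ _)).trans
    ((measureReal_biUnion_finset_le _ _).trans ((sum_le_sum fun b _ => h b n J Q n0 jq hat).trans ?_))
  · simpa using hy
  · rw [sum_const, card_univ, nsmul_eq_mul]
    linarith

end Crest.Agent.T157.Md

end
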