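import Crest.Agent.T157.KTc_36
import Crest.Agent.T157.RegTool_31
import Crest.Agent.T157.ZLip_85

/-!
# Row 157, block S5: the Jacobian of a smooth network on the cube (helper95)
-/

set_option autoImplicit false

noncomputable section

namespace Crest.Agent.T157.K

open Matrix Finset
open Crest.Agent.T157.E Crest.Agent.T157.Eig
open Crest.Agent.T157.Tap (V Mx avg)
open Crest.Agent.T157.Reg (jac toolStmt)
open Crest.Agent.T157.Z (Nt Nw Bd tJ)
open Crest.Agent.T157.Rec (fl)

namespace Jc95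

variable {n : ℕ}

theorem taylor {m : ℕ} {φ : (Fin m → ℝ) → ℝ} {L : NNReal} (hd : Differentiable ℝ φ)
    (hL : LipschitzWith L (fderiv ℝ φ)) (u t : Fin m → ℝ) :
    |φ (u + t) - φ u - fderiv ℝ φ u t| ≤ L * ∑ l, t l ^ 2 := by
  have h := (convex_closedBall u ‖t‖).norm_image_sub_le_of_norm_fderiv_le' (𝕜 := ℝ) (f := φ)
    (φ := fderiv ℝ φ u) (C := L * ‖t‖) (x := u) (y := u + t) (fun x _ => hd x)
    (fun x hx => (hL.norm_sub_le x u).trans (mul_le_mul_of_nonneg_left
      (mem_closedBall_iff_norm.1 hx) L.2)) (Metric.mem_closedBall_self (norm_nonneg _))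
    (mem_closedBall_iff_norm.2 (by simp))
  rw [add_sub_cancel_left, Real.norm_eq_abs, mul_assoc] at h
  refine h.trans (mul_le_mul_of_nonneg_left ?_ L.2)
  have h0 : 0 ≤ ∑ l, t l ^ 2 := by positivity
  have : ‖t‖ ≤ √(∑ l, t l ^ 2) := (pi_norm_le_iff_of_nonneg (Real.sqrt_nonneg _)).2 fun l =>
    Real.abs_le_sqrt (single_le_sum (f := fun l => t l ^ 2) (fun _ _ => sq_nonneg _) (mem_univ l))
  nlinarith [Real.sq_sqrt h0, norm_nonneg t, Real.sqrt_nonneg (∑ l, t l ^ 2)]

theorem jac_map {m : ℕ} {φ : (Fin m → ℝ) → ℝ} {L1 L : NNReal} (h1 : LipschitzWith L1 φ)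
    (hd : Differentiable ℝ φ) (hL : LipschitzWith L (fderiv ℝ φ)) (u : Fin m → Cube n → V n)
    (C : Fin m → ℝ) (s : Cube n) (hC : ∀ l, opn (jac (u l) s) ≤ C l) :
    opn (jac (fun s i => φ fun l => u l s i) s) ≤ ∑ l, L1 * C l + L * ∑ l, C l ^ 2 := by
  set D : Fin n → (Fin m → ℝ) →L[ℝ] ℝ := fun i => fderiv ℝ φ fun l => u l s i with hD
  set R : Mx n := of fun i j => φ ((fun l => u l s i) + fun l => jac (u l) s i j) -
    (φ fun l => u l s i) - D i fun l => jac (u l) s i j with hR
  have e : jac (fun s i => φ fun l => u l s i) s =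
      ∑ l, diagonal (fun i => D i (Pi.single l 1)) * jac (u l) s + R := by
    ext i j
    have e1 : ((fun l => u l s i) + fun l => jac (u l) s i j) = fun l => u l (fl s j) i := by
      ext l; simp [jac]
    have e2 : (D i fun l => jac (u l) s i j) = ∑ l, D i (Pi.single l 1) * jac (u l) s i j := by
      conv_lhs => rw [pi_eq_sum_univ' fun l => jac (u l) s i j]
      simp only [map_sum, map_smul, smul_eq_mul, mul_comm]
    simp only [hR, Matrix.add_apply, Matrix.sum_apply, diagonal_mul, of_apply, e1, e2]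
    simp [jac]
  have q : ∀ l, opn (jac (u l) s) ^ 2 ≤ C l ^ 2 := fun l =>
    pow_le_pow_left₀ (opn_nonneg _) (hC l) 2
  have r : ∀ i j, |R i j| ≤ L * ∑ l, jac (u l) s i j ^ 2 := fun i j => taylor hd hL _ _
  rw [e]
  refine (opn_add_le _ _).trans (add_le_add ((opn_sum_le _ _).trans (sum_le_sum fun l _ =>
    (opn_mul_le _ _).trans (mul_le_mul (opn_diagonal_le L1.2 fun i => ?_) (hC l) (opn_nonneg _) L1.2)))
    (toolStmt.op_schur n R _ (by positivity) (fun i => ?_) fun j => ?_))
  · refine ((D i).le_opNorm _).trans ?_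
    rw [Pi.norm_single, norm_one, mul_one]
    exact norm_fderiv_le_of_lipschitz ℝ h1
  · refine (sum_le_sum fun j _ => r i j).trans ?_
    rw [← mul_sum, sum_comm]
    exact mul_le_mul_of_nonneg_left (sum_le_sum fun l _ =>
      (toolStmt.row_le n _ i).1.trans (q l)) L.2
  · refine (sum_le_sum fun i _ => r i j).trans ?_
    rw [← mul_sum, sum_comm]
    exact mul_le_mul_of_nonneg_left (sum_le_sum fun l _ =>
      (toolStmt.row_le n _ j).2.trans (q l)) L.2

theorem jac_prod {u v : Cube n → V n} {M M' C C' : ℝ} {s : Cube n} (hu : ∀ i, |u s i| ≤ M)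
    (hv : ∀ i, |v s i| ≤ M') (hC : opn (jac u s) ≤ C) (hC' : opn (jac v s) ≤ C') :
    opn (jac (fun s => u s * v s) s) ≤ |M'| * C + |M| * C' + C * C' := by
  have e : jac (fun s => u s * v s) s = diagonal (v s) * jac u s + diagonal (u s) * jac v s +
      of fun i j => jac u s i j * jac v s i j := by
    ext i j
    simp only [Matrix.add_apply, diagonal_mul, jac, of_apply, Pi.mul_apply]; ring
  have c0 := (opn_nonneg _).trans hC
  have c1 := (opn_nonneg _).trans hC'
  rw [e]
  exact (opn_add_le _ _).trans (add_le_add ((opn_add_le _ _).trans (add_le_add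
    ((opn_mul_le _ _).trans (mul_le_mul (opn_diagonal_le (abs_nonneg _) fun i =>
      (hv i).trans (le_abs_self _)) hC (opn_nonneg _) (abs_nonneg _)))
    ((opn_mul_le _ _).trans (mul_le_mul (opn_diagonal_le (abs_nonneg _) fun i =>
      (hu i).trans (le_abs_self _)) hC' (opn_nonneg _) (abs_nonneg _)))))
    (toolStmt.op_had n (jac u s) (jac v s) _ C C' c0 c1
      (fun i => (toolStmt.row_le n _ i).1.trans (pow_le_pow_left₀ (opn_nonneg _) hC 2))
      (fun j => (toolStmt.row_le n _ j).2.trans (pow_le_pow_left₀ (opn_nonneg _) hC' 2))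
      fun i j => (abs_mul _ _).le))

theorem jac_sc {p z : Cube n → V n} {A M C C' : ℝ} {s : Cube n} (hp : ∀ t, |avg (p t)| ≤ A)
    (hz : ∀ i, |z s i| ≤ M) (hC : opn (jac p s) ≤ C) (hC' : opn (jac z s) ≤ C') :
    opn (jac (fun s => avg (p s) • z s) s) ≤ C' * A + |M| * C := by
  have e : jac (fun s => avg (p s) • z s) s = jac z s * diagonal (fun j => avg (p (fl s j))) +
      vecMulVec (z s) (fun _ => (n : ℝ)⁻¹) * jac p s := by
    ext i j
    simp only [Matrix.add_apply, mul_diagonal, jac, of_apply, Pi.smul_apply, smul_eq_mul]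
    simp only [mul_apply, vecMulVec_apply, of_apply, avg, ← mul_sum, sum_sub_distrib]
    ring
  have a0 := (abs_nonneg _).trans (hp s)
  rw [e]
  refine (opn_add_le _ _).trans (add_le_add ((opn_mul_le _ _).trans (mul_le_mul hC'
    (opn_diagonal_le a0 fun j => hp _) (opn_nonneg _) ((opn_nonneg _).trans hC')))
    ((opn_mul_le _ _).trans (mul_le_mul ((opn_vecMulVec_le _ _).trans ?_) hC (opn_nonneg _)
      (abs_nonneg _))))
  have h1 := Z.L85.nrm_le_of_bd hz
  have h2 := Z.L85.nrm_le_of_bd (n := n) (v := fun _ => (n : ℝ)⁻¹) (M := (n : ℝ)⁻¹) fun _ =>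
    (abs_of_nonneg (by positivity)).le
  refine (mul_le_mul h1 h2 (nrm_nonneg _) (by positivity)).trans ?_
  rw [abs_of_nonneg (show (0 : ℝ) ≤ (n : ℝ)⁻¹ by positivity), mul_mul_mul_comm,
    Real.mul_self_sqrt n.cast_nonneg, mul_assoc]
  exact mul_le_of_le_one_right (abs_nonneg _) (inv_mul_le_one_of_le₀ le_rfl n.cast_nonneg)

end Jc95

open Jc95 in
theorem jacStmt : JacStmt := by
  intro ι _ X hX c
  induction hX with
  | inp j =>
    refine ⟨2 * |c j|, by positivity, fun n J a s => ?_⟩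
    have e : jac (fun s => a j + c j • sv s) s = diagonal fun i => c j * (sv (fl s i) i - sv s i) := by
      ext i k
      by_cases h : i = k
      · subst h; simp [jac]; ring
      · simp [jac, h, sv, fl, Function.update_of_ne h]
    rw [e]
    refine opn_diagonal_le (by positivity) fun i => ?_
    rw [abs_mul, mul_comm]
    refine mul_le_mul_of_nonneg_right ((abs_sub _ _).trans ?_) (abs_nonneg _)
    rw [sv, sv, abs_spin, abs_spin]; norm_num
  | map φ X h1 h2 _ ih =>
    obtain ⟨-, L1, h1⟩ := h1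
    obtain ⟨hd, L, hL⟩ := h2 trivial
    choose C C0 hC using ih
    exact ⟨_, add_nonneg (sum_nonneg fun l _ => mul_nonneg L1.2 (C0 l)) (by positivity),
      fun n J a s => jac_map h1 hd hL (fun l s => X l n J fun k => a k + c k • sv s) C s
        fun l => hC l n J a s⟩
  | mul X _ _ ih =>
    obtain ⟨C, C0, hC⟩ := ih
    refine ⟨3 * C, by positivity, fun n J a s => ?_⟩
    have e : jac (fun s => tJ J *ᵥ X n J fun l => a l + c l • sv s) s =
        tJ J * jac (fun s => X n J fun l => a l + c l • sv s) s := by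
      ext i k
      simp only [jac, of_apply, mul_apply, mulVec, dotProduct, mul_sub, sum_sub_distrib]
    rw [e]
    exact (opn_mul_le _ _).trans (mul_le_mul (Z.L85.opn_tJ J) (hC n J a s) (opn_nonneg _) (by norm_num))
  | sc X Y W _ _ _ bX bY bW iX iY iW =>
    obtain ⟨M1, b1⟩ := bX
    obtain ⟨M2, b2⟩ := bY
    obtain ⟨M3, b3⟩ := bW
    obtain ⟨C1, p1, h1⟩ := iX
    obtain ⟨C2, p2, h2⟩ := iY
    obtain ⟨C3, p3, h3⟩ := iW
    exact ⟨C3 * (|M1| * |M2|) + |M3| * (|M2| * C1 + |M1| * C2 + C1 * C2), by positivity,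
      fun n J a s => jac_sc (fun t => Z.L85.abs_avg_le (b1 n J _) (b2 n J _)) (b3 n J _)
        (jac_prod (b1 n J _) (b2 n J _) (h1 n J a s) (h2 n J a s)) (h3 n J a s)⟩

end Crest.Agent.T157.K
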