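import Crest.Agent.T157.KTc_36
import Crest.Agent.T157.KFo_54

/-!
# Row 157, block S5 (helper11): the mixed sample has the law of the spin
-/

set_option autoImplicit false

noncomputable section

namespace Crest.Agent.T157.K

open MeasureTheory ProbabilityTheory Matrix Set
open Crest.Agent.T157.E Crest.Agent.T157.Eig
open Crest.Agent.T157.Tap (V Mx)
open Crest.Agent.T157.Z (Hp RL rows)
open Crest.Agent.T157.Zf (QQ)
open Crest.Agent.T157.SL (MG)
open Crest.Agent.R339.Guerra (mp_comp mp_sum)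

namespace Lw11

variable {n m : ℕ} {ι κ : Type} [Fintype ι] [Fintype κ]

theorem fub {F : (ι ⊕ κ → ℝ) → ℝ} (hm : Measurable F) (hB : ∀ z, |F z| ≤ 1) :
    ∫ z, F z ∂gv (ι ⊕ κ) = ∫ a, ∫ b, F (Sum.elim a b) ∂gv κ ∂gv ι := by
  have h := mp_sum (ι := ι) (κ := κ)
  rw [show gv (ι ⊕ κ) = _ from h.map_eq.symm,
    integral_map h.measurable.aemeasurable hm.aestronglyMeasurable, integral_prod]
  exact (integrable_const 1).mono' (hm.comp h.measurable).aestronglyMeasurable
    (.of_forall fun z => hB _)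

theorem cmp {e : κ → ι} (he : Function.Injective e) {F : (κ → ℝ) → ℝ} (hm : Measurable F) :
    ∫ w, F (fun k => w (e k)) ∂gv ι = ∫ v, F v ∂gv κ := by
  have h := mp_comp e he
  rw [show gv κ = _ from h.map_eq.symm,
    integral_map h.measurable.aemeasurable hm.aestronglyMeasurable]

omit [Fintype ι] [Fintype κ] in
theorem m_elim (a : ι → ℝ) : Measurable fun b : κ → ℝ => (Sum.elim a b : ι ⊕ κ → ℝ) :=
  measurable_pi_lambda _ fun k => by cases k; exacts [measurable_const, measurable_pi_apply _]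

theorem m_lab {α : Type} [MeasurableSpace α] {x y : α → V n} {w : α → Fin m × Fin n → ℝ}
    (hx : Measurable x) (hy : Measurable y) (hw : Measurable w) :
    Measurable fun p => lab2 (x p) (y p) (w p) := measurable_pi_lambda _ fun l => by
  rcases l with (_ | _) | l
  exacts [hy, hx, measurable_pi_lambda _ fun i => (measurable_pi_apply (l, i)).comp hw]

theorem m_cb : Measurable (cb : V n → Cube n) := measurable_pi_lambda _ fun i => by
  refine measurable_to_bool ?_
  convert measurableSet_le (f := fun _ : V n => (0 : ℝ)) measurable_const (measurable_pi_apply i)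
    using 1
  ext p; simp [cb]

theorem m_mxs (hS : SmmStmt) (J : Mx n) (a : ℝ) {α : Type} [MeasurableSpace α] {s : α → Cube n}
    {y z w : α → V n} (hs : Measurable s) (hy : Measurable y) (hz : Measurable z)
    (hw : Measurable w) : Measurable fun p => sv (mxs J a (s p) (y p) (z p) (w p)) := by
  have h1 : Measurable fun p => sv (s p) := (measurable_of_finite sv).comp hs
  have h2 : Continuous fun q : V n × V n × V n =>
      a • q.1 + (1 - a) • pt (QQ J) q.2.1 (QQ J *ᵥ q.1 + q.2.2) :=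
    (continuous_fst.const_smul a).add ((Tap.continuous_th.comp (f := fun q : V n × V n × V n =>
      q.2.1 + QQ J *ᵥ (QQ J *ᵥ q.1 + q.2.2)) (by fun_prop)).const_smul (1 - a))
  exact (measurable_of_finite sv).comp ((hS.meas n).comp
    ((h2.measurable.comp (h1.prodMk (hy.prodMk hz))).prodMk hw))

theorem abs_int {f : (κ → ℝ) → ℝ} (h : ∀ w, |f w| ≤ 1) : |∫ w, f w ∂gv κ| ≤ 1 := by
  simpa using norm_integral_le_of_norm_le_const (μ := gv κ) (f := f) (.of_forall h)

variable {f : (Bool ⊕ Fin m → V n) → ℝ}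

/-- the mean over the labels -/
def GG (f : (Bool ⊕ Fin m → V n) → ℝ) (s : Cube n) (y : V n) : ℝ :=
  ∫ v, f (lab2 (sv s) y v) ∂gv (Fin m × Fin n)

theorem m_GG (hm : Measurable f) (s : Cube n) : Measurable (GG f s) :=
  (StronglyMeasurable.integral_prod_right (f := fun y v => f (lab2 (sv s) y v)) (hm.comp
    (m_lab measurable_const measurable_fst measurable_snd)).stronglyMeasurable).measurable

theorem small (hm : Measurable f) (hB : ∀ a, |f a| ≤ 1) (r : ℝ) (x : Cube n) :
    ∫ a, f a ∂(RL (Sum.elim (wc r) 0) (Sum.elim (wd r) 1) (sv x)) =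
      ∫ g, GG f x (r • sv x + √r • g) ∂gv (Fin n) := by
  have h : Measurable fun v : Fin n ⊕ Fin m × Fin n → ℝ =>
      f (lab2 (sv x) (r • sv x + √r • fun i => v (.inl i)) fun p => v (.inr p)) :=
    hm.comp (m_lab measurable_const (by fun_prop) (by fun_prop))
  rw [RL, integral_map (Z.Hp58.meas_rows _ _ _).aemeasurable hm.aestronglyMeasurable]
  refine Eq.trans ?_ ((cmp (ι := (Bool ⊕ Fin m) × Fin n)
    (e := Sum.elim (fun i => (.inl false, i)) fun p => (.inr p.1, p.2)) ?_ h).trans
    (fub h fun _ => hB _))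
  · congr 1; ext w; congr 1
    ext ((_ | _) | l) i <;> simp [rows, lab2, wc, wd]
  · rintro (i | ⟨l, i⟩) (j | ⟨k, j⟩) <;> simp

/-- the map of the rows -/
def SS (J : Mx n) (a : ℝ) (b : (Bool ⊕ Fin 2) ⊕ Fin m → V n) : Bool ⊕ Fin m → V n :=
  Sum.elim (fun t => if t then sv (mxs J a (cb (b (.inl (.inl true)))) (b (.inl (.inl false)))
    (b (.inl (.inr 0))) (b (.inl (.inr 1)))) else b (.inl (.inl false))) fun l => b (.inr l)

theorem m_SS (hS : SmmStmt) (J : Mx n) (a : ℝ) : Measurable (SS (m := m) J a) :=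
  m_lab (w := fun (b : (Bool ⊕ Fin 2) ⊕ Fin m → V n) p => b (.inr p.1) p.2)
    (m_mxs hS J a (m_cb.comp (measurable_pi_apply _)) (measurable_pi_apply _)
      (measurable_pi_apply _) (measurable_pi_apply _)) (measurable_pi_apply _) (by fun_prop)

/-- the resampled function -/
def XX (J : Mx n) (a : ℝ) (G : F2 n) : F2 n := fun x y =>
  cav (QQ J) (fun s ζ => ml (fun t => G t y) (a • sv s + (1 - a) • pt (QQ J) y ζ)) x

theorem big (hT : TcStmt) (hS : SmmStmt) (hm : Measurable f) (hB : ∀ a, |f a| ≤ 1) (J : Mx n)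
    {a : ℝ} (ha : a ∈ Icc (0 : ℝ) 1) (r : ℝ) (x : Cube n) :
    ∫ b, f (SS J a b) ∂(RL (Sum.elim (Sum.elim (wc r) (0 : Fin 2 → ℝ)) (0 : Fin m → ℝ))
      (Sum.elim (Sum.elim (wd r) 1) 1) (sv x)) =
      ∫ g, XX J a (GG f) x (r • sv x + √r • g) ∂gv (Fin n) := by
  have h : Measurable fun v : Fin n ⊕ Fin n ⊕ Fin n ⊕ Fin m × Fin n → ℝ =>
      f (lab2 (sv (mxs J a x (r • sv x + √r • fun i => v (.inl i)) (fun i => v (.inr (.inl i)))
        fun i => v (.inr (.inr (.inl i))))) (r • sv x + √r • fun i => v (.inl i))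
        fun p => v (.inr (.inr (.inr p)))) :=
    hm.comp (m_lab (m_mxs hS J a measurable_const (by fun_prop) (by fun_prop) (by fun_prop))
      (by fun_prop) (by fun_prop))
  rw [RL, integral_map (f := fun b => f (SS J a b)) (Z.Hp58.meas_rows _ _ _).aemeasurable
    (hm.comp (m_SS hS J a)).aestronglyMeasurable]
  refine Eq.trans ?_ ((cmp (ι := ((Bool ⊕ Fin 2) ⊕ Fin m) × Fin n)
    (e := Sum.elim (fun i => (.inl (.inl false), i)) (Sum.elim (fun i => (.inl (.inr 0), i))
      (Sum.elim (fun i => (.inl (.inr 1), i)) fun p => (.inr p.1, p.2)))) ?_ h).trans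
    ((fub h fun _ => hB _).trans ?_))
  · congr 1; ext w; congr 1
    have e : ∀ l, rows (Sum.elim (Sum.elim (wc r) (0 : Fin 2 → ℝ)) (0 : Fin m → ℝ))
        (Sum.elim (Sum.elim (wd r) 1) 1) (sv x) w l = Sum.elim (Sum.elim (fun t => if t then sv x
          else r • sv x + √r • fun i => w (.inl (.inl false), i)) fun k i => w (.inl (.inr k), i))
          (fun k i => w (.inr k, i)) l := by
      rintro (((_ | _) | l) | l) <;> ext i <;> simp [rows, wc, wd]
    simp only [SS, e, Sum.elim_inl, Sum.elim_inr, if_true, hT.cbsv, Bool.false_eq_true, if_false]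
    rfl
  · rintro (i | i | i | ⟨l, i⟩) (j | j | j | ⟨k, j⟩) <;> simp
  · congr 1; ext g
    refine (fub (h.comp (m_elim g)) fun _ => hB _).trans (congrArg _ (funext fun z => ?_))
    refine (fub (h.comp ((m_elim g).comp (m_elim z))) fun _ => hB _).trans ?_
    exact hS.law n (a • sv x + (1 - a) • pt (QQ J) (r • sv x + √r • g) (QQ J *ᵥ sv x + z))
      (fun t => GG f t (r • sv x + √r • g)) (Fo.cb_mix (Tap.cb_th _) x ha)

theorem inv (hP : PrStmt) (hR : RevStmt) {J : Mx n} (hJ : JQ J (QQ J)) {a r : ℝ}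
    (ha : a ∈ Icc (0 : ℝ) 1) (hr : 0 ≤ r) {G : F2 n} (hm : ∀ s, Measurable (G s))
    (hB : ∀ s y, |G s y| ≤ 1) : PM J r (XX J a G) = PM J r G := by
  have b : ∀ s y ζ, |ml (fun t => G t y) (a • sv s + (1 - a) • pt (QQ J) y ζ)| ≤ 1 := fun s y ζ =>
    Fo.abs_Ext_le (Fo.cb_mix (Tap.cb_th _) s ha) fun t => hB t y
  have c : ∀ s : Cube n, Continuous fun p : V n × V n => a • sv s + (1 - a) • pt (QQ J) p.1 p.2 :=
    fun s => continuous_const.add ((Tap.continuous_th.comp
      (f := fun p : V n × V n => p.1 + QQ J *ᵥ p.2) (by fun_prop)).const_smul (1 - a))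
  have mX : ∀ s, MG (XX J a G s) := fun s => by
    refine .of_bdd (StronglyMeasurable.integral_prod_right (f := fun y z => ml (fun t => G t y)
      (a • sv s + (1 - a) • pt (QQ J) y (QQ J *ᵥ sv s + z))) (Measurable.stronglyMeasurable
        (Finset.measurable_sum _ fun t _ => .mul ?_ ((hm t).comp measurable_fst)))).measurable 1
      fun y => abs_int fun _ => b _ _ _
    have := (c s).comp (f := fun p : V n × V n => (p.1, QQ J *ᵥ sv s + p.2)) (by fun_prop)
    exact (continuous_finsetProd _ fun i _ => (continuous_const.add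
      (((continuous_apply i).comp this).mul continuous_const)).div_const _).measurable
  rw [hR.pm n J r _ hr mX, hR.pm n J r G hr fun s => .of_bdd (hm s) 1 (hB s)]
  congr 1; ext _ y
  refine (hR.bayes n J _ y _ hJ fun s => .of_bdd ((Fo.continuous_Ext _).comp ((c s).comp
    (Continuous.prodMk_right y))).measurable 1 (b s y)).trans (Eq.trans ?_ (hR.inv n J _ y _ hJ))
  simp only [Ky, pw, hP.ml]
  congr 2; ext _ ζ
  exact Fo.Ext_mix _ _ a

end Lw11

open Lw11 in
theorem lawGlue : LawGlue := fun hT hS hP hR β hβ r hr a ha m P ⟨k, k0, h⟩ => by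
  refine Z.A48.imp Z.hpStmt (Z.hpStmt.and _ _ _ _ _ (fun n J b => GJ J → P n J (SS J a b))
    (hT.gj _ β hβ _ _) ⟨k, k0, h.mono (.of_forall fun n g hg => le_trans ?_ hg)⟩)
    fun n J b h => h.2 h.1
  rw [gibbsWeight_eq_ising]
  generalize β • Jmat n g = J
  have w : SL.Wt (ising J 0) := .of_pos fun _ => Real.exp_pos _
  by_cases hJ : GJ J
  swap
  · refine w.mean_mono fun x => ?_
    simp [hJ]
  obtain ⟨B, h1, h2, h3⟩ := exists_measurable_superset_forall_eq (fun x : Cube n =>
    RL (Sum.elim (wc r) (0 : Fin m → ℝ)) (Sum.elim (wd r) 1) (sv x)) {b | ¬ P n J b}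
  have hm : Measurable (B.indicator (1 : (Bool ⊕ Fin m → V n) → ℝ)) := measurable_const.indicator h2
  have hB : ∀ b, |B.indicator (1 : (Bool ⊕ Fin m → V n) → ℝ) b| ≤ 1 := fun b => by
    by_cases hb : b ∈ B <;> simp [hb]
  have e := inv hP hR (hT.jq n J hJ) ha hr (m_GG hm) fun s y => abs_int fun _ => hB _
  simp only [PM, SL.slE_eq_mean, ← small hm hB, ← big hT hS hm hB J ha] at e
  refine (w.mean_mono fun x => ?_).trans (e.trans_le (w.mean_mono fun x => ?_))
  · rw [show (fun b => B.indicator (1 : (Bool ⊕ Fin m → V n) → ℝ) (SS J a b)) = (SS J a ⁻¹' B).indicator 1 from rfl,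
      integral_indicator_one (m_SS hS J a h2)]
    exact measureReal_mono fun b hb => h1 fun hp => hb fun _ => hp
  · rw [integral_indicator_one h2, Measure.real, h3 x]; rfl

end Crest.Agent.T157.K

end
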