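import Crest.Agent.T157.KMdDef_93
import Crest.Agent.T157.S1W_6

/-!
# Row 157, block S5 (helper93): the cut of `ModGlue`
-/

set_option autoImplicit false

noncomputable section

namespace Crest.Agent.T157.Md

open MeasureTheory Real Matrix Finset Filter
open Crest.Agent.T157.E Crest.Agent.T157.Eig Crest.Agent.T157.K
open Crest.Agent.T157.Tap (V Mx)
open Crest.Agent.T157.Rec (grad)
open Crest.Agent.T157.SL (Wt)
open Crest.Agent.T157.S3.Hd (AD)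
open Crest.Agent.T157.S1 (Dat St Cl Sz Bas Bb Ex Del del nu pi U)

variable {n : ℕ}

/-! ### words -/

/-- regularity constant of `Om` -/
def eO (c Λ M : ℝ) (k : ℕ) : ℝ := (k + 1) * (exp (c * (k + 1) * Λ) * (c * M))

/-- `ψ` acts as `lin a` on warm laws -/
def CZ (J : Mx n) (y : V n) (lam T : ℝ) (ψ : Cube n → ℝ) (a : V n) : Prop :=
  ∀ v, Wt v → kl v (ising J y) ≤ T →
    (mean v ψ - (mean v (lin a) - mean (ising J y) (lin a))) ^ 2 ≤ lam * n * (kl v (ising J y) + 1)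
/-- the tail `K^k (lin a)` is not seen by warm laws -/
def CT (J Q : Mx n) (y : V n) (lam T : ℝ) (k : ℕ) (a : V n) : Prop :=
  ∀ v, Wt v → kl v (ising J y) ≤ T →
    (mean v ((Ky Q y)^[k] (lin a)) - mean (ising J y) (lin a)) ^ 2 ≤ lam * n * (kl v (ising J y) + 1)
/-- `Ω` represents the gradient of `∑_{l<k} K^l (lin a)` -/
structure CB (J Q : Mx n) (y : V n) (lam e η : ℝ) (k : ℕ) (Ω : U2 n) (a : V n) : Prop where
  bs : ∃ X L, BS0 (Ks Q y k (lin a)) (fun s => Ω s y) X e L ∧ mean (ising J y) X ≤ lam * n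
  rf : RF e Ω
  jx : (mean (ising J y) fun s => exc η (J *ᵥ gt Q Ω s y)) ≤ lam * n

/-- the common prefix of the certificates at the running field `y` -/
def Cert (Φ : ∀ n : ℕ, Mx n → Mx n → V n → (lam T e η : ℝ) → ℕ → (Cube n → ℝ) → U2 n → V n → Prop) :
    Prop := ∀ K : ℝ, ∃ c0 : ℝ, ∀ c ≥ c0, ∀ A0 lam : ℝ, 0 < lam → ∃ k0 : ℕ, ∀ k ≥ k0,
  ∃ δ0 > (0 : ℝ), ∃ Λ0 : ℝ, ∀ Λ ≥ Λ0, ∀ M e η : ℝ, 0 ≤ M → 0 ≤ η → ∃ θ > (0 : ℝ), ∀ᶠ n : ℕ in atTop,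
  ∀ (J Q : Mx n) (y0 y : V n) (E : V n → V n → V n) (a : V n) (δ T : ℝ), JQ J Q → δ ≤ δ0 →
    Tgt J Q y0 c Λ M e η δ A0 k E a → AD (ising J y0) K (1 / n) → AD (ising J y) K (1 / n) →
    nrm (y - y0) ^ 2 ≤ T → T ≤ θ * n →
    Φ n J Q y lam T (eO c Λ M k) η k (fun s => psi Q E k s y) (Om Q c Λ M k E) a

def CertZ : Prop := Cert fun _ J _ y lam T _ _ _ ψ _ a => CZ J y lam T ψ a
def CertT : Prop := Cert fun _ J Q y lam T _ _ k _ _ a => CT J Q y lam T k a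
def CertB : Prop := Cert fun _ J Q y lam _ e η k _ Ω a => CB J Q y lam e η k Ω a

/-- all budgets of the state are at most `β` -/
structure Bud (D : Dat n) (s : St n) (β : ℝ) : Prop where
  kn : kl (nu D s) (ising D.J s.y) + 1 ≤ β
  kp : kl (pi D s) (ising D.J s.y) + 1 ≤ β
  up : mean (pi D s) (U D s) ≤ β
  dl : del s ⬝ᵥ del s ≤ β
  ll : s.L ^ 2 ≤ β
  ss : (#s.S : ℝ) ≤ β

/-- `π ∑_{j ∉ S} u_j G_j` -/
def pr (D : Dat n) (s : St n) (u G : Cube n → V n) : ℝ :=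
  mean (pi D s) fun σ => ∑ j ∈ s.Sᶜ, u σ j * G σ j

/-! ### leaves -/

/-- the first-order identity for one target -/
def FoT : Prop := ∀ K : ℝ, ∃ C ≥ (1 : ℝ), ∀ (n : ℕ) (D : Dat n) (s : St n) (Q : Mx n)
  (ε ec lam T e η β : ℝ) (k : ℕ) (ψ : Cube n → ℝ) (Ω : U2 n) (a : V n) (g : Cube n → V n), D.Ok →
  JQ D.J Q → Cl ec ec s → AD (ising D.J s.y) K ε → Bud D s β → β ≤ T → 0 ≤ lam →
  CZ D.J s.y lam T ψ a → CT D.J Q s.y lam T k a → CB D.J Q s.y lam e η k Ω a →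
  (g = fun σ => gt Q Ω σ s.y) →
  (a ⬝ᵥ Del D s - (mean (nu D s) ψ - (pr D s (fun _ => del s) g + pr D s (grad s.Th) g -
    pr D s (grad (U D s)) g))) ^ 2 ≤ C * D.P ^ 4 * β * (lam * n + e ^ 2 * β)

/-- the size of a combination of response fields -/
def GsT : Prop := ∀ K : ℝ, ∃ C ≥ (1 : ℝ), ∀ (n : ℕ) (ι : Type) [Fintype ι] (J Q : Mx n) (y : V n)
  (ε lam e η R A N : ℝ) (k : ℕ) (Ω : ι → U2 n) (a : ι → V n) (κ : ι → ℝ) (G : Cube n → V n), JQ J Q →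
  AD (ising J y) K ε → (∀ b, CB J Q y lam e η k (Ω b) (a b)) → 0 ≤ lam → 0 ≤ e → 0 ≤ η → 0 ≤ R →
  (Fintype.card ι : ℝ) ≤ N → ∑ b, κ b ^ 2 ≤ R ^ 2 → nrm (∑ b, κ b • a b) ≤ A * √n →
  (k : ℝ) ^ 2 * ε ≤ 1 → (G = fun σ => ∑ b, κ b • gt Q (Ω b) σ y) →
  R0 (C * N * R * e) G ∧ ∀ (v : Cube n → ℝ) (β : ℝ), Wt v → kl v (ising J y) + 1 ≤ β →
    (mean v fun σ => nrm (G σ) ^ 2) ≤ C * (A ^ 2 * n + (N * R) ^ 2 * (lam * n + e ^ 2 * β)) ∧
    ∀ S : Finset (Fin n), (mean v fun σ => ∑ i ∈ S, (J *ᵥ G σ) i ^ 2) ≤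
      C * (N * R) ^ 2 * (η ^ 2 * #S + lam * n + e ^ 2 * β)

/-- the part of the tilt: from `π` to `ν` -/
def ThT : Prop := ∀ K : ℝ, ∃ C ≥ (1 : ℝ), ∀ (n : ℕ) (D : Dat n) (s : St n) (ε ec e Γ β : ℝ)
  (G : Cube n → V n), D.Ok → Cl ec ec s → AD (ising D.J s.y) K ε → Bud D s β → ec ≤ 1 → β ≤ n →
  ε * n ≤ 1 → R0 e G → (mean (ising D.J s.y) fun σ => nrm (G σ) ^ 2) ≤ Γ →
  (mean (nu D s) fun σ => nrm (G σ) ^ 2) ≤ Γ → (mean (pi D s) fun σ => nrm (G σ) ^ 2) ≤ Γ →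
  pr D s (grad s.Th) G ^ 2 ≤ 2 * (mean (nu D s) fun σ => grad s.Th σ ⬝ᵥ G σ) ^ 2 +
    C * (Γ * (Ex D s + ec * β) + e ^ 2 * β ^ 2)

/-- the part of the bursts -/
def UT : Prop := ∃ C ≥ (1 : ℝ), ∀ (n : ℕ) (D : Dat n) (s : St n) (e W β : ℝ) (G : Cube n → V n),
  D.Ok → Bud D s β → (∀ σ i, |G σ i| ≤ e) →
  (mean (pi D s) fun σ => ∑ i ∈ s.S, (D.J *ᵥ G σ) i ^ 2) ≤ W →
  pr D s (grad (U D s)) G ^ 2 ≤ C * D.P ^ 2 * β * (W + e ^ 2 * β)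

def CertZGlue : Prop := DirStmt → TrfStmt → Z0Stmt → CertZ
def CertTGlue : Prop := RevStmt → GapStmt → ProgStmt → DirStmt → TrfStmt → TrStmt → CertT
def CertBGlue : Prop := RevStmt → ProgStmt → DirStmt → TrfStmt → RegStmt → CertB
def FoTGlue : Prop := RevStmt → FoStmt → FoT
def GsTGlue : Prop := RevStmt → GapStmt → TrfStmt → GtStmt → GsT
def ThTGlue : Prop := TrStmt → ThT

/-! ### tools -/

/-- optimisation in `θ` -/
theorem opt {x H B θm : ℝ} (hH : 0 ≤ H) (hθ : 0 < θm) (h1 : H + 1 ≤ B * θm ^ 2)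
    (h : ∀ θ, 0 < θ → θ ≤ θm → |x| ≤ H / θ + θ * B) : x ^ 2 ≤ 4 * B * (H + 1) := by
  have hB : 0 < B := by
    by_contra hb
    nlinarith [mul_nonneg (neg_nonneg.2 (not_lt.1 hb)) (sq_nonneg θm)]
  obtain ⟨r, r0, r3⟩ : ∃ r : ℝ, 0 < r ∧ r ^ 2 * B = H + 1 :=
    ⟨√((H + 1) / B), sqrt_pos.2 (by positivity), by rw [sq_sqrt (by positivity)]; field_simp⟩
  have r1 : r ≤ θm := by
    refine abs_le_of_sq_le_sq' ?_ hθ.le |>.2
    exact le_of_mul_le_mul_right (by linarith) hB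
  have h2 : |x| ≤ 2 * (r * B) := by
    have : H / r ≤ r * B := by rw [div_le_iff₀ r0]; nlinarith
    linarith [h r r0 r1]
  calc x ^ 2 = |x| ^ 2 := (sq_abs x).symm
    _ ≤ (2 * (r * B)) ^ 2 := pow_le_pow_left₀ (abs_nonneg x) h2 2
    _ = 4 * B * (r ^ 2 * B) := by ring
    _ = _ := by rw [r3]

theorem is_pos (J : Mx n) (y : V n) (s : Cube n) : 0 < ising J y s := exp_pos _
theorem wt_is (J : Mx n) (y : V n) : Wt (ising J y) := .of_pos (is_pos J y)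
theorem kl_nn (J : Mx n) (y : V n) {v : Cube n → ℝ} (hv : Wt v) : 0 ≤ kl v (ising J y) :=
  (S1n.pr_of (is_pos J y) hv).kl_nonneg

/-- (H1) from `AD` -/
theorem h1_ad {w : Cube n → ℝ} {K ε : ℝ} (hw : ∀ x, 0 < w x) (h : AD w K ε) : Xt.H1 w K := by
  obtain ⟨K0, k, h0, hk, h1, -, h2⟩ := h
  intro G A hA hG t ht
  refine (Xt.h1_of_atd h2 hw h0 hk G A hA hG t ht).trans ?_
  have : 8 / k ≤ 32 / k := div_le_div_of_nonneg_right (by norm_num) hk.le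
  gcongr
  linarith

/-- transfer of a small mean from the base point to the running field -/
theorem near (hT : TrfStmt) (K : ℝ) : ∃ C ≥ (1 : ℝ), ∀ (n : ℕ) (J : Mx n) (y0 y : V n) (X : F2 n)
    (e ε T : ℝ), AD (ising J y0) K ε → RE e X → nrm (y - y0) ^ 2 ≤ T →
    (mean (ising J y) fun s => X s y) ≤
      4 * (mean (ising J y0) fun s => X s y0) + C * e ^ 2 * (T + 1) := by
  obtain ⟨C, hC, h⟩ := hT K
  refine ⟨C * (16 * |K| + 1), by nlinarith [abs_nonneg K], fun n J y0 y X e ε T hA hX hy => ?_⟩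
  have h1 := S1n.kl_tilt_self (is_pos J y0) (h1_ad (is_pos J y0) hA) (y - y0)
  rw [tilt_ising, add_sub_cancel, ← nrm_sq, ← abs_of_pos hA.pos] at h1
  refine (h n _ _ X e ε y0 y (is_pos J y0) hA (wt_is J y) hX).trans (add_le_add_right ?_ _)
  have h2 := mul_le_mul_of_nonneg_left hy (abs_nonneg K)
  have h3 : kl (ising J y) (ising J y0) + nrm (y - y0) ^ 2 + 1 ≤ (16 * |K| + 1) * (T + 1) := by
    nlinarith [abs_nonneg K]
  calc _ ≤ C * e ^ 2 * ((16 * |K| + 1) * (T + 1)) := by gcongr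
    _ = _ := by ring

end Crest.Agent.T157.Md

end
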