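import Crest.Agent.T157.KDef_36
import Crest.Agent.T157.S1Def_97

/-!
# Row 157, block S5 (helper93): the collective deficit and the predicted responses, deterministic part
-/

set_option autoImplicit false

noncomputable section

namespace Crest.Agent.T157.Md

open MeasureTheory Real Matrix Finset Filter
open Crest.Agent.T157.E Crest.Agent.T157.Eig Crest.Agent.T157.K
open Crest.Agent.T157.Tap (V Mx)
open Crest.Agent.T157.Rec (grad)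
open Crest.Agent.T157.SL (Wt)
open Crest.Agent.T157.S3 (TS Rg)
open Crest.Agent.T157.S1 (Dat St Cl Sz Bas Bb Ex Del del nu Ew Fy)

variable {n : ℕ}

/-- the program for the gradient of `∑_{l<k} K^l (lin a)` -/
def Om (Q : Mx n) (c Λ M : ℝ) (k : ℕ) (E : V n → V n → V n) : U2 n :=
  ∑ l ∈ range k, wS Q c Λ (c * M) (dirS Q E) l
/-- the response field of a target -/
def gR (Q : Mx n) (c Λ M : ℝ) (k : ℕ) (E : V n → V n → V n) : U2 n := gt Q (Om Q c Λ M k E)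
/-- its regularity constant -/
def eR (c Λ M : ℝ) (k : ℕ) : ℝ := c * ((k + 1) * (exp (c * (k + 1) * Λ) * (c * M)))
/-- the squared local observables -/
def Zs {ι : Type} [Fintype ι] (Q : Mx n) (k : ℕ) (E : ι → V n → V n → V n) : Fy n :=
  fun σ y => (∑ b, psi Q (E b) k σ y ^ 2) / n
/-- the squared responses to the tilt `Θ` -/
def Rsp {ι : Type} [Fintype ι] (g : ι → U2 n) (Θ : Cube n → ℝ) : Fy n :=
  fun σ y => (∑ b, (grad Θ σ ⬝ᵥ g b σ y) ^ 2) / n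
/-- prediction of a field -/
def gb (g : U2 n) (τ : ℝ) (y : V n) (σ : Cube n) : V n := fun j => Ew τ (fun σ y => g σ y j) σ y

/-- the certificate of the target `a` at the base point `y0` -/
structure Tgt (J Q : Mx n) (y0 : V n) (c Λ M e η δ A0 : ℝ) (k : ℕ) (E : V n → V n → V n) (a : V n) :
    Prop where
  blo : BLO M E
  na : nrm a ≤ A0 * √n
  dv : mean (ising J y0) (dev Q E a y0) ≤ δ * n
  ps : ∃ g ω β X e' L, BS (psi Q E k) g ω β X e' L ∧ 0 ≤ e' ∧ e' ≤ e ∧ L ≤ e * √n ∧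
    (mean (ising J y0) fun s => X s y0) ≤ δ * n
  xs : ∀ j < k, (mean (ising J y0) fun s => xS Q c Λ (c * M) (dirS Q E) j s y0) ≤ δ * n
  jx : (mean (ising J y0) fun s => exc η (J *ᵥ gR Q c Λ M k E s y0)) ≤ δ * n

/-- regularity of the response fields -/
def RegStmt : Prop := ∃ c0 : ℝ, ∀ c ≥ c0, ∀ (n : ℕ) (J Q : Mx n) (Λ M : ℝ) (k : ℕ)
  (E : V n → V n → V n), JQ J Q → 1 ≤ Λ → 0 ≤ M → BLO M E →
  RF (eR c Λ M k) (gR Q c Λ M k E) ∧ OddJ (gR Q c Λ M k E) ∧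
    ∀ η, 0 ≤ η → RE (6 * eR c Λ M k) fun s y => exc η (J *ᵥ gR Q c Λ M k E s y)

/-- **ModDet** : one combination `κ` of the targets -/
def ModStmt : Prop := ∀ K0 κ0 : ℝ, 0 < κ0 → ∃ CM ≥ (1 : ℝ), ∃ c0 : ℝ, ∀ c ≥ c0,
  ∀ (P A0 R ω : ℝ) (nb : ℕ), 0 < ω → ω ≤ 1 → ∃ k : ℕ, ∃ δ > (0 : ℝ), ∃ Λ0 : ℝ, ∀ Λ ≥ Λ0,
  ∀ M e η : ℝ, 0 ≤ M → 0 ≤ η → ∃ θ > (0 : ℝ), ∀ᶠ n : ℕ in atTop,
  ∀ (ι : Type) [Fintype ι] (Q : Mx n) (y0 : V n) (E : ι → V n → V n → V n) (a : ι → V n) (D : Dat n)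
    (s : St n) (t ec A : ℝ) (κ : ι → ℝ), Fintype.card ι ≤ nb → JQ D.J Q →
    (∀ b, Tgt D.J Q y0 c Λ M e η δ A0 k (E b) (a b)) → D.Ok → D.P = P → Bas D.J K0 κ0 y0 →
    Bas D.J K0 κ0 s.y → Cl ec ec s → Sz D s t → nrm (s.y - y0) ^ 2 ≤ t → t ≤ θ * n → 1 ≤ A →
    CM * A ^ 2 * ec ≤ ω → ∑ b, κ b ^ 2 ≤ R ^ 2 → nrm (∑ b, κ b • a b) ≤ A * √n →
    ((∑ b, κ b • a b) ⬝ᵥ Del D s) ^ 2 / n ≤ CM * A ^ 2 * (del s ⬝ᵥ del s) +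
      CM * R ^ 2 * ((mean (nu D s) fun σ => Zs Q k E σ s.y) +
        mean (nu D s) fun σ => Rsp (fun b => gR Q c Λ M k (E b)) s.Th σ s.y) +
      ω * (Bb D s y0 + 1) + CM * A ^ 2 * Ex D s

/-- **PredDet** : one response field -/
def PredStmt : Prop := ∀ K0 κ0 S : ℝ, 0 < κ0 → ∃ C ≥ (1 : ℝ), ∀ (n : ℕ) (J : Mx n) (y0 y : V n)
  (g : U2 n) (e τ e1 L B : ℝ) (φ G v : Cube n → ℝ) (Ω : Cube n → V n), Bas J K0 κ0 y0 → RF e g →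
  0 ≤ τ → τ ≤ S → (∀ σ, nrm (grad φ σ) ≤ L) → Rg e1 L Ω → (∀ σ, nrm (grad φ σ - Ω σ) ≤ G σ) →
  TS e1 G → (mean (ising J y0) fun σ => G σ ^ 2) ≤ B → e1 ≤ 1 → Wt v →
  (mean v fun σ => Ew τ (fun σ y => (grad φ σ ⬝ᵥ g σ y) ^ 2) σ y) ≤
    C * ((mean (ising J y0) fun σ => grad φ σ ⬝ᵥ gb g τ y0 σ) ^ 2 +
      e ^ 2 * n * (B + e1 * (kl v (ising J y0) + 1)) +
      e ^ 2 * L ^ 2 * (kl v (ising J y0) + 1 + nrm (y - y0) ^ 2))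

/-- from the combinations of the targets to the modes -/
def LinStmt : Prop := ∀ (n : ℕ) (ι : Type) [Fintype ι] (J : Mx n) (a0 q Δ : V n) (k : ℕ) (v : ℕ → V n)
  (f : ι → V n) (T : ℕ → ι → ℝ) (C1 R Z : ℝ), 0 < n → Jᵀ = J → opn J ≤ 3 →
  (∀ i, |q i * a0 i| ≤ 2 * C1 ∧ |q i| ≤ 2) →
  (∀ a < k, ∀ b < k, v a ⬝ᵥ v b = if a = b then 1 else 0) →
  (∀ a < k, v a = (√(n : ℝ))⁻¹ • ∑ b, T a b • f b) →
  (∀ x : ℕ → ℝ, ∑ b, (∑ a ∈ range k, x a * T a b) ^ 2 ≤ R ^ 2 * ∑ a ∈ range k, x a ^ 2) → 0 ≤ Z →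
  (∀ κ : ι → ℝ, ∑ b, κ b ^ 2 ≤ R ^ 2 →
    nrm (∑ b, κ b • (a0 * (q * f b) - J *ᵥ (q * f b))) ≤ (2 * C1 + 6) * √n →
    ((∑ b, κ b • (a0 * (q * f b) - J *ᵥ (q * f b))) ⬝ᵥ Δ) ^ 2 / n ≤ Z) →
  ∑ a ∈ range k, (v a ⬝ᵥ (q * (a0 * Δ - J *ᵥ Δ))) ^ 2 ≤ Z

def RegGlue : Prop := ProgStmt → DirStmt → GtStmt → RegStmt
def ModGlue : Prop := RevStmt → GapStmt → ProgStmt → DirStmt → TrfStmt → TrStmt → Z0Stmt → FoStmt →
  GtStmt → S1.CrudeStmt → S1.B1Stmt → ModStmt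
def PredGlue : Prop := RFStmt → PredStmt

end Crest.Agent.T157.Md

end
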