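import Crest.Agent.T157.KMdB_93

/-!
# Row 157, block S5 (helper93): `ModStmt` from the leaves of `KMdB_93`
-/

set_option autoImplicit false

noncomputable section

namespace Crest.Agent.T157.Md

open MeasureTheory Real Matrix Finset Filter Topology
open Crest.Agent.T157.E Crest.Agent.T157.Eig Crest.Agent.T157.K Crest.Agent.T157.SL
open Crest.Agent.T157.Tap (V Mx)
open Crest.Agent.T157.Rec (grad)
open Crest.Agent.T157.S3.Hd (AD)
open Crest.Agent.T157.S1 (Dat St Cl Sz Bas Bb Bd Hy Ex Del del nu pi U)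

namespace G93

variable {n : ℕ} {ι : Type} [Fintype ι]

theorem msq {v : Cube n → ℝ} (hv : Wt v) (f : Cube n → ℝ) :
    mean v f ^ 2 ≤ mean v fun x => f x ^ 2 := by
  have h := hv.mean_nonneg (f := fun x => (f x - mean v f) ^ 2) fun _ => sq_nonneg _
  have e : (fun x => (f x - mean v f) ^ 2) =
      fun x => f x ^ 2 - (2 * mean v f) * f x + mean v f ^ 2 := by ext x; ring
  rw [e, mean_add, mean_sub, mean_const_mul, hv.mean_const] at h
  nlinarith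

theorem cs {κ : ι → ℝ} {R : ℝ} (h : ∑ b, κ b ^ 2 ≤ R ^ 2) (x : ι → ℝ) :
    (∑ b, κ b * x b) ^ 2 ≤ R ^ 2 * ∑ b, x b ^ 2 :=
  (sum_mul_sq_le_sq_mul_sq _ _ _).trans
    (mul_le_mul_of_nonneg_right h (sum_nonneg fun _ _ => sq_nonneg _))

/-- a combination seen by a law -/
theorem comb {v : Cube n → ℝ} (hv : Wt v) (hn : 0 < (n : ℝ)) {κ : ι → ℝ} {R : ℝ}
    (h : ∑ b, κ b ^ 2 ≤ R ^ 2) (f : ι → Cube n → ℝ) :
    (∑ b, κ b * mean v (f b)) ^ 2 ≤ R ^ 2 * n * mean v fun σ => (∑ b, f b σ ^ 2) / n := by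
  rw [mean_div_const, mul_assoc, mul_div_cancel₀ _ hn.ne', mean_sum]
  exact (cs h _).trans (mul_le_mul_of_nonneg_left (sum_le_sum fun b _ => msq hv _) (sq_nonneg _))

theorem pr_sum (D : Dat n) (s : St n) (u : Cube n → V n) (κ : ι → ℝ) (g : ι → Cube n → V n) :
    pr D s u (fun σ => ∑ b, κ b • g b σ) = ∑ b, κ b * pr D s u (g b) := by
  simp only [pr, ← mean_const_mul, ← mean_sum]
  congr 1
  ext σ
  simp only [Finset.sum_apply, Pi.smul_apply, smul_eq_mul, mul_sum]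
  rw [sum_comm]
  exact sum_congr rfl fun b _ => sum_congr rfl fun j _ => by ring

theorem pr_del {D : Dat n} (s : St n) (h : D.Ok) (G : Cube n → V n) :
    pr D s (fun _ => del s) G ^ 2 ≤ del s ⬝ᵥ del s * mean (pi D s) fun σ => nrm (G σ) ^ 2 := by
  have hw := (S1.W6.pr_pi s h).hw
  rw [← mean_const_mul]
  refine (msq hw _).trans (hw.mean_mono fun σ => (sum_mul_sq_le_sq_mul_sq _ _ _).trans ?_)
  rw [nrm_sq, dotProduct, dotProduct]
  simp only [sq]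
  exact mul_le_mul (sum_le_sum_of_subset_of_nonneg (subset_univ _) fun _ _ _ => mul_self_nonneg _)
    (sum_le_sum_of_subset_of_nonneg (subset_univ _) fun _ _ _ => mul_self_nonneg _)
    (sum_nonneg fun _ _ => mul_self_nonneg _) (sum_nonneg fun _ _ => mul_self_nonneg _)

theorem bud {D : Dat n} {s : St n} (h : D.Ok) {C : ℝ} (hC : 1 ≤ C)
    (h1 : kl (pi D s) (ising D.J s.y) ≤ C * Bb D s s.y) (h2 : mean (pi D s) (U D s) ≤ C * Bb D s s.y) :
    0 ≤ Bd D s ∧ Bud D s (C * (Bd D s + 1)) := by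
  have e : Bb D s s.y = Bd D s := by simp [Bb]
  rw [e] at h1 h2
  have a1 := S1.W6.Hy_nonneg s h
  have a2 := S1.W6.nuU_nonneg s h
  have a3 := Eig.dot_self_nonneg (del s)
  have a4 := sq_nonneg s.L
  have a5 : (0 : ℝ) ≤ #s.S := Nat.cast_nonneg _
  have e2 : Bd D s = Hy D s + del s ⬝ᵥ del s + s.L ^ 2 + mean (nu D s) (U D s) + #s.S := rfl
  have b0 : 0 ≤ Bd D s := by linarith
  have b1 : Bd D s + 1 ≤ C * (Bd D s + 1) := le_mul_of_one_le_left (by linarith) hC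
  refine ⟨b0, ?_, by linarith, by linarith, by linarith, by linarith, by linarith⟩
  show Hy D s + 1 ≤ _
  linarith

theorem ev_ad {K0 κ0 : ℝ} (hκ : 0 < κ0) : ∀ᶠ n : ℕ in atTop, ∀ (J : Mx n) (y : V n), Bas J K0 κ0 y →
    AD (ising J y) (max K0 0 + 32 / κ0) (1 / n) := by
  have t1 : Tendsto (fun n : ℕ => (n : ℝ)) atTop atTop := tendsto_natCast_atTop_atTop
  have t2 := ((tendsto_pow_mul_exp_neg_atTop_nhds_zero 3).comp
    (t1.const_mul_atTop (half_pos hκ))).const_mul (5120 / (κ0 / 2) ^ 3)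
  filter_upwards [t2.eventually_le_const (u := 1) (by simp), t1.eventually_gt_atTop 0] with
    n h2 h3 J y h1
  refine ⟨max K0 0, κ0, le_max_right _ _, hκ, le_rfl, ?_,
    h1.mono (is_pos J y) (le_max_left _ _) le_rfl⟩
  rw [le_div_iff₀ (by positivity)]
  refine le_of_eq_of_le ?_ h2
  simp only [Function.comp_apply]
  rw [show κ0 * (n : ℝ) / 2 = κ0 / 2 * n by ring, mul_pow]
  field_simp

theorem sq5 (a b c d e : ℝ) :
    (a + b - (c + d - e)) ^ 2 ≤ 5 * (a ^ 2 + b ^ 2 + c ^ 2 + d ^ 2 + e ^ 2) := by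
  nlinarith [sq_nonneg (a - b), sq_nonneg (a + c), sq_nonneg (a + d), sq_nonneg (a - e),
    sq_nonneg (b + c), sq_nonneg (b + d), sq_nonneg (b - e), sq_nonneg (c - d), sq_nonneg (c + e),
    sq_nonneg (d + e)]

/-- the final count -/
theorem num {r z p1 p2 p3 n Cf Cg Ct Cu Cb P Z R2 A2 β B σ ω ec dd zs rs ex H CM : ℝ} (hn : 0 < n)
    (hg : 1 ≤ Cg) (ht : 1 ≤ Ct) (hb : 1 ≤ Cb) (hA : 0 ≤ A2) (hR : 0 ≤ R2) (hB : 0 ≤ B)
    (hβ : β = Cb * B) (hdd : 0 ≤ dd) (hzs : 0 ≤ zs) (hrs : 0 ≤ rs) (hex : 0 ≤ ex)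
    (hH : H = Cf * P ^ 4 + Ct * Cg ^ 2 + 2 * Cu * P ^ 2 * Cg ^ 2) (hσ : 10 * Z * H * Cb * σ ≤ ω)
    (hCM : CM = 20 * Ct * Cg * Cb) (hec : CM * A2 * ec ≤ ω)
    (h1 : r ^ 2 ≤ Cf * P ^ 4 * (Z * σ * β * n)) (h2 : z ^ 2 ≤ R2 * n * zs)
    (h3 : p1 ^ 2 ≤ dd * (2 * Cg * A2 * n))
    (h4 : p2 ^ 2 ≤ 2 * (R2 * n * rs) + Ct * (2 * Cg * A2 * n * (ex + ec * β)) +
      Ct * Cg ^ 2 * (Z * σ * β * n))
    (h5 : p3 ^ 2 ≤ 2 * Cu * P ^ 2 * Cg ^ 2 * (Z * σ * β * n)) :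
    (r + z - (p1 + p2 - p3)) ^ 2 / n ≤ CM * A2 * dd + CM * R2 * (zs + rs) + ω * B + CM * A2 * ex := by
  rw [div_le_iff₀ hn]
  have c1 : 1 ≤ Ct * Cg := one_le_mul_of_one_le_of_one_le ht hg
  have c2 : 10 * (Ct * Cg) ≤ CM := by rw [hCM]; nlinarith
  have c3 : 10 * Cg ≤ CM := by nlinarith
  have d1 := mul_le_mul_of_nonneg_right c3 (show 0 ≤ A2 * dd * n by positivity)
  have d2 := mul_le_mul_of_nonneg_right (show 10 ≤ CM by linarith) (show 0 ≤ R2 * zs * n by positivity)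
  have d3 := mul_le_mul_of_nonneg_right (show 10 ≤ CM by linarith) (show 0 ≤ R2 * rs * n by positivity)
  have d4 := mul_le_mul_of_nonneg_right c2 (show 0 ≤ A2 * ex * n by positivity)
  have d5 := mul_le_mul_of_nonneg_right hec (show 0 ≤ B * n by positivity)
  have d6 := mul_le_mul_of_nonneg_right hσ (show 0 ≤ B * n by positivity)
  have d7 : 0 ≤ R2 * zs * n := by positivity
  refine (sq5 _ _ _ _ _).trans ?_
  subst hβ hH hCM
  linarith

end G93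

open G93 in
/-- **ModDet** from its leaves -/
theorem modOf (hZ : CertZ) (hT : CertT) (hB : CertB) (hF : FoT) (hG : GsT) (hH : ThT) (hU : UT)
    (h1 : S1.B1Stmt) : ModStmt := by
  intro K0 κ0 hκ
  obtain ⟨Cb, cb, b1⟩ := h1 K0 κ0 hκ
  have hA := ev_ad (K0 := K0) hκ
  generalize max K0 0 + 32 / κ0 = K at hA
  obtain ⟨Cf, cf, fo⟩ := hF K
  obtain ⟨Cg, cg, gs⟩ := hG K
  obtain ⟨Ct, ct, th⟩ := hH K
  obtain ⟨Cu, cu, ut⟩ := hU
  obtain ⟨c1, hZ⟩ := hZ K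
  obtain ⟨c2, hT⟩ := hT K
  obtain ⟨c3, hB⟩ := hB K
  have m1 : 1 ≤ Ct * Cg * Cb :=
    one_le_mul_of_one_le_of_one_le (one_le_mul_of_one_le_of_one_le ct cg) cb
  refine ⟨20 * Ct * Cg * Cb, by linarith, max (max c1 0) (max c2 c3),
    fun c hc P A0 R ω nb w0 w1 => ?_⟩
  simp only [ge_iff_le, max_le_iff] at hc
  obtain ⟨H, eH⟩ : ∃ H, H = Cf * P ^ 4 + Ct * Cg ^ 2 + 2 * Cu * P ^ 2 * Cg ^ 2 := ⟨_, rfl⟩
  have H1 : 1 ≤ H := by
    have := one_le_mul_of_one_le_of_one_le ct (one_le_pow₀ (n := 2) cg)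
    have : 0 ≤ Cf * P ^ 4 + 2 * Cu * P ^ 2 * Cg ^ 2 := by positivity
    linarith
  obtain ⟨Z, eZ⟩ : ∃ Z : ℝ, Z = (nb * |R|) ^ 2 := ⟨_, rfl⟩
  have Z0 : 0 ≤ Z := eZ ▸ sq_nonneg _
  obtain ⟨lam, l0, l1⟩ : ∃ lam > (0 : ℝ), 10 * Z * H * Cb * (2 * lam) ≤ ω := by
    refine ⟨ω / (20 * (Z + 1) * H * Cb), by positivity, ?_⟩
    rw [← mul_div_assoc, ← mul_div_assoc, div_le_iff₀ (by positivity)]
    nlinarith [show 0 ≤ ω * H * Cb by positivity]
  have l2 : Z * (2 * lam) ≤ 1 := by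
    have := mul_le_mul_of_nonneg_left (one_le_mul_of_one_le_of_one_le H1 cb)
      (show 0 ≤ Z * lam by positivity)
    linarith
  obtain ⟨k1, hZ⟩ := hZ c hc.1.1 A0 lam l0
  obtain ⟨k2, hT⟩ := hT c hc.2.1 A0 lam l0
  obtain ⟨k3, hB⟩ := hB c hc.2.2 A0 lam l0
  obtain ⟨k, q1, q2, q3⟩ : ∃ k, k1 ≤ k ∧ k2 ≤ k ∧ k3 ≤ k := ⟨k1 + k2 + k3, by omega⟩
  obtain ⟨δ1, d1, Λ1, hZ⟩ := hZ k q1
  obtain ⟨δ2, d2, Λ2, hT⟩ := hT k q2
  obtain ⟨δ3, d3, Λ3, hB⟩ := hB k q3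
  refine ⟨k, min δ1 (min δ2 δ3), by positivity, max Λ1 (max Λ2 Λ3), fun Λ hΛ M e η hM hη => ?_⟩
  simp only [ge_iff_le, max_le_iff] at hΛ
  obtain ⟨θ1, t1, hZ⟩ := hZ Λ hΛ.1 M e η hM hη
  obtain ⟨θ2, t2, hT⟩ := hT Λ hΛ.2.1 M e η hM hη
  obtain ⟨θ3, t3, hB⟩ := hB Λ hΛ.2.2 M e η hM hη
  have e0 : 0 ≤ eO c Λ M k := by have := hc.1.2; unfold eO; positivity
  generalize eO c Λ M k = e1 at hB e0
  obtain ⟨ρ, r0, r1, r2, r3, r4, r5⟩ : ∃ ρ > (0 : ℝ), ρ ≤ θ1 ∧ ρ ≤ θ2 ∧ ρ ≤ θ3 ∧ ρ ≤ 1 ∧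
      (e1 ^ 2 + η ^ 2) * ρ ≤ lam := by
    refine ⟨min (min θ1 (min θ2 θ3)) (min 1 (lam / (e1 ^ 2 + η ^ 2 + 1))), by positivity, by simp,
      by simp, by simp, by simp, ?_⟩
    refine (mul_le_mul_of_nonneg_left ((min_le_right _ _).trans (min_le_right _ _))
      (by positivity)).trans ?_
    rw [← mul_div_assoc, div_le_iff₀ (by positivity)]
    linarith
  refine ⟨ρ / (5 * Cb), by positivity, ?_⟩
  have tn : Tendsto (fun n : ℕ => (n : ℝ)) atTop atTop := tendsto_natCast_atTop_atTop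
  filter_upwards [hZ, hT, hB, hA, tn.eventually_gt_atTop 0, tn.eventually_ge_atTop ((k : ℝ) ^ 2),
    tn.eventually_ge_atTop (5 * Cb / ρ)] with n hZ hT hB hA n0 nk nρ ι _ Q y0 E a D s t ec A κ hι hQ
    tg ok hP B0 By cl sz hy ht A1 hec hκ' hna
  subst hP
  obtain ⟨-, f2, f3, -⟩ := b1 n D s s.y ec ec ok cl By
  obtain ⟨b0, bd⟩ := bud ok cb f2 f3
  obtain ⟨β, eβ⟩ : ∃ β, β = Cb * (Bd D s + 1) := ⟨_, rfl⟩
  rw [← eβ] at bd
  have β0 : 0 ≤ β := by rw [eβ]; positivity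
  have ht' : 5 * Cb * t ≤ ρ * n := by
    rw [div_mul_eq_mul_div, le_div_iff₀ (by positivity)] at ht; linarith
  rw [div_le_iff₀ r0] at nρ
  have t0 : 0 ≤ t := (sq_nonneg _).trans hy
  have βT : β ≤ ρ * n := by
    have : Bd D s ≤ 4 * t := by
      have := S1.W6.gibbs s ok
      unfold Bd
      linarith [sz.1, sz.2.1, sz.2.2.1, sz.2.2.2]
    have := mul_le_mul_of_nonneg_left this (by linarith : 0 ≤ Cb)
    linarith
  have yT : nrm (s.y - y0) ^ 2 ≤ ρ * n := by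
    linarith only [mul_le_mul_of_nonneg_right cb t0, t0, hy, ht']
  have a0 := hA _ _ B0
  have ay := hA _ _ By
  have le : ∀ θ, ρ ≤ θ → ρ * n ≤ θ * n := fun θ h => mul_le_mul_of_nonneg_right h n0.le
  have cZ := fun b => hZ _ Q y0 s.y _ _ _ _ hQ (min_le_left _ _) (tg b) a0 ay yT (le _ r1)
  have cT := fun b => hT _ Q y0 s.y _ _ _ _ hQ ((min_le_right _ _).trans (min_le_left _ _)) (tg b)
    a0 ay yT (le _ r2)
  have cB := fun b => hB _ Q y0 s.y _ _ _ _ hQ ((min_le_right _ _).trans (min_le_right _ _)) (tg b)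
    a0 ay yT (le _ r3)
  clear hZ hT hB hA b1
  have sm : (e1 ^ 2 + η ^ 2) * β ≤ lam * n := by
    have := mul_le_mul_of_nonneg_left βT (show 0 ≤ e1 ^ 2 + η ^ 2 by positivity)
    have := mul_le_mul_of_nonneg_right r5 n0.le
    linarith
  have s1 : 0 ≤ e1 ^ 2 * β := by positivity
  have s2 : 0 ≤ η ^ 2 * β := by positivity
  have s3 : 0 ≤ lam * n := by positivity
  have hκ2 : ∑ b, κ b ^ 2 ≤ |R| ^ 2 := by rwa [sq_abs]
  have nb' : (Fintype.card ι : ℝ) ≤ nb := by exact_mod_cast hι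
  obtain ⟨G, eG⟩ : ∃ G : Cube n → V n, G = fun σ => ∑ b, κ b • gR Q c Λ M k (E b) σ s.y := ⟨_, rfl⟩
  obtain ⟨g0, g1⟩ := gs n ι D.J Q s.y _ lam e1 η |R| A nb k _ a κ G hQ ay cB l0.le e0 hη
    (abs_nonneg _) nb' hκ2 hna (by rwa [mul_one_div, div_le_one n0]) eG
  rw [← eZ] at g1
  have A2 : 1 ≤ A ^ 2 := one_le_pow₀ A1
  have gΓ : ∀ v, Wt v → kl v (ising D.J s.y) + 1 ≤ β →
      (mean v fun σ => nrm (G σ) ^ 2) ≤ 2 * Cg * A ^ 2 * n := fun v hv h => by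
    have u1 : Z * (lam * n + e1 ^ 2 * β) ≤ Z * (2 * lam) * n := by
      rw [mul_assoc]; exact mul_le_mul_of_nonneg_left (by linarith) Z0
    have u2 := mul_le_mul_of_nonneg_right (l2.trans A2) n0.le
    exact (g1 v β hv h).1.trans ((mul_le_mul_of_nonneg_left (by linarith) (by linarith)).trans_eq
      (show Cg * (2 * (A ^ 2 * n)) = _ by ring))
  have pp := S1.W6.pr_pi s ok
  have k0 : kl (ising D.J s.y) (ising D.J s.y) + 1 ≤ β := by
    rw [show kl (ising D.J s.y) (ising D.J s.y) = 0 from Ent.kl_self _]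
    linarith [kl_nn D.J s.y pp.hv, bd.kn]
  have ec1 : ec ≤ 1 := by
    by_contra h
    have u1 := mul_le_mul m1 A2 zero_le_one (zero_le_one.trans m1)
    have u2 := mul_le_mul u1 (not_le.1 h).le zero_le_one (by positivity)
    linarith only [u2, hec, w1]
  have eg : (Cg * nb * |R| * e1) ^ 2 * β ≤ Cg ^ 2 * (Z * (2 * lam) * n) := by
    rw [show (Cg * nb * |R| * e1) ^ 2 * β = Cg ^ 2 * ((nb * |R|) ^ 2 * (e1 ^ 2 * β)) by ring, ← eZ,
      mul_assoc Z]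
    exact mul_le_mul_of_nonneg_left (mul_le_mul_of_nonneg_left (by linarith only [sm, s2, s3]) Z0)
      (sq_nonneg _)
  have p2 := th n D s _ ec _ _ β G ok cl ay bd ec1 (βT.trans ((le _ r4).trans_eq (one_mul _)))
    (by rw [one_div, inv_mul_cancel₀ n0.ne']) g0 (gΓ _ (wt_is _ _) k0) (gΓ _ pp.hv bd.kn)
    (gΓ _ pp.hw bd.kp)
  have p3 := ut n D s _ _ β G ok bd g0.sup ((g1 _ β pp.hw bd.kp).2 s.S)
  have rb := fun b => fo n D s Q _ ec lam _ e1 η β k _ _ (a b) _ ok hQ cl ay bd βT l0.le (cZ b) (cT b)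
    (cB b) rfl
  clear fo gs th ut cZ cT cB g1
  have e2 : mean (nu D s) (fun σ => grad s.Th σ ⬝ᵥ G σ) =
      ∑ b, κ b * mean (nu D s) fun σ => grad s.Th σ ⬝ᵥ gR Q c Λ M k (E b) σ s.y := by
    simp only [eG, dotProduct_sum, dotProduct_smul, smul_eq_mul, mean_sum, mean_const_mul]
  have key := num (r := ∑ b, κ b * (a b ⬝ᵥ Del D s - (mean (nu D s) (fun σ => psi Q (E b) k σ s.y) -
      (pr D s (fun _ => del s) (fun σ => gR Q c Λ M k (E b) σ s.y) +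
        pr D s (grad s.Th) (fun σ => gR Q c Λ M k (E b) σ s.y) -
        pr D s (grad (U D s)) fun σ => gR Q c Λ M k (E b) σ s.y))))
    (p1 := pr D s (fun _ => del s) G) (p2 := pr D s (grad s.Th) G) (p3 := pr D s (grad (U D s)) G)
    (rs := mean (nu D s) fun σ => Rsp (fun b => gR Q c Λ M k (E b)) s.Th σ s.y) (ex := Ex D s)
    n0 cg ct cb (sq_nonneg A) (sq_nonneg R) (by linarith) eβ (Eig.dot_self_nonneg (del s))
    (pp.hv.mean_nonneg fun σ => by positivity)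
    (pp.hv.mean_nonneg fun σ => by unfold Rsp; positivity) (pp.hv.mean_nonneg fun σ => sq_nonneg _)
    eH l1 rfl hec ?_ (comb pp.hv n0 hκ' fun b σ => psi Q (E b) k σ s.y)
    ((pr_del s ok G).trans (mul_le_mul_of_nonneg_left (gΓ _ pp.hw bd.kp) (Eig.dot_self_nonneg _))) ?_ ?_
  · refine le_of_eq_of_le ?_ (key.trans ?_)
    · simp only [eG, pr_sum, sum_dotProduct, smul_dotProduct, smul_eq_mul, mul_sub, mul_add,
        sum_sub_distrib, sum_add_distrib]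
      ring
    · have : Bd D s ≤ Bb D s y0 := le_add_of_nonneg_right (sq_nonneg _)
      have := mul_le_mul_of_nonneg_left this w0.le
      unfold Zs
      linarith only [this]
  · refine (cs hκ' _).trans ((mul_le_mul_of_nonneg_left (sum_le_card_nsmul _ _
      (Cf * D.P ^ 4 * β * (2 * lam * n)) fun b _ => (rb b).trans ?_) (sq_nonneg _)).trans ?_)
    · exact mul_le_mul_of_nonneg_left (by linarith only [sm, s2]) (by positivity)
    · have : R ^ 2 * (Fintype.card ι : ℝ) ≤ Z := by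
        rw [eZ, mul_pow, sq_abs, mul_comm]
        exact mul_le_mul_of_nonneg_right (nb'.trans (by exact_mod_cast Nat.le_self_pow two_ne_zero nb))
          (sq_nonneg _)
      rw [card_univ, nsmul_eq_mul, ← mul_assoc]
      exact (mul_le_mul_of_nonneg_right this (by positivity)).trans_eq (by ring)
  · have u1 := comb pp.hv n0 hκ' fun b σ => grad s.Th σ ⬝ᵥ gR Q c Λ M k (E b) σ s.y
    rw [← e2] at u1
    have u2 := mul_le_mul_of_nonneg_left eg (show 0 ≤ Ct * β by positivity)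
    unfold Rsp
    linarith only [u1, u2, p2]
  · have u1 : Cg * Z * (η ^ 2 * #s.S + lam * n + e1 ^ 2 * β) ≤ Cg ^ 2 * (Z * (2 * lam) * n) := by
      have := mul_le_mul_of_nonneg_left bd.ss (sq_nonneg η)
      rw [mul_assoc, mul_assoc Z]
      exact mul_le_mul (le_self_pow₀ cg two_ne_zero)
        (mul_le_mul_of_nonneg_left (by linarith only [this, sm]) Z0) (by positivity) (sq_nonneg _)
    exact p3.trans ((mul_le_mul_of_nonneg_left (add_le_add u1 eg) (by positivity)).trans_eq (by ring))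

end Crest.Agent.T157.Md

end
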