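import Crest.Agent.T157.KTgb_63
import Crest.Agent.T157.ConcHW_16
import Crest.Agent.T157.GlueB_34
import Crest.Agent.T157.Glue_34

/-!
# Row 157, part B, block S5 (helper39): the magnetisation is macroscopic at positive levels
-/

set_option autoImplicit false

noncomputable section

namespace Crest.Agent.T157.K

open MeasureTheory Matrix Set Filter Real
open Crest.Agent.T157.E Crest.Agent.T157.Eig Crest.Agent.T157.SL
open Crest.Agent.T157.Tap (V Mx)
open Crest.Agent.T157.Z (Ty)
open Gb63

theorem magLo (β : ℝ) {r : ℝ} (hr : 0 < r) : ∃ q > (0 : ℝ), Ty β r fun n J y =>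
    q * n ≤ mag (ising J y) ⬝ᵥ mag (ising J y) := by
  obtain ⟨B, hB⟩ : ∃ B, B = r + 2 * √r := ⟨_, rfl⟩
  have s0 := sqrt_pos.2 hr
  have B0 : 0 < B := by rw [hB]; positivity
  obtain ⟨t, ht⟩ : ∃ t, t = r / (2 * r + 4 * B) := ⟨_, rfl⟩
  have t0 : 0 < t := by rw [ht]; positivity
  have t1 : t * (2 * r + 4 * B) = r := by rw [ht]; field_simp
  have k0 : 0 < min (r / 8) (1 / 2) := lt_min (by positivity) one_half_pos
  set k := min (r / 8) (1 / 2)
  refine ⟨r ^ 2 / (16 * B ^ 2), by positivity, k / 2, half_pos k0, Top.whp_of_eventually ?_⟩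
  filter_upwards [Glue.ev_small (3 / t) k0, eventually_ge_atTop 1] with n hn h1 g
  rw [gibbsWeight_eq_ising]
  set J := β • Jmat n g
  have n1 : (1 : ℝ) ≤ n := by exact_mod_cast h1
  have sn := sqrt_pos.2 (one_pos.trans_le n1)
  have sq := mul_self_sqrt (zero_le_one.trans n1)
  set A := fun s : Cube n => {y : V n | sv s ⬝ᵥ y < r * n / 2} ∪ {y : V n | B * √n < nrm y}
  have hA : ∀ s, MeasurableSet (A s) := fun s =>
    (measurableSet_lt (f := fun y => sv s ⬝ᵥ y) (by fun_prop) measurable_const).union
      (measurableSet_lt measurable_const continuous_nrm.measurable)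
  have := isProb_law (φ := sv) (s := r) (wt J 0)
  have i0 : ∀ s y, 0 ≤ (A s).indicator (1 : V n → ℝ) y := fun s y =>
    indicator_nonneg (fun _ _ => zero_le_one) y
  have h2 := mkv J hr.le t0 (X := fun s => (A s).indicator 1)
    (fun s => (MG.const 1).indicator (hA s)) i0
  refine le_trans (le_trans (measureReal_mono fun y hy => ?_) h2) ?_
  · refine lt_of_not_ge fun (h : _ ≤ t) => hy ?_
    have hy' : nrm y ≤ B * √n := not_lt.1 fun h' => by
      have := ((wt J y).le_mean (c := 1) fun s => (indicator_of_mem
        (show y ∈ A s from Or.inr h') (1 : V n → ℝ)).ge).trans h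
      nlinarith
    have a1 : r * n / 2 - (r * n / 2 + B * n) * t ≤ mag (ising J y) ⬝ᵥ y := by
      have e : mag (ising J y) ⬝ᵥ y = mean (ising J y) fun s => sv s ⬝ᵥ y := by
        simp only [mag, meanV, mean, dotProduct, Finset.sum_mul, Finset.mul_sum, mul_assoc]
        exact Finset.sum_comm
      have a2 := (wt J y).mean_mono (f := fun s => r * n / 2 - (r * n / 2 + B * n) *
        (A s).indicator 1 y) (g := fun s => sv s ⬝ᵥ y) fun s => by
          by_cases hs : y ∈ A s
          · have := (abs_le.1 (abs_dot_le (sv s) y)).1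
            rw [Glue.nrm_sv] at this
            rw [indicator_of_mem hs, Pi.one_apply]
            nlinarith [mul_le_mul_of_nonneg_left hy' sn.le]
          · rw [indicator_of_notMem hs, mul_zero, sub_zero]
            exact not_lt.1 fun h => hs (Or.inl h)
      rw [mean_sub, (wt J y).mean_const, mean_const_mul] at a2
      rw [e]
      nlinarith [mul_le_mul_of_nonneg_left h (show 0 ≤ r * n / 2 + B * n by positivity)]
    have a3 : r * n / 4 ≤ nrm (mag (ising J y)) * (B * √n) := by
      have := (le_abs_self _).trans (abs_dot_le (mag (ising J y)) y)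
      nlinarith [mul_le_mul_of_nonneg_left hy' (nrm_nonneg (mag (ising J y)))]
    have a4 := pow_le_pow_left₀ (by positivity) a3 2
    rw [mul_pow, nrm_sq, mul_pow, sq_sqrt (by positivity)] at a4
    rw [div_mul_eq_mul_div, div_le_iff₀ (by positivity)]
    refine le_of_mul_le_mul_right ?_ (one_pos.trans_le n1)
    nlinarith
  · rw [slE_ind J hA, div_le_iff₀ t0]
    refine ((wt J 0).mean_le (c := 3 * exp (-(k * n))) fun s => ?_).trans ?_
    · have b1 := Conc.lin_tail (ι := Fin n) Conc.sg1_gauss (sv s) (c := n)
        (by simpa [dotProduct, pow_two] using (sv_dot_self s).le) (u := √r * n / 2) (by positivity)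
      refine (Glue.px_le (hA s) s (B := {x | √r * n / 2 ≤ |sv s ⬝ᵥ x|} ∪ {z | 2 * √n ≤ nrm z})
        fun z hz => ?_).trans ((measureReal_union_le _ _).trans ?_)
      · rcases hz with hz | hz <;> rw [mem_ofPred_eq] at hz
        · left
          rw [dotProduct_add, dotProduct_smul, dotProduct_smul, sv_dot_self, smul_eq_mul,
            smul_eq_mul] at hz
          refine le_trans (le_of_mul_le_mul_left ?_ s0) (neg_le_abs _)
          nlinarith [mul_self_sqrt hr.le]
        · right
          have := nrm_add_le (r • sv s) (√r • z)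
          rw [nrm_smul, nrm_smul, Glue.nrm_sv, abs_of_pos hr, abs_of_pos s0] at this
          refine le_of_mul_le_mul_left ?_ s0
          rw [hB] at hz
          nlinarith
      · have b2 : exp (-(√r * n / 2) ^ 2 / (2 * n)) ≤ exp (-(k * n)) := exp_le_exp.2 (by
          rw [div_pow, mul_pow, sq_sqrt hr.le, div_le_iff₀ (by positivity)]
          nlinarith [mul_le_mul_of_nonneg_right (min_le_left (r / 8) (1 / 2)) (sq_nonneg (n : ℝ))])
        have b3 : exp (-((n : ℝ) / 2)) ≤ exp (-(k * n)) := exp_le_exp.2 (by
          nlinarith [min_le_right (r / 8) (1 / 2)])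
        linarith [Glue.nrm_tail n]
    · rw [← div_le_iff₀ t0, neg_mul]
      refine le_trans ?_ hn
      rw [mul_div_right_comm]
      exact mul_le_mul_of_nonneg_right (le_mul_of_one_le_right (by positivity) n1) (exp_pos _).le

end Crest.Agent.T157.K

end
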