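import Crest.Agent.T157.S3Fn_60
import Crest.Agent.T157.ZDef_73

/-!
# Row 157, part B (helper69): the canonical fields of a program lie in every thermal calculus
-/

set_option autoImplicit false

noncomputable section

namespace Crest.Agent.T157.KP69

open Matrix Finset
open Crest.ProbabilityR.SpinGlassDynamics (spin)
open Crest.Agent.T157.E (Cube sv ising mean meanV cov mag)
open Crest.Agent.T157.Tap (V Mx avg)
open Crest.Agent.T157.Z (OL EL)
open Crest.Agent.T157.S3P

/-- words in the world `(s, y)` -/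
abbrev Wd : Type := ∀ n : ℕ, Mx n → Cube n → V n → V n
def Bdd (U : Wd) : Prop := ∃ M : ℝ, ∀ n J s y i, |U n J s y i| ≤ M

/-- a thermal calculus -/
structure Api (T : Wd → Prop) : Prop where
  sp : T fun _ _ s _ => sv s
  fy : T fun _ _ _ y => y
  map : ∀ (m : ℕ) (φ : (Fin m → ℝ) → ℝ) (U : Fin m → Wd), OL φ → (∀ l, T (U l)) →
    T fun n J s y i => φ fun l => U l n J s y i
  ev : ∀ (m : ℕ) (ψ : (Fin m → ℝ) → ℝ) (U : Fin m → Wd) (W : Wd), EL ψ → (∀ l, T (U l)) → T W →
    T fun n J s y i => (ψ fun l => U l n J s y i) * W n J s y i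
  add : ∀ (U W : Wd) (a b : ℝ), T U → T W → T fun n J s y => a • U n J s y + b • W n J s y
  mul : ∀ U : Wd, T U → T fun n J s y => J *ᵥ U n J s y
  sc : ∀ U W Z : Wd, T U → T W → T Z → T fun n J s y => avg (U n J s y * W n J s y) • Z n J s y
  tm : ∀ U : Wd, T U → Bdd U → T fun n J _ y => meanV (ising J y) fun t => U n J t y
  tme : ∀ U : Wd, T U → Bdd U → T fun n J s y => sv s * meanV (ising J y) fun t => sv t * U n J t y

/-- bounded Lipschitz -/
def BLp {E : Type*} [PseudoMetricSpace E] (f : E → ℝ) : Prop :=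
  ∃ L M : ℝ, 0 ≤ L ∧ (∀ u v, |f u - f v| ≤ L * dist u v) ∧ ∀ u, |f u| ≤ M

section blp
variable {E : Type*} [PseudoMetricSpace E] {f g : E → ℝ}

lemma BLp.lip (h : BLp f) : ∃ L, LipschitzWith L f :=
  let ⟨L, _, _, h, _⟩ := h; ⟨_, LipschitzWith.of_dist_le' (K := L) h⟩

lemma BLp.const (c : ℝ) : BLp fun _ : E => c := ⟨0, |c|, le_rfl, by simp, fun _ => le_rfl⟩

lemma BLp.add (h : BLp f) (h' : BLp g) : BLp fun u => f u + g u := by
  obtain ⟨L, M, l0, a, b⟩ := h
  obtain ⟨L', M', l0', a', b'⟩ := h'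
  refine ⟨L + L', M + M', by positivity, fun u v => ?_, fun u => (abs_add_le _ _).trans
    (add_le_add (b u) (b' u))⟩
  rw [add_sub_add_comm, add_mul]
  exact (abs_add_le _ _).trans (add_le_add (a u v) (a' u v))

lemma BLp.mul (h : BLp f) (h' : BLp g) : BLp fun u => f u * g u := by
  obtain ⟨L, M, l0, a, b⟩ := h
  obtain ⟨L', M', l0', a', b'⟩ := h'
  refine ⟨L * |M'| + |M| * L', M * M', by positivity, fun u v => ?_, fun u => ?_⟩
  · rw [show f u * g u - f v * g v = (f u - f v) * g u + f v * (g u - g v) by ring]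
    refine (abs_add_le _ _).trans ?_
    rw [abs_mul, abs_mul]
    have h1 := mul_le_mul (a u v) ((b' u).trans (le_abs_self _)) (abs_nonneg _) (by positivity)
    have h2 := mul_le_mul ((b v).trans (le_abs_self _)) (a' u v) (abs_nonneg _) (abs_nonneg _)
    linarith
  · rw [abs_mul]
    exact mul_le_mul (b u) (b' u) (abs_nonneg _) ((abs_nonneg _).trans (b u))

end blp

/-- scalar clip -/
def cl (M x : ℝ) : ℝ := max (-M) (min M x)

lemma cl_neg {M : ℝ} (h : 0 ≤ M) (x : ℝ) : cl M (-x) = -cl M x := by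
  simp only [cl, max_def, min_def]; split_ifs <;> linarith

lemma cl_of {M x : ℝ} (h : |x| ≤ M) : cl M x = x := by
  rw [cl, min_eq_right (abs_le.1 h).2, max_eq_right (abs_le.1 h).1]

lemma blp_cl {κ : Type} [Fintype κ] (M : ℝ) (j : κ) : BLp fun u : κ → ℝ => cl M (u j) := by
  refine ⟨1, |M|, zero_le_one, fun u v => ?_, fun u => ?_⟩
  · have := dist_le_pi_dist u v j
    rw [Real.dist_eq] at this
    rw [one_mul]
    exact ((abs_max_sub_max_le_max _ _ _ _).trans (max_le (by simp) ((abs_min_sub_min_le_max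
      _ _ _ _).trans (max_le (by simp) le_rfl)))).trans this
  · have := le_abs_self M
    have := neg_abs_le M
    simp only [abs_le, cl, max_def, min_def]
    split_ifs <;> constructor <;> linarith

lemma spin_abs (b : Bool) : |spin b| = 1 := by cases b <;> simp [spin]
lemma sv_sv {n : ℕ} (s : Cube n) (u : V n) : sv s * (sv s * u) = u := by
  ext i; simp only [Pi.mul_apply, ← mul_assoc, Rec.sv_mul_self, one_mul]

variable {N : ℕ} {T : Wd → Prop}

namespace Api
variable (h : Api T)
include h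

lemma zero : T fun _ _ _ _ => 0 := by simpa using h.add _ _ 0 0 h.sp h.sp
lemma smul {U : Wd} (c : ℝ) (a : T U) : T fun n J s y => c • U n J s y := by
  simpa using h.add _ _ c 0 a a
lemma add' {U W : Wd} (a : T U) (b : T W) : T fun n J s y => U n J s y + W n J s y := by
  simpa using h.add _ _ 1 1 a b
lemma sub {U W : Wd} (a : T U) (b : T W) : T fun n J s y => U n J s y - W n J s y := by
  simpa [sub_eq_add_neg] using h.add _ _ 1 (-1) a b
lemma sum {ι : Type*} (t : Finset ι) {U : ι → Wd} (a : ∀ i ∈ t, T (U i)) :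
    T fun n J s y => ∑ i ∈ t, U i n J s y := by
  classical
  induction t using Finset.induction_on with
  | empty => simpa using h.zero
  | insert i t hi ih =>
    simpa only [sum_insert hi] using h.add' (a i (mem_insert_self _ _))
      (ih fun j hj => a j (mem_insert_of_mem hj))

lemma mapK {κ : Type} [Fintype κ] {φ : (κ → ℝ) → ℝ} {U : κ → Wd} (ho : ∀ u, φ (-u) = -φ u)
    (hl : BLp φ) (a : ∀ l, T (U l)) : T fun n J s y i => φ fun l => U l n J s y i := by
  let e := Fintype.equivFin κ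
  obtain ⟨L, hL⟩ := hl.lip
  have := h.map _ (fun u => φ (u ∘ e)) (fun l => U (e.symm l)) ⟨fun u => ho (u ∘ e), L * 1,
    hL.comp (LipschitzWith.of_dist_le_mul fun u v => by
      rw [NNReal.coe_one, one_mul]
      exact (dist_pi_le_iff dist_nonneg).2 fun k => dist_le_pi_dist u v _)⟩ fun l => a _
  simpa only [Function.comp_def, Equiv.symm_apply_apply] using this

/-- multiplication by an even bounded vector -/
lemma emul {G W : Wd} (a : T fun n J s y => sv s * G n J s y) (hG : Bdd G) (b : T W) :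
    T fun n J s y => G n J s y * W n J s y := by
  obtain ⟨M, hM⟩ := hG
  have l := (blp_cl 1 (0 : Fin 2)).mul (blp_cl |M| (1 : Fin 2))
  have := h.ev 2 (fun u => cl 1 (u 0) * cl |M| (u 1))
    ![fun _ _ s _ => sv s, fun n J s y => sv s * G n J s y] W
    ⟨fun u => by simp [cl_neg], l.lip, let ⟨_, M, _, _, c⟩ := l; ⟨M, c⟩⟩
    (Fin.forall_fin_two.2 ⟨h.sp, a⟩) b
  convert this using 6 with n J s y i
  have e : |sv s i * G n J s y i| ≤ |M| := by
    rw [abs_mul, sv, spin_abs, one_mul]; exact (hM _ _ _ _ _).trans (le_abs_self _)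
  simp only [Pi.mul_apply, Matrix.cons_val_zero, Matrix.cons_val_one]
  rw [cl_of (x := sv s i) (spin_abs _).le, cl_of e, ← mul_assoc, Rec.sv_mul_self, one_mul]

/-- the mean of an even bounded vector -/
lemma emean {G : Wd} (a : T fun n J s y => sv s * G n J s y) (hG : Bdd G) :
    T fun n J s y => sv s * meanV (ising J y) fun t => G n J t y := by
  obtain ⟨M, hM⟩ := hG
  simpa only [sv_sv] using h.tme _ a ⟨M, fun n J s y i => by
    simp only [Pi.mul_apply, abs_mul, sv, spin_abs, one_mul]; exact hM _ _ _ _ _⟩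

/-- multiplication by the average of an even vector -/
lemma amul {G W : Wd} (a : T fun n J s y => sv s * G n J s y) (b : T W) :
    T fun n J s y => avg (G n J s y) • W n J s y := by
  simpa only [sv_sv] using h.sc _ _ _ h.sp a b

lemma mag : T fun _ J _ y => mag (ising J y) :=
  h.tm _ h.sp ⟨1, fun _ _ _ _ _ => (spin_abs _).le⟩

end Api

lemma eta_eq (β : ℝ) {n : ℕ} (u : V n) : Uw.eta (β / √n) u = β ^ 2 * avg u := by
  rw [Uw.eta, avg, div_pow, Real.sq_sqrt (Nat.cast_nonneg n)]; ring

lemma me_eq (β : ℝ) {n : ℕ} (J : Mx n) (y : V n) (X : St n N) (φ : PF N) :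
    me (β / √n) J y X φ = β ^ 2 * avg (meanV (ising J y) (eP (β / √n) J y X φ)) := by
  rw [← eta_eq]
  simp only [me, Uw.eta, SL.mean_const_mul, SL.mean_sum, meanV]

theorem Api.bF (h : Api T) (β : ℝ) : T fun n J _ y => bF (β / √n) J y := by
  have a1 := h.smul (β ^ 2) (h.sub (h.sc _ _ _ h.sp h.sp h.mag) (h.sc _ _ _ h.mag h.mag h.mag))
  convert h.sub (h.add' h.fy (h.mul _ h.mag)) a1 using 5 with n J s y
  rw [S3P.bF, eta_eq, ← sub_smul, smul_smul]
  congr 3
  simp only [avg, ← sub_div, ← sum_sub_distrib, Pi.mul_apply, Rec.sv_mul_self, Pi.sub_apply,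
    Pi.one_apply, sq]

/-- parity `ε` -/
def Pr (sg : Fin (N + 1) → ℝ) (ε : ℝ) (φ : PF N) : Prop :=
  ∀ b s ξ, φ (-b) (!s) (sg * ξ) = ε * φ b s ξ

/-- odd representative of a vector of parity `ε` -/
def tw {n : ℕ} (ε : ℝ) (s : Cube n) (u : V n) : V n := if ε = 1 then sv s * u else u

lemma blp_let {φ : PF N} (hφ : Sm φ) (σ : Bool) (c : Fin (N + 1) → ℝ) (hc : ∀ m, |c m| ≤ 1) :
    BLp fun u : Bool ⊕ Fin (N + 1) → ℝ => φ (u (.inl false)) σ fun m => c m * u (.inr m) := by
  obtain ⟨C, C0, hC⟩ := hφ.taylor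
  obtain ⟨M, -, hM⟩ := hφ.bd
  refine ⟨C * (1 + (N + 1)), M, by positivity, fun u v => ((hC _ _ _ _ _).1).trans ?_,
    fun _ => hM _ _ _⟩
  have d : ∀ k, |u k - v k| ≤ dist u v := fun k => dist_le_pi_dist u v k
  have : ∑ m, |c m * u (.inr m) - c m * v (.inr m)| ≤ ∑ _m : Fin (N + 1), dist u v :=
    sum_le_sum fun m _ => by
      rw [← mul_sub, abs_mul]
      exact (mul_le_of_le_one_left (abs_nonneg _) (hc m)).trans (d _)
  rw [sum_const, card_univ, Fintype.card_fin, nsmul_eq_mul] at this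
  rw [mul_assoc]
  refine mul_le_mul_of_nonneg_left ?_ C0
  push_cast at this
  linarith [d (.inl false)]

section let_
variable (h : Api T) (β : ℝ) {sg : Fin (N + 1) → ℝ} (hs : ∀ l, sg l = 1 ∨ sg l = -1)
  {Y : ∀ n : ℕ, Mx n → V n → St n N} (hY : ∀ m, T fun n J s y => tw (sg m) s (Y n J y m s))
include h hs hY

/-- odd letters -/
theorem Api.odd {φ : PF N} (hφ : Sm φ) (hp : Pr sg (-1) φ) :
    T fun n J s y => eP (β / √n) J y (Y n J y) φ s := by
  have s1 : ∀ m, |sg m| = 1 := fun m => by rcases hs m with e | e <;> simp [e]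
  have s2 : ∀ m, sg m * sg m = 1 := fun m => by rcases hs m with e | e <;> simp [e]
  let Φ : (Bool ⊕ Fin (N + 1) → ℝ) → ℝ := fun u =>
    (1 / 2 + 1 / 2 * cl 1 (u (.inl true))) * φ (u (.inl false)) true (fun m => 1 * u (.inr m)) +
    (1 / 2 + -(1 / 2) * cl 1 (u (.inl true))) * φ (u (.inl false)) false fun m => -sg m * u (.inr m)
  have hl : BLp Φ := (((BLp.const _).add ((BLp.const _).mul (blp_cl _ _))).mul
    (blp_let hφ true 1 (by simp))).add (((BLp.const _).add ((BLp.const _).mul (blp_cl _ _))).mul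
    (blp_let hφ false (fun m => -sg m) fun m => by rw [abs_neg, s1]))
  have ho : ∀ u, Φ (-u) = -Φ u := fun u => by
    have e1 := hp (u (.inl false)) true fun m => 1 * u (.inr m)
    have e2 := hp (u (.inl false)) false fun m => -sg m * u (.inr m)
    have f1 : (sg * fun m => 1 * u (.inr m)) = fun m => -sg m * -u (.inr m) := by
      ext m; simp
    have f2 : (sg * fun m => -sg m * u (.inr m)) = fun m => 1 * -u (.inr m) := by
      ext m; simp only [Pi.mul_apply]; linear_combination -(u (.inr m)) * s2 m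
    rw [f1] at e1
    rw [f2] at e2
    simp only [Φ, Pi.neg_apply, cl_neg zero_le_one]
    simp only [Bool.not_true, Bool.not_false] at e1 e2
    rw [e1, e2]; ring
  let U : Bool ⊕ Fin (N + 1) → Wd := Sum.elim
    (fun b => if b then fun _ _ s _ => sv s else fun n J _ y => S3P.bF (β / √n) J y)
    fun m n J s y => tw (sg m) s (Y n J y m s)
  have hU : ∀ l, T (U l) := by
    rintro ((_ | _) | m)
    exacts [h.bF β, h.sp, hY m]
  convert h.mapK ho hl hU using 6 with n J s y i
  simp only [Φ, U, eP, Sum.elim_inl, Sum.elim_inr, if_true, Bool.false_eq_true, if_false, sv,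
    cl_of (spin_abs _).le, tw]
  cases hi : s i
  · have : (fun m => -sg m * (if sg m = 1 then sv s * Y n J y m s else Y n J y m s) i) =
        fun m => Y n J y m s i := by
      ext m; rcases hs m with e | e <;> norm_num [e, sv, hi, spin]
    rw [this]; norm_num [spin]
  · have : (fun m => 1 * (if sg m = 1 then sv s * Y n J y m s else Y n J y m s) i) =
        fun m => Y n J y m s i := by
      ext m; rcases hs m with e | e <;> norm_num [e, sv, hi, spin]
    rw [this]; norm_num [spin]

/-- even letters -/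
theorem Api.even {φ : PF N} (hφ : Sm φ) (hp : Pr sg 1 φ) :
    T fun n J s y => sv s * eP (β / √n) J y (Y n J y) φ s :=
  h.odd β hs hY ((Sm.spin' spin).mul hφ) fun b s ξ => by
    simp only [Pi.mul_apply, hp b s ξ]; cases s <;> simp [spin]

end let_

lemma bdd_eP (β : ℝ) (Y : ∀ n : ℕ, Mx n → V n → St n N) {φ : PF N} (hφ : Sm φ) :
    Bdd fun n J s y => eP (β / √n) J y (Y n J y) φ s :=
  let ⟨M, _, hM⟩ := hφ.bd; ⟨M, fun _ _ _ _ _ => hM _ _ _⟩

lemma Pr.pd {sg : Fin (N + 1) → ℝ} {ε : ℝ} {φ : PF N} (hp : Pr sg ε φ) (hφ : Sm φ)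
    {m : Fin (N + 1)} (hm : sg m = -1) : Pr sg (-ε) (pd m φ) := fun b s ξ => by
  let L : (Fin (N + 1) → ℝ) →L[ℝ] (Fin (N + 1) → ℝ) :=
    ContinuousLinearMap.pi fun k => sg k • ContinuousLinearMap.proj k
  have hL : ∀ v, L v = sg * v := fun v => rfl
  have h1 := ((hφ.diff (-b) (!s)) (L ξ)).hasFDerivAt.comp ξ L.hasFDerivAt
  have h2 := ((hφ.diff b s) ξ).hasFDerivAt.const_mul ε
  have e : φ (-b) (!s) ∘ L = fun v => ε * φ b s v := funext fun v => hp b s v
  rw [e] at h1
  have h3 := congrArg (fun A => A (Pi.single m 1)) (h1.unique h2)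
  have e2 : L (Pi.single m 1) = -Pi.single m 1 := by
    ext k; by_cases hk : k = m <;> simp [hL, hk, hm]
  simp only [ContinuousLinearMap.comp_apply, e2, map_neg, _root_.smul_apply,
    smul_eq_mul, hL] at h3
  simp only [S3P.pd]
  linarith

section prog
variable (h : Api T) (β : ℝ) {P : Prog N} {sg : Fin (N + 1) → ℝ} (hP : P.Ok) (hs : P.Par sg)
include h hP hs

/-- **the canonical fields** -/
theorem Api.X (l : Fin (N + 1)) : T fun n J s y => tw (sg l) s (P.X (β / √n) J y l s) := by
  induction l using WellFoundedLT.induction with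
  | ind l ih =>
  let Y : ∀ n : ℕ, Mx n → V n → St n N := fun n J y m =>
    if m < l then P.X (β / √n) J y m else 0
  have hY : ∀ m, T fun n J s y => tw (sg m) s (Y n J y m s) := fun m => by
    by_cases hm : m < l
    · simpa only [Y, if_pos hm] using ih m hm
    · simpa [Y, hm, tw] using h.zero
  have e : ∀ {φ : PF N}, Rd l φ → ∀ (n : ℕ) (J : Mx n) (y : V n),
      eP (β / √n) J y (Y n J y) φ = eP (β / √n) J y (P.X (β / √n) J y) φ :=
    fun hr n J y => eP_congr hr fun m hm => by simp only [Y, if_pos hm]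
  have od : ∀ {φ : PF N}, Sm φ → Rd l φ → Pr sg (-1) φ →
      T fun n J s y => eP (β / √n) J y (P.X (β / √n) J y) φ s := fun a b c => by
    simpa only [e b] using h.odd β hs.pm hY a c
  have ev : ∀ {φ : PF N}, Sm φ → Rd l φ → Pr sg 1 φ →
      T fun n J s y => sv s * eP (β / √n) J y (P.X (β / √n) J y) φ s := fun a b c => by
    simpa only [e b] using h.even β hs.pm hY a c
  have bd := fun {φ : PF N} (a : Sm φ) => bdd_eP β (fun n J y => P.X (β / √n) J y) a
  have hm : ∀ {φ : PF N}, Sm φ → Rd l φ → Pr sg 1 φ → ∀ {W : Wd}, T W →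
      T fun n J s y => me (β / √n) J y (P.X (β / √n) J y) φ • W n J s y := fun a b c _ w => by
    simpa only [me_eq, smul_smul] using h.smul (β ^ 2) (h.amul (h.emean (ev a b c) (bd a)) w)
  have pf : ∀ m, Pr sg (-1) (P.f m) := fun m b s ξ => by rw [hs.f]; ring
  rcases hs.pm l with h1 | h1
  · have a1 := h.emean (ev (hP.sg l) (hP.rg l) fun b s ξ => by rw [hs.g, h1]) (bd (hP.sg l))
    have a2 := hm (hP.sg' l) (hP.rg' l) (fun b s ξ => by rw [hs.g', one_mul]) h.sp
    convert h.add' a1 a2 using 5 with n J s y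
    rw [tw, if_pos h1, hP.X_par (hs.ev l h1), Prog.c, cc, mul_add]
    congr 1
    ext i; simp [mul_comm]
  · have f1 := od (hP.sf l) (hP.rf l) (pf l)
    have m1 := h.tm _ f1 (bd (hP.sf l))
    have z : ∀ {A : Fin (N + 1) → Wd}, (∀ m, m ≤ l → T (A m)) → (∀ m, P.f m = 0 → A m = 0) →
        T fun n J s y => J *ᵥ A l n J s y -
          ∑ m, me (β / √n) J y (P.X (β / √n) J y) (pd m (P.f l)) • A m n J s y := fun a b =>
      h.sub (h.mul _ (a l le_rfl)) (h.sum _ fun m _ => by
        rcases lt_or_ge m l with hm' | hm'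
        · rcases hs.pm m with h2 | h2
          · simpa [b m (hs.ev m h2)] using h.zero
          · exact hm ((hP.sf l).pd m) ((hP.rf l).pd m)
              (by simpa using (pf l).pd (hP.sf l) h2) (a m hm'.le)
        · simpa [(hP.rf l).pd_zero (hP.sf l) hm', me_zero] using h.zero)
    have z1 := z (A := fun m n J s y => eP (β / √n) J y (P.X (β / √n) J y) (P.f m) s)
      (fun m hm' => od (hP.sf m) ((hP.rf m).mono hm') (pf m)) fun m e0 => by
        ext n J s y i; simp [e0, eP]
    have z2 := z (A := fun m n J _ y => meanV (ising J y) fun t =>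
        eP (β / √n) J y (P.X (β / √n) J y) (P.f m) t)
      (fun m hm' => h.tm _ (od (hP.sf m) ((hP.rf m).mono hm') (pf m)) (bd (hP.sf m))) fun m e0 => by
        ext n J s y i; simp [e0, eP, meanV, mean]
    have s1 := hm ((hP.sf l).mul (Sm.spin' spin)) (fun b s ξ ξ' e' => by
      simp only [Pi.mul_apply, hP.rf l b s ξ ξ' e']) (fun b s ξ => by
        simp only [Pi.mul_apply, hs.f]; cases s <;> simp [spin]) h.mag
    have s2 := h.smul (β ^ 2) (h.sc _ _ _ m1 h.mag h.mag)
    have c1 := h.tm _ (od (hP.sg l) (hP.rg l) fun b s ξ => by rw [hs.g, h1]) (bd (hP.sg l))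
    convert h.add' (h.add' (h.sub z1 z2) (h.sub s1 s2)) c1 using 5 with n J s y
    have hw := Pl.wt_ising J y
    rw [tw, if_neg (by rw [h1]; norm_num), ← congrFun (congrFun hP.fix l) s, step, cc, hs.od l h1,
      me_zero]
    congr 1
    · congr 1
      · congr 1
        ext k
        simp only [meanV, Zr, Pi.sub_apply, Finset.sum_apply, Pi.smul_apply, smul_eq_mul, mulVec,
          dotProduct, SL.mean_sub, SL.mean_sum, SL.mean_const_mul]
      · rw [smul_smul, ← sub_smul, me_eq, ← mul_sub, Sg, of_apply, ← Uw.eta, eta_eq, hP.f0]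
        congr 2
        simp only [avg, ← sub_div, ← sum_sub_distrib, hw.cov_eq]
        rfl
    · ext k; simp

/-- odd letters of the program -/
theorem Api.eo {φ : PF N} (hφ : Sm φ) (hp : Pr sg (-1) φ) :
    T fun n J s y => P.e (β / √n) J y φ s := h.odd β hs.pm (h.X β hP hs) hφ hp

/-- even letters of the program -/
theorem Api.ee {φ : PF N} (hφ : Sm φ) (hp : Pr sg 1 φ) :
    T fun n J s y => sv s * P.e (β / √n) J y φ s := h.even β hs.pm (h.X β hP hs) hφ hp

/-- multiplication by an even letter -/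
theorem Api.em {φ : PF N} (hφ : Sm φ) (hp : Pr sg 1 φ) {W : Wd} (hW : T W) :
    T fun n J s y => P.e (β / √n) J y φ s * W n J s y :=
  h.emul (h.ee β hP hs hφ hp) (bdd_eP β (fun n J y => P.X (β / √n) J y) hφ) hW

/-- multiplication by a thermal constant -/
theorem Api.cm {φ : PF N} (hφ : Sm φ) (hp : Pr sg 1 φ) {W : Wd} (hW : T W) :
    T fun n J s y => me (β / √n) J y (P.X (β / √n) J y) φ • W n J s y := by
  simpa only [me_eq, smul_smul] using h.smul (β ^ 2) (h.amul (h.emean
    (h.even β hs.pm (h.X β hP hs) hφ hp) (bdd_eP β (fun n J y => P.X (β / √n) J y) hφ)) hW)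

/-- **forward recursions** with even letters and thermal constants -/
theorem Api.fwd {K : ℕ} {a : Fin K → Fin K → PF N} (ha : ∀ l m, Sm (a l m) ∧ Pr sg 1 (a l m))
    (tri : ∀ l m, l ≤ m → a l m = 0) {g c c' : Fin K → Wd} (hg : ∀ l, T (g l))
    (hr : ∀ (n : ℕ) J s y, S3.RecV J (fun l m => P.e (β / √n) J y (a l m) s)
      (fun l m => me (β / √n) J y (P.X (β / √n) J y) (a l m)) (fun l => g l n J s y)
      (fun l => c l n J s y) fun l => c' l n J s y) (l : Fin K) : T (c l) ∧ T (c' l) := by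
  induction l using WellFoundedLT.induction with
  | ind l ih =>
  have h1 : T (c l) := by
    convert h.add' (hg l) (h.sum univ (U := fun m n J s y => P.e (β / √n) J y (a l m) s *
      c' m n J s y) fun m _ => ?_) using 5 with n J s y
    · exact (hr n J s y l).1
    · rcases lt_or_ge m l with hm | hm
      · exact h.em β hP hs (ha l m).1 (ha l m).2 (ih m hm).2
      · have : ∀ (n : ℕ) (J : Mx n) y s, P.e (β / √n) J y (0 : PF N) s = 0 := fun _ _ _ _ => rfl
        simpa [tri l m hm, this] using h.zero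
  refine ⟨h1, ?_⟩
  convert h.sub (h.mul _ h1) (h.sum univ (U := fun m n J s y =>
    me (β / √n) J y (P.X (β / √n) J y) (a l m) • c m n J s y) fun m _ => ?_) using 5 with n J s y
  · exact (hr n J s y l).2
  · rcases lt_or_ge m l with hm | hm
    · exact h.cm β hP hs (ha l m).1 (ha l m).2 (ih m hm).1
    · simpa [tri l m hm, me_zero] using h.zero

end prog

end Crest.Agent.T157.KP69

end
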