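import Crest.Agent.T157.S1Par_97

/-!
# Row 157, part B, block S5 (helper36): the backward recursion over the windows
-/

set_option autoImplicit false

noncomputable section

namespace Crest.Agent.T157.K.Rec36

open Classical

/-- the act `(m', i')` lies in the sub-tree of the window `(m + 1, i)` -/
def Sub (N m i m' i' : ℕ) : Prop :=
  m < m' ∧ m' < N ∧ i ≤ i' ∧ i' + 2 ^ (N - (m' + 1)) ≤ i + 2 ^ (N - (m + 1))

variable {D : Type*} [Inhabited D]

/-- restriction to the sub-tree -/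
def res (N m i : ℕ) (F : ℕ → ℕ → D) : ℕ → ℕ → D :=
  fun m' i' => if Sub N m i m' i' then F m' i' else default

/-- `k` steps of the recursion -/
def it (N : ℕ) (S : ℕ → ℕ → ℝ → ℝ → (ℕ → ℕ → D) → D) (ω : ℕ → ℕ → ℝ) (e : ℕ → ℝ) :
    ℕ → ℕ → ℕ → D
  | 0 => fun _ _ => default
  | k + 1 => fun m i => S m i (ω m i) (e (i + 2 ^ (N - (m + 1)))) (res N m i (it N S ω e k))

theorem it_succ (N : ℕ) (S : ℕ → ℕ → ℝ → ℝ → (ℕ → ℕ → D) → D) (ω : ℕ → ℕ → ℝ) (e : ℕ → ℝ)
    (k m i : ℕ) : it N S ω e (k + 1) m i =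
      S m i (ω m i) (e (i + 2 ^ (N - (m + 1)))) (res N m i (it N S ω e k)) := rfl

theorem it_stab (N : ℕ) (S : ℕ → ℕ → ℝ → ℝ → (ℕ → ℕ → D) → D) (ω : ℕ → ℕ → ℝ) (e : ℕ → ℝ) :
    ∀ k m i, N < m + k + 1 → it N S ω e (k + 2) m i = it N S ω e (k + 1) m i := by
  intro k
  induction k with
  | zero =>
    intro m i h
    simp only [it]
    congr 1
    funext m' i'
    simp only [res]
    split_ifs with hs
    · exact absurd (hs.1.trans hs.2.1) (by omega)
    · rfl
  | succ k ih =>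
    intro m i h
    rw [it_succ N S ω e (k + 2), it_succ N S ω e (k + 1)]
    congr 1
    funext m' i'
    simp only [res]
    split_ifs with hs
    · exact ih m' i' (by have := hs.1; omega)
    · rfl

theorem it_loc (N : ℕ) (S : ℕ → ℕ → ℝ → ℝ → (ℕ → ℕ → D) → D) {j : ℕ} {ω ω' : ℕ → ℕ → ℝ}
    {e e' : ℕ → ℝ} (h1 : ∀ m, ∀ i < j, ω m i = ω' m i) (h2 : ∀ i ≤ j, e i = e' i) :
    ∀ k m i, i + 2 ^ (N - (m + 1)) ≤ j → it N S ω e k m i = it N S ω' e' k m i := by
  intro k
  induction k with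
  | zero => intro m i _; rfl
  | succ k ih =>
    intro m i h
    have : 0 < 2 ^ (N - (m + 1)) := by positivity
    rw [it_succ, it_succ, h1 m i (by omega), h2 _ h]
    congr 1
    funext m' i'
    simp only [res]
    split_ifs with hs
    · exact ih m' i' (hs.2.2.2.trans h)
    · rfl

/-- **the recursion** -/
theorem tree (N : ℕ) (P : ℕ → D → Prop) (R : ℕ → ℕ → ℝ → ℝ → (ℕ → ℕ → D) → D → Prop) (η : D → ℝ)
    (h : ∀ m i o e F, m < N → 0 < o → 0 < e → (∀ m' i', Sub N m i m' i' → P m' (F m' i')) →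
      ∃ d, P m d ∧ 0 < η d ∧ R m i o e F d)
    (hR : ∀ m i o e F F' d, (∀ m' i', Sub N m i m' i' → F m' i' = F' m' i') → R m i o e F d →
      R m i o e F' d) :
    ∃ (dat : (ℕ → ℕ → ℝ) → (ℕ → ℝ) → ℕ → ℕ → D) (ηf : ℕ → (ℕ → ℕ → ℝ) → (ℕ → ℝ) → ℝ),
      S1.Past ηf ∧ ∀ ω e, (∀ m i, 0 < ω m i) → (∀ j, 0 < e j) → ∀ m < N, ∀ i,
        P m (dat ω e m i) ∧ R m i (ω m i) (e (i + 2 ^ (N - (m + 1)))) (dat ω e) (dat ω e m i) ∧
        ηf (i + 2 ^ (N - (m + 1))) ω e ≤ η (dat ω e m i) := by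
  have h' : ∀ m i o e F, ∃ d, m < N → 0 < o → 0 < e →
      (∀ m' i', Sub N m i m' i' → P m' (F m' i')) → P m d ∧ 0 < η d ∧ R m i o e F d := by
    intro m i o e F
    by_cases H : m < N ∧ 0 < o ∧ 0 < e ∧ ∀ m' i', Sub N m i m' i' → P m' (F m' i')
    · obtain ⟨d, hd⟩ := h m i o e F H.1 H.2.1 H.2.2.1 H.2.2.2
      exact ⟨d, fun _ _ _ _ => hd⟩
    · exact ⟨default, fun a b c d => absurd ⟨a, b, c, d⟩ H⟩
  choose S hS using h'
  set dat := fun ω e => it N S ω e (N + 2) with hdat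
  let g : ℝ → ℝ := fun x => if 0 < x then x else 1
  have g0 : ∀ x, 0 < g x := fun x => by simp only [g]; split_ifs with hx; exacts [hx, one_pos]
  let t : ℕ → (ℕ → ℕ → ℝ) → (ℕ → ℝ) → ℕ → ℝ := fun j ω e m =>
    if 2 ^ (N - (m + 1)) ≤ j then g (η (dat ω e m (j - 2 ^ (N - (m + 1))))) else 1
  have ne : (Finset.range (N + 1)).Nonempty := ⟨0, by simp⟩
  refine ⟨dat, fun j ω e => (Finset.range (N + 1)).inf' ne (t j ω e), ⟨fun j ω e => ?_,
    fun j ω ω' e e' h1 h2 => ?_⟩, fun ω e hω he => ?_⟩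
  · rw [Finset.lt_inf'_iff]
    intro m _
    simp only [t]
    split_ifs
    exacts [g0 _, one_pos]
  · refine congrArg _ (funext fun m => ?_)
    simp only [t]
    split_ifs with hj
    · rw [hdat]
      simp only
      rw [it_loc N S h1 h2 _ m _ (by omega)]
    · rfl
  · have eq : ∀ m i, dat ω e m i =
        S m i (ω m i) (e (i + 2 ^ (N - (m + 1)))) (res N m i (dat ω e)) := fun m i => by
      rw [hdat]
      simp only
      rw [it_succ N S ω e (N + 1)]
      congr 1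
      funext m' i'
      simp only [res]
      split_ifs
      · exact (it_stab N S ω e N m' i' (by omega)).symm
      · rfl
    have key : ∀ k m i, m < N → N ≤ m + k → P m (dat ω e m i) ∧ 0 < η (dat ω e m i) ∧
        R m i (ω m i) (e (i + 2 ^ (N - (m + 1)))) (res N m i (dat ω e)) (dat ω e m i) := by
      intro k
      induction k with
      | zero => intro m i h1 h2; omega
      | succ k ih =>
        intro m i h1 h2
        rw [eq m i]
        refine hS m i _ _ _ h1 (hω _ _) (he _) fun m' i' hs => ?_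
        simp only [res, if_pos hs]
        exact (ih m' i' hs.2.1 (by have := hs.1; omega)).1
    intro m hm i
    obtain ⟨a, b, c⟩ := key N m i hm (by omega)
    refine ⟨a, hR _ _ _ _ _ _ _ (fun m' i' hs => by simp only [res, if_pos hs]) c, ?_⟩
    refine (Finset.inf'_le _ (Finset.mem_range.2 (by omega : m < N + 1))).trans_eq ?_
    simp only [t, g]
    rw [if_pos (by omega), Nat.add_sub_cancel, if_pos b]

end Crest.Agent.T157.K.Rec36

end
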