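import Crest.Agent.T157.KTc_36
import Crest.Agent.T157.KBp_91
import Crest.Agent.T157.ZTh_16

/-!
# Row 157, part B, block S5 (helper91): representation of a target by a direction, `RepStmt`
-/

set_option autoImplicit false

noncomputable section

namespace Crest.Agent.T157.K

open MeasureTheory ProbabilityTheory Matrix Set Filter
open Crest.Agent.T157.E Crest.Agent.T157.Eig
open Crest.Agent.T157.Tap (V Mx th)
open Crest.Agent.T157.Z (Nt Nw Bd Hp RL hpStmt lipStmt nA)
open Crest.Agent.T157.Zf (QQ)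
open Crest.Agent.T157.Z.Th16 (rp ind)

namespace Rp91

/-- Markov for sections of an arbitrary set -/
lemma sec_le {α β : Type} [MeasurableSpace α] [MeasurableSpace β] (μ : Measure α) (ν : Measure β)
    [IsProbabilityMeasure μ] [IsProbabilityMeasure ν] (B : Set (α × β)) {η : ℝ} (hη : 0 < η) :
    η * μ.real {a | ¬ ν.real {b | (a, b) ∈ B} ≤ η} ≤ (μ.prod ν).real B := by
  have mH := measurableSet_toMeasurable (μ.prod ν) B
  have h := mul_meas_ge_le_lintegral₀ (μ := μ)
    (measurable_measure_prodMk_left (ν := ν) mH).aemeasurable (ENNReal.ofReal η)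
  rw [← Measure.prod_apply mH, measure_toMeasurable] at h
  have h1 := ENNReal.toReal_mono (measure_ne_top _ _) h
  rw [ENNReal.toReal_mul, ENNReal.toReal_ofReal hη.le] at h1
  refine le_trans (mul_le_mul_of_nonneg_left (measureReal_mono fun a ha => ?_) hη.le) h1
  refine (ENNReal.ofReal_le_iff_le_toReal (measure_ne_top _ _)).2 ((not_le.1 ha).le.trans ?_)
  exact measureReal_mono fun b hb => subset_toMeasurable _ _ hb

lemma ev_exp {k η : ℝ} (hk : 0 < k) (hη : 0 < η) : ∀ᶠ n : ℕ in atTop, Real.exp (-k * n) ≤ η := by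
  have := Real.tendsto_exp_neg_atTop_nhds_zero.comp
    ((tendsto_natCast_atTop_atTop (R := ℝ)).const_mul_atTop hk)
  exact (this.eventually (eventually_le_nhds hη)).mono fun n hn => by simpa using hn

/-- **sections**: the labels are good for most values of the other rows -/
theorem sec {ι κ : Type} [Fintype ι] [Fintype κ] {β η : ℝ} {c d : ι → ℝ}
    {P : ∀ n, Mx n → (ι ⊕ κ → V n) → Prop} (h : Hp β (Sum.elim c 0) (Sum.elim d 1) P) (hη : 0 < η) :
    Hp β c d fun n J a => (RL (0 : κ → ℝ) 1 0).real {b | ¬ P n J (Sum.elim a b)} ≤ η := by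
  obtain ⟨k, hk, h⟩ := h
  refine ⟨k / 2, half_pos hk, h.mono ?_⟩
  filter_upwards [ev_exp (half_pos hk) hη] with n hn g hg
  refine le_of_mul_le_mul_left ?_ hη
  rw [← SL.mean_const_mul]
  refine (((Z.Hp58.wt_gibbs n β g).mean_mono fun x => ?_).trans hg).trans ?_
  · have e := (MeasurableEquiv.sumPiEquivProdPi fun _ : ι ⊕ κ => V n).symm.map_apply
      (μ := (RL c d (sv x)).prod (RL 0 1 0)) {a | ¬ P n (β • Jmat n g) a}
    have e0 : RL (0 : κ → ℝ) 1 (sv x) = RL 0 1 0 := by
      rw [RL, RL]; congr 1; funext w l i; simp [Z.rows]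
    rw [Z.Hp58.split, e0]
    exact (sec_le _ _ {p | ¬ P n (β • Jmat n g) (Sum.elim p.1 p.2)} hη).trans_eq
      (congrArg ENNReal.toReal e.symm)
  · rw [show -k * n = -(k / 2) * n + -(k / 2) * n by ring, Real.exp_add]
    exact mul_le_mul_of_nonneg_right hn (Real.exp_pos _).le

variable {n : ℕ}

lemma real_rows {κ : Type} [Fintype κ] (S : Set (κ → V n)) :
    (gv (κ × Fin n)).real {w | (fun l i => w (l, i)) ∈ S} ≤ (RL (0 : κ → ℝ) 1 0).real S := by
  refine ENNReal.toReal_mono (measure_ne_top _ _) (le_trans (le_of_eq ?_)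
    (Measure.le_map_apply (Z.Hp58.meas_rows 0 1 0).aemeasurable S))
  congr 1; ext w
  rw [mem_preimage, show Z.rows (0 : κ → ℝ) 1 0 w = fun l i => w (l, i) by
    funext l i; simp [Z.rows]]
  rfl

lemma real_unit (S : Set (Unit → V n)) :
    (gv (Fin n)).real {z | (fun _ => z) ∈ S} ≤ (RL (0 : Unit → ℝ) 1 0).real S := by
  have hm := R339.Guerra.mp_comp (ι := Fin n) (Prod.snd : Unit × Fin n → Fin n)
    fun _ _ h => Prod.ext rfl h
  refine le_trans (ENNReal.toReal_mono (measure_ne_top _ _) ?_) (real_rows S)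
  rw [show gv (Unit × Fin n) = _ from hm.map_eq.symm]
  exact Measure.le_map_apply hm.measurable.aemeasurable _

lemma int_le {Ω : Type} [TopologicalSpace Ω] [MeasurableSpace Ω] [OpensMeasurableSpace Ω]
    {μ : Measure Ω} [IsProbabilityMeasure μ] {f : Ω → ℝ} (hf : Continuous f) {a b η : ℝ}
    (a0 : 0 ≤ a) (b0 : 0 ≤ b) (f0 : ∀ ω, 0 ≤ f ω) (h : ∀ ω, f ω ≤ b)
    (hη : μ.real {ω | ¬ f ω ≤ a} ≤ η) : ∫ ω, f ω ∂μ ≤ a + b * η := by
  have m : MeasurableSet {ω | ¬ f ω ≤ a} := (measurableSet_le hf.measurable measurable_const).compl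
  have i := ((integrable_const (μ := μ) (1 : ℝ)).indicator m).const_mul b
  refine (integral_mono_of_nonneg (.of_forall f0) ((integrable_const a).add i)
    (.of_forall fun ω => ?_)).trans ?_
  · by_cases c : f ω ≤ a
    · simp [c]
    · simp only [Pi.add_apply, indicator_of_mem (show ω ∈ {ω | ¬ f ω ≤ a} from c)]
      linarith [h ω]
  · simp only [Pi.add_apply]
    rw [integral_add (integrable_const a) i, integral_const_mul, integral_const, probReal_univ,
      one_smul, integral_indicator_const _ m, smul_eq_mul, mul_one]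
    linarith [mul_le_mul_of_nonneg_left hη b0]

lemma mean_le {w f : Cube n → ℝ} (hw : SL.Wt w) {a b η : ℝ} (a0 : 0 ≤ a) (b0 : 0 ≤ b)
    (h : ∀ s, f s ≤ b) {P : Cube n → Prop} (hP : ∀ s, P s → f s ≤ a)
    (hη : mass w {s | ¬ P s} ≤ η) : mean w f ≤ a + b * η := by
  classical
  have e : mass w {s | ¬ P s} = mean w fun s => if ¬ P s then 1 else 0 := by
    simp only [mass, mean, Finset.sum_filter, mul_ite, mul_one, mul_zero]
    exact Finset.sum_congr rfl fun s _ => by congr
  refine (hw.mean_mono (g := fun s => a + b * if ¬ P s then 1 else 0) fun s => ?_).trans ?_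
  · split_ifs with c
    · linarith [hP s c]
    · linarith [h s]
  · rw [SL.mean_add, hw.mean_const, SL.mean_const_mul, ← e]
    linarith [mul_le_mul_of_nonneg_left hη b0]

/-- the channel -/
def xx (J : Mx n) (s : Cube n) (z : V n) : V n := QQ J *ᵥ (QQ J *ᵥ sv s + z)

lemma meas_T (J : Mx n) : Measurable fun a : Bool ⊕ Unit → V n =>
    th (a (.inl false) + xx J (cb (a (.inl true))) (a (.inr ()))) := by
  have m1 : Measurable fun v : V n => sv (cb v) := (measurable_of_finite sv).comp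
    (measurable_pi_lambda _ fun i => measurable_to_bool (by
      convert measurableSet_le (measurable_const (a := (0 : ℝ))) (measurable_pi_apply (X := fun _ => ℝ) i)
      ext v; simp [cb]))
  have m2 : Measurable fun v : V n => QQ J *ᵥ v :=
    (continuous_const.matrix_mulVec continuous_id).measurable
  have p : ∀ l, Measurable fun a : Bool ⊕ Unit → V n => a l := fun l => measurable_pi_apply l
  exact measurable_pi_lambda _ fun i => Z.Th16.tanh_lip.continuous.measurable.comp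
    ((measurable_pi_apply i).comp ((p _).add (m2.comp ((m2.comp (m1.comp (p _))).add (p _)))))

variable {m : ℕ}

/-- the ramp as a network -/
def Yr (m : ℕ) (δ : ℝ) : Nt (Bool ⊕ Fin (m + 1)) := fun _ _ a i =>
  rp δ ![a (.inl false) i + a (.inl true) i, a (.inr 0) i]

lemma nw_Yr (δ : ℝ) : Nw False (Yr m δ) ∧ Bd (Yr m δ) := by
  refine ⟨?_, 1, fun n J a i => abs_le.2 ⟨le_max_left _ _, max_le (by norm_num) (min_le_left _ _)⟩⟩
  have h := Nw.map (sm := False) _ (![fun _ _ a => a (.inl false), fun _ _ a => a (.inl true)] :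
    Fin 2 → Nt (Bool ⊕ Fin (m + 1))) (Z.ApB11.ol_lin 1) False.elim
    (Fin.forall_fin_two.2 ⟨.inp _, .inp _⟩)
  convert Nw.map _ (![_, fun _ _ a => a (.inr 0)] : Fin 2 → Nt (Bool ⊕ Fin (m + 1)))
    (Z.Th16.ol_rp δ) False.elim (Fin.forall_fin_two.2 ⟨h, .inp _⟩) using 1
  funext n J a i
  simp [Yr, rp]

lemma ramp_le {δ ε : ℝ} (δ0 : 0 < δ) (ε0 : 0 ≤ ε) (h : 12 * δ ≤ ε ^ 2) (J : Mx n)
    (a : Bool ⊕ Fin (m + 1) → V n)
    (ha : ∑ i, ind δ (th (a (.inl false) + a (.inl true)) i) (a (.inr 0) i) < 3 * δ * n ∨ n = 0) :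
    nrm (sv (smm (th (a (.inl false) + a (.inl true))) (a (.inr 0))) - Yr m δ n J a) ≤ ε * √n := by
  rw [nrm_le_iff (by positivity), mul_pow, Real.sq_sqrt (Nat.cast_nonneg _)]
  have h8 : ∑ i, ind δ (th (a (.inl false) + a (.inl true)) i) (a (.inr 0) i) ≤ 3 * δ * n := by
    rcases ha with h2 | rfl
    · exact h2.le
    · simp
  have h9 := Finset.sum_le_sum (s := Finset.univ) fun i _ => Z.Th16.err δ0
    (a (.inl false) i + a (.inl true) i) (a (.inl false) i + a (.inl true) i) (a (.inr 0) i)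
  simp only [sub_self, zero_pow two_ne_zero, mul_zero, add_zero, ← Finset.mul_sum] at h9
  refine le_trans (le_of_eq (Finset.sum_congr rfl fun i _ => (sq _).symm)) (h9.trans ?_)
  change 4 * ∑ i, ind δ (th (a (.inl false) + a (.inl true)) i) (a (.inr 0) i) ≤ _
  linarith [mul_le_mul_of_nonneg_right h (Nat.cast_nonneg (α := ℝ) n)]

/-- the rows of the resampled world inside the world `(s, y, z; w, w')` -/
def f1 (m : ℕ) : (Bool ⊕ Fin 2) ⊕ Fin m ↪ (Bool ⊕ Unit) ⊕ Fin (m + 1) :=
  ⟨Sum.elim (Sum.elim (fun t => .inl (.inl t)) ![.inl (.inr ()), .inr 0]) fun l => .inr l.succ, by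
    rintro ((a | a) | a) ((b | b) | b) h <;> (try fin_cases a) <;> (try fin_cases b) <;>
      simp_all [(Fin.succ_ne_zero _).symm]⟩

/-- the approximation before the averages -/
theorem net (hL : LawStmt) {β r ε : ℝ} (hβ : β ∈ Icc (0 : ℝ) 1) (hr : 0 ≤ r)
    {u : ∀ n, Mx n → V n → V n} (hu : TY β r u) (hε : 0 < ε) :
    ∃ (m : ℕ) (E : Nt (Bool ⊕ Fin m)), Nw True E ∧ Bd E ∧
      Hp β (Sum.elim (Sum.elim (wc r) (0 : Unit → ℝ)) (0 : Fin m → ℝ))
        (Sum.elim (Sum.elim (wd r) 1) 1) fun n J b => nrm (E n J (Sum.elim (fun t => if t then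
          xx J (cb (b (.inl (.inl true)))) (b (.inl (.inr ()))) else b (.inl (.inl false)))
            fun l => b (.inr l)) - u n J (b (.inl (.inl false)))) ≤ ε * √n := by
  obtain ⟨m, X, hX, bX, h1⟩ := Z.apA.smo Bool β (wc r) (wd r) (fun n J a => u n J (a false)) hu
    (ε / 2) (half_pos hε)
  obtain ⟨L, L0, hl⟩ := Bp91.lipA hX
  obtain ⟨e, he⟩ : ∃ e, e = ε / (4 * (L + 1)) := ⟨_, rfl⟩
  have e0 : 0 < e := by rw [he]; positivity
  have δ0 : 0 < e ^ 2 / 12 := by positivity
  obtain ⟨Y, hY, -, h2⟩ := Z.molStmt _ _ (nw_Yr (m := m) (e ^ 2 / 12)).1 e e0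
  have h3 := Z.A48.emb' hpStmt (c' := Sum.elim (Sum.elim (wc r) 0) 0)
    (d' := Sum.elim (Sum.elim (wd r) 1) 1) (f1 m)
    (by rintro ((a | a) | a) <;> (try fin_cases a) <;> rfl)
    (by rintro ((a | a) | a) <;> (try fin_cases a) <;> rfl) (hL β hβ r hr 0 ⟨le_rfl, zero_le_one⟩ m _ h1)
  have h4 := Z.A48.emb' hpStmt (c' := Sum.elim (Sum.elim (wc r) 0) (0 : Fin (m + 1) → ℝ))
    (d' := Sum.elim (Sum.elim (wd r) 1) 1) ((Function.Embedding.refl _).sumMap
      ⟨fun _ : Unit => (0 : Fin (m + 1)), fun _ _ _ => rfl⟩) (by rintro (a | a) <;> rfl)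
    (by rintro (a | a) <;> rfl) (Z.Th16.fresh β (Sum.elim (wc r) (0 : Unit → ℝ)) (Sum.elim (wd r) 1)
      δ0 _ fun n J => meas_T J)
  refine ⟨m + 1, fun n J a => X n J fun j => (Sum.elim (fun t => if t then Y else
      fun _ _ a => a (.inl false)) (fun l _ _ a => a (.inr l.succ)) j : Nt _) n J a,
    lipStmt.comp _ _ _ _ _ hX ?_, Z.A48.Bd.comp bX _,
    Z.A48.imp hpStmt (hpStmt.and _ _ _ _ _ _ h3 h4) fun n J b h => ?_⟩
  · rintro ((_ | _) | l)
    exacts [.inp _, hY, .inp _]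
  obtain ⟨k1, k2⟩ := h
  have e1 : ∀ t, f1 m (.inl (.inl t)) = .inl (.inl t) := fun _ => rfl
  have e2 : f1 m (.inl (.inr 0)) = .inl (.inr ()) := rfl
  have e3 : f1 m (.inl (.inr 1)) = .inr 0 := rfl
  have e4 : ∀ l, f1 m (.inr l) = .inr l.succ := fun _ => rfl
  simp only [e1, e2, e3, e4, mxs, zero_smul, sub_zero, one_smul, zero_add] at k1
  set a : Bool ⊕ Fin (m + 1) → V n := Sum.elim (fun t => if t then
    xx J (cb (b (.inl (.inl true)))) (b (.inl (.inr ()))) else b (.inl (.inl false))) fun l => b (.inr l)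
  have k3 := (Z.A48.tri _ _ _).trans (add_le_add (ramp_le δ0 e0.le (by linarith) J a k2) (h2 n J a))
  rw [← nrm_neg, neg_sub]
  refine (Z.A48.tri _ _ _).trans ((add_le_add k1 ((hl n J _ _).trans
    (mul_le_mul_of_nonneg_left (le_of_eq_of_le ?_ k3) L0))).trans ?_)
  · simp only [nA, Fintype.sum_sum_type, Fintype.sum_bool]
    simp [a, xx, pt]
  · have : L * (e + e) ≤ ε / 2 := by
      rw [he, ← two_mul, ← mul_assoc, mul_div_assoc', div_le_iff₀ (by positivity)]; linarith
    linarith [mul_le_mul_of_nonneg_right this (Real.sqrt_nonneg (n : ℝ))]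

end Rp91

open Rp91 in
theorem repGlue : RepGlue := by
  intro hT _ hL β hβ r hr u hu δ hδ
  obtain ⟨⟨C, C0, hC⟩, -⟩ := hT.flat β r hr u hu
  obtain ⟨ε, hε⟩ : ∃ ε, ε = √δ / 4 := ⟨_, rfl⟩
  have ε0 : 0 < ε := by rw [hε]; positivity
  have ε2 : ε ^ 2 = δ / 16 := by rw [hε, div_pow, Real.sq_sqrt hδ.le]; norm_num
  obtain ⟨m, E, hE, hb, h1⟩ := net hL hβ hr hu ε0
  obtain ⟨M, M0, hM⟩ := Z.A48.Bd.pos hb
  obtain ⟨K, hK⟩ : ∃ K, K = M + C + 1 := ⟨_, rfl⟩
  have K0 : 0 < K := by rw [hK]; positivity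
  obtain ⟨η, hη⟩ : ∃ η, η = min (ε / K) (δ / (4 * K ^ 2)) := ⟨_, rfl⟩
  have η0 : 0 < η := by rw [hη]; positivity
  have η1 : η * K ≤ ε := (le_div_iff₀ K0).1 (hη ▸ min_le_left _ _)
  have η2 : η * (4 * K ^ 2) ≤ δ := (le_div_iff₀ (by positivity)).1 (hη ▸ min_le_right _ _)
  have h0 := sec (sec h1 η0) η0
  obtain ⟨k, hk, h2⟩ := hT.gibbs β r hr (fun n J s y => (RL (0 : Unit → ℝ) 1 0).real {z | ¬
    (RL (0 : Fin m → ℝ) 1 0).real {w | ¬ nrm (E n J (Sum.elim (fun t => if t then xx J s (z ())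
      else y) w) - u n J y) ≤ ε * √n} ≤ η} ≤ η) h0
  refine ⟨m, E, hE, hb, (hT.ty β r hr _).2 (hpStmt.mono _ _ _ _ _ _ (hpStmt.and _ _ _ _ _ _
    ((hT.ty β r hr _).1 hC) ((hT.ty β r hr _).1 h2)) ((ev_exp hk η0).mono fun n hn J a h => ?_))⟩
  obtain ⟨k1, k2⟩ := h
  set y := a false
  have s0 := Real.sqrt_nonneg (n : ℝ)
  have n0 : (0 : ℝ) ≤ n := Nat.cast_nonneg n
  have bd : ∀ b, nrm (E n J b - u n J y) ≤ K * √n := fun b => by
    have := Z.L85.nrm_le_of_bd (hM n J b)
    rw [abs_of_nonneg M0] at this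
    rw [hK]
    linarith [nrm_sub_le (E n J b) (u n J y)]
  have cE : ∀ x, Continuous fun w : Fin m × Fin n → ℝ => E n J (lab2 x y w) := fun x =>
    (Bp91.c1 hE n J).continuous.comp (Bp91.cont_lab2 continuous_const continuous_const continuous_id)
  have cf : ∀ x, Continuous fun w : Fin m × Fin n → ℝ => nrm (E n J (lab2 x y w) - u n J y) :=
    fun x => continuous_nrm.comp ((cE x).sub continuous_const)
  have j : ∀ x, nrm (Eh E n J x y - u n J y) ≤
      ∫ w, nrm (E n J (lab2 x y w) - u n J y) ∂gv (Fin m × Fin n) := fun x => by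
    have := Bp91.nrm_int (μ := gv (Fin m × Fin n)) (f := fun w => E n J (lab2 x y w))
      (g := fun _ => u n J y)
      (fun i => Bp91.int_of ((continuous_apply i).comp (cE x)) fun _ => hM n J _ i)
      (fun _ => integrable_const _) (Bp91.int_of (cf x) fun _ =>
        (abs_of_nonneg (nrm_nonneg _)).trans_le (bd _)) fun _ => le_rfl
    simp only [integral_const, probReal_univ, one_smul] at this
    exact this
  have b2 : ∀ x, nrm (Eh E n J x y - u n J y) ^ 2 ≤ K ^ 2 * n := fun x => by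
    have := (j x).trans (int_le (cf x) (a := 0) (η := 1) le_rfl (by positivity)
      (fun _ => nrm_nonneg _) (fun _ => bd _) measureReal_le_one)
    rw [zero_add, mul_one] at this
    simpa only [mul_pow, Real.sq_sqrt n0] using pow_le_pow_left₀ (nrm_nonneg _) this 2
  have cd : ∀ s, Continuous fun z => nrm (Eh E n J (xx J s z) y - u n J y) ^ 2 := fun s =>
    (continuous_nrm.comp (((Bp91.c1_Eh hE hb J).continuous.comp (f := fun z => (xx J s z, y))
      ((continuous_const.matrix_mulVec (continuous_const.add continuous_id)).prodMk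
        continuous_const)).sub continuous_const)).pow 2
  refine (mean_le (.of_pos fun _ => Real.exp_pos _) (a := δ / 4 * n + K ^ 2 * n * η) (b := K ^ 2 * n)
    (by positivity) (by positivity) (fun s => ?_) (fun s hs => ?_) (k2.trans hn)).trans ?_
  · exact (int_le (μ := gv (Fin n)) (cd s) (a := 0) (η := 1) le_rfl (by positivity)
      (fun _ => sq_nonneg _) (fun _ => b2 _) measureReal_le_one).trans_eq (by ring)
  · refine int_le (cd s) (by positivity) (by positivity) (fun _ => sq_nonneg _) (fun _ => b2 _)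
      (le_trans (measureReal_mono fun z hz => ?_) ((real_unit _).trans hs))
    refine fun c => hz ?_
    have t := (j (xx J s z)).trans (int_le (cf _) (a := ε * √n) (by positivity) (by positivity)
      (fun _ => nrm_nonneg _) (fun _ => bd _) ((real_rows _).trans c))
    have t2 := pow_le_pow_left₀ (nrm_nonneg _) (t.trans (show _ ≤ 2 * ε * √n by
      linarith [mul_le_mul_of_nonneg_right η1 s0])) 2
    rw [mul_pow, mul_pow, Real.sq_sqrt n0, ε2] at t2
    linarith
  · linarith [mul_le_mul_of_nonneg_right η2 n0, mul_nonneg hδ.le n0]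

end Crest.Agent.T157.K

end
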