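import Crest.Agent.T157.KTc_36
import Crest.Agent.T157.ZQ_64

/-!
# Row 157, part B, block S5 (helper58): resampling the spin preserves the thermal calculus
-/

set_option autoImplicit false

noncomputable section

namespace Crest.Agent.T157.K

open MeasureTheory ProbabilityTheory Matrix Set
open Crest.Agent.T157.E Crest.Agent.T157.Eig
open Crest.Agent.T157.Tap (V Mx th)
open Crest.Agent.T157.Z (Nt Nw Bd Ap Hp OL apA apB hpStmt lipStmt)
open Crest.Agent.T157.Zf (QQ AA Vf)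

namespace Rs58

variable {ι : Type} [Fintype ι] {β : ℝ} {c d : ι → ℝ}

theorem ap_QQ (hβ : β ∈ Icc (0 : ℝ) 1) {U : Nt ι} (h : Ap β c d U) :
    Ap β c d fun n J a => QQ J *ᵥ U n J a :=
  Z.qStmt ι β hβ c d (fun _ J => QQ J) (fun n J h1 h3 => by
    have g : Sq.G1 (J + (4 : ℝ) • (1 : Mx n)) := Sq.g1_shift (Z.Q64.herm h1) h3 (by norm_num)
    rw [QQ, AA, (lipStmt.tJ_le n J).2 h3]
    exact ⟨PosSemidef.of_dotProduct_mulVec_nonneg g.rt.herm fun v =>
      (dot_self_nonneg v).trans (g.rt.ge v), g.mul⟩) U h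

theorem ap_th (hβ : β ∈ Icc (0 : ℝ) 1) {U : Nt ι} (h : Ap β c d U) :
    Ap β c d fun n J a => th (U n J a) :=
  apB.map ι β hβ c d 1 (fun u => Real.tanh (u 0)) (fun _ => U) ⟨fun u => Real.tanh_neg _, 1,
    LipschitzWith.of_dist_le_mul fun x y => (Da.Gr.tanh_lip _ _).trans (by
      simpa [Real.dist_eq] using dist_le_pi_dist x y 0)⟩ fun _ => h

theorem ap_add (hβ : β ∈ Icc (0 : ℝ) 1) {U W : Nt ι} (h : Ap β c d U) (h' : Ap β c d W) :
    Ap β c d fun n J a => U n J a + W n J a := by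
  simpa only [one_smul] using apB.add ι β hβ c d U W 1 1 h h'

theorem ap_inp (hβ : β ∈ Icc (0 : ℝ) 1) (j : ι) : Ap β c d fun _ _ a => a j :=
  apA.net ι β hβ c d _ (.inp j)

/-- the means of the mixed sample -/
theorem ap_mix (hβ : β ∈ Icc (0 : ℝ) 1) (t : ℝ) {S Y W : Nt ι} (hS : Ap β c d S) (hY : Ap β c d Y)
    (hW : Ap β c d W) : Ap β c d fun n J a =>
      t • S n J a + (1 - t) • pt (QQ J) (Y n J a) (QQ J *ᵥ S n J a + W n J a) :=
  apB.add ι β hβ c d _ _ t (1 - t) hS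
    (ap_th hβ (ap_add hβ hY (ap_QQ hβ (ap_add hβ (ap_QQ hβ hS) hW))))

/-- limits of approximable words with labels -/
theorem ap_lim {U : Nt ι} (h : ∀ ε > (0 : ℝ), ∃ (m : ℕ) (W : Nt (ι ⊕ Fin m)),
    Ap β (Sum.elim c 0) (Sum.elim d 1) W ∧ Hp β (Sum.elim c 0) (Sum.elim d 1) fun n J a =>
      nrm (U n J (fun l => a (.inl l)) - W n J a) ≤ ε * √n) : Ap β c d U := fun ε hε => by
  obtain ⟨m, W, h1, h2⟩ := h (ε / 2) (by linarith)
  obtain ⟨k, X, h3, h4, h5⟩ := h1 (ε / 2) (by linarith)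
  have h7 := Z.A48.inl' hpStmt (0 : Fin k → ℝ) 1 h2
  have h6 := hpStmt.and _ _ _ _ _ _ h7 h5
  let f : (ι ⊕ Fin m) ⊕ Fin k ↪ ι ⊕ Fin (m + k) :=
    ((Equiv.sumAssoc _ _ _).trans ((Equiv.refl ι).sumCongr finSumFinEquiv)).toEmbedding
  have h8 := Z.A48.emb' hpStmt (c' := Sum.elim c 0) (d' := Sum.elim d 1) f
    (by rintro ((l | l) | l) <;> rfl) (by rintro ((l | l) | l) <;> rfl) h6
  exact ⟨m + k, _, Z.A48.rel lipStmt h3 f, Z.A48.Bd.comp h4 fun _ _ a j => a (f j),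
    Z.A48.imp hpStmt h8 fun n J a h => (Z.A48.tri _ _ _).trans ((add_le_add h.1 h.2).trans_eq
      (by ring))⟩

/-- the mixed sample is approximable -/
theorem ap_mxs (T : TcStmt) (S : SmmStmt) (hβ : β ∈ Icc (0 : ℝ) 1) (r t : ℝ) :
    TL β r 2 fun _ J s y w => sv (mxs J t s y (w 0) (w 1)) := by
  let f : Bool ⊕ Fin 1 ↪ Bool ⊕ Fin 2 := (Function.Embedding.refl _).sumMap (Fin.castLEEmb one_le_two)
  have h1 := apA.emb Bool _ β (Sum.elim (wc r) (0 : Fin 2 → ℝ) ∘ f) (Sum.elim (wd r) 1 ∘ f)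
    Function.Embedding.inl _ (T.spin β hβ r)
  have h2 := ap_mix hβ t h1 (ap_inp hβ (.inl false)) (ap_inp hβ (.inr 0))
  have h3 := S.ap _ _ β hβ (Sum.elim (wc r) 0) (Sum.elim (wd r) 1) f (.inr 1)
    (by rintro ⟨l | l, h⟩ <;> simp [f, Fin.ext_iff] at h) rfl rfl _ h2
  exact h3

end Rs58

open Rs58

theorem rsGlue : RsGlue := fun T C S L β hβ r hr t ht U hU => ap_lim fun ε hε => by
  obtain ⟨m, X, hX, -, hp⟩ := hU ε hε
  have h1 := L β hβ r hr t ht m _ hp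
  have h2 := apA.emb _ ((Bool ⊕ Fin 2) ⊕ Fin m) β (Sum.elim (Sum.elim (wc r) 0) 0)
    (Sum.elim (Sum.elim (wd r) 1) 1) Function.Embedding.inl _ (ap_mxs T S hβ r t)
  refine ⟨m, _, C _ _ β hβ _ _ X (Sum.elim (fun b n J a => if b then sv (mxs J t
    (cb (a (.inl (.inl true)))) (a (.inl (.inl false))) (a (.inl (.inr 0))) (a (.inl (.inr 1))))
    else a (.inl (.inl false))) fun l _ _ a => a (.inr l)) hX ?_, Z.A48.imp hpStmt h1 ?_⟩
  · rintro ((_ | _) | l)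
    exacts [ap_inp hβ _, h2, ap_inp hβ _]
  · intro n J a h
    simp only [Sum.elim_inl, if_true, T.cbsv, Bool.false_eq_true, if_false] at h
    convert h using 4
    funext j
    rcases j with j | j <;> rfl

end Crest.Agent.T157.K

end
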