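import Crest.Agent.T157.RecB_77
import Crest.Agent.T157.Chain_22

/-!
# Row 157, part B, kernel route (helper47): reversibility and the exact gradient of the
Hubbard–Stratonovich Gibbs sampler `s → x = A s + Q Z → s' ∼ ∏ th (x + y)`
-/

set_option autoImplicit false
set_option linter.unusedSectionVars false

noncomputable section

namespace Crest.Agent.T157.Kv

open MeasureTheory ProbabilityTheory Matrix Filter Set Real Function
open Crest.Agent.T157.E Crest.Agent.T157.SL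
open Crest.Agent.T157.Rec (grad fl)

/-! ### Cameron–Martin along a vector -/

section cm
variable {κ : Type*} [Fintype κ] [DecidableEq κ]

/-- the averaged likelihood ratio `∫₀¹ exp (t u - t² a / 2) dt` -/
def rr (a u : ℝ) : ℝ := ∫ t in (0 : ℝ)..1, exp (t * u - t ^ 2 * a / 2)

theorem ld_eq (f : (κ → ℝ) → ℝ) (w v : κ → ℝ) (t : ℝ) :
    lineDeriv ℝ f (t • v + w) v = deriv (fun s : ℝ => f (w + s • v)) t := by
  have := deriv_comp_add_const (fun s : ℝ => f (w + s • v)) t 0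
  rw [zero_add] at this
  rw [← this, lineDeriv]
  congr 1; ext s; congr 1; rw [add_smul]; abel

theorem ftc {f : (κ → ℝ) → ℝ} {v : κ → ℝ} {L : NNReal}
    (h : ∀ w, LipschitzWith L fun s : ℝ => f (w + s • v)) (w : κ → ℝ) :
    f (v + w) - f w = ∫ t in (0 : ℝ)..1, lineDeriv ℝ f (t • v + w) v := by
  simp only [ld_eq]
  rw [(h w).lipschitzOnWith.absolutelyContinuousOnInterval.integral_deriv_eq_sub]
  simp [add_comm]

theorem sh_smul (v : κ → ℝ) (t : ℝ) (z : κ → ℝ) (a : ℝ) :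
    exp (z ⬝ᵥ t • v - (t • v) ⬝ᵥ (t • v) / 2) * a =
      a * exp (t * (z ⬝ᵥ v) - t ^ 2 * (v ⬝ᵥ v) / 2) := by
  simp only [smul_dotProduct, dotProduct_smul, smul_eq_mul]
  rw [mul_comm]; congr 2; ring

/-- the increment of a Gaussian mean under a shift, exactly -/
theorem dv {f : (κ → ℝ) → ℝ} (hc : Continuous f) {v : κ → ℝ} {L : NNReal}
    (h : ∀ w, LipschitzWith L fun s : ℝ => f (w + s • v)) :
    Integrable (fun z => lineDeriv ℝ f z v * rr (v ⬝ᵥ v) (z ⬝ᵥ v)) (gv κ) ∧
    ∫ z, (f (v + z) - f z) ∂gv κ = ∫ z, lineDeriv ℝ f z v * rr (v ⬝ᵥ v) (z ⬝ᵥ v) ∂gv κ := by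
  have hD : Measurable fun w => lineDeriv ℝ f w v := measurable_lineDeriv hc
  have hb : ∀ w, |lineDeriv ℝ f w v| ≤ L := fun w => norm_deriv_le_of_lipschitz (x₀ := (0 : ℝ)) (h w)
  have hs : Measurable fun p : ℝ × (κ → ℝ) => p.1 • v + p.2 := by fun_prop
  have : IsFiniteMeasure (volume.restrict (uIoc (0 : ℝ) 1)) :=
    isFiniteMeasure_restrict.2 (by simp [uIoc])
  have i1 : Integrable (uncurry fun (t : ℝ) (w : κ → ℝ) => lineDeriv ℝ f (t • v + w) v)
      ((volume.restrict (uIoc (0 : ℝ) 1)).prod (gv κ)) :=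
    (integrable_const (L : ℝ)).mono' (hD.comp hs).aestronglyMeasurable (.of_forall fun p => hb _)
  have hm : Measurable (uncurry fun (t : ℝ) (w : κ → ℝ) =>
      lineDeriv ℝ f w v * exp (t * (w ⬝ᵥ v) - t ^ 2 * (v ⬝ᵥ v) / 2)) :=
    (hD.comp measurable_snd).mul (by unfold dotProduct; fun_prop)
  have i2 : Integrable (uncurry fun (t : ℝ) (w : κ → ℝ) =>
      lineDeriv ℝ f w v * exp (t * (w ⬝ᵥ v) - t ^ 2 * (v ⬝ᵥ v) / 2))
      ((volume.restrict (uIoc (0 : ℝ) 1)).prod (gv κ)) := by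
    have hi : ∀ t : ℝ, Integrable (fun w : κ → ℝ => lineDeriv ℝ f (t • v + w) v) (gv κ) := fun t =>
      (integrable_const (L : ℝ)).mono' (hD.comp (hs.comp measurable_prodMk_left)).aestronglyMeasurable
        (.of_forall fun w => hb _)
    refine (integrable_prod_iff hm.aestronglyMeasurable).2 ⟨.of_forall fun t => ?_, ?_⟩
    · simpa only [sh_smul, uncurry] using (cm_int (t • v) fun w => lineDeriv ℝ f w v).1 (hi t)
    · refine (integrable_const (L : ℝ)).mono' hm.aestronglyMeasurable.norm.integral_prod_right'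
        (.of_forall fun t => ?_)
      have e := cm (t • v) fun w => |lineDeriv ℝ f w v|
      simp only [sh_smul] at e
      simp only [uncurry, Real.norm_eq_abs, abs_mul, Real.abs_exp]
      rw [← e, abs_of_nonneg (integral_nonneg fun _ => abs_nonneg _)]
      simpa using integral_mono (hi t).abs (integrable_const (L : ℝ)) fun w => hb _
  constructor
  · have := i2.integral_prod_right
    simp only [uncurry, integral_const_mul] at this
    simpa only [rr, intervalIntegral.integral_of_le zero_le_one, uIoc_of_le zero_le_one] using this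
  · simp only [ftc h]
    rw [← intervalIntegral_integral_swap i1]
    simp only [cm _ fun w => lineDeriv ℝ f w v, sh_smul]
    rw [intervalIntegral_integral_swap i2]
    simp only [intervalIntegral.integral_const_mul, rr]

theorem rr_pos (a u : ℝ) : 0 < rr a u :=
  intervalIntegral.intervalIntegral_pos_of_pos (Continuous.intervalIntegrable (by fun_prop) _ _)
    (fun _ => exp_pos _) zero_lt_one

theorem rr_le {a : ℝ} (ha : 0 ≤ a) (u : ℝ) : rr a u ≤ exp |u| := by
  have := intervalIntegral.integral_mono_on (μ := volume) (f := fun t : ℝ => exp (t * u - t ^ 2 * a / 2))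
    (g := fun _ => exp |u|) zero_le_one (Continuous.intervalIntegrable (by fun_prop) _ _)
    (Continuous.intervalIntegrable (by fun_prop) _ _) fun t ht => exp_le_exp.2 (by
      nlinarith [le_abs_self u, abs_nonneg u, ht.1, ht.2, mul_nonneg (sq_nonneg t) ha,
        mul_le_mul_of_nonneg_left (le_abs_self u) ht.1])
  simpa [rr] using this

theorem cont_rr (a : ℝ) : Continuous (rr a) :=
  intervalIntegral.continuous_parametric_intervalIntegral_of_continuous' (by fun_prop) _ _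

end cm

/-! ### the sampler -/

variable {n : ℕ} {J Q A : Matrix (Fin n) (Fin n) ℝ}

/-- `A = Q²`, `Q` symmetric, `A - J` constant on the cube -/
structure HS (J Q A : Matrix (Fin n) (Fin n) ℝ) : Prop where
  symm : Qᵀ = Q
  sq : Q * Q = A
  dg : ∃ c : ℝ, ∀ x : Cube n, sv x ⬝ᵥ A *ᵥ sv x = sv x ⬝ᵥ J *ᵥ sv x + c

theorem HS.mk' (hQ : Qᵀ = Q) {a : ℝ} (h : Q * Q = J + a • (1 : Matrix (Fin n) (Fin n) ℝ)) :
    HS J Q (J + a • 1) := ⟨hQ, h, a * n, fun x => by
  rw [add_mulVec, dotProduct_add, smul_mulVec, one_mulVec, dotProduct_smul, sv_dot_self, smul_eq_mul]⟩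

theorem ising0 (h : Fin n → ℝ) (x : Cube n) : ising 0 h x = exp (h ⬝ᵥ sv x) := by simp [ising]

theorem wt_ising (J : Matrix (Fin n) (Fin n) ℝ) (h : Fin n → ℝ) : Wt (ising J h) :=
  Wt.of_pos fun _ => exp_pos _

theorem HS.dot (h : HS J Q A) (u v : Fin n → ℝ) : u ⬝ᵥ Q *ᵥ v = (Q *ᵥ u) ⬝ᵥ v := by
  rw [dotProduct_mulVec, ← mulVec_transpose, h.symm]

theorem HS.dot2 (h : HS J Q A) (u v : Fin n → ℝ) : (Q *ᵥ u) ⬝ᵥ (Q *ᵥ v) = u ⬝ᵥ A *ᵥ v := by
  rw [← h.dot, mulVec_mulVec, h.sq]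

theorem HS.symmA (h : HS J Q A) : Aᵀ = A := by rw [← h.sq, transpose_mul, h.symm]

theorem HS.field (h : HS J Q A) (u z : Fin n → ℝ) : A *ᵥ u + Q *ᵥ z = Q *ᵥ (Q *ᵥ u + z) := by
  rw [mulVec_add, mulVec_mulVec, h.sq]

/-- the posterior of the channel with features `Q σ` at time `1` is the product law -/
theorem HS.prob_post (h : HS J Q A) (y g : Fin n → ℝ) :
    prob (post (fun x => Q *ᵥ sv x) (ising J y) 1 g) = prob (ising 0 (Q *ᵥ g + y)) := by
  obtain ⟨c, hc⟩ := h.dg
  have e : post (fun x => Q *ᵥ sv x) (ising J y) 1 g = fun x => exp (-(c / 2)) * ising 0 (Q *ᵥ g + y) x := by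
    ext x
    rw [post, ising0, ising, h.dot2, hc, h.dot, ← exp_add, ← exp_add, add_dotProduct]
    congr 1; ring
  ext x
  rw [e, prob, prob, ← Finset.mul_sum, mul_div_mul_left _ _ (exp_pos _).ne']

theorem HS.mean_post (h : HS J Q A) (y g : Fin n → ℝ) (F : Cube n → ℝ) :
    mean (post (fun x => Q *ᵥ sv x) (ising J y) 1 g) F = mean (ising 0 (Q *ᵥ g + y)) F := by
  simp only [mean, h.prob_post]

/-- the joint law of `(σ, x)` from the reference Gaussian (no integrability needed) -/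
theorem HS.one (h : HS J Q A) (y : Fin n → ℝ) : ∃ c0 : ℝ, 0 < c0 ∧ ∀ (s : Cube n) (H : (Fin n → ℝ) → ℝ),
    prob (ising J y) s * ∫ z, H (A *ᵥ sv s + Q *ᵥ z) ∂gv (Fin n) =
      c0 * ∫ z, ising 0 (Q *ᵥ z + y) s * H (Q *ᵥ z) ∂gv (Fin n) := by
  obtain ⟨c, hc⟩ := h.dg
  refine ⟨exp (-(c / 2)) / ∑ x, ising J y x, div_pos (exp_pos _) (wt_ising J y).pos, fun s H => ?_⟩
  simp only [h.field]
  rw [cm (Q *ᵥ sv s) fun z => H (Q *ᵥ z), ← integral_const_mul, ← integral_const_mul]
  congr 1; ext z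
  rw [prob, ising0, ising, h.dot2, hc, h.dot, add_dotProduct, ← mul_assoc, ← mul_assoc]
  congr 1
  rw [div_mul_eq_mul_div (exp _), div_mul_eq_mul_div (exp (-(c / 2))), ← exp_add, ← exp_add]
  congr 2; ring

/-- **detailed balance** with an observable of the field (no integrability needed) -/
theorem HS.pair (h : HS J Q A) (y : Fin n → ℝ) (F : (Fin n → ℝ) → ℝ) (s s' : Cube n) :
    prob (ising J y) s * ∫ z, prob (ising 0 (A *ᵥ sv s + Q *ᵥ z + y)) s' *
        F (A *ᵥ sv s + Q *ᵥ z) ∂gv (Fin n) =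
      prob (ising J y) s' * ∫ z, prob (ising 0 (A *ᵥ sv s' + Q *ᵥ z + y)) s *
        F (A *ᵥ sv s' + Q *ᵥ z) ∂gv (Fin n) := by
  obtain ⟨c0, -, e⟩ := h.one y
  rw [e s fun x => prob (ising 0 (x + y)) s' * F x, e s' fun x => prob (ising 0 (x + y)) s * F x]
  congr 2; ext z
  simp only [prob]; ring

theorem cont_prob0 (s : Cube n) : Continuous fun x : Fin n → ℝ => prob (ising 0 x) s := by
  have c : ∀ s, Continuous fun x : Fin n → ℝ => ising 0 x s := fun s => by
    simp only [ising0, dotProduct]; fun_prop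
  exact (c s).div (continuous_finsetSum _ fun x _ => c x) fun x => (wt_ising 0 x).pos.ne'

theorem cont_mean0 (F : Cube n → ℝ) : Continuous fun x : Fin n → ℝ => mean (ising 0 x) F :=
  continuous_finsetSum _ fun s _ => (cont_prob0 s).mul continuous_const

theorem cont_field (Q : Matrix (Fin n) (Fin n) ℝ) (b y : Fin n → ℝ) :
    Continuous fun z : Fin n → ℝ => b + Q *ᵥ z + y := by fun_prop

theorem int_prob {b y : Fin n → ℝ} {F : (Fin n → ℝ) → ℝ} (hF : Integrable F (gv (Fin n))) (s : Cube n) :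
    Integrable (fun z => prob (ising 0 (b + Q *ᵥ z + y)) s * F z) (gv (Fin n)) :=
  hF.bdd_mul (c := 1) ((cont_prob0 s).comp (cont_field Q b y)).aestronglyMeasurable
    (.of_forall fun _ => (abs_of_nonneg ((wt_ising _ _).prob_nonneg s)).trans_le
      ((wt_ising _ _).prob_le_one s))

theorem int_mean {b y : Fin n → ℝ} {F : Cube n → (Fin n → ℝ) → ℝ}
    (hF : ∀ s, Integrable (F s) (gv (Fin n))) :
    Integrable (fun z => mean (ising 0 (b + Q *ᵥ z + y)) fun s => F s z) (gv (Fin n)) :=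
  integrable_finsetSum _ fun s _ => int_prob (hF s) s

/-- **exchangeability** of `(σ, σ')` given the field -/
theorem HS.exch (h : HS J Q A) (y : Fin n → ℝ) (Φ : Cube n → Cube n → (Fin n → ℝ) → ℝ)
    (h1 : ∀ s s', Integrable (fun z => Φ s s' (A *ᵥ sv s + Q *ᵥ z)) (gv (Fin n)))
    (h2 : ∀ s s', Integrable (fun z => Φ s' s (A *ᵥ sv s + Q *ᵥ z)) (gv (Fin n))) :
    mean (ising J y) (fun s => ∫ z, mean (ising 0 (A *ᵥ sv s + Q *ᵥ z + y))
        (fun s' => Φ s s' (A *ᵥ sv s + Q *ᵥ z)) ∂gv (Fin n)) =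
      mean (ising J y) fun s => ∫ z, mean (ising 0 (A *ᵥ sv s + Q *ᵥ z + y))
        (fun s' => Φ s' s (A *ᵥ sv s + Q *ᵥ z)) ∂gv (Fin n) := by
  simp only [mean]
  simp only [fun s => integral_finsetSum Finset.univ fun s' _ => int_prob (Q := Q) (b := A *ᵥ sv s)
    (y := y) (h1 s s') s', fun s => integral_finsetSum Finset.univ fun s' _ =>
    int_prob (Q := Q) (b := A *ᵥ sv s) (y := y) (h2 s s') s', Finset.mul_sum]
  rw [Finset.sum_comm]
  exact Finset.sum_congr rfl fun s _ => Finset.sum_congr rfl fun s' _ => h.pair y (Φ s' s) s' s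

/-- **Bayes**: given the field, the spin is drawn from the product law -/
theorem HS.bayes (h : HS J Q A) (y : Fin n → ℝ) (Φ : Cube n → (Fin n → ℝ) → ℝ)
    (h1 : ∀ s, Integrable (fun z => Φ s (A *ᵥ sv s + Q *ᵥ z)) (gv (Fin n))) :
    mean (ising J y) (fun s => ∫ z, Φ s (A *ᵥ sv s + Q *ᵥ z) ∂gv (Fin n)) =
      mean (ising J y) fun s => ∫ z, mean (ising 0 (A *ᵥ sv s + Q *ᵥ z + y))
        (fun s' => Φ s' (A *ᵥ sv s + Q *ᵥ z)) ∂gv (Fin n) := by
  have := SL.bayes (φ := fun x => Q *ᵥ sv x) (F := fun s g => Φ s (Q *ᵥ g)) (wt_ising J y) zero_le_one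
    fun s => by simpa only [one_smul, sqrt_one, ← h.field] using h1 s
  simpa only [slE_eq_mean, one_smul, sqrt_one, h.mean_post, ← h.field] using this

/-- the kernel -/
def Km (A Q : Matrix (Fin n) (Fin n) ℝ) (y : Fin n → ℝ) : Matrix (Cube n) (Cube n) ℝ := fun s s' =>
  ∫ z, prob (ising 0 (A *ᵥ sv s + Q *ᵥ z + y)) s' ∂gv (Fin n)

/-- the operator -/
def Kf (A Q : Matrix (Fin n) (Fin n) ℝ) (y : Fin n → ℝ) (F : Cube n → ℝ) (s : Cube n) : ℝ :=
  ∫ z, mean (ising 0 (A *ᵥ sv s + Q *ᵥ z + y)) F ∂gv (Fin n)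

theorem int_prob1 (b y : Fin n → ℝ) (s : Cube n) :
    Integrable (fun z => prob (ising 0 (b + Q *ᵥ z + y)) s) (gv (Fin n)) := by
  simpa using int_prob (Q := Q) (b := b) (y := y) (integrable_const 1) s

theorem int_mean1 (b y : Fin n → ℝ) (F : Cube n → ℝ) :
    Integrable (fun z => mean (ising 0 (b + Q *ᵥ z + y)) F) (gv (Fin n)) :=
  int_mean (F := fun s _ => F s) fun _ => integrable_const _

theorem Km_mulVec (y : Fin n → ℝ) (F : Cube n → ℝ) : Km A Q y *ᵥ F = Kf A Q y F := by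
  ext s
  simp only [mulVec, dotProduct, Km, Kf, mean, ← integral_mul_const]
  exact (integral_finsetSum _ fun s' _ => (int_prob1 _ _ s').mul_const _).symm

theorem Kf_const (y : Fin n → ℝ) (c : ℝ) : Kf A Q y (fun _ => c) = fun _ => c := by
  ext s; simp [Kf, (wt_ising _ _).mean_const]

theorem Km_nonneg (y : Fin n → ℝ) (s s' : Cube n) : 0 ≤ Km A Q y s s' :=
  integral_nonneg fun _ => (wt_ising _ _).prob_nonneg _

theorem Km_row (y : Fin n → ℝ) (s : Cube n) : ∑ s', Km A Q y s s' = 1 := by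
  have := congrFun (Km_mulVec (A := A) (Q := Q) y fun _ => 1) s
  rw [Kf_const] at this
  simpa [mulVec, dotProduct] using this

theorem HS.Km_rev (h : HS J Q A) (y : Fin n → ℝ) (s s' : Cube n) :
    prob (ising J y) s * Km A Q y s s' = prob (ising J y) s' * Km A Q y s' s := by
  simpa [Km] using h.pair y (fun _ => 1) s s'

/-- the sampler as a reversible chain -/
def HS.rc (h : HS J Q A) (y : Fin n → ℝ) : Chain22.RC (Cube n) :=
  ⟨prob (ising J y), Km A Q y, fun _ => div_pos (exp_pos _) (wt_ising J y).pos,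
    (wt_ising J y).sum_prob, Km_nonneg y, Km_row y, h.Km_rev y⟩

/-- **reversibility** -/
theorem HS.rev (h : HS J Q A) (y : Fin n → ℝ) (F G : Cube n → ℝ) :
    mean (ising J y) (fun s => G s * Kf A Q y F s) = mean (ising J y) fun s => F s * Kf A Q y G s := by
  have := h.exch y (fun s s' _ => G s * F s') (fun _ _ => integrable_const _) fun _ _ => integrable_const _
  simpa only [mean_const_mul, mean_mul_const, integral_const_mul, integral_mul_const, Kf,
    mul_comm (∫ _, _ ∂_)] using this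

/-- invariance -/
theorem HS.inv (h : HS J Q A) (y : Fin n → ℝ) (F : Cube n → ℝ) :
    mean (ising J y) (Kf A Q y F) = mean (ising J y) F := by
  simpa [Kf_const] using h.rev y F fun _ => 1

/-- `⟨G, K F⟩ = E[E(G|x) E(F|x)]` -/
theorem HS.ip (h : HS J Q A) (y : Fin n → ℝ) (F G : Cube n → ℝ) :
    mean (ising J y) (fun s => G s * Kf A Q y F s) = mean (ising J y) fun s =>
      ∫ z, mean (ising 0 (A *ᵥ sv s + Q *ᵥ z + y)) G * mean (ising 0 (A *ᵥ sv s + Q *ᵥ z + y)) F
        ∂gv (Fin n) := by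
  have := h.bayes y (fun s x => G s * mean (ising 0 (x + y)) F) fun s => (int_mean1 _ y F).const_mul _
  simpa only [integral_const_mul, mean_mul_const, Kf] using this

theorem Kf_add (y : Fin n → ℝ) (F G : Cube n → ℝ) (s : Cube n) :
    Kf A Q y (fun x => F x + G x) s = Kf A Q y F s + Kf A Q y G s := by
  simp only [Kf, mean_add, integral_add (int_mean1 _ y F) (int_mean1 _ y G)]

theorem Kf_sub (y : Fin n → ℝ) (F G : Cube n → ℝ) (s : Cube n) :
    Kf A Q y (fun x => F x - G x) s = Kf A Q y F s - Kf A Q y G s := by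
  simp only [Kf, mean_sub, integral_sub (int_mean1 _ y F) (int_mean1 _ y G)]

theorem Kf_const_mul (y : Fin n → ℝ) (c : ℝ) (F : Cube n → ℝ) (s : Cube n) :
    Kf A Q y (fun x => c * F x) s = c * Kf A Q y F s := by
  simp only [Kf, mean_const_mul, integral_const_mul]

theorem Kf_sum {κ : Type*} (S : Finset κ) (y : Fin n → ℝ) (F : κ → Cube n → ℝ) (s : Cube n) :
    Kf A Q y (fun x => ∑ k ∈ S, F k x) s = ∑ k ∈ S, Kf A Q y (F k) s := by
  simp only [Kf, mean_sum]
  exact integral_finsetSum _ fun k _ => int_mean1 _ y _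

theorem Kf_mono (y : Fin n → ℝ) {F G : Cube n → ℝ} (e : ∀ x, F x ≤ G x) (s : Cube n) :
    Kf A Q y F s ≤ Kf A Q y G s :=
  integral_mono (int_mean1 _ y F) (int_mean1 _ y G) fun _ => (wt_ising _ _).mean_mono e

theorem abs_Kf_le (y : Fin n → ℝ) {F : Cube n → ℝ} {c : ℝ} (e : ∀ x, |F x| ≤ c) (s : Cube n) :
    |Kf A Q y F s| ≤ c := by
  have h1 := Kf_mono (A := A) (Q := Q) y (G := fun _ => c) (fun x => (abs_le.1 (e x)).2) s
  have h2 := Kf_mono (A := A) (Q := Q) y (F := fun _ => -c) (fun x => (abs_le.1 (e x)).1) s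
  rw [Kf_const] at h1 h2
  exact abs_le.2 ⟨h2, h1⟩

/-- Jensen -/
theorem Kf_sq_le (y : Fin n → ℝ) (F : Cube n → ℝ) (s : Cube n) :
    Kf A Q y F s ^ 2 ≤ Kf A Q y (fun x => F x ^ 2) s := by
  set m := Kf A Q y F s with hm
  have h1 := Kf_mono (A := A) (Q := Q) y (F := fun x => 2 * m * F x - m ^ 2) (G := fun x => F x ^ 2)
    (fun x => by nlinarith [sq_nonneg (F x - m)]) s
  rw [Kf_sub, Kf_const_mul, Kf_const, ← hm] at h1
  nlinarith

/-- contraction of `L²` -/
theorem HS.sq_le (h : HS J Q A) (y : Fin n → ℝ) (F : Cube n → ℝ) :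
    mean (ising J y) (fun s => Kf A Q y F s ^ 2) ≤ mean (ising J y) fun s => F s ^ 2 :=
  ((wt_ising J y).mean_mono (Kf_sq_le y F)).trans_eq (h.inv y _)

/-! ### the exact gradient -/

/-- `ρ_a(u) = ∫₀¹ exp (-2 t u - 2 a t²) dt` (`a = A j j`) -/
def rho (a u : ℝ) : ℝ := ∫ t in (0 : ℝ)..1, exp (-2 * t * u - 2 * a * t ^ 2)

theorem rho_eq (a u : ℝ) : rho a u = rr (4 * a) (-2 * u) := by
  rw [rho, rr]; congr 1; ext t; congr 1; ring

theorem rho_pos (a u : ℝ) : 0 < rho a u := rho_eq a u ▸ rr_pos _ _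

theorem rho_le {a : ℝ} (ha : 0 ≤ a) (u : ℝ) : rho a u ≤ exp (2 * |u|) := by
  have := rr_le (a := 4 * a) (by positivity) (-2 * u)
  rwa [← rho_eq, abs_mul, abs_neg, abs_two] at this

theorem cont_rho (a : ℝ) : Continuous (rho a) := by
  simp only [funext (rho_eq a)]; exact (cont_rr _).comp (by fun_prop)

theorem sv_fl (s : Cube n) (j : Fin n) : sv (fl s j) = sv s + (-2 * sv s j) • Pi.single j 1 := by
  rw [← Pi.single_smul, smul_eq_mul, mul_one, ← Rec.sv_fl_sub]; abel

/-- **flip of the field**: for `G` continuous and Lipschitz along the column `A e_j` -/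
theorem HS.flip (h : HS J Q A) {G : (Fin n → ℝ) → ℝ} (hc : Continuous G) (j : Fin n) {L : NNReal}
    (hL : ∀ x, LipschitzWith L fun t : ℝ => G (x + t • A *ᵥ Pi.single j 1)) (b : Fin n → ℝ)
    (s : Cube n) :
    Integrable (fun z => rho (A j j) (sv s j * (Q *ᵥ z) j) *
      lineDeriv ℝ G (A *ᵥ sv s + Q *ᵥ z + b) (A *ᵥ Pi.single j 1)) (gv (Fin n)) ∧
    sv s j * (∫ z, (G (A *ᵥ sv s + Q *ᵥ z + b) - G (A *ᵥ sv (fl s j) + Q *ᵥ z + b)) ∂gv (Fin n)) / 2 =
      ∫ z, rho (A j j) (sv s j * (Q *ᵥ z) j) *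
        lineDeriv ℝ G (A *ᵥ sv s + Q *ᵥ z + b) (A *ᵥ Pi.single j 1) ∂gv (Fin n) := by
  set c : ℝ := -2 * sv s j with hcs
  have hs := Rec.sv_mul_self s j
  set v : Fin n → ℝ := c • Q *ᵥ Pi.single j 1 with hv
  set f : (Fin n → ℝ) → ℝ := fun z => G (A *ᵥ sv s + Q *ᵥ z + b) with hf
  have hQv : Q *ᵥ v = c • A *ᵥ Pi.single j 1 := by rw [hv, mulVec_smul, mulVec_mulVec, h.sq]
  have e0 : ∀ (z : Fin n → ℝ) (t : ℝ), f (z + t • v) =
      G (A *ᵥ sv s + Q *ᵥ z + b + (t * c) • A *ᵥ Pi.single j 1) := fun z t => by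
    rw [hf]; simp only [mulVec_add, mulVec_smul, hQv, smul_smul]; congr 1; abel
  have hl : ∀ w, LipschitzWith (L * ‖c‖₊) fun t : ℝ => f (w + t • v) := fun w => by
    simp only [e0]
    exact (hL _).comp (g := fun t : ℝ => t * c) (LipschitzWith.of_dist_le_mul fun a b => by
      rw [Real.dist_eq, Real.dist_eq, ← sub_mul, abs_mul, mul_comm]; rfl)
  obtain ⟨i1, e1⟩ := dv (hc.comp (cont_field Q _ b)) hl
  have e2 : ∀ z, lineDeriv ℝ f z v =
      c * lineDeriv ℝ G (A *ᵥ sv s + Q *ᵥ z + b) (A *ᵥ Pi.single j 1) := fun z => by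
    rw [← smul_eq_mul, ← lineDeriv_smul, lineDeriv, lineDeriv]
    simp only [e0, smul_smul]
  have e3 : ∀ z, rr (v ⬝ᵥ v) (z ⬝ᵥ v) = rho (A j j) (sv s j * (Q *ᵥ z) j) := fun z => by
    rw [rho_eq, hv]
    simp only [smul_dotProduct, dotProduct_smul, smul_eq_mul]
    rw [h.dot2, h.dot z]
    simp only [dotProduct_single, single_dotProduct, mulVec_single_one, col_apply, hcs]
    congr 1
    · linear_combination 4 * A j j * hs
    · ring
  have e4 : ∀ z, G (A *ᵥ sv (fl s j) + Q *ᵥ z + b) = f (v + z) := fun z => by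
    rw [hf, sv_fl]; simp only [mulVec_add, mulVec_smul, hQv, ← hcs]; congr 1; abel
  change Integrable (fun z => lineDeriv ℝ f z v * _) _ at i1
  change ∫ z, (f (v + z) - f z) ∂_ = ∫ z, lineDeriv ℝ f z v * _ ∂_ at e1
  simp only [e2, e3, mul_assoc] at i1 e1
  have hc0 : c ≠ 0 := fun h0 => by
    have : sv s j = 0 := by linarith
    rw [this] at hs; simp at hs
  constructor
  · simpa only [mul_comm] using (integrable_const_mul_iff (IsUnit.mk0 c hc0) _).1 i1
  · simp only [e4, mul_comm (rho _ _)]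
    change sv s j * (∫ z, (f z - f (v + z)) ∂_) / 2 = _
    rw [integral_const_mul] at e1
    rw [← neg_neg (∫ z, (f z - f (v + z)) ∂_), ← integral_neg]
    simp only [neg_sub]
    rw [e1, hcs]
    linear_combination (∫ z, lineDeriv ℝ G (A *ᵥ sv s + Q *ᵥ z + b) (A *ᵥ Pi.single j 1) *
      rho (A j j) (sv s j * (Q *ᵥ z) j) ∂gv (Fin n)) * hs

/-- **(Grad), general form** -/
theorem HS.grad_int (h : HS J Q A) {G : (Fin n → ℝ) → ℝ} (hc : Continuous G) (j : Fin n) {L : NNReal}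
    (hL : ∀ x, LipschitzWith L fun t : ℝ => G (x + t • A *ᵥ Pi.single j 1)) (b : Fin n → ℝ)
    (hi : ∀ s : Cube n, Integrable (fun z => G (A *ᵥ sv s + Q *ᵥ z + b)) (gv (Fin n))) (s : Cube n) :
    grad (fun s => ∫ z, G (A *ᵥ sv s + Q *ᵥ z + b) ∂gv (Fin n)) s j =
      ∫ z, rho (A j j) (sv s j * (Q *ᵥ z) j) *
        lineDeriv ℝ G (A *ᵥ sv s + Q *ᵥ z + b) (A *ᵥ Pi.single j 1) ∂gv (Fin n) := by
  rw [Rec.grad_eq, ← integral_sub (hi _) (hi _), (h.flip hc j hL b s).2]

/-- derivative of a product mean in the field -/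
theorem deriv_mean0 (F : Cube n → ℝ) (x v : Fin n → ℝ) (t : ℝ) :
    HasDerivAt (fun t : ℝ => mean (ising 0 (x + t • v)) F)
      (v ⬝ᵥ covV (ising 0 (x + t • v)) F sv) t := by
  rw [covV_dot]
  refine hasDerivAt_mean (u := fun t => ising 0 (x + t • v)) (wt_ising _ _) (fun s => ?_) F
  simp only [ising0, add_dotProduct, smul_dotProduct, smul_eq_mul]
  simpa using (((hasDerivAt_id t).mul_const (v ⬝ᵥ sv s)).const_add (x ⬝ᵥ sv s)).exp

theorem ld_mean0 (F : Cube n → ℝ) (x v : Fin n → ℝ) :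
    lineDeriv ℝ (fun x => mean (ising 0 x) F) x v = v ⬝ᵥ covV (ising 0 x) F sv := by
  simpa [lineDeriv] using (deriv_mean0 F x v 0).deriv

/-- under the product law a spin is independent of the functions of the other spins -/
theorem site0 (x : Fin n → ℝ) (k : Fin n) {g : Cube n → ℝ} (hg : ∀ s b, g (update s k b) = g s) :
    mean (ising 0 x) (fun s => g s * sv s k) = tanh (x k) * mean (ising 0 x) g := by
  rw [mean_eq_div, mean_eq_div, ← mul_div_assoc, sum_flip k, sum_flip k fun s => ising 0 x s * g s,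
    ← mul_div_assoc, Finset.mul_sum]
  congr 2
  refine Finset.sum_congr rfl fun s _ => ?_
  have e : ∀ b, ising 0 x (update s k b) = exp (x ⬝ᵥ sv s - x k * sv s k) *
      exp (x k * Crest.ProbabilityR.SpinGlassDynamics.spin b) := fun b => by
    rw [ising0, ← exp_add, ← sub_add_cancel (sv (update s k b)) (sv s), Rec.sv_update_sub,
      dotProduct_add, dotProduct_single]
    congr 1; ring
  have h1 := exp_pos (x k)
  have h2 := exp_pos (-x k)
  simp only [e, hg, sv, update_self, Crest.ProbabilityR.SpinGlassDynamics.spin, if_true,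
    Bool.false_eq_true, if_false, mul_one, mul_neg, tanh_eq_sinh_div_cosh, sinh_eq, cosh_eq]
  field_simp
  ring

theorem mag0 (x : Fin n → ℝ) (k : Fin n) : mean (ising 0 x) (fun s => sv s k) = tanh (x k) := by
  simpa [(wt_ising 0 x).mean_const] using site0 x k (g := fun _ => 1) fun _ _ => rfl

theorem split_site (F : Cube n → ℝ) (s : Cube n) (k : Fin n) :
    F s = (F (update s k true) + F (update s k false)) / 2 + grad F s k * sv s k := by
  have e : F s = F (update s k (s k)) := by rw [update_eq_self]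
  rw [grad, incr, sv, e]
  cases s k <;> simp [Crest.ProbabilityR.SpinGlassDynamics.spin] <;> ring

/-- covariance with a spin under the product law -/
theorem covV0 (F : Cube n → ℝ) (x : Fin n → ℝ) (k : Fin n) :
    covV (ising 0 x) F sv k = (1 - tanh (x k) ^ 2) * mean (ising 0 x) fun s => grad F s k := by
  set m : Cube n → ℝ := fun s => (F (update s k true) + F (update s k false)) / 2 with hm
  have h1 := site0 x k (g := m) fun s b => by simp only [hm, update_idem]
  have h2 := site0 x k (g := fun s => grad F s k) fun s b => Rec.grad_update F s k b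
  have e1 : F = fun s => m s + grad F s k * sv s k := funext fun s => split_site F s k
  have e2 : (fun s => F s * sv s k) = fun s => m s * sv s k + grad F s k := funext fun s => by
    rw [split_site F s k, add_mul, mul_assoc, Rec.sv_mul_self, mul_one]
  have e3 : mean (ising 0 x) F = mean (ising 0 x) m + tanh (x k) * mean (ising 0 x) fun s => grad F s k := by
    rw [← h2, ← mean_add, ← e1]
  rw [covV, (wt_ising 0 x).cov_eq, e2, mean_add, h1, e3, mag0]
  ring

theorem lip_mean0 (F : Cube n → ℝ) (v : Fin n → ℝ) :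
    ∃ L : NNReal, ∀ x, LipschitzWith L fun t : ℝ => mean (ising 0 (x + t • v)) F := by
  have hb : ∀ (G : Cube n → ℝ) s, |G s| ≤ ∑ s, |G s| := fun G s =>
    Finset.single_le_sum (f := fun s => |G s|) (fun _ _ => abs_nonneg _) (Finset.mem_univ s)
  refine ⟨Real.toNNReal ((∑ s, |F s|) * (2 * ∑ s : Cube n, |v ⬝ᵥ sv s|)), fun x =>
    lipschitzWith_of_nnnorm_deriv_le (fun t => (deriv_mean0 F x v t).differentiableAt) fun t => ?_⟩
  rw [(deriv_mean0 F x v t).deriv, ← NNReal.coe_le_coe, coe_nnnorm, Real.norm_eq_abs, covV_dot,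
    (wt_ising 0 _).cov_eq', Real.coe_toNNReal _ (by positivity)]
  refine (wt_ising 0 _).abs_mean_le fun s => ?_
  rw [abs_mul]
  refine mul_le_mul (hb F s) ((abs_sub _ _).trans ?_) (abs_nonneg _) (by positivity)
  linarith [hb (fun s => v ⬝ᵥ sv s) s, (wt_ising 0 (x + t • v)).abs_mean_le (hb fun s => v ⬝ᵥ sv s)]

/-- **(Grad)** -/
theorem HS.grad_Kf (h : HS J Q A) (y : Fin n → ℝ) (F : Cube n → ℝ) (s : Cube n) (j : Fin n) :
    grad (Kf A Q y F) s j = ∫ z, rho (A j j) (sv s j * (Q *ᵥ z) j) *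
      (A *ᵥ covV (ising 0 (A *ᵥ sv s + Q *ᵥ z + y)) F sv) j ∂gv (Fin n) := by
  obtain ⟨L, hL⟩ := lip_mean0 F (A *ᵥ Pi.single j 1)
  have := h.grad_int (cont_mean0 F) j hL y (fun s => int_mean1 _ y F) s
  refine this.trans ?_
  congr 1; ext z
  rw [ld_mean0, ← vecMul_transpose A (Pi.single j 1), ← dotProduct_mulVec, h.symmA,
    single_dotProduct, one_mul]

/-- **(Grad)**, with the discrete gradient of `F` -/
theorem HS.grad_Kf' (h : HS J Q A) (y : Fin n → ℝ) (F : Cube n → ℝ) (s : Cube n) (j : Fin n) :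
    grad (Kf A Q y F) s j = ∫ z, rho (A j j) (sv s j * (Q *ᵥ z) j) *
      (A *ᵥ fun k => (1 - tanh ((A *ᵥ sv s + Q *ᵥ z + y) k) ^ 2) *
        mean (ising 0 (A *ᵥ sv s + Q *ᵥ z + y)) fun s' => grad F s' k) j ∂gv (Fin n) := by
  simp only [h.grad_Kf, ← covV0]

theorem HS.int_grad_Kf (h : HS J Q A) (y : Fin n → ℝ) (F : Cube n → ℝ) (s : Cube n) (j : Fin n) :
    Integrable (fun z => rho (A j j) (sv s j * (Q *ᵥ z) j) *
      (A *ᵥ covV (ising 0 (A *ᵥ sv s + Q *ᵥ z + y)) F sv) j) (gv (Fin n)) := by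
  obtain ⟨L, hL⟩ := lip_mean0 F (A *ᵥ Pi.single j 1)
  refine (h.flip (cont_mean0 F) j hL y s).1.congr (.of_forall fun z => ?_)
  beta_reduce
  rw [ld_mean0, ← vecMul_transpose A (Pi.single j 1), ← dotProduct_mulVec, h.symmA,
    single_dotProduct, one_mul]

end Crest.Agent.T157.Kv
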