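import Crest.Agent.T157.KTc_36
import Crest.Agent.T157.ZTh_16

/-!
# Row 157, part B, block S5: samples with given means (helper64, after `ZTh_16`)
-/

set_option autoImplicit false

noncomputable section

namespace Crest.Agent.T157.K

open MeasureTheory ProbabilityTheory Matrix Set
open Crest.ProbabilityR.SpinGlassDynamics
open Crest.Agent.T157.E Crest.Agent.T157.Eig
open Crest.Agent.T157.Tap (V Mx)
open Crest.Agent.T157.Z
open Crest.Agent.T157.Z.Th16

namespace Sm64

variable {n : ℕ}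

lemma meas_smm : Measurable fun p : V n × V n => smm p.1 p.2 := measurable_pi_lambda _ fun i => by
  refine measurable_to_bool ?_
  have : MeasurableSet {p : V n × V n | uf (p.2 i) ≤ p.1 i} :=
    measurableSet_le (meas_uf.comp (by fun_prop)) (by fun_prop)
  convert this using 1
  ext p; simp [smm, uf]

lemma site {x : ℝ} (h : |x| ≤ 1) (b : Bool) :
    γ.real {t | decide (2 * cdf γ t - 1 ≤ x) = b} = (1 + x * spin b) / 2 := by
  obtain ⟨a1, a2⟩ := abs_le.1 h
  have e := U_eq x
  rw [min_eq_right (by linarith), max_eq_right (by linarith)] at e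
  cases b
  · rw [show {t | decide (2 * cdf γ t - 1 ≤ x) = false} = {t | uf t ≤ x}ᶜ from
      Set.ext fun t => by simp [uf],
      probReal_compl_eq_one_sub (measurableSet_le meas_uf measurable_const), e]
    simp only [spin, Bool.false_eq_true, if_false]
    ring
  · rw [show {t | decide (2 * cdf γ t - 1 ≤ x) = true} = {t | uf t ≤ x} from
      Set.ext fun t => by simp [uf], e]
    simp only [spin, if_true, mul_one]

/-- the ramp -/
def rq (δ : ℝ) (u : Fin 2 → ℝ) : ℝ := max (-1) (min 1 ((u 0 - uf (u 1)) / δ))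

lemma ol_rq (δ : ℝ) : OL (rq δ) := by
  refine ⟨fun u => ?_, ?_⟩
  · have e : (-u 0 - uf (-u 1)) / δ = -((u 0 - uf (u 1)) / δ) := by
      rw [uf, uf, cdf_neg]; ring
    simp only [rq, Pi.neg_apply, e, max_def, min_def]
    split_ifs <;> linarith
  · have a : LipschitzWith 1 fun u : Fin 2 → ℝ => u 0 := LipschitzWith.eval 0
    have b : LipschitzWith (1 * 1) fun u : Fin 2 → ℝ => cdf γ (u 1) :=
      cdf_lip.comp (LipschitzWith.eval 1)
    have c := (lipschitzWith_smul δ⁻¹).comp
      (a.sub (((lipschitzWith_smul (2 : ℝ)).comp b).sub (LipschitzWith.const' (1 : ℝ) (K := 0))))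
    refine ⟨_, Eq.mp (congrArg _ (funext fun u => ?_)) ((c.const_min 1).const_max (-1))⟩
    simp only [rq, uf, Function.comp, smul_eq_mul, div_eq_inv_mul]

lemma err {δ : ℝ} (h : 0 < δ) (s t w : ℝ) :
    (spin (decide (2 * cdf γ w - 1 ≤ s)) - rq δ ![t, w]) ^ 2 ≤
      4 * ind δ t w + 4 / δ ^ 2 * (s - t) ^ 2 := by
  have b : (spin (decide (2 * cdf γ w - 1 ≤ s)) - rq δ ![t, w]) ^ 2 ≤ 4 := by
    have b1 : -1 ≤ rq δ ![t, w] := le_max_left _ _
    have b2 : rq δ ![t, w] ≤ 1 := max_le (by norm_num) (min_le_left _ _)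
    unfold spin; split_ifs <;> nlinarith
  have c0 : 0 ≤ 4 / δ ^ 2 * (s - t) ^ 2 := by positivity
  by_cases c : δ ≤ |s - t|
  · have : 4 ≤ 4 / δ ^ 2 * (s - t) ^ 2 := by
      rw [div_mul_eq_mul_div, le_div_iff₀ (by positivity), ← sq_abs (s - t)]
      nlinarith [mul_self_le_mul_self h.le c]
    linarith [(ind_bd δ t w).1]
  have a' := abs_le.1 (not_le.1 c).le
  unfold ind
  split_ifs with e
  · linarith
  rcases not_and_or.1 e with e | e
  · have e1 : 1 ≤ (t - uf w) / δ := by rw [le_div_iff₀ h]; linarith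
    have e2 : 2 * cdf γ w - 1 ≤ s := by unfold uf at e; linarith
    simp [rq, e2, spin, min_eq_left e1, c0]
  · have e1 : (t - uf w) / δ ≤ -1 := by rw [div_le_iff₀ h]; linarith
    have e2 : ¬ 2 * cdf γ w - 1 ≤ s := by unfold uf at e; linarith
    have e3 : rq δ ![t, w] = -1 := max_eq_left ((min_le_right _ _).trans e1)
    simp only [e2, e3, spin, decide_false, Bool.false_eq_true, if_false]
    linarith

theorem law (m : V n) (F : Cube n → ℝ) (hm : ∀ i, |m i| ≤ 1) :
    ∫ w, F (smm m w) ∂gv (Fin n) = ml F m := by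
  have me : Measurable (smm m) := meas_smm.comp (f := fun w => (m, w)) (by fun_prop)
  have := Measure.isProbabilityMeasure_map (μ := gv (Fin n)) me.aemeasurable
  rw [← integral_map me.aemeasurable (measurable_of_finite F).aestronglyMeasurable,
    integral_fintype Integrable.of_finite, ml]
  refine Finset.sum_congr rfl fun s _ => ?_
  rw [smul_eq_mul, map_measureReal_apply me (measurableSet_singleton s),
    show smm m ⁻¹' {s} = univ.pi fun i => {t | decide (2 * cdf γ t - 1 ≤ m i) = s i} from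
      Set.ext fun w => by simp [smm, funext_iff], Measure.real, Measure.pi_pi, ENNReal.toReal_prod]
  congr 1
  exact Finset.prod_congr rfl fun i _ => site (hm i) (s i)

theorem ap (ι κ : Type) [Fintype ι] [Fintype κ] (β : ℝ) (c d : κ → ℝ) (f : ι ↪ κ) (j : κ)
    (hj : j ∉ range f) (hc : c j = 0) (hd : d j = 1) (U : Nt ι) (hU : Ap β (c ∘ f) (d ∘ f) U) :
    Ap β c d fun n J a => sv (smm (U n J fun l => a (f l)) (a j)) := fun ε hε => by
  set δ := ε ^ 2 / 24 with hδ
  have δ0 : 0 < δ := by positivity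
  obtain ⟨m, X, h3, -, h5⟩ := hU (ε * δ / 4) (by positivity)
  let g : ι ⊕ Fin m ↪ κ ⊕ Fin m := f.sumMap (Function.Embedding.refl _)
  let g' : (ι ⊕ Fin m) ⊕ Unit ↪ κ ⊕ Fin m := ⟨Sum.elim g fun _ => .inl j, by
    have k : ∀ a, g a ≠ .inl j := by
      rintro (a | a) e
      exacts [hj ⟨a, Sum.inl_injective e⟩, Sum.inr_ne_inl e]
    rintro (a | a) (b | b) e
    exacts [congrArg _ (g.injective e), absurd e (k a), absurd e.symm (k b), rfl]⟩
  have h6 := A48.emb' hpStmt (c' := Sum.elim c 0) (d' := Sum.elim d 1) g (by rintro (l | l) <;> rfl)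
    (by rintro (l | l) <;> rfl) h5
  have h7 := A48.emb' hpStmt (c' := Sum.elim c 0) (d' := Sum.elim d 1) g'
    (by rintro ((l | l) | l); exacts [rfl, rfl, hc]) (by rintro ((l | l) | l); exacts [rfl, rfl, hd])
    (fresh β (Sum.elim (c ∘ f) 0) (Sum.elim (d ∘ f) 1) δ0 X fun n J =>
      ((lipStmt.cont _ _ X h3 n).comp (f := fun a => (J, a)) (by fun_prop)).measurable)
  refine ⟨m, fun n J a i => rq δ fun l => (![fun n J a => X n J fun l => a (g l),
    fun _ _ a => a (.inl j)] : Fin 2 → Nt (κ ⊕ Fin m)) l n J a i,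
    .map _ _ (ol_rq δ) False.elim (Fin.forall_fin_two.2 ⟨A48.rel lipStmt h3 g, .inp _⟩),
    ⟨1, fun n J a i => abs_le.2 ⟨le_max_left _ _, max_le (by norm_num) (min_le_left _ _)⟩⟩,
    A48.imp hpStmt (hpStmt.and _ _ _ _ _ _ h6 h7) fun n J a h => ?_⟩
  obtain ⟨h1, h2⟩ := h
  rw [nrm_le_iff (by positivity), mul_pow, Real.sq_sqrt (Nat.cast_nonneg _)] at h1 ⊢
  have h8 : ∑ i, ind δ (X n J (fun l => a (g l)) i) (a (.inl j) i) ≤ 3 * δ * n := by
    rcases h2 with h2 | rfl
    · exact h2.le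
    · simp
  have h9 := Finset.sum_le_sum (s := Finset.univ) fun i _ =>
    err δ0 (U n J (fun l => a (.inl (f l))) i) (X n J (fun l => a (g l)) i) (a (.inl j) i)
  rw [Finset.sum_add_distrib, ← Finset.mul_sum, ← Finset.mul_sum] at h9
  have h10 : ∑ i, (U n J (fun l => a (.inl (f l))) i - X n J (fun l => a (g l)) i) ^ 2 ≤
      (ε * δ / 4) ^ 2 * n := le_trans (le_of_eq (Finset.sum_congr rfl fun i _ => sq _)) h1
  have h11 := mul_le_mul_of_nonneg_left h10 (show 0 ≤ 4 / δ ^ 2 by positivity)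
  rw [show 4 / δ ^ 2 * ((ε * δ / 4) ^ 2 * n) = ε ^ 2 / 4 * n by field_simp] at h11
  refine le_trans (le_of_eq (Finset.sum_congr rfl fun i _ => ?_)) (h9.trans ?_)
  · rw [← sq]
    congr 3
  · nlinarith [mul_nonneg (sq_nonneg ε) (Nat.cast_nonneg (α := ℝ) n)]

end Sm64

theorem smmStmt : SmmStmt where
  meas _ := Sm64.meas_smm
  law _ := Sm64.law
  ap ι κ _ _ β _ := Sm64.ap ι κ β

end Crest.Agent.T157.K

end
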