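import Crest.Agent.T157.KGc_85
import Crest.Agent.T157.KCov_47

/-!
# Row 157, part B, block S5 (helper47): tools for one step of the resampling kernel
-/

set_option autoImplicit false
set_option linter.unusedSectionVars false

noncomputable section

namespace Crest.Agent.T157.K

open MeasureTheory ProbabilityTheory Real Matrix Finset
open Crest.Agent.T157.E Crest.Agent.T157.Eig Crest.Agent.T157.SL
open Crest.Agent.T157.Tap (V Mx th DD)
open Crest.Agent.T157.Rec (grad)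
open Crest.Agent.T157.Conc (ELip)
open Crest.Agent.T157.Reg (jac neg)
open Crest.Agent.T157.S3.Hb (Vp)
open Crest.Agent.T157.Z (cp)

namespace St47

variable {n : ℕ} {κ : Type} [Fintype κ] [DecidableEq κ]

/-! ### norms, clips -/

theorem nsq (v : κ → ℝ) : nrm v ^ 2 = ∑ j, v j ^ 2 := by rw [nrm_sq]; simp only [dotProduct, sq]

theorem nrm_mono {u v : κ → ℝ} (h : ∀ i, |u i| ≤ |v i|) : nrm u ≤ nrm v :=
  (pow_le_pow_iff_left₀ (nrm_nonneg _) (nrm_nonneg _) two_ne_zero).1 (by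
    rw [nsq, nsq]; exact sum_le_sum fun i _ => sq_le_sq.2 (h i))

theorem en_nrm (x : κ → ℝ) : Conc.en x = nrm x := by rw [Conc.en_eq_norm, nrm_eq_norm]

theorem nrm_tri (u v w : κ → ℝ) : nrm (u - w) ≤ nrm (u - v) + nrm (v - w) := by
  simpa using nrm_add_le (u - v) (v - w)

theorem abs_nrm_sub (u v : κ → ℝ) : |nrm u - nrm v| ≤ nrm (u - v) := by
  simpa only [en_nrm] using Conc.abs_en_sub_le u v

theorem nrm_le_of_sup {v : V n} {c : ℝ} (h : ∀ i, |v i| ≤ c) : nrm v ≤ ∑ _i : Fin n, c := by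
  rw [← en_nrm]; exact (Conc.en_le_sum v).trans (sum_le_sum fun i _ => h i)

theorem le_of_sq {a b : ℝ} (hb : 0 ≤ b) (h : a ^ 2 ≤ b ^ 2) : a ≤ b := abs_le_of_sq_le_sq' h hb |>.2

theorem sq3 (a b c : κ → ℝ) : nrm (a + b + c) ^ 2 ≤ 3 * (nrm a ^ 2 + nrm b ^ 2 + nrm c ^ 2) := by
  have h := (nrm_add_le (a + b) c).trans (add_le_add (nrm_add_le a b) le_rfl)
  refine (pow_le_pow_left₀ (nrm_nonneg _) h 2).trans ?_
  nlinarith [sq_nonneg (nrm a - nrm b), sq_nonneg (nrm a - nrm c), sq_nonneg (nrm b - nrm c)]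

theorem cp_lip (η : ℝ) (u v : V n) : nrm (cp η u - cp η v) ≤ nrm (u - v) := nrm_mono fun i => by
  have h1 := le_abs_self (u i - v i)
  have h2 := neg_abs_le (u i - v i)
  refine abs_le.2 ?_
  simp only [cp, Pi.sub_apply, max_def, min_def]
  split_ifs <;> constructor <;> linarith [abs_nonneg (u i - v i)]

theorem abs_cp {η : ℝ} (hη : 0 ≤ η) (v : V n) (i : Fin n) : |cp η v i| ≤ η :=
  abs_le.2 ⟨le_max_left _ _, max_le (by linarith) (min_le_left _ _)⟩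

theorem cp_neg {η : ℝ} (hη : 0 ≤ η) (v : V n) : cp η (-v) = -cp η v := by
  ext i
  simp only [cp, Pi.neg_apply, max_def, min_def]
  split_ifs <;> linarith

theorem cont_cp (η : ℝ) : Continuous (cp η : V n → V n) := by unfold cp; fun_prop

theorem exc_eq {η : ℝ} (hη : 0 ≤ η) (v : V n) : nrm (v - cp η v) ^ 2 = exc η v := by
  rw [nsq, exc]
  refine sum_congr rfl fun i _ => ?_
  simp only [cp, Pi.sub_apply, max_def, min_def]
  rcases abs_cases (v i) with ⟨e, _⟩ | ⟨e, _⟩ <;> rw [e] <;> split_ifs <;>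
    first | ring1 | (exfalso; linarith) | nlinarith

theorem exc_nonneg (η : ℝ) (v : V n) : 0 ≤ exc η v := sum_nonneg fun _ _ => sq_nonneg _

theorem sqrt_exc (η : ℝ) (v : V n) : √(exc η v) = nrm fun i => max (|v i| - η) 0 := by
  rw [exc, ← nsq, sqrt_sq (nrm_nonneg _)]

theorem sqrt_exc_lip (η : ℝ) (u v : V n) : |√(exc η u) - √(exc η v)| ≤ nrm (u - v) := by
  rw [sqrt_exc, sqrt_exc]
  refine (abs_nrm_sub _ _).trans (nrm_mono fun i => (abs_max_sub_max_le_abs _ _ _).trans ?_)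
  simpa using abs_abs_sub_abs_le_abs_sub (u i) (v i)

theorem exc_le {η : ℝ} (hη : 0 ≤ η) (v : V n) : exc η v ≤ nrm v ^ 2 := by
  rw [nsq]
  exact sum_le_sum fun i _ => (S3.Hb.max_sq_le (sub_le_self _ hη)).trans_eq (sq_abs _)

theorem cont_exc (η : ℝ) : Continuous (exc η : V n → ℝ) := by unfold exc; fun_prop

/-! ### monotonicity and sums of the regularity classes -/

theorem r0_mono {e e' : ℝ} {u : Cube n → V n} (h : R0 e u) (he : e ≤ e') : R0 e' u :=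
  ⟨fun s i => (h.sup s i).trans he, fun s => (h.op s).trans he⟩

theorem rf_mono {e e' : ℝ} {u : Cube n → (κ → ℝ) → V n} (h : RF e u) (he : e ≤ e') : RF e' u :=
  ⟨fun ζ => r0_mono (h.r0 ζ) he, fun s ζ ζ' =>
    (h.lip s ζ ζ').trans (mul_le_mul_of_nonneg_right he (nrm_nonneg _))⟩

theorem sb_mono {c c' : ℝ} {X : Cube n → ℝ} (h : SB c X) (hc : c ≤ c') : SB c' X := fun s =>
  ⟨(h s).1, (h s).2.trans (mul_le_mul_of_nonneg_right hc (h s).1)⟩

theorem re_mono {e e' : ℝ} {X : Cube n → (κ → ℝ) → ℝ} (h : RE e X) (h0 : 0 ≤ e) (he : e ≤ e') :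
    RE e' X :=
  ⟨fun ζ => sb_mono (h.sb ζ) (pow_le_pow_left₀ h0 he 2), fun s => (h.lip s).mono he, h.bd⟩

/-- a field that does not depend on the spins -/
theorem rf_const {e : ℝ} (he : 0 ≤ e) {u : (κ → ℝ) → V n} (h1 : ∀ ζ i, |u ζ i| ≤ e)
    (h2 : ∀ ζ ζ', nrm (u ζ - u ζ') ≤ e * nrm (ζ - ζ')) : RF e fun (_ : Cube n) ζ => u ζ :=
  ⟨fun ζ => ⟨fun _ i => h1 ζ i, fun s => opn_le_of_nrm he fun v => by
    have : jac (fun _ : Cube n => u ζ) s = 0 := by ext i j; simp [jac]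
    rw [this, zero_mulVec, nrm_eq_zero.2 rfl]
    exact mul_nonneg he (nrm_nonneg _)⟩, fun _ => h2⟩

/-- an error that does not depend on the spins -/
theorem re_const {e : ℝ} {X : (κ → ℝ) → ℝ} (h0 : ∀ ζ, 0 ≤ X ζ) (h1 : ELip e fun ζ => √(X ζ))
    (h2 : ∃ B, ∀ ζ, X ζ ≤ B) : RE e fun (_ : Cube n) ζ => X ζ :=
  ⟨fun ζ s => ⟨h0 ζ, by simpa [Vp] using mul_nonneg (sq_nonneg e) (h0 ζ)⟩, fun _ => h1,
    h2.imp fun _ h _ => h⟩

theorem sb_comb {a c C : ℝ} {X Y : Cube n → ℝ} (hX : SB a X) (hY : SB a Y) (ha : 0 ≤ a) (hc : 0 ≤ c)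
    (hC : 0 ≤ C) : SB (2 * C * a) fun s => C * (X s + Y s + c) := fun s => by
  have x0 := (hX s).1
  have y0 := (hY s).1
  refine ⟨by positivity, ?_⟩
  rw [S3.Hb.Vp_const_mul hC fun s => X s + Y s + c]
  have h : Vp (fun s => X s + Y s + c) s ≤ 2 * Vp X s + 2 * Vp Y s := by
    simp only [Vp, mul_sum, ← sum_add_distrib]
    refine sum_le_sum fun j _ => ?_
    have := S3.Hb.max_sq_le (a := X s + Y s + c - (X (Rec.fl s j) + Y (Rec.fl s j) + c))
      (b := max (X s - X (Rec.fl s j)) 0 + max (Y s - Y (Rec.fl s j)) 0)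
      (by linarith [le_max_left (X s - X (Rec.fl s j)) 0, le_max_left (Y s - Y (Rec.fl s j)) 0])
    nlinarith [sq_nonneg (max (X s - X (Rec.fl s j)) 0 - max (Y s - Y (Rec.fl s j)) 0)]
  have h2 : Vp (fun s => X s + Y s + c) s ≤ 2 * a * (X s + Y s + c) := by
    nlinarith [(hX s).2, (hY s).2, mul_nonneg ha hc]
  calc C ^ 2 * Vp (fun s => X s + Y s + c) s ≤ C ^ 2 * (2 * a * (X s + Y s + c)) := by gcongr
    _ = _ := by ring

theorem sqrt_add_lip {a a' r : ℝ} (ha : 0 ≤ a) (ha' : 0 ≤ a') (hr : 0 ≤ r) :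
    |√(a + r) - √(a' + r)| ≤ |√a - √a'| := by
  have k : ∀ {a a' : ℝ}, 0 ≤ a → 0 ≤ a' → √(a + r) ≤ √(a' + r) + |√a - √a'| := fun {a a'} ha ha' => by
    have h1 : √a' ≤ √(a' + r) := sqrt_le_sqrt (by linarith)
    have h2 : √a ≤ √a' + |√a - √a'| := by linarith [le_abs_self (√a - √a')]
    have h3 := pow_le_pow_left₀ (sqrt_nonneg a) h2 2
    refine sqrt_le_iff.2 ⟨by positivity, ?_⟩
    nlinarith [sq_sqrt ha, sq_sqrt ha', sq_sqrt (add_nonneg ha' hr), abs_nonneg (√a - √a'),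
      mul_le_mul_of_nonneg_right h1 (abs_nonneg (√a - √a'))]
  have k1 := k ha ha'
  have k2 := k ha' ha
  rw [abs_sub_comm √a'] at k2
  exact abs_le.2 ⟨by linarith, by linarith⟩

theorem re_comb {a b c C : ℝ} {X Y : Cube n → (κ → ℝ) → ℝ} (hX : RE a X) (hY : RE a Y)
    (hc : 0 ≤ c) (hC : 0 ≤ C) (hb : 0 ≤ b) (h : 4 * C * a ^ 2 ≤ b ^ 2) :
    RE b fun s ζ => C * (X s ζ + Y s ζ + c) := by
  refine ⟨fun ζ => sb_mono (sb_comb (hX.sb ζ) (hY.sb ζ) (sq_nonneg a) hc hC)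
    (by nlinarith [mul_nonneg hC (sq_nonneg a)]), fun s ζ ζ' => ?_, ?_⟩
  · have x0 := fun ζ => (hX.sb ζ s).1
    have y0 := fun ζ => (hY.sb ζ s).1
    have h1 := sqrt_add_lip (x0 ζ) (x0 ζ') (add_nonneg (y0 ζ) hc)
    have h2 := sqrt_add_lip (y0 ζ) (y0 ζ') (add_nonneg (x0 ζ') hc)
    have h3 := hX.lip s ζ ζ'
    have h4 := hY.lip s ζ ζ'
    have hb' : √C * (2 * a) ≤ b := le_of_sq hb (by rw [mul_pow, sq_sqrt hC]; linarith)
    beta_reduce at h3 h4 ⊢
    rw [sqrt_mul hC, sqrt_mul hC, ← mul_sub, abs_mul, abs_of_nonneg (sqrt_nonneg C)]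
    have h5 : |√(X s ζ + Y s ζ + c) - √(X s ζ' + Y s ζ' + c)| ≤ 2 * a * Conc.en (ζ - ζ') := by
      refine (abs_sub_le _ (√(X s ζ' + Y s ζ + c)) _).trans ?_
      rw [add_assoc, add_assoc (X s ζ') (Y s ζ)]
      rw [show X s ζ' + (Y s ζ + c) = Y s ζ + (X s ζ' + c) by ring,
        show X s ζ' + Y s ζ' + c = Y s ζ' + (X s ζ' + c) by ring]
      rw [show X s ζ' + (Y s ζ + c) = Y s ζ + (X s ζ' + c) by ring] at h1
      linarith
    calc √C * _ ≤ √C * (2 * a * Conc.en (ζ - ζ')) := by gcongr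
      _ ≤ _ := by rw [← mul_assoc]; exact mul_le_mul_of_nonneg_right hb' (Conc.en_nonneg _)
  · obtain ⟨B, hB⟩ := hX.bd
    obtain ⟨B', hB'⟩ := hY.bd
    exact ⟨C * (B + B' + c), fun s ζ => by gcongr <;> [exact hB s ζ; exact hB' s ζ]⟩

/-- Minkowski -/
theorem sqrt_int {X X' : (κ → ℝ) → ℝ} {d : ℝ} (h0 : ∀ z, 0 ≤ X z) (h0' : ∀ z, 0 ≤ X' z)
    (hi' : Integrable X' (gv κ)) (hd : 0 ≤ d) (h : ∀ z, √(X z) ≤ √(X' z) + d) :
    √(∫ z, X z ∂gv κ) ≤ √(∫ z, X' z ∂gv κ) + d := by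
  refine le_of_forall_pos_le_add fun ε hε => ?_
  set I := ∫ z, X' z ∂gv κ with hI
  have I0 : 0 ≤ I := integral_nonneg h0'
  set m := √I + ε with hm
  have m0 : 0 < m := by positivity
  have hI2 : I ≤ m ^ 2 := by nlinarith [sq_sqrt I0, sqrt_nonneg I]
  have k : ∀ z, X z ≤ (1 + d / m) * X' z + (d * m + d ^ 2) := fun z => by
    have h1 := pow_le_pow_left₀ (sqrt_nonneg _) (h z) 2
    have h2 : 2 * √(X' z) ≤ X' z / m + m := by
      rw [div_add' _ _ _ m0.ne', le_div_iff₀ m0]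
      nlinarith [sq_sqrt (h0' z), sq_nonneg (√(X' z) - m)]
    rw [sq_sqrt (h0 z), add_sq, sq_sqrt (h0' z)] at h1
    have h3 := mul_le_mul_of_nonneg_left h2 hd
    have e : (1 + d / m) * X' z = X' z + d * (X' z / m) := by ring
    linarith
  have h2 := integral_mono_of_nonneg (.of_forall h0) ((hi'.const_mul _).add (integrable_const _))
    (.of_forall k)
  rw [integral_add' (hi'.const_mul _) (integrable_const _), integral_const_mul] at h2
  simp only [integral_const, probReal_univ, smul_eq_mul, one_mul, ← hI] at h2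
  refine sqrt_le_iff.2 ⟨by positivity, h2.trans ?_⟩
  have h3 : (1 + d / m) * I ≤ (1 + d / m) * m ^ 2 := by gcongr
  have e : (1 + d / m) * m ^ 2 = m ^ 2 + d * m := by field_simp
  have e2 : √I + d + ε = m + d := by rw [hm]; ring
  rw [e2]; nlinarith

theorem abs_sqrt_int {X X' : (κ → ℝ) → ℝ} {d : ℝ} (h0 : ∀ z, 0 ≤ X z) (h0' : ∀ z, 0 ≤ X' z)
    (hi : Integrable X (gv κ)) (hi' : Integrable X' (gv κ)) (h : ∀ z, |√(X z) - √(X' z)| ≤ d) :
    |√(∫ z, X z ∂gv κ) - √(∫ z, X' z ∂gv κ)| ≤ d := by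
  have hd : 0 ≤ d := (abs_nonneg _).trans (h 0)
  have k1 := sqrt_int h0 h0' hi' hd fun z => by linarith [(abs_le.1 (h z)).2]
  have k2 := sqrt_int h0' h0 hi hd fun z => by linarith [(abs_le.1 (h z)).1]
  exact abs_le.2 ⟨by linarith, by linarith⟩

theorem int_bdd {f : (κ → ℝ) → ℝ} (hc : Continuous f) {B : ℝ} (h : ∀ z, |f z| ≤ B) :
    Integrable f (gv κ) := (integrable_const B).mono' hc.aestronglyMeasurable (.of_forall h)

theorem int_le {f : (κ → ℝ) → ℝ} {c : ℝ} (h0 : ∀ z, 0 ≤ f z) (h : ∀ z, f z ≤ c) :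
    ∫ z, f z ∂gv κ ≤ c := by
  simpa using integral_mono_of_nonneg (μ := gv κ) (.of_forall h0) (integrable_const c) (.of_forall h)

/-! ### the field pulled back through the product law -/

theorem hd_tanh (x : ℝ) : HasDerivAt tanh (1 - tanh x ^ 2) x := by
  have h := (hasDerivAt_sinh x).div (hasDerivAt_cosh x) (cosh_pos x).ne'
  have e : tanh = sinh / cosh := funext fun x => tanh_eq_sinh_div_cosh x
  rw [e]
  refine h.congr_deriv ?_
  have := (cosh_pos x).ne'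
  simp only [Pi.div_apply]
  field_simp

theorem tanh_lip (a b : ℝ) : |tanh a - tanh b| ≤ |a - b| := by
  have := (lipschitzWith_of_nnnorm_deriv_le (f := tanh) (C := 1)
    (fun x => (hd_tanh x).differentiableAt) fun x => by
    rw [(hd_tanh x).deriv, ← NNReal.coe_le_coe, coe_nnnorm, Real.norm_eq_abs, NNReal.coe_one,
      abs_of_nonneg (sub_nonneg.2 (tanh_sq_lt_one x).le)]
    exact sub_le_self _ (sq_nonneg _)).dist_le_mul a b
  simpa [Real.dist_eq] using this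

theorem cont_tanh : Continuous tanh :=
  continuous_iff_continuousAt.2 fun x => (hd_tanh x).continuousAt

theorem DD_mem (h : V n) (i : Fin n) : 0 ≤ DD (th h) i ∧ DD (th h) i ≤ 1 := by
  have := abs_lt.1 (abs_tanh_lt_one (h i))
  simp only [DD, th]
  constructor <;> nlinarith [this.1, this.2, sq_nonneg (tanh (h i))]

theorem DD_lip (h h' : V n) (i : Fin n) : |DD (th h) i - DD (th h') i| ≤ 2 * |h i - h' i| := by
  simp only [DD, th]
  rw [show 1 - tanh (h i) ^ 2 - (1 - tanh (h' i) ^ 2) =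
    -(tanh (h i) + tanh (h' i)) * (tanh (h i) - tanh (h' i)) by ring, abs_mul, abs_neg]
  exact mul_le_mul ((abs_add_le _ _).trans (by
    linarith [abs_tanh_lt_one (h i), abs_tanh_lt_one (h' i)])) (tanh_lip _ _) (abs_nonneg _) zero_le_two

theorem nrm_DD (h v : V n) : nrm (DD (th h) * v) ≤ nrm v := nrm_mono fun i => by
  rw [Pi.mul_apply, abs_mul, abs_of_nonneg (DD_mem h i).1]
  exact mul_le_of_le_one_left (abs_nonneg _) (DD_mem h i).2

theorem nrm_meanV_sq {w : Cube n → ℝ} (hw : Wt w) (u : Cube n → V n) :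
    nrm (meanV w u) ^ 2 ≤ mean w fun s => nrm (u s) ^ 2 := by
  simp only [nsq, mean_sum]
  exact sum_le_sum fun j _ => by
    have := hw.isP.mean_sq_le fun s => u s j
    simp only [sq] at this ⊢
    exact this

/-- `ub Q y ω ζ = U (y + Q ζ) ω` -/
def U (h : V n) (ω : Cube n → V n) : V n := DD (th h) * meanV (ising 0 h) ω

theorem ub_eq (Q : Mx n) (y : V n) (ω : Cube n → V n) (ζ : V n) : ub Q y ω ζ = U (y + Q *ᵥ ζ) ω := rfl

theorem U_sub (h : V n) (ω ω' : Cube n → V n) : U h ω - U h ω' = U h fun s => ω s - ω' s := by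
  ext i; simp only [U, Pi.sub_apply, Pi.mul_apply, meanV, mean_sub]; ring

theorem U_sq (h : V n) (ω : Cube n → V n) : nrm (U h ω) ^ 2 ≤ mean (ising 0 h) fun s => nrm (ω s) ^ 2 :=
  (pow_le_pow_left₀ (nrm_nonneg _) (nrm_DD h _) 2).trans (nrm_meanV_sq (Kv.wt_ising 0 h) ω)

theorem U_le (h : V n) {ω : Cube n → V n} {c : ℝ} (hc : ∀ s, nrm (ω s) ≤ c) : nrm (U h ω) ≤ c :=
  le_of_sq ((nrm_nonneg _).trans (hc fun _ => true)) ((U_sq h ω).trans
    ((Kv.wt_ising 0 h).mean_le fun s => pow_le_pow_left₀ (nrm_nonneg _) (hc s) 2))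

theorem U_bd (ω : Cube n → V n) (h : V n) : nrm (U h ω) ≤ ∑ s, nrm (ω s) :=
  U_le h fun s => single_le_sum (f := fun s => nrm (ω s)) (fun _ _ => nrm_nonneg _) (mem_univ s)

theorem cont_U (ω : Cube n → V n) : Continuous fun h => U h ω := continuous_pi fun i =>
  (continuous_const.sub ((cont_tanh.comp (continuous_apply i)).pow 2)).mul
    (Kv.cont_mean0 fun s => ω s i)

theorem U_lip (hP : PrStmt) {e : ℝ} (he : 0 ≤ e) {ω : Cube n → V n} (hω : R0 e ω) (h h' : V n) :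
    nrm (U h ω - U h' ω) ≤ 3 * e * nrm (h - h') := by
  have h1 : nrm (U h ω - DD (th h') * meanV (ising 0 h) ω) ≤ 2 * e * nrm (h - h') := by
    have := nrm_mono (u := U h ω - DD (th h') * meanV (ising 0 h) ω) (v := (2 * e) • (h - h'))
      fun i => by
        simp only [U, Pi.sub_apply, Pi.mul_apply, ← sub_mul, abs_mul, Pi.smul_apply, smul_eq_mul]
        rw [abs_of_nonneg he, abs_two]
        have := mul_le_mul (DD_lip h h' i) ((Kv.wt_ising 0 h).abs_mean_le fun s => hω.sup s i)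
          (abs_nonneg _) (by positivity)
        exact this.trans_eq (by ring)
    rwa [nrm_smul, abs_of_nonneg (by positivity)] at this
  have h2 : nrm (DD (th h') * meanV (ising 0 h) ω - U h' ω) ≤ e * nrm (h - h') := by
    rw [U, ← mul_sub]; exact (nrm_DD _ _).trans (hP.lip n ω e hω h h')
  linarith [nrm_tri (U h ω) (DD (th h') * meanV (ising 0 h) ω) (U h' ω)]

theorem U_two (hP : PrStmt) {e : ℝ} (he : 0 ≤ e) {ω : U2 n} (hω : RF e ω) (c y y' : V n) :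
    nrm (U (y + c) (fun t => ω t y) - U (y' + c) fun t => ω t y') ≤ 4 * e * nrm (y - y') := by
  have h1 := U_lip hP he (hω.r0 y) (y + c) (y' + c)
  have h2 : nrm (U (y' + c) (fun t => ω t y) - U (y' + c) fun t => ω t y') ≤ e * nrm (y - y') := by
    rw [U_sub]; exact U_le _ fun s => hω.lip s y y'
  rw [add_sub_add_right_eq_sub] at h1
  linarith [nrm_tri (U (y + c) fun t => ω t y) (U (y' + c) fun t => ω t y) (U (y' + c) fun t => ω t y')]

theorem U_neg (hP : PrStmt) {ω : U2 n} (ho : OddJ ω) (h y : V n) :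
    U (-h) (fun t => ω t (-y)) = -U h fun t => ω t y := by
  ext i
  simp only [U, Pi.mul_apply, Pi.neg_apply, DD, th, meanV, tanh_neg, neg_sq, hP.neg, ho _ y, mean_neg,
    mul_neg]

/-! ### weighted averages -/

/-- weights of exponential growth -/
def GW (w : ℝ → ℝ) : Prop := Continuous w ∧ ∃ a b : ℝ, ∀ t, |w t| ≤ a * exp (b * |t|)
/-- bounded continuous fields -/
def BU (u : V n → V n) : Prop := Continuous u ∧ ∃ B : ℝ, ∀ ζ, nrm (u ζ) ≤ B

theorem BU.lin {u : V n → V n} (h : BU u) : ∃ B : ℝ, ∀ ζ, nrm (u ζ) ≤ B * (1 + nrm ζ) := by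
  obtain ⟨B, hB⟩ := h.2
  exact ⟨B, fun ζ => (hB ζ).trans (le_mul_of_one_le_right ((nrm_nonneg _).trans (hB ζ))
    (le_add_of_nonneg_right (nrm_nonneg _)))⟩

theorem BU.sub {u u' : V n → V n} (h : BU u) (h' : BU u') : BU fun ζ => u ζ - u' ζ := by
  obtain ⟨B, hB⟩ := h.2
  obtain ⟨B', hB'⟩ := h'.2
  exact ⟨h.1.sub h'.1, B + B', fun ζ => (nrm_sub_le _ _).trans (add_le_add (hB ζ) (hB' ζ))⟩

theorem GW.sub {w w' : ℝ → ℝ} (h : GW w) (h0 : Continuous w') (h' : ∀ t, 0 ≤ w' t ∧ w' t ≤ w t) :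
    GW fun t => w t - w' t := by
  obtain ⟨a, b, hb⟩ := h.2
  refine ⟨h.1.sub h0, a, b, fun t => le_trans ?_ (hb t)⟩
  rw [abs_of_nonneg (sub_nonneg.2 (h' t).2), abs_of_nonneg ((h' t).1.trans (h' t).2)]
  linarith [(h' t).1]

theorem int_w {w : ℝ → ℝ} {u : V n → V n} (hw : GW w) (hu : BU u) (Q : Mx n) (s : Cube n) (j : Fin n) :
    Integrable (fun z => w (sv s j * (Qᵀ *ᵥ z) j) * u (Q *ᵥ sv s + z) j) (gv (Fin n)) := by
  obtain ⟨a, b, hb⟩ := hw.2
  obtain ⟨B, hB⟩ := hu.lin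
  have e : ∀ z, sv s j * (Qᵀ *ᵥ z) j = (sv s j • Qᵀ j) ⬝ᵥ z := fun z => by rw [smul_dotProduct]; rfl
  simp only [e]
  exact ((Gc85.mg_w hw.1.measurable hb _).mul (Gc85.mg_lin hu.1 hB _ j)).int

theorem cwv_sub {w : ℝ → ℝ} {u u' : V n → V n} (hw : GW w) (hu : BU u) (hu' : BU u') (Q : Mx n)
    (s : Cube n) : cwv Q Q w (fun _ => u) s - cwv Q Q w (fun _ => u') s =
      cwv Q Q w (fun _ ζ => u ζ - u' ζ) s := by
  ext j
  simp only [cwv, Pi.sub_apply, mul_sub]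
  rw [integral_sub (int_w hw hu Q s j) (int_w hw hu' Q s j)]

theorem cwv_subw {w w' : ℝ → ℝ} {u : V n → V n} (hw : GW w) (hw' : GW w') (hu : BU u) (Q : Mx n)
    (s : Cube n) : cwv Q Q w (fun _ => u) s - cwv Q Q w' (fun _ => u) s =
      cwv Q Q (fun t => w t - w' t) (fun _ => u) s := by
  ext j
  simp only [cwv, Pi.sub_apply, sub_mul]
  rw [integral_sub (int_w hw hu Q s j) (int_w hw' hu Q s j)]

theorem cs (hC : CsStmt) {w : ℝ → ℝ} {u : V n → V n} (hw : GW w) (hu : BU u) {Q : Mx n} {k A : ℝ}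
    (hk : ∀ j, (Qᵀ * Q) j j = k) (hA : ∫ t, w (√k * t) ^ 2 ∂gaussianReal 0 1 ≤ A) (s : Cube n) :
    nrm (cwv Q Q w (fun _ => u) s) ^ 2 ≤ A * cav Q (fun _ ζ => nrm (u ζ) ^ 2) s := by
  obtain ⟨a, b, hb⟩ := hw.2
  obtain ⟨B, hB⟩ := hu.lin
  exact hC n (Fin n) Q Q w (fun _ => u) k a b A B hw.1 hb hk hA (fun _ => hu.1) (fun _ => hB) s

theorem cs' (hC : CsStmt) {w : ℝ → ℝ} {u : V n → V n} (hw : GW w) (hu : Continuous u) {Q : Mx n}
    {k A c : ℝ} (hk : ∀ j, (Qᵀ * Q) j j = k) (hA : ∫ t, w (√k * t) ^ 2 ∂gaussianReal 0 1 ≤ A)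
    (hc : ∀ ζ, nrm (u ζ) ≤ c) (s : Cube n) : nrm (cwv Q Q w (fun _ => u) s) ^ 2 ≤ A * c ^ 2 :=
  (cs hC hw ⟨hu, c, hc⟩ hk hA s).trans (mul_le_mul_of_nonneg_left
    (int_le (fun _ => sq_nonneg _) fun _ => pow_le_pow_left₀ (nrm_nonneg _) (hc _) 2)
    ((integral_nonneg fun _ => sq_nonneg _).trans hA))

theorem cwv_odd {w : ℝ → ℝ} {u u' : V n → V n} (Q : Mx n) (h : ∀ ζ, u' (-ζ) = -u ζ) (s : Cube n) :
    cwv Q Q w (fun _ => u') (neg s) = -cwv Q Q w (fun _ => u) s := by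
  have e : sv (neg s) = -sv s := funext fun _ => spin_not _
  ext j
  simp only [cwv, Pi.neg_apply]
  rw [← Kv.iso_neg.int, ← integral_neg]
  congr 1; ext z
  rw [e, mulVec_neg, mulVec_neg, ← neg_add, h]
  simp

theorem int_pw (Q : Mx n) (y b : V n) (X : Cube n → ℝ) :
    Integrable (fun z => mean (pw Q y (b + z)) X) (gv (Fin n)) :=
  int_bdd ((Kv.cont_mean0 X).comp (by fun_prop)) fun _ => (Kv.wt_ising 0 _).abs_mean_le fun s =>
    single_le_sum (f := fun s => |X s|) (fun _ _ => abs_nonneg _) (mem_univ s)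

/-- the exact gradient in the words of `KDef_36` -/
theorem grad_Ky (hR : RevStmt) {J Q : Mx n} (h : JQ J Q) (y : V n) (F : Cube n → ℝ) (s : Cube n) :
    grad (Ky Q y F) s = cwv Q Q (rho 4) (fun _ ζ => (Q * Q) *ᵥ U (y + Q *ᵥ ζ) (grad F)) s := by
  ext j
  rw [hR.kf n J Q y h, Kv.grad_Kf_hs (c := 4) zero_le_one (by rw [one_smul, h.qs, h.qq])]
  simp only [cwv, Kv.wN, one_smul, sqrt_one, one_mul, (hR.opQ n J Q h).2.2 j, Gc85.rho_eq, ← h.qq]
  simp only [h.qs]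
  rfl

end St47

end Crest.Agent.T157.K
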