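import Crest.Agent.T157.KTc_36
import Crest.Agent.T157.KFo_54
import Crest.Agent.T157.ZSol_23

/-!
# Row 157, part B, block S5 (helper38): static words of the thermal calculus
-/

set_option autoImplicit false

noncomputable section

namespace Crest.Agent.T157.K

open Matrix Set Filter
open Crest.Agent.T157.E Crest.Agent.T157.Eig
open Crest.Agent.T157.Tap (V Mx)
open Crest.Agent.T157.Z (Ap Hp Ty apB hpStmt)
open Crest.Agent.T157.Zf (Vf)
open Crest.Agent.T157.Rip.Cav35 (Ww Uu Ww_zero Uu_zero Ww_succ Uu_succ)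

namespace Tb38

variable {β r : ℝ} {U W : Vf}

lemma add (hβ : β ∈ Icc (0 : ℝ) 1) (hU : TC β r U) (hW : TC β r W) (s t : ℝ) :
    TC β r fun n J σ y => s • U n J σ y + t • W n J σ y := apB.add _ β hβ _ _ _ _ s t hU hW

lemma mul (hβ : β ∈ Icc (0 : ℝ) 1) (hU : TC β r U) : TC β r fun n J σ y => J *ᵥ U n J σ y :=
  (apB.mul _ β hβ _ _ _ hU).1

lemma ev (hE : EvStmt) (hβ : β ∈ Icc (0 : ℝ) 1) {B : Vf} {f : ℝ → ℝ} (hf : Continuous f)
    (hM : ∃ M, ∀ t, |f t| ≤ M) (he : ∀ t, f (-t) = f t) (hB : TC β r B) (hU : TC β r U) :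
    TC β r fun n J σ y i => f (B n J σ y i) * U n J σ y i :=
  (hE _ β hβ _ _ f _ _ hf hM hB).2 he hU

lemma avg (hT : TcStmt) (hβ : β ∈ Icc (0 : ℝ) 1) (hU : TC β r U) (hW : TC β r W) :
    TC β r fun n J s y => Tap.avg (sv s * U n J s y) • W n J s y :=
  apB.sc _ β hβ _ _ _ _ _ (hT.spin β hβ r) hU hW

lemma avf (hT : TcStmt) (hE : EvStmt) (hβ : β ∈ Icc (0 : ℝ) 1) {B : Vf} {f : ℝ → ℝ}
    (hf : Continuous f) (hM : ∃ M, ∀ t, |f t| ≤ M) (he : ∀ t, f (-t) = f t) (hB : TC β r B)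
    (hW : TC β r W) : TC β r fun n J s y => (Tap.avg fun i => f (B n J s y i)) • W n J s y := by
  refine hT.congr β hβ r _ _ (fun n J _ => ?_) (avg hT hβ (ev hE hβ hf hM he hB (hT.spin β hβ r)) hW)
  ext s y i
  have : (sv s * fun i => f (B n J s y i) * sv s i) = fun i => f (B n J s y i) := by
    ext j
    rw [Pi.mul_apply, mul_left_comm, Rec.sv_mul_self, mul_one]
  rw [this]

lemma ty_mono (hT : TcStmt) (hr : 0 ≤ r) {P Q : ∀ n, Mx n → V n → Prop} (h : Ty β r P)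
    (e : ∀ n J y, P n J y → Q n J y) : Ty β r Q :=
  (hT.ty β r hr Q).2 (hpStmt.mono _ _ _ _ _ _ ((hT.ty β r hr P).1 h)
    (.of_forall fun n J _ => e n J _))

lemma fl_of {n : ℕ} {u : V n} {ε M δ : ℝ} (hM : 0 ≤ M) (hδ : M * √δ ≤ ε / 2) (δ0 : 0 ≤ δ)
    (h : ∀ S : Finset (Fin n), √(∑ i ∈ S, u i ^ 2) ≤ ε / 2 * √n + M * √S.card) :
    Rip.Fl (δ * n) (ε * √n) u := by
  rintro v ⟨T, hT, hv⟩
  have e : v ⬝ᵥ u = v ⬝ᵥ fun i => if i ∈ T then u i else 0 :=
    Finset.sum_congr rfl fun i _ => by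
      by_cases hi : i ∈ T
      · simp [hi]
      · simp [hv i hi]
  have e2 : nrm (fun i => if i ∈ T then u i else 0) = √(∑ i ∈ T, u i ^ 2) := by
    simp [nrm, dotProduct, sq]
  have e3 : √(T.card : ℝ) ≤ √δ * √n := by rw [← Real.sqrt_mul δ0]; exact Real.sqrt_le_sqrt hT
  have e4 := mul_le_mul_of_nonneg_left e3 hM
  have e5 := mul_le_mul_of_nonneg_right hδ (Real.sqrt_nonneg (n : ℝ))
  rw [e, mul_comm]
  refine (abs_dot_le _ _).trans (mul_le_mul_of_nonneg_left ?_ (nrm_nonneg _))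
  rw [e2]
  linarith [h T]

theorem tb (hS : Z.SolStmt) : TbGlue := fun hT hE => by
  have mag : ∀ β ∈ Ioo (0 : ℝ) 1, ∀ r ≥ (0 : ℝ), TY β r fun _ J y => mag (ising J y) :=
    fun β hβ r hr => hT.rq β r _ (hS β hβ r hr)
  have bf : ∀ β ∈ Ioo (0 : ℝ) 1, ∀ r ≥ (0 : ℝ), TY β r (bf β) := fun β hβ r hr => by
    have hb := Ioo_subset_Icc_self hβ
    have m := mag β hβ r hr
    have a := avf hT hE hb (f := fun t => 1 - min (t ^ 2) 1) (by fun_prop) ⟨1, fun t => by
      rw [abs_le]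
      constructor
      · linarith [min_le_right (t ^ 2) 1]
      · linarith [le_min (sq_nonneg t) zero_le_one]⟩ (fun t => by rw [neg_sq]) m m
    refine hT.congr β hb r _ _ (fun n J _ => ?_)
      (add hb (add hb (hT.fld β hb r) (mul hb m) 1 1) a 1 (-β ^ 2))
    ext s y i
    have : (fun i => 1 - min (E.mag (ising J y) i ^ 2) 1) = Tap.DD (E.mag (ising J y)) := by
      ext j
      have : |E.mag (ising J y) j| ≤ 1 :=
        (SL.Wt.of_pos fun _ => Real.exp_pos _).abs_mean_le fun x => (Fo.abs_sv x j).le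
      rw [min_eq_left (Tap.Cb.sq_le (p := fun _ : Fin n => E.mag (ising J y) j) (fun _ => this) j)]; rfl
    simp only [this, K.bf, Pi.add_apply, Pi.sub_apply, Pi.smul_apply, smul_eq_mul]
    ring
  refine ⟨mag, bf, fun β hβ r U W => avg hT hβ, fun β hβ r B W f => avf hT hE hβ,
    fun β hβ r hr g u k hg hM he hu => ?_, fun β r hr u hu ε hε => ?_⟩
  · have hb := Ioo_subset_Icc_self hβ
    have b := bf β hβ r hr
    suffices h : (TY β r fun n J y => Ww (β / √n) J (fun i => g (K.bf β n J y i)) k *ᵥ u n J y) ∧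
        TY β r fun n J y => Uu (β / √n) J (fun i => g (K.bf β n J y i)) k *ᵥ u n J y from h.1
    induction k with
    | zero => simpa only [Ww_zero, Uu_zero, one_mulVec] using ⟨mul hb hu, hu⟩
    | succ k ih =>
      have h1 : TY β r fun n J y =>
          Uu (β / √n) J (fun i => g (K.bf β n J y i)) (k + 1) *ᵥ u n J y := by
        refine hT.congr β hb r _ _ (fun n J _ => ?_) (ev hE hb hg hM he b ih.1)
        ext s y i
        simp only [Uu_succ, ← mulVec_mulVec, mulVec_diagonal]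
      refine ⟨hT.congr β hb r _ _ (fun n J _ => ?_)
        (add hb (mul hb h1) (avf hT hE hb hg hM he b ih.2) 1 (-β ^ 2)), h1⟩
      ext s y i
      simp only [Ww_succ, sub_mulVec, smul_mulVec, ← mulVec_mulVec, Uw.eta, Tap.avg, div_pow,
        Real.sq_sqrt (Nat.cast_nonneg n), Pi.add_apply, Pi.sub_apply, Pi.smul_apply, smul_eq_mul]
      ring
  · obtain ⟨M, M0, h⟩ := (hT.flat β r hr u hu).2 (ε / 2) (by positivity)
    refine ⟨(ε / 2 / (M + 1)) ^ 2, by positivity, ty_mono hT hr h fun n J y hy =>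
      fl_of M0 ?_ (sq_nonneg _) hy.2⟩
    rw [Real.sqrt_sq (by positivity), ← mul_div_assoc, div_le_iff₀ (by positivity)]
    nlinarith

end Tb38

theorem tbGlue : TbGlue := Tb38.tb (Z.solGlue Z.lipStmt Z.hpStmt Z.apA Z.apB)

end Crest.Agent.T157.K

end
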