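import Crest.Agent.T157.KLw_11
import Crest.Agent.T157.KGt_48
import Crest.Agent.T157.ZQ_64

/-!
# Row 157, block S5 (helper12): the response field is in the thermal calculus
-/

set_option autoImplicit false

noncomputable section

namespace Crest.Agent.T157.K

open MeasureTheory ProbabilityTheory Matrix Set
open Crest.Agent.T157.E Crest.Agent.T157.Eig
open Crest.Agent.T157.Tap (V Mx th DD Cb)
open Crest.Agent.T157.Z (Nt Ap apA apB hpStmt)
open Crest.Agent.T157.Zf (QQ AA Vf)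
open Crest.Agent.T157.Fo (Ext mix)

namespace Tg12

variable {n : ℕ}

/-- multiplication by `Q` -/
theorem ap_QQ {ι : Type} [Fintype ι] {β : ℝ} (hβ : β ∈ Icc (0 : ℝ) 1) {c d : ι → ℝ} {U : Nt ι}
    (hU : Ap β c d U) : Ap β c d fun n J a => QQ J *ᵥ U n J a := by
  refine apA.lim ι β c d _ fun ε hε => ?_
  obtain ⟨⟨C, C0, hC⟩, -⟩ := apA.bd ι β c d U hU
  obtain ⟨K, hK⟩ := hpStmt.good ι β hβ c d
  obtain ⟨p, hp⟩ := Sq.rt_poly 7 (ε := ε / (C + 1)) (by positivity)
  refine ⟨_, Z.Q64.ap_poly hβ c d hU (p.comp (Polynomial.X + Polynomial.C 4)),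
    Z.A48.imp hpStmt (hpStmt.and ι β c d _ _ hC hK) ?_⟩
  rintro n J a ⟨h1, h2, h3, -⟩
  have h4 := hp n _ (Sq.g1_shift (Z.Q64.herm h2) h3 (a := 4) (by norm_num))
    ((Sq.opn_shift h3 (a := 4) (by norm_num)).trans (by norm_num))
  rw [← sub_mulVec, QQ, AA, (Z.lipStmt.tJ_le n J).2 h3, Polynomial.aeval_comp, map_add,
    Polynomial.aeval_X, Polynomial.aeval_C, Algebra.algebraMap_eq_smul_one]
  refine (nrm_mulVec_le _ _).trans ((mul_le_mul h4 h1 (nrm_nonneg _) (by positivity)).trans ?_)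
  rw [← mul_assoc]
  refine mul_le_mul_of_nonneg_right ?_ (Real.sqrt_nonneg _)
  rw [div_mul_eq_mul_div, div_le_iff₀ (by positivity)]
  nlinarith

/-- multiplication by `1 - tanh²` -/
theorem ap_DD {ι : Type} [Fintype ι] {β : ℝ} (hβ : β ∈ Icc (0 : ℝ) 1) {c d : ι → ℝ} {H W : Nt ι}
    (hH : Ap β c d H) (hW : Ap β c d W) : Ap β c d fun n J a => DD (th (H n J a)) * W n J a := by
  refine apB.ev ι β hβ c d 1 (fun u => 1 - Real.tanh (u 0) ^ 2) (fun _ => H) W
    ⟨fun u => by simp, ⟨1, .of_dist_le_mul fun u v => ?_⟩, 1, fun u =>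
      Pr23.abs_DD (Tap.cb_th u) 0⟩ (fun _ => hH) hW
  rw [Real.dist_eq, sub_sub_sub_cancel_left, abs_sub_comm, NNReal.coe_one, one_mul]
  exact (Pr23.abs_tanh_sq_sub _ _).trans (dist_le_pi_dist u v 0)

theorem fub {F : V n → V n → ℝ} (hm : Measurable fun p : V n × V n => F p.1 p.2) {B : ℝ}
    (hB : ∀ z w, |F z w| ≤ B) :
    ∫ w, F (fun i => w (0, i)) (fun i => w (1, i)) ∂gv (Fin 2 × Fin n) =
      ∫ z, ∫ w, F z w ∂gv (Fin n) ∂gv (Fin n) := by
  have hG : Measurable fun v : Fin n ⊕ Fin n → ℝ => F (fun i => v (.inl i)) fun i => v (.inr i) :=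
    hm.comp (f := fun v : Fin n ⊕ Fin n → ℝ => (fun i => v (.inl i), fun i => v (.inr i)))
      (by fun_prop)
  refine (Lw11.cmp (ι := Fin 2 × Fin n) (e := Sum.elim (fun i => (0, i)) fun i => (1, i))
    (by rintro (i | i) (j | j) <;> simp) hG).trans ?_
  have h := R339.Guerra.mp_sum (ι := Fin n) (κ := Fin n)
  rw [show gv (Fin n ⊕ Fin n) = _ from h.map_eq.symm,
    integral_map h.measurable.aemeasurable hG.aestronglyMeasurable, integral_prod]
  · rfl
  exact (integrable_const B).mono' hm.aestronglyMeasurable (.of_forall fun z => hB _ _)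

/-- the integrand at the point `l` of the segment -/
def un (ω : Cube n → V n) (h : V n) (s : Cube n) (l : ℝ) : V n :=
  DD (th h) * fun j => Ext (fun x => ω x j) (mix (th h) s l)

/-- the field at the point `l` of the segment -/
def nd (l : ℝ) (U : Vf) : Vf := fun n J s y j =>
  ∫ z, un (fun t => U n J t y) (y + QQ J *ᵥ (QQ J *ᵥ sv s + z)) s l j ∂gv (Fin n)

theorem nrm_of_sup {e : ℝ} {u : V n} (he : 0 ≤ e) (h : ∀ i, |u i| ≤ e) : nrm u ≤ e * √n := by
  have := Pr23.nrm_le_of_abs (u := u) (v := sv fun _ => true) he fun i => by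
    rw [Fo.abs_sv, mul_one]; exact h i
  rwa [nrm, nrm, sv_dot_self] at this

theorem tc_nd (hT : TcStmt) (hA : AvStmt) (hS : SmmStmt) (hR : RsStmt) {β r l e : ℝ}
    (hβ : β ∈ Icc (0 : ℝ) 1) (hr : 0 ≤ r) (hl : l ∈ Icc (0 : ℝ) 1) {U : Vf} (hU : TC β r U)
    (he : ∀ n J, GJ J → RF e (U n J)) : TC β r (nd l U) := by
  have f1 := apB.add _ β hβ _ _ _ _ 1 1 (ap_QQ hβ (hT.tl β r 2 _ (hT.spin β hβ r)))
    (hT.lab β hβ r 2 0)
  have f2 := apB.add _ β hβ _ _ _ _ 1 1 (hT.tl β r 2 _ (hT.fld β hβ r)) (ap_QQ hβ f1)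
  simp only [one_smul] at f2
  have mm : ∀ (n : ℕ) (J : Mx n) (s : Cube n) (y : V n), Measurable fun p : V n × V n =>
      DD (th (y + QQ J *ᵥ (QQ J *ᵥ sv s + p.1))) * U n J (mxs J l s y p.1 p.2) y := fun n J s y => by
    have c1 : Continuous fun z : V n => th (y + QQ J *ᵥ (QQ J *ᵥ sv s + z)) :=
      Tap.continuous_th.comp (Gt48.cont_h _ _ _)
    have c2 : Continuous fun z : V n => DD (th (y + QQ J *ᵥ (QQ J *ᵥ sv s + z))) := by
      unfold DD; fun_prop
    exact (c2.measurable.comp measurable_fst).mul ((measurable_of_finite fun t => U n J t y).comp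
      ((hS.meas n).comp ((((continuous_const.add (c1.const_smul (1 - l))).measurable.comp
        measurable_fst)).prodMk measurable_snd)))
  have key := hA Bool β hβ (wc r) (wd r) 2 _ e (ap_DD hβ f2 (hR β hβ r hr l hl U hU))
    (fun n J a _ => (mm n J (cb (a true)) (a false)).comp
      (f := fun w : Fin 2 × Fin n → ℝ => (fun i => w (0, i), fun i => w (1, i))) (by fun_prop))
    fun n J a hJ => (Pr23.nrm_DD (Tap.cb_th _) _).trans (nrm_of_sup
      (Pr23.e_nonneg ((he n J hJ).r0 0)) (((he n J hJ).r0 _).sup _))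
  refine hT.congr β hβ r (fun n J s y i => ∫ w, (DD (th (y + QQ J *ᵥ (QQ J *ᵥ sv s +
    fun i => w (0, i)))) * U n J (mxs J l s y (fun i => w (0, i)) fun i => w (1, i)) y) i
    ∂gv (Fin 2 × Fin n)) _ (fun n J hJ => ?_) key
  ext s y j
  refine (fub (F := fun z w => (DD (th (y + QQ J *ᵥ (QQ J *ᵥ sv s + z))) *
    U n J (mxs J l s y z w) y) j) ((measurable_pi_apply j).comp (mm n J s y)) (B := e)
    fun z w => ?_).trans (congrArg _ (funext fun z => ?_))
  · rw [Pi.mul_apply, abs_mul]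
    exact (mul_le_of_le_one_left (abs_nonneg _) (Pr23.abs_DD (Tap.cb_th _) j)).trans
      (((he n J hJ).r0 y).sup _ j)
  · simp only [Pi.mul_apply, integral_const_mul, un]
    exact congrArg _ (hS.law n _ (fun t => U n J t y j) (Fo.cb_mix (Tap.cb_th _) s hl))

/-- Riemann sums of a Lipschitz function -/
theorem rie {f : ℝ → ℝ} (hc : Continuous f) {L : ℝ} (hL : 0 ≤ L) {N : ℕ} (hN : 0 < N)
    (h : ∀ a ∈ Icc (0 : ℝ) 1, ∀ b ∈ Icc (0 : ℝ) 1, |f a - f b| ≤ L * |a - b|) :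
    |(∫ l in (0 : ℝ)..1, f l) - (N : ℝ)⁻¹ * ∑ k : Fin N, f (k / N)| ≤ L / N := by
  have N0 : (0 : ℝ) < N := Nat.cast_pos.2 hN
  have e := intervalIntegral.sum_integral_adjacent_intervals (μ := volume) (f := f)
    (a := fun k => (k : ℝ) / N) (n := N) fun k _ => hc.intervalIntegrable _ _
  simp only [Nat.cast_zero, zero_div, div_self N0.ne'] at e
  rw [← e, Finset.sum_range (fun k => ∫ x in (k : ℝ) / N..((k + 1 : ℕ) : ℝ) / N, f x),
    Finset.mul_sum, ← Finset.sum_sub_distrib]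
  refine (Finset.abs_sum_le_sum_abs _ _).trans ((Finset.sum_le_card_nsmul _ _ (L / N * (1 / N))
    fun k _ => ?_).trans_eq ?_)
  · have d : (((k : ℕ) + 1 : ℕ) : ℝ) / N - (k : ℕ) / N = 1 / N := by push_cast; ring
    have k0 : (0 : ℝ) ≤ (k : ℕ) / N := by positivity
    have k1 : (((k : ℕ) + 1 : ℕ) : ℝ) / N ≤ 1 := (div_le_one N0).2 (Nat.cast_le.2 k.2)
    have p : (0 : ℝ) < 1 / N := by positivity
    have := intervalIntegral.norm_integral_le_of_norm_le_const (a := ((k : ℕ) : ℝ) / N)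
      (b := (((k : ℕ) + 1 : ℕ) : ℝ) / N) (C := L / N) (f := fun x => f x - f ((k : ℕ) / N))
      fun x hx => by
        rw [uIoc_of_le (by linarith)] at hx
        refine (h x ⟨by linarith [hx.1], by linarith [hx.2]⟩ _ ⟨k0, by linarith⟩).trans ?_
        rw [abs_of_nonneg (by linarith [hx.1]), div_eq_mul_one_div L]
        exact mul_le_mul_of_nonneg_left (by linarith [hx.2]) hL
    rw [intervalIntegral.integral_sub (hc.intervalIntegrable _ _) (by simp),
      intervalIntegral.integral_const, d, abs_of_pos p] at this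
    rwa [← one_div]
  · rw [Finset.card_univ, Fintype.card_fin, nsmul_eq_mul]; field_simp

theorem uf_rie {ω : Cube n → V n} {e : ℝ} (h : R0 e ω) (a : V n) (s : Cube n) {N : ℕ}
    (hN : 0 < N) : nrm (Gt48.uf ω a s - (N : ℝ)⁻¹ • ∑ k : Fin N, un ω a s (k / N)) ≤ e * √n / N := by
  have e0 := Pr23.e_nonneg h
  have ht := Tap.cb_th a
  simp only [Gt48.uf, un, ← Finset.mul_sum, ← mul_smul_comm, ← mul_sub]
  refine (Pr23.nrm_DD ht _).trans (Pr23.nrm_le_of_dot (by positivity) ?_)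
  generalize th a = t at *
  generalize hv : vO ω t s - _ = v
  nth_rewrite 2 [← hv]
  have d : ∀ m : V n, v ⬝ᵥ (fun j => Ext (fun x => ω x j) m) = Ext (fun x => v ⬝ᵥ ω x) m :=
    fun m => by
    simp only [Fo.Ext, Finset.mul_sum, dotProduct]
    rw [Finset.sum_comm]
    simp only [mul_left_comm]
  rw [dotProduct_sub, dotProduct_smul, dotProduct_sum, Pr23.dot_vO, smul_eq_mul]
  simp only [d]
  have b : nrm (sv s - t) ≤ 2 * √n := (nrm_sub_le _ _).trans (by
    have := ht.nrm_le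
    rw [nrm, sv_dot_self]; linarith)
  have v0 : 0 ≤ e / 2 * nrm v := mul_nonneg (by linarith) (nrm_nonneg v)
  refine (le_abs_self _).trans ((rie (Pr23.cont_mix _ t s) (L := e / 2 * nrm v * (2 * √n))
    (by positivity) hN fun a ha b hb => ?_).trans_eq (by ring))
  refine (K75.abs_Ext_sub v0 (Pr23.grad_dot h v) (Fo.cb_mix ht s ha) (Fo.cb_mix ht s hb)).trans ?_
  rw [K75.en_eq, show mix t s a - mix t s b = (a - b) • (sv s - t) by unfold mix; module, nrm_smul,
    mul_assoc _ _ |a - b|, mul_comm _ |a - b|]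
  gcongr

theorem nrm_int {u : V n → V n} (hc : Continuous u) {c : ℝ} (h : ∀ z, nrm (u z) ≤ c) :
    nrm (fun j => ∫ z, u z j ∂gv (Fin n)) ≤ c := by
  refine (abs_le_of_sq_le_sq' ((Gt48.nrm_int_sq hc fun z j => (abs_apply_le_nrm _ j).trans
    (h z)).trans ?_) ((nrm_nonneg _).trans (h 0))).2
  simpa using integral_mono_of_nonneg (μ := gv (Fin n)) (.of_forall fun z => sq_nonneg _)
    (integrable_const (c ^ 2)) (.of_forall fun z => pow_le_pow_left₀ (nrm_nonneg _) (h z) 2)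

theorem un_cont (ω : Cube n → V n) (s : Cube n) (l : ℝ) : Continuous fun h => un ω h s l :=
  Continuous.mul (Continuous.comp (g := DD) (by unfold DD; fun_prop) Tap.continuous_th)
    (continuous_pi fun _ => (Fo.continuous_Ext _).comp
    (continuous_const.add (Tap.continuous_th.const_smul (1 - l))))

theorem int_rie (hP : PrStmt) {ω : Cube n → V n} {e : ℝ} (h : R0 e ω) (s : Cube n) {H : V n → V n}
    (hH : Continuous H) {N : ℕ} (hN : 0 < N) :
    nrm ((fun j => ∫ z, Gt48.uf ω (H z) s j ∂gv (Fin n)) - (N : ℝ)⁻¹ • ∑ k : Fin N, fun j =>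
      ∫ z, un ω (H z) s (k / N) j ∂gv (Fin n)) ≤ e * √n / N := by
  have c0 : Continuous fun z => Gt48.uf ω (H z) s := (Gt48.uf_cont hP h s).comp hH
  have c1 : ∀ l, Continuous fun z => un ω (H z) s l := fun l => (un_cont ω s l).comp hH
  have i0 : ∀ j, Integrable (fun z => Gt48.uf ω (H z) s j) (gv (Fin n)) := fun j =>
    Gt48.int_bd ((continuous_apply j).comp c0) fun z => Gt48.uf_abs hP h s _ j
  have i1 : ∀ (k : Fin N) j, Integrable (fun z => un ω (H z) s (k / N) j) (gv (Fin n)) :=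
    fun k j => Gt48.int_bd ((continuous_apply j).comp (c1 _)) (B := e) fun z => by
      change |DD _ j * _| ≤ e
      rw [abs_mul]
      exact (mul_le_of_le_one_left (abs_nonneg _) (Pr23.abs_DD (Tap.cb_th _) j)).trans
        (Fo.abs_Ext_le (Fo.cb_mix (Tap.cb_th _) s ⟨by positivity,
          div_le_one_of_le₀ (Nat.cast_le.2 k.2.le) N.cast_nonneg⟩) fun x => h.sup x j)
  refine le_of_eq_of_le (congrArg _ (funext fun j => ?_)) (nrm_int (u := fun z =>
    Gt48.uf ω (H z) s - (N : ℝ)⁻¹ • ∑ k : Fin N, un ω (H z) s (k / N))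
    (c0.sub ((continuous_finsetSum _ fun k _ => c1 _).fun_const_smul _)) fun z => uf_rie h _ s hN)
  simp only [Pi.sub_apply, Pi.smul_apply, Finset.sum_apply, smul_eq_mul]
  rw [integral_sub (i0 j) ((integrable_finsetSum _ fun k _ => i1 k j).const_mul _),
    integral_const_mul, integral_finsetSum _ fun k _ => i1 k j]

end Tg12

open Tg12 in
theorem tgGlue : TgGlue := fun hT hA hS hP hR β hβ r hr U hU ⟨e, he⟩ => by
  refine apA.lim _ β _ _ _ fun ε hε => ?_
  obtain ⟨N, hN⟩ := exists_nat_gt (|e| / ε)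
  have N0 : (0 : ℝ) < N := lt_of_le_of_lt (by positivity) hN
  have h1 := apB.sum _ β hβ _ _ N _ fun k : Fin N => tc_nd hT hA hS hR hβ hr (l := k / N)
    ⟨by positivity, div_le_one_of_le₀ (Nat.cast_le.2 k.2.le) N0.le⟩ hU he
  refine ⟨_, apB.add _ β hβ _ _ _ _ (N : ℝ)⁻¹ 0 h1 h1, Z.A48.imp hpStmt (hT.gj _ β hβ _ _)
    fun n J a hJ => ?_⟩
  rw [zero_smul, add_zero]
  refine (int_rie hP ((he n J hJ).r0 _) _ (Gt48.cont_h _ _ _) (Nat.cast_pos.1 N0)).trans ?_
  rw [mul_div_right_comm]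
  refine mul_le_mul_of_nonneg_right ((div_le_iff₀ N0).2 ?_) (Real.sqrt_nonneg _)
  rw [div_lt_iff₀ hε] at hN
  linarith [le_abs_self e]

end Crest.Agent.T157.K

end
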