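import Crest.Agent.T157.ZDef_73

/-!
# Row 157, part B, package (Z) (helper48): closure of the approximable words, first half
-/

set_option autoImplicit false

noncomputable section

namespace Crest.Agent.T157.Z

open MeasureTheory ProbabilityTheory Matrix Filter Set
open Crest.ProbabilityR.SpinGlassDynamics
open Crest.Agent.T157.E Crest.Agent.T157.Eig Crest.Agent.T157.Tap

namespace A48

variable {ι κ : Type} {β : ℝ} {n : ℕ}

theorem nrm_mono {μ : Type} [Fintype μ] {u v : μ → ℝ} (h : ∀ i, u i ^ 2 ≤ v i ^ 2) : nrm u ≤ nrm v :=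
  Real.sqrt_le_sqrt (Finset.sum_le_sum fun i _ => by simpa only [sq] using h i)

theorem nrm_box {μ : Type} [Fintype μ] {u : μ → ℝ} {M : ℝ} (M0 : 0 ≤ M) (h : ∀ i, |u i| ≤ M) :
    nrm u ≤ M * √(Fintype.card μ) := by
  refine (nrm_mono (v := fun _ => M) fun i => sq_le_sq' (abs_le.1 (h i)).1 (abs_le.1 (h i)).2).trans_eq ?_
  simp only [nrm, dotProduct, Finset.sum_const, Finset.card_univ, nsmul_eq_mul]
  rw [Real.sqrt_mul (Nat.cast_nonneg _), Real.sqrt_mul_self M0, mul_comm]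

theorem tri (u v w : V n) : nrm (u - w) ≤ nrm (u - v) + nrm (v - w) := by
  simpa only [sub_add_sub_cancel] using nrm_add_le (u - v) (v - w)

/-- `cp M u` is the nearest point of the box -/
theorem cp_near {M : ℝ} (u x : V n) (h : ∀ i, |x i| ≤ M) : nrm (u - cp M u) ≤ nrm (u - x) :=
  nrm_mono fun i => by
    obtain ⟨h1, h2⟩ := abs_le.1 (h i)
    simp only [cp, Pi.sub_apply]
    rcases le_total M (u i) with h3 | h3
    · rw [min_eq_left h3, max_eq_right (by linarith)]; nlinarith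
    · rw [min_eq_right h3]
      rcases le_total (-M) (u i) with h4 | h4
      · rw [max_eq_right h4, sub_self]; simpa using sq_nonneg _
      · rw [max_eq_left h4]; nlinarith

theorem part_le {M : ℝ} (M0 : 0 ≤ M) (u x : V n) (h : ∀ i, |x i| ≤ M) (S : Finset (Fin n)) :
    √(∑ i ∈ S, u i ^ 2) ≤ nrm (u - x) + M * √S.card := by
  have h1 := nrm_add_le (fun i : S => (u - x) i) fun i : S => x i
  have h2 := nrm_box (u := fun i : S => x i) M0 fun i => h i
  have h3 : nrm (fun i : S => (u - x) i) ≤ nrm (u - x) := Real.sqrt_le_sqrt (by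
    rw [dotProduct, Finset.sum_coe_sort S fun i => (u - x) i * (u - x) i]
    exact Finset.sum_le_univ_sum_of_nonneg fun i => mul_self_nonneg _)
  have e : nrm ((fun i : S => (u - x) i) + fun i : S => x i) = √(∑ i ∈ S, u i ^ 2) := by
    simp only [nrm, dotProduct, Pi.add_apply, Pi.sub_apply, sub_add_cancel, ← sq]
    rw [Finset.sum_coe_sort S fun i => u i ^ 2]
  rw [Fintype.card_coe] at h2
  linarith

theorem Bd.pos {X : Nt ι} (h : Bd X) : ∃ M ≥ (0 : ℝ), ∀ n J a i, |X n J a i| ≤ M :=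
  let ⟨M, hM⟩ := h
  ⟨max M 0, le_max_right _ _, fun n J a i => (hM n J a i).trans (le_max_left _ _)⟩

theorem Bd.comp {X : Nt ι} (h : Bd X) (F : ∀ n, Mx n → (κ → V n) → ι → V n) :
    Bd fun n J a => X n J (F n J a) :=
  let ⟨M, hM⟩ := h
  ⟨M, fun n J _ i => hM n J _ i⟩

theorem rel (L : LipStmt) {sm : Prop} {X : Nt ι} (h : Nw sm X) (f : ι → κ) :
    Nw sm fun n J (a : κ → V n) => X n J fun j => a (f j) :=
  L.comp ι κ sm X (fun j _ _ a => a (f j)) h fun j => .inp (f j)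

variable [Fintype ι] [Fintype κ] {c d : ι → ℝ}

theorem hp_true : Hp β c d fun _ _ _ => True :=
  ⟨1, one_pos, Top.whp_of_eventually (Eventually.of_forall fun n g => by
    simpa [mean] using Real.exp_nonneg _)⟩

theorem imp (H : HpStmt) {P Q : ∀ n, Mx n → (ι → V n) → Prop} (h : Hp β c d P)
    (e : ∀ n J a, P n J a → Q n J a) : Hp β c d Q := H.mono ι β c d P Q h (Eventually.of_forall e)

theorem hp_all (H : HpStmt) {k : ℕ} {P : Fin k → ∀ n, Mx n → (ι → V n) → Prop}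
    (h : ∀ l, Hp β c d (P l)) : Hp β c d fun n J a => ∀ l, P l n J a := by
  induction k with
  | zero => exact imp H hp_true fun _ _ _ _ l => l.elim0
  | succ k ih => exact imp H (H.and ι β c d _ _ (h 0) (ih fun l => h l.succ)) fun _ _ _ h =>
      Fin.forall_fin_succ.2 h

/-- relabelling -/
theorem emb' (H : HpStmt) {c' d' : κ → ℝ} (f : ι ↪ κ) (hc : ∀ l, c' (f l) = c l)
    (hd : ∀ l, d' (f l) = d l) {P : ∀ n, Mx n → (ι → V n) → Prop} (h : Hp β c d P) :
    Hp β c' d' fun n J a => P n J fun l => a (f l) :=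
  H.emb ι κ β c' d' f P (by rwa [show c' ∘ f = c from funext hc, show d' ∘ f = d from funext hd])

theorem inl' (H : HpStmt) (c' d' : κ → ℝ) {P : ∀ n, Mx n → (ι → V n) → Prop} (h : Hp β c d P) :
    Hp β (Sum.elim c c') (Sum.elim d d') fun n J a => P n J fun l => a (.inl l) :=
  emb' H Function.Embedding.inl (fun _ => rfl) (fun _ => rfl) h

end A48

open A48

theorem apAGlue : ApAGlue := fun L H UI Mol => by
  refine ⟨fun ι _ β hβ c d X hX ε hε => ?_, fun ι _ β c d U h ε hε => ?_,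
    fun ι _ β c d U m h ε hε => ?_, fun ι κ _ _ β c d f U h ε hε => ?_,
    fun ι κ _ _ _ _ β c d c' d' T h1 h2 U h ε hε => ?_, fun ι _ β c d k U h ε hε => ?_,
    fun ι _ β c d U h => ⟨?_, fun ε hε => ?_⟩, fun ι _ β c d U h ε hε => ?_⟩
  · obtain ⟨M, M0, hM⟩ := UI ι β hβ c d X hX ε hε
    obtain ⟨h1, h2⟩ := L.clip _ _ M M0 (rel L hX (Sum.inl : ι → ι ⊕ Fin 0))
    have h3 := inl' H (0 : Fin 0 → ℝ) 1 hM
    exact ⟨0, _, h1, h2, h3⟩
  · obtain ⟨U', h1, h2⟩ := h (ε / 2) (by linarith)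
    obtain ⟨m, X, h3, h4, h5⟩ := h1 (ε / 2) (by linarith)
    have h6 := inl' H (0 : Fin m → ℝ) 1 h2
    exact ⟨m, X, h3, h4, imp H (H.and _ _ _ _ _ _ h6 h5) fun n J a h =>
      (tri _ _ _).trans (by linarith [h.1, h.2])⟩
  · obtain ⟨m', X, h3, h4, h5⟩ := h ε hε
    let f : (ι ⊕ Fin m) ⊕ Fin m' ↪ ι ⊕ Fin (m + m') :=
      ((Equiv.sumAssoc _ _ _).trans ((Equiv.refl ι).sumCongr finSumFinEquiv)).toEmbedding
    have h6 := emb' H (c' := Sum.elim c 0) (d' := Sum.elim d 1) f (by rintro ((l | l) | l) <;> rfl)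
      (by rintro ((l | l) | l) <;> rfl) h5
    exact ⟨m + m', _, rel L h3 f, Bd.comp h4 fun _ _ a j => a (f j), h6⟩
  · obtain ⟨m, X, h3, h4, h5⟩ := h ε hε
    let g : ι ⊕ Fin m ↪ κ ⊕ Fin m := f.sumMap (Function.Embedding.refl _)
    have h6 := emb' H (c' := Sum.elim c 0) (d' := Sum.elim d 1) g (by rintro (l | l) <;> rfl)
      (by rintro (l | l) <;> rfl) h5
    exact ⟨m, _, rel L h3 g, Bd.comp h4 fun _ _ a j => a (g j), h6⟩
  · obtain ⟨m, X, h3, h4, h5⟩ := h ε hε
    have e : ∀ {μ : Type} [DecidableEq μ] (x : μ → ℝ),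
        (diagonal fun k => Sum.elim x (1 : Fin m → ℝ) k ^ 2) =
          fromBlocks (diagonal fun k => x k ^ 2) 0 0 1 := fun x => by
      rw [← diagonal_one, fromBlocks_diagonal]
      congr 1; funext k; rcases k with k | k <;> simp
    refine ⟨m, fun n J a => X n J (lc (fromBlocks T 0 0 1) a),
      L.comp _ _ _ X (fun j _ _ a => lc (fromBlocks T 0 0 1) a j) h3 fun j => L.lin _ _ _ _ j,
      Bd.comp h4 fun _ _ a => lc (fromBlocks T 0 0 1) a, imp H (H.lin _ _ β _ _ (Sum.elim c' 0) (Sum.elim d' 1) (fromBlocks T 0 0 1) ?_ ?_ _ h5)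
        fun n J a h => ?_⟩
    · simp [fromBlocks_mulVec, h1]
    · rw [e, e, fromBlocks_transpose, fromBlocks_multiply, fromBlocks_multiply, ← h2]; simp
    · have : (fun l => lc (fromBlocks T 0 0 (1 : Matrix (Fin m) (Fin m) ℝ)) a (.inl l)) =
          lc T fun l => a (.inl l) := by
        funext l i; simp [lc]
      rwa [this] at h
  · choose m X h3 h4 h5 using fun l => h l ε hε
    let g : ∀ l, ι ⊕ Fin (m l) ↪ ι ⊕ Fin (Finset.univ.sup m) := fun l =>
      (Function.Embedding.refl _).sumMap (Fin.castLEEmb (Finset.le_sup (Finset.mem_univ l)))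
    have h6 := hp_all H fun l => emb' H (c' := Sum.elim c 0) (d' := Sum.elim d 1) (g l)
      (by rintro (l | l) <;> rfl) (by rintro (l | l) <;> rfl) (h5 l)
    exact ⟨_, fun l n J a => X l n J fun j => a (g l j), fun l => ⟨rel L (h3 l) (g l),
      Bd.comp (h4 l) fun _ _ a j => a (g l j)⟩, h6⟩
  · obtain ⟨m, X, -, h4, h5⟩ := h 1 one_pos
    obtain ⟨M, M0, hM⟩ := Bd.pos h4
    refine ⟨1 + M, by positivity, H.prj _ _ β c d 0 1 _ (imp H h5 fun n J a h => ?_)⟩
    have h6 := nrm_box M0 (hM n J a)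
    have h7 := tri (U n J fun l => a (.inl l)) (X n J a) 0
    rw [Fintype.card_fin] at h6
    simp only [sub_zero] at h7
    linarith
  · obtain ⟨m, X, -, h4, h5⟩ := h ε hε
    obtain ⟨M, M0, hM⟩ := Bd.pos h4
    exact ⟨M, M0, H.prj _ _ β c d 0 1 _ (imp H h5 fun n J a h => ⟨(cp_near _ _ (hM n J a)).trans h,
      fun S => (part_le M0 _ _ (hM n J a) S).trans (add_le_add_left h _)⟩)⟩
  · obtain ⟨m, X, h3, h4, h5⟩ := h (ε / 2) (by linarith)
    obtain ⟨X', h6, h7, h8⟩ := Mol _ X h3 (ε / 2) (by linarith)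
    exact ⟨m, X', h6, h7 h4, imp H h5 fun n J a h => (tri _ _ _).trans (by linarith [h8 n J a])⟩

end Crest.Agent.T157.Z

end
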