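import Crest.Agent.T157.ZDef_73
import Crest.Agent.T157.PlA_37

/-!
# Row 157, part B, package (Z): the Cameron–Martin shift of one coordinate (helper75)
-/

set_option autoImplicit false

noncomputable section

namespace Crest.Agent.T157.Z

open MeasureTheory ProbabilityTheory Matrix Filter Set
open Crest.Agent.T157.E
open Crest.Agent.T157.Conc (en ELip)

namespace CM75

variable {κ : Type} [Fintype κ] [DecidableEq κ]

theorem dens (i : κ) (a : ℝ) (F : (κ → ℝ) → ℝ) (w : κ → ℝ) :
    F w * Real.exp (-a * w i - a ^ 2 / 2) =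
      Real.exp (-(a ^ 2 / 2)) * (Real.exp (w ⬝ᵥ (-Pi.single i a)) * F w) := by
  rw [dotProduct_neg, dotProduct_single, ← mul_assoc, ← Real.exp_add, mul_comm]
  congr 2; ring

/-- the shift formula holds for every `F` -/
theorem shift (i : κ) (a : ℝ) (F : (κ → ℝ) → ℝ) :
    ∫ w, F (w - Pi.single i a) ∂gv κ = ∫ w, F w * Real.exp (-a * w i - a ^ 2 / 2) ∂gv κ := by
  have h := Pl.integral_exp_mul false (-Pi.single i a : κ → ℝ) F
  rw [Pl.integral_tilted_false, Pl.MM_false, Pl.law_false] at h
  simp only [dens]
  rw [integral_const_mul, h, ← mul_assoc, ← Real.exp_add]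
  have e : -(a ^ 2 / 2) + (-Pi.single i a : κ → ℝ) ⬝ᵥ (-Pi.single i a) / 2 = 0 := by
    rw [neg_dotProduct_neg, dotProduct_single, Pi.single_eq_same]; ring
  simp only [e, Real.exp_zero, one_mul, sub_eq_add_neg]

theorem shift_int (i : κ) (a : ℝ) (F : (κ → ℝ) → ℝ) :
    Integrable (fun w => F w * Real.exp (-a * w i - a ^ 2 / 2)) (gv κ) ↔
      Integrable (fun w => F (w - Pi.single i a)) (gv κ) := by
  have h := (Pl.integrable_exp_mul false (-Pi.single i a : κ → ℝ) F).trans
    (Pl.integrable_tilted_false _ F)
  rw [Pl.law_false] at h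
  simp only [dens]
  rw [integrable_const_mul_iff (IsUnit.mk0 _ (Real.exp_pos _).ne')]
  simpa only [sub_eq_add_neg] using h

theorem en_single (i : κ) : en (Pi.single i 1 : κ → ℝ) = 1 := by
  simp [en, Pi.single_apply]

theorem lip_line {f : (κ → ℝ) → ℝ} {L : ℝ} (h : ELip L f) (w : κ → ℝ) (i : κ) :
    LipschitzWith (Real.toNNReal |L|) fun s : ℝ => f (w + s • Pi.single i 1) := by
  refine LipschitzWith.of_dist_le' fun s t => ?_
  have := h.abs (w + s • Pi.single i 1) (w + t • Pi.single i 1)
  rwa [add_sub_add_left_eq_sub, ← sub_smul, Conc.en_smul, en_single, mul_one] at this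

theorem abs_ld {f : (κ → ℝ) → ℝ} {L : ℝ} (h : ELip L f) (w : κ → ℝ) (i : κ) :
    |lineDeriv ℝ f w (Pi.single i 1)| ≤ |L| := by
  have := norm_deriv_le_of_lipschitz (x₀ := (0 : ℝ)) (lip_line h w i)
  rwa [Real.coe_toNNReal _ (abs_nonneg L)] at this

/-- the fundamental theorem of calculus along a coordinate -/
theorem ftc {f : (κ → ℝ) → ℝ} {L : ℝ} (h : ELip L f) (w : κ → ℝ) (i : κ) (a : ℝ) :
    f w - f (w - Pi.single i a) =
      ∫ t in (0 : ℝ)..a, lineDeriv ℝ f (w - Pi.single i t) (Pi.single i 1) := by
  have e : ∀ t : ℝ, lineDeriv ℝ f (w - Pi.single i t) (Pi.single i 1) =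
      deriv (fun s : ℝ => f (w + s • Pi.single i 1)) (-t) := by
    intro t
    have := deriv_comp_sub_const (fun s : ℝ => f (w + s • Pi.single i 1)) t 0
    rw [zero_sub] at this
    rw [← this, lineDeriv]
    congr 1; ext s; congr 1; ext j
    by_cases hj : j = i
    · subst hj; simp; ring
    · simp [hj]
  simp only [e]
  rw [intervalIntegral.integral_comp_neg, neg_zero,
    (lip_line h w i).lipschitzOnWith.absolutelyContinuousOnInterval.integral_deriv_eq_sub]
  congr 2
  · simp
  · ext j
    by_cases hj : j = i
    · subst hj; simp; ring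
    · simp [hj]

end CM75

open CM75

theorem cmStmt : CMStmt where
  sh κ _ _ f A B hf hb i a := by
    refine ⟨(shift_int i a f).2 ?_, shift i a f⟩
    have h1 : ELip 1 fun w : κ → ℝ => en (w - Pi.single i a) := fun x y => by
      have := Conc.abs_en_sub_le (x - Pi.single i a) (y - Pi.single i a)
      rwa [sub_sub_sub_cancel_right, ← one_mul (en (x - y))] at this
    have hm : Measurable fun w : κ → ℝ => f (w - Pi.single i a) :=
      hf.comp (measurable_sub_const _)
    exact ((integrable_const A).add (h1.integrable.const_mul B)).mono'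
      hm.aestronglyMeasurable (.of_forall fun w => hb _)
  dv κ _ _ f L h i a := by
    have hD : Measurable fun w => lineDeriv ℝ f w (Pi.single i 1) := measurable_lineDeriv h.continuous
    have hs : Measurable fun p : ℝ × (κ → ℝ) => p.2 - Pi.single i p.1 := by
      refine measurable_pi_lambda _ fun j => ?_
      by_cases hj : j = i
      · subst hj; simp only [Pi.sub_apply, Pi.single_eq_same]; fun_prop
      · simp only [Pi.sub_apply, Pi.single_eq_of_ne hj]; fun_prop
    have : IsFiniteMeasure (volume.restrict (uIoc (0 : ℝ) a)) :=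
      isFiniteMeasure_restrict.2 (by simp [uIoc])
    have i1 : Integrable (Function.uncurry fun (t : ℝ) (w : κ → ℝ) =>
        lineDeriv ℝ f (w - Pi.single i t) (Pi.single i 1))
        ((volume.restrict (uIoc (0 : ℝ) a)).prod (gv κ)) :=
      (integrable_const |L|).mono' (hD.comp hs).aestronglyMeasurable
        (.of_forall fun p => abs_ld h _ i)
    have hm : Measurable (Function.uncurry fun (t : ℝ) (w : κ → ℝ) =>
        lineDeriv ℝ f w (Pi.single i 1) * Real.exp (-t * w i - t ^ 2 / 2)) :=
      (hD.comp measurable_snd).mul (by fun_prop)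
    have i2 : Integrable (Function.uncurry fun (t : ℝ) (w : κ → ℝ) =>
        lineDeriv ℝ f w (Pi.single i 1) * Real.exp (-t * w i - t ^ 2 / 2))
        ((volume.restrict (uIoc (0 : ℝ) a)).prod (gv κ)) := by
      have hb : ∀ t : ℝ, Integrable (fun w : κ → ℝ => |lineDeriv ℝ f (w - Pi.single i t) (Pi.single i 1)|)
          (gv κ) := fun t => (integrable_const |L|).mono'
            (hD.comp (hs.comp measurable_prodMk_left)).abs.aestronglyMeasurable
            (.of_forall fun w => by rw [Real.norm_eq_abs, abs_abs]; exact abs_ld h _ i)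
      refine (integrable_prod_iff hm.aestronglyMeasurable).2 ⟨.of_forall fun t => ?_, ?_⟩
      · exact (shift_int i t fun w => lineDeriv ℝ f w (Pi.single i 1)).2
          ((integrable_const |L|).mono'
            (hD.comp (hs.comp measurable_prodMk_left)).aestronglyMeasurable
            (.of_forall fun w => abs_ld h _ i))
      · refine (integrable_const |L|).mono' hm.aestronglyMeasurable.norm.integral_prod_right'
          (.of_forall fun t => ?_)
        have e := shift i t fun w => |lineDeriv ℝ f w (Pi.single i 1)|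
        simp only [Function.uncurry, Real.norm_eq_abs, abs_mul, Real.abs_exp]
        rw [← e, abs_of_nonneg (integral_nonneg fun _ => abs_nonneg _)]
        simpa using integral_mono (hb t) (integrable_const |L|) fun w => abs_ld h _ i
    simp only [ftc h]
    rw [← intervalIntegral_integral_swap i1]
    simp only [shift i _ fun w => lineDeriv ℝ f w (Pi.single i 1)]
    rw [intervalIntegral_integral_swap i2]
    simp only [intervalIntegral.integral_const_mul]

end Crest.Agent.T157.Z
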