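import Crest.Agent.T157.ZDef_73
import Crest.Agent.T157.NrmG_84

/-!
# Row 157, package (Z): the calculus of likely events (helper58)
-/

set_option autoImplicit false

noncomputable section

namespace Crest.Agent.T157.Z

open MeasureTheory ProbabilityTheory Matrix Filter Set
open Crest.ProbabilityR.SpinGlassDynamics
open Crest.Agent.T157.E Crest.Agent.T157.Eig Crest.Agent.T157.Tap
open Crest.Agent.T157.Conc (en ELip)
open Crest.Agent.T157.Cond (CF CF_map CF_gv ext_vec)
open Crest.Agent.R339.Guerra (mp_comp mp_sum)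
open scoped Topology

namespace Hp58

variable {n : ℕ} {ι κ : Type} [Fintype ι] [Fintype κ]

omit [Fintype ι] in
theorem meas_rows (c d : ι → ℝ) (σ : V n) : Measurable (rows c d σ) := by
  unfold rows; fun_prop

instance (c d : ι → ℝ) (σ : V n) : IsProbabilityMeasure (RL c d σ) :=
  Measure.isProbabilityMeasure_map (meas_rows c d σ).aemeasurable

omit [Fintype ι] in
theorem meas_lc (T : Matrix ι κ ℝ) : Measurable (lc T : (κ → V n) → ι → V n) := by
  unfold lc; fun_prop

theorem wt_gibbs (n : ℕ) (β : ℝ) (g : Pair n → ℝ) : SL.Wt (gibbsWeight n β g) :=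
  SL.Wt.of_pos fun _ => Real.exp_pos _

/-- transfer along a map of the rows -/
theorem hp_le {β : ℝ} {c d : ι → ℝ} {c' d' : κ → ℝ} {P : ∀ n, Mx n → (ι → V n) → Prop}
    {Q : ∀ n, Mx n → (κ → V n) → Prop} (h : Hp β c d P)
    (hle : ∀ᶠ n in atTop, ∀ J (x : Cube n), (RL c' d' (sv x)).real {a | ¬ Q n J a} ≤
      (RL c d (sv x)).real {a | ¬ P n J a}) : Hp β c' d' Q := by
  obtain ⟨k, hk, h⟩ := h
  refine ⟨k, hk, h.mono ?_⟩
  filter_upwards [hle] with n hn g hg
  exact ((wt_gibbs n β g).mean_mono fun x => hn _ x).trans hg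

theorem hp_map {β : ℝ} {c d : ι → ℝ} {c' d' : κ → ℝ} (S : ∀ n, (κ → V n) → ι → V n)
    (hm : ∀ n, Measurable (S n)) (hS : ∀ n σ, (RL c' d' σ).map (S n) = RL c d σ)
    {P : ∀ n, Mx n → (ι → V n) → Prop} (h : Hp β c d P) :
    Hp β c' d' fun n J a => P n J (S n a) :=
  hp_le h (.of_forall fun n J x => by
    rw [← hS n]
    exact ENNReal.toReal_mono (measure_ne_top _ _)
      (Measure.le_map_apply (hm n).aemeasurable {a | ¬ P n J a}))

theorem CF_aff {μ : Type} [Fintype μ] (b : ℝ) (a : μ → ℝ) : CF (gv μ) (fun w => b + a ⬝ᵥ w) =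
    Complex.exp (b * Complex.I) * Complex.exp (-((a ⬝ᵥ a : ℝ) : ℂ) / 2) := by
  rw [← CF_gv, CF, CF, ← integral_const_mul]
  congr 1; funext w
  rw [← Complex.exp_add]; push_cast; ring_nf

theorem law [DecidableEq ι] [DecidableEq κ] (c d : ι → ℝ) (c' d' : κ → ℝ) (T : Matrix ι κ ℝ)
    (h1 : T *ᵥ c' = c)
    (h2 : T * diagonal (fun k => d' k ^ 2) * Tᵀ = diagonal (fun l => d l ^ 2)) (σ : V n) :
    (RL c' d' σ).map (lc T) = RL c d σ := by
  have mu : Measurable fun (a : ι → V n) (p : ι × Fin n) => a p.1 p.2 := by fun_prop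
  have mc : Measurable fun (w : ι × Fin n → ℝ) (l : ι) (i : Fin n) => w (l, i) := by fun_prop
  have mX := mu.comp ((meas_lc T).comp (meas_rows c' d' σ))
  have mY := mu.comp (meas_rows c d σ)
  have key := ext_vec (μ := gv (κ × Fin n)) (ν := gv (ι × Fin n)) mX mY fun t => by
    have e1 : ∀ w, t ⬝ᵥ ((fun (a : ι → V n) (p : ι × Fin n) => a p.1 p.2) ∘ lc T ∘ rows c' d' σ) w =
        (∑ p : ι × Fin n, t p * (c p.1 * σ p.2)) +
          (fun q : κ × Fin n => d' q.1 * ∑ l, t (l, q.2) * T l q.1) ⬝ᵥ w := fun w => by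
      simp only [dotProduct, Function.comp, lc, rows, ← h1, mulVec, Fintype.sum_prod_type, mul_add,
        Finset.sum_add_distrib, Finset.mul_sum, Finset.sum_mul]
      congr 1
      · exact Finset.sum_congr rfl fun l _ => Finset.sum_congr rfl fun i _ =>
          Finset.sum_congr rfl fun k _ => by ring
      · rw [Finset.sum_comm]
        refine Eq.trans (Finset.sum_congr rfl fun i _ => Finset.sum_comm) ?_
        rw [Finset.sum_comm]
        exact Finset.sum_congr rfl fun k _ => Finset.sum_congr rfl fun i _ =>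
          Finset.sum_congr rfl fun l _ => by ring
    have e2 : ∀ w, t ⬝ᵥ ((fun (a : ι → V n) (p : ι × Fin n) => a p.1 p.2) ∘ rows c d σ) w =
        (∑ p : ι × Fin n, t p * (c p.1 * σ p.2)) +
          (fun q : ι × Fin n => d q.1 * t q) ⬝ᵥ w := fun w => by
      simp only [dotProduct, Function.comp, rows, ← Finset.sum_add_distrib]
      exact Finset.sum_congr rfl fun p _ => by ring
    simp only [e1, e2, CF_aff]
    congr 5
    simp only [dotProduct, Fintype.sum_prod_type]
    rw [Finset.sum_comm, Finset.sum_comm (s := Finset.univ (α := ι))]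
    refine Finset.sum_congr rfl fun i _ => ?_
    have e3 := congrArg (fun M => (fun l => t (l, i)) ⬝ᵥ M *ᵥ fun l => t (l, i)) h2
    simp only [← mulVec_mulVec, dotProduct_mulVec] at e3
    rw [← dotProduct_mulVec, mulVec_transpose] at e3
    simp only [dotProduct, vecMul_diagonal] at e3
    simp only [vecMul, dotProduct] at e3
    refine Eq.trans ?_ (e3.trans ?_)
    · exact Finset.sum_congr rfl fun k _ => by ring
    · exact Finset.sum_congr rfl fun k _ => by ring
  have := congrArg (Measure.map fun (w : ι × Fin n → ℝ) (l : ι) (i : Fin n) => w (l, i)) key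
  rw [Measure.map_map mc mX, Measure.map_map mc mY] at this
  rw [RL, Measure.map_map (meas_lc T) (meas_rows c' d' σ)]
  exact this

theorem law_emb (c d : κ → ℝ) (f : ι ↪ κ) (σ : V n) :
    (RL c d σ).map (fun a l => a (f l)) = RL (c ∘ f) (d ∘ f) σ := by
  have hm := mp_comp (ι := κ × Fin n) (Prod.map f id) (f.injective.prodMap Function.injective_id)
  rw [RL, RL, Measure.map_map (by fun_prop) (meas_rows c d σ)]
  conv_rhs => rw [show gv (ι × Fin n) = _ from hm.map_eq.symm]
  rw [Measure.map_map (meas_rows _ _ σ) hm.measurable]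
  rfl

theorem split (c d : ι → ℝ) (c' d' : κ → ℝ) (σ : V n) : RL (Sum.elim c c') (Sum.elim d d') σ =
    ((RL c d σ).prod (RL c' d' σ)).map fun p => Sum.elim p.1 p.2 := by
  have hm := (mp_comp (Equiv.sumProdDistrib ι κ (Fin n)) (Equiv.injective _)).comp
    (mp_sum (ι := ι × Fin n) (κ := κ × Fin n))
  have me : Measurable fun p : (ι → V n) × (κ → V n) => (Sum.elim p.1 p.2 : ι ⊕ κ → V n) :=
    (MeasurableEquiv.sumPiEquivProdPi fun _ : ι ⊕ κ => V n).symm.measurable
  rw [RL, RL, RL, Measure.map_prod_map _ _ (meas_rows c d σ) (meas_rows c' d' σ),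
    Measure.map_map me ((meas_rows c d σ).prodMap (meas_rows c' d' σ))]
  conv_lhs => rw [show gv ((ι ⊕ κ) × Fin n) = _ from hm.map_eq.symm]
  rw [Measure.map_map (meas_rows _ _ σ) hm.measurable]
  congr 1
  funext p l i
  cases l <;> rfl

theorem real_inl (c d : ι → ℝ) (c' d' : κ → ℝ) (σ : V n) (B : Set (ι → V n)) :
    (RL (Sum.elim c c') (Sum.elim d d') σ).real {a | (fun l => a (.inl l)) ∈ B} =
      (RL c d σ).real B := by
  have e := (MeasurableEquiv.sumPiEquivProdPi fun _ : ι ⊕ κ => V n).symm.map_apply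
    (μ := (RL c d σ).prod (RL c' d' σ)) {a | (fun l => a (.inl l)) ∈ B}
  rw [Measure.real, Measure.real, split]
  congr 1
  refine e.trans ?_
  rw [show (⇑(MeasurableEquiv.sumPiEquivProdPi fun _ : ι ⊕ κ => V n).symm ⁻¹'
      {a | (fun l => a (.inl l)) ∈ B}) = B ×ˢ univ from Set.ext fun p => ⟨fun h => ⟨h, trivial⟩, fun h => h.1⟩,
    Measure.prod_prod, measure_univ, mul_one]

theorem law_real {Ω : Type} [Fintype Ω] {φ : Ω → V n} {v : Ω → ℝ} (hv : SL.Wt v) (s : ℝ)
    (B : Set (V n)) : (SL.law φ v s).real B = mean v fun x =>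
      (RL (fun _ : Unit => s) (fun _ => √s) (φ x)).real {a | a () ∈ B} := by
  have e : ∀ x, (SL.Gs (Fin n)).map (fun z => s • φ x + √s • z) B =
      RL (fun _ : Unit => s) (fun _ => √s) (φ x) {a | a () ∈ B} := fun x => by
    have hm := mp_comp (ι := Unit × Fin n) (fun i : Fin n => ((), i)) fun _ _ h => congrArg Prod.snd h
    refine Eq.trans ?_ ((MeasurableEquiv.funUnique Unit (V n)).map_apply B)
    rw [RL, Measure.map_map (MeasurableEquiv.measurable _) (meas_rows _ _ _)]
    conv_lhs => rw [show SL.Gs (Fin n) = _ from hm.map_eq.symm]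
    rw [Measure.map_map (by fun_prop) hm.measurable]
    rfl
  simp only [SL.law, Measure.real, Measure.coe_finsetSum, Finset.sum_apply, Measure.smul_apply, e,
    smul_eq_mul, mean]
  rw [ENNReal.toReal_sum fun x _ => ENNReal.mul_ne_top ENNReal.ofReal_ne_top (measure_ne_top _ _)]
  exact Finset.sum_congr rfl fun x _ => by
    rw [ENNReal.toReal_mul, ENNReal.toReal_ofReal (hv.prob_nonneg x)]

theorem nrm_row_le (w : ι × Fin n → ℝ) (l : ι) : nrm (fun i => w (l, i)) ≤ nrm w := by
  refine Real.sqrt_le_sqrt ?_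
  simp only [dotProduct, Fintype.sum_prod_type]
  exact Finset.single_le_sum (f := fun l => ∑ i, w (l, i) * w (l, i))
    (fun l _ => Finset.sum_nonneg fun i _ => mul_self_nonneg _) (Finset.mem_univ l)

theorem nA_tail (c d : ι → ℝ) (x : Cube n) : (RL c d (sv x)).real
    {a | ¬ nA a ≤ (∑ l, (|c l| + |d l| * (√(Fintype.card ι) + 1))) * √n} ≤ Real.exp (-(1 / 2) * n) := by
  classical
  have mA : Measurable (nA : (ι → V n) → ℝ) :=
    Finset.measurable_sum _ fun l _ => continuous_nrm.measurable.comp (measurable_pi_apply l)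
  have mS : MeasurableSet {a : ι → V n |
      ¬ nA a ≤ (∑ l, (|c l| + |d l| * (√(Fintype.card ι) + 1))) * √n} :=
    (measurableSet_le mA measurable_const).compl
  rw [RL, map_measureReal_apply (meas_rows _ _ _) mS]
  have t := Conc.tail_lip (Conc.elip_en (ι := ι × Fin n)) (Real.sqrt_nonneg n)
  rw [Real.sq_sqrt (Nat.cast_nonneg n), show -(n : ℝ) / (2 * 1 ^ 2) = -(1 / 2) * n by ring] at t
  refine le_trans (measureReal_mono fun w hw => ?_) t
  by_contra hc
  refine hw ?_
  have hc' : en w - ∫ y, en y ∂gv (ι × Fin n) < √n := not_le.1 hc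
  have i1 := Nrm.integral_nrm_le (ι := ι × Fin n)
  rw [show (en : (ι × Fin n → ℝ) → ℝ) = nrm from funext Nrm.en_eq_nrm] at hc'
  rw [Fintype.card_prod, Fintype.card_fin, Nat.cast_mul, Real.sqrt_mul (Nat.cast_nonneg _)] at i1
  change nA _ ≤ _
  rw [nA, Finset.sum_mul]
  refine Finset.sum_le_sum fun l _ => ?_
  have e : rows c d (sv x) w l = c l • sv x + d l • fun i => w (l, i) := rfl
  have a1 := nrm_add_le (c l • sv x) (d l • fun i => w (l, i))
  rw [nrm_smul, nrm_smul, show nrm (sv x) = √n by rw [nrm, sv_dot_self]] at a1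
  have a2 := mul_le_mul_of_nonneg_left ((nrm_row_le w l).trans
    (show nrm w ≤ (√(Fintype.card ι) + 1) * √n by linarith)) (abs_nonneg (d l))
  rw [e]
  linarith

theorem whp_opn : Top.Whp disorderLaw fun n g => opn (Jmat n g) ≤ 3 := by
  have h : Tendsto (fun n : ℕ => 2 * Real.exp (-(n * 1 ^ 2 / 4))) atTop (𝓝 0) := by
    simpa using (Real.tendsto_exp_neg_atTop_nhds_zero.comp ((tendsto_natCast_atTop_atTop (R := ℝ)
      ).atTop_div_const (r := 4) four_pos)).const_mul 2
  refine Top.whp_of_real_le h (.of_forall fun n => ?_)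
  refine (measureReal_mono fun g hg => ?_).trans (Nrm.Jmat_opn_tail zero_le_one)
  have : 3 < opn (Jmat n g) := not_le.1 hg
  exact le_trans (by norm_num) this.le

theorem two_exp {k : ℝ} (hk : 0 < k) :
    ∀ᶠ n : ℕ in atTop, 2 * Real.exp (-k * n) ≤ Real.exp (-(k / 2) * n) := by
  filter_upwards [tendsto_natCast_atTop_atTop.eventually_ge_atTop (2 / k)] with n hn
  rw [div_le_iff₀ hk] at hn
  have a := Real.add_one_le_exp (k / 2 * n)
  rw [show -(k / 2) * n = k / 2 * n + -k * n by ring, Real.exp_add]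
  exact mul_le_mul_of_nonneg_right (by linarith) (Real.exp_pos _).le

end Hp58

open Hp58 in
theorem hpStmt : HpStmt where
  mono ι _ β c d P Q h hPQ := hp_le h (hPQ.mono fun n hn J x =>
    measureReal_mono fun a ha hP => ha (hn J a hP))
  and ι _ β c d P Q := by
    rintro ⟨k, hk, h⟩ ⟨k', hk', h'⟩
    have h0 := lt_min hk hk'
    refine ⟨min k k' / 2, half_pos h0, (h.and h').mono ?_⟩
    filter_upwards [two_exp h0] with n hn g hg
    have n0 : (0 : ℝ) ≤ n := Nat.cast_nonneg n
    have a1 : Real.exp (-k * n) ≤ Real.exp (-min k k' * n) :=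
      Real.exp_le_exp.2 (by nlinarith [min_le_left k k'])
    have a2 : Real.exp (-k' * n) ≤ Real.exp (-min k k' * n) :=
      Real.exp_le_exp.2 (by nlinarith [min_le_right k k'])
    refine le_trans ((wt_gibbs n β g).mean_mono fun x => (measureReal_mono (fun a ha =>
      not_and_or.1 ha)).trans (measureReal_union_le {a | ¬ P n (β • Jmat n g) a}
        {a | ¬ Q n (β • Jmat n g) a})) ?_
    rw [SL.mean_add]
    linarith [hg.1, hg.2]
  good ι _ β hβ c d := by
    refine ⟨_, 1 / 2, one_half_pos, whp_opn.imp fun n g hg => (wt_gibbs n β g).mean_le fun x =>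
      le_trans (measureReal_mono fun a ha hA => ha ⟨?_, ?_, hA⟩) (nA_tail c d x)⟩
    · rw [transpose_smul, Jmat_transpose]
    · rw [opn_smul, abs_of_nonneg hβ.1]
      exact (mul_le_of_le_one_left (opn_nonneg _) hβ.2).trans hg
  law ι κ _ _ _ _ c d c' d' T h1 h2 n σ := law c d c' d' T h1 h2 σ
  lin ι κ _ _ _ _ β c d c' d' T h1 h2 P h :=
    hp_map (fun _ => lc T) (fun _ => meas_lc T) (fun _ σ => law c d c' d' T h1 h2 σ) h
  emb ι κ _ _ β c d f P h :=
    hp_map (fun _ a l => a (f l)) (fun _ => by fun_prop) (fun _ σ => law_emb c d f σ) h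
  split ι κ _ _ c d c' d' n σ := split c d c' d' σ
  prj ι κ _ _ β c d c' d' P h :=
    hp_le h (.of_forall fun n J x => (real_inl c d c' d' (sv x) {a | ¬ P n J a}).ge)
  ty β s _ P := by
    simp only [Ty, Hp, law_real (wt_gibbs _ β _)]
    rfl
  spin ι _ β c d j hc hd := by
    refine ⟨1, one_pos, Top.whp_of_eventually (.of_forall fun n g =>
      (wt_gibbs n β g).mean_le fun x => ?_)⟩
    have mS : MeasurableSet {a : ι → V n | ¬ ∀ i, a j i = 1 ∨ a j i = -1} := by measurability
    rw [RL, map_measureReal_apply (meas_rows _ _ _) mS,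
      show rows c d (sv x) ⁻¹' {a : ι → V n | ¬ ∀ i, a j i = 1 ∨ a j i = -1} = ∅ from ?_,
      measureReal_empty]
    · exact (Real.exp_pos _).le
    · refine Set.eq_empty_of_forall_notMem fun w hw => hw fun i => ?_
      simp only [rows, hc, hd, one_mul, zero_mul, add_zero, sv, spin]
      split_ifs <;> simp

end Crest.Agent.T157.Z

end
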