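import Crest.Agent.T157.ZDef_73

/-!
# Row 157, part B, package (Z) (helper62): smoothing of the letters (`Z.molGlue`)
-/

set_option autoImplicit false

noncomputable section

namespace Crest.Agent.T157.Z

open MeasureTheory Matrix Filter Set
open scoped Convolution NNReal
open Crest.Agent.T157.Eig Crest.Agent.T157.Tap

namespace Mol62

/-- a convolution with a compactly supported kernel preserves the Lipschitz property -/
lemma conv_lip {m : ℕ} {F G : Type} [NormedAddCommGroup F] [NormedSpace ℝ F]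
    [NormedAddCommGroup G] [NormedSpace ℝ G] (B : F →L[ℝ] ℝ →L[ℝ] G) {f : (Fin m → ℝ) → F}
    (hc : HasCompactSupport f) (hf : Continuous f) {g : (Fin m → ℝ) → ℝ} {L : ℝ≥0}
    (hg : LipschitzWith L g) : ∃ K, LipschitzWith K (f ⋆[B, volume] g) := by
  have hi : ∀ x, Integrable fun t => B (f t) (g (x - t)) :=
    hc.convolutionExists_left B hf hg.continuous.locallyIntegrable
  have hn : Integrable fun t => ‖f t‖ := (hf.integrable_of_hasCompactSupport hc).norm
  refine ⟨Real.toNNReal (‖B‖ * L * ∫ t, ‖f t‖), LipschitzWith.of_dist_le' fun x y => ?_⟩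
  rw [dist_eq_norm, convolution_def, convolution_def, ← integral_sub (hi x) (hi y), mul_assoc,
    mul_comm _ (dist x y), ← mul_assoc, ← integral_const_mul]
  refine norm_integral_le_of_norm_le (hn.const_mul _) (Eventually.of_forall fun t => ?_)
  have h := hg.dist_le_mul (x - t) (y - t)
  rw [dist_sub_right, dist_eq_norm] at h
  rw [← map_sub]
  calc _ ≤ ‖B‖ * ‖f t‖ * ‖g (x - t) - g (y - t)‖ := B.le_opNorm₂ _ _
    _ ≤ ‖B‖ * ‖f t‖ * (L * dist x y) := mul_le_mul_of_nonneg_left h (by positivity)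
    _ = _ := by ring

/-- smoothing of one letter -/
lemma mol {m : ℕ} {φ : (Fin m → ℝ) → ℝ} (h : OL φ) {δ : ℝ} (hδ : 0 < δ) :
    ∃ ψ, OL ψ ∧ SmL ψ ∧ ∀ u, |φ u - ψ u| ≤ δ := by
  obtain ⟨ho, L, hL⟩ := h
  have hr : 0 < δ / (L + 1) := by positivity
  let b : ContDiffBump (0 : Fin m → ℝ) := ⟨δ / (L + 1) / 2, δ / (L + 1), half_pos hr, half_lt_self hr⟩
  have hc : HasCompactSupport (b.normed volume) := b.hasCompactSupport_normed
  have hd : ContDiff ℝ 1 (b.normed volume) := b.contDiff_normed (n := 1)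
  have hD := hc.hasFDerivAt_convolution_left (ContinuousLinearMap.lsmul ℝ ℝ) hd
    (hL.continuous.locallyIntegrable (μ := volume))
  refine ⟨b.normed volume ⋆[ContinuousLinearMap.lsmul ℝ ℝ, volume] φ,
    ⟨fun u => ?_, conv_lip _ hc hd.continuous hL⟩, ⟨fun u => (hD u).differentiableAt, ?_⟩,
    fun u => ?_⟩
  · rw [convolution_def, convolution_def, ← integral_neg, ← integral_neg_eq_self]
    refine integral_congr_ae (Eventually.of_forall fun t => ?_)
    simp only [b.normed_neg]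
    rw [show -u - -t = -(u - t) by abel, ho, map_neg]
  · rw [funext fun u => (hD u).fderiv]
    exact conv_lip _ (hc.fderiv ℝ) (hd.continuous_fderiv one_ne_zero) hL
  · rw [abs_sub_comm, ← Real.dist_eq]
    refine b.dist_normed_convolution_le hL.continuous.aestronglyMeasurable fun x hx => ?_
    refine (hL.dist_le_mul _ _).trans ?_
    have hx' : dist x u ≤ δ / (L + 1) := le_of_lt hx
    refine (mul_le_mul_of_nonneg_left hx' L.coe_nonneg).trans ?_
    rw [← mul_div_assoc, div_le_iff₀ (by positivity), mul_add, mul_one, mul_comm]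
    exact le_add_of_nonneg_right hδ.le

variable {n : ℕ} {ι : Type}

lemma nrm_mono {u v : V n} (h : ∀ i, |u i| ≤ v i) : nrm u ≤ nrm v :=
  Real.sqrt_le_sqrt (Finset.sum_le_sum fun i _ => by
    rw [← abs_mul_abs_self (u i)]
    exact mul_self_le_mul_self (abs_nonneg _) (h i))

lemma nrm_abs (u : V n) : nrm (fun i => |u i|) = nrm u := by
  simp only [nrm, dotProduct, abs_mul_abs_self]

lemma nrm_const {c : ℝ} (hc : 0 ≤ c) : nrm (fun _ : Fin n => c) = c * √n := by
  simp only [nrm, dotProduct, Finset.sum_const, Finset.card_univ, Fintype.card_fin, nsmul_eq_mul]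
  rw [Real.sqrt_mul (Nat.cast_nonneg n), Real.sqrt_mul_self hc, mul_comm]

lemma nrm_bd {u : V n} {c : ℝ} (hc : 0 ≤ c) (h : ∀ i, |u i| ≤ c) : nrm u ≤ c * √n :=
  (nrm_mono h).trans_eq (nrm_const hc)

lemma nrm_sum_le {κ : Type} (s : Finset κ) (v : κ → V n) :
    nrm (∑ l ∈ s, v l) ≤ ∑ l ∈ s, nrm (v l) :=
  Finset.le_sum_of_subadditive nrm (by simp) nrm_add_le s v

lemma avg_le {u w : V n} {e c : ℝ} (he : 0 ≤ e) (hc : 0 ≤ c) (hu : nrm u ≤ e * √n)
    (hw : nrm w ≤ c * √n) : |avg (u * w)| ≤ e * c := by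
  rcases Nat.eq_zero_or_pos n with rfl | hn
  · simp only [avg, Finset.univ_eq_empty, Finset.sum_empty, zero_div, abs_zero]; positivity
  have n0 : (0 : ℝ) < n := by exact_mod_cast hn
  have h : |u ⬝ᵥ w| ≤ e * √n * (c * √n) :=
    (abs_dot_le u w).trans (mul_le_mul hu hw (nrm_nonneg _) (by positivity))
  rw [mul_mul_mul_comm, Real.mul_self_sqrt n0.le] at h
  rw [avg, abs_div, abs_of_pos n0, div_le_iff₀ n0]
  exact h

/-- `X'` is `ε`-close to `X` -/
def Cl (ε : ℝ) (X X' : Nt ι) : Prop := ∀ n J a, nrm (X n J a - X' n J a) ≤ ε * √n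
/-- approximable by smooth networks -/
def Ax (X : Nt ι) : Prop := ∀ ε > (0 : ℝ), ∃ X', Nw True X' ∧ Cl ε X X'
/-- approximable by bounded smooth networks -/
def AxB (X : Nt ι) : Prop := ∀ ε > (0 : ℝ), ∃ X', Nw True X' ∧ Bd X' ∧ Cl ε X X'

lemma bd_pos {X : Nt ι} (h : Bd X) : ∃ M > (0 : ℝ), ∀ n J a i, |X n J a i| ≤ M :=
  let ⟨M, hM⟩ := h
  ⟨max M 1, lt_max_of_lt_right one_pos, fun n J a i => (hM n J a i).trans (le_max_left _ _)⟩

lemma map_step {m : ℕ} {φ : (Fin m → ℝ) → ℝ} {X : Fin m → Nt ι} (h : OL φ) (hX : ∀ l, Ax (X l))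
    {ε : ℝ} (hε : 0 < ε) : ∃ X' : Nt ι, Nw True X' ∧ ((∃ M, ∀ u, |φ u| ≤ M) → Bd X') ∧
      Cl ε (fun n J a i => φ fun l => X l n J a i) X' := by
  obtain ⟨ψ, h1, h2, h3⟩ := mol h (half_pos hε)
  obtain ⟨-, L, hL⟩ := h
  have he : 0 < ε / 2 / (L * m + 1) := by positivity
  choose X' k1 k2 using fun l => hX l _ he
  refine ⟨_, Nw.map ψ X' h1 (fun _ => h2) k1, fun ⟨M, hM⟩ => ⟨M + ε / 2, fun n J a i => ?_⟩,
    fun n J a => ?_⟩
  · have a1 := abs_le.1 (hM fun l => X' l n J a i)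
    have a2 := abs_le.1 (h3 fun l => X' l n J a i)
    rw [abs_le]; constructor <;> linarith [a1.1, a1.2, a2.1, a2.2]
  have e : ∀ i, |((fun i => φ fun l => X l n J a i) - fun i => ψ fun l => X' l n J a i) i| ≤
      ((L : ℝ) • (∑ l, fun i => |(X l n J a - X' l n J a) i|) + fun _ => ε / 2 : V n) i := by
    intro i
    have a1 := hL.dist_le_mul (fun l => X l n J a i) fun l => X' l n J a i
    have a2 : dist (fun l => X l n J a i) (fun l => X' l n J a i) ≤
        ∑ l, |X l n J a i - X' l n J a i| :=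
      (dist_pi_le_iff (by positivity)).2 fun l => Finset.single_le_sum
        (f := fun l => |X l n J a i - X' l n J a i|) (fun _ _ => abs_nonneg _) (Finset.mem_univ l)
    have a3 := abs_sub_le (φ fun l => X l n J a i) (φ fun l => X' l n J a i)
      (ψ fun l => X' l n J a i)
    rw [Real.dist_eq] at a1
    simp only [Pi.add_apply, Pi.sub_apply, Pi.smul_apply, Finset.sum_apply, smul_eq_mul]
    linarith [h3 fun l => X' l n J a i, mul_le_mul_of_nonneg_left a2 L.coe_nonneg]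
  refine (nrm_mono e).trans ((nrm_add_le _ _).trans ?_)
  rw [nrm_const (half_pos hε).le, nrm_smul, abs_of_nonneg L.coe_nonneg]
  have s1 : nrm (∑ l, fun i => |(X l n J a - X' l n J a) i|) ≤ m * (ε / 2 / (L * m + 1) * √n) := by
    refine (nrm_sum_le _ _).trans ((Finset.sum_le_sum fun l _ =>
      (nrm_abs _).trans_le (k2 l n J a)).trans_eq ?_)
    rw [Finset.sum_const, Finset.card_univ, Fintype.card_fin, nsmul_eq_mul]
  have s2 : (L : ℝ) * m * (ε / 2 / (L * m + 1)) ≤ ε / 2 := by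
    rw [← mul_div_assoc, div_le_iff₀ (by positivity)]; nlinarith
  nlinarith [mul_le_mul_of_nonneg_left s1 L.coe_nonneg,
    mul_le_mul_of_nonneg_right s2 (Real.sqrt_nonneg n)]

lemma Ax.bd {X : Nt ι} (h : Ax X) (hb : Bd X) : AxB X := fun ε hε => by
  obtain ⟨M, M0, hM⟩ := bd_pos hb
  have ho : OL fun u : Fin 1 → ℝ => max (-M) (min M (u 0)) := by
    refine ⟨fun u => ?_, _, ((LipschitzWith.eval (α := fun _ : Fin 1 => ℝ) 0).const_min M).const_max
      (-M)⟩
    simp only [Pi.neg_apply, max_def, min_def]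
    split_ifs <;> linarith
  obtain ⟨X', k1, k2, k3⟩ := map_step (X := fun _ => X) ho (fun _ => h) hε
  refine ⟨X', k1, k2 ⟨M, fun u => abs_le.2 ⟨le_max_left _ _, max_le (by linarith) (min_le_left _ _)⟩⟩,
    fun n J a => ?_⟩
  convert k3 n J a using 3
  funext i
  have := abs_le.1 (hM n J a i)
  show _ = max (-M) (min M (X n J a i))
  rw [min_eq_right this.2, max_eq_right this.1]

lemma sc_step {X Y Z : Nt ι} (hX : AxB X) (hY : AxB Y) (hZ : AxB Z) (bY : Bd Y) (bZ : Bd Z) :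
    Ax fun n J a => avg (X n J a * Y n J a) • Z n J a := fun ε hε => by
  obtain ⟨b, b0, hb⟩ := bd_pos bY
  obtain ⟨c, c0, hc⟩ := bd_pos bZ
  obtain ⟨X', x1, x2, x3⟩ := hX (ε / 3 / (b * c)) (by positivity)
  obtain ⟨p, p0, hp⟩ := bd_pos x2
  obtain ⟨Y', y1, y2, y3⟩ := hY (ε / 3 / (p * c)) (by positivity)
  obtain ⟨q, q0, hq⟩ := bd_pos y2
  obtain ⟨Z', z1, z2, z3⟩ := hZ (ε / 3 / (p * q)) (by positivity)
  refine ⟨_, Nw.sc X' Y' Z' x1 y1 z1 x2 y2 z2, fun n J a => ?_⟩
  have e : avg (X n J a * Y n J a) • Z n J a - avg (X' n J a * Y' n J a) • Z' n J a =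
      avg ((X n J a - X' n J a) * Y n J a) • Z n J a +
      avg ((Y n J a - Y' n J a) * X' n J a) • Z n J a +
      avg (X' n J a * Y' n J a) • (Z n J a - Z' n J a) := by
    have : avg (X n J a * Y n J a) = avg ((X n J a - X' n J a) * Y n J a) +
        avg ((Y n J a - Y' n J a) * X' n J a) + avg (X' n J a * Y' n J a) := by
      simp only [avg, ← add_div, ← Finset.sum_add_distrib, Pi.mul_apply, Pi.sub_apply]
      exact congrArg (· / (n : ℝ)) (Finset.sum_congr rfl fun i _ => by ring)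
    rw [this]; module
  have a1 := avg_le (by positivity) b0.le (x3 n J a) (nrm_bd b0.le (hb n J a))
  have a2 := avg_le (by positivity) p0.le (y3 n J a) (nrm_bd p0.le (hp n J a))
  have a3 := avg_le p0.le q0.le (nrm_bd p0.le (hp n J a)) (nrm_bd q0.le (hq n J a))
  have a4 := nrm_bd c0.le (hc n J a)
  have t1 := mul_le_mul a1 a4 (nrm_nonneg _) (by positivity)
  have t2 := mul_le_mul a2 a4 (nrm_nonneg _) (by positivity)
  have t3 := mul_le_mul a3 (z3 n J a) (nrm_nonneg _) (by positivity)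
  rw [show ε / 3 / (b * c) * b * (c * √n) = ε / 3 * √n by field_simp] at t1
  rw [show ε / 3 / (p * c) * p * (c * √n) = ε / 3 * √n by field_simp] at t2
  rw [show p * q * (ε / 3 / (p * q) * √n) = ε / 3 * √n by field_simp] at t3
  show nrm (_ - _) ≤ _
  rw [e]
  refine (nrm_add_le _ _).trans ((add_le_add_left (nrm_add_le _ _) _).trans ?_)
  rw [nrm_smul, nrm_smul, nrm_smul]
  linarith

lemma ax (h : LipStmt) {X : Nt ι} (hX : Nw False X) : Ax X := by
  induction hX with
  | inp j => exact fun ε hε => ⟨_, Nw.inp j, fun n J a => by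
      rw [sub_self, nrm_zero]; positivity⟩
  | map φ X h1 _ _ ih => exact fun ε hε =>
      let ⟨X', k1, _, k3⟩ := map_step h1 ih hε
      ⟨X', k1, k3⟩
  | mul X _ hb ih =>
    intro ε hε
    obtain ⟨X', k1, k2, k3⟩ := ih.bd hb (ε / 3) (by positivity)
    refine ⟨_, Nw.mul X' k1 k2, fun n J a => ?_⟩
    show nrm (_ - _) ≤ _
    rw [← mulVec_sub]
    refine (nrm_mulVec_le _ _).trans ((mul_le_mul (h.tJ_le n J).1 (k3 n J a) (nrm_nonneg _)
      zero_le_three).trans_eq (by ring))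
  | sc X Y Z _ _ _ bX bY bZ iX iY iZ => exact sc_step (iX.bd bX) (iY.bd bY) (iZ.bd bZ) bY bZ

end Mol62

theorem molGlue : MolGlue := fun h ι X hX ε hε => by
  by_cases hb : Bd X
  · obtain ⟨X', k1, k2, k3⟩ := (Mol62.ax h hX).bd hb ε hε
    exact ⟨X', k1, fun _ => k2, k3⟩
  · obtain ⟨X', k1, k3⟩ := Mol62.ax h hX ε hε
    exact ⟨X', k1, fun k => absurd k hb, k3⟩

end Crest.Agent.T157.Z

end
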