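import Crest.Agent.T157.ZDef_73
import Crest.Agent.T157.TapPl_37
import Crest.Agent.T157.NrmG_84

/-!
# Row 157, part B, package (Z): uniform integrability of the networks (helper33)
-/

set_option autoImplicit false
set_option linter.unusedSectionVars false

noncomputable section

namespace Crest.Agent.T157.Z

open MeasureTheory ProbabilityTheory Matrix Filter Set Topology
open Crest.ProbabilityR.SpinGlassDynamics
open Crest.Agent.T157.E Crest.Agent.T157.Eig Crest.Agent.T157.Tap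
open Crest.Agent.T157.Conc (en ELip)

namespace UI33

variable {n : ℕ}

/-! ### clipping -/

lemma clip_lip (M a b : ℝ) (hM : 0 ≤ M) :
    |(a - max (-M) (min M a)) - (b - max (-M) (min M b))| ≤ |a - b| := by
  rcases le_total M a with h1 | h1 <;> rcases le_total M b with h2 | h2 <;>
  rcases le_total (-M) a with h3 | h3 <;> rcases le_total (-M) b with h4 | h4 <;>
  simp only [max_def, min_def] <;> split_ifs <;>
  (rw [abs_le]; constructor <;> cases abs_cases (a - b) <;> linarith)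

lemma clip_sq (M a : ℝ) (hM : 0 ≤ M) :
    (a - max (-M) (min M a)) ^ 2 ≤ 2 * Real.exp (-M) * (Real.exp a + Real.exp (-a)) := by
  have k : ∀ u : ℝ, 0 ≤ u → u ^ 2 ≤ 2 * Real.exp u := fun u hu => by
    have := Real.quadratic_le_exp_of_nonneg hu
    nlinarith
  have h1 := Real.exp_pos a
  have h2 := Real.exp_pos (-a)
  have h3 := Real.exp_pos (-M)
  rcases le_total M a with h | h
  · rw [min_eq_left h, max_eq_right (by linarith)]
    have := k (a - M) (by linarith)
    rw [sub_eq_add_neg a M, Real.exp_add] at this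
    rw [sub_eq_add_neg a M]
    nlinarith [mul_pos h3 h2]
  · rw [min_eq_right h]
    rcases le_total (-M) a with h' | h'
    · rw [max_eq_right h', sub_self, zero_pow two_ne_zero]; positivity
    · rw [max_eq_left h']
      have := k (-a + -M) (by linarith)
      rw [Real.exp_add] at this
      nlinarith [mul_pos h3 h1]

lemma nrm_mono {u v : V n} (h : ∀ i, |u i| ≤ |v i|) : nrm u ≤ nrm v :=
  Real.sqrt_le_sqrt (Finset.sum_le_sum fun i _ => by
    rw [← sq, ← sq]; exact sq_le_sq.2 (h i))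

lemma abs_nrm_sub_le (u v : V n) : |nrm u - nrm v| ≤ nrm (u - v) := by
  simpa only [Nrm.en_eq_nrm] using Conc.abs_en_sub_le u v

lemma cp_sign {s : V n} (hs : Pl.IsSign s) {M : ℝ} (hM : 0 ≤ M) (v : V n) :
    s * v - cp M (s * v) = s * (v - cp M v) := by
  funext i
  simp only [cp, Pi.sub_apply, Pi.mul_apply]
  rcases hs i with h | h <;> rw [h]
  · simp
  · simp only [max_def, min_def]
    split_ifs <;> linarith

lemma continuous_cp (M : ℝ) : Continuous (cp M : V n → V n) := by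
  unfold cp; fun_prop

lemma en_comp_le {κ κ' : Type*} [Fintype κ] [Fintype κ'] (f : κ' → κ) (hf : Function.Injective f)
    (w : κ → ℝ) : en (fun k => w (f k)) ≤ en w := by
  refine Real.sqrt_le_sqrt ?_
  have := Finset.sum_map Finset.univ ⟨f, hf⟩ fun k => w k ^ 2
  simp only [Function.Embedding.coeFn_mk] at this
  rw [← this]
  exact Finset.sum_le_sum_of_subset_of_nonneg (Finset.subset_univ _) fun _ _ _ => sq_nonneg _

/-! ### the Gaussian core -/

lemma core {κ : Type*} [Fintype κ] (Y : (κ → ℝ) → V n) {C K M ε : ℝ} (hn : 0 < n)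
    (hε : 0 < ε) (hM : 0 ≤ M) (hL : ∀ ω ω', nrm (Y ω - Y ω') ≤ C * en (ω - ω'))
    (hK : ∀ k, |∫ ω, Y ω k ∂gv κ| ≤ K) (hMK : 4 * Real.exp (K + C ^ 2 / 2 - M) ≤ ε ^ 2 / 4) :
    (gv κ).real {ω | ¬ nrm (Y ω - cp M (Y ω)) ≤ ε * √n} ≤
      Real.exp (-(ε ^ 2 / (8 * C ^ 2)) * n) := by
  have hk : ∀ k, ELip C fun ω => Y ω k := fun k ω ω' =>
    (abs_apply_le_nrm (Y ω - Y ω') k).trans (hL ω ω')
  have hf : ELip C fun ω => nrm (Y ω - cp M (Y ω)) := fun ω ω' =>
    (abs_nrm_sub_le _ _).trans ((nrm_mono fun i => clip_lip M _ _ hM).trans (hL ω ω'))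
  have hE : ∀ k (s : ℝ), |s| = 1 → ∫ ω, Real.exp (s * Y ω k) ∂gv κ ≤ Real.exp (K + C ^ 2 / 2) := by
    intro k s hs
    have h1 := Conc.mgf_lip (hk k) s
    have e : ∀ ω, Real.exp (s * Y ω k) = Real.exp (s * ∫ y, Y y k ∂gv κ) *
        Real.exp (s * (Y ω k - ∫ y, Y y k ∂gv κ)) := fun ω => by
      rw [← Real.exp_add]; congr 1; ring
    simp only [e]
    rw [integral_const_mul, Real.exp_add]
    have h2 : s ^ 2 = 1 := by rw [← sq_abs, hs]; norm_num
    rw [h2, mul_one] at h1
    refine mul_le_mul (Real.exp_le_exp.2 ?_) h1 (integral_nonneg fun _ => (Real.exp_pos _).le)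
      (Real.exp_pos _).le
    refine (le_abs_self _).trans ?_
    rw [abs_mul, hs, one_mul]; exact hK k
  have hr : 0 < √(n : ℝ) := Real.sqrt_pos.2 (Nat.cast_pos.2 hn)
  have hr2 : √(n : ℝ) * √n = n := Real.mul_self_sqrt (Nat.cast_nonneg n)
  have hI : ∀ k, Integrable (fun ω => 2 * Real.exp (-M) *
      (Real.exp (1 * Y ω k) + Real.exp (-1 * Y ω k))) (gv κ) := fun k =>
    (((hk k).integrable_exp 1).add ((hk k).integrable_exp (-1))).const_mul _
  have hm : ∫ ω, nrm (Y ω - cp M (Y ω)) ∂gv κ ≤ ε * √n / 2 := by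
    have h1 : ∫ ω, nrm (Y ω - cp M (Y ω)) ∂gv κ ≤ ∫ ω, ((∑ k, 2 * Real.exp (-M) *
        (Real.exp (1 * Y ω k) + Real.exp (-1 * Y ω k))) / (ε * √n) + ε * √n / 4) ∂gv κ := by
      refine integral_mono hf.integrable (((integrable_finsetSum _ fun k _ => hI k).div_const
        _).add (integrable_const _)) fun ω => ?_
      have h2 : nrm (Y ω - cp M (Y ω)) ^ 2 ≤ ∑ k, 2 * Real.exp (-M) *
          (Real.exp (1 * Y ω k) + Real.exp (-1 * Y ω k)) := by
        rw [nrm_sq]
        refine Finset.sum_le_sum fun k _ => ?_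
        rw [← sq, one_mul, neg_one_mul]
        exact clip_sq M _ hM
      have h3 : 0 < ε * √n := mul_pos hε hr
      simp only
      rw [div_add' _ _ _ h3.ne', le_div_iff₀ h3]
      nlinarith [sq_nonneg (nrm (Y ω - cp M (Y ω)) - ε * √n / 2)]
    refine h1.trans ?_
    rw [integral_add ((integrable_finsetSum _ fun k _ => hI k).div_const _) (integrable_const _),
      integral_div, integral_finsetSum _ fun k _ => hI k]
    simp only [integral_const, probReal_univ, one_smul]
    have h4 : ∑ k, ∫ ω, 2 * Real.exp (-M) * (Real.exp (1 * Y ω k) + Real.exp (-1 * Y ω k)) ∂gv κ ≤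
        ∑ _k : Fin n, ε ^ 2 / 4 := by
      refine Finset.sum_le_sum fun k _ => le_trans ?_ hMK
      rw [integral_const_mul, integral_add ((hk k).integrable_exp 1) ((hk k).integrable_exp (-1)),
        sub_eq_add_neg, Real.exp_add]
      have a1 := hE k 1 (by simp)
      have a2 := hE k (-1) (by simp)
      nlinarith [Real.exp_pos (-M)]
    simp only [Finset.sum_const, Finset.card_univ, Fintype.card_fin, nsmul_eq_mul] at h4
    have h5 : (n : ℝ) * (ε ^ 2 / 4) / (ε * √n) = ε * √n / 4 := by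
      rw [div_eq_iff (mul_pos hε hr).ne']
      nth_rewrite 1 [← hr2]; ring
    have := div_le_div_of_nonneg_right h4 (mul_pos hε hr).le
    linarith
  refine le_trans (measureReal_mono fun ω hω => ?_)
    ((Conc.tail_lip hf (t := ε * √n / 2) (by positivity)).trans_eq ?_)
  · have := not_le.1 hω
    simp only [mem_ofPred_eq]
    linarith
  · congr 1
    rw [div_pow, mul_pow, Real.sq_sqrt (Nat.cast_nonneg n)]
    ring

/-! ### permutations of the sites -/

/-- the action on pairs -/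
def pe (e : Equiv.Perm (Fin n)) (p : Pair n) : Pair n :=
  if h : e p.1.1 < e p.1.2 then ⟨(e p.1.1, e p.1.2), h⟩ else
    ⟨(e p.1.2, e p.1.1), lt_of_le_of_ne (not_lt.1 h) fun h' => p.2.ne' (e.injective h')⟩

lemma pe_inj (e : Equiv.Perm (Fin n)) : Function.Injective (pe e) := by
  rintro ⟨⟨a, b⟩, p⟩ ⟨⟨a', b'⟩, q⟩ h
  simp only [pe] at h p q
  split_ifs at h <;> simp only [Subtype.mk.injEq, Prod.mk.injEq, e.injective.eq_iff] at h ⊢ <;>
    omega

lemma Jmat_pe_lt (e : Equiv.Perm (Fin n)) (g : Pair n → ℝ) {i j : Fin n} (h : i < j) :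
    Jmat n g (e i) (e j) = g (pe e ⟨(i, j), h⟩) / √n := by
  simp only [pe]
  split_ifs with h'
  · exact Jmat_apply_lt g h'
  · exact Jmat_apply_gt g _

lemma Jmat_pe (e : Equiv.Perm (Fin n)) (g : Pair n → ℝ) :
    Jmat n (fun p => g (pe e p)) = (Jmat n g).submatrix e e := by
  ext i j
  rw [submatrix_apply]
  rcases lt_trichotomy i j with h | rfl | h
  · rw [Jmat_apply_lt _ h, Jmat_pe_lt e g h]
  · simp only [Jmat_diag]
  · rw [Jmat_apply_gt _ h, Jmat_symm g, Jmat_pe_lt e g h]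

/-! ### the planted word -/

variable {ι : Type} [Fintype ι]

/-- the word in the planted model, gauge fixed -/
def YY (β : ℝ) (c d : ι → ℝ) (X : Nt ι) (n : ℕ) (ω : Pair n ⊕ ι × Fin n → ℝ) : V n :=
  X n (β • Jmat n ((fun p => ω (.inl p)) + fun _ => Pl.th n β)) (rows c d 1 fun q => ω (.inr q))

lemma nrm_row (w : ι × Fin n → ℝ) (l : ι) : nrm (fun i => w (l, i)) ≤ en w := by
  rw [← Nrm.en_eq_nrm]
  exact en_comp_le (fun i => (l, i)) (fun _ _ h => (Prod.mk.inj h).2) w

lemma nrm_one : nrm (1 : V n) = √n := by simp [nrm]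

lemma nA_rows (c d : ι → ℝ) (w : ι × Fin n → ℝ) :
    nA (rows c d (1 : V n) w) ≤ (∑ l, |c l|) * √n + (∑ l, |d l|) * en w := by
  rw [nA, Finset.sum_mul, Finset.sum_mul, ← Finset.sum_add_distrib]
  refine Finset.sum_le_sum fun l _ => ?_
  have : rows c d (1 : V n) w l = c l • (1 : V n) + d l • fun i => w (l, i) := rfl
  rw [this]
  refine (nrm_add_le _ _).trans ?_
  rw [nrm_smul, nrm_smul, nrm_one]
  exact add_le_add le_rfl (mul_le_mul_of_nonneg_left (nrm_row w l) (abs_nonneg _))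

lemma rows_sub (c d : ι → ℝ) (w w' : ι × Fin n → ℝ) :
    rows c d (1 : V n) w - rows c d 1 w' = rows 0 d 1 (w - w') := by
  funext l i; simp only [rows, Pi.sub_apply, Pi.zero_apply]; ring

lemma sqrt_two_le : √(n : ℝ) * √(2 / n) ≤ 2 := by
  rw [← Real.sqrt_mul (Nat.cast_nonneg n)]
  refine Real.sqrt_le_iff.2 ⟨by norm_num, ?_⟩
  rcases Nat.eq_zero_or_pos n with h | h
  · simp [h]
  · rw [mul_div_cancel₀ _ (Nat.cast_pos.2 h).ne']; norm_num

variable {β : ℝ} {c d : ι → ℝ} {X : Nt ι} {L : ℝ}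

lemma YY_lip (hβ : β ∈ Icc (0 : ℝ) 1) (hL0 : 0 ≤ L) (hL : ∀ n J J' a a',
    nrm (X n J a - X n J' a') ≤ L * (nA (a - a') + √n * opn (J - J'))) (ω ω' : _ → ℝ) :
    nrm (YY β c d X n ω - YY β c d X n ω') ≤ (L * (∑ l, |d l| + 2) + 1) * en (ω - ω') := by
  refine (hL _ _ _ _ _).trans ?_
  rw [rows_sub, ← smul_sub, Nrm.Jmat_sub, add_sub_add_right_eq_sub, opn_smul, abs_of_nonneg hβ.1]
  have h1 := nA_rows (n := n) 0 d ((fun q => ω (.inr q)) - fun q => ω' (.inr q))
  have h2 : en ((fun q => ω (.inr q)) - fun q => ω' (.inr q)) ≤ en (ω - ω') :=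
    en_comp_le Sum.inr Sum.inr_injective (ω - ω')
  have h3 : en ((fun p => ω (.inl p)) - fun p => ω' (.inl p)) ≤ en (ω - ω') :=
    en_comp_le Sum.inl Sum.inl_injective (ω - ω')
  have h4 := Nrm.opn_Jmat_le ((fun p => ω (.inl p)) - fun p => ω' (.inl p))
  have h0 := Conc.en_nonneg (ω - ω')
  have hd : 0 ≤ ∑ l, |d l| := Finset.sum_nonneg fun _ _ => abs_nonneg _
  simp only [Pi.zero_apply, abs_zero, Finset.sum_const_zero, zero_mul, zero_add] at h1
  have h5 : √(n : ℝ) * (β * opn (Jmat n ((fun p => ω (.inl p)) - fun p => ω' (.inl p)))) ≤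
      2 * en (ω - ω') := by
    calc _ ≤ √(n : ℝ) * (1 * (√(2 / n) * en (ω - ω'))) :=
          mul_le_mul_of_nonneg_left (mul_le_mul hβ.2 (h4.trans
            (mul_le_mul_of_nonneg_left h3 (Real.sqrt_nonneg _))) (opn_nonneg _) zero_le_one)
            (Real.sqrt_nonneg _)
      _ ≤ _ := by
          rw [one_mul, ← mul_assoc]; exact mul_le_mul_of_nonneg_right sqrt_two_le h0
  have h6 := h1.trans (mul_le_mul_of_nonneg_left h2 hd)
  have h7 := mul_le_mul_of_nonneg_left (add_le_add h6 h5) hL0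
  nlinarith

lemma YY_nrm (hL0 : 0 ≤ L) (hL : ∀ n J J' a a',
    nrm (X n J a - X n J' a') ≤ L * (nA (a - a') + √n * opn (J - J')))
    (ho : ∀ n J a, X n J (-a) = -X n J a) (ω : _ → ℝ) :
    nrm (YY β c d X n ω) ≤ L * ((∑ l, |c l|) * √n + (∑ l, |d l|) * en fun q => ω (.inr q)) := by
  have z : ∀ J, X n J 0 = 0 := fun J => by
    have := ho n J 0
    rw [neg_zero] at this
    funext i
    have := congrFun this i
    simp only [Pi.neg_apply] at this
    simp only [Pi.zero_apply]; linarith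
  have := hL n (β • Jmat n ((fun p => ω (.inl p)) + fun _ => Pl.th n β))
    (β • Jmat n ((fun p => ω (.inl p)) + fun _ => Pl.th n β)) (rows c d 1 fun q => ω (.inr q)) 0
  rw [z, sub_zero, sub_zero, sub_self, opn_zero, mul_zero, add_zero] at this
  exact this.trans (mul_le_mul_of_nonneg_left (nA_rows c d _) hL0)

lemma YY_perm (hp : ∀ n (J : Mx n) a (e : Equiv.Perm (Fin n)),
    X n (J.submatrix e e) (fun l => a l ∘ e) = X n J a ∘ e) (e : Equiv.Perm (Fin n)) (ω : _ → ℝ) :
    YY β c d X n (fun k => ω (Sum.map (pe e) (Prod.map id e) k)) = YY β c d X n ω ∘ e := by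
  rw [YY, YY, ← hp]
  congr 1
  rw [submatrix_smul, Pi.smul_apply, Pi.smul_apply, ← Jmat_pe]
  rfl

lemma mean_le (hn : 0 < n) (hβ : β ∈ Icc (0 : ℝ) 1) (hL0 : 0 ≤ L) (hL : ∀ n J J' a a',
    nrm (X n J a - X n J' a') ≤ L * (nA (a - a') + √n * opn (J - J')))
    (ho : ∀ n J a, X n J (-a) = -X n J a) (hp : ∀ n (J : Mx n) a (e : Equiv.Perm (Fin n)),
    X n (J.submatrix e e) (fun l => a l ∘ e) = X n J a ∘ e) (k : Fin n) :
    |∫ ω, YY β c d X n ω k ∂gv _| ≤ L * (∑ l, |c l| + (∑ l, |d l|) * √(Fintype.card ι)) := by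
  classical
  have hk : ∀ k, ELip _ fun ω => YY β c d X n ω k := fun k ω ω' =>
    (abs_apply_le_nrm (YY β c d X n ω - YY β c d X n ω') k).trans (YY_lip hβ hL0 hL ω ω')
  have he : ∀ j, ∫ ω, YY β c d X n ω j ∂gv _ = ∫ ω, YY β c d X n ω k ∂gv _ := fun j => by
    have mp := R339.Guerra.mp_comp (Sum.map (pe (Equiv.swap k j)) (Prod.map (id : ι → ι)
      (Equiv.swap k j))) ((pe_inj _).sumMap (Function.injective_id.prodMap (Equiv.injective _)))
    have := integral_map (μ := gv _) mp.measurable.aemeasurable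
      (f := fun ω => YY β c d X n ω k) (hk k).continuous.aestronglyMeasurable
    rw [mp.map_eq] at this
    rw [this]
    simp only [YY_perm hp, Function.comp_apply, Equiv.swap_apply_left]
  have hr : 0 < √(n : ℝ) := Real.sqrt_pos.2 (Nat.cast_pos.2 hn)
  have hr2 : √(n : ℝ) * √n = n := Real.mul_self_sqrt (Nat.cast_nonneg n)
  have mp := R339.Guerra.mp_comp (Sum.inr : ι × Fin n → Pair n ⊕ ι × Fin n) Sum.inr_injective
  have hi : Integrable (fun ω : Pair n ⊕ ι × Fin n → ℝ => en fun q => ω (.inr q)) (gv _) :=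
    mp.integrable_comp_of_integrable Conc.elip_en.integrable
  have h1 : ∫ ω : Pair n ⊕ ι × Fin n → ℝ, en (fun q => ω (.inr q)) ∂gv _ ≤
      √(Fintype.card ι) * √n := by
    have := integral_map (μ := gv _) mp.measurable.aemeasurable
      (f := en) Conc.continuous_en.aestronglyMeasurable
    rw [mp.map_eq] at this
    rw [← this, ← Real.sqrt_mul (Nat.cast_nonneg _)]
    have h := Nrm.integral_nrm_le (ι := ι × Fin n)
    simp only [Fintype.card_prod, Fintype.card_fin, Nat.cast_mul, ← Nrm.en_eq_nrm] at h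
    exact h
  have h2 : (n : ℝ) * ∫ ω, YY β c d X n ω k ∂gv _ = ∫ ω, ∑ j, YY β c d X n ω j ∂gv _ := by
    rw [integral_finsetSum _ fun j _ => (hk j).integrable]
    simp [he]
  have h3 : |∫ ω, ∑ j, YY β c d X n ω j ∂gv _| ≤ ∫ ω : Pair n ⊕ ι × Fin n → ℝ,
      √n * (L * ((∑ l, |c l|) * √n + (∑ l, |d l|) * en fun q => ω (.inr q))) ∂gv _ := by
    refine norm_integral_le_of_norm_le (f := fun ω => ∑ j, YY β c d X n ω j)
      ((((integrable_const _).add (hi.const_mul _)).const_mul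
      _).const_mul _) (.of_forall fun ω => ?_)
    have := abs_dot_le 1 (YY β c d X n ω)
    rw [nrm_one, one_dotProduct] at this
    exact this.trans (mul_le_mul_of_nonneg_left (YY_nrm hL0 hL ho ω) hr.le)
  rw [integral_const_mul, integral_const_mul, integral_add (integrable_const _) (hi.const_mul _),
    integral_const_mul, integral_const_mul, ← h2, abs_mul, Nat.abs_cast] at h3
  simp only [integral_const, probReal_univ, one_smul] at h3
  have hd : 0 ≤ ∑ l, |d l| := Finset.sum_nonneg fun _ _ => abs_nonneg _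
  refine le_of_mul_le_mul_left (h3.trans ?_) (Nat.cast_pos.2 hn)
  calc _ ≤ √n * (L * ((∑ l, |c l|) * √n + (∑ l, |d l|) * (√(Fintype.card ι) * √n))) := by gcongr
    _ = √n * √n * (L * (∑ l, |c l| + (∑ l, |d l|) * √(Fintype.card ι))) := by ring
    _ = _ := by rw [hr2]

end UI33

open UI33 in
theorem uiGlue : UIGlue := by
  intro hS _ ι _ β hβ c d X hX ε hε
  obtain ⟨L, hL0, hL⟩ := hS.lip ι False X hX
  set C := L * (∑ l, |d l| + 2) + 1 with hC
  set K := L * (∑ l, |c l| + (∑ l, |d l|) * √(Fintype.card ι)) with hK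
  have hd : 0 ≤ ∑ l, |d l| := Finset.sum_nonneg fun _ _ => abs_nonneg _
  have hC0 : 0 < C := by positivity
  obtain ⟨M, hM, hMK⟩ : ∃ M ≥ (0 : ℝ), 4 * Real.exp (K + C ^ 2 / 2 - M) ≤ ε ^ 2 / 4 := by
    refine ⟨max 0 (K + C ^ 2 / 2 - Real.log (ε ^ 2 / 16)), le_max_left _ _, ?_⟩
    have h1 : K + C ^ 2 / 2 - max 0 (K + C ^ 2 / 2 - Real.log (ε ^ 2 / 16)) ≤
        Real.log (ε ^ 2 / 16) := by linarith [le_max_right 0 (K + C ^ 2 / 2 - Real.log (ε ^ 2 / 16))]
    have h2 := Real.exp_le_exp.2 h1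
    rw [Real.exp_log (by positivity)] at h2
    linarith
  set κ := ε ^ 2 / (8 * C ^ 2) / 4 with hκ
  have hκ0 : 0 < κ := by positivity
  refine ⟨M, hM, κ, hκ0, ?_⟩
  have h1 := Pl.tendsto_LR_lt_exp false hβ.1 hβ.2 (A := fun n => κ * (n : ℝ) ^ (1 : ℝ)) (by
    have h := ((isLittleO_log_rpow_rpow_atTop 2 one_pos).tendsto_div_nhds_zero).comp
      tendsto_natCast_atTop_atTop
    have h2 : Tendsto (fun n : ℕ => Real.log n ^ (2 : ℝ) / (n : ℝ) ^ (1 : ℝ)) atTop (𝓝[>] 0) := by
      refine tendsto_nhdsWithin_iff.2 ⟨h, ?_⟩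
      filter_upwards [eventually_ge_atTop 2] with n hn
      have : (1 : ℝ) < n := by exact_mod_cast hn
      exact div_pos (Real.rpow_pos_of_pos (Real.log_pos this) _) (by positivity)
    refine (h2.inv_tendsto_nhdsGT_zero.const_mul_atTop hκ0).congr fun n => ?_
    rw [Pi.inv_apply, inv_div, mul_div_assoc, Real.rpow_two])
  refine Top.whp_of_real_le ((h1.add (TapPl.tendsto_exp_neg (κ := 2 * κ) (by positivity))).trans_eq
    (by simp)) ?_
  filter_upwards [eventually_gt_atTop 0] with n hn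
  have hc := hS.cont ι False X hX n
  have hB : IsOpen {p : Mx n × (ι → V n) | ¬ nrm (X n p.1 p.2 - cp M (X n p.1 p.2)) ≤ ε * √n} := by
    simp only [not_le]
    exact isOpen_lt continuous_const
      (continuous_nrm.comp (hc.sub ((continuous_cp M).comp hc)))
  have hJ : Continuous (Jmat n) := by
    refine continuous_pi fun i => continuous_pi fun j => ?_
    unfold Jmat; split_ifs <;> fun_prop
  have hR : ∀ σ : V n, Continuous (rows c d σ) := fun σ => by unfold rows; fun_prop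
  set S : Set ((Pair n → ℝ) × (ι × Fin n → ℝ)) := {z | ¬ nrm (X n (β • Jmat n (z.1 + fun _ =>
    Pl.th n β)) (rows c d 1 z.2) - cp M (X n (β • Jmat n (z.1 + fun _ => Pl.th n β))
      (rows c d 1 z.2))) ≤ ε * √n} with hSd
  have hSm : MeasurableSet S := (hB.preimage (f := fun z : (Pair n → ℝ) × (ι × Fin n → ℝ) =>
    (β • Jmat n (z.1 + fun _ => Pl.th n β), rows c d 1 z.2))
      (((hJ.comp (by fun_prop)).const_smul β).prodMk ((hR 1).comp continuous_snd))).measurableSet
  have hT := Pl.transfer_mean_inv false β (F := fun x g => (RL c d (sv x)).real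
      {a | ¬ nrm (X n (β • Jmat n g) a - cp M (X n (β • Jmat n g) a)) ≤ ε * √n})
    (G := fun ξ => (gv (ι × Fin n)).real {w | ¬ nrm (X n (β • Jmat n ξ) (rows c d 1 w) -
      cp M (X n (β • Jmat n ξ) (rows c d 1 w))) ≤ ε * √n}) (fun _ _ => measureReal_nonneg)
    (fun x ξ => by
      have hs : Pl.IsSign fun q : ι × Fin n => sv x q.2 := fun q => Pl.isSign_sv x q.2
      refine (map_measureReal_apply (hR _).measurable (hB.preimage
        (f := fun a => (β • Jmat n (Pl.tau x * ξ), a)) (by fun_prop)).measurableSet).trans ?_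
      refine congrArg ENNReal.toReal
        (((Pl.mp_sign_law false hs).measure_preimage_emb hs.emb _).symm.trans ?_)
      congr 1
      ext w
      have e1 : rows c d (sv x) ((fun q : ι × Fin n => sv x q.2) * w) =
          fun l => sv x * rows c d 1 w l := by
        funext l i; simp only [rows, Pi.mul_apply, Pi.one_apply]; ring
      have e2 : β • Jmat n (Pl.tau x * ξ) = diagonal (sv x) * (β • Jmat n ξ) * diagonal (sv x) := by
        rw [Pl.Jmat_gauge, Matrix.mul_smul, Matrix.smul_mul]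
      simp only [mem_preimage, mem_ofPred_eq, e1, e2, hS.gauge ι False X hX n _ _ _ (Pl.isSign_sv x),
        cp_sign (Pl.isSign_sv x) hM, TapPl.nrm_sign (Pl.isSign_sv x)])
    ((Pl.integrable_pl_false β _).2 (Measure.integrable_measure_prodMk_left
      (μ := gv (Pair n)) (ν := gv (ι × Fin n)) hSm (measure_ne_top _ _)))
    (Real.exp_pos (-κ * n)) (Real.exp_pos (-(κ * (n : ℝ) ^ (1 : ℝ))))
  refine le_trans (measureReal_mono fun g hg => (not_le.1 hg).le) (hT.trans (add_le_add le_rfl ?_))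
  have hI : ∫ ξ, (gv (ι × Fin n)).real {w | ¬ nrm (X n (β • Jmat n ξ) (rows c d 1 w) -
      cp M (X n (β • Jmat n ξ) (rows c d 1 w))) ≤ ε * √n} ∂Pl.pl false n β =
      ((gv (Pair n)).prod (gv (ι × Fin n))).real S := by
    rw [Pl.integral_pl_false, Measure.real, Measure.prod_apply hSm, ← integral_toReal
      (measurable_measure_prodMk_left hSm).aemeasurable (.of_forall fun _ => measure_lt_top _ _)]
    rfl
  have hP : ((gv (Pair n)).prod (gv (ι × Fin n))).real S ≤ Real.exp (-(ε ^ 2 / (8 * C ^ 2)) * n) := by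
    refine le_of_eq_of_le ?_ (core (YY β c d X n) hn hε hM (YY_lip hβ hL0 hL)
      (mean_le hn hβ hL0 hL (hS.odd ι False X hX) (hS.perm ι False X hX)) hMK)
    exact congrArg ENNReal.toReal ((measurePreserving_sumPiEquivProdPi
      (fun _ : Pair n ⊕ ι × Fin n => gaussianReal 0 1)).measure_preimage_equiv S).symm
  rw [hI, div_le_iff₀ (by positivity), ← Real.exp_add, ← Real.exp_add, Real.rpow_one]
  refine hP.trans (le_of_eq ?_)
  congr 1
  rw [hκ]; ring

end Crest.Agent.T157.Z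

end
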