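import Crest.Agent.T157.ZLip_85
import Crest.Agent.T157.ZHp_58
import Crest.Agent.T157.ZApA_48
import Crest.Agent.T157.ZApB_11
import Crest.Agent.T157.ZUI_33
import Crest.Agent.T157.ZMol_62
import Crest.Agent.T157.ZCM_75

/-!
# Row 157, part B, package (Z) (helper73): the network layer is unconditional; the seam words
-/

set_option autoImplicit false

noncomputable section

namespace Crest.Agent.T157.Z

open MeasureTheory ProbabilityTheory Matrix Filter Set
open Crest.ProbabilityR.SpinGlassDynamics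
open Crest.Agent.T157.E Crest.Agent.T157.Eig Crest.Agent.T157.Tap

theorem uiStmt : UIStmt := uiGlue lipStmt hpStmt
theorem molStmt : MolStmt := molGlue lipStmt
theorem apA : ApA := apAGlue lipStmt hpStmt uiStmt molStmt
theorem apB : ApB := apBGlue lipStmt hpStmt uiStmt apA
theorem bpStmt : BPStmt := bpGlue lipStmt hpStmt apA apB

variable {n : ℕ}

/-- a product sample with field `x`, read off the Gaussian label `w` -/
def smp (x w : V n) : Cube n :=
  fun i => decide (2 * cdf (gaussianReal 0 1) (w i) - 1 ≤ Real.tanh (x i))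

/-- the law of the sample -/
def SmpStmt : Prop := ∀ n : ℕ, Measurable (fun p : V n × V n => smp p.1 p.2) ∧
  ∀ (x : V n) (F : Cube n → ℝ), ∫ w, F (smp x w) ∂gv (Fin n) = mean (ising 0 x) F

/-- sampling with a fresh label preserves the approximable words -/
def ThStmt : Prop := ∀ (ι κ : Type) [Fintype ι] [Fintype κ], ∀ β ∈ Icc (0 : ℝ) 1, ∀ (c d : κ → ℝ)
  (f : ι ↪ κ) (j : κ), j ∉ range f → c j = 0 → d j = 1 → ∀ U : Nt ι, Ap β (c ∘ f) (d ∘ f) U →
  Ap β c d fun n J a => sv (smp (U n J fun l => a (f l)) (a j))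

/-- so does any symmetric positive square root of `J + 4` -/
def QStmt : Prop := ∀ (ι : Type) [Fintype ι], ∀ β ∈ Icc (0 : ℝ) 1, ∀ (c d : ι → ℝ)
  (Q : ∀ n, Mx n → Mx n), (∀ n (J : Mx n), Jᵀ = J → opn J ≤ 3 →
    (Q n J).PosSemidef ∧ Q n J * Q n J = J + (4 : ℝ) • (1 : Mx n)) →
  ∀ U : Nt ι, Ap β c d U → Ap β c d fun n J a => Q n J *ᵥ U n J a

/-- **the seam**: the field `ω` (entries of order one) is close in `L²(μ)` to averaged networks -/
def Seam (β : ℝ) (ω : ∀ n, Mx n → Cube n → V n) : Prop := ∀ ε > (0 : ℝ),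
  ∃ (m : ℕ) (X : Nt (Unit ⊕ Fin m)), Nw True X ∧ Bd X ∧ Top.Whp disorderLaw fun n g =>
    mean (gibbsWeight n β g) (fun x =>
      nrm (ω n (β • Jmat n g) x - Eb X n (β • Jmat n g) (sv x)) ^ 2) ≤ ε * n

/-- averages of bounded approximable words of the spin and of labels -/
def EbApStmt : Prop := ∀ β ∈ Icc (0 : ℝ) 1, ∀ (m : ℕ) (U : Nt (Unit ⊕ Fin m)), Bd U →
  (∀ n J, Measurable (U n J)) → Ap β (Sum.elim 1 0) (Sum.elim 0 1) U →
  Seam β fun n J x => Eb U n J (sv x)

end Crest.Agent.T157.Z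

end
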