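import Crest.Agent.T157.KTc_36
import Crest.Agent.T157.ZAll_73

/-!
# Row 157, part B, block S5 (helper4): the kernel and the channel preserve the thermal calculus
-/

set_option autoImplicit false

noncomputable section

namespace Crest.Agent.T157.K

open MeasureTheory ProbabilityTheory Matrix Set
open Crest.Agent.T157.E Crest.Agent.T157.Eig
open Crest.Agent.T157.Tap (V Mx)
open Crest.Agent.T157.Z (Nt Nw Bd cp Ap Hp Ty Rq EL lc apA apB hpStmt)
open Crest.Agent.T157.Zf (QQ Vf)
open Crest.Agent.R339.Guerra (mp_comp)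

namespace Tk4

variable {n : ℕ}

/-- two labels are two independent Gaussian vectors -/
theorem mp2 (n : ℕ) : MeasurePreserving
    (fun w : Fin 2 × Fin n → ℝ => ((fun i => w (0, i), fun i => w (1, i)) : V n × V n))
    (gv (Fin 2 × Fin n)) ((gv (Fin n)).prod (gv (Fin n))) :=
  (measurePreserving_sumPiEquivProdPi (X := fun _ : Fin n ⊕ Fin n => ℝ)
    fun _ => gaussianReal 0 1).comp
    (mp_comp (Sum.elim (Prod.mk (0 : Fin 2)) (Prod.mk (1 : Fin 2)) : Fin n ⊕ Fin n → Fin 2 × Fin n)
      (by rintro (i | i) (j | j) h <;> simp_all))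

theorem mp1 (n : ℕ) : MeasurePreserving (fun (w : Fin 1 × Fin n → ℝ) (i : Fin n) => w (0, i))
    (gv (Fin 1 × Fin n)) (gv (Fin n)) :=
  mp_comp (Prod.mk (0 : Fin 1)) (Prod.mk_right_injective _)

theorem ct : Continuous Real.tanh := by
  have : Real.tanh = fun x => Real.sinh x / Real.cosh x := funext Real.tanh_eq_sinh_div_cosh
  rw [this]
  exact Real.continuous_sinh.div Real.continuous_cosh fun x => (Real.cosh_pos x).ne'

theorem meas_mxs (S : SmmStmt) (J : Mx n) (a : ℝ) (s : Cube n) (y : V n) :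
    Measurable fun p : V n × V n => mxs J a s y p.1 p.2 := by
  have h : Continuous fun p : V n × V n =>
      a • sv s + (1 - a) • pt (QQ J) y (QQ J *ᵥ sv s + p.1) := by
    have h1 : Continuous fun p : V n × V n => y + QQ J *ᵥ (QQ J *ᵥ sv s + p.1) :=
      continuous_const.add (continuous_const.matrix_mulVec (continuous_const.add continuous_fst))
    have h2 : Continuous fun p : V n × V n => pt (QQ J) y (QQ J *ᵥ sv s + p.1) :=
      continuous_pi fun i => ct.comp ((continuous_apply i).comp h1)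
    exact continuous_const.add (h2.const_smul (1 - a))
  exact (S.meas n).comp (h.measurable.prodMk measurable_snd)

/-- the kernel is the mean over two labels -/
theorem ky_eq (S : SmmStmt) (P : PrStmt) (J : Mx n) (s : Cube n) (y : V n) (F : Cube n → ℝ) :
    ∫ w, F (mxs J 0 s y (fun i => w (0, i)) fun i => w (1, i)) ∂gv (Fin 2 × Fin n) =
      Ky (QQ J) y F s := by
  have hm : Measurable fun p : V n × V n => F (mxs J 0 s y p.1 p.2) :=
    (measurable_of_finite F).comp (meas_mxs S J 0 s y)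
  obtain ⟨B, hB⟩ := (Set.finite_range fun t => |F t|).bddAbove
  have hi : Integrable (fun p : V n × V n => F (mxs J 0 s y p.1 p.2))
      ((gv (Fin n)).prod (gv (Fin n))) :=
    (integrable_const B).mono' hm.aestronglyMeasurable (.of_forall fun p => hB ⟨_, rfl⟩)
  have e := integral_map (mp2 n).aemeasurable
    (f := fun p : V n × V n => F (mxs J 0 s y p.1 p.2)) hm.aestronglyMeasurable
  rw [(mp2 n).map_eq, integral_prod _ hi] at e
  rw [← e]
  refine integral_congr_ae (.of_forall fun z => ?_)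
  simp only [mxs, zero_smul, zero_add, sub_zero, one_smul]
  exact (S.law n (pt (QQ J) y (QQ J *ᵥ sv s + z)) F fun i => (Real.abs_tanh_lt_one _).le).trans
    (P.ml n F _).symm

/-- averaging a word of the spin and of its resampled copy -/
theorem av2 (T : TcStmt) (A : AvStmt) (S : SmmStmt) (P : PrStmt) {β r C : ℝ}
    (hβ : β ∈ Icc (0 : ℝ) 1) (G : ∀ n, Mx n → Cube n → V n → Cube n → V n)
    (h : TL β r 2 fun n J s y w => G n J s y (mxs J 0 s y (w 0) (w 1)))
    (hb : ∀ n J s y t, GJ J → nrm (G n J s y t) ≤ C * √n) :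
    TC β r fun n J s y j => Ky (QQ J) y (fun t => G n J s y t j) s := by
  have hm : ∀ (n : ℕ) (J : Mx n) (s : Cube n) (y : V n), Measurable fun w : Fin 2 × Fin n → ℝ =>
      G n J s y (mxs J 0 s y (fun i => w (0, i)) fun i => w (1, i)) := fun n J s y => by
    have h1 := (meas_mxs S J 0 s y).comp (mp2 n).measurable
    exact (measurable_of_finite (G n J s y)).comp h1
  have := A Bool β hβ (wc r) (wd r) 2 (fun n J a => G n J (cb (a (.inl true))) (a (.inl false))
    (mxs J 0 (cb (a (.inl true))) (a (.inl false)) (a (.inr 0)) (a (.inr 1)))) C h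
    (fun n J a _ => by simpa only [Sum.elim_inl, Sum.elim_inr] using hm n J (cb (a true)) (a false))
    fun n J a hJ => hb _ _ _ _ _ hJ
  simp only [Sum.elim_inl, Sum.elim_inr] at this
  refine T.congr β hβ r (fun n J s y j => ∫ w, G n J s y
    (mxs J 0 s y (fun i => w (0, i)) fun i => w (1, i)) j ∂gv (Fin 2 × Fin n)) _
    (fun n J _ => ?_) this
  ext s y j
  exact ky_eq S P J s y fun t => G n J s y t j

/-- the product of two clips -/
def pc (u : Fin 2 → ℝ) : ℝ := max (-1) (min 1 (u 0)) * max (-1) (min 1 (u 1))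

theorem el_pc : EL pc := by
  have hb : ∀ x : ℝ, |max (-1 : ℝ) (min 1 x)| ≤ 1 := fun x =>
    abs_le.2 ⟨le_max_left _ _, max_le (by norm_num) (min_le_left _ _)⟩
  have hc : ∀ l : Fin 2, LipschitzWith 1 fun v : Fin 2 → ℝ => max (-1 : ℝ) (min 1 (v l)) := fun l =>
    ((LipschitzWith.eval l).const_min 1).const_max _
  refine ⟨fun u => ?_, Z.ApB11.lip_mul (hc 0) (hc 1) (fun _ => hb _) fun _ => hb _, 1, fun u => ?_⟩
  · simp only [pc, Pi.neg_apply, Z.ApB11.clip_neg zero_le_one, neg_mul_neg]
  · rw [pc, abs_mul]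
    exact mul_le_one₀ (hb _) (abs_nonneg _) (hb _)

theorem sv_pm (s : Cube n) (i : Fin n) : sv s i = 1 ∨ sv s i = -1 := by
  unfold sv
  cases s i <;> simp [Crest.ProbabilityR.SpinGlassDynamics.spin]

theorem pc_sv (s t : Cube n) (i : Fin n) : pc ![sv s i, sv t i] = sv s i * sv t i := by
  rcases sv_pm s i with h | h <;> rcases sv_pm t i with h' | h' <;> simp [pc, h, h']

/-- multiplication by two spins -/
theorem ap_ss {ι : Type} [Fintype ι] {β : ℝ} (hβ : β ∈ Icc (0 : ℝ) 1) {c d : ι → ℝ}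
    {s t : ∀ n, Mx n → (ι → V n) → Cube n} {W : Nt ι} (hs : Ap β c d fun n J a => sv (s n J a))
    (ht : Ap β c d fun n J a => sv (t n J a)) (hW : Ap β c d W) :
    Ap β c d fun n J a j => sv (s n J a) j * (sv (t n J a) j * W n J a j) := by
  have h := apB.ev ι β hβ c d 2 pc ![fun n J a => sv (s n J a), fun n J a => sv (t n J a)] W el_pc
    (Fin.forall_fin_two.2 ⟨hs, ht⟩) hW
  convert h using 5 with n J a j
  rw [← mul_assoc, ← pc_sv]
  rfl

theorem nrm_sv (s : Cube n) (u : V n) : nrm (fun j => sv s j * u j) = nrm u := by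
  unfold nrm dotProduct
  refine congrArg _ (Finset.sum_congr rfl fun j _ => ?_)
  rcases sv_pm s j with h | h <;> simp [h]

theorem ky_mul (Q : Mx n) (y : V n) (c : ℝ) (F : Cube n → ℝ) (s : Cube n) :
    Ky Q y (fun t => c * F t) s = c * Ky Q y F s := by
  simp only [Ky, cav, mean]
  rw [← integral_const_mul]
  refine integral_congr_ae (.of_forall fun z => ?_)
  simp only [Finset.mul_sum]
  exact Finset.sum_congr rfl fun t _ => by ring

theorem tk (T : TcStmt) (A : AvStmt) (S : SmmStmt) (P : PrStmt) (R : RsStmt) : TkStmt := by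
  rintro β hβ r hr U hU ⟨C, hC⟩
  have h0 : (0 : ℝ) ∈ Icc (0 : ℝ) 1 := ⟨le_rfl, zero_le_one⟩
  have h1 := R β hβ r hr 0 h0 U hU
  refine ⟨av2 T A S P hβ (fun n J _ y t => U n J t y) h1 fun n J _ y t hJ => hC n J t y hJ, ?_⟩
  have h2 := R β hβ r hr 0 h0 _ (T.spin β hβ r)
  have h3 := T.tl β r 2 _ (T.spin β hβ r)
  have h5 := av2 T A S P hβ (C := C) (fun n J s y t j => sv s j * (sv t j * U n J t y j))
    (ap_ss hβ h3 h2 h1) fun n J s y t hJ => by rw [nrm_sv, nrm_sv]; exact hC n J t y hJ
  simpa only [ky_mul] using h5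

theorem sv_cb {v : V n} (h : ∀ i, v i = 1 ∨ v i = -1) : sv (cb v) = v := by
  ext i
  rcases h i with h | h <;> simp [sv, cb, h, Crest.ProbabilityR.SpinGlassDynamics.spin]

/-- the rows `(s, y + t s + √t z)` -/
def TT (t : ℝ) : Matrix Bool (Bool ⊕ Fin 1) ℝ := Matrix.of fun b =>
  Sum.elim (fun k => if b then (if k then 1 else 0) else if k then t else 1)
    fun _ => if b then 0 else √t

theorem tch (T : TcStmt) (A : AvStmt) : TchStmt := by
  rintro β hβ r hr t ht U hU ⟨⟨C, hC⟩, hm⟩
  have h1 := apA.lin Bool (Bool ⊕ Fin 1) β (wc (r + t)) (wd (r + t)) (Sum.elim (wc r) 0)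
    (Sum.elim (wd r) 1) (TT t)
    (by
      ext b
      cases b <;> simp [TT, wc, mulVec, dotProduct, add_comm])
    (by
      ext b b'
      cases b <;> cases b' <;>
        simp [TT, wd, mul_apply, diagonal_apply, Real.sq_sqrt hr, Real.sq_sqrt (add_nonneg hr ht),
          Real.mul_self_sqrt ht]) _ hU
  have h2 : Ap β (Sum.elim (wc r) (0 : Fin 1 → ℝ)) (Sum.elim (wd r) 1) fun n J a =>
      U n J (cb (a (.inl true))) (a (.inl false) + t • sv (cb (a (.inl true))) + √t • a (.inr 0)) := by
    refine Z.ApB11.ap_congr hpStmt apA h1 (Z.A48.imp hpStmt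
      (hpStmt.spin _ β _ _ (.inl true) rfl rfl) fun n J a ha => ?_)
    have e1 : lc (TT t) a true = a (.inl true) := by ext i; simp [lc, TT]
    have e2 : lc (TT t) a false = a (.inl false) + t • a (.inl true) + √t • a (.inr 0) := by
      ext i; simp [lc, TT, add_comm]
    rw [sv_cb ha, e1, e2]
  have mz : ∀ (n : ℕ) (v : V n), Measurable fun z : V n => v + √t • z := fun n v => by fun_prop
  have h3 := A Bool β hβ (wc r) (wd r) 1 _ C h2 (fun n J a hJ =>
    (hm n J (cb (a true)) hJ).comp ((mz n (a false + t • sv (cb (a true)))).comp (mp1 n).measurable))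
    fun n J a hJ => hC _ _ _ _ hJ
  refine T.congr β hβ r (fun n J s y j => ∫ w, U n J s
    (y + t • sv s + √t • fun i => w (0, i)) j ∂gv (Fin 1 × Fin n)) _ (fun n J hJ => ?_) h3
  ext s y j
  have e := integral_map (mp1 n).aemeasurable (f := fun z : V n => U n J s (y + t • sv s + √t • z) j)
    ((measurable_pi_apply j).comp ((hm n J s hJ).comp (mz n _))).aestronglyMeasurable
  rw [(mp1 n).map_eq] at e
  exact e.symm

end Tk4

theorem tkGlue : TkGlue := fun T A S P R => ⟨Tk4.tk T A S P R, Tk4.tch T A⟩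

end Crest.Agent.T157.K

end
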