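import Crest.Agent.T157.KTc_36
import Crest.Agent.T157.ZfTr_23
import Crest.Agent.T157.KStA_47

/-!
# Row 157, part B, block S5 (helper71): programs, directions and response fields are thermal words
-/

set_option autoImplicit false

noncomputable section

namespace Crest.Agent.T157.K

open MeasureTheory ProbabilityTheory Matrix Set
open Crest.Agent.T157.E Crest.Agent.T157.Eig
open Crest.Agent.T157.Tap (V Mx th DD)
open Crest.Agent.T157.Reg (jac)
open Crest.Agent.T157.Z (Nt Nw Bd cp Ap Hp EL apA apB hpStmt lipStmt qStmt)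
open Crest.Agent.T157.Zf (QQ AA Vf)
open Crest.Agent.T157.Zf.Tr23 (ap_inl ev el_ev ev_sv nrm_mul_le)
open Crest.Agent.R339.Guerra (mp_comp)

namespace Tw71

variable {n : ℕ} {ι : Type} [Fintype ι] {β r : ℝ} {c d : ι → ℝ}

theorem ap_QQ (hβ : β ∈ Icc (0 : ℝ) 1) {U : Nt ι} (h : Ap β c d U) :
    Ap β c d fun n J a => QQ J *ᵥ U n J a := by
  refine qStmt ι β hβ c d (fun _ J => QQ J) (fun n J h1 h3 => ?_) U h
  have e : AA J = J + (4 : ℝ) • (1 : Mx n) := by rw [AA, (lipStmt.tJ_le n J).2 h3]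
  have g : Sq.G1 (AA J) := e ▸ Sq.g1_shift (Z.Q64.herm h1) h3 (by norm_num)
  refine ⟨.of_dotProduct_mulVec_nonneg (Sq.rt_herm _) fun x => ?_, g.mul.trans e⟩
  rw [star_trivial]
  exact le_trans (Finset.sum_nonneg fun i _ => mul_self_nonneg _) (g.rt.ge x)

theorem ap_add (hβ : β ∈ Icc (0 : ℝ) 1) {U W : Nt ι} (h : Ap β c d U) (h' : Ap β c d W) :
    Ap β c d fun n J a => U n J a + W n J a := by
  simpa only [one_smul] using apB.add ι β hβ c d U W 1 1 h h'

theorem ap_gj (hT : TcStmt) (hβ : β ∈ Icc (0 : ℝ) 1) {U W : Nt ι} (h : Ap β c d W)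
    (e : ∀ n J a, GJ J → U n J a = W n J a) : Ap β c d U :=
  Z.ApB11.ap_congr hpStmt apA h (Z.A48.imp hpStmt (hT.gj ι β hβ c d) fun n J a h => e n J a h)

theorem box {v : V n} {e : ℝ} (h : ∀ i, |v i| ≤ e) : nrm v ≤ |e| * √n := by
  simpa only [Fintype.card_fin] using
    Z.A48.nrm_box (abs_nonneg e) fun i => (h i).trans (le_abs_self e)

/-- the mean over one label -/
theorem av1 (hT : TcStmt) (hA : AvStmt) (hβ : β ∈ Icc (0 : ℝ) 1)
    (G : ∀ n, Mx n → (ι → V n) → V n → V n) (C : ℝ)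
    (h : Ap β (Sum.elim c (0 : Fin 1 → ℝ)) (Sum.elim d 1) fun n J a =>
      G n J (fun l => a (.inl l)) (a (.inr 0)))
    (hm : ∀ n J a, GJ J → Measurable (G n J a)) (hb : ∀ n J a z, GJ J → nrm (G n J a z) ≤ C * √n) :
    Ap β c d fun n J a i => ∫ z, G n J a z i ∂gv (Fin n) := by
  have mm : ∀ n, Measurable fun (w : Fin 1 × Fin n → ℝ) (i : Fin n) => w (0, i) := fun n => by
    fun_prop
  refine ap_gj hT hβ (hA ι β hβ c d 1 _ C h (fun n J a hJ => (hm n J a hJ).comp (mm n))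
    fun n J a hJ => hb n J _ _ hJ) fun n J a hJ => funext fun i => ?_
  have hp := mp_comp (ι := Fin 1 × Fin n) (fun j => ((0 : Fin 1), j)) fun _ _ h =>
    (Prod.ext_iff.1 h).2
  rw [show gv (Fin n) = _ from hp.map_eq.symm]
  exact integral_map hp.measurable.aemeasurable
    ((measurable_pi_apply i).comp (hm n J a hJ)).aestronglyMeasurable

/-- words of the spin, the field and one label -/
def T1 (β r : ℝ) (F : ∀ n, Mx n → Cube n → V n → V n → V n) : Prop :=
  Ap β (Sum.elim (wc r) (0 : Fin 1 → ℝ)) (Sum.elim (wd r) 1) fun n J a =>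
    F n J (cb (a (.inl true))) (a (.inl false)) (a (.inr 0))

theorem el_sech : EL fun u : Fin 1 → ℝ => 1 - Real.tanh (u 0) ^ 2 := by
  refine ⟨fun u => by simp [Real.tanh_neg], ⟨2, .of_dist_le_mul fun u v => ?_⟩, 1, fun u => ?_⟩
  · exact (St47.DD_lip u v 0).trans (mul_le_mul_of_nonneg_left (dist_le_pi_dist u v 0) zero_le_two)
  · exact abs_le.2 ⟨le_trans (by norm_num) (St47.DD_mem u 0).1, (St47.DD_mem u 0).2⟩

theorem blp {B : ℝ} {w : ℝ → ℝ} (h : W2 B w) : Zf.BLp B w := ⟨fun t => (h.2 t t).1, fun t t' =>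
  convex_univ.norm_image_sub_le_of_norm_deriv_le (fun x _ => h.1 x) (fun x _ => (h.2 x x).2.1)
    (mem_univ t') (mem_univ t)⟩

/-- the two labels as one label and another -/
def f2 : Bool ⊕ Fin 2 ↪ (Bool ⊕ Fin 1) ⊕ Fin 1 :=
  ⟨Sum.elim (fun t => .inl (.inl t)) ![.inl (.inr 0), .inr 0], by decide⟩

/-- the inputs of a direction -/
def rw3 (m : ℕ) : Bool ⊕ Fin m → Nt ((Bool ⊕ Fin 1) ⊕ Fin m)
  | .inl true => fun _ J a =>
    QQ J *ᵥ (QQ J *ᵥ sv (cb (a (.inl (.inl true)))) + a (.inl (.inr 0)))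
  | .inl false => fun _ _ a => a (.inl (.inl false))
  | .inr l => fun _ _ a => a (.inr l)

section
variable (hT : TcStmt) (hβ : β ∈ Icc (0 : ℝ) 1)
include hT hβ

theorem aS : T1 β r fun _ _ s _ _ => sv s := (hT.tl β r 1 _ (hT.spin β hβ r) :)
theorem aY : T1 β r fun _ _ _ y _ => y := (hT.tl β r 1 _ (hT.fld β hβ r) :)
theorem aZ : T1 β r fun _ _ _ _ z => z := (hT.lab β hβ r 1 0 :)
theorem aX : T1 β r fun _ J s _ z => QQ J *ᵥ (QQ J *ᵥ sv s + z) :=
  (ap_QQ hβ (ap_add hβ (ap_QQ hβ (aS hT hβ)) (aZ hT hβ)) :)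

/-- the mean under the product law -/
theorem aM (hA : AvStmt) (hS : SmmStmt) (hP : PrStmt) (hR : RsStmt) (hr : 0 ≤ r) {U : Vf}
    (hU : TC β r U) (hG : RG U) : T1 β r fun n J s y z =>
      meanV (pw (QQ J) y (QQ J *ᵥ sv s + z)) fun t => U n J t y := by
  obtain ⟨e, he⟩ := hG
  have h := hR β hβ r hr 0 ⟨le_rfl, zero_le_one⟩ U hU
  have e1 : Sum.elim (Sum.elim (wc r) (0 : Fin 1 → ℝ)) (0 : Fin 1 → ℝ) ∘ f2 =
      Sum.elim (wc r) (0 : Fin 2 → ℝ) := by
    funext l
    rcases l with t | l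
    · rfl
    · fin_cases l <;> rfl
  have e2 : Sum.elim (Sum.elim (wd r) (1 : Fin 1 → ℝ)) (1 : Fin 1 → ℝ) ∘ f2 =
      Sum.elim (wd r) (1 : Fin 2 → ℝ) := by
    funext l
    rcases l with t | l
    · rfl
    · fin_cases l <;> rfl
  rw [TL, ← e1, ← e2] at h
  have k := av1 hT hA hβ (fun n J (a : Bool ⊕ Fin 1 → V n) w =>
    U n J (mxs J 0 (cb (a (.inl true))) (a (.inl false)) (a (.inr 0)) w) (a (.inl false))) |e|
    (apA.emb _ _ β _ _ f2 _ h :)
    (fun n J a _ => (measurable_of_finite fun t => U n J t (a (.inl false))).comp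
      ((hS.meas n).comp measurable_prodMk_left))
    fun n J a z hJ => box fun i => ((he n J hJ).r0 _).sup _ i
  refine ap_gj hT hβ k fun n J a _ => funext fun i => ?_
  simp only [mxs, zero_smul, sub_zero, one_smul, zero_add]
  exact (hP.ml n _ _).trans (hS.law n (th _) (fun t => U n J t (a (.inl false)) i)
    fun i => (Real.abs_tanh_lt_one _).le).symm

theorem kw_tc (hA : AvStmt) (hS : SmmStmt) (hP : PrStmt) (hW : WStmt) (hR : RsStmt) (hr : 0 ≤ r)
    {U : Vf} (hU : TC β r U) (hG : RG U) {Λ η : ℝ} (hΛ : 0 ≤ Λ) (hη : 0 ≤ η) :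
    TC β r fun n J => kw (QQ J) Λ η (U n J) := by
  obtain ⟨C, -, hC⟩ := hW 4
  have w2 : W2 (C * Real.exp (2 * Λ)) (rh 4 Λ) :=
    (hC 4 Λ (by norm_num) le_rfl hΛ (rho 4) (by simp)).1
  have hf := blp w2
  have aU : T1 β r fun n J s y z => ub (QQ J) y (fun t => U n J t y) (QQ J *ᵥ sv s + z) :=
    (apB.ev _ β hβ _ _ 1 _ (fun _ => _) _ el_sech (fun _ => ap_add hβ (aY hT hβ) (aX hT hβ))
      (aM hT hβ hA hS hP hR hr hU hG) :)
  have aT : T1 β r fun n J s y z =>
      (QQ J * QQ J) *ᵥ ub (QQ J) y (fun t => U n J t y) (QQ J *ᵥ sv s + z) := by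
    simpa only [T1, mulVec_mulVec] using ap_QQ hβ (ap_QQ hβ aU)
  have aC : T1 β r fun n J s y z =>
      cp η ((QQ J * QQ J) *ᵥ ub (QQ J) y (fun t => U n J t y) (QQ J *ᵥ sv s + z)) :=
    (Zf.Tr23.ap_net hβ (U := fun _ : Unit => _) (lipStmt.clip Unit _ η hη (.inp ())).1
      fun _ => aT :)
  have aW := apB.ev _ β hβ _ _ 2 _ ![_, _] _ (el_ev hf)
    (Fin.forall_fin_two.2 ⟨aS (r := r) hT hβ, ap_QQ hβ (aZ hT hβ)⟩) aC
  refine av1 hT hA hβ (fun n J a z j => rh 4 Λ (sv (cb (a true)) j * ((QQ J)ᵀ *ᵥ z) j) *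
    cp η ((QQ J * QQ J) *ᵥ ub (QQ J) (a false) (fun t => U n J t (a false))
      (QQ J *ᵥ sv (cb (a true)) + z)) j) (C * Real.exp (2 * Λ) * |η|)
    (ap_gj hT hβ aW fun n J a _ => funext fun k => congrArg (· * _) ?_) (fun n J a _ => ?_)
    fun n J a z _ => ?_
  · rw [show (QQ J)ᵀ = QQ J from Sq.rt_symm _]
    exact (ev_sv _ _ k _).symm.trans
      (congrArg (ev _) (funext (Fin.forall_fin_two.2 ⟨rfl, rfl⟩)))
  · refine (continuous_pi fun j => (w2.1.continuous.comp (by fun_prop)).mul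
      ((continuous_apply j).comp ((St47.cont_cp η).comp ?_))).measurable
    exact continuous_const.matrix_mulVec ((St47.cont_U _).comp (by fun_prop))
  · have h0 := (abs_nonneg _).trans (hf.1 0)
    refine (nrm_mul_le (fun i => hf.1 _) h0).trans ?_
    rw [mul_assoc (C * _)]
    exact mul_le_mul_of_nonneg_left (box fun i => St47.abs_cp hη _ i) h0

theorem dir_tc (hA : AvStmt) {m : ℕ} {E : Nt (Bool ⊕ Fin m)} (hE : Nw False E) (hB : Bd E) :
    TC β r fun n J => dirS (QQ J) (Eh E n J) := by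
  obtain ⟨M, hM⟩ := hB
  have cE : ∀ n (J : Mx n), Continuous (E n J) := fun n J =>
    (lipStmt.cont _ _ E hE n).comp (Continuous.prodMk_right J)
  have cL : ∀ n (y : V n), Continuous fun p : V n × (Fin m × Fin n → ℝ) => lab2 p.1 y p.2 :=
    fun n y => continuous_pi fun l => by
      rcases l with (_ | _) | l
      · exact continuous_const
      · exact continuous_fst
      · exact continuous_pi fun i => (continuous_apply (l, i)).comp continuous_snd
  have h := Zf.Tr23.ap_net hβ (c := Sum.elim (Sum.elim (wc r) (0 : Fin 1 → ℝ)) (0 : Fin m → ℝ))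
    (d := Sum.elim (Sum.elim (wd r) (1 : Fin 1 → ℝ)) (1 : Fin m → ℝ)) (U := rw3 m) hE (by
    rintro ((_ | _) | l)
    · exact (ap_inl (0 : Fin m → ℝ) 1 (aY hT hβ) :)
    · exact (ap_inl (0 : Fin m → ℝ) 1 (aX hT hβ) :)
    · exact apA.net _ β hβ _ _ _ (.inp (Sum.inr l)))
  have e : ∀ n (J : Mx n) (a : Bool ⊕ Fin 1 → V n) (w : Fin m × Fin n → ℝ),
      (fun l => rw3 m l n J (Sum.elim a fun l i => w (l, i))) =
      lab2 (QQ J *ᵥ (QQ J *ᵥ sv (cb (a (.inl true))) + a (.inr 0))) (a (.inl false)) w :=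
    fun n J a w => funext fun l => by rcases l with (_ | _) | l <;> rfl
  have k := hA _ β hβ _ _ m _ |M| h (fun n J a _ => by
    simp only [e]
    exact ((cE n J).comp ((cL n _).comp (Continuous.prodMk_right _))).measurable)
    fun n J a _ => box fun i => hM n J _ i
  simp only [e] at k
  refine av1 hT hA hβ (fun n J a z => Eh E n J (QQ J *ᵥ (QQ J *ᵥ sv (cb (a true)) + z)) (a false))
    |M| k (fun n J a _ => measurable_pi_lambda _ fun i => ?_)
    fun n J a z _ => box (e := M) fun i => ?_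
  · have c1 : Continuous fun p : V n × (Fin m × Fin n → ℝ) => E n J
        (lab2 (QQ J *ᵥ (QQ J *ᵥ sv (cb (a true)) + p.1)) (a false) p.2) i :=
      (continuous_apply i).comp ((cE n J).comp ((cL n _).comp
        (Continuous.prodMk (continuous_const.matrix_mulVec (continuous_const.add continuous_fst))
          continuous_snd)))
    exact c1.stronglyMeasurable.integral_prod_right'.measurable
  · have := norm_integral_le_of_norm_le_const (μ := gv (Fin m × Fin n)) (C := M)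
      (f := fun w => E n J (lab2 (QQ J *ᵥ (QQ J *ᵥ sv (cb (a true)) + z)) (a false) w) i)
      (.of_forall fun w => hM n J _ i)
    rwa [probReal_univ, mul_one] at this

end

theorem rg_zero : RG fun _ _ => 0 := ⟨0, fun n J _ => ⟨fun _ => ⟨fun _ _ => by simp, fun s => by
  rw [show jac (fun s => (0 : U2 n) s _) s = 0 from Matrix.ext fun _ _ => sub_self _, opn_zero]⟩,
  fun _ _ _ => by simp⟩⟩

theorem rg_add {U W : Vf} (h : RG U) (h' : RG W) : RG fun n J => U n J + W n J := by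
  obtain ⟨e, he⟩ := h
  obtain ⟨e', he'⟩ := h'
  refine ⟨e + e', fun n J hJ => ⟨fun y => ⟨fun s i => (abs_add_le _ _).trans
    (add_le_add (((he n J hJ).r0 y).sup s i) (((he' n J hJ).r0 y).sup s i)), fun s => ?_⟩,
    fun s y y' => ?_⟩⟩
  · rw [show jac (fun s => (U n J + W n J) s y) s = jac (fun s => U n J s y) s +
      jac (fun s => W n J s y) s from Matrix.ext fun _ _ => add_sub_add_comm _ _ _ _]
    exact (opn_add_le _ _).trans (add_le_add (((he n J hJ).r0 y).op s) (((he' n J hJ).r0 y).op s))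
  · simp only [Pi.add_apply]
    rw [add_sub_add_comm, add_mul]
    exact (nrm_add_le _ _).trans (add_le_add ((he n J hJ).lip s y y') ((he' n J hJ).lip s y y'))

theorem tc_zero (hβ : β ∈ Icc (0 : ℝ) 1) : TC β r fun _ _ => 0 :=
  apB.sum Bool β hβ _ _ 0 (fun l => l.elim0) fun l => l.elim0

end Tw71

open Tw71

theorem twGlue : TwGlue := fun hT _ hA hS hP hW hR _ hβ _ hr _ hU hG =>
  ⟨fun _ hΛ _ hη => kw_tc hT hβ hA hS hP hW hR hr hU hG hΛ hη, fun _ _ hE hB =>
    dir_tc hT hβ hA hE hB⟩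

theorem tcgGlue : TcgGlue := fun hW hG β hβ r hr m E c Λ e hE hB hΛ he h => by
  have h1 : ∀ l, TC β r fun n J => wS (QQ J) c Λ e (dirS (QQ J) (Eh E n J)) l := fun l => by
    induction l with
    | zero => exact (hW β hβ r hr _ (tc_zero hβ) rg_zero).2 m E hE hB
    | succ l ih => exact (hW β hβ r hr _ ih (h l)).1 Λ hΛ _ (by positivity)
  refine ⟨h1, fun k => ?_⟩
  have h2 : (TC β r fun n J => ∑ l ∈ Finset.range k, wS (QQ J) c Λ e (dirS (QQ J) (Eh E n J)) l) ∧
      RG fun n J => ∑ l ∈ Finset.range k, wS (QQ J) c Λ e (dirS (QQ J) (Eh E n J)) l := by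
    induction k with
    | zero => exact ⟨tc_zero hβ, rg_zero⟩
    | succ k ih =>
      simp only [Finset.sum_range_succ]
      exact ⟨ap_add hβ ih.1 (h1 k), rg_add ih.2 (h k)⟩
  exact hG β hβ r hr _ h2.1 h2.2

end Crest.Agent.T157.K

end
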