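import Crest.Agent.T157.KDef_36

/-!
# Row 157, part B, block S5: the clipped weights (`K.wStmt`, helper15)
-/

set_option autoImplicit false
set_option linter.unusedVariables false

noncomputable section

namespace Crest.Agent.T157.K

open MeasureTheory ProbabilityTheory Real Set Filter Topology

namespace W15

theorem exp_lip {a x y : ℝ} (hx : x ≤ a) (hy : y ≤ a) : |exp x - exp y| ≤ exp a * |x - y| := by
  wlog h : y ≤ x generalizing x y
  · rw [abs_sub_comm, abs_sub_comm x]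
    exact this hy hx (le_of_not_ge h)
  have h1 : exp y = exp x * exp (y - x) := by rw [← exp_add]; congr 1; ring
  have h2 := add_one_le_exp (y - x)
  have h3 := exp_le_exp.2 hx
  have h4 := exp_pos x
  rw [abs_of_nonneg (sub_nonneg.2 (exp_le_exp.2 h)), abs_of_nonneg (sub_nonneg.2 h), h1]
  nlinarith

/-! ### the clip -/

/-- derivative of the clip -/
def c1 (Λ u : ℝ) : ℝ := exp (min (u + Λ) 0)

theorem cl_of_le {Λ u : ℝ} (h : -Λ ≤ u) : cl Λ u = u := by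
  rw [cl, max_eq_left h, min_eq_right (by linarith), exp_zero]; ring

theorem cl_of_ge {Λ u : ℝ} (h : u ≤ -Λ) : cl Λ u = -Λ + (exp (u + Λ) - 1) := by
  rw [cl, max_eq_right h, min_eq_left (by linarith)]

theorem der_cl (Λ u : ℝ) : HasDerivAt (cl Λ) (c1 Λ u) u := by
  refine hasDerivAt_of_hasDerivAt_of_ne' (x := -Λ) (fun y hy => ?_) ?_ ?_ u
  · rcases lt_or_gt_of_ne hy with h | h
    · have h1 : HasDerivAt (fun u => -Λ + (exp (u + Λ) - 1)) (exp (y + Λ)) y := by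
        simpa using ((((hasDerivAt_id y).add_const Λ).exp).sub_const 1).const_add (-Λ)
      rw [c1, min_eq_left (by linarith)]
      refine h1.congr_of_eventuallyEq ?_
      filter_upwards [Iio_mem_nhds h] with z hz using cl_of_ge (le_of_lt hz)
    · rw [c1, min_eq_right (by linarith), exp_zero]
      refine (hasDerivAt_id y).congr_of_eventuallyEq ?_
      filter_upwards [Ioi_mem_nhds h] with z hz using cl_of_le (le_of_lt hz)
  · unfold cl; fun_prop
  · unfold c1; fun_prop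

theorem c1_pos (Λ u : ℝ) : 0 < c1 Λ u := exp_pos _

theorem c1_le (Λ u : ℝ) : c1 Λ u ≤ 1 := exp_le_one_iff.2 (min_le_right _ _)

theorem c1_lip (Λ u v : ℝ) : |c1 Λ u - c1 Λ v| ≤ |u - v| := by
  have h := exp_lip (min_le_right (u + Λ) 0) (min_le_right (v + Λ) 0)
  rw [exp_zero, one_mul] at h
  refine h.trans ((abs_min_sub_min_le_max _ _ _ _).trans ?_)
  simp

theorem cl_lip (Λ u v : ℝ) : |cl Λ u - cl Λ v| ≤ |u - v| := by
  have := (convex_univ (𝕜 := ℝ) (E := ℝ)).norm_image_sub_le_of_norm_hasDerivWithin_le (C := 1)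
    (f := cl Λ) (f' := c1 Λ) (x := v) (y := u) (fun z _ => (der_cl Λ z).hasDerivWithinAt)
    (fun z _ => by rw [Real.norm_eq_abs, abs_of_pos (c1_pos Λ z)]; exact c1_le Λ z)
    (mem_univ _) (mem_univ _)
  simpa using this

theorem le_cl (Λ u : ℝ) : u ≤ cl Λ u := by
  rcases le_total (-Λ) u with h | h
  · rw [cl_of_le h]
  · rw [cl_of_ge h]; linarith [add_one_le_exp (u + Λ)]

theorem cl_ge (Λ u : ℝ) : -Λ - 1 ≤ cl Λ u := by
  have := le_max_right u (-Λ)
  have := exp_pos (min (u + Λ) 0)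
  unfold cl; linarith

/-! ### mixtures of exponentials -/

/-- the integrand -/
def ee (k u t : ℝ) : ℝ := exp (-2 * t * u - 2 * t ^ 2 * k)
/-- the mixture -/
def gg (μ : Measure ℝ) (k u : ℝ) : ℝ := ∫ t, ee k u t ∂μ
/-- its derivative -/
def g1 (μ : Measure ℝ) (k u : ℝ) : ℝ := ∫ t, -2 * t * ee k u t ∂μ

theorem ex_le {k u t a : ℝ} (hk : 0 ≤ k) (ht : t ∈ Icc (0 : ℝ) 1) (ha : 0 ≤ a) (hu : -a ≤ u) :
    -2 * t * u - 2 * t ^ 2 * k ≤ 2 * a := by
  have h1 := mul_nonneg ht.1 (by linarith : 0 ≤ u + a)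
  have h2 := mul_le_of_le_one_left ha ht.2
  have h3 := mul_nonneg (sq_nonneg t) hk
  nlinarith

theorem ee_le {k u t a : ℝ} (hk : 0 ≤ k) (ht : t ∈ Icc (0 : ℝ) 1) (ha : 0 ≤ a) (hu : -a ≤ u) :
    ee k u t ≤ exp (2 * a) := exp_le_exp.2 (ex_le hk ht ha hu)

theorem e1_le {k u t a : ℝ} (hk : 0 ≤ k) (ht : t ∈ Icc (0 : ℝ) 1) (ha : 0 ≤ a) (hu : -a ≤ u) :
    |-2 * t * ee k u t| ≤ 2 * exp (2 * a) := by
  have h1 := ee_le hk ht ha hu
  have h2 : 0 < ee k u t := exp_pos _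
  have h3 := mul_le_of_le_one_left h2.le ht.2
  have h4 := mul_nonneg ht.1 h2.le
  rw [abs_le]
  constructor <;> nlinarith

section
variable {μ : Measure ℝ} [IsProbabilityMeasure μ] {k : ℝ}

theorem int_ee (hμ : ∀ᵐ t ∂μ, t ∈ Icc (0 : ℝ) 1) (hk : 0 ≤ k) (u : ℝ) : Integrable (ee k u) μ := by
  refine Integrable.of_bound (C := exp (2 * |u|)) (Continuous.aestronglyMeasurable ?_) ?_
  · unfold ee; fun_prop
  · filter_upwards [hμ] with t ht
    rw [Real.norm_eq_abs, abs_of_pos (show 0 < ee k u t from exp_pos _)]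
    exact ee_le hk ht (abs_nonneg u) (neg_abs_le u)

theorem der_gg (hμ : ∀ᵐ t ∂μ, t ∈ Icc (0 : ℝ) 1) (hk : 0 ≤ k) (u : ℝ) :
    Integrable (fun t => -2 * t * ee k u t) μ ∧ HasDerivAt (gg μ k) (g1 μ k u) u := by
  refine hasDerivAt_integral_of_dominated_loc_of_deriv_le (s := Ioi (-(|u| + 1)))
    (F := fun u t => ee k u t) (F' := fun u t => -2 * t * ee k u t)
    (bound := fun _ => 2 * exp (2 * (|u| + 1)))
    (Ioi_mem_nhds (by linarith [neg_abs_le u])) (Eventually.of_forall fun x => (int_ee hμ hk x).1)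
    (int_ee hμ hk u) (Continuous.aestronglyMeasurable ?_) ?_ (integrable_const _) ?_
  · unfold ee; fun_prop
  · filter_upwards [hμ] with t ht x hx
    exact e1_le hk ht (by positivity) (le_of_lt hx)
  · refine Eventually.of_forall fun t x _ => ?_
    have h := ((((hasDerivAt_id x).const_mul (-2 * t)).sub_const (2 * t ^ 2 * k))).exp
    simp only [id, mul_one] at h
    rw [mul_comm (-2 * t) (ee k x t)]
    exact h

theorem gg_pos (hμ : ∀ᵐ t ∂μ, t ∈ Icc (0 : ℝ) 1) (hk : 0 ≤ k) (u : ℝ) : 0 < gg μ k u :=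
  integral_exp_pos (int_ee hμ hk u)

theorem gg_le' (hμ : ∀ᵐ t ∂μ, t ∈ Icc (0 : ℝ) 1) (hk : 0 ≤ k) {u c : ℝ}
    (h : ∀ t ∈ Icc (0 : ℝ) 1, ee k u t ≤ c) : gg μ k u ≤ c := by
  have := integral_mono_ae (int_ee hμ hk u) (integrable_const c) (hμ.mono h)
  rw [integral_const, probReal_univ, one_smul] at this
  exact this

theorem gg_le (hμ : ∀ᵐ t ∂μ, t ∈ Icc (0 : ℝ) 1) (hk : 0 ≤ k) (u : ℝ) :
    gg μ k u ≤ 1 + exp (-2 * u) := gg_le' hμ hk fun t ht => by
  have h0 := exp_pos (-2 * u)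
  rcases le_total 0 u with h | h
  · have := ee_le hk ht le_rfl (by simpa using h)
    rw [mul_zero, exp_zero] at this
    linarith
  · have := ee_le (a := -u) (u := u) hk ht (by linarith) (by linarith)
    rw [show 2 * -u = -2 * u by ring] at this
    linarith

theorem gg_anti (hμ : ∀ᵐ t ∂μ, t ∈ Icc (0 : ℝ) 1) (hk : 0 ≤ k) {u v : ℝ} (h : u ≤ v) :
    gg μ k v ≤ gg μ k u := by
  refine integral_mono_ae (int_ee hμ hk v) (int_ee hμ hk u) (hμ.mono fun t ht => exp_le_exp.2 ?_)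
  have := mul_le_mul_of_nonneg_left h ht.1
  linarith

theorem g1_le (hμ : ∀ᵐ t ∂μ, t ∈ Icc (0 : ℝ) 1) (hk : 0 ≤ k) {u a : ℝ} (ha : 0 ≤ a) (hu : -a ≤ u) :
    |g1 μ k u| ≤ 2 * exp (2 * a) := by
  have := norm_integral_le_of_norm_le_const (μ := μ) (f := fun t => -2 * t * ee k u t)
    (hμ.mono fun t ht => e1_le hk ht ha hu)
  rw [probReal_univ, mul_one] at this
  exact this

theorem g1_lip (hμ : ∀ᵐ t ∂μ, t ∈ Icc (0 : ℝ) 1) (hk : 0 ≤ k) {u v a : ℝ} (ha : 0 ≤ a) (hu : -a ≤ u)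
    (hv : -a ≤ v) : |g1 μ k u - g1 μ k v| ≤ 4 * exp (2 * a) * |u - v| := by
  rw [g1, g1, ← integral_sub (der_gg hμ hk u).1 (der_gg hμ hk v).1]
  have := norm_integral_le_of_norm_le_const (μ := μ) (C := 4 * exp (2 * a) * |u - v|)
    (f := fun t => -2 * t * ee k u t - -2 * t * ee k v t) (hμ.mono fun t ht => by
      have h1 := exp_lip (ex_le hk ht ha hu) (ex_le hk ht ha hv)
      have h2 : |-2 * t| ≤ 2 := by rw [abs_le]; constructor <;> linarith [ht.1, ht.2]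
      rw [show -2 * t * u - 2 * t ^ 2 * k - (-2 * t * v - 2 * t ^ 2 * k) = -2 * t * (u - v) by ring,
        abs_mul] at h1
      rw [Real.norm_eq_abs, ← mul_sub, abs_mul]
      have h3 : |ee k u t - ee k v t| ≤ exp (2 * a) * (2 * |u - v|) :=
        h1.trans (by gcongr)
      calc _ ≤ 2 * (exp (2 * a) * (2 * |u - v|)) := by gcongr
        _ = _ := by ring)
  simpa using this

theorem gexp (a : ℝ) : ∫ u, exp (a * u) ∂gaussianReal 0 1 = exp (a ^ 2 / 2) := by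
  have := congrFun (mgf_id_gaussianReal (μ := 0) (v := 1)) a
  simpa [mgf] using this

theorem w2 (hμ : ∀ᵐ t ∂μ, t ∈ Icc (0 : ℝ) 1) (hk : 0 ≤ k) {Λ C : ℝ} (hΛ : 0 ≤ Λ) (hC : 48 ≤ C) :
    W2 (C * exp (2 * Λ)) fun u => gg μ k (cl Λ u) := by
  have hd : ∀ u, HasDerivAt (fun u => gg μ k (cl Λ u)) (g1 μ k (cl Λ u) * c1 Λ u) u := fun u =>
    (der_gg hμ hk _).2.comp u (der_cl Λ u)
  have ha : 0 ≤ Λ + 1 := by linarith
  have hc : ∀ u, -(Λ + 1) ≤ cl Λ u := fun u => by linarith [cl_ge Λ u]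
  have hE : 6 * exp (2 * (Λ + 1)) ≤ C * exp (2 * Λ) := by
    have h1 : exp (2 * (Λ + 1)) = exp 1 * exp 1 * exp (2 * Λ) := by
      rw [← exp_add, ← exp_add]; congr 1; ring
    have h2 := exp_one_lt_d9
    have h3 := exp_pos 1
    have h4 : 6 * (exp 1 * exp 1) ≤ C := by nlinarith
    have h5 := mul_le_mul_of_nonneg_right h4 (exp_pos (2 * Λ)).le
    rw [h1]; linarith
  have E0 := exp_pos (2 * (Λ + 1))
  refine ⟨fun u => (hd u).differentiableAt, fun u v => ⟨?_, ?_, ?_⟩⟩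
  · rw [abs_of_pos (gg_pos hμ hk _)]
    have := gg_le' hμ hk fun t ht => ee_le hk ht ha (hc u)
    linarith
  · rw [(hd u).deriv, abs_mul, abs_of_pos (c1_pos Λ u)]
    have := mul_le_of_le_one_right (abs_nonneg (g1 μ k (cl Λ u))) (c1_le Λ u)
    linarith [g1_le hμ hk ha (hc u)]
  · rw [(hd u).deriv, (hd v).deriv, show g1 μ k (cl Λ u) * c1 Λ u - g1 μ k (cl Λ v) * c1 Λ v =
      (g1 μ k (cl Λ u) - g1 μ k (cl Λ v)) * c1 Λ u + g1 μ k (cl Λ v) * (c1 Λ u - c1 Λ v) by ring]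
    have h1 : |g1 μ k (cl Λ u) - g1 μ k (cl Λ v)| ≤ 4 * exp (2 * (Λ + 1)) * |u - v| :=
      (g1_lip hμ hk ha (hc u) (hc v)).trans (mul_le_mul_of_nonneg_left (cl_lip Λ u v) (by positivity))
    have h2 := mul_le_of_le_one_right (abs_nonneg (g1 μ k (cl Λ u) - g1 μ k (cl Λ v))) (c1_le Λ u)
    have h3 := mul_le_mul (g1_le hμ hk ha (hc v)) (c1_lip Λ u v) (abs_nonneg _) (by positivity)
    have h4 := mul_le_mul_of_nonneg_right hE (abs_nonneg (u - v))
    refine (abs_add_le _ _).trans ?_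
    rw [abs_mul, abs_mul, abs_of_pos (c1_pos Λ u)]
    linarith

theorem sq_int (hμ : ∀ᵐ t ∂μ, t ∈ Icc (0 : ℝ) 1) (hk : 0 ≤ k) :
    ∫ u, gg μ k (√k * u) ^ 2 ∂gaussianReal 0 1 ≤ 2 + 2 * exp (8 * k) := by
  have hi := integrable_exp_mul_gaussianReal (μ := 0) (v := 1) (-4 * √k)
  refine (integral_mono_of_nonneg (g := fun u => 2 + 2 * exp (-4 * √k * u))
    (Eventually.of_forall fun u => sq_nonneg _) ((integrable_const _).add (hi.const_mul 2))
    (Eventually.of_forall fun u => ?_)).trans_eq ?_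
  · have h1 := gg_le hμ hk (√k * u)
    have h2 := gg_pos hμ hk (√k * u)
    have h3 : exp (-4 * √k * u) = exp (-2 * (√k * u)) ^ 2 := by
      rw [← exp_nat_mul]; congr 1; push_cast; ring
    have h4 := pow_le_pow_left₀ h2.le h1 2
    simp only [h3]
    nlinarith [sq_nonneg (1 - exp (-2 * (√k * u)))]
  · rw [integral_add (integrable_const _) (hi.const_mul 2), integral_const_mul, gexp, mul_pow,
      Real.sq_sqrt hk]
    simp only [integral_const, probReal_univ, smul_eq_mul, one_mul]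
    congr 3; ring

theorem tail_int (hμ : ∀ᵐ t ∂μ, t ∈ Icc (0 : ℝ) 1) (hk : 0 ≤ k) {Λ θ : ℝ} (hΛ : 0 ≤ Λ) (hθ : 0 ≤ θ) :
    ∫ u, (gg μ k (√k * u) - gg μ k (cl Λ (√k * u))) ^ 2 ∂gaussianReal 0 1 ≤
      4 * exp (-(θ * Λ) + (4 + θ) ^ 2 * k / 2) := by
  have hi := integrable_exp_mul_gaussianReal (μ := 0) (v := 1) (-(4 + θ) * √k)
  refine (integral_mono_of_nonneg (g := fun u => 4 * exp (-(θ * Λ)) * exp (-(4 + θ) * √k * u))
    (Eventually.of_forall fun u => sq_nonneg _) (hi.const_mul _)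
    (Eventually.of_forall fun u => ?_)).trans_eq ?_
  · rcases le_total (-Λ) (√k * u) with h | h
    · simp only [cl_of_le h, sub_self]
      have : (0 : ℝ) ^ 2 = 0 := by norm_num
      rw [this]; positivity
    · have h1 := gg_le hμ hk (√k * u)
      have h2 := gg_pos hμ hk (cl Λ (√k * u))
      have h3 := gg_anti hμ hk (le_cl Λ (√k * u))
      have h4 : 1 ≤ exp (-2 * (√k * u)) := one_le_exp (by linarith)
      have h5 : (gg μ k (√k * u) - gg μ k (cl Λ (√k * u))) ^ 2 ≤ (2 * exp (-2 * (√k * u))) ^ 2 :=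
        pow_le_pow_left₀ (by linarith) (by linarith) 2
      have h6 : exp (-2 * (√k * u)) ^ 2 ≤ exp (-(θ * Λ)) * exp (-(4 + θ) * √k * u) := by
        rw [← exp_nat_mul, ← exp_add]
        refine exp_le_exp.2 ?_
        have := mul_nonneg hθ (by linarith : 0 ≤ -Λ - √k * u)
        push_cast
        nlinarith
      simp only
      nlinarith
  · rw [integral_const_mul, gexp, mul_pow, Real.sq_sqrt hk, mul_assoc, ← exp_add]
    congr 3; ring

theorem all (hμ : ∀ᵐ t ∂μ, t ∈ Icc (0 : ℝ) 1) (hk : 0 ≤ k) {B Λ C : ℝ} (hB : k ≤ B) (hB1 : 1 ≤ B)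
    (hΛ : 0 ≤ Λ) (hC : C = 48 + 4 * B + 4 * exp (16 * B)) :
    W2 (C * exp (2 * Λ)) (fun u => gg μ k (cl Λ u)) ∧ Continuous (gg μ k) ∧
    (∀ u, 0 < gg μ k (cl Λ u) ∧ gg μ k (cl Λ u) ≤ gg μ k u ∧ gg μ k u ≤ 1 + exp (-2 * u)) ∧
    ∫ u, gg μ k (√k * u) ^ 2 ∂gaussianReal 0 1 ≤ C ∧
    ∫ u, (gg μ k (√k * u) - gg μ k (cl Λ (√k * u))) ^ 2 ∂gaussianReal 0 1 ≤
      C * exp (-(Λ ^ 2 / C)) := by
  have E0 := exp_pos (16 * B)
  have B0 : 0 < B := by linarith
  refine ⟨w2 hμ hk hΛ (by linarith), continuous_iff_continuousAt.2 fun u =>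
    (der_gg hμ hk u).2.continuousAt, fun u => ⟨gg_pos hμ hk _, gg_anti hμ hk (le_cl Λ u),
    gg_le hμ hk u⟩, (sq_int hμ hk).trans ?_,
    (tail_int (θ := Λ / (2 * B)) hμ hk hΛ (by positivity)).trans ?_⟩
  · have : exp (8 * k) ≤ exp (16 * B) := exp_le_exp.2 (by linarith)
    linarith
  · have h1 : Λ ^ 2 / C ≤ Λ ^ 2 / (4 * B) :=
      div_le_div_of_nonneg_left (sq_nonneg _) (by positivity) (by linarith)
    have h2 : (4 + Λ / (2 * B)) ^ 2 * k / 2 ≤ (16 + (Λ / (2 * B)) ^ 2) * B := by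
      have h3 : (4 + Λ / (2 * B)) ^ 2 / 2 ≤ 16 + (Λ / (2 * B)) ^ 2 := by
        nlinarith [sq_nonneg (4 - Λ / (2 * B))]
      have h4 := mul_le_mul h3 hB hk (by positivity)
      linarith
    have h3 : -(Λ / (2 * B) * Λ) + (16 + (Λ / (2 * B)) ^ 2) * B = 16 * B + -(Λ ^ 2 / (4 * B)) := by
      field_simp; ring
    have h4 : exp (-(Λ / (2 * B) * Λ) + (4 + Λ / (2 * B)) ^ 2 * k / 2) ≤
        exp (16 * B) * exp (-(Λ ^ 2 / C)) := by
      rw [← exp_add]
      exact exp_le_exp.2 (by linarith)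
    have h5 := mul_le_mul_of_nonneg_right (show 4 * exp (16 * B) ≤ C by linarith)
      (exp_pos (-(Λ ^ 2 / C))).le
    linarith

end

theorem Lw_eq (k : ℝ) : Lw k = gg (Measure.dirac 1) k := by
  funext u
  simp [gg, ee, Lw]

theorem rho_eq (k : ℝ) : rho k = gg (volume.restrict (Ioc 0 1)) k := by
  funext u
  rw [rho, intervalIntegral.integral_of_le zero_le_one]
  rfl

end W15

open W15 in
theorem wStmt : WStmt := by
  intro B
  have hB : (1 : ℝ) ≤ |B| + 1 := by linarith [abs_nonneg B]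
  refine ⟨48 + 4 * (|B| + 1) + 4 * exp (16 * (|B| + 1)), by linarith [exp_pos (16 * (|B| + 1))],
    fun k Λ hk hkB hΛ f hf => ?_⟩
  have hk' : k ≤ |B| + 1 := by linarith [le_abs_self B]
  simp only [List.mem_cons, List.not_mem_nil, or_false] at hf
  rcases hf with rfl | rfl
  · rw [Lw_eq]
    exact all (by simp) hk hk' hB hΛ rfl
  · rw [rho_eq]
    have : IsProbabilityMeasure (volume.restrict (Ioc (0 : ℝ) 1)) := ⟨by simp⟩
    exact all ((ae_restrict_mem measurableSet_Ioc).mono fun t ht => Ioc_subset_Icc_self ht)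
      hk hk' hB hΛ rfl

end Crest.Agent.T157.K

end
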