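import Crest.Agent.T157.KTd_68
import Crest.Agent.T157.KCe_22
import Crest.Agent.T157.KAv_46
import Crest.Agent.T157.KSm_64
import Crest.Agent.T157.KLw_11
import Crest.Agent.T157.KRs_58
import Crest.Agent.T157.KTk_4
import Crest.Agent.T157.KTw_71
import Crest.Agent.T157.KTg_12
import Crest.Agent.T157.KTb_38
import Crest.Agent.T157.KRp_91
import Crest.Agent.T157.KJc_95
import Crest.Agent.T157.KPr_23
import Crest.Agent.T157.KRev_53
import Crest.Agent.T157.KW_15
import Crest.Agent.T157.KRf_75

/-!
# Row 157, part B (helper42): the thermal calculus, assembled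
-/

namespace Crest.Agent.T157.K

theorem lawStmt : LawStmt := lawGlue tcStmt smmStmt prStmt revStmt
theorem rsStmt : RsStmt := rsGlue tcStmt compStmt smmStmt lawStmt
theorem tkStmt : TkStmt := (tkGlue tcStmt avStmt smmStmt prStmt rsStmt).1
theorem tchStmt : TchStmt := (tkGlue tcStmt avStmt smmStmt prStmt rsStmt).2
theorem twStmt : TwStmt := twGlue tcStmt compStmt avStmt smmStmt prStmt wStmt rsStmt
theorem tbStmt : TbStmt := tbGlue tcStmt evStmt
theorem repStmt : RepStmt := repGlue tcStmt smmStmt lawStmt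
theorem tgStmt : TgStmt := tgGlue tcStmt avStmt smmStmt prStmt rsStmt
theorem tcgStmt : TcgStmt := tcgGlue twStmt tgStmt
theorem tm_of (h : TmGlue) : TmStmt := h tcStmt avStmt jacStmt tkStmt rfStmt prStmt revStmt

end Crest.Agent.T157.K
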