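import Crest.Agent.T157.KTc_36

/-!
# Row 157, part B, block S5 (helper63): the planted law and the Gibbs law of the field
-/

set_option autoImplicit false

noncomputable section

namespace Crest.Agent.T157.K

open MeasureTheory ProbabilityTheory Matrix Set Filter
open Crest.ProbabilityR.SpinGlassDynamics
open Crest.Agent.T157.E Crest.Agent.T157.Eig Crest.Agent.T157.SL
open Crest.Agent.T157.Tap (V Mx)
open Crest.Agent.T157.Z (Hp Ty RL rows)

namespace Gb63

variable {n : ℕ} {r t : ℝ}

lemma wt (J : Mx n) (y : V n) : Wt (ising J y) := .of_pos fun _ => Real.exp_pos _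

lemma mean_post (J : Mx n) (r : ℝ) (y : V n) (F : Cube n → ℝ) :
    mean (post sv (ising J 0) r y) F = mean (ising J y) F := by
  have e : post sv (ising J 0) r y = fun x => Real.exp (-(r / 2 * n)) * ising J y x := by
    funext x
    rw [post, ising, ising, sv_dot_self, ← Real.exp_add, ← Real.exp_add, zero_dotProduct]
    congr 1; ring
  simp only [mean, prob, e, ← Finset.mul_sum, mul_div_mul_left _ _ (Real.exp_pos _).ne']

lemma mgm (J : Mx n) {X : F2 n} (hX : ∀ s, MG (X s)) :
    MG fun y => mean (ising J y) fun s => X s y := by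
  simpa only [mean_post] using mg_mean (φ := sv) (wt J 0) 0 hX

lemma tow (J : Mx n) (hr : 0 ≤ r) {X : F2 n} (hX : ∀ s, MG (X s)) :
    ∫ y, mean (ising J y) (fun s => X s y) ∂law sv (ising J 0) r = slE sv (ising J 0) r X := by
  rw [integral_law (wt J 0) (mgm J hX).meas (.of_mg fun _ => mgm J hX),
    bayes (wt J 0) hr (.of_mg hX)]
  simp only [mean_post]

lemma mkv (J : Mx n) (hr : 0 ≤ r) (ht : 0 < t) {X : F2 n} (hX : ∀ s, MG (X s))
    (h0 : ∀ s y, 0 ≤ X s y) : (law sv (ising J 0) r).real
      {y | t < mean (ising J y) fun s => X s y} ≤ slE sv (ising J 0) r X / t := by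
  have := isProb_law (φ := sv) (s := r) (wt J 0)
  rw [← tow J hr hX, le_div_iff₀' ht]
  exact (mul_le_mul_of_nonneg_left (measureReal_mono fun y (hy : t < _) => hy.le) ht.le).trans
    (mul_meas_ge_le_integral_of_nonneg (.of_forall fun y => (wt J y).mean_nonneg fun s => h0 s y)
      (mgm J hX).int_law t)

lemma mass_ind (w : Cube n → ℝ) (B : Set (Cube n)) : mass w B = mean w (B.indicator 1) := by
  classical
  rw [mass, mean, Finset.sum_filter]
  refine Finset.sum_congr rfl fun x _ => ?_
  by_cases h : x ∈ B <;> simp [h]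

lemma slE_ind (J : Mx n) {A : Cube n → Set (V n)} (hA : ∀ s, MeasurableSet (A s)) :
    slE sv (ising J 0) r (fun s => (A s).indicator 1) =
      mean (ising J 0) fun s => px sv r (A s) s := by
  rw [slE_eq_mean]
  congr 1; ext x
  rw [← integral_map (f := (A x).indicator 1) (by fun_prop)
    (measurable_one.indicator (hA x)).aestronglyMeasurable, integral_indicator_one (hA x), px]

/-- the rows of a spin and a field -/
def pr (s : Cube n) (y : V n) : Bool → V n := fun t => if t then sv s else y

lemma pr_meas (s : Cube n) : Measurable (pr s) :=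
  measurable_pi_lambda _ fun t => by
    cases t
    exacts [measurable_id, measurable_const]

lemma rl (r : ℝ) (s : Cube n) : RL (wc r) (wd r) (sv s) =
    ((Gs (Fin n)).map fun z => r • sv s + √r • z).map (pr s) := by
  have hm := R339.Guerra.mp_comp (ι := Bool × Fin n) (fun i : Fin n => (false, i))
    fun _ _ h => congrArg Prod.snd h
  rw [RL, Measure.map_map (pr_meas s) (by fun_prop)]
  conv_rhs => rw [show Gs (Fin n) = _ from hm.map_eq.symm]
  rw [Measure.map_map ((pr_meas s).comp (by fun_prop)) hm.measurable]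
  congr 1
  funext w t i
  cases t <;> simp [rows, wc, wd, pr]

lemma cbsv (s : Cube n) : cb (sv s) = s := by
  funext i; cases h : s i <;> simp [cb, sv, spin, h]

end Gb63

open Gb63

theorem tc_mkv : ∀ (n : ℕ) (J : Mx n) (r t : ℝ) (X : F2 n), 0 ≤ r → 0 < t →
    (∀ s, Continuous (X s)) → (∃ B, ∀ s y, 0 ≤ X s y ∧ X s y ≤ B) →
    (SL.law sv (ising J 0) r).real {y | t < mean (ising J y) fun s => X s y} ≤ PM J r X / t :=
  fun _ J _ _ _ hr ht hc ⟨B, hB⟩ => mkv J hr ht (fun s => .of_bdd (hc s).measurable B fun y =>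
    (abs_of_nonneg (hB s y).1).trans_le (hB s y).2) fun s y => (hB s y).1

theorem tc_gibbs : ∀ β, ∀ r ≥ (0 : ℝ), ∀ P : ∀ n, Mx n → Cube n → V n → Prop,
    (Hp β (wc r) (wd r) fun n J a => P n J (cb (a true)) (a false)) → ∃ κ > (0 : ℝ),
    Ty β r fun n J y => mass (ising J y) {s | ¬ P n J s y} ≤ Real.exp (-κ * n) := by
  rintro β r hr P ⟨k, hk, h⟩
  refine ⟨k / 2, half_pos hk, k / 2, half_pos hk, h.imp fun n g hg => ?_⟩
  rw [gibbsWeight_eq_ising] at hg ⊢
  set J := β • Jmat n g
  set A := fun s : Cube n => toMeasurable ((Gs (Fin n)).map fun z => r • sv s + √r • z)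
    {y | ¬ P n J s y}
  have hA : ∀ s, MeasurableSet (A s) := fun s => measurableSet_toMeasurable _ _
  have := isProb_law (φ := sv) (s := r) (wt J 0)
  have h1 := mkv J hr (Real.exp_pos (-(k / 2) * n)) (X := fun s => (A s).indicator 1)
    (fun s => (MG.const 1).indicator (hA s)) fun s y => indicator_nonneg (fun _ _ => zero_le_one) y
  refine (measureReal_mono fun y hy => (not_le.1 hy).trans_le ?_).trans (h1.trans ?_)
  · rw [mass_ind]
    refine (wt J y).mean_mono fun s => ?_
    by_cases hs : P n J s y
    · rw [indicator_of_notMem (by simpa using hs)]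
      exact indicator_nonneg (fun _ _ => zero_le_one) y
    · rw [indicator_of_mem (by simpa using hs), indicator_of_mem (subset_toMeasurable _ _ hs)]
      rfl
  · rw [slE_ind J hA, div_le_iff₀ (Real.exp_pos _), ← Real.exp_add,
      show -(k / 2) * n + -(k / 2) * n = -k * n by ring]
    refine le_trans ((wt J 0).mean_mono fun s => ?_) hg
    have := isProb_path (r • sv s) √r
    rw [px, Measure.real, measure_toMeasurable, rl]
    refine ENNReal.toReal_mono (measure_ne_top _ _)
      (le_trans (measure_mono fun y hy => ?_) (Measure.le_map_apply (pr_meas s).aemeasurable _))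
    simpa [pr, cbsv] using hy

theorem tc_gibbs' : ∀ β ∈ Icc (0 : ℝ) 1, ∀ r ≥ (0 : ℝ), ∀ P : ∀ n, Mx n → Cube n → V n → Prop,
    (∀ n J s, GJ J → MeasurableSet {y | P n J s y}) → ∀ κ > (0 : ℝ),
    (Ty β r fun n J y => mass (ising J y) {s | ¬ P n J s y} ≤ Real.exp (-κ * n)) →
    Hp β (wc r) (wd r) fun n J a => P n J (cb (a true)) (a false) := by
  rintro β hβ r hr P hP k hk ⟨k', hk', h⟩
  have h0 := lt_min hk hk'
  refine ⟨min k k' / 2, half_pos h0, (h.and Z.Hp58.whp_opn).mono ?_⟩
  filter_upwards [Z.Hp58.two_exp h0] with n hn g ⟨hg, ho⟩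
  rw [gibbsWeight_eq_ising] at hg ⊢
  have hJ : GJ (β • Jmat n g) := ⟨by rw [transpose_smul, Jmat_transpose],
    fun i => by simp [Jmat_diag], by
      rw [opn_smul, abs_of_nonneg hβ.1]
      exact (mul_le_of_le_one_left (opn_nonneg _) hβ.2).trans ho⟩
  set J := β • Jmat n g
  have hA : ∀ s, MeasurableSet {y | ¬ P n J s y} := fun s => (hP n J s hJ).compl
  have m := fun s => (MG.const 1).indicator (hA s)
  have := isProb_law (φ := sv) (s := r) (wt J 0)
  have e : ∀ y, mass (ising J y) {s | ¬ P n J s y} =
      mean (ising J y) fun s => {y | ¬ P n J s y}.indicator (fun _ => 1) y := fun y => by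
    rw [mass_ind]; congr 1
  simp only [e] at hg
  have mB := (measurableSet_le (mgm J m).meas (measurable_const (a := Real.exp (-k * n)))).compl
  have n0 : (0 : ℝ) ≤ n := Nat.cast_nonneg n
  have a1 : Real.exp (-k * n) ≤ Real.exp (-min k k' * n) :=
    Real.exp_le_exp.2 (by nlinarith [min_le_left k k'])
  have a2 : Real.exp (-k' * n) ≤ Real.exp (-min k k' * n) :=
    Real.exp_le_exp.2 (by nlinarith [min_le_right k k'])
  have a3 := integral_mono (μ := law sv (ising J 0) r) (mgm J m).int_law
    (((integrable_const (1 : ℝ)).indicator mB).add (integrable_const (Real.exp (-k * n))))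
    fun y => by
      beta_reduce
      by_cases hy : (mean (ising J y) fun s => {y | ¬ P n J s y}.indicator (fun _ => 1) y) ≤
          Real.exp (-k * n)
      · exact hy.trans (le_add_of_nonneg_left (indicator_nonneg (fun _ _ => zero_le_one) y))
      · rw [Pi.add_apply, indicator_of_mem (by exact hy)]
        exact ((wt J y).mean_le fun s => indicator_le_self' (fun _ _ => zero_le_one) y).trans
          (le_add_of_nonneg_right (Real.exp_pos _).le)
  rw [integral_add' ((integrable_const (1 : ℝ)).indicator mB) (integrable_const _),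
    integral_indicator_const _ mB, tow J hr m] at a3
  simp only [smul_eq_mul, mul_one, integral_const, probReal_univ, one_mul] at a3
  refine le_trans ((wt J 0).mean_mono fun s => ?_) ((slE_ind J hA).ge.trans
    (a3.trans ((add_le_add hg le_rfl).trans (by linarith))))
  have := isProb_path (r • sv s) √r
  have mS : MeasurableSet ({a : Bool → V n | a true = sv s}ᶜ ∪ {a | ¬ P n J s (a false)}) :=
    (measurableSet_eq_fun (measurable_pi_apply _) measurable_const).compl.union
      ((hA s).preimage (measurable_pi_apply (X := fun _ : Bool => V n) false))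
  rw [rl]
  refine (measureReal_mono (fun a ha => ?_)).trans
    ((map_measureReal_apply (pr_meas s) mS).le.trans (measureReal_mono fun y hy => ?_))
  · by_cases h1 : a true = sv s
    · exact Or.inr (by simpa [h1, cbsv] using ha)
    · exact Or.inl h1
  · simpa [pr] using hy

end Crest.Agent.T157.K

end
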