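import Crest.Agent.T157.KTc_36
import Crest.Agent.T157.KRev_53
import Crest.Agent.T157.KDi_8

/-!
# Row 157, part B, block S5 (helper55): thermal means, deterministic part
-/

set_option autoImplicit false
set_option linter.all false

noncomputable section

namespace Crest.Agent.T157.K

namespace Tm55

open MeasureTheory ProbabilityTheory Real Matrix Finset
open Crest.Agent.T157.E Crest.Agent.T157.Eig
open Crest.Agent.T157.Tap (V Mx)
open Crest.Agent.T157.Rec (grad fl)
open Crest.Agent.T157.Reg (jac)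
open Crest.Agent.T157.SL (Wt)
open Crest.Agent.T157.S3.Hd (AD)

variable {n : ℕ}

theorem mass_eq {Ω : Type*} [Fintype Ω] (w : Ω → ℝ) (B : Set Ω) :
    mass w B = mean w (B.indicator fun _ => 1) := by
  classical
  rw [mass, mean, Finset.sum_filter]
  refine Finset.sum_congr rfl fun x _ => ?_
  by_cases h : x ∈ B <;> simp [h]

/-- tail of a self-bounded observable -/
theorem tail {w Z : Cube n → ℝ} {K ε c t : ℝ} (hw : ∀ x, 0 < w x) (h : AD w K ε) (hc : 0 < c)
    (hZ : SB c Z) : mass w {s | ¬ Z s ≤ t} ≤ exp (1 - (t - 2 * mean w Z) / (16 * K * c)) := by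
  classical
  have W : Wt w := .of_pos hw
  have K0 := h.pos
  have pp : ∀ x, 0 < prob w x := fun x => div_pos (hw x) W.pos
  obtain ⟨p, hp⟩ : ∃ p, p = mass w {s | ¬ Z s ≤ t} := ⟨_, rfl⟩
  have ep : p = ∑ x, if Z x ≤ t then 0 else prob w x := by
    rw [hp, mass_eq, mean]
    refine sum_congr rfl fun x _ => ?_
    by_cases hx : Z x ≤ t <;> simp [Set.indicator, hx, not_le.1]
  rw [← hp]
  rcases le_or_gt p 0 with p0 | p0
  · exact p0.trans (exp_pos _).le
  set ν : Cube n → ℝ := fun x => (if Z x ≤ t then 0 else prob w x) / p with hν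
  have s1 : ∑ x, ν x = 1 := by rw [hν, ← sum_div, ← ep, div_self p0.ne']
  have n0 : ∀ x, 0 ≤ ν x := fun x => div_nonneg (by split_ifs; exacts [le_rfl, (pp x).le]) p0.le
  have a := S3.Hd.sb hw h hc.le (fun s => (hZ s).1) (fun s => (hZ s).2) ⟨n0, s1⟩
  have b : Ent.kl ν (prob w) = -log p := by
    have : ∀ x, ν x * log (ν x / prob w x) = ν x * -log p := fun x => by
      by_cases hx : Z x ≤ t
      · simp [hν, hx]
      · simp only [hν, hx, if_false]
        rw [div_right_comm, div_self (pp x).ne', one_div, log_inv]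
    rw [Ent.kl, sum_congr rfl fun x _ => this x, ← sum_mul, s1, one_mul]
  have d : t ≤ Chain22.mean ν Z := by
    have : ∀ x, ν x * t ≤ ν x * Z x := fun x => by
      by_cases hx : Z x ≤ t
      · simp [hν, hx]
      · exact mul_le_mul_of_nonneg_left (not_le.1 hx).le (n0 x)
    calc t = ∑ x, ν x * t := by rw [← sum_mul, s1, one_mul]
      _ ≤ _ := sum_le_sum fun x _ => this x
  rw [b] at a
  change _ ≤ 2 * mean w Z + _ at a
  rw [← exp_log p0]
  refine exp_le_exp.2 ?_
  have q : 0 < 16 * K * c := by positivity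
  have : (t - 2 * mean w Z) / (16 * K * c) ≤ -log p + 1 := by
    rw [div_le_iff₀ q]; linarith
  linarith

/-- the kernel on vector fields -/
def KV (Q : Mx n) (y : V n) (ω : Cube n → V n) : Cube n → V n :=
  fun s j => Ky Q y (fun t => ω t j) s

theorem KV_iter (Q : Mx n) (y : V n) (ω : Cube n → V n) (T : ℕ) :
    (KV Q y)^[T] ω = fun s j => (Ky Q y)^[T] (fun t => ω t j) s := by
  induction T with
  | zero => rfl
  | succ T ih =>
    rw [Function.iterate_succ_apply', ih]
    funext s j
    rw [Function.iterate_succ_apply']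
    rfl

theorem r0_nn {e : ℝ} {ω : Cube n → V n} (h : R0 e ω) : 0 ≤ e :=
  (opn_nonneg _).trans (h.op default)

theorem w2_one : W2 1 fun _ : ℝ => (1 : ℝ) :=
  ⟨differentiable_const _, fun u v => by simp⟩

theorem r0_step (hF : RFStmt) (hP : PrStmt) (hR : RevStmt) : ∃ C ≥ (1 : ℝ), ∀ (n : ℕ) (J Q : Mx n)
    (y : V n) (ω : Cube n → V n) (e : ℝ), JQ J Q → R0 e ω → R0 (C * e) (KV Q y ω) := by
  obtain ⟨C, C1, hC⟩ := hF 3
  refine ⟨3 * C, by linarith, fun n J Q y ω e h hω => ?_⟩
  have e0 := r0_nn hω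
  have hQ := (hR.opQ n J Q h).1
  have a := hC n (Fin n) Q Q (fun _ => 1) (fun _ ζ => meanV (pw Q y ζ) ω) 1 (3 * e) hQ hQ w2_one
    ⟨fun ζ => ⟨fun s i => ((Rev53.wt 0 _).abs_mean_le fun t => hω.sup t i).trans (by linarith),
      fun s => by
        rw [show jac (fun _ : Cube n => meanV (pw Q y ζ) ω) s = 0 by ext; simp [jac], opn_zero]
        linarith⟩,
      fun s ζ ζ' => by
        refine (hP.lip n ω e hω _ _).trans ?_
        rw [add_sub_add_left_eq_sub, ← mulVec_sub, mul_comm 3, mul_assoc]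
        exact mul_le_mul_of_nonneg_left ((nrm_mulVec_le _ _).trans
          (mul_le_mul_of_nonneg_right hQ (nrm_nonneg _))) e0⟩
  rw [show C * 1 * (3 * e) = 3 * C * e by ring] at a
  convert a using 1
  funext s j
  simp only [KV, Ky, cav, cwv, one_mul, meanV]

theorem r0_iter (hF : RFStmt) (hP : PrStmt) (hR : RevStmt) : ∃ C ≥ (1 : ℝ), ∀ (n : ℕ) (J Q : Mx n)
    (y : V n) (ω : Cube n → V n) (e : ℝ) (T : ℕ), JQ J Q → R0 e ω →
    R0 (C ^ T * e) ((KV Q y)^[T] ω) := by
  obtain ⟨C, C1, hC⟩ := r0_step hF hP hR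
  refine ⟨C, C1, fun n J Q y ω e T h hω => ?_⟩
  induction T with
  | zero => simpa using hω
  | succ T ih =>
    rw [Function.iterate_succ_apply', pow_succ', mul_assoc]
    exact hC n J Q y _ _ h ih

theorem mean_iter (hR : RevStmt) {J Q : Mx n} (h : JQ J Q) (y : V n) (F : Cube n → ℝ) (T : ℕ) :
    mean (ising J y) ((Ky Q y)^[T] F) = mean (ising J y) F := by
  induction T with
  | zero => rfl
  | succ T ih => rw [Function.iterate_succ_apply', hR.inv n J Q y _ h, ih]

theorem var_le {w F : Cube n → ℝ} (W : Wt w) {e : ℝ} (h : ∀ s, |F s| ≤ e) : var w F ≤ 4 * e ^ 2 := by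
  refine W.mean_le (f := fun x => (F x - mean w F) ^ 2) fun x => ?_
  have a := abs_le.1 (h x)
  have b := abs_le.1 (W.abs_mean_le h)
  nlinarith

/-- the iterated kernel is close to the mean in `L²` -/
theorem var_iter (hR : RevStmt) (K0 : ℝ) : ∃ γ C : ℝ, 0 < γ ∧ γ < 1 ∧ 1 ≤ C ∧ ∀ (n : ℕ) (J Q : Mx n)
    (y : V n) (ε e : ℝ) (ω : Cube n → V n) (T : ℕ), JQ J Q → AD (ising J y) K0 ε → R0 e ω →
    (mean (ising J y) fun s => nrm (meanV (ising J y) ω - (KV Q y)^[T] ω s) ^ 2) ≤
      (4 * (1 - γ) ^ T + C * ε) * e ^ 2 * n := by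
  obtain ⟨γ, C, γ0, γ1, C1, hC⟩ := gapStmt K0
  refine ⟨γ, C, γ0, γ1, C1, fun n J Q y ε e ω T h hA hω => ?_⟩
  have W := Rev53.wt J y
  simp only [nrm_sq, dotProduct, KV_iter, SL.mean_sum]
  refine (sum_le_sum (g := fun _ => (4 * (1 - γ) ^ T + C * ε) * e ^ 2) fun j _ => ?_).trans_eq
    (by simp [mul_comm])
  have g : ∀ s, nrm (grad (fun t => ω t j) s) ^ 2 ≤ e ^ 2 := fun s => by
    have := Di.opL_jac hω.op s (Pi.single j 1)
    simp only [single_dotProduct, one_mul, Pi.single_eq_same, mul_one] at this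
    rw [nrm_sq]
    nlinarith [sq_nonneg e]
  have a := (hC n J Q y ε (e ^ 2) (fun t => ω t j) T h hA g).2.1
  have b := mul_le_mul_of_nonneg_left (var_le W fun s => hω.sup s j)
    (pow_nonneg (sub_nonneg.2 γ1.le) T)
  have c : (mean (ising J y) fun s => (meanV (ising J y) ω - fun j => (Ky Q y)^[T] (fun t => ω t j) s) j *
      (meanV (ising J y) ω - fun j => (Ky Q y)^[T] (fun t => ω t j) s) j) =
      var (ising J y) ((Ky Q y)^[T] fun t => ω t j) := by
    rw [var, mean_iter hR h, mean]
    refine sum_congr rfl fun s _ => ?_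
    simp only [Pi.sub_apply, meanV]
    ring
  rw [c]
  linarith

/-- multiplication by the spins -/
theorem r0_sv {e : ℝ} {ω : Cube n → V n} (h : R0 e ω) : R0 (3 * e) fun s => sv s * ω s := by
  have e0 := r0_nn h
  have a1 : ∀ (s : Cube n) i, |sv s i| = 1 := fun s i => by
    have := Rec.sv_mul_self s i
    rw [← abs_mul_abs_self] at this
    nlinarith [abs_nonneg (sv s i)]
  refine ⟨fun s i => ?_, fun s => ?_⟩
  · rw [Pi.mul_apply, abs_mul, a1, one_mul]; linarith [h.sup s i]
  · have ej : jac (fun s => sv s * ω s) s =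
        diagonal (sv s) * jac ω s + diagonal fun i => -2 * sv s i * ω (fl s i) i := by
      ext i j
      simp only [jac, of_apply, Pi.mul_apply, Matrix.add_apply, diagonal_mul]
      by_cases hij : i = j
      · subst hij
        have := congrFun (Rec.sv_fl_sub s i) i
        simp only [Pi.sub_apply, Pi.single_eq_same] at this
        rw [diagonal_apply_eq, show sv (fl s i) i = -sv s i by linarith]
        ring
      · rw [diagonal_apply_ne _ hij, Rec.sv_fl_ne s hij]; ring
    rw [ej]
    refine (opn_add_le _ _).trans ?_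
    have b1 := (opn_mul_le (diagonal (sv s)) (jac ω s)).trans (mul_le_mul
      (opn_diagonal_le zero_le_one fun i => (a1 s i).le) (h.op s) (opn_nonneg _) zero_le_one)
    have b2 : opn (diagonal fun i => -2 * sv s i * ω (fl s i) i) ≤ 2 * e :=
      opn_diagonal_le (by linarith) fun i => by
        rw [abs_mul, abs_mul, a1, abs_neg, abs_two, mul_one]
        linarith [h.sup (fl s i) i]
    linarith

/-! ### measurability in the field -/

theorem meas_prob (J : Mx n) (s : Cube n) : Continuous fun x : V n => prob (ising J x) s := by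
  have c : ∀ s, Continuous fun x : V n => ising J x s := fun s => by
    simp only [ising, dotProduct]; fun_prop
  exact (c s).div (continuous_finsetSum _ fun x _ => c x) fun x => (Rev53.wt J x).pos.ne'

theorem meas_meanV (J : Mx n) {G : U2 n} (h : ∀ s, Measurable (G s)) :
    Measurable fun y => meanV (ising J y) fun s => G s y :=
  measurable_pi_lambda _ fun j => Finset.measurable_sum _ fun s _ =>
    (meas_prob J s).measurable.mul ((measurable_pi_apply j).comp (h s))

theorem meas_KV (Q : Mx n) {G : U2 n} (h : ∀ s, Measurable (G s)) (s : Cube n) :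
    Measurable fun y => KV Q y (fun t => G t y) s := by
  refine measurable_pi_lambda _ fun j => ?_
  have c : Measurable fun p : V n × V n => mean (pw Q p.1 (Q *ᵥ sv s + p.2)) fun t => G t p.1 j :=
    Finset.measurable_sum _ fun t _ =>
      ((Rev53.cont_prob t).comp (f := fun p : V n × V n => p.1 + Q *ᵥ (Q *ᵥ sv s + p.2))
        (by fun_prop)).measurable.mul (((measurable_pi_apply j).comp (h t)).comp measurable_fst)
  exact c.stronglyMeasurable.integral_prod_right'.measurable

theorem meas_iter (Q : Mx n) {G : U2 n} (h : ∀ s, Measurable (G s)) (T : ℕ) (s : Cube n) :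
    Measurable fun y => (KV Q y)^[T] (fun t => G t y) s := by
  induction T generalizing s with
  | zero => exact h s
  | succ T ih =>
    simp only [Function.iterate_succ_apply']
    exact meas_KV Q (G := fun t y => (KV Q y)^[T] (fun t => G t y) t) ih s

/-! ### means of fields which are close off a small set -/

theorem nrm_meanV {w r : Cube n → ℝ} (W : Wt w) {u : Cube n → V n} (h : ∀ x, nrm (u x) ≤ r x) :
    nrm (meanV w u) ≤ mean w r := by
  have h1 : nrm (meanV w u) * nrm (meanV w u) ≤ nrm (meanV w u) * mean w r := by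
    rw [nrm_mul_self, ← SL.mean_const_mul]
    refine (SL.meanV_dot w u _).trans_le (W.mean_mono fun x => (dot_le _ _).trans
      (mul_le_mul_of_nonneg_left (h x) (nrm_nonneg _)))
  rcases (nrm_nonneg (meanV w u)).eq_or_lt with h0 | h0
  · rw [← h0]; exact W.mean_nonneg fun x => (nrm_nonneg _).trans (h x)
  · exact le_of_mul_le_mul_left h1 h0

theorem meanV_close {w : Cube n → ℝ} (W : Wt w) {u v : Cube n → V n} {a b : ℝ} (a0 : 0 ≤ a)
    (hb : ∀ s, nrm (u s - v s) ≤ b) :
    nrm (meanV w u - meanV w v) ≤ a + b * mass w {s | ¬ nrm (u s - v s) ≤ a} := by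
  have e : meanV w u - meanV w v = meanV w fun s => u s - v s := by
    ext i; simp only [meanV, Pi.sub_apply, SL.mean_sub]
  rw [e, mass_eq, ← SL.mean_const_mul, ← W.mean_const a, ← SL.mean_add]
  refine nrm_meanV W fun s => ?_
  rw [W.mean_const]
  by_cases hs : nrm (u s - v s) ≤ a
  · simpa [Set.indicator, hs, not_lt.2 hs] using hs
  · have := hb s
    simp only [Set.indicator, Set.mem_setOf_eq, hs, not_false_eq_true, if_true]
    linarith

variable {Ω : Type*} [MeasurableSpace Ω] {μ : Measure Ω} [IsProbabilityMeasure μ]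

theorem int_close {u : V n} {f : Ω → V n} (hf : ∀ k, Integrable (fun ω => f ω k) μ) {B : Set Ω}
    (hB : MeasurableSet B) {a b : ℝ} (a0 : 0 ≤ a) (ha : ∀ ω ∉ B, nrm (u - f ω) ≤ a)
    (hb : ∀ ω, nrm (u - f ω) ≤ b) : nrm (u - fun k => ∫ ω, f ω k ∂μ) ≤ a + b * μ.real B := by
  have i : ∀ k, Integrable (fun ω => (u - f ω) k) μ := fun k => (integrable_const _).sub (hf k)
  have e : (u - fun k => ∫ ω, f ω k ∂μ) = fun k => ∫ ω, (u - f ω) k ∂μ := funext fun k => by
    simp only [Pi.sub_apply]
    rw [integral_sub (integrable_const _) (hf k)]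
    simp
  have hr : Integrable (fun ω => a + B.indicator (fun _ => b) ω) μ :=
    (integrable_const _).add ((integrable_const _).indicator hB)
  have er : ∫ ω, (a + B.indicator (fun _ => b) ω) ∂μ = a + b * μ.real B := by
    rw [integral_add (integrable_const _) ((integrable_const _).indicator hB),
      integral_indicator_const _ hB]
    simp [mul_comm]
  have h : ∀ ω, nrm (u - f ω) ≤ a + B.indicator (fun _ => b) ω := fun ω => by
    by_cases hω : ω ∈ B
    · rw [Set.indicator_of_mem hω]; linarith [hb ω]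
    · rw [Set.indicator_of_notMem hω, add_zero]; exact ha ω hω
  rw [e, ← er]
  set v := fun k => ∫ ω, (u - f ω) k ∂μ with hv
  have h1 : nrm v * nrm v ≤ nrm v * ∫ ω, (a + B.indicator (fun _ => b) ω) ∂μ := by
    rw [nrm_mul_self, ← integral_const_mul]
    have : v ⬝ᵥ v = ∫ ω, v ⬝ᵥ (u - f ω) ∂μ := by
      simp only [dotProduct]
      rw [integral_finsetSum _ fun k _ => (i k).const_mul (v k)]
      simp only [integral_const_mul]
      rfl
    refine this.trans_le (integral_mono ?_ (hr.const_mul _) fun ω =>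
      (dot_le _ _).trans (mul_le_mul_of_nonneg_left (h ω) (nrm_nonneg _)))
    exact integrable_finsetSum _ fun k _ => (i k).const_mul (v k)
  rcases (nrm_nonneg v).eq_or_lt with h0 | h0
  · rw [← h0]; exact integral_nonneg fun ω => (nrm_nonneg _).trans (h ω)
  · exact le_of_mul_le_mul_left h1 h0

/-- Markov and Fubini for an arbitrary set -/
theorem fub {α : Type*} [MeasurableSpace α] (ν : Measure α) [IsProbabilityMeasure ν]
    (S : Set (α × Ω)) {t : ℝ} (ht : 0 < t) :
    ν.real {a | ¬ ∃ B, MeasurableSet B ∧ μ.real B ≤ t ∧ ∀ w ∉ B, (a, w) ∉ S} ≤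
      (ν.prod μ).real S / t := by
  set T := toMeasurable (ν.prod μ) S
  have mT : MeasurableSet T := measurableSet_toMeasurable _ _
  have sub : {a | ¬ ∃ B, MeasurableSet B ∧ μ.real B ≤ t ∧ ∀ w ∉ B, (a, w) ∉ S} ⊆
      {a | ENNReal.ofReal t ≤ μ (Prod.mk a ⁻¹' T)} := fun a ha => by
    by_contra h
    refine ha ⟨Prod.mk a ⁻¹' T, measurable_prodMk_left mT, ?_, fun w hw hS =>
      hw (subset_toMeasurable _ _ hS)⟩
    exact ENNReal.toReal_le_of_le_ofReal ht.le (not_le.1 h).le
  have mk := meas_ge_le_lintegral_div (μ := ν) (measurable_measure_prodMk_left (ν := μ) mT).aemeasurable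
    (ε := ENNReal.ofReal t) (by simpa using ht) ENNReal.ofReal_ne_top
  rw [← Measure.prod_apply mT, measure_toMeasurable] at mk
  have := ENNReal.toReal_mono (ENNReal.div_ne_top (measure_ne_top _ _) (by simpa using ht))
    ((measure_mono sub).trans mk)
  rwa [ENNReal.toReal_div, ENNReal.toReal_ofReal ht.le] at this

end Tm55

end Crest.Agent.T157.K

end
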