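import Crest.Agent.T157.KDi_8

/-!
# Row 157, block S5 (helper8): iterates of the kernel approximate the thermal means
-/

set_option autoImplicit false

noncomputable section

namespace Crest.Agent.T157.K.Tm8

open Di MeasureTheory Real Matrix Finset Filter
open Crest.Agent.T157.E Crest.Agent.T157.Eig Crest.Agent.T157.SL Crest.Agent.T157.Rec
open Crest.Agent.T157.Kc
open Crest.Agent.T157.Tap (V Mx th DD)
open Crest.Agent.T157.Reg (jac neg)
open Crest.Agent.T157.S3.Hb (Vp)
open Crest.Agent.T157.S3.Hd (AD)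
open Crest.Agent.T157.K75 (wt_prod)

variable {n : ℕ}

/-- iterates of the kernel on vector fields -/
def Kit (Q : Mx n) (y : V n) (T : ℕ) (u : Cube n → V n) (s : Cube n) : V n :=
  fun j => (Ky Q y)^[T] (fun t => u t j) s

theorem R0.nn {e : ℝ} {u : Cube n → V n} (h : R0 e u) : 0 ≤ e := (opn_nonneg _).trans (h.op default)

/-- the even form -/
theorem r0_spin {e : ℝ} {u : Cube n → V n} (h : R0 e u) : R0 (3 * e) fun s => sv s * u s := by
  have a : ∀ (s : Cube n) i, |sv s i| = 1 := fun s i => abs_eq_iff_mul_self_eq.2 (by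
    rw [sv_mul_self, one_mul]) |>.trans abs_one
  have e0 := R0.nn h
  refine ⟨fun s i => by rw [Pi.mul_apply, abs_mul, a]; linarith [h.sup s i], fun s => ?_⟩
  have e1 : jac (fun s => sv s * u s) s =
      diagonal (sv s) * jac u s + diagonal fun i => -2 * sv s i * u (fl s i) i := by
    ext i j
    have := congrFun (sv_fl_sub s j) i
    rw [Pi.sub_apply, sub_eq_iff_eq_add] at this
    simp only [jac, of_apply, Pi.mul_apply, Matrix.add_apply, diagonal_mul, diagonal_apply, this]
    by_cases hij : i = j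
    · subst hij; simp; ring
    · simp [hij]; ring
  have h1 : opn (diagonal (sv s)) ≤ 1 := opn_diagonal_le zero_le_one fun i => (a s i).le
  have h2 : opn (diagonal fun i => -2 * sv s i * u (fl s i) i) ≤ 2 * e :=
    opn_diagonal_le (by positivity) fun i => by
      rw [abs_mul, abs_mul, a, abs_neg, abs_two]; linarith [h.sup (fl s i) i]
  rw [e1]
  linarith [opn_add_le (diagonal (sv s) * jac u s) (diagonal fun i => -2 * sv s i * u (fl s i) i),
    opn_mul_le (diagonal (sv s)) (jac u s), mul_le_mul h1 (h.op s) (opn_nonneg _) zero_le_one]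

/-- the kernel preserves regular fields -/
theorem r0_iter (hRF : RFStmt) (hP : PrStmt) : ∃ C ≥ (1 : ℝ), ∀ (n : ℕ) (Q : Mx n) (y : V n)
    (u : Cube n → V n) (e : ℝ), opn Q ≤ 3 → R0 e u → ∀ T, R0 (C ^ T * e) (Kit Q y T u) := by
  obtain ⟨C, c1, hRF⟩ := hRF 3
  refine ⟨3 * C, by linarith, fun n Q y u e hQ h T => ?_⟩
  induction T with
  | zero => rw [pow_zero, one_mul]; exact h
  | succ T ih =>
    have e0 := R0.nn ih
    have := hRF n (Fin n) Q Q (fun _ => 1) (fun _ ζ => meanV (pw Q y ζ) (Kit Q y T u)) 1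
      (3 * ((3 * C) ^ T * e)) hQ hQ ⟨differentiable_const _, fun u v => by simp⟩
      ⟨fun ζ => ⟨fun _ i => ((wt_prod _).abs_mean_le fun s => ih.sup s i).trans (by linarith),
        fun s => by
          rw [show jac (fun _ : Cube n => meanV (pw Q y ζ) (Kit Q y T u)) s = 0 by ext; simp [jac],
            opn_zero]; positivity⟩, fun _ ζ ζ' => (hP.lip n _ _ ih _ _).trans (by
        rw [add_sub_add_left_eq_sub, ← mulVec_sub, mul_comm 3 (_ * e), mul_assoc _ 3]
        exact mul_le_mul_of_nonneg_left ((nrm_mulVec_le Q _).trans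
          (mul_le_mul_of_nonneg_right hQ (nrm_nonneg _))) e0)⟩
    rw [show C * 1 * (3 * ((3 * C) ^ T * e)) = (3 * C) ^ (T + 1) * e by ring] at this
    convert this using 2 with s
    ext j
    simp only [Kit, Function.iterate_succ_apply', Ky, cav, cwv, one_mul, meanV]

/-- upper tail -/
theorem tail {w F : Cube n → ℝ} {K ε A a : ℝ} (hw : ∀ x, 0 < w x) (h : AD w K ε) (hA : 0 < A)
    (hF : ∀ x, Vp F x ≤ A) (ha : 0 ≤ a) (hm : mean w F ≤ a) :
    mass w {s | ¬ F s ≤ 2 * a} ≤ exp (-(a ^ 2 / (4 * K * A))) := by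
  have K0 := h.pos
  have t0 : 0 ≤ a / (2 * K * A) := by positivity
  have h1 := mul_le_mul_of_nonneg_left (S3.Hd.mgf_le hw h hF t0)
    (exp_pos (-(a / (2 * K * A) * (2 * a)))).le
  have p0 : ∀ x, 0 ≤ prob w x := fun x => div_nonneg (hw x).le (sum_nonneg fun y _ => (hw y).le)
  refine le_trans ?_ (h1.trans ?_)
  · rw [Chain22.mean, mul_sum, mass, sum_filter]
    refine sum_le_sum fun x _ => ?_
    rw [mul_left_comm, ← exp_add]
    split_ifs with hx
    · refine le_mul_of_one_le_right (p0 x) (one_le_exp ?_)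
      nlinarith [mul_le_mul_of_nonneg_left (not_le.1 hx).le t0]
    · exact mul_nonneg (p0 x) (exp_pos _).le
  · rw [← exp_add, exp_le_exp]
    have e : K * A * (a / (2 * K * A)) ^ 2 = a ^ 2 / (4 * K * A) := by field_simp; ring
    have e' : a / (2 * K * A) * a = 2 * (a ^ 2 / (4 * K * A)) := by field_simp; ring
    have := mul_le_mul_of_nonneg_left (show Chain22.mean (prob w) F ≤ a from hm) t0
    linarith

/-- **thermal means, deterministic core** -/
theorem core (hRF : RFStmt) (hP : PrStmt) (hR : RevStmt) (K0 k0 e δ : ℝ) (hK : 0 ≤ K0) (hk : 0 < k0)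
    (hδ : 0 < δ) : ∃ T : ℕ, ∃ κ > (0 : ℝ), ∀ᶠ n : ℕ in atTop, ∀ (J Q : Mx n) (y : V n)
    (u : Cube n → V n), JQ J Q → Atd.ATd (ising J y) K0 (exp (-(k0 * n))) → R0 e u →
    mass (ising J y) {s | ¬ nrm (Kit Q y T u s - meanV (ising J y) u) ≤ δ * √n} ≤ exp (-κ * n) := by
  obtain ⟨C, c1, hC⟩ := r0_iter hRF hP
  have g0 : 0 ≤ K0 * Ga 1 9 := mul_nonneg hK (Ga_nonneg zero_le_one (by norm_num))
  have η0 : 0 < δ ^ 2 / (12 * (e ^ 2 + 1)) := by positivity
  obtain ⟨T, hT⟩ := exists_pow_lt_of_lt_one η0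
    (show 1 - (1 + K0 * Ga 1 9)⁻¹ < 1 from sub_lt_self _ (by positivity))
  have t1 : Tendsto (fun n : ℕ => exp (-(k0 * n))) atTop (nhds 0) :=
    tendsto_exp_neg_atTop_nhds_zero.comp (tendsto_natCast_atTop_atTop.const_mul_atTop hk)
  obtain ⟨A, hA⟩ : ∃ A, A = (2 * (C ^ T * e)) ^ 2 + 1 := ⟨_, rfl⟩
  have A0 : 0 < A := by rw [hA]; positivity
  refine ⟨T, δ ^ 2 / (16 * (K0 + 32 / k0) * A), by positivity,
    (t1.eventually_lt_const η0).mono fun n hn J Q y u hJ hT' hu => ?_⟩
  have hw : ∀ x, 0 < ising J y x := fun _ => exp_pos _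
  have W := Wt.of_pos hw
  have hQ := (hR.opQ n J Q hJ).1
  have sb := sb_dist (hC n Q y u e hQ hu T).op (meanV (ising J y) u)
  have hV := S3.Hd.Vp_sqrt (sq_nonneg _) (fun s => (sb s).1) fun s => (sb s).2
  simp only [sqrt_sq (nrm_nonneg _)] at hV
  have m2 : (mean (ising J y) fun s => nrm (meanV (ising J y) u - Kit Q y T u s) ^ 2) ≤
      (δ * √n / 2) ^ 2 := by
    have : ∀ j, (mean (ising J y) fun s => (meanV (ising J y) u - Kit Q y T u s) j ^ 2) ≤ δ ^ 2 / 4 :=
      fun j => by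
        have b : ∀ x, |u x j - 0| ≤ e := fun x => by rw [sub_zero]; exact hu.sup x j
        have h1 := (fgQ hQ).gap_iter hw zero_le_one hK (exp_pos _).le hT' b T
        have h2 : var (ising J y) (fun x => u x j) ≤ e ^ 2 := (W.isP.var_le_sq _ 0).trans
          (W.mean_le fun x => sq_le_sq' (abs_le.1 (b x)).1 (abs_le.1 (b x)).2)
        have h3 := mul_le_mul hT.le h2 (W.var_nonneg _) η0.le
        have h4 := mul_le_mul_of_nonneg_right hn.le (sq_nonneg e)
        have h5 : δ ^ 2 / (12 * (e ^ 2 + 1)) * e ^ 2 ≤ δ ^ 2 / 12 := by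
          rw [div_mul_eq_mul_div, div_le_div_iff₀ (by positivity) (by norm_num)]
          nlinarith [sq_nonneg δ]
        rw [var, mean_iter W zero_le_one, ← hR.kf n J Q y hJ] at h1
        refine le_of_eq_of_le (sum_congr rfl fun x _ => ?_) (h1.trans (by linarith))
        beta_reduce
        rw [Pi.sub_apply, ← neg_sub, neg_sq]; rfl
    simp only [nrm_sq, dotProduct, ← sq, mean_sum]
    refine (sum_le_sum fun j _ => this j).trans_eq ?_
    rw [div_pow, mul_pow, sq_sqrt n.cast_nonneg]; simp; ring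
  have m1 : (mean (ising J y) fun s => nrm (meanV (ising J y) u - Kit Q y T u s)) ≤ δ * √n / 2 :=
    (abs_le_of_sq_le_sq' (le_trans (by simpa using mean_sub_sq_le W _ 0) m2) (by positivity)).2
  have h1 := tail hw (K := K0 + 32 / k0) ⟨K0, k0, hK, hk, le_rfl, le_rfl, hT'⟩ A0
    (fun x => (hV x).trans (by linarith)) (by positivity) m1
  rw [mul_div_cancel₀ _ two_ne_zero] at h1
  refine le_of_eq_of_le (by simp only [← nrm_neg (meanV _ u - _), neg_sub]) (h1.trans_eq ?_)
  rw [div_pow, mul_pow, sq_sqrt n.cast_nonneg]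
  congr 1
  generalize K0 + 32 / k0 = K
  ring

end Crest.Agent.T157.K.Tm8

end
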