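import Crest.Agent.T157.KTmA_55
import Crest.Agent.T157.AtU_39

/-!
# Row 157, part B, block S5 (helper55): thermal means are approximable
-/

set_option autoImplicit false
set_option linter.all false

noncomputable section

namespace Crest.Agent.T157.K

namespace Tm55

open MeasureTheory ProbabilityTheory Real Matrix Filter Set Topology
open Crest.ProbabilityR.SpinGlassDynamics
open Crest.Agent.T157.E Crest.Agent.T157.Eig
open Crest.Agent.T157.Tap (V Mx)
open Crest.Agent.T157.Reg (jac)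
open Crest.Agent.T157.S3.Hd (AD)
open Crest.Agent.T157.Z (Nt Nw Bd Ap Hp Ty RL rows hpStmt apA lipStmt)
open Crest.Agent.T157.Zf (QQ Vf)

variable {n : ℕ}

theorem ev_exp (A : ℝ) {κ ε : ℝ} (hκ : 0 < κ) (hε : 0 < ε) :
    ∀ᶠ n : ℕ in atTop, A * exp (-κ * n) ≤ ε := by
  have : Tendsto (fun n : ℕ => A * exp (-κ * n)) atTop (nhds (A * 0)) :=
    (tendsto_exp_atBot.comp (tendsto_natCast_atTop_atTop.const_mul_atTop_of_neg
      (by linarith))).const_mul _
  rw [mul_zero] at this
  exact this.eventually (eventually_le_nhds hε)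

/-- Fubini for likely events -/
theorem hp_fub {ι : Type} [Fintype ι] {β : ℝ} {c d : ι → ℝ} {m : ℕ}
    {P : ∀ n, Mx n → (ι ⊕ Fin m → V n) → Prop}
    (h : Hp β (Sum.elim c (0 : Fin m → ℝ)) (Sum.elim d 1) P) : ∃ κ > (0 : ℝ), Hp β c d fun n J a =>
      ∃ B, MeasurableSet B ∧ (gv (Fin m × Fin n)).real B ≤ exp (-κ * n) ∧
        ∀ w ∉ B, P n J (Sum.elim a fun l i => w (l, i)) := by
  obtain ⟨κ, κ0, h⟩ := h
  refine ⟨κ / 2, half_pos κ0, κ / 2, half_pos κ0, h.imp fun n g hg => ?_⟩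
  set J := β • Jmat n g
  have e0 := exp_pos (-(κ / 2) * n)
  have k : ∀ σ : V n, (RL c d σ).real {a | ¬ ∃ B, MeasurableSet B ∧
      (gv (Fin m × Fin n)).real B ≤ exp (-(κ / 2) * n) ∧
        ∀ w ∉ B, P n J (Sum.elim a fun l i => w (l, i))} ≤
      (RL (Sum.elim c (0 : Fin m → ℝ)) (Sum.elim d 1) σ).real {a | ¬ P n J a} /
        exp (-(κ / 2) * n) := fun σ => by
    have a := fub (μ := gv (Fin m × Fin n)) (RL c d σ)
      {p | ¬ P n J (Sum.elim p.1 fun l i => p.2 (l, i))} e0
    simp only [mem_setOf_eq, not_not] at a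
    refine a.trans (div_le_div_of_nonneg_right ?_ e0.le)
    have me : Measurable fun p : (ι → V n) × (Fin m → V n) =>
        (Sum.elim p.1 p.2 : ι ⊕ Fin m → V n) :=
      (MeasurableEquiv.sumPiEquivProdPi fun _ : ι ⊕ Fin m => V n).symm.measurable
    have mr := Z.Hp58.meas_rows (0 : Fin m → ℝ) 1 σ
    have e : RL (Sum.elim c (0 : Fin m → ℝ)) (Sum.elim d 1) σ =
        ((RL c d σ).prod (gv (Fin m × Fin n))).map
          fun p => (Sum.elim p.1 fun l i => p.2 (l, i) : ι ⊕ Fin m → V n) := by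
      rw [Z.Hp58.split]
      conv_lhs => rw [show RL (0 : Fin m → ℝ) 1 σ = (gv (Fin m × Fin n)).map (rows 0 1 σ) from rfl,
        ← Measure.map_id (μ := RL c d σ),
        Measure.map_prod_map _ _ measurable_id mr, Measure.map_map me (measurable_id.prodMap mr)]
      congr 1
      funext p l i
      cases l <;> simp [rows]
    rw [e]
    refine ENNReal.toReal_mono (measure_ne_top _ _) (Measure.le_map_apply ?_ {a | ¬ P n J a})
    exact (me.comp (measurable_fst.prodMk ((by fun_prop : Measurable fun (w : Fin m × Fin n → ℝ) l i =>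
      w (l, i)).comp measurable_snd))).aemeasurable
  refine ((Z.Hp58.wt_gibbs n β g).mean_mono fun x => k (sv x)).trans ?_
  rw [SL.mean_div_const, div_le_iff₀ e0, ← exp_add]
  exact hg.trans_eq (by congr 1; ring)

/-- typical fields tensorise -/
theorem ty_ad {β r : ℝ} (hβ : β ∈ Ioo (0 : ℝ) 1) (hr : 0 ≤ r) : ∃ K0 > (0 : ℝ), ∀ ε > (0 : ℝ),
    Ty β r fun n J y => AD (ising J y) K0 ε := by
  obtain ⟨K, K0, ρ, ρ0, κ, κ0, h⟩ := Atd.atyU β hβ
  refine ⟨K + 32 / κ, by positivity, fun ε hε => ⟨κ, κ0, h.mono ?_⟩⟩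
  have t1 : Tendsto (fun n : ℕ => (n : ℝ)) atTop atTop := tendsto_natCast_atTop_atTop
  have t2 := ((tendsto_pow_mul_exp_neg_atTop_nhds_zero 2).comp
    (t1.const_mul_atTop (half_pos κ0))).const_mul (5120 / (κ / 2) ^ 2)
  filter_upwards [t2.eventually_le_const (u := ε) (by simpa using hε)] with n hn g hg
  have := SL.isProb_law (φ := sv) (s := r) (Z.Hp58.wt_gibbs n β g)
  rw [neg_mul]
  refine le_trans (measureReal_mono ?_) (hg r r ⟨hr, le_rfl⟩)
  refine fun y hy hv => hy ?_
  have a := hv 0 (by rw [nrm_zero]; positivity)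
  rw [add_zero, gibbsWeight_eq_ising, tilt_ising, zero_add] at a
  refine ⟨K, κ, K0.le, κ0, le_rfl, le_of_eq_of_le ?_ hn, a⟩
  simp only [Function.comp_apply]
  rw [show κ * (n : ℝ) / 2 = κ / 2 * n by ring, mul_pow]
  field_simp

theorem sv_cb {v : V n} (h : ∀ i, v i = 1 ∨ v i = -1) : sv (cb v) = v := by
  funext i
  rcases h i with h | h <;> simp [sv, cb, spin, h]

theorem lab2_eq {m : ℕ} (a : Bool → V n) (w : Fin m × Fin n → ℝ) :
    lab2 (a true) (a false) w = Sum.elim a fun l i => w (l, i) := by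
  funext l
  rcases l with (_ | _) | l <;> rfl

theorem nrm_sv (s : Cube n) (v : V n) : nrm (sv s * v) = nrm v := by
  unfold nrm
  congr 1
  refine Finset.sum_congr rfl fun i _ => ?_
  simp only [Pi.mul_apply]
  linear_combination v i * v i * Rec.sv_mul_self s i

theorem cont_lab {m : ℕ} (x : V n) :
    Continuous fun p : V n × (Fin m × Fin n → ℝ) => lab2 x p.1 p.2 := by
  refine continuous_pi fun l => continuous_pi fun i => ?_
  rcases l with (_ | _) | l
  · exact (continuous_apply i).comp continuous_fst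
  · exact continuous_const
  · exact (continuous_apply (l, i)).comp continuous_snd

theorem r0_Eh (hJ : JacStmt) (hF : RFStmt) {m : ℕ} {X : Nt (Bool ⊕ Fin m)} (hX : Nw True X)
    (hb : Bd X) : ∃ e, ∀ n J y, R0 e fun s => Eh X n J (sv s) y := by
  obtain ⟨M, M0, hM⟩ := Z.A48.Bd.pos hb
  obtain ⟨C, C0, hC⟩ := hJ _ X hX (Sum.elim (fun b => if b then 1 else 0) 0)
  obtain ⟨L, L0, hL⟩ := lipStmt.lip _ _ X hX
  obtain ⟨D, -, hD⟩ := hF 0
  have m0 : 0 ≤ L * m := by positivity
  refine ⟨D * 1 * (M + C + L * m), fun n J y => ?_⟩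
  have a := hD n (Fin m × Fin n) 0 0 (fun _ => 1) (fun s ζ => X n J (lab2 (sv s) y ζ)) 1
    (M + C + L * m) (by simp) (by simp) w2_one ⟨fun ζ => ⟨fun s i => (hM _ _ _ _).trans (by linarith),
      fun s => by
        have b := hC n J (lab2 0 y ζ) s
        have e : ∀ s : Cube n, (fun l => lab2 0 y ζ l +
            Sum.elim (fun b => if b then (1 : ℝ) else 0) (0 : Fin m → ℝ) l • sv s) =
            lab2 (sv s) y ζ := fun s => by
          funext l
          rcases l with (_ | _) | l <;> simp [lab2]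
        simp only [e] at b
        linarith⟩, fun s ζ ζ' => by
      have b := hL n J J (lab2 (sv s) y ζ) (lab2 (sv s) y ζ')
      have e : Z.nA (lab2 (sv s) y ζ - lab2 (sv s) y ζ') ≤ m * nrm (ζ - ζ') := by
        rw [Z.nA, Fintype.sum_sum_type, Fintype.sum_bool]
        have : ∑ l : Fin m, nrm ((lab2 (sv s) y ζ - lab2 (sv s) y ζ') (.inr l)) ≤
            ∑ _l : Fin m, nrm (ζ - ζ') :=
          Finset.sum_le_sum fun l _ => Z.Hp58.nrm_row_le (ζ - ζ') l
        simpa [lab2] using this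
      rw [sub_self, opn_zero, mul_zero, add_zero] at b
      have := mul_le_mul_of_nonneg_left e L0
      nlinarith [mul_nonneg (add_nonneg M0 C0) (nrm_nonneg (ζ - ζ'))]⟩
  convert a using 1
  funext s j
  simp [cwv, Eh]

section glue

variable (tc : TcStmt) {β r : ℝ} (hβ : β ∈ Ioo (0 : ℝ) 1) (hr : 0 ≤ r)
include tc hβ hr

theorem ty_mono {P Q : ∀ n, Mx n → V n → Prop} (h : Ty β r P)
    (ev : ∀ᶠ n in atTop, ∀ J y, GJ J → P n J y → Q n J y) : Ty β r Q :=
  (tc.ty β r hr Q).2 (hpStmt.mono _ _ _ _ _ _ (hpStmt.and _ _ _ _ _ _ ((tc.ty β r hr P).1 h)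
    (tc.gj Bool β (Ioo_subset_Icc_self hβ) _ _)) (ev.mono fun n hn J a ha => hn J _ ha.2 ha.1))

/-- the iterated kernel concentrates at the thermal mean -/
theorem core (hF : RFStmt) (hP : PrStmt) (hR : RevStmt) {G : Vf} {e δ : ℝ}
    (hG : ∀ n J y, R0 e fun s => G n J s y) (mG : ∀ n J s, Measurable (G n J s)) (hδ : 0 < δ) :
    ∃ T : ℕ, Hp β (wc r) (wd r) fun n J a =>
      nrm ((meanV (ising J (a false)) fun t => G n J t (a false)) -
        (KV (QQ J) (a false))^[T] (fun t => G n J t (a false)) (cb (a true))) ≤ δ * √n := by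
  obtain ⟨K0, K1, hA⟩ := ty_ad hβ hr
  obtain ⟨γ, C, γ0, γ1, C1, hV⟩ := var_iter hR K0
  obtain ⟨D, D1, hD⟩ := r0_iter hF hP hR
  have e0 := r0_nn (hG 0 0 0)
  obtain ⟨f, hf⟩ : ∃ f, f = e + 1 := ⟨_, rfl⟩
  have f0 : 0 < f := by linarith
  have hG' : ∀ n J y, R0 f fun s => G n J s y := fun n J y => Di.R0.mono (hG n J y) (by linarith)
  obtain ⟨T, hT⟩ := exists_pow_lt_of_lt_one (show 0 < δ ^ 2 / (32 * f ^ 2) by positivity)
    (show 1 - γ < 1 by linarith)
  obtain ⟨c, hc⟩ : ∃ c, c = (2 * (D ^ T * f)) ^ 2 := ⟨_, rfl⟩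
  have c0 : 0 < c := hc ▸ by positivity
  obtain ⟨κ, hκ⟩ : ∃ κ, κ = δ ^ 2 / (64 * K0 * c) := ⟨_, rfl⟩
  have κ0 : 0 < κ := hκ ▸ by positivity
  refine ⟨T, tc.gibbs' β (Ioo_subset_Icc_self hβ) r hr (fun n J s y =>
    nrm ((meanV (ising J y) fun t => G n J t y) -
      (KV (QQ J) y)^[T] (fun t => G n J t y) s) ≤ δ * √n) (fun n J s _ => measurableSet_le
        (continuous_nrm.measurable.comp ((meas_meanV J (mG n J)).sub (meas_iter _ (mG n J) T s)))
        measurable_const) κ κ0 ?_⟩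
  refine ty_mono tc hβ hr (hA (δ ^ 2 / (8 * C * f ^ 2)) (by positivity)) ?_
  filter_upwards [tendsto_natCast_atTop_atTop.eventually_ge_atTop (1 / κ)] with n hn J y hJ ha
  have jq := tc.jq n J hJ
  have n0 : (0 : ℝ) ≤ n := n.cast_nonneg
  have v := hV n J _ y _ f _ T jq ha (hG' n J y)
  have sb := Di.sb_dist (hD n J _ y _ f T jq (hG' n J y)).op (meanV (ising J y) fun t => G n J t y)
  rw [← hc] at sb
  have t := tail (w := ising J y) (t := δ ^ 2 * n) (fun _ => exp_pos _) ha c0 sb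
  have es : {s | ¬ nrm ((meanV (ising J y) fun t => G n J t y) -
      (KV (QQ J) y)^[T] (fun t => G n J t y) s) ≤ δ * √n} = {s | ¬ nrm ((meanV (ising J y)
        fun t => G n J t y) - (KV (QQ J) y)^[T] (fun t => G n J t y) s) ^ 2 ≤ δ ^ 2 * n} := by
    ext s
    simp only [mem_setOf_eq]
    rw [nrm_le_iff (by positivity), nrm_sq, mul_pow, sq_sqrt n0]
  rw [es]
  refine t.trans (exp_le_exp.2 ?_)
  generalize (mean (ising J y) fun s => nrm ((meanV (ising J y) fun t => G n J t y) -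
    (KV (QQ J) y)^[T] (fun t => G n J t y) s) ^ 2) = m at v ⊢
  have v1 : (4 * (1 - γ) ^ T + C * (δ ^ 2 / (8 * C * f ^ 2))) * f ^ 2 ≤ δ ^ 2 / 4 := by
    rw [lt_div_iff₀ (by positivity)] at hT
    have : C * (δ ^ 2 / (8 * C * f ^ 2)) * f ^ 2 = δ ^ 2 / 8 := by field_simp
    nlinarith
  have v2 : m ≤ δ ^ 2 / 4 * n := v.trans (mul_le_mul_of_nonneg_right v1 n0)
  have v3 : 2 * κ * n ≤ (δ ^ 2 * n - 2 * m) / (16 * K0 * c) := by
    rw [le_div_iff₀ (by positivity)]
    have : 2 * κ * n * (16 * K0 * c) = δ ^ 2 / 2 * n := by rw [hκ]; field_simp; ring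
    linarith
  rw [div_le_iff₀ κ0] at hn
  linarith

/-- regular approximation -/
theorem smooth (hA : AvStmt) (hJ : JacStmt) (hF : RFStmt) {U : Vf} (hU : TC β r U) (h2 : L2 U)
    {ε : ℝ} (hε : 0 < ε) : ∃ (u : Vf) (e : ℝ), TC β r u ∧ (∀ n J y, R0 e fun s => u n J s y) ∧
      (∀ n J s, Measurable (u n J s)) ∧ Hp β (wc r) (wd r) fun n J a =>
        nrm (U n J (cb (a true)) (a false) - u n J (cb (a true)) (a false)) ≤ ε * √n := by
  have hβ' := Ioo_subset_Icc_self hβ
  obtain ⟨m, X, hX, hb, hH⟩ := apA.smo _ β _ _ _ hU (ε / 2) (half_pos hε)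
  obtain ⟨e, he⟩ := r0_Eh hJ hF hX hb
  obtain ⟨M, M0, hM⟩ := Z.A48.Bd.pos hb
  obtain ⟨C, hC⟩ := h2
  have cX : ∀ n J, Continuous (X n J) := fun n J =>
    (lipStmt.cont _ _ X hX n).comp (Continuous.prodMk_right J)
  have cL : ∀ n J (x y : V n), Continuous fun w : Fin m × Fin n → ℝ => X n J (lab2 x y w) :=
    fun n J x y => (cX n J).comp ((cont_lab x).comp (Continuous.prodMk_right y))
  have sp := hpStmt.spin Bool β (wc r) (wd r) true rfl rfl
  refine ⟨fun n J s y => Eh X n J (sv s) y, e, ?_, he, fun n J s => ?_, ?_⟩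
  · refine apA.lim _ β _ _ _ fun δ hδ => ⟨_, hA Bool β hβ' (wc r) (wd r) m X M
      (apA.net _ β hβ' _ _ X (lipStmt.mono _ _ X hX)) (fun n J a _ => ?_)
      fun n J a _ => Di.nrm_le_sup M0 (hM n J a), Z.A48.imp hpStmt sp fun n J a ha => ?_⟩
    · simpa only [lab2_eq] using (cL n J (a true) (a false)).measurable
    · have : Eh X n J (sv (cb (a true))) (a false) =
          fun i => ∫ w, X n J (Sum.elim a fun l i => w (l, i)) i ∂gv (Fin m × Fin n) := by
        funext i
        simp only [Eh, sv_cb ha, lab2_eq]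
      beta_reduce
      rw [this, sub_self, nrm_zero]
      positivity
  · exact measurable_pi_lambda _ fun i => (((continuous_apply i).comp ((cX n J).comp
      (cont_lab (sv s)))).stronglyMeasurable.integral_prod_right' (ν := gv (Fin m × Fin n))).measurable
  · obtain ⟨κ, κ0, hB⟩ := hp_fub hH
    refine hpStmt.mono _ _ _ _ _ _ (hpStmt.and _ _ _ _ _ _ (hpStmt.and _ _ _ _ _ _ hB sp)
      (tc.gj Bool β hβ' _ _)) ?_
    filter_upwards [ev_exp (|C| + M) κ0 (half_pos hε)] with n hn J a ⟨⟨⟨B, mB, h1, h2⟩, ha⟩, hJ⟩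
    have sn := sqrt_nonneg (n : ℝ)
    have k := int_close (μ := gv (Fin m × Fin n)) (u := U n J (cb (a true)) (a false))
      (f := fun w => X n J (lab2 (a true) (a false) w)) (a := ε / 2 * √n) (b := (|C| + M) * √n)
      (fun k => Integrable.of_bound ((continuous_apply k).comp (cL n J _ _)).aestronglyMeasurable M
        (.of_forall fun w => hM _ _ _ _)) mB (by positivity)
      (fun w hw => by rw [lab2_eq]; exact h2 w hw)
      fun w => (nrm_sub_le _ _).trans (by
        linarith [hC n J (cb (a true)) (a false) hJ, Di.nrm_le_sup M0 (hM n J (lab2 (a true) (a false) w)),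
          mul_le_mul_of_nonneg_right (le_abs_self C) sn])
    rw [sv_cb ha]
    refine k.trans ?_
    have := mul_le_mul_of_nonneg_left h1 (show 0 ≤ (|C| + M) * √n by positivity)
    nlinarith [mul_le_mul_of_nonneg_right hn sn]

theorem gen (hA : AvStmt) (hJ : JacStmt) (hF : RFStmt) (hP : PrStmt) (hR : RevStmt)
    (σ : ∀ n, Cube n → V n) (hσ : ∀ n s v, nrm (σ n s * v) = nrm v)
    (rσ : ∀ n e (ω : Cube n → V n), R0 e ω → R0 (3 * e) fun s => σ n s * ω s)
    (tσ : ∀ (u : Vf) (e : ℝ), TC β r u → (∀ n J y, R0 e fun s => u n J s y) → ∀ T : ℕ,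
      TC β r fun n J s y => σ n s * (KV (QQ J) y)^[T] (fun t => σ n t * u n J t y) s)
    {U : Vf} (hU : TC β r U) (h2 : L2 U) :
    TC β r fun n J s y => σ n s * meanV (ising J y) fun t => σ n t * U n J t y := by
  refine apA.lim _ β _ _ _ fun ε hε => ?_
  have ε3 : 0 < ε / 3 := by positivity
  obtain ⟨u, e, tu, ru, mu, hu⟩ := smooth tc hβ hr hA hJ hF hU h2 ε3
  obtain ⟨T, hT⟩ := core tc hβ hr hF hP hR (G := fun n J s y => σ n s * u n J s y)
    (fun n J y => rσ n e _ (ru n J y)) (fun n J s => measurable_const.mul (mu n J s)) ε3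
  obtain ⟨κ, κ0, hg⟩ := tc.gibbs β r hr (fun n J s y => nrm (U n J s y - u n J s y) ≤ ε / 3 * √n) hu
  obtain ⟨C, hC⟩ := h2
  have e0 := r0_nn (ru 0 0 0)
  have hm : Ty β r fun n J y => nrm ((meanV (ising J y) fun t => σ n t * U n J t y) -
      meanV (ising J y) fun t => σ n t * u n J t y) ≤ 2 * (ε / 3) * √n := by
    refine ty_mono tc hβ hr hg ?_
    filter_upwards [ev_exp (|C| + e) κ0 ε3] with n hn J y hJ h
    have sn := sqrt_nonneg (n : ℝ)
    have k := meanV_close (Rev53.wt J y) (u := fun t => σ n t * U n J t y)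
      (v := fun t => σ n t * u n J t y) (a := ε / 3 * √n) (b := (|C| + e) * √n) (by positivity)
      fun s => by
        rw [← mul_sub, hσ]
        refine (nrm_sub_le _ _).trans ?_
        linarith [hC n J s y hJ, Di.nrm_le_sup e0 ((ru n J y).sup s),
          mul_le_mul_of_nonneg_right (le_abs_self C) sn]
    simp only [← mul_sub, hσ] at k
    refine k.trans ?_
    have := mul_le_mul_of_nonneg_left h (show 0 ≤ (|C| + e) * √n by positivity)
    nlinarith [mul_le_mul_of_nonneg_right hn sn]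
  refine ⟨_, tσ u e tu ru T, Z.A48.imp hpStmt (hpStmt.and _ _ _ _ _ _ ((tc.ty β r hr _).1 hm) hT)
    fun n J a ha => ?_⟩
  rw [← mul_sub, hσ]
  refine (Z.A48.tri _ _ _).trans ((add_le_add ha.1 ha.2).trans_eq (by ring))

end glue

end Tm55

open Tm55 Set Crest.Agent.T157.E Crest.Agent.T157.Eig Crest.Agent.T157.Zf in
theorem tmGlue : TmGlue := by
  intro tc hA hJ hK hF hP hR β hβ r hr U hU h2
  have hβ' := Ioo_subset_Icc_self hβ
  obtain ⟨D, D1, hD⟩ := r0_iter hF hP hR
  constructor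
  · have := gen tc hβ hr hA hJ hF hP hR (fun _ _ => 1) (fun n s v => by rw [one_mul])
      (fun n e ω h => by
        simp only [one_mul]; exact Di.R0.mono h (by linarith [r0_nn h]))
      (fun u e tu ru T => by
        simp only [one_mul]
        induction T with
        | zero => exact tu
        | succ T ih =>
          simp only [Function.iterate_succ_apply']
          exact (hK β hβ' r hr _ ih ⟨D ^ T * e, fun n J s y hJ =>
            have h := hD n J _ y _ e T (tc.jq n J hJ) (ru n J y)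
            Di.nrm_le_sup (r0_nn h) (h.sup s)⟩).1) hU h2
    simp only [one_mul] at this
    exact this
  · refine gen tc hβ hr hA hJ hF hP hR (fun _ s => sv s) (fun n s v => nrm_sv s v)
      (fun n e ω h => r0_sv h) (fun u e tu ru T => ?_) hU h2
    have ss : ∀ (n : ℕ) (s : Cube n) (j : Fin n) (x : ℝ), sv s j * (sv s j * x) = x := fun n s j x => by
      rw [← mul_assoc, Rec.sv_mul_self, one_mul]
    induction T with
    | zero =>
      convert tu using 1
      funext n J s y j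
      exact ss n s j _
    | succ T ih =>
      have := (hK β hβ' r hr _ ih ⟨D ^ T * (3 * e), fun n J s y hJ => by
        have h := hD n J _ y _ _ T (tc.jq n J hJ) (r0_sv (ru n J y))
        rw [nrm_sv]
        exact Di.nrm_le_sup (r0_nn h) (h.sup s)⟩).2
      simp only [Pi.mul_apply, ss] at this
      simp only [Function.iterate_succ_apply']
      exact this

end Crest.Agent.T157.K

end
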