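import Crest.Agent.T157.OoDef_9
import Crest.Agent.T157.St0B_5
import Crest.Agent.T157.Deg_59

/-!
# Row 157, part A2 (helper12): the Kac-Rice measures and the orbit hypothesis (words)
-/

set_option autoImplicit false

noncomputable section

namespace Crest.Agent.T157.Kp

open MeasureTheory Matrix Set
open Crest.Agent.Lib.OrthPoinc Crest.Agent.T157.E Crest.Agent.T157.Tap
open scoped ENNReal

variable {n k : ℕ}

/-- density of `(W, y, s)` under the planted law, with respect to `GOE ⊗ dy ⊗ counting` -/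
def jd (t : ℝ) (W : Mx n) (y : V n) (s : Cube n) : ℝ :=
  (2 ^ n * Real.exp (n / 4))⁻¹ * ising W 0 s * Kr.phi t (y - t • sv s)

/-- the measure `ν` of crit19, as a functional -/
def Nu (t : ℝ) (F : V n → Mx n → Cube n → ℝ≥0∞) : ℝ≥0∞ :=
  ∫⁻ x, ∫⁻ W, ∑ s, ENNReal.ofReal (jd t W (Ymap W 1 x) s) * F x W s ∂GOE n

/-- `χ = 1 - q` -/
def chi (x : V n) : ℝ := avg (DD (th x))
/-- the normalisation `c(x)` of crit19 -/
def cx (x : V n) : ℝ := Real.exp (n * chi x ^ 2 / 2)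
/-- the Jacobian of the TAP map -/
def dt (x : V n) (W : Mx n) : ℝ := (Deg.DY W 1 x).det

/-- `Pt = c ν` -/
def Pt (t : ℝ) (c : V n → ℝ) (F : V n → Mx n → Cube n → ℝ≥0∞) : ℝ≥0∞ :=
  Nu t fun x W s => ENNReal.ofReal (c x) * F x W s
/-- `Pt` of an event, on `WW` -/
def PtE (t : ℝ) (c : V n → ℝ) (WW : Set (Mx n)) (B : V n → Mx n → Cube n → Prop) : ℝ≥0∞ :=
  Pt t c fun x W s => {z : V n × Mx n | z.2 ∈ WW ∧ B z.1 z.2 s}.indicator 1 (x, W)
/-- `KR = |det DY| ν` -/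
def KR (t : ℝ) (F : V n → Mx n → Cube n → ℝ≥0∞) : ℝ≥0∞ :=
  Nu t fun x W s => ENNReal.ofReal |dt x W| * F x W s
/-- total mass of `Pt` plus second moment of the Jacobian, on `WW` -/
def Er (t : ℝ) (c : V n → ℝ) (WW : Set (Mx n)) : ℝ≥0∞ :=
  Pt t c fun x W _ => WW.indicator 1 W * ENNReal.ofReal (1 + dt x W ^ 2 / c x ^ 2)

/-- `o` is the orbit of a matrix around the TAP point `x` -/
structure At (o : Oo.Orb n k) (x : V n) : Prop where
  ok : o.Ok
  dim : k + 2 = n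
  p : o.p = th x
  h : o.h = x + chi x • th x
  ex : o.Eᵀ *ᵥ x = 0
  z : o.z = chi x + 1 / chi x

/-- (T1) output: the Jacobian is constant on the orbit up to the factor `De` -/
def T1out (o : Oo.Orb n k) (μ : Measure (Mat k)) (x : V n) (De η : ℝ) : Prop :=
  ∃ k0 > (0 : ℝ), (o.P μ).real {U | ¬ (k0 ≤ |dt x (o.Wu U)| ∧ |dt x (o.Wu U)| ≤ De * k0)} ≤ η

/-- output of sections 4-6 -/
def Gout (o : Oo.Orb n k) (μ : Measure (Mat k)) (Gd AP : Set (Mx n × V n)) (La η : ℝ) : Prop :=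
  (o.P μ).real {U | (o.Wu U, o.y U) ∉ Gd} ≤ La * (o.P μ).real {U | (o.Wu U, o.y U) ∉ AP} + η

open Classical in
/-- annealed probability of an event on the orbit -/
def anE (o : Oo.Orb n k) (μ : Measure (Mat k)) (x : V n) (B : V n → Mx n → Cube n → Prop) : ℝ :=
  o.an μ fun s U => if B x (o.Wu U) s then 1 else 0

/-- **the orbit hypothesis** -/
def OH (WW : Set (Mx n)) (B : V n → Mx n → Cube n → Prop) (Gd AP : Set (Mx n × V n))
    (H De La : ℝ) : Prop :=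
  ∀ (x : V n) (k : ℕ) (μ : Measure (Mat k)) [IsProbabilityMeasure μ] (o : Oo.Orb n k), SOInv μ →
    At o x → o.W ∈ WW → anE o μ x B ≤ Real.exp (-(5 * H)) →
    T1out o μ x De (Real.exp (-(4 * H))) ∧ Gout o μ Gd AP La (Real.exp (-(2 * H)))

/-- the events of the step -/
structure Ev (WW : Set (Mx n)) (B : V n → Mx n → Cube n → Prop) (Gd : Set (Mx n × V n)) : Prop where
  mW : MeasurableSet WW
  inv : ∀ O W : Mx n, O * Oᵀ = 1 → W ∈ WW → O * W * Oᵀ ∈ WW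
  mB : ∀ s, MeasurableSet {z : V n × Mx n | B z.1 z.2 s}
  mG : MeasurableSet Gd
  neg : ∀ x, ∀ W ∈ WW, Wᵀ = W → dt x W < 0 → ∀ s, B x W s

/-- **the step in the planted law** -/
def StepStmt : Prop := ∀ (n : ℕ) (t H De La N : ℝ) (c : V n → ℝ) (WW : Set (Mx n))
  (B : V n → Mx n → Cube n → Prop) (Gd AP : Set (Mx n × V n)),
  5 ≤ n → 0 < t → 1 ≤ H → 1 ≤ De → 1 ≤ La → 1 ≤ N → Measurable c → (∀ x, 0 < c x) → Ev WW B Gd →
  Er t c WW ≤ ENNReal.ofReal N → PtE t c WW B ≤ ENNReal.ofReal (Real.exp (-(9 * H))) →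
  OH WW B Gd AP H De La →
  Ks.St0.JP t n {z | z.1 ∈ WW ∧ z ∉ Gd} ≤
    ENNReal.ofReal (De * La) * Ks.St0.JP t n {z | z.1 ∈ WW ∧ z ∉ AP} +
      ENNReal.ofReal (11 * De * La * N * Real.exp (-(2 * H)))

end Crest.Agent.T157.Kp

end
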