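import Crest.Agent.T157.KbArea_98
import Crest.Agent.T157.KpDef_12

/-!
# Row 157, part A2 (helper98): the gauge bridge between `Kp` and `Kb`
-/

set_option autoImplicit false
set_option maxHeartbeats 400000

noncomputable section

namespace Crest.Agent.T157.Kb

open MeasureTheory Matrix Set Filter
open scoped ENNReal
open Crest.Agent.T157.E Crest.Agent.T157.Cond Crest.Agent.T157.Tap
open Crest.Agent.T157.Conc (ex)
open Crest.Agent.T157.TapPl
open Ar98

variable {n : ℕ}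

/-- the gauge map -/
def gz (s : Cube n) (z : V n × Mx n) : V n × Mx n := (sv s * z.1, cj (sv s) z.2)

namespace Ga98

lemma meas_cj (σ : V n) : Measurable (cj σ) := by unfold cj; fun_prop

lemma meas_gz (s : Cube n) : Measurable (gz s) :=
  (measurable_fst.const_mul _).prodMk ((meas_cj _).comp measurable_snd)

lemma gz_gz (s : Cube n) (z : V n × Mx n) : gz s (gz s z) = z :=
  Prod.ext ((Pl.isSign_sv s).mul_self _) (cj_cj (Pl.isSign_sv s) _)

lemma mp_vol {σ : V n} (h : Pl.IsSign σ) : MeasurePreserving (fun x : V n => σ * x) := by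
  refine volume_preserving_pi (f := fun i (y : ℝ) => σ i * y) fun i => ?_
  rcases h i with e | e
  · simp only [e, one_mul]; exact MeasurePreserving.id volume
  · simpa only [e, neg_mul, one_mul] using Measure.measurePreserving_neg volume

lemma lint_gz (s : Cube n) {G : V n × Mx n → ℝ≥0∞} (hG : Measurable G) :
    ∫⁻ x, ∫⁻ W, G (x, W) ∂GOE n = ∫⁻ x, ∫⁻ W, G (gz s (x, W)) ∂GOE n := by
  have h1 : Measurable fun x : V n => ∫⁻ W, G (x, W) ∂GOE n := hG.lintegral_prod_right'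
  rw [← (mp_vol (Pl.isSign_sv s)).lintegral_comp h1]
  exact lintegral_congr fun x => ((mp_cj (Pl.isSign_sv s)).lintegral_comp
    (f := fun W => G (sv s * x, W)) (hG.comp measurable_prodMk_left)).symm

lemma jd_gz (t : ℝ) (s : Cube n) (z : V n × Mx n) :
    ENNReal.ofReal (Kp.jd t (gz s z).2 (Ymap (gz s z).2 1 (gz s z).1) s) =
      (2 ^ n : ℝ≥0∞)⁻¹ * nuW t z := by
  have h := Pl.isSign_sv s
  have e1 : ising (cj (sv s) z.2) 0 s = Real.exp ((1 : V n) ⬝ᵥ z.2 *ᵥ 1 / 2) := by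
    have := cj_mulVec h z.2 1
    have h2 := dot_sign h 1 (z.2 *ᵥ 1)
    rw [mul_one] at this h2
    rw [ising, this, h2, zero_dotProduct]; congr 1; ring
  have e2 : Kr.phi t (sv s * Ymap z.2 1 z.1 - t • sv s) =
      Kr.phi t (Ymap z.2 1 z.1 - t • (1 : V n)) := by
    have : sv s * Ymap z.2 1 z.1 - t • sv s = sv s * (Ymap z.2 1 z.1 - t • (1 : V n)) := by
      rw [mul_sub, mul_smul_comm, mul_one]
    rw [this, Kr.phi, Kr.phi, dot_sign h]
  simp only [gz, Kp.jd, Ymap_cj h, e1, e2, nuW, ex]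
  rw [show (2 ^ n : ℝ≥0∞) = ENNReal.ofReal (2 ^ n) by simp,
    ← ENNReal.ofReal_inv_of_pos (by positivity), ← ENNReal.ofReal_mul (by positivity),
    ← ENNReal.ofReal_mul (by positivity), Real.exp_sub]
  congr 1
  field_simp

lemma meas_jd (t : ℝ) (s : Cube n) :
    Measurable fun z : V n × Mx n => ENNReal.ofReal (Kp.jd t z.2 (Ymap z.2 1 z.1) s) :=
  ((measurable_const.mul ((Ks.St0.meas_ising s).comp measurable_snd)).mul
    (measurable_const.t157_phi (cont_Y.measurable.sub measurable_const))).ennreal_ofReal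

lemma chi_gz (s : Cube n) (x : V n) : Kp.chi (sv s * x) = Kp.chi x := by
  rw [Kp.chi, Kp.chi, th_sign (Pl.isSign_sv s), DD_sign (Pl.isSign_sv s)]

lemma cx_eq (x : V n) : Kp.cx x = Real.exp (n * (1 - aS x) ^ 2 / 2) := by
  rcases Nat.eq_zero_or_pos n with rfl | hn
  · simp [Kp.cx]
  · rw [Kp.cx, Kp.chi, Cell.avg_DD_th x hn]

lemma cx_gz (s : Cube n) (x : V n) : Kp.cx (sv s * x) = Kp.cx x := by
  rw [Kp.cx, Kp.cx, chi_gz]

lemma dt_gz (s : Cube n) (x : V n) (W : Mx n) :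
    Kp.dt (sv s * x) (cj (sv s) W) = (Deg.DY W 1 x).det := by
  have h := Pl.isSign_sv s
  rw [Kp.dt, Deg.det_DY, Deg.det_DY, th_sign h, B1_cj h, dd_sign h, NN_cj h, det_cj h]

lemma meas_cx : Measurable (Kp.cx : V n → ℝ) := by
  have : (Kp.cx : V n → ℝ) = fun x => Real.exp (n * (1 - aS x) ^ 2 / 2) := funext cx_eq
  rw [this]; fun_prop

lemma cj_mem {WW : Set (Mx n)} (inv : ∀ O W : Mx n, O * Oᵀ = 1 → W ∈ WW → O * W * Oᵀ ∈ WW)
    (s : Cube n) (W : Mx n) : cj (sv s) W ∈ WW ↔ W ∈ WW := by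
  have h := Pl.isSign_sv s
  have k : ∀ W ∈ WW, cj (sv s) W ∈ WW := fun W hW => by
    simpa only [diagonal_transpose, cj] using
      inv (diagonal (sv s)) W (by rw [diagonal_transpose, diag_mul_self h]) hW
  exact ⟨fun hW => by simpa only [cj_cj h] using k _ hW, k W⟩

end Ga98

open Ga98

section
variable {F : V n → Mx n → Cube n → ℝ≥0∞}

/-- **gauge bridge** for `ν` -/
theorem gauge_nu (t : ℝ) (hF : ∀ s, Measurable fun z : V n × Mx n => F z.1 z.2 s) :
    Kp.Nu t F = (2 ^ n : ℝ≥0∞)⁻¹ * ∑ s : Cube n,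
      ∫⁻ x, ∫⁻ W, nuW t (x, W) * F (sv s * x) (cj (sv s) W) s ∂GOE n := by
  have hm := fun s => (meas_jd t s).fun_mul (hF s)
  have h1 : ∀ x : V n, ∫⁻ W, ∑ s, ENNReal.ofReal (Kp.jd t W (Ymap W 1 x) s) * F x W s ∂GOE n =
      ∑ s, ∫⁻ W, ENNReal.ofReal (Kp.jd t W (Ymap W 1 x) s) * F x W s ∂GOE n := fun x =>
    lintegral_finset_sum _ fun s _ => by
      simpa only [Function.comp_def] using (hm s).comp (measurable_prodMk_left (x := x))
  have h2 : ∀ s, Measurable fun x : V n =>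
      ∫⁻ W, ENNReal.ofReal (Kp.jd t W (Ymap W 1 x) s) * F x W s ∂GOE n := fun s =>
    (hm s).lintegral_prod_right'
  simp only [Kp.Nu, h1]
  rw [lintegral_finset_sum _ fun s _ => h2 s, Finset.mul_sum]
  refine Finset.sum_congr rfl fun s _ => (lint_gz s (hm s)).trans ?_
  rw [← lintegral_const_mul' _ _ (by simp)]
  refine lintegral_congr fun x => ?_
  rw [← lintegral_const_mul' _ _ (by simp)]
  refine lintegral_congr fun W => ?_
  rw [jd_gz, mul_assoc]; rfl

/-- **gauge bridge** for `Pt` -/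
theorem gauge (t : ℝ) (hF : ∀ s, Measurable fun z : V n × Mx n => F z.1 z.2 s) :
    Kp.Pt t Kp.cx F = (2 ^ n : ℝ≥0∞)⁻¹ * ∑ s : Cube n,
      Pt t fun z => F (sv s * z.1) (cj (sv s) z.2) s := by
  rw [Kp.Pt, gauge_nu t fun s => (meas_cx.comp measurable_fst).ennreal_ofReal.fun_mul (hF s)]
  simp only [Function.comp_apply, cx_gz]
  simp only [Pt, mul_assoc, cX, ex, cx_eq]

/-- **gauge bridge** for `KR` -/
theorem gauge_KR (t : ℝ) (hF : ∀ s, Measurable fun z : V n × Mx n => F z.1 z.2 s) :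
    Kp.KR t F = (2 ^ n : ℝ≥0∞)⁻¹ * ∑ s : Cube n,
      KR t fun z => F (sv s * z.1) (cj (sv s) z.2) s := by
  rw [Kp.KR, gauge_nu t fun s => meas_abs.fun_mul (hF s)]
  simp only [dt_gz, KR, mul_assoc]

end

/-- functions given in the gauge `s = 1` -/
theorem gauge_inv (t : ℝ) {G : V n × Mx n → ℝ≥0∞} (hG : Measurable G) :
    Kp.Pt t Kp.cx (fun x W s => G (gz s (x, W))) = Pt t G ∧
      Kp.KR t (fun x W s => G (gz s (x, W))) = KR t G := by
  have e : ∀ (s : Cube n) (z : V n × Mx n), gz s (sv s * z.1, cj (sv s) z.2) = z := gz_gz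
  rw [gauge t fun s => hG.comp (meas_gz s), gauge_KR t fun s => hG.comp (meas_gz s)]
  simp only [e, Ks.St0.avg_const, and_self]

section
variable {WW : Set (Mx n)} (mW : MeasurableSet WW)
  (inv : ∀ O W : Mx n, O * Oᵀ = 1 → W ∈ WW → O * W * Oᵀ ∈ WW)
include mW inv

/-- events -/
theorem ptE_eq (t : ℝ) {B : Set (V n × Mx n)} (hB : MeasurableSet B) :
    Kp.PtE t Kp.cx WW (fun x W s => gz s (x, W) ∈ B) =
      Pt t ({z : V n × Mx n | z.2 ∈ WW ∧ z ∈ B}.indicator 1) := by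
  rw [← (gauge_inv t (measurable_one.indicator
    (s := {z : V n × Mx n | z.2 ∈ WW ∧ z ∈ B}) ((measurable_snd mW).inter hB))).1, Kp.PtE]
  congr 1
  funext x W s
  by_cases h : W ∈ WW ∧ gz s (x, W) ∈ B
  · rw [indicator_of_mem (by exact h), indicator_of_mem (by exact ⟨(cj_mem inv s W).2 h.1, h.2⟩)]
    rfl
  · rw [indicator_of_notMem (by exact h),
      indicator_of_notMem fun k => h ⟨(cj_mem inv s W).1 k.1, k.2⟩]

theorem er_eq (t : ℝ) : Kp.Er t Kp.cx WW = Pt t ({z : V n × Mx n | z.2 ∈ WW}.indicator fun z =>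
    1 + ENNReal.ofReal ((Deg.DY z.2 1 z.1).det ^ 2 / Real.exp (n * (1 - aS z.1) ^ 2 / 2) ^ 2)) := by
  have hm : Measurable fun z : V n × Mx n => 1 + ENNReal.ofReal
      ((Deg.DY z.2 1 z.1).det ^ 2 / Real.exp (n * (1 - aS z.1) ^ 2 / 2) ^ 2) :=
    (((cont_det.measurable.pow_const 2).div (by fun_prop)).ennreal_ofReal).const_add 1
  rw [← (gauge_inv t (hm.indicator (s := {z : V n × Mx n | z.2 ∈ WW}) (measurable_snd mW))).1,
    Kp.Er]
  congr 1
  funext x W s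
  by_cases h : W ∈ WW
  · rw [indicator_of_mem h, indicator_of_mem (by exact (cj_mem inv s W).2 h), Pi.one_apply, one_mul,
      ENNReal.ofReal_add zero_le_one (by positivity), ENNReal.ofReal_one, ← cx_eq]
    have := dt_gz s x W
    simp only [gz, cx_gz, Kp.dt] at this ⊢
    rw [this]
  · rw [indicator_of_notMem h, zero_mul,
      indicator_of_notMem (by exact fun k => h ((cj_mem inv s W).1 k))]

end

lemma ee_le (x : V n) : ee x ⬝ᵥ ee x ≤ 1 := by
  rw [ee, unitv, smul_dotProduct, dotProduct_smul, ← len_sq, smul_eq_mul, smul_eq_mul]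
  by_cases h : len (th x) = 0
  · simp [h]
  · exact le_of_eq (by field_simp)

/-- the bound of `Kp.Er` -/
theorem er_le (h : ErStmt) : ∃ t0 > (0 : ℝ), ∃ C : ℕ, ∀ (n : ℕ) (t : ℝ) (WW : Set (Mx n)), C ≤ n →
    t ∈ Icc (1 / (n : ℝ)) t0 → MeasurableSet WW →
    (∀ O W : Mx n, O * Oᵀ = 1 → W ∈ WW → O * W * Oᵀ ∈ WW) → (∀ W ∈ WW, Eig.opn W ≤ 4) →
    Kp.Er t Kp.cx WW ≤ ex (C * Real.log n) := by
  obtain ⟨t0, h0, C, h⟩ := h
  refine ⟨t0, h0, C, fun n t WW hn ht mW inv hop => ?_⟩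
  rw [er_eq mW inv]
  refine h n t _ hn ht (measurable_snd mW) fun z hz => ?_
  have h1 : Eig.nrm (ee z.1) ≤ 1 := (Eig.nrm_le_iff zero_le_one).2 (by simpa using ee_le z.1)
  have h2 := (Eig.nrm_mulVec_le z.2 (ee z.1)).trans
    (mul_le_mul (hop _ hz) h1 (Eig.nrm_nonneg _) (by norm_num))
  rw [← Eig.nrm_sq]
  nlinarith [Eig.nrm_nonneg (z.2 *ᵥ ee z.1)]

/-- the planted law in the gauge `s = 1` -/
theorem JP_eq (t : ℝ) {A : Set (Mx n × V n)} (hA : MeasurableSet A) : Ks.St0.JP t n A =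
    (2 ^ n : ℝ≥0∞)⁻¹ * ∑ s : Cube n, Pl n t {z | (cj (sv s) z.1, sv s * z.2) ∈ A} := by
  rw [Ks.St0.JP_eq hA]
  exact congrArg _ (Finset.sum_congr rfl fun s _ => planted_gauge 1 t hA s)

theorem JP_eq_Pl (t : ℝ) {A : Set (Mx n × V n)} (hA : MeasurableSet A)
    (inv : ∀ σ : V n, Pl.IsSign σ → ∀ z ∈ A, (cj σ z.1, σ * z.2) ∈ A) :
    Ks.St0.JP t n A = Pl n t A := by
  have e : ∀ s : Cube n, {z : Mx n × V n | (cj (sv s) z.1, sv s * z.2) ∈ A} = A := fun s => by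
    have h := Pl.isSign_sv s
    ext z
    exact ⟨fun k => by simpa only [cj_cj h, h.mul_self] using inv _ h _ k, inv _ h z⟩
  rw [JP_eq t hA]
  simp only [e, Ks.St0.avg_const]

end Crest.Agent.T157.Kb

end
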