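import Crest.Agent.T157.KbDef_24
import Crest.Agent.T157.QeA_24

/-!
# Row 157, part A2, section 2 (helper24): measurability and elementary facts for `KbDef_24`
-/

set_option autoImplicit false

noncomputable section

namespace Crest.Agent.T157.Kb

open MeasureTheory Matrix Set
open scoped ENNReal
open Crest.Agent.T157.E Crest.Agent.T157.Cond Crest.Agent.T157.Tap
open Crest.Agent.T157.Qe (Le R1 bv Wm Mm)
open Crest.Agent.T157.Conc (ex)

variable {n : ℕ}

lemma hasDerivAt_tanh (x : ℝ) : HasDerivAt Real.tanh (1 - Real.tanh x ^ 2) x := by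
  have h := (Real.hasDerivAt_sinh x).div (Real.hasDerivAt_cosh x) (Real.cosh_pos x).ne'
  have e : Real.sinh / Real.cosh = Real.tanh :=
    funext fun y => (Real.tanh_eq_sinh_div_cosh y).symm
  rw [e] at h
  refine h.congr_deriv ?_
  rw [Real.tanh_eq_sinh_div_cosh]
  field_simp

@[fun_prop] lemma cont_tanh : Continuous Real.tanh :=
  continuous_iff_continuousAt.2 fun x => (hasDerivAt_tanh x).continuousAt

@[fun_prop] lemma meas_tanh : Measurable Real.tanh := cont_tanh.measurable

section meas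
variable {Ω : Type*} [MeasurableSpace Ω] {x y : Ω → V n} {W : Ω → Mx n} {t : ℝ}

@[fun_prop] lemma meas_ex {f : Ω → ℝ} (hf : Measurable f) : Measurable fun ω => ex (f ω) := by
  unfold ex; fun_prop

@[fun_prop] lemma meas_avg (hx : Measurable x) : Measurable fun ω => avg (x ω) := by
  unfold avg; fun_prop

@[fun_prop] lemma meas_th (hx : Measurable x) : Measurable fun ω => th (x ω) := by
  unfold th; fun_prop

@[fun_prop] lemma meas_aS (hx : Measurable x) : Measurable fun ω => aS (x ω) := by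
  unfold aS avg th; fun_prop

@[fun_prop] lemma meas_bS (hx : Measurable x) : Measurable fun ω => bS (x ω) := by
  unfold bS; fun_prop

@[fun_prop] lemma meas_ga (hx : Measurable x) : Measurable fun ω => ga t (x ω) := by
  unfold ga; fun_prop

@[fun_prop] lemma meas_mu (hx : Measurable x) : Measurable fun ω => mu t (x ω) := by
  unfold mu; fun_prop

@[fun_prop] lemma meas_ww (hx : Measurable x) : Measurable fun ω => ww t (x ω) := by
  unfold ww avg th; fun_prop

@[fun_prop] lemma meas_Wt (hx : Measurable x) : Measurable fun ω => Wt t (x ω) := by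
  unfold Wt; fun_prop

@[fun_prop] lemma meas_rho (hx : Measurable x) : Measurable fun ω => rho t (x ω) := by
  unfold rho Kr.phi; fun_prop

@[fun_prop] lemma meas_R3 (hx : Measurable x) : Measurable fun ω => R3 (x ω) := by
  unfold R3; fun_prop

@[fun_prop] lemma meas_R4 (hx : Measurable x) : Measurable fun ω => R4 (x ω) := by
  unfold R4 avg th; fun_prop

@[fun_prop] lemma meas_M2 (hx : Measurable x) : Measurable fun ω => M2 t (x ω) := by
  unfold M2 avg; fun_prop

@[fun_prop] lemma meas_uR (hx : Measurable x) : Measurable fun ω => uR t (x ω) := by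
  unfold uR; fun_prop

@[fun_prop] lemma meas_dR (hx : Measurable x) : Measurable fun ω => dR t (x ω) := by
  unfold dR; fun_prop

@[fun_prop] lemma meas_ee (hx : Measurable x) : Measurable fun ω => ee (x ω) := by
  unfold ee; fun_prop

@[fun_prop] lemma meas_R1 (hx : Measurable x) : Measurable fun ω => R1 (x ω) := by
  unfold R1; fun_prop

@[fun_prop] lemma meas_bv (hx : Measurable x) (hy : Measurable y) :
    Measurable fun ω => bv (x ω) (y ω) := by
  unfold bv; fun_prop

@[fun_prop] lemma meas_tau (hx : Measurable x) : Measurable fun ω => tau (x ω) := by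
  unfold tau; fun_prop

@[fun_prop] lemma meas_mb (hx : Measurable x) : Measurable fun ω => mb t (x ω) := by
  unfold mb; fun_prop

@[fun_prop] lemma meas_ec (hx : Measurable x) : Measurable fun ω => ec t (x ω) := by
  unfold ec; fun_prop

@[fun_prop] lemma meas_col (hx : Measurable x) (hy : Measurable y) :
    Measurable fun ω => col t (x ω) (y ω) := by
  unfold col; fun_prop

@[fun_prop] lemma meas_Wm {z : Ω → V n} (hx : Measurable x) (hy : Measurable y)
    (hz : Measurable z) (hW : Measurable W) : Measurable fun ω => Wm (x ω) (y ω) (z ω) (W ω) := by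
  unfold Wm; fun_prop

@[fun_prop] lemma meas_cX (hx : Measurable x) : Measurable fun ω => cX (x ω) := by
  unfold cX; fun_prop

@[fun_prop] lemma meas_Ymap (hW : Measurable W) (hx : Measurable x) (b : ℝ) :
    Measurable fun ω => Ymap (W ω) b (x ω) := by
  have h : Measurable fun ω => avg (DD (th (x ω))) := by unfold avg DD th; fun_prop
  unfold Ymap; fun_prop

@[fun_prop] lemma meas_nuW {z : Ω → V n × Mx n} (hz : Measurable z) :
    Measurable fun ω => nuW t (z ω) := by
  unfold nuW Kr.phi; fun_prop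

@[fun_prop] lemma meas_gR {f : Ω → ℝ} (hf : Measurable f) (m v u : ℝ) :
    Measurable fun ω => gR m v u (f ω) := by
  unfold gR; fun_prop

@[fun_prop] lemma meas_diag (hx : Measurable x) : Measurable fun ω => diagonal (x ω) := by
  refine measurable_pi_iff.2 fun i => measurable_pi_iff.2 fun j => ?_
  by_cases h : i = j
  · subst h; simp only [diagonal_apply_eq]; fun_prop
  · simp only [diagonal_apply_ne _ h]; fun_prop

@[fun_prop] lemma meas_phS (S : Finset (Fin n)) (hx : Measurable x) :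
    Measurable fun ω => phS S (x ω) := by
  refine measurable_pi_iff.2 fun i => ?_
  by_cases h : i ∈ S
  · simp only [phS, h, if_true]; fun_prop
  · simp only [phS, h, if_false]; fun_prop

@[fun_prop] lemma meas_Dk {k d : Ω → ℝ} (S : Finset (Fin n)) (hk : Measurable k)
    (hd : Measurable d) (hx : Measurable x) : Measurable fun ω => Dk (k ω) (d ω) S (x ω) := by
  refine measurable_pi_iff.2 fun i => ?_
  have h : Measurable fun ω => phS S (x ω) i := measurable_pi_iff.1 (meas_phS S hx) i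
  simp only [Dk]; fun_prop

@[fun_prop] lemma meas_Mm {β : Ω → ℝ} (hx : Measurable x) (hβ : Measurable β) (hy : Measurable y) :
    Measurable fun ω => Mm (x ω) (β ω) (y ω) := by
  unfold Mm; fun_prop

lemma measSet_Co (K e t : ℝ) (hx : Measurable x) : MeasurableSet {ω | Co K e t (x ω)} := by
  have e1 : {ω | Co K e t (x ω)} = {ω | t ≤ K * aS (x ω) ^ 2} ∩ {ω | aS (x ω) ^ 2 ≤ K * t} ∩
      {ω | |bS (x ω)| ≤ K * aS (x ω)} ∩ {ω | |uR t (x ω)| ≤ K * aS (x ω)} ∩
      {ω | |dR t (x ω)| ≤ K * aS (x ω) ^ 2} ∩ {ω | |R4 (x ω) - aS (x ω) ^ 2| ≤ e * aS (x ω) ^ 2} ∩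
      {ω | |R3 (x ω) - bS (x ω) * aS (x ω)| ≤ e * aS (x ω) ^ 2} := by
    ext ω
    exact ⟨fun h => ⟨⟨⟨⟨⟨⟨h.1, h.2⟩, h.3⟩, h.4⟩, h.5⟩, h.6⟩, h.7⟩,
      fun ⟨⟨⟨⟨⟨⟨a, b⟩, c⟩, d⟩, e⟩, f⟩, g⟩ => ⟨a, b, c, d, e, f, g⟩⟩
  rw [e1]
  refine ((((((?_ : MeasurableSet _).inter ?_).inter ?_).inter ?_).inter ?_).inter ?_).inter ?_ <;>
    exact measurableSet_le (by fun_prop) (by fun_prop)

lemma measSet_XM (e : ℝ) (hx : Measurable x) : MeasurableSet {ω | XM e (x ω)} := by
  have hk : ∀ k : ℕ, Measurable fun ω => avg fun i => th (x ω) i ^ k := fun k => by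
    unfold avg th; fun_prop
  have h3 := hk 3
  have h4 := hk 4
  have h6 := hk 6
  have h8 : Measurable fun ω => avg fun i => min (x ω i ^ 8) (x ω i ^ 2) := by
    unfold avg; fun_prop
  have e1 : {ω | XM e (x ω)} =
      {ω | (avg (fun i => th (x ω) i ^ 3) - 3 * bS (x ω) * aS (x ω)) ^ 2 ≤ aS (x ω) ^ 5} ∩
      {ω | |avg (fun i => th (x ω) i ^ 4) - 3 * aS (x ω) ^ 2 + 8 * aS (x ω) ^ 3| ≤
        e * aS (x ω) ^ 3} ∩
      {ω | |avg (fun i => th (x ω) i ^ 6) - 15 * aS (x ω) ^ 3| ≤ e * aS (x ω) ^ 3} ∩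
      {ω | avg (fun i => min (x ω i ^ 8) (x ω i ^ 2)) ≤ e * aS (x ω) ^ 3} := by
    ext ω
    exact ⟨fun h => ⟨⟨⟨h.1, h.2⟩, h.3⟩, h.4⟩, fun ⟨⟨⟨a, b⟩, c⟩, d⟩ => ⟨a, b, c, d⟩⟩
  rw [e1]
  refine (((?_ : MeasurableSet _).inter ?_).inter ?_).inter ?_ <;>
    exact measurableSet_le (by fun_prop) (by fun_prop)

end meas

/-! ### `Px` -/

lemma Px_mono (t : ℝ) {E F : Set (V n)} (h : E ⊆ F) : Px t E ≤ Px t F := lintegral_mono_set h

lemma Px_union (t : ℝ) (E F : Set (V n)) : Px t (E ∪ F) ≤ Px t E + Px t F :=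
  lintegral_union_le _ _ _

lemma Px_cover (t : ℝ) {E F G : Set (V n)} (h : ∀ x ∈ E, x ∈ F ∨ x ∈ G) :
    Px t E ≤ Px t F + Px t G := (Px_mono t fun x hx => h x hx).trans (Px_union t F G)

lemma Px_biUnion (t : ℝ) {ι : Type*} (s : Finset ι) (F : ι → Set (V n)) :
    Px t (⋃ i ∈ s, F i) ≤ ∑ i ∈ s, Px t (F i) := by
  classical
  induction s using Finset.induction_on with
  | empty => simp [Px]
  | insert a s ha ih =>
    rw [Finset.set_biUnion_insert, Finset.sum_insert ha]
    exact (Px_union t _ _).trans (add_le_add le_rfl ih)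

lemma Px_eq (t : ℝ) {E : Set (V n)} (hE : MeasurableSet E) :
    Px t E = ∫⁻ x, E.indicator (fun x => ENNReal.ofReal (rho t x)) x :=
  (lintegral_indicator hE _).symm

/-- `k` events of the same level -/
lemma ex_sum {k : ℕ} (hk : k ≤ n) (hn : 0 < n) (C R : ℝ) :
    (k : ℝ≥0∞) * ex (C * Real.log n - R) ≤ ex ((C + 1) * Real.log n - R) := by
  have hn' : (0 : ℝ) < n := by exact_mod_cast hn
  have e : (C + 1) * Real.log n - R = Real.log n + (C * Real.log n - R) := by ring
  rw [e, Conc.ex_add]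
  refine mul_le_mul_left ?_ _
  rw [ex, Real.exp_log hn', ENNReal.ofReal_natCast]
  exact_mod_cast hk

/-! ### sizes -/

lemma th_sq_lt (x : V n) (i : Fin n) : th x i ^ 2 < 1 := Real.tanh_sq_lt_one _

lemma aS_nonneg (x : V n) : 0 ≤ aS x :=
  div_nonneg (Finset.sum_nonneg fun _ _ => sq_nonneg _) (Nat.cast_nonneg _)

lemma aS_lt_one (hn : 0 < n) (x : V n) : aS x < 1 := by
  have hn' : (0 : ℝ) < n := by exact_mod_cast hn
  have : Nonempty (Fin n) := ⟨⟨0, hn⟩⟩
  rw [aS, avg, div_lt_one hn']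
  have := Finset.sum_lt_sum_of_nonempty (s := Finset.univ) Finset.univ_nonempty
    fun i _ => th_sq_lt x i
  simpa using this

lemma avg_mul_sq_le (f g : V n) : avg (fun i => f i * g i) ^ 2 ≤
    avg (fun i => f i ^ 2) * avg fun i => g i ^ 2 := by
  simp only [avg]
  rw [div_pow, div_mul_div_comm, ← sq]
  exact div_le_div_of_nonneg_right (Finset.sum_mul_sq_le_sq_mul_sq _ _ _) (sq_nonneg _)

lemma avg_one (hn : 0 < n) (c : ℝ) : avg (fun _ : Fin n => c) = c := by
  have hn' : (n : ℝ) ≠ 0 := by exact_mod_cast hn.ne'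
  simp only [avg, Finset.sum_const, Finset.card_univ, Fintype.card_fin, nsmul_eq_mul]
  field_simp

lemma bS_sq_le (hn : 0 < n) (x : V n) : bS x ^ 2 ≤ aS x := by
  have h := avg_mul_sq_le (th x) fun _ => 1
  simp only [mul_one, one_pow, avg_one hn] at h
  exact h

lemma abs_bS_le (hn : 0 < n) (x : V n) : |bS x| ≤ 1 := by
  have := (bS_sq_le hn x).trans (aS_lt_one hn x).le
  exact abs_le_one_iff_mul_self_le_one.2 (by nlinarith)

lemma tanh_mul_sub_nonneg (x : ℝ) : 0 ≤ Real.tanh x * (x - Real.tanh x) := by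
  have hm : Monotone fun y => y - Real.tanh y := by
    refine monotone_of_deriv_nonneg (fun y => ((hasDerivAt_id' y).sub
      (hasDerivAt_tanh y)).differentiableAt) fun y => ?_
    rw [show (fun y => y - Real.tanh y) = (fun y => y) - Real.tanh from rfl,
      ((hasDerivAt_id' y).sub (hasDerivAt_tanh y)).deriv]
    nlinarith [sq_nonneg (Real.tanh y)]
  have ht : Monotone Real.tanh := monotone_of_deriv_nonneg
    (fun y => (hasDerivAt_tanh y).differentiableAt) fun y => by
      rw [(hasDerivAt_tanh y).deriv]; linarith [Real.tanh_sq_lt_one y]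
  rcases le_total 0 x with h | h
  · have h1 := hm h
    have h2 := ht h
    simp only [Real.tanh_zero, sub_zero] at h1 h2
    exact mul_nonneg h2 h1
  · have h1 := hm h
    have h2 := ht h
    simp only [Real.tanh_zero, sub_zero] at h1 h2
    exact mul_nonneg_of_nonpos_of_nonpos h2 h1

lemma R4_nonneg (x : V n) : 0 ≤ R4 x :=
  div_nonneg (Finset.sum_nonneg fun _ _ => tanh_mul_sub_nonneg _) (Nat.cast_nonneg _)

lemma ga_pos {t : ℝ} (ht : 0 < t) (x : V n) : 0 < ga t x := by
  have := aS_nonneg x; unfold ga; linarith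

lemma rho_nonneg (t : ℝ) (x : V n) : 0 ≤ rho t x :=
  mul_nonneg (Kr.phi_nonneg _ _) (Real.exp_pos _).le

/-- `w ≥ -γ - t`, from the first identity -/
lemma ww_ge (hn : 0 < n) {t : ℝ} (ht : 0 < t) (x : V n)
    (h : ww t x = R4 x + ga t x * aS x - t - mu t x * bS x) : -(ga t x + t) ≤ ww t x := by
  have h1 := R4_nonneg x
  have h2 := bS_sq_le hn x
  have h3 := (abs_le.1 (abs_bS_le hn x)).2
  have h4 := mul_nonneg (ga_pos ht x).le (aS_nonneg x)
  have h5 := mul_le_mul_of_nonneg_left h3 ht.le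
  rw [h]; unfold mu ga at *; nlinarith

lemma uR_ge (hn : 0 < n) {t : ℝ} (ht : 0 < t) (x : V n)
    (h : ww t x = R4 x + ga t x * aS x - t - mu t x * bS x) : -2 ≤ uR t x := by
  have h1 := ww_ge hn ht x h
  have h2 := aS_nonneg x
  have h3 := ga_pos ht x
  rw [uR, le_div_iff₀ (by linarith)]
  unfold ga at *; linarith

end Crest.Agent.T157.Kb

end
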