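import Crest.Agent.T157.KbGn_11
import Crest.Agent.T157.KbPos_10
import Crest.Agent.T157.KbM_24
import Crest.Agent.T157.KbTay_31
import Crest.Agent.T157.QeH2_11
import Crest.Agent.T157.QeNumU_43

/-!
# Row 157, part A2 (helper11): (HA) as a first-moment event

`Pt {W ∈ S0, Co, XM, ¬ W + (1 - η) f₂ f₂' ≤ 2 + ε q²} ≤ poly exp (E/2 - c ε¹⁸ n t)`, where `f₂` is
the unit part of `p = tanh x` orthogonal to `x`.
-/

set_option autoImplicit false

noncomputable section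

namespace Crest.Agent.T157.Kb

open MeasureTheory Matrix Set
open scoped ENNReal
open Crest.Agent.T157.E Crest.Agent.T157.Cond Crest.Agent.T157.Tap
open Crest.Agent.T157.Qe (Le R1 bv Wm St Dv WS FS zz gg S5 Par R1_mulVec proj_R1 R1_e)
open Crest.Agent.T157.Conc (ex ex_add ex_mono)

variable {n : ℕ}

/-- unit part of `x` orthogonal to `p` -/
def u2 (x : V n) : V n := unitv (bv (ee x) x)
/-- the slope of `x` in the frame `(e, u2)` -/
def m2 (x : V n) : ℝ := len (bv (ee x) x) / (ee x ⬝ᵥ x)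
/-- unit part of `p` orthogonal to `x` -/
def f2 (x : V n) : V n := unitv (bv (unitv x) (th x))

/-- **(HA)** as a first-moment event -/
def HaStmt : Prop := ∀ K ≥ (1 : ℝ), ∀ Cw ≥ (0 : ℝ), ∃ c > (0 : ℝ), ∃ C : ℕ,
  ∀ (n : ℕ) (t ε η E : ℝ) (S0 : Set (Mx n)) (B : Set (V n × Mx n)), C ≤ n → 1 / (n : ℝ) ≤ t →
  0 < ε → 0 < η → η ≤ 1 → ε ≤ c * η ^ 2 →
  Real.sqrt t ≤ c ^ 2 * ε ^ 9 → K ≤ (n * ε) ^ 2 * t → 0 ≤ E → MeasurableSet B →
  (∀ q > (0 : ℝ), t ≤ K * q ^ 2 → q ^ 2 ≤ K * t → WS ε q E Cw S0 ∧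
    ∀ W ∈ S0, (zz (gg ε q) • (1 : Mx n) - W)⁻¹.trace ≤ (1 + ε ^ 3) * n) →
  (∀ z ∈ B, z.2 ∈ S0 ∧ Co K (c * ε ^ 9) t z.1 ∧ XM (c * ε ^ 9) z.1 ∧
    ¬ Le (z.2 + (1 - η) • vecMulVec (f2 z.1) (f2 z.1)) ((2 + ε * aS z.1 ^ 2) • (1 : Mx n))) →
  Pt t (B.indicator 1) ≤ ex (C * Real.log n + E / 2 - c * ε ^ 18 * n * t)

namespace Ha11

lemma rem (x : ℝ) : |x - Real.tanh x - Real.tanh x ^ 3 / 3| ≤
    8 * |Real.tanh x| ^ 5 + 2 * min (x ^ 8) (x ^ 2) := by
  have h0 := abs_nonneg x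
  have hp := abs_nonneg (Real.tanh x)
  have hM : 0 ≤ min (x ^ 8) (x ^ 2) := le_min (by positivity) (by positivity)
  rcases le_total |x| 1 with h | h
  · have a1 := abs_le.1 (Tay.t5 x)
    have a2 := abs_le.1 (Tay.p3 x)
    have a3 : |x| ^ 7 ≤ |x| ^ 5 := pow_le_pow_of_le_one h0 h (by norm_num)
    have a4 : -|x| ^ 5 ≤ x ^ 5 ∧ x ^ 5 ≤ |x| ^ 5 := by rw [← abs_pow]; exact abs_le.1 le_rfl
    have a5 : |x| ≤ 3 / 2 * |Real.tanh x| := by
      have b1 := Tay.t3 x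
      have b2 : |x| ^ 3 ≤ |x| ^ 1 := pow_le_pow_of_le_one h0 h (by norm_num)
      have b3 := abs_sub_abs_le_abs_sub x (Real.tanh x)
      linarith
    have a6 := pow_le_pow_left₀ h0 a5 5
    have a7 := pow_nonneg hp 5
    rw [mul_pow] at a6
    rw [abs_le]; constructor <;> linarith [a1.1, a1.2, a2.1, a2.2, a4.1, a4.2]
  · have a1 : 1 ≤ x ^ 2 := by rw [← sq_abs]; exact one_le_pow₀ h
    have a2 : min (x ^ 8) (x ^ 2) = x ^ 2 := min_eq_right (by
      rw [show x ^ 8 = (x ^ 2) ^ 4 by ring]; exact le_self_pow₀ a1 (by norm_num))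
    have a3 := abs_le.1 (Tay.t1' x)
    have a4 : |Real.tanh x ^ 3| ≤ 1 := by
      rw [abs_pow]; exact pow_le_one₀ hp (Real.abs_tanh_lt_one x).le
    have a5 : |x| ≤ x ^ 2 := by rw [← sq_abs]; exact le_self_pow₀ h (by norm_num)
    have a6 := abs_le.1 a4
    have a7 := pow_nonneg hp 5
    rw [a2, abs_le]; constructor <;> linarith [a3.1, a3.2, a6.1, a6.2]

lemma p8 (x : ℝ) : Real.tanh x ^ 8 ≤ min (x ^ 8) (x ^ 2) := by
  have h := Tay.sq_le x
  refine le_min ?_ (le_trans ?_ h)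
  · calc _ = (Real.tanh x ^ 2) ^ 4 := by ring
      _ ≤ (x ^ 2) ^ 4 := by gcongr
      _ = _ := by ring
  · calc _ = (Real.tanh x ^ 2) ^ 4 := by ring
      _ ≤ _ := pow_le_of_le_one (sq_nonneg _) (Real.tanh_sq_lt_one x).le (by norm_num)

lemma rem' (x : ℝ) (k : ℕ) : |Real.tanh x ^ k * (x - Real.tanh x - Real.tanh x ^ 3 / 3)| ≤
    8 * |Real.tanh x| ^ (k + 5) + 2 * min (x ^ 8) (x ^ 2) := by
  have hM : 0 ≤ min (x ^ 8) (x ^ 2) := le_min (by positivity) (by positivity)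
  have h1 : |Real.tanh x| ^ k ≤ 1 := pow_le_one₀ (abs_nonneg _) (Real.abs_tanh_lt_one x).le
  rw [abs_mul, abs_pow]
  calc _ ≤ |Real.tanh x| ^ k * (8 * |Real.tanh x| ^ 5 + 2 * min (x ^ 8) (x ^ 2)) :=
        mul_le_mul_of_nonneg_left (rem x) (by positivity)
    _ = 8 * |Real.tanh x| ^ (k + 5) + |Real.tanh x| ^ k * (2 * min (x ^ 8) (x ^ 2)) := by ring
    _ ≤ _ := by
      have := mul_le_of_le_one_left (show 0 ≤ 2 * min (x ^ 8) (x ^ 2) by positivity) h1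
      linarith

lemma rsq_ge (x : ℝ) : Real.tanh x ^ 6 / 9 - 7 * min (x ^ 8) (x ^ 2) ≤ (x - Real.tanh x) ^ 2 := by
  have h := (abs_le.1 (rem' x 3)).1
  rw [Even.pow_abs (show Even (3 + 5) by decide)] at h
  have h2 := p8 x
  have hM : 0 ≤ min (x ^ 8) (x ^ 2) := le_min (by positivity) (by positivity)
  linarith [sq_nonneg (x - Real.tanh x - Real.tanh x ^ 3 / 3)]

lemma rsq_le (x : ℝ) : (x - Real.tanh x) ^ 2 ≤ Real.tanh x ^ 6 + min (x ^ 8) (x ^ 2) := by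
  have h6 : 0 ≤ Real.tanh x ^ 6 := by positivity
  have h8 : 0 ≤ x ^ 8 := by positivity
  rw [← min_add_add_left]
  refine le_min ?_ ?_
  · linarith [Tay.r_sq x, (abs_le.1 (Tay.p6 x)).1]
  · linarith [sq_le_sq.2 (Tay.t1' x)]

lemma avg_le {f g : V n} (h : ∀ i, f i ≤ g i) : avg f ≤ avg g :=
  div_le_div_of_nonneg_right (Finset.sum_le_sum fun i _ => h i) (Nat.cast_nonneg n)

lemma avg_lin (a b : ℝ) (f g : V n) : avg (fun i => a * f i + b * g i) = a * avg f + b * avg g := by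
  simp only [avg, Finset.sum_add_distrib, ← Finset.mul_sum]; ring

lemma avg_abs {f g : V n} (h : ∀ i, |f i| ≤ g i) : |avg f| ≤ avg g := by
  have h1 : avg (fun i => (-1) * g i + 0 * g i) ≤ avg f :=
    avg_le fun i => by linarith [(abs_le.1 (h i)).1]
  rw [avg_lin] at h1
  exact abs_le.2 ⟨by linarith, avg_le fun i => (abs_le.1 (h i)).2⟩

lemma dot_avg (hn : 0 < n) (f g : V n) : f ⬝ᵥ g = n * avg fun i => f i * g i := by
  have : (n : ℝ) ≠ 0 := by positivity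
  rw [avg, dotProduct]; field_simp

/-- the moments of `r = x - p` -/
lemma mom {K e t : ℝ} {x : V n} (hK : 1 ≤ K) (he : e ≤ 1 / 100) (q0 : 0 < aS x)
    (hq : 20000 * K ^ 2 * aS x ≤ 1) (hc : Co K e t x) (hx : XM e x) :
    (R3 x - bS x / aS x * R4 x) ^ 2 ≤ 25000 * aS x ^ 5 ∧
    aS x ^ 3 / 2 ≤ avg (fun i => (x i - th x i) ^ 2) - R4 x ^ 2 / aS x ∧
    avg (fun i => (x i - th x i) ^ 2) ≤ 17 * aS x ^ 3 ∧ R4 x ≤ 2 * aS x ^ 2 := by
  have p3 := hx.p3
  obtain ⟨p4, p4'⟩ := abs_le.1 hx.p4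
  obtain ⟨p6, p6'⟩ := abs_le.1 hx.p6
  have e8 := hx.e8
  obtain ⟨r4, r4'⟩ := abs_le.1 hc.r4
  have a1 := hc.a1
  have d3 := avg_abs (f := fun i => 1 * (x - th x) i + (-(1 / 3)) * th x i ^ 3)
    (g := fun i => 8 * (th x i ^ 2 * |th x i| ^ 3) + 2 * min (x i ^ 8) (x i ^ 2)) fun i => by
      have := rem (x i)
      rw [← sq_abs (th x i), ← pow_add]
      refine le_of_eq_of_le ?_ this
      congr 1; simp only [Pi.sub_apply, th]; ring
  have d4 := avg_abs (f := fun i => 1 * (th x i * (x i - th x i)) + (-(1 / 3)) * th x i ^ 4)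
    (g := fun i => 8 * th x i ^ 6 + 2 * min (x i ^ 8) (x i ^ 2)) fun i => by
      have := rem' (x i) 1
      rw [Even.pow_abs (show Even (1 + 5) by decide)] at this
      refine le_of_eq_of_le ?_ this
      congr 1; simp only [th]; ring
  have d5 := avg_mul_sq_le (fun i => th x i ^ 2) fun i => |th x i| ^ 3
  have d6 := avg_le (f := fun i => (1 / 9) * th x i ^ 6 + (-7) * min (x i ^ 8) (x i ^ 2))
    (g := fun i => (x i - th x i) ^ 2) fun i => by
      have := rsq_ge (x i)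
      simp only [th]; linarith
  have d7 := avg_le (g := fun i => 1 * th x i ^ 6 + 1 * min (x i ^ 8) (x i ^ 2))
    (f := fun i => (x i - th x i) ^ 2) fun i => by
      have := rsq_le (x i)
      simp only [th]; linarith
  rw [avg_lin] at d6 d7
  rw [avg_lin, avg_lin] at d3 d4
  simp only [← pow_mul, Even.pow_abs (show Even (3 * 2) by decide)] at d5
  have r0 := R4_nonneg x
  change |1 * R3 x + _| ≤ _ at d3
  change |1 * R4 x + _| ≤ _ at d4
  have b5 : 0 ≤ avg fun i => th x i ^ 2 * |th x i| ^ 3 :=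
    div_nonneg (Finset.sum_nonneg fun i _ => by positivity) (Nat.cast_nonneg n)
  have b6 : 0 ≤ avg fun i => th x i ^ 6 :=
    div_nonneg (Finset.sum_nonneg fun i _ => by positivity) (Nat.cast_nonneg n)
  clear hc hx
  generalize aS x = q at *
  generalize avg (fun i => th x i ^ 2 * |th x i| ^ 3) = A5 at *
  generalize avg (fun i => th x i ^ 3) = A3 at *
  generalize avg (fun i => th x i ^ 4) = A4 at *
  generalize avg (fun i => th x i ^ 6) = A6 at *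
  generalize avg (fun i => min (x i ^ 8) (x i ^ 2)) = M at *
  generalize avg (fun i => (x i - th x i) ^ 2) = Q at *
  generalize R3 x = r3 at *
  generalize R4 x = r at *
  generalize bS x = a at *
  have K2 : 1 ≤ K ^ 2 := one_le_pow₀ hK
  have q1 : q ≤ 1 / 20000 := by linarith [mul_le_mul_of_nonneg_right K2 q0.le]
  have q2 : 0 < q ^ 2 := by positivity
  have q3 : 0 < q ^ 3 := by positivity
  have q5 : 0 < q ^ 5 := by positivity
  have e3 : e * q ^ 3 ≤ 1 / 100 * q ^ 3 := by gcongr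
  have e2 : e * q ^ 2 ≤ 1 / 100 * q ^ 2 := by gcongr
  have q32 : q ^ 3 ≤ 1 / 20000 * q ^ 2 := by
    calc q ^ 3 = q * q ^ 2 := by ring
      _ ≤ _ := by gcongr
  have q65 : K ^ 2 * q ^ 6 ≤ 1 / 20000 * q ^ 5 := by
    calc _ = K ^ 2 * q * q ^ 5 := by ring
      _ ≤ _ := by gcongr; linarith
  have q65' : q ^ 6 ≤ K ^ 2 * q ^ 6 := le_mul_of_one_le_left (by positivity) K2
  refine ⟨?_, ?_, by linarith, by linarith⟩
  · have c1 : A5 ^ 2 ≤ (4 * q ^ 2) * (16 * q ^ 3) :=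
      d5.trans (mul_le_mul (by linarith) (by linarith) b6 (by positivity))
    have c2 : (r3 - A3 / 3) ^ 2 ≤ (8 * A5 + q ^ 3) ^ 2 :=
      sq_le_sq' (by linarith [(abs_le.1 d3).1]) (by linarith [(abs_le.1 d3).2])
    have c3 : (r - q ^ 2) ^ 2 ≤ (133 * q ^ 3) ^ 2 :=
      sq_le_sq' (by linarith [(abs_le.1 d4).1]) (by linarith [(abs_le.1 d4).2])
    have c4 : (a / q) ^ 2 ≤ K ^ 2 := by
      rw [div_pow, div_le_iff₀ q2, ← mul_pow, ← sq_abs]; gcongr
    have c5 : (a / q * (r - q ^ 2)) ^ 2 ≤ K ^ 2 * (133 * q ^ 3) ^ 2 := by rw [mul_pow]; gcongr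
    have e1 : r3 - a / q * r = (A3 - 3 * a * q) / 3 + (r3 - A3 / 3) - a / q * (r - q ^ 2) := by
      field_simp; ring
    rw [e1]
    generalize A3 - 3 * a * q = X at *
    generalize r3 - A3 / 3 = Y at *
    generalize a / q * (r - q ^ 2) = Z at *
    linarith [sq_nonneg (X / 3 - Y), sq_nonneg (X / 3 + Z), sq_nonneg (Y + Z),
      sq_nonneg (8 * A5 - q ^ 3)]
  · have c1 : r ^ 2 / q ≤ (101 / 100) ^ 2 * q ^ 3 := by
      rw [div_le_iff₀ q0]
      calc r ^ 2 ≤ (101 / 100 * q ^ 2) ^ 2 := by gcongr; linarith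
        _ = _ := by ring
    linarith

lemma dot_sq_le (a b : V n) : (a ⬝ᵥ b) ^ 2 ≤ (a ⬝ᵥ a) * (b ⬝ᵥ b) := by
  simpa only [dotProduct, sq] using Finset.sum_mul_sq_le_sq_mul_sq Finset.univ a b

lemma unit_sq (s : ℝ) {g : V n} (hg : 1 ≤ g ⬝ᵥ g) (v : V n) :
    (unitv (s • g) ⬝ᵥ v) ^ 2 ≤ (g ⬝ᵥ v) ^ 2 := by
  rw [unitv, smul_dotProduct, smul_dotProduct, smul_eq_mul, smul_eq_mul, mul_pow, mul_pow, inv_pow,
    len_sq, smul_dotProduct, dotProduct_smul, smul_eq_mul, smul_eq_mul, ← mul_assoc _ (s ^ 2)]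
  refine mul_le_of_le_one_left (sq_nonneg _) ?_
  rw [inv_mul_eq_div]
  refine div_le_one_of_le₀ ?_ (by rw [← mul_assoc]; exact mul_nonneg (mul_self_nonneg s) (by linarith))
  rw [← mul_assoc, ← sq]
  exact le_mul_of_one_le_right (sq_nonneg s) hg

/-- the direction `f2` against `u2 - m2 e` -/
lemma f2_le {x : V n} (q0 : 0 < aS x) (hl : 0 < len (bv (ee x) x)) (ha : 0 < ee x ⬝ᵥ x) (v : V n) :
    (f2 x ⬝ᵥ v) ^ 2 ≤ ((u2 x - m2 x • ee x) ⬝ᵥ v) ^ 2 := by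
  have he := Gn11.ee_unit q0
  have hu : u2 x ⬝ᵥ u2 x = 1 := unitv_dot fun h => hl.ne' (len_eq_zero.2 h)
  have heu : ee x ⬝ᵥ u2 x = 0 := by rw [u2, unitv, dotProduct_smul, Gn11.e_bv he, smul_zero]
  have hp : th x = len (th x) • ee x := (len_smul_unitv _).symm
  have hx : x = (ee x ⬝ᵥ x) • ee x + len (bv (ee x) x) • u2 x := by
    rw [u2, len_smul_unitv, bv, R1_mulVec]; abel
  rw [f2, m2, bv, R1_mulVec, show unitv x = (len x)⁻¹ • x from rfl]
  have hxx := len_sq x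
  generalize len (th x) = π at hp
  generalize len (bv (ee x) x) = l at *
  generalize ee x ⬝ᵥ x = α at *
  generalize ee x = e at *
  generalize u2 x = u at *
  generalize len x = L at *
  have hue : u ⬝ᵥ e = 0 := by rw [dotProduct_comm, heu]
  have e1 : L ^ 2 = α ^ 2 + l ^ 2 := by
    rw [hxx, hx]
    simp only [add_dotProduct, dotProduct_add, smul_dotProduct, dotProduct_smul, smul_eq_mul, he,
      hu, heu, hue]
    ring
  have L0 : L ≠ 0 := fun h => by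
    rw [h] at e1
    have : 0 < α ^ 2 + l ^ 2 := by positivity
    linarith
  have e2 : th x - (L⁻¹ • x ⬝ᵥ th x) • L⁻¹ • x = (-(π * α * l / L ^ 2)) • (u - (l / α) • e) := by
    rw [hp, hx]
    simp only [add_dotProduct, smul_dotProduct, dotProduct_smul, smul_eq_mul, he, hue]
    ext i
    simp only [Pi.sub_apply, Pi.add_apply, Pi.smul_apply, smul_eq_mul]
    field_simp
    linear_combination (π * e i) * e1
  rw [e2]
  refine unit_sq _ ?_ v
  simp only [sub_dotProduct, dotProduct_sub, smul_dotProduct, dotProduct_smul, smul_eq_mul, he,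
    hu, heu, hue]
  linarith [mul_self_nonneg (l / α)]

/-- the statistics of the direction `u2` -/
lemma xs {K e t : ℝ} {x : V n} (hn : 0 < n) (ht : 0 < t) (hK : 1 ≤ K) (he : e ≤ 1 / 100)
    (q0 : 0 < aS x) (hq : 20000 * K ^ 2 * aS x ≤ 1) (hc : Co K e t x) (hx : XM e x) :
    0 < len (bv (ee x) x) ∧ 0 < ee x ⬝ᵥ x ∧ (u2 x ⬝ᵥ tau x) ^ 2 ≤ 50000 * aS x ^ 2 * n ∧
      (m2 x - u2 x ⬝ᵥ mb t x) ^ 2 ≤ aS x ^ 3 := by
  obtain ⟨m1, m2', m3, m4⟩ := mom hK he q0 hq hc hx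
  have hee := Gn11.ee_unit q0
  have n0 : (0 : ℝ) < n := by exact_mod_cast hn
  have r0 := R4_nonneg x
  have hπ : len (th x) ^ 2 = n * aS x := by
    rw [len_sq, dot_avg hn, aS]; simp only [sq]
  have π0 : 0 < len (th x) := by
    refine lt_of_le_of_ne (len_nonneg _) fun h => ?_
    rw [← h] at hπ
    have : 0 < n * aS x := by positivity
    linarith
  have a1 : th x ⬝ᵥ x = n * (aS x + R4 x) := by
    rw [dot_avg hn, aS, R4]
    simp only [avg, ← add_div, ← Finset.sum_add_distrib]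
    congr 3; ext i; ring
  have a2 : x ⬝ᵥ x = n * (avg (fun i => (x i - th x i) ^ 2) + 2 * R4 x + aS x) := by
    rw [dot_avg hn, aS, R4]
    simp only [avg, Finset.mul_sum, ← add_div, mul_div_assoc', ← Finset.sum_add_distrib]
    congr 2; ext i; ring
  have a3 : x ⬝ᵥ 1 = n * (R3 x + bS x) := by
    rw [dot_avg hn, bS, R3]
    simp only [avg, ← add_div, ← Finset.sum_add_distrib]
    congr 3; ext i; simp
  have a4 : th x ⬝ᵥ 1 = n * bS x := by
    rw [dot_avg hn, bS]; congr 2; ext i; simp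
  have b1 : ee x ⬝ᵥ x = (len (th x))⁻¹ * (n * (aS x + R4 x)) := by
    rw [ee, unitv, smul_dotProduct, a1, smul_eq_mul]
  have b2 : ee x ⬝ᵥ 1 = (len (th x))⁻¹ * (n * bS x) := by
    rw [ee, unitv, smul_dotProduct, a4, smul_eq_mul]
  have b3 : len (bv (ee x) x) ^ 2 =
      n * (avg (fun i => (x i - th x i) ^ 2) - R4 x ^ 2 / aS x) := by
    rw [len_sq, bv, (proj_R1 hee).dot_self, R1_mulVec, dotProduct_sub, dotProduct_smul,
      dotProduct_comm x (ee x), a2, b1, smul_eq_mul, ← sq, mul_pow, inv_pow, hπ]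
    field_simp; ring
  have b4 : bv (ee x) x ⬝ᵥ tau x = n * (R3 x - bS x / aS x * R4 x) := by
    rw [tau, bv, bv, (proj_R1 hee).dot_self, R1_mulVec, dotProduct_sub, dotProduct_smul,
      dotProduct_comm x (ee x), a3, b1, b2, smul_eq_mul, mul_mul_mul_comm, ← sq, inv_pow, hπ]
    field_simp; ring
  have q3 : 0 < aS x ^ 3 := by positivity
  have l2 : n * (aS x ^ 3 / 2) ≤ len (bv (ee x) x) ^ 2 := by rw [b3]; gcongr
  have l3 : len (bv (ee x) x) ^ 2 ≤ n * (17 * aS x ^ 3) := by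
    rw [b3]; gcongr
    have : 0 ≤ R4 x ^ 2 / aS x := by positivity
    linarith
  have l0 : 0 < len (bv (ee x) x) := by
    refine lt_of_le_of_ne (len_nonneg _) fun h => ?_
    rw [← h] at l2
    have : 0 < n * (aS x ^ 3 / 2) := by positivity
    linarith
  have c1 : (u2 x ⬝ᵥ tau x) ^ 2 ≤ 50000 * aS x ^ 2 * n := by
    rw [u2, unitv, smul_dotProduct, b4, smul_eq_mul, mul_pow, inv_pow, inv_mul_eq_div,
      div_le_iff₀ (by positivity), mul_pow]
    calc _ ≤ (n : ℝ) ^ 2 * (25000 * aS x ^ 5) := by gcongr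
      _ = 50000 * aS x ^ 2 * n * (n * (aS x ^ 3 / 2)) := by ring
      _ ≤ _ := by gcongr
  refine ⟨l0, by rw [b1]; positivity, c1, ?_⟩
  have g0 := ga_pos ht x
  have c2 : m2 x - u2 x ⬝ᵥ mb t x = (len (th x))⁻¹ * (len (bv (ee x) x) *
      (aS x / (aS x + R4 x) - aS x / ga t x) -
        t * (bS x - aS x) / ga t x * (u2 x ⬝ᵥ tau x)) := by
    rw [m2, mb, dotProduct_smul, dotProduct_add, dotProduct_smul, dotProduct_smul, b1,
      show u2 x ⬝ᵥ bv (ee x) x = _ from unitv_dot_self _]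
    simp only [smul_eq_mul]
    have : (n : ℝ) = len (th x) ^ 2 / aS x := by rw [hπ]; field_simp
    rw [this]; field_simp; ring
  have t1 := hc.q1
  have a5 := abs_le.1 hc.a1
  have K2 : K ≤ K ^ 2 := le_self_pow₀ hK two_ne_zero
  have c3 : (aS x / (aS x + R4 x) - aS x / ga t x) ^ 2 ≤ (2 * K * aS x) ^ 2 := by
    have d1 : aS x / (aS x + R4 x) ≤ 1 := div_le_one_of_le₀ (by linarith) (by positivity)
    have d2 : aS x / ga t x ≤ 1 := div_le_one_of_le₀ (by unfold ga; linarith) g0.le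
    have k1 : aS x ^ 2 ≤ K * aS x ^ 2 := le_mul_of_one_le_left (by positivity) hK
    have d3 : 1 - 2 * K * aS x ≤ aS x / (aS x + R4 x) := by
      rw [le_div_iff₀ (by positivity)]
      have : 0 ≤ K * aS x * R4 x := by positivity
      linarith
    have d4 : 1 - 2 * K * aS x ≤ aS x / ga t x := by
      rw [le_div_iff₀ g0, ga]
      have : 0 ≤ K * aS x * t := by positivity
      have : 0 ≤ K * aS x ^ 2 := by positivity
      linarith
    exact sq_le_sq' (by linarith) (by linarith)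
  have c4 : (t * (bS x - aS x) / ga t x) ^ 2 ≤ (2 * K ^ 2 * aS x ^ 2) ^ 2 := by
    have k1 : aS x ≤ K * aS x := le_mul_of_one_le_left q0.le hK
    have d1 : t / ga t x ≤ K * aS x := by
      rw [div_le_iff₀ g0, ga]
      have : 0 ≤ K * aS x * t := by positivity
      linarith
    have d2 : (bS x - aS x) ^ 2 ≤ (2 * K * aS x) ^ 2 := sq_le_sq' (by linarith) (by linarith)
    calc _ = (t / ga t x) ^ 2 * (bS x - aS x) ^ 2 := by ring
      _ ≤ (K * aS x) ^ 2 * (2 * K * aS x) ^ 2 := by gcongr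
      _ = _ := by ring
  rw [c2, mul_pow, inv_pow, hπ, inv_mul_eq_div, div_le_iff₀ (by positivity)]
  have c5 := mul_le_mul l3 c3 (sq_nonneg _) (by positivity)
  have c6 := mul_le_mul c4 c1 (sq_nonneg _) (by positivity)
  rw [← mul_pow] at c5 c6
  generalize len (bv (ee x) x) * (aS x / (aS x + R4 x) - aS x / ga t x) = X at *
  generalize t * (bS x - aS x) / ga t x * (u2 x ⬝ᵥ tau x) = Y at *
  have y0 : 0 ≤ K ^ 2 * aS x := by positivity
  have y1 : K ^ 2 * aS x ≤ 1 / 20000 := by linarith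
  have y2 : (K ^ 2 * aS x) ^ 2 ≤ (1 / 20000) ^ 2 := by gcongr
  have z0 : 0 ≤ n * aS x ^ 4 := by positivity
  have z1 := mul_le_mul_of_nonneg_right y1 z0
  have z2 := mul_le_mul_of_nonneg_right y2 z0
  linarith [sq_nonneg (X + Y)]

lemma le_of_dir {W A : Mx n} {f g : V n} {s : ℝ} (hs : 0 ≤ s)
    (h : ∀ v, (f ⬝ᵥ v) ^ 2 ≤ (g ⬝ᵥ v) ^ 2) (hL : Le (W + s • vecMulVec g g) A) :
    Le (W + s • vecMulVec f f) A := fun v => by
  refine le_trans ?_ (hL v)
  simp only [add_mulVec, smul_mulVec, dotProduct_add, dotProduct_smul, vmv_mulVec, smul_eq_mul,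
    dotProduct_comm v f, dotProduct_comm v g]
  have := mul_le_mul_of_nonneg_left (h v) hs
  linarith

lemma ad0 {e ε : ℝ} (he : 0 ≤ e) (hε : ε ≤ 1 / 2) (x : V n) : Ad e ε 1 (aS x ^ 2) ∅ x := by
  have := aS_nonneg x
  refine ⟨le_rfl, by norm_num, mul_le_of_le_one_left (sq_nonneg _) (by linarith),
    le_mul_of_one_le_left (sq_nonneg _) (by norm_num), ?_⟩
  rw [Finset.card_empty, Nat.cast_zero]; positivity

lemma s5_of {C δ ε q β m : ℝ} {D e c τ u b : V n} (hC : 1 ≤ C) (q0 : 0 < q) (δ0 : 0 < δ)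
    (h1 : δ ≤ ε ^ 3) (h2 : ε ^ 3 ≤ 1) (h3 : 4 * q ≤ ε ^ 3) (s : St (2 * C + 2) δ q D β e c τ)
    (heu : e ⬝ᵥ u = 0) (hu : u ⬝ᵥ u ≤ 1) (hb : b ⬝ᵥ b ≤ C * q ^ 2)
    (h4 : (u ⬝ᵥ bv e c - u ⬝ᵥ b) ^ 2 ≤ (δ / 20 * q) ^ 2)
    (h5 : (u ⬝ᵥ τ) ^ 2 ≤ 50000 * q ^ 2 * n) (h6 : (m - u ⬝ᵥ b) ^ 2 ≤ q ^ 3) :
    S5 (2 * C + 50002) (ε ^ 3) q m e c τ u := by
  have q2 : 0 < q ^ 2 := by positivity
  have s1 : q / (2 * C + 50002) ≤ 2 - e ⬝ᵥ c := le_trans (by gcongr; norm_num) s.s1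
  have s0 : 0 ≤ 2 - e ⬝ᵥ c := le_trans (by positivity) s1
  have a1 : (u ⬝ᵥ b) ^ 2 ≤ C * q ^ 2 := (dot_sq_le u b).trans
    ((mul_le_of_le_one_left (dot_self_nonneg b) hu).trans hb)
  have a2 : δ ^ 2 * q ^ 2 ≤ ε ^ 3 * q ^ 2 := by
    gcongr; exact (pow_le_of_le_one δ0.le (h1.trans h2) two_ne_zero).trans h1
  have a3 := mul_le_mul_of_nonneg_right h2 q2.le
  have a4 := mul_le_mul_of_nonneg_right h3 q2.le
  have a5 : 0 ≤ δ ^ 2 * q ^ 2 := by positivity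
  have n0 : (0 : ℝ) ≤ n := Nat.cast_nonneg n
  refine ⟨heu, hu, s1, s.s2.trans (by gcongr; norm_num), s.s3.trans (by gcongr),
    s.u5.trans (by gcongr; norm_num), ?_, h5.trans (by gcongr; linarith), ?_⟩
  · linarith [sq_nonneg (u ⬝ᵥ bv e c - 2 * (u ⬝ᵥ b))]
  · linarith [sq_nonneg (m + u ⬝ᵥ bv e c - 2 * (u ⬝ᵥ b))]

end Ha11

set_option maxHeartbeats 400000 in
open Ha11 in
theorem haStmt (hM : MargStmt) (hA : AllStmt) (hX : XdStmt) : HaStmt := by
  intro K hK Cw hCw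
  obtain ⟨t0, ht0, Ca, hA⟩ := hA
  obtain ⟨C, hC1, cx, hcx, hX⟩ := hX K hK
  obtain ⟨cg, hcg, hG⟩ := gnU C hC1
  obtain ⟨k0, hk0, hN⟩ := Qe.numU (2 * C + 2) (by linarith)
  obtain ⟨K0, hC⟩ := Qe.haCore2
  obtain ⟨C2, hC2⟩ : ∃ C2, C2 = 2 * C + 50002 := ⟨_, rfl⟩
  have C21 : 1 ≤ C2 := by linarith
  obtain ⟨Bg, B0, g1, g2, g3, g4⟩ : ∃ Bg > (0 : ℝ), 10 ^ 6 ≤ Bg ∧ 1100 * (1 + Cw) ≤ Bg ∧
      10 ^ 4 * C2 ^ 5 ≤ Bg ∧ 20000 * K ^ 2 ≤ Bg := ⟨max (max (10 ^ 6) (1100 * (1 + Cw)))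
    (max (10 ^ 4 * C2 ^ 5) (20000 * K ^ 2)), by positivity, by simp, by simp, by simp, by simp⟩
  obtain ⟨m, hm, m1, m2', m3, m4, m5, m6, m7⟩ : ∃ m > (0 : ℝ), m ≤ 1 / Bg ∧ m ≤ cx ∧ m ≤ k0 ∧
      m ≤ 1 / k0 ∧ m ≤ t0 ∧ m ≤ cg * k0 ∧ m ≤ cg * k0 ^ 2 :=
    ⟨min (min (min (1 / Bg) cx) (min k0 (1 / k0))) (min t0 (min (cg * k0) (cg * k0 ^ 2))),
      by positivity, by simp, by simp, by simp, by simp, by simp, by simp, by simp⟩
  rw [le_div_iff₀ B0] at m1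
  have m0 : m ≤ 1 / 10 ^ 6 := by linarith [mul_le_mul_of_nonneg_left g1 hm.le]
  obtain ⟨c, hc, c1, c2, c3⟩ : ∃ c > (0 : ℝ), c ≤ m ∧ K * c ≤ m ∧ C * c ≤ m := by
    have h : m / (K * C) * (K * C) = m := div_mul_cancel₀ _ (by positivity)
    have h0 : 0 < m / (K * C) := by positivity
    have h1 := mul_le_mul_of_nonneg_left hK h0.le
    have h2 := mul_le_mul_of_nonneg_left hC1 h0.le
    exact ⟨_, h0, by nlinarith, by nlinarith, by nlinarith⟩
  refine ⟨c, hc, Ca + K0 + 21, fun n t ε η E S0 B hn ht e0 η0 η1 eη hs hne hE hB hW hz => ?_⟩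
  have n0 : 0 < n := by omega
  have n1 : (21 : ℝ) ≤ n := by exact_mod_cast (by omega : 21 ≤ n)
  have t0' : 0 < t := lt_of_lt_of_le (by positivity) ht
  have η2 : η ^ 2 ≤ η := pow_le_of_le_one η0.le η1 two_ne_zero
  have e1 : ε ≤ c := eη.trans (mul_le_of_le_one_right hc.le (by linarith))
  have e2 : ε ≤ 1 := by linarith
  have e3 : ε ^ 3 ≤ ε := pow_le_of_le_one e0.le e2 (by norm_num)
  have e93 : ε ^ 9 ≤ ε ^ 3 := pow_le_pow_of_le_one e0.le e2 (by norm_num)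
  have p9 : 0 < ε ^ 9 := by positivity
  have hs1 : Real.sqrt t ≤ c * (c * ε ^ 9) := hs.trans_eq (by ring)
  have ce : c * ε ^ 9 ≤ c := mul_le_of_le_one_right hc.le (by linarith)
  have ht1 : t ≤ (c * (c * ε ^ 9)) ^ 2 := (Real.sqrt_le_left (by positivity)).1 hs1
  have ht2 : t ≤ t0 := by
    have : c * (c * ε ^ 9) ≤ c := mul_le_of_le_one_right hc.le (by linarith)
    have := pow_le_pow_left₀ (by positivity) this 2
    linarith [mul_le_of_le_one_left hc.le (by linarith : c ≤ 1)]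
  have hl : 0 ≤ Real.log n := Real.log_natCast_nonneg n
  have dv := fun z h => hX n t _ ε 1 (aS z.1 ^ 2) ∅ z.1 n0 t0' (mul_pos hc p9)
    (hs1.trans (mul_le_mul_of_nonneg_right (by linarith) (by positivity)))
    (by rw [← mul_assoc]; exact (mul_le_of_le_one_left p9.le (by linarith)).trans (by linarith))
    (by linarith) (hz z h).2.1 (hz z h).2.2.1
    (ad0 (by positivity) (by linarith) _)
  have hq : ∀ z ∈ B, aS z.1 ≤ m * ε ^ 9 := fun z h => by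
    refine (pow_le_pow_iff_left₀ (aS_nonneg _) (by positivity) two_ne_zero).1
      ((hz z h).2.1.q2.trans ((mul_le_mul_of_nonneg_left ht1 (by linarith)).trans ?_))
    have h1 : K * c * (c * c * c) ≤ m * m := mul_le_mul c2
      ((mul_le_of_le_one_left hc.le (mul_le_one₀ (by linarith) hc.le (by linarith))).trans c1)
      (by positivity) hm.le
    calc _ = K * c * (c * c * c) * (ε ^ 9) ^ 2 := by ring
      _ ≤ m * m * (ε ^ 9) ^ 2 := by gcongr
      _ = _ := by ring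
  have hR : ∀ z ∈ B, c * ε ^ 18 * n * t ≤ m * (ε ^ 18 * n * aS z.1 ^ 2) := fun z h =>
    calc _ ≤ c * ε ^ 18 * n * (K * aS z.1 ^ 2) := by gcongr; exact (hz z h).2.1.q1
      _ = K * c * (ε ^ 18 * n * aS z.1 ^ 2) := by ring
      _ ≤ _ := by gcongr
  have kε : k0 * ε ≤ 1 := by rw [mul_comm, ← le_div_iff₀ hk0]; linarith
  have δ3 : k0 * ε ^ 9 ≤ ε ^ 3 :=
    calc _ = k0 * ε * ε ^ 8 := by ring
      _ ≤ ε ^ 8 := mul_le_of_le_one_left (by positivity) kε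
      _ ≤ _ := pow_le_pow_of_le_one e0.le e2 (by norm_num)
  have Bε : Bg * ε ≤ η ^ 2 :=
    calc _ ≤ Bg * (m * η ^ 2) := by gcongr; exact eη.trans (by gcongr)
      _ = m * Bg * η ^ 2 := by ring
      _ ≤ _ := mul_le_of_le_one_left (sq_nonneg _) m1
  have p5 : ∀ j ≤ 5, 10 ^ 4 * C2 ^ j * ε ≤ η ^ 2 := fun j hj =>
    le_trans (by gcongr; exact le_trans (by gcongr) g3) Bε
  set R := K0 * Real.log n + E / 2 - c * ε ^ 18 * n * t with hRd
  refine (Pt_le hM n0 t0' hB (b := 20 * ex R) (b' := ex R)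
    (by have := Conc.ex_ne_top R; finiteness)
    (G := fun x ξ => St (2 * C + 2) (k0 * ε ^ 9) (aS x) (Dk 1 (aS x ^ 2) ∅ x) (2 * 1 * aS x)
      (ee x) (col t x ξ) (tau x) ∧ (u2 x ⬝ᵥ bv (ee x) (col t x ξ) - u2 x ⬝ᵥ mb t x) ^ 2 ≤
        (k0 * ε ^ 9 / 20 * aS x) ^ 2) (fun z h => ?_) fun z h ξ hξ => ?_).trans ?_
  · refine (hG n t _ ε _ _ _ _ n0 t0' ⟨by positivity, by linarith⟩ ((hq z h).trans ?_) e0.le
      (dv z h).1 ((dv z h).2.mono t0'.le ?_) (unitv_dot_le _)).trans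
      (mul_le_mul_right (Conc.ex_mono ?_) _)
    · rw [← mul_assoc]; gcongr
    · rw [← mul_assoc, ← mul_assoc]; exact mul_le_mul_of_nonneg_right (c3.trans m6) p9.le
    · have : m * (ε ^ 18 * n * aS z.1 ^ 2) ≤ cg * k0 ^ 2 * (ε ^ 18 * n * aS z.1 ^ 2) := by gcongr
      have h2 : 0 ≤ K0 * Real.log n := by positivity
      linarith [hR z h]
  · have q0 := (dv z h).2.q0
    have co := (hz z h).2.1
    have Bq : Bg * aS z.1 ≤ ε ^ 3 :=
      calc _ ≤ Bg * (m * ε ^ 3) := by gcongr; exact (hq z h).trans (by gcongr)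
        _ = m * Bg * ε ^ 3 := by ring
        _ ≤ _ := mul_le_of_le_one_left (by positivity) m1
    have k1 := mul_le_mul_of_nonneg_right g1 q0.le
    have k2 := mul_le_mul_of_nonneg_right g2 q0.le
    have k3 := mul_le_mul_of_nonneg_right g3 q0.le
    have k4 := mul_le_mul_of_nonneg_right g4 q0.le
    have k5 : 0 ≤ C2 ^ 5 * aS z.1 := by positivity
    obtain ⟨x1, x2, x3, x4⟩ := xs n0 t0' hK (by linarith) q0 (by linarith) co (hz z h).2.2.1
    have heu : ee z.1 ⬝ᵥ u2 z.1 = 0 := by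
      rw [u2, unitv, dotProduct_smul, Gn11.e_bv (Gn11.ee_unit q0), smul_zero]
    have s5 := s5_of hC1 q0 (by positivity) δ3 (by linarith) (by linarith) hξ.1 heu
      (unitv_dot_le _) (dv z h).2.d3 hξ.2 x3 x4
    rw [← hC2] at s5
    have w := hW _ q0 co.q1 co.q2
    refine (measure_mono fun W hW => ?_).trans ((hC n C2 Cw ε _ _ E _ η _ _ _ _ S0
      ⟨by omega, e0, by linarith, q0, by linarith, ?_⟩ C21 hCw (by linarith) le_rfl η0 η1 ?_ ?_ ?_
      (by linarith) hE w.1 w.2 (hN n ε _ _ _ _ _ _ n0 ⟨e0, by linarith⟩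
        ⟨q0, (hq z h).trans (by gcongr)⟩ (dv z h).1.lo hξ.1).1 s5).trans (Conc.ex_mono ?_))
    · exact ⟨(hz _ hW).1, fun h' => (hz _ hW).2.2.2
        (le_of_dir (by linarith) (f2_le q0 x1 x2) h')⟩
    · refine (one_le_sq_iff₀ (by positivity)).1 (le_of_mul_le_mul_left ?_ (by linarith : 0 < K))
      linarith [mul_le_mul_of_nonneg_left co.q1 (sq_nonneg (n * ε))]
    · calc _ = ε * (10 ^ 4 * C2 ^ 2 * ε) * ε := by ring
        _ ≤ ε * η * 1 := by gcongr; exact (p5 2 (by norm_num)).trans η2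
        _ = _ := mul_one _
    · linarith [p5 0 (by norm_num)]
    · linarith [p5 1 (by norm_num)]
    · have : m * (ε ^ 18 * n * aS z.1 ^ 2) ≤ 1 / 64 * (ε ^ 9 * n * aS z.1 ^ 2) := by
        gcongr ?_ * (?_ * _ * _)
        · linarith
        · exact pow_le_pow_of_le_one e0.le e2 (by norm_num)
      linarith [hR z h]
  · have h21 : 20 * ex R + ex R ≤ ex (Real.log n + R) := by
      rw [Conc.ex_add, ← add_one_mul]
      refine mul_le_mul_left ?_ _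
      rw [ex, Real.exp_log (by linarith), ENNReal.ofReal_natCast]
      exact_mod_cast (by omega : 20 + 1 ≤ n)
    refine (mul_le_mul' (hA n t (by omega) ⟨ht, ht2⟩) h21).trans ?_
    rw [← Conc.ex_add]
    refine Conc.ex_mono ?_
    push_cast
    linarith

end Crest.Agent.T157.Kb

end
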