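import Crest.Agent.T157.OaDef_48
import Crest.Agent.T157.KpDef_12
import Crest.Agent.T157.CwDef_8

/-!
# Row 157, block A2 (helper21): the top

Parameters `Pm` with the filter `FF` (order of the constants), the events `Wt`, `Gc`, `Gsh`, `AP`, the
levels, the leaves and the joint planted theorem `Thm`.  Text: `docs/T157_A_s0.md`.
-/

set_option autoImplicit false

noncomputable section

namespace Crest.Agent.T157.O0

open MeasureTheory Matrix Filter Topology Set
open Crest.Agent.T157.E Crest.Agent.T157.SL Crest.Agent.T157.Ks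
open Crest.Agent.T157.Tap (Mx V GOE Ymap th)
open Crest.Agent.T157.Ks.St0 (JP)
open Crest.Agent.T157.Oa (Gs Gd Tst FG AQ fld Az)

/-! ### parameters -/

/-- all constants, in the order in which they are chosen -/
structure Pm where
  /-- level; terminal time; constant of the first-moment events; constant of `Good` -/
  (L T C K : ℝ)
  /-- sharp level `e ^ A M`, spectral tolerance `e ^ A` -/
  A : ℕ
  /-- exponents `ch ≫ d ≫ k4 ≫ k2 ≫ k3 ≫ e1` -/
  (ch d k4 k2 k3 e1 : ℝ)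
  /-- sharp tests start at `Lp t`; admissible errors `≥ t ^ cv, n ^ (-cv)`; a priori constant -/
  (Lp cv B t0 K0 B0 ef B2 Cn : ℝ)
  n : ℕ

/-- "for all parameters chosen in the right order" -/
def Ev (Q : Pm → Prop) : Prop :=
  ∀ᶠ L in atTop, ∀ᶠ T in atTop, ∀ᶠ C in atTop, ∀ᶠ K in atTop, ∀ᶠ A in atTop,
  ∀ᶠ ch in 𝓝[>] 0, ∀ᶠ d in 𝓝[>] 0, ∀ᶠ k4 in 𝓝[>] 0, ∀ᶠ k2 in 𝓝[>] 0, ∀ᶠ k3 in 𝓝[>] 0,
  ∀ᶠ e1 in 𝓝[>] 0, ∀ᶠ Lp in atTop, ∀ᶠ cv in 𝓝[>] 0, ∀ᶠ B in atTop, ∀ᶠ t0 in 𝓝[>] 0,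
  ∀ᶠ K0 in atTop, ∀ᶠ B0 in atTop, ∀ᶠ ef in 𝓝[>] 0, ∀ᶠ B2 in atTop, ∀ᶠ Cn in atTop,
  ∀ᶠ n in atTop, Q ⟨L, T, C, K, A, ch, d, k4, k2, k3, e1, Lp, cv, B, t0, K0, B0, ef, B2, Cn, n⟩

/-- the filter of the parameters: `∀ᶠ p in FF, Q p` unfolds to `Ev Q` -/
def FF : Filter Pm where
  sets := {S | Ev (· ∈ S)}
  univ_sets := by simp [Ev]
  sets_of_superset := fun h hs => by
    simp only [mem_ofPred_eq, Ev] at h ⊢
    iterate 21 refine h.mono fun _ h => ?_
    exact hs h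
  inter_sets := fun h h' => by
    simp only [mem_ofPred_eq, Ev] at h h' ⊢
    iterate 21 refine (h.and h').mono fun _ ⟨h, h'⟩ => ?_
    exact ⟨h, h'⟩

theorem ev_iff {Q : Pm → Prop} : (∀ᶠ p in FF, Q p) ↔ Ev Q := Iff.rfl

/-- the parameters chosen before `L` -/
def Pm.uL (_p : Pm) : Pm :=
  ⟨0, 0, 0, 0, 0, 0, 0, 0, 0, 0, 0, 0, 0, 0, 0, 0, 0, 0, 0, 0, 0⟩

theorem ev_L {Q : Pm → ℝ → Prop} (h : ∀ q, ∀ᶠ x in atTop, Q q x) :
    ∀ᶠ p in FF, Q p.uL p.L :=
  ev_iff.2 <| (h ⟨0, 0, 0, 0, 0, 0, 0, 0, 0, 0, 0, 0, 0, 0, 0, 0, 0, 0, 0, 0, 0⟩).mono fun _ hx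
    => Eventually.of_forall fun _ => Eventually.of_forall fun _ => Eventually.of_forall fun _ =>
    Eventually.of_forall fun _ => Eventually.of_forall fun _ => Eventually.of_forall fun _ =>
    Eventually.of_forall fun _ => Eventually.of_forall fun _ => Eventually.of_forall fun _ =>
    Eventually.of_forall fun _ => Eventually.of_forall fun _ => Eventually.of_forall fun _ =>
    Eventually.of_forall fun _ => Eventually.of_forall fun _ => Eventually.of_forall fun _ =>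
    Eventually.of_forall fun _ => Eventually.of_forall fun _ => Eventually.of_forall fun _ =>
    Eventually.of_forall fun _ => Eventually.of_forall fun _ => hx

/-- the parameters chosen before `T` -/
def Pm.uT (p : Pm) : Pm :=
  ⟨p.L, 0, 0, 0, 0, 0, 0, 0, 0, 0, 0, 0, 0, 0, 0, 0, 0, 0, 0, 0, 0⟩

theorem ev_T {Q : Pm → ℝ → Prop} (h : ∀ q, ∀ᶠ x in atTop, Q q x) :
    ∀ᶠ p in FF, Q p.uT p.T :=
  ev_iff.2 <| Eventually.of_forall fun L => (h ⟨L, 0, 0, 0, 0, 0, 0, 0, 0, 0, 0, 0, 0, 0, 0, 0,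
    0, 0, 0, 0, 0⟩).mono fun _ hx => Eventually.of_forall fun _ => Eventually.of_forall fun _ =>
    Eventually.of_forall fun _ => Eventually.of_forall fun _ => Eventually.of_forall fun _ =>
    Eventually.of_forall fun _ => Eventually.of_forall fun _ => Eventually.of_forall fun _ =>
    Eventually.of_forall fun _ => Eventually.of_forall fun _ => Eventually.of_forall fun _ =>
    Eventually.of_forall fun _ => Eventually.of_forall fun _ => Eventually.of_forall fun _ =>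
    Eventually.of_forall fun _ => Eventually.of_forall fun _ => Eventually.of_forall fun _ =>
    Eventually.of_forall fun _ => Eventually.of_forall fun _ => hx

/-- the parameters chosen before `C` -/
def Pm.uC (p : Pm) : Pm :=
  ⟨p.L, p.T, 0, 0, 0, 0, 0, 0, 0, 0, 0, 0, 0, 0, 0, 0, 0, 0, 0, 0, 0⟩

theorem ev_C {Q : Pm → ℝ → Prop} (h : ∀ q, ∀ᶠ x in atTop, Q q x) :
    ∀ᶠ p in FF, Q p.uC p.C :=
  ev_iff.2 <| Eventually.of_forall fun L => Eventually.of_forall fun T => (h ⟨L, T, 0, 0, 0, 0,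
    0, 0, 0, 0, 0, 0, 0, 0, 0, 0, 0, 0, 0, 0, 0⟩).mono fun _ hx => Eventually.of_forall fun _ =>
    Eventually.of_forall fun _ => Eventually.of_forall fun _ => Eventually.of_forall fun _ =>
    Eventually.of_forall fun _ => Eventually.of_forall fun _ => Eventually.of_forall fun _ =>
    Eventually.of_forall fun _ => Eventually.of_forall fun _ => Eventually.of_forall fun _ =>
    Eventually.of_forall fun _ => Eventually.of_forall fun _ => Eventually.of_forall fun _ =>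
    Eventually.of_forall fun _ => Eventually.of_forall fun _ => Eventually.of_forall fun _ =>
    Eventually.of_forall fun _ => Eventually.of_forall fun _ => hx

/-- the parameters chosen before `K` -/
def Pm.uK (p : Pm) : Pm :=
  ⟨p.L, p.T, p.C, 0, 0, 0, 0, 0, 0, 0, 0, 0, 0, 0, 0, 0, 0, 0, 0, 0, 0⟩

theorem ev_K {Q : Pm → ℝ → Prop} (h : ∀ q, ∀ᶠ x in atTop, Q q x) :
    ∀ᶠ p in FF, Q p.uK p.K :=
  ev_iff.2 <| Eventually.of_forall fun L => Eventually.of_forall fun T => Eventually.of_forall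
    fun C => (h ⟨L, T, C, 0, 0, 0, 0, 0, 0, 0, 0, 0, 0, 0, 0, 0, 0, 0, 0, 0, 0⟩).mono fun _ hx =>
    Eventually.of_forall fun _ => Eventually.of_forall fun _ => Eventually.of_forall fun _ =>
    Eventually.of_forall fun _ => Eventually.of_forall fun _ => Eventually.of_forall fun _ =>
    Eventually.of_forall fun _ => Eventually.of_forall fun _ => Eventually.of_forall fun _ =>
    Eventually.of_forall fun _ => Eventually.of_forall fun _ => Eventually.of_forall fun _ =>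
    Eventually.of_forall fun _ => Eventually.of_forall fun _ => Eventually.of_forall fun _ =>
    Eventually.of_forall fun _ => Eventually.of_forall fun _ => hx

/-- the parameters chosen before `A` -/
def Pm.uA (p : Pm) : Pm :=
  ⟨p.L, p.T, p.C, p.K, 0, 0, 0, 0, 0, 0, 0, 0, 0, 0, 0, 0, 0, 0, 0, 0, 0⟩

theorem ev_A {Q : Pm → ℕ → Prop} (h : ∀ q, ∀ᶠ x in atTop, Q q x) :
    ∀ᶠ p in FF, Q p.uA p.A :=
  ev_iff.2 <| Eventually.of_forall fun L => Eventually.of_forall fun T => Eventually.of_forall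
    fun C => Eventually.of_forall fun K => (h ⟨L, T, C, K, 0, 0, 0, 0, 0, 0, 0, 0, 0, 0, 0, 0, 0,
    0, 0, 0, 0⟩).mono fun _ hx => Eventually.of_forall fun _ => Eventually.of_forall fun _ =>
    Eventually.of_forall fun _ => Eventually.of_forall fun _ => Eventually.of_forall fun _ =>
    Eventually.of_forall fun _ => Eventually.of_forall fun _ => Eventually.of_forall fun _ =>
    Eventually.of_forall fun _ => Eventually.of_forall fun _ => Eventually.of_forall fun _ =>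
    Eventually.of_forall fun _ => Eventually.of_forall fun _ => Eventually.of_forall fun _ =>
    Eventually.of_forall fun _ => Eventually.of_forall fun _ => hx

/-- the parameters chosen before `ch` -/
def Pm.uch (p : Pm) : Pm :=
  ⟨p.L, p.T, p.C, p.K, p.A, 0, 0, 0, 0, 0, 0, 0, 0, 0, 0, 0, 0, 0, 0, 0, 0⟩

theorem ev_ch {Q : Pm → ℝ → Prop} (h : ∀ q, ∀ᶠ x in 𝓝[>] 0, Q q x) :
    ∀ᶠ p in FF, Q p.uch p.ch :=
  ev_iff.2 <| Eventually.of_forall fun L => Eventually.of_forall fun T => Eventually.of_forall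
    fun C => Eventually.of_forall fun K => Eventually.of_forall fun A => (h ⟨L, T, C, K, A, 0, 0,
    0, 0, 0, 0, 0, 0, 0, 0, 0, 0, 0, 0, 0, 0⟩).mono fun _ hx => Eventually.of_forall fun _ =>
    Eventually.of_forall fun _ => Eventually.of_forall fun _ => Eventually.of_forall fun _ =>
    Eventually.of_forall fun _ => Eventually.of_forall fun _ => Eventually.of_forall fun _ =>
    Eventually.of_forall fun _ => Eventually.of_forall fun _ => Eventually.of_forall fun _ =>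
    Eventually.of_forall fun _ => Eventually.of_forall fun _ => Eventually.of_forall fun _ =>
    Eventually.of_forall fun _ => Eventually.of_forall fun _ => hx

/-- the parameters chosen before `d` -/
def Pm.ud (p : Pm) : Pm :=
  ⟨p.L, p.T, p.C, p.K, p.A, p.ch, 0, 0, 0, 0, 0, 0, 0, 0, 0, 0, 0, 0, 0, 0, 0⟩

theorem ev_d {Q : Pm → ℝ → Prop} (h : ∀ q, ∀ᶠ x in 𝓝[>] 0, Q q x) :
    ∀ᶠ p in FF, Q p.ud p.d :=
  ev_iff.2 <| Eventually.of_forall fun L => Eventually.of_forall fun T => Eventually.of_forall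
    fun C => Eventually.of_forall fun K => Eventually.of_forall fun A => Eventually.of_forall fun
    ch => (h ⟨L, T, C, K, A, ch, 0, 0, 0, 0, 0, 0, 0, 0, 0, 0, 0, 0, 0, 0, 0⟩).mono fun _ hx =>
    Eventually.of_forall fun _ => Eventually.of_forall fun _ => Eventually.of_forall fun _ =>
    Eventually.of_forall fun _ => Eventually.of_forall fun _ => Eventually.of_forall fun _ =>
    Eventually.of_forall fun _ => Eventually.of_forall fun _ => Eventually.of_forall fun _ =>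
    Eventually.of_forall fun _ => Eventually.of_forall fun _ => Eventually.of_forall fun _ =>
    Eventually.of_forall fun _ => Eventually.of_forall fun _ => hx

/-- the parameters chosen before `k4` -/
def Pm.uk4 (p : Pm) : Pm :=
  ⟨p.L, p.T, p.C, p.K, p.A, p.ch, p.d, 0, 0, 0, 0, 0, 0, 0, 0, 0, 0, 0, 0, 0, 0⟩

theorem ev_k4 {Q : Pm → ℝ → Prop} (h : ∀ q, ∀ᶠ x in 𝓝[>] 0, Q q x) :
    ∀ᶠ p in FF, Q p.uk4 p.k4 :=
  ev_iff.2 <| Eventually.of_forall fun L => Eventually.of_forall fun T => Eventually.of_forall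
    fun C => Eventually.of_forall fun K => Eventually.of_forall fun A => Eventually.of_forall fun
    ch => Eventually.of_forall fun d => (h ⟨L, T, C, K, A, ch, d, 0, 0, 0, 0, 0, 0, 0, 0, 0, 0,
    0, 0, 0, 0⟩).mono fun _ hx => Eventually.of_forall fun _ => Eventually.of_forall fun _ =>
    Eventually.of_forall fun _ => Eventually.of_forall fun _ => Eventually.of_forall fun _ =>
    Eventually.of_forall fun _ => Eventually.of_forall fun _ => Eventually.of_forall fun _ =>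
    Eventually.of_forall fun _ => Eventually.of_forall fun _ => Eventually.of_forall fun _ =>
    Eventually.of_forall fun _ => Eventually.of_forall fun _ => hx

/-- the parameters chosen before `k2` -/
def Pm.uk2 (p : Pm) : Pm :=
  ⟨p.L, p.T, p.C, p.K, p.A, p.ch, p.d, p.k4, 0, 0, 0, 0, 0, 0, 0, 0, 0, 0, 0, 0, 0⟩

theorem ev_k2 {Q : Pm → ℝ → Prop} (h : ∀ q, ∀ᶠ x in 𝓝[>] 0, Q q x) :
    ∀ᶠ p in FF, Q p.uk2 p.k2 :=
  ev_iff.2 <| Eventually.of_forall fun L => Eventually.of_forall fun T => Eventually.of_forall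
    fun C => Eventually.of_forall fun K => Eventually.of_forall fun A => Eventually.of_forall fun
    ch => Eventually.of_forall fun d => Eventually.of_forall fun k4 => (h ⟨L, T, C, K, A, ch, d,
    k4, 0, 0, 0, 0, 0, 0, 0, 0, 0, 0, 0, 0, 0⟩).mono fun _ hx => Eventually.of_forall fun _ =>
    Eventually.of_forall fun _ => Eventually.of_forall fun _ => Eventually.of_forall fun _ =>
    Eventually.of_forall fun _ => Eventually.of_forall fun _ => Eventually.of_forall fun _ =>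
    Eventually.of_forall fun _ => Eventually.of_forall fun _ => Eventually.of_forall fun _ =>
    Eventually.of_forall fun _ => Eventually.of_forall fun _ => hx

/-- the parameters chosen before `k3` -/
def Pm.uk3 (p : Pm) : Pm :=
  ⟨p.L, p.T, p.C, p.K, p.A, p.ch, p.d, p.k4, p.k2, 0, 0, 0, 0, 0, 0, 0, 0, 0, 0, 0, 0⟩

theorem ev_k3 {Q : Pm → ℝ → Prop} (h : ∀ q, ∀ᶠ x in 𝓝[>] 0, Q q x) :
    ∀ᶠ p in FF, Q p.uk3 p.k3 :=
  ev_iff.2 <| Eventually.of_forall fun L => Eventually.of_forall fun T => Eventually.of_forall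
    fun C => Eventually.of_forall fun K => Eventually.of_forall fun A => Eventually.of_forall fun
    ch => Eventually.of_forall fun d => Eventually.of_forall fun k4 => Eventually.of_forall fun
    k2 => (h ⟨L, T, C, K, A, ch, d, k4, k2, 0, 0, 0, 0, 0, 0, 0, 0, 0, 0, 0, 0⟩).mono fun _ hx =>
    Eventually.of_forall fun _ => Eventually.of_forall fun _ => Eventually.of_forall fun _ =>
    Eventually.of_forall fun _ => Eventually.of_forall fun _ => Eventually.of_forall fun _ =>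
    Eventually.of_forall fun _ => Eventually.of_forall fun _ => Eventually.of_forall fun _ =>
    Eventually.of_forall fun _ => Eventually.of_forall fun _ => hx

/-- the parameters chosen before `e1` -/
def Pm.ue1 (p : Pm) : Pm :=
  ⟨p.L, p.T, p.C, p.K, p.A, p.ch, p.d, p.k4, p.k2, p.k3, 0, 0, 0, 0, 0, 0, 0, 0, 0, 0, 0⟩

theorem ev_e1 {Q : Pm → ℝ → Prop} (h : ∀ q, ∀ᶠ x in 𝓝[>] 0, Q q x) :
    ∀ᶠ p in FF, Q p.ue1 p.e1 :=
  ev_iff.2 <| Eventually.of_forall fun L => Eventually.of_forall fun T => Eventually.of_forall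
    fun C => Eventually.of_forall fun K => Eventually.of_forall fun A => Eventually.of_forall fun
    ch => Eventually.of_forall fun d => Eventually.of_forall fun k4 => Eventually.of_forall fun
    k2 => Eventually.of_forall fun k3 => (h ⟨L, T, C, K, A, ch, d, k4, k2, k3, 0, 0, 0, 0, 0, 0,
    0, 0, 0, 0, 0⟩).mono fun _ hx => Eventually.of_forall fun _ => Eventually.of_forall fun _ =>
    Eventually.of_forall fun _ => Eventually.of_forall fun _ => Eventually.of_forall fun _ =>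
    Eventually.of_forall fun _ => Eventually.of_forall fun _ => Eventually.of_forall fun _ =>
    Eventually.of_forall fun _ => Eventually.of_forall fun _ => hx

/-- the parameters chosen before `Lp` -/
def Pm.uLp (p : Pm) : Pm :=
  ⟨p.L, p.T, p.C, p.K, p.A, p.ch, p.d, p.k4, p.k2, p.k3, p.e1, 0, 0, 0, 0, 0, 0, 0, 0, 0, 0⟩

theorem ev_Lp {Q : Pm → ℝ → Prop} (h : ∀ q, ∀ᶠ x in atTop, Q q x) :
    ∀ᶠ p in FF, Q p.uLp p.Lp :=
  ev_iff.2 <| Eventually.of_forall fun L => Eventually.of_forall fun T => Eventually.of_forall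
    fun C => Eventually.of_forall fun K => Eventually.of_forall fun A => Eventually.of_forall fun
    ch => Eventually.of_forall fun d => Eventually.of_forall fun k4 => Eventually.of_forall fun
    k2 => Eventually.of_forall fun k3 => Eventually.of_forall fun e1 => (h ⟨L, T, C, K, A, ch, d,
    k4, k2, k3, e1, 0, 0, 0, 0, 0, 0, 0, 0, 0, 0⟩).mono fun _ hx => Eventually.of_forall fun _ =>
    Eventually.of_forall fun _ => Eventually.of_forall fun _ => Eventually.of_forall fun _ =>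
    Eventually.of_forall fun _ => Eventually.of_forall fun _ => Eventually.of_forall fun _ =>
    Eventually.of_forall fun _ => Eventually.of_forall fun _ => hx

/-- the parameters chosen before `cv` -/
def Pm.ucv (p : Pm) : Pm :=
  ⟨p.L, p.T, p.C, p.K, p.A, p.ch, p.d, p.k4, p.k2, p.k3, p.e1, p.Lp, 0, 0, 0, 0, 0, 0, 0, 0, 0⟩

theorem ev_cv {Q : Pm → ℝ → Prop} (h : ∀ q, ∀ᶠ x in 𝓝[>] 0, Q q x) :
    ∀ᶠ p in FF, Q p.ucv p.cv :=
  ev_iff.2 <| Eventually.of_forall fun L => Eventually.of_forall fun T => Eventually.of_forall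
    fun C => Eventually.of_forall fun K => Eventually.of_forall fun A => Eventually.of_forall fun
    ch => Eventually.of_forall fun d => Eventually.of_forall fun k4 => Eventually.of_forall fun
    k2 => Eventually.of_forall fun k3 => Eventually.of_forall fun e1 => Eventually.of_forall fun
    Lp => (h ⟨L, T, C, K, A, ch, d, k4, k2, k3, e1, Lp, 0, 0, 0, 0, 0, 0, 0, 0, 0⟩).mono fun _ hx
    => Eventually.of_forall fun _ => Eventually.of_forall fun _ => Eventually.of_forall fun _ =>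
    Eventually.of_forall fun _ => Eventually.of_forall fun _ => Eventually.of_forall fun _ =>
    Eventually.of_forall fun _ => Eventually.of_forall fun _ => hx

/-- the parameters chosen before `B` -/
def Pm.uB (p : Pm) : Pm :=
  ⟨p.L, p.T, p.C, p.K, p.A, p.ch, p.d, p.k4, p.k2, p.k3, p.e1, p.Lp, p.cv, 0, 0, 0, 0, 0, 0, 0, 0⟩

theorem ev_B {Q : Pm → ℝ → Prop} (h : ∀ q, ∀ᶠ x in atTop, Q q x) :
    ∀ᶠ p in FF, Q p.uB p.B :=
  ev_iff.2 <| Eventually.of_forall fun L => Eventually.of_forall fun T => Eventually.of_forall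
    fun C => Eventually.of_forall fun K => Eventually.of_forall fun A => Eventually.of_forall fun
    ch => Eventually.of_forall fun d => Eventually.of_forall fun k4 => Eventually.of_forall fun
    k2 => Eventually.of_forall fun k3 => Eventually.of_forall fun e1 => Eventually.of_forall fun
    Lp => Eventually.of_forall fun cv => (h ⟨L, T, C, K, A, ch, d, k4, k2, k3, e1, Lp, cv, 0, 0,
    0, 0, 0, 0, 0, 0⟩).mono fun _ hx => Eventually.of_forall fun _ => Eventually.of_forall fun _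
    => Eventually.of_forall fun _ => Eventually.of_forall fun _ => Eventually.of_forall fun _ =>
    Eventually.of_forall fun _ => Eventually.of_forall fun _ => hx

/-- the parameters chosen before `t0` -/
def Pm.ut0 (p : Pm) : Pm :=
  ⟨p.L, p.T, p.C, p.K, p.A, p.ch, p.d, p.k4, p.k2, p.k3, p.e1, p.Lp, p.cv, p.B, 0, 0, 0, 0, 0, 0, 0⟩

theorem ev_t0 {Q : Pm → ℝ → Prop} (h : ∀ q, ∀ᶠ x in 𝓝[>] 0, Q q x) :
    ∀ᶠ p in FF, Q p.ut0 p.t0 :=
  ev_iff.2 <| Eventually.of_forall fun L => Eventually.of_forall fun T => Eventually.of_forall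
    fun C => Eventually.of_forall fun K => Eventually.of_forall fun A => Eventually.of_forall fun
    ch => Eventually.of_forall fun d => Eventually.of_forall fun k4 => Eventually.of_forall fun
    k2 => Eventually.of_forall fun k3 => Eventually.of_forall fun e1 => Eventually.of_forall fun
    Lp => Eventually.of_forall fun cv => Eventually.of_forall fun B => (h ⟨L, T, C, K, A, ch, d,
    k4, k2, k3, e1, Lp, cv, B, 0, 0, 0, 0, 0, 0, 0⟩).mono fun _ hx => Eventually.of_forall fun _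
    => Eventually.of_forall fun _ => Eventually.of_forall fun _ => Eventually.of_forall fun _ =>
    Eventually.of_forall fun _ => Eventually.of_forall fun _ => hx

/-- the parameters chosen before `K0` -/
def Pm.uK0 (p : Pm) : Pm :=
  ⟨p.L, p.T, p.C, p.K, p.A, p.ch, p.d, p.k4, p.k2, p.k3, p.e1, p.Lp, p.cv, p.B, p.t0, 0, 0, 0, 0, 0, 0⟩

theorem ev_K0 {Q : Pm → ℝ → Prop} (h : ∀ q, ∀ᶠ x in atTop, Q q x) :
    ∀ᶠ p in FF, Q p.uK0 p.K0 :=
  ev_iff.2 <| Eventually.of_forall fun L => Eventually.of_forall fun T => Eventually.of_forall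
    fun C => Eventually.of_forall fun K => Eventually.of_forall fun A => Eventually.of_forall fun
    ch => Eventually.of_forall fun d => Eventually.of_forall fun k4 => Eventually.of_forall fun
    k2 => Eventually.of_forall fun k3 => Eventually.of_forall fun e1 => Eventually.of_forall fun
    Lp => Eventually.of_forall fun cv => Eventually.of_forall fun B => Eventually.of_forall fun
    t0 => (h ⟨L, T, C, K, A, ch, d, k4, k2, k3, e1, Lp, cv, B, t0, 0, 0, 0, 0, 0, 0⟩).mono fun _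
    hx => Eventually.of_forall fun _ => Eventually.of_forall fun _ => Eventually.of_forall fun _
    => Eventually.of_forall fun _ => Eventually.of_forall fun _ => hx

/-- the parameters chosen before `B0` -/
def Pm.uB0 (p : Pm) : Pm :=
  ⟨p.L, p.T, p.C, p.K, p.A, p.ch, p.d, p.k4, p.k2, p.k3, p.e1, p.Lp, p.cv, p.B, p.t0, p.K0, 0, 0, 0, 0, 0⟩

theorem ev_B0 {Q : Pm → ℝ → Prop} (h : ∀ q, ∀ᶠ x in atTop, Q q x) :
    ∀ᶠ p in FF, Q p.uB0 p.B0 :=
  ev_iff.2 <| Eventually.of_forall fun L => Eventually.of_forall fun T => Eventually.of_forall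
    fun C => Eventually.of_forall fun K => Eventually.of_forall fun A => Eventually.of_forall fun
    ch => Eventually.of_forall fun d => Eventually.of_forall fun k4 => Eventually.of_forall fun
    k2 => Eventually.of_forall fun k3 => Eventually.of_forall fun e1 => Eventually.of_forall fun
    Lp => Eventually.of_forall fun cv => Eventually.of_forall fun B => Eventually.of_forall fun
    t0 => Eventually.of_forall fun K0 => (h ⟨L, T, C, K, A, ch, d, k4, k2, k3, e1, Lp, cv, B, t0,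
    K0, 0, 0, 0, 0, 0⟩).mono fun _ hx => Eventually.of_forall fun _ => Eventually.of_forall fun _
    => Eventually.of_forall fun _ => Eventually.of_forall fun _ => hx

/-- the parameters chosen before `ef` -/
def Pm.uef (p : Pm) : Pm :=
  ⟨p.L, p.T, p.C, p.K, p.A, p.ch, p.d, p.k4, p.k2, p.k3, p.e1, p.Lp, p.cv, p.B, p.t0, p.K0, p.B0, 0, 0, 0, 0⟩

theorem ev_ef {Q : Pm → ℝ → Prop} (h : ∀ q, ∀ᶠ x in 𝓝[>] 0, Q q x) :
    ∀ᶠ p in FF, Q p.uef p.ef :=
  ev_iff.2 <| Eventually.of_forall fun L => Eventually.of_forall fun T => Eventually.of_forall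
    fun C => Eventually.of_forall fun K => Eventually.of_forall fun A => Eventually.of_forall fun
    ch => Eventually.of_forall fun d => Eventually.of_forall fun k4 => Eventually.of_forall fun
    k2 => Eventually.of_forall fun k3 => Eventually.of_forall fun e1 => Eventually.of_forall fun
    Lp => Eventually.of_forall fun cv => Eventually.of_forall fun B => Eventually.of_forall fun
    t0 => Eventually.of_forall fun K0 => Eventually.of_forall fun B0 => (h ⟨L, T, C, K, A, ch, d,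
    k4, k2, k3, e1, Lp, cv, B, t0, K0, B0, 0, 0, 0, 0⟩).mono fun _ hx => Eventually.of_forall fun
    _ => Eventually.of_forall fun _ => Eventually.of_forall fun _ => hx

/-- the parameters chosen before `B2` -/
def Pm.uB2 (p : Pm) : Pm :=
  ⟨p.L, p.T, p.C, p.K, p.A, p.ch, p.d, p.k4, p.k2, p.k3, p.e1, p.Lp, p.cv, p.B, p.t0, p.K0, p.B0, p.ef, 0, 0, 0⟩

theorem ev_B2 {Q : Pm → ℝ → Prop} (h : ∀ q, ∀ᶠ x in atTop, Q q x) :
    ∀ᶠ p in FF, Q p.uB2 p.B2 :=
  ev_iff.2 <| Eventually.of_forall fun L => Eventually.of_forall fun T => Eventually.of_forall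
    fun C => Eventually.of_forall fun K => Eventually.of_forall fun A => Eventually.of_forall fun
    ch => Eventually.of_forall fun d => Eventually.of_forall fun k4 => Eventually.of_forall fun
    k2 => Eventually.of_forall fun k3 => Eventually.of_forall fun e1 => Eventually.of_forall fun
    Lp => Eventually.of_forall fun cv => Eventually.of_forall fun B => Eventually.of_forall fun
    t0 => Eventually.of_forall fun K0 => Eventually.of_forall fun B0 => Eventually.of_forall fun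
    ef => (h ⟨L, T, C, K, A, ch, d, k4, k2, k3, e1, Lp, cv, B, t0, K0, B0, ef, 0, 0, 0⟩).mono fun
    _ hx => Eventually.of_forall fun _ => Eventually.of_forall fun _ => hx

/-- the parameters chosen before `Cn` -/
def Pm.uCn (p : Pm) : Pm :=
  ⟨p.L, p.T, p.C, p.K, p.A, p.ch, p.d, p.k4, p.k2, p.k3, p.e1, p.Lp, p.cv, p.B, p.t0, p.K0, p.B0, p.ef, p.B2, 0, 0⟩

theorem ev_Cn {Q : Pm → ℝ → Prop} (h : ∀ q, ∀ᶠ x in atTop, Q q x) :
    ∀ᶠ p in FF, Q p.uCn p.Cn :=
  ev_iff.2 <| Eventually.of_forall fun L => Eventually.of_forall fun T => Eventually.of_forall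
    fun C => Eventually.of_forall fun K => Eventually.of_forall fun A => Eventually.of_forall fun
    ch => Eventually.of_forall fun d => Eventually.of_forall fun k4 => Eventually.of_forall fun
    k2 => Eventually.of_forall fun k3 => Eventually.of_forall fun e1 => Eventually.of_forall fun
    Lp => Eventually.of_forall fun cv => Eventually.of_forall fun B => Eventually.of_forall fun
    t0 => Eventually.of_forall fun K0 => Eventually.of_forall fun B0 => Eventually.of_forall fun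
    ef => Eventually.of_forall fun B2 => (h ⟨L, T, C, K, A, ch, d, k4, k2, k3, e1, Lp, cv, B, t0,
    K0, B0, ef, B2, 0, 0⟩).mono fun _ hx => Eventually.of_forall fun _ => hx

theorem ev_n {Q : Pm → Prop} (h : ∀ q : Pm, ∀ᶠ n in atTop, Q { q with n := n }) :
    ∀ᶠ p in FF, Q p :=
  ev_iff.2 <| Eventually.of_forall fun L => Eventually.of_forall fun T => Eventually.of_forall
    fun C => Eventually.of_forall fun K => Eventually.of_forall fun A => Eventually.of_forall fun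
    ch => Eventually.of_forall fun d => Eventually.of_forall fun k4 => Eventually.of_forall fun
    k2 => Eventually.of_forall fun k3 => Eventually.of_forall fun e1 => Eventually.of_forall fun
    Lp => Eventually.of_forall fun cv => Eventually.of_forall fun B => Eventually.of_forall fun
    t0 => Eventually.of_forall fun K0 => Eventually.of_forall fun B0 => Eventually.of_forall fun
    ef => Eventually.of_forall fun B2 => Eventually.of_forall fun Cn => h ⟨L, T, C, K, A, ch, d,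
    k4, k2, k3, e1, Lp, cv, B, t0, K0, B0, ef, B2, Cn, 0⟩


instance : FF.NeBot := ⟨fun h => by
  have h1 : Ev fun _ => False := ev_iff.1 (h ▸ eventually_bot)
  unfold Ev at h1
  iterate 21 obtain ⟨_, h1⟩ := h1.exists
  exact h1⟩

theorem ev_ge (a : ℝ) : ∀ᶠ x in atTop, a ≤ x := eventually_ge_atTop a

/-- a small positive parameter is below any positive number chosen before -/
theorem ev_sm (a : ℝ) : ∀ᶠ x in 𝓝[>] (0 : ℝ), 0 < x ∧ (0 < a → x ≤ a) := by
  by_cases h : 0 < a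
  · filter_upwards [Ioc_mem_nhdsGT h] with x hx using ⟨hx.1, fun _ => hx.2⟩
  · filter_upwards [self_mem_nhdsWithin] with x hx using ⟨hx, fun h' => absurd h' h⟩

/-- elementary relations between the constants (no `n`) -/
structure Pm.Ok (p : Pm) : Prop where
  L : 100 ≤ p.L
  T : 1 ≤ p.T
  C : 1 ≤ p.C
  K : 1 ≤ p.K
  A : 1 ≤ p.A
  ch : p.ch ∈ Ioc 0 (1 / 1000)
  d : p.d ∈ Ioc 0 (p.ch / 100)
  k4 : p.k4 ∈ Ioc 0 (p.d / 100)
  k2 : p.k2 ∈ Ioc 0 (p.k4 / 100)
  k3 : p.k3 ∈ Ioc 0 (p.k2 / 100)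
  e1 : p.e1 ∈ Ioc 0 (p.k3 / 100)
  Lp : 2 ≤ p.Lp
  Lp' : 2 * p.L ≤ p.e1 ^ p.A * p.Lp
  cv : 0 < p.cv
  cv' : p.A * p.cv ≤ p.k3 / 100
  B : p.K ≤ p.B
  t0 : p.t0 ∈ Ioc 0 (1 / 100)
  t0' : p.t0 ^ p.cv ≤ p.e1
  K0 : 1 ≤ p.K0
  B0 : p.B ≤ p.B0
  B0' : p.K0 ≤ p.B0
  ef : 0 < p.ef
  ef' : p.ef ≤ p.t0 ^ 2
  B2 : p.B0 ≤ p.B2
  Cn : 1 ≤ p.Cn

theorem ev_ok : ∀ᶠ p in FF, p.Ok := by
  filter_upwards [ev_L (Q := fun _ x => 100 ≤ x) fun _ => ev_ge _,
    ev_T (Q := fun _ x => 1 ≤ x) fun _ => ev_ge _, ev_C (Q := fun _ x => 1 ≤ x) fun _ => ev_ge _,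
    ev_K (Q := fun _ x => 1 ≤ x) fun _ => ev_ge _,
    ev_A (Q := fun _ x => 1 ≤ x) fun _ => eventually_ge_atTop _,
    ev_ch fun _ => ev_sm (1 / 1000), ev_d fun q => ev_sm (q.ch / 100),
    ev_k4 fun q => ev_sm (q.d / 100), ev_k2 fun q => ev_sm (q.k4 / 100),
    ev_k3 fun q => ev_sm (q.k2 / 100), ev_e1 fun q => ev_sm (q.k3 / 100),
    ev_Lp fun q => (ev_ge 2).and (ev_ge (2 * q.L / q.e1 ^ q.A)),
    ev_cv fun q => ev_sm (q.k3 / 100 / q.A), ev_B fun q => ev_ge q.K,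
    ev_t0 fun q => (ev_sm (1 / 100)).and (ev_sm (q.e1 ^ (1 / q.cv))),
    ev_K0 (Q := fun _ x => 1 ≤ x) fun _ => ev_ge _, ev_B0 fun q => (ev_ge q.B).and (ev_ge q.K0),
    ev_ef fun q => ev_sm (q.t0 ^ 2), ev_B2 fun q => ev_ge q.B0,
    ev_Cn (Q := fun _ x => 1 ≤ x) fun _ => ev_ge _]
    with p hL hT hC hK hA hch hd h4 h2 h3 h1 hp hv hB h0 hK0 hB0 hf hB2 hn
  have a1 : p.ch ∈ Ioc 0 (1 / 1000) := ⟨hch.1, hch.2 (by norm_num)⟩
  have a2 : p.d ∈ Ioc 0 (p.ch / 100) := ⟨hd.1, hd.2 (div_pos a1.1 (by norm_num))⟩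
  have a3 : p.k4 ∈ Ioc 0 (p.d / 100) := ⟨h4.1, h4.2 (div_pos a2.1 (by norm_num))⟩
  have a4 : p.k2 ∈ Ioc 0 (p.k4 / 100) := ⟨h2.1, h2.2 (div_pos a3.1 (by norm_num))⟩
  have a5 : p.k3 ∈ Ioc 0 (p.k2 / 100) := ⟨h3.1, h3.2 (div_pos a4.1 (by norm_num))⟩
  have a6 : p.e1 ∈ Ioc 0 (p.k3 / 100) := ⟨h1.1, h1.2 (div_pos a5.1 (by norm_num))⟩
  have hA' : (0 : ℝ) < p.A := by exact_mod_cast hA
  have a7 : p.cv ≤ p.k3 / 100 / p.A := hv.2 (div_pos (div_pos a5.1 (by norm_num)) hA')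
  have a8 : p.t0 ≤ p.e1 ^ (1 / p.cv) := h0.2.2 (Real.rpow_pos_of_pos a6.1 _)
  have a9 : 2 * p.L / p.e1 ^ p.A ≤ p.Lp := hp.2
  refine ⟨hL, hT, hC, hK, hA, a1, a2, a3, a4, a5, a6, hp.1, ?_, hv.1, ?_, hB, ⟨h0.1.1, h0.1.2
    (by norm_num)⟩, ?_, hK0, hB0.1, hB0.2, hf.1, hf.2 (pow_pos h0.1.1 2), hB2, hn⟩
  · rwa [div_le_iff₀' (pow_pos a6.1 _)] at a9
  · rwa [le_div_iff₀' hA'] at a7
  · refine (Real.rpow_le_rpow h0.1.1.le a8 hv.1.le).trans_eq ?_
    rw [← Real.rpow_mul a6.1.le, one_div_mul_cancel hv.1.ne', Real.rpow_one]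

namespace Pm

variable (p : Pm)

/-- ratio of one step -/
def eta : ℝ := 1 / (4 * p.K)
/-- `M(t) = n t^{3/2}` -/
def M (t : ℝ) : ℝ := p.n * t ^ (3 / 2 : ℝ)
/-- lower end `n^{-2/3+d}` -/
def lo : ℝ := (p.n : ℝ) ^ p.d / (p.n : ℝ) ^ (2 / 3 : ℝ)
/-- `t*` -/
def ts : ℝ := (p.n : ℝ) ^ (p.k4 - 1 / 2)
/-- `t**` -/
def tss : ℝ := (p.n : ℝ) ^ (-p.ch)
/-- start of the flat range: `L M(t2) = ef n / 2` -/
def t2 : ℝ := (p.ef / (2 * p.L)) ^ (2 / 3 : ℝ)
/-- crude level -/
def Hc (t : ℝ) : ℝ := min (p.L * p.M t) (p.ef * p.n * (1 + t))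
/-- sharp level -/
def Hs (e t : ℝ) : ℝ := min (e ^ p.A * p.M t) (p.ef * p.n * (1 + t))
/-- admissible loss: `exp (th t * H)` per step -/
def th (t : ℝ) : ℝ := if t < p.t2 then p.eta / 8 else p.eta * p.t2 / 8
/-- price of the cap -/
def pr (t : ℝ) : ℝ := if t < p.t2 then p.L * p.eta * p.M t / 4 else 0
/-- admissible errors of the sharp statement -/
def Er (e t : ℝ) : Prop := 0 < e ∧ e ≤ p.e1 ∧ t ^ p.cv ≤ e ∧ (p.n : ℝ) ^ (-p.cv) ≤ e

/-- the spectral event at time `t`, error `e` -/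
def Wt (e t : ℝ) : Set (Mx p.n) := {W | Cw.WW (min t p.t2) (e ^ p.A) p.k3 W}

/-- the constants of the crude `Good` (below the thresholds: trivial values) -/
def gc (t : ℝ) : Gs where
  K := p.K / t
  K2 := if p.tss ≤ t then p.K else if p.ts ≤ t then (p.n : ℝ) ^ p.k2 else 25 * p.n
  al := if p.tss ≤ t then p.n * t ^ (1 / 3 : ℝ) else 34 * (25 * p.n) ^ 2
  bb := if p.ts ≤ t then p.K * p.n * t else 34 * (25 * p.n) ^ 2
  r5 := p.K * p.M (max t p.ts)
  m5 := p.L / 10 * p.n * √t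

/-- crude `Good` -/
def Gc (t : ℝ) : Set (Mx p.n × V p.n) := {z | Gd (p.gc t) z.1 (ising z.1 z.2)}
/-- sharp `Good` -/
def Gsh (e t : ℝ) : Set (Mx p.n × V p.n) := {z | CB (ising z.1 z.2) sv ((1 + e) / t)}

/-! the a priori event -/

/-- envelope of `‖A C A‖` -/
def kk (t : ℝ) : ℝ := if p.tss ≤ t then 1 else (p.n : ℝ) ^ p.k2 * max 1 (p.ts / t) ^ (1 + p.k3)
/-- the constant of `k1, a1, b, c2`: independent of `t0` below `t0 / 2` -/
def Bt (t : ℝ) : ℝ := if t < p.t0 / 2 then p.B else p.B0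
/-- `a1 / n` -/
def al (t : ℝ) : ℝ := max t p.tss ^ (1 / 3 : ℝ)
/-- size of `s1 / n` -/
def s1 (t : ℝ) : ℝ := max t p.ts / t + p.kk t * p.al t

/-- the a priori constants (the centre is set by `Cs.ctr`) -/
def cq (t : ℝ) : Oo.Cs where
  a := 6
  k1 := p.Bt t / t
  k2 := p.B0 * p.kk t
  a1 := p.Bt t * p.n * p.al t
  b := p.Bt t * p.n * max t p.ts
  c2 := p.Bt t * p.n / √t
  N := p.B0 * p.kk t / t ^ (1 + p.k3)
  N' := p.B0 * p.kk t ^ 2 / t ^ (1 + p.k3)
  s1 := p.B0 * p.n * p.s1 t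
  s1' := p.B0 * p.n * (p.al t / t + p.kk t / √t)
  s2 := p.B0 * p.n * p.s1 t / t
  s2' := p.B0 * p.n * p.s1 t / t
  t4 := p.B0 * p.kk t / t ^ 3
  t3 := p.B0 * p.kk t / t ^ 2
  t3' := p.B0 / t ^ 3
  q4 := p.B0 * p.kk t ^ 2 / t ^ 2
  q3 := p.B0 * p.kk t ^ 2 / t
  q3' := p.B0 * p.kk t ^ 2 / t
  v4 := p.B0 / t ^ 2
  v4' := p.B0 * p.kk t ^ 2 / t ^ p.k3
  d0 := 0
  e0 := 0

end Pm

/-- every TAP solution in the field of `v` is close to the magnetisation -/
def Acc {n : ℕ} (M : ℝ) (W : Mx n) (v : Cube n → ℝ) : Prop :=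
  ∀ x, Ymap W 1 x = fld v → (meanV v sv - th x) ⬝ᵥ (meanV v sv - th x) ≤ M

namespace Pm

variable (p : Pm)

/-- **the a priori event** at time `t` -/
def AP (t : ℝ) : Set (Mx p.n × V p.n) := {z |
  AQ (p.cq t) (p.L ^ 2 * t / 100) (p.Bt t * p.M (max t p.ts)) (p.Bt t * p.n * √t) z.1
    (ising z.1 z.2) ∧
  (p.t2 ≤ t → Acc p.B2 z.1 (ising z.1 z.2)) ∧ (p.t0 / 2 ≤ t → Acc p.K0 z.1 (ising z.1 z.2))}

/-- output of the start on `[t0 / 2, T + 1]` -/
def S0 (s : ℝ) (W : Mx p.n) (v : Cube p.n → ℝ) : Prop := CB v sv p.K0 ∧ (s ≤ p.t0 → Acc p.K0 W v) ∧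
  (Az 2 W *ᵥ meanV v sv - fld v) ⬝ᵥ (Az 2 W *ᵥ meanV v sv - fld v) ≤ p.K0 * p.n
/-- output of the start on the flat range `[t2, t0]` -/
def S2 (W : Mx p.n) (v : Cube p.n → ℝ) : Prop := CB v sv p.B2 ∧ Acc p.B2 W v

/-- the tests that are allowed at time `t` -/
def TA (t : ℝ) (τ : Tst p.n) : Prop :=
  (τ.s ∈ Icc (t * (1 + p.eta)) p.t0 ∧ τ.lam = Real.exp (-p.pr t) ∧ τ.P = Gd (p.gc τ.s)) ∨
  (τ.lam = 1 ∧ (
    (τ.s ∈ Icc (p.Lp * t) p.t0 ∧ τ.P = fun _ v => CB v sv ((1 + p.e1) / τ.s)) ∨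
    (τ.s ∈ Icc (max t (p.t0 / 2)) (p.T + 1) ∧ τ.P = p.S0 τ.s) ∨
    (τ.s = p.T ∧ τ.P = fun _ v => Top.Poin v p.K0) ∨
    (p.t2 ≤ t ∧ τ.s ∈ Icc t p.t0 ∧ τ.P = p.S2)))

/-- planted probability of the failure of `G` at time `t` on the event `W` is at most `exp (-H)` -/
def Lev (t : ℝ) (W : Set (Mx p.n)) (G : Set (Mx p.n × V p.n)) (H : ℝ) : Prop :=
  JP t p.n {z | z.1 ∈ W ∧ z ∉ G} ≤ ENNReal.ofReal (Real.exp (-H))

end Pm

/-- a first-moment event -/
abbrev Bad (n : ℕ) : Type := V n → Mx n → Cube n → Prop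

/-- the first-moment events: crude `c p t`, sharp `s p e t` -/
structure Base where
  c : ∀ p : Pm, ℝ → Bad p.n
  s : ∀ p : Pm, ℝ → ℝ → Bad p.n

/-- what section 2 delivers for one event -/
structure Kb {n : ℕ} (t : ℝ) (W : Set (Mx n)) (B : Bad n) (H N : ℝ) : Prop where
  mB : ∀ s, MeasurableSet {z : V n × Mx n | B z.1 z.2 s}
  neg : ∀ x, ∀ W' ∈ W, W'ᵀ = W' → Kp.dt x W' < 0 → ∀ s, B x W' s
  er : Kp.Er t Kp.cx W ≤ ENNReal.ofReal N
  pt : Kp.PtE t Kp.cx W B ≤ ENNReal.ofReal (Real.exp (-(9 * H)))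

/-! ### leaves -/

/-- the spectral event is measurable, invariant, monotone -/
def WStmt : Prop := ∀ (n : ℕ) (κ e t : ℝ), 0 < e → 0 < t →
  MeasurableSet {W : Mx n | Cw.WW t e κ W} ∧
  (∀ O W : Mx n, O * Oᵀ = 1 → Cw.WW t e κ W → Cw.WW t e κ (O * W * Oᵀ)) ∧
  ∀ e' t', e ≤ e' → t ≤ t' → ∀ W : Mx n, Cw.WW t e κ W → Cw.WW t' e' κ W

/-- the finest spectral event is typical -/
def WhpStmt : Prop := ∀ κ > (0 : ℝ), ∀ d ∈ Ioo (0 : ℝ) (1 / 10), Top.Whp GOE fun n W =>
  Cw.WW ((n : ℝ) ^ d / (n : ℝ) ^ (2 / 3 : ℝ)) ((n : ℝ) ^ (-(d / 2))) κ W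

/-- the good events are measurable -/
def GmStmt : Prop := ∀ (n : ℕ) (g : Gs) (k : ℝ),
  MeasurableSet {z : Mx n × V n | Gd g z.1 (ising z.1 z.2)} ∧
  MeasurableSet {z : Mx n × V n | CB (ising z.1 z.2) sv k}

/-- **section 1** -/
def Pack : Prop := ∀ᶠ p in FF, ∀ t ∈ Icc p.lo p.t0, ∃ I : Finset (Tst p.n),
  (I.card : ℝ) ≤ (p.n : ℝ) ^ 4 ∧ (∀ τ ∈ I, p.TA t τ) ∧ ∀ W ∈ p.Wt p.e1 t, ∀ y,
    FG I W ((p.n : ℝ) ^ (-p.Cn)) t (ising W y) → (W, y) ∈ p.AP t

/-- **the start** -/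
def Start : Prop := ∀ᶠ p in FF,
  (∀ s ∈ Icc (p.t0 / 2) (p.T + 1),
    p.Lev s (p.Wt p.e1 p.t2) {z | p.S0 s z.1 (ising z.1 z.2)} (3 * p.ef * p.n)) ∧
  p.Lev p.T (p.Wt p.e1 p.t2) {z | Top.Poin (ising z.1 z.2) p.K0} (3 * p.ef * p.n) ∧
  ∀ s ∈ Icc p.t2 p.t0, p.Lev s (p.Wt p.e1 p.t2) {z | p.S2 z.1 (ising z.1 z.2)} (3 * p.ef * p.n)

/-- **section 2** -/
def KbC (β : Base) : Prop := ∀ᶠ p in FF, ∀ t ∈ Icc p.lo p.t0,
  Kb t (p.Wt p.e1 t) (β.c p t) (p.Hc t) ((p.n : ℝ) ^ p.Cn)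
def KbS (β : Base) : Prop := ∀ᶠ p in FF, ∀ t ∈ Icc p.lo p.t0, ∀ e, p.Er e t →
  Kb t (p.Wt e t) (β.s p e t) (p.Hs e t) ((p.n : ℝ) ^ p.Cn)

/-- **sections 3-6**, crude -/
def OrbC (β : Base) : Prop := ∀ᶠ p in FF, ∀ t ∈ Icc p.lo p.t0,
  Kp.OH (p.Wt p.e1 t) (β.c p t) (p.Gc t) (p.AP t) (p.Hc t)
    (Real.exp (p.th t * p.Hc t / 2)) (Real.exp (p.th t * p.Hc t / 2))
/-- **sections 3-6**, sharp -/
def OrbS (β : Base) : Prop := ∀ᶠ p in FF, ∀ t ∈ Icc p.lo p.t0, ∀ e, p.Er e t →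
  Kp.OH (p.Wt e t) (β.s p e t) (p.Gsh e t) (p.AP t) (p.Hs e t)
    (Real.exp (p.th t * p.Hs e t / 2)) (Real.exp (p.th t * p.Hs e t / 2))

/-- **the joint planted theorem** -/
def Thm : Prop := ∀ᶠ p in FF, ∀ t ∈ Icc p.lo p.t0,
  p.Lev t (p.Wt p.e1 t) (p.AP t) (p.Hc t) ∧ p.Lev t (p.Wt p.e1 t) (p.Gc t) (p.Hc t) ∧
    ∀ e, p.Er e t → p.Lev t (p.Wt e t) (p.Gsh e t) (p.Hs e t)

/-- the induction -/
def IndGlue : Prop := WStmt → GmStmt → Kp.StepStmt → Pack → Start →
  ∀ β : Base, KbC β → KbS β → OrbC β → OrbS β → Thm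

end Crest.Agent.T157.O0

end
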