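import Crest.Agent.T157.QeDef_24
import Crest.Agent.T157.Deg_59

/-!
# Row 157, part A2, section 2 (helper24): Kac-Rice measures, base events, positivity of the Hessian

Gauge `s = 1`.  Text: `docs/T157_W24.md` sections 0-3, 5 and the task bodies.
`q = aS x`, `a = bS x`, `ga = q + t`, `mu = a + t`.
-/

set_option autoImplicit false

noncomputable section

namespace Crest.Agent.T157.Kb

open MeasureTheory Matrix Set Filter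
open scoped ENNReal
open Crest.Agent.T157.E Crest.Agent.T157.Cond Crest.Agent.T157.Tap
open Crest.Agent.T157.Qe (Le R1 bv Wm Mm St Dv WS FS P3 Sg Tm zz gg uu)
open Crest.Agent.T157.Conc (ex)

variable {n : ℕ}

/-! ### the measures -/

def nuW (t : ℝ) (z : V n × Mx n) : ℝ≥0∞ := ex ((1 : V n) ⬝ᵥ z.2 *ᵥ 1 / 2 - n / 4) *
  ENNReal.ofReal (Kr.phi t (Ymap z.2 1 z.1 - t • (1 : V n)))
def cX (x : V n) : ℝ≥0∞ := ex (n * (1 - aS x) ^ 2 / 2)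
def Pt (t : ℝ) (F : V n × Mx n → ℝ≥0∞) : ℝ≥0∞ :=
  ∫⁻ x, ∫⁻ W, nuW t (x, W) * cX x * F (x, W) ∂GOE n
def KR (t : ℝ) (F : V n × Mx n → ℝ≥0∞) : ℝ≥0∞ :=
  ∫⁻ x, ∫⁻ W, nuW t (x, W) * ENNReal.ofReal |(Deg.DY W 1 x).det| * F (x, W) ∂GOE n
/-- the planted law of `(W, y)` -/
def Pl (n : ℕ) (t : ℝ) (E : Set (Mx n × V n)) : ℝ≥0∞ := ((GOE n).prod (gv (Fin n)))
  {z | (plW 1 z.1 1, t • (1 : V n) + Real.sqrt t • z.2) ∈ E}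

def ga (t : ℝ) (x : V n) : ℝ := aS x + t
def mu (t : ℝ) (x : V n) : ℝ := bS x + t
def ww (t : ℝ) (x : V n) : ℝ := avg (fun i => th x i * (x i - mu t x)) - ga t x * (1 - aS x)
def Wt (t : ℝ) (x : V n) : ℝ := ww t x ^ 2 / (2 * ga t x * (ga t x + aS x))
def rho (t : ℝ) (x : V n) : ℝ :=
  Kr.phi (ga t x) (x - mu t x • (1 : V n)) * Real.exp (n * Wt t x)
/-- the marginal of `x` (up to a factor in `[2^{-1/2}, 1]`) -/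
def Px (t : ℝ) (E : Set (V n)) : ℝ≥0∞ := ∫⁻ x in E, ENNReal.ofReal (rho t x)

def ee (x : V n) : V n := unitv (th x)
def tau (x : V n) : V n := bv (ee x) 1
def mb (t : ℝ) (x : V n) : V n := (len (th x))⁻¹ •
  ((aS x / ga t x) • bv (ee x) x + (t * (bS x - aS x) / ga t x) • tau x)
def ec (t : ℝ) (x : V n) : ℝ := 2 * (1 - aS x) + 2 * ww t x / (t + 2 * aS x) + bS x ^ 2 / aS x
/-- the column `W e` given `x` -/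
def col (t : ℝ) (x η : V n) : V n := mb t x + Real.sqrt (t / (ga t x * n)) • bv (ee x) η +
  (ec t x + Real.sqrt (2 * t / ((t + 2 * aS x) * n)) * (ee x ⬝ᵥ η)) • ee x

/-- **exact disintegration of `Pt`** -/
def MargStmt : Prop := ∀ (n : ℕ) (t : ℝ) (F : V n × Mx n → ℝ≥0∞), 0 < n → 0 < t → Measurable F →
  Pt t F = ∫⁻ x, ENNReal.ofReal (Real.sqrt (ga t x / (ga t x + aS x)) * rho t x) *
    ∫⁻ η, ∫⁻ W, F (x, Wm (ee x) (col t x η) (tau x) W) ∂GOE n ∂gv (Fin n)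

/-- conditional second moment of the Jacobian -/
def DetStmt : Prop := ∃ C : ℕ, ∀ (n : ℕ) (x c τ : V n), 2 ≤ n → th x ≠ 0 → τ ⬝ᵥ τ ≤ n →
  ee x ⬝ᵥ τ = 0 → ∫⁻ W, ENNReal.ofReal ((Deg.DY (Wm (ee x) c τ W) 1 x).det ^ 2) ∂GOE n ≤
    ex (C * Real.log n + n * (1 - aS x) ^ 2) * ENNReal.ofReal ((1 + c ⬝ᵥ c) ^ C)

def AllStmt : Prop := ∃ t0 > (0 : ℝ), ∃ C : ℕ, ∀ (n : ℕ) (t : ℝ), C ≤ n → t ∈ Icc (1 / (n : ℝ)) t0 →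
  Px t (univ : Set (V n)) ≤ ex (C * Real.log n)

/-- the normalised second moment of the Jacobian under `Pt` -/
def ErStmt : Prop := ∃ t0 > (0 : ℝ), ∃ C : ℕ, ∀ (n : ℕ) (t : ℝ) (B : Set (V n × Mx n)), C ≤ n →
  t ∈ Icc (1 / (n : ℝ)) t0 → MeasurableSet B →
  (∀ z ∈ B, (z.2 *ᵥ ee z.1) ⬝ᵥ (z.2 *ᵥ ee z.1) ≤ 16) →
  Pt t (B.indicator fun z => 1 + ENNReal.ofReal ((Deg.DY z.2 1 z.1).det ^ 2 /
    Real.exp (n * (1 - aS z.1) ^ 2 / 2) ^ 2)) ≤ ex (C * Real.log n)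

/-- **first moments**: `KR ≤ poly Pt^{1/2}` -/
def KrStmt : Prop := ∃ t0 > (0 : ℝ), ∃ C : ℕ, ∀ (n : ℕ) (t : ℝ) (B : Set (V n × Mx n)), C ≤ n →
  t ∈ Icc (1 / (n : ℝ)) t0 → MeasurableSet B →
  (∀ z ∈ B, (z.2 *ᵥ ee z.1) ⬝ᵥ (z.2 *ᵥ ee z.1) ≤ 16) →
  KR t (B.indicator 1) ≤ ex (C * Real.log n) * Pt t (B.indicator 1) ^ (1 / 2 : ℝ)

def KrGlue : Prop := MargStmt → DetStmt → AllStmt → ErStmt ∧ KrStmt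

/-- area formula and (DEG) for the planted law -/
def AreaStmt : Prop := ∀ (n : ℕ) (t : ℝ), 0 < n → 0 < t →
  (∀ B : Set (V n × Mx n), MeasurableSet B →
    Pl n t {z | ∃ x, (x, z.1) ∈ B ∧ Ymap z.1 1 x = z.2} ≤ KR t (B.indicator 1)) ∧
  ∀ E : Set (Mx n × V n), MeasurableSet E →
    Pl n t E ≤ KR t ({z : V n × Mx n | (z.2, Ymap z.2 1 z.1) ∈ E}.indicator 1) ∧
    KR t ({z : V n × Mx n | (z.2, Ymap z.2 1 z.1) ∈ E}.indicator 1) ≤ Pl n t E + 2 * KR t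
      ({z : V n × Mx n | (z.2, Ymap z.2 1 z.1) ∈ E ∧ (Deg.DY z.2 1 z.1).det < 0}.indicator 1)

/-! ### product tilts -/

def R3 (x : V n) : ℝ := avg (x - th x)
def R4 (x : V n) : ℝ := avg fun i => th x i * (x i - th x i)
def M2 (t : ℝ) (x : V n) : ℝ := avg fun i => (x i - mu t x) ^ 2
def uR (t : ℝ) (x : V n) : ℝ := ww t x / (ga t x + aS x)
def dR (t : ℝ) (x : V n) : ℝ := R3 x - t - uR t x * bS x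
def hh (u : ℝ) : ℝ := Real.log (1 - u) + u + u ^ 2 / 2
/-- logarithm of the Ramer sub-probability density -/
def gR (m v u x : ℝ) : ℝ := -(x - u * Real.tanh x - m) ^ 2 / (2 * v) -
  Real.log (2 * Real.pi * v) / 2 + (1 - Real.tanh x ^ 2) * Real.log (1 - u)
def PR (m v u : ℝ) (F : V n → ℝ≥0∞) : ℝ≥0∞ := ∫⁻ x, ex (∑ i, gR m v u (x i)) * F x

/-- exact identities -/
def IdStmt : Prop := ∀ (n : ℕ) (t : ℝ) (x : V n), 0 < n → 0 < t →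
  ww t x = R4 x + ga t x * aS x - t - mu t x * bS x ∧
  (∀ v > (0 : ℝ), rho t x = Real.exp (∑ i, gR (mu t x) v 0 (x i) + n * (Wt t x -
    M2 t x / (2 * ga t x) + M2 t x / (2 * v) + Real.log (v / ga t x) / 2))) ∧
  (uR t x < 1 → ∀ y : ℝ, rho t x = Real.exp (∑ i, gR (mu t x + y) (ga t x) (uR t x) (x i) -
    n * (aS x * uR t x ^ 2 / 2 + (1 - aS x) * hh (uR t x) + y * (2 * dR t x - y) / (2 * ga t x))))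

/-- Ramer and Chernoff -/
def ChStmt : Prop := (∀ m v u : ℝ, 0 < v → u < 1 → ∫⁻ x, ex (gR m v u x) ≤ 1) ∧
  ∀ (n : ℕ) (m v u L : ℝ) (f : ℝ → ℝ), Measurable f → ∫⁻ x, ex (gR m v u x + f x) ≤ ex L →
    PR m v u (fun x : V n => ex (∑ i, f (x i))) ≤ ex (n * L)

/-- `(m0, v0, u0)` is a grid point for `(m, v, u)` -/
def Cl (n : ℕ) (m v u m0 v0 u0 : ℝ) : Prop := |m - m0| ≤ v / n ^ 2 ∧ v ≤ v0 ∧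
  v0 ≤ v * (1 + 2 / n) ∧ u - v / n ^ 2 ≤ u0 ∧ u0 ≤ u ∧ (u = 0 → u0 = 0)

/-- **the grid lemma** -/
def GridStmt : Prop := ∃ C : ℕ, ∀ (n : ℕ) (f : V n → ℝ≥0∞) (F : ℝ → ℝ → ℝ → V n → ℝ≥0∞)
    (b : ℝ≥0∞), 2 ≤ n → (∀ m v u, Measurable (F m v u)) →
  (∀ m v u : ℝ, 0 < v → u ≤ 1 / 2 → PR m v u (F m v u) ≤ b) →
  (∀ x, f x ≠ 0 → ∃ m v u : ℝ, |m| ≤ 4 ∧ v ∈ Icc (1 / (n : ℝ)) 20 ∧ u ∈ Icc (-2 : ℝ) (1 / 2) ∧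
    ∀ m0 v0 u0, Cl n m v u m0 v0 u0 → f x ≤ ex (∑ i, gR m v u (x i)) * F m0 v0 u0 x) →
  ∫⁻ x, f x ≤ ex (C * Real.log n) * b

/-- **the tilt lemma**: every event below is one deterministic inequality plus one mgf -/
def TiltStmt : Prop := ∃ C : ℕ, ∀ (n : ℕ) (t R : ℝ) (E : Set (V n)) (Y : ℝ → ℝ → ℝ → ℝ → ℝ),
  2 ≤ n → MeasurableSet E → (∀ m v u, Measurable (Y m v u)) →
  (∀ x ∈ E, ∃ m v u g : ℝ, |m| ≤ 4 ∧ v ∈ Icc (1 / (n : ℝ)) 20 ∧ u ∈ Icc (-2 : ℝ) (1 / 2) ∧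
    rho t x ≤ Real.exp (∑ i, gR m v u (x i) + g) ∧ ∀ m0 v0 u0, Cl n m v u m0 v0 u0 →
      ∃ Λ : ℝ, ∫⁻ y, ex (gR m0 v0 u0 y + Y m0 v0 u0 y) ≤ ex Λ ∧
        g + n * Λ + R ≤ ∑ i, Y m0 v0 u0 (x i)) →
  Px t E ≤ ex (C * Real.log n - R)

def TiltGlue : Prop := ChStmt → GridStmt → TiltStmt

def C4Stmt : Prop := ∃ C : ℝ, ∀ m v : ℝ, 0 < v → v ≤ 1 → m ^ 2 ≤ 3 * v →
  ∫⁻ x, ex (gR m v 0 x + 3 / (2 * v) * (Real.tanh x * (x - Real.tanh x))) ≤ ex (C * v)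

/-- moment generating functions under the Ramer law -/
def MgfStmt : Prop := ∃ C ≥ (1 : ℝ), ∀ K ≥ (1 : ℝ), ∀ (m v u : ℝ) (Y : ℝ → ℝ), 0 < v →
  C * K ^ 2 * v ≤ 1 → |m| ≤ K * v → |u| ≤ K * v → Measurable Y →
  (∀ x, |Y x| ≤ (x ^ 2 + v) / (64 * v)) →
  ∫⁻ x, ex (gR m v u x + Y x) ≤ ex (gE Y (m / (1 - u)) (v / (1 - u) ^ 2) +
    2 * gE (fun x => Y x ^ 2 * Real.exp (x ^ 2 / (16 * v))) (m / (1 - u)) (v / (1 - u) ^ 2) +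
      C * K ^ 2 * v ^ 4) ∧
  ∀ (B : ℝ) (j : ℕ), 0 ≤ B → j ≤ 8 → (∀ x, Y x ^ 2 ≤ B * (x ^ 2 + v) ^ j) →
    gE (fun x => Y x ^ 2 * Real.exp (x ^ 2 / (16 * v))) (m / (1 - u)) (v / (1 - u) ^ 2) ≤
      C * B * v ^ j

/-- Gaussian means -/
def MomStmt : Prop := ∃ C ≥ (1 : ℝ), ∀ K ≥ (1 : ℝ), ∀ m v : ℝ, 0 < v → K ^ 2 * v ≤ 1 →
  |m| ≤ K * v →
  |gE Real.tanh m v - m| ≤ C * K * v ^ 2 ∧
  |gE (fun x => Real.tanh x ^ 2) m v - (v + m ^ 2 - 2 * v ^ 2)| ≤ C * K ^ 2 * v ^ 3 ∧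
  |gE (fun x => Real.tanh x ^ 3) m v - 3 * m * v| ≤ C * K ^ 3 * v ^ 3 ∧
  |gE (fun x => Real.tanh x ^ 4) m v - (3 * v ^ 2 + 6 * m ^ 2 * v - 20 * v ^ 3)| ≤
    C * K ^ 4 * v ^ 4 ∧
  |gE (fun x => Real.tanh x ^ 6) m v - 15 * v ^ 3| ≤ C * K ^ 2 * v ^ 4 ∧
  gE (fun x => min (x ^ 8) (x ^ 2)) m v ≤ C * v ^ 4 ∧
  |gE (fun x => x - Real.tanh x) m v - m * v| ≤ C * K ^ 3 * v ^ 3 ∧
  |gE (fun x => Real.tanh x * (x - Real.tanh x)) m v - v ^ 2| ≤ C * K ^ 2 * v ^ 3 ∧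
  ∀ l : ℝ, gE (fun x => if l * v ≤ 16 * x ^ 2 then Real.exp (x ^ 2 / (4 * v)) else 0) m v ≤
    C * Real.exp (-l / 128)

/-! ### (B1), (B2) -/

/-- the core cell -/
structure Co (K e t : ℝ) (x : V n) : Prop where
  q1 : t ≤ K * aS x ^ 2
  q2 : aS x ^ 2 ≤ K * t
  a1 : |bS x| ≤ K * aS x
  u1 : |uR t x| ≤ K * aS x
  d1 : |dR t x| ≤ K * aS x ^ 2
  r4 : |R4 x - aS x ^ 2| ≤ e * aS x ^ 2
  r3 : |R3 x - bS x * aS x| ≤ e * aS x ^ 2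

/-- the moments -/
structure XM (e : ℝ) (x : V n) : Prop where
  p3 : (avg (fun i => th x i ^ 3) - 3 * bS x * aS x) ^ 2 ≤ aS x ^ 5
  p4 : |avg (fun i => th x i ^ 4) - 3 * aS x ^ 2 + 8 * aS x ^ 3| ≤ e * aS x ^ 3
  p6 : |avg (fun i => th x i ^ 6) - 15 * aS x ^ 3| ≤ e * aS x ^ 3
  e8 : avg (fun i => min (x i ^ 8) (x i ^ 2)) ≤ e * aS x ^ 3

def HiStmt : Prop := ∃ C : ℕ, ∀ (n : ℕ) (t : ℝ), C ≤ n → t ∈ Icc (1 / (n : ℝ)) 1 →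
  Px t {x : V n | 3 * ga t x ≤ ww t x} ≤ ex (C * Real.log n - n / 2)

def LgStmt : Prop := ∀ q1 > (0 : ℝ), ∃ κ > (0 : ℝ), ∃ t0 > (0 : ℝ), ∃ C : ℕ, ∀ (n : ℕ) (t : ℝ),
  C ≤ n → t ∈ Icc (1 / (n : ℝ)) t0 → Px t {x : V n | q1 ≤ aS x} ≤ ex (C * Real.log n - κ * n)

def HiGlue : Prop := IdStmt → ChStmt → TiltStmt → HiStmt

def LgGlue : Prop := IdStmt → ChStmt → TiltStmt → HiStmt → LgStmt

/-- events killed by the quartic tilt -/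
def EvA : Prop := ∃ A ≥ (1 : ℝ), ∃ c1 > (0 : ℝ), ∀ B ≥ (1 : ℝ), ∃ q1 > (0 : ℝ), ∃ C : ℕ,
  ∀ (n : ℕ) (t : ℝ), C ≤ n → t ∈ Icc (1 / (n : ℝ)) q1 →
  Px t {x : V n | aS x ≤ q1 ∧ ww t x ≤ 3 * ga t x ∧ (A * ga t x ^ 2 ≤ ww t x ∨
    (|ww t x| ≤ B * ga t x ^ 2 ∧ A * ga t x ^ 2 ≤ R4 x) ∨
    (aS x ^ 2 ≤ c1 * t ∧ -(t / 2) ≤ ww t x ∧ ww t x ≤ A * ga t x ^ 2))} ≤
    ex (C * Real.log n - n * t)

/-- events killed by the Ramer tilt -/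
def EvB : Prop := ∃ C : ℕ, ∀ (n : ℕ) (t R : ℝ), 2 ≤ n → t ∈ Icc (1 / (n : ℝ)) 1 →
  Px t {x : V n | aS x ≤ 1 / 2 ∧ ww t x ≤ 0 ∧
    R ≤ n * (aS x * uR t x ^ 2 / 2 + |uR t x| ^ 3 / 18)} ≤ ex (C * Real.log n - R) ∧
  Px t {x : V n | aS x ≤ 1 / 11 ∧ R4 x ≤ 11 / 10 * aS x ^ 2 ∧ |mu t x + dR t x| ≤ 4 ∧
    R ≤ n * (aS x * uR t x ^ 2 / 20 + dR t x ^ 2 / (2 * ga t x))} ≤ ex (C * Real.log n - R)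

/-- `R4` and `R3` -/
def EvR : Prop := ∀ B ≥ (1 : ℝ), ∃ c > (0 : ℝ), ∃ C : ℕ, ∀ (n : ℕ) (t e : ℝ), C ≤ n →
  1 / (n : ℝ) ≤ t → e ∈ Ioc (0 : ℝ) 1 →
  Px t {x : V n | t ≤ B * aS x ^ 2 ∧ aS x ≤ c * e ^ 2 ∧ |ww t x| ≤ B * ga t x ^ 2 ∧
    |bS x| ≤ B * ga t x ∧ ¬ (|R4 x - aS x ^ 2| ≤ e * aS x ^ 2 ∧
      |R3 x - bS x * aS x| ≤ e * aS x ^ 2)} ≤ ex (C * Real.log n - c * e ^ 2 * n * Real.sqrt t)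

def EvAGlue : Prop := IdStmt → TiltStmt → C4Stmt → EvA
def EvRGlue : Prop := IdStmt → TiltStmt → MgfStmt → MomStmt → EvR

/-- **(B1), crude** -/
def B1Stmt : Prop := ∀ L > (0 : ℝ), ∃ K ≥ (1 : ℝ), ∃ c > (0 : ℝ), ∃ C : ℕ, ∀ (n : ℕ) (t e : ℝ),
  C ≤ n → 1 / (n : ℝ) ≤ t → e ∈ Ioc (0 : ℝ) 1 → Real.sqrt t ≤ c * e ^ 2 →
  Px t {x : V n | ¬ Co K e t x} ≤ ex (C * Real.log n - L * n * (t * Real.sqrt t))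

def B1Glue : Prop := IdStmt → HiStmt → LgStmt → EvA → EvB → EvR → B1Stmt

/-- the Ramer tilt on the core cell -/
def NetStmt : Prop := ∀ K ≥ (1 : ℝ), ∃ c > (0 : ℝ), ∀ (n : ℕ) (t e : ℝ) (x : V n), 0 < n → 0 < t →
  Real.sqrt t ≤ c → e ≤ 1 / 10 → Co K e t x →
  |mu t x + dR t x| ≤ 3 * K * ga t x ∧ 3 * K * ga t x ≤ 1 / 2 ∧
  rho t x ≤ Real.exp (∑ i, gR (mu t x + dR t x) (ga t x) (uR t x) (x i) -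
    n * (aS x * uR t x ^ 2 / 20 + dR t x ^ 2 / (2 * ga t x)))

/-- **(B1), sharp** -/
def B1sStmt : Prop := ∀ K ≥ (1 : ℝ), ∃ c > (0 : ℝ), ∃ C : ℕ, ∀ (n : ℕ) (t e ε : ℝ),
  C ≤ n → 1 / (n : ℝ) ≤ t → ε ∈ Ioc (0 : ℝ) 1 → e ≤ c * ε → Real.sqrt t ≤ c * ε →
  Px t {x : V n | Co K e t x ∧ ¬ (|aS x ^ 2 - t| ≤ ε * t ∧ |bS x - aS x| ≤ ε * aS x)} ≤
    ex (C * Real.log n - c * ε ^ 2 * n * (t * Real.sqrt t))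

def NetGlue : Prop := IdStmt → ChStmt → TiltStmt → NetStmt ∧ EvB ∧ (B1Stmt → AllStmt)

def B1sGlue : Prop := IdStmt → EvB → B1sStmt

/-- **(B2)** -/
def B2Stmt : Prop := ∀ K ≥ (1 : ℝ), ∃ c > (0 : ℝ), ∃ C : ℕ, ∀ (n : ℕ) (t e : ℝ),
  C ≤ n → 1 / (n : ℝ) ≤ t → e ∈ Ioc (0 : ℝ) (1 / 10) → Real.sqrt t ≤ c * e →
  Px t {x : V n | Co K e t x ∧ ¬ XM e x} ≤ ex (C * Real.log n - c * e ^ 2 * n * t)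

/-- few large sites -/
def CntStmt : Prop := ∀ K ≥ (1 : ℝ), ∃ c > (0 : ℝ), ∃ C : ℕ, ∀ (n : ℕ) (t e l k : ℝ),
  C ≤ n → 1 / (n : ℝ) ≤ t → e ≤ 1 / 10 → Real.sqrt t ≤ c → C * Real.log n ≤ l →
  Px t {x : V n | Co K e t x ∧ k ≤ (Finset.univ.filter fun i => l * aS x ≤ th x i ^ 2).card} ≤
    ex (C * Real.log n + C * n * t ^ 2 - c * l * k)

def B2Glue : Prop := TiltStmt → MgfStmt → MomStmt → NetStmt → B2Stmt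

def CntGlue : Prop := TiltStmt → MgfStmt → MomStmt → NetStmt → CntStmt

/-! ### positivity of the Hessian -/

def phS (S : Finset (Fin n)) (x : V n) : V n := fun i =>
  if i ∈ S then 0 else min (Real.sinh (x i) ^ 2) 1
def Dk (k d0 : ℝ) (S : Finset (Fin n)) (x : V n) : V n := fun i =>
  k * (phS S x i - aS x / (1 - aS x)) + d0

/-- the statistics of the mean column -/
structure MD (C e t : ℝ) (D : V n) (β : ℝ) (x : V n) : Prop where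
  q0 : 0 < aS x
  t1 : t ≤ C * aS x ^ 2
  t2 : aS x ^ 2 ≤ C * t
  b0 : 0 ≤ β
  b1 : β ≤ 1
  d1 : (1 - e) * n ≤ tau x ⬝ᵥ tau x
  d2 : |2 - ec t x - t / aS x| ≤ e * (t / aS x)
  d3 : mb t x ⬝ᵥ mb t x ≤ C * aS x ^ 2
  d4 : (diagonal D *ᵥ mb t x) ⬝ᵥ (diagonal D *ᵥ mb t x) ≤ e * aS x ^ 2
  d5 : 3 * aS x ^ 2 ≤ ee x ⬝ᵥ diagonal D *ᵥ ee x - β + 2 * (ee x ⬝ᵥ diagonal D *ᵥ mb t x) -
    bv (ee x) (diagonal D *ᵥ ee x) ⬝ᵥ bv (ee x) (diagonal D *ᵥ ee x)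
  d6 : bv (ee x) (diagonal D *ᵥ ee x) ⬝ᵥ bv (ee x) (diagonal D *ᵥ ee x) ≤ C * aS x ^ 2
  d7 : |ee x ⬝ᵥ diagonal D *ᵥ mb t x| ≤ C * aS x ^ 2
  d8 : |ee x ⬝ᵥ diagonal D *ᵥ ee x| ≤ C * aS x
  u1 : (diagonal D *ᵥ tau x) ⬝ᵥ (diagonal D *ᵥ tau x) ≤ C * aS x ^ 2 * n
  u2 : -(C * aS x ^ 2 * n) ≤ tau x ⬝ᵥ diagonal D *ᵥ tau x
  u3 : (ee x ⬝ᵥ diagonal D *ᵥ tau x) ^ 2 ≤ C * aS x ^ 4 * n
  u4 : (mb t x ⬝ᵥ diagonal D *ᵥ tau x) ^ 2 ≤ C * aS x ^ 4 * n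
  u5 : (mb t x ⬝ᵥ tau x) ^ 2 ≤ C * aS x ^ 3 * n

/-- admissible diagonal -/
structure Ad (e ε k d0 : ℝ) (S : Finset (Fin n)) (x : V n) : Prop where
  k1 : 1 ≤ k
  k2 : k ≤ 5 / 4
  d1 : (2 * k * (k - 1) + 2 * ε) * aS x ^ 2 ≤ d0
  d2 : d0 ≤ 9 / 8 * aS x ^ 2
  card : (S.card : ℝ) ≤ e * aS x ^ 3 * n

def XdStmt : Prop := ∀ K ≥ (1 : ℝ), ∃ C ≥ (1 : ℝ), ∃ c > (0 : ℝ), ∀ (n : ℕ) (t e ε k d0 : ℝ)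
    (S : Finset (Fin n)) (x : V n), 0 < n → 0 < t → 0 < e → Real.sqrt t ≤ c * e → C * e ≤ ε →
  ε ≤ c → Co K e t x → XM e x → Ad e ε k d0 S x →
  Dv ε (aS x) (Dk k d0 S x) ∧ MD C (C * e) t (Dk k d0 S x) (2 * k * aS x) x

def GnStmt : Prop := ∀ C ≥ (1 : ℝ), ∃ C' ≥ (1 : ℝ), ∃ c > (0 : ℝ), ∀ (n : ℕ) (t δ ε β : ℝ)
    (D x : V n), 0 < n → 0 < t → δ ∈ Ioc (0 : ℝ) 1 → aS x ≤ c * δ → 0 ≤ ε → Dv ε (aS x) D →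
  MD C (c * δ) t D β x →
  gv (Fin n) {η | ¬ St C' δ (aS x) D β (ee x) (col t x η) (tau x)} ≤
    20 * ex (-(c * δ ^ 2 * n * aS x ^ 2))

/-- the 3 x 3 criterion, uniform in `ε` -/
def NumU : Prop := ∀ C ≥ (1 : ℝ), ∃ k > (0 : ℝ), ∀ (n : ℕ) (ε q β : ℝ) (D e c τ : V n), 0 < n →
  ε ∈ Ioc 0 k → q ∈ Ioc 0 (k * ε ^ 9) → (∀ i, -(3 * q) ≤ D i) → St C (k * ε ^ 9) q D β e c τ →
  FS ε q e c τ ∧ Le ((ε * q ^ 2) • (1 - P3 e c τ)) (diagonal D - β • vecMulVec e e +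
    (Sg (zz (gg ε q)) e c + Tm ε q τ) + (uu ε)⁻¹ • P3 e c τ)

/-- (3q), uniform in `ε` -/
def CoreU : Prop := ∀ C ≥ (1 : ℝ), ∀ Cw ≥ (0 : ℝ), ∃ k > (0 : ℝ), ∃ K : ℕ,
  ∀ (n : ℕ) (ε q E β : ℝ) (D e c τ : V n) (S : Set (Mx n)), 8 ≤ n → ε ∈ Ioc 0 k →
  q ∈ Ioc 0 (k * ε ^ 9) → 1 ≤ n * ε * q → 0 ≤ E → WS ε q E Cw S → Dv ε q D →
  St C (k * ε ^ 9) q D β e c τ →
  GOE n {W | Wm e c τ W ∈ S ∧ ¬ Le (Wm e c τ W) (Mm D β e)} ≤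
    ex (K * Real.log n + E / 2 - ε ^ 9 * q ^ 2 * n / 64)

/-- **(P)**: positivity as a first-moment event -/
def PosStmt : Prop := ∀ K ≥ (1 : ℝ), ∀ Cw ≥ (0 : ℝ), ∃ c > (0 : ℝ), ∃ C : ℕ,
  ∀ (n : ℕ) (t ε E : ℝ) (S0 : Set (Mx n)) (B : Set (V n × Mx n)) (k d0 : V n → ℝ)
    (S : V n → Finset (Fin n)), C ≤ n → 1 / (n : ℝ) ≤ t → ε ∈ Ioc 0 c →
  Real.sqrt t ≤ c ^ 2 * ε ^ 9 → K ≤ (n * ε) ^ 2 * t → 0 ≤ E → MeasurableSet B →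
  (∀ q > (0 : ℝ), t ≤ K * q ^ 2 → q ^ 2 ≤ K * t → WS ε q E Cw S0) →
  (∀ z ∈ B, z.2 ∈ S0 ∧ Co K (c * ε ^ 9) t z.1 ∧ XM (c * ε ^ 9) z.1 ∧
    Ad (c * ε ^ 9) ε (k z.1) (d0 z.1) (S z.1) z.1 ∧
    ¬ Le z.2 (Mm (Dk (k z.1) (d0 z.1) (S z.1) z.1) (2 * k z.1 * aS z.1) (ee z.1))) →
  Pt t (B.indicator 1) ≤ ex (C * Real.log n + E / 2 - c * ε ^ 18 * n * t)

def PosGlue : Prop := MargStmt → AllStmt → XdStmt → GnStmt → CoreU → PosStmt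

/-- the TAP Hessian, `1/D` replaced by `1` on `S` -/
def AT (S : Finset (Fin n)) (x : V n) (W : Mx n) : Mx n :=
  diagonal (fun i => if i ∈ S then 1 else Real.cosh (x i) ^ 2) + (1 - aS x) • (1 : Mx n) - W -
    (2 / (n : ℝ)) • vecMulVec (th x) (th x)

def AtStmt : Prop := ∀ (n : ℕ) (S : Finset (Fin n)) (x : V n) (W : Mx n), 0 < n →
  (∀ l, Le W (Mm (Dk 1 (aS x ^ 2 / (1 - aS x) - l) S x) (2 * 1 * aS x) (ee x)) →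
    Pos l (AT S x W)) ∧
  (Le W (Mm (Dk (5 / 4) (aS x ^ 2 / (1 - aS x)) S x) (2 * (5 / 4) * aS x) (ee x)) →
    Le ((1 / 5 : ℝ) • ((1 - aS x + 1 / (1 - aS x)) • (1 : Mx n) - W)) (AT S x W)) ∧
  (∀ l > (0 : ℝ), Wᵀ = W → Pos l (AT ∅ x W) → 0 < (Deg.DY W 1 x).det)

/-- from all small site sets to a ball -/
def BallStmt : Prop := ∀ l > (0 : ℝ), ∀ κ > (0 : ℝ), ∃ c > (0 : ℝ), ∃ r > (0 : ℝ),
  ∀ (n : ℕ) (x : V n) (W : Mx n), 0 < n → l ≤ aS x → (∀ S : Finset (Fin n), (S.card : ℝ) ≤ κ * n →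
    Le W (Mm (Dk 1 (aS x ^ 2 / (1 - aS x) - l) S x) (2 * 1 * aS x) (ee x))) →
  GoodB W 1 c (r * Real.sqrt n) (th x)

/-- **all TAP solutions are good**, joint planted form at level `L t^{3/2} n`, constant times -/
def GoodL : Prop := ∀ L > (0 : ℝ), ∀ Cw ≥ (0 : ℝ), ∃ K ≥ (1 : ℝ), ∃ ε > (0 : ℝ), ∃ t0 > (0 : ℝ),
  ∀ t2 > (0 : ℝ), ∃ c > (0 : ℝ), ∃ r > (0 : ℝ), ∃ e' > (0 : ℝ), ∀ᶠ n : ℕ in atTop,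
  ∀ t ∈ Icc t2 t0, ∀ S0 : Set (Mx n),
  (∀ q > (0 : ℝ), t ≤ K * q ^ 2 → q ^ 2 ≤ K * t → WS ε q (e' * n) Cw S0) →
  Pl n t {z | z.1 ∈ S0 ∧ BadY 1 c (r * Real.sqrt n) z.1 z.2} ≤ ex (-(L * n * (t * Real.sqrt t)))

def GoodGlue : Prop := MeasStmt → AreaStmt → KrStmt → MargStmt → B1Stmt → B2Stmt → PosStmt →
  BallStmt → GoodL

end Crest.Agent.T157.Kb

end
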