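import Crest.Agent.T157.OoDef_9
import Crest.Agent.T157.Orb_59

set_option autoImplicit false
set_option linter.unusedSectionVars false

/-!
Row 157, A2 section 3 (helper41): the rank-two coupling (CPL) of the tilted law `o.P μ` with the
Haar law, in the words of one orbit.
-/

noncomputable section

namespace Crest.Agent.T157.Oo

open MeasureTheory Matrix Crest.Agent.Lib.OrthPoinc Filter Topology Set
open Crest.Agent.T157.Oc Crest.Agent.T157.E Crest.Agent.T157.SL Crest.Agent.T157.Ks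
open Crest.Agent.T157.Od
open Crest.Agent.T157.Orb (xi R2)
open scoped ENNReal

variable {n k : ℕ}

/-- sublevel sets on the group are measurable -/
theorem meas_le41 {f g : Mat k → ℝ} (hf : ContinuousOn f (SO k)) (hg : ContinuousOn g (SO k)) :
    MeasurableSet {U | U ∈ SO k ∧ f U ≤ g U} :=
  (isClosed_SO.isClosed_le hf hg).measurableSet

theorem meas_lt41 {f g : Mat k → ℝ} (hf : ContinuousOn f (SO k)) (hg : ContinuousOn g (SO k)) :
    MeasurableSet {U | U ∈ SO k ∧ f U < g U} := by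
  have e : {U | U ∈ SO k ∧ f U < g U} = SO k \ {U | U ∈ SO k ∧ g U ≤ f U} := by
    ext U
    simp only [mem_ofPred_eq, Set.mem_sdiff, not_and, not_le]
    exact ⟨fun h => ⟨h.1, fun _ => h.2⟩, fun h => ⟨h.1, h.2 h.1⟩⟩
  rw [e]
  exact isClosed_SO.measurableSet.diff (meas_le41 hg hf)

namespace Orb

variable {o : Orb n k} {μ : Measure (Mat k)} [IsProbabilityMeasure μ]

/-- the weight of `s` as a function of `U' E' (s - p)` -/
def ph41 (o : Orb n k) (s : Cube n) (a : Fin k → ℝ) : ℝ :=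
  o.w0 s * Real.exp ((sv s - o.p - o.E *ᵥ (o.Eᵀ *ᵥ (sv s - o.p)) + o.E *ᵥ a) ⬝ᵥ
    o.W *ᵥ (sv s - o.p - o.E *ᵥ (o.Eᵀ *ᵥ (sv s - o.p)) + o.E *ᵥ a) / 2)

theorem w_ph41 (U : Mat k) (s : Cube n) :
    o.w U s = o.ph41 s (xi (o.Eᵀ *ᵥ (sv s - o.p)) U) := by
  rw [ph41, ← Orb.emb_tp_mulVec, w, cw, gw, HU, WU, ← mulVec_mulVec, ← mulVec_mulVec,
    dotProduct_mulVec, ← mulVec_transpose]

theorem cont_ph41 (s : Cube n) : Continuous (o.ph41 s) := by
  unfold ph41
  fun_prop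

theorem dens41 (hμ : SOInv μ) (h : o.Ok) (U : Mat k) :
    ∑ s, ENNReal.ofReal (o.ph41 s (xi (o.Eᵀ *ᵥ (sv s - o.p)) U) / ∫ V, Zw (o.w V) ∂μ) =
      ENNReal.ofReal (Real.exp (o.u μ U)) := by
  have hZ := int_Z_pos (p := o.p) (σ := sv) hμ h.iso h.symm (wt0 (o := o))
  rw [← ENNReal.ofReal_sum_of_nonneg fun s _ => by
    rw [← w_ph41]; exact div_nonneg (w_pos U s).le hZ.le, exp_uZ hμ h.iso h.symm wt0]
  simp only [← w_ph41, Zw, Finset.sum_div]

theorem meas_ph41 (c : ℝ) (s : Cube n) : Measurable fun a => ENNReal.ofReal (o.ph41 s a / c) :=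
  ((cont_ph41 s).measurable.div_const c).ennreal_ofReal

theorem meas_dens41 (hμ : SOInv μ) (h : o.Ok) :
    Measurable fun U => ENNReal.ofReal (Real.exp (o.u μ U)) := by
  simp only [← dens41 hμ h]
  exact Finset.measurable_sum _ fun s _ => (meas_ph41 _ s).comp (by fun_prop)

theorem lint_P41 (hμ : SOInv μ) (h : o.Ok) {F : Mat k → ℝ≥0∞} (hF : Measurable F) :
    ∫⁻ U, F U ∂o.P μ = ∫⁻ U, ENNReal.ofReal (Real.exp (o.u μ U)) * F U ∂μ :=
  lintegral_withDensity_eq_lintegral_mul μ (meas_dens41 hμ h) hF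

theorem lint_one41 (hμ : SOInv μ) (h : o.Ok) :
    ∫⁻ U, ENNReal.ofReal (Real.exp (o.u μ U)) ∂μ = 1 := by
  have := P_prob hμ h
  simpa using (lint_P41 hμ h (F := fun _ => 1) measurable_const).symm

/-- (CPL), functions: the tilted law is below Haar on rank-two hulls -/
theorem cpl_lint (hμ : SOInv μ) (h : o.Ok) {F F' : Mat k → ℝ≥0∞} (hF : Measurable F)
    (hF' : Measurable F') (hh : ∀ V ∈ SO k, ∀ R, R2 R → F (mm V R) ≤ F' V) :
    ∫⁻ U, F U ∂o.P μ ≤ ∫⁻ U, F' U ∂μ := by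
  have h1 := Orb.tilt_le hμ (by have := h.two; omega) (fun s => o.Eᵀ *ᵥ (sv s - o.p))
    (meas_ph41 (o := o) (∫ V, Zw (o.w V) ∂μ)) hF hF' hh
  simp only [dens41 hμ h, lint_one41 hμ h, one_mul] at h1
  rwa [lint_P41 hμ h hF]

/-- (CPL), functions: Haar is below the tilted law on rank-two hulls -/
theorem cpl_lint' (hμ : SOInv μ) (h : o.Ok) {F F' : Mat k → ℝ≥0∞} (hF : Measurable F)
    (hF' : Measurable F') (hh : ∀ V ∈ SO k, ∀ R, R2 R → F (mm V R) ≤ F' V) :
    ∫⁻ U, F U ∂μ ≤ ∫⁻ U, F' U ∂o.P μ := by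
  have h1 := Orb.le_tilt hμ (by have := h.two; omega) (fun s => o.Eᵀ *ᵥ (sv s - o.p))
    (meas_ph41 (o := o) (∫ V, Zw (o.w V) ∂μ)) hF hF' hh
  simp only [dens41 hμ h, lint_one41 hμ h, one_mul] at h1
  rwa [lint_P41 hμ h hF']

theorem ind41 {T T2 T3 : Set (Mat k)} (h3 : T2 ⊆ T3)
    (hh : ∀ V ∈ SO k, ∀ R, R2 R → mm V R ∈ T → V ∈ T2) :
    ∀ V ∈ SO k, ∀ R, R2 R →
      T.indicator (1 : Mat k → ℝ≥0∞) (mm V R) ≤ T3.indicator (1 : Mat k → ℝ≥0∞) V := by
  intro V hV R hR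
  by_cases h1 : mm V R ∈ T
  · rw [indicator_of_mem h1, indicator_of_mem (h3 (hh V hV R hR h1))]; exact le_rfl
  · rw [indicator_of_notMem h1]; exact zero_le

/-- **(CPL)**: `Pt_o(T) ≤ Haar(T2)` when `T2` contains the rank-two hull of `T`
(`T2` need not be measurable) -/
theorem cpl (hμ : SOInv μ) (h : o.Ok) {T T2 : Set (Mat k)} (hT : MeasurableSet T)
    (hh : ∀ V ∈ SO k, ∀ R, R2 R → mm V R ∈ T → V ∈ T2) : (o.P μ).real T ≤ μ.real T2 := by
  have hm := measurableSet_toMeasurable μ T2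
  have h1 := cpl_lint hμ h (measurable_one.indicator hT) (measurable_one.indicator hm)
    (ind41 (subset_toMeasurable μ T2) hh)
  rw [lintegral_indicator_one hT, lintegral_indicator_one hm, measure_toMeasurable] at h1
  exact ENNReal.toReal_mono (measure_ne_top _ _) h1

/-- **(CPL)**, the other way: `Haar(T) ≤ Pt_o(T2)` -/
theorem cpl' (hμ : SOInv μ) (h : o.Ok) {T T2 : Set (Mat k)} (hT : MeasurableSet T)
    (hh : ∀ V ∈ SO k, ∀ R, R2 R → mm V R ∈ T → V ∈ T2) : μ.real T ≤ (o.P μ).real T2 := by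
  have := P_prob hμ h
  have hm := measurableSet_toMeasurable (o.P μ) T2
  have h1 := cpl_lint' hμ h (measurable_one.indicator hT) (measurable_one.indicator hm)
    (ind41 (subset_toMeasurable (o.P μ) T2) hh)
  rw [lintegral_indicator_one hT, lintegral_indicator_one hm, measure_toMeasurable] at h1
  exact ENNReal.toReal_mono (measure_ne_top _ _) h1

/-- along the coupling `A_U` moves by rank at most four -/
theorem rank_A41 (h : o.Ok) (V : Mat k) {R : Mat k} (hR : R2 R) :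
    (o.A (mm V R) - o.A V).rank ≤ 4 := by
  have e : o.A (mm V R) - o.A V = (-1 : Mn n) * (o.Wu (mm V R) - o.Wu V) := by
    simp only [A, Wu, AU, neg_mul, Matrix.one_mul]; abel
  rw [e]
  exact (rank_mul_le_right _ _).trans (Orb.rank_emb_conj h.iso V hR o.W)

end Orb

end Crest.Agent.T157.Oo
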