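import Crest.Agent.T157.KbE_24
import Crest.Agent.T157.KbHa_11
import Crest.Agent.T157.OtW_41
import Crest.Agent.T157.KbGauge_98
import Crest.Agent.T157.O0Def_21

/-!
# Row 157, part A2, section 2 (helper24): the one good event `G1` and its first moment

Gauge `s = 1`; `gz s (x, W)` is the gauge image.  `T` is the constant of all first-moment events
(it depends on `L` only), `η` the precision (`ε = η³`), `H` the level.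
-/

set_option autoImplicit false

noncomputable section

namespace Crest.Agent.T157.Kb

open MeasureTheory Matrix Set Filter
open scoped ENNReal
open Crest.Agent.T157.E Crest.Agent.T157.Cond Crest.Agent.T157.Tap
open Crest.Agent.T157.Qe (Le bv St WS zz gg)
open Crest.Agent.T157.Kp (Sl P5)
open Crest.Agent.T157.Conc (ex)

variable {n : ℕ}

/-- (HA) -/
def HA (ε η : ℝ) (x : V n) (W : Mx n) : Prop :=
  Le (W + (1 - η) • vecMulVec (f2 x) (f2 x)) ((2 + ε * aS x ^ 2) • (1 : Mx n))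
/-- odd moments -/
def B3 (e : ℝ) (x : V n) : Prop := (R3 x - bS x * aS x) ^ 2 ≤ e * aS x ^ 5 ∧
  (avg (fun i => th x i ^ 3) - 3 * bS x * aS x) ^ 2 ≤ e * aS x ^ 5
/-- statistics of the column `W e` -/
def Col (C δ : ℝ) (x : V n) (W : Mx n) : Prop :=
  St C δ (aS x) (Dk 1 (aS x ^ 2 / (1 - aS x)) ∅ x) (2 * 1 * aS x) (ee x) (W *ᵥ ee x) (tau x)
/-- (TR) the trace of the resolvent at `z = χ + 1 / χ` -/
def TR (b : ℝ) (x : V n) (W : Mx n) : Prop :=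
  ((zz (1 - aS x) • (1 : Mx n) - W)⁻¹.trace - n * (1 - aS x)) ^ 2 * (zz (1 - aS x) - 2) ^ 2 ≤ b
/-- threshold of the large sites -/
def lam (T t : ℝ) : ℝ := T * Real.log (1 / t)
/-- number of very large sites -/
def m1 (n : ℕ) (T H t : ℝ) : ℝ := T * (H + n * t ^ 2 + Real.log n) / Real.log n ^ 2

/-- **the good event** -/
structure G1 (L T η H t : ℝ) (x : V n) (W : Mx n) : Prop where
  co : Co T (η ^ 30) t x
  qu : aS x ^ 2 ≤ (L / 50) ^ 2 * t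
  xm : XM (η ^ 30) x
  b3 : B3 (η ^ 30) x
  c1 : ((Sl (Real.log n ^ 2) x).card : ℝ) ≤ m1 n T H t
  c2 : ((Sl (lam T t) x).card : ℝ) ≤ η ^ 30 * aS x ^ 3 * n
  pos : Pos ((1 - 2 * η ^ 3) * aS x ^ 2) (AT (Sl (lam T t) x) x W)
  p5 : P5 (Sl (lam T t) x) x W
  col : Col T (η ^ 27) x W
  ha : HA (η ^ 3) η x W
  tr : TR (T * H) x W

/-- the state evolution point -/
def Sh (ε t : ℝ) (x : V n) : Prop := |aS x ^ 2 - t| ≤ ε * t ∧ |bS x - aS x| ≤ ε * aS x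

/-- what is used about the spectral event -/
def WT (T Cw ε E t : ℝ) (S0 : Set (Mx n)) : Prop := ∀ q > (0 : ℝ), t ≤ T * q ^ 2 → q ^ 2 ≤ T * t →
  WS ε q E Cw S0 ∧ ∀ W ∈ S0, (zz (gg ε q) • (1 : Mx n) - W)⁻¹.trace ≤ (1 + ε ^ 3) * n

def ColStmt : Prop := ∀ K ≥ (1 : ℝ), ∃ C' ≥ (1 : ℝ), ∃ c > (0 : ℝ), ∃ C : ℕ, ∀ C'' ≥ C',
  ∀ (n : ℕ) (t ε : ℝ), C ≤ n → 1 / (n : ℝ) ≤ t → ε ∈ Ioc 0 c → Real.sqrt t ≤ ε ^ 21 →
  Pt t ({z : V n × Mx n | Co K (ε ^ 10) t z.1 ∧ XM (ε ^ 10) z.1 ∧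
    ¬ Col C'' (ε ^ 9) z.1 z.2}.indicator 1) ≤ ex (C * Real.log n - c * ε ^ 18 * n * t)

/-- sharp local law for the planted matrix given its column -/
def TrCoreB : Prop := ∃ C : ℝ, ∀ (n : ℕ) (g H : ℝ) (e c τ : V n), 2 ≤ n → g ∈ Ico (1 / 2 : ℝ) 1 →
  Real.log n ≤ H → 1 ≤ (n : ℝ) ^ 2 * (zz g - 2) ^ 3 → e ⬝ᵥ e = 1 →
  GOE n {W | ∃ a, Dq.Dg (Qe.Wm e c τ W) a ∧ (∀ i, a i ≤ 2 + (zz g - 2) / 2) ∧
    C * H < (∑ i, (zz g - a i)⁻¹ - n * g) ^ 2 * (zz g - 2) ^ 2} ≤ ex (-H)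

def TrPt : Prop := ∃ C1 : ℝ, ∀ K ≥ (1 : ℝ), ∃ c > (0 : ℝ), ∃ C : ℕ,
  ∀ (n : ℕ) (t ε e E Cw H : ℝ) (S0 : Set (Mx n)), C ≤ n → 1 / (n : ℝ) ≤ t → ε ∈ Ioc (0 : ℝ) 1 →
  Real.sqrt t ≤ c → K ^ 3 ≤ (n : ℝ) ^ 2 * t ^ 3 → Real.log n ≤ H → WT K Cw ε E t S0 →
  Pt t ({z : V n × Mx n | z.2 ∈ S0 ∧ Co K e t z.1 ∧ ¬ TR (C1 * H) z.1 z.2}.indicator 1) ≤
    ex (C * Real.log n - H)

def TrGlue : Prop := TrCoreB → TrPt

def MeasG : Prop := ∀ (n : ℕ) (C ε η b l m t : ℝ),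
  MeasurableSet {x : V n | B3 ε x} ∧ MeasurableSet {x : V n | Sh ε t x} ∧
  Measurable (fun x : V n => ((Sl l x).card : ℝ)) ∧
  Measurable (fun z : V n × Mx n => AT (Sl l z.1) z.1 z.2) ∧
  MeasurableSet {z : V n × Mx n | Pos (m * aS z.1 ^ 2) (AT (Sl l z.1) z.1 z.2)} ∧
  MeasurableSet {z : V n × Mx n | P5 (Sl l z.1) z.1 z.2} ∧
  MeasurableSet {z : V n × Mx n | Col C ε z.1 z.2} ∧
  MeasurableSet {z : V n × Mx n | HA ε η z.1 z.2} ∧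
  MeasurableSet {z : V n × Mx n | TR b z.1 z.2} ∧
  ∀ L H : ℝ, MeasurableSet {z : V n × Mx n | G1 L C η H t z.1 z.2}

/-- the sizes -/
structure Sz (n : ℕ) (L T c η E H t : ℝ) (N : ℕ) : Prop where
  n1 : N ≤ n
  t1 : 1 / (n : ℝ) ≤ t
  e0 : 0 < η
  e1 : η ≤ c
  t2 : Real.sqrt t ≤ η ^ 63
  n2 : T ≤ (n * η ^ 3) ^ 2 * t
  n3 : T ^ 3 ≤ (n : ℝ) ^ 2 * t ^ 3
  E0 : 0 ≤ E
  E1 : E ≤ η ^ 57 * n * t
  H0 : N * Real.log n ≤ H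
  H1 : H ≤ L * n * (t * Real.sqrt t)
  H2 : H ≤ η ^ 66 * n * t
  H3 : H ≤ η ^ 33 * Real.log (1 / t) * n * (t * Real.sqrt t)

/-- **the first moment of the bad event** -/
def BaseStmt : Prop := ∀ Cw ≥ (0 : ℝ), ∀ L ≥ (50000 : ℝ), ∃ T0 : ℝ, ∀ T ≥ T0,
  ∃ c > (0 : ℝ), ∃ N : ℕ, ∀ (n : ℕ) (t η E H : ℝ) (S0 : Set (Mx n)), Sz n L T c η E H t N →
  WT T Cw (η ^ 3) E t S0 →
  Pt t ({z : V n × Mx n | z.2 ∈ S0 ∧ ¬ G1 L T η H t z.1 z.2}.indicator 1) ≤ ex (-(9 * H)) ∧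
  (H ≤ η ^ 9 * n * (t * Real.sqrt t) → Pt t ({z : V n × Mx n | z.2 ∈ S0 ∧
    ¬ (G1 L T η H t z.1 z.2 ∧ Sh (η ^ 3) t z.1)}.indicator 1) ≤ ex (-(9 * H)))

def BaseGlue : Prop := MeasG → ColStmt → TrPt → BaseStmt

/-- **the first-moment events of the top** (crude: `η = e1`; sharp: `η = e²`) -/
def base : O0.Base where
  c p t x W s := ¬ G1 p.L p.T p.e1 (p.Hc t) t (gz s (x, W)).1 (gz s (x, W)).2
  s p e t x W s := ¬ (G1 p.L p.T (e ^ 2) (p.Hs e t) t (gz s (x, W)).1 (gz s (x, W)).2 ∧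
    Sh ((e ^ 2) ^ 3) t (gz s (x, W)).1)

def TopGlue : Prop := MeasG → BaseStmt → O0.KbC base ∧ O0.KbS base

end Crest.Agent.T157.Kb

end
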