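import Crest.Agent.T157.OdC_9

set_option autoImplicit false
set_option linter.unusedSectionVars false

/-!
Row 157, A2 (helper26): the pointwise algebra behind the medians of (g3), (g4) for `t ≥ t**`.
-/

noncomputable section

namespace Crest.Agent.T157.Ba26

open Matrix Finset
open Crest.Agent.T157.Od Crest.Agent.T157.Ks

variable {ι : Type*} [Fintype ι] [DecidableEq ι]

theorem dnn (u : ι → ℝ) : 0 ≤ u ⬝ᵥ u := Finset.sum_nonneg fun _ _ => mul_self_nonneg _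

/-- `M² ≤ μ M` for `0 ≤ M ≤ μ` -/
theorem psd_sq {M : Matrix ι ι ℝ} {μ : ℝ} (hM : Mᵀ = M) (h0 : ∀ u, 0 ≤ u ⬝ᵥ M *ᵥ u)
    (h1 : ∀ u, u ⬝ᵥ M *ᵥ u ≤ μ * (u ⬝ᵥ u)) (μ0 : 0 ≤ μ) (u : ι → ℝ) :
    M *ᵥ u ⬝ᵥ M *ᵥ u ≤ μ * (u ⬝ᵥ M *ᵥ u) := by
  have key : ∀ t : ℝ, 0 ≤ (M *ᵥ u ⬝ᵥ M *ᵥ (M *ᵥ u)) * (t * t) + (-2 * (M *ᵥ u ⬝ᵥ M *ᵥ u)) * t +
      u ⬝ᵥ M *ᵥ u := by
    intro t
    have := h0 (u - t • M *ᵥ u)
    have e := symm_dot hM u (M *ᵥ u)
    simp only [mulVec_sub, mulVec_smul, dotProduct_sub, sub_dotProduct, smul_dotProduct,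
      dotProduct_smul, smul_eq_mul] at this
    rw [e] at this
    linarith
  have hd := discrim_le_zero key
  rw [discrim] at hd
  have h2 := h1 (M *ᵥ u)
  have h3 := h0 u
  have h4 := dnn (M *ᵥ u)
  rcases h4.eq_or_lt with h5 | h5
  · rw [← h5]; positivity
  · have h6 : (M *ᵥ u ⬝ᵥ M *ᵥ u) * (M *ᵥ u ⬝ᵥ M *ᵥ u) ≤
        (M *ᵥ u ⬝ᵥ M *ᵥ u) * (μ * (u ⬝ᵥ M *ᵥ u)) := by
      nlinarith [mul_le_mul_of_nonneg_right h2 h3]
    exact le_of_mul_le_mul_left h6 h5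

theorem psd_op {M : Matrix ι ι ℝ} {μ : ℝ} (hM : Mᵀ = M) (h0 : ∀ u, 0 ≤ u ⬝ᵥ M *ᵥ u)
    (h1 : ∀ u, u ⬝ᵥ M *ᵥ u ≤ μ * (u ⬝ᵥ u)) (μ0 : 0 ≤ μ) : Op2 M (μ * μ) := fun u =>
  (psd_sq hM h0 h1 μ0 u).trans (by rw [mul_assoc]; exact mul_le_mul_of_nonneg_left (h1 u) μ0)

theorem op_mul {M N : Matrix ι ι ℝ} {a b : ℝ} (hM : Op2 M a) (hN : Op2 N b) (a0 : 0 ≤ a) :
    Op2 (M * N) (a * b) := fun u => by
  rw [← mulVec_mulVec, mul_assoc]
  exact (hM _).trans (mul_le_mul_of_nonneg_left (hN u) a0)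

theorem op_diag {d : ι → ℝ} {a : ℝ} (h : ∀ i, d i ^ 2 ≤ a) : Op2 (diagonal d) a := fun u => by
  simp only [dotProduct, mulVec_diagonal, Finset.mul_sum]
  exact Finset.sum_le_sum fun i _ => by nlinarith [h i, mul_self_nonneg (u i)]

theorem fr_le_card {M : Matrix ι ι ℝ} {a : ℝ} (h : Op2 M a) : fr M ≤ Fintype.card ι * a := by
  rw [← sum_single_dot]
  refine (Finset.sum_le_sum fun i _ => h _).trans (le_of_eq ?_)
  simp [single_dot]

theorem fr_diag (d : ι → ℝ) : fr (diagonal d) = ∑ i, d i ^ 2 := by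
  unfold fr
  refine Finset.sum_congr rfl fun i _ => ?_
  rw [Finset.sum_eq_single i (fun j _ hj => by rw [diagonal_apply_ne _ hj.symm]; simp) (by simp)]
  simp

theorem fr_vmv (x y : ι → ℝ) : fr (vecMulVec x y) = (x ⬝ᵥ x) * (y ⬝ᵥ y) := by
  simp only [fr, vecMulVec_apply, dotProduct, Finset.sum_mul_sum]
  exact Finset.sum_congr rfl fun _ _ => Finset.sum_congr rfl fun _ _ => by ring

theorem fr_smul (c : ℝ) (M : Matrix ι ι ℝ) : fr (c • M) = c ^ 2 * fr M := by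
  simp only [fr, Matrix.smul_apply, smul_eq_mul, mul_pow, Finset.mul_sum]

theorem fr_neg (M : Matrix ι ι ℝ) : fr (-M) = fr M := by
  simp only [fr, Matrix.neg_apply, neg_sq]

theorem op_of_fr (M : Matrix ι ι ℝ) : Op2 M (fr M) := fun u => by
  simp only [fr, Finset.sum_mul]
  refine Finset.sum_le_sum fun i _ => ?_
  have := Finset.sum_mul_sq_le_sq_mul_sq Finset.univ (fun j => M i j) u
  rw [← Finset.sum_mul]
  simp only [mulVec, dotProduct]
  simp only [sq] at this ⊢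
  exact this

/-- indicator of the good sites -/
def PT (T : Finset ι) : Matrix ι ι ℝ := diagonal fun i => if i ∈ T then 0 else 1

theorem PT_t (T : Finset ι) : (PT T)ᵀ = PT T := diagonal_transpose _

theorem op_PT (T : Finset ι) : Op2 (PT T) 1 := op_diag fun i => by split_ifs <;> norm_num

theorem fr_cols (T : Finset ι) {M : Matrix ι ι ℝ} {a : ℝ} (h : Op2 M a) :
    fr M ≤ fr (M * PT T) + T.card * a := by
  rw [← sum_single_dot, ← sum_single_dot]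
  have : (T.card : ℝ) * a = ∑ i, if i ∈ T then a else 0 := by simp
  rw [this, ← Finset.sum_add_distrib]
  refine Finset.sum_le_sum fun i _ => ?_
  by_cases hi : i ∈ T
  · have h1 := h (Pi.single i 1)
    have h2 := dnn ((M * PT T) *ᵥ Pi.single i 1)
    simp only [single_dot, Pi.single_eq_same, mul_one] at h1
    rw [if_pos hi]; linarith
  · have : PT T *ᵥ Pi.single i 1 = Pi.single i 1 := by
      ext j
      rw [PT, mulVec_diagonal]
      by_cases hj : j = i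
      · subst hj; simp [hi]
      · simp [hj]
    rw [if_neg hi, ← mulVec_mulVec, this, add_zero]

theorem fr_rows (T : Finset ι) {M : Matrix ι ι ℝ} {a : ℝ} (h : Op2 Mᵀ a) :
    fr M ≤ fr (PT T * M) + T.card * a := by
  have := fr_cols T h
  rwa [fr_transpose, ← fr_transpose (U := Mᵀ * PT T), transpose_mul, PT_t, transpose_transpose] at this

/-- the hypotheses of (BA) -/
structure BH (A C E : Matrix ι ι ℝ) (De e : ι → ℝ) (T : Finset ι)
    (l β χi k1 k2 a c2 Γ s2 v v2 : ℝ) : Prop where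
  hA : Aᵀ = A
  hC : Cᵀ = C
  hE : Eᵀ = E
  C0 : ∀ u, 0 ≤ u ⬝ᵥ C *ᵥ u
  c1 : ∀ u, u ⬝ᵥ C *ᵥ u ≤ k1 * (u ⬝ᵥ u)
  ck2 : ∀ u, u ⬝ᵥ (A * C * A) *ᵥ u ≤ k2 * (u ⬝ᵥ u)
  k10 : 0 ≤ k1
  k20 : 0 ≤ k2
  ha : Op2 A (a ^ 2)
  hc : fr C ≤ c2
  l0 : 0 ≤ l
  De0 : ∀ i, 0 < De i
  Γ0 : 0 ≤ Γ
  hΓ : ∀ u, u ⬝ᵥ (C + l • (1 : Matrix ι ι ℝ)) *ᵥ u ≤ Γ * ∑ i, De i * u i ^ 2
  he : e ⬝ᵥ e ≤ 1
  s0 : 0 ≤ s2
  hs : Op2 E s2
  hR : (A + (diagonal (fun i => (De i)⁻¹ - χi) - β • vecMulVec e e +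
    diagonal (fun i => (√(De i))⁻¹) * E * diagonal (fun i => (√(De i))⁻¹))) *
      (C + l • (1 : Matrix ι ι ℝ)) = 1
  half : ∀ i, i ∉ T → 1 / 2 ≤ De i
  hv : ∀ i, i ∉ T → ((De i)⁻¹ - χi) ^ 2 ≤ v ^ 2
  hv2 : ∑ i, (if i ∈ T then 0 else ((De i)⁻¹ - χi) ^ 2) ≤ v2

/-- the size of the non-diagonal part -/
def φ (n l β k1 Γ s2 : ℝ) : ℝ := 2 * (β ^ 2 * (k1 + l) ^ 2 + 2 * s2 * (Γ * (k1 + l)) * n)

theorem ba {A C E : Matrix ι ι ℝ} {De e : ι → ℝ} {T : Finset ι} {l β χi k1 k2 a c2 Γ s2 v v2 : ℝ}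
    (h : BH A C E De e T l β χi k1 k2 a c2 Γ s2 v v2) :
    fr (A * C - 1) ≤ T.card * (2 * (k1 * k2 + 1)) + 2 * (2 * (v ^ 2 * (2 * (c2 + l ^ 2 *
      Fintype.card ι)) + φ (Fintype.card ι) l β k1 Γ s2) + l ^ 2 * (Fintype.card ι * a ^ 2)) ∧
    fr (A * C * A - A) ≤ 2 * (T.card * (2 * (k2 * k2 + a ^ 2))) +
      2 * (2 * (2 * (2 * (v2 + β ^ 2) + 4 * s2 * Fintype.card ι) +
        2 * (2 * (v ^ 4 * (2 * (c2 + l ^ 2 * Fintype.card ι)) + v ^ 2 * φ (Fintype.card ι) l β k1 Γ s2) +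
          2 * (v ^ 2 * φ (Fintype.card ι) l β k1 Γ s2 + 2 * (β ^ 2 * φ (Fintype.card ι) l β k1 Γ s2 +
            2 * s2 * (2 * (β ^ 2 * (Γ * (k1 + l)) + 2 * s2 * (Γ * Γ) * Fintype.card ι)))))) +
        l ^ 2 * (Fintype.card ι * (a ^ 2 * a ^ 2))) := by
  obtain ⟨hA, hC, hE, C0, c1, ck2, k10, k20, ha, hc, l0, De0, Γ0, hΓ, he, s0, hs, hR, half, hv, hv2⟩ := h
  set n : ℝ := (Fintype.card ι : ℝ) with hn
  set Cl := C + l • (1 : Matrix ι ι ℝ) with hCl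
  set Si : Matrix ι ι ℝ := diagonal fun i => (√(De i))⁻¹ with hSi
  set V : Matrix ι ι ℝ := diagonal fun i => (De i)⁻¹ - χi with hV
  set P := PT T with hP
  set R := V - β • vecMulVec e e + Si * E * Si with hRd
  have kl0 : 0 ≤ k1 + l := by linarith
  have Clt : Clᵀ = Cl := by rw [hCl, transpose_add, hC, transpose_smul, transpose_one]
  have Sit : Siᵀ = Si := diagonal_transpose _
  have Vt : Vᵀ = V := diagonal_transpose _
  have Pt : Pᵀ = P := PT_t T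
  have Rt : Rᵀ = R := by
    simp only [hRd, transpose_add, transpose_sub, transpose_smul, transpose_mul, Vt, Sit, hE,
      transpose_vecMulVec, Matrix.mul_assoc]
  have Cle : ∀ u, u ⬝ᵥ Cl *ᵥ u = u ⬝ᵥ C *ᵥ u + l * (u ⬝ᵥ u) := fun u => by
    simp [hCl, add_mulVec, smul_mulVec]
  have Cl0 : ∀ u, 0 ≤ u ⬝ᵥ Cl *ᵥ u := fun u => by
    rw [Cle]; exact add_nonneg (C0 u) (mul_nonneg l0 (dnn u))
  have Cl1 : ∀ u, u ⬝ᵥ Cl *ᵥ u ≤ (k1 + l) * (u ⬝ᵥ u) := fun u => by rw [Cle]; linarith [c1 u]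
  have oCl := psd_op Clt Cl0 Cl1 kl0
  have SiC : ∀ u, Si *ᵥ u ⬝ᵥ Cl *ᵥ (Si *ᵥ u) ≤ Γ * (u ⬝ᵥ u) := fun u => by
    refine (hΓ _).trans (le_of_eq ?_)
    congr 1
    refine Finset.sum_congr rfl fun i _ => ?_
    rw [hSi, mulVec_diagonal, mul_pow, inv_pow, Real.sq_sqrt (De0 i).le]
    have := (De0 i).ne'
    field_simp
  have oCS : Op2 (Cl * Si) (Γ * (k1 + l)) := fun u => by
    rw [← mulVec_mulVec]
    refine (psd_sq Clt Cl0 Cl1 kl0 _).trans ?_
    nlinarith [mul_le_mul_of_nonneg_left (SiC u) kl0]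
  have Gq : ∀ u, u ⬝ᵥ (Si * Cl * Si) *ᵥ u = Si *ᵥ u ⬝ᵥ Cl *ᵥ (Si *ᵥ u) := fun u => by
    rw [← mulVec_mulVec, ← mulVec_mulVec, symm_dot Sit]
  have oG : Op2 (Si * Cl * Si) (Γ * Γ) :=
    psd_op (by simp only [transpose_mul, Sit, Clt, Matrix.mul_assoc]) (fun u => by rw [Gq]; exact Cl0 _)
      (fun u => by rw [Gq]; exact SiC u) Γ0
  have oP : Op2 P 1 := op_PT T
  have oPS : Op2 (P * Si) 2 := by
    rw [hP, PT, hSi, diagonal_mul_diagonal]
    refine op_diag fun i => ?_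
    split_ifs with hi
    · norm_num
    · rw [one_mul, inv_pow, Real.sq_sqrt (De0 i).le]
      exact inv_le_of_inv_le₀ two_pos (by linarith [half i hi])
  have oPV : Op2 (P * V) (v ^ 2) := by
    rw [hP, PT, hV, diagonal_mul_diagonal]
    refine op_diag fun i => ?_
    split_ifs with hi
    · simp [sq_nonneg]
    · rw [one_mul]; exact hv i hi
  have fPV : fr (P * V) ≤ v2 := by
    rw [hP, PT, hV, diagonal_mul_diagonal, fr_diag]
    refine le_trans (le_of_eq (Finset.sum_congr rfl fun i _ => ?_)) hv2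
    split_ifs <;> simp
  have Pe : P *ᵥ e ⬝ᵥ P *ᵥ e ≤ 1 := by linarith [oP e]
  have fCl : fr Cl ≤ 2 * (c2 + l ^ 2 * n) := by
    have h1 := fr_add_le C (l • (1 : Matrix ι ι ℝ))
    have h2 := fr_le_card (Op2.one (ι := ι))
    rw [fr_smul] at h1
    nlinarith [sq_nonneg l]
  -- the non-diagonal part
  set Y := P * Si * E * Si - β • vecMulVec (P *ᵥ e) e with hY
  have PR : P * R = P * V + Y := by
    simp only [hRd, hY, Matrix.mul_add, Matrix.mul_sub, Matrix.mul_smul, mul_vecMulVec,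
      Matrix.mul_assoc]
    abel
  have fY : ∀ (Z : Matrix ι ι ℝ) (x y : ℝ), Op2 Zᵀ x → 0 ≤ x → Op2 (Si * Z)ᵀ y →
      fr (Y * Z) ≤ 2 * (β ^ 2 * x + 2 * s2 * y * n) := by
    intro Z x y hx x0 hy
    have e1 : Y * Z = P * Si * (E * (Si * Z)) - β • vecMulVec (P *ᵥ e) (Zᵀ *ᵥ e) := by
      simp only [hY, Matrix.sub_mul, Matrix.smul_mul, vecMulVec_mul, Matrix.mul_assoc,
        mulVec_transpose]
    have h1 := fr_sub_le (P * Si * (E * (Si * Z))) (β • vecMulVec (P *ᵥ e) (Zᵀ *ᵥ e))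
    have h2 := oPS.fr_left (E * (Si * Z))
    have h3 := hs.fr_left (Si * Z)
    have h4 := fr_le_card hy
    rw [fr_transpose] at h4
    have h5 : Zᵀ *ᵥ e ⬝ᵥ Zᵀ *ᵥ e ≤ x := by nlinarith [hx e]
    have h6 : (P *ᵥ e ⬝ᵥ P *ᵥ e) * (Zᵀ *ᵥ e ⬝ᵥ Zᵀ *ᵥ e) ≤ 1 * x :=
      mul_le_mul Pe h5 (dnn _) zero_le_one
    rw [fr_smul, fr_vmv] at h1
    rw [e1]
    nlinarith [mul_le_mul_of_nonneg_left h4 s0, mul_le_mul_of_nonneg_left h6 (sq_nonneg β)]
  have fYC : fr (Y * Cl) ≤ φ n l β k1 Γ s2 := by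
    have := fY Cl _ _ (by rw [Clt]; exact oCl) (mul_nonneg kl0 kl0)
      (by rw [transpose_mul, Clt, Sit]; exact oCS)
    rw [φ, sq (k1 + l)]
    exact this
  have φ0 : 0 ≤ φ n l β k1 Γ s2 := fr_nonneg.trans fYC
  have fYS : fr (Y * (Cl * Si)) ≤ 2 * (β ^ 2 * (Γ * (k1 + l)) + 2 * s2 * (Γ * Γ) * n) := by
    refine fY (Cl * Si) _ _ ?_ (mul_nonneg Γ0 kl0) ?_
    · intro u
      rw [transpose_mul, Sit, Clt]
      have a1 : (Si * Cl) *ᵥ u ⬝ᵥ (Si * Cl) *ᵥ u = u ⬝ᵥ (Cl * Si) *ᵥ ((Si * Cl) *ᵥ u) := by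
        rw [dotProduct_mulVec u, ← mulVec_transpose, transpose_mul, Sit, Clt]
      have a2 := oCS ((Si * Cl) *ᵥ u)
      have a3 := Finset.sum_mul_sq_le_sq_mul_sq Finset.univ u ((Cl * Si) *ᵥ ((Si * Cl) *ᵥ u))
      simp only [sq] at a3
      change (u ⬝ᵥ _) * (u ⬝ᵥ _) ≤ (u ⬝ᵥ u) * (_ ⬝ᵥ _) at a3
      rw [← a1] at a3
      rcases (dnn ((Si * Cl) *ᵥ u)).eq_or_lt with a4 | a4
      · rw [← a4]; exact mul_nonneg (mul_nonneg Γ0 kl0) (dnn u)
      · refine le_of_mul_le_mul_left (a3.trans ?_) a4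
        nlinarith [mul_le_mul_of_nonneg_left a2 (dnn u)]
    · rw [← Matrix.mul_assoc]
      simp only [transpose_mul, Sit, Clt, ← Matrix.mul_assoc]
      exact oG
  have ACl : A * Cl = 1 - R * Cl := by rw [← hR, Matrix.add_mul]; abel
  have ClA : Cl * A = 1 - Cl * R := by
    have := congrArg transpose ACl
    rwa [transpose_mul, transpose_sub, transpose_mul, hA, Clt, Rt, transpose_one] at this
  have AC0 : ∀ u, u ⬝ᵥ (A * C * A) *ᵥ u = A *ᵥ u ⬝ᵥ C *ᵥ (A *ᵥ u) := fun u => by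
    rw [← mulVec_mulVec, ← mulVec_mulVec, symm_dot hA]
  have oCA : Op2 (C * A) (k1 * k2) := fun u => by
    rw [← mulVec_mulVec, mul_assoc]
    exact (psd_sq hC C0 c1 k10 _).trans (mul_le_mul_of_nonneg_left (by rw [← AC0]; exact ck2 u) k10)
  have oACA : Op2 (A * C * A) (k2 * k2) :=
    psd_op (by simp only [transpose_mul, hA, hC, Matrix.mul_assoc]) (fun u => by rw [AC0]; exact C0 _)
      ck2 k20
  constructor
  · have h1 := fr_rows T (M := A * C - 1) (a := 2 * (k1 * k2 + 1)) (by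
      rw [transpose_sub, transpose_mul, hA, hC, transpose_one]; exact oCA.sub Op2.one)
    have e1 : P * (A * C - 1) = -(P * V * Cl + Y * Cl) - l • (P * A) := by
      have : A * C - 1 = -(R * Cl) - l • A := by
        have e2 : A * C = A * Cl - l • A := by simp [hCl, Matrix.mul_add]
        rw [e2, ACl]; abel
      rw [this, Matrix.mul_sub, Matrix.mul_neg, ← Matrix.mul_assoc, PR, Matrix.add_mul,
        Matrix.mul_smul]
    have h2 := fr_sub_le (-(P * V * Cl + Y * Cl)) (l • (P * A))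
    have h3 := fr_add_le (P * V * Cl) (Y * Cl)
    have h4 := oPV.fr_left Cl
    have h5 := oP.fr_left A
    have h6 := fr_le_card ha
    rw [fr_neg, fr_smul, ← e1] at h2
    have h7 := mul_le_mul_of_nonneg_left fCl (sq_nonneg v)
    have h8 : l ^ 2 * fr (P * A) ≤ l ^ 2 * (n * a ^ 2) :=
      mul_le_mul_of_nonneg_left (by linarith) (sq_nonneg l)
    linarith
  · have oΦ : Op2 (A * C * A - A) (2 * (k2 * k2 + a ^ 2)) := oACA.sub ha
    have Φt : (A * C * A - A)ᵀ = A * C * A - A := by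
      simp only [transpose_sub, transpose_mul, hA, hC, Matrix.mul_assoc]
    have h1 := fr_rows T (M := A * C * A - A) (by rw [Φt]; exact oΦ)
    have h2 := fr_cols T (op_mul oP oΦ zero_le_one)
    have RP : R * P = V * P + Yᵀ := by
      have := congrArg transpose PR
      rwa [transpose_mul, Pt, Rt, transpose_add (P * V), transpose_mul, Pt, Vt] at this
    have e1 : P * (A * C * A - A) * P = (P * R * Cl * (R * P) - P * R * P) - l • (P * (A * A) * P) := by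
      have e2 : A * C * A - A = (R * Cl * R - R) - l • (A * A) := by
        have e3 : A * C * A = A * (Cl * A) - l • (A * A) := by
          simp [hCl, Matrix.mul_add, Matrix.add_mul, Matrix.mul_assoc]
        rw [e3, ClA, Matrix.mul_sub, Matrix.mul_one, ← Matrix.mul_assoc, ACl, Matrix.sub_mul,
          Matrix.one_mul]
        abel
      rw [e2]
      simp only [Matrix.mul_sub, Matrix.sub_mul, Matrix.mul_smul, Matrix.smul_mul, Matrix.mul_assoc]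
    have oVP : Op2 (V * P)ᵀ (v ^ 2) := by rw [transpose_mul, Pt, Vt]; exact oPV
    have oSP : Op2 (Si * P)ᵀ 2 := by rw [transpose_mul, Pt, Sit]; exact oPS
    -- `P R P`
    have f1 : fr (P * R * P) ≤ 2 * (2 * (v2 + β ^ 2) + 4 * s2 * n) := by
      have e2 : P * R * P = (P * V * P - β • vecMulVec (P *ᵥ e) (P *ᵥ e)) + P * Si * E * (Si * P) := by
        rw [PR, hY]
        simp only [Matrix.add_mul, Matrix.sub_mul, Matrix.smul_mul, vecMulVec_mul, Matrix.mul_assoc,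
          ← mulVec_transpose, Pt]
        abel
      have a1 := fr_add_le (P * V * P - β • vecMulVec (P *ᵥ e) (P *ᵥ e)) (P * Si * E * (Si * P))
      have a2 := fr_sub_le (P * V * P) (β • vecMulVec (P *ᵥ e) (P *ᵥ e))
      have a3 := Op2.fr_right (Q := P) (by rw [Pt]; exact oP) (P * V)
      have a4 := oSP.fr_right (P * Si * E)
      have a5 := oPS.fr_left E
      have a6 := fr_le_card hs
      rw [fr_smul, fr_vmv] at a2
      have a7 : (P *ᵥ e ⬝ᵥ P *ᵥ e) * (P *ᵥ e ⬝ᵥ P *ᵥ e) ≤ 1 * 1 := mul_le_mul Pe Pe (dnn _) zero_le_one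
      rw [e2]
      nlinarith [mul_le_mul_of_nonneg_left a7 (sq_nonneg β)]
    -- `P R Cl R P`
    have f2 : fr (Y * Cl * Yᵀ) ≤ 2 * (β ^ 2 * φ n l β k1 Γ s2 +
        2 * s2 * (2 * (β ^ 2 * (Γ * (k1 + l)) + 2 * s2 * (Γ * Γ) * n))) := by
      have e2 : Y * Cl * Yᵀ = Y * (Cl * Si) * E * (Si * P) - β • (Y * Cl * vecMulVec e (P *ᵥ e)) := by
        have Yt : Yᵀ = Si * E * (Si * P) - β • vecMulVec e (P *ᵥ e) := by
          simp only [hY, transpose_sub, transpose_smul, transpose_mul, transpose_vecMulVec, Sit, hE,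
            Pt, Matrix.mul_assoc]
        rw [Yt]
        simp only [Matrix.mul_sub, Matrix.mul_smul, Matrix.mul_assoc]
      have a1 := fr_sub_le (Y * (Cl * Si) * E * (Si * P)) (β • (Y * Cl * vecMulVec e (P *ᵥ e)))
      have a2 := oSP.fr_right (Y * (Cl * Si) * E)
      have a3 := Op2.fr_right (Q := E) (by rw [hE]; exact hs) (Y * (Cl * Si))
      have a4 := (op_of_fr (vecMulVec e (P *ᵥ e))ᵀ).fr_right (Y * Cl)
      rw [fr_transpose, fr_vmv] at a4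
      have a5 : (e ⬝ᵥ e) * (P *ᵥ e ⬝ᵥ P *ᵥ e) ≤ 1 * 1 := mul_le_mul he Pe (dnn _) zero_le_one
      have a6 : fr (Y * Cl * vecMulVec e (P *ᵥ e)) ≤ φ n l β k1 Γ s2 := by
        nlinarith [mul_le_mul_of_nonneg_right a5 (fr_nonneg (U := Y * Cl))]
      rw [fr_smul] at a1
      rw [e2]
      nlinarith [mul_le_mul_of_nonneg_left a6 (sq_nonneg β), mul_le_mul_of_nonneg_left fYS s0]
    have f3 : fr (P * R * Cl * (R * P)) ≤
        2 * (2 * (v ^ 4 * (2 * (c2 + l ^ 2 * n)) + v ^ 2 * φ n l β k1 Γ s2) +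
          2 * (v ^ 2 * φ n l β k1 Γ s2 + fr (Y * Cl * Yᵀ))) := by
      have e2 : P * R * Cl * (R * P) = (P * V * Cl * (V * P) + Y * Cl * (V * P)) +
          (P * V * (Y * Cl)ᵀ + Y * Cl * Yᵀ) := by
        rw [PR, RP, transpose_mul, Clt]
        simp only [Matrix.add_mul, Matrix.mul_add, Matrix.mul_assoc]
      have a1 := fr_add_le (P * V * Cl * (V * P) + Y * Cl * (V * P)) (P * V * (Y * Cl)ᵀ + Y * Cl * Yᵀ)
      have a2 := fr_add_le (P * V * Cl * (V * P)) (Y * Cl * (V * P))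
      have a3 := fr_add_le (P * V * (Y * Cl)ᵀ) (Y * Cl * Yᵀ)
      have a4 := oVP.fr_right (P * V * Cl)
      have a5 := oPV.fr_left Cl
      have a6 := oVP.fr_right (Y * Cl)
      have a7 := oPV.fr_left (Y * Cl)ᵀ
      rw [fr_transpose] at a7
      have a8 := mul_le_mul_of_nonneg_left fYC (sq_nonneg v)
      have a9 : v ^ 2 * fr (P * V * Cl) ≤ v ^ 4 * (2 * (c2 + l ^ 2 * n)) := by
        have := mul_le_mul_of_nonneg_left (a5.trans (mul_le_mul_of_nonneg_left fCl (sq_nonneg v)))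
          (sq_nonneg v)
        linarith
      rw [e2]
      linarith
    have f4 : fr (P * (A * A) * P) ≤ n * (a ^ 2 * a ^ 2) := by
      have a1 := Op2.fr_right (Q := P) (by rw [Pt]; exact oP) (P * (A * A))
      have a2 := oP.fr_left (A * A)
      have a3 := fr_le_card (op_mul ha ha (sq_nonneg a))
      linarith
    have h3 := fr_sub_le (P * R * Cl * (R * P) - P * R * P) (l • (P * (A * A) * P))
    have h4 := fr_sub_le (P * R * Cl * (R * P)) (P * R * P)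
    rw [fr_smul, ← e1] at h3
    have h5 := mul_le_mul_of_nonneg_left f4 (sq_nonneg l)
    linarith

/-- the field `hR` of `BH` from the weighted form of (m2): `E = S (C_l⁻¹ - A) S - (1 - S B₀ S)` -/
theorem hR_of {A Cl : Matrix ι ι ℝ} {De e : ι → ℝ} {β χi : ℝ} (De0 : ∀ i, 0 < De i)
    (hd : IsUnit Cl.det) :
    (A + (diagonal (fun i => (De i)⁻¹ - χi) - β • vecMulVec e e +
      diagonal (fun i => (√(De i))⁻¹) *
        (diagonal (fun i => √(De i)) * (Cl⁻¹ - A) * diagonal (fun i => √(De i)) -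
          (1 - diagonal (fun i => √(De i)) * (χi • (1 : Matrix ι ι ℝ) + β • vecMulVec e e) *
            diagonal (fun i => √(De i)))) * diagonal (fun i => (√(De i))⁻¹))) * Cl = 1 := by
  have hs : ∀ i, √(De i) ≠ 0 := fun i => (Real.sqrt_pos.2 (De0 i)).ne'
  have h1 : diagonal (fun i => (√(De i))⁻¹) * diagonal (fun i => √(De i)) = (1 : Matrix ι ι ℝ) := by
    rw [diagonal_mul_diagonal, ← diagonal_one]; congr 1; funext i; exact inv_mul_cancel₀ (hs i)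
  have h2 : diagonal (fun i => √(De i)) * diagonal (fun i => (√(De i))⁻¹) = (1 : Matrix ι ι ℝ) := by
    rw [diagonal_mul_diagonal, ← diagonal_one]; congr 1; funext i; exact mul_inv_cancel₀ (hs i)
  have h3 : diagonal (fun i => (√(De i))⁻¹) * diagonal (fun i => (√(De i))⁻¹) =
      diagonal (fun i => (De i)⁻¹ - χi) + χi • (1 : Matrix ι ι ℝ) := by
    rw [diagonal_mul_diagonal, ← diagonal_one, ← diagonal_smul, diagonal_add]; congr 1; funext i
    simp only [Pi.smul_apply, smul_eq_mul, mul_one, sub_add_cancel]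
    rw [← mul_inv, Real.mul_self_sqrt (De0 i).le]
  have h4 : ∀ M : Matrix ι ι ℝ, diagonal (fun i => (√(De i))⁻¹) *
      (diagonal (fun i => √(De i)) * M * diagonal (fun i => √(De i))) *
        diagonal (fun i => (√(De i))⁻¹) = M := fun M => by
    rw [← Matrix.mul_assoc, ← Matrix.mul_assoc, h1, Matrix.one_mul, Matrix.mul_assoc, h2,
      Matrix.mul_one]
  rw [Matrix.mul_sub, Matrix.sub_mul, h4, Matrix.mul_sub, Matrix.sub_mul, h4, Matrix.mul_one, h3]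
  refine Eq.trans ?_ (nonsing_inv_mul Cl hd)
  congr 1
  abel

end Crest.Agent.T157.Ba26
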