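import Crest.Agent.T157.OoA_9
import Crest.Agent.T157.O5B_26

set_option autoImplicit false
set_option linter.unusedSectionVars false

/-!
Row 157, A2 (helper26): (g3), (g4) on an orbit from a median bound and the weak variances.
-/

noncomputable section

namespace Crest.Agent.T157.Ba26

open MeasureTheory Matrix Crest.Agent.Lib.OrthPoinc Filter Topology Set
open Crest.Agent.T157.Oc Crest.Agent.T157.E Crest.Agent.T157.SL Crest.Agent.T157.Ks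
open Crest.Agent.T157.Od Crest.Agent.T157.Oo

variable {n k : ℕ} {o : Orb n k} {μ : Measure (Mat k)} [IsProbabilityMeasure μ] {c c0 : Cs}

theorem expH (h : o.Ok) {B H y : ℝ} (hB : 0 < B) (hy : 36 * B * H ≤ ((k : ℝ) - 2) * y ^ 2) :
    Real.exp (-(((k : ℝ) - 2) * y ^ 2 / (36 * B))) ≤ Real.exp (-H) := by
  refine Real.exp_le_exp.2 (neg_le_neg ?_)
  rw [le_div_iff₀ (by positivity)]
  linarith

/-- (g3) from its median; `c0` holds on the whole orbit (`Orb.crude_all`) -/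
theorem g3 (hμ : SOInv μ) (h : o.Ok) (hc : c.Nn) (hc0 : c0.Nn) (h0 : ∀ U ∈ SO k, U ∈ o.G c0)
    {al B M H y : ℝ} (al0 : 0 ≤ al) (hB : 0 < B) (hB' : c.gX1U ≤ B) (M0 : 0 ≤ M) (hM : c0.gX1U ≤ M)
    (y0 : 0 < y) (hy : 36 * B * H ≤ ((k : ℝ) - 2) * y ^ 2)
    (hm : μ.real {U | al < fr (o.A U * o.C U - 1)} ≤ 1 / 2) :
    μ.real {U | 2 * al + 8 * y ^ 2 < fr (o.A U * o.C U - 1)} ≤
      Real.exp (-H) + M / B * μ.real (o.G c)ᶜ := by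
  have e : ∀ U ∈ SO k, fr ((o.A U * o.C U - 1) * o.g U - 0) = fr (o.A U * o.C U - 1) := fun U hU => by
    rw [sub_zero, fr_orth_right (emb_orth h.iso hU)]
  have key := fr_hd hμ h.two (rd_X1 (p := o.p) (σ := sv) h.iso h.symm (Orb.wt0 (o := o)) o.z) 0
    (Orb.measurableSet_G (o := o) (c := c)) hB M0 (Real.sqrt_nonneg al) y0
    (fun U _ hU _ V => (Orb.gX1xU h hc hU V).trans (mul_le_mul_of_nonneg_right hB' fr_nonneg))
    (fun U hU V => (Orb.gX1xU h hc0 (h0 U hU) V).trans (mul_le_mul_of_nonneg_right hM fr_nonneg))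
    (le_trans (real_mono_SO hμ fun U hU hx => by
      have hx' : √al ^ 2 < fr ((o.A U * o.C U - 1) * o.g U - 0) := hx
      rw [e U hU, Real.sq_sqrt al0] at hx'
      exact hx') hm)
  refine le_trans (real_mono_SO hμ fun U hU hx => ?_) (key.trans (add_le_add (expH h hB hy) le_rfl))
  have hx' : 2 * al + 8 * y ^ 2 < fr (o.A U * o.C U - 1) := hx
  show (√al + 2 * y) ^ 2 ≤ fr ((o.A U * o.C U - 1) * o.g U - 0)
  rw [e U hU]
  nlinarith [Real.sq_sqrt al0, sq_nonneg (√al - 2 * y)]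

/-- (g4) from its median -/
theorem g4 (hμ : SOInv μ) (h : o.Ok) (hc : c.Nn) (hc0 : c0.Nn) (h0 : ∀ U ∈ SO k, U ∈ o.G c0)
    {b B M H y : ℝ} (b0 : 0 ≤ b) (hB : 0 < B) (hB' : c.gPhiU ≤ B) (M0 : 0 ≤ M) (hM : c0.gPhiU ≤ M)
    (y0 : 0 < y) (hy : 36 * B * H ≤ ((k : ℝ) - 2) * y ^ 2)
    (hm : μ.real {U | b < fr (o.A U * o.C U * o.A U - o.A U)} ≤ 1 / 2) :
    μ.real {U | 2 * b + 8 * y ^ 2 < fr (o.A U * o.C U * o.A U - o.A U)} ≤
      Real.exp (-H) + M / B * μ.real (o.G c)ᶜ := by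
  have key := fr_hd hμ h.two (rd_Phi (p := o.p) (σ := sv) h.iso h.symm (Orb.wt0 (o := o)) o.z) 0
    (Orb.measurableSet_G (o := o) (c := c)) hB M0 (Real.sqrt_nonneg b) y0
    (fun U _ hU _ V => (hU.2.gPhiU hc (Orb.wt U) (Orb.A_symm h U) (Orb.fam h hU.1) V).trans
      (mul_le_mul_of_nonneg_right hB' fr_nonneg))
    (fun U hU V => ((h0 U hU).2.gPhiU hc0 (Orb.wt U) (Orb.A_symm h U) (Orb.fam h hU) V).trans
      (mul_le_mul_of_nonneg_right hM fr_nonneg))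
    (le_trans (real_mono_SO hμ fun U _ hx => by
      have hx' : √b ^ 2 < fr (o.A U * o.C U * o.A U - o.A U - 0) := hx
      rw [sub_zero, Real.sq_sqrt b0] at hx'
      exact hx') hm)
  refine le_trans (real_mono_SO hμ fun U _ hx => ?_) (key.trans (add_le_add (expH h hB hy) le_rfl))
  have hx' : 2 * b + 8 * y ^ 2 < fr (o.A U * o.C U * o.A U - o.A U) := hx
  show (√b + 2 * y) ^ 2 ≤ fr (o.A U * o.C U * o.A U - o.A U - 0)
  rw [sub_zero]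
  nlinarith [Real.sq_sqrt b0, sq_nonneg (√b - 2 * y)]

/-- the event delivered by (m2) and `MEnd`: new `k1, k2`, `c2`, the weighted resolvent identity -/
structure Ev (o : Orb n k) (De e : Vn n) (l β χi k1 k2 c2 Γ s2 : ℝ) (U : Mat k) : Prop where
  c1 : CB (o.w U) sv k1
  ck : CB (o.w U) (fA (o.A U) sv) k2
  hc : fr (o.C U) ≤ c2
  hΓ : ∀ u, u ⬝ᵥ (o.C U + l • (1 : Mn n)) *ᵥ u ≤ Γ * ∑ i, De i * u i ^ 2
  hs : Op2 (diagonal (fun i => √(De i)) * ((o.C U + l • (1 : Mn n))⁻¹ - o.A U) *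
      diagonal (fun i => √(De i)) - (1 - diagonal (fun i => √(De i)) *
        (χi • (1 : Mn n) + β • vecMulVec e e) * diagonal (fun i => √(De i)))) s2

theorem C_nonneg (U : Mat k) (u : Vn n) : 0 ≤ u ⬝ᵥ o.C U *ᵥ u := (Orb.wt U).covMat_quad_nonneg _ u

theorem det_unit {C : Mn n} (h0 : ∀ u, 0 ≤ u ⬝ᵥ C *ᵥ u) {l : ℝ} (hl : 0 < l) :
    IsUnit (C + l • (1 : Mn n)).det := by
  rw [isUnit_iff_ne_zero]
  intro hd
  obtain ⟨v, hv, h1⟩ := exists_mulVec_eq_zero_iff.2 hd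
  have h2 : v ⬝ᵥ (C + l • (1 : Mn n)) *ᵥ v = 0 := by rw [h1, dotProduct_zero]
  rw [add_mulVec, dotProduct_add, smul_mulVec, one_mulVec, dotProduct_smul, smul_eq_mul] at h2
  have h3 := h0 v
  have h4 : v ⬝ᵥ v = 0 := by
    have : l * (v ⬝ᵥ v) ≤ 0 := by linarith
    exact le_antisymm (by nlinarith [dnn v]) (dnn v)
  exact hv (dotProduct_self_eq_zero.1 h4)

/-- `Ev` gives the hypotheses of `ba` -/
theorem Ev.bh (h : o.Ok) {De e : Vn n} {T : Finset (Fin n)} {l β χi k1 k2 a c2 Γ s2 v v2 : ℝ}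
    {U : Mat k} (hE : Ev o De e l β χi k1 k2 c2 Γ s2 U) (ha : Op2 (o.A U) (a ^ 2)) (k10 : 0 ≤ k1)
    (k20 : 0 ≤ k2) (l0 : 0 < l) (De0 : ∀ i, 0 < De i) (Γ0 : 0 ≤ Γ) (he : e ⬝ᵥ e ≤ 1) (s0 : 0 ≤ s2)
    (half : ∀ i, i ∉ T → 1 / 2 ≤ De i) (hv : ∀ i, i ∉ T → ((De i)⁻¹ - χi) ^ 2 ≤ v ^ 2)
    (hv2 : ∑ i, (if i ∈ T then 0 else ((De i)⁻¹ - χi) ^ 2) ≤ v2) :
    BH (o.A U) (o.C U) (diagonal (fun i => √(De i)) * ((o.C U + l • (1 : Mn n))⁻¹ - o.A U) *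
      diagonal (fun i => √(De i)) - (1 - diagonal (fun i => √(De i)) *
        (χi • (1 : Mn n) + β • vecMulVec e e) * diagonal (fun i => √(De i)))) De e T
      l β χi k1 k2 a c2 Γ s2 v v2 := by
  have hA := Orb.A_symm h U
  have hC : (o.C U)ᵀ = o.C U := covMat_transpose _ _
  refine ⟨hA, hC, ?_, C_nonneg U, hE.c1, fun u => ?_, k10, k20, ha, hE.hc, l0.le, De0, Γ0, hE.hΓ, he,
    s0, hE.hs, hR_of De0 (det_unit (C_nonneg U) l0), half, hv, hv2⟩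
  · simp only [transpose_sub, transpose_mul, diagonal_transpose, transpose_nonsing_inv, transpose_add,
      transpose_smul, transpose_one, hA, hC, transpose_vecMulVec, Matrix.mul_assoc]
  · have := hE.ck u
    rw [covMat_quad, dot_fA hA, ← covMat_quad, ← symm_dot hA, mulVec_mulVec, mulVec_mulVec] at this
    exact this

/-- the bound of `ba` for `|A C - 1|_F²` (`m ≥ |T|`) -/
def alB (n m l β k1 k2 a c2 Γ s2 v : ℝ) : ℝ :=
  m * (2 * (k1 * k2 + 1)) + 2 * (2 * (v ^ 2 * (2 * (c2 + l ^ 2 * n)) + φ n l β k1 Γ s2) +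
    l ^ 2 * (n * a ^ 2))

/-- the bound of `ba` for `|A C A - A|_F²` -/
def bB (n m l β k1 k2 a c2 Γ s2 v v2 : ℝ) : ℝ :=
  2 * (m * (2 * (k2 * k2 + a ^ 2))) + 2 * (2 * (2 * (2 * (v2 + β ^ 2) + 4 * s2 * n) +
    2 * (2 * (v ^ 4 * (2 * (c2 + l ^ 2 * n)) + v ^ 2 * φ n l β k1 Γ s2) +
      2 * (v ^ 2 * φ n l β k1 Γ s2 + 2 * (β ^ 2 * φ n l β k1 Γ s2 +
        2 * s2 * (2 * (β ^ 2 * (Γ * (k1 + l)) + 2 * s2 * (Γ * Γ) * n)))))) +
    l ^ 2 * (n * (a ^ 2 * a ^ 2)))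

/-- **(g3), (g4) for `t ≥ t**`**, no smallness of the a priori `a1`, `b` -/
theorem g34 (hμ : SOInv μ) (h : o.Ok) (hc : c.Nn) (hc0 : c0.Nn) (h0 : ∀ U ∈ SO k, U ∈ o.G c0)
    {De e : Vn n} {T : Finset (Fin n)} {m l β χi k1 k2 c2 Γ s2 v v2 al b B M H y : ℝ}
    (k10 : 0 ≤ k1) (k20 : 0 ≤ k2) (l0 : 0 < l) (De0 : ∀ i, 0 < De i) (Γ0 : 0 ≤ Γ) (he : e ⬝ᵥ e ≤ 1)
    (s0 : 0 ≤ s2) (hT : (T.card : ℝ) ≤ m) (half : ∀ i, i ∉ T → 1 / 2 ≤ De i)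
    (hv : ∀ i, i ∉ T → ((De i)⁻¹ - χi) ^ 2 ≤ v ^ 2)
    (hv2 : ∑ i, (if i ∈ T then 0 else ((De i)⁻¹ - χi) ^ 2) ≤ v2)
    (hm : μ.real {U | ¬ Ev o De e l β χi k1 k2 c2 Γ s2 U} ≤ 1 / 2)
    (al0 : 0 ≤ al) (hal : alB n m l β k1 k2 c0.a c2 Γ s2 v ≤ al)
    (b0 : 0 ≤ b) (hb : bB n m l β k1 k2 c0.a c2 Γ s2 v v2 ≤ b)
    (hB : 0 < B) (hB1 : c.gX1U ≤ B) (hB2 : c.gPhiU ≤ B) (M0 : 0 ≤ M) (hM1 : c0.gX1U ≤ M)
    (hM2 : c0.gPhiU ≤ M) (y0 : 0 < y) (hy : 36 * B * H ≤ ((k : ℝ) - 2) * y ^ 2) :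
    μ.real {U | 2 * al + 8 * y ^ 2 < fr (o.A U * o.C U - 1)} ≤
        Real.exp (-H) + M / B * μ.real (o.G c)ᶜ ∧
      μ.real {U | 2 * b + 8 * y ^ 2 < fr (o.A U * o.C U * o.A U - o.A U)} ≤
        Real.exp (-H) + M / B * μ.real (o.G c)ᶜ := by
  have key : ∀ U ∈ SO k, Ev o De e l β χi k1 k2 c2 Γ s2 U → fr (o.A U * o.C U - 1) ≤ al ∧
      fr (o.A U * o.C U * o.A U - o.A U) ≤ b := fun U hU hE => by
    obtain ⟨h1, h2⟩ := ba (hE.bh h (h0 U hU).2.a k10 k20 l0 De0 Γ0 he s0 half hv hv2)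
    rw [Fintype.card_fin] at h1 h2
    have a1 : (T.card : ℝ) * (2 * (k1 * k2 + 1)) ≤ m * (2 * (k1 * k2 + 1)) :=
      mul_le_mul_of_nonneg_right hT (by positivity)
    have a2 : (T.card : ℝ) * (2 * (k2 * k2 + c0.a ^ 2)) ≤ m * (2 * (k2 * k2 + c0.a ^ 2)) :=
      mul_le_mul_of_nonneg_right hT (by positivity)
    unfold alB at hal
    unfold bB at hb
    constructor <;> linarith
  refine ⟨g3 hμ h hc hc0 h0 al0 hB hB1 M0 hM1 y0 hy (le_trans (real_mono_SO hμ ?_) hm),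
    g4 hμ h hc hc0 h0 b0 hB hB2 M0 hM2 y0 hy (le_trans (real_mono_SO hμ ?_) hm)⟩
  · exact fun U hU hx hE => absurd (key U hU hE).1 (not_le.2 hx)
  · exact fun U hU hx hE => absurd (key U hU hE).2 (not_le.2 hx)

end Crest.Agent.T157.Ba26
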