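import Crest.Agent.T157.OtX_41
import Crest.Agent.T157.O0Def_21

set_option autoImplicit false
set_option linter.unusedSectionVars false

/-!
Row 157, A2 section 3 (helper41): the (T1) half of the orbit hypothesis, in the words of `O0Def_21`.
-/

noncomputable section

namespace Crest.Agent.T157.O0

open MeasureTheory Matrix Set Filter Topology
open Crest.Agent.Lib.OrthPoinc Crest.Agent.T157.E Crest.Agent.T157.Tap
open Crest.Agent.T157.Kp (At anE T1out Sl P5 Sp1)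
open Crest.Agent.T157.Qe (zz)
open Crest.Agent.T157.Oc (SO emb emb_orth)

namespace Y41

variable {n : ℕ}

theorem WW_conj {t e κ : ℝ} {W O : Mx n} (hO : O * Oᵀ = 1) (h : Cw.WW t e κ W) :
    Cw.WW t e κ (O * W * Oᵀ) := by
  obtain ⟨a, ⟨Q, hQ, rfl⟩, h2⟩ := h
  refine ⟨a, ⟨O * Q, ?_, ?_⟩, h2⟩
  · rw [transpose_mul, Matrix.mul_assoc, ← Matrix.mul_assoc Q, hQ, Matrix.one_mul, hO]
  · simp only [transpose_mul, Matrix.mul_assoc]

lemma zz_eq {r : ℝ} (h : r < 1) : zz (1 - r) = 2 + r ^ 2 / (1 - r) := by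
  have : 1 - r ≠ 0 := by linarith
  rw [zz]; field_simp; ring

/-- the second resolvent trace from two first ones -/
theorem sp1_of_WW {t e κ C q : ℝ} {W : Mx n} (h : Cw.WW t e κ W) (q0 : 0 < q) (q1 : q ≤ 1 / 2)
    (ht : t ≤ C * q ^ 2) (e0 : 0 ≤ e) (hC : 1 ≤ C) (he : e * C ≤ 1 / 8) :
    Sp1 2 q W := by
  obtain ⟨a, hd, ha, hr⟩ := h
  have q2 : 0 < q ^ 2 := by positivity
  have et : e * t ≤ q ^ 2 / 8 := by nlinarith [mul_le_mul_of_nonneg_left ht e0]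
  have z1 := zz_eq (r := q) (by linarith)
  have z2 := zz_eq (r := q / 2) (by linarith)
  have a1 : q ^ 2 ≤ q ^ 2 / (1 - q) := le_div_self q2.le (by linarith) (by linarith)
  have a2 : q ^ 2 / (1 - q) ≤ 2 * q ^ 2 := by rw [div_le_iff₀ (by linarith)]; nlinarith
  have a3 : q ^ 2 / 4 ≤ (q / 2) ^ 2 / (1 - q / 2) := by
    rw [le_div_iff₀ (by linarith)]; nlinarith [pow_pos q0 3]
  have a4 : (q / 2) ^ 2 / (1 - q / 2) ≤ q ^ 2 / 3 := by
    rw [div_le_iff₀ (by linarith)]; nlinarith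
  have key : ∀ r ∈ Icc (q / 2) q, q ^ 2 / 4 ≤ zz (1 - r) - 2 → zz (1 - r) - 2 ≤ 2 * q ^ 2 →
      |∑ i, (zz (1 - r) - a i)⁻¹ - n * (1 - r)| ≤ n * q / 4 := fun r h1 h2 h3 => by
    refine ((hr (1 - r) ⟨by linarith [h1.2], by linarith [h1.1]⟩ (by linarith)).1.trans
      (min_le_left _ _)).trans ?_
    have h4 : √(max (zz (1 - r) - 2) t) ≤ 2 * C * q := by
      refine Real.sqrt_le_iff.2 ⟨by positivity, max_le ?_ ?_⟩ <;>
        nlinarith [mul_le_mul_of_nonneg_right hC q2.le,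
          mul_le_mul_of_nonneg_right hC (show 0 ≤ C * q ^ 2 by positivity)]
    calc _ ≤ e * n * (2 * C * q) := mul_le_mul_of_nonneg_left h4 (by positivity)
      _ = 2 * (e * C) * (n * q) := by ring
      _ ≤ 2 * (1 / 8) * (n * q) := by gcongr
      _ = _ := by ring
  have k1 := abs_le.1 (key q ⟨by linarith, le_rfl⟩ (by linarith) (by linarith))
  have k2 := abs_le.1 (key (q / 2) ⟨le_rfl, by linarith⟩ (by linarith) (by linarith))
  refine ⟨a, hd, fun i => ⟨by linarith [(ha i).1], by linarith [(ha i).2]⟩, ?_⟩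
  have k3 : 2 / 3 * q ^ 2 * ∑ i, ((zz (1 - q) - a i) ^ 2)⁻¹ ≤
      ∑ i, (zz (1 - q / 2) - a i)⁻¹ - ∑ i, (zz (1 - q) - a i)⁻¹ := by
    rw [Finset.mul_sum, ← Finset.sum_sub_distrib]
    refine Finset.sum_le_sum fun i _ => ?_
    have b1 : 0 < zz (1 - q / 2) - a i := by linarith [(ha i).2]
    have b2 : 2 / 3 * q ^ 2 ≤ zz (1 - q) - a i - (zz (1 - q / 2) - a i) := by linarith
    generalize zz (1 - q / 2) - a i = u at *
    generalize zz (1 - q) - a i = v at *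
    have b3 : u ≤ v := by linarith
    have b4 : 0 < v := by linarith
    rw [inv_sub_inv b1.ne' b4.ne', ← div_eq_mul_inv]
    exact div_le_div₀ (by linarith) b2 (by positivity) (by nlinarith)
  change ∑ i, ((zz (1 - q) - a i) ^ 2)⁻¹ ≤ _
  rw [le_div_iff₀ q0]
  refine le_of_mul_le_mul_left ?_ q0
  have n0 : (0 : ℝ) ≤ n * q := by positivity
  nlinarith

lemma ev_log (K d : ℝ) : ∀ᶠ n : ℕ in atTop, 0 < d →
    805 ≤ n ∧ 1 ≤ Real.log n ∧ K * Real.log n ^ 4 ≤ (n : ℝ) ^ d := by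
  by_cases hd : 0 < d
  swap
  · exact Eventually.of_forall fun _ h => absurd h hd
  have h1 := ((isLittleO_log_rpow_rpow_atTop (4 : ℝ) hd).const_mul_left K).bound one_pos
  filter_upwards [eventually_ge_atTop 805, tendsto_natCast_atTop_atTop.eventually h1] with n h2 h3 _
  have h4 : (805 : ℝ) ≤ n := by exact_mod_cast h2
  refine ⟨h2, ?_, ?_⟩
  · rw [Real.le_log_iff_exp_le (by linarith)]
    linarith [Real.exp_one_lt_d9]
  · rw [one_mul, Real.norm_of_nonneg (show (0 : ℝ) ≤ (n : ℝ) ^ d by positivity),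
      Real.rpow_ofNat] at h3
    exact (le_abs_self _).trans h3

lemma num {θ H l m Cn g : ℝ} (θ0 : 0 < θ) (θ1 : θ ≤ 1) (g1 : 1 ≤ g) (l0 : 0 ≤ l) (hl : l ≤ g ^ 4)
    (hH : 4 * 10 ^ 11 / θ ^ 2 * g ^ 4 ≤ H) (hC : 32 / θ ≤ Cn) (m0 : 0 ≤ m) (hm : Cn * (m * g) ≤ H) :
    3 * g ≤ H ∧ 50000 * √(2 * l * H) + (4 * m + 82) * g ≤ θ * H / 2 := by
  have g4 : g ≤ g ^ 4 := le_self_pow₀ g1 (by norm_num)
  rw [div_mul_eq_mul_div, div_le_iff₀ (by positivity)] at hH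
  have H0 : 0 ≤ H := le_of_mul_le_mul_right (by linarith) (pow_pos θ0 2)
  have h1 : H * θ ^ 2 ≤ θ * H := by nlinarith [mul_nonneg H0 θ0.le]
  have h2 : θ * H ≤ H := mul_le_of_le_one_left H0 θ1
  have h3 : √(2 * l * H) ≤ θ * H / 400000 := by
    refine Real.sqrt_le_iff.2 ⟨by positivity, ?_⟩
    have a1 : 2 * l * H ≤ 2 * g ^ 4 * H := by gcongr
    nlinarith [mul_le_mul_of_nonneg_right hH H0, mul_nonneg (pow_nonneg (by linarith : 0 ≤ g) 4) H0]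
  have h4 : 32 * (m * g) ≤ θ * H := by
    rw [div_le_iff₀ θ0] at hC
    nlinarith [mul_le_mul_of_nonneg_left hm θ0.le,
      mul_le_mul_of_nonneg_right hC (show 0 ≤ m * g by positivity)]
  constructor <;> linarith

lemma q3 {N d C t q : ℝ} (N0 : 0 < N) (q0 : 0 < q) (C0 : 0 < C) (hC : C ≤ N ^ d)
    (h1 : N ^ d / N ^ (2 / 3 : ℝ) ≤ t) (h2 : t ≤ C * q ^ 2) : 1 ≤ N * q ^ 3 := by
  have r0 : 0 < N ^ (2 / 3 : ℝ) := by positivity
  have e : (N ^ (2 / 3 : ℝ)) ^ 3 = N ^ 2 := by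
    rw [← Real.rpow_natCast, ← Real.rpow_mul N0.le]; norm_num
  have h3 : 1 ≤ N ^ (2 / 3 : ℝ) * q ^ 2 := by
    rw [div_le_iff₀ r0] at h1
    refine le_of_mul_le_mul_left ?_ C0
    nlinarith [mul_le_mul_of_nonneg_right h2 r0.le]
  have h4 := one_le_pow₀ (n := 3) h3
  rw [mul_pow, e] at h4
  exact (pow_le_pow_iff_left₀ zero_le_one (by positivity) two_ne_zero).1 (by nlinarith)

end Y41

open Y41

/-- **both levels are at least `n ^ d`** -/
theorem lev_ge : ∀ᶠ p in FF, ∀ t, p.lo ≤ t →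
    (p.n : ℝ) ^ p.d ≤ p.Hc t ∧ ∀ e, p.Er e t → (p.n : ℝ) ^ p.d ≤ p.Hs e t := by
  filter_upwards [ev_ok, ev_n (Q := fun p => 0 < p.d → 805 ≤ p.n ∧ 1 ≤ Real.log p.n ∧
    1 / p.ef * Real.log p.n ^ 4 ≤ (p.n : ℝ) ^ p.d) fun q => ev_log (1 / q.ef) q.d] with p ok hn t ht
  obtain ⟨n1, g1, h1⟩ := hn ok.d.1
  have N1 : (1 : ℝ) ≤ p.n := by exact_mod_cast (by omega : 1 ≤ p.n)
  have N0 : (0 : ℝ) < p.n := by linarith
  have l0 : 0 < p.lo := by unfold Pm.lo; positivity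
  have d0 := ok.d.1
  have hM : (p.n : ℝ) ^ (3 / 2 * p.d) ≤ p.M t := by
    have a1 : p.lo ^ (3 / 2 : ℝ) ≤ t ^ (3 / 2 : ℝ) := Real.rpow_le_rpow l0.le ht (by norm_num)
    have a2 : (p.n : ℝ) ^ (3 / 2 * p.d) = p.n * p.lo ^ (3 / 2 : ℝ) := by
      rw [Pm.lo, ← Real.rpow_sub N0, ← Real.rpow_mul N0.le, ← Real.rpow_one_add' N0.le (by linarith)]
      congr 1; ring
    rw [a2]
    exact mul_le_mul_of_nonneg_left a1 N0.le
  have hd1 : (p.n : ℝ) ^ p.d ≤ (p.n : ℝ) ^ (3 / 2 * p.d) :=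
    Real.rpow_le_rpow_of_exponent_le N1 (by linarith)
  have hf : (p.n : ℝ) ^ p.d ≤ p.ef * p.n * (1 + t) := by
    have a1 : (p.n : ℝ) ^ p.d * (p.n : ℝ) ^ p.d ≤ p.n := by
      rw [← Real.rpow_add N0]
      exact (Real.rpow_le_rpow_of_exponent_le N1 (by linarith [ok.d.2, ok.ch.2])).trans_eq
        (Real.rpow_one _)
    have a2 : 1 ≤ p.ef * (p.n : ℝ) ^ p.d := by
      rw [← div_le_iff₀' ok.ef]
      exact (le_mul_of_one_le_right (one_div_pos.2 ok.ef).le (one_le_pow₀ g1)).trans h1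
    have a3 : 0 < (p.n : ℝ) ^ p.d := by positivity
    have a4 : p.ef * p.n ≤ p.ef * p.n * (1 + t) :=
      le_mul_of_one_le_right (mul_pos ok.ef N0).le (by linarith)
    nlinarith [mul_le_mul_of_nonneg_left a1 ok.ef.le, mul_le_mul_of_nonneg_right a2 a3.le]
  have M0 : 0 ≤ p.M t := le_trans (by positivity) hM
  refine ⟨le_min ((hd1.trans hM).trans (le_mul_of_one_le_left M0 (by linarith [ok.L]))) hf,
    fun e he => le_min ?_ hf⟩
  have a1 : (p.n : ℝ) ^ (-(p.d / 2)) ≤ e ^ p.A := by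
    refine le_trans ?_ (pow_le_pow_left₀ (by positivity) he.2.2.2 _)
    rw [← Real.rpow_natCast, ← Real.rpow_mul N0.le]
    refine Real.rpow_le_rpow_of_exponent_le N1 ?_
    linarith [ok.cv', ok.k3.2, ok.k2.2, ok.k4.2]
  refine le_trans ?_ (mul_le_mul a1 hM (by positivity) (pow_pos he.1 _).le)
  rw [← Real.rpow_add N0]
  exact Real.rpow_le_rpow_of_exponent_le N1 (by linarith)

/-- the first-moment inputs of (T1) -/
structure G3 (p : Pm) (t H l : ℝ) (x : V p.n) (W : Mx p.n) : Prop where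
  q0 : 0 < aS x
  q1 : aS x ≤ 1 / 2
  qt : t ≤ p.C * aS x ^ 2
  cnt : p.Cn * ((Sl l x).card * Real.log p.n) ≤ H
  pos : P5 (Sl l x) x W

/-- **the (T1) half of `OrbC` and `OrbS`** -/
theorem t1FF : ∀ᶠ p in FF, ∀ t, p.lo ≤ t → ∀ e H l : ℝ, 0 < e → e ≤ p.e1 → (p.n : ℝ) ^ p.d ≤ H →
    l ∈ Icc 1 (Real.log p.n ^ 4) → ∀ B : Bad p.n,
    (∀ s, MeasurableSet {z : V p.n × Mx p.n | B z.1 z.2 s}) →
    (∀ x, ∀ W ∈ p.Wt e t, ¬ G3 p t H l x W → ∀ s, B x W s) →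
    ∀ (x : V p.n) (k : ℕ) (μ : Measure (Mat k)) [IsProbabilityMeasure μ] (o : Oo.Orb p.n k),
      SOInv μ → At o x → o.W ∈ p.Wt e t → anE o μ x B ≤ Real.exp (-(5 * H)) →
      T1out o μ x (Real.exp (p.th t * H / 2)) (Real.exp (-(4 * H))) := by
  filter_upwards [ev_ok, ev_e1 fun q => ev_sm (1 / (8 * q.C)),
    ev_Cn fun q => ev_ge (32 / (q.eta * q.t2 / 8)),
    ev_n (Q := fun p => 0 < p.d → 805 ≤ p.n ∧ 1 ≤ Real.log p.n ∧
      p.C * Real.log p.n ^ 4 ≤ (p.n : ℝ) ^ p.d) fun q => ev_log q.C q.d,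
    ev_n (Q := fun p => 0 < p.d → 805 ≤ p.n ∧ 1 ≤ Real.log p.n ∧
      4 * 10 ^ 11 / (p.eta * p.t2 / 8) ^ 2 * Real.log p.n ^ 4 ≤ (p.n : ℝ) ^ p.d)
      fun q => ev_log (4 * 10 ^ 11 / (q.eta * q.t2 / 8) ^ 2) q.d]
    with p ok h1 h2 h3 h4 t ht e H l e0 e1 hH hl B mB hB x k μ _ o hμ hx hW ha
  obtain ⟨n1, g1, h3⟩ := h3 ok.d.1
  obtain ⟨-, -, h4⟩ := h4 ok.d.1
  have hC := ok.C
  have hK := ok.K
  have hL := ok.L
  have hf := ok.ef
  have N0 : (0 : ℝ) < p.n := by exact_mod_cast (by omega : 0 < p.n)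
  have l0 : 0 < p.lo := by unfold Pm.lo; positivity
  have H0 : 0 < H := lt_of_lt_of_le (by positivity) hH
  have hO : ∀ U ∈ SO k, o.Wu U ∈ p.Wt e t := fun U hU => WW_conj (emb_orth hx.ok.iso hU) hW
  have hlt : anE o μ x B < 1 := ha.trans_lt (Real.exp_lt_one_iff.2 (by linarith))
  have g : (0 < aS x ∧ aS x ≤ 1 / 2) ∧ t ≤ p.C * aS x ^ 2 ∧
      p.Cn * ((Sl l x).card * Real.log p.n) ≤ H :=
    Kp.of_anE_lt hμ hx.ok mB hlt fun h U hU => hB x _ (hO U hU) fun g => h ⟨⟨g.q0, g.q1⟩, g.qt, g.cnt⟩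
  have t20 : 0 < p.t2 := by unfold Pm.t2; positivity
  have t21 : p.t2 ≤ 1 := Real.rpow_le_one (by positivity) (by
    rw [div_le_one (by positivity)]
    nlinarith [ok.ef', ok.t0.1, ok.t0.2]) (by norm_num)
  have η0 : 0 < p.eta := by unfold Pm.eta; positivity
  have η1 : p.eta ≤ 1 := by unfold Pm.eta; rw [div_le_one (by positivity)]; linarith
  have θ1 : p.eta * p.t2 ≤ p.eta := mul_le_of_le_one_right η0.le t21
  have hθ : p.eta * p.t2 / 8 ≤ p.th t := by unfold Pm.th; split_ifs <;> linarith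
  have e8 : p.e1 ≤ 1 / (8 * p.C) := h1.2 (by show 0 < 1 / (8 * p.C); positivity)
  have eC : e ^ p.A * p.C ≤ 1 / 8 := by
    rw [le_div_iff₀ (by positivity)] at e8
    have a1 : e * p.C ≤ 1 / 8 := by nlinarith
    have a2 : e ^ p.A ≤ e := pow_le_of_le_one e0.le (by nlinarith) (by have := ok.A; omega)
    nlinarith
  have sp := sp1_of_WW hW g.1.1 g.1.2 ((min_le_left _ _).trans g.2.1)
    (by positivity) hC eC
  have hq := q3 N0 g.1.1 (by linarith)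
    ((le_mul_of_one_le_right (by linarith) (one_le_pow₀ g1)).trans h3) ht g.2.1
  obtain ⟨n2, n3⟩ := num (by positivity) (by linarith) g1 (by linarith [hl.1]) hl.2 (h4.trans hH) h2
    (Nat.cast_nonneg _) g.2.2
  refine (Kp.t1out hμ hx n1 one_le_two hl.1 g.1.1 g.1.2 hq sp n2 (le_trans (Kp.P_le_anE hμ hx.ok mB
    fun U hU h => hB x _ (hO U hU) fun g => h g.pos) ha)).mono hμ hx.ok
    (Real.exp_le_exp.2 (n3.trans ?_)) le_rfl
  gcongr

end Crest.Agent.T157.O0
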