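import Crest.Agent.T157.KbMg_67
import Crest.Agent.T157.OtY_41
import Crest.Agent.T157.OgDef_9

/-!
# Row 157, part A2, section 2 (helper10): the good event `G1` in the words of `(x, W, s)`; (T1)
-/

set_option autoImplicit false

noncomputable section

namespace Crest.Agent.T157.Kb

open MeasureTheory Matrix Set Filter
open Crest.Agent.T157.E Crest.Agent.T157.Cond Crest.Agent.T157.Tap
open Crest.Agent.T157.Qe (Le bv)
open Crest.Agent.T157.Kp (Sl P5)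
open Crest.Agent.T157.TapPl

variable {n : ℕ}

namespace Bk10

section conj
variable {O : Mx n} (hO : O * Oᵀ = 1)
include hO

lemma mv_conj (M : Mx n) (v : V n) : (O * M * Oᵀ) *ᵥ (O *ᵥ v) = O *ᵥ (M *ᵥ v) := by
  rw [mulVec_mulVec, Matrix.mul_assoc, mul_eq_one_comm.1 hO, Matrix.mul_one, mulVec_mulVec]

lemma dot_conj (u v : V n) : (O *ᵥ u) ⬝ᵥ (O *ᵥ v) = u ⬝ᵥ v := by
  rw [dotProduct_mulVec, vecMul_mulVec, mul_eq_one_comm.1 hO, vecMul_one]

lemma bv_conj (e c : V n) : bv (O *ᵥ e) (O *ᵥ c) = O *ᵥ bv e c := by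
  simp only [bv, Qe.R1, sub_mulVec, one_mulVec, vecMulVec_mulVec, dot_conj hO, mulVec_sub,
    op_smul_eq_smul, mulVec_smul]

lemma unitv_conj (u : V n) : unitv (O *ᵥ u) = O *ᵥ unitv u := by
  rw [unitv, unitv, len, len, dot_conj hO, mulVec_smul]

lemma Le_conj {A B : Mx n} (h : Le (O * A * Oᵀ) (O * B * Oᵀ)) : Le A B := fun u => by
  have := h (O *ᵥ u)
  rwa [mv_conj hO, mv_conj hO, dot_conj hO, dot_conj hO] at this

lemma sm_conj (z : ℝ) : O * (z • (1 : Mx n)) * Oᵀ = z • (1 : Mx n) := by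
  rw [Matrix.mul_smul, Matrix.mul_one, Matrix.smul_mul, hO]

lemma tr_conj (z : ℝ) (W : Mx n) :
    (z • (1 : Mx n) - O * W * Oᵀ)⁻¹.trace = (z • (1 : Mx n) - W)⁻¹.trace := by
  have h' := mul_eq_one_comm.1 hO
  rw [← sm_conj hO z, ← Matrix.sub_mul, ← Matrix.mul_sub, sm_conj hO, Matrix.mul_inv_rev,
    Matrix.mul_inv_rev, inv_eq_right_inv hO, inv_eq_right_inv h', trace_mul_comm,
    Matrix.mul_assoc, h', Matrix.mul_one]

end conj

lemma vv_conj (O : Mx n) (u v : V n) : O * vecMulVec u v * Oᵀ = vecMulVec (O *ᵥ u) (O *ᵥ v) := by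
  rw [mul_vecMulVec, vecMulVec_mul, vecMul_transpose]

section sign
variable {σ : V n} (h : Pl.IsSign σ)
include h

lemma avg_even (F : ℝ → ℝ) (hF : ∀ y, F (-y) = F y) (x : V n) :
    avg (fun i => F ((σ * x) i)) = avg fun i => F (x i) := by
  congr 1; funext i
  rcases h i with e | e <;> simp [e, hF]

lemma aS_sign (x : V n) : aS (σ * x) = aS x :=
  avg_even h (fun y => Real.tanh y ^ 2) (fun y => by rw [Real.tanh_neg]; ring) x

lemma R4_sign (x : V n) : R4 (σ * x) = R4 x :=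
  avg_even h (fun y => Real.tanh y * (y - Real.tanh y)) (fun y => by rw [Real.tanh_neg]; ring) x

lemma p4_sign (x : V n) : avg (fun i => th (σ * x) i ^ 4) = avg fun i => th x i ^ 4 :=
  avg_even h (fun y => Real.tanh y ^ 4) (fun y => by rw [Real.tanh_neg]; ring) x

lemma p6_sign (x : V n) : avg (fun i => th (σ * x) i ^ 6) = avg fun i => th x i ^ 6 :=
  avg_even h (fun y => Real.tanh y ^ 6) (fun y => by rw [Real.tanh_neg]; ring) x

lemma e8_sign (x : V n) : avg (fun i => min ((σ * x) i ^ 8) ((σ * x) i ^ 2)) =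
    avg fun i => min (x i ^ 8) (x i ^ 2) :=
  avg_even h (fun y => min (y ^ 8) (y ^ 2)) (fun y => by ring_nf) x

lemma Sl_sign (l : ℝ) (x : V n) : Sl l (σ * x) = Sl l x := by
  ext i
  simp only [Sl, Finset.mem_filter, aS_sign h, th_sign h, Pi.mul_apply, mul_pow,
    show σ i ^ 2 = 1 by rw [sq, sign_mul_self h], one_mul]

omit h in
lemma dg_mv (σ u : V n) : diagonal σ *ᵥ u = σ * u := by funext i; simp [mulVec_diagonal]

lemma dg_orth : diagonal σ * (diagonal σ)ᵀ = (1 : Mx n) := by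
  rw [diagonal_transpose, diag_mul_self h]

omit h in
lemma cj_eq (σ : V n) (W : Mx n) : cj σ W = diagonal σ * W * (diagonal σ)ᵀ := by
  rw [diagonal_transpose, cj]

lemma ee_sign (x : V n) : ee (σ * x) = σ * ee x := by
  rw [ee, th_sign h, ← dg_mv, unitv_conj (dg_orth h), dg_mv, ee]

lemma f2_sign (x : V n) : f2 (σ * x) = σ * f2 x := by
  rw [f2, th_sign h, ← dg_mv σ x, ← dg_mv σ (th x), unitv_conj (dg_orth h), bv_conj (dg_orth h),
    unitv_conj (dg_orth h), dg_mv, f2]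

lemma AT_cj (S : Finset (Fin n)) (x : V n) (W : Mx n) :
    AT S (σ * x) (cj σ W) = cj σ (AT S x W) := by
  have e : cj σ (diagonal fun i => if i ∈ S then 1 else Real.cosh (x i) ^ 2) =
      diagonal fun i => if i ∈ S then 1 else Real.cosh ((σ * x) i) ^ 2 := by
    rw [cj, diagonal_mul_diagonal, diagonal_mul_diagonal]
    congr 1; funext i
    rcases h i with e | e <;> by_cases hi : i ∈ S <;> simp [e, hi]
  rw [AT, AT, cj_sub, cj_sub, cj_add, cj_smul, cj_smul, cj_one h, cj_vecMulVec, e, aS_sign h,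
    th_sign h]

lemma P5_cj {S : Finset (Fin n)} {x : V n} {W : Mx n} (k : P5 S (σ * x) (cj σ W)) : P5 S x W := by
  refine Le_conj (dg_orth h) ?_
  rw [← cj_eq, ← cj_eq, ← AT_cj h, cj_smul, cj_sub, cj_smul, cj_one h, ← aS_sign h x]
  exact k

lemma Pos_AT_cj {l : ℝ} {S : Finset (Fin n)} {x : V n} {W : Mx n}
    (k : Pos l (AT S (σ * x) (cj σ W))) : Pos l (AT S x W) := by
  have := Pos_cj h k
  rwa [AT_cj h, cj_cj h] at this

end sign

lemma AT_mono {S S' : Finset (Fin n)} (hS : S' ⊆ S) (x : V n) (W : Mx n) :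
    Le (AT S x W) (AT S' x W) := fun u => by
  simp only [AT, sub_mulVec, add_mulVec, dotProduct_sub, dotProduct_add]
  gcongr
  refine Finset.sum_le_sum fun i _ => ?_
  rw [mulVec_diagonal, mulVec_diagonal, mul_left_comm, mul_left_comm (u i)]
  refine mul_le_mul_of_nonneg_right ?_ (mul_self_nonneg _)
  by_cases h' : i ∈ S'
  · simp [h', hS h']
  · rw [if_neg h']
    split_ifs
    · exact one_le_pow₀ (Real.one_le_cosh _)
    · exact le_rfl

lemma Sl_anti {l l' : ℝ} (hl : l ≤ l') (x : V n) : Sl l' x ⊆ Sl l x := fun i hi => by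
  simp only [Sl, Finset.mem_filter, Finset.mem_univ, true_and] at hi ⊢
  exact (mul_le_mul_of_nonneg_right hl (Cell.aS_nonneg x)).trans hi

lemma P5_mono {S S' : Finset (Fin n)} (hS : S' ⊆ S) {x : V n} {W : Mx n} (h : P5 S x W) :
    P5 S' x W := fun u => (h u).trans (AT_mono hS x W u)

lemma Pos_mono {S S' : Finset (Fin n)} (hS : S' ⊆ S) {l : ℝ} {x : V n} {W : Mx n}
    (h : Pos l (AT S x W)) : Pos l (AT S' x W) := fun u => (h u).trans (AT_mono hS x W u)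

lemma pp_eq (x : V n) : th x ⬝ᵥ th x = n * aS x := by
  rcases Nat.eq_zero_or_pos n with rfl | hn
  · simp [dotProduct]
  · rw [aS, avg, mul_div_cancel₀ _ (by positivity)]; simp only [dotProduct, sq]

end Bk10

open Bk10

/-- the gauge-free facts on `x` -/
structure Xb (L T η H t : ℝ) (x : V n) : Prop where
  q1 : t ≤ T * aS x ^ 2
  q2 : aS x ^ 2 ≤ T * t
  qu : aS x ^ 2 ≤ (L / 50) ^ 2 * t
  r4 : |R4 x - aS x ^ 2| ≤ η ^ 30 * aS x ^ 2
  p4 : |avg (fun i => th x i ^ 4) - 3 * aS x ^ 2 + 8 * aS x ^ 3| ≤ η ^ 30 * aS x ^ 3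
  p6 : |avg (fun i => th x i ^ 6) - 15 * aS x ^ 3| ≤ η ^ 30 * aS x ^ 3
  e8 : avg (fun i => min (x i ^ 8) (x i ^ 2)) ≤ η ^ 30 * aS x ^ 3
  c1 : ((Sl (Real.log n ^ 2) x).card : ℝ) ≤ m1 n T H t
  c2 : ((Sl (lam T t) x).card : ℝ) ≤ η ^ 30 * aS x ^ 3 * n
  un : ee x ⬝ᵥ ee x = 1

/-- the gauge-free facts on `(x, W)` that are constant along the orbit -/
structure Wb (T η H : ℝ) (x : V n) (W : Mx n) : Prop where
  ha : HA (η ^ 3) η x W
  tr : TR (T * H) x W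
  s1 : aS x / T ≤ 2 - ee x ⬝ᵥ W *ᵥ ee x
  s2 : 2 - ee x ⬝ᵥ W *ᵥ ee x ≤ T * aS x
  s3 : |bv (ee x) (W *ᵥ ee x) ⬝ᵥ bv (ee x) (W *ᵥ ee x) - (2 - ee x ⬝ᵥ W *ᵥ ee x)| ≤
    η ^ 27 * (2 - ee x ⬝ᵥ W *ᵥ ee x)

/-- the part of the good event that is constant along the orbit -/
structure Gi (L T η H t : ℝ) (x : V n) (W : Mx n) : Prop extends Xb L T η H t x, Wb T η H x W

/-- **the good event in the words of `(x, W)`** -/
structure Gb (L T η H t : ℝ) (x : V n) (W : Mx n) : Prop extends Gi L T η H t x W where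
  pos : Pos ((1 - 2 * η ^ 3) * aS x ^ 2) (AT (Sl (lam T t) x) x W)
  p5 : P5 (Sl (lam T t) x) x W

variable {L T η H t : ℝ} {x : V n} {W : Mx n}

theorem Wb.conj {O : Mx n} (hO : O * Oᵀ = 1) {y : V n} (hq : aS y = aS x)
    (he : ee y = O *ᵥ ee x) (hf : f2 y = O *ᵥ f2 x) (h : Wb T η H y (O * W * Oᵀ)) :
    Wb T η H x W := by
  obtain ⟨h1, h2, h3, h4, h5⟩ := h
  rw [he, mv_conj hO, dot_conj hO] at h3 h4 h5
  rw [bv_conj hO, dot_conj hO] at h5
  rw [TR, tr_conj hO, hq] at h2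
  refine ⟨Le_conj hO ?_, h2, hq ▸ h3, hq ▸ h4, h5⟩
  rw [sm_conj hO, Matrix.mul_add, Matrix.add_mul, Matrix.mul_smul, Matrix.smul_mul, vv_conj, ← hf,
    ← hq]
  exact h1

theorem G1.gb (h : G1 L T η H t x W) : Gb L T η H t x W :=
  ⟨⟨⟨h.co.q1, h.co.q2, h.qu, h.co.r4, h.xm.p4, h.xm.p6, h.xm.e8, h.c1, h.c2, h.col.unit⟩,
    ⟨h.ha, h.tr, h.col.s1, h.col.s2, h.col.s3⟩⟩, h.pos, h.p5⟩

theorem Gb.sign {σ : V n} (hσ : Pl.IsSign σ) (h : Gb L T η H t (σ * x) (cj σ W)) :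
    Gb L T η H t x W := by
  have w : Wb T η H x W := Wb.conj (dg_orth hσ) (aS_sign hσ x) (by rw [dg_mv, ee_sign hσ])
    (by rw [dg_mv, f2_sign hσ]) (cj_eq σ W ▸ h.toWb)
  have a1 := Pos_AT_cj hσ h.pos
  have a2 := P5_cj hσ h.p5
  obtain ⟨h1, h2, h3, h4, h5, h6, h7, h8, h9, h10⟩ := h.toXb
  rw [ee_sign hσ, dot_sign hσ] at h10
  rw [e8_sign hσ] at h7
  rw [p6_sign hσ] at h6
  rw [p4_sign hσ] at h5
  rw [R4_sign hσ] at h4
  rw [Sl_sign hσ] at h8 h9 a1 a2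
  rw [aS_sign hσ] at h1 h2 h3 h4 h5 h6 h7 h9 a1
  exact ⟨⟨⟨h1, h2, h3, h4, h5, h6, h7, h8, h9, h10⟩, w⟩, a1, a2⟩

/-- **gauge back** -/
theorem G1.back {s : Cube n} (h : G1 L T η H t (gz s (x, W)).1 (gz s (x, W)).2) :
    Gb L T η H t x W := h.gb.sign (Pl.isSign_sv s)

theorem Sh.back {ε : ℝ} {s : Cube n} (h : Sh ε t (gz s (x, W)).1) : |aS x ^ 2 - t| ≤ ε * t :=
  aS_sign (Pl.isSign_sv s) x ▸ h.1

theorem Xb.q0 (h : Xb L T η H t x) (ht : 0 < t) : 0 < aS x :=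
  (Cell.aS_nonneg x).lt_of_ne' fun h0 => by have := h.q1; rw [h0] at this; linarith

/-- the column `(z - W) e` -/
theorem Gi.col (h : Gi L T η H t x W) (hT : 0 ≤ T) (hη : η ^ 27 ≤ 1) (z : ℝ) :
    ((z • (1 : Mx n) - W) *ᵥ ee x) ⬝ᵥ ((z • (1 : Mx n) - W) *ᵥ ee x) ≤
      2 * (z - 2) ^ 2 + 2 * (T * aS x) ^ 2 + 2 * (T * aS x) := by
  have h1 := h.un
  have h2 := h.s2
  have h3 := abs_le.1 h.s3
  have h4 : 0 ≤ 2 - ee x ⬝ᵥ W *ᵥ ee x := (div_nonneg (Cell.aS_nonneg x) hT).trans h.s1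
  simp only [bv, Qe.R1, sub_mulVec, one_mulVec, vecMulVec_mulVec, op_smul_eq_smul, smul_mulVec,
    sub_dotProduct, dotProduct_sub, smul_dotProduct, dotProduct_smul, smul_eq_mul, h1,
    dotProduct_comm (W *ᵥ ee x) (ee x)] at h3 ⊢
  generalize ee x ⬝ᵥ W *ᵥ ee x = a at *
  nlinarith [h3.2, mul_le_mul_of_nonneg_right hη h4, sq_nonneg (z - 2 - (2 - a)),
    mul_self_le_mul_self h4 h2]

/-- the overlap of the spins with `e` -/
theorem G1.es {s : Cube n} (h : G1 L T η H t (gz s (x, W)).1 (gz s (x, W)).2) :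
    (ee x ⬝ᵥ sv s) ^ 2 ≤ T ^ 2 * n * aS x := by
  have hσ := Pl.isSign_sv s
  have a := h.co.a1
  have q0 := Cell.aS_nonneg x
  simp only [gz, aS_sign hσ, bS, th_sign hσ] at a
  rcases Nat.eq_zero_or_pos n with rfl | hn
  · simp [dotProduct]
  have n0 : (0 : ℝ) < n := by positivity
  have e1 : th x ⬝ᵥ sv s = n * avg (sv s * th x) := by
    rw [avg, mul_div_cancel₀ _ n0.ne', dotProduct_comm]; rfl
  rw [ee, unitv, smul_dotProduct, smul_eq_mul, mul_pow, inv_pow, len_sq, pp_eq, e1]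
  rcases q0.eq_or_lt with e | q0
  · rw [← e]; simp
  rw [inv_mul_le_iff₀ (by positivity)]
  have := sq_le_sq' (abs_le.1 a).1 (abs_le.1 a).2
  nlinarith [mul_le_mul_of_nonneg_left this (sq_nonneg (n : ℝ))]

/-! ### the inputs of (T1) -/

open O0 (FF Pm G3 ev_ok ev_L ev_T ev_C ev_t0 ev_n ev_ge ev_sm)

theorem ev_g3 : ∀ᶠ p in FF, ∀ t ∈ Icc p.lo p.t0, ∀ (η H : ℝ) (x : V p.n) (W : Mx p.n),
    (p.n : ℝ) ^ p.d ≤ H → p.ef * (p.n * t ^ 2) ≤ H → Gb p.L p.T η H t x W →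
    G3 p t H (Real.log p.n ^ 2) x W := by
  filter_upwards [ev_ok, ev_C fun q => ev_ge q.T, ev_t0 fun q => ev_sm ((25 / q.L) ^ 2),
    ev_n (Q := fun p => 0 < p.d → 805 ≤ p.n ∧ 1 ≤ Real.log p.n ∧
      1 * Real.log p.n ^ 4 ≤ (p.n : ℝ) ^ p.d) fun q => O0.Y41.ev_log 1 q.d,
    ev_n (Q := fun p => p.Cn * p.T * (2 + 1 / p.ef) ≤ Real.log p.n) fun q =>
      (Real.tendsto_log_atTop.comp tendsto_natCast_atTop_atTop).eventually_ge_atTop
        (q.Cn * q.T * (2 + 1 / q.ef))]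
    with p ok hC h0 hn hl t ht η H x W H1 H2 h
  obtain ⟨n1, g1, hn⟩ := hn ok.d.1
  have hL := ok.L
  have hT := ok.T
  have hf := ok.ef
  have hCn := ok.Cn
  have N1 : (1 : ℝ) ≤ p.n := by exact_mod_cast (by omega : 1 ≤ p.n)
  have l0 : 0 < p.lo := by unfold Pm.lo; positivity
  have t0 : 0 < t := l0.trans_le ht.1
  have q0 := h.toXb.q0 t0
  have H0 : 0 < H := lt_of_lt_of_le (by positivity) H1
  have hC : p.T ≤ p.C := hC
  have h0 : p.t0 ≤ (25 / p.L) ^ 2 := h0.2 (by show 0 < (25 / p.L) ^ 2; positivity)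
  have H3 : Real.log p.n ≤ H := by linarith [le_self_pow₀ g1 (n := 4) (by norm_num)]
  have H4 : p.n * t ^ 2 ≤ 1 / p.ef * H := by rwa [one_div, le_inv_mul_iff₀ hf]
  have f0 : 0 < 1 / p.ef := by positivity
  have Tl : p.T ≤ Real.log p.n := by
    nlinarith [mul_le_mul hCn (le_refl p.T) (by linarith) (by linarith),
      mul_pos (show 0 < p.Cn * p.T by positivity) f0]
  refine ⟨q0, ?_, h.q1.trans (by gcongr), ?_, P5_mono (Sl_anti ?_ x) h.p5⟩
  · refine abs_le_of_sq_le_sq' (h.qu.trans ?_) (by norm_num) |>.2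
    calc _ ≤ (p.L / 50) ^ 2 * (25 / p.L) ^ 2 := by gcongr; exact ht.2.trans h0
      _ = _ := by field_simp; norm_num
  · have c := h.c1
    rw [m1, le_div_iff₀ (by positivity)] at c
    refine le_of_mul_le_mul_right ?_ (show 0 < Real.log p.n by linarith)
    calc _ = p.Cn * ((Sl (Real.log p.n ^ 2) x).card * Real.log p.n ^ 2) := by ring
      _ ≤ p.Cn * (p.T * (H + 1 / p.ef * H + H)) := by
        refine mul_le_mul_of_nonneg_left (c.trans ?_) (by linarith)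
        gcongr
      _ = H * (p.Cn * p.T * (2 + 1 / p.ef)) := by ring
      _ ≤ _ := by gcongr
  · rw [lam, sq]
    refine mul_le_mul Tl (Real.log_le_log (by positivity) ?_) (Real.log_nonneg ?_) (by linarith)
    · rw [div_le_iff₀ t0]
      refine le_trans ?_ (mul_le_mul_of_nonneg_left ht.1 (by linarith))
      rw [Pm.lo, mul_div_assoc', le_div_iff₀ (by positivity), one_mul]
      refine le_trans ?_ (le_mul_of_one_le_right (by linarith) (Real.one_le_rpow N1 ok.d.1.le))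
      exact (Real.rpow_le_rpow_of_exponent_le N1 (by norm_num)).trans_eq (Real.rpow_one _)
    · rw [le_div_iff₀ t0]
      linarith [ht.2, ok.t0.2]

/-- both levels dominate `ef n t²` -/
theorem lev_t2 {p : Pm} (ok : p.Ok) {t : ℝ} (t0 : 0 < t) (ht : t ≤ p.t0) :
    p.ef * (p.n * t ^ 2) ≤ p.Hc t ∧ ∀ e, p.Er e t → p.ef * (p.n * t ^ 2) ≤ p.Hs e t := by
  have t1 : t ≤ 1 := by linarith [ok.t0.2]
  have hf := ok.ef
  have f1 : p.ef ≤ 1 := ok.ef'.trans (pow_le_one₀ ok.t0.1.le (by linarith [ok.t0.2]))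
  have a0 : 0 ≤ p.n * t ^ 2 := by positivity
  have a1 : p.ef * (p.n * t ^ 2) ≤ p.ef * p.n * (1 + t) := by
    rw [mul_assoc]
    gcongr
    nlinarith
  have a2 : ∀ c, t ^ (1 / 2 : ℝ) ≤ c → p.ef * (p.n * t ^ 2) ≤ c * p.M t := fun c hc => by
    refine (mul_le_of_le_one_left a0 f1).trans ?_
    have : t ^ 2 = t ^ (1 / 2 : ℝ) * t ^ (3 / 2 : ℝ) := by
      rw [← Real.rpow_add t0, ← Real.rpow_natCast]; norm_num
    rw [Pm.M, this, mul_left_comm]
    gcongr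
  refine ⟨le_min (a2 _ ((Real.rpow_le_one t0.le t1 (by norm_num)).trans (by linarith [ok.L]))) a1,
    fun e he => le_min (a2 _ ?_) a1⟩
  refine le_trans ?_ (pow_le_pow_left₀ (by positivity) he.2.2.1 _)
  rw [← Real.rpow_natCast, ← Real.rpow_mul t0.le]
  refine Real.rpow_le_rpow_of_exponent_ge t0 t1 ?_
  linarith [ok.cv', ok.k3.2, ok.k2.2, ok.k4.2, ok.d.2, ok.ch.2]

/-- **the inputs of (T1) from the base events** -/
theorem g3_of : ∀ᶠ p in FF, ∀ t ∈ Icc p.lo p.t0, ∀ (x : V p.n) (W : Mx p.n) (s : Cube p.n),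
    (¬ base.c p t x W s → G3 p t (p.Hc t) (Real.log p.n ^ 2) x W) ∧
    ∀ e, p.Er e t → ¬ base.s p e t x W s → G3 p t (p.Hs e t) (Real.log p.n ^ 2) x W := by
  filter_upwards [ev_ok, ev_g3, O0.lev_ge, ev_n (Q := fun p => 1 ≤ p.n) fun _ =>
    eventually_ge_atTop 1] with p ok h1 h2 hn t ht x W s
  have t0 : 0 < t := lt_of_lt_of_le (by unfold Pm.lo; positivity) ht.1
  have h3 := lev_t2 ok t0 ht.2
  exact ⟨fun h => h1 t ht _ _ x W (h2 t ht.1).1 h3.1 (not_not.1 h).back,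
    fun e he h => h1 t ht _ _ x W ((h2 t ht.1).2 e he) (h3.2 e he) (not_not.1 h).1.back⟩

theorem meas_c (p : Pm) (t : ℝ) (s : Cube p.n) :
    MeasurableSet {z : V p.n × Mx p.n | base.c p t z.1 z.2 s} :=
  (Ga98.meas_gz s ((measG p.n p.T 0 p.e1 0 0 0 t).2.2.2.2.2.2.2.2.2 p.L (p.Hc t))).compl

theorem meas_s (p : Pm) (e t : ℝ) (s : Cube p.n) :
    MeasurableSet {z : V p.n × Mx p.n | base.s p e t z.1 z.2 s} :=
  (Ga98.meas_gz s (((measG p.n p.T 0 (e ^ 2) 0 0 0 t).2.2.2.2.2.2.2.2.2 p.L (p.Hs e t)).inter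
    (measurable_fst (measG p.n 0 ((e ^ 2) ^ 3) 0 0 0 0 t).2.1))).compl

lemma ev_lg : ∀ᶠ p in FF, Real.log p.n ^ 2 ∈ Icc 1 (Real.log p.n ^ 4) := by
  filter_upwards [ev_n (Q := fun p => 1 ≤ Real.log p.n) fun q =>
    (Real.tendsto_log_atTop.comp tendsto_natCast_atTop_atTop).eventually_ge_atTop 1] with p h
  exact ⟨one_le_pow₀ h, pow_le_pow_right₀ h (by norm_num)⟩

/-- **(T1), crude** -/
theorem t1C : Og.T1C base := by
  filter_upwards [ev_ok, g3_of, O0.lev_ge, O0.t1FF, ev_lg] with p ok h1 h2 h3 h4 t ht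
  exact h3 t ht.1 p.e1 _ _ ok.e1.1 le_rfl (h2 t ht.1).1 h4 _ (meas_c p t)
    fun x W _ h s => by_contra fun k => h ((h1 t ht x W s).1 k)

/-- **(T1), sharp** -/
theorem t1S : Og.T1S base := by
  filter_upwards [g3_of, O0.lev_ge, O0.t1FF, ev_lg] with p h1 h2 h3 h4 t ht e he
  exact h3 t ht.1 e _ _ he.1 he.2.1 ((h2 t ht.1).2 e he) h4 _ (meas_s p e t)
    fun x W _ h s => by_contra fun k => h ((h1 t ht x W s).2 e he k)

/-! ### on the orbit -/

section orb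
open Crest.Agent.Lib.OrthPoinc
open Crest.Agent.T157.Oc (SO emb emb_orth emb_mulVec)
open Crest.Agent.T157.Kp (At anE)

variable {k : ℕ} {o : Oo.Orb n k} {μ : Measure (Mat k)} [IsProbabilityMeasure μ]
  {B : V n → Mx n → Cube n → Prop}

theorem at_ee (a : At o x) : o.Eᵀ *ᵥ ee x = 0 := by
  rw [ee, unitv, mulVec_smul, ← a.p, a.ok.ep, smul_zero]

theorem at_f2 (a : At o x) : o.Eᵀ *ᵥ f2 x = 0 := by
  have ep : o.Eᵀ *ᵥ th x = 0 := a.p ▸ a.ok.ep
  simp only [f2, unitv, bv, Qe.R1, sub_mulVec, one_mulVec, vecMulVec_mulVec, op_smul_eq_smul,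
    mulVec_smul, mulVec_sub, ep, a.ex, smul_zero, sub_zero]

/-- the invariant part moves along the orbit -/
theorem Gi.orb (a : At o x) {U : Mat k} (hU : U ∈ SO k) (h : Gi L T η H t x (o.Wu U)) :
    Gi L T η H t x o.W :=
  ⟨h.toXb, Wb.conj (emb_orth a.ok.iso hU) rfl (emb_mulVec U (at_ee a)).symm
    (emb_mulVec U (at_f2 a)).symm h.toWb⟩

variable (hμ : SOInv μ) (a : At o x) (mB : ∀ s, MeasurableSet {z : V n × Mx n | B z.1 z.2 s})
  (hB : ∀ W s, ¬ B x W s → Gb L T η H t x W)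
include hμ a mB hB

theorem gb_of_anE (h : anE o μ x B < 1) : ∃ U ∈ SO k, Gb L T η H t x (o.Wu U) :=
  Kp.of_anE_lt hμ a.ok mB h fun k U hU s => by_contra fun j => k ⟨U, hU, hB _ s j⟩

/-- **the invariant facts at the base point** -/
theorem gi_of_anE (h : anE o μ x B < 1) : Gi L T η H t x o.W :=
  let ⟨_, hU, g⟩ := gb_of_anE hμ a mB hB h
  g.toGi.orb a hU

/-- **the positivity events on the orbit** -/
theorem P_not_gb : (o.P μ).real {U | ¬ Gb L T η H t x (o.Wu U)} ≤ anE o μ x B :=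
  Kp.P_le_anE hμ a.ok mB fun _ _ hU s => by_contra fun j => hU (hB _ s j)

end orb

theorem gb_c {p : Pm} {t : ℝ} (x : V p.n) (W : Mx p.n) (s : Cube p.n) (h : ¬ base.c p t x W s) :
    Gb p.L p.T p.e1 (p.Hc t) t x W := (not_not.1 h).back

theorem gb_s {p : Pm} {e t : ℝ} (x : V p.n) (W : Mx p.n) (s : Cube p.n)
    (h : ¬ base.s p e t x W s) : Gb p.L p.T (e ^ 2) (p.Hs e t) t x W := (not_not.1 h).1.back

theorem sh_s {p : Pm} {e t : ℝ} (x : V p.n) (W : Mx p.n) (s : Cube p.n)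
    (h : ¬ base.s p e t x W s) : |aS x ^ 2 - t| ≤ (e ^ 2) ^ 3 * t := (not_not.1 h).2.back

end Crest.Agent.T157.Kb

end
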