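import Crest.Agent.T157.KbM_24
import Crest.Agent.T157.TapSE_6

/-!
# Row 157, part A2, section 2 (helper56): one event on the core cell

`tool`: `TiltStmt`, `MgfStmt`, `NetStmt` give the bound of one event inside `Co`; what is left is one
deterministic inequality for every grid point `Gr`.
-/

set_option autoImplicit false

noncomputable section

namespace Crest.Agent.T157.Kb.Co56

open MeasureTheory Matrix Set
open scoped ENNReal
open Crest.Agent.T157.E Crest.Agent.T157.Cond Crest.Agent.T157.Tap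
open Crest.Agent.T157.Conc (ex ex_mono)

variable {n : ℕ}

/-- grid data: `v0` the variance of the tilt, `(m, v)` the Gaussian law of one site -/
structure Gr (L q a m v0 v : ℝ) : Prop where
  q0 : 0 < q
  s : L * q ≤ 1 / 8
  a1 : |a| ≤ L * q
  v1 : q ≤ v0
  v2 : v0 ≤ q + L * q ^ 2
  w : |v - q| ≤ L * q ^ 2
  m1 : |m| ≤ L * v

namespace Gr
variable {L q a m v0 v : ℝ} (h : Gr L q a m v0 v)
include h
lemma v3 : v0 ≤ 2 * q := by nlinarith [h.v2, h.s, h.q0]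
lemma v0p : 0 < v0 := h.q0.trans_le h.v1
lemma w1 : v ≤ 2 * q := by nlinarith [(abs_le.1 h.w).2, h.s, h.q0]
lemma w2 : q / 2 ≤ v := by nlinarith [(abs_le.1 h.w).1, h.s, h.q0]
lemma vp : 0 < v := by linarith [h.w2, h.q0]
lemma w3 : v ≤ 2 * v0 := by linarith [h.w1, h.v1]
end Gr

/-- the variance term of `MgfStmt` -/
abbrev Sv (Y : ℝ → ℝ) (m v0 v : ℝ) : ℝ := gE (fun y => Y y ^ 2 * Real.exp (y ^ 2 / (16 * v0))) m v

lemma Co.pos {K e t : ℝ} {x : V n} (h : Co K e t x) (ht : 0 < t) : 0 < aS x := by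
  refine (aS_nonneg x).lt_of_ne fun h0 => ?_
  have := h.q1
  rw [← h0] at this
  linarith

/-- `q ≤ K √t` on the core cell -/
lemma Co.le {K e t : ℝ} {x : V n} (h : Co K e t x) (hK : 1 ≤ K) (ht : 0 < t) :
    aS x ≤ K * Real.sqrt t := by
  refine abs_le_of_sq_le_sq' ?_ (by positivity) |>.2
  rw [mul_pow, Real.sq_sqrt ht.le]
  nlinarith [h.q2, mul_nonneg (sub_nonneg.2 hK) (mul_pos (by linarith : (0 : ℝ) < K) ht).le]

lemma rat {d q v0 u0 : ℝ} (q0 : 0 < q) (d0 : 0 ≤ d) (d1 : d ≤ 1 / 100) (hu : |u0| ≤ 3 * d)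
    (v1 : q ≤ v0) (v2 : v0 ≤ q + 2 * d * q) : |v0 / (1 - u0) ^ 2 - q| ≤ 12 * d * q := by
  have hu' := abs_le.1 hu
  have p1 : 0 < 1 - u0 := by linarith
  have p2 : 0 < (1 - u0) ^ 2 := by positivity
  have dd : d * d ≤ d / 100 := by nlinarith
  have ddd := mul_nonneg d0 (mul_nonneg d0 d0)
  rw [abs_le, le_sub_iff_add_le, sub_le_iff_le_add, le_div_iff₀ p2, div_le_iff₀ p2]
  constructor
  · have h1 : (1 - u0) ^ 2 ≤ (1 + 3 * d) ^ 2 := pow_le_pow_left₀ p1.le (by linarith) 2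
    have h2 := mul_le_mul_of_nonneg_left h1 (by linarith : 0 ≤ 1 - 12 * d)
    have h3 : (1 - 12 * d) * (1 - u0) ^ 2 ≤ 1 := by nlinarith [mul_nonneg d0 d0]
    have := mul_le_mul_of_nonneg_left h3 q0.le
    linarith
  · have h1 : (1 - 3 * d) ^ 2 ≤ (1 - u0) ^ 2 := pow_le_pow_left₀ (by linarith) (by linarith) 2
    have h2 := mul_le_mul_of_nonneg_left h1 (by linarith : 0 ≤ 1 + 12 * d)
    have h3 : 1 + 2 * d ≤ (1 + 12 * d) * (1 - u0) ^ 2 := by nlinarith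
    have := mul_le_mul_of_nonneg_left h3 q0.le
    linarith

lemma grid {K q t a m u m0 v0 u0 : ℝ} (hn : 2 ≤ n) (hK : 1 ≤ K) (ht : 1 / (n : ℝ) ≤ t) (q0 : 0 < q)
    (hs : K * q ≤ 1 / 100) (q1 : t ≤ K * q ^ 2) (a1 : |a| ≤ K * q) (u1 : |u| ≤ K * q)
    (m1 : |m| ≤ 3 * K * (q + t)) (h : Cl n m (q + t) u m0 v0 u0) :
    |m0| ≤ 4 * K * v0 ∧ |u0| ≤ 4 * K * v0 ∧
      Gr (12 * K) q a (m0 / (1 - u0)) v0 (v0 / (1 - u0) ^ 2) := by
  obtain ⟨c1, c2, c3, c4, c5, -⟩ := h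
  have n2 : (2 : ℝ) ≤ n := by exact_mod_cast hn
  have t0 : 0 < t := lt_of_lt_of_le (by positivity) ht
  have K0 : 0 ≤ K := by linarith
  have qK : q ≤ K * q := le_mul_of_one_le_left q0.le hK
  have h2 : 0 ≤ K * q ^ 2 := by positivity
  have h3 : K * q ^ 2 ≤ q / 100 := by nlinarith
  have hd : (q + t) / (n : ℝ) ^ 2 ≤ q + t := div_le_self (by linarith) (by nlinarith)
  have vq : q ≤ v0 := by linarith
  have k1 := mul_le_mul_of_nonneg_left c2 K0
  have k2 := mul_le_mul_of_nonneg_left vq K0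
  have k3 : v0 ≤ K * v0 := le_mul_of_one_le_left (by linarith) hK
  have hm0 : |m0| ≤ 4 * K * v0 := by
    have := abs_sub m (m - m0)
    rw [sub_sub_cancel] at this
    linarith
  have hu : |u0| ≤ 3 * (K * q) := by
    have := abs_le.1 u1
    rw [abs_le]
    constructor <;> linarith
  have hu' := abs_le.1 hu
  have hv : v0 ≤ q + 2 * (K * q) * q := by
    have e : 2 / (n : ℝ) ≤ 2 * (K * q ^ 2) := by
      rw [div_eq_mul_one_div]; linarith
    have h1 : (q + t) * (1 + 2 / (n : ℝ)) ≤ (q + K * q ^ 2) * (1 + 2 * (K * q ^ 2)) :=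
      mul_le_mul (by linarith) (by linarith) (by positivity) (by positivity)
    have h4 := mul_le_mul_of_nonneg_left (by linarith : q + K * q ^ 2 ≤ 1 / 2) h2
    linarith
  have p1 : 0 < 1 - u0 := by linarith
  refine ⟨hm0, by linarith, q0, by linarith, by linarith, vq, by linarith, ?_, ?_⟩
  · have := rat q0 (by linarith) hs hu vq hv
    linarith
  · rw [abs_div, abs_of_pos p1, div_le_iff₀ p1]
    have e : 12 * K * (v0 / (1 - u0) ^ 2) * (1 - u0) = 12 * K * v0 / (1 - u0) := by field_simp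
    rw [e, le_div_iff₀ p1]
    have := mul_le_mul hm0 (by linarith : 1 - u0 ≤ 2) p1.le (by linarith)
    linarith

/-- **one event on the core cell** -/
theorem tool (hT : TiltStmt) (hM : MgfStmt) (hN : NetStmt) {K : ℝ} (hK : 1 ≤ K) :
    ∃ c > (0 : ℝ), ∃ C : ℕ, ∃ A ≥ (1 : ℝ), ∀ (n : ℕ) (t e R : ℝ) (E : Set (V n))
      (Y : ℝ → ℝ → ℝ → ℝ), 2 ≤ n → 1 / (n : ℝ) ≤ t → e ≤ 1 / 10 → Real.sqrt t ≤ c →
      MeasurableSet E → (∀ v0 v, Measurable (Y v0 v)) →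
      (∀ x ∈ E, Co K e t x ∧ ∀ m v0 v, Gr (12 * K) (aS x) (bS x) m v0 v →
        (∀ y, |Y v0 v y| ≤ (y ^ 2 + v0) / (64 * v0)) ∧
        ((∀ (B : ℝ) (j : ℕ), 0 ≤ B → j ≤ 8 → (∀ y, Y v0 v y ^ 2 ≤ B * (y ^ 2 + v0) ^ j) →
          Sv (Y v0 v) m v0 v ≤ A * B * v0 ^ j) →
        n * (gE (Y v0 v) m v + 2 * Sv (Y v0 v) m v0 v + A * v0 ^ 4) + R ≤ ∑ i, Y v0 v (x i))) →
      Px t E ≤ ex (C * Real.log n - R) := by
  obtain ⟨C, hT⟩ := hT
  obtain ⟨A, hA, hM⟩ := hM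
  obtain ⟨c, hc, hN⟩ := hN K hK
  have A1 : 1 ≤ A * (4 * K) ^ 2 := by nlinarith [mul_le_mul hA (by nlinarith : 1 ≤ (4 * K) ^ 2) zero_le_one (by linarith)]
  refine ⟨min c (1 / (100 * K ^ 2 * (A * (4 * K) ^ 2))), by positivity, C, A * (4 * K) ^ 2, A1,
    fun n t e R E Y hn ht he hs hE hY h => ?_⟩
  have n2 : (2 : ℝ) ≤ n := by exact_mod_cast hn
  have t0 : 0 < t := lt_of_lt_of_le (by positivity) ht
  refine hT n t R E (fun _ v u => Y v (v / (1 - u) ^ 2)) hn hE (fun _ _ _ => hY _ _) fun x hx => ?_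
  obtain ⟨hx, h⟩ := h x hx
  obtain ⟨n1, n3, n4⟩ := hN n t e x (by omega) t0 (hs.trans (min_le_left _ _)) he hx
  have q0 := Co.pos hx t0
  have hq : K * aS x * (A * (4 * K) ^ 2) ≤ 1 / 100 := by
    have h1 := (Co.le hx hK t0).trans (mul_le_mul_of_nonneg_left (hs.trans (min_le_right _ _))
      (by linarith))
    have h2 := mul_le_mul_of_nonneg_right (mul_le_mul_of_nonneg_left h1 (by linarith : 0 ≤ K))
      (by linarith : 0 ≤ A * (4 * K) ^ 2)
    refine h2.trans (le_of_eq ?_)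
    field_simp
  have hKq : 0 ≤ K * aS x := by positivity
  have hs' : K * aS x ≤ 1 / 100 := by nlinarith
  have g0 := ga_pos t0 x
  have u1 := abs_le.1 hx.u1
  refine ⟨mu t x + dR t x, ga t x, uR t x, 0, by linarith, ⟨?_, by nlinarith⟩,
    ⟨by linarith, by linarith⟩, n4.trans (Real.exp_le_exp.2 ?_), fun m0 v0 u0 hcl => ?_⟩
  · unfold ga; linarith
  · have : 0 ≤ (n : ℝ) * (aS x * uR t x ^ 2 / 20 + dR t x ^ 2 / (2 * ga t x)) := by positivity
    linarith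
  · obtain ⟨g1, g2, g⟩ := grid hn hK ht q0 hs' hx.q1 hx.a1 hx.u1 n1 hcl
    obtain ⟨b1, b2⟩ := h _ _ _ g
    obtain ⟨f1, f2⟩ := hM (4 * K) (by linarith) m0 v0 u0 _ g.v0p (by
      have := mul_le_mul_of_nonneg_left g.v3 (by linarith : 0 ≤ A * (4 * K) ^ 2)
      nlinarith [mul_le_mul_of_nonneg_right hK (mul_nonneg q0.le (by linarith : 0 ≤ A * (4 * K) ^ 2))])
      g1 g2 (hY _ _) b1
    refine ⟨_, f1, ?_⟩
    rw [zero_add]
    refine b2 fun B j hB hj hb => (f2 B j hB hj hb).trans ?_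
    have : A ≤ A * (4 * K) ^ 2 := by nlinarith [mul_le_mul_of_nonneg_left (by nlinarith : 1 ≤ (4 * K) ^ 2) (by linarith : 0 ≤ A)]
    have := g.v0p
    gcongr

/-- reduction to averages for `Y = k F` -/
lemma red (hn : 0 < n) {k S A r R m v : ℝ} {F : ℝ → ℝ} {x : V n} (hR : R ≤ n * r)
    (h : 2 * S + A + r ≤ k * (avg (fun i => F (x i)) - gE F m v)) :
    n * (gE (fun y => k * F y) m v + 2 * S + A) + R ≤ ∑ i, k * F (x i) := by
  have n0 : (0 : ℝ) < n := by exact_mod_cast hn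
  have e : ∑ i, F (x i) = n * avg fun i => F (x i) := by unfold avg; field_simp
  rw [SE.gE_const_mul, ← Finset.mul_sum, e]
  nlinarith [mul_le_mul_of_nonneg_left h n0.le]

end Crest.Agent.T157.Kb.Co56

end
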