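import Crest.Agent.T157.KbB_24
import Crest.Agent.T157.QeCore_78

/-!
# Row 157, part A2 (helper11): the statistics of the column `W e` as a first-moment event
-/

set_option autoImplicit false

noncomputable section

namespace Crest.Agent.T157.Kb

open MeasureTheory Matrix Set
open scoped ENNReal
open Crest.Agent.T157.E Crest.Agent.T157.Cond Crest.Agent.T157.Tap
open Crest.Agent.T157.Qe (bv Wm St)
open Crest.Agent.T157.Conc (ex)

namespace Col11

variable {n : ℕ}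

lemma st_mono {C C' δ q β : ℝ} {D e c τ : V n} (s : St C δ q D β e c τ) (hC : 0 < C) (hq : 0 ≤ q)
    (h : C ≤ C') : St C' δ q D β e c τ :=
  have n0 : (0 : ℝ) ≤ n := Nat.cast_nonneg n
  { s with
    s1 := le_trans (by gcongr) s.s1
    s2 := s.s2.trans (by gcongr)
    e2 := s.e2.trans (by gcongr)
    e3 := s.e3.trans (by gcongr)
    u1 := s.u1.trans (by gcongr)
    u2 := le_trans (by gcongr) s.u2
    u3 := s.u3.trans (by gcongr)
    u4 := s.u4.trans (by gcongr)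
    u5 := s.u5.trans (by gcongr) }

lemma ad1 {e ε : ℝ} (he : 0 ≤ e) (hε : ε ≤ 1 / 2) {x : V n} (h : aS x ≤ 1 / 9) :
    Ad e ε 1 (aS x ^ 2 / (1 - aS x)) ∅ x := by
  have q0 := aS_nonneg x
  have q2 := sq_nonneg (aS x)
  refine ⟨le_rfl, by norm_num, (mul_le_of_le_one_left q2 (by linarith)).trans
    (le_div_self q2 (by linarith) (by linarith)), ?_, ?_⟩
  · rw [div_le_iff₀ (by linarith)]
    linarith [mul_le_mul_of_nonneg_left h q2]
  · rw [Finset.card_empty, Nat.cast_zero]; positivity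

end Col11

open Col11 in
theorem colStmt (hm : MeasG) (hM : MargStmt) (hA : AllStmt) (hX : XdStmt) : ColStmt := by
  intro K hK
  obtain ⟨t0, ht0, Ca, hA⟩ := hA
  obtain ⟨C, hC1, cx, hcx, hX⟩ := hX K hK
  obtain ⟨C', hC', cg, hcg, hG⟩ := gnStmt C hC1
  obtain ⟨m, m0, m1, m2, m5, m6⟩ : ∃ m > (0 : ℝ), m ≤ 1 / 9 ∧ m ≤ cx ∧ m ≤ t0 ∧ m ≤ cg :=
    ⟨min (min (1 / 9) cx) (min t0 cg), by positivity, by simp, by simp, by simp, by simp⟩
  obtain ⟨c, hc, c1, c2, c3⟩ : ∃ c > (0 : ℝ), c ≤ m ∧ K * c ≤ m ∧ C * c ≤ m := by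
    have h : m / (K * C) * (K * C) = m := div_mul_cancel₀ _ (by positivity)
    have h0 : 0 < m / (K * C) := by positivity
    have h1 := mul_le_mul_of_nonneg_left hK h0.le
    have h2 := mul_le_mul_of_nonneg_left hC1 h0.le
    exact ⟨_, h0, by nlinarith, by nlinarith, by nlinarith⟩
  refine ⟨C', hC', c, hc, Ca + 21, fun C'' hC'' n t ε hn ht ⟨e0, e1⟩ hs => ?_⟩
  have n0 : 0 < n := by omega
  have n1 : (21 : ℝ) ≤ n := by exact_mod_cast (by omega : 21 ≤ n)
  have t0' : 0 < t := lt_of_lt_of_le (by positivity) ht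
  have e2 : ε ≤ 1 := by linarith
  have pw : ∀ {i j : ℕ}, i ≤ j → ε ^ j ≤ ε ^ i := fun h => pow_le_pow_of_le_one e0.le e2 h
  have e9 : ε ^ 9 ≤ 1 := pow_le_one₀ e0.le e2
  have p9 : 0 < ε ^ 9 := by positivity
  have ht1 : t ≤ (ε ^ 21) ^ 2 := (Real.sqrt_le_left (by positivity)).1 hs
  have ht2 : t ≤ t0 := by
    have := pw (show 1 ≤ 21 * 2 by norm_num)
    rw [pow_mul] at this
    linarith
  have cm : C * ε ^ 10 ≤ m * ε ^ 9 :=
    calc _ = C * ε * ε ^ 9 := by ring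
      _ ≤ C * c * ε ^ 9 := by gcongr
      _ ≤ _ := by gcongr
  have md : m * ε ^ 9 ≤ m := mul_le_of_le_one_right m0.le e9
  have hq : ∀ x : V n, Co K (ε ^ 10) t x → aS x ≤ m * ε ^ 9 := fun x h => by
    refine (pow_le_pow_iff_left₀ (aS_nonneg _) (by positivity) two_ne_zero).1
      (h.q2.trans ((mul_le_mul_of_nonneg_left ht1 (by linarith)).trans ?_))
    calc _ = K * ε * ε * ε ^ 40 := by ring
      _ ≤ K * c * m * ε ^ 18 := by gcongr ?_ * ?_ * ?_ * ?_; exacts [by linarith, pw (by norm_num)]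
      _ ≤ m * m * ε ^ 18 := by gcongr
      _ = _ := by ring
  have hs1 : Real.sqrt t ≤ cx * ε ^ 10 :=
    calc _ ≤ ε * ε ^ 20 := hs.trans_eq (by ring)
      _ ≤ _ := by gcongr ?_ * ?_; exacts [by linarith, pw (by norm_num)]
  have dv := fun (x : V n) (h1 : Co K (ε ^ 10) t x) (h2 : XM (ε ^ 10) x) =>
    hX n t _ m 1 (aS x ^ 2 / (1 - aS x)) ∅ x n0 t0' (pow_pos e0 10) hs1 (cm.trans md) m2 h1 h2
      (ad1 (pow_pos e0 10).le (by linarith) (by linarith [hq x h1]))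
  set R := -(c * ε ^ 18 * n * t) with hRd
  refine (Pt_le hM n0 t0' ((measSet_Co _ _ _ measurable_fst).inter ((measSet_XM _ measurable_fst).inter
    (hm n C'' (ε ^ 9) 0 0 0 0 0).2.2.2.2.2.2.1.compl)) (b := 20 * ex R) (b' := 0)
    (by have := Conc.ex_ne_top R; finiteness)
    (G := fun x η => St C' (ε ^ 9) (aS x) (Dk 1 (aS x ^ 2 / (1 - aS x)) ∅ x) (2 * 1 * aS x) (ee x)
      (col t x η) (tau x)) (fun z h => ?_) fun z h η hη => ?_).trans ?_
  · refine (hG n t _ m _ _ _ n0 t0' ⟨p9, e9⟩ ((hq _ h.1).trans (by gcongr)) m0.le (dv _ h.1 h.2.1).1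
      ((dv _ h.1 h.2.1).2.mono t0'.le (cm.trans (by gcongr)))).trans
      (mul_le_mul_right (Conc.ex_mono ?_) _)
    have : c * ε ^ 18 * n * t ≤ cg * (ε ^ 18 * n * aS z.1 ^ 2) :=
      calc _ ≤ c * ε ^ 18 * n * (K * aS z.1 ^ 2) := by gcongr; exact h.1.q1
        _ = K * c * (ε ^ 18 * n * aS z.1 ^ 2) := by ring
        _ ≤ _ := by gcongr; linarith
    linarith
  · refine (measure_mono (t := (∅ : Set (Mx n))) fun W hW => hW.2.2 ?_).trans_eq measure_empty
    change St _ _ _ _ _ _ (Wm _ _ _ W *ᵥ ee z.1) _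
    rw [Qe.Core78.wm_e hη.unit]
    exact st_mono hη (by linarith) (aS_nonneg _) hC''
  · have h21 : 20 * ex R + 0 ≤ ex (Real.log n + R) := by
      rw [Conc.ex_add, add_zero]
      refine mul_le_mul_left ?_ _
      rw [ex, Real.exp_log (by linarith), ENNReal.ofReal_natCast]
      exact_mod_cast (by omega : 20 ≤ n)
    refine (mul_le_mul' (hA n t (by omega) ⟨ht, ht2⟩) h21).trans ?_
    rw [← Conc.ex_add]
    refine Conc.ex_mono ?_
    have hl : 0 ≤ Real.log n := Real.log_natCast_nonneg n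
    push_cast
    linarith

end Crest.Agent.T157.Kb

end
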