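import Crest.Agent.T157.KbHi_91

/-!
# Row 157, part A2, section 2 (helper91): `LgGlue` (large `q` is exponentially rare at small times)
-/

set_option autoImplicit false

noncomputable section

namespace Crest.Agent.T157.Kb

open MeasureTheory Set
open scoped ENNReal
open Crest.Agent.T157.Tap
open Crest.Agent.T157.Conc (ex)

variable {n : ℕ}

namespace L91

open H91

/-! ### the scalar exponent -/

def Ph (S χ b u : ℝ) : ℝ := S ^ 2 / 4 - (S + χ) ^ 2 / 2 + (S + χ - u) ^ 2 / (2 * b) +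
  Real.log b / 2 - χ * Real.log (1 - u)

lemma ph_neg {y χ : ℝ} (h0 : 0 ≤ y) (h1 : y ≤ 1) (hχ : χ ≤ 1) :
    Ph (-(2 * y)) χ 1 (-y) ≤ -(y ^ 4 / 8) := by
  have a1 := Real.le_log_one_add_of_nonneg h0
  have a2 : Real.log (1 + y) ≤ y := by
    have := Real.log_le_sub_one_of_pos (show 0 < 1 + y by linarith); linarith
  have a3 : y - y ^ 2 / 2 + y ^ 4 / 8 ≤ 2 * y / (y + 2) := by
    rw [le_div_iff₀ (by linarith)]
    have b1 : y ^ 4 ≤ y ^ 3 := pow_le_pow_of_le_one h0 h1 (by norm_num)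
    have b2 : y ^ 5 ≤ y ^ 3 := pow_le_pow_of_le_one h0 h1 (by norm_num)
    have b3 : 0 ≤ y ^ 3 := by positivity
    nlinarith
  have a4 := mul_le_mul_of_nonneg_right hχ (sub_nonneg.2 a2)
  simp only [Ph, Real.log_one, sub_neg_eq_add]
  nlinarith

lemma ph_pos {s χ δ : ℝ} (hδ : 0 ≤ δ) (hχ : 0 ≤ χ) (h : -Real.log (1 - (s - δ)) ≤ s) :
    Ph (2 * s) χ (1 + δ) (s - δ) ≤ -(s ^ 2 / 2) + δ / 2 + Real.log (1 + δ) / 2 := by
  have e : (2 * s + χ - (s - δ)) ^ 2 / (2 * (1 + δ)) = (2 * s + χ) ^ 2 / 2 - s * (2 * s + χ) +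
      (s ^ 2 + δ) / 2 - δ * (2 * s + χ - 1 - s) ^ 2 / (2 * (1 + δ)) := by
    field_simp; ring
  have a1 : 0 ≤ δ * (2 * s + χ - 1 - s) ^ 2 / (2 * (1 + δ)) := by positivity
  have a2 := mul_le_mul_of_nonneg_left h hχ
  unfold Ph
  rw [e]
  nlinarith

lemma ph_small {s χ : ℝ} (h0 : 0 ≤ s) (h1 : s ≤ 7 / 10) (hχ : 0 ≤ χ) :
    ∃ b u : ℝ, b ∈ Icc (1 : ℝ) 2 ∧ u ∈ Icc (-2 : ℝ) (1 / 2) ∧ Ph (2 * s) χ b u ≤ -(s ^ 4 / 8) := by
  obtain ⟨Q, hQ⟩ : ∃ Q : ℝ, Q = 1 + s + s ^ 2 / 2 := ⟨_, rfl⟩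
  have q1 : 1 ≤ Q := by rw [hQ]; nlinarith
  have q2 : Q ≤ 2 := by rw [hQ]; nlinarith
  have q0 : 0 < Q := by linarith
  obtain ⟨δ, hδ⟩ : ∃ δ : ℝ, δ = s - 1 + Q⁻¹ := ⟨_, rfl⟩
  have i1 : Q⁻¹ ≤ 1 := inv_le_one_of_one_le₀ q1
  have i2 : 1 / 2 ≤ Q⁻¹ := by rw [one_div]; exact inv_anti₀ q0 q2
  have e1 : δ = (s ^ 2 / 2 + s ^ 3 / 2) * Q⁻¹ := by
    rw [hδ]; field_simp; rw [hQ]; ring
  have e2 : s ^ 2 / 2 - δ = s ^ 4 / 4 * Q⁻¹ := by
    rw [hδ]; field_simp; rw [hQ]; ring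
  have d0 : 0 ≤ δ := by rw [e1]; positivity
  have hl : -Real.log (1 - (s - δ)) ≤ s := by
    rw [show 1 - (s - δ) = Q⁻¹ by rw [hδ]; ring, Real.log_inv, neg_neg,
      Real.log_le_iff_le_exp q0, hQ]
    exact Real.quadratic_le_exp_of_nonneg h0
  refine ⟨1 + δ, s - δ, ⟨by linarith, by linarith⟩, ⟨by linarith, by linarith⟩, ?_⟩
  have a1 := ph_pos d0 hχ hl
  have a2 := Real.log_le_sub_one_of_pos (show 0 < 1 + δ by linarith)
  have a3 := mul_le_mul_of_nonneg_left i2 (show 0 ≤ s ^ 4 / 4 by positivity)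
  linarith

lemma ph_big {s χ : ℝ} (h0 : 7 / 10 ≤ s) (h1 : s ≤ 3 / 2) (hχ : 0 ≤ χ) :
    ∃ b u : ℝ, b ∈ Icc (1 : ℝ) 2 ∧ u ∈ Icc (-2 : ℝ) (1 / 2) ∧ Ph (2 * s) χ b u ≤ -(1 / 128) := by
  obtain ⟨δ, hδ⟩ : ∃ δ : ℝ, δ = s - 1 / 2 := ⟨_, rfl⟩
  have d0 : 0 ≤ δ := by linarith
  have d1 : δ ≤ 1 := by linarith
  have hl : -Real.log (1 - (s - δ)) ≤ s := by
    rw [show 1 - (s - δ) = 2⁻¹ by rw [hδ]; ring, Real.log_inv, neg_neg]
    linarith [Real.log_two_lt_d9]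
  have a2 : Real.log (1 + δ) ≤ δ - δ ^ 2 / 6 := by
    rw [Real.log_le_iff_le_exp (by linarith)]
    refine le_trans ?_ (Real.quadratic_le_exp_of_nonneg (by nlinarith))
    have : δ ^ 3 ≤ δ ^ 2 := pow_le_pow_of_le_one d0 d1 (by norm_num)
    nlinarith [sq_nonneg δ, sq_nonneg (δ ^ 2)]
  refine ⟨1 + δ, s - δ, ⟨by linarith, by linarith⟩, ⟨by linarith, by linarith⟩, ?_⟩
  have a1 := ph_pos d0 hχ hl
  have e : s = δ + 1 / 2 := by linarith
  refine a1.trans ?_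
  rw [e]
  nlinarith [sq_nonneg (δ - 3 / 7)]

lemma ph_ex {S χ e : ℝ} (he : 0 ≤ e) (he1 : e ≤ 1) (h1 : -2 ≤ S) (h2 : S ≤ 3) (hS : e ≤ |S|)
    (hχ : 0 ≤ χ) (hχ1 : χ ≤ 1) :
    ∃ b u : ℝ, b ∈ Icc (1 : ℝ) 2 ∧ u ∈ Icc (-2 : ℝ) (1 / 2) ∧ Ph S χ b u ≤ -(e ^ 4 / 128) := by
  have h4 : e ^ 4 ≤ S ^ 4 := by
    have := pow_le_pow_left₀ he hS 4
    rwa [show |S| ^ 4 = S ^ 4 from Even.pow_abs (by decide) S] at this
  have h5 : e ^ 4 ≤ 1 := pow_le_one₀ he he1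
  rcases le_total S 0 with h | h
  · refine ⟨1, -(-S / 2), ⟨le_rfl, by norm_num⟩, ⟨by linarith, by linarith⟩, ?_⟩
    have := ph_neg (y := -S / 2) (by linarith) (by linarith) hχ1
    rw [show -(2 * (-S / 2)) = S by ring] at this
    nlinarith
  · rcases le_total (S / 2) (7 / 10) with h' | h'
    · obtain ⟨b, u, hb, hu, hp⟩ := ph_small (s := S / 2) (by linarith) h' hχ
      rw [show 2 * (S / 2) = S by ring] at hp
      exact ⟨b, u, hb, hu, by nlinarith⟩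
    · obtain ⟨b, u, hb, hu, hp⟩ := ph_big (s := S / 2) h' (by linarith) hχ
      rw [show 2 * (S / 2) = S by ring] at hp
      exact ⟨b, u, hb, hu, by linarith⟩

lemma wt_num {g q t S : ℝ} (hg : 0 < g) (hq : 0 ≤ q) (ht : 0 ≤ t) (e : g = q + t) :
    (S * g) ^ 2 / (2 * g * (g + q)) ≤ S ^ 2 / 4 + S ^ 2 / 4 * (t / g) := by
  have e1 : (S * g) ^ 2 / (2 * g * (g + q)) = S ^ 2 / 4 + S ^ 2 / 4 * (t / (g + q)) := by
    have : t = g - q := by linarith
    rw [this]; field_simp; ring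
  rw [e1]
  have : t / (g + q) ≤ t / g := div_le_div_of_nonneg_left ht hg (by linarith)
  nlinarith [mul_le_mul_of_nonneg_left this (sq_nonneg S)]

lemma lg_num {g q M S b u A : ℝ} (hg : 0 < g) (hqg : q ≤ g) (hM : 0 ≤ M) (hb : 1 ≤ b)
    (hA : A = S * g + g * (1 - q)) (h : A ^ 2 ≤ q * M) :
    S ^ 2 / 4 - M / (2 * g) + M / (2 * (g * b)) + Real.log (g * b / g) / 2 +
      (-(u * A / (g * b)) + u ^ 2 * q / (2 * (g * b)) - (1 - q) * Real.log (1 - u)) ≤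
    Ph S (1 - q) b u := by
  have hb0 : 0 < b := by linarith
  have a1 : (S + (1 - q)) ^ 2 ≤ M / g := by
    rw [le_div_iff₀ hg]
    have h2 : ((S + (1 - q)) ^ 2 * g) * g ≤ M * g := by
      have := mul_le_mul_of_nonneg_right hqg hM
      rw [hA] at h; nlinarith
    exact le_of_mul_le_mul_right h2 hg
  have a2 : q / g ≤ 1 := (div_le_one hg).2 hqg
  have a3 : b⁻¹ ≤ 1 := inv_le_one_of_one_le₀ hb
  have a4 : 0 < b⁻¹ := by positivity
  have e1 : g * b / g = b := by field_simp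
  have e2 : M / (2 * g) = M / g / 2 := by field_simp
  have e3 : M / (2 * (g * b)) = M / g / 2 * b⁻¹ := by field_simp
  have e4 : u * A / (g * b) = u * (S + (1 - q)) * b⁻¹ := by rw [hA]; field_simp
  have e5 : u ^ 2 * q / (2 * (g * b)) = u ^ 2 / 2 * b⁻¹ * (q / g) := by field_simp
  have e6 : (S + (1 - q) - u) ^ 2 / (2 * b) = (S + (1 - q) - u) ^ 2 / 2 * b⁻¹ := by field_simp
  have a5 := mul_le_mul_of_nonneg_left a2 (show 0 ≤ u ^ 2 / 2 * b⁻¹ by positivity)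
  have a6 := mul_le_mul_of_nonneg_right a1 (sub_nonneg.2 a3)
  unfold Ph
  rw [e1, e2, e3, e4, e5, e6]
  nlinarith

/-- the event `|w| ≥ e γ` -/
lemma ev1 (hI : IdStmt) (hC : ChStmt) (hT : TiltStmt) : ∃ C : ℕ, ∀ (n : ℕ) (t q1 e : ℝ),
    2 ≤ n → 1 / (n : ℝ) ≤ t → t ≤ 1 → 0 < q1 → 0 ≤ e → e ≤ 1 → 576 * t ≤ q1 * e ^ 4 →
    Px t {x : V n | q1 ≤ aS x ∧ ww t x ≤ 3 * ga t x ∧ e * ga t x ≤ |ww t x|} ≤
      ex (C * Real.log n - e ^ 4 / 256 * n) := by
  obtain ⟨C, h0⟩ := tilt0 hC hT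
  refine ⟨C, fun n t q1 e hn ht ht1 hq1 he he1 hte => ?_⟩
  have hn0 : 0 < n := by omega
  have hn' : (0 : ℝ) < n := by exact_mod_cast hn0
  have ht0 : 0 < t := lt_of_lt_of_le (by positivity) ht
  have hm : MeasurableSet ({x : V n | q1 ≤ aS x} ∩ ({x : V n | ww t x ≤ 3 * ga t x} ∩
      {x : V n | e * ga t x ≤ |ww t x|})) :=
    (measurableSet_le (by fun_prop) (by fun_prop)).inter
      ((measurableSet_le (by fun_prop) (by fun_prop)).inter
        (measurableSet_le (by fun_prop) (by fun_prop)))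
  refine h0 n t _ _ hn hm fun x hx => ?_
  obtain ⟨x1, x2, x3⟩ := hx
  obtain ⟨i1, i2, -⟩ := hI n t x hn0 ht0
  have hg := ga_pos ht0 x
  have hq := aS_nonneg x
  have hq' := aS_lt_one hn0 x
  have eg : ga t x = aS x + t := rfl
  have hw := ww_ge hn0 ht0 x i1
  obtain ⟨S, hS⟩ : ∃ S, ww t x = S * ga t x := ⟨ww t x / ga t x, by field_simp⟩
  have s1 : -2 ≤ S := le_of_mul_le_mul_right (by rw [← hS]; linarith) hg
  have s2 : S ≤ 3 := le_of_mul_le_mul_right (by rw [← hS]; linarith) hg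
  have s3 : e ≤ |S| := by
    rw [hS, abs_mul, abs_of_pos hg] at x3
    exact le_of_mul_le_mul_right x3 hg
  obtain ⟨b, u, hb, hu, hp⟩ := ph_ex (χ := 1 - aS x) he he1 s1 s2 s3 (by linarith) (by linarith)
  have hv : 0 < ga t x * b := mul_pos hg (by linarith [hb.1])
  have r := i2 _ hv
  rw [sum_gR hn0 t _ u hv x, add_assoc] at r
  refine ⟨mu t x, ga t x * b, u, _, abs_mu_le hn0 ht0.le ht1 x,
    ⟨by nlinarith [hb.1], by nlinarith [hb.2]⟩, hu, r.le, ?_⟩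
  have a1 := lg_num (u := u) (S := S) hg (by linarith) (M2_nonneg t x) hb.1
    (by rw [AA_eq, hS]) (AA_sq t x)
  have a2 : Wt t x ≤ S ^ 2 / 4 + S ^ 2 / 4 * (t / ga t x) := by
    unfold Wt; rw [hS]; exact wt_num hg hq ht0.le eg
  have a3 : t / ga t x ≤ e ^ 4 / 576 := by
    rw [div_le_div_iff₀ hg (by norm_num)]
    nlinarith [mul_le_mul_of_nonneg_right (show q1 ≤ ga t x by linarith)
      (show 0 ≤ e ^ 4 by positivity)]
  have a4 : S ^ 2 / 4 * (t / ga t x) ≤ 9 / 4 * (e ^ 4 / 576) :=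
    mul_le_mul (by nlinarith) a3 (by positivity) (by norm_num)
  rw [← mul_add, mul_comm _ (n : ℝ), ← mul_add]
  exact mul_nonpos_of_nonneg_of_nonpos hn'.le (by linarith)

/-! ### the odd weight -/

lemma tanh_mid {m : ℝ} (hm : 0 ≤ m) (d : ℝ) :
    Real.tanh (m + d) + Real.tanh (m - d) ≤ 2 * Real.tanh m := by
  have c1 := Real.cosh_pos (m + d)
  have c2 := Real.cosh_pos (m - d)
  have c3 := Real.cosh_pos m
  have s0 : 0 ≤ Real.sinh m := Real.sinh_nonneg_iff.2 hm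
  have e1 : Real.cosh (m + d) * Real.cosh (m - d) = Real.cosh m ^ 2 + Real.sinh d ^ 2 := by
    rw [Real.cosh_add, Real.cosh_sub]
    have := Real.cosh_sq m
    have := Real.cosh_sq d
    linear_combination (Real.cosh m ^ 2) * Real.cosh_sq d + (Real.sinh d ^ 2) * Real.cosh_sq m
  have e2 : Real.sinh (m + d) * Real.cosh (m - d) + Real.cosh (m + d) * Real.sinh (m - d) =
      2 * Real.sinh m * Real.cosh m := by
    rw [← Real.sinh_add, show m + d + (m - d) = 2 * m by ring, Real.sinh_two_mul]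
  simp only [Real.tanh_eq_sinh_div_cosh]
  rw [div_add_div _ _ c1.ne' c2.ne', e1, e2, ← mul_div_assoc,
    div_le_div_iff₀ (by positivity) c3]
  nlinarith [mul_nonneg s0 (sq_nonneg (Real.sinh d))]

def sg (m : ℝ) : ℝ := if 0 ≤ m then 1 else -1

lemma sg_mul (m : ℝ) : sg m * m = |m| := by
  unfold sg; split_ifs with h
  · rw [abs_of_nonneg h, one_mul]
  · rw [abs_of_neg (not_le.1 h)]; ring

lemma sg_mul_ge (m z : ℝ) : -|z| ≤ sg m * z := by
  unfold sg; split_ifs with h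
  · linarith [neg_abs_le z]
  · linarith [le_abs_self z]

lemma sg_mid (m y : ℝ) :
    sg m * Real.tanh y + sg m * Real.tanh (2 * m - y) ≤ 2 * Real.tanh |m| := by
  unfold sg; split_ifs with h
  · have := tanh_mid h (y - m)
    rw [show m + (y - m) = y by ring, show m - (y - m) = 2 * m - y by ring] at this
    rw [abs_of_nonneg h]; linarith
  · have := tanh_mid (m := -m) (by linarith) (m - y)
    rw [show -m + (m - y) = -y by ring, show -m - (m - y) = -(2 * m - y) by ring,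
      Real.tanh_neg, Real.tanh_neg] at this
    rw [abs_of_neg (not_le.1 h)]; linarith

lemma exp_two {a b L l : ℝ} (h1 : a + b ≤ 2 * L) (h2 : (a - b) ^ 2 ≤ 4 * l ^ 2) :
    Real.exp a + Real.exp b ≤ 2 * Real.exp (L + l ^ 2 / 2) := by
  have e : Real.exp a + Real.exp b = 2 * (Real.exp ((a + b) / 2) * Real.cosh ((a - b) / 2)) := by
    rw [Real.cosh_eq, mul_div_assoc', mul_add, ← Real.exp_add, ← Real.exp_add]
    ring_nf
  rw [e, Real.exp_add]
  refine mul_le_mul_of_nonneg_left (mul_le_mul (Real.exp_le_exp.2 (by linarith))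
    ((Real.cosh_le_exp_half_sq _).trans (Real.exp_le_exp.2 (by nlinarith)))
    (Real.cosh_pos _).le (Real.exp_pos _).le) (by norm_num)

lemma mgf (hC : ChStmt) {m v l : ℝ} (hv : 0 < v) (hl : 0 ≤ l) :
    ∫⁻ y, ex (gR m v 0 y + l * (sg m * Real.tanh y)) ≤ ex (l * Real.tanh |m| + l ^ 2 / 2) := by
  have hs : ∀ y, gR m v 0 (2 * m - y) = gR m v 0 y := fun y => by
    simp only [gR, sub_zero, Real.log_one, zero_mul, mul_zero]; ring
  have hr := lintegral_sub_left_eq_self (μ := volume)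
    (fun y => ex (gR m v 0 y + l * (sg m * Real.tanh y))) (2 * m)
  simp only [hs] at hr
  have hp : ∀ y, ex (gR m v 0 y + l * (sg m * Real.tanh y)) +
      ex (gR m v 0 y + l * (sg m * Real.tanh (2 * m - y))) ≤
      2 * ex (l * Real.tanh |m| + l ^ 2 / 2) * ex (gR m v 0 y) := fun y => by
    have a1 := mul_le_mul_of_nonneg_left (sg_mid m y) hl
    have a2 : (Real.tanh y - Real.tanh (2 * m - y)) ^ 2 ≤ 4 := by
      nlinarith [Real.tanh_sq_lt_one y, Real.tanh_sq_lt_one (2 * m - y),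
        sq_nonneg (Real.tanh y + Real.tanh (2 * m - y))]
    have a3 : sg m ^ 2 = 1 := by unfold sg; split_ifs <;> norm_num
    have a4 := exp_two (a := l * (sg m * Real.tanh y)) (b := l * (sg m * Real.tanh (2 * m - y)))
      (L := l * Real.tanh |m|) (l := l) (by linarith) (by
        rw [show (l * (sg m * Real.tanh y) - l * (sg m * Real.tanh (2 * m - y))) ^ 2 =
          l ^ 2 * sg m ^ 2 * (Real.tanh y - Real.tanh (2 * m - y)) ^ 2 by ring, a3]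
        nlinarith [mul_le_mul_of_nonneg_left a2 (sq_nonneg l)])
    rw [Conc.ex_add, Conc.ex_add, ← mul_add, mul_comm]
    refine mul_le_mul_left ?_ _
    unfold ex
    rw [← ENNReal.ofReal_add (Real.exp_pos _).le (Real.exp_pos _).le,
      show (2 : ℝ≥0∞) = ENNReal.ofReal 2 by simp, ← ENNReal.ofReal_mul (by norm_num)]
    exact ENNReal.ofReal_le_ofReal a4
  have h2 := lintegral_mono (μ := volume) hp
  rw [lintegral_add_left (by fun_prop), hr, lintegral_const_mul _ (by fun_prop), ← two_mul] at h2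
  have h3 := h2.trans (mul_le_mul_right (hC.1 m v 0 hv (by norm_num)) _)
  rw [mul_one] at h3
  exact (ENNReal.mul_le_mul_iff_right (by norm_num) (by norm_num)).1 h3

lemma gap_mono : StrictMonoOn (fun y => y - Real.tanh y) (Ici 0) := by
  refine strictMonoOn_of_deriv_pos (convex_Ici 0) (by fun_prop) fun y hy => ?_
  rw [interior_Ici] at hy
  rw [show (fun y => y - Real.tanh y) = (fun y => y) - Real.tanh from rfl,
    ((hasDerivAt_id' y).sub (hasDerivAt_tanh y)).deriv]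
  have : 0 < Real.tanh y := by
    rw [Real.tanh_eq_sinh_div_cosh]
    exact div_pos (Real.sinh_pos_iff.2 hy) (Real.cosh_pos y)
  nlinarith

/-- the event `|w| ≤ e γ`, `q ≥ q1` -/
lemma ev2 (hI : IdStmt) (hC : ChStmt) (hT : TiltStmt) : ∃ C : ℕ, ∀ (n : ℕ) (t q1 c : ℝ),
    2 ≤ n → 1 / (n : ℝ) ≤ t → 0 < q1 → q1 ≤ 1 → 0 < c → c ≤ q1 ^ 2 / 4 → 4 * t ≤ c →
    (∀ m, q1 ^ 2 / 4 ≤ m → Real.tanh m ≤ m - c) →
    Px t {x : V n | q1 ≤ aS x ∧ |ww t x| ≤ c / 4 * ga t x} ≤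
      ex (C * Real.log n - c ^ 2 / 32 * n) := by
  obtain ⟨C, h0⟩ := hT
  refine ⟨C, fun n t q1 c hn ht hq1 hq2 hc hc1 htc hth => ?_⟩
  have hn0 : 0 < n := by omega
  have hn' : (0 : ℝ) < n := by exact_mod_cast hn0
  have ht0 : 0 < t := lt_of_lt_of_le (by positivity) ht
  have hqq : q1 ^ 2 ≤ q1 := by nlinarith
  have hm : MeasurableSet ({x : V n | q1 ≤ aS x} ∩ {x : V n | |ww t x| ≤ c / 4 * ga t x}) :=
    (measurableSet_le (by fun_prop) (by fun_prop)).inter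
      (measurableSet_le (by fun_prop) (by fun_prop))
  refine h0 n t _ _ (fun m _ _ y => c / 4 * (sg m * Real.tanh y)) hn hm
    (fun _ _ _ => by fun_prop) fun x hx => ?_
  obtain ⟨x1, x2⟩ := hx
  obtain ⟨i1, i2, -⟩ := hI n t x hn0 ht0
  have hg := ga_pos ht0 x
  have hq := aS_nonneg x
  have hq' := aS_lt_one hn0 x
  have eg : ga t x = aS x + t := rfl
  have em : mu t x = bS x + t := rfl
  refine ⟨mu t x, ga t x, 0, _, abs_mu_le hn0 ht0.le (by linarith) x,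
    ⟨by linarith, by linarith⟩, ⟨by norm_num, by norm_num⟩, (i2 _ hg).le,
    fun m0 v0 u0 hcl => ?_⟩
  obtain ⟨c1, c2, -, -, -, c3⟩ := hcl
  rw [c3 rfl]
  refine ⟨_, mgf hC (by linarith) (by linarith), ?_⟩
  have a1 : |mu t x - m0| ≤ t := by
    refine c1.trans ?_
    have b1 : 1 / (n : ℝ) * (1 / (n : ℝ)) ≤ t * t :=
      mul_le_mul ht ht (by positivity) ht0.le
    have b2 : ga t x / (n : ℝ) ^ 2 = ga t x * (1 / (n : ℝ) * (1 / (n : ℝ))) := by field_simp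
    rw [b2]
    calc _ ≤ 2 * (t * t) := mul_le_mul (by linarith) b1 (by positivity) (by norm_num)
      _ ≤ t := by nlinarith
  have a2 : q1 ^ 2 / 2 ≤ |mu t x| := by
    have b1 : mu t x * bS x ≤ |mu t x| := by
      refine (le_abs_self _).trans ?_
      rw [abs_mul]
      exact mul_le_of_le_one_right (abs_nonneg _) (abs_bS_le hn0 x)
    have b2 := R4_nonneg x
    have b3 := (abs_le.1 x2).2
    have b4 : q1 * (q1 - c / 4) ≤ ga t x * (aS x - c / 4) :=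
      mul_le_mul (by linarith) (by linarith) (by linarith) hg.le
    nlinarith
  have a3 : q1 ^ 2 / 4 ≤ |m0| := by
    have := abs_sub_abs_le_abs_sub (mu t x) m0
    linarith
  have a4 := hth _ a3
  have a5 : |m0| - 2 * t ≤ sg m0 * bS x := by
    have b1 := sg_mul_ge m0 (mu t x - m0)
    have b2 := sg_mul_ge m0 (-t)
    rw [abs_neg, abs_of_pos ht0] at b2
    have b3 : sg m0 * bS x = sg m0 * m0 + sg m0 * (mu t x - m0) + sg m0 * (-t) := by
      rw [em]; ring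
    rw [b3, sg_mul]; linarith
  have a6 : Wt t x ≤ c ^ 2 / 32 := by
    have b1 : ww t x ^ 2 ≤ (c / 4 * ga t x) ^ 2 := sq_le_sq' (abs_le.1 x2).1 (abs_le.1 x2).2
    unfold Wt
    rw [div_le_iff₀ (by positivity)]
    nlinarith [mul_nonneg (sq_nonneg c) (mul_nonneg hg.le hq)]
  have e1 : ∑ i, c / 4 * (sg m0 * Real.tanh (x i)) = n * (c / 4 * (sg m0 * bS x)) := by
    simp only [← Finset.mul_sum, bS, avg, th]; field_simp
  rw [e1, div_self hg.ne', Real.log_one, mul_comm _ (n : ℝ), ← mul_add, ← mul_add]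
  refine mul_le_mul_of_nonneg_left ?_ hn'.le
  nlinarith [mul_le_mul_of_nonneg_left a5 hc.le, mul_le_mul_of_nonneg_left a4 hc.le,
    mul_le_mul_of_nonneg_left htc hc.le]

lemma lg_one (hI : IdStmt) (hC : ChStmt) (hT : TiltStmt) (hH : HiStmt) {q1 : ℝ} (hq1 : 0 < q1)
    (hq2 : q1 ≤ 1) : ∃ κ > (0 : ℝ), ∃ t0 > (0 : ℝ), ∃ C : ℕ, ∀ (n : ℕ) (t : ℝ),
    C ≤ n → t ∈ Icc (1 / (n : ℝ)) t0 → Px t {x : V n | q1 ≤ aS x} ≤
      ex (C * Real.log n - κ * n) := by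
  obtain ⟨C0, h0⟩ := hH
  obtain ⟨C1, h1⟩ := ev1 hI hC hT
  obtain ⟨C2, h2⟩ := ev2 hI hC hT
  have hh : 0 < q1 ^ 2 / 4 := by positivity
  obtain ⟨c, hc⟩ : ∃ c, c = q1 ^ 2 / 4 - Real.tanh (q1 ^ 2 / 4) := ⟨_, rfl⟩
  have c0 : 0 < c := by
    have := gap_mono (mem_Ici.2 le_rfl) (mem_Ici.2 hh.le) hh
    simpa [hc] using this
  have c1 : c ≤ q1 ^ 2 / 4 := by
    have : 0 ≤ Real.tanh (q1 ^ 2 / 4) := by
      rw [Real.tanh_eq_sinh_div_cosh]
      exact div_nonneg (Real.sinh_nonneg_iff.2 hh.le) (Real.cosh_pos _).le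
    linarith
  have c2 : c ≤ 1 / 4 := by nlinarith
  have c3 : ∀ m, q1 ^ 2 / 4 ≤ m → Real.tanh m ≤ m - c := fun m hm => by
    have := gap_mono.monotoneOn (mem_Ici.2 hh.le) (mem_Ici.2 (hh.le.trans hm)) hm
    linarith
  have e0 : 0 < (c / 4) ^ 4 := by positivity
  have e1 : (c / 4) ^ 4 ≤ (c / 4) ^ 2 := pow_le_pow_of_le_one (by linarith) (by linarith) (by omega)
  have e2 : (c / 4) ^ 2 ≤ c / 4 := by nlinarith
  refine ⟨(c / 4) ^ 4 / 256, by positivity, q1 * (c / 4) ^ 4 / 576, by positivity,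
    C0 + C1 + C2 + 3, fun n t hn ht => ?_⟩
  have hn0 : 0 < n := by omega
  have hn' : (0 : ℝ) < n := by exact_mod_cast hn0
  have hl : 0 ≤ Real.log n := Real.log_natCast_nonneg n
  have t1 : 576 * t ≤ q1 * (c / 4) ^ 4 := by linarith [ht.2]
  have t2 : q1 * (c / 4) ^ 4 ≤ (c / 4) ^ 4 := mul_le_of_le_one_left e0.le hq2
  have t0 : 0 < t := lt_of_lt_of_le (by positivity) ht.1
  have k0 := h0 n t (by omega) ⟨ht.1, by linarith⟩
  have k1 := h1 n t q1 (c / 4) (by omega) ht.1 (by linarith) hq1 (by linarith) (by linarith) t1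
  have k2 := h2 n t q1 c (by omega) ht.1 hq1 hq2 c0 c1 (by linarith) c3
  have p0 : (0 : ℝ) ≤ C0 * Real.log n := by positivity
  have p1 : (0 : ℝ) ≤ C1 * Real.log n := by positivity
  have p2 : (0 : ℝ) ≤ C2 * Real.log n := by positivity
  obtain ⟨B, hB⟩ : ∃ B, B = ex ((C0 + C1 + C2 : ℝ) * Real.log n - (c / 4) ^ 4 / 256 * n) :=
    ⟨_, rfl⟩
  have m0 := k0.trans (show _ ≤ B from hB ▸ Conc.ex_mono (by nlinarith))
  have m1 := k1.trans (show _ ≤ B from hB ▸ Conc.ex_mono (by nlinarith))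
  have m2 := k2.trans (show _ ≤ B from hB ▸ Conc.ex_mono (by nlinarith))
  have cov : Px t {x : V n | q1 ≤ aS x} ≤ B + (B + B) := by
    refine (Px_cover t (F := {x : V n | 3 * ga t x ≤ ww t x})
      (G := {x : V n | q1 ≤ aS x ∧ ww t x ≤ 3 * ga t x}) fun x hx => ?_).trans
      (add_le_add m0 ((Px_cover t fun x hx => ?_).trans (add_le_add m1 m2)))
    · exact (le_total (3 * ga t x) (ww t x)).imp id fun h => ⟨hx, h⟩
    · exact (le_total (c / 4 * ga t x) |ww t x|).imp (fun h => ⟨hx.1, hx.2, h⟩) fun h => ⟨hx.1, h⟩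
  have := ex_sum (k := 3) (by omega) hn0 (C0 + C1 + C2 : ℝ) ((c / 4) ^ 4 / 256 * n)
  rw [← hB] at this
  refine cov.trans (le_trans (le_of_eq (by push_cast; ring)) (this.trans (Conc.ex_mono ?_)))
  push_cast
  nlinarith

end L91

theorem lgGlue : LgGlue := by
  intro hI hC hT hH q1 hq
  obtain ⟨κ, hκ, t0, ht0, C, h⟩ := L91.lg_one hI hC hT hH (lt_min hq one_pos) (min_le_right _ _)
  refine ⟨κ, hκ, t0, ht0, C, fun n t hn ht => (Px_mono t fun x hx => ?_).trans (h n t hn ht)⟩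
  exact (min_le_left q1 1).trans hx

end Crest.Agent.T157.Kb

end
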