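import Crest.Agent.T157.KbB_24

/-!
# Row 157, part A2, section 2 (helper67): measurability of the good event `G1`
-/

set_option autoImplicit false

noncomputable section

namespace Crest.Agent.T157.Kb

open MeasureTheory Matrix Set
open Crest.Agent.T157.E Crest.Agent.T157.Cond Crest.Agent.T157.Tap
open Crest.Agent.T157.Qe (Le bv St zz)
open Crest.Agent.T157.Kp (Sl P5)

namespace Mg67

variable {n : ℕ} {Ω : Type*} [MeasurableSpace Ω] {x : Ω → V n} {W : Ω → Mx n}

lemma mle {f g : Ω → ℝ} (hf : Measurable f) (hg : Measurable g) :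
    Measurable fun ω => f ω ≤ g ω := measurableSet_setOfPred.1 (measurableSet_le hf hg)

lemma meq {f g : Ω → ℝ} (hf : Measurable f) (hg : Measurable g) :
    Measurable fun ω => f ω = g ω := measurableSet_setOfPred.1 (measurableSet_eq_fun hf hg)

lemma m_mem (l : ℝ) (hx : Measurable x) (i : Fin n) : MeasurableSet {ω | i ∈ Sl l (x ω)} := by
  have h : Measurable fun ω => th (x ω) i := measurable_pi_iff.1 (meas_th hx) i
  simp only [Sl, Finset.mem_filter, Finset.mem_univ, true_and]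
  exact measurableSet_le (by fun_prop) (by fun_prop)

lemma m_card (l : ℝ) (hx : Measurable x) : Measurable fun ω => ((Sl l (x ω)).card : ℝ) := by
  have e : (fun ω => ((Sl l (x ω)).card : ℝ)) = fun ω => ∑ i, if i ∈ Sl l (x ω) then 1 else 0 := by
    funext ω; simp
  rw [e]
  exact Finset.measurable_sum _ fun i _ =>
    Measurable.ite (m_mem l hx i) measurable_const measurable_const

lemma m_AT (l : ℝ) (hx : Measurable x) (hW : Measurable W) :
    Measurable fun ω => AT (Sl l (x ω)) (x ω) (W ω) := by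
  have h : Measurable fun ω i => if i ∈ Sl l (x ω) then 1 else Real.cosh (x ω i) ^ 2 :=
    measurable_pi_iff.2 fun i => Measurable.ite (m_mem l hx i) measurable_const (by fun_prop)
  have h2 := meas_diag h
  unfold AT
  fun_prop

lemma m_Pos {c : Ω → ℝ} (hc : Measurable c) (hW : Measurable W) :
    MeasurableSet {ω | Pos (c ω) (W ω)} := by
  have e : {ω | Pos (c ω) (W ω)} = {ω | Le (c ω • (1 : Mx n)) (W ω)} := by
    ext ω; simp [Pos, Le, smul_mulVec]
  rw [e]
  exact Qe.measurableSet_le (by fun_prop) hW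

lemma m_P5 (l : ℝ) (hx : Measurable x) (hW : Measurable W) :
    MeasurableSet {ω | P5 (Sl l (x ω)) (x ω) (W ω)} :=
  Qe.measurableSet_le (by fun_prop) (m_AT l hx hW)

lemma m_St (C δ : ℝ) {q β : Ω → ℝ} {D e c τ : Ω → V n} (hq : Measurable q) (hD : Measurable D)
    (hβ : Measurable β) (he : Measurable e) (hc : Measurable c) (hτ : Measurable τ) :
    MeasurableSet {ω | St C δ (q ω) (D ω) (β ω) (e ω) (c ω) (τ ω)} := by
  have key : ∀ (q β : ℝ) (D e c τ : V n), St C δ q D β e c τ ↔ _ ∧ _ ∧ _ ∧ _ ∧ _ ∧ _ ∧ _ ∧ _ ∧ _ ∧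
      _ ∧ _ ∧ _ ∧ _ ∧ _ ∧ _ ∧ _ ∧ _ ∧ _ ∧ _ := fun _ _ _ _ _ _ =>
    ⟨fun h => ⟨h.1, h.2, h.3, h.4, h.5, h.6, h.7, h.8, h.9, h.10, h.11, h.12, h.13, h.14, h.15,
      h.16, h.17, h.18, h.19⟩, fun ⟨h1, h2, h3, h4, h5, h6, h7, h8, h9, h10, h11, h12, h13, h14,
        h15, h16, h17, h18, h19⟩ => ⟨h1, h2, h3, h4, h5, h6, h7, h8, h9, h10, h11, h12, h13, h14,
          h15, h16, h17, h18, h19⟩⟩
  have hd := meas_diag hD
  have hb := meas_bv he hc
  have hb' := meas_bv he (hd.t157_mulVec he)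
  rw [measurableSet_setOfPred]
  simp only [key]
  refine (meq (by fun_prop) (by fun_prop)).and ((meq (by fun_prop) (by fun_prop)).and ?_)
  iterate 16 refine (mle (by fun_prop) (by fun_prop)).and ?_
  exact mle (by fun_prop) (by fun_prop)

lemma m_Col (C δ : ℝ) (hx : Measurable x) (hW : Measurable W) :
    MeasurableSet {ω | Col C δ (x ω) (W ω)} :=
  m_St C δ (meas_aS hx) (meas_Dk ∅ measurable_const (by fun_prop) hx) (by fun_prop) (meas_ee hx)
    (hW.t157_mulVec (meas_ee hx)) (meas_tau hx)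

lemma m_HA (ε η : ℝ) (hx : Measurable x) (hW : Measurable W) :
    MeasurableSet {ω | HA ε η (x ω) (W ω)} := by
  have h : Measurable fun ω => f2 (x ω) := (meas_bv hx.t157_unitv (meas_th hx)).t157_unitv
  exact Qe.measurableSet_le (by fun_prop) (by fun_prop)

lemma m_TR (b : ℝ) (hx : Measurable x) (hW : Measurable W) :
    MeasurableSet {ω | TR b (x ω) (W ω)} := by
  have h : Measurable fun ω => zz (1 - aS (x ω)) := by unfold zz; fun_prop
  have h2 : Measurable fun ω => (zz (1 - aS (x ω)) • (1 : Mx n) - W ω)⁻¹.trace :=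
    ((h.t157_smul measurable_const).t157_sub hW).t157_inv23.t157_trace
  exact measurableSet_le (by fun_prop) measurable_const

lemma m_B3 (ε : ℝ) (hx : Measurable x) : MeasurableSet {ω | B3 ε (x ω)} := by
  have h3 : Measurable fun ω => avg fun i => th (x ω) i ^ 3 := by unfold avg th; fun_prop
  exact measurableSet_setOfPred.2
    ((mle (by fun_prop) (by fun_prop)).and (mle (by fun_prop) (by fun_prop)))

lemma m_Sh (ε t : ℝ) (hx : Measurable x) : MeasurableSet {ω | Sh ε t (x ω)} :=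
  measurableSet_setOfPred.2 ((mle (by fun_prop) (by fun_prop)).and (mle (by fun_prop) (by fun_prop)))

lemma m_G1 (L T η H t : ℝ) (hx : Measurable x) (hW : Measurable W) :
    MeasurableSet {ω | G1 L T η H t (x ω) (W ω)} := by
  have key : ∀ (x : V n) (W : Mx n), G1 L T η H t x W ↔
      _ ∧ _ ∧ _ ∧ _ ∧ _ ∧ _ ∧ _ ∧ _ ∧ _ ∧ _ ∧ _ := fun _ _ =>
    ⟨fun h => ⟨h.1, h.2, h.3, h.4, h.5, h.6, h.7, h.8, h.9, h.10, h.11⟩,
      fun ⟨h1, h2, h3, h4, h5, h6, h7, h8, h9, h10, h11⟩ =>
        ⟨h1, h2, h3, h4, h5, h6, h7, h8, h9, h10, h11⟩⟩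
  rw [measurableSet_setOfPred]
  simp only [key]
  exact (measurableSet_setOfPred.1 (measSet_Co _ _ _ hx)).and <|
    (mle (by fun_prop) measurable_const).and <| (measurableSet_setOfPred.1 (measSet_XM _ hx)).and <|
    (measurableSet_setOfPred.1 (m_B3 _ hx)).and <| (mle (m_card _ hx) measurable_const).and <|
    (mle (m_card _ hx) (by fun_prop)).and <|
    (measurableSet_setOfPred.1 (m_Pos (by fun_prop) (m_AT _ hx hW))).and <|
    (measurableSet_setOfPred.1 (m_P5 _ hx hW)).and <| (measurableSet_setOfPred.1 (m_Col _ _ hx hW)).and <|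
    (measurableSet_setOfPred.1 (m_HA _ _ hx hW)).and (measurableSet_setOfPred.1 (m_TR _ hx hW))

end Mg67

open Mg67 in
theorem measG : MeasG := fun _ _ _ _ _ _ _ _ =>
  ⟨m_B3 _ measurable_id, m_Sh _ _ measurable_id, m_card _ measurable_id,
    m_AT _ measurable_fst measurable_snd,
    m_Pos (by fun_prop) (m_AT _ measurable_fst measurable_snd),
    m_P5 _ measurable_fst measurable_snd, m_Col _ _ measurable_fst measurable_snd,
    m_HA _ _ measurable_fst measurable_snd, m_TR _ measurable_fst measurable_snd,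
    fun _ _ => m_G1 _ _ _ _ _ measurable_fst measurable_snd⟩

end Crest.Agent.T157.Kb

end
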