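import Crest.Agent.T157.KbB_24
import Crest.Agent.T157.KbAll_5
import Crest.Agent.T157.O0I_21

/-!
# Row 157, part A2, section 2: the first-moment events of the top (helper14)
-/

set_option autoImplicit false

noncomputable section

namespace Crest.Agent.T157.Kb

open MeasureTheory Matrix Set Filter Real
open scoped ENNReal
open Crest.Agent.T157.E Crest.Agent.T157.Cond Crest.Agent.T157.Tap
open Crest.Agent.T157.Kp (Sl P5)
open Crest.Agent.T157.Conc (ex)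
open Crest.Agent.T157.O0 (Pm FF)

namespace Top14

variable {n : ℕ}

lemma pos_empty {l : ℝ} {S : Finset (Fin n)} {x : V n} {W : Mx n} (h : Pos l (AT S x W)) :
    Pos l (AT ∅ x W) := fun u => by
  refine (h u).trans ?_
  simp only [AT, add_mulVec, sub_mulVec, dotProduct_add, dotProduct_sub, add_le_add_iff_right,
    sub_le_sub_iff_right]
  simp only [dotProduct, mulVec_diagonal]
  refine Finset.sum_le_sum fun i _ => ?_
  have h1 : 1 ≤ cosh (x i) ^ 2 := one_le_pow₀ (one_le_cosh _)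
  have h2 := mul_self_nonneg (u i)
  simp only [Finset.notMem_empty, if_false]
  split_ifs <;> nlinarith

lemma det_pos {L T η H t : ℝ} {x : V n} {W : Mx n} (hn : 0 < n) (t0 : 0 < t) (η1 : η ≤ 1 / 2)
    (η0 : 0 ≤ η) (hW : Wᵀ = W) (s : Cube n) (h : G1 L T η H t (gz s (x, W)).1 (gz s (x, W)).2) :
    0 < Kp.dt x W := by
  have h1 : η ^ 3 ≤ (1 / 2) ^ 3 := pow_le_pow_left₀ η0 η1 3
  have h2 : 0 < aS (gz s (x, W)).1 ^ 2 := by
    refine (sq_nonneg _).lt_of_ne fun h0 => ?_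
    have := h.co.q1
    rw [← h0, mul_zero] at this
    linarith
  have h3 : (gz s (x, W)).2ᵀ = (gz s (x, W)).2 := by
    simp only [gz, TapPl.cj, transpose_mul, diagonal_transpose, hW, Matrix.mul_assoc]
  have := (atStmt n ∅ _ _ hn).2.2 _ (mul_pos (by linarith) h2) h3 (pos_empty h.pos)
  exact this.trans_eq (Ga98.dt_gz s x W)

variable {p : Pm} {e t η : ℝ}

lemma cv_le (h : p.Ok) : p.cv ≤ p.k3 / 100 ∧ p.k3 ≤ 1 / 1000 ∧ p.e1 ≤ 1 / 2 := by
  have h1 : (1 : ℝ) ≤ p.A := by exact_mod_cast h.A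
  have h2 : p.k3 ≤ 1 / 1000 := by
    linarith [h.k3.2, h.k2.2, h.k4.2, h.d.2, h.ch.2]
  exact ⟨by nlinarith [h.cv', h.cv], h2, by linarith [h.e1.2]⟩

lemma M_eq (t0 : 0 < t) : p.M t = p.n * (t * √t) := by
  rw [Pm.M, sqrt_eq_rpow, ← rpow_one_add' t0.le (by norm_num)]; norm_num

lemma sqrt_le (h : p.Ok) (t0 : 0 < t) (t1 : t ≤ 1) (he : p.Er e t) (h2 : e ^ 2 ≤ η) {j : ℕ}
    (hj : j ≤ 100) : √t ≤ η ^ j := by
  obtain ⟨c1, c2, -⟩ := cv_le h
  have hj' : (j : ℝ) ≤ 100 := by exact_mod_cast hj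
  calc √t ≤ t ^ (p.cv * (2 * j : ℕ)) := by
        rw [sqrt_eq_rpow]
        refine rpow_le_rpow_of_exponent_ge t0 t1 ?_
        push_cast; nlinarith [h.cv]
    _ = ((t ^ p.cv) ^ 2) ^ j := by rw [rpow_mul t0.le, rpow_natCast, pow_mul]
    _ ≤ _ := pow_le_pow_left₀ (by positivity)
      ((pow_le_pow_left₀ (by positivity) he.2.2.1 2).trans h2) j

lemma rp_le (b : p.Big) (he : p.Er e t) (h2 : e ^ 2 ≤ η) (j : ℕ) :
    (p.n : ℝ) ^ (-p.cv * (2 * j : ℕ)) ≤ η ^ j := by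
  rw [rpow_mul (Nat.cast_nonneg _), rpow_natCast, pow_mul]
  exact pow_le_pow_left₀ (by positivity)
    ((pow_le_pow_left₀ (by positivity) he.2.2.2 2).trans h2) j

lemma lo_eq (b : p.Big) : p.lo = (p.n : ℝ) ^ (p.d - 2 / 3) := by
  rw [Pm.lo, rpow_sub (by linarith [b.n1])]

lemma inv_le (h : p.Ok) (b : p.Big) (ht : p.lo ≤ t) : 1 / (p.n : ℝ) ≤ t := by
  refine le_trans ?_ ht
  rw [lo_eq b, one_div, ← rpow_neg_one]
  exact rpow_le_rpow_of_exponent_le b.n1 (by linarith [h.d.1])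

lemma sz {c H : ℝ} {N : ℕ} (h : p.Ok) (b : p.Big) (ht : t ∈ Icc p.lo p.t0) (he : p.Er e t)
    (h2 : e ^ 2 ≤ η) (h1 : η ≤ e) (hc : p.e1 ≤ c) (hN : N ≤ p.n) (hT : p.T ≤ (p.n : ℝ) ^ p.d)
    (hl : N * log p.n ≤ (p.n : ℝ) ^ p.d) (H0 : (p.n : ℝ) ^ p.d ≤ H) (H1 : H ≤ p.L * p.M t)
    (H2 : H ≤ η ^ 66 * p.n * t) (H3 : H ≤ η ^ 33 * log (1 / t) * p.M t) :
    Sz p.n p.L p.T c η ((p.n : ℝ) ^ p.k3 * √(p.n * t)) H t N := by
  obtain ⟨c1, c2, c3⟩ := cv_le h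
  have n1 := b.n1
  have n0 : (0 : ℝ) < p.n := by linarith
  have t0 : 0 < t := b.lo_pos.trans_le ht.1
  have t1 : t ≤ 1 := by linarith [ht.2, h.t0.2]
  have tl := ht.1
  rw [lo_eq b] at tl
  have η0 : 0 < η := (pow_pos he.1 2).trans_le h2
  have cv0 := h.cv
  refine ⟨hN, inv_le h b ht.1, η0, h1.trans (he.2.1.trans hc), sqrt_le h t0 t1 he h2 (by norm_num),
    hT.trans ?_, ?_, by positivity, ?_, hl.trans H0, by rwa [M_eq t0, ← mul_assoc] at H1, H2,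
    by rwa [M_eq t0, ← mul_assoc] at H3⟩
  · calc (p.n : ℝ) ^ p.d ≤ (p.n : ℝ) ^ ((2 : ℕ) + -p.cv * (2 * 6 : ℕ) + (p.d - 2 / 3)) :=
          rpow_le_rpow_of_exponent_le n1 (by push_cast; linarith)
      _ = (p.n : ℝ) ^ 2 * (p.n : ℝ) ^ (-p.cv * (2 * 6 : ℕ)) * (p.n : ℝ) ^ (p.d - 2 / 3) := by
          rw [rpow_add n0, rpow_add n0, rpow_natCast]
      _ ≤ (p.n : ℝ) ^ 2 * η ^ 6 * t := by have := rp_le b he h2 6; gcongr
      _ = _ := by ring
  · calc p.T ^ 3 ≤ ((p.n : ℝ) ^ p.d) ^ 3 := pow_le_pow_left₀ (by linarith [h.T]) hT 3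
      _ = (p.n : ℝ) ^ 2 * ((p.n : ℝ) ^ (p.d - 2 / 3)) ^ 3 := by
          rw [← rpow_natCast, ← rpow_natCast _ 3, ← rpow_natCast _ 2, ← rpow_mul n0.le,
            ← rpow_mul n0.le, ← rpow_add n0]
          congr 1; push_cast; ring
      _ ≤ _ := by gcongr
  · have a1 : (p.n : ℝ) ^ (1 / 6 : ℝ) ≤ √(p.n * t) := by
      refine le_sqrt_of_sq_le ?_
      calc _ = (p.n : ℝ) ^ (1 / 3 : ℝ) := by
            rw [← rpow_natCast, ← rpow_mul n0.le]; norm_num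
        _ ≤ (p.n : ℝ) ^ (1 + (p.d - 2 / 3)) :=
            rpow_le_rpow_of_exponent_le n1 (by linarith [h.d.1])
        _ ≤ _ := by rw [rpow_add n0, rpow_one]; gcongr
    have a2 : (p.n : ℝ) ^ p.k3 ≤ η ^ 57 * √(p.n * t) :=
      calc (p.n : ℝ) ^ p.k3 ≤ (p.n : ℝ) ^ (-p.cv * (2 * 57 : ℕ) + 1 / 6) :=
            rpow_le_rpow_of_exponent_le n1 (by push_cast; linarith)
        _ ≤ _ := by rw [rpow_add n0]; have := rp_le b he h2 57; gcongr
    calc _ ≤ η ^ 57 * √(p.n * t) * √(p.n * t) := by gcongr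
      _ = _ := by rw [mul_assoc, mul_self_sqrt (by positivity), mul_assoc]

lemma wt (h : p.Ok) (b : p.Big) (ht : t ∈ Icc p.lo p.t0) (he : p.Er e t) (h2 : e ^ 2 ≤ η)
    (h1 : η ≤ e) (hA : 66 ≤ p.A) (hT : 8 * p.T * p.e1 ≤ 1) :
    WT p.T 22 (η ^ 3) ((p.n : ℝ) ^ p.k3 * √(p.n * t)) t (p.Wt e t) := by
  obtain ⟨-, -, c3⟩ := cv_le h
  have t0 : 0 < t := b.lo_pos.trans_le ht.1
  have t1 : t ≤ 1 := by linarith [ht.2, h.t0.2]
  have e0 := he.1
  have e1 : e ≤ 1 / 2 := he.2.1.trans c3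
  have η0 : 0 < η := (pow_pos he.1 2).trans_le h2
  have T0 : 0 ≤ p.T := by linarith [h.T]
  have hT' : 8 * p.T * e ≤ 1 := (mul_le_mul_of_nonneg_left he.2.1 (by positivity)).trans hT
  refine O0.Wb.Wt_ws' h e0 e1 t0 ?_ ?_ (pow_pos η0 3) le_rfl
  · calc 8 * p.T * e ^ p.A ≤ 8 * p.T * e ^ 25 :=
          mul_le_mul_of_nonneg_left (pow_le_pow_of_le_one e0.le (by linarith) (by omega))
            (by positivity)
      _ = 8 * p.T * e * (e ^ 2) ^ 12 := by ring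
      _ ≤ 1 * η ^ 12 := by gcongr
      _ = _ := by ring
  · have a1 : (η ^ 3) ^ 4 ≤ e := by
      rw [← pow_mul]
      exact (pow_le_of_le_one η0.le (by linarith) (by norm_num)).trans h1
    calc 4 * (η ^ 3) ^ 4 * p.T * t ≤ 4 * e * p.T * 1 := by gcongr
      _ ≤ 1 := by nlinarith [mul_nonneg T0 e0.le]

lemma kb {H : ℝ} {C : ℕ} (h : p.Ok) (b : p.Big) (ht : t ∈ Icc p.lo p.t0) (he : p.Er e t)
    {B : Set (V p.n × Mx p.n)} (mB : MeasurableSet B)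
    (neg : ∀ x W s, Wᵀ = W → gz s (x, W) ∉ B → 0 < Kp.dt x W) (hC : (C : ℝ) ≤ p.Cn)
    (er : ∀ WW : Set (Mx p.n), MeasurableSet WW →
      (∀ O W : Mx p.n, O * Oᵀ = 1 → W ∈ WW → O * W * Oᵀ ∈ WW) → (∀ W ∈ WW, Eig.opn W ≤ 4) →
      Kp.Er t Kp.cx WW ≤ ex (C * log p.n))
    (pt : Pt t ({z : V p.n × Mx p.n | z.2 ∈ p.Wt e t ∧ z ∈ B}.indicator 1) ≤ ex (-(9 * H))) :
    O0.Kb t (p.Wt e t) (fun x W s => gz s (x, W) ∈ B) H ((p.n : ℝ) ^ p.Cn) := by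
  obtain ⟨-, -, c3⟩ := cv_le h
  have t0 : 0 < t := b.lo_pos.trans_le ht.1
  have t1 : t ≤ 1 := by linarith [ht.2, h.t0.2]
  obtain ⟨m, i, -⟩ := O0.wStmt p.n p.k3 (e ^ p.A) (min t p.t2) (pow_pos he.1 _)
    (lt_min t0 h.t2_pos)
  refine ⟨fun s => Ga98.meas_gz s mB, fun x W _ hW hd s => by_contra fun hB =>
    lt_asymm hd (neg x W s hW hB), (er _ m i fun W hW => ?_).trans ?_,
    (ptE_eq m i t mB).trans_le pt⟩
  · refine (Eig.opn_le_of_sq (c := 3) (by norm_num) fun v => ?_).trans (by norm_num)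
    have := (O0.Wb.Wt_op2 h he.1 (by linarith [he.2.1]) t0 t1 hW).1 v
    norm_num
    exact this
  · refine ENNReal.ofReal_le_ofReal ?_
    rw [mul_comm, ← rpow_def_of_pos (by linarith [b.n1])]
    exact rpow_le_rpow_of_exponent_le b.n1 hC

lemma ev_log (a : ℝ) {d : ℝ} (hd : 0 < d) :
    ∀ᶠ n : ℕ in atTop, a * log n ≤ (n : ℝ) ^ d ∧ a ≤ (n : ℝ) ^ d := by
  have h1 := ((isLittleO_log_rpow_atTop hd).const_mul_left a).bound one_pos
  filter_upwards [tendsto_natCast_atTop_atTop.eventually h1, ((tendsto_rpow_atTop hd).comp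
    tendsto_natCast_atTop_atTop).eventually_ge_atTop a] with n hn h2
  rw [one_mul, norm_eq_abs, norm_eq_abs, abs_of_nonneg (a := (n : ℝ) ^ d) (by positivity)] at hn
  exact ⟨(le_abs_self _).trans hn, h2⟩

end Top14

open Top14

theorem topGlue : TopGlue := by
  intro ms hb
  obtain ⟨te, te0, Ce, her⟩ := er_le All.er
  have h1 : ∀ L : ℝ, ∃ T0 : ℝ, ∀ T : ℝ, ∃ c > (0 : ℝ), ∃ N : ℕ, 50000 ≤ L → T0 ≤ T →
      ∀ (n : ℕ) (t η E H : ℝ) (S0 : Set (Mx n)), Sz n L T c η E H t N → WT T 22 (η ^ 3) E t S0 →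
      Pt t ({z : V n × Mx n | z.2 ∈ S0 ∧ ¬ G1 L T η H t z.1 z.2}.indicator 1) ≤ ex (-(9 * H)) ∧
      (H ≤ η ^ 9 * n * (t * √t) → Pt t ({z : V n × Mx n | z.2 ∈ S0 ∧
        ¬ (G1 L T η H t z.1 z.2 ∧ Sh (η ^ 3) t z.1)}.indicator 1) ≤ ex (-(9 * H))) := fun L => by
    by_cases hL : 50000 ≤ L
    · obtain ⟨T0, h⟩ := hb 22 (by norm_num) L hL
      refine ⟨T0, fun T => ?_⟩
      by_cases hT : T0 ≤ T
      · obtain ⟨c, c0, N, h⟩ := h T hT
        exact ⟨c, c0, N, fun _ _ => h⟩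
      · exact ⟨1, one_pos, 0, fun _ h => absurd h hT⟩
    · exact ⟨0, fun _ => ⟨1, one_pos, 0, fun h => absurd h hL⟩⟩
  choose T0 c c0 N hN using h1
  have hn : ∀ᶠ p in FF, 0 < p.d → N p.L p.T ≤ p.n ∧ Ce ≤ p.n ∧ p.T ≤ (p.n : ℝ) ^ p.d ∧
      N p.L p.T * log p.n ≤ (p.n : ℝ) ^ p.d := O0.ev_n fun q => by
    by_cases hd : 0 < q.d
    · filter_upwards [eventually_ge_atTop (N q.L q.T), eventually_ge_atTop Ce, ev_log q.T hd,
        ev_log (N q.L q.T) hd] with n a1 a2 a3 a4 _ using ⟨a1, a2, a3.2, a4.1⟩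
    · exact .of_forall fun _ h => absurd h hd
  have key : ∀ᶠ p in FF, ∀ t ∈ Icc p.lo p.t0,
      O0.Kb t (p.Wt p.e1 t) (base.c p t) (p.Hc t) ((p.n : ℝ) ^ p.Cn) ∧
      ∀ e, p.Er e t → O0.Kb t (p.Wt e t) (base.s p e t) (p.Hs e t) ((p.n : ℝ) ^ p.Cn) := by
    filter_upwards [O0.ev_ok, O0.ev_big, hn,
      O0.ev_L (Q := fun _ x => 50000 ≤ x) fun _ => O0.ev_ge _,
      O0.ev_T fun q => O0.ev_ge (T0 q.L),
      O0.ev_A (Q := fun _ x => 66 ≤ x) fun _ => eventually_ge_atTop _,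
      O0.ev_e1 fun q => (O0.ev_sm (c q.L q.T)).and (O0.ev_sm (1 / (8 * q.T))),
      O0.ev_t0 fun q => ((O0.ev_sm te).and (O0.ev_sm ((q.e1 ^ 66 / q.L) ^ 2))).and
        (O0.ev_sm (exp (-(q.L / q.e1 ^ 33)))),
      O0.ev_Cn (Q := fun _ x => (Ce : ℝ) ≤ x) fun _ => O0.ev_ge _]
      with p h b hn hL hT hA h1 h0 hC t ht
    obtain ⟨n1, n2, n3, n4⟩ := hn h.d.1
    obtain ⟨-, -, c3⟩ := cv_le h
    have L0 := h.L0
    have e0 := h.e1.1
    have T1 := h.T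
    have hc : p.e1 ≤ c p.L p.T := h1.1.2 (c0 _ _)
    have hT8 : 8 * p.T * p.e1 ≤ 1 := by
      have : p.e1 ≤ 1 / (8 * p.T) := h1.2.2 (show 0 < 1 / (8 * p.T) by positivity)
      rwa [le_div_iff₀' (by positivity)] at this
    have t0 : 0 < t := b.lo_pos.trans_le ht.1
    have t1 : t ≤ 1 := by linarith [ht.2, h.t0.2]
    have a1 : t ≤ te := ht.2.trans (h0.1.1.2 te0)
    have a2 : t ≤ (p.e1 ^ 66 / p.L) ^ 2 :=
      ht.2.trans (h0.1.2.2 (show 0 < (p.e1 ^ 66 / p.L) ^ 2 by positivity))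
    have a3 : t ≤ exp (-(p.L / p.e1 ^ 33)) := ht.2.trans (h0.2.2 (exp_pos _))
    have er := fun WW => her p.n t WW n2 ⟨inv_le h b ht.1, a1⟩
    have n0 : 0 < p.n := lt_of_lt_of_le (by norm_num) b.n
    have M0 : 0 ≤ p.M t := Pm.M_nn t0.le
    have hB := hN p.L p.T hL hT p.n t
    constructor
    · have he := b.er h ht
      have h2 : p.e1 ^ 2 ≤ p.e1 := by nlinarith
      have H1 : p.Hc t ≤ p.L * p.M t := min_le_left _ _
      have s1 : p.L * √t ≤ p.e1 ^ 66 := by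
        rw [← le_div_iff₀' L0]; exact sqrt_le_iff.2 ⟨by positivity, a2⟩
      have s2 : p.L ≤ p.e1 ^ 33 * log (1 / t) := by
        rw [← div_le_iff₀' (by positivity), one_div, log_inv, le_neg]
        exact (log_le_iff_le_exp t0).2 a3
      refine kb (B := {z | ¬ G1 p.L p.T p.e1 (p.Hc t) t z.1 z.2}) h b ht he
        ((ms p.n p.T 0 p.e1 0 0 0 t).2.2.2.2.2.2.2.2.2 _ _).compl
        (fun x W s hW hB => det_pos n0 t0 c3 e0.le hW s (not_not.1 hB)) hC er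
        (hB _ _ _ _ (sz h b ht he h2 le_rfl hc n1 n3 n4
          ((b.Hs_ge h ht.1 he).trans (h.Hs_le t0.le he)) H1 (H1.trans ?_)
          (H1.trans (mul_le_mul_of_nonneg_right s2 M0))) (wt h b ht he h2 le_rfl hA hT8)).1
      rw [M_eq t0]
      calc _ = p.L * √t * (p.n * t) := by ring
        _ ≤ p.e1 ^ 66 * (p.n * t) := by gcongr
        _ = _ := by ring
    · intro e he
      have e0 := he.1
      have e1 : e ≤ 1 / 2 := he.2.1.trans c3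
      have h2 : e ^ 2 ≤ e := by nlinarith
      have H1 : p.Hs e t ≤ e ^ p.A * p.M t := min_le_left _ _
      have p1 : ∀ j, j ≤ 33 → e ^ p.A ≤ (e ^ 2) ^ j := fun j hj => by
        rw [← pow_mul]; exact pow_le_pow_of_le_one e0.le (by linarith) (by omega)
      have s2 : 1 ≤ log (1 / t) := by
        rw [le_log_iff_exp_le (by positivity), le_div_iff₀ t0]
        nlinarith [exp_one_lt_d9, ht.2, h.t0.2, exp_pos 1]
      refine kb (B := {z | ¬ (G1 p.L p.T (e ^ 2) (p.Hs e t) t z.1 z.2 ∧ Sh ((e ^ 2) ^ 3) t z.1)})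
        h b ht he (((ms p.n p.T 0 (e ^ 2) 0 0 0 t).2.2.2.2.2.2.2.2.2 _ _).inter
          (measurable_fst (ms p.n 0 ((e ^ 2) ^ 3) 0 0 0 0 t).2.1)).compl
        (fun x W s hW hB => det_pos n0 t0 (h2.trans e1) (by positivity) hW s (not_not.1 hB).1) hC er
        ((hB _ _ _ _ (sz h b ht he le_rfl h2 hc n1 n3 n4 (b.Hs_ge h ht.1 he)
          ((h.Hs_le t0.le he).trans (min_le_left _ _)) (H1.trans ?_) (H1.trans ?_))
          (wt h b ht he le_rfl h2 hA hT8)).2 (H1.trans ?_))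
      · rw [M_eq t0]
        calc _ = e ^ p.A * √t * (p.n * t) := by ring
          _ ≤ (e ^ 2) ^ 0 * (e ^ 2) ^ 66 * (p.n * t) := by
              have := p1 0 (by norm_num)
              have := sqrt_le h t0 t1 he le_rfl (j := 66) (by norm_num)
              gcongr
          _ = _ := by ring
      · exact mul_le_mul_of_nonneg_right ((p1 33 le_rfl).trans
          (le_mul_of_one_le_right (by positivity) s2)) M0
      · rw [mul_assoc, ← M_eq t0]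
        exact mul_le_mul_of_nonneg_right (p1 9 (by norm_num)) M0
  exact ⟨key.mono fun p h t ht => (h t ht).1, key.mono fun p h t ht => (h t ht).2⟩

end Crest.Agent.T157.Kb

end
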