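import Crest.Agent.T157.StStein_79

/-!
# Row 157, A2 (helper61): all moments of `tr (z - W)⁻¹ / n - γ` for the GOE, `z = γ + 1/γ`

`moment`: the loop equation tested against `X^(k+1) conj X^(k+2) conj Λ`, `X = m - γ`,
`Λ = m - 1/γ`; no cutoff and no a priori bound.
-/

set_option autoImplicit false

noncomputable section

namespace Crest.Agent.T157.Kb.Tr61

open MeasureTheory Matrix Finset
open Crest.Agent.T157.E (gv)
open Crest.Agent.T157.Cond Crest.Agent.T157.St.Stein79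
open Crest.Agent.T157.Fr (res mtr hs)

variable {ι : Type*} [Fintype ι] [DecidableEq ι] {s : ℝ} {z : ℂ}

/-- derivative of `mm` -/
def M1 (s : ℝ) (z : ℂ) (p : ι × ι) (x : ι × ι → ℝ) : ℂ :=
  ((s ^ 2 : ℝ) : ℂ) * (2 * ((s / √2 : ℝ) : ℂ) * (GG s z x * GG s z x) p.1 p.2)

lemma der_mm (hz : 0 < z.im) (x : ι × ι → ℝ) (p : ι × ι) :
    HasDerivAt (fun t => mm s z (Function.update x p t)) (M1 s z p x) (x p) := by
  simp only [mm_eq, M1]
  refine HasDerivAt.const_mul _ ?_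
  have h := HasDerivAt.fun_sum (u := univ) fun k _ => der_GG (s := s) hz x p k k
  refine h.congr_deriv (Eq.symm ?_)
  rw [mul_apply, mul_sum]
  refine sum_congr rfl fun k _ => ?_
  rw [GG_symm x k p.1, GG_symm x p.2 k]
  ring

lemma bc_M1 (hz : 0 < z.im) (p : ι × ι) : BC (M1 s z p) :=
  (BC.const _).mul ((BC.const _).mul
    (BC.sum univ fun k => (bc_GG hz p.1 k).mul (bc_GG hz k p.2)))

/-- the remainder of the loop equation -/
def RG (s : ℝ) (z : ℂ) (F A B : (ι × ι → ℝ) → ℂ) (x : ι × ι → ℝ) : ℂ :=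
  ((s ^ 2 : ℝ) : ℂ) * (((s ^ 2 : ℝ) : ℂ) * (∑ p : ι × ι, GG s z x p.1 p.2 * GG s z x p.1 p.2) * F x +
    ∑ p : ι × ι, 2 * ((s / √2 : ℝ) : ℂ) *
      (GG s z x p.1 p.2 * (A x * M1 s z p x + B x * star (M1 s z p x))))

variable {F A B : (ι × ι → ℝ) → ℂ}

theorem stein_gen (hz : 0 < z.im) (hs : s ^ 2 * Fintype.card ι = 1) (hF : BC F) (hA : BC A)
    (hB : BC B) (hd : ∀ p x, HasDerivAt (fun t => F (Function.update x p t))
      (A x * M1 s z p x + B x * star (M1 s z p x)) (x p)) :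
    ∫ x, PP s z x * F x ∂gv (ι × ι) = -∫ x, RG s z F A B x ∂gv (ι × ι) := by
  set c : ℂ := ((s / √2 : ℝ) : ℂ) with hc
  set σ : ℂ := ((s ^ 2 : ℝ) : ℂ) with hσ
  let FF : ι × ι → (ι × ι → ℝ) → ℂ := fun p x => GG s z x p.1 p.2 * F x
  let F1 : ι × ι → (ι × ι → ℝ) → ℂ := fun p x =>
    c * (GG s z x p.1 p.1 * GG s z x p.2 p.2 + GG s z x p.1 p.2 * GG s z x p.1 p.2) * F x +
      GG s z x p.1 p.2 * (A x * M1 s z p x + B x * star (M1 s z p x))
  let TT : (ι × ι → ℝ) → ℂ := fun x => mm s z x * (∑ k, GG s z x k k) * F x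
  have hFF : ∀ p, BC (FF p) := fun p => (bc_GG hz _ _).mul hF
  have hF1 : ∀ p, BC (F1 p) := fun p =>
    (((BC.const _).mul (((bc_GG hz _ _).mul (bc_GG hz _ _)).add
      ((bc_GG hz _ _).mul (bc_GG hz _ _)))).mul hF).add
      ((bc_GG hz _ _).mul ((hA.mul (bc_M1 hz p)).add (hB.mul (bc_M1 hz p).star)))
  have hT : BC TT := ((bc_mm hz).mul (BC.sum univ fun k => bc_GG hz k k)).mul hF
  have hder : ∀ p x, HasDerivAt (fun t => FF p (Function.update x p t)) (F1 p x) (x p) := by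
    intro p x
    have h := (der_GG (s := s) hz x p p.1 p.2).fun_mul (hd p x)
    simp only [Function.update_eq_self] at h
    exact h
  have e1 : ∀ x, PP s z x * F x =
      -σ * (∑ p : ι × ι, 2 * c * (((x p : ℝ) : ℂ) * FF p x) - TT x) := fun x => by
    have h := sum_err hz hs x
    have h2 : ∑ p : ι × ι, 2 * c * (((x p : ℝ) : ℂ) * FF p x) =
        (∑ p : ι × ι, 2 * c * (((x p : ℝ) : ℂ) * GG s z x p.1 p.2)) * F x := by
      rw [sum_mul]; exact sum_congr rfl fun p _ => by simp only [FF]; ring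
    rw [h2]
    simp only [TT]
    linear_combination F x * h
  have e2 : ∀ x, RG s z F A B x = σ * (∑ p : ι × ι, 2 * c * F1 p x - TT x) := fun x => by
    have h1 : (∑ k, GG s z x k k) * (∑ k, GG s z x k k) =
        ∑ p : ι × ι, GG s z x p.1 p.1 * GG s z x p.2 p.2 := by
      rw [sum_mul_sum, Fintype.sum_prod_type]
    have h2 : ∑ p : ι × ι, 2 * c * F1 p x =
        σ * (∑ p : ι × ι, GG s z x p.1 p.1 * GG s z x p.2 p.2) * F x +
        σ * (∑ p : ι × ι, GG s z x p.1 p.2 * GG s z x p.1 p.2) * F x +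
        ∑ p : ι × ι, 2 * c *
          (GG s z x p.1 p.2 * (A x * M1 s z p x + B x * star (M1 s z p x))) := by
      rw [hσ, ← c_sq, ← hc]
      simp only [mul_sum, sum_mul, ← sum_add_distrib]
      exact sum_congr rfl fun p _ => by simp only [F1]; ring
    rw [h2, ← h1, RG]
    simp only [TT, mm_eq]
    ring
  simp only [e1, e2]
  exact stein_sum hFF hF1 hT _ _ hder

lemma norm_RG_le (hz : 0 < z.im) (x : ι × ι → ℝ) :
    ‖RG s z F A B x‖ ≤ s ^ 2 * |(mm s z x).im| * ‖F x‖ / z.im +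
      2 * s ^ 4 * (‖A x‖ + ‖B x‖) * |(mm s z x).im| / z.im ^ 2 := by
  have hY := hs_GG (s := s) hz x
  have n2 : ‖((s ^ 2 : ℝ) : ℂ)‖ = s ^ 2 := by
    rw [Complex.norm_real, Real.norm_of_nonneg (sq_nonneg s)]
  have nc : ‖((s / √2 : ℝ) : ℂ)‖ * ‖((s / √2 : ℝ) : ℂ)‖ * 2 = s ^ 2 := by
    rw [← n2, ← c_sq, norm_mul, norm_mul]; simp
  have h1 : ‖∑ p : ι × ι, GG s z x p.1 p.2 * GG s z x p.1 p.2‖ ≤ hs (GG s z x) ^ 2 := by
    refine (norm_sum_le _ _).trans ?_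
    simp only [norm_mul]
    rw [sq]; exact sum_prod_le _ _
  have h2 : hs (GG s z x * GG s z x) ≤ 1 / z.im * hs (GG s z x) :=
    (Fr.hs_mul_le _ _).trans (mul_le_mul_of_nonneg_right
      (Fr.cop_res_le hz (fun _ => le_rfl) (symG_transpose s x)) (Fr.hs_nonneg _))
  have h3 : ‖∑ p : ι × ι, 2 * ((s / √2 : ℝ) : ℂ) *
      (GG s z x p.1 p.2 * (A x * M1 s z p x + B x * star (M1 s z p x)))‖ ≤
      2 * s ^ 2 * (‖A x‖ + ‖B x‖) * (s ^ 2 * hs (GG s z x) ^ 2) / z.im := by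
    refine (norm_sum_le _ _).trans ?_
    have e : ∀ p : ι × ι, ‖2 * ((s / √2 : ℝ) : ℂ) *
        (GG s z x p.1 p.2 * (A x * M1 s z p x + B x * star (M1 s z p x)))‖ ≤
        2 * s ^ 2 * (‖A x‖ + ‖B x‖) * s ^ 2 *
          (‖GG s z x p.1 p.2‖ * ‖(GG s z x * GG s z x) p.1 p.2‖) := fun p => by
      have a1 : ‖A x * M1 s z p x + B x * star (M1 s z p x)‖ ≤ (‖A x‖ + ‖B x‖) * ‖M1 s z p x‖ := by
        refine (norm_add_le _ _).trans ?_
        rw [norm_mul, norm_mul, norm_star, add_mul]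
      have a2 : ‖M1 s z p x‖ = s ^ 2 * (2 * ‖((s / √2 : ℝ) : ℂ)‖ *
          ‖(GG s z x * GG s z x) p.1 p.2‖) := by
        simp only [M1, norm_mul, n2, Complex.norm_ofNat]
      rw [norm_mul, norm_mul, norm_mul, Complex.norm_ofNat]
      calc _ ≤ 2 * ‖((s / √2 : ℝ) : ℂ)‖ * (‖GG s z x p.1 p.2‖ * ((‖A x‖ + ‖B x‖) * ‖M1 s z p x‖)) := by
            gcongr
        _ = _ := by
            rw [a2]
            linear_combination (2 * (‖A x‖ + ‖B x‖) * s ^ 2 *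
              (‖GG s z x p.1 p.2‖ * ‖(GG s z x * GG s z x) p.1 p.2‖)) * nc
    refine (sum_le_sum fun p _ => e p).trans ?_
    simp only [← mul_sum]
    have h4 := (sum_prod_le (GG s z x) (GG s z x * GG s z x)).trans
      (mul_le_mul_of_nonneg_left h2 (Fr.hs_nonneg _))
    calc _ ≤ 2 * s ^ 2 * (‖A x‖ + ‖B x‖) * s ^ 2 *
          (hs (GG s z x) * (1 / z.im * hs (GG s z x))) :=
          mul_le_mul_of_nonneg_left h4 (by positivity)
      _ = _ := by ring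
  rw [RG, norm_mul, n2]
  have h5 : ‖((s ^ 2 : ℝ) : ℂ) * (∑ p : ι × ι, GG s z x p.1 p.2 * GG s z x p.1 p.2) * F x‖ ≤
      |(mm s z x).im| / z.im * ‖F x‖ := by
    rw [norm_mul, norm_mul, n2]
    exact mul_le_mul_of_nonneg_right
      ((mul_le_mul_of_nonneg_left h1 (sq_nonneg s)).trans hY) (norm_nonneg _)
  have h6 : 2 * s ^ 2 * (‖A x‖ + ‖B x‖) * (s ^ 2 * hs (GG s z x) ^ 2) / z.im ≤
      2 * s ^ 2 * (‖A x‖ + ‖B x‖) * (|(mm s z x).im| / z.im) / z.im := by gcongr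
  calc _ ≤ s ^ 2 * (|(mm s z x).im| / z.im * ‖F x‖ +
        2 * s ^ 2 * (‖A x‖ + ‖B x‖) * (|(mm s z x).im| / z.im) / z.im) :=
        mul_le_mul_of_nonneg_left ((norm_add_le _ _).trans (add_le_add h5 (h3.trans h6)))
          (sq_nonneg s)
    _ = _ := by field_simp

omit [Fintype ι] [DecidableEq ι] in
lemma bc_pow {f : (ι × ι → ℝ) → ℂ} (hf : BC f) (k : ℕ) : BC fun x => f x ^ k := by
  induction k with
  | zero => simpa using BC.const 1
  | succ k ih => simpa [pow_succ] using ih.mul hf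

/-- pointwise Young inequality -/
lemma young {y T a b : ℝ} (hy : 0 ≤ y) (hT : 0 ≤ T) (ha : 4 * a ≤ T) (hb : 4 * b ≤ T ^ 2)
    (j : ℕ) : a * y ^ (j + 1) + b * y ^ j ≤ y ^ (j + 2) / 2 + T ^ (j + 2) / 2 := by
  have h1 : a * y ^ (j + 1) + b * y ^ j ≤ T / 4 * y ^ (j + 1) + T ^ 2 / 4 * y ^ j := by
    gcongr <;> linarith
  refine h1.trans ?_
  rcases le_total y T with h | h
  · have h2 : y ^ (j + 1) ≤ T ^ (j + 1) := by gcongr
    have h3 : y ^ j ≤ T ^ j := by gcongr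
    have h4 : 0 ≤ y ^ (j + 2) := by positivity
    calc _ ≤ T / 4 * T ^ (j + 1) + T ^ 2 / 4 * T ^ j := by gcongr
      _ = T ^ (j + 2) / 2 := by ring
      _ ≤ _ := by linarith
  · have h4 : 0 ≤ T ^ (j + 2) := by positivity
    calc _ ≤ y / 4 * y ^ (j + 1) + y ^ 2 / 4 * y ^ j := by gcongr
      _ = y ^ (j + 2) / 2 := by ring
      _ ≤ _ := by linarith

/-- the real inequality of one moment step -/
lemma step {σ η l L μ y T : ℝ} (k : ℕ) (hσ : 0 ≤ σ) (hη : 0 < η) (hl : 0 < l) (hlL : l ≤ L)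
    (hμ0 : 0 ≤ μ) (hμ : μ ≤ L) (hy : 0 ≤ y) (hT : 0 ≤ T)
    (h1 : 4 * (σ / η + 2 * σ ^ 2 / (η ^ 2 * l)) ≤ T)
    (h2 : 16 * (k + 2) * σ ^ 2 / η ^ 2 ≤ T ^ 2) :
    σ * μ * (y ^ (2 * k + 3) * L) / η +
      2 * σ ^ 2 * ((k + 1) * (y ^ (2 * k + 2) * L) +
        ((k + 2) * (y ^ (2 * k + 2) * L) + y ^ (2 * k + 3))) * μ / η ^ 2 ≤
      y ^ (2 * k + 4) * L ^ 2 / 2 + T ^ (2 * k + 4) * L ^ 2 / 2 := by
  have hL : 0 < L := hl.trans_le hlL
  have h3 := young (a := σ / η + 2 * σ ^ 2 / (η ^ 2 * l)) (b := 4 * (k + 2) * σ ^ 2 / η ^ 2) hy hT h1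
    (by rw [show 4 * (4 * ((k : ℝ) + 2) * σ ^ 2 / η ^ 2) = 16 * (k + 2) * σ ^ 2 / η ^ 2 by ring]
        exact h2) (2 * k + 2)
  have h4 : y ^ (2 * k + 3) ≤ y ^ (2 * k + 3) * (L / l) :=
    le_mul_of_one_le_right (by positivity) ((one_le_div hl).2 hlL)
  calc _ ≤ σ * L * (y ^ (2 * k + 3) * L) / η +
      2 * σ ^ 2 * ((k + 2) * (y ^ (2 * k + 2) * L) +
        ((k + 2) * (y ^ (2 * k + 2) * L) + y ^ (2 * k + 3) * (L / l))) * L / η ^ 2 := by
        gcongr; linarith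
    _ = ((σ / η + 2 * σ ^ 2 / (η ^ 2 * l)) * y ^ (2 * k + 2 + 1) +
        4 * (k + 2) * σ ^ 2 / η ^ 2 * y ^ (2 * k + 2)) * L ^ 2 := by field_simp; ring
    _ ≤ (y ^ (2 * k + 2 + 2) / 2 + T ^ (2 * k + 2 + 2) / 2) * L ^ 2 := by gcongr
    _ = _ := by ring

/-- **all moments of the Stieltjes transform of the GOE** -/
theorem moment (hz : 0 < z.im) (hs : s ^ 2 * Fintype.card ι = 1) {γ γ' : ℂ} (h1 : γ * γ' = 1)
    (h2 : γ + γ' = z) {l T Lm : ℝ} (hl : 0 < l) (hl' : l ≤ γ'.im) (k : ℕ) (hT : 0 ≤ T)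
    (hT1 : 4 * (s ^ 2 / z.im + 2 * (s ^ 2) ^ 2 / (z.im ^ 2 * l)) ≤ T)
    (hT2 : 16 * (k + 2) * (s ^ 2) ^ 2 / z.im ^ 2 ≤ T ^ 2) (hL : 1 / z.im + ‖γ'‖ ≤ Lm) :
    Integrable (fun x : ι × ι → ℝ => ‖mm s z x - γ‖ ^ (2 * k + 4)) (gv (ι × ι)) ∧
    ∫ x, ‖mm s z x - γ‖ ^ (2 * k + 4) ∂gv (ι × ι) ≤ T ^ (2 * k + 4) * Lm ^ 2 / l ^ 2 := by
  let X : (ι × ι → ℝ) → ℂ := fun x => mm s z x - γ
  let Λ : (ι × ι → ℝ) → ℂ := fun x => mm s z x - γ'
  have bX : BC X := (bc_mm hz).sub (BC.const γ)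
  have bΛ : BC Λ := (bc_mm hz).sub (BC.const γ')
  let F : (ι × ι → ℝ) → ℂ := fun x => X x ^ (k + 1) * star (X x) ^ (k + 2) * star (Λ x)
  let A : (ι × ι → ℝ) → ℂ := fun x => (k + 1) * (X x ^ k * star (X x) ^ (k + 2) * star (Λ x))
  let B : (ι × ι → ℝ) → ℂ := fun x =>
    (k + 2) * (X x ^ (k + 1) * star (X x) ^ (k + 1) * star (Λ x)) +
      X x ^ (k + 1) * star (X x) ^ (k + 2)
  have bF : BC F := ((bc_pow bX _).mul (bc_pow bX.star _)).mul bΛ.star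
  have bA : BC A := (BC.const _).mul (((bc_pow bX _).mul (bc_pow bX.star _)).mul bΛ.star)
  have bB : BC B := ((BC.const _).mul (((bc_pow bX _).mul (bc_pow bX.star _)).mul bΛ.star)).add
    ((bc_pow bX _).mul (bc_pow bX.star _))
  have hd : ∀ p x, HasDerivAt (fun t => F (Function.update x p t))
      (A x * M1 s z p x + B x * star (M1 s z p x)) (x p) := fun p x => by
    have dX := (der_mm (s := s) hz x p).sub_const γ
    have dΛ := (der_mm (s := s) hz x p).sub_const γ'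
    have h := ((dX.fun_pow (k + 1)).fun_mul (dX.star.fun_pow (k + 2))).fun_mul dΛ.star
    simp only [Function.update_eq_self] at h
    refine h.congr_deriv ?_
    simp only [A, B, X, Λ, Nat.add_sub_cancel, show k + 2 - 1 = k + 1 from rfl]
    push_cast
    ring
  have hst := stein_gen hz hs bF bA bB hd
  have e : ∀ x, PP s z x * F x = ((‖X x‖ ^ (2 * k + 4) * ‖Λ x‖ ^ 2 : ℝ) : ℂ) := fun x => by
    have e1 : PP s z x = X x * Λ x := by
      simp only [PP, X, Λ]; linear_combination (mm s z x) * h2 - h1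
    have e2 : ∀ w : ℂ, w * star w = ((‖w‖ ^ 2 : ℝ) : ℂ) := fun w => by
      rw [Complex.star_def, Complex.mul_conj, Complex.normSq_eq_norm_sq]
    calc _ = (X x * star (X x)) ^ (k + 2) * (Λ x * star (Λ x)) := by rw [e1]; simp only [F]; ring
      _ = _ := by rw [e2, e2]; push_cast; ring
  have him : ∀ x : ι × ι → ℝ, (mm s z x).im ≤ 0 := fun x =>
    Fr.im_mtr_nonpos hz (fun _ => le_rfl) (symG_transpose s x) s
  have hΛ : ∀ x, |(mm s z x).im| + γ'.im ≤ ‖Λ x‖ := fun x => by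
    have := Complex.abs_im_le_norm (Λ x)
    simp only [Λ, Complex.sub_im] at this ⊢
    rw [abs_of_nonpos (him x)]
    have h3 := neg_le_abs ((mm s z x).im - γ'.im)
    linarith
  have hlΛ : ∀ x, l ≤ ‖Λ x‖ := fun x => by linarith [hΛ x, abs_nonneg (mm s z x).im]
  have hΛm : ∀ x, ‖Λ x‖ ≤ Lm := fun x => by
    have h3 := Fr.norm_mtr_le (d := fun _ : ι => z) hz (fun _ => le_rfl) (symG_transpose s x) s
    rw [hs] at h3
    exact (norm_sub_le _ _).trans ((add_le_add h3 le_rfl).trans hL)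
  have hi : Integrable (fun x => ‖X x‖ ^ (2 * k + 4) * ‖Λ x‖ ^ 2) (gv (ι × ι)) := by
    have := ((bc_pow bX (2 * k + 4)).mul (bc_pow bΛ 2)).int.norm
    simpa only [norm_mul, norm_pow] using this
  have hi0 : Integrable (fun x => ‖X x‖ ^ (2 * k + 4)) (gv (ι × ι)) := by
    have := (bc_pow bX (2 * k + 4)).int.norm
    simpa only [norm_pow] using this
  refine ⟨hi0, ?_⟩
  simp only [e] at hst
  rw [integral_complex_ofReal] at hst
  have h3 := congrArg norm hst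
  rw [norm_neg, Complex.norm_real, Real.norm_of_nonneg (integral_nonneg fun x => by positivity)] at h3
  have h4 : ‖∫ x, RG s z F A B x ∂gv (ι × ι)‖ ≤
      ∫ x, (‖X x‖ ^ (2 * k + 4) * ‖Λ x‖ ^ 2 / 2 + T ^ (2 * k + 4) * Lm ^ 2 / 2) ∂gv (ι × ι) := by
    refine norm_integral_le_of_norm_le ((hi.div_const 2).add (integrable_const _))
      (ae_of_all _ fun x => (norm_RG_le hz x).trans ?_)
    have nF : ‖F x‖ = ‖X x‖ ^ (2 * k + 3) * ‖Λ x‖ := by
      simp only [F, norm_mul, norm_pow, norm_star]; ring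
    have n1 : ‖(k : ℂ) + 1‖ = k + 1 := by exact_mod_cast Complex.norm_natCast (k + 1)
    have n2 : ‖(k : ℂ) + 2‖ = k + 2 := by exact_mod_cast Complex.norm_natCast (k + 2)
    have nA : ‖A x‖ = (k + 1) * (‖X x‖ ^ (2 * k + 2) * ‖Λ x‖) := by
      simp only [A, norm_mul, norm_pow, norm_star, n1]; ring
    have nB : ‖B x‖ ≤ (k + 2) * (‖X x‖ ^ (2 * k + 2) * ‖Λ x‖) + ‖X x‖ ^ (2 * k + 3) := by
      refine (norm_add_le _ _).trans (le_of_eq ?_)
      simp only [norm_mul, norm_pow, norm_star, n2]; ring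
    have h5 := step k (sq_nonneg s) hz hl (hlΛ x) (abs_nonneg (mm s z x).im)
      (by linarith [hΛ x]) (norm_nonneg (X x)) hT hT1 hT2
    have h6 : ‖Λ x‖ ^ 2 ≤ Lm ^ 2 := by gcongr; exact hΛm x
    calc _ ≤ s ^ 2 * |(mm s z x).im| * (‖X x‖ ^ (2 * k + 3) * ‖Λ x‖) / z.im +
        2 * (s ^ 2) ^ 2 * ((k + 1) * (‖X x‖ ^ (2 * k + 2) * ‖Λ x‖) +
          ((k + 2) * (‖X x‖ ^ (2 * k + 2) * ‖Λ x‖) + ‖X x‖ ^ (2 * k + 3))) *
          |(mm s z x).im| / z.im ^ 2 := by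
          rw [nF, nA, show (s ^ 2) ^ 2 = s ^ 4 by ring]; gcongr
      _ ≤ _ := h5
      _ ≤ _ := by gcongr
  rw [integral_add (hi.div_const 2) (integrable_const _), integral_div, integral_const] at h4
  simp only [probReal_univ, smul_eq_mul, one_mul] at h4
  have h5 : ∫ x, l ^ 2 * ‖X x‖ ^ (2 * k + 4) ∂gv (ι × ι) ≤
      ∫ x, ‖X x‖ ^ (2 * k + 4) * ‖Λ x‖ ^ 2 ∂gv (ι × ι) :=
    integral_mono (hi0.const_mul _) hi fun x => by
      have := hlΛ x
      simp only []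
      rw [mul_comm]; gcongr
  rw [integral_const_mul] at h5
  rw [le_div_iff₀ (by positivity)]
  linarith

end Crest.Agent.T157.Kb.Tr61
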