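import Crest.Agent.T157.KbTrA_61
import Crest.Agent.T157.QeDef_24

/-!
# Row 157, A2 (helper61): deterministic tools for `TrCore`

Rank-one changes move the trace of the resolvent by at most `1 / Im z`; the planted matrix is a
rank-three change; the disc `|γ - g| ≤ (1 - g) / 16` and the mean value formula on it.
-/

set_option autoImplicit false

noncomputable section

namespace Crest.Agent.T157.Kb.Tr61

open MeasureTheory Matrix Finset
open scoped ENNReal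
open Crest.Agent.T157.Cond
open Crest.Agent.T157.Dq (Dg)
open Crest.Agent.T157.Fr (res cx Zm)

section mat
variable {ι : Type*} [Fintype ι] [DecidableEq ι] {z : ℂ} {W : Matrix ι ι ℝ}

/-- trace of the resolvent -/
def tr (z : ℂ) (W : Matrix ι ι ℝ) : ℂ := (res (fun _ => z) W).trace

omit [Fintype ι] [DecidableEq ι] in
lemma symm_add (hW : Wᵀ = W) (σ : ℝ) (v : ι → ℝ) :
    (W + σ • vecMulVec v v)ᵀ = W + σ • vecMulVec v v := by
  rw [transpose_add, transpose_smul, transpose_vecMulVec, hW]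

lemma tr_rank1 (hz : 0 < z.im) (hW : Wᵀ = W) (σ : ℝ) (v : ι → ℝ) :
    ‖tr z (W + σ • vecMulVec v v) - tr z W‖ ≤ 1 / z.im := by
  have hW' := symm_add hW σ v
  have hu := Fr.unit_Zm (d := fun _ : ι => z) hz (fun _ => le_rfl) hW
  have hu' := Fr.unit_Zm (d := fun _ : ι => z) hz (fun _ => le_rfl) hW'
  have h1 := Fr.res_sub_res hu hu'
  have hs' := Fr.res_transpose (fun _ : ι => z) hW'
  have hq := Fr.im_quad_Zm (fun _ : ι => z) hW (res (fun _ : ι => z) W *ᵥ fun i => (v i : ℂ))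
  rw [mulVec_mulVec, Fr.Zm_mul_res hu, one_mulVec] at hq
  unfold tr
  set G := res (fun _ : ι => z) W
  set G' := res (fun _ : ι => z) (W + σ • vecMulVec v v)
  set w : ι → ℂ := fun i => (v i : ℂ) with hw
  set p := G *ᵥ w
  set p' := G' *ᵥ w with hp'
  have h2 : cx (W - (W + σ • vecMulVec v v)) = (-σ : ℂ) • vecMulVec w w := by
    ext i j; simp [vecMulVec_apply, hw]
  have h3 : G' - G = (σ : ℂ) • vecMulVec p p' := by
    have : w ᵥ* G' = p' := by rw [hp', ← hs', mulVec_transpose, hs']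
    rw [← neg_sub, h1, h2, Matrix.mul_smul, Matrix.smul_mul, mul_vecMulVec, vecMulVec_mul, this,
      neg_smul, neg_neg]
  have h4 : p' = (1 + σ * (p' ⬝ᵥ w)) • p := by
    have : p' - p = (G' - G) *ᵥ w := by rw [sub_mulVec]
    rw [h3, smul_mulVec, vecMulVec_mulVec] at this
    rw [add_smul, one_smul, ← sub_eq_iff_eq_add', this]
    ext i; simp [mul_assoc]
  set β := p' ⬝ᵥ w with hβ
  have h5 : (1 + σ * β) * (1 - σ * (p ⬝ᵥ w)) = 1 := by
    have : β = (1 + σ * β) * (p ⬝ᵥ w) := by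
      conv_lhs => rw [hβ, h4]
      rw [smul_dotProduct, smul_eq_mul]
    linear_combination (σ : ℂ) * this
  have h6 : G'.trace - G.trace = σ * ((1 + σ * β) * (p ⬝ᵥ p)) := by
    rw [← trace_sub, h3, trace_smul, trace_vecMulVec, smul_eq_mul]
    conv_lhs => rw [h4]
    rw [dotProduct_smul, smul_eq_mul]
  have h7 : ‖p ⬝ᵥ p‖ * z.im ≤ |(p ⬝ᵥ w).im| := by
    have a1 : ‖p ⬝ᵥ p‖ ≤ ∑ i, ‖p i‖ ^ 2 := by
      refine (norm_sum_le _ _).trans (le_of_eq ?_)
      simp only [norm_mul, sq]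
    have a2 : (∑ i, star (p i) * w i).im = -(p ⬝ᵥ w).im := by
      simp only [dotProduct, Complex.im_sum, ← sum_neg_distrib]
      exact sum_congr rfl fun i _ => by simp [hw]
    rw [a2, ← mul_sum] at hq
    calc _ ≤ (∑ i, ‖p i‖ ^ 2) * z.im := by gcongr
      _ = -(p ⬝ᵥ w).im := by rw [hq]; ring
      _ ≤ _ := neg_le_abs _
  have h8 : |σ| * |(p ⬝ᵥ w).im| ≤ ‖1 - σ * (p ⬝ᵥ w)‖ := by
    refine le_trans (le_of_eq ?_) (Complex.abs_im_le_norm _)
    simp [abs_mul]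
  have h9 := congrArg norm h5
  rw [norm_mul, norm_one] at h9
  rw [h6, norm_mul, norm_mul, Complex.norm_real, Real.norm_eq_abs, le_div_iff₀ hz]
  calc _ = ‖1 + σ * β‖ * (|σ| * (‖p ⬝ᵥ p‖ * z.im)) := by ring
    _ ≤ ‖1 + σ * β‖ * (|σ| * |(p ⬝ᵥ w).im|) := by gcongr
    _ ≤ ‖1 + σ * β‖ * ‖1 - σ * (p ⬝ᵥ w)‖ := by gcongr
    _ = 1 := h9

lemma tr_dg (hz : 0 < z.im) {a : ι → ℝ} (h : Dg W a) : tr z W = ∑ i, (z - a i)⁻¹ := by
  obtain ⟨O, hO, rfl⟩ := h
  have hO' : Oᵀ * O = 1 := mul_eq_one_comm.1 hO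
  have c1 : cx O * cx Oᵀ = 1 := by rw [← Fr.cx_mul, hO, Fr.cx_one]
  have c2 : cx Oᵀ * cx O = 1 := by rw [← Fr.cx_mul, hO', Fr.cx_one]
  have hne : ∀ i, z - a i ≠ 0 := fun i h => by
    have := congrArg Complex.im h
    simp at this; linarith
  have e1 : Zm (fun _ : ι => z) (O * diagonal a * Oᵀ) =
      cx O * diagonal (fun i => z - a i) * cx Oᵀ := by
    have : (diagonal fun _ : ι => z) = z • (1 : Matrix ι ι ℂ) := by
      ext i j; by_cases h : i = j <;> simp [one_apply, h]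
    rw [Zm, Fr.cx_mul, Fr.cx_mul, Fr.cx_diagonal, ← diagonal_sub, Matrix.mul_sub, Matrix.sub_mul, this,
      Matrix.mul_smul, Matrix.mul_one, Matrix.smul_mul, c1]
  have e2 : res (fun _ : ι => z) (O * diagonal a * Oᵀ) =
      cx O * diagonal (fun i => (z - a i)⁻¹) * cx Oᵀ := by
    rw [res, e1]
    refine inv_eq_right_inv ?_
    calc _ = cx O * (diagonal (fun i => z - a i) * (cx Oᵀ * cx O) *
        diagonal (fun i => (z - a i)⁻¹)) * cx Oᵀ := by simp only [Matrix.mul_assoc]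
      _ = 1 := by
        rw [c2, Matrix.mul_one, diagonal_mul_diagonal]
        simp only [mul_inv_cancel₀ (hne _), diagonal_one, Matrix.mul_one, c1]
  rw [tr, e2, trace_mul_comm, ← Matrix.mul_assoc, c2, Matrix.one_mul, trace_diagonal]

lemma meas_tr {Ω : Type*} [TopologicalSpace Ω] [MeasurableSpace Ω] [BorelSpace Ω] {w : Ω → ℂ}
    {M : Ω → Matrix ι ι ℝ} (hw : Continuous w) (hM : Continuous M) :
    Measurable fun ω => tr (w ω) (M ω) := by
  have hc : Continuous fun ω => Zm (fun _ : ι => w ω) (M ω) :=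
    (Continuous.matrix_diagonal (continuous_pi fun _ => hw)).sub
      (hM.matrix_map Complex.continuous_ofReal)
  have e : ∀ ω, tr (w ω) (M ω) = ((Zm (fun _ : ι => w ω) (M ω)).det)⁻¹ *
      (Zm (fun _ : ι => w ω) (M ω)).adjugate.trace := fun ω => by
    rw [tr, res, Matrix.inv_def, Ring.inverse_eq_inv', trace_smul, smul_eq_mul]
  simp only [e]
  exact hc.matrix_det.measurable.inv.mul hc.matrix_adjugate.matrix_trace.measurable

end mat

variable {n : ℕ}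

lemma Wm_eq (e c τ : Qe.V n) {W : Qe.Mx n} (hW : Wᵀ = W) : ∃ v1 v2 v3 : Qe.V n,
    Qe.Wm e c τ W = W + (1 / 2 : ℝ) • vecMulVec v1 v1 + (-1 / 2 : ℝ) • vecMulVec v2 v2 +
      (1 / (n : ℝ)) • vecMulVec v3 v3 := by
  set v : Qe.V n := c - W *ᵥ e + (((W *ᵥ e) ⬝ᵥ e - e ⬝ᵥ c) / 2) • e with hv
  refine ⟨e + v, e - v, Qe.R1 e *ᵥ τ, ?_⟩
  have h1 : e ᵥ* W = W *ᵥ e := by rw [← hW, vecMul_transpose, hW]
  have h2 : τ ᵥ* Qe.R1 e = Qe.R1 e *ᵥ τ := by
    rw [← mulVec_transpose, Qe.R1, transpose_sub, transpose_one, transpose_vecMulVec]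
  have h3 : Qe.R1 e * W * Qe.R1 e = W - vecMulVec e (W *ᵥ e) - vecMulVec (W *ᵥ e) e +
      vecMulVec e (((W *ᵥ e) ⬝ᵥ e) • e) := by
    rw [Qe.R1, Matrix.sub_mul, Matrix.one_mul, vecMulVec_mul, h1, Matrix.mul_sub, Matrix.mul_one,
      Matrix.sub_mul, mul_vecMulVec, vecMulVec_mul_vecMulVec]
    abel
  rw [Qe.Wm, glue, Matrix.mul_add, Matrix.add_mul, h3, Matrix.mul_smul, Matrix.smul_mul,
    mul_vecMulVec, vecMulVec_mul, h2, rk2]
  ext i j
  simp only [hv, Matrix.add_apply, Matrix.sub_apply, Matrix.smul_apply, vecMulVec_apply,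
    Pi.add_apply, Pi.sub_apply, Pi.smul_apply, smul_eq_mul]
  ring

lemma tr_Wm {z : ℂ} (hz : 0 < z.im) (e c τ : Qe.V n) {W : Qe.Mx n} (hW : Wᵀ = W) :
    ‖tr z (Qe.Wm e c τ W) - tr z W‖ ≤ 3 / z.im := by
  obtain ⟨v1, v2, v3, h⟩ := Wm_eq e c τ hW
  have s1 := symm_add hW (1 / 2) v1
  have s2 := symm_add s1 (-1 / 2) v2
  have h1 := tr_rank1 hz hW (1 / 2) v1
  have h2 := tr_rank1 hz s1 (-1 / 2) v2
  have h3 := tr_rank1 hz s2 (1 / (n : ℝ)) v3
  rw [h]
  have h4 := fun a b c : ℂ => norm_sub_le_norm_sub_add_norm_sub a b c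
  refine (h4 _ _ _).trans ((add_le_add h3 ((h4 _ _ _).trans (add_le_add h2 h1))).trans
    (le_of_eq (by ring)))

/-! ### the disc -/

/-- geometry of the disc -/
lemma disc {g : ℝ} (h0 : 1 / 2 ≤ g) (h1 : g < 1) {γ : ℂ} (h : ‖γ - g‖ ≤ (1 - g) / 16) :
    1 / 3 ≤ ‖γ‖ ∧ ‖γ‖ ≤ 1 - (1 - g) / 2 ∧
      ∀ a : ℝ, a ≤ 2 + (Qe.zz g - 2) / 2 → γ + γ⁻¹ - a ≠ 0 := by
  have ng : ‖(g : ℂ)‖ = g := by rw [Complex.norm_real, Real.norm_of_nonneg (by linarith)]
  have a1 : g - (1 - g) / 16 ≤ ‖γ‖ := by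
    have := norm_sub_norm_le (g : ℂ) γ
    rw [norm_sub_rev, ng] at this; linarith
  have a2 : ‖γ‖ ≤ g + (1 - g) / 16 := by
    have := norm_sub_norm_le γ (g : ℂ)
    rw [ng] at this; linarith
  refine ⟨by linarith, by linarith, fun a ha h2 => ?_⟩
  have γ0 : γ ≠ 0 := by rintro rfl; simp at a1; linarith
  have g0 : (0 : ℝ) < g := by linarith
  have e1 : γ * (((g + 1 / g - a) * g : ℝ) : ℂ) = (γ - g) * ((1 - g ^ 2 : ℝ) - g * (γ - g)) := by
    have : (g : ℂ) ≠ 0 := by exact_mod_cast g0.ne'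
    have e2 : (a : ℂ) = γ + γ⁻¹ := by linear_combination -h2
    push_cast
    rw [e2]; field_simp; ring
  have a3 : (1 - g) ^ 2 / 2 ≤ (g + 1 / g - a) * g := by
    have : (g + 1 / g - (2 + (g + 1 / g - 2) / 2)) * g = (1 - g) ^ 2 / 2 := by field_simp; ring
    rw [← this]; unfold Qe.zz at ha; gcongr
  have a4 : ‖((1 - g ^ 2 : ℝ) : ℂ) - g * (γ - g)‖ ≤ (1 - g ^ 2) + g * ((1 - g) / 16) := by
    refine (norm_sub_le _ _).trans ?_
    rw [Complex.norm_real, Real.norm_of_nonneg (by nlinarith), norm_mul, ng]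
    gcongr
  have a5 := congrArg norm e1
  rw [norm_mul, norm_mul, Complex.norm_real,
    Real.norm_of_nonneg (le_trans (by positivity) a3)] at a5
  have a6 : 1 / 3 * ((1 - g) ^ 2 / 2) ≤ (1 - g) / 16 * ((1 - g ^ 2) + g * ((1 - g) / 16)) :=
    calc _ ≤ ‖γ‖ * ((g + 1 / g - a) * g) := by gcongr; linarith
      _ = _ := a5
      _ ≤ _ := by gcongr
  have a7 : 0 < (1 - g) ^ 2 := by have : 0 < 1 - g := by linarith
                                  positivity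
  nlinarith

/-- the centred trace as a function of `γ` -/
def ff (a : Fin n → ℝ) (γ : ℂ) : ℂ := ∑ i, (γ + γ⁻¹ - a i)⁻¹ - n * γ

/-- reflection into the lower half plane -/
def lo (γ : ℂ) : ℂ := γ.re - |γ.im| * Complex.I

lemma lo_cases (γ : ℂ) : lo γ = γ ∨ lo γ = star γ := by
  rcases le_total γ.im 0 with h | h
  · left; apply Complex.ext <;> simp [lo, abs_of_nonpos h]
  · right; apply Complex.ext <;> simp [lo, abs_of_nonneg h]

lemma norm_lo (γ : ℂ) : ‖lo γ‖ = ‖γ‖ := by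
  rcases lo_cases γ with h | h <;> rw [h]
  exact norm_star _

lemma lo_im (γ : ℂ) : (lo γ).im = -|γ.im| := by simp [lo]

lemma norm_ff_lo (a : Fin n → ℝ) (γ : ℂ) : ‖ff a (lo γ)‖ = ‖ff a γ‖ := by
  rcases lo_cases γ with h | h <;> rw [h]
  rw [← norm_star (ff a γ)]
  simp [ff]

/-- the spectral parameter -/
def ww (γ : ℂ) : ℂ := lo γ + (lo γ)⁻¹

lemma inv_lo_im (γ : ℂ) : ((lo γ)⁻¹).im = |γ.im| / ‖γ‖ ^ 2 := by
  rw [Complex.inv_im, lo_im, Complex.normSq_eq_norm_sq, norm_lo, neg_neg]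

lemma ww_im {d : ℝ} (hd : 0 ≤ d) {γ : ℂ} (h0 : 1 / 3 ≤ ‖γ‖) (h1 : ‖γ‖ ≤ 1 - d / 2) :
    |γ.im| ≤ ((lo γ)⁻¹).im ∧ |γ.im| * (d / 2) ≤ (ww γ).im := by
  have hy := abs_nonneg γ.im
  have hR : 0 < ‖γ‖ ^ 2 := by positivity
  have h2 : ‖γ‖ ^ 2 ≤ 1 - d / 2 := by nlinarith
  rw [ww, Complex.add_im, inv_lo_im, lo_im]
  have h3 : |γ.im| * (1 + d / 2) ≤ |γ.im| / ‖γ‖ ^ 2 := by
    rw [le_div_iff₀ hR, mul_assoc]
    exact mul_le_of_le_one_right hy (by nlinarith)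
  constructor <;> nlinarith

lemma norm_wt {ε : ℂ} (h : ‖ε‖ = 1) : ‖1 - ε ^ 2‖ = 2 * |ε.im| := by
  have h1 : ε * star ε = 1 := by
    rw [Complex.star_def, Complex.mul_conj, Complex.normSq_eq_norm_sq, h]; simp
  have h2 : 1 - ε ^ 2 = -ε * (((2 * ε.im : ℝ) : ℂ) * Complex.I) := by
    rw [← Complex.sub_conj, ← Complex.star_def]; linear_combination -h1
  rw [h2, norm_mul, norm_neg, h, norm_mul, Complex.norm_I, Complex.norm_real, Real.norm_eq_abs,
    abs_mul]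
  simp

/-- the mean value formula with a weight that vanishes on the real axis -/
lemma mean {g : ℝ} (h0 : 1 / 2 ≤ g) (h1 : g < 1) {a : Fin n → ℝ}
    (ha : ∀ i, a i ≤ 2 + (Qe.zz g - 2) / 2) :
    ENNReal.ofReal (2 * Real.pi * ‖ff a g‖) ≤ ∫⁻ θ in Set.Ioc 0 (2 * Real.pi),
      ENNReal.ofReal (16 * |Real.sin θ| ^ 4 * ‖ff a (circleMap g ((1 - g) / 16) θ)‖) := by
  set ρ := (1 - g) / 16 with hρ
  have hρ0 : 0 < ρ := by rw [hρ]; linarith
  let h : ℂ → ℂ := fun γ => ff a γ * (1 - ((γ - g) / ρ) ^ 2) ^ 4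
  have hd : ∀ γ ∈ Metric.closedBall (g : ℂ) |ρ|, DifferentiableAt ℂ h γ := fun γ hγ => by
    rw [abs_of_pos hρ0, Metric.mem_closedBall, dist_eq_norm] at hγ
    obtain ⟨b1, -, b3⟩ := disc h0 h1 hγ
    have γ0 : γ ≠ 0 := by rintro rfl; simp at b1; linarith
    refine DifferentiableAt.fun_mul (DifferentiableAt.fun_sub ?_ (by fun_prop)) (by fun_prop)
    refine DifferentiableAt.fun_sum fun i _ => DifferentiableAt.fun_inv ?_ (b3 _ (ha i))
    exact (differentiableAt_id.fun_add (differentiableAt_id.fun_inv γ0)).sub_const _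
  have hm : Real.circleAverage h g ρ = h g :=
    circleAverage_of_differentiable_on_off_countable (s := ∅) Set.countable_empty
      (fun γ hγ => (hd γ hγ).continuousAt.continuousWithinAt)
      fun γ hγ => hd γ (Metric.ball_subset_closedBall hγ.1)
  have e1 : h g = ff a g := by simp [h]
  have hπ : 0 < 2 * Real.pi := by positivity
  rw [e1, Real.circleAverage_def, intervalIntegral.integral_of_le hπ.le] at hm
  have e2 : 2 * Real.pi * ‖ff a g‖ =
      ‖∫ θ in Set.Ioc 0 (2 * Real.pi), h (circleMap g ρ θ)‖ := by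
    rw [← hm, norm_smul, Real.norm_of_nonneg (by positivity), ← mul_assoc,
      mul_inv_cancel₀ hπ.ne', one_mul]
  rw [e2, ofReal_norm]
  refine (enorm_integral_le_lintegral_enorm _).trans (le_of_eq (lintegral_congr fun θ => ?_))
  rw [← ofReal_norm]
  congr 1
  have e3 : (circleMap g ρ θ - g) / ρ = Complex.exp (θ * Complex.I) := by
    have : (ρ : ℂ) ≠ 0 := by exact_mod_cast hρ0.ne'
    rw [circleMap]; field_simp; ring
  simp only [h]
  rw [e3, norm_mul, norm_pow, norm_wt (Complex.norm_exp_ofReal_mul_I θ),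
    Complex.exp_ofReal_mul_I_im]
  ring

end Crest.Agent.T157.Kb.Tr61
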