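import Crest.Agent.T157.KbTrB_61

/-!
# Row 157, A2 (helper61): the base event (TR)

`trCore : TrCore`: off probability `exp (-H)`, a planted GOE matrix with spectrum below
`2 + s / 2` has `(tr (z - W)⁻¹ - n g)² s² ≤ C H` at `z = g + 1 / g = 2 + s`.
-/

set_option autoImplicit false

noncomputable section

namespace Crest.Agent.T157.Kb

open MeasureTheory Matrix Finset
open scoped ENNReal
open Crest.Agent.T157.E (gv)
open Crest.Agent.T157.Cond Crest.Agent.T157.Qe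
open Crest.Agent.T157.Dq (Dg)
open Crest.Agent.T157.Conc (ex)

/-- **(TR)** -/
def TrCore : Prop := ∃ C : ℝ, 0 < C ∧ ∀ (n : ℕ) (g H : ℝ) (e c τ : V n),
  1 / 2 ≤ g → g < 1 → Real.log n ≤ H → 1 ≤ (n : ℝ) ^ 2 * (zz g - 2) ^ 3 →
  GOE n {W | ∃ a, Dg (Wm e c τ W) a ∧ (∀ i, a i ≤ 2 + (zz g - 2) / 2) ∧
    C * H < (∑ i, (zz g - a i)⁻¹ - n * g) ^ 2 * (zz g - 2) ^ 2} ≤ ex (-H)

namespace Tr61

variable {n : ℕ}

/-- the point of the circle -/
def cm (g θ : ℝ) : ℂ := circleMap g ((1 - g) / 16) θ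

/-- the weighted statistic -/
def yy (n : ℕ) (g t θ : ℝ) (W : Mx n) : ℝ :=
  32 * |Real.sin θ| ^ 4 * ‖tr (ww (cm g θ)) W - n * lo (cm g θ)‖ / t

lemma cm_facts {g : ℝ} (h0 : 1 / 2 ≤ g) (h1 : g < 1) (θ : ℝ) :
    1 / 3 ≤ ‖cm g θ‖ ∧ (1 - g) * |Real.sin θ| / 16 ≤ ((lo (cm g θ))⁻¹).im ∧
      (1 - g) ^ 2 * |Real.sin θ| / 32 ≤ (ww (cm g θ)).im := by
  have hd : 0 ≤ 1 - g := by linarith
  have h2 : ‖cm g θ - g‖ ≤ (1 - g) / 16 := by
    rw [cm, circleMap_sub_center, norm_circleMap_zero, abs_of_nonneg (by linarith)]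
  obtain ⟨b1, b2, -⟩ := disc h0 h1 h2
  obtain ⟨b3, b4⟩ := ww_im hd b1 b2
  have h3 : |(cm g θ).im| = (1 - g) * |Real.sin θ| / 16 := by
    have : (cm g θ).im = (1 - g) / 16 * Real.sin θ := by
      rw [cm, circleMap, Complex.add_im, Complex.ofReal_im, Complex.im_ofReal_mul,
        Complex.exp_ofReal_mul_I_im, zero_add]
    rw [this, abs_mul, abs_of_nonneg (by linarith)]; ring
  rw [h3] at b3 b4
  exact ⟨b1, b3, by linarith⟩

lemma meas_yy {g : ℝ} (h0 : 1 / 2 ≤ g) (h1 : g < 1) (t : ℝ) :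
    Measurable fun p : Mx n × ℝ => yy n g t p.2 p.1 := by
  have c1 : Continuous fun p : Mx n × ℝ => lo (cm g p.2) := by
    unfold lo cm; fun_prop
  have c2 : Continuous fun p : Mx n × ℝ => ww (cm g p.2) := by
    refine c1.add (c1.inv₀ fun p h => ?_)
    have h2 := (cm_facts h0 h1 p.2).1
    rw [← norm_lo, h, norm_zero] at h2; linarith
  have m1 := meas_tr c2 (continuous_fst (X := Mx n) (Y := ℝ))
  unfold yy
  exact (((by fun_prop : Continuous fun p : Mx n × ℝ => 32 * |Real.sin p.2| ^ 4).measurable).mul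
    (m1.sub (continuous_const.mul c1).measurable).norm).div_const t

lemma half_le {y : ℝ} (hy : 0 ≤ y) (j : ℕ) : y ≤ 1 + y ^ (j + 1) := by
  rcases le_total y 1 with h | h
  · have : 0 ≤ y ^ (j + 1) := by positivity
    linarith
  · have : y ≤ y ^ (j + 1) := le_self_pow₀ h (Nat.succ_ne_zero j)
    linarith

/-- the deterministic inclusion -/
lemma incl {g t : ℝ} (h0 : 1 / 2 ≤ g) (h1 : g < 1) (ht : 0 < t) (j : ℕ) {e c τ : V n} {W : Mx n}
    (hW : Wᵀ = W) {a : V n} (hD : Dg (Wm e c τ W) a) (ha : ∀ i, a i ≤ 2 + (zz g - 2) / 2)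
    (hY : ∫⁻ θ in Set.Ioc 0 (2 * Real.pi), ENNReal.ofReal (yy n g t θ W ^ (j + 1)) < 1) :
    ‖ff a g‖ ≤ 1536 / (1 - g) ^ 2 + t := by
  have hd : 0 < 1 - g := by linarith
  have hπ := Real.pi_gt_three
  have pt : ∀ θ, ENNReal.ofReal (16 * |Real.sin θ| ^ 4 * ‖ff a (cm g θ)‖) ≤
      ENNReal.ofReal (1536 / (1 - g) ^ 2 + t / 2) +
        ENNReal.ofReal (t / 2) * ENNReal.ofReal (yy n g t θ W ^ (j + 1)) := fun θ => by
    have y0 : 0 ≤ yy n g t θ W := by unfold yy; positivity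
    rw [← ENNReal.ofReal_mul (by positivity), ← ENNReal.ofReal_add (by positivity) (by positivity)]
    refine ENNReal.ofReal_le_ofReal ?_
    have hS1 : |Real.sin θ| ≤ 1 := Real.abs_sin_le_one θ
    rcases (abs_nonneg (Real.sin θ)).eq_or_lt with hS | hS
    · rw [← hS]; simp only [ne_eq, OfNat.ofNat_ne_zero, not_false_eq_true, zero_pow, mul_zero,
        zero_mul]; positivity
    obtain ⟨-, -, b3⟩ := cm_facts h0 h1 θ
    have hη : 0 < (ww (cm g θ)).im := lt_of_lt_of_le (by positivity) b3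
    have a1 : ‖ff a (cm g θ)‖ ≤ 3 / (ww (cm g θ)).im +
        ‖tr (ww (cm g θ)) W - n * lo (cm g θ)‖ := by
      have e1 : ff a (lo (cm g θ)) = tr (ww (cm g θ)) (Wm e c τ W) - n * lo (cm g θ) := by
        rw [tr_dg hη hD]; rfl
      rw [← norm_ff_lo, e1]
      exact (norm_sub_le_norm_sub_add_norm_sub _ (tr (ww (cm g θ)) W) _).trans
        (add_le_add (tr_Wm hη e c τ hW) le_rfl)
    have a2 : 3 / (ww (cm g θ)).im ≤ 3 / ((1 - g) ^ 2 * |Real.sin θ| / 32) := by gcongr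
    have a3 := half_le y0 j
    have a4 : |Real.sin θ| ^ 3 ≤ 1 := pow_le_one₀ hS.le hS1
    calc _ ≤ 16 * |Real.sin θ| ^ 4 * (3 / ((1 - g) ^ 2 * |Real.sin θ| / 32) +
          ‖tr (ww (cm g θ)) W - n * lo (cm g θ)‖) := by gcongr; linarith
      _ = 1536 / (1 - g) ^ 2 * |Real.sin θ| ^ 3 + t / 2 * yy n g t θ W := by
          unfold yy; field_simp; ring
      _ ≤ 1536 / (1 - g) ^ 2 * 1 + t / 2 * (1 + yy n g t θ W ^ (j + 1)) := by gcongr
      _ = _ := by ring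
  have h2 := (mean h0 h1 ha).trans (lintegral_mono pt)
  rw [lintegral_add_left measurable_const, lintegral_const_mul' _ _ ENNReal.ofReal_ne_top,
    setLIntegral_const, Real.volume_Ioc, sub_zero] at h2
  have h3 := h2.trans (add_le_add le_rfl (mul_le_mul_right hY.le _))
  rw [mul_one, ← ENNReal.ofReal_mul (by positivity),
    ← ENNReal.ofReal_add (by positivity) (by positivity),
    ENNReal.ofReal_le_ofReal_iff (by positivity)] at h3
  have h4 : 2 * Real.pi * ‖ff a g‖ ≤ 2 * Real.pi * (1536 / (1 - g) ^ 2 + t) := by nlinarith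
  exact le_of_mul_le_mul_left h4 (by positivity)

/-- the expectation at one angle -/
lemma expect {g r : ℝ} (h0 : 1 / 2 ≤ g) (h1 : g < 1) (hn : 1 ≤ 3 * n * (1 - g) ^ 3) (hr : 1 ≤ r)
    (k : ℕ) (hk : (k : ℝ) + 2 ≤ 4 * r ^ 2) (θ : ℝ) :
    ∫⁻ W, ENNReal.ofReal (yy n g (256 * 10 ^ 7 * r / (1 - g) ^ 2) θ W ^ (2 * k + 3 + 1)) ∂GOE n ≤
      ENNReal.ofReal ((1 / 100) ^ (2 * k + 4) * (3 * 10 ^ 6 * n ^ 2)) := by
  have hS1 : |Real.sin θ| ≤ 1 := Real.abs_sin_le_one θ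
  rcases (abs_nonneg (Real.sin θ)).eq_or_lt with hS | hS
  · simp [yy, ← hS]
  obtain ⟨b1, b2, b3⟩ := cm_facts h0 h1 θ
  have hm : Measurable fun W : Mx n =>
      yy n g (256 * 10 ^ 7 * r / (1 - g) ^ 2) θ W ^ (2 * k + 3 + 1) :=
    ((meas_yy (n := n) h0 h1 (256 * 10 ^ 7 * r / (1 - g) ^ 2)).comp
      (measurable_id.prodMk (measurable_const (a := θ)))).pow_const (2 * k + 3 + 1)
  rw [GOE, goe, lintegral_map hm.ennreal_ofReal (measurable_symG _)]
  unfold yy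
  have hd : 0 < 1 - g := by linarith
  have hd1 : 1 - g ≤ 1 / 2 := by linarith
  have γ0 : lo (cm g θ) ≠ 0 := fun h => by rw [← norm_lo, h, norm_zero] at b1; linarith
  have b4 : ‖(lo (cm g θ))⁻¹‖ ≤ 3 := by
    rw [norm_inv, norm_lo]; exact (inv_le_comm₀ (by linarith) (by norm_num)).2 (by linarith)
  generalize 1 - g = d at *
  generalize |Real.sin θ| = S at *
  have hn0 : (0 : ℝ) < n := by
    rcases (Nat.cast_nonneg (α := ℝ) n).eq_or_lt with h | h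
    · rw [← h] at hn; norm_num at hn
    · exact h
  have hη : 0 < (ww (cm g θ)).im := lt_of_lt_of_le (by positivity) b3
  have hs2 : (1 / √(n : ℝ)) ^ 2 = 1 / n := by rw [div_pow, Real.sq_sqrt hn0.le, one_pow]
  have hσ : 1 / (n : ℝ) ≤ 3 * d ^ 3 := by rw [div_le_iff₀ hn0]; linarith
  have hS2 : S ^ 2 ≤ 1 := pow_le_one₀ hS.le hS1
  have hdS : d ^ 2 * S ≤ 1 := by nlinarith
  obtain ⟨hi, hb⟩ := moment (ι := Fin n) (s := 1 / √(n : ℝ)) hη
    (by rw [hs2, Fintype.card_fin]; field_simp) (mul_inv_cancel₀ γ0) rfl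
    (l := d * S / 16) (T := 8 * 10 ^ 5 * r * (1 / n) / (d ^ 2 * S ^ 3)) (Lm := 35 / (d ^ 2 * S))
    (by positivity) b2 k (by positivity)
    (by
      rw [hs2]
      calc _ ≤ 4 * (1 / n / (d ^ 2 * S / 32) +
            2 * (1 / n * (3 * d ^ 3)) / ((d ^ 2 * S / 32) ^ 2 * (d * S / 16))) := by
            rw [sq (1 / (n : ℝ))]; gcongr
        _ = (128 * S ^ 2 + 393216) * (1 / n) / (d ^ 2 * S ^ 3) := by field_simp; ring
        _ ≤ _ := by gcongr; linarith)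
    (by
      rw [hs2]
      have hS4 : S ^ 4 ≤ 1 := pow_le_one₀ hS.le hS1
      calc _ ≤ 16 * (4 * r ^ 2) * (1 / n) ^ 2 / (d ^ 2 * S / 32) ^ 2 := by gcongr
        _ = 65536 * S ^ 4 * (r * (1 / n) / (d ^ 2 * S ^ 3)) ^ 2 := by field_simp; ring
        _ ≤ (8 * 10 ^ 5) ^ 2 * (r * (1 / n) / (d ^ 2 * S ^ 3)) ^ 2 := by gcongr; linarith
        _ = _ := by ring)
    (by
      calc _ ≤ 1 / (d ^ 2 * S / 32) + 3 / (d ^ 2 * S) := by
            gcongr
            exact b4.trans (by rw [le_div_iff₀ (by positivity)]; linarith)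
        _ = _ := by field_simp; ring)
  have e : ∀ x : Fin n × Fin n → ℝ,
      (32 * S ^ 4 * ‖tr (ww (cm g θ)) (symG (1 / √(n : ℝ)) x) - n * lo (cm g θ)‖ /
        (256 * 10 ^ 7 * r / d ^ 2)) ^ (2 * k + 3 + 1) =
      (32 * S ^ 4 * n / (256 * 10 ^ 7 * r / d ^ 2)) ^ (2 * k + 4) *
        ‖St.Stein79.mm (1 / √(n : ℝ)) (ww (cm g θ)) x - lo (cm g θ)‖ ^ (2 * k + 4) := fun x => by
    have : tr (ww (cm g θ)) (symG (1 / √(n : ℝ)) x) - n * lo (cm g θ) =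
        n * (St.Stein79.mm (1 / √(n : ℝ)) (ww (cm g θ)) x - lo (cm g θ)) := by
      have : (n : ℂ) ≠ 0 := by exact_mod_cast hn0.ne'
      rw [St.Stein79.mm, Fr.mtr, hs2, tr]; push_cast; field_simp
    rw [this, norm_mul, Complex.norm_natCast, ← mul_pow]
    congr 1; ring
  simp only [e]
  rw [← ofReal_integral_eq_lintegral_ofReal (hi.const_mul _) (ae_of_all _ fun x => by positivity),
    integral_const_mul]
  refine ENNReal.ofReal_le_ofReal ((mul_le_mul_of_nonneg_left hb (by positivity)).trans ?_)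
  have a1 : S ^ (2 * k) ≤ 1 := pow_le_one₀ hS.le hS1
  have a2 : 1 / d ^ 6 ≤ 9 * (n : ℝ) ^ 2 := by
    rw [div_le_iff₀ (by positivity)]; nlinarith
  calc _ = (32 * S ^ 4 * n / (256 * 10 ^ 7 * r / d ^ 2) *
          (8 * 10 ^ 5 * r * (1 / n) / (d ^ 2 * S ^ 3))) ^ (2 * k + 4) *
        ((35 / (d ^ 2 * S)) ^ 2 / (d * S / 16) ^ 2) := by rw [mul_pow]; ring
    _ = (1 / 100 * S) ^ (2 * k + 4) * ((35 / (d ^ 2 * S)) ^ 2 / (d * S / 16) ^ 2) := by
        congr 2; field_simp; ring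
    _ = (1 / 100) ^ (2 * k + 4) * (313600 * S ^ (2 * k) * (1 / d ^ 6)) := by
        rw [mul_pow, pow_add S]; field_simp; ring
    _ ≤ (1 / 100) ^ (2 * k + 4) * (313600 * 1 * (9 * n ^ 2)) := by gcongr
    _ ≤ _ := mul_le_mul_of_nonneg_left (by nlinarith [sq_nonneg (n : ℝ)]) (by positivity)

end Tr61

open Tr61 in
/-- **(TR)** -/
theorem trCore : TrCore := by
  refine ⟨36 * 10 ^ 18, by norm_num, fun n g H e c τ h0 h1 hH hn => ?_⟩
  have hd : 0 < 1 - g := by linarith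
  have g0 : 0 < g := by linarith
  have es : zz g - 2 = (1 - g) ^ 2 / g := by unfold zz; field_simp; ring
  have s0 : 0 ≤ zz g - 2 := by rw [es]; positivity
  have s1 : zz g - 2 ≤ 2 * (1 - g) ^ 2 := by
    rw [es, div_le_iff₀ g0]; nlinarith [sq_nonneg (1 - g)]
  have n1 : 1 ≤ 3 * n * (1 - g) ^ 3 := by
    have a1 : (n : ℝ) ^ 2 * (zz g - 2) ^ 3 ≤ n ^ 2 * (2 * (1 - g) ^ 2) ^ 3 := by gcongr
    refine le_of_sq_le_sq ?_ (by positivity)
    nlinarith [sq_nonneg ((n : ℝ) * (1 - g) ^ 3)]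
  have n3 : (3 : ℝ) ≤ n := by
    have a1 : (1 - g) ^ 3 ≤ (1 / 2) ^ 3 := by gcongr; linarith
    have a2 : (2 : ℝ) < n := by nlinarith [Nat.cast_nonneg (α := ℝ) n]
    exact_mod_cast (show 2 < n by exact_mod_cast a2)
  have en : (n : ℝ) ≤ Real.exp H := (Real.log_le_iff_le_exp (by linarith)).1 hH
  have H1 : 1 ≤ H := by
    refine le_trans ?_ hH
    rw [Real.le_log_iff_exp_le (by linarith)]
    linarith [Real.exp_one_lt_d9]
  set r := √H with hr
  have r2 : r ^ 2 = H := Real.sq_sqrt (by linarith)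
  have r1 : 1 ≤ r := Real.one_le_sqrt.2 H1
  set k := ⌈H⌉₊ with hk
  have k1 : H ≤ k := Nat.le_ceil H
  have k2 : (k : ℝ) + 2 ≤ 4 * r ^ 2 := by
    have := Nat.ceil_lt_add_one (show 0 ≤ H by linarith)
    rw [r2]; linarith
  set t := 256 * 10 ^ 7 * r / (1 - g) ^ 2 with ht
  have t0 : 0 < t := by positivity
  let Y : Mx n → ℝ≥0∞ := fun W =>
    ∫⁻ θ in Set.Ioc 0 (2 * Real.pi), ENNReal.ofReal (yy n g t θ W ^ (2 * k + 3 + 1))
  have hm : Measurable fun p : Mx n × ℝ => ENNReal.ofReal (yy n g t p.2 p.1 ^ (2 * k + 3 + 1)) :=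
    ((meas_yy h0 h1 t).pow_const _).ennreal_ofReal
  have hY : Measurable Y := hm.lintegral_prod_right'
  have sub : ∀ᵐ W ∂GOE n, W ∈ {W | ∃ a, Dg (Wm e c τ W) a ∧ (∀ i, a i ≤ 2 + (zz g - 2) / 2) ∧
      36 * 10 ^ 18 * H < (∑ i, (zz g - a i)⁻¹ - n * g) ^ 2 * (zz g - 2) ^ 2} →
      W ∈ {W | 1 ≤ Y W} := by
    filter_upwards [goe_ae_symm (ι := Fin n) (1 / √(n : ℝ))] with W hW ⟨a, hD, ha, hC⟩
    by_contra hc
    have h2 := incl h0 h1 t0 (2 * k + 3) hW hD ha (not_le.1 hc)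
    have e1 : ff a g = ((∑ i, (zz g - a i)⁻¹ - n * g : ℝ) : ℂ) := by
      simp only [ff, zz, one_div]; push_cast; rfl
    rw [e1, Complex.norm_real, Real.norm_eq_abs] at h2
    have h3 : 1536 / (1 - g) ^ 2 + t ≤ 3 * 10 ^ 9 * r / (1 - g) ^ 2 := by
      rw [ht, ← add_div]; gcongr; linarith
    have h4 : |∑ i, (zz g - a i)⁻¹ - n * g| * (zz g - 2) ≤ 6 * 10 ^ 9 * r :=
      calc _ ≤ 3 * 10 ^ 9 * r / (1 - g) ^ 2 * (2 * (1 - g) ^ 2) := by gcongr; linarith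
        _ = _ := by field_simp; ring
    have h5 := pow_le_pow_left₀ (by positivity) h4 2
    rw [mul_pow, sq_abs, mul_pow, r2] at h5
    linarith
  refine (measure_mono_ae sub).trans ((meas_ge_le_lintegral_div hY.aemeasurable one_ne_zero
    ENNReal.one_ne_top).trans ?_)
  rw [div_one, lintegral_lintegral_swap hm.aemeasurable]
  refine (lintegral_mono fun θ => expect h0 h1 n1 r1 k k2 θ).trans ?_
  rw [setLIntegral_const, Real.volume_Ioc, sub_zero, ← ENNReal.ofReal_mul (by positivity)]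
  refine ENNReal.ofReal_le_ofReal ?_
  have a1 : ((1 : ℝ) / 100) ^ (2 * k) ≤ Real.exp (-3 * H) := by
    have b1 : ((1 : ℝ) / 100) ^ 2 ≤ Real.exp (-3) := by
      have b2 : Real.exp 3 ≤ 27 := by
        rw [show (3 : ℝ) = (3 : ℕ) * 1 by norm_num, Real.exp_nat_mul]
        calc _ ≤ (3 : ℝ) ^ 3 := by gcongr; linarith [Real.exp_one_lt_d9]
          _ = _ := by norm_num
      rw [Real.exp_neg, le_inv_comm₀ (by norm_num) (Real.exp_pos 3)]
      linarith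
    calc _ = (((1 : ℝ) / 100) ^ 2) ^ k := pow_mul _ _ _
      _ ≤ Real.exp (-3) ^ k := by gcongr
      _ = Real.exp (k * -3) := (Real.exp_nat_mul _ _).symm
      _ ≤ _ := Real.exp_le_exp.2 (by linarith)
  have a2 : Real.exp (-3 * H) * Real.exp H ^ 2 = Real.exp (-H) := by
    rw [← Real.exp_nat_mul, ← Real.exp_add]; congr 1; push_cast; ring
  have a3 := Real.pi_lt_four
  calc _ = (1 / 100) ^ (2 * k) * (n : ℝ) ^ 2 * (6 / 100 * Real.pi) := by rw [pow_add]; ring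
    _ ≤ Real.exp (-3 * H) * Real.exp H ^ 2 * 1 := by gcongr; linarith
    _ = _ := by rw [mul_one, a2]

/-- the hypothesis in the form `1 ≤ n s^(3/2)` -/
lemma tr_hyp {n : ℕ} {s : ℝ} (hs : 0 ≤ s) (h : 1 ≤ n * s ^ (3 / 2 : ℝ)) :
    1 ≤ (n : ℝ) ^ 2 * s ^ 3 := by
  have e : s ^ 3 = (s ^ (3 / 2 : ℝ)) ^ 2 := by
    rw [← Real.rpow_natCast, ← Real.rpow_natCast, ← Real.rpow_mul hs]; norm_num
  rw [e, ← mul_pow]; exact one_le_pow₀ h

end Crest.Agent.T157.Kb
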