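import Crest.Agent.T157.KbB_24
import Crest.Agent.T157.KbAll_5
import Crest.Agent.T157.KbTr_61
import Crest.Agent.T157.O0Wb_31

/-!
# Row 157, part A2 (helper44): (TR) as a first-moment event
-/

set_option autoImplicit false

noncomputable section

namespace Crest.Agent.T157.Kb

open MeasureTheory Matrix Set
open scoped ENNReal
open Crest.Agent.T157.E Crest.Agent.T157.Cond Crest.Agent.T157.Tap
open Crest.Agent.T157.Qe (zz)
open Crest.Agent.T157.Conc (ex)

variable {n : ℕ}

namespace Tr44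

lemma meas_inv : Measurable fun A : Mx n => A⁻¹ := by
  simp only [Matrix.inv_def, Ring.inverse_eq_inv']
  exact ((continuous_id.matrix_det.measurable).inv).smul continuous_id.matrix_adjugate.measurable

lemma measSet_TR (b : ℝ) : MeasurableSet {z : V n × Mx n | TR b z.1 z.2} := by
  have h1 : Measurable fun z : V n × Mx n => zz (1 - aS z.1) := by unfold zz; fun_prop
  have h2 : Measurable fun z : V n × Mx n => (zz (1 - aS z.1) • (1 : Mx n) - z.2)⁻¹.trace :=
    (continuous_id.matrix_trace.measurable).comp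
      (meas_inv.comp ((h1.smul measurable_const).sub measurable_snd))
  exact measurableSet_le (by fun_prop) measurable_const

end Tr44

theorem trGlue : TrGlue := fun ⟨C1, hC⟩ => ⟨C1, fun K hK => by
  obtain ⟨t0, ht0, Ca, hA⟩ := All.all
  refine ⟨min (1 / (2 * K)) (min t0 1), by positivity, Ca + 2,
    fun n t ε e E Cw H S0 hn ht hε hs hK3 hH hW => ?_⟩
  have n0 : 0 < n := by omega
  have t0' : 0 < t := lt_of_lt_of_le (by positivity) ht
  have s0 := Real.sqrt_pos.2 t0'
  have s2 := Real.sq_sqrt t0'.le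
  have s1 : √t ≤ 1 := hs.trans ((min_le_right _ _).trans (min_le_right _ _))
  have s3 : √t ≤ t0 := hs.trans ((min_le_right _ _).trans (min_le_left _ _))
  have s4 : 2 * K * √t ≤ 1 := (le_div_iff₀' (by positivity)).1 (hs.trans (min_le_left _ _))
  have k0 := le_mul_of_one_le_left t0'.le hK
  have hB : MeasurableSet {z : V n × Mx n | z.2 ∈ S0 ∧ Co K e t z.1 ∧ ¬ TR (C1 * H) z.1 z.2} :=
    (measurable_snd (hW _ s0 (s2.symm ▸ k0) (s2.symm ▸ k0)).1.meas).inter
      ((measSet_Co K e t measurable_fst).inter (Tr44.measSet_TR _).compl)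
  refine (Pt_le margStmt n0 t0' hB (b := 0) (b' := ex (-H)) (by simpa using Conc.ex_ne_top _)
    (G := fun _ _ => True) (fun _ _ => by simp) fun z hz ξ _ => ?_).trans ?_
  · have co := hz.2.1
    have q0 : 0 < aS z.1 := (Id10.aS_nonneg _).lt_of_ne fun h => by
      have := co.q1; rw [← h] at this; linarith
    have q1 : aS z.1 ≤ 1 / 2 := by
      refine (pow_le_pow_iff_left₀ q0.le (by norm_num) two_ne_zero).1 (co.q2.trans ?_)
      have : K * √t ^ 2 ≤ (K * √t) ^ 2 := by
        rw [mul_pow]; gcongr; exact le_self_pow₀ hK two_ne_zero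
      rw [← s2]
      exact this.trans (pow_le_pow_left₀ (by positivity) (by linarith) 2)
    have z1 : aS z.1 ^ 2 ≤ zz (1 - aS z.1) - 2 := by
      simpa using O0.Wb.sq_le_zz (g := 1 - aS z.1) (by linarith) (by linarith)
    have q2 := pow_pos q0 2
    refine (measure_mono fun W hW' => ?_).trans (hC n (1 - aS z.1) H (ee z.1) (col t z.1 ξ) (tau z.1)
      (by omega) ⟨by linarith, by linarith⟩ hH ?_ (Gn11.ee_unit q0))
    · obtain ⟨a, ha, h1, -⟩ := (hW _ q0 co.q1 co.q2).1.sp _ hW'.1
      have h2 : ε ^ 4 * aS z.1 ^ 2 ≤ aS z.1 ^ 2 :=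
        mul_le_of_le_one_left q2.le (pow_le_one₀ hε.1.le hε.2)
      refine ⟨a, ha, fun i => by linarith [(h1 i).2], ?_⟩
      rw [← (O0.Wb.res ha fun i => by linarith [(h1 i).2]).2.2.2.1]
      exact not_le.1 hW'.2.2
    · refine le_of_mul_le_mul_left ?_ (by positivity : 0 < K ^ 3)
      calc _ ≤ (n : ℝ) ^ 2 * t ^ 3 := by rwa [mul_one]
        _ ≤ (n : ℝ) ^ 2 * (K * (zz (1 - aS z.1) - 2)) ^ 3 := by
          gcongr; exact co.q1.trans (by gcongr)
        _ = _ := by ring
  · rw [zero_add]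
    refine (mul_le_mul_left (hA n t (by omega) ⟨ht, by nlinarith⟩) _).trans ?_
    rw [← Conc.ex_add]
    refine Conc.ex_mono ?_
    push_cast
    linarith [Real.log_natCast_nonneg n]⟩

theorem trCoreB : TrCoreB :=
  let ⟨C, _, h⟩ := trCore
  ⟨C, fun n g H e c τ _ hg hH hn _ => h n g H e c τ hg.1 hg.2 hH hn⟩

theorem trPt : TrPt := trGlue trCoreB

end Crest.Agent.T157.Kb

end
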