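import Crest.Agent.T157.KbM_24

/-!
# Row 157, part A2 (helper75): pointwise bounds and an approximation calculus for `Kb.XdStmt`
-/

set_option autoImplicit false

noncomputable section

namespace Crest.Agent.T157.Kb.Xd75

open Matrix Filter Real
open Crest.Agent.T157.Tap

/-! ### pointwise bounds -/

lemma mvt0 {f f' : ℝ → ℝ} (h : ∀ u, HasDerivAt f (f' u) u) (h0 : f 0 = 0) {x C : ℝ}
    (hb : ∀ u, |u| ≤ |x| → |f' u| ≤ C) : |f x| ≤ C * |x| := by
  have := (convex_closedBall (0 : ℝ) |x|).norm_image_sub_le_of_norm_hasDerivWithin_le (C := C)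
    (fun u _ => (h u).hasDerivWithinAt) (fun u hu => hb u (by simpa using hu))
    (Metric.mem_closedBall_self (abs_nonneg x)) (y := x) (by simp)
  simpa [h0] using this

lemma abs_th (x : ℝ) : |tanh x| ≤ |x| := by
  simpa using mvt0 hasDerivAt_tanh tanh_zero (x := x) (C := 1) fun u _ => by
    rw [abs_le]; constructor <;> nlinarith [sq_nonneg (tanh u), tanh_sq_lt_one u]

/-- the fifth-order remainder -/
def gx (x : ℝ) : ℝ := x - tanh x - tanh x ^ 3 / 3
/-- the error weight -/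
def Mx8 (x : ℝ) : ℝ := min (x ^ 8) (x ^ 2)

lemma abs_gx (x : ℝ) {j : ℕ} (hj : j ≤ 4) : |gx x| ≤ |x| ^ j * |x| := by
  refine mvt0 (f := gx) (f' := fun u => tanh u ^ 4) (fun u => ?_) (by simp [gx]) fun u hu => ?_
  · refine (((hasDerivAt_id' u).sub (hasDerivAt_tanh u)).sub
      (((hasDerivAt_tanh u).pow 3).div_const 3)).congr_deriv ?_
    simp; ring
  · rw [abs_pow]
    exact (pow_le_pow_of_le_one (abs_nonneg _) (abs_tanh_lt_one u).le hj).trans
      (pow_le_pow_left₀ (abs_nonneg _) ((abs_th u).trans hu) j)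

lemma Mx8_nn (x : ℝ) : 0 ≤ Mx8 x := le_min (by positivity) (by positivity)

lemma p8_le (x : ℝ) : (tanh x ^ 2) ^ 4 ≤ Mx8 x := by
  have h : tanh x ^ 2 ≤ x ^ 2 := sq_le_sq.2 (abs_th x)
  refine le_min ((pow_le_pow_left₀ (sq_nonneg _) h 4).trans_eq (by ring)) (le_trans ?_ h)
  exact pow_le_of_le_one (sq_nonneg _) (tanh_sq_lt_one x).le (by norm_num)

lemma gx_sq (x : ℝ) : gx x ^ 2 ≤ Mx8 x := by
  have a := pow_le_pow_left₀ (abs_nonneg _) (abs_gx x (j := 3) (by norm_num)) 2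
  have b := pow_le_pow_left₀ (abs_nonneg _) (abs_gx x (j := 0) (by norm_num)) 2
  rw [← pow_succ, ← pow_mul, Even.pow_abs (by decide), Even.pow_abs (by decide)] at a
  rw [pow_zero, one_mul, sq_abs, sq_abs] at b
  exact le_min a b

lemma p3_gx (x : ℝ) : |tanh x| ^ 3 * |gx x| ≤ Mx8 x := by
  have a := mul_le_mul (pow_le_pow_left₀ (abs_nonneg _) (abs_th x) 3) (abs_gx x le_rfl)
    (abs_nonneg _) (by positivity)
  have b := mul_le_mul ((pow_le_of_le_one (abs_nonneg _) (abs_tanh_lt_one x).le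
    (by norm_num : 3 ≠ 0)).trans (abs_th x)) (abs_gx x (j := 0) (by norm_num))
    (abs_nonneg _) (by positivity)
  rw [← pow_succ, ← pow_add, Even.pow_abs (by decide : Even (3 + (4 + 1)))] at a
  rw [pow_zero, one_mul, ← sq, sq_abs] at b
  exact le_min a b

lemma phi0 (x : ℝ) : tanh x ^ 2 ≤ min (sinh x ^ 2) 1 ∧
    min (sinh x ^ 2) 1 - tanh x ^ 2 ≤ 2 * (tanh x ^ 2) ^ 2 ∧
    |min (sinh x ^ 2) 1 - tanh x ^ 2 - (tanh x ^ 2) ^ 2| ≤ 8 * (tanh x ^ 2) ^ 3 := by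
  have h : sinh x ^ 2 * (1 - tanh x ^ 2) = tanh x ^ 2 := by
    have := (cosh_pos x).ne'
    rw [tanh_eq_sinh_div_cosh]; field_simp; rw [cosh_sq_sub_sinh_sq, mul_one]
  have y0 := sq_nonneg (tanh x)
  have y1 := tanh_sq_lt_one x
  have s0 := sq_nonneg (sinh x)
  generalize sinh x ^ 2 = s at *
  generalize tanh x ^ 2 = y at *
  rw [abs_le]
  rcases le_total s 1 with a | a
  · have b : s ≤ 2 * y := by nlinarith
    have c : s - y = s * y := by linarith
    rw [min_eq_left a, c]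
    refine ⟨by nlinarith, by nlinarith, by nlinarith [pow_nonneg y0 3], ?_⟩
    rw [show s * y - y ^ 2 = (s - y) * y by ring, c]
    nlinarith [mul_nonneg y0 y0, pow_nonneg y0 3]
  · have b : 1 ≤ 2 * y := by nlinarith
    have c : 1 ≤ 8 * y ^ 3 := by nlinarith [pow_le_pow_left₀ zero_le_one b 3]
    rw [min_eq_right a]
    exact ⟨y1.le, by nlinarith, by nlinarith, by nlinarith⟩

/-- the pointwise bounds; `f` is the weight, `N` the error -/
structure PW (x f N : ℝ) : Prop where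
  f0 : 0 ≤ f
  f1 : f ≤ 1
  a1 : |f - (tanh x ^ 2 + tanh x ^ 4)| ≤ 8 * tanh x ^ 6 + 8 * N
  a2 : |f ^ 2 - tanh x ^ 4| ≤ 8 * tanh x ^ 6 + 8 * N
  a3 : |f * tanh x ^ 2 - (tanh x ^ 4 + tanh x ^ 6)| ≤ 8 * N
  a4 : |f ^ 2 * tanh x ^ 2 - tanh x ^ 6| ≤ 8 * N
  a5 : |f * (tanh x * (x - tanh x)) - 1 / 3 * tanh x ^ 6| ≤ 8 * N
  a6 : (x - tanh x) ^ 2 ≤ 8 * tanh x ^ 6 + 8 * N
  a7 : f ^ 2 * (x - tanh x) ^ 2 ≤ 8 * N
  a8 : |f * tanh x - tanh x ^ 3| ≤ 2 * (tanh x ^ 2 * |tanh x| ^ 3) + 8 * N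

lemma r_sq (x : ℝ) : (x - tanh x) ^ 2 ≤ 2 / 9 * tanh x ^ 6 + 2 * Mx8 x := by
  have := gx_sq x
  rw [show x - tanh x = tanh x ^ 3 / 3 + gx x by rw [gx]; ring]
  nlinarith [sq_nonneg (tanh x ^ 3 / 3 - gx x)]

lemma pw_out (x : ℝ) : PW x (min (sinh x ^ 2) 1) (Mx8 x) := by
  obtain ⟨h1, h2, h3⟩ := phi0 x
  have f1 : min (sinh x ^ 2) 1 ≤ 1 := min_le_right _ _
  have m0 := Mx8_nn x
  have m1 := p8_le x
  have m2 := r_sq x
  have m3 := p3_gx x
  have y0 := sq_nonneg (tanh x)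
  have y1 := (tanh_sq_lt_one x).le
  have er : x - tanh x = tanh x ^ 3 / 3 + gx x := by rw [gx]; ring
  set f := min (sinh x ^ 2) 1
  set p := tanh x
  have f0 : 0 ≤ f := y0.trans h1
  have f2 : f ≤ 3 * p ^ 2 := by nlinarith
  have b2 : |f ^ 2 - (p ^ 2) ^ 2| ≤ 8 * (p ^ 2) ^ 3 := by
    rw [abs_of_nonneg (by nlinarith)]
    nlinarith [mul_le_mul h2 (by linarith : f + p ^ 2 ≤ 4 * p ^ 2) (by linarith) (by positivity)]
  have c3 := mul_le_mul_of_nonneg_right h3 y0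
  have c4 := mul_le_mul_of_nonneg_right b2 y0
  nth_rewrite 3 [← abs_of_nonneg y0] at c3
  nth_rewrite 2 [← abs_of_nonneg y0] at c4
  rw [← abs_mul] at c3 c4
  refine ⟨f0, f1, ?_, ?_, ?_, ?_, ?_, by nlinarith, ?_, ?_⟩
  · rw [show f - (p ^ 2 + p ^ 4) = f - p ^ 2 - (p ^ 2) ^ 2 by ring]; linarith
  · rw [show p ^ 4 = (p ^ 2) ^ 2 by ring]; linarith
  · rw [show f * p ^ 2 - (p ^ 4 + p ^ 6) = (f - p ^ 2 - (p ^ 2) ^ 2) * p ^ 2 by ring]; nlinarith
  · rw [show f ^ 2 * p ^ 2 - p ^ 6 = (f ^ 2 - (p ^ 2) ^ 2) * p ^ 2 by ring]; nlinarith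
  · rw [er, show f * (p * (p ^ 3 / 3 + gx x)) - 1 / 3 * p ^ 6 =
      (f - p ^ 2) * (p ^ 2) ^ 2 / 3 + f * (p * gx x) by ring]
    refine (abs_add_le _ _).trans ?_
    have a := mul_le_mul_of_nonneg_right h2 (sq_nonneg (p ^ 2))
    have b := mul_le_mul_of_nonneg_right f2 (abs_nonneg (p * gx x))
    rw [abs_of_nonneg (div_nonneg (mul_nonneg (by linarith) (sq_nonneg _)) (by norm_num)),
      abs_mul, abs_of_nonneg f0]
    rw [abs_mul, ← sq_abs p] at b
    rw [abs_mul]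
    nlinarith
  · have a := mul_le_mul_of_nonneg_left m2 (sq_nonneg f)
    have b := mul_le_mul_of_nonneg_right (pow_le_pow_left₀ f0 f2 2) (by positivity : 0 ≤ p ^ 6)
    have c := mul_le_mul_of_nonneg_right (pow_le_one₀ f0 f1 (n := 2)) m0
    have d := mul_le_mul_of_nonneg_left y1 (by positivity : 0 ≤ (p ^ 2) ^ 4)
    nlinarith
  · rw [show f * p - p ^ 3 = (f - p ^ 2) * p by ring, abs_mul, abs_of_nonneg (by linarith)]
    have a := mul_le_mul_of_nonneg_right h2 (abs_nonneg p)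
    rw [pow_succ |p| 2, sq_abs]
    nlinarith

lemma pw_in (x : ℝ) : PW x 0 (Mx8 x + 1) := by
  have m0 := Mx8_nn x
  have m2 := r_sq x
  have h : ∀ j : ℕ, |tanh x ^ j| ≤ 1 := fun j => by
    rw [abs_pow]; exact pow_le_one₀ (abs_nonneg _) (abs_tanh_lt_one x).le
  have h2 := abs_le.1 (h 2)
  have h3 := abs_le.1 (h 3)
  have h4 := abs_le.1 (h 4)
  have h6 := abs_le.1 (h 6)
  have p6 : 0 ≤ tanh x ^ 6 := by positivity
  have p5 : 0 ≤ tanh x ^ 2 * |tanh x| ^ 3 := by positivity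
  refine ⟨le_rfl, zero_le_one, ?_, ?_, ?_, ?_, ?_, by linarith, by nlinarith, ?_⟩ <;>
    rw [abs_le] <;> constructor <;> nlinarith

variable {n : ℕ}

/-- the error weight with a site set -/
def NS (S : Finset (Fin n)) (x : V n) : V n := fun i => Mx8 (x i) + if i ∈ S then 1 else 0

lemma pw (S : Finset (Fin n)) (x : V n) (i : Fin n) : PW (x i) (phS S x i) (NS S x i) := by
  unfold phS NS
  split_ifs
  exacts [pw_in _, by simpa using pw_out (x i)]

/-! ### averages -/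

lemma avg_add (f g : V n) : avg (fun i => f i + g i) = avg f + avg g := by
  simp only [avg, Finset.sum_add_distrib, add_div]

lemma avg_sub (f g : V n) : avg (fun i => f i - g i) = avg f - avg g := by
  simp only [avg, Finset.sum_sub_distrib, sub_div]

lemma avg_mul (c : ℝ) (f : V n) : avg (fun i => c * f i) = c * avg f := by
  simp only [avg, ← Finset.mul_sum, mul_div_assoc]

lemma avg_const (hn : 0 < n) (c : ℝ) : avg (fun _ : Fin n => c) = c := by
  have : (n : ℝ) ≠ 0 := by positivity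
  simp [avg, this]

lemma avg_mono {f g : V n} (h : ∀ i, f i ≤ g i) : avg f ≤ avg g :=
  div_le_div_of_nonneg_right (Finset.sum_le_sum fun i _ => h i) n.cast_nonneg

lemma avg_nn {f : V n} (h : ∀ i, 0 ≤ f i) : 0 ≤ avg f :=
  div_nonneg (Finset.sum_nonneg fun i _ => h i) n.cast_nonneg

lemma avg_near {f g h : V n} (a : ∀ i, |f i - g i| ≤ h i) : |avg f - avg g| ≤ avg h := by
  rw [← avg_sub, avg, abs_div, Nat.abs_cast]
  exact div_le_div_of_nonneg_right ((Finset.abs_sum_le_sum_abs _ _).trans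
    (Finset.sum_le_sum fun i _ => a i)) n.cast_nonneg

lemma avg_cs (f g : V n) : avg (fun i => f i * g i) ^ 2 ≤
    avg (fun i => f i ^ 2) * avg fun i => g i ^ 2 := by
  simp only [avg, div_pow, div_mul_div_comm, ← sq]
  exact div_le_div_of_nonneg_right (Finset.sum_mul_sq_le_sq_mul_sq _ _ _) (sq_nonneg _)

lemma sum_eq (hn : 0 < n) (f : V n) : ∑ i, f i = n * avg f := by
  have : (n : ℝ) ≠ 0 := by positivity
  rw [avg]; field_simp

lemma dot_eq (hn : 0 < n) (f g : V n) : f ⬝ᵥ g = n * avg fun i => f i * g i := sum_eq hn _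

/-! ### the calculus: `f = g + O(e)`, `g = O(1)` -/

section ap
variable {I : Type*} (e : I → ℝ)

/-- `f = g + O(e)` and `g = O(1)` -/
def Ap (f g : I → ℝ) : Prop := ∃ C, 0 ≤ C ∧ ∀ i, |g i| ≤ C ∧ |f i - g i| ≤ C * min (e i) 1

variable {e} {f g f' g' : I → ℝ}

lemma Ap.bd {C : ℝ} (h : ∀ i, |f i| ≤ C) (he : ∀ i, 0 ≤ e i) : Ap e f f :=
  ⟨|C|, abs_nonneg _, fun i => ⟨(h i).trans (le_abs_self _), by
    have := he i
    rw [sub_self, abs_zero]; positivity⟩⟩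

lemma Ap.const (he : ∀ i, 0 ≤ e i) (a : ℝ) : Ap e (fun _ => a) fun _ => a :=
  Ap.bd (fun _ => le_rfl) he

lemma Ap.sm {C : ℝ} (a : ℝ) (h : ∀ i, |f i - a| ≤ C * e i) (he : ∀ i, 0 ≤ e i ∧ e i ≤ 1) :
    Ap e f fun _ => a :=
  ⟨|C| + |a|, by positivity, fun i => ⟨le_add_of_nonneg_left (abs_nonneg _), by
    rw [min_eq_left (he i).2]
    exact (h i).trans (mul_le_mul_of_nonneg_right
      ((le_abs_self _).trans (le_add_of_nonneg_right (abs_nonneg _))) (he i).1)⟩⟩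

lemma Ap.congr (h : Ap e f g) (a : ∀ i, f' i = f i) (b : ∀ i, g' i = g i) : Ap e f' g' := by
  rwa [funext a, funext b]

lemma Ap.add (h : Ap e f g) (h' : Ap e f' g') :
    Ap e (fun i => f i + f' i) fun i => g i + g' i := by
  obtain ⟨C, c0, h⟩ := h
  obtain ⟨C', c0', h'⟩ := h'
  refine ⟨C + C', by positivity, fun i => ⟨(abs_add_le _ _).trans (add_le_add (h i).1 (h' i).1), ?_⟩⟩
  rw [add_sub_add_comm, add_mul]
  exact (abs_add_le _ _).trans (add_le_add (h i).2 (h' i).2)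

lemma Ap.mul (h : Ap e f g) (h' : Ap e f' g') :
    Ap e (fun i => f i * f' i) fun i => g i * g' i := by
  obtain ⟨C, c0, h⟩ := h
  obtain ⟨C', c0', h'⟩ := h'
  refine ⟨3 * (C * C'), by positivity, fun i => ⟨?_, ?_⟩⟩
  · rw [abs_mul]
    nlinarith [mul_le_mul (h i).1 (h' i).1 (abs_nonneg _) c0, mul_nonneg c0 c0']
  · have a := mul_le_mul (h i).2 ((h' i).2.trans (mul_le_of_le_one_right c0' (min_le_right _ _)))
      (abs_nonneg _) ((abs_nonneg _).trans (h i).2)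
    have b := mul_le_mul (h i).2 (h' i).1 (abs_nonneg _) ((abs_nonneg _).trans (h i).2)
    have c := mul_le_mul (h i).1 (h' i).2 (abs_nonneg _) c0
    rw [← abs_mul] at a b c
    rw [show f i * f' i - g i * g' i = (f i - g i) * (f' i - g' i) + (f i - g i) * g' i +
      g i * (f' i - g' i) by ring]
    refine (abs_add_three _ _ _).trans ?_
    linarith

lemma Ap.neg (h : Ap e f g) : Ap e (fun i => -f i) fun i => -g i := by
  obtain ⟨C, c0, h⟩ := h
  exact ⟨C, c0, fun i => ⟨by rw [abs_neg]; exact (h i).1, by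
    rw [neg_sub_neg, abs_sub_comm]; exact (h i).2⟩⟩

lemma Ap.sub (h : Ap e f g) (h' : Ap e f' g') :
    Ap e (fun i => f i - f' i) fun i => g i - g' i := by
  simpa only [sub_eq_add_neg] using h.add h'.neg

lemma Ap.sq (h : Ap e f g) : Ap e (fun i => f i ^ 2) fun i => g i ^ 2 := by
  simpa only [_root_.sq] using h.mul h

lemma Ap.ev (h : Ap e f g) (he : ∀ i, 0 ≤ e i) :
    ∀ᶠ C : ℝ in atTop, ∀ i, |f i| ≤ C ∧ |f i - g i| ≤ C * e i := by
  obtain ⟨C, c0, h⟩ := h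
  filter_upwards [eventually_ge_atTop (2 * C)] with D hD i
  refine ⟨?_, (h i).2.trans (mul_le_mul (by linarith) (min_le_left _ _) (le_min (he i) zero_le_one)
    (by linarith))⟩
  linarith [abs_sub_abs_le_abs_sub (f i) (g i), (h i).1,
    (h i).2.trans (mul_le_of_le_one_right c0 (min_le_right _ _))]

end ap

end Crest.Agent.T157.Kb.Xd75

end
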