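import Crest.Agent.T157.KbXdA_75

/-!
# Row 157, part A2 (helper75): the normalised statistics for `Kb.XdStmt`
-/

set_option autoImplicit false

noncomputable section

namespace Crest.Agent.T157.Kb.Xd75

open Matrix Filter Real
open Crest.Agent.T157.Tap

/-- the data of `XdStmt` -/
structure In (K : ℝ) where
  n : ℕ
  t : ℝ
  e : ℝ
  ε : ℝ
  k : ℝ
  d0 : ℝ
  S : Finset (Fin n)
  x : V n
  hn : 0 < n
  ht : 0 < t
  he : 0 < e
  e1 : e ≤ 1 / 2
  ε0 : 0 ≤ ε
  qe : aS x ≤ e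
  co : Co K e t x
  xm : XM e x
  ad : Ad e ε k d0 S x

variable {K : ℝ}

namespace In
variable (i : In K)

abbrev q : ℝ := aS i.x
abbrev p : V i.n := th i.x
abbrev f : V i.n := phS i.S i.x
abbrev r : V i.n := fun j => i.x j - th i.x j
abbrev D : V i.n := Dk i.k i.d0 i.S i.x
def al : ℝ := bS i.x / i.q
def de : ℝ := i.d0 / i.q ^ 2
def nu : ℝ := 1 / (1 - i.q)
def mu : ℝ := i.de - i.k * i.nu
def ka : ℝ := i.q * i.mu - i.k
def rh : ℝ := R4 i.x / i.q ^ 2
def gm : ℝ := i.q / ga i.t i.x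
def la : ℝ := i.t / i.q ^ 2 * (i.al - 1)
def b : ℝ := (avg (fun j => i.f j * i.p j) - 3 * bS i.x * i.q) / i.q ^ 2

lemma q0 : 0 < i.q := (aS_nonneg _).lt_of_ne' fun h => by
  have := i.co.q1
  rw [show aS i.x = 0 from h] at this
  linarith [i.ht]

lemma qn : i.q ≠ 0 := i.q0.ne'
lemma q1 : 1 - i.q ≠ 0 := ne_of_gt (by linarith [i.qe, i.e1])
lemma q3 : 0 < i.q ^ 3 := pow_pos i.q0 3

lemma avgN : avg (NS i.S i.x) ≤ 2 * (i.e * i.q ^ 3) := by
  have a := i.xm.e8
  have b : avg (fun j => if j ∈ i.S then (1 : ℝ) else 0) ≤ i.e * i.q ^ 3 := by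
    rw [avg, div_le_iff₀ (by exact_mod_cast i.hn)]
    simpa using i.ad.card
  unfold NS Mx8
  rw [avg_add]; linarith

lemma eq3 : i.e * i.q ^ 3 ≤ i.q ^ 3 / 2 := by nlinarith [i.q3, i.e1]
lemma q3e : i.q ^ 3 ≤ i.e * i.q ^ 2 := by nlinarith [sq_nonneg i.q, i.qe]

lemma avgB : avg (fun j => 8 * i.p j ^ 6 + 8 * NS i.S i.x j) ≤ 136 * i.q ^ 3 := by
  rw [avg_add, avg_mul, avg_mul]
  linarith [i.avgN, i.eq3, (abs_le.1 i.xm.p6).2, i.q3]

lemma avgC : avg (fun j => 8 * NS i.S i.x j) ≤ 16 * (i.e * i.q ^ 3) := by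
  rw [avg_mul]; linarith [i.avgN]

lemma b_sq : i.b ^ 2 ≤ 1000 * i.q := by
  have a := avg_near fun j => (pw i.S i.x j).a8
  have c := avg_cs (fun j => i.p j ^ 2) fun j => |i.p j| ^ 3
  simp only [← pow_mul, Even.pow_abs (by decide : Even (3 * 2))] at c
  have d := avg_nn (f := fun j => i.p j ^ 2 * |i.p j| ^ 3) fun j => by positivity
  have p4 : avg (fun j => i.p j ^ 4) ≤ 3 * i.q ^ 2 := by
    linarith [(abs_le.1 i.xm.p4).2, i.eq3, i.q3]
  have p6 : avg (fun j => i.p j ^ 6) ≤ 16 * i.q ^ 3 := by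
    linarith [(abs_le.1 i.xm.p6).2, i.eq3, i.q3]
  have c' := c.trans (mul_le_mul p4 p6 (avg_nn fun j => Even.pow_nonneg (by decide) _) (by positivity))
  rw [avg_add, avg_mul] at a
  have a' : |avg (fun j => i.f j * i.p j) - avg fun j => i.p j ^ 3| ≤
      2 * avg (fun j => i.p j ^ 2 * |i.p j| ^ 3) + 8 * i.q ^ 3 := by
    linarith [i.avgC, i.eq3, show avg (fun j => tanh (i.x j) ^ 2 * |tanh (i.x j)| ^ 3) =
      avg (fun j => i.p j ^ 2 * |i.p j| ^ 3) from rfl, show avg (fun j => phS i.S i.x j *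
        tanh (i.x j)) = avg (fun j => i.f j * i.p j) from rfl,
      show |avg (fun j => phS i.S i.x j * tanh (i.x j)) - avg fun j => tanh (i.x j) ^ 3| =
        |avg (fun j => i.f j * i.p j) - avg fun j => i.p j ^ 3| from rfl]
  have a2 := pow_le_pow_left₀ (abs_nonneg _) a' 2
  rw [sq_abs] at a2
  have x3 := i.xm.p3
  have q6 : i.q ^ 6 ≤ i.q ^ 5 := pow_le_pow_of_le_one i.q0.le (by linarith [i.qe, i.e1]) (by norm_num)
  have q5 := pow_pos i.q0 5
  rw [b, div_pow, div_le_iff₀ (pow_pos (pow_pos i.q0 2) 2)]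
  nlinarith [sq_nonneg (avg (fun j => i.p j ^ 2 * |i.p j| ^ 3) - 4 * i.q ^ 3),
    sq_nonneg ((avg (fun j => i.f j * i.p j) - avg fun j => i.p j ^ 3) -
      (avg (fun j => i.p j ^ 3) - 3 * bS i.x * i.q))]

lemma c0 : i.d0 - i.k * (i.q / (1 - i.q)) = i.q * i.ka := by
  have := i.qn
  have := i.q1
  rw [ka, mu, de, nu]; field_simp; ring

lemma avgD (w : V i.n) : avg (fun j => i.D j * w j) =
    i.k * avg (fun j => i.f j * w j) + i.q * i.ka * avg w := by
  rw [← avg_mul, ← avg_mul, ← avg_add, ← c0]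
  congr 1; funext j; simp only [Dk]; ring

lemma avgD2 (w : V i.n) : avg (fun j => i.D j ^ 2 * w j) = i.k ^ 2 * avg (fun j => i.f j ^ 2 * w j) +
    2 * i.k * (i.q * i.ka) * avg (fun j => i.f j * w j) + (i.q * i.ka) ^ 2 * avg w := by
  rw [← avg_mul, ← avg_mul, ← avg_mul, ← avg_add, ← avg_add, ← c0]
  congr 1; funext j; simp only [Dk]; ring

end In

/-- the relation `f = g + O(e)` on the data -/
abbrev AP (f g : In K → ℝ) : Prop := Ap In.e f g

lemma cst (a : ℝ) : AP (K := K) (fun _ => a) fun _ => a := Ap.const (fun i => i.he.le) a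

lemma bdd {F w : In K → ℝ} (C : ℝ) (hw : ∀ i, 0 < w i) (h : ∀ i, |F i| ≤ C * w i) :
    AP (fun i => F i / w i) fun i => F i / w i :=
  Ap.bd (C := C) (fun i => by rw [abs_div, abs_of_pos (hw i), div_le_iff₀ (hw i)]; exact h i)
    fun i => i.he.le

lemma sml {F w : In K → ℝ} (a C : ℝ) (hw : ∀ i, 0 < w i)
    (h : ∀ i, |F i - a * w i| ≤ C * (i.e * w i)) : AP (fun i => F i / w i) fun _ => a :=
  Ap.sm (C := C) a (fun i => by
    rw [div_sub' (hw i).ne', abs_div, abs_of_pos (hw i), div_le_iff₀ (hw i), mul_comm (w i),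
      mul_assoc]
    exact h i) fun i => ⟨i.he.le, by linarith [i.e1]⟩

lemma q2 (i : In K) : 0 < i.q ^ 2 := pow_pos i.q0 2

lemma aq : AP (K := K) In.q fun _ => 0 := Ap.sm (C := 1) 0
  (fun i => by rw [sub_zero, abs_of_pos i.q0, one_mul]; exact i.qe)
  fun i => ⟨i.he.le, by linarith [i.e1]⟩

lemma ak : AP (K := K) In.k In.k := Ap.bd (C := 2)
  (fun i => abs_le.2 ⟨by linarith [i.ad.k1], by linarith [i.ad.k2]⟩) fun i => i.he.le

lemma aal : AP (K := K) In.al In.al := bdd K In.q0 fun i => i.co.a1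

lemma d0_nn (i : In K) : 0 ≤ i.d0 := le_trans (mul_nonneg (by nlinarith [i.ad.k1, i.ε0])
  (sq_nonneg _)) i.ad.d1

lemma ade : AP (K := K) In.de In.de := bdd (9 / 8) q2 fun i => by
  rw [abs_of_nonneg (d0_nn i)]; exact i.ad.d2

lemma as1 : AP (K := K) (fun i => i.t / i.q ^ 2) fun i => i.t / i.q ^ 2 := bdd K q2 fun i => by
  rw [abs_of_pos i.ht]; exact i.co.q1

lemma as2 : AP (K := K) (fun i => i.q ^ 2 / i.t) fun i => i.q ^ 2 / i.t := bdd K In.ht fun i => by
  rw [abs_of_pos (q2 i)]; exact i.co.q2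

lemma aup : AP (K := K) (fun i => uR i.t i.x / i.q) fun i => uR i.t i.x / i.q :=
  bdd K In.q0 fun i => i.co.u1

lemma anu : AP (K := K) In.nu fun _ => 1 :=
  sml 1 2 (fun i => by linarith [i.qe, i.e1]) fun i => by
    rw [one_mul, sub_sub_cancel, abs_of_pos i.q0]; nlinarith [i.qe, i.e1, i.he]

lemma agm : AP (K := K) In.gm fun _ => 1 :=
  sml 1 K (fun i => add_pos i.q0 i.ht) fun i => by
    have h : 0 ≤ K := by nlinarith [i.co.q1, i.ht, q2 i]
    rw [one_mul, ga, sub_add_cancel_left, abs_neg, abs_of_pos i.ht]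
    exact i.co.q1.trans (mul_le_mul_of_nonneg_left (by nlinarith [i.qe, i.q0, i.ht, i.he]) h)

lemma arh : AP (K := K) In.rh fun _ => 1 := sml 1 1 q2 fun i => by simpa using i.co.r4

lemma ar3 : AP (K := K) (fun i => (R3 i.x - bS i.x * i.q) / i.q ^ 2) fun _ => 0 :=
  sml 0 1 q2 fun i => by simpa using i.co.r3

lemma amu : AP (K := K) In.mu fun i => i.de - i.k * 1 := ade.sub (ak.mul anu)

lemma aka : AP (K := K) In.ka fun i => -i.k :=
  ((aq.mul amu).sub ak).congr (fun _ => rfl) fun _ => by ring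

lemma ala : AP (K := K) In.la In.la := as1.mul (aal.sub (cst 1))

lemma ab : AP (K := K) In.b In.b := Ap.bd (C := 1000) (fun i => by
  have := i.b_sq
  rw [abs_le]; constructor <;> nlinarith [i.qe, i.e1]) fun i => i.he.le

lemma ab2 : AP (K := K) (fun i => i.b ^ 2 / i.q) fun i => i.b ^ 2 / i.q :=
  bdd 1000 In.q0 fun i => by rw [abs_of_nonneg (sq_nonneg _)]; exact i.b_sq

lemma A1 : AP (K := K) (fun i => (avg i.f - i.q) / i.q ^ 2) fun _ => 3 := sml 3 145 q2 fun i => by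
  have a := abs_le.1 ((avg_near fun j => (pw i.S i.x j).a1).trans i.avgB)
  rw [avg_add] at a
  have b := abs_le.1 i.xm.p4
  have c : avg (fun j => tanh (i.x j) ^ 2) = i.q := rfl
  have d : avg (fun j => tanh (i.x j) ^ 4) = avg fun j => th i.x j ^ 4 := rfl
  rw [abs_le]; constructor <;> linarith [a.1, a.2, b.1, b.2, i.eq3, i.q3e, i.q3]

lemma A2 : AP (K := K) (fun i => avg (fun j => i.f j ^ 2) / i.q ^ 2) fun _ => 3 :=
  sml 3 145 q2 fun i => by
  have a := abs_le.1 ((avg_near fun j => (pw i.S i.x j).a2).trans i.avgB)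
  have b := abs_le.1 i.xm.p4
  have d : avg (fun j => tanh (i.x j) ^ 4) = avg fun j => th i.x j ^ 4 := rfl
  rw [abs_le]; constructor <;> linarith [a.1, a.2, b.1, b.2, i.eq3, i.q3e, i.q3]

lemma A3 : AP (K := K) (fun i => (avg (fun j => i.f j * i.p j ^ 2) - 3 * i.q ^ 2) / i.q ^ 3)
    fun _ => 7 := sml 7 18 In.q3 fun i => by
  have a : |avg (fun j => i.f j * i.p j ^ 2) - avg fun j => i.p j ^ 4 + i.p j ^ 6| ≤ _ :=
    (avg_near fun j => (pw i.S i.x j).a3).trans i.avgC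
  rw [avg_add, abs_le] at a
  have b := abs_le.1 i.xm.p4
  have c := abs_le.1 i.xm.p6
  rw [abs_le]; constructor <;> linarith [a.1, a.2, b.1, b.2, c.1, c.2]

lemma A4 : AP (K := K) (fun i => avg (fun j => i.f j ^ 2 * i.p j ^ 2) / i.q ^ 3) fun _ => 15 :=
  sml 15 17 In.q3 fun i => by
  have a : |avg (fun j => i.f j ^ 2 * i.p j ^ 2) - avg fun j => i.p j ^ 6| ≤ _ :=
    (avg_near fun j => (pw i.S i.x j).a4).trans i.avgC
  rw [abs_le] at a
  have c := abs_le.1 i.xm.p6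
  rw [abs_le]; constructor <;> linarith [a.1, a.2, c.1, c.2]

lemma A5 : AP (K := K) (fun i => avg (fun j => i.f j * (i.p j * i.r j)) / i.q ^ 3) fun _ => 5 :=
  sml 5 17 In.q3 fun i => by
  have a : |avg (fun j => i.f j * (i.p j * i.r j)) - avg fun j => 1 / 3 * i.p j ^ 6| ≤ _ :=
    (avg_near fun j => (pw i.S i.x j).a5).trans i.avgC
  rw [avg_mul, abs_le] at a
  have c := abs_le.1 i.xm.p6
  rw [abs_le]; constructor <;> linarith [a.1, a.2, c.1, c.2, mul_pos i.he i.q3]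

lemma A6 : AP (K := K) (fun i => avg (fun j => i.r j ^ 2) / i.q ^ 3)
    fun i => avg (fun j => i.r j ^ 2) / i.q ^ 3 := bdd 136 In.q3 fun i => by
  rw [abs_of_nonneg (avg_nn fun j => sq_nonneg _)]
  exact (avg_mono fun j => (pw i.S i.x j).a6).trans i.avgB

lemma A7 : AP (K := K) (fun i => avg (fun j => i.f j ^ 2 * i.r j ^ 2) / i.q ^ 3) fun _ => 0 :=
  sml 0 16 In.q3 fun i => by
  rw [zero_mul, sub_zero, abs_of_nonneg (avg_nn fun j => by positivity)]
  exact (avg_mono fun j => (pw i.S i.x j).a7).trans i.avgC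

lemma A9 : AP (K := K) (fun i => avg (fun j => i.f j * i.r j ^ 2) / i.q ^ 3)
    fun i => avg (fun j => i.f j * i.r j ^ 2) / i.q ^ 3 := bdd 136 In.q3 fun i => by
  rw [abs_of_nonneg (avg_nn fun j => mul_nonneg (pw i.S i.x j).f0 (sq_nonneg _))]
  exact (avg_mono fun j => (mul_le_of_le_one_left (sq_nonneg _) (pw i.S i.x j).f1).trans
    (pw i.S i.x j).a6).trans i.avgB

/-! ### moments of the diagonal -/

lemma T0 : AP (K := K) (fun i => avg i.D / i.q ^ 2) fun i => 2 * i.k + i.de :=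
  ((ak.mul A1).add amu).congr (fun i => by
    have := i.qn
    have h := i.avgD fun _ => 1
    simp only [mul_one, avg_const i.hn] at h
    rw [show avg i.D = _ from h, In.ka]; field_simp; ring) fun i => by ring

lemma T1 : AP (K := K) (fun i => avg (fun j => i.D j ^ 2) / i.q ^ 2) fun i => 2 * i.k ^ 2 :=
  (((ak.sq.mul A2).add ((((cst 2).mul ak).mul aka).mul ((cst 1).add (aq.mul A1)))).add aka.sq).congr
    (fun i => by
      have := i.qn
      have h := i.avgD2 fun _ => 1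
      simp only [mul_one, avg_const i.hn] at h
      rw [h]; field_simp; ring) fun i => by ring

/-- second-order part of `avg D p²` -/
def U2 (i : In K) : ℝ := (avg (fun j => i.D j * i.p j ^ 2) - 2 * i.k * i.q ^ 2) / i.q ^ 3

lemma T2 : AP (K := K) U2 fun i => 6 * i.k + i.de :=
  ((ak.mul A3).add amu).congr (fun i => by
    have := i.qn
    rw [U2, i.avgD, In.ka, show avg (fun j => i.p j ^ 2) = i.q from rfl]; field_simp; ring)
    fun i => by ring

lemma T3 : AP (K := K) (fun i => avg (fun j => i.D j ^ 2 * i.p j ^ 2) / i.q ^ 3)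
    fun i => 10 * i.k ^ 2 :=
  (((ak.sq.mul A4).add ((((cst 2).mul ak).mul aka).mul ((cst 3).add (aq.mul A3)))).add aka.sq).congr
    (fun i => by
      have := i.qn
      rw [i.avgD2, show avg (fun j => i.p j ^ 2) = i.q from rfl]; field_simp; ring) fun i => by ring

lemma T4 : AP (K := K) (fun i => avg (fun j => i.D j * (i.p j * i.r j)) / i.q ^ 3)
    fun i => 4 * i.k :=
  ((ak.mul A5).add (aka.mul arh)).congr (fun i => by
    have := i.qn
    rw [i.avgD, In.rh, show avg (fun j => i.p j * i.r j) = R4 i.x from rfl]; field_simp)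
    fun i => by ring

lemma T5 : AP (K := K) (fun i => avg (fun j => i.D j ^ 2 * i.r j ^ 2) / i.q ^ 3) fun _ => 0 :=
  (((ak.sq.mul A7).add ((((cst 2).mul ak).mul (aq.mul aka)).mul A9)).add
    ((aq.mul aka).sq.mul A6)).congr (fun i => by rw [i.avgD2]; ring) fun i => by ring

/-- normalised `avg D p τ` -/
def HH (i : In K) : ℝ :=
  (avg (fun j => i.D j * i.p j) - i.al * avg fun j => i.D j * i.p j ^ 2) / i.q ^ 2

lemma HH_eq (i : In K) : HH i = i.k * i.b + i.q * (i.al * (i.mu - U2 i)) := by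
  have := i.qn
  rw [HH, U2, i.avgD i.p, In.b, In.ka, In.al, show avg i.p = bS i.x from rfl]; field_simp; ring

lemma T6 : AP (K := K) HH fun i => i.k * i.b :=
  ((ak.mul ab).add (aq.mul (aal.mul (amu.sub T2)))).congr HH_eq fun i => by ring

lemma T7 : ∃ g, AP (K := K) (fun i => HH i ^ 2 / i.q) g :=
  ⟨_, (((ak.sq.mul ab2).add (((cst 2).mul (ak.mul ab)).mul (aal.mul (amu.sub T2)))).add
    (aq.mul (aal.mul (amu.sub T2)).sq)).congr (fun i => by
      have := i.qn
      rw [HH_eq]; field_simp; ring) fun _ => rfl⟩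

end Crest.Agent.T157.Kb.Xd75

end
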