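import Mathlib

/-!
# Row 157, kernel estimates, part A (helper16)

Decreasing convex sequences, their convolutions, and renewal sequences with exponential memory.
-/

set_option autoImplicit false

noncomputable section

namespace Crest.Agent.T157.Cq.Kern16

open Finset Real

/-- nonnegative, decreasing, convex -/
structure CM (a : ℕ → ℝ) : Prop where
  nn : ∀ j, 0 ≤ a j
  dec : ∀ j, a (j + 1) ≤ a j
  cvx : ∀ j, a (j + 1) - a (j + 2) ≤ a j - a (j + 1)

theorem CM.anti {a : ℕ → ℝ} (h : CM a) : Antitone a := antitone_nat_of_succ_le h.dec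

theorem CM.danti {a : ℕ → ℝ} (h : CM a) : Antitone fun j => a j - a (j + 1) :=
  antitone_nat_of_succ_le h.cvx

theorem CM.avg {a : ℕ → ℝ} (h : CM a) (j : ℕ) : (j + 1) * a j ≤ ∑ i ∈ range (j + 1), a i := by
  have := card_nsmul_le_sum (range (j + 1)) a (a j) fun i hi =>
    h.anti (Nat.lt_succ_iff.1 (mem_range.1 hi))
  simpa using this

theorem CM.dle {a : ℕ → ℝ} (h : CM a) (j : ℕ) :
    (j + 1) * (j + 2) / 2 * (a j - a (j + 1)) ≤ ∑ i ∈ range (j + 1), a i := by
  have key : ∀ j : ℕ, (j + 1) * (j + 2) / 2 * (a j - a (j + 1)) + (j + 1) * a (j + 1) ≤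
      ∑ i ∈ range (j + 1), a i := by
    intro j
    induction j with
    | zero => simp
    | succ j ih =>
      rw [sum_range_succ]
      have h1 := h.cvx j
      have h2 : (0 : ℝ) ≤ (j + 1) * (j + 2) / 2 := by positivity
      have h3 := mul_le_mul_of_nonneg_left h1 h2
      push_cast
      nlinarith
  have h1 := key j
  have h2 : (0 : ℝ) ≤ (j + 1) * a (j + 1) := mul_nonneg (by positivity) (h.nn _)
  linarith

theorem cm_geom {p : ℝ} (h0 : 0 ≤ p) (h1 : p ≤ 1) : CM fun j => p ^ j := by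
  refine ⟨fun j => by positivity, fun j => pow_le_pow_of_le_one h0 h1 (by omega), fun j => ?_⟩
  have : 0 ≤ p ^ j * (1 - p) ^ 2 := by positivity
  simp only [pow_succ] at this ⊢
  nlinarith

theorem cheb {a b : ℕ → ℝ} (ha : Antitone a) (hb : Antitone b) (M : ℕ) :
    (∑ i ∈ range M, a i) * ∑ i ∈ range M, b i ≤ M * ∑ i ∈ range M, a i * b i := by
  have := ((ha.monovary hb).monovaryOn (range M : Finset ℕ)).sum_mul_sum_le_card_mul_sum
  simpa using this

theorem conv_le {a b : ℕ → ℝ} (ha : Antitone a) (hb : Antitone b) (m : ℕ) :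
    ∑ i ∈ range (m + 1), a (m - i) * b i ≤ ∑ i ∈ range (m + 1), a i * b i := by
  have h1 : 0 ≤ ∑ i ∈ range (m + 1), (a i - a (m - i)) * (b i - b (m - i)) := by
    refine sum_nonneg fun i _ => ?_
    rcases le_total i (m - i) with h | h
    · exact mul_nonneg (sub_nonneg.2 (ha h)) (sub_nonneg.2 (hb h))
    · exact mul_nonneg_of_nonpos_of_nonpos (sub_nonpos.2 (ha h)) (sub_nonpos.2 (hb h))
  have h2 : ∑ i ∈ range (m + 1), a (m - i) * b (m - i) = ∑ i ∈ range (m + 1), a i * b i :=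
    sum_flip fun i => a i * b i
  have h3 : ∑ i ∈ range (m + 1), a i * b (m - i) = ∑ i ∈ range (m + 1), a (m - i) * b i := by
    rw [← sum_flip fun i => a i * b (m - i)]
    refine sum_congr rfl fun i hi => ?_
    have : m - (m - i) = i := by have := mem_range.1 hi; omega
    rw [this]
  have h4 : ∑ i ∈ range (m + 1), (a i - a (m - i)) * (b i - b (m - i)) =
      ∑ i ∈ range (m + 1), a i * b i - ∑ i ∈ range (m + 1), a i * b (m - i) -
        ∑ i ∈ range (m + 1), a (m - i) * b i + ∑ i ∈ range (m + 1), a (m - i) * b (m - i) := by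
    rw [← sum_sub_distrib, ← sum_sub_distrib, ← sum_add_distrib]
    exact sum_congr rfl fun i _ => by ring
  linarith

theorem d_mul_sum {a b : ℕ → ℝ} {G : ℝ} (ha : CM a) (hb : CM b)
    (hG : ∀ M, ∑ i ∈ range M, a i * b i ≤ G) {s r : ℕ} (hr : r ≤ s + 1) :
    (s + 2) * ((a s - a (s + 1)) * ∑ i ∈ range r, b i) ≤ 2 * G := by
  have h1 : ∑ i ∈ range r, b i ≤ ∑ i ∈ range (s + 1), b i :=
    sum_le_sum_of_subset_of_nonneg (range_subset_range.2 hr) fun i _ _ => hb.nn i
  have h0 : 0 ≤ ∑ i ∈ range r, b i := sum_nonneg fun i _ => hb.nn i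
  have h2 := ha.dle s
  have h3 := cheb ha.anti hb.anti (s + 1)
  have h4 := hG (s + 1)
  have h5 : 0 ≤ ∑ i ∈ range (s + 1), a i := sum_nonneg fun i _ => ha.nn i
  have h6 := mul_le_mul h2 h1 h0 h5
  have h7 : (0 : ℝ) < s + 1 := by positivity
  push_cast at h3
  have h8 := mul_le_mul_of_nonneg_left h4 h7.le
  refine le_of_mul_le_mul_left ?_ h7
  nlinarith

theorem conv_step {a b : ℕ → ℝ} {G : ℝ} (ha : CM a) (hb : CM b)
    (hG : ∀ M, ∑ i ∈ range M, a i * b i ≤ G) (m : ℕ) :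
    m * |∑ i ∈ range (m + 1 + 1), a (m + 1 - i) * b i - ∑ i ∈ range (m + 1), a (m - i) * b i| ≤
      8 * G := by
  obtain ⟨p, s, hm, hps, hsp⟩ : ∃ p s : ℕ, m = p + s ∧ p ≤ s ∧ s ≤ p + 1 :=
    ⟨m / 2, m - m / 2, by omega, by omega, by omega⟩
  have G0 : 0 ≤ G := by simpa using hG 0
  have e1 : ∑ i ∈ range (m + 1 + 1), a (m + 1 - i) * b i =
      ∑ i ∈ range (p + 1), a (m - i + 1) * b i + (∑ i ∈ range s, a (s - 1 - i) * b (p + 1 + i + 1) +
        a s * b (p + 1)) := by
    rw [show m + 1 + 1 = (p + 1) + (s + 1) by omega, sum_range_add, sum_range_succ' _ s]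
    congr 1
    · refine sum_congr rfl fun i hi => ?_
      have : m + 1 - i = m - i + 1 := by have := mem_range.1 hi; omega
      rw [this]
    · congr 1
      · refine sum_congr rfl fun i hi => ?_
        have : m + 1 - (p + 1 + (i + 1)) = s - 1 - i := by omega
        rw [this, add_assoc (p + 1)]
      · have : m + 1 - (p + 1 + 0) = s := by omega
        rw [this]
  have e2 : ∑ i ∈ range (m + 1), a (m - i) * b i =
      ∑ i ∈ range (p + 1), a (m - i) * b i + ∑ i ∈ range s, a (s - 1 - i) * b (p + 1 + i) := by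
    rw [show m + 1 = (p + 1) + s by omega, sum_range_add]
    congr 1
    refine sum_congr rfl fun i hi => ?_
    have : m - (p + 1 + i) = s - 1 - i := by omega
    rw [this]
  set T1 := ∑ i ∈ range (p + 1), (a (m - i) - a (m - i + 1)) * b i with hT1
  set T3 := ∑ i ∈ range s, a (s - 1 - i) * (b (p + 1 + i) - b (p + 1 + i + 1)) with hT3
  have e3 : ∑ i ∈ range (m + 1 + 1), a (m + 1 - i) * b i - ∑ i ∈ range (m + 1), a (m - i) * b i =
      a s * b (p + 1) - T1 - T3 := by
    rw [e1, e2, hT1, hT3]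
    simp only [sub_mul, mul_sub, sum_sub_distrib]
    ring
  have t10 : 0 ≤ T1 := sum_nonneg fun i _ => mul_nonneg (sub_nonneg.2 (ha.dec _)) (hb.nn _)
  have t30 : 0 ≤ T3 := sum_nonneg fun i _ => mul_nonneg (ha.nn _) (sub_nonneg.2 (hb.dec _))
  have t20 : 0 ≤ a s * b (p + 1) := mul_nonneg (ha.nn _) (hb.nn _)
  have t1 : T1 ≤ (a s - a (s + 1)) * ∑ i ∈ range (p + 1), b i := by
    rw [mul_sum]
    refine sum_le_sum fun i hi => mul_le_mul_of_nonneg_right ?_ (hb.nn i)
    exact ha.danti (show s ≤ m - i by have := mem_range.1 hi; omega)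
  have t3 : T3 ≤ (b (p + 1) - b (p + 1 + 1)) * ∑ i ∈ range s, a i := by
    rw [← sum_range_reflect a s, mul_sum]
    refine sum_le_sum fun i _ => ?_
    rw [mul_comm]
    exact mul_le_mul_of_nonneg_right (hb.danti (show p + 1 ≤ p + 1 + i by omega)) (ha.nn _)
  have t1' := d_mul_sum ha hb hG (show p + 1 ≤ s + 1 by omega)
  have t3' := d_mul_sum hb ha (fun M => by simpa only [mul_comm] using hG M)
    (show s ≤ p + 1 + 1 by omega)
  have t2 : (p + 1) * (a s * b (p + 1)) ≤ G := by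
    refine le_trans ?_ (hG (p + 1))
    have := card_nsmul_le_sum (range (p + 1)) (fun i => a i * b i) (a s * b (p + 1)) fun i hi =>
      mul_le_mul (ha.anti (by have := mem_range.1 hi; omega))
        (hb.anti (by have := mem_range.1 hi; omega)) (hb.nn _) (ha.nn _)
    simpa using this
  have m1 : (m : ℝ) ≤ 2 * (s + 2) := by
    have : m ≤ 2 * (s + 2) := by omega
    exact_mod_cast this
  have m2 : (m : ℝ) ≤ 2 * (p + 1) := by
    have : m ≤ 2 * (p + 1) := by omega
    exact_mod_cast this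
  have m0 : (0 : ℝ) ≤ m := by positivity
  push_cast at t3'
  have u1 : m * T1 ≤ 4 * G := by
    have := mul_le_mul m1 t1 t10 (by positivity)
    linarith
  have u3 : m * T3 ≤ 4 * G := by
    have := mul_le_mul (show (m : ℝ) ≤ 2 * (p + 1 + 2) by linarith) t3 t30 (by positivity)
    linarith
  have u2 : m * (a s * b (p + 1)) ≤ 2 * G := by
    have := mul_le_mul_of_nonneg_right m2 t20
    linarith
  rw [e3, ← abs_of_nonneg m0, ← abs_mul, abs_le]
  have := mul_nonneg m0 t10
  have := mul_nonneg m0 t30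
  have := mul_nonneg m0 t20
  constructor <;> nlinarith

theorem tele (f : ℕ → ℝ) (a l : ℕ) (δ : ℝ) (h : ∀ j, a ≤ j → j < a + l → |f (j + 1) - f j| ≤ δ) :
    |f (a + l) - f a| ≤ l * δ := by
  induction l with
  | zero => simp
  | succ l ih =>
    have h1 := ih fun j hj hj' => h j hj (by omega)
    have h2 := h (a + l) (by omega) (by omega)
    have h3 := abs_sub_le (f (a + l + 1)) (f (a + l)) (f a)
    rw [← add_assoc]
    push_cast
    linarith

theorem geom_le {p : ℝ} (h0 : 0 ≤ p) (h1 : p < 1) (M : ℕ) :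
    ∑ i ∈ range M, p ^ i ≤ (1 - p)⁻¹ := by
  rw [← tsum_geometric_of_lt_one h0 h1]
  exact (summable_geometric_of_lt_one h0 h1).sum_le_tsum _ fun i _ => by positivity

theorem geom_ge {δ : ℝ} (h0 : 0 ≤ δ) (h1 : δ ≤ 1) (M : ℕ) :
    (M : ℝ) ≤ (∑ i ∈ range M, (1 - δ) ^ i) * (1 + M * δ) := by
  have h2 := geom_sum_mul_neg (1 - δ) M
  have h3 := card_nsmul_le_sum (range M) (fun i => (1 - δ) ^ i) ((1 - δ) ^ M) fun i hi =>
    pow_le_pow_of_le_one (by linarith) (by linarith) (mem_range.1 hi).le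
  simp only [card_range, nsmul_eq_mul, sub_sub_cancel] at h2 h3
  have : (∑ i ∈ range M, (1 - δ) ^ i) * (M * δ) = M * (1 - (1 - δ) ^ M) := by rw [← h2]; ring
  nlinarith

theorem pow_le_exp {x y : ℝ} (hx : 0 ≤ x) {m : ℕ} (h : m * x ≤ y) : (1 + x) ^ m ≤ exp y := by
  have h1 : 1 + x ≤ exp x := by linarith [add_one_le_exp x]
  calc (1 + x) ^ m ≤ exp x ^ m := pow_le_pow_left₀ (by linarith) h1 m
    _ = exp (m * x) := (exp_nat_mul x m).symm
    _ ≤ exp y := exp_le_exp.2 h

theorem exp_half_le : exp (1 / 2) ≤ 2 := by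
  have h : exp (1 / 2) ^ 2 ≤ 2 ^ 2 := by
    rw [← exp_nat_mul]
    have := exp_one_lt_d9
    norm_num
    linarith
  exact (pow_le_pow_iff_left₀ (exp_pos _).le (by norm_num) two_ne_zero).1 h

theorem exp_two_le : exp 2 ≤ 8 := by
  have h : exp 2 = exp 1 ^ 2 := by rw [← exp_nat_mul]; norm_num
  have := exp_one_lt_d9
  have := exp_pos 1
  rw [h]; nlinarith

/-! ### moments of a contraction -/

section op
variable {V : Type*} [AddCommGroup V] (ip : V → V → ℝ) (B : V → V)

theorem cm_of_op (hs : ∀ x y, ip x y = ip y x) (hsub : ∀ x y z, ip x (y - z) = ip x y - ip x z)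
    (hB : ∀ x y, B (x - y) = B x - B y) (hsym : ∀ x y, ip x (B y) = ip (B x) y)
    (h0 : ∀ x, 0 ≤ ip x (B x)) (h1 : ∀ x, ip x (B x) ≤ ip x x) (e : V) :
    CM fun m => ip e (B^[m] e) := by
  have hsub' : ∀ x y z, ip (y - z) x = ip y x - ip z x := fun x y z => by
    rw [hs, hsub, hs x, hs x]
  have two : ∀ m e, ip e (B^[m + 2] e) = ip (B e) (B^[m] (B e)) := fun m e => by
    rw [Function.iterate_succ_apply', hsym, Function.iterate_succ_apply]
  have hit : ∀ m x y, B^[m] (x - y) = B^[m] x - B^[m] y := fun m => by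
    induction m with
    | zero => simp
    | succ m ih => intro x y; simp only [Function.iterate_succ_apply', ih, hB]
  have N : ∀ m e, 0 ≤ ip e (B^[m] e) := fun m => by
    induction m using Nat.twoStepInduction with
    | zero => exact fun e => (h0 e).trans (h1 e)
    | one => exact h0
    | more m ih _ => intro e; rw [two]; exact ih _
  have D : ∀ m e, ip e (B^[m + 1] e) ≤ ip e (B^[m] e) := fun m => by
    induction m using Nat.twoStepInduction with
    | zero => exact h1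
    | one =>
      intro e
      have a1 := h1 (B e)
      have a2 := h0 (e - B e)
      rw [hB, hsub, hsub', hsub'] at a2
      have a3 := hsym e (B e)
      change ip e (B (B e)) ≤ ip e (B e)
      linarith
    | more m ih _ => intro e; rw [show m + 2 + 1 = m + 1 + 2 by ring, two, two]; exact ih _
  refine ⟨fun m => N m e, fun m => D m e, fun m => ?_⟩
  have a1 := N m (e - B e)
  rw [hit, hsub, hsub', hsub', ← two, ← hsym, ← Function.iterate_succ_apply,
    ← Function.iterate_succ_apply' B] at a1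
  simp only [Nat.succ_eq_add_one] at a1
  linarith

end op

/-! ### renewal sequences -/

section ren
variable {ι : Type*} [Fintype ι]

/-- hidden state -/
def hid (p : ℝ) (ρ : ℕ → ℝ) : ℕ → ℝ
  | 0 => 0
  | j + 1 => p * hid p ρ j + ρ j

theorem hid_succ (p : ℝ) (ρ : ℕ → ℝ) (j : ℕ) :
    hid p ρ (j + 1) = ∑ i ∈ range (j + 1), p ^ (j - i) * ρ i := by
  induction j with
  | zero => simp [hid]
  | succ j ih =>
    rw [hid, ih, sum_range_succ _ (j + 1), mul_sum]
    congr 1
    · refine sum_congr rfl fun i hi => ?_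
      have : j + 1 - i = j - i + 1 := by have := mem_range.1 hi; omega
      rw [this, pow_succ]; ring
    · simp

theorem hid_nonneg {p : ℝ} {ρ : ℕ → ℝ} (hp : 0 ≤ p) (hρ : ∀ j, 0 ≤ ρ j) (j : ℕ) :
    0 ≤ hid p ρ j := by
  induction j with
  | zero => simp [hid]
  | succ j ih => exact add_nonneg (mul_nonneg hp ih) (hρ j)

/-- the renewal equation -/
def Ren (q : ι → ℝ) (c σ κ : ℝ) (ρ : ℕ → ℝ) : Prop :=
  ρ 0 = κ ∧ ∀ j, ρ (j + 1) = c * ρ j + σ * ∑ k, (q k * hid (q k) ρ j + ρ j)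

theorem ren_of {q : ι → ℝ} {c σ κ : ℝ} {ρ : ℕ → ℝ} (h0 : ρ 0 = κ) (h : ∀ j, ρ (j + 1) =
    c * ρ j + σ * ∑ i ∈ range (j + 1), (∑ k, q k ^ (j - i)) * ρ i) : Ren q c σ κ ρ := by
  refine ⟨h0, fun j => ?_⟩
  rw [h]
  congr 2
  simp only [sum_mul]
  rw [sum_comm]
  exact sum_congr rfl fun k _ => (hid_succ (q k) ρ j).symm

theorem Ren.cm {q : ι → ℝ} {c σ κ Y : ℝ} {ρ : ℕ → ℝ} (h : Ren q c σ κ ρ) (hq : ∀ k, 0 ≤ q k)
    (hqY : ∀ k, q k < Y) (hY : 0 < Y) (hc : 0 ≤ c) (hσ : 0 ≤ σ) (hκ : 0 < κ)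
    (hg : c + σ * ∑ k, Y / (Y - q k) ≤ Y) : CM fun j => ρ j / Y ^ j := by
  let ip : ℝ × (ι → ℝ) → ℝ × (ι → ℝ) → ℝ := fun x y => x.1 * y.1 + σ * ∑ k, q k * x.2 k * y.2 k
  let B : ℝ × (ι → ℝ) → ℝ × (ι → ℝ) := fun x =>
    ((c * x.1 + σ * ∑ k, (q k * x.2 k + x.1)) / Y, fun k => (q k * x.2 k + x.1) / Y)
  have form : ∀ x y, ip x (B y) =
      (c * x.1 * y.1 + σ * ∑ k, (q k * x.2 k + x.1) * (q k * y.2 k + y.1)) / Y := fun x y => by
    have : ∑ k, (q k * x.2 k + x.1) * (q k * y.2 k + y.1) = x.1 * ∑ k, (q k * y.2 k + y.1) +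
        Y * ∑ k, q k * x.2 k * ((q k * y.2 k + y.1) / Y) := by
      rw [mul_sum, mul_sum, ← sum_add_distrib]
      exact sum_congr rfl fun k _ => by field_simp; ring
    simp only [ip, B]
    rw [this]
    field_simp
    ring
  have hs : ∀ x y, ip x y = ip y x := fun x y => by
    simp only [ip]
    rw [mul_comm x.1]
    congr 2
    exact sum_congr rfl fun k _ => by ring
  have key := cm_of_op ip B hs (fun x y z => by
      simp only [ip, Prod.fst_sub, Prod.snd_sub, Pi.sub_apply, mul_sub, sum_sub_distrib]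
      ring) (fun x y => by
      have : ∑ k, (q k * (x.2 k - y.2 k) + (x.1 - y.1)) =
          ∑ k, (q k * x.2 k + x.1) - ∑ k, (q k * y.2 k + y.1) := by
        rw [← sum_sub_distrib]
        exact sum_congr rfl fun k _ => by ring
      ext
      · simp only [B, Prod.fst_sub, Prod.snd_sub, Pi.sub_apply, this]
        ring
      · simp only [B, Prod.fst_sub, Prod.snd_sub, Pi.sub_apply]
        ring) (fun x y => by
      rw [hs (B x), form, form]
      congr 2
      · ring
      · congr 1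
        exact sum_congr rfl fun k _ => by ring) (fun x => by
      rw [form]
      refine div_nonneg (add_nonneg ?_ (mul_nonneg hσ (sum_nonneg fun k _ => mul_self_nonneg _)))
        hY.le
      rw [mul_assoc]
      exact mul_nonneg hc (mul_self_nonneg _)) (fun x => by
      rw [form, div_le_iff₀ hY]
      have h1 : ∑ k, (q k * x.2 k + x.1) * (q k * x.2 k + x.1) ≤
          x.1 ^ 2 * ∑ k, Y / (Y - q k) + Y * ∑ k, q k * x.2 k * x.2 k := by
        rw [mul_sum, mul_sum, ← sum_add_distrib]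
        refine sum_le_sum fun k _ => ?_
        have h2 : 0 < Y - q k := sub_pos.2 (hqY k)
        have h3 : 0 ≤ q k / (Y - q k) * (x.1 - (Y - q k) * x.2 k) ^ 2 :=
          mul_nonneg (div_nonneg (hq k) h2.le) (sq_nonneg _)
        have h4 : x.1 ^ 2 * (Y / (Y - q k)) + Y * (q k * x.2 k * x.2 k) -
            (q k * x.2 k + x.1) * (q k * x.2 k + x.1) =
            q k / (Y - q k) * (x.1 - (Y - q k) * x.2 k) ^ 2 := by
          field_simp
          ring
        linarith
      have h2 := mul_le_mul_of_nonneg_left h1 hσ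
      have h3 := mul_le_mul_of_nonneg_left hg (sq_nonneg x.1)
      simp only [ip]
      nlinarith) (κ, 0)
  have st : ∀ j, B^[j] (κ, 0) = (ρ j / Y ^ j, fun k => hid (q k) ρ j / Y ^ j) := fun j => by
    induction j with
    | zero => ext <;> simp [h.1, hid]
    | succ j ih =>
      rw [Function.iterate_succ_apply', ih]
      have : ∑ k, (q k * (hid (q k) ρ j / Y ^ j) + ρ j / Y ^ j) =
          (∑ k, (q k * hid (q k) ρ j + ρ j)) / Y ^ j := by
        rw [sum_div]
        exact sum_congr rfl fun k _ => by ring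
      ext
      · simp only [B, this, h.2 j, pow_succ]
        field_simp
      · simp only [B, hid, pow_succ]
        field_simp
  have ev : ∀ j, ip (κ, 0) (B^[j] (κ, 0)) = κ * (ρ j / Y ^ j) := fun j => by
    rw [st]; simp [ip]
  simp only [ev] at key
  refine ⟨fun j => nonneg_of_mul_nonneg_right ?_ hκ, fun j => le_of_mul_le_mul_left (key.dec j) hκ,
    fun j => le_of_mul_le_mul_left ?_ hκ⟩
  · exact key.nn j
  · have := key.cvx j
    linarith

/-- the conserved functional -/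
def phi (q : ι → ℝ) (σ Y : ℝ) (ρ : ℕ → ℝ) (j : ℕ) : ℝ :=
  ρ j + σ * ∑ k, q k / (Y - q k) * hid (q k) ρ j

theorem Ren.gen {q : ι → ℝ} {c σ κ Y : ℝ} {ρ : ℕ → ℝ} (h : Ren q c σ κ ρ) (hqY : ∀ k, q k < Y)
    (hY : 0 < Y) (M : ℕ) : κ = (1 - (c + σ * ∑ k, Y / (Y - q k)) / Y) *
      ∑ j ∈ range M, ρ j / Y ^ j + phi q σ Y ρ M / Y ^ M := by
  induction M with
  | zero => simp [phi, hid, h.1]
  | succ M ih =>
    have h1 : ∑ k, (q k * hid (q k) ρ M + ρ M) + ∑ k, q k / (Y - q k) * hid (q k) ρ (M + 1) =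
        (∑ k, Y / (Y - q k)) * ρ M + Y * ∑ k, q k / (Y - q k) * hid (q k) ρ M := by
      rw [sum_mul, mul_sum, ← sum_add_distrib, ← sum_add_distrib]
      refine sum_congr rfl fun k _ => ?_
      have h2 : Y - q k ≠ 0 := (sub_pos.2 (hqY k)).ne'
      rw [hid]
      field_simp
      ring
    have h2 : phi q σ Y ρ (M + 1) = (c + σ * ∑ k, Y / (Y - q k)) * ρ M +
        Y * (phi q σ Y ρ M - ρ M) := by
      simp only [phi]
      rw [h.2 M]
      linear_combination σ * h1
    rw [sum_range_succ, h2, ih, pow_succ]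
    field_simp
    ring

theorem phi_nonneg {q : ι → ℝ} {σ Y : ℝ} {ρ : ℕ → ℝ} (hq : ∀ k, 0 ≤ q k) (hqY : ∀ k, q k < Y)
    (hσ : 0 ≤ σ) (hρ : ∀ j, 0 ≤ ρ j) (j : ℕ) : 0 ≤ phi q σ Y ρ j :=
  add_nonneg (hρ j) (mul_nonneg hσ (sum_nonneg fun k _ =>
    mul_nonneg (div_nonneg (hq k) (sub_pos.2 (hqY k)).le) (hid_nonneg (hq k) hρ j)))

theorem phi_mono {q : ι → ℝ} {σ X Y : ℝ} {ρ : ℕ → ℝ} (hq : ∀ k, 0 ≤ q k) (hqX : ∀ k, q k < X)
    (hXY : X ≤ Y) (hσ : 0 ≤ σ) (hρ : ∀ j, 0 ≤ ρ j) (j : ℕ) : phi q σ Y ρ j ≤ phi q σ X ρ j := by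
  refine add_le_add_right (mul_le_mul_of_nonneg_left (sum_le_sum fun k _ => ?_) hσ) _
  refine mul_le_mul_of_nonneg_right ?_ (hid_nonneg (hq k) hρ j)
  exact div_le_div_of_nonneg_left (hq k) (sub_pos.2 (hqX k)) (by linarith)

end ren

end Crest.Agent.T157.Cq.Kern16

end
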