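import Crest.Agent.T157.SpDef_87

/-!
# Row 157: `Sp.GapStmt` (helper15)

Deterministic arithmetic on good spectra.
-/

set_option autoImplicit false

noncomputable section

namespace Crest.Agent.T157.Sp

open Filter Topology Finset Real
open Crest.Agent.T157.St Crest.Agent.T157.Ed

namespace Gap15

theorem sx_cube (n : ℕ) : (sx n ^ 2) ^ 3 = n := by
  unfold sx
  rw [← pow_mul, ← Real.rpow_natCast, ← Real.rpow_mul (Nat.cast_nonneg n)]
  norm_num

theorem ten_le {n : ℕ} (hn : 1000 ≤ n) : 10 ≤ sx n ^ 2 := by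
  by_contra h
  push Not at h
  have h0 : 0 ≤ sx n ^ 2 := by positivity
  have h1 : (sx n ^ 2) ^ 3 < 10 ^ 3 := pow_lt_pow_left₀ h h0 (by norm_num)
  rw [sx_cube] at h1
  have : (1000 : ℝ) ≤ n := by exact_mod_cast hn
  linarith

/-- the constant `ζ(4/3)` -/
def zt : ℝ := ∑' k : ℕ, (((k : ℝ) + 1) ^ (4 / 3 : ℝ))⁻¹

theorem zt_summable : Summable fun k : ℕ => (((k : ℝ) + 1) ^ (4 / 3 : ℝ))⁻¹ := by
  have h := (Real.summable_nat_rpow_inv (p := 4 / 3)).2 (by norm_num)
  have := (summable_nat_add_iff 1).2 h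
  simpa using this

theorem zt_nonneg : 0 ≤ zt := tsum_nonneg fun k => by positivity

theorem sum_le_zt (n : ℕ) : ∑ k : Fin n, ((((k : ℕ) : ℝ) + 1) ^ (4 / 3 : ℝ))⁻¹ ≤ zt := by
  rw [Fin.sum_univ_eq_sum_range (fun k : ℕ => (((k : ℝ) + 1) ^ (4 / 3 : ℝ))⁻¹) n]
  exact zt_summable.sum_le_tsum _ fun k _ => by positivity

/-- the low modes -/
theorem low {n : ℕ} {η : ℕ → ℝ} {t L w C s : ℝ} (h : Gd n η t L w C) (ht : t ^ 3 = n)
    (hs : 1 ≤ s) (hst : 10 * s ≤ t) (f : Fin n → ℝ) (hf : ∀ k, 0 ≤ f k) (a : ℝ) (ha : 0 ≤ a)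
    (hfa : ∀ k : Fin n, η k ≤ 60 * s ^ 2 + L → a ≤ f k) : s ^ 3 / 2 * a ≤ ∑ k, f k := by
  have hs0 : 0 ≤ s := by linarith
  have hs3 : 1 ≤ s ^ 3 := one_le_pow₀ hs
  set m := ⌊s ^ 3⌋₊ with hm
  have hm1 : (m : ℝ) ≤ s ^ 3 := Nat.floor_le (by positivity)
  have hm2 : s ^ 3 < m + 1 := Nat.lt_floor_add_one _
  have hm0 : 1 ≤ m := by
    rw [hm]; exact Nat.le_floor (by simpa using hs3)
  have hm0' : (1 : ℝ) ≤ m := by exact_mod_cast hm0
  have hn : 8 * (m : ℝ) ≤ n := by
    have : (10 * s) ^ 3 ≤ t ^ 3 := pow_le_pow_left₀ (by positivity) hst 3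
    nlinarith
  have hn' : 8 * m ≤ n := by exact_mod_cast hn
  have hmn : m ≤ n := by omega
  have key : ∀ k : Fin n, (k : ℕ) < m → a ≤ f k := by
    intro k hk
    apply hfa
    have h1 := h.hi k (by omega)
    have h2 : ((k : ℕ) : ℝ) + 1 ≤ s ^ 3 := by
      have : (k : ℕ) + 1 ≤ m := hk
      have : ((k : ℕ) : ℝ) + 1 ≤ m := by exact_mod_cast this
      linarith
    have h3 : (((k : ℕ) : ℝ) + 1) ^ (2 / 3 : ℝ) ≤ (s ^ 3) ^ (2 / 3 : ℝ) :=
      Real.rpow_le_rpow (by positivity) h2 (by norm_num)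
    have h4 : (s ^ 3) ^ (2 / 3 : ℝ) = s ^ 2 := by
      rw [← Real.rpow_natCast, ← Real.rpow_mul hs0, ← Real.rpow_natCast]
      norm_num
    rw [h4] at h3
    linarith
  have hcard : (univ.filter fun k : Fin n => (k : ℕ) < m).card = m := by
    rw [Fin.card_filter_val_lt]; exact min_eq_right hmn
  calc s ^ 3 / 2 * a ≤ (m : ℝ) * a := by
        apply mul_le_mul_of_nonneg_right _ ha; linarith
    _ = ∑ _k ∈ univ.filter fun k : Fin n => (k : ℕ) < m, a := by
        rw [sum_const, hcard, nsmul_eq_mul]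
    _ ≤ ∑ k ∈ univ.filter fun k : Fin n => (k : ℕ) < m, f k :=
        sum_le_sum fun k hk => key k (mem_filter.1 hk).2
    _ ≤ ∑ k, f k := sum_le_sum_of_subset_of_nonneg (filter_subset _ _) fun k _ _ => hf k

theorem min_cube {v : ℝ} (t : ℝ) (hv : 0 ≤ v) :
    min (v * √v) (t ^ 3) ≤ (min √v t) ^ 3 := by
  have h : v * √v = √v ^ 3 := by
    have := Real.mul_self_sqrt hv
    calc v * √v = (√v * √v) * √v := by rw [this]
      _ = √v ^ 3 := by ring
  rw [h]
  rcases le_total √v t with h1 | h1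
  · rw [min_eq_left h1]; exact min_le_left _ _
  · rw [min_eq_right h1]; exact min_le_right _ _

theorem s_facts {v t : ℝ} (hv : 100 ≤ v) (ht : 10 ≤ t) :
    1 ≤ min √v t / 10 ∧ 10 * (min √v t / 10) ≤ t ∧ (min √v t / 10) ^ 2 ≤ v / 100 := by
  have h1 : 10 ≤ √v := by
    apply Real.le_sqrt_of_sq_le; linarith
  have h2 : 10 ≤ min √v t := le_min h1 ht
  refine ⟨by linarith, by have := min_le_right √v t; linarith, ?_⟩
  have h3 := min_le_left √v t
  have h4 : (min √v t) ^ 2 ≤ √v ^ 2 := pow_le_pow_left₀ (by linarith) h3 2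
  rw [Real.sq_sqrt (by linarith)] at h4
  rw [div_pow]; linarith

/-- the one-mode estimates -/
theorem mode {x w r e L : ℝ} (hL : 0 ≤ L) (hw : 2 * L + 1 ≤ w) (hx : -L ≤ x)
    (hr : 4 * L + 2 * w + 200 ≤ r) (he0 : 0 ≤ e) (he : e ≤ 1 / 2) :
    0 ≤ (1 / ((1 - e) * r + x)) ^ 2 * (r ^ 2 * (1 / (w + x)) + r) ∧
    (1 / ((1 - e) * r + x)) ^ 2 * (r ^ 2 * (1 / (w + x)) + r) ≤ 20 * (1 / (w + x)) ∧
    1 / (w + x) + (1 / ((1 - e) * r + x)) ^ 2 * (e * r ^ 2) * (1 / (w + x)) ≤
      (1 / ((1 - e) * r + x)) ^ 2 * (r ^ 2 * (1 / (w + x)) + r) + 1 / ((1 - e) * r + x) := by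
  have hr0 : 0 < r := by linarith
  have hy : 0 < w + x := by linarith
  have hw' : r / 2 ≤ (1 - e) * r := by nlinarith
  have hz : r / 4 ≤ (1 - e) * r + x := by linarith
  have hz0 : 0 < (1 - e) * r + x := by linarith
  have hyz : w + x ≤ (1 - e) * r + x := by linarith
  set y := w + x with hyd
  set z := (1 - e) * r + x with hzd
  have hp : 0 < 1 / z := by positivity
  have hq : 0 < 1 / y := by positivity
  have h1 : 1 / z * r ≤ 4 := by
    rw [div_mul_eq_mul_div, div_le_iff₀ hz0]; linarith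
  have h2 : 1 / z ≤ 1 / y := one_div_le_one_div_of_le hy hyz
  have h10 : 0 ≤ 1 / z * r := by positivity
  refine ⟨by positivity, ?_, ?_⟩
  · have h3 : (1 / z * r) ^ 2 ≤ 4 ^ 2 := pow_le_pow_left₀ h10 h1 2
    have h4 : (1 / z * r) ^ 2 * (1 / y) ≤ 16 * (1 / y) := by
      apply mul_le_mul_of_nonneg_right _ hq.le; linarith
    have h5 : (1 / z * r) * (1 / z) ≤ 4 * (1 / y) := mul_le_mul h1 h2 hp.le (by norm_num)
    calc (1 / z) ^ 2 * (r ^ 2 * (1 / y) + r)
        = (1 / z * r) ^ 2 * (1 / y) + (1 / z * r) * (1 / z) := by ring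
      _ ≤ 20 * (1 / y) := by linarith
  · set u := (1 - e) * r - w with hu
    have hzu : z = u + y := by rw [hzd, hu, hyd]; ring
    have hu0 : 0 ≤ u := by linarith
    have hu1 : u ≤ (1 - e) * r := by linarith
    have hu2 : u ^ 2 ≤ ((1 - e) * r) ^ 2 := pow_le_pow_left₀ hu0 hu1 2
    have hu3 : e * r ^ 2 ≤ r ^ 2 - u ^ 2 := by
      have : ((1 - e) * r) ^ 2 ≤ (1 - e) * r ^ 2 := by
        have : (1 - e) ^ 2 ≤ 1 - e := by nlinarith
        rw [mul_pow]; exact mul_le_mul_of_nonneg_right this (by positivity)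
      linarith
    have hid : (1 / z) ^ 2 * (r ^ 2 * (1 / y) + r) + 1 / z - 1 / y =
        (1 / z) ^ 2 * (r ^ 2 - u ^ 2) * (1 / y) + (1 / z) ^ 2 * (r - u) := by
      have hz' : u + y ≠ 0 := by rw [← hzu]; exact hz0.ne'
      rw [hzu]; field_simp; ring
    have h6 : (1 / z) ^ 2 * (e * r ^ 2) * (1 / y) ≤ (1 / z) ^ 2 * (r ^ 2 - u ^ 2) * (1 / y) := by
      apply mul_le_mul_of_nonneg_right _ hq.le
      exact mul_le_mul_of_nonneg_left hu3 (by positivity)
    have h7 : 0 ≤ (1 / z) ^ 2 * (r - u) := by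
      apply mul_nonneg (by positivity); nlinarith
    linarith

end Gap15

open Gap15

theorem gapStmt : GapStmt := by
  intro L C w hL hw
  set A : ℝ := 60 + L + w with hA
  have hA1 : 1 ≤ A := by linarith
  have hz := zt_nonneg
  have hsw : 0 ≤ |C| * √w := by positivity
  refine ⟨1 / (36000 * A), 400 * 256 ^ 2 * zt + 40 + |C| * √w, 4 * L + 2 * w + 200,
    by positivity, by positivity, by linarith, ?_⟩
  filter_upwards [eventually_ge_atTop 1000] with n hn η h
  have ht := ten_le hn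
  have ht3 := sx_cube n
  set t := sx n ^ 2 with htd
  have hlo : ∀ k : Fin n, (((k : ℕ) : ℝ) + 1) ^ (2 / 3 : ℝ) / 256 - L ≤ η k := fun k => h.lo k k.2
  have hlo' : ∀ k : Fin n, -L ≤ η k := fun k => by
    have h1 := hlo k
    have h2 : 0 ≤ (((k : ℕ) : ℝ) + 1) ^ (2 / 3 : ℝ) / 256 := by positivity
    linarith
  refine ⟨fun i j r e hr he0 he => ?_, fun v hv => ?_⟩
  · have hmode := fun k : Fin n => mode hL hw (hlo' k) hr he0 he
    have hr0 : 0 < r := by linarith
    have hy1 : ∀ k : Fin n, 1 / (w + η k) ≤ 1 := fun k => by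
      have := hlo' k
      rw [div_le_one (by linarith)]; linarith
    set a : Fin n → ℝ := fun k => cw n η ((1 - e) * r) k ^ 2 * (r ^ 2 * cw n η w k + r) with ha
    have ha0 : ∀ k, 0 ≤ a k := fun k => (hmode k).1
    have ha1 : ∀ k, a k ≤ 20 * (1 / (w + η k)) := fun k => (hmode k).2.1
    have ha2 : ∀ k, a k ≤ 20 := fun k => by have := ha1 k; have := hy1 k; linarith
    constructor
    · obtain ⟨hs1, hs2, hs3⟩ := s_facts (v := r) (by linarith) ht
      set s := min √r t / 10 with hsd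
      have hs0 : 0 < s := by linarith
      have hlow := low h ht3 hs1 hs2
        (fun k => (1 / ((1 - e) * r + η k)) ^ 2 * (e * r ^ 2) * (1 / (w + η k)))
        (fun k => by
          have := hlo' k
          have : 0 < w + η k := by linarith
          positivity) (e / (4 * A * s ^ 2)) (by positivity) (fun k hk => by
          have h0 := hlo' k
          have hy : 0 < w + η k := by linarith
          have hw' : r / 2 ≤ (1 - e) * r := by nlinarith
          have hz0 : 0 < (1 - e) * r + η k := by linarith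
          have hz1 : (1 - e) * r + η k ≤ 2 * r := by nlinarith
          have hs2' : 1 ≤ s ^ 2 := one_le_pow₀ hs1
          have hy1 : w + η k ≤ A * s ^ 2 := by rw [hA]; nlinarith
          have h1 : 1 / (2 * r) ≤ 1 / ((1 - e) * r + η k) := one_div_le_one_div_of_le hz0 hz1
          have h2 : 1 / (A * s ^ 2) ≤ 1 / (w + η k) := one_div_le_one_div_of_le hy hy1
          have h3 : (1 / (2 * r)) ^ 2 ≤ (1 / ((1 - e) * r + η k)) ^ 2 :=
            pow_le_pow_left₀ (by positivity) h1 2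
          calc e / (4 * A * s ^ 2) = (1 / (2 * r)) ^ 2 * (e * r ^ 2) * (1 / (A * s ^ 2)) := by
                field_simp; norm_num
            _ ≤ _ := by
                apply mul_le_mul _ h2 (by positivity) (by positivity)
                exact mul_le_mul_of_nonneg_right h3 (by positivity))
      have hlow' : 1 / (36000 * A) * e * min √r t ≤ s ^ 3 / 2 * (e / (4 * A * s ^ 2)) := by
        have h1 : min √r t = 10 * s := by rw [hsd]; ring
        have h2 : s ^ 3 / 2 * (e / (4 * A * s ^ 2)) = e * s / A / 8 := by field_simp; ring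
        have h3 : 1 / (36000 * A) * e * (10 * s) = e * s / A / 3600 := by field_simp; ring
        have h4 : 0 ≤ e * s / A := by positivity
        rw [h1, h2, h3]; linarith
      have hsum : ∑ k : Fin n, 1 / (w + η k) + ∑ k : Fin n,
          (1 / ((1 - e) * r + η k)) ^ 2 * (e * r ^ 2) * (1 / (w + η k)) ≤
          ∑ k, a k + ∑ k, cw n η ((1 - e) * r) k := by
        rw [← sum_add_distrib, ← sum_add_distrib]
        exact sum_le_sum fun k _ => (hmode k).2.2
      have hdn := h.dn w le_rfl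
      unfold Sr at hdn
      rw [← Fin.sum_univ_eq_sum_range (fun k : ℕ => 1 / (w + η k)) n] at hdn
      have hC : C * √w ≤ |C| * √w := mul_le_mul_of_nonneg_right (le_abs_self C) (by positivity)
      have he1 : ∑ k, a k ≤ ∑ k ∈ univ.erase i, a k + 20 := by
        rw [← sum_erase_add _ _ (mem_univ i)]; linarith [ha2 i]
      have he2 : ∑ k ∈ univ.erase i, a k ≤ ∑ k ∈ (univ.erase i).erase j, a k + 20 := by
        by_cases hj : j ∈ univ.erase i
        · rw [← sum_erase_add _ _ hj]; linarith [ha2 j]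
        · rw [erase_eq_of_notMem hj]; linarith
      have h400 : 0 ≤ 400 * 256 ^ 2 * zt := by positivity
      change _ ≤ ∑ k ∈ (univ.erase i).erase j, a k
      linarith
    · have h1 : ∀ k : Fin n, a k ^ 2 ≤
          400 * 256 ^ 2 * ((((k : ℕ) : ℝ) + 1) ^ (4 / 3 : ℝ))⁻¹ := fun k => by
        have hp : 0 < (((k : ℕ) : ℝ) + 1) ^ (2 / 3 : ℝ) := by positivity
        have h2 : (((k : ℕ) : ℝ) + 1) ^ (4 / 3 : ℝ) = ((((k : ℕ) : ℝ) + 1) ^ (2 / 3 : ℝ)) ^ 2 := by
          rw [← Real.rpow_natCast, ← Real.rpow_mul (by positivity)]; norm_num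
        set p := (((k : ℕ) : ℝ) + 1) ^ (2 / 3 : ℝ) with hpd
        have h3 : p / 256 ≤ w + η k := by have := hlo k; linarith
        have h4 : 1 / (w + η k) ≤ 1 / (p / 256) := one_div_le_one_div_of_le (by positivity) h3
        have h5 : a k ≤ 20 * (1 / (p / 256)) := by have := ha1 k; linarith
        have h6 := pow_le_pow_left₀ (ha0 k) h5 2
        rw [h2]
        calc a k ^ 2 ≤ (20 * (1 / (p / 256))) ^ 2 := h6
          _ = 400 * 256 ^ 2 * (p ^ 2)⁻¹ := by field_simp; norm_num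
      have h2 : ∑ k, a k ^ 2 ≤ 400 * 256 ^ 2 * zt := by
        refine (sum_le_sum fun k _ => h1 k).trans ?_
        rw [← mul_sum]
        exact mul_le_mul_of_nonneg_left (sum_le_zt n) (by positivity)
      change ∑ k, a k ^ 2 ≤ _
      linarith
  · obtain ⟨hs1, hs2, hs3⟩ := s_facts (v := v) (by linarith) ht
    have hmc := min_cube (v := v) t (by linarith)
    rw [ht3] at hmc
    set s := min √v t / 10 with hsd
    have hs0 : 0 < s := by linarith
    have hv0 : 0 < v := by linarith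
    have hlow := low h ht3 hs1 hs2 (fun k => cw n η v k ^ 2) (fun k => by positivity)
      ((1 / (3 * v)) ^ 2) (by positivity) (fun k hk => by
        have h0 := hlo' k
        have hz0 : 0 < v + η k := by linarith
        have hz1 : v + η k ≤ 3 * v := by linarith
        exact pow_le_pow_left₀ (by positivity) (one_div_le_one_div_of_le hz0 hz1) 2)
    refine le_trans ?_ hlow
    have h1 : min √v t = 10 * s := by rw [hsd]; ring
    rw [h1] at hmc
    have h2 : 1 / (v - L) ≤ 1 / (v / 2) := one_div_le_one_div_of_le (by positivity) (by linarith)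
    have h3 : (1 / (v - L)) ^ 2 ≤ (1 / (v / 2)) ^ 2 := by
      apply pow_le_pow_left₀ _ h2
      have : 0 < v - L := by linarith
      positivity
    have h4 : 1 / (36000 * A) ≤ 1 / (36000 * 61) :=
      one_div_le_one_div_of_le (by norm_num) (by linarith)
    have hm0 : 0 ≤ min (v * √v) (n : ℝ) := le_min (by positivity) (by positivity)
    calc 1 / (36000 * A) * min (v * √v) (n : ℝ) * (1 / (v - L)) ^ 2
        ≤ 1 / (36000 * 61) * (10 * s) ^ 3 * (1 / (v / 2)) ^ 2 := by
          apply mul_le_mul _ h3 (by positivity) (by positivity)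
          exact mul_le_mul h4 hmc hm0 (by positivity)
      _ = s ^ 3 / v ^ 2 * (4 / (36 * 61)) := by field_simp; norm_num
      _ ≤ s ^ 3 / v ^ 2 * (1 / 18) := by
          apply mul_le_mul_of_nonneg_left (by norm_num) (by positivity)
      _ = s ^ 3 / 2 * (1 / (3 * v)) ^ 2 := by field_simp; norm_num

end Crest.Agent.T157.Sp

end
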