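import Crest.Agent.T157.KernA_16
import Crest.Agent.T157.SpGap_15

/-!
# Row 157, kernel estimates, part B (helper16)

The renewal sequence of a good spectrum: transform and pointwise bounds.
-/

set_option autoImplicit false

noncomputable section

namespace Crest.Agent.T157.Cq.Kern16

open Finset Real
open Crest.Agent.T157.St Crest.Agent.T157.Ed

theorem Sr_sub {n : ℕ} {η : ℕ → ℝ} {w v : ℝ} (t : ℝ) (hw : ∀ k, k < n → 0 < w + η k)
    (hv : w ≤ v) :
    Sr n η t w - Sr n η t v = (v - w) * ∑ k ∈ range n, 1 / ((w + η k) * (v + η k)) := by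
  unfold Sr
  rw [mul_sum, sub_sub_sub_cancel_right, ← sum_sub_distrib]
  refine sum_congr rfl fun k hk => ?_
  have h1 := hw k (mem_range.1 hk)
  have h2 : 0 < v + η k := by linarith
  field_simp
  ring

theorem eta_lo {n : ℕ} {η : ℕ → ℝ} {t L w C : ℝ} (h : Gd n η t L w C) (hw : 2 * L + 1 ≤ w) (k : ℕ)
    (hk : k < n) : -(w / 2) ≤ η k := by
  have h1 := h.lo k hk
  have : 0 ≤ ((k : ℝ) + 1) ^ (2 / 3 : ℝ) / 256 := by positivity
  linarith

/-- the lower bound of `-S` -/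
theorem Sr_lo {n : ℕ} {η : ℕ → ℝ} {t L w C : ℝ} (h : Gd n η t L w C) (ht : t ^ 3 = n)
    (ht0 : 0 ≤ t) (hL : 0 ≤ L) (hw : 2 * L + 1 ≤ w) (v : ℝ) (h1 : w ≤ v) (h2 : v ≤ 16 * t ^ 2) :
    1 / 1024000 * √v ≤ -Sr n η t v := by
  have w1 : 1 ≤ w := by linarith
  have hp : ∀ k, k < n → 0 < w + η k := fun k hk => by linarith [eta_lo h hw k hk]
  have e := Sr_sub t hp h1
  have up := h.up
  have s0 : 0 ≤ ∑ k ∈ range n, 1 / ((w + η k) * (v + η k)) := sum_nonneg fun k hk => by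
    have := hp k (mem_range.1 hk)
    have : 0 < v + η k := by linarith
    positivity
  have sw := sqrt_nonneg w
  rcases le_total v (2 * w + 1600) with hv | hv
  · have : √v ≤ 41 * √w := by
      rw [sqrt_le_left (by positivity), mul_pow, sq_sqrt (by linarith)]
      linarith
    have := mul_nonneg (sub_nonneg.2 h1) s0
    linarith
  · have v0 : 0 < v := by linarith
    have r2 : √v ^ 2 = v := sq_sqrt v0.le
    have r40 : 40 ≤ √v := le_sqrt_of_sq_le (by linarith)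
    have r4 : √v ≤ 4 * t := by
      rw [sqrt_le_left (by positivity)]; linarith
    have key := Sp.Gap15.low (s := √v / 40) h ht (by linarith) (by linarith)
      (fun k => 1 / ((w + η k) * (v + η k))) (fun k => by
        have := hp k k.2
        have : 0 < v + η k := by linarith
        positivity) (1 / (4 * v ^ 2)) (by positivity) fun k hk => by
        have a1 := hp k k.2
        have a2 : 0 < v + η k := by linarith
        have a3 : η k ≤ v := by rw [div_pow, r2] at hk; linarith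
        refine one_div_le_one_div_of_le (by positivity) ?_
        calc (w + η k) * (v + η k) ≤ (2 * v) * (2 * v) :=
              mul_le_mul (by linarith) (by linarith) a2.le (by linarith)
          _ = 4 * v ^ 2 := by ring
    rw [Fin.sum_univ_eq_sum_range (fun k => 1 / ((w + η k) * (v + η k))) n] at key
    have k2 := mul_le_mul (show v / 2 ≤ v - w by linarith) key (by positivity) (by linarith)
    have k3 : v / 2 * ((√v / 40) ^ 3 / 2 * (1 / (4 * v ^ 2))) = 1 / 1024000 * √v := by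
      have : (√v / 40) ^ 3 = v * √v / 64000 := by
        rw [div_pow, pow_succ, r2]; norm_num
      rw [this]
      field_simp
      norm_num
    linarith

/-- standing hypotheses -/
structure Hy (n : ℕ) (η : ℕ → ℝ) (t κ h w C c V : ℝ) (ρ : ℕ → ℝ) : Prop where
  h0 : 0 < h
  κ0 : 0 < κ
  w1 : 1 ≤ w
  t0 : 0 ≤ t
  c0 : 0 < c
  C0 : 0 ≤ C
  wV : w ≤ V
  Vκ : 4 * V ≤ κ ^ 2
  q0 : ∀ k, k < n → 2 * η k * h ≤ 1
  ht : h * κ * t ≤ 1
  ηl : ∀ k, k < n → -(w / 2) ≤ η k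
  lo : ∀ v, w ≤ v → v ≤ V → c * √v ≤ -Sr n η t v
  dn : ∀ v, w ≤ v → -Sr n η t v ≤ C * √v
  ren : Ren (fun k : Fin n => 1 - 2 * η k * h) (1 - h * κ * t) (2 * h ^ 2 * κ) κ ρ

namespace Hy

variable {n : ℕ} {η : ℕ → ℝ} {t κ h w C c V : ℝ} {ρ : ℕ → ℝ} (H : Hy n η t κ h w C c V ρ)
include H

theorem pos {v : ℝ} (hv : w ≤ v) {k : ℕ} (hk : k < n) : 0 < v + η k := by
  linarith [H.ηl k hk, H.w1]

theorem Y1 {v : ℝ} (hv : w ≤ v) : 1 ≤ 1 + 2 * h * v := by
  have := mul_pos H.h0 (show 0 < v by linarith [H.w1])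
  linarith

theorem qlt {v : ℝ} (hv : w ≤ v) (k : Fin n) : 1 - 2 * η k * h < 1 + 2 * h * v := by
  have := mul_pos H.h0 (H.pos hv k.2)
  linarith

theorem gam {v : ℝ} (hv : w ≤ v) :
    1 - (1 - h * κ * t + 2 * h ^ 2 * κ * ∑ k : Fin n, (1 + 2 * h * v) /
      (1 + 2 * h * v - (1 - 2 * η k * h))) / (1 + 2 * h * v) =
      h * κ * -Sr n η t v + (1 - h * κ * t) * (2 * h * v) / (1 + 2 * h * v) := by
  have h0 := H.h0
  have Y := H.Y1 hv
  have : ∑ k : Fin n, (1 + 2 * h * v) / (1 + 2 * h * v - (1 - 2 * η k * h)) =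
      (1 + 2 * h * v) / (2 * h) * ∑ k ∈ range n, 1 / (v + η k) := by
    rw [← Fin.sum_univ_eq_sum_range (fun k => 1 / (v + η k)) n, mul_sum]
    refine sum_congr rfl fun k _ => ?_
    have := H.pos hv k.2
    rw [show 1 + 2 * h * v - (1 - 2 * η k * h) = 2 * h * (v + η k) by ring]
    field_simp
  rw [this, Sr]
  generalize ∑ k ∈ range n, 1 / (v + η k) = S
  obtain ⟨y, hy⟩ : ∃ y, y = 1 + 2 * h * v := ⟨_, rfl⟩
  have y0 : y ≠ 0 := by linarith
  rw [← hy, show 2 * h * v = y - 1 by linarith]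
  field_simp
  ring

theorem gam_lo {v : ℝ} (hv : w ≤ v) (hV : v ≤ V) : h * κ * (c * √v) ≤
    h * κ * -Sr n η t v + (1 - h * κ * t) * (2 * h * v) / (1 + 2 * h * v) := by
  have h1 := mul_le_mul_of_nonneg_left (H.lo v hv hV) (mul_pos H.h0 H.κ0).le
  have Y := H.Y1 hv
  have : 0 ≤ (1 - h * κ * t) * (2 * h * v) / (1 + 2 * h * v) :=
    div_nonneg (mul_nonneg (by linarith [H.ht]) (by linarith)) (by linarith)
  linarith

theorem cm {v : ℝ} (hv : w ≤ v) (hV : v ≤ V) : CM fun j => ρ j / (1 + 2 * h * v) ^ j := by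
  have Y := H.Y1 hv
  have h0 := H.h0
  have κ0 := H.κ0
  have c0 := H.c0
  refine H.ren.cm (fun k => by linarith [H.q0 k k.2]) (H.qlt hv) (by linarith)
    (by linarith [H.ht]) (by positivity) κ0 ?_
  have h1 := H.gam_lo hv hV
  rw [← H.gam hv] at h1
  have h2 : 0 ≤ h * κ * (c * √v) := by positivity
  rw [← div_le_one (by linarith)]
  linarith

theorem nn (j : ℕ) : 0 ≤ ρ j := by
  have h1 := (H.cm le_rfl H.wV).nn j
  have Y := H.Y1 le_rfl
  have : 0 < (1 + 2 * h * w) ^ j := by positivity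
  exact (div_nonneg_iff.1 h1).elim (fun h => h.1) fun h => absurd h.2 (not_le.2 this)

theorem snn {v : ℝ} (hv : w ≤ v) (M : ℕ) : 0 ≤ ∑ j ∈ range M, ρ j / (1 + 2 * h * v) ^ j :=
  sum_nonneg fun j _ => div_nonneg (H.nn j) (pow_nonneg (by linarith [H.Y1 hv]) _)

theorem phn {v : ℝ} (hv : w ≤ v) (M : ℕ) : 0 ≤ phi (fun k : Fin n => 1 - 2 * η k * h)
    (2 * h ^ 2 * κ) (1 + 2 * h * v) ρ M :=
  phi_nonneg (fun k => by linarith [H.q0 k k.2]) (H.qlt hv) (by have := H.κ0; positivity) H.nn M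

/-- upper bound of the transform -/
theorem up {v : ℝ} (hv : w ≤ v) (hV : v ≤ V) (M : ℕ) :
    c * √v * (h * ∑ j ∈ range M, ρ j / (1 + 2 * h * v) ^ j) ≤ 1 := by
  have Y := H.Y1 hv
  have h1 := H.ren.gen (H.qlt hv) (by linarith) M
  rw [H.gam hv] at h1
  have h2 := mul_le_mul_of_nonneg_right (H.gam_lo hv hV) (H.snn hv M)
  have h3 := div_nonneg (H.phn hv M) (pow_nonneg (by linarith : 0 ≤ 1 + 2 * h * v) M)
  refine le_of_mul_le_mul_left ?_ H.κ0
  linarith

/-- lower bound of the transform -/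
theorem low {v : ℝ} (hv : w ≤ v) (M : ℕ) : 1 - ((1 + 2 * h * w) / (1 + 2 * h * v)) ^ M ≤
    (C * √v + 2 * v / κ) * (h * ∑ j ∈ range M, ρ j / (1 + 2 * h * v) ^ j) := by
  have Y := H.Y1 hv
  have X := H.Y1 le_rfl
  have h0 := H.h0
  have κ0 := H.κ0
  have c0 := H.c0
  have h1 := H.ren.gen (H.qlt hv) (by linarith) M
  have g1 := H.ren.gen (H.qlt le_rfl) (by linarith) M
  rw [H.gam hv] at h1
  rw [H.gam le_rfl] at g1
  have g2 := mul_nonneg ((by positivity : 0 ≤ h * κ * (c * √w)).trans (H.gam_lo le_rfl H.wV))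
    (H.snn le_rfl M)
  have g3 := phi_mono (σ := 2 * h ^ 2 * κ) (fun k : Fin n => by linarith [H.q0 k k.2])
    (H.qlt le_rfl) (show 1 + 2 * h * w ≤ 1 + 2 * h * v by nlinarith) (by positivity) H.nn M
  have g4 : phi (fun k : Fin n => 1 - 2 * η k * h) (2 * h ^ 2 * κ) (1 + 2 * h * w) ρ M ≤
      κ * (1 + 2 * h * w) ^ M := by
    rw [← div_le_iff₀ (by positivity)]; linarith
  have g5 : phi (fun k : Fin n => 1 - 2 * η k * h) (2 * h ^ 2 * κ) (1 + 2 * h * v) ρ M /
      (1 + 2 * h * v) ^ M ≤ κ * ((1 + 2 * h * w) / (1 + 2 * h * v)) ^ M := by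
    rw [div_pow, ← mul_div_assoc]
    exact div_le_div_of_nonneg_right (g3.trans g4) (by positivity)
  have g6 : h * κ * -Sr n η t v + (1 - h * κ * t) * (2 * h * v) / (1 + 2 * h * v) ≤
      κ * ((C * √v + 2 * v / κ) * h) := by
    have a1 := mul_le_mul_of_nonneg_left (H.dn v hv) (mul_pos h0 κ0).le
    have a2 : (1 - h * κ * t) * (2 * h * v) / (1 + 2 * h * v) ≤ 2 * h * v := by
      rw [div_le_iff₀ (by linarith)]
      have := mul_nonneg (mul_pos h0 κ0).le H.t0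
      nlinarith
    have a3 : κ * ((C * √v + 2 * v / κ) * h) = h * κ * (C * √v) + 2 * h * v := by
      field_simp
    linarith
  have g7 := mul_le_mul_of_nonneg_right g6 (H.snn hv M)
  refine le_of_mul_le_mul_left ?_ κ0
  linarith

theorem Xle {m : ℕ} (hm : 4 * w * (m * h) ≤ 1) : (1 + 2 * h * w) ^ m ≤ 2 :=
  (pow_le_exp (by linarith [H.Y1 le_rfl]) (by linarith)).trans exp_half_le

theorem a1 {m : ℕ} (hm : 4 * w * (m * h) ≤ 1) : ρ m ≤ 2 * κ := by
  have h1 := (H.cm le_rfl H.wV).anti (Nat.zero_le m)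
  have X := H.Y1 le_rfl
  simp only [pow_zero, div_one, H.ren.1] at h1
  rw [div_le_iff₀ (by positivity)] at h1
  have := mul_le_mul_of_nonneg_left (H.Xle hm) H.κ0.le
  linarith

theorem a2 {m : ℕ} {z : ℝ} (hz : 0 < z) (hm : m * h ≤ z) (hw : w * z ≤ 1) (hV : 1 ≤ V * z) :
    h * ∑ i ∈ range (m + 1), ρ i ≤ 8 / c * √z := by
  have h0 := H.h0
  have c0 := H.c0
  have v1 : w ≤ z⁻¹ := by rw [inv_eq_one_div, le_div_iff₀ hz]; exact hw
  have v2 : z⁻¹ ≤ V := by rw [inv_le_iff_one_le_mul₀ hz]; exact hV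
  have Y := H.Y1 v1
  have h1 := H.up v1 v2 (m + 1)
  have h2 : ∑ i ∈ range (m + 1), ρ i ≤ 8 * ∑ j ∈ range (m + 1), ρ j / (1 + 2 * h * z⁻¹) ^ j := by
    rw [mul_sum]
    refine sum_le_sum fun i hi => ?_
    have a1 : (1 + 2 * h * z⁻¹) ^ i ≤ 8 := by
      refine (pow_le_exp (by linarith) ?_).trans exp_two_le
      have : (i : ℝ) ≤ m := by exact_mod_cast Nat.lt_succ_iff.1 (mem_range.1 hi)
      have a2 : i * h ≤ z := le_trans (by gcongr) hm
      rw [show (i : ℝ) * (2 * h * z⁻¹) = 2 * (i * h) / z by ring, div_le_iff₀ hz]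
      linarith
    rw [← mul_div_assoc, le_div_iff₀ (by positivity)]
    have := mul_le_mul_of_nonneg_left a1 (H.nn i)
    linarith
  have s0 : 0 < √z := sqrt_pos.2 hz
  have := mul_le_mul_of_nonneg_left h2 h0.le
  generalize ∑ j ∈ range (m + 1), ρ j / (1 + 2 * h * z⁻¹) ^ j = S at h1 this
  rw [sqrt_inv, show c * (√z)⁻¹ * (h * S) = h * S / (√z / c) by field_simp,
    div_le_one (by positivity)] at h1
  rw [show 8 / c * √z = 8 * (√z / c) by ring]
  linarith

theorem tl {M : ℕ} : ∑ i ∈ range M, ρ i / (1 + 2 * h * w) ^ i ≤ ∑ i ∈ range M, ρ i :=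
  sum_le_sum fun i _ => div_le_self (H.nn i) (one_le_pow₀ (H.Y1 le_rfl))

theorem a3 {m : ℕ} (hm : 4 * w * (m * h) ≤ 1) :
    (m + 1) * ρ m ≤ 2 * ∑ i ∈ range (m + 1), ρ i := by
  have h1 := ((H.cm le_rfl H.wV).avg m).trans H.tl
  have X := H.Y1 le_rfl
  rw [← mul_div_assoc, div_le_iff₀ (by positivity)] at h1
  have := mul_le_mul_of_nonneg_left (H.Xle hm) (sum_nonneg (s := range (m + 1)) fun i _ => H.nn i)
  linarith

theorem a4 {m : ℕ} {e : ℝ} (he : 0 < e) (he1 : e ≤ 1 / 2) (heC : (C + 1) * (8 / c) * e ≤ 1 / 4)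
    (hm0 : 0 < m) (hm : 2 * w * (m * h) ≤ e ^ 2) (hV : 1 ≤ V * (m * h)) :
    e / (8 * (C + 1)) * (√(m * h))⁻¹ ≤ ρ m := by
  have h0 := H.h0
  have c0 := H.c0
  have C0 := H.C0
  have κ0 := H.κ0
  have w1 := H.w1
  have m1 : (1 : ℝ) ≤ m := by exact_mod_cast hm0
  have u0 : 0 < m * h := by positivity
  have A2 := H.a2 u0 le_rfl (by nlinarith) hV
  obtain ⟨s, hs, s0⟩ : ∃ s, √(m * h) = s ∧ 0 < s := ⟨_, rfl, sqrt_pos.2 u0⟩
  have s2 : m * h = s ^ 2 := by rw [← hs, sq_sqrt u0.le]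
  rw [hs] at A2 ⊢
  rw [s2] at hm hV
  obtain ⟨v, hv⟩ : ∃ v, v = (e / s) ^ 2 := ⟨_, rfl⟩
  have vs : v * s ^ 2 = e ^ 2 := by rw [hv]; field_simp
  have v0 : 0 < v := by rw [hv]; positivity
  have v2 : 2 * w ≤ v := le_of_mul_le_mul_right (by rw [vs]; exact hm) (by positivity : 0 < s ^ 2)
  have vw : w ≤ v := by linarith
  have hv1 : 2 * h * v ≤ 1 := by
    have : h * v ≤ v * s ^ 2 := by rw [← s2]; nlinarith [mul_pos h0 v0]
    nlinarith
  have sv : √v = e / s := by rw [hv, sqrt_sq (by positivity)]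
  have X := H.Y1 le_rfl
  have Y := H.Y1 vw
  set r := (1 + 2 * h * w) / (1 + 2 * h * v) with hr
  have r0 : 0 ≤ r := by positivity
  have r1 : h * v / 2 ≤ 1 - r := by
    rw [hr, one_sub_div (by linarith), le_div_iff₀ (by linarith)]
    nlinarith [mul_pos h0 v0]
  have hv0 := mul_pos h0 v0
  obtain ⟨N, hN⟩ := exists_pow_lt_of_lt_one (by norm_num : (0 : ℝ) < 1 / 2) (show r < 1 by linarith)
  have L := H.low vw (m + 1 + N)
  have rN : r ^ (m + 1 + N) ≤ r ^ N := pow_le_pow_of_le_one r0 (by linarith) (by omega)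
  have cmw := H.cm le_rfl H.wV
  set ρt := ρ m / (1 + 2 * h * w) ^ m with hρ
  have ρ0 : 0 ≤ ρt := cmw.nn m
  have t1 : ∑ j ∈ range (m + 1), ρ j / (1 + 2 * h * v) ^ j ≤ ∑ j ∈ range (m + 1), ρ j :=
    sum_le_sum fun i _ => div_le_self (H.nn i) (one_le_pow₀ Y)
  have t2 : ∑ j ∈ range N, ρ (m + 1 + j) / (1 + 2 * h * v) ^ (m + 1 + j) ≤ ρt * (2 / (h * v)) := by
    have b1 : ∑ j ∈ range N, r ^ j ≤ 2 / (h * v) := by
      refine (geom_le r0 (by linarith) N).trans ?_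
      rw [← inv_div]
      exact inv_anti₀ (by positivity) r1
    refine le_trans ?_ (mul_le_mul_of_nonneg_left b1 ρ0)
    rw [mul_sum]
    refine sum_le_sum fun j _ => ?_
    have b2 : ρ (m + 1 + j) / (1 + 2 * h * v) ^ (m + 1 + j) =
        ρ (m + 1 + j) / (1 + 2 * h * w) ^ (m + 1 + j) * r ^ (m + 1 + j) := by
      rw [hr, div_pow]; field_simp
    rw [b2]
    exact mul_le_mul (cmw.anti (by omega)) (pow_le_pow_of_le_one r0 (by linarith) (by omega))
      (by positivity) ρ0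
  have t3 : h * ∑ j ∈ range (m + 1 + N), ρ j / (1 + 2 * h * v) ^ j ≤ 8 / c * s + 2 * ρt / v := by
    rw [sum_range_add, mul_add]
    have b1 := mul_le_mul_of_nonneg_left t1 h0.le
    have b2 := mul_le_mul_of_nonneg_left t2 h0.le
    have b3 : h * (ρt * (2 / (h * v))) = 2 * ρt / v := by field_simp
    linarith
  have t4 : C * √v + 2 * v / κ ≤ (C + 1) * (e / s) := by
    have b1 : 2 ≤ κ * s := by
      have := mul_le_mul_of_nonneg_right H.Vκ (sq_nonneg s)
      refine (pow_le_pow_iff_left₀ (by norm_num) (by positivity) two_ne_zero).1 ?_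
      nlinarith
    have b2 : 2 * v / κ ≤ e / s := by
      rw [hv, div_le_iff₀ κ0, sq, ← mul_assoc, mul_comm (e / s) κ]
      refine mul_le_mul_of_nonneg_right ?_ (by positivity)
      rw [← mul_div_assoc, div_le_iff₀ s0]
      linarith
    rw [sv]; linarith
  have t5 := mul_le_mul t4 t3 (mul_nonneg h0.le (H.snn vw _)) (by positivity)
  have t6 : (C + 1) * (e / s) * (8 / c * s + 2 * ρt / v) =
      (C + 1) * (8 / c) * e + 2 * (C + 1) * s / e * ρt := by
    rw [hv]; field_simp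
  have t7 : 1 / 4 ≤ 2 * (C + 1) * s / e * ρt := by linarith
  have t8 : ρt ≤ ρ m := div_le_self (H.nn m) (one_le_pow₀ X)
  refine le_trans ?_ t8
  have t9 : e / (8 * (C + 1)) * s⁻¹ = 1 / 4 / (2 * (C + 1) * s / e) := by field_simp; norm_num
  rw [t9, div_le_iff₀' (by positivity)]
  exact t7

theorem a5 {m l : ℕ} (hm0 : 0 < m) (hm : 4 * w * (m * h) ≤ 1) (hl : 2 * l ≤ m) :
    |ρ m - ρ (m - l)| ≤ l * (18 * (∑ i ∈ range (m + 1), ρ i) / m ^ 2) := by
  have h0 := H.h0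
  have w1 := H.w1
  have X := H.Y1 le_rfl
  have cmw := H.cm le_rfl H.wV
  have m0 : (0 : ℝ) < m := by exact_mod_cast hm0
  have key := tele ρ (m - l) l (18 * (∑ i ∈ range (m + 1), ρ i) / m ^ 2) fun j h1 h2 => by
    have j1 : (m : ℝ) ≤ 2 * j := by exact_mod_cast (show m ≤ 2 * j by omega)
    have j2 : (j : ℝ) ≤ m := by exact_mod_cast (show j ≤ m by omega)
    have b0 : ∑ i ∈ range (j + 1), ρ i / (1 + 2 * h * w) ^ i ≤ ∑ i ∈ range (m + 1), ρ i :=
      H.tl.trans (sum_le_sum_of_subset_of_nonneg (range_subset_range.2 (by omega))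
        fun i _ _ => H.nn i)
    have b1 := (cmw.dle j).trans b0
    have b2 := (cmw.avg j).trans b0
    have b3 := cmw.dec j
    have b4 := cmw.nn (j + 1)
    have b5 : (1 + 2 * h * w) ^ j ≤ 2 := H.Xle (le_trans (by gcongr) hm)
    have b6 : 0 < (1 + 2 * h * w) ^ j := by positivity
    generalize ∑ i ∈ range (m + 1), ρ i = S at *
    obtain ⟨x, hx⟩ : ∃ x, x = ρ j / (1 + 2 * h * w) ^ j := ⟨_, rfl⟩
    obtain ⟨y, hy⟩ : ∃ y, y = ρ (j + 1) / (1 + 2 * h * w) ^ (j + 1) := ⟨_, rfl⟩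
    have e1 : ρ (j + 1) - ρ j = (1 + 2 * h * w) ^ j * (2 * h * w * y - (x - y)) := by
      rw [hx, hy, pow_succ]; field_simp; ring
    rw [← hx, ← hy] at b1 b3
    rw [← hx] at b2
    rw [← hy] at b4
    have c1 : m ^ 2 * (x - y) ≤ 8 * S := by
      have : (m : ℝ) ^ 2 ≤ 8 * ((j + 1) * (j + 2) / 2) := by nlinarith
      have := mul_le_mul_of_nonneg_right this (sub_nonneg.2 b3)
      linarith
    have c2 : m * y ≤ 2 * S := by nlinarith
    have c3 : m ^ 2 * (2 * h * w * y) ≤ S := by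
      have := mul_le_mul hm c2 (by positivity) (by norm_num)
      nlinarith
    have c4 : 0 ≤ 2 * h * w * y := by positivity
    have c5 : |2 * h * w * y - (x - y)| ≤ 9 * S / m ^ 2 := by
      rw [le_div_iff₀ (by positivity), ← abs_of_pos (by positivity : (0 : ℝ) < m ^ 2), ← abs_mul,
        abs_le]
      have := mul_nonneg (sq_nonneg (m : ℝ)) c4
      have := mul_nonneg (sq_nonneg (m : ℝ)) (sub_nonneg.2 b3)
      constructor <;> nlinarith
    rw [e1, abs_mul, abs_of_pos b6]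
    have := mul_le_mul b5 c5 (abs_nonneg _) (by norm_num)
    rw [show 18 * S / m ^ 2 = 2 * (9 * S / m ^ 2) by ring]
    exact this
  rwa [show m - l + l = m by omega] at key

end Hy

end Crest.Agent.T157.Cq.Kern16

end
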