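import Crest.Agent.T157.StA_87
import Crest.Agent.T157.KrA_53

/-!
# Row 157, part C (3d), first file (helper17): one step of the entropy chain

`gibbs`: the Gibbs variational inequality with a quadratic bound of the relative entropy;
`exch`: exchangeability of the static chain; `step`: the one-step inequality; `chain`.
-/

set_option autoImplicit false
set_option linter.unusedSectionVars false

noncomputable section

namespace Crest.Agent.T157.Cq.Kl17

open MeasureTheory ProbabilityTheory Matrix Filter Topology Finset Real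
open scoped ENNReal
open Crest.Agent.T157.E Crest.Agent.T157.St Crest.Agent.T157.St.A87 Crest.Agent.T157.Kr
open Crest.Agent.T157.SL (MG)

section abs
variable {Ω : Type*} [MeasurableSpace Ω]

lemma ofReal_int_le (μ : Measure Ω) (f : Ω → ℝ) :
    ENNReal.ofReal (∫ x, f x ∂μ) ≤ ∫⁻ x, ENNReal.ofReal (f x) ∂μ := by
  by_cases h : Integrable f μ
  · have h1 := ofReal_integral_eq_lintegral_ofReal h.pos_part (.of_forall fun x => le_max_right _ _)
    simp only [ENNReal.ofReal_max, ENNReal.ofReal_zero, zero_le, sup_of_le_left] at h1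
    rw [← h1]
    exact ENNReal.ofReal_le_ofReal (integral_mono h h.pos_part fun x => le_max_left _ _)
  · simp [integral_undef h]

lemma pt_ineq (ψ l : ℝ) : exp (-ψ - l) * (-ψ - l) ≤
    2 * (1 - exp (-ψ - l)) * l + (1 + exp (-ψ - l)) * ψ ^ 2 + exp (-ψ - l) - 1 := by
  set g := -ψ - l with hg
  set p := exp g with hp
  have p0 : 0 < p := exp_pos _
  have h1 : g + 1 ≤ p := add_one_le_exp g
  have h2 : p - 1 ≤ p * g := by
    have := mul_le_mul_of_nonneg_left (add_one_le_exp (-g)) p0.le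
    rw [hp, ← exp_add, add_neg_cancel, exp_zero] at this
    linarith
  have key : (1 - p) ^ 2 ≤ (p - 1) * g * (1 + p) := by
    rcases le_total 1 p with h | h
    · have g0 : 0 ≤ g := by nlinarith
      nlinarith [mul_nonneg (sub_nonneg.2 h) (by nlinarith : 0 ≤ (1 + p) * g - (p - 1))]
    · have g0 : g ≤ 0 := by linarith
      nlinarith [mul_nonneg (sub_nonneg.2 h) (by nlinarith : 0 ≤ -g * (1 + p) - (1 - p))]
  have h3 : 2 * ((1 - p) * ψ) ≤ (p - 1) * g + (1 + p) * ψ ^ 2 := by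
    refine le_of_mul_le_mul_left ?_ (by positivity : 0 < 1 + p)
    nlinarith [sq_nonneg ((1 - p) - (1 + p) * ψ)]
  have e : (p - 1) * g = (1 - p) * ψ + (1 - p) * l := by rw [hg]; ring
  nlinarith

lemma int_bdd {Q : Measure Ω} [IsFiniteMeasure Q] {f : Ω → ℝ} (m : Measurable f) {B : ℝ}
    (h : ∀ ω, |f ω| ≤ B) : Integrable f Q :=
  .of_bound m.aestronglyMeasurable B (.of_forall h)

/-- Gibbs variational inequality with a quadratic bound of the entropy -/
lemma gibbs {Q : Measure Ω} [IsProbabilityMeasure Q] {ψ L f G : Ω → ℝ} {b c B : ℝ}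
    (mψ : Measurable ψ) (mL : Measurable L) (mf : Measurable f) (iG : Integrable G Q)
    (hc : ∀ ω, -c ≤ ψ ω) (hL : ∀ ω, |L ω| ≤ B) (hf : ∀ ω, |f ω| ≤ B)
    (hG : ∀ ω, ψ ω ^ 2 ≤ G ω + b) :
    (∫ ω, f ω * exp (-ψ ω) ∂Q) / (∫ ω, exp (-ψ ω) ∂Q) - log (∫ ω, exp (L ω) ∂Q) ≤
      (∫ ω, (max (f ω - L ω) 0 + G ω) * exp (-ψ ω) ∂Q) / (∫ ω, exp (-ψ ω) ∂Q) +
        (∫ ω, G ω ∂Q + 2 * b) := by
  have be : ∀ ω, |exp (-ψ ω)| ≤ exp c := fun ω => by
    rw [abs_of_pos (exp_pos _), exp_le_exp]; linarith [hc ω]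
  have me : Measurable fun ω => exp (-ψ ω) := by fun_prop
  have ie : Integrable (fun ω => exp (-ψ ω)) Q := int_bdd me be
  have iL : Integrable (fun ω => exp (L ω)) Q := int_bdd (by fun_prop) (B := exp B) fun ω => by
    rw [abs_of_pos (exp_pos _), exp_le_exp]; exact (le_abs_self _).trans (hL ω)
  set Z := ∫ ω, exp (-ψ ω) ∂Q with hZ
  set c₀ := ∫ ω, exp (L ω) ∂Q with hc₀
  have Z0 : 0 < Z := integral_exp_pos ie
  have c0 : 0 < c₀ := integral_exp_pos iL
  have i1 : Integrable (fun ω => f ω * exp (-ψ ω)) Q :=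
    (int_bdd mf hf).mul_bdd me.aestronglyMeasurable (.of_forall be)
  have i2 : Integrable (fun ω => (max (f ω - L ω) 0 + G ω) * exp (-ψ ω)) Q :=
    (((int_bdd mf hf).sub (int_bdd mL hL)).pos_part.add iG).mul_bdd me.aestronglyMeasurable
      (.of_forall be)
  have key : ∀ ω, f ω * exp (-ψ ω) / Z - log c₀ / Z * exp (-ψ ω) ≤
      (max (f ω - L ω) 0 + G ω) * exp (-ψ ω) / Z + (G ω + (exp (L ω) / c₀ +
        ((b - 2 * log Z) / Z * exp (-ψ ω) + (b + 2 * log Z - 1)))) := fun ω => by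
    have h1 := pt_ineq (ψ ω) (log Z)
    have e : exp (-ψ ω - log Z) = exp (-ψ ω) / Z := by rw [exp_sub, exp_log Z0]
    have h2 := mul_le_mul_of_nonneg_left
      (add_one_le_exp (L ω - log c₀ - (-ψ ω - log Z))) (exp_pos (-ψ ω - log Z)).le
    rw [← exp_add, add_sub_cancel, exp_sub (L ω), exp_log c0] at h2
    rw [e] at h1 h2
    have p0 : 0 < exp (-ψ ω) / Z := by positivity
    have h3 := mul_le_mul_of_nonneg_left (hG ω) (by positivity : 0 ≤ 1 + exp (-ψ ω) / Z)
    have h4 := mul_le_mul_of_nonneg_left (le_max_left (f ω - L ω) 0) p0.le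
    simp only [mul_div_assoc, div_mul_eq_mul_div, mul_div_assoc]
    set p := exp (-ψ ω) / Z
    nlinarith
  have h := integral_mono ((i1.div_const Z).sub (ie.const_mul _)) ((i2.div_const Z).add (iG.add
    ((iL.div_const c₀).add ((ie.const_mul _).add (integrable_const _))))) key
  rw [integral_sub' (i1.div_const Z) (ie.const_mul _), integral_add' (i2.div_const Z) (iG.add
    ((iL.div_const c₀).add ((ie.const_mul _).add (integrable_const _)))), integral_add' iG
    ((iL.div_const c₀).add ((ie.const_mul _).add (integrable_const _))), integral_add'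
    (iL.div_const c₀) ((ie.const_mul _).add (integrable_const _)), integral_add'
    (ie.const_mul _) (integrable_const _)] at h
  simp only [integral_div, integral_const_mul, integral_const, probReal_univ, one_smul, ← hZ,
    ← hc₀, div_mul_cancel₀ _ Z0.ne', div_self c0.ne'] at h
  linarith

end abs

variable {ι : Type*} [Fintype ι] [DecidableEq ι] {μ : Measure (ι → ℝ)} {K : ℝ}

lemma q0 (x : ι → ℝ) : 0 ≤ x ⬝ᵥ x := Cond.dot_self_nonneg x

lemma ew_bd (hK : 0 < K) (y x : ι → ℝ) : |ew K y x| ≤ exp (y ⬝ᵥ y / (2 * K)) := by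
  rw [abs_of_pos (ew_pos _ _ _), ew, exp_le_exp, le_div_iff₀ (by positivity)]
  have := q0 (y - K • x)
  simp only [sub_dotProduct, dotProduct_sub, smul_dotProduct, dotProduct_smul, smul_eq_mul,
    dotProduct_comm x y] at this
  nlinarith

lemma m_ew (K : ℝ) (y : ι → ℝ) : Measurable (ew K y) := measurable_ew K measurable_const measurable_id

lemma int_ew [IsProbabilityMeasure μ] (hK : 0 < K) (y : ι → ℝ) : Integrable (ew K y) μ :=
  int_bdd (m_ew K y) (ew_bd hK y)

lemma Mf_pos' [IsProbabilityMeasure μ] (hK : 0 < K) (y : ι → ℝ) : 0 < Mf K μ y :=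
  integral_exp_pos (int_ew hK y)

lemma m_pm [IsProbabilityMeasure μ] (K : ℝ) {G : (ι → ℝ) → (ι → ℝ) → ℝ}
    (hG : Measurable fun p : (ι → ℝ) × (ι → ℝ) => G p.1 p.2) :
    Measurable fun y => pm K μ (G y) y := by
  have h1 : Measurable fun p : (ι → ℝ) × (ι → ℝ) => ew K p.1 p.2 := (continuous_ew K).measurable
  exact ((hG.mul h1).stronglyMeasurable.integral_prod_right' (ν := μ)).measurable.div
    (h1.stronglyMeasurable.integral_prod_right' (ν := μ)).measurable

lemma abs_pm [IsProbabilityMeasure μ] (hK : 0 < K) {f : (ι → ℝ) → ℝ} {B : ℝ} (h : ∀ x, |f x| ≤ B)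
    (y : ι → ℝ) : |pm K μ f y| ≤ B := by
  rw [pm, abs_div, abs_of_pos (Mf_pos' hK y), div_le_iff₀ (Mf_pos' hK y), Mf, ← integral_const_mul]
  refine norm_integral_le_of_norm_le (f := fun x => f x * ew K y x) ((int_ew hK y).const_mul B)
    (.of_forall fun x => ?_)
  rw [Real.norm_eq_abs, abs_mul, abs_of_pos (ew_pos _ _ _)]
  exact mul_le_mul_of_nonneg_right (h x) (ew_pos _ _ _).le

lemma phi_ew (hK : 0 < K) (y x : ι → ℝ) : phi K (y - K • x) = phi K y * ew K y x := by
  rw [phi, phi, ew, mul_assoc (_ ^ _), ← exp_add]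
  congr 2
  simp only [sub_dotProduct, dotProduct_sub, smul_dotProduct, dotProduct_smul, smul_eq_mul,
    dotProduct_comm x y]
  field_simp
  ring

lemma lint_joint [IsProbabilityMeasure μ] (hK : 0 < K) {H : (ι → ℝ) × (ι → ℝ) → ℝ≥0∞}
    (hH : Measurable H) :
    ∫⁻ x, ∫⁻ z, H (K • x + √K • z, x) ∂gv ι ∂μ =
      ∫⁻ y, ENNReal.ofReal (phi K y) * ∫⁻ x, ENNReal.ofReal (ew K y x) * H (y, x) ∂μ := by
  have h2 : ∀ x, ∫⁻ z, H (K • x + √K • z, x) ∂gv ι =
      ∫⁻ y, ENNReal.ofReal (phi K y) * (ENNReal.ofReal (ew K y x) * H (y, x)) := fun x => by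
    rw [lintegral_gv_scale hK (K • x) (G := fun y => H (y, x)) (by fun_prop)]
    simp only [phi_ew hK, ENNReal.ofReal_mul (phi_nonneg _ _), mul_assoc]
  simp only [h2]
  have h4 : Measurable fun p : (ι → ℝ) × (ι → ℝ) => ENNReal.ofReal (phi K p.2) := by fun_prop
  have h5 : Measurable fun p : (ι → ℝ) × (ι → ℝ) => ENNReal.ofReal (ew K p.2 p.1) :=
    (measurable_ew K measurable_snd measurable_fst).ennreal_ofReal
  have h6 : Measurable fun p : (ι → ℝ) × (ι → ℝ) => H (p.2, p.1) := by fun_prop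
  rw [lintegral_lintegral_swap (f := fun x y => ENNReal.ofReal (phi K y) *
    (ENNReal.ofReal (ew K y x) * H (y, x))) (h4.mul (h5.mul h6)).aemeasurable]
  refine lintegral_congr fun y => lintegral_const_mul _ ((m_ew K y).ennreal_ofReal.mul ?_)
  fun_prop

/-- exchangeability -/
lemma exch [IsProbabilityMeasure μ] (hK : 0 < K) {G : (ι → ℝ) → (ι → ℝ) → ℝ}
    (hG : Measurable fun p : (ι → ℝ) × (ι → ℝ) => G p.1 p.2) :
    ∫⁻ x, ∫⁻ z, ENNReal.ofReal (pm K μ (G (K • x + √K • z)) (K • x + √K • z)) ∂gv ι ∂μ ≤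
      ∫⁻ x, ∫⁻ z, ENNReal.ofReal (G (K • x + √K • z) x) ∂gv ι ∂μ := by
  have h1 := lint_joint (μ := μ) hK ((m_pm (μ := μ) K hG).comp measurable_fst).ennreal_ofReal
  have h2 := lint_joint (μ := μ) hK hG.ennreal_ofReal
  simp only [Function.comp_apply] at h1 h2
  rw [h1, h2]
  refine lintegral_mono fun y => mul_le_mul_right ?_ _
  rw [lintegral_mul_const _ (m_ew K y).ennreal_ofReal, ← ofReal_integral_eq_lintegral_ofReal
    (int_ew hK y) (.of_forall fun x => (ew_pos _ _ _).le),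
    ← ENNReal.ofReal_mul (integral_nonneg fun x => (ew_pos _ _ _).le), pm, ← Mf,
    mul_div_cancel₀ _ (Mf_pos' hK y).ne']
  refine (ofReal_int_le _ _).trans_eq (lintegral_congr fun x => ?_)
  rw [mul_comm, ENNReal.ofReal_mul (ew_pos _ _ _).le]

lemma int_scale {v : ℝ} (hv : 0 < v) (c : ι → ℝ) {G : (ι → ℝ) → ℝ} (hG : Measurable G) :
    ∫ g, G (c + √v • g) ∂gv ι = ∫ y, phi v (y - c) * G y := by
  rw [← integral_map (φ := fun g => c + √v • g) (by fun_prop) hG.aestronglyMeasurable,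
    gv_scale hv, integral_withDensity_eq_integral_toReal_smul (by fun_prop)
      (.of_forall fun _ => ENNReal.ofReal_lt_top)]
  simp only [ENNReal.toReal_ofReal (phi_nonneg _ _), smul_eq_mul]

variable {W : (ι → ℝ) → ℝ} {F : (ι → ℝ) → ι → ℝ}

/-- the posterior is a tilt of the Gaussian step -/
lemma rep (hK : 0 < K) (mW : Measurable W) (iW : Integrable (fun x => exp (W x)) volume)
    (y δ : ι → ℝ) : ∃ c : ℝ, 0 < c ∧ ∀ f : (ι → ℝ) → ℝ, Measurable f →
      ∫ z, f (y + δ + √K⁻¹ • z) * exp (-(W y - W (y + δ + √K⁻¹ • z) +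
        K * (δ ⬝ᵥ (y + δ + √K⁻¹ • z - y)))) ∂gv ι =
      c * ∫ x, f x * ew K (K • y) x ∂(volume.tilted W) := by
  have Z0 := integral_exp_pos iW
  refine ⟨phi K⁻¹ (y + δ) * exp (K * (δ ⬝ᵥ y) - W y) * ∫ x, exp (W x),
    by have := phi_pos (inv_pos.2 hK) (y + δ); positivity, fun f hf => ?_⟩
  rw [int_scale (inv_pos.2 hK) (y + δ)
    (G := fun x => f x * exp (-(W y - W x + K * (δ ⬝ᵥ (x - y))))) (by fun_prop),
    integral_tilted, ← integral_const_mul]
  refine integral_congr_ae (.of_forall fun x => ?_)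
  have e : exp (-((x - (y + δ)) ⬝ᵥ (x - (y + δ))) / (2 * K⁻¹)) *
      exp (-(W y - W x + K * (δ ⬝ᵥ (x - y)))) = exp (-((y + δ) ⬝ᵥ (y + δ)) / (2 * K⁻¹)) *
      exp (K * (δ ⬝ᵥ y) - W y) * exp (W x) * ew K (K • y) x := by
    rw [ew, ← exp_add, ← exp_add, ← exp_add, ← exp_add]
    congr 1
    simp only [sub_dotProduct, dotProduct_sub, add_dotProduct, dotProduct_add, smul_dotProduct,
      smul_eq_mul, dotProduct_comm x y, dotProduct_comm x δ, dotProduct_comm y δ]
    field_simp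
    ring
  simp only [phi, smul_eq_mul]
  linear_combination (exp := 1) (√(2 * π * K⁻¹))⁻¹ ^ Fintype.card ι * f x * e -
    (√(2 * π * K⁻¹))⁻¹ ^ Fintype.card ι * f x * exp (-((y + δ) ⬝ᵥ (y + δ)) / (2 * K⁻¹)) *
      exp (K * (δ ⬝ᵥ y) - W y) * exp (W x) * ew K (K • y) x * mul_inv_cancel₀ Z0.ne'

/-- one step of the scheme -/
def Uk (K : ℝ) (F : (ι → ℝ) → ι → ℝ) (v : (ι → ℝ) → ℝ) (x : ι → ℝ) : ℝ :=
  ∫ ξ, v (F x + √(2 * K⁻¹) • ξ) ∂gv ι

/-- hypotheses of the one-step inequality -/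
structure Hyp (K : ℝ) (W : (ι → ℝ) → ℝ) (F : (ι → ℝ) → ι → ℝ) (G b : (ι → ℝ) → (ι → ℝ) → ℝ)
    (R : (ι → ℝ) × (ι → ℝ) → ℝ) : Prop where
  K0 : 0 < K
  mW : Measurable W
  iW : Integrable (fun x => exp (W x)) volume
  mF : Measurable F
  hW : ∃ C, ∀ x, W x ≤ C - x ⬝ᵥ x
  mG : Measurable fun p : (ι → ℝ) × (ι → ℝ) => G p.1 p.2
  G0 : ∀ y x, 0 ≤ G y x
  gG : ∀ y, MG (G y)
  sq : ∀ x y x', (W y - W x' + K * ((F x - x) ⬝ᵥ (x' - y))) ^ 2 ≤ G y x' + b x y
  mR : Measurable R
  R0 : ∀ p, 0 ≤ R p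
  H1 : ∀ x z, G (x + √K⁻¹ • z) x ≤ R (x, z)
  H2 : ∀ x z, ∫ z', G (x + √K⁻¹ • z) (x + √K⁻¹ • z + (F x - x) + √K⁻¹ • z') ∂gv ι +
    2 * b x (x + √K⁻¹ • z) ≤ R (x, z)

variable {G b : (ι → ℝ) → (ι → ℝ) → ℝ} {R : (ι → ℝ) × (ι → ℝ) → ℝ} {f L : (ι → ℝ) → ℝ} {B : ℝ}

lemma Hyp.prob (h : Hyp K W F G b R) : IsProbabilityMeasure (volume.tilted W) :=
  isProbabilityMeasure_tilted h.iW

lemma Hyp.pt (h : Hyp K W F G b R) (mf : Measurable f) (mL : Measurable L) (hf : ∀ x, |f x| ≤ B)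
    (hL : ∀ x, |L x| ≤ B) (x y : ι → ℝ) :
    pm K (volume.tilted W) f (K • y) - log (∫ z, exp (L (y + (F x - x) + √K⁻¹ • z)) ∂gv ι) ≤
      pm K (volume.tilted W) (fun x' => max (f x' - L x') 0 + G y x') (K • y) +
        (∫ z, G y (y + (F x - x) + √K⁻¹ • z) ∂gv ι + 2 * b x y) := by
  obtain ⟨c, c0, hc⟩ := rep h.K0 h.mW h.iW y (F x - x)
  obtain ⟨C, hC⟩ := h.hW
  have mW := h.mW
  have := gibbs (Q := gv ι) (ψ := fun z => W y - W (y + (F x - x) + √K⁻¹ • z) +
      K * ((F x - x) ⬝ᵥ (y + (F x - x) + √K⁻¹ • z - y)))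
    (L := fun z => L (y + (F x - x) + √K⁻¹ • z)) (f := fun z => f (y + (F x - x) + √K⁻¹ • z))
    (G := fun z => G y (y + (F x - x) + √K⁻¹ • z)) (b := b x y)
    (c := C - W y + K * ((F x - x) ⬝ᵥ y) + K ^ 2 / 4 * ((F x - x) ⬝ᵥ (F x - x))) (B := B)
    (by fun_prop) (by fun_prop) (by fun_prop) ((h.gG y).affine _ _).int (fun z => by
      generalize y + (F x - x) + √K⁻¹ • z = u
      generalize F x - x = δ
      have h1 := q0 (u + (K / 2) • δ)
      simp only [dotProduct_sub, add_dotProduct, dotProduct_add, smul_dotProduct, dotProduct_smul,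
        smul_eq_mul, dotProduct_comm u δ] at h1 ⊢
      nlinarith [hC u])
    (fun _ => hL _) (fun _ => hf _) fun _ => h.sq _ _ _
  have h1 := hc (fun _ => 1) measurable_const
  simp only [one_mul] at h1
  rw [hc f mf, hc (fun x' => max (f x' - L x') 0 + G y x')
    (((mf.sub mL).max measurable_const).add (h.gG y).meas), h1, mul_div_mul_left _ _ c0.ne',
    mul_div_mul_left _ _ c0.ne'] at this
  exact this

lemma sm_eq (hK : 0 < K) (x z : ι → ℝ) : K • (x + √K⁻¹ • z) = K • x + √K • z := by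
  rw [smul_add, smul_smul, sqrt_inv, ← div_eq_mul_inv, div_sqrt]

/-- the one-step inequality -/
lemma Hyp.step (h : Hyp K W F G b R) (mf : Measurable f) (mL : Measurable L) (hf : ∀ x, |f x| ≤ B)
    (hL : ∀ x, |L x| ≤ B) :
    ∫⁻ x, ENNReal.ofReal (Tk K (volume.tilted W) f x - log (Uk K F (fun u => exp (L u)) x))
      ∂(volume.tilted W) ≤ ∫⁻ x, ENNReal.ofReal (f x - L x) ∂(volume.tilted W) +
        2 * ∫⁻ x, ∫⁻ z, ENNReal.ofReal (R (x, z)) ∂gv ι ∂(volume.tilted W) := by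
  have := h.prob
  have hK := h.K0
  set μ : Measure (ι → ℝ) := volume.tilted W with hμ
  have mG := h.mG
  have mR := h.mR
  let G' : (ι → ℝ) → (ι → ℝ) → ℝ := fun Y x' => max (f x' - L x') 0 + G (K⁻¹ • Y) x'
  have mG' : Measurable fun p : (ι → ℝ) × (ι → ℝ) => G' p.1 p.2 :=
    (((mf.sub mL).max measurable_const).comp measurable_snd).add
      (mG.comp (f := fun p : (ι → ℝ) × (ι → ℝ) => (K⁻¹ • p.1, p.2)) (by fun_prop))
  have eY : ∀ x z : ι → ℝ, K⁻¹ • (K • x + √K • z) = x + √K⁻¹ • z := fun x z => by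
    rw [← sm_eq hK, smul_smul, inv_mul_cancel₀ hK.ne', one_smul]
  have mI : Measurable fun x => ∫⁻ z, ENNReal.ofReal (R (x, z)) ∂gv ι :=
    mR.ennreal_ofReal.lintegral_prod_right'
  have h1 : ∀ x, ENNReal.ofReal (Tk K μ f x - log (Uk K F (fun u => exp (L u)) x)) ≤
      ∫⁻ z, ENNReal.ofReal (pm K μ (G' (K • x + √K • z)) (K • x + √K • z)) ∂gv ι +
        ∫⁻ z, ENNReal.ofReal (R (x, z)) ∂gv ι := fun x => by
    have mΦ : MG fun u => exp (L (F x + u)) := .of_bdd (by fun_prop) (exp B) fun u => by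
      rw [abs_of_pos (exp_pos _), exp_le_exp]; exact (le_abs_self _).trans (hL _)
    have e1 := IK_IK (inv_pos.2 hK).le (inv_pos.2 hK).le mΦ
    have i1 := intK (mg_IK mΦ K⁻¹) K⁻¹
    have c0 : 0 < Uk K F (fun u => exp (L u)) x := integral_exp_pos (intK mΦ (2 * K⁻¹))
    have c1 : ∀ z : ι → ℝ, 0 < ∫ z', exp (L (F x + (√K⁻¹ • z + √K⁻¹ • z'))) ∂gv ι := fun z =>
      integral_exp_pos (mΦ.affine _ _).int
    simp only [IK, ← two_mul] at e1 i1
    have i2 : Integrable (fun z => pm K μ f (K • x + √K • z)) (gv ι) :=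
      int_bdd ((m_pm K (G := fun _ => f) (mf.comp measurable_snd)).comp (by fun_prop))
        fun z => abs_pm hK hf _
    set c := Uk K F (fun u => exp (L u)) x with hc
    have e2 : Tk K μ f x - log c = ∫ z, (pm K μ f (K • x + √K • z) -
        ((∫ z', exp (L (F x + (√K⁻¹ • z + √K⁻¹ • z'))) ∂gv ι) / c + (log c - 1))) ∂gv ι := by
      rw [integral_sub i2 (by exact (i1.div_const c).add (integrable_const _)),
        integral_add (i1.div_const c) (integrable_const _), integral_div, e1]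
      have : (∫ z, exp (L (F x + √(2 * K⁻¹) • z)) ∂gv ι) / c = 1 := div_self c0.ne'
      rw [this]
      simp [Tk]
    rw [e2, ← lintegral_add_right _ (by fun_prop)]
    refine (ofReal_int_le _ _).trans (lintegral_mono fun z => ?_)
    refine le_trans (ENNReal.ofReal_le_ofReal ?_) ENNReal.ofReal_add_le
    have h2 := h.pt mf mL hf hL x (x + √K⁻¹ • z)
    have e3 : ∀ z', x + √K⁻¹ • z + (F x - x) + √K⁻¹ • z' = F x + (√K⁻¹ • z + √K⁻¹ • z') :=
      fun z' => by abel
    have h3 := h.H2 x z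
    have h4 := log_le_sub_one_of_pos (div_pos (c1 z) c0)
    rw [log_div (c1 z).ne' c0.ne'] at h4
    simp only [e3, sm_eq hK] at h2 h3
    simp only [G', eY]
    linarith
  refine (lintegral_mono h1).trans ?_
  rw [lintegral_add_right _ mI, two_mul, ← add_assoc]
  refine add_le_add_left ((exch hK mG').trans ?_) _
  rw [← lintegral_add_right _ mI]
  refine lintegral_mono fun x => ?_
  calc _ ≤ ∫⁻ z, ENNReal.ofReal (f x - L x) + ENNReal.ofReal (R (x, z)) ∂gv ι :=
        lintegral_mono fun z => ENNReal.ofReal_add_le.trans (add_le_add (by simp)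
          (ENNReal.ofReal_le_ofReal (by rw [eY]; exact h.H1 x z)))
    _ = _ := by rw [lintegral_add_left measurable_const]; simp

lemma Uk_bd (mF : Measurable F) (mf : Measurable f) {a c : ℝ} (h : ∀ x, f x ∈ Set.Icc a c) :
    Measurable (Uk K F f) ∧ ∀ x, Uk K F f x ∈ Set.Icc a c := by
  have m : Measurable fun p : (ι → ℝ) × (ι → ℝ) => f (F p.1 + √(2 * K⁻¹) • p.2) := by fun_prop
  refine ⟨(m.stronglyMeasurable.integral_prod_right' (ν := gv ι)).measurable, fun x => ?_⟩
  have i : Integrable (fun ξ => f (F x + √(2 * K⁻¹) • ξ)) (gv ι) :=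
    int_bdd (by fun_prop) fun ξ => abs_le_max_abs_abs (h _).1 (h _).2
  exact ⟨le_trans (by simp) (integral_mono (integrable_const a) i fun ξ => (h _).1),
    le_trans (integral_mono i (integrable_const c) fun ξ => (h _).2) (by simp)⟩

lemma Uk_iter (mF : Measurable F) (mf : Measurable f) {a c : ℝ} (h : ∀ x, f x ∈ Set.Icc a c) (j : ℕ) :
    Measurable ((Uk K F)^[j] f) ∧ ∀ x, (Uk K F)^[j] f x ∈ Set.Icc a c := by
  induction j with
  | zero => exact ⟨mf, h⟩
  | succ j ih => rw [Function.iterate_succ_apply']; exact Uk_bd mF ih.1 ih.2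

lemma Tk_iter [IsProbabilityMeasure μ] (hK : 0 < K) (mf : Measurable f) (h : ∀ x, |f x| ≤ B) (j : ℕ) :
    Measurable ((Tk K μ)^[j] f) ∧ ∀ x, |(Tk K μ)^[j] f x| ≤ B := by
  induction j with
  | zero => exact ⟨mf, h⟩
  | succ j ih =>
    rw [Function.iterate_succ_apply']
    have m : Measurable fun p : (ι → ℝ) × (ι → ℝ) => pm K μ ((Tk K μ)^[j] f) (K • p.1 + √K • p.2) :=
      (m_pm K (G := fun _ => (Tk K μ)^[j] f) (ih.1.comp measurable_snd)).comp (by fun_prop)
    refine ⟨(m.stronglyMeasurable.integral_prod_right' (ν := gv ι)).measurable, fun x => ?_⟩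
    exact (norm_integral_le_of_norm_le_const (μ := gv ι)
      (f := fun z => pm K μ ((Tk K μ)^[j] f) (K • x + √K • z))
      (.of_forall fun z => abs_pm hK ih.2 _)).trans (by simp)

lemma Hyp.half (h : Hyp K W F G b R) (mf : Measurable f) (hf : ∀ x, |f x| ≤ 1) {l : ℝ} (hl : |l| ≤ 1)
    (j : ℕ) : ∫⁻ x, ENNReal.ofReal (l * ((Tk K (volume.tilted W))^[j] f x - (Uk K F)^[j] f x) - l ^ 2)
      ∂(volume.tilted W) ≤ j * (2 * ∫⁻ x, ∫⁻ z, ENNReal.ofReal (R (x, z)) ∂gv ι ∂(volume.tilted W)) := by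
  have := h.prob
  have hT := Tk_iter (μ := volume.tilted W) h.K0 mf hf
  have hU := Uk_iter (K := K) h.mF mf fun x => abs_le.1 (hf x)
  have b1 : ∀ a : ℝ, |a| ≤ 1 → |l * a| ≤ 1 := fun a ha => by
    rw [abs_mul]; exact mul_le_one₀ hl (abs_nonneg _) ha
  have hE := Uk_iter (K := K) (f := fun x => exp (l * f x)) (a := exp (-1)) (c := exp 1) h.mF
    (by fun_prop) fun x => ⟨exp_le_exp.2 (abs_le.1 (b1 _ (hf x))).1,
      exp_le_exp.2 (abs_le.1 (b1 _ (hf x))).2⟩
  have E0 : ∀ j x, 0 < (Uk K F)^[j] (fun x => exp (l * f x)) x := fun j x =>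
    (exp_pos _).trans_le ((hE j).2 x).1
  have h1 : ∀ j x, (Uk K F)^[j] (fun x => exp (l * f x)) x ≤ 1 + l ^ 2 + l * (Uk K F)^[j] f x := by
    intro j
    induction j with
    | zero =>
      intro x
      have := (abs_le.1 (abs_exp_sub_one_sub_id_le (b1 _ (hf x)))).2
      have h2 : f x ^ 2 ≤ 1 := by rw [← sq_abs]; exact pow_le_one₀ (abs_nonneg _) (hf x)
      simp only [Function.iterate_zero, id]
      nlinarith [mul_le_mul_of_nonneg_left h2 (sq_nonneg l)]
    | succ j ih =>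
      intro x
      have m := (hU j).1
      have mF := h.mF
      have i : Integrable (fun ξ => (Uk K F)^[j] f (F x + √(2 * K⁻¹) • ξ)) (gv ι) :=
        int_bdd (by fun_prop) fun ξ => abs_le.2 ((hU j).2 _)
      rw [Function.iterate_succ_apply', Function.iterate_succ_apply', Uk, Uk]
      refine (integral_mono_of_nonneg (.of_forall fun ξ => (E0 j _).le)
        ((integrable_const (1 + l ^ 2)).add (i.const_mul l)) (.of_forall fun ξ => ih _)).trans_eq ?_
      rw [integral_add' (integrable_const _) (i.const_mul l), integral_const_mul]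
      simp
  have h2 : ∀ j : ℕ, ∫⁻ x, ENNReal.ofReal (l * (Tk K (volume.tilted W))^[j] f x -
      log ((Uk K F)^[j] (fun x => exp (l * f x)) x)) ∂(volume.tilted W) ≤
      j * (2 * ∫⁻ x, ∫⁻ z, ENNReal.ofReal (R (x, z)) ∂gv ι ∂(volume.tilted W)) := by
    intro j
    induction j with
    | zero => simp
    | succ j ih =>
      have := h.step (B := 1) ((hT j).1.const_mul l) (hE j).1.log (fun x => b1 _ ((hT j).2 x))
        fun x => abs_le.2 ⟨(le_log_iff_exp_le (E0 j x)).2 ((hE j).2 x).1,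
          (log_le_iff_le_exp (E0 j x)).2 ((hE j).2 x).2⟩
      simp only [exp_log (E0 _ _)] at this
      have e : ∀ (g : (ι → ℝ) → ℝ) x, Tk K (volume.tilted W) (fun x => l * g x) x =
          l * Tk K (volume.tilted W) g x := fun g x => by
        simp only [Tk, pm, mul_assoc, integral_const_mul, mul_div_assoc]
      simp only [Function.iterate_succ_apply', e] at this ⊢
      refine this.trans ((add_le_add_left ih _).trans_eq ?_)
      push_cast
      ring
  refine le_trans (lintegral_mono fun x => ENNReal.ofReal_le_ofReal ?_) (h2 j)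
  linarith [log_le_sub_one_of_pos (E0 j x), h1 j x]

/-- the entropy chain -/
theorem Hyp.chain (h : Hyp K W F G b R) (mf : Measurable f) (hf : ∀ x, |f x| ≤ 1) {l k : ℝ}
    (l0 : 0 < l) (l1 : l ≤ 1) (k0 : 0 ≤ k)
    (hk : ∫⁻ x, ∫⁻ z, ENNReal.ofReal (R (x, z)) ∂gv ι ∂(volume.tilted W) ≤ ENNReal.ofReal k) (j : ℕ) :
    l * ∫ x, |(Tk K (volume.tilted W))^[j] f x - (Uk K F)^[j] f x| ∂(volume.tilted W) ≤
      4 * (j * k) + l ^ 2 := by
  have := h.prob
  have m : Measurable fun x => (Tk K (volume.tilted W))^[j] f x - (Uk K F)^[j] f x :=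
    (Tk_iter (μ := volume.tilted W) h.K0 mf hf j).1.sub
    (Uk_iter (K := K) h.mF mf (fun x => abs_le.1 (hf x)) j).1
  have h1 := (h.half mf hf (l := l) (by rwa [abs_of_pos l0]) j).trans
    (mul_le_mul_right (mul_le_mul_right hk _) _)
  have h2 := (h.half mf hf (l := -l) (by rwa [abs_neg, abs_of_pos l0]) j).trans
    (mul_le_mul_right (mul_le_mul_right hk _) _)
  rw [← integral_const_mul, ← ENNReal.ofReal_le_ofReal_iff (by positivity)]
  refine (ofReal_int_le _ _).trans ((lintegral_mono (g := fun x => ENNReal.ofReal (l *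
    ((Tk K (volume.tilted W))^[j] f x - (Uk K F)^[j] f x) - l ^ 2) + ENNReal.ofReal (-l *
    ((Tk K (volume.tilted W))^[j] f x - (Uk K F)^[j] f x) - (-l) ^ 2) + ENNReal.ofReal (l ^ 2))
    fun x => ?_).trans ?_)
  · dsimp only
    generalize (Tk K (volume.tilted W))^[j] f x - (Uk K F)^[j] f x = a
    rcases le_total 0 a with ha | ha
    · rw [add_right_comm, abs_of_nonneg ha]
      exact le_trans (le_trans (ENNReal.ofReal_le_ofReal (by linarith)) ENNReal.ofReal_add_le)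
        le_self_add
    · rw [add_assoc, abs_of_nonpos ha]
      exact le_trans (le_trans (ENNReal.ofReal_le_ofReal (by linarith)) ENNReal.ofReal_add_le)
        le_add_self
  · rw [lintegral_add_right _ measurable_const,
      lintegral_add_left ((m.const_mul l).sub_const _).ennreal_ofReal]
    refine (add_le_add (add_le_add h1 h2) le_rfl).trans_eq ?_
    rw [ENNReal.ofReal_add (by positivity) (by positivity), ENNReal.ofReal_mul (by norm_num),
      ENNReal.ofReal_mul (by positivity), ENNReal.ofReal_natCast]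
    simp only [lintegral_const, measure_univ, mul_one, ENNReal.ofReal_ofNat]
    ring

end Crest.Agent.T157.Cq.Kl17

end
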