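import Crest.Agent.T157.KrA_53

/-!
# Row 157, part E (helper53): Ramer's inequality and the annealed TAP complexity bound

For independent standard Gaussians `z i` and functions `ψ i` with `0 ≤ ψ' ≤ 1`, put
`S = avg (z ψ - ψ')`, `W = avg ψ'`, `Q = avg ψ²`.  On `{Q ≤ 1, W ≤ 1 - k}` the variable `S` has
tails `exp (-n (1 + k/12) t²/4)` up to polynomial factors (`tail_up`, `tail_down`), hence
`E [exp (κ n S²); Q ≤ 1, W ≤ 1 - k, |S| ≥ δ] ≤ C exp (-c n)` for `κ < (1 + k/12)/4` (`ramer_int`).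
-/

set_option autoImplicit false
set_option linter.unusedSectionVars false

noncomputable section

namespace Crest.Agent.T157.Kr

open MeasureTheory ProbabilityTheory Real Filter Topology
open Crest.Agent.T157.E
open scoped ENNReal

/-! ### scalar inequalities -/

lemma neg_log_ge {θ : ℝ} (h0 : 0 ≤ θ) (h1 : θ < 1) : θ + θ ^ 2 / 2 ≤ -log (1 - θ) := by
  have h := sum_le_hasSum (Finset.range 2) (fun n _ => by positivity)
    (Real.hasSum_pow_div_log_of_abs_lt_one (x := θ) (by rw [abs_of_nonneg h0]; exact h1))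
  simp only [Finset.sum_range_succ, Finset.sum_range_zero] at h
  norm_num at h
  linarith

lemma mul_log_ge {θ : ℝ} (h0 : 0 ≤ θ) (h1 : θ < 1) :
    -θ + θ ^ 2 / 2 + θ ^ 3 / 6 ≤ (1 - θ) * log (1 - θ) := by
  have hd : ∀ x ∈ Set.Ico (0 : ℝ) 1, HasDerivAt
      (fun x : ℝ => x - x ^ 2 / 2 - x ^ 3 / 6 + (1 - x) * log (1 - x))
      (-x - x ^ 2 / 2 - log (1 - x)) x := by
    intro x hx
    have hx1 : 1 - x ≠ 0 := by linarith [hx.2]
    have a1 : HasDerivAt (fun x : ℝ => 1 - x) (-1) x := (hasDerivAt_id x).const_sub 1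
    have a2 := a1.mul (a1.log hx1)
    have a3 := (((hasDerivAt_id x).sub ((hasDerivAt_pow 2 x).div_const 2)).sub
      ((hasDerivAt_pow 3 x).div_const 6)).add a2
    refine a3.congr_deriv ?_
    field_simp
    ring
  have hm : MonotoneOn (fun x : ℝ => x - x ^ 2 / 2 - x ^ 3 / 6 + (1 - x) * log (1 - x))
      (Set.Ico 0 1) := by
    refine monotoneOn_of_deriv_nonneg (convex_Ico 0 1)
      (fun x hx => (hd x hx).continuousAt.continuousWithinAt) (fun x hx => ?_) fun x hx => ?_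
    · exact (hd x (interior_subset hx)).differentiableAt.differentiableWithinAt
    · have hx' := interior_subset hx
      rw [(hd x hx').deriv]
      linarith [neg_log_ge hx'.1 hx'.2]
  have := hm (show (0 : ℝ) ∈ Set.Ico (0 : ℝ) 1 from ⟨le_rfl, one_pos⟩) ⟨h0, h1⟩ h0
  simp only [sub_zero, log_one, mul_zero] at this
  norm_num at this
  linarith

lemma log_one_add_ge {x : ℝ} (h : 0 ≤ x) : x - x ^ 2 / 2 ≤ log (1 + x) := by
  refine le_trans ?_ (Real.le_log_one_add_of_nonneg h)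
  rw [le_div_iff₀ (by linarith)]
  nlinarith [pow_nonneg h 3]

lemma exp_mul_log_le {θ t : ℝ} (hθ : θ < 1) (h0 : 0 ≤ t) (h1 : t ≤ 1) :
    exp (t * log (1 - θ)) ≤ 1 - θ * t := by
  have h := convexOn_exp.2 (Set.mem_univ (log (1 - θ))) (Set.mem_univ 0) h0
    (show 0 ≤ 1 - t by linarith) (by ring)
  simp only [smul_eq_mul, mul_zero, add_zero, exp_zero, mul_one,
    exp_log (show 0 < 1 - θ by linarith)] at h
  linarith

/-- the optimal tilt -/
lemma exists_tilt {P W : ℝ} (hW0 : 0 < W) (hW1 : W ≤ 1) (hS : W ≤ P) :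
    ∃ θ a : ℝ, 0 ≤ θ ∧ θ < 1 ∧ 0 < a ∧ a ≤ 1 ∧
      (1 + (1 - W) / 12) * (P - W) ^ 2 / 4 ≤
        P ^ 2 / 2 - a ^ 2 * (P - θ) ^ 2 / 2 + log a + W * log (1 - θ) := by
  rcases le_total (P - W) (2 * (1 - W)) with h | h
  · set θ := (P - W) / 2 with hθ
    have h0 : 0 ≤ θ := by linarith
    have h1 : θ ≤ 1 - W := by linarith
    have h2 : θ < 1 := by linarith
    refine ⟨θ, 1, h0, h2, one_pos, le_rfl, ?_⟩
    have h3 := mul_log_ge h0 h2
    have hP : P = W + 2 * θ := by linarith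
    have h4 : (1 - θ) * (W * (θ + log (1 - θ)) + θ ^ 2 / 2 * (1 - (1 - W) / 3)) ≥ 0 := by
      have h5 := mul_le_mul_of_nonneg_left h3 hW0.le
      have h6 : 0 ≤ θ ^ 2 * (1 - W - θ) := mul_nonneg (sq_nonneg θ) (by linarith)
      nlinarith
    have h7 : 0 ≤ W * (θ + log (1 - θ)) + θ ^ 2 / 2 * (1 - (1 - W) / 3) :=
      nonneg_of_mul_nonneg_right h4 (by linarith) |> fun h => by
        by_contra hc
        push Not at hc
        nlinarith
    rw [log_one, hP]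
    have h8 : 0 ≤ θ ^ 2 * (1 - W) := mul_nonneg (sq_nonneg θ) (by linarith)
    nlinarith
  · set u := P - W - 2 * (1 - W) with hu
    set θ := 1 - W with hθ
    have hu0 : 0 ≤ u := by linarith
    have h0 : 0 ≤ θ := by linarith
    have h2 : θ < 1 := by linarith
    refine ⟨θ, (1 + u)⁻¹, h0, h2, by positivity, inv_le_one_of_one_le₀ (by linarith), ?_⟩
    have h3 := mul_log_ge h0 h2
    have hP : P - θ = 1 + u := by linarith
    have hP' : P = 1 + u + θ := by linarith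
    have hW : W = 1 - θ := by linarith
    have h4 : (1 + u)⁻¹ ^ 2 * (1 + u) ^ 2 = 1 := by field_simp
    have h5 := Real.log_le_sub_one_of_pos (show 0 < 1 + u by linarith)
    rw [hP, h4, log_inv, show P - W = u + 2 * θ by linarith, hP']
    conv_rhs => rw [hW]
    have h6 : θ * (u + 2 * θ) ^ 2 ≤ θ * (2 * u ^ 2 + 8 * θ ^ 2) :=
      mul_le_mul_of_nonneg_left (by nlinarith [sq_nonneg (u - 2 * θ)]) h0
    have h7 : θ * u ^ 2 ≤ u ^ 2 := mul_le_of_le_one_left (sq_nonneg u) h2.le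
    nlinarith [sq_nonneg u]

/-! ### Ramer's inequality -/

/-- the Ramer density of `z ↦ a (z - θ ψ z)` -/
def ram (ψ ψ' : ℝ → ℝ) (θ a z : ℝ) : ℝ :=
  exp (z ^ 2 / 2 - a ^ 2 * (z - θ * ψ z) ^ 2 / 2) * (a * (1 - θ * ψ' z))

lemma measurable_of_hasDerivAt {ψ ψ' : ℝ → ℝ} (hd : ∀ z, HasDerivAt ψ (ψ' z) z) :
    Measurable ψ ∧ Measurable ψ' := by
  refine ⟨(continuous_iff_continuousAt.2 fun z => (hd z).continuousAt).measurable, ?_⟩
  have : ψ' = deriv ψ := funext fun z => (hd z).deriv.symm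
  rw [this]
  exact measurable_deriv ψ

theorem ramer1 {ψ ψ' : ℝ → ℝ} (hd : ∀ z, HasDerivAt ψ (ψ' z) z) {θ a : ℝ} (ha : 0 ≤ a)
    (hθ : ∀ z, θ * ψ' z ≤ 1) :
    ∫⁻ z, ENNReal.ofReal (ram ψ ψ' θ a z) ∂(gaussianReal 0 1) ≤ 1 := by
  obtain ⟨m1, m2⟩ := measurable_of_hasDerivAt hd
  have hT : ∀ z, HasDerivAt (fun z => a * (z - θ * ψ z)) (a * (1 - θ * ψ' z)) z := fun z =>
    ((hasDerivAt_id z).sub ((hd z).const_mul θ)).const_mul a
  have hT0 : ∀ z, 0 ≤ a * (1 - θ * ψ' z) := fun z => mul_nonneg ha (by linarith [hθ z])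
  have hmono : Monotone fun z => a * (z - θ * ψ z) :=
    monotone_of_deriv_nonneg (fun z => (hT z).differentiableAt) fun z => by
      rw [(hT z).deriv]; exact hT0 z
  have h := lintegral_image_eq_lintegral_deriv_mul_of_monotoneOn MeasurableSet.univ
    (fun z _ => (hT z).hasDerivWithinAt) (hmono.monotoneOn _) (gaussianPDF 0 1)
  rw [Measure.restrict_univ] at h
  rw [gaussianReal_of_var_ne_zero 0 one_ne_zero,
    lintegral_withDensity_eq_lintegral_mul _ (measurable_gaussianPDF 0 1)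
      (by unfold ram; fun_prop)]
  refine le_trans (le_of_eq ?_) (h.symm.trans_le ((setLIntegral_le_lintegral _ _).trans_eq
    (lintegral_gaussianPDF_eq_one 0 one_ne_zero)))
  refine lintegral_congr fun z => ?_
  rw [Pi.mul_apply, gaussianPDF, gaussianPDF, ← ENNReal.ofReal_mul (gaussianPDFReal_nonneg _ _ _),
    ← ENNReal.ofReal_mul (hT0 z)]
  congr 1
  simp only [gaussianPDFReal, ram, sub_zero, NNReal.coe_one, mul_one]
  have : exp (-z ^ 2 / 2) * exp (z ^ 2 / 2 - a ^ 2 * (z - θ * ψ z) ^ 2 / 2) =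
      exp (-(a * (z - θ * ψ z)) ^ 2 / 2) := by
    rw [← exp_add]; congr 1; ring
  rw [← this]; ring

variable {ι : Type*} [Fintype ι]

/-- site functions with slopes in `[0,1]` -/
structure Slope (ψ ψ' : ι → ℝ → ℝ) : Prop where
  hd : ∀ i z, HasDerivAt (ψ i) (ψ' i z) z
  h0 : ∀ i z, 0 ≤ ψ' i z
  h1 : ∀ i z, ψ' i z ≤ 1

variable {ψ ψ' : ι → ℝ → ℝ}

/-- product form, Markov's inequality -/
theorem ramer_markov (hd : ∀ i z, HasDerivAt (ψ i) (ψ' i z) z) {θ a : ℝ} (ha : 0 ≤ a)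
    (hθ : ∀ i z, θ * ψ' i z ≤ 1) (V : ℝ) :
    (gv ι).real {z | exp V ≤ ∏ i, ram (ψ i) (ψ' i) θ a (z i)} ≤ exp (-V) := by
  have h0 : ∀ i z, 0 ≤ ram (ψ i) (ψ' i) θ a z := fun i z =>
    mul_nonneg (exp_pos _).le (mul_nonneg ha (by linarith [hθ i z]))
  have hm : ∀ i, Measurable (ram (ψ i) (ψ' i) θ a) := fun i => by
    obtain ⟨m1, m2⟩ := measurable_of_hasDerivAt (hd i)
    unfold ram; fun_prop
  have hi : ∀ i, Integrable (ram (ψ i) (ψ' i) θ a) (gaussianReal 0 1) := fun i =>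
    ⟨(hm i).aestronglyMeasurable, (hasFiniteIntegral_iff_ofReal (ae_of_all _ (h0 i))).2
      ((ramer1 (hd i) ha (hθ i)).trans_lt ENNReal.one_lt_top)⟩
  have h1 : ∀ i, ∫ z, ram (ψ i) (ψ' i) θ a z ∂(gaussianReal 0 1) ≤ 1 := fun i => by
    rw [integral_eq_lintegral_of_nonneg_ae (ae_of_all _ (h0 i)) (hm i).aestronglyMeasurable]
    exact ENNReal.toReal_le_of_le_ofReal zero_le_one
      (by rw [ENNReal.ofReal_one]; exact ramer1 (hd i) ha (hθ i))
  have h2 := mul_meas_ge_le_integral_of_nonneg (μ := gv ι)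
    (f := fun z => ∏ i, ram (ψ i) (ψ' i) θ a (z i))
    (ae_of_all _ fun z => Finset.prod_nonneg fun i _ => h0 i _)
    (Integrable.fintype_prod (f := fun i => ram (ψ i) (ψ' i) θ a) hi) (exp V)
  rw [integral_fintype_prod_eq_prod (f := fun i => ram (ψ i) (ψ' i) θ a)] at h2
  have h3 : ∏ i, ∫ z, ram (ψ i) (ψ' i) θ a z ∂(gaussianReal 0 1) ≤ 1 :=
    Finset.prod_le_one (fun i _ => integral_nonneg (h0 i)) fun i _ => h1 i
  rw [exp_neg, ← one_div, le_div_iff₀ (exp_pos V), mul_comm]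
  exact h2.trans h3

lemma prod_ram_ge (h : Slope ψ ψ') {θ a : ℝ} (hθ : θ < 1) (ha : 0 < a) (z : ι → ℝ) :
    exp ((1 - a ^ 2) / 2 * ∑ i, z i ^ 2 + a ^ 2 * θ * ∑ i, z i * ψ i (z i) -
      a ^ 2 * θ ^ 2 / 2 * ∑ i, ψ i (z i) ^ 2 + Fintype.card ι * log a +
        log (1 - θ) * ∑ i, ψ' i (z i)) ≤ ∏ i, ram (ψ i) (ψ' i) θ a (z i) := by
  have e : (1 - a ^ 2) / 2 * ∑ i, z i ^ 2 + a ^ 2 * θ * ∑ i, z i * ψ i (z i) -
      a ^ 2 * θ ^ 2 / 2 * ∑ i, ψ i (z i) ^ 2 + Fintype.card ι * log a +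
        log (1 - θ) * ∑ i, ψ' i (z i) =
      ∑ i, ((z i ^ 2 / 2 - a ^ 2 * (z i - θ * ψ i (z i)) ^ 2 / 2) +
        (log a + ψ' i (z i) * log (1 - θ))) := by
    have : (Fintype.card ι : ℝ) * log a = ∑ _i : ι, log a := by simp
    rw [this]
    simp only [Finset.mul_sum, ← Finset.sum_add_distrib, ← Finset.sum_sub_distrib]
    exact Finset.sum_congr rfl fun i _ => by ring
  rw [e, exp_sum]
  refine Finset.prod_le_prod (fun i _ => (exp_pos _).le) fun i _ => ?_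
  rw [exp_add, exp_add, exp_log ha, ram]
  exact mul_le_mul_of_nonneg_left
    (mul_le_mul_of_nonneg_left (exp_mul_log_le hθ (h.h0 i _) (h.h1 i _)) ha.le) (exp_pos _).le

/-- upper cell bound -/
theorem cell_up (h : Slope ψ ψ') {P W : ℝ} (hW0 : 0 < W) (hW1 : W ≤ 1) (hS : W ≤ P) :
    (gv ι).real {z | Fintype.card ι * P ≤ ∑ i, z i * ψ i (z i) ∧
      ∑ i, ψ' i (z i) ≤ Fintype.card ι * W ∧ ∑ i, ψ i (z i) ^ 2 ≤ Fintype.card ι} ≤
      exp (-(Fintype.card ι * ((1 + (1 - W) / 12) * (P - W) ^ 2 / 4))) := by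
  obtain ⟨θ, a, h0, h1, ha, ha1, hV⟩ := exists_tilt hW0 hW1 hS
  refine le_trans (measureReal_mono fun z hz => ?_) (ramer_markov h.hd ha.le
    (θ := θ) (fun i z => mul_le_one₀ h1.le (h.h0 i z) (h.h1 i z)) _)
  obtain ⟨z1, z2, z3⟩ := hz
  refine le_trans (exp_le_exp.2 ?_) (prod_ram_ge h h1 ha z)
  set n : ℝ := (Fintype.card ι : ℝ) with hn
  have hn0 : 0 ≤ n := Nat.cast_nonneg _
  have hP0 : 0 ≤ P := by linarith
  have hZ : n * P ^ 2 ≤ ∑ i, z i ^ 2 := by
    have hZ0 : 0 ≤ ∑ i, z i ^ 2 := Finset.sum_nonneg fun i _ => sq_nonneg _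
    rcases hn0.eq_or_lt with h' | h'
    · rw [← h', zero_mul]; exact hZ0
    · have c := Finset.sum_mul_sq_le_sq_mul_sq Finset.univ z fun i => ψ i (z i)
      have c1 : (n * P) ^ 2 ≤ (∑ i, z i * ψ i (z i)) ^ 2 :=
        pow_le_pow_left₀ (by positivity) z1 2
      have c2 := mul_le_mul_of_nonneg_left z3 hZ0
      refine le_of_mul_le_mul_right ?_ h'
      nlinarith
  have hl : log (1 - θ) ≤ 0 := log_nonpos (by linarith) (by linarith)
  have ha2 : a ^ 2 ≤ 1 := pow_le_one₀ ha.le ha1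
  have b1 := mul_le_mul_of_nonneg_left hZ (show 0 ≤ (1 - a ^ 2) / 2 by linarith)
  have b2 := mul_le_mul_of_nonneg_left z1 (show 0 ≤ a ^ 2 * θ by positivity)
  have b3 := mul_le_mul_of_nonneg_left z3 (show 0 ≤ a ^ 2 * θ ^ 2 / 2 by positivity)
  have b4 := mul_le_mul_of_nonpos_left z2 hl
  have b5 := mul_le_mul_of_nonneg_left hV hn0
  nlinarith

/-- lower tail -/
theorem tail_down (h : Slope ψ ψ') {k t : ℝ} (hk : k ≤ 1) (ht : 0 ≤ t) :
    (gv ι).real {z | ∑ i, (z i * ψ i (z i) - ψ' i (z i)) ≤ -(Fintype.card ι * t) ∧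
      ∑ i, ψ' i (z i) ≤ Fintype.card ι * (1 - k) ∧ ∑ i, ψ i (z i) ^ 2 ≤ Fintype.card ι} ≤
      exp (-(Fintype.card ι * (t ^ 2 / (2 * (2 - k))))) := by
  set x := t / (2 - k) with hx
  have hk2 : 0 < 2 - k := by linarith
  have hx0 : 0 ≤ x := by positivity
  refine le_trans (measureReal_mono fun z hz => ?_) (ramer_markov h.hd zero_le_one
    (θ := -x) (fun i z => by nlinarith [mul_nonneg hx0 (h.h0 i z)]) _)
  obtain ⟨z1, z2, z3⟩ := hz
  refine le_trans (exp_le_exp.2 ?_) (prod_ram_ge h (by linarith) one_pos z)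
  set n : ℝ := (Fintype.card ι : ℝ) with hn
  have hn0 : 0 ≤ n := Nat.cast_nonneg _
  rw [Finset.sum_sub_distrib] at z1
  have hW0 : 0 ≤ ∑ i, ψ' i (z i) := Finset.sum_nonneg fun i _ => h.h0 i _
  have b1 := mul_le_mul_of_nonneg_right (log_one_add_ge hx0) hW0
  have b2 := mul_le_mul_of_nonneg_left z1 hx0
  have b3 := mul_le_mul_of_nonneg_left z3 (show 0 ≤ x ^ 2 / 2 by positivity)
  have b4 := mul_le_mul_of_nonneg_left z2 (show 0 ≤ x ^ 2 / 2 by positivity)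
  have e : t ^ 2 / (2 * (2 - k)) = x * t - x ^ 2 / 2 * (2 - k) := by
    rw [hx]; field_simp; ring
  rw [e, log_one, sub_neg_eq_add]
  nlinarith

/-- upper tail -/
theorem tail_up (h : Slope ψ ψ') {k t : ℝ} {N : ℕ} (hN : 0 < N) (hkN : 1 / (N : ℝ) ≤ k)
    (ht : 1 / (N : ℝ) ≤ t) :
    (gv ι).real {z | Fintype.card ι * t ≤ ∑ i, (z i * ψ i (z i) - ψ' i (z i)) ∧
      ∑ i, ψ' i (z i) ≤ Fintype.card ι * (1 - k) ∧ ∑ i, ψ i (z i) ^ 2 ≤ Fintype.card ι} ≤
      N * exp (-(Fintype.card ι * ((1 + (k - 1 / N) / 12) * (t - 1 / N) ^ 2 / 4))) := by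
  classical
  set n : ℝ := (Fintype.card ι : ℝ) with hn
  have hn0 : 0 ≤ n := Nat.cast_nonneg _
  have hN' : (0 : ℝ) < N := Nat.cast_pos.2 hN
  rcases hn0.eq_or_lt with hz | hnpos
  · refine measureReal_le_one.trans ?_
    rw [← hz, zero_mul, neg_zero, exp_zero, mul_one]
    exact_mod_cast hN
  set J := (Finset.range N).filter fun j : ℕ => (j : ℝ) / N ≤ 1 - k with hJ
  set C : ℕ → Set (ι → ℝ) := fun j => {z | n * (t + j / N) ≤ ∑ i, z i * ψ i (z i) ∧
      ∑ i, ψ' i (z i) ≤ n * ((j + 1) / N) ∧ ∑ i, ψ i (z i) ^ 2 ≤ n} with hC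
  have hcov : {z : ι → ℝ | n * t ≤ ∑ i, (z i * ψ i (z i) - ψ' i (z i)) ∧
      ∑ i, ψ' i (z i) ≤ n * (1 - k) ∧ ∑ i, ψ i (z i) ^ 2 ≤ n} ⊆ ⋃ j ∈ J, C j := by
    rintro z ⟨z1, z2, z3⟩
    rw [Finset.sum_sub_distrib] at z1
    have hW0 : 0 ≤ ∑ i, ψ' i (z i) := Finset.sum_nonneg fun i _ => h.h0 i _
    set w := (∑ i, ψ' i (z i)) / n with hw
    have hw0 : 0 ≤ w := by positivity
    have hw1 : ∑ i, ψ' i (z i) = n * w := by rw [hw]; field_simp
    have hw2 : w ≤ 1 - k := by rw [hw, div_le_iff₀ hnpos]; linarith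
    have f1 : (⌊N * w⌋₊ : ℝ) ≤ N * w := Nat.floor_le (by positivity)
    have f2 : N * w < ⌊N * w⌋₊ + 1 := Nat.lt_floor_add_one _
    have f3 : (⌊N * w⌋₊ : ℝ) / N ≤ w := by rw [div_le_iff₀ hN']; linarith
    have f4 : w ≤ ((⌊N * w⌋₊ : ℝ) + 1) / N := by rw [le_div_iff₀ hN']; linarith
    have f5 : (1 : ℝ) ≤ k * N := by rwa [div_le_iff₀ hN'] at hkN
    simp only [Set.mem_iUnion]
    refine ⟨⌊N * w⌋₊, Finset.mem_filter.2 ⟨Finset.mem_range.2 ?_, f3.trans hw2⟩, ?_, ?_, z3⟩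
    · have : (⌊N * w⌋₊ : ℝ) < N := by nlinarith
      exact_mod_cast this
    · nlinarith [mul_le_mul_of_nonneg_left f3 hn0]
    · rw [hw1]; exact mul_le_mul_of_nonneg_left f4 hn0
  refine (measureReal_mono hcov (measure_ne_top _ _)).trans ((measureReal_biUnion_finset_le _ _).trans ?_)
  have hb : ∀ j ∈ J, (gv ι).real (C j) ≤
      exp (-(n * ((1 + (k - 1 / N) / 12) * (t - 1 / N) ^ 2 / 4))) := by
    intro j hj
    have hj1 : (j : ℝ) / N ≤ 1 - k := (Finset.mem_filter.1 hj).2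
    have e1 : ((j : ℝ) + 1) / N = j / N + 1 / N := add_div _ _ _
    refine (cell_up h (P := t + j / N) (W := (j + 1) / N) (by positivity) (by linarith)
      (by linarith)).trans (exp_le_exp.2 (neg_le_neg (mul_le_mul_of_nonneg_left ?_ hn0)))
    rw [show t + j / N - (j + 1) / N = t - 1 / N by linarith]
    have := sq_nonneg (t - 1 / N)
    nlinarith
  calc ∑ j ∈ J, (gv ι).real (C j)
      ≤ J.card • exp (-(n * ((1 + (k - 1 / N) / 12) * (t - 1 / N) ^ 2 / 4))) :=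
        Finset.sum_le_card_nsmul _ _ _ hb
    _ ≤ _ := by
        rw [nsmul_eq_mul]
        refine mul_le_mul_of_nonneg_right ?_ (exp_pos _).le
        have : J.card ≤ N := (Finset.card_filter_le _ _).trans_eq (Finset.card_range N)
        exact_mod_cast this

/-! ### integrated form -/

lemma slice_num {κ α δ : ℝ} (hκ : 0 ≤ κ) (hα : κ < α) (hδ : 0 < δ) :
    ∃ η γ : ℝ, 0 < η ∧ η ≤ δ / 2 ∧ 0 < γ ∧ ∀ j : ℕ,
      κ * (δ + (j + 1) * η) ^ 2 - α * (δ + j * η - η) ^ 2 ≤ -(γ * (1 + j)) := by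
  set η := min (δ / 2) ((α - κ) * δ / (32 * (κ + 1))) with hη
  have hg : 0 < α - κ := by linarith
  have h0 : 0 < η := lt_min (by positivity) (by positivity)
  have h1 : η ≤ δ / 2 := min_le_left _ _
  have h2 : η * (32 * (κ + 1)) ≤ (α - κ) * δ := by
    rw [← le_div_iff₀ (by positivity)]; exact min_le_right _ _
  refine ⟨η, (α - κ) * η ^ 2 / 2, h0, h1, by positivity, fun j => ?_⟩
  have hj : (0 : ℝ) ≤ j := Nat.cast_nonneg j
  set t := δ + j * η - η with ht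
  have t1 : δ / 2 ≤ t := by nlinarith
  have t2 : (1 + j) * η ≤ t := by nlinarith
  have t3 : η ^ 2 * (1 + j) ≤ t ^ 2 := by
    have := pow_le_pow_left₀ (by positivity) t2 2
    nlinarith [mul_nonneg (sq_nonneg η) (mul_nonneg hj (show (0:ℝ) ≤ 1 + j by linarith))]
  have e : δ + (j + 1) * η = t + 2 * η := by rw [ht]; ring
  have t0 : 0 < t := by linarith
  have t4 : 16 * κ * η ≤ (α - κ) * t := by nlinarith
  have t5 : κ * (4 * η * t + 4 * η ^ 2) ≤ (α - κ) * t ^ 2 / 2 := by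
    have a1 : 4 * η * t + 4 * η ^ 2 ≤ 8 * η * t := by nlinarith
    have a2 := mul_le_mul_of_nonneg_left a1 hκ
    have a3 := mul_le_mul_of_nonneg_right t4 t0.le
    nlinarith
  rw [e]
  nlinarith [mul_le_mul_of_nonneg_left t3 hg.le]

/-- from Gaussian-type tails to exponential moments -/
lemma slice_int {Ω : Type*} [MeasurableSpace Ω] (μ : Measure Ω) [IsFiniteMeasure μ] {A : Set Ω}
    (hA : MeasurableSet A) {X : Ω → ℝ} (hX : Measurable X) {κ α δ η γ n C : ℝ} (hκ : 0 ≤ κ)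
    (hδ : 0 < δ) (hη : 0 < η) (hγ : 0 < γ) (hn : 1 ≤ n) (hC : 0 ≤ C)
    (hnum : ∀ j : ℕ, κ * (δ + (j + 1) * η) ^ 2 - α * (δ + j * η - η) ^ 2 ≤ -(γ * (1 + j)))
    (htail : ∀ t, δ ≤ t → μ.real (A ∩ {ω | t ≤ X ω}) ≤ C * exp (-(n * (α * (t - η) ^ 2)))) :
    ∫⁻ ω in A ∩ {ω | δ ≤ X ω}, ENNReal.ofReal (exp (κ * n * X ω ^ 2)) ∂μ ≤
      ENNReal.ofReal (C * (1 - exp (-γ))⁻¹ * exp (-(γ * n))) := by
  set B : ℕ → Set Ω := fun j => (A ∩ {ω | δ + j * η ≤ X ω}) ∩ {ω | X ω ≤ δ + (j + 1) * η} with hB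
  have hcov : A ∩ {ω | δ ≤ X ω} ⊆ ⋃ j, B j := by
    rintro ω ⟨h1, h2⟩
    have h2' : δ ≤ X ω := h2
    have f0 : 0 ≤ (X ω - δ) / η := div_nonneg (by linarith) hη.le
    have f1 := Nat.floor_le f0
    have f2 := (Nat.lt_floor_add_one ((X ω - δ) / η)).le
    rw [le_div_iff₀ hη] at f1
    rw [div_le_iff₀ hη] at f2
    exact Set.mem_iUnion.2 ⟨⌊(X ω - δ) / η⌋₊, ⟨h1, by simp only [Set.mem_ofPred_eq]; linarith⟩,
      by simp only [Set.mem_ofPred_eq]; linarith⟩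
  have hr0 : 0 ≤ exp (-γ) := (exp_pos _).le
  have hr1 : exp (-γ) < 1 := exp_lt_one_iff.2 (by linarith)
  have hb : ∀ j, ∫⁻ ω in B j, ENNReal.ofReal (exp (κ * n * X ω ^ 2)) ∂μ ≤
      ENNReal.ofReal (C * exp (-(γ * n)) * exp (-γ) ^ j) := by
    intro j
    have hj : (0 : ℝ) ≤ j := Nat.cast_nonneg j
    have hm : MeasurableSet (B j) :=
      (hA.inter (measurableSet_le measurable_const hX)).inter (measurableSet_le hX measurable_const)
    calc ∫⁻ ω in B j, ENNReal.ofReal (exp (κ * n * X ω ^ 2)) ∂μ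
        ≤ ∫⁻ _ω in B j, ENNReal.ofReal (exp (κ * n * (δ + (j + 1) * η) ^ 2)) ∂μ := by
          refine setLIntegral_mono' hm fun ω hω => ENNReal.ofReal_le_ofReal (exp_le_exp.2 ?_)
          have h1 : δ + j * η ≤ X ω := hω.1.2
          have h2 : X ω ≤ δ + (j + 1) * η := hω.2
          exact mul_le_mul_of_nonneg_left
            (pow_le_pow_left₀ (le_trans (by positivity) h1) h2 2) (by positivity)
      _ = ENNReal.ofReal (exp (κ * n * (δ + (j + 1) * η) ^ 2) * μ.real (B j)) := by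
          rw [setLIntegral_const, ENNReal.ofReal_mul (exp_pos _).le, ofReal_measureReal]
      _ ≤ _ := by
          refine ENNReal.ofReal_le_ofReal ?_
          have h1 : μ.real (B j) ≤ C * exp (-(n * (α * (δ + j * η - η) ^ 2))) :=
            (measureReal_mono Set.inter_subset_left).trans (htail _ (by nlinarith))
          refine (mul_le_mul_of_nonneg_left h1 (exp_pos _).le).trans ?_
          rw [mul_left_comm, mul_assoc C, ← exp_add, ← exp_nat_mul, ← exp_add]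
          refine mul_le_mul_of_nonneg_left (exp_le_exp.2 ?_) hC
          have h2 := mul_le_mul_of_nonneg_left (hnum j) (show 0 ≤ n by linarith)
          have h3 : γ * j ≤ n * (γ * j) := le_mul_of_one_le_left (by positivity) hn
          nlinarith
  refine (lintegral_mono_set hcov).trans ((lintegral_iUnion_le _ _).trans
    ((ENNReal.tsum_le_tsum hb).trans_eq ?_))
  have hs := (hasSum_geometric_of_lt_one hr0 hr1).mul_left (C * exp (-(γ * n)))
  rw [← ENNReal.ofReal_tsum_of_nonneg (fun j => by positivity) hs.summable, hs.tsum_eq]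
  congr 1
  ring

/-- the Stein discrepancy `avg (z ψ - ψ')` -/
def Sd (ψ ψ' : ι → ℝ → ℝ) (z : ι → ℝ) : ℝ :=
  (∑ i, (z i * ψ i (z i) - ψ' i (z i))) / Fintype.card ι

/-- the constraint set `avg ψ' ≤ 1 - k`, `avg ψ² ≤ 1` -/
def Adm (ψ ψ' : ι → ℝ → ℝ) (k : ℝ) : Set (ι → ℝ) :=
  {z | ∑ i, ψ' i (z i) ≤ Fintype.card ι * (1 - k) ∧ ∑ i, ψ i (z i) ^ 2 ≤ Fintype.card ι}

lemma Slope.measurable (h : Slope ψ ψ') (i : ι) : Measurable (ψ i) :=
  (measurable_of_hasDerivAt (h.hd i)).1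

lemma Slope.measurable' (h : Slope ψ ψ') (i : ι) : Measurable (ψ' i) :=
  (measurable_of_hasDerivAt (h.hd i)).2

lemma Slope.measurable_Sd (h : Slope ψ ψ') : Measurable (Sd ψ ψ') := by
  have := h.measurable; have := h.measurable'
  unfold Sd; fun_prop

lemma Slope.measurableSet_Adm (h : Slope ψ ψ') (k : ℝ) : MeasurableSet (Adm ψ ψ' k) := by
  have := h.measurable; have := h.measurable'
  have h1 : Measurable fun z : ι → ℝ => ∑ i, ψ' i (z i) := by fun_prop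
  have h2 : Measurable fun z : ι → ℝ => ∑ i, ψ i (z i) ^ 2 := by fun_prop
  exact (measurableSet_le h1 measurable_const).inter (measurableSet_le h2 measurable_const)

/-- two-sided tail of the Stein discrepancy on the constraint set -/
theorem tail_abs [Nonempty ι] (h : Slope ψ ψ') {k t : ℝ} (hk1 : k ≤ 1) {N : ℕ} (hN : 0 < N)
    (hkN : 1 / (N : ℝ) ≤ k) (ht : 1 / (N : ℝ) ≤ t) :
    (gv ι).real (Adm ψ ψ' k ∩ {z | t ≤ |Sd ψ ψ' z|}) ≤
      (N + 1) * exp (-(Fintype.card ι * ((1 + (k - 1 / N) / 12) / 4 * (t - 1 / N) ^ 2))) := by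
  have hn : (0 : ℝ) < Fintype.card ι := by exact_mod_cast Fintype.card_pos
  have hN' : (0 : ℝ) < 1 / N := by positivity
  have h1 := tail_up h hN hkN ht
  have h2 := tail_down h hk1 (hN'.le.trans ht)
  refine le_trans (measureReal_mono fun z hz => ?_) ((measureReal_union_le _ _).trans
    ((add_le_add h1 h2).trans ?_))
  · obtain ⟨⟨z1, z2⟩, z3⟩ := hz
    have z3' : t ≤ |Sd ψ ψ' z| := z3
    rcases le_abs.1 z3' with z4 | z4
    · left
      rw [Sd, le_div_iff₀ hn] at z4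
      exact ⟨by linarith, z1, z2⟩
    · right
      rw [Sd, ← neg_div, le_div_iff₀ hn] at z4
      exact ⟨by linarith, z1, z2⟩
  · rw [add_mul (N : ℝ), one_mul]
    refine add_le_add (le_of_eq ?_) (exp_le_exp.2 (neg_le_neg (mul_le_mul_of_nonneg_left ?_ hn.le)))
    · congr 4; ring
    · have a1 : (t - 1 / N) ^ 2 ≤ t ^ 2 := pow_le_pow_left₀ (by linarith) (by linarith) 2
      have a2 : (1 + (k - 1 / N) / 12) / 4 ≤ 1 / (2 * (2 - k)) := by
        rw [div_le_div_iff₀ (by norm_num) (by linarith)]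
        nlinarith
      calc (1 + (k - 1 / N) / 12) / 4 * (t - 1 / N) ^ 2 ≤ 1 / (2 * (2 - k)) * t ^ 2 :=
            mul_le_mul a2 a1 (sq_nonneg _) (by have : 0 < 2 - k := by linarith
                                               positivity)
        _ = _ := by ring

universe u

/-- **annealed complexity bound**: the weight `exp (κ n S²)`, `κ < (1 + k/12)/4`, gives
exponentially small mass to `{|S| ≥ δ}` inside the constraint set. -/
theorem ramer_int {k κ δ : ℝ} (hk : 0 < k) (hk1 : k ≤ 1) (hκ0 : 0 ≤ κ) (hκ : κ < (1 + k / 12) / 4)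
    (hδ : 0 < δ) : ∃ C c : ℝ, 0 ≤ C ∧ 0 < c ∧ ∀ {ι : Type u} [Fintype ι] [Nonempty ι]
      {ψ ψ' : ι → ℝ → ℝ}, Slope ψ ψ' →
      ∫⁻ z in Adm ψ ψ' k ∩ {z | δ ≤ |Sd ψ ψ' z|},
        ENNReal.ofReal (exp (κ * Fintype.card ι * Sd ψ ψ' z ^ 2)) ∂(gv ι) ≤
        ENNReal.ofReal (C * exp (-(c * Fintype.card ι))) := by
  set α := (κ + (1 + k / 12) / 4) / 2 with hα
  obtain ⟨η, γ, hη, hηδ, hγ, hnum⟩ := slice_num (α := α) hκ0 (by linarith) hδ
  obtain ⟨N, hN⟩ := exists_nat_one_div_lt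
    (show 0 < min (min η k) (48 * ((1 + k / 12) / 4 - α)) from
      lt_min (lt_min hη hk) (by linarith))
  have hN1 : 1 / ((N + 1 : ℕ) : ℝ) ≤ η := by
    push_cast; exact hN.le.trans ((min_le_left _ _).trans (min_le_left _ _))
  have hN2 : 1 / ((N + 1 : ℕ) : ℝ) ≤ k := by
    push_cast; exact hN.le.trans ((min_le_left _ _).trans (min_le_right _ _))
  have hN3 : 1 / ((N + 1 : ℕ) : ℝ) ≤ 48 * ((1 + k / 12) / 4 - α) := by
    push_cast; exact hN.le.trans (min_le_right _ _)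
  have hr1 : exp (-γ) < 1 := exp_lt_one_iff.2 (by linarith)
  have hr2 : 0 < 1 - exp (-γ) := by linarith
  refine ⟨(((N + 1 : ℕ) : ℝ) + 1) * (1 - exp (-γ))⁻¹, γ, by positivity, hγ, ?_⟩
  intro ι _ _ ψ ψ' h
  have hn : (1 : ℝ) ≤ Fintype.card ι := by exact_mod_cast Fintype.card_pos
  have key := slice_int (gv ι) (h.measurableSet_Adm k) h.measurable_Sd.abs hκ0 hδ hη hγ hn
    (C := ((N + 1 : ℕ) : ℝ) + 1) (by positivity) hnum (fun t ht => by
      refine (tail_abs h hk1 (Nat.succ_pos N) hN2 (by linarith)).trans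
        (mul_le_mul_of_nonneg_left (exp_le_exp.2 (neg_le_neg
          (mul_le_mul_of_nonneg_left ?_ (by linarith)))) (by positivity))
      exact mul_le_mul (by linarith) (pow_le_pow_left₀ (by linarith) (by linarith) 2) (sq_nonneg _)
        (by linarith))
  simpa only [sq_abs] using key

end Crest.Agent.T157.Kr

end
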