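import Crest.Agent.T157.SLE_23

/-!
# Row 157: the smoothing lemma (SM) along stochastic localisation (helper5)

If `dG_k = a_k dt + b_k · dB` along the localisation driven by `w`, then the diffusion coefficient at
time `0` is `ψ_G(h) - ∫_0^h ψ_a(u) du`, `ψ_F(u) = E[F(u, y_u) (y_u/u - m_0)]`, and Bessel's inequality
bounds `|ψ_F(u)|² ≤ (‖C_0‖ + 1/u) E (F - c)²`.
-/

noncomputable section

namespace Crest.Agent.T157.Ks

open MeasureTheory ProbabilityTheory Filter Topology Set Real Matrix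
open Crest.Agent.T157.E Crest.Agent.T157.SL

variable {Ω ι : Type*} [Fintype Ω] [Fintype ι] [DecidableEq ι] {φ : Ω → ι → ℝ} {w : Ω → ℝ}
  {I : Set ℝ} {G H a : Pt ι → ℝ} {b : ι → Pt ι → ℝ} {u h κ : ℝ}

/-- correlation of `F (y_u)` with the score `y_u / u - m_0` -/
def sc (φ : Ω → ι → ℝ) (w : Ω → ℝ) (F : (ι → ℝ) → ℝ) (u : ℝ) (i : ι) : ℝ :=
  slE φ w u fun _ y => F y * (y i / u - meanV w φ i)

theorem eg_dotc (v : ι → ℝ) : EG I fun p : Pt ι => v ⬝ᵥ p.2 :=
  .sum _ fun i _ => (EG.const (v i)).mul (.coord i)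

theorem mg_coord (i : ι) : MG fun y : ι → ℝ => y i := (EG.coord (I := univ) i).mg (mem_univ 0)

theorem mg_dot (v : ι → ℝ) : MG fun y : ι → ℝ => v ⬝ᵥ y := (eg_dotc (I := univ) v).mg (mem_univ 0)

theorem int_coord (i : ι) : ∫ z, z i ∂Gs ι = 0 := by
  simpa using stein (I := univ) (EG.const 1) (EG.const 0) (mem_univ 0) i
    fun _ => hasDerivAt_const _ _

theorem int_dot (v : ι → ℝ) : ∫ z, v ⬝ᵥ z ∂Gs ι = 0 := by
  simp only [dotProduct]
  rw [integral_finsetSum _ fun i _ => (mg_coord i).int.const_mul _]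
  simp [integral_const_mul, int_coord]

theorem int_dot_sq (v : ι → ℝ) : ∫ z, (v ⬝ᵥ z) ^ 2 ∂Gs ι = v ⬝ᵥ v := by
  have e : ∀ i, ∫ z, z i * (v ⬝ᵥ z) ∂Gs ι = v i := fun i => by
    have := stein (I := univ) (eg_dotc v) (EG.const (v i)) (mem_univ 0) i fun y => by
      have := (hasDerivAt_update y i (y i))
      simpa [dotProduct, Pi.single_apply] using
        HasDerivAt.fun_sum (u := Finset.univ) fun j _ => (hasDerivAt_pi.1 this j).const_mul (v j)
    simpa using this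
  have : ∀ z : ι → ℝ, (v ⬝ᵥ z) ^ 2 = ∑ i, v i * (z i * (v ⬝ᵥ z)) := fun z => by
    rw [sq]; nth_rewrite 1 [dotProduct]; rw [Finset.sum_mul]; simp only [mul_assoc]
  simp only [this]
  rw [integral_finsetSum _ fun i _ => ((mg_coord i).mul (mg_dot v)).int.const_mul _]
  simp only [integral_const_mul, e]
  rfl

theorem int_aff_sq (c : ℝ) (v : ι → ℝ) : ∫ z, (c + v ⬝ᵥ z) ^ 2 ∂Gs ι = c ^ 2 + v ⬝ᵥ v := by
  have : ∀ z : ι → ℝ, (c + v ⬝ᵥ z) ^ 2 = c ^ 2 + 2 * c * (v ⬝ᵥ z) + (v ⬝ᵥ z) ^ 2 := fun z => by ring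
  simp only [this]
  have i2 : Integrable (fun z : ι → ℝ => (v ⬝ᵥ z) ^ 2) (Gs ι) := by
    simpa only [sq] using ((mg_dot v).mul (mg_dot v)).int
  have i1 : Integrable (fun z : ι → ℝ => c ^ 2 + 2 * c * (v ⬝ᵥ z)) (Gs ι) :=
    (integrable_const _).add ((mg_dot v).int.const_mul _)
  rw [integral_add i1 i2,
    integral_add (integrable_const _) ((mg_dot v).int.const_mul _), integral_const_mul, int_dot,
    int_dot_sq]
  simp

omit [DecidableEq ι] in
theorem score_eq (hu : 0 < u) (v x z : ι → ℝ) (c : ℝ) :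
    v ⬝ᵥ (u • x + √u • z) / u - c = (v ⬝ᵥ x - c) + ((√u)⁻¹ • v) ⬝ᵥ z := by
  have := sqrt_pos.2 hu
  have e : u = √u * √u := (mul_self_sqrt hu.le).symm
  simp only [dotProduct_add, dotProduct_smul, smul_dotProduct, smul_eq_mul]
  generalize √u = r at *
  subst e
  field_simp
  ring

theorem slE_score (hw : Wt w) (hu : 0 < u) (v : ι → ℝ) :
    (slE φ w u fun _ y => v ⬝ᵥ y / u - v ⬝ᵥ meanV w φ) = 0 := by
  simp only [slE_eq_mean, score_eq hu]
  have : ∀ x, ∫ z, (v ⬝ᵥ φ x - v ⬝ᵥ meanV w φ) + ((√u)⁻¹ • v) ⬝ᵥ z ∂Gs ι =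
      v ⬝ᵥ φ x - v ⬝ᵥ meanV w φ := fun x => by
    rw [integral_add (integrable_const _) (mg_dot _).int, int_dot]; simp
  simp only [this]
  simp only [mean_sub, hw.mean_const, meanV_dot, sub_self]

theorem slE_score_sq (hu : 0 < u) (v : ι → ℝ) :
    (slE φ w u fun _ y => (v ⬝ᵥ y / u - v ⬝ᵥ meanV w φ) ^ 2) =
      v ⬝ᵥ covMat w φ *ᵥ v + mean w (fun _ => 1) * (v ⬝ᵥ v / u) := by
  simp only [slE_eq_mean, score_eq hu, int_aff_sq, mean_add, covMat_quad, ← mean_mul_const, one_mul]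
  congr 1
  · simp only [cov_eq_mean, meanV_dot, sq]
  · congr 1; ext x
    have := sqrt_pos.2 hu
    have e : u = √u * √u := (mul_self_sqrt hu.le).symm
    simp only [dotProduct_smul, smul_dotProduct, smul_eq_mul]
    generalize √u = r at *
    subst e
    field_simp

theorem mg_score (v : ι → ℝ) (u c : ℝ) : MG fun y : ι → ℝ => v ⬝ᵥ y / u - c := by
  simpa only [div_eq_inv_mul] using ((mg_dot v).const_mul u⁻¹).sub (.const c)

theorem mg_score1 (i : ι) (u c : ℝ) : MG fun y : ι → ℝ => y i / u - c := by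
  simpa only [div_eq_inv_mul] using ((mg_coord i).const_mul u⁻¹).sub (.const c)

theorem dot_sc {F : (ι → ℝ) → ℝ} (hF : MG F) (v : ι → ℝ) :
    v ⬝ᵥ sc φ w F u = slE φ w u fun _ y => F y * (v ⬝ᵥ y / u - v ⬝ᵥ meanV w φ) := by
  simp only [dotProduct, sc, ← slE_const_mul]
  rw [← slE_sum _ fun i _ => .of_mg fun _ => (hF.mul (mg_score1 i u _)).const_mul _]
  congr 1; ext x y
  simp only [Finset.sum_div, ← Finset.sum_sub_distrib, Finset.mul_sum]
  exact Finset.sum_congr rfl fun i _ => by ring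

/-- **Bessel**: `|ψ_F(u)|² ≤ (κ + 1/u) E (F - c)²` -/
theorem sc_sq_le (hw : Wt w) (hu : 0 < u) (hκ : 0 ≤ κ)
    (hC : ∀ v, v ⬝ᵥ covMat w φ *ᵥ v ≤ κ * (v ⬝ᵥ v)) {F : (ι → ℝ) → ℝ} (hF : MG F) (c : ℝ) :
    sc φ w F u ⬝ᵥ sc φ w F u ≤ (κ + 1 / u) * slE φ w u fun _ y => (F y - c) ^ 2 := by
  set v := sc φ w F u with hv
  have m := mg_score v u (v ⬝ᵥ meanV w φ)
  have e : v ⬝ᵥ v = slE φ w u fun _ y => (F y - c) * (v ⬝ᵥ y / u - v ⬝ᵥ meanV w φ) := by
    simp only [sub_mul]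
    rw [slE_sub (.of_mg fun _ => hF.mul m) (.of_mg fun _ => m.const_mul c), slE_const_mul,
      slE_score hw hu, mul_zero, sub_zero, ← dot_sc hF]
  have h1 := slE_mul_sq_le (φ := φ) (s := u) hw (fun _ => hF.sub (.const c)) fun _ => m
  rw [← e, slE_score_sq hu, hw.mean_const, one_mul] at h1
  have h0 : 0 ≤ slE φ w u fun _ y => (F y - c) ^ 2 := slE_nonneg hw fun _ _ => sq_nonneg _
  have h2 : (v ⬝ᵥ v) ^ 2 ≤ (slE φ w u fun _ y => (F y - c) ^ 2) * ((κ + 1 / u) * (v ⬝ᵥ v)) :=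
    h1.trans (mul_le_mul_of_nonneg_left (by have := hC v; rw [add_mul, one_div_mul_eq_div]; linarith) h0)
  rcases (dot_self_nonneg v).eq_or_lt with h3 | h3
  · rw [← h3]; positivity
  · nlinarith

/-- Stein's identity along the channel -/
theorem slE_stein (hu : 0 < u) (uI : u ∈ I) (hG : EG I G) (hH : EG I H) (i : ι) (hd : Dp I i G H) :
    (slE φ w u fun x y => G (u, y) * (y i / u - φ x i)) = ex φ w H u := by
  rw [ex, slE_eq_mean, slE_eq_mean]
  congr 1; ext x
  have s0 := sqrt_pos.2 hu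
  have hs : {u} ⊆ I := singleton_subset_iff.2 uI
  have hT : ∀ s ∈ ({u} : Set ℝ), |s| ≤ |u| := fun s hs => by rw [hs]
  have e3 := stein ((hG.mono hs).path (φ x) _ hT) (((hH.mono hs).path (φ x) _ hT).mul (.const √u))
    (mem_singleton u) i fun y => by
      have e : ∀ s, u • φ x + √u • Function.update y i s =
          Function.update (u • φ x + √u • y) i (u * φ x i + √u * s) := fun s => by
        ext j; rcases eq_or_ne j i with rfl | hj <;> simp [*]
      simp only [e]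
      exact ((hd (u, u • φ x + √u • y) uI).comp (y i)
        (((hasDerivAt_id' (y i)).const_mul √u).const_add (u * φ x i))).congr_deriv
        (congrArg _ (mul_one _))
  simp only at e3
  have : ∀ z : ι → ℝ, G (u, u • φ x + √u • z) * ((u • φ x + √u • z) i / u - φ x i) =
      (√u)⁻¹ * (z i * G (u, u • φ x + √u • z)) := fun z => by
    have e : u = √u * √u := (mul_self_sqrt hu.le).symm
    simp only [Pi.add_apply, Pi.smul_apply, smul_eq_mul]
    generalize G _ = g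
    generalize √u = r at *
    subst e
    field_simp
    ring
  simp only [this]
  rw [integral_const_mul, e3, integral_mul_const]
  field_simp

/-- the score correlation without the singular factor -/
theorem sc_eq (hw : Wt w) (hu : 0 < u) (uI : u ∈ I) (hG : EG I G) (hH : EG I H) (i : ι)
    (hd : Dp I i G H) : sc φ w (fun y => G (u, y)) u i =
      ex φ w (fun p => H p + G p * (md φ w i p - meanV w φ i)) u := by
  have g := hG.mg uI
  have e1 := slE_stein (φ := φ) (w := w) hu uI hG hH i hd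
  have e2 : (slE φ w u fun x y => G (u, y) * (φ x i - meanV w φ i)) =
      ex φ w (fun p => G p * (md φ w i p - meanV w φ i)) u := by
    rw [bayes hw hu.le (.of_mg fun _ => g.mul (.const _)), ex]
    simp only [mean_const_mul, mean_sub, (hw.post φ _ _).mean_const, md, meanV]
  rw [ex_add (hH.mg uI) ((hG.mul ((eg_md hw i).sub (.const _))).mg uI), ← e1, ← e2,
    ← slE_add (.of_mg fun _ => g.mul (mg_score1 i u _)) (.of_mg fun _ => g.mul (.const _)), sc]
  congr 1; ext x y; ring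

theorem hasDerivAt_sc (hw : Wt w) (hu : 0 < u) (hI : I ∈ 𝓝 u) (hG : Ito (md φ w) I G a b) (i : ι) :
    HasDerivAt (fun u => sc φ w (fun y => G (u, y)) u i) (sc φ w (fun y => a (u, y)) u i) u := by
  have hJ : I ∩ Ioo (u / 2) (2 * u) ∈ 𝓝 u := inter_mem hI (Ioo_mem_nhds (by linarith) (by linarith))
  have hG' := hG.mono (inter_subset_left (t := Ioo (u / 2) (2 * u)))
  set J := I ∩ Ioo (u / 2) (2 * u)
  have uJ := mem_of_mem_nhds hJ
  have p0 : ∀ s ∈ J, 0 < s := fun s hs => (half_pos hu).trans hs.2.1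
  have e1 : EG J fun p : Pt ι => p.1⁻¹ := .time (f := fun s => s⁻¹)
    (continuousOn_id.inv₀ fun s hs => (p0 s hs).ne') (u / 2)⁻¹ fun s hs => by
      rw [abs_of_pos (inv_pos.2 (p0 s hs))]; exact inv_anti₀ (half_pos hu) hs.2.1.le
  have t1 : Ito (md φ w) J (fun p => p.1⁻¹) (fun p => -(p.1⁻¹) ^ 2) fun _ _ => 0 :=
    .time (f := fun s => s⁻¹) (f' := fun s => -(s⁻¹) ^ 2)
      (fun s hs => by simpa using hasDerivAt_inv (p0 s hs).ne') e1 (e1.pow 2).neg
  have t2 := (hG'.mul (((Ito.coord i).mul t1).sub (.const (meanV w φ i)))).hasDerivAt_ex hw hu hJ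
  refine (t2.congr_deriv ?_).congr_of_eventuallyEq (.of_forall fun s => ?_)
  · have g := hG'.eg.mg uJ
    have ga := (hG'.eg_a (eg_md hw)).mg uJ
    have gb := (hG'.eg_b i).mg uJ
    have gm := (eg_md (φ := φ) (I := J) hw i).mg uJ
    have e2 := sc_eq (φ := φ) hw hu uJ hG'.eg (hG'.eg_b i) i (hG'.dp i)
    have e3 : ex φ w (fun p => b i p + G p * (md φ w i p - meanV w φ i)) u -
        sc φ w (fun y => G (u, y)) u i = 0 := by rw [e2, sub_self]
    have e4 : sc φ w (fun y => a (u, y)) u i = sc φ w (fun y => a (u, y)) u i + u⁻¹ *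
        (ex φ w (fun p => b i p + G p * (md φ w i p - meanV w φ i)) u -
        sc φ w (fun y => G (u, y)) u i) := by rw [e3, mul_zero, add_zero]
    rw [e4, ex, ex, sc, sc,
      ← slE_sub (.of_mg fun _ => gb.add (g.mul (gm.sub (.const _))))
        (.of_mg fun _ => g.mul (mg_score1 i u _)), ← slE_const_mul,
      ← slE_add (.of_mg fun _ => ga.mul (mg_score1 i u _)) (.of_mg fun _ =>
        ((gb.add (g.mul (gm.sub (.const _)))).sub (g.mul (mg_score1 i u _))).const_mul _)]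
    congr 1; ext x y
    simp only [mul_zero, add_zero, sub_zero, ite_mul, one_mul, zero_mul, mul_ite, Finset.sum_const_zero,
      Finset.sum_ite_eq', Finset.mem_univ, if_true]
    field_simp
    ring
  · simp only [sc, ex, div_eq_mul_inv]

variable {K : Type*} [Fintype K]

omit [DecidableEq ι] in
theorem dot_le_sqrt {U V : K → ι → ℝ} {A : ℝ} (hV : ∑ k, V k ⬝ᵥ V k ≤ A) :
    |∑ k, U k ⬝ᵥ V k| ≤ √(∑ k, U k ⬝ᵥ U k) * √A := by
  rw [← sqrt_mul (Finset.sum_nonneg fun k _ => dot_self_nonneg _)]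
  refine abs_le_sqrt ?_
  have := Finset.sum_mul_sq_le_sq_mul_sq Finset.univ (fun q : K × ι => U q.1 q.2) fun q => V q.1 q.2
  simp only [Fintype.sum_prod_type, sq (U _ _), sq (V _ _)] at this
  exact this.trans (mul_le_mul_of_nonneg_left hV
    (Finset.sum_nonneg fun k _ => dot_self_nonneg (U k)))

theorem sum_sc_le (hw : Wt w) (hu : 0 < u) (hκ : 0 ≤ κ)
    (hC : ∀ v, v ⬝ᵥ covMat w φ *ᵥ v ≤ κ * (v ⬝ᵥ v)) {F : K → (ι → ℝ) → ℝ} (hF : ∀ k, MG (F k))
    (c : K → ℝ) : ∑ k, sc φ w (F k) u ⬝ᵥ sc φ w (F k) u ≤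
      (κ + 1 / u) * slE φ w u fun _ y => ∑ k, (F k y - c k) ^ 2 := by
  rw [slE_sum _ fun k _ => .of_mg fun _ => by
    simpa only [sq] using ((hF k).sub (.const _)).mul ((hF k).sub (.const _)), Finset.mul_sum]
  exact Finset.sum_le_sum fun k _ => sc_sq_le hw hu hκ hC (hF k) (c k)

/-- **(SM)**: the diffusion coefficient at time `0` is bounded by the size of the process at time `h`
and of its drift on `(0, h)`, both up to constants -/
theorem sm (hw : Wt w) (hh : 0 < h) (hκ : 0 ≤ κ) (hC : ∀ v, v ⬝ᵥ covMat w φ *ᵥ v ≤ κ * (v ⬝ᵥ v))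
    {G a : K → Pt ι → ℝ} {b : K → ι → Pt ι → ℝ} (hG : ∀ k, Ito (md φ w) (Icc 0 h) (G k) (a k) (b k))
    {α β : ℝ} {c : K → ℝ} {c' : ℝ → K → ℝ} (h1 : ex φ w (fun p => ∑ k, (G k p - c k) ^ 2) h ≤ α)
    (h2 : ∀ u ∈ Ioo 0 h, ex φ w (fun p => ∑ k, (a k p - c' u k) ^ 2) u ≤ β) :
    ∑ k, ∑ i, b k i (0, 0) ^ 2 ≤ 2 * (1 + κ * h) * (α / h + 4 * h * β) := by
  set U : K → ι → ℝ := fun k i => b k i (0, 0) with hU
  set N := ∑ k, U k ⬝ᵥ U k with hN
  have N0 : 0 ≤ N := Finset.sum_nonneg fun k _ => dot_self_nonneg _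
  have α0 : 0 ≤ α := (ex_nonneg hw fun _ => Finset.sum_nonneg fun _ _ => sq_nonneg _).trans h1
  have β0 : 0 ≤ β := (ex_nonneg hw fun _ => Finset.sum_nonneg fun _ _ => sq_nonneg _).trans
    (h2 (h / 2) ⟨half_pos hh, half_lt_self hh⟩)
  set P : ℝ → K → ι → ℝ := fun u k i =>
    ex φ w (fun p => b k i p + G k p * (md φ w i p - meanV w φ i)) u with hP
  have eP : ∀ u ∈ Ioc 0 h, ∀ k, P u k = sc φ w (fun y => G k (u, y)) u := fun u hu k => by
    ext i; exact (sc_eq hw hu.1 (Ioc_subset_Icc_self hu) (hG k).eg ((hG k).eg_b i) i ((hG k).dp i)).symm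
  have P0 : P 0 = U := by
    ext k i; simp only [hP, ex_zero hw, md, pw, post_zero, sub_self, mul_zero, add_zero, hU]
  set L := √N * √((1 + κ * h) * β) with hL
  have key := monotoneOn_of_hasDerivWithinAt_nonneg (f := fun u => ∑ k, U k ⬝ᵥ P u k + 2 * L * √u)
    (f' := fun u => ∑ k, U k ⬝ᵥ sc φ w (fun y => a k (u, y)) u + 2 * L * (1 / (2 * √u)))
    (convex_Icc 0 h) ((continuousOn_finsetSum _ fun k _ => continuousOn_finsetSum _ fun i _ =>
      continuousOn_const.mul ((((hG k).eg_b i).add ((hG k).eg.mul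
        ((eg_md hw i).sub (.const _)))).continuousOn_ex)).add (by fun_prop))
    (fun u hu => by
      rw [interior_Icc] at hu
      refine HasDerivAt.hasDerivWithinAt (.add (.fun_sum fun k _ => ?_)
        ((hasDerivAt_sqrt hu.1.ne').const_mul _))
      refine (HasDerivAt.fun_sum fun i _ => (hasDerivAt_sc hw hu.1 (Icc_mem_nhds hu.1 hu.2)
        (hG k) i).const_mul (U k i)).congr_of_eventuallyEq ?_
      filter_upwards [Ioo_mem_nhds hu.1 hu.2] with r hr
      rw [eP r (Ioo_subset_Ioc_self hr)]; rfl)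
    (fun u hu => by
      rw [interior_Icc] at hu
      have s0 := sqrt_pos.2 hu.1
      have h3 := (sum_sc_le hw hu.1 hκ hC (fun k => ((hG k).eg_a (eg_md hw)).mg
        (Ioo_subset_Icc_self hu)) (c' u)).trans
        (mul_le_mul (show _ ≤ (1 + κ * h) / u by
          rw [le_div_iff₀ hu.1, add_mul, one_div_mul_cancel hu.1.ne']
          nlinarith [hu.2]) (h2 u hu) (slE_nonneg hw fun _ _ => Finset.sum_nonneg fun _ _ => sq_nonneg _)
          (by have := hu.1; positivity))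
      have h4 := neg_le_of_abs_le (dot_le_sqrt (U := U) h3)
      rw [div_mul_eq_mul_div, sqrt_div' _ hu.1.le, ← mul_div_assoc, ← hL] at h4
      have : 2 * L * (1 / (2 * √u)) = L / √u := by field_simp
      linarith)
    (left_mem_Icc.2 hh.le) (right_mem_Icc.2 hh.le) hh.le
  have h5 := (sum_sc_le hw hh hκ hC (fun k => (hG k).eg.mg (right_mem_Icc.2 hh.le)) c).trans
    (mul_le_mul_of_nonneg_left h1 (by positivity))
  have h6 := le_of_abs_le (dot_le_sqrt (U := U) h5)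
  simp only [P0, sqrt_zero, mul_zero, add_zero, eP h (right_mem_Ioc.2 hh), ← hN] at key h6
  have e : ∑ k, ∑ i, b k i (0, 0) ^ 2 = N := by simp only [hN, hU, dotProduct, sq]
  rw [e]
  set X := √((κ + 1 / h) * α)
  set Y := √((1 + κ * h) * β)
  have eX : X ^ 2 = (1 + κ * h) * (α / h) := by
    rw [sq_sqrt (by positivity)]; field_simp; ring
  have eY : (Y * √h) ^ 2 = (1 + κ * h) * (h * β) := by
    rw [mul_pow, sq_sqrt (by positivity), sq_sqrt hh.le]; ring
  have h7 : √N * √N ≤ √N * (X + 2 * (Y * √h)) := by rw [mul_self_sqrt N0]; nlinarith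
  have h8 : √N ≤ X + 2 * (Y * √h) := by
    rcases (sqrt_nonneg N).eq_or_lt with h9 | h9
    · rw [← h9]; positivity
    · exact le_of_mul_le_mul_left h7 h9
  have h9 := pow_le_pow_left₀ (sqrt_nonneg N) h8 2
  rw [sq_sqrt N0] at h9
  nlinarith [sq_nonneg (X - 2 * (Y * √h))]

end Crest.Agent.T157.Ks
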