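import Crest.Agent.T157.KsA_5

/-!
# Row 157: cumulant tensors along stochastic localisation (helper5)

Bad events, fourth cumulants, `d κ₃`, Frobenius norms of cumulant tensors, crude bounds,
the generic instances of the smoothing lemma and of forward propagation.
-/

set_option linter.unusedSectionVars false

noncomputable section

namespace Crest.Agent.T157.Ks

open MeasureTheory ProbabilityTheory Filter Topology Set Real Matrix
open Crest.Agent.T157.E Crest.Agent.T157.SL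

variable {Ω ι J L M : Type*} [Fintype Ω] [Fintype ι] [DecidableEq ι] [Fintype J] [Fintype L] [Fintype M]
  {φ : Ω → ι → ℝ} {ψ : Ω → J → ℝ} {χ : Ω → L → ℝ} {ρ : Ω → M → ℝ} {w f g l k : Ω → ℝ}
  {I : Set ℝ} {G H : Pt ι → ℝ} {u h κ κ' δ R α β : ℝ}

/-! ### bad events -/

/-- `Cov ψ ≤ κ` -/
def CB (w : Ω → ℝ) (ψ : Ω → J → ℝ) (κ : ℝ) : Prop := ∀ v, v ⬝ᵥ covMat w ψ *ᵥ v ≤ κ * (v ⬝ᵥ v)

/-- the posterior at every time `u ≤ h` has the property `P`, up to probability `δ` -/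
def AP (φ : Ω → ι → ℝ) (w : Ω → ℝ) (h δ : ℝ) (P : (Ω → ℝ) → Prop) : Prop :=
  ∀ u ∈ Icc 0 h, (law φ w u).real {y | ¬ P (post φ w u y)} ≤ δ

theorem AP.mono {P Q : (Ω → ℝ) → Prop} (hw : Wt w) (hP : AP φ w h δ P)
    (e : ∀ v, Wt v → P v → Q v) : AP φ w h δ Q := fun u hu =>
  haveI := isProb_law (φ := φ) (s := u) hw
  (measureReal_mono (s₁ := {y | ¬ Q (post φ w u y)}) (s₂ := {y | ¬ P (post φ w u y)}) fun _ hy hp =>
    hy (e _ (hw.post _ _ _) hp)).trans (hP u hu)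

theorem AP.nonneg {P : (Ω → ℝ) → Prop} (hP : AP φ w h δ P) (hh : 0 ≤ h) : 0 ≤ δ :=
  measureReal_nonneg.trans (hP 0 (left_mem_Icc.2 hh))

theorem ex_ind (hw : Wt w) {B : Set (ι → ℝ)} (hB : MeasurableSet B) :
    ex φ w (fun p => B.indicator 1 p.2) u = (law φ w u).real B := by
  rw [ex_eq_integral hw ((MG.const 1).indicator hB), ← integral_indicator_one hB]

theorem exists_meas (φ : Ω → ι → ℝ) (w : Ω → ℝ) (u : ℝ) (S : Set (ι → ℝ)) :
    ∃ B, MeasurableSet B ∧ S ⊆ B ∧ (law φ w u).real B = (law φ w u).real S :=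
  ⟨toMeasurable (law φ w u) S, measurableSet_toMeasurable _ _, subset_toMeasurable _ _, by
    simp only [Measure.real, measure_toMeasurable]⟩

theorem ex_le_bad (hw : Wt w) {S : Set (ι → ℝ)} (hS : (law φ w u).real S ≤ δ)
    (hG : MG fun y => G (u, y)) (hH : MG fun y => H (u, y)) {C : ℝ} (C0 : 0 ≤ C)
    (h1 : ∀ y ∉ S, G (u, y) ≤ H (u, y)) (h2 : ∀ y, G (u, y) ≤ H (u, y) + C) :
    ex φ w G u ≤ ex φ w H u + C * δ := by
  obtain ⟨B, hB, sB, eB⟩ := exists_meas φ w u S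
  have m := ((MG.const (1 : ℝ)).indicator hB).const_mul C
  refine (ex_mono (H := fun p => H p + C * B.indicator 1 p.2) hw hG (hH.add m) fun y => ?_).trans ?_
  · by_cases hy : y ∈ B
    · simpa [hy] using h2 y
    · simpa [hy] using h1 y fun h => hy (sB h)
  · rw [ex_add (H := fun p => C * B.indicator 1 p.2) hH m, ex_const_mul, ex_ind hw hB, eB]
    gcongr

theorem ex_le_bad' (hw : Wt w) {S : Set (ι → ℝ)} (hS : (law φ w u).real S ≤ δ)
    (hG : MG fun y => G (u, y)) {a C : ℝ} (a0 : 0 ≤ a) (C0 : 0 ≤ C)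
    (h1 : ∀ y ∉ S, G (u, y) ≤ a) (h2 : ∀ y, G (u, y) ≤ C) : ex φ w G u ≤ a + C * δ := by
  simpa only [ex_const hw] using ex_le_bad (H := fun _ => a) hw hS hG (.const a) C0 h1
    fun y => (h2 y).trans (le_add_of_nonneg_left a0)

/-- unbounded version -/
theorem ex_le_bad2 (hw : Wt w) {S : Set (ι → ℝ)} (hS : (law φ w u).real S ≤ δ)
    (hG : MG fun y => G (u, y)) {a C : ℝ} (a0 : 0 ≤ a) (h1 : ∀ y ∉ S, G (u, y) ≤ a)
    (h2 : ex φ w (fun p => G p ^ 2) u ≤ C) : ex φ w G u ≤ a + √(C * δ) := by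
  obtain ⟨B, hB, sB, eB⟩ := exists_meas φ w u S
  have m := (MG.const (1 : ℝ)).indicator hB
  refine (ex_mono (H := fun p => a + G p * B.indicator 1 p.2) hw hG ((MG.const a).add (hG.mul m))
    fun y => ?_).trans ?_
  · by_cases hy : y ∈ B
    · simpa [hy] using a0
    · simpa [hy] using h1 y fun h => hy (sB h)
  · rw [ex_add (G := fun _ => a) (H := fun p => G p * B.indicator 1 p.2) (.const a) (hG.mul m),
      ex_const hw]
    have h3 := ex_mul_sq_le (φ := φ) (H := fun p => B.indicator 1 p.2) hw hG m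
    have e : (fun p : Pt ι => (B.indicator (1 : (ι → ℝ) → ℝ) p.2) ^ 2) = fun p => B.indicator 1 p.2 := by
      ext p; by_cases hy : p.2 ∈ B <;> simp [hy]
    rw [e, ex_ind hw hB, eB] at h3
    exact add_le_add_right (le_sqrt_of_sq_le (h3.trans (mul_le_mul h2 hS measureReal_nonneg
      ((ex_nonneg hw fun _ => sq_nonneg _).trans h2)))) _

/-! ### cumulants -/

/-- joint fourth cumulant -/
def cum4 (w f g l k : Ω → ℝ) : ℝ :=
  mean w (fun x => (f x - mean w f) * (g x - mean w g) * (l x - mean w l) * (k x - mean w k)) -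
    (cov w f g * cov w l k + cov w f l * cov w g k + cov w f k * cov w g l)

theorem cum3_comm (w f g l : Ω → ℝ) : cum3 w f g l = cum3 w g f l := by
  simp only [cum3, mul_comm (f _ - _)]

theorem cum3_comm' (w f g l : Ω → ℝ) : cum3 w f g l = cum3 w f l g := by
  simp only [cum3, mul_right_comm]

theorem cum3_dot (w f g : Ω → ℝ) (ψ : Ω → J → ℝ) (v : J → ℝ) :
    cum3 w f g (fun x => v ⬝ᵥ ψ x) = ∑ j, v j * cum3 w f g fun x => ψ x j := by
  simp only [cum3, dotProduct, mean_sum, mean_const_mul, ← Finset.sum_sub_distrib, Finset.mul_sum,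
    ← mul_sub, mul_left_comm _ (v _)]

theorem cum4_dot (w f g l : Ω → ℝ) (ψ : Ω → J → ℝ) (v : J → ℝ) :
    cum4 w f g l (fun x => v ⬝ᵥ ψ x) = ∑ j, v j * cum4 w f g l fun x => ψ x j := by
  simp only [cum4, dotProduct, cov_sum, cov_const_mul, mean_sum, mean_const_mul,
    ← Finset.sum_sub_distrib, Finset.mul_sum, ← mul_sub, mul_left_comm _ (v _), Finset.sum_mul,
    ← Finset.sum_add_distrib]
  exact Finset.sum_congr rfl fun j _ => by ring

theorem cum4_comm (w f g l k : Ω → ℝ) : cum4 w f g l k = cum4 w f g k l := by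
  simp only [cum4, mul_right_comm _ (l _ - _), cov_comm w l k]; ring

theorem cum4_comm' (w f g l k : Ω → ℝ) : cum4 w f g l k = cum4 w f l g k := by
  simp only [cum4, mul_right_comm _ (g _ - _) (l _ - _), cov_comm w g l]; ring

theorem cum3_mul (hw : Wt w) (f g l k : Ω → ℝ) : cum3 w (fun x => f x * g x) l k =
    cum4 w f g l k + (cov w f l * cov w g k + cov w f k * cov w g l) +
      (mean w g * cum3 w f l k + mean w f * cum3 w g l k) := by
  have e : mean w (fun x => f x * g x) = cov w f g + mean w f * mean w g := by rw [hw.cov_eq]; ring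
  have : cum3 w (fun x => f x * g x) l k = mean w (fun x => (f x - mean w f) * (g x - mean w g) *
      (l x - mean w l) * (k x - mean w k)) - cov w f g * cov w l k +
      (mean w g * cum3 w f l k + mean w f * cum3 w g l k) := by
    rw [cum3, e, cov_eq_mean w l k, cum3, cum3, ← mean_const_mul w _ (cov w f g),
      ← mean_const_mul w (fun x => _ * _ * _) (mean w g),
      ← mean_const_mul w (fun x => _ * _ * _) (mean w f), ← mean_sub, ← mean_add, ← mean_add]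
    congr 1; ext x; ring
  rw [this, cum4]; ring

/-- minus the drift of `κ₃(f, g, l)` -/
def dr3 (φ : Ω → ι → ℝ) (w f g l : Ω → ℝ) : ℝ :=
  ∑ i, cum3 w f g (fun x => φ x i) * covV w l φ i + ∑ i, cum3 w f l (fun x => φ x i) * covV w g φ i +
    ∑ i, cum3 w g l (fun x => φ x i) * covV w f φ i

theorem ito_cum3 (hw : Wt w) (f g l : Ω → ℝ) : Ito (md φ w) I (fun p => cum3 (pw φ w p) f g l)
    (fun p => -dr3 φ (pw φ w p) f g l) fun i p => cum4 (pw φ w p) f g l fun x => φ x i := by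
  simp only [(hw.post φ _ _).cum3_eq f g l]
  refine ((ito_cov hw _ l).sub (((ito_cov hw f l).mul (ito_mean hw g)).add
    ((ito_mean hw f).mul (ito_cov hw g l)))).congr (fun p _ => ?_) fun i p _ => ?_
  · simp only [dr3, (hw.post φ _ _).cum3_eq f g, dotProduct, covV, sub_mul, add_mul, neg_mul, mul_neg,
      Finset.sum_sub_distrib, Finset.sum_add_distrib, Finset.sum_mul, Finset.mul_sum, mul_zero, zero_mul]
    simp only [mul_comm, mul_assoc]
    ring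
  · simp only [cum3_mul (hw.post φ _ _) f g, covV]; ring

theorem eg_dr3 (hw : Wt w) (f g l : Ω → ℝ) : EG I fun p => dr3 φ (pw φ w p) f g l := by
  simpa using ((ito_cum3 (φ := φ) (I := I) hw f g l).eg_a (eg_md hw)).neg

/-! ### Frobenius norms -/

/-- a single observable as a feature map -/
abbrev sg (f : Ω → ℝ) : Ω → Unit → ℝ := fun x _ => f x

/-- `|Cov(ψ, χ) - c|_F²` -/
def T2 (w : Ω → ℝ) (ψ : Ω → J → ℝ) (χ : Ω → L → ℝ) (c : J → L → ℝ) : ℝ :=
  ∑ j, ∑ l, (cov w (fun x => ψ x j) (fun x => χ x l) - c j l) ^ 2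

/-- `|Cov(ψ, φ) Cov(φ, χ) - c|_F²` -/
def D2 (φ : Ω → ι → ℝ) (w : Ω → ℝ) (ψ : Ω → J → ℝ) (χ : Ω → L → ℝ) (c : J → L → ℝ) : ℝ :=
  ∑ j, ∑ l, (covV w (fun x => ψ x j) φ ⬝ᵥ covV w (fun x => χ x l) φ - c j l) ^ 2

/-- `|κ₃(ψ, χ, ρ)|_F²` -/
def T3 (w : Ω → ℝ) (ψ : Ω → J → ℝ) (χ : Ω → L → ℝ) (ρ : Ω → M → ℝ) : ℝ :=
  ∑ j, ∑ l, ∑ m, cum3 w (fun x => ψ x j) (fun x => χ x l) (fun x => ρ x m) ^ 2

/-- squared norm of the drift of `κ₃(ψ, χ, ρ)` -/
def D3 (φ : Ω → ι → ℝ) (w : Ω → ℝ) (ψ : Ω → J → ℝ) (χ : Ω → L → ℝ) (ρ : Ω → M → ℝ) : ℝ :=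
  ∑ j, ∑ l, ∑ m, dr3 φ w (fun x => ψ x j) (fun x => χ x l) (fun x => ρ x m) ^ 2

/-- `|κ₄(ψ, χ, ρ, φ)|_F²` -/
def T4 (w : Ω → ℝ) (ψ : Ω → J → ℝ) (χ : Ω → L → ℝ) (ρ : Ω → M → ℝ) (φ : Ω → ι → ℝ) : ℝ :=
  ∑ j, ∑ l, ∑ m, ∑ i, cum4 w (fun x => ψ x j) (fun x => χ x l) (fun x => ρ x m) (fun x => φ x i) ^ 2

theorem T2_nonneg (c : J → L → ℝ) : 0 ≤ T2 w ψ χ c := by unfold T2; positivity
theorem D2_nonneg (c : J → L → ℝ) : 0 ≤ D2 φ w ψ χ c := by unfold D2; positivity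
theorem T3_nonneg : 0 ≤ T3 w ψ χ ρ := by unfold T3; positivity
theorem D3_nonneg : 0 ≤ D3 φ w ψ χ ρ := by unfold D3; positivity
theorem T4_nonneg : 0 ≤ T4 w ψ χ ρ φ := by unfold T4; positivity

theorem T3_comm : T3 w ψ χ ρ = T3 w χ ψ ρ := by
  simp only [T3]; rw [Finset.sum_comm]; simp only [cum3_comm w fun x => ψ x _]

theorem T3_comm' : T3 w ψ χ ρ = T3 w ψ ρ χ := by
  simp only [T3]
  refine Finset.sum_congr rfl fun j _ => ?_
  rw [Finset.sum_comm]; simp only [cum3_comm' w _ fun x => χ x _]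

theorem eg_T2 (hw : Wt w) (c : J → L → ℝ) : EG I fun p => T2 (pw φ w p) ψ χ c :=
  .sum _ fun _ _ => .sum _ fun _ _ => ((eg_cov hw _ _).sub (.const _)).pow 2

theorem eg_D2 (hw : Wt w) (c : J → L → ℝ) : EG I fun p => D2 φ (pw φ w p) ψ χ c :=
  .sum _ fun _ _ => .sum _ fun _ _ => ((eg_covV_dot hw _ _).sub (.const _)).pow 2

theorem eg_T3 (hw : Wt w) : EG I fun p => T3 (pw φ w p) ψ χ ρ :=
  .sum _ fun _ _ => .sum _ fun _ _ => .sum _ fun _ _ => (eg_cum3 hw _ _ _).pow 2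

theorem eg_D3 (hw : Wt w) : EG I fun p => D3 φ (pw φ w p) ψ χ ρ :=
  .sum _ fun _ _ => .sum _ fun _ _ => .sum _ fun _ _ => (eg_dr3 hw _ _ _).pow 2

/-- (SM) for a covariance -/
theorem sm_T3 (hw : Wt w) (hh : 0 < h) (hκ : 0 ≤ κ) (hC : CB w φ κ) {c c' : J → L → ℝ}
    (h1 : ex φ w (fun p => T2 (pw φ w p) ψ χ c) h ≤ α)
    (h2 : ∀ u ∈ Ioo 0 h, ex φ w (fun p => D2 φ (pw φ w p) ψ χ c') u ≤ β) :
    T3 w ψ χ φ ≤ 2 * (1 + κ * h) * (α / h + 4 * h * β) := by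
  have := sm (K := J × L) hw hh hκ hC (fun q => ito_cov hw (fun x => ψ x q.1) fun x => χ x q.2)
    (c := fun q => c q.1 q.2) (c' := fun _ q => -c' q.1 q.2) (α := α) (β := β)
    (by simpa only [Fintype.sum_prod_type, T2] using h1) fun u hu => by
      simpa only [Fintype.sum_prod_type, sub_neg_eq_add, neg_add_eq_sub, sub_sq_comm (c' _ _), D2]
        using h2 u hu
  simpa only [Fintype.sum_prod_type, pw, post_zero, T2, T3, T4] using this

/-- (SM) for a third cumulant -/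
theorem sm_T4 (hw : Wt w) (hh : 0 < h) (hκ : 0 ≤ κ) (hC : CB w φ κ)
    (h1 : ex φ w (fun p => T3 (pw φ w p) ψ χ ρ) h ≤ α)
    (h2 : ∀ u ∈ Ioo 0 h, ex φ w (fun p => D3 φ (pw φ w p) ψ χ ρ) u ≤ β) :
    T4 w ψ χ ρ φ ≤ 2 * (1 + κ * h) * (α / h + 4 * h * β) := by
  have := sm (K := J × L × M) hw hh hκ hC
    (fun q => ito_cum3 hw (fun x => ψ x q.1) (fun x => χ x q.2.1) fun x => ρ x q.2.2)
    (c := 0) (c' := 0) (α := α) (β := β)
    (by simpa only [Fintype.sum_prod_type, Pi.zero_apply, sub_zero, T3] using h1) fun u hu => by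
      simpa only [Fintype.sum_prod_type, Pi.zero_apply, sub_zero, neg_sq, D3] using h2 u hu
  simpa only [Fintype.sum_prod_type, pw, post_zero, T2, T3, T4] using this

/-- **forward propagation**: the value at time `0` from the value at time `h` and the drift -/
theorem fp (hw : Wt w) (hh : 0 ≤ h) {G a : J → Pt ι → ℝ} {b : J → ι → Pt ι → ℝ}
    (hG : ∀ k, Ito (md φ w) (Icc 0 h) (G k) (a k) (b k)) {c : J → ℝ}
    (h1 : ex φ w (fun p => ∑ k, (G k p - c k) ^ 2) h ≤ α)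
    (h2 : ∀ u ∈ Ioo 0 h, ex φ w (fun p => ∑ k, a k p ^ 2) u ≤ β) :
    √(∑ k, (G k (0, 0) - c k) ^ 2) ≤ √α + h * √β := by
  set U : J → ℝ := fun k => G k (0, 0) - c k with hU
  set N := ∑ k, U k ^ 2 with hN
  have N0 : 0 ≤ N := by positivity
  have cs : ∀ {F : J → Pt ι → ℝ} {u A : ℝ}, (∀ k, MG fun y => F k (u, y)) →
      ex φ w (fun p => ∑ k, F k p ^ 2) u ≤ A → |ex φ w (fun p => ∑ k, U k * F k p) u| ≤ √N * √A := by
    intro F u A hF hA
    rw [← sqrt_mul N0]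
    have m : MG fun y => ∑ k, U k * F k (u, y) := .sum _ fun k _ => (hF k).const_mul _
    have m2 : MG fun y => ∑ k, F k (u, y) ^ 2 := .sum _ fun k _ => by
      simpa only [sq] using (hF k).mul (hF k)
    refine abs_le_sqrt ((ex_sq_le hw m).trans ((ex_mono (H := fun p => N * ∑ k, F k p ^ 2) hw
      (by simpa only [sq] using m.mul m) (m2.const_mul N) fun y =>
      Finset.sum_mul_sq_le_sq_mul_sq _ _ _).trans ?_))
    rw [ex_const_mul]; gcongr
  have it := (Ito.sum Finset.univ fun k _ => ((hG k).sub (.const (c k))).const_mul (U k)).add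
    (Ito.time (f := fun s => √N * √β * s) (f' := fun _ => √N * √β)
      (fun s _ => by simpa using (hasDerivAt_id' s).const_mul (√N * √β))
      (.time (by fun_prop) (√N * √β * h) fun s hs => by
        rw [abs_of_nonneg (by have := hs.1; positivity)]; gcongr; exact hs.2) (.const _))
  have mG := fun k u (hu : u ∈ Icc 0 h) => ((hG k).eg.sub (.const (c k))).mg hu
  have key := (it.mono Ioo_subset_Icc_self).ex_mono hw le_rfl hh it.eg fun u hu => by
    have ma := fun k => ((hG k).eg_a (eg_md hw)).mg (Ioo_subset_Icc_self hu)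
    have := neg_le_of_abs_le (cs ma (h2 u hu))
    simp only [sub_zero]
    rw [ex_add (G := fun p => ∑ k, U k * a k p) (H := fun _ => √N * √β)
      (.sum _ fun k _ => (ma k).const_mul _) (.const _), ex_const hw]
    linarith
  rw [ex_zero hw, ex_add (G := fun p => ∑ k, U k * (G k p - c k)) (H := fun p => √N * √β * p.1)
    (.sum _ fun k _ => (mG k h (right_mem_Icc.2 hh)).const_mul _) (.const (√N * √β * h)),
    ex_time hw fun s => √N * √β * s] at key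
  have h3 := le_of_abs_le (cs (F := fun k p => G k p - c k) (fun k => mG k h (right_mem_Icc.2 hh)) h1)
  have h4 : √N * √N ≤ √N * (√α + h * √β) := by
    rw [mul_self_sqrt N0]
    have : ∑ k, U k * (G k (0, 0) - c k) = N := by simp only [hN, hU, sq]
    simp only [this, mul_zero, add_zero] at key
    nlinarith
  rcases (sqrt_nonneg N).eq_or_lt with h9 | h9
  · rw [← h9]; positivity
  · exact le_of_mul_le_mul_left h4 h9

theorem fp_T2 (hw : Wt w) (hh : 0 ≤ h) {c : J → L → ℝ}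
    (h1 : ex φ w (fun p => T2 (pw φ w p) ψ χ c) h ≤ α)
    (h2 : ∀ u ∈ Ioo 0 h, ex φ w (fun p => D2 φ (pw φ w p) ψ χ 0) u ≤ β) :
    √(T2 w ψ χ c) ≤ √α + h * √β := by
  have := fp (J := J × L) hw hh (fun q => ito_cov hw (fun x => ψ x q.1) fun x => χ x q.2)
    (c := fun q => c q.1 q.2) (α := α) (β := β)
    (by simpa only [Fintype.sum_prod_type, T2] using h1) fun u hu => by
      simpa only [Fintype.sum_prod_type, neg_sq, D2, Pi.zero_apply, sub_zero] using h2 u hu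
  simpa only [Fintype.sum_prod_type, pw, post_zero, T2, T3, T4] using this

/-! ### contractions and crude bounds -/

theorem CB.var_le (hC : CB w ψ κ) (v : J → ℝ) : var w (fun x => v ⬝ᵥ ψ x) ≤ κ * (v ⬝ᵥ v) := by
  classical rw [var_eq_cov, ← covMat_quad]; exact hC v

theorem CB.mono (hC : CB w ψ κ) (hκ : κ ≤ κ') : CB w ψ κ' := fun v =>
  (hC v).trans (mul_le_mul_of_nonneg_right hκ (dot_self_nonneg v))

theorem CB_iff : CB w ψ κ ↔ ∀ v, var w (fun x => v ⬝ᵥ ψ x) ≤ κ * (v ⬝ᵥ v) := by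
  classical simp only [CB, var_eq_cov, covMat_quad]

theorem CB_sg (w f : Ω → ℝ) : CB w (sg f) (var w f) := CB_iff.2 fun v => by
  simp only [dotProduct, Finset.univ_unique, Finset.sum_singleton, var_eq_cov, cov_const_mul,
    cov_comm w fun x => _ * f x]
  exact le_of_eq (by ring)

theorem CB.covV_le (hw : Wt w) (hC : CB w ψ κ) (hκ : 0 ≤ κ) (f : Ω → ℝ) :
    covV w f ψ ⬝ᵥ covV w f ψ ≤ κ * var w f := by
  classical exact hw.covV_sq_le f hκ hC

/-- `|Cov(ψ, φ) v|² ≤ κ κ' |v|²` -/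
theorem contract (hw : Wt w) (hψ : CB w ψ κ) (hκ : 0 ≤ κ) (hφ : CB w φ κ') (v : ι → ℝ) :
    ∑ j, (∑ i, v i * covV w (fun x => ψ x j) φ i) ^ 2 ≤ κ * κ' * ∑ i, v i ^ 2 := by
  have h1 := (hψ.covV_le hw hκ fun x => v ⬝ᵥ φ x).trans (mul_le_mul_of_nonneg_left (hφ.var_le v) hκ)
  have e : ∀ j, ∑ i, v i * covV w (fun x => ψ x j) φ i = covV w (fun x => v ⬝ᵥ φ x) ψ j := fun j => by
    rw [covV, cov_comm, ← covV_dot]; rfl
  simpa only [e, dotProduct, ← sq, mul_assoc] using h1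

theorem sum_mean_sq_le (hw : Wt w) (F : J → Ω → ℝ) :
    ∑ j, mean w (F j) ^ 2 ≤ mean w fun x => ∑ j, F j x ^ 2 := by
  rw [mean_sum]
  refine Finset.sum_le_sum fun j _ => ?_
  have h1 := hw.var_nonneg (F j)
  rw [var_eq_cov, hw.cov_eq] at h1
  simp only [sq]; linarith

/-- `|ψ|² ≤ R` -/
def Bd (ψ : Ω → J → ℝ) (R : ℝ) : Prop := ∀ x, ∑ j, ψ x j ^ 2 ≤ R

theorem Bd.mono (hb : Bd ψ R) {R' : ℝ} (e : R ≤ R') : Bd ψ R' := fun x => (hb x).trans e

theorem Bd.meanV_le (hb : Bd ψ R) (hw : Wt w) : ∑ j, meanV w ψ j ^ 2 ≤ R :=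
  (sum_mean_sq_le hw _).trans (hw.mean_le hb)

theorem Bd.center (hb : Bd ψ R) (hw : Wt w) (x : Ω) :
    ∑ j, (ψ x j - mean w fun x => ψ x j) ^ 2 ≤ 4 * R := by
  have h1 := hb x
  have h2 := hb.meanV_le hw
  refine (Finset.sum_le_sum (g := fun j => 2 * ψ x j ^ 2 + 2 * meanV w ψ j ^ 2) fun j _ => ?_).trans ?_
  · simp only [meanV]; nlinarith [sq_nonneg (ψ x j + mean w fun x => ψ x j)]
  · rw [Finset.sum_add_distrib, ← Finset.mul_sum, ← Finset.mul_sum]; linarith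

theorem Bd.dot_sq (hb : Bd ψ R) (v : J → ℝ) (x : Ω) : (v ⬝ᵥ ψ x) ^ 2 ≤ R * (v ⬝ᵥ v) := by
  refine (Finset.sum_mul_sq_le_sq_mul_sq _ _ _).trans ?_
  rw [mul_comm]
  simpa only [dotProduct, sq] using mul_le_mul_of_nonneg_right (hb x) (dot_self_nonneg v)

theorem Bd.cb (hb : Bd ψ R) (hw : Wt w) : CB w ψ R := CB_iff.2 fun v =>
  (hw.var_le_mean _ 0).trans (hw.mean_le fun x => by simpa using hb.dot_sq v x)

theorem Bd.nonneg (hb : Bd ψ R) (hw : Wt w) : 0 ≤ R := 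
  le_trans (by positivity) (hb.meanV_le hw)

theorem Bd.sg_dot (hb : Bd ψ R) (v : J → ℝ) : Bd (sg fun x => v ⬝ᵥ ψ x) (R * (v ⬝ᵥ v)) := fun x => by
  simpa using hb.dot_sq v x

theorem T2_crude {R' : ℝ} (hw : Wt w) (h1 : Bd ψ R) (h2 : Bd χ R') : T2 w ψ χ 0 ≤ 16 * (R * R') := by
  have := sum_mean_sq_le (J := J × L) hw fun q x =>
    (ψ x q.1 - mean w fun x => ψ x q.1) * (χ x q.2 - mean w fun x => χ x q.2)
  simp only [Fintype.sum_prod_type, mul_pow, ← Finset.mul_sum, ← Finset.sum_mul] at this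
  simp only [T2, Pi.zero_apply, sub_zero, cov_eq_mean]
  refine this.trans (hw.mean_le fun x => (mul_le_mul (h1.center hw x) (h2.center hw x) (by positivity)
    (by have := h1.nonneg hw; positivity)).trans_eq (by ring))

theorem T3_crude {R' R'' : ℝ} (hw : Wt w) (h1 : Bd ψ R) (h2 : Bd χ R') (h3 : Bd ρ R'') :
    T3 w ψ χ ρ ≤ 64 * (R * R' * R'') := by
  have := sum_mean_sq_le (J := J × L × M) hw fun q x =>
    (ψ x q.1 - mean w fun x => ψ x q.1) * (χ x q.2.1 - mean w fun x => χ x q.2.1) *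
      (ρ x q.2.2 - mean w fun x => ρ x q.2.2)
  simp only [Fintype.sum_prod_type, mul_pow, ← Finset.mul_sum, ← Finset.sum_mul] at this
  have r1 := h1.nonneg hw
  have r2 := h2.nonneg hw
  refine this.trans (hw.mean_le fun x => (mul_le_mul (mul_le_mul (h1.center hw x) (h2.center hw x)
    (by positivity) (by positivity)) (h3.center hw x) (by positivity) (by positivity)).trans_eq (by ring))

theorem sum_sub_sq_le (a c : J → L → ℝ) :
    ∑ j, ∑ l, (a j l - c j l) ^ 2 ≤ 2 * ∑ j, ∑ l, a j l ^ 2 + 2 * ∑ j, ∑ l, c j l ^ 2 := by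
  simp only [Finset.mul_sum, ← Finset.sum_add_distrib]
  exact Finset.sum_le_sum fun j _ => Finset.sum_le_sum fun l _ => by nlinarith [sq_nonneg (a j l + c j l)]

theorem T2_le (c : J → L → ℝ) : T2 w ψ χ c ≤ 2 * T2 w ψ χ 0 + 2 * ∑ j, ∑ l, c j l ^ 2 := by
  simpa only [T2, Pi.zero_apply, sub_zero] using sum_sub_sq_le _ c

theorem D2_le (c : J → L → ℝ) : D2 φ w ψ χ c ≤ 2 * D2 φ w ψ χ 0 + 2 * ∑ j, ∑ l, c j l ^ 2 := by
  simpa only [D2, Pi.zero_apply, sub_zero] using sum_sub_sq_le _ c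

/-- `|Cov(ψ,φ) Cov(φ,χ)|_F² ≤ κ κ' |Cov(χ,φ)|_F²` -/
theorem D2_zero_le (hw : Wt w) (hψ : CB w ψ κ) (hκ : 0 ≤ κ) (hφ : CB w φ κ') :
    D2 φ w ψ χ 0 ≤ κ * κ' * T2 w χ φ 0 := by
  simp only [D2, T2, Pi.zero_apply, sub_zero]
  rw [Finset.sum_comm, Finset.mul_sum]
  refine Finset.sum_le_sum fun l _ => ?_
  simpa only [dotProduct, mul_comm, covV] using contract hw hψ hκ hφ (covV w (fun x => χ x l) φ)

/-- `|A C² A - 1|_F² ≤ 2 (κ κ' + 1) |A C - 1|_F²` -/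
theorem D2_one_le {ψ : Ω → ι → ℝ} (hw : Wt w) (hψ : CB w ψ κ) (hκ : 0 ≤ κ) (hφ : CB w φ κ') :
    D2 φ w ψ ψ (1 : Matrix ι ι ℝ) ≤ 2 * (κ * κ' + 1) * T2 w ψ φ (1 : Matrix ι ι ℝ) := by
  set X : ι → ι → ℝ := fun l i => covV w (fun x => ψ x l) φ i - (1 : Matrix ι ι ℝ) l i with hX
  have e : ∀ j l, covV w (fun x => ψ x j) φ ⬝ᵥ covV w (fun x => ψ x l) φ - (1 : Matrix ι ι ℝ) j l =
      ∑ i, X l i * covV w (fun x => ψ x j) φ i - -X j l := fun j l => by
    simp [hX, mul_sub, one_apply, dotProduct, mul_comm]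
  have h1 : ∑ j, ∑ l, (∑ i, X l i * covV w (fun x => ψ x j) φ i) ^ 2 ≤ κ * κ' * ∑ l, ∑ i, X l i ^ 2 := by
    rw [Finset.sum_comm, Finset.mul_sum]
    exact Finset.sum_le_sum fun l _ => contract hw hψ hκ hφ (X l)
  have h2 := sum_sub_sq_le (fun j l => ∑ i, X l i * covV w (fun x => ψ x j) φ i) fun j l => -X j l
  simp only [D2, e, neg_sq] at h2 ⊢
  change _ ≤ _ * ∑ l, ∑ i, X l i ^ 2
  linarith

/-- one term of the drift of `κ₃` -/
theorem dr_term (hw : Wt w) (hρ : CB w ρ κ) (hκ : 0 ≤ κ) (hφ : CB w φ κ') :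
    ∑ j, ∑ l, ∑ m, (∑ i, cum3 w (fun x => ψ x j) (fun x => χ x l) (fun x => φ x i) *
      covV w (fun x => ρ x m) φ i) ^ 2 ≤ κ * κ' * T3 w ψ χ φ := by
  simp only [T3, Finset.mul_sum _ _ (κ * κ')]
  exact Finset.sum_le_sum fun j _ => Finset.sum_le_sum fun l _ => by
    simpa only [Finset.mul_sum _ _ (κ * κ')] using contract hw hρ hκ hφ _

theorem D3_split : D3 φ w ψ χ ρ ≤ 3 * (
    ∑ j, ∑ l, ∑ m, (∑ i, cum3 w (fun x => ψ x j) (fun x => χ x l) (fun x => φ x i) *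
      covV w (fun x => ρ x m) φ i) ^ 2 +
    ∑ j, ∑ m, ∑ l, (∑ i, cum3 w (fun x => ψ x j) (fun x => ρ x m) (fun x => φ x i) *
      covV w (fun x => χ x l) φ i) ^ 2 +
    ∑ l, ∑ m, ∑ j, (∑ i, cum3 w (fun x => χ x l) (fun x => ρ x m) (fun x => φ x i) *
      covV w (fun x => ψ x j) φ i) ^ 2) := by
  rw [Finset.sum_congr rfl fun j _ => Finset.sum_comm (s := (Finset.univ : Finset M)),
    Finset.sum_congr rfl fun l _ => Finset.sum_comm (s := (Finset.univ : Finset M)) (t := (Finset.univ : Finset J)),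
    Finset.sum_comm (s := (Finset.univ : Finset L)) (t := (Finset.univ : Finset J))]
  simp only [D3, dr3, ← Finset.sum_add_distrib, Finset.mul_sum _ _ (3 : ℝ)]
  refine Finset.sum_le_sum fun j _ => Finset.sum_le_sum fun l _ => Finset.sum_le_sum fun m _ => ?_
  rw [Finset.sum_add_distrib, Finset.sum_add_distrib]
  have : ∀ a b c : ℝ, (a + b + c) ^ 2 ≤ 3 * (a ^ 2 + b ^ 2 + c ^ 2) := fun a b c => by
    nlinarith [sq_nonneg (a - b), sq_nonneg (a - c), sq_nonneg (b - c)]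
  exact this _ _ _

theorem D3_le {k1 k2 k3 : ℝ} (hw : Wt w) (h1 : CB w ψ k1) (h2 : CB w χ k2) (h3 : CB w ρ k3)
    (hφ : CB w φ κ) (p1 : 0 ≤ k1) (p2 : 0 ≤ k2) (p3 : 0 ≤ k3) :
    D3 φ w ψ χ ρ ≤ 3 * κ * (k3 * T3 w ψ χ φ + k2 * T3 w ψ ρ φ + k1 * T3 w χ ρ φ) := by
  have a1 := dr_term (ψ := ψ) (χ := χ) hw h3 p3 hφ
  have a2 := dr_term (ψ := ψ) (χ := ρ) hw h2 p2 hφ
  have a3 := dr_term (ψ := χ) (χ := ρ) hw h1 p1 hφ
  have := D3_split (φ := φ) (w := w) (ψ := ψ) (χ := χ) (ρ := ρ)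
  linarith

/-- the directional form: the third term is again a cumulant with one fixed slot -/
theorem D3_sg_le {k2 k3 : ℝ} (hw : Wt w) (h2 : CB w χ k2) (h3 : CB w ρ k3)
    (hφ : CB w φ κ) (p2 : 0 ≤ k2) (p3 : 0 ≤ k3) :
    D3 φ w (sg f) χ ρ ≤ 3 * (κ * (k3 * T3 w (sg f) χ φ + k2 * T3 w (sg f) ρ φ) +
      T3 w (sg fun x => covV w f φ ⬝ᵥ φ x) χ ρ) := by
  have a1 := dr_term (ψ := sg f) (χ := χ) hw h3 p3 hφ
  have a2 := dr_term (ψ := sg f) (χ := ρ) hw h2 p2 hφ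
  have := D3_split (φ := φ) (w := w) (ψ := sg f) (χ := χ) (ρ := ρ)
  have e : T3 w (sg fun x => covV w f φ ⬝ᵥ φ x) χ ρ = ∑ l, ∑ m, ∑ j : Unit, (∑ i,
      cum3 w (fun x => χ x l) (fun x => ρ x m) (fun x => φ x i) * covV w (fun x => sg f x j) φ i) ^ 2 := by
    rw [T3_comm, T3_comm']
    simp only [T3, cum3_dot, mul_comm (covV w f φ _)]
  linarith

end Crest.Agent.T157.Ks
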