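import Crest.Agent.T157.KsC_5

/-!
# Row 157: the cumulant bounds (S1)–(S5) from the future of the localisation (helper5)

`sc1 κ h` is the constant of one smoothing step. All features satisfy `|·|² ≤ R`, `1 ≤ R`.
-/

set_option linter.unusedSectionVars false

noncomputable section

namespace Crest.Agent.T157.Ks

open MeasureTheory ProbabilityTheory Filter Topology Set Real Matrix
open Crest.Agent.T157.E Crest.Agent.T157.SL

variable {Ω ι J L M : Type*} [Fintype Ω] [Fintype ι] [DecidableEq ι] [Fintype J] [Fintype L] [Fintype M]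
  {φ : Ω → ι → ℝ} {ψ : Ω → J → ℝ} {χ : Ω → L → ℝ} {ρ : Ω → M → ℝ} {w f g : Ω → ℝ}
  {u h κ κ' δ R α β K V : ℝ} {S : Set (ι → ℝ)}

theorem AP.ex_le {P : (Ω → ℝ) → Prop} (hP : AP φ w h δ P) (hw : Wt w) (hu : u ∈ Icc 0 h)
    {F : (Ω → ℝ) → ℝ} (hF : EG univ fun p => F (pw φ w p)) {a C : ℝ} (a0 : 0 ≤ a) (C0 : 0 ≤ C)
    (h1 : ∀ v, Wt v → P v → F v ≤ a) (h2 : ∀ v, Wt v → F v ≤ C) :
    ex φ w (fun p => F (pw φ w p)) u ≤ a + C * δ :=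
  ex_le_bad' hw (hP u hu) (hF.mg (mem_univ u)) a0 C0 (fun _ hy => h1 _ (hw.post _ _ _) (not_not.1 hy))
    fun _ => h2 _ (hw.post _ _ _)

theorem ex_var_le (hw : Wt w) (hu : 0 ≤ u) (f : Ω → ℝ) :
    ex φ w (fun p => var (pw φ w p) f) u ≤ var w f := by
  simpa only [ex_pw_zero hw fun q => var q f] using (ito_var (φ := φ) hw f).ex_anti hw le_rfl hu
    (eg_var hw f) fun r _ => by rw [ex_neg]; exact neg_nonpos.2 (ex_nonneg hw fun _ => dot_self_nonneg _)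

/-- bounds proportional to the conditional variance of `f` -/
theorem AP.ex_le_var {P : (Ω → ℝ) → Prop} (hP : AP φ w h δ P) (hw : Wt w) (hu : u ∈ Icc 0 h)
    {F : (Ω → ℝ) → ℝ} (hF : EG univ fun p => F (pw φ w p)) {a b C : ℝ} (a0 : 0 ≤ a) (b0 : 0 ≤ b)
    (C0 : 0 ≤ C) (h1 : ∀ v, Wt v → P v → F v ≤ a * var v f + b) (h2 : ∀ v, Wt v → F v ≤ C) :
    ex φ w (fun p => F (pw φ w p)) u ≤ a * var w f + b + C * δ := by
  have m := ((eg_var (φ := φ) (I := univ) hw f).const_mul a).mg (mem_univ u)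
  have := ex_le_bad (G := fun p => F (pw φ w p)) (H := fun p => a * var (pw φ w p) f + b) hw (hP u hu) (hF.mg (mem_univ u))
    (m.add (.const b)) C0 (fun _ hy => h1 _ (hw.post _ _ _) (not_not.1 hy)) fun y => by
      have := h2 _ (hw.post φ u y)
      have := mul_nonneg a0 ((hw.post φ u y).var_nonneg f)
      simp only [pw]; linarith
  rw [ex_add (G := fun p => a * var (pw φ w p) f) (H := fun _ => b) m (.const b), ex_const hw,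
    ex_const_mul] at this
  have := mul_le_mul_of_nonneg_left (ex_var_le (φ := φ) hw hu.1 f) a0
  linarith

theorem D2_crude {R' R'' : ℝ} (hw : Wt w) (hφ : Bd φ R) (hψ : Bd ψ R') (hχ : Bd χ R'') :
    D2 φ w ψ χ 0 ≤ 16 * (R ^ 2 * R' * R'') := by
  have := hφ.nonneg hw
  have := hψ.nonneg hw
  exact (D2_zero_le hw (hψ.cb hw) this (hφ.cb hw)).trans
    ((mul_le_mul_of_nonneg_left (T2_crude hw hχ hφ) (by positivity)).trans_eq (by ring))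

theorem D3_crude {R1 R2 R3 : ℝ} (hw : Wt w) (hφ : Bd φ R) (hψ : Bd ψ R1) (hχ : Bd χ R2) (hρ : Bd ρ R3) :
    D3 φ w ψ χ ρ ≤ 576 * (R ^ 2 * R1 * R2 * R3) := by
  have := hφ.nonneg hw
  have p1 := hψ.nonneg hw
  have p2 := hχ.nonneg hw
  have p3 := hρ.nonneg hw
  refine (D3_le hw (hψ.cb hw) (hχ.cb hw) (hρ.cb hw) (hφ.cb hw) p1 p2 p3).trans
    ((mul_le_mul_of_nonneg_left (add_le_add (add_le_add
      (mul_le_mul_of_nonneg_left (T3_crude hw hψ hχ hφ) p3)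
      (mul_le_mul_of_nonneg_left (T3_crude hw hψ hρ hφ) p2))
      (mul_le_mul_of_nonneg_left (T3_crude hw hχ hρ hφ) p1)) (by positivity)).trans_eq (by ring))

/-- (g3)', (g4)': forward propagation of `|Cov(ψ, χ) - c|_F` -/
theorem T2_prop (hw : Wt w) (hh : 0 ≤ h) (R1 : 1 ≤ R) (hφ : Bd φ R) (hψ : Bd ψ R) (hχ : Bd χ R)
    {c : J → L → ℝ} (hc : ∑ j, ∑ l, c j l ^ 2 ≤ R ^ 2) (α0 : 0 ≤ α) (β0 : 0 ≤ β)
    (hS : (law φ w h).real S ≤ δ) (good : ∀ y ∉ S, T2 (post φ w h y) ψ χ c ≤ α)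
    (hP : AP φ w h δ fun v => D2 φ v ψ χ 0 ≤ β) :
    √(T2 w ψ χ c) ≤ √(α + 34 * R ^ 2 * δ) + h * √(β + 16 * R ^ 4 * δ) :=
  fp_T2 hw hh (ex_le_bad' (G := fun p => T2 (pw φ w p) ψ χ c) hw hS ((eg_T2 hw c).mg (mem_univ h)) α0
    (by positivity) good fun y => by
      have := T2_le (w := post φ w h y) (ψ := ψ) (χ := χ) c
      have := T2_crude (hw.post φ h y) hψ hχ
      simp only [pw]; nlinarith)
    fun u hu => hP.ex_le hw (Ioo_subset_Icc_self hu) (eg_D2 hw 0) β0 (by positivity) (fun _ _ h => h)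
      fun v hv => (D2_crude hv hφ hψ hχ).trans_eq (by ring)

/-- **(S1)** -/
theorem S1 (hw : Wt w) (hh : 0 < h) (hκ : 0 ≤ κ) (hC : CB w φ κ) (R1 : 1 ≤ R) (hφ : Bd φ R)
    (hψ : Bd ψ R) (hχ : Bd χ R) {c c' : J → L → ℝ} (hc : ∑ j, ∑ l, c j l ^ 2 ≤ R ^ 2)
    (hc' : ∑ j, ∑ l, c' j l ^ 2 ≤ R ^ 2) (α0 : 0 ≤ α) (β0 : 0 ≤ β)
    (hP : AP φ w h δ fun v => T2 v ψ χ c ≤ α ∧ D2 φ v ψ χ c' ≤ β) :
    T3 w ψ χ φ ≤ 2 * (1 + κ * h) * ((α + 34 * R ^ 2 * δ) / h + 4 * h * (β + 34 * R ^ 4 * δ)) :=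
  sm_T3 hw hh hκ hC (hP.ex_le hw (right_mem_Icc.2 hh.le) (eg_T2 hw c) α0 (by positivity)
    (fun _ _ h => h.1) fun v hv => by
      have := T2_le (w := v) (ψ := ψ) (χ := χ) c
      have := T2_crude hv hψ hχ
      nlinarith)
    fun u hu => hP.ex_le hw (Ioo_subset_Icc_self hu) (eg_D2 hw c') β0 (by positivity)
      (fun _ _ h => h.2) fun v hv => by
        have := D2_le (φ := φ) (w := v) (ψ := ψ) (χ := χ) c'
        have := D2_crude hv hφ hψ hχ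
        have := pow_le_pow_right₀ R1 (show 2 ≤ 4 by norm_num)
        nlinarith

/-- **(S2), (S2')**: all three third cumulants and the base are bounded in the future -/
theorem S2 (hw : Wt w) (hh : 0 < h) (hκ : 0 ≤ κ) (hC : CB w φ κ) (hφ : Bd φ R)
    (hψ : Bd ψ R) (hχ : Bd χ R) (hρ : Bd ρ R) {k1 k2 k3 a12 a13 a23 : ℝ} (p1 : 0 ≤ k1) (p2 : 0 ≤ k2)
    (p3 : 0 ≤ k3) (κ0 : 0 ≤ κ')
    (hP : AP φ w h δ fun v => CB v φ κ' ∧ CB v ψ k1 ∧ CB v χ k2 ∧ CB v ρ k3 ∧ T3 v ψ χ ρ ≤ α ∧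
      T3 v ψ χ φ ≤ a12 ∧ T3 v ψ ρ φ ≤ a13 ∧ T3 v χ ρ φ ≤ a23) (α0 : 0 ≤ α) (q1 : 0 ≤ a12)
    (q2 : 0 ≤ a13) (q3 : 0 ≤ a23) : T4 w ψ χ ρ φ ≤ 2 * (1 + κ * h) * ((α + 64 * R ^ 3 * δ) / h +
      4 * h * (3 * κ' * (k3 * a12 + k2 * a13 + k1 * a23) + 576 * R ^ 5 * δ)) := by
  have := hφ.nonneg hw
  refine sm_T4 hw hh hκ hC (hP.ex_le hw (right_mem_Icc.2 hh.le) (eg_T3 hw) α0 (by positivity)
    (fun _ _ h => h.2.2.2.2.1) fun v hv => (T3_crude hv hψ hχ hρ).trans_eq (by ring))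
    fun u hu => hP.ex_le hw (Ioo_subset_Icc_self hu) (eg_D3 hw) (by positivity) (by positivity)
      (fun v hv ⟨h0, h1, h2, h3, _, h5, h6, h7⟩ => (D3_le hv h1 h2 h3 h0 p1 p2 p3).trans (by gcongr))
      fun v hv => (D3_crude hv hφ hψ hχ hρ).trans_eq (by ring)

/-- replacing the feature `φ` by a linear image -/
theorem T3_lin {ψ' : Ω → M → ℝ} {A : M → ι → ℝ} {a : ℝ} (hA : ∀ v : ι → ℝ, ∑ m, (A m ⬝ᵥ v) ^ 2 ≤ a * ∑ i, v i ^ 2)
    (e : ∀ x m, ψ' x m = A m ⬝ᵥ φ x) : T3 w ψ χ ψ' ≤ a * T3 w ψ χ φ := by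
  simp only [T3, e, cum3_dot]
  simp only [Finset.mul_sum _ _ a]
  exact Finset.sum_le_sum fun j _ => Finset.sum_le_sum fun l _ => by
    simpa only [Finset.mul_sum _ _ a, dotProduct] using hA _

theorem T4_lin {ψ' : Ω → ι → ℝ} {A : ι → ι → ℝ} {a : ℝ}
    (hA : ∀ v : ι → ℝ, ∑ m, (A m ⬝ᵥ v) ^ 2 ≤ a * ∑ i, v i ^ 2)
    (e : ∀ x m, ψ' x m = A m ⬝ᵥ φ x) : T4 w ψ χ ρ ψ' ≤ a * T4 w ψ χ ρ φ := by
  simp only [T4, e, cum4_dot]
  simp only [Finset.mul_sum _ _ a]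
  exact Finset.sum_le_sum fun j _ => Finset.sum_le_sum fun l _ => Finset.sum_le_sum fun m _ => by
    simpa only [Finset.mul_sum _ _ a, dotProduct] using hA _

/-- the constant of one smoothing step when `‖C‖ ≤ κ` on the step -/
def sc1 (κ h : ℝ) : ℝ := 2 * (1 + κ * h) * (1 / h + 4 * h * κ ^ 2)

theorem sc1_nonneg (hκ : 0 ≤ κ) (hh : 0 < h) : 0 ≤ sc1 κ h := by unfold sc1; positivity

theorem T2_sg_le (hw : Wt w) (hψ : CB w ψ K) (K0 : 0 ≤ K) : T2 w (sg f) ψ 0 ≤ K * var w f := by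
  simpa [T2, covV, dotProduct, sq] using hψ.covV_le hw K0 f

theorem D2_comm : D2 φ w ψ χ 0 = D2 φ w χ ψ 0 := by
  simp only [D2, Pi.zero_apply, sub_zero]; rw [Finset.sum_comm]; simp only [dotProduct_comm]

theorem D2_sg_le (hw : Wt w) (hψ : CB w ψ K) (K0 : 0 ≤ K) (hφ : CB w φ κ) (hκ : 0 ≤ κ) :
    D2 φ w (sg f) ψ 0 ≤ K * κ ^ 2 * var w f := by
  rw [D2_comm]
  exact (D2_zero_le hw hψ K0 hφ).trans ((mul_le_mul_of_nonneg_left (T2_sg_le hw hφ hκ)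
    (by positivity)).trans_eq (by ring))

/-- **(S3), (S4)**, third cumulant with one fixed slot `f`, `f² ≤ V` -/
theorem S3 (hw : Wt w) (hh : 0 < h) (hκ : 0 ≤ κ) (hC : CB w φ κ) (hφ : Bd φ R) (hψ : Bd ψ R)
    (hf : Bd (sg f) V) (K0 : 0 ≤ K) (hP : AP φ w h δ fun v => CB v φ κ ∧ CB v ψ K) :
    T3 w (sg f) ψ φ ≤ sc1 κ h * K * var w f + sc1 (κ + R) h * (16 * R * V * δ) := by
  have R0 := hφ.nonneg hw
  have V0 := hf.nonneg hw
  have δ0 := hP.nonneg hh.le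
  refine (sm_T3 (c := 0) (c' := 0) hw hh hκ hC (hP.ex_le_var (f := f) hw (right_mem_Icc.2 hh.le)
    (eg_T2 hw 0) K0 le_rfl (C := 16 * (V * R)) (by positivity)
    (fun v hv h => (T2_sg_le hv h.2 K0).trans_eq (add_zero _).symm) fun v hv => T2_crude hv hf hψ)
    fun u hu => hP.ex_le_var (f := f) hw (Ioo_subset_Icc_self hu) (eg_D2 hw 0) (a := K * κ ^ 2)
      (by positivity) le_rfl (C := 16 * (R ^ 2 * V * R)) (by positivity)
      (fun v hv h => (D2_sg_le hv h.2 K0 h.1 hκ).trans_eq (add_zero _).symm)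
      fun v hv => D2_crude hv hφ hf hψ).trans ?_
  have e : 2 * (1 + κ * h) * ((K * var w f + 0 + 16 * (V * R) * δ) / h + 4 * h *
      (K * κ ^ 2 * var w f + 0 + 16 * (R ^ 2 * V * R) * δ)) = sc1 κ h * K * var w f +
      2 * (1 + κ * h) * (1 / h + 4 * h * R ^ 2) * (16 * R * V * δ) := by unfold sc1; ring
  rw [e, sc1]
  unfold sc1
  gcongr <;> linarith

/-- the conclusion of `S3` for all linear observables -/
def S3P (φ : Ω → ι → ℝ) (ψ : Ω → J → ℝ) (χ : Ω → L → ℝ) (a ε : ℝ) (w : Ω → ℝ) : Prop :=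
  ∀ v, T3 w (sg fun x => v ⬝ᵥ φ x) ψ χ ≤ a * var w (fun x => v ⬝ᵥ φ x) + ε * (v ⬝ᵥ v)

theorem S3P_of (hw : Wt w) (hh : 0 < h) (hκ : 0 ≤ κ) (hC : CB w φ κ) (hφ : Bd φ R) (hψ : Bd ψ R)
    (K0 : 0 ≤ K) (hP : AP φ w h δ fun v => CB v φ κ ∧ CB v ψ K) :
    S3P φ ψ φ (sc1 κ h * K) (sc1 (κ + R) h * (16 * R ^ 2 * δ)) w := fun v =>
  (S3 hw hh hκ hC hφ hψ (hφ.sg_dot v) K0 hP).trans_eq (by ring)

/-- **(S3), (S4)**, fourth cumulant with one fixed slot `v · φ` -/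
theorem S3b (hw : Wt w) (hh : 0 < h) (hκ : 0 ≤ κ) (hC : CB w φ κ) (hφ : Bd φ R) (hψ : Bd ψ R)
    (K0 : 0 ≤ K) {a a' ε : ℝ} (a0 : 0 ≤ a) (a0' : 0 ≤ a') (ε0 : 0 ≤ ε)
    (hP : AP φ w h δ fun v => CB v φ κ ∧ CB v ψ K ∧ S3P φ ψ φ a ε v ∧ S3P φ φ φ a' ε v) (v : ι → ℝ) :
    T4 w (sg fun x => v ⬝ᵥ φ x) ψ φ φ ≤ 2 * (1 + κ * h) *
      ((a / h + 12 * h * κ * (2 * κ * a + K * a')) * var w (fun x => v ⬝ᵥ φ x) +
        ((ε + 64 * R ^ 3 * δ) / h + 4 * h * (3 * κ * (2 * κ + K) * ε + 576 * R ^ 5 * δ)) * (v ⬝ᵥ v)) := by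
  have R0 := hφ.nonneg hw
  have v0 := dot_self_nonneg v
  set f := fun x => v ⬝ᵥ φ x with hf
  have hb : Bd (sg f) (R * (v ⬝ᵥ v)) := hφ.sg_dot v
  have b1 := hP.ex_le_var (f := f) (F := fun q => T3 q (sg f) ψ φ) hw (right_mem_Icc.2 hh.le)
    (eg_T3 hw) a0 (b := ε * (v ⬝ᵥ v)) (by positivity) (C := 64 * (R * (v ⬝ᵥ v) * R * R)) (by positivity)
    (fun _ _ h => h.2.2.1 v) fun q hq => T3_crude hq hb hψ hφ
  have b2 : ∀ q, Wt q → CB q φ κ ∧ CB q ψ K ∧ S3P φ ψ φ a ε q ∧ S3P φ φ φ a' ε q → D3 φ q (sg f) ψ φ ≤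
      3 * κ * (2 * κ * a + K * a') * var q f + 3 * κ * (2 * κ + K) * ε * (v ⬝ᵥ v) := by
    intro q hq ⟨h0, h1, h2, h3⟩
    have e0 := D3_sg_le (f := f) hq h1 h0 h0 K0 hκ
    have e1 := h0.covV_le hq hκ f
    have e2 := (h0.var_le _).trans (mul_le_mul_of_nonneg_left e1 hκ)
    have e3 := e1.trans (mul_le_mul_of_nonneg_left (h0.var_le v) hκ)
    have e4 := (h2 _).trans (add_le_add (mul_le_mul_of_nonneg_left e2 a0)
      (mul_le_mul_of_nonneg_left e3 ε0))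
    have e5 := mul_le_mul_of_nonneg_left (h2 v) (mul_nonneg hκ hκ)
    have e6 := mul_le_mul_of_nonneg_left (h3 v) (mul_nonneg hκ K0)
    rw [← hf] at e5 e6
    linarith
  have b3 := fun u (hu : u ∈ Ioo 0 h) => hP.ex_le_var (f := f) (F := fun q => D3 φ q (sg f) ψ φ) hw
    (Ioo_subset_Icc_self hu) (eg_D3 hw) (by positivity) (by positivity)
    (C := 576 * (R ^ 2 * (R * (v ⬝ᵥ v)) * R * R)) (by positivity) b2 fun q hq => D3_crude hq hφ hb hψ hφ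
  exact (sm_T4 hw hh hκ hC b1 b3).trans_eq (by ring)

/-- **(S5)**, `E (v · φ - E)⁴ ≤ |v|³ |κ₄(v,·,·,·)|_F + 3 Var²` -/
theorem four_le (w : Ω → ℝ) (v : ι → ℝ) :
    mean w (fun x => (v ⬝ᵥ φ x - mean w fun x => v ⬝ᵥ φ x) ^ 4) ≤
      √((v ⬝ᵥ v) ^ 3 * T4 w (sg fun x => v ⬝ᵥ φ x) φ φ φ) + 3 * var w (fun x => v ⬝ᵥ φ x) ^ 2 := by
  set f := fun x => v ⬝ᵥ φ x with hf
  have e : mean w (fun x => (f x - mean w f) ^ 4) = cum4 w f f f f + 3 * var w f ^ 2 := by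
    simp only [cum4, ← var_eq_cov, pow_succ, pow_zero, one_mul]; ring
  have e2 : cum4 w f f f f = ∑ q : ι × ι × ι, v q.1 * v q.2.1 * v q.2.2 *
      cum4 w f (fun x => φ x q.1) (fun x => φ x q.2.1) fun x => φ x q.2.2 := by
    have a1 : ∀ g k, cum4 w f g f k = ∑ j, v j * cum4 w f g (fun x => φ x j) k := fun g k => by
      rw [cum4_comm, hf, cum4_dot]; simp only [cum4_comm w _ g k]
    have a2 : ∀ g k, cum4 w f f g k = ∑ j, v j * cum4 w f (fun x => φ x j) g k := fun g k => by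
      rw [cum4_comm', a1]; simp only [cum4_comm' w _ g]
    have a3 : ∀ g k, cum4 w f g k f = ∑ j, v j * cum4 w f g k fun x => φ x j := fun g k =>
      cum4_dot _ _ _ _ _ _
    simp only [Fintype.sum_prod_type, mul_assoc, ← Finset.mul_sum, ← a3, ← a1, ← a2]
  rw [e, e2]
  refine add_le_add_left (le_sqrt_of_sq_le ((Finset.sum_mul_sq_le_sq_mul_sq _ _ _).trans_eq ?_)) _
  simp only [Fintype.sum_prod_type, T4, Finset.univ_unique, Finset.sum_singleton, mul_pow,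
    ← Finset.mul_sum, ← Finset.sum_mul, dotProduct, ← sq]
  ring

end Crest.Agent.T157.Ks
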