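import Crest.Agent.T157.KsD_5

/-!
# Row 157: variances of centred quadratic forms, (N), (N'), (S5) (helper5)
-/

set_option linter.unusedSectionVars false

noncomputable section

namespace Crest.Agent.T157.Ks

open MeasureTheory ProbabilityTheory Filter Topology Set Real Matrix
open Crest.Agent.T157.E Crest.Agent.T157.SL

variable {Ω ι J L M : Type*} [Fintype Ω] [Fintype ι] [DecidableEq ι] [Fintype J] [Fintype L] [Fintype M]
  {φ : Ω → ι → ℝ} {ψ : Ω → J → ℝ} {χ : Ω → L → ℝ} {w v f g : Ω → ℝ} {U : Matrix J L ℝ}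
  {u h κ κ' δ R α β K V : ℝ} {S : Set (ι → ℝ)} {I : Set ℝ}

/-- the centred bilinear form `ψ̄ · U χ̄` -/
def qf (w : Ω → ℝ) (ψ : Ω → J → ℝ) (χ : Ω → L → ℝ) (U : Matrix J L ℝ) (x : Ω) : ℝ :=
  (ψ x - meanV w ψ) ⬝ᵥ U *ᵥ (χ x - meanV w χ)

/-- its variance -/
def NV (ψ : Ω → J → ℝ) (χ : Ω → L → ℝ) (U : Matrix J L ℝ) (w : Ω → ℝ) : ℝ := var w (qf w ψ χ U)

/-- squared Frobenius norm -/
def fr (U : Matrix J L ℝ) : ℝ := ∑ j, ∑ l, U j l ^ 2

theorem fr_nonneg : 0 ≤ fr U := by unfold fr; positivity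

theorem fr_transpose : fr Uᵀ = fr U := Finset.sum_comm

theorem mulVec_sq_le (U : Matrix J L ℝ) (d : L → ℝ) : U *ᵥ d ⬝ᵥ U *ᵥ d ≤ fr U * ∑ l, d l ^ 2 := by
  rw [fr, Finset.sum_mul]
  exact Finset.sum_le_sum fun j _ => (sq _).symm.trans_le (Finset.sum_mul_sq_le_sq_mul_sq _ _ _)

theorem eg_var' (hw : Wt w) {F : Ω → Pt ι → ℝ} (hF : ∀ x, EG I (F x)) :
    EG I fun p => var (pw φ w p) fun x => F x p := by
  simp only [var_eq_cov, cov_eq_mean]
  exact eg_mean' hw fun x => ((hF x).sub (eg_mean' hw hF)).mul ((hF x).sub (eg_mean' hw hF))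

theorem eg_NV (hw : Wt w) : EG I fun p => NV ψ χ U (pw φ w p) :=
  eg_var' hw fun _ => .sum _ fun _ _ => ((EG.const _).sub (eg_mean hw _)).mul
    (.sum _ fun _ _ => (EG.const _).mul ((EG.const _).sub (eg_mean hw _)))

theorem sub_sq_le {a b : J → ℝ} (ha : ∑ j, a j ^ 2 ≤ R) (hb : ∑ j, b j ^ 2 ≤ R) :
    ∑ j, (a - b) j ^ 2 ≤ 4 * R := by
  refine (Finset.sum_le_sum (g := fun j => 2 * a j ^ 2 + 2 * b j ^ 2) fun j _ => ?_).trans ?_
  · simp only [Pi.sub_apply]; nlinarith [sq_nonneg (a j + b j)]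
  · rw [Finset.sum_add_distrib, ← Finset.mul_sum, ← Finset.mul_sum]; linarith

theorem qf_sq_le {R' : ℝ} (hw : Wt w) (hψ : Bd ψ R) (hχ : Bd χ R') (x : Ω) :
    qf w ψ χ U x ^ 2 ≤ 16 * (R * R') * fr U := by
  have h1 := sub_sq_le (hψ x) (hψ.meanV_le hw)
  have h2 := (mulVec_sq_le U _).trans (mul_le_mul_of_nonneg_left (sub_sq_le (hχ x) (hχ.meanV_le hw))
    fr_nonneg)
  refine (Finset.sum_mul_sq_le_sq_mul_sq _ _ _).trans ((mul_le_mul h1 (by
    simpa only [dotProduct, ← sq] using h2) (by positivity)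
    (by have := hψ.nonneg hw; positivity)).trans_eq (by ring))

theorem var_qf_crude {R' : ℝ} (hw : Wt w) (hv : Wt v) (hψ : Bd ψ R) (hχ : Bd χ R') :
    var v (qf w ψ χ U) ≤ 16 * (R * R') * fr U :=
  (hv.var_le_mean _ 0).trans (hv.mean_le fun x => by simpa using qf_sq_le hw hψ hχ x)

theorem var_add_const (hw : Wt w) (f : Ω → ℝ) (c : ℝ) : var w (fun x => f x + c) = var w f := by
  simp only [var, mean_add, hw.mean_const, add_sub_add_right_eq_sub]

theorem var_add_le (hw : Wt w) (f g : Ω → ℝ) {ε : ℝ} (hε : 0 < ε) :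
    var w (fun x => f x + g x) ≤ (1 + ε) * var w f + (1 + ε⁻¹) * var w g := by
  simp only [var_eq_cov, cov_eq_mean, ← mean_const_mul, ← mean_add]
  refine hw.mean_mono fun x => ?_
  rw [mean_add]
  have h := mul_nonneg (inv_pos.2 hε).le (sq_nonneg (ε * (f x - mean w f) - (g x - mean w g)))
  have e : ε⁻¹ * (ε * (f x - mean w f) - (g x - mean w g)) ^ 2 = ε * (f x - mean w f) ^ 2 -
      2 * (f x - mean w f) * (g x - mean w g) + ε⁻¹ * (g x - mean w g) ^ 2 := by field_simp; ring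
  nlinarith

/-- change of centre -/
theorem qf_shift (w v : Ω → ℝ) (x : Ω) : qf w ψ χ U x = qf v ψ χ U x +
    (U *ᵥ (meanV v χ - meanV w χ) ⬝ᵥ ψ x + Uᵀ *ᵥ (meanV v ψ - meanV w ψ) ⬝ᵥ χ x) +
    (meanV w ψ ⬝ᵥ U *ᵥ meanV w χ - meanV v ψ ⬝ᵥ U *ᵥ meanV v χ) := by
  simp only [qf, mulVec_transpose, ← dotProduct_mulVec, dotProduct_comm (U *ᵥ _), mulVec_sub,
    dotProduct_sub, sub_dotProduct]
  ring

theorem var_qf_le (hv : Wt v) {k1 k2 ε : ℝ} (h1 : CB v ψ k1) (h2 : CB v χ k2) (hε : 0 < ε) :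
    var v (qf w ψ χ U) ≤ (1 + ε) * NV ψ χ U v + (1 + ε⁻¹) * (2 * k1 *
      (U *ᵥ (meanV v χ - meanV w χ) ⬝ᵥ U *ᵥ (meanV v χ - meanV w χ)) + 2 * k2 *
      (Uᵀ *ᵥ (meanV v ψ - meanV w ψ) ⬝ᵥ Uᵀ *ᵥ (meanV v ψ - meanV w ψ))) := by
  rw [funext (qf_shift w v), var_add_const hv]
  refine (var_add_le hv _ _ hε).trans (add_le_add le_rfl (mul_le_mul_of_nonneg_left
    ((var_add_le hv _ _ one_pos).trans ?_) (by positivity)))
  have := h1.var_le (U *ᵥ (meanV v χ - meanV w χ))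
  have := h2.var_le (Uᵀ *ᵥ (meanV v ψ - meanV w ψ))
  rw [inv_one]; linarith

theorem ex_mean_sub_sq (hw : Wt w) (hu : 0 ≤ u) (f : Ω → ℝ) :
    ex φ w (fun p => (mean (pw φ w p) f - mean w f) ^ 2) u ≤ var w f := by
  have := ex_mean (φ := φ) hw hu fun x => (f x - mean w f) ^ 2
  refine (ex_mono hw ((((eg_mean hw f).sub (.const _)).pow 2).mg (mem_univ u))
    ((eg_mean hw _).mg (mem_univ u)) fun y => ?_).trans (this.trans_le (le_of_eq rfl))
  have hq := hw.post φ u y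
  have h1 := mean_sq_eq hq fun x => f x - mean w f
  have h2 := hq.var_nonneg fun x => f x - mean w f
  rw [mean_sub, hq.mean_const] at h1
  simp only [pw]; linarith

theorem eg_shift (hw : Wt w) (c : L → ℝ) : EG I fun p =>
    U *ᵥ (meanV (pw φ w p) χ - c) ⬝ᵥ U *ᵥ (meanV (pw φ w p) χ - c) :=
  eg_dot (fun _ => .sum _ fun _ _ => (EG.const _).mul ((eg_mean hw _).sub (.const _)))
    fun _ => .sum _ fun _ _ => (EG.const _).mul ((eg_mean hw _).sub (.const _))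

theorem ex_shift_le (hw : Wt w) (hu : 0 ≤ u) (hχ : CB w χ K) : ex φ w (fun p =>
    U *ᵥ (meanV (pw φ w p) χ - meanV w χ) ⬝ᵥ U *ᵥ (meanV (pw φ w p) χ - meanV w χ)) u ≤ K * fr U := by
  classical
  have e : ∀ p : Pt ι, U *ᵥ (meanV (pw φ w p) χ - meanV w χ) ⬝ᵥ U *ᵥ (meanV (pw φ w p) χ - meanV w χ) =
      ∑ j, (mean (pw φ w p) (fun x => U j ⬝ᵥ χ x) - mean w fun x => U j ⬝ᵥ χ x) ^ 2 := fun p => by
    simp only [← meanV_dot, ← dotProduct_sub, sq]; rfl
  simp only [e]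
  rw [ex_sum _ fun j _ => (((eg_mean hw _).sub (.const _)).pow 2).mg (mem_univ u), fr, Finset.mul_sum]
  exact Finset.sum_le_sum fun j _ => (ex_mean_sub_sq hw hu _).trans (by
    simpa only [dotProduct, sq] using hχ.var_le (U j))

/-- the variance at time `h` of the form centred at time `0` -/
theorem ex_var_qf_le (hw : Wt w) (hh : 0 ≤ h) (hψ : Bd ψ R) (hχ : Bd χ R) {k1 k2 k1' k2' ε : ℝ}
    (c1 : CB w ψ k1) (c2 : CB w χ k2) (p1 : 0 ≤ k1') (p2 : 0 ≤ k2') (hε : 0 < ε)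
    (hS : (law φ w h).real S ≤ δ)
    (good : ∀ y ∉ S, CB (post φ w h y) ψ k1' ∧ CB (post φ w h y) χ k2') :
    ex φ w (fun p => var (pw φ w p) (qf w ψ χ U)) h ≤ (1 + ε) * ex φ w (fun p => NV ψ χ U (pw φ w p)) h +
      ((1 + ε⁻¹) * (2 * (k1' * k2 + k2' * k1)) + 16 * R ^ 2 * δ) * fr U := by
  have R0 := hψ.nonneg hw
  have f0 := fr_nonneg (U := U)
  have m1 := ((eg_NV (φ := φ) (ψ := ψ) (χ := χ) (U := U) hw).const_mul (1 + ε)).mg (mem_univ h)
  have m2 := ((eg_shift (φ := φ) (χ := χ) (U := U) hw (meanV w χ)).const_mul (2 * k1')).mg (mem_univ h)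
  have m3 := ((eg_shift (φ := φ) (χ := ψ) (U := Uᵀ) hw (meanV w ψ)).const_mul (2 * k2')).mg (mem_univ h)
  have := ex_le_bad (G := fun p => var (pw φ w p) (qf w ψ χ U))
    (H := fun p => (1 + ε) * NV ψ χ U (pw φ w p) + (1 + ε⁻¹) * (2 * k1' *
      (U *ᵥ (meanV (pw φ w p) χ - meanV w χ) ⬝ᵥ U *ᵥ (meanV (pw φ w p) χ - meanV w χ)) + 2 * k2' *
      (Uᵀ *ᵥ (meanV (pw φ w p) ψ - meanV w ψ) ⬝ᵥ Uᵀ *ᵥ (meanV (pw φ w p) ψ - meanV w ψ)))) hw hS
    ((eg_var hw _).mg (mem_univ h)) (m1.add ((m2.add m3).const_mul _)) (C := 16 * (R * R) * fr U)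
    (by positivity) (fun y hy => var_qf_le (hw.post _ _ _) (good y hy).1 (good y hy).2 hε) fun y => by
      refine (var_qf_crude hw (hw.post φ h y) hψ hχ).trans (le_add_of_nonneg_left ?_)
      have a1 : 0 ≤ NV ψ χ U (pw φ w (h, y)) := (hw.post φ h y).var_nonneg _
      have a2 := dot_self_nonneg (U *ᵥ (meanV (pw φ w (h, y)) χ - meanV w χ))
      have a3 := dot_self_nonneg (Uᵀ *ᵥ (meanV (pw φ w (h, y)) ψ - meanV w ψ))
      positivity
  simp only [ex] at this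
  rw [slE_add (.of_mg fun _ => m1) (.of_mg fun _ => (m2.add m3).const_mul _), slE_const_mul,
    slE_const_mul, slE_add (.of_mg fun _ => m2) (.of_mg fun _ => m3), slE_const_mul, slE_const_mul] at this
  have b1 := mul_le_mul_of_nonneg_left (ex_shift_le (φ := φ) (U := U) hw hh c2) p1
  have b2 := mul_le_mul_of_nonneg_left (ex_shift_le (φ := φ) (U := Uᵀ) hw hh c1) p2
  rw [fr_transpose] at b2
  have b3 := mul_le_mul_of_nonneg_left (add_le_add b1 b2) (show 0 ≤ 2 * (1 + ε⁻¹) by positivity)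
  simp only [ex] at b3 ⊢
  linarith

/-- **(N), (N')**, one step -/
theorem N_step (hw : Wt w) (hh : 0 ≤ h) (hκ : 0 ≤ κ) (hφ : Bd φ R) (hψ : Bd ψ R) (hχ : Bd χ R)
    {k1 k2 k1' k2' ε : ℝ} (c1 : CB w ψ k1) (c2 : CB w χ k2) (p1 : 0 ≤ k1') (p2 : 0 ≤ k2') (hε : 0 < ε)
    (hP : AP φ w h δ fun v => CB v φ κ ∧ CB v ψ k1' ∧ CB v χ k2') (U : Matrix J L ℝ) :
    NV ψ χ U w ≤ exp (κ * h) * (1 + ε) * ex φ w (fun p => NV ψ χ U (pw φ w p)) h + exp (κ * h) *
      ((1 + ε⁻¹) * (2 * (k1' * k2 + k2' * k1)) + 16 * (1 + h * R) * R ^ 2 * δ) * fr U := by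
  have h1 := var_step (f := qf w ψ χ U) hw hh hκ hφ (hP.mono hw fun _ _ h => h.1)
    fun v hv => var_qf_crude hw hv hψ hχ
  have h2 := ex_var_qf_le (U := U) hw hh hψ hχ c1 c2 p1 p2 hε (hP h (right_mem_Icc.2 hh))
    fun y hy => (not_not.1 hy).2
  refine h1.trans ((mul_le_mul_of_nonneg_left (add_le_add h2 le_rfl) (exp_pos _).le).trans_eq (by ring))

/-! ### chains -/

theorem mg_ex_pw (hw : Wt w) {F : (Ω → ℝ) → ℝ} (hF : EG univ fun p => F (pw φ w p)) (s t : ℝ) :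
    MG fun y => ex φ (post φ w s y) (fun q => F (pw φ (post φ w s y) q)) t := by
  simp only [ex, pw, post_post]
  exact mg_mean hw s fun x => (hF.mg (mem_univ (s + t))).conv (t • φ x) √t

theorem ex_ex_pw (hw : Wt w) {F : (Ω → ℝ) → ℝ} (hF : EG univ fun p => F (pw φ w p)) {s t : ℝ}
    (hs : 0 ≤ s) (ht : 0 ≤ t) : ex φ w (fun p => ex φ (pw φ w p) (fun q => F (pw φ (pw φ w p) q)) t) s =
      ex φ w (fun p => F (pw φ w p)) (s + t) := by
  rw [ex_markov hw hs ht (hF.mg (mem_univ _))]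
  simp only [pw, post_post, Prod.fst_add, Prod.snd_add]

/-- iteration of a one-step inequality along the times `r j` -/
theorem chain (hw : Wt w) {F : (Ω → ℝ) → ℝ} (hF : EG univ fun p => F (pw φ w p)) {C : ℝ}
    (F0 : ∀ v, Wt v → 0 ≤ F v) (FC : ∀ v, Wt v → F v ≤ C) {r a e : ℕ → ℝ} (r0 : r 0 = 0)
    (rm : ∀ j, r j ≤ r (j + 1)) (a0 : ∀ j, 0 ≤ a j) (e0 : ∀ j, 0 ≤ e j) (k : ℕ)
    (step : ∀ j < k, (law φ w (r j)).real {y | ¬ F (post φ w (r j) y) ≤ a j * ex φ (post φ w (r j) y)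
      (fun q => F (pw φ (post φ w (r j) y) q)) (r (j + 1) - r j) + e j} ≤ δ) :
    F w ≤ (∏ i ∈ Finset.range k, a i) * ex φ w (fun p => F (pw φ w p)) (r k) +
      ∑ j ∈ Finset.range k, (∏ i ∈ Finset.range j, a i) * (e j + C * δ) := by
  have rp : ∀ j, 0 ≤ r j := fun j => r0 ▸ monotone_nat_of_le_succ rm (Nat.zero_le j)
  have C0 := (F0 w hw).trans (FC w hw)
  induction k with
  | zero => simp [r0, ex_pw_zero hw F]
  | succ k ih =>
    have m := (mg_ex_pw hw hF (r k) (r (k + 1) - r k)).const_mul (a k)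
    have := ex_le_bad (G := fun p => F (pw φ w p)) (H := fun p => a k * ex φ (pw φ w p)
      (fun q => F (pw φ (pw φ w p) q)) (r (k + 1) - r k) + e k) hw (step k (Nat.lt_succ_self k))
      (hF.mg (mem_univ _)) (m.add (.const _)) C0 (fun y hy => not_not.1 hy) fun y => by
        have hq := hw.post φ (r k) y
        refine (FC _ hq).trans (le_add_of_nonneg_left (add_nonneg (mul_nonneg (a0 k)
          (ex_nonneg hq fun _ => F0 _ (hq.post _ _ _))) (e0 k)))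
    rw [ex_add (G := fun p => a k * ex φ (pw φ w p) (fun q => F (pw φ (pw φ w p) q)) (r (k + 1) - r k))
      (H := fun _ => e k) m (.const _), ex_const hw, ex_const_mul,
      ex_ex_pw hw hF (rp k) (sub_nonneg.2 (rm k)), add_sub_cancel] at this
    refine (ih fun j hj => step j (hj.trans (Nat.lt_succ_self k))).trans ?_
    rw [Finset.prod_range_succ, Finset.sum_range_succ]
    have := mul_le_mul_of_nonneg_left this (Finset.prod_nonneg fun i (_ : i ∈ Finset.range k) => a0 i)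
    linarith

/-- what one step of (N) needs at its left end point -/
def NP (φ : Ω → ι → ℝ) (ψ : Ω → J → ℝ) (χ : Ω → L → ℝ) (h δ κ k1 k2 : ℝ) (v : Ω → ℝ) : Prop :=
  AP φ v h δ (fun v => CB v φ κ ∧ CB v ψ k1 ∧ CB v χ k2) ∧ CB v ψ k1 ∧ CB v χ k2

/-- **(N), (N')** along a chain of times, with a terminal bound `NV ≤ γ |U|²` -/
theorem N_chain (hw : Wt w) (hφ : Bd φ R) (hψ : Bd ψ R) (hχ : Bd χ R) {r κ k1 k2 : ℕ → ℝ} {ε γ : ℝ}
    (hε : 0 < ε) (γ0 : 0 ≤ γ) (δ0 : 0 ≤ δ) (r0 : r 0 = 0) (rm : ∀ j, r j ≤ r (j + 1)) (κ0 : ∀ j, 0 ≤ κ j)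
    (p1 : ∀ j, 0 ≤ k1 j) (p2 : ∀ j, 0 ≤ k2 j) (k : ℕ)
    (step : ∀ j < k, (law φ w (r j)).real
      {y | ¬ NP φ ψ χ (r (j + 1) - r j) δ (κ j) (k1 j) (k2 j) (post φ w (r j) y)} ≤ δ)
    (U : Matrix J L ℝ)
    (fin : (law φ w (r k)).real {y | ¬ NV ψ χ U (post φ w (r k) y) ≤ γ * fr U} ≤ δ) :
    NV ψ χ U w ≤ ((∏ i ∈ Finset.range k, exp (κ i * (r (i + 1) - r i)) * (1 + ε)) * (γ + 16 * R ^ 2 * δ) +
      ∑ j ∈ Finset.range k, (∏ i ∈ Finset.range j, exp (κ i * (r (i + 1) - r i)) * (1 + ε)) *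
        (exp (κ j * (r (j + 1) - r j)) * ((1 + ε⁻¹) * (4 * (k1 j * k2 j)) +
          16 * (1 + (r (j + 1) - r j) * R) * R ^ 2 * δ) + 16 * R ^ 2 * δ)) * fr U := by
  have R0 := hφ.nonneg hw
  have f0 := fr_nonneg (U := U)
  have := chain (F := NV ψ χ U) hw (eg_NV hw) (fun v hv => hv.var_nonneg _)
    (fun v hv => var_qf_crude hv hv hψ hχ) r0 rm (a := fun i => exp (κ i * (r (i + 1) - r i)) * (1 + ε))
    (e := fun j => exp (κ j * (r (j + 1) - r j)) * ((1 + ε⁻¹) * (2 * (k1 j * k2 j + k2 j * k1 j)) +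
      16 * (1 + (r (j + 1) - r j) * R) * R ^ 2 * δ) * fr U) (fun _ => by positivity)
    (fun j => by have := p1 j; have := p2 j; have := sub_nonneg.2 (rm j); positivity) k (δ := δ)
    fun j hj => by
      have := isProb_law (φ := φ) (s := r j) hw
      refine le_trans (measureReal_mono fun y hy => ?_) (step j hj)
      exact fun ⟨h1, h2, h3⟩ => hy (N_step (hw.post _ _ _) (sub_nonneg.2 (rm j)) (κ0 j) hφ hψ hχ h2 h3
        (p1 j) (p2 j) hε h1 U)
  have h2 := ex_le_bad' (G := fun p => NV ψ χ U (pw φ w p)) hw fin ((eg_NV hw).mg (mem_univ _))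
    (by positivity) (C := 16 * (R * R) * fr U) (by positivity) (fun y hy => not_not.1 hy)
    fun y => var_qf_crude (hw.post _ _ _) (hw.post _ _ _) hψ hχ
  refine this.trans ((add_le_add (mul_le_mul_of_nonneg_left h2
    (Finset.prod_nonneg fun _ _ => by positivity)) le_rfl).trans_eq ?_)
  rw [add_mul, Finset.sum_mul]
  congr 1
  · ring
  · exact Finset.sum_congr rfl fun j _ => by ring

/-! ### the fourth moment without Gronwall loss -/

theorem covV_sq_center (hv : Wt v) (f : Ω → ℝ) (c : ℝ) (i : ι) :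
    covV v (fun x => (f x - c) ^ 2) φ i = cum3 v f f (fun x => φ x i) + 2 * (mean v f - c) * covV v f φ i := by
  have e : (fun x => (f x - c) ^ 2) = fun x => f x * f x + (-2 * c * f x + c ^ 2) := by ext; ring
  simp only [covV, hv.cum3_eq, e, cov_comm v _ fun x => φ x i, cov_add, cov_const_mul, hv.cov_const]
  ring

/-- `Var (f - E f)²` from time dependent bounds on `κ₃(f, f, ·)` and `Cov(f, φ)` -/
theorem four_step (hw : Wt w) (hh : 0 ≤ h) (hφ : Bd φ R) (hf : Bd (sg f) V) {a b : ℝ → ℝ}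
    (ha : ContinuousOn a (Icc 0 h)) (hb : ContinuousOn b (Icc 0 h)) (a0 : ∀ u ∈ Icc 0 h, 0 ≤ a u)
    (b0 : ∀ u ∈ Icc 0 h, 0 ≤ b u) (δ0 : 0 ≤ δ)
    (hP : ∀ u ∈ Ioo 0 h, (law φ w u).real {y | ¬ (T3 (post φ w u y) (sg f) (sg f) φ ≤ a u ∧
      covV (post φ w u y) f φ ⬝ᵥ covV (post φ w u y) f φ ≤ b u)} ≤ δ) :
    var w (fun x => (f x - mean w f) ^ 2) ≤
      ex φ w (fun p => var (pw φ w p) fun x => (f x - mean w f) ^ 2) h +
        ∫ u in 0..h, (2 * a u + 8 * b u * var w f + 16 * R * V ^ 2 * δ) := by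
  have R0 := hφ.nonneg hw
  have v0 := hw.var_nonneg f
  set F := fun x => (f x - mean w f) ^ 2 with hF
  have := (ito_var (φ := φ) hw F).ex_lower hw le_rfl hh (eg_var hw F) (κ := fun _ => 0)
    (ε := fun u => 2 * a u + 8 * b u * var w f + 16 * R * V ^ 2 * δ) continuousOn_const (by fun_prop)
    (fun _ _ => le_rfl) (fun u hu => by have := a0 u hu; have := b0 u hu; positivity) fun r hr => by
      have r' := Ioo_subset_Icc_self hr
      have m := ((((eg_mean (φ := φ) hw f).sub (.const (mean w f))).pow 2).const_mul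
        (8 * b r)).mg (mem_univ r)
      have := ex_le_bad (H := fun p => 2 * a r + 8 * b r * (mean (pw φ w p) f - mean w f) ^ 2)
        (G := fun p => covV (pw φ w p) F φ ⬝ᵥ covV (pw φ w p) F φ) hw (hP r hr)
        ((eg_covV_dot hw F F).mg (mem_univ r)) ((MG.const _).add m)
        (C := 16 * R * V ^ 2) (by positivity) (fun y hy => ?_) fun y => ?_
      · rw [ex_add (G := fun _ => 2 * a r) (H := fun p => 8 * b r * (mean (pw φ w p) f - mean w f) ^ 2)
          (.const _) m, ex_const hw, ex_const_mul] at this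
        have h2 := mul_le_mul_of_nonneg_left (ex_mean_sub_sq (φ := φ) hw hr.1.le f)
          (show 0 ≤ 8 * b r by have := b0 r r'; positivity)
        rw [ex_neg]
        linarith
      · obtain ⟨h1, h2⟩ := not_not.1 hy
        simp only [T3, Finset.univ_unique, Finset.sum_singleton] at h1
        simp only [dotProduct, ← sq] at h2
        have h3 := mul_le_mul_of_nonneg_left h2 (sq_nonneg (mean (post φ w r y) f - mean w f))
        simp only [pw, hF, dotProduct, covV_sq_center (hw.post φ r y), ← sq]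
        refine (Finset.sum_le_sum (g := fun i => 2 * cum3 (post φ w r y) f f (fun x => φ x i) ^ 2 + 8 *
          ((mean (post φ w r y) f - mean w f) ^ 2 * covV (post φ w r y) f φ i ^ 2)) fun i _ => ?_).trans ?_
        · nlinarith [sq_nonneg (cum3 (post φ w r y) f f (fun x => φ x i) -
            2 * (mean (post φ w r y) f - mean w f) * covV (post φ w r y) f φ i)]
        · simp only [Finset.sum_add_distrib, ← Finset.mul_sum]; linarith
      · have hq := hw.post φ r y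
        have h1 : var (post φ w r y) F ≤ 16 * V ^ 2 := (hq.var_le_mean _ 0).trans (hq.mean_le fun x => by
          have h2 : (f x - mean w f) ^ 2 ≤ 4 * V := by simpa using hf.center hw x
          have := pow_le_pow_left₀ (sq_nonneg _) h2 2
          simp only [hF, sub_zero]; linarith)
        have h2 := ((hφ.cb hq).covV_le hq R0 F).trans (mul_le_mul_of_nonneg_left h1 R0)
        have := a0 r r'
        have := b0 r r'
        have : 0 ≤ 2 * a r + 8 * b r * (mean (post φ w r y) f - mean w f) ^ 2 := by positivity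
        simp only [pw]; linarith
  simpa [ex_pw_zero hw fun q => var q F] using this

theorem qf_sg (w f : Ω → ℝ) : qf w (sg f) (sg f) (1 : Matrix Unit Unit ℝ) = fun x => (f x - mean w f) ^ 2 := by
  ext x; simp [qf, meanV, dotProduct, sq]

/-- **(S5)** for `f = A v · φ`: `Var (f - E f)² ≤ 2 γ + 8 k' k + ∫ (2 a + 8 b k) + …` -/
theorem four_var (hw : Wt w) (hh : 0 ≤ h) (hφ : Bd φ R) (hf : Bd (sg f) V) {a b : ℝ → ℝ}
    (ha : ContinuousOn a (Icc 0 h)) (hb : ContinuousOn b (Icc 0 h)) (a0 : ∀ u ∈ Icc 0 h, 0 ≤ a u)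
    (b0 : ∀ u ∈ Icc 0 h, 0 ≤ b u)
    (hP : ∀ u ∈ Ioo 0 h, (law φ w u).real {y | ¬ (T3 (post φ w u y) (sg f) (sg f) φ ≤ a u ∧
      covV (post φ w u y) f φ ⬝ᵥ covV (post φ w u y) f φ ≤ b u)} ≤ δ) {γ k : ℝ} (γ0 : 0 ≤ γ) (k0 : 0 ≤ k)
    (hS : (law φ w h).real S ≤ δ) (good : ∀ y ∉ S, var (post φ w h y) f ≤ k ∧
      var (post φ w h y) (fun x => (f x - mean (post φ w h y) f) ^ 2) ≤ γ) :
    var w (fun x => (f x - mean w f) ^ 2) ≤ 2 * γ + 8 * k * var w f + 48 * V ^ 2 * δ +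
        ∫ u in 0..h, (2 * a u + 8 * b u * var w f + 16 * R * V ^ 2 * δ) := by
  refine (four_step hw hh hφ hf ha hb a0 b0 (measureReal_nonneg.trans hS) hP).trans (add_le_add ?_ le_rfl)
  have h1 := ex_var_qf_le (U := 1) hw hh hf hf (CB_sg w f) (CB_sg w f) k0 k0 one_pos hS
    fun y hy => ⟨(CB_sg _ f).mono (good y hy).1, (CB_sg _ f).mono (good y hy).1⟩
  have f1 : fr (1 : Matrix Unit Unit ℝ) = 1 := by simp [fr]
  have h2 := ex_le_bad' (G := fun p => NV (sg f) (sg f) 1 (pw φ w p)) hw hS ((eg_NV hw).mg (mem_univ _))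
    γ0 (C := 16 * (V * V) * fr (1 : Matrix Unit Unit ℝ)) (by have := hf.nonneg hw; rw [f1]; positivity)
    (fun y hy => by rw [NV, qf_sg]; exact (good y hy).2)
    fun y => var_qf_crude (hw.post _ _ _) (hw.post _ _ _) hf hf
  rw [qf_sg, f1, inv_one] at h1
  rw [f1] at h2
  linarith

end Crest.Agent.T157.Ks
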