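import Crest.Agent.T157.KDefB_19
import Crest.Agent.T157.KFl_25

/-!
# Row 157, part B (helper25): the predicted responses are in the thermal calculus
-/

set_option autoImplicit false

noncomputable section

namespace Crest.Agent.T157.Kz

open MeasureTheory Matrix Filter
open Crest.Agent.T157.E Crest.Agent.T157.Eig Crest.Agent.T157.K
open Crest.Agent.T157.Tap (V Mx)
open Crest.Agent.T157.Z (cp)
open Crest.Agent.T157.Md (gb)

namespace Bar25

variable {n : ℕ}

lemma nrm_sup {v : V n} {e : ℝ} (h : ∀ i, |v i| ≤ e) : nrm v ≤ |e| * √n := by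
  have := Rip.nrm_mul_le (abs_nonneg e) (fun i => (h i).trans (le_abs_self e)) (1 : V n)
  rwa [mul_one, show nrm (1 : V n) = √n by simp [nrm, dotProduct]] at this

lemma cont {e : ℝ} {u : Cube n → V n → V n} (h : RF e u) (s : Cube n) : Continuous (u s) := by
  refine continuous_iff_continuousAt.2 fun y => tendsto_iff_norm_sub_tendsto_zero.2 ?_
  have h1 : Continuous fun y' => e * nrm (y' - y) :=
    continuous_const.mul (continuous_nrm.comp (continuous_id.sub continuous_const))
  refine squeeze_zero (fun _ => norm_nonneg _) (fun y' => ?_) (by simpa using h1.tendsto y)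
  refine le_trans ((pi_norm_le_iff_of_nonneg (nrm_nonneg _)).2 fun i => ?_) (h.lip s y' y)
  exact abs_apply_le_nrm _ i

end Bar25

open Bar25 in
theorem barGlue : BarGlue := by
  intro hT hc hm hE β hβ r hr t ht T g ⟨⟨C, hC⟩, hTg⟩ hg ⟨e, he⟩ ε hε
  have hβ1 : β ∈ Set.Icc (0 : ℝ) 1 := ⟨hβ.1.le, hβ.2.le⟩
  have h1 : TC β r fun n J s y => gb (g n J) t y s := hc β hβ1 r hr t ht g hg
    ⟨⟨|e|, fun n J s y hJ => nrm_sup (((he n J hJ).r0 y).sup s)⟩,
      fun n J s hJ => (cont (he n J hJ) s).measurable⟩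
  have h2 := (hm β hβ r hr _ (hTg _ h1) ⟨|C| * |e|, fun n J s y hJ => by
    refine (nrm_mulVec_le _ _).trans ((mul_le_mul ((hC n J y s hJ).trans (le_abs_self C))
      (nrm_sup (e := e) fun j => ?_) (nrm_nonneg _) (abs_nonneg _)).trans_eq (by ring))
    exact (norm_integral_le_of_norm_le_const (μ := SL.Gs (Fin n)) (C := e)
      (f := fun z => g n J s (y + t • sv s + √t • z) j)
      (.of_forall fun z => ((he n J hJ).r0 _).sup s j)).trans_eq (by simp)⟩).1
  obtain ⟨M, M0, h3⟩ := (hT.flat β r hr _ h2).2 ε hε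
  have hb : ∀ x : ℝ, |max (-M) (min M x)| ≤ M := fun x =>
    abs_le.2 ⟨le_max_left _ _, max_le (by linarith) (min_le_left _ _)⟩
  refine ⟨fun n J y => cp M (ub J y (T n J y) (g n J) t), ty_iff.2 ((hE _ β hβ1 _ _
    (fun x => max (-M) (min M x)) _ (fun _ _ _ => 0) (by fun_prop) ⟨M, hb⟩ (ty_iff.1 h2)).1
      fun x => ?_), ⟨M, fun _ _ _ _ => hb _⟩, h3.ev.mono fun x hx => hx.1⟩
  simp only [max_def, min_def]
  split_ifs <;> linarith

end Crest.Agent.T157.Kz

end
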