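import Crest.Agent.T157.KDefB_19
import Crest.Agent.T157.KGc_85

/-!
# Row 157, part B (helper63): the collective observables at level zero
-/

set_option autoImplicit false

noncomputable section

namespace Crest.Agent.T157.Kz

open MeasureTheory Real Matrix Finset
open Crest.ProbabilityR.SpinGlassDynamics
open Crest.Agent.T157.E Crest.Agent.T157.Eig Crest.Agent.T157.K Crest.Agent.T157.S1
open Crest.Agent.T157.Tap (V Mx)
open Crest.Agent.T157.SL (Wt MG)
open Crest.Agent.T157.Z (tJ)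
open Crest.Agent.T157.Zf (QQ)

theorem levGlue : LevGlue := fun hT hP hΦ _ β 𝒬 N τ W hH hτ hW => by
  classical
  let I := Σ m : Icc 1 N, Σ i : range (2 ^ N + 1), Fin (W m i).nb
  have r0 : ∀ m : ℕ, 0 ≤ (m : ℝ) * τ := fun m => by positivity
  choose C c1 hC using fun x : I => hΦ _ _ ((hW x.1 x.2.1).2 x.2.2).1 ((hW x.1 x.2.1).2 x.2.2).2
    (W x.1 x.2.1).d.k 0 _ (r0 x.1)
  let Q : I → B.Ob := fun x => Lm.Qo β (Lm.Of.ob β fun n J =>
    phi (Sq.rt (tJ J + (4 : ℝ) • (1 : Mx n))) (Eh ((W x.1 x.2.1).d.E x.2.2) n (tJ J))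
      (W x.1 x.2.1).d.k ((x.1 : ℕ) * τ))
  refine ⟨Fintype.card I, fun j => Q ((Fintype.equivFin I).symm j), ∑ x : I, (W x.1 x.2.1).cz,
    ∑ x : I, (W x.1 x.2.1).cz * C x, fun j => hH _ (r0 _) _ _ _ ((hW _ _).2 _).1 ((hW _ _).2 _).2,
    sum_nonneg fun x _ => (hW _ _).1, fun n g hn hJ => ?_⟩
  have hQ := hT.jq n _ hJ
  have ht : tJ (β • Jmat n g) = β • Jmat n g := (Z.lipStmt.tJ_le n _).2 hJ.2.2
  have eQ : ∀ (x : I) s, Q x n g s = phi (QQ (β • Jmat n g))
      (Eh ((W x.1 x.2.1).d.E x.2.2) n (β • Jmat n g)) (W x.1 x.2.1).d.k ((x.1 : ℕ) * τ) s ^ 2 :=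
    fun x s => by
      have := (hC x n _ _ _ hn hQ rfl).1
      simp only [Q, Lm.Qo, Lm.Of.ob, gibbsWeight_eq_ising]
      rw [show Eh ((W x.1 x.2.1).d.E x.2.2) n (tJ (β • Jmat n g)) =
        Eh ((W x.1 x.2.1).d.E x.2.2) n (β • Jmat n g) by rw [ht]]
      exact (congrArg (fun c => (_ - c) ^ 2) this).trans (by rw [sub_zero]; rfl)
  simp only [B.Mom, gibbsWeight_eq_ising, eQ]
  set J := β • Jmat n g
  have mg : ∀ m i b s, MG fun y =>
      psi (QQ J) (Eh ((W m i).d.E b) n J) (W m i).d.k s y ^ 2 := fun m i b s => by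
    obtain ⟨_, -, h⟩ := hP _ _ ((hW m i).2 b).1 ((hW m i).2 b).2 (W m i).d.k 0 0 le_rfl
    obtain ⟨_, _, _, _, h, -⟩ := h n J _ hQ 1 le_rfl
    exact Rec.mg_sq (Gc85.der_mg h.der (fun s y => (h.gr s y).2) s)
  have ez : ∀ m s y, zn N W J m s y = ∑ i ∈ range (2 ^ N + 1), ∑ b, (W m i).cz / n *
      psi (QQ J) (Eh ((W m i).d.E b) n J) (W m i).d.k s y ^ 2 := fun m s y => by
    simp only [zn, Finset.sum_apply, Pi.smul_apply, smul_eq_mul, Wd.zs, Md.Zs, ← mul_sum]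
    exact sum_congr rfl fun i _ => by ring
  refine ⟨fun m => ⟨fun s => ?_, fun s y => ?_⟩, fun T0 f hf => ?_⟩
  · have := MG.sum (range (2 ^ N + 1)) fun i _ => MG.sum univ fun b _ =>
      (mg m i b s).const_mul ((W m i).cz / n)
    rw [← funext (ez m s)] at this
    exact ⟨this.meas, this.bd⟩
  · rw [ez]
    exact sum_nonneg fun i _ => sum_nonneg fun b _ =>
      mul_nonneg (div_nonneg (hW m i).1 n.cast_nonneg) (sq_nonneg _)
  have hw : Wt (ising J 0) := .of_pos fun _ => exp_pos _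
  have ew : ∀ (m : ℕ) s, Ew (m * τ) (zn N W J m) s 0 = ∑ i ∈ range (2 ^ N + 1), ∑ b, (W m i).cz *
      phq (QQ J) (Eh ((W m i).d.E b) n J) (W m i).d.k (m * τ) s := fun m s => by
    have i1 := fun i b => (((mg m i b s).const_mul ((W m i).cz / n)).affine
      ((m * τ) • sv s) √(m * τ)).int
    simp only [Ew, ez, zero_add]
    rw [integral_finsetSum _ fun i _ => integrable_finsetSum _ fun b _ => i1 i b]
    refine sum_congr rfl fun i _ => (integral_finsetSum _ fun b _ => i1 i b).trans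
      (sum_congr rfl fun b _ => ?_)
    rw [integral_const_mul, phq]; ring
  rw [Equiv.sum_comp (Fintype.equivFin I).symm fun x => mean (ising J 0) fun s => f s * phi (QQ J)
    (Eh ((W x.1 x.2.1).d.E x.2.2) n J) (W x.1 x.2.1).d.k ((x.1 : ℕ) * τ) s ^ 2, mul_sum,
    ← sum_add_distrib, Fintype.sum_sigma, ← sum_coe_sort]
  refine sum_le_sum fun m _ => ?_
  simp only [ew, mul_sum, SL.mean_sum]
  rw [Fintype.sum_sigma, ← sum_coe_sort]
  refine sum_le_sum fun i _ => sum_le_sum fun b _ => ?_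
  have h1 := single_le_sum (f := fun x : I => (W x.1 x.2.1).cz) (fun x _ => (hW _ _).1)
    (mem_univ ⟨m, i, b⟩)
  refine (hw.mean_mono fun s => mul_le_mul_of_nonneg_left (mul_le_mul_of_nonneg_left
    ((hC ⟨m, i, b⟩ n _ _ _ hn hQ rfl).2.2.2.2.1 s).2 (hW _ _).1) (hf.1 s).le).trans ?_
  simp only [mul_add, SL.mean_add, mul_left_comm (f _), SL.mean_const_mul, SL.mean_mul_const,
    hf.2.1, one_mul]
  exact add_le_add (mul_le_mul_of_nonneg_right h1
    (hw.mean_nonneg fun s => mul_nonneg (hf.1 s).le (sq_nonneg _))) le_rfl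

end Crest.Agent.T157.Kz

end
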