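import Crest.Agent.T157.KDefB_19

/-!
# Row 157, part B (helper76): one step of the backward recursion
-/

set_option autoImplicit false

noncomputable section

namespace Crest.Agent.T157.Kz

open MeasureTheory Real Matrix Finset Filter
open Crest.ProbabilityR.SpinGlassDynamics
open Crest.Agent.T157.E Crest.Agent.T157.Eig Crest.Agent.T157.K Crest.Agent.T157.S1
open Crest.Agent.T157.Tap (V Mx)
open Crest.Agent.T157.SL (law)
open Crest.Agent.T157.Pos (In TF)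

namespace St76

theorem ev_pow (K : ℝ) {a δ : ℝ} (ha : 0 < a) (hδ : 0 < δ) :
    ∀ᶠ n : ℕ in atTop, K * (n : ℝ) ^ (1 - a) ≤ δ * n := by
  filter_upwards [B.ev_mul (K / δ) (show 1 - a < 1 by linarith)] with n h
  rw [rpow_one, div_mul_eq_mul_div, div_le_iff₀ hδ] at h
  linarith

theorem modes_mono {n : ℕ} {ι : Type} [Fintype ι] {h : ι → V n} {k : ℕ} {v : ℕ → V n} {R R' : ℝ}
    (hm : Modes R h k v) (hR : R ^ 2 ≤ R' ^ 2) : Modes R' h k v := by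
  obtain ⟨T, h1, h2⟩ := hm
  exact ⟨T, h1, fun x => (h2 x).trans
    (mul_le_mul_of_nonneg_right hR (sum_nonneg fun _ _ => sq_nonneg _))⟩

theorem mo_and {β r ε : ℝ} {P Q R : ∀ n, Mx n → V n → Prop} (hε : 0 < ε) (hP : Mo β r (ε / 2) P)
    (hQ : ∀ᶠ x in TF β r, Q x.n (x.J β) x.y) (h : ∀ n J y, P n J y → Q n J y → R n J y) :
    Mo β r ε R :=
  (hP.and (Pos.TF.out (P := fun n g y => Q n (β • Jmat n g) y) hQ (half_pos hε))).imp
    fun n g hp => by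
      have := Pos.prob_law β r n g
      refine le_trans (measureReal_mono (s₂ := {y | ¬ P n (β • Jmat n g) y} ∪
        {y | ¬ Q n (β • Jmat n g) y}) fun y hy => not_and_or.1 fun c => hy (h _ _ _ c.1 c.2))
        ((measureReal_union_le _ _).trans ?_)
      exact (add_le_add hp.1 hp.2).trans_eq (add_halves ε)

/-- the windows below `(m, i)` -/
abbrev Sw (N m i : ℕ) : Type := {p : ℕ × ℕ // Sub N m i p.1 p.2}

instance (N m i : ℕ) : Finite (Sw N m i) :=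
  Set.Finite.to_subtype (((Set.finite_le_nat N).prod (Set.finite_le_nat (i + 2 ^ (N - m)))).subset
    fun _ hp => ⟨hp.2.1.le, le_of_add_le_left hp.2.2.2⟩)

theorem XS_congr {N m i : ℕ} {W W' : ℕ → ℕ → Wn} (h : ∀ m' i', Sub N m i m' i' → W m' i' = W' m' i') :
    XS N W m i = XS N W' m i :=
  sum_congr rfl fun m' _ => sum_congr rfl fun i' _ => by
    split_ifs with c
    exacts [by rw [h m' i' c], rfl]

theorem XS_nn {N m i : ℕ} {W : ℕ → ℕ → Wn} (h : ∀ m' i', Sub N m i m' i' → 0 ≤ (W m' i').cz) :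
    0 ≤ XS N W m i :=
  sum_nonneg fun m' _ => sum_nonneg fun i' _ => by
    split_ifs with c
    exacts [by have := h m' i' c; unfold Wn.wt; positivity, le_rfl]

theorem ty_sub {β r : ℝ} (hβ : β ∈ Set.Icc (0 : ℝ) 1) {u v : Vy} (hu : TY β r u) (hv : TY β r v) :
    TY β r fun n J y => u n J y - J *ᵥ v n J y := by
  have := Z.apB.add Bool β hβ (wc r) (wd r) (fun n J a => u n J (a false))
    (fun n J a => J *ᵥ v n J (a false)) 1 (-1) hu
    (Z.apB.mul Bool β hβ (wc r) (wd r) (fun n J a => v n J (a false)) hv).1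
  simp only [one_smul, neg_smul, ← sub_eq_add_neg] at this
  exact this

end St76

open St76

theorem stepGlue : StepGlue := by
  intro hTc hTb hTar hBar hMag hTok hMok β hβ K0 κ0 C1 hκ
  obtain ⟨CM, CM1, hT⟩ := hTar β hβ K0 κ0 hκ
  refine ⟨2 * CM * (2 * C1 + 6) ^ 2, by positivity, ?_⟩
  intro w CP gW m i pv α ω CN q T e ε prev hw hK hk hC hCM hB m1 mN ω0 ω1 e0 ε0 hL hprev
  obtain ⟨Mq, Mα, hTg, hL⟩ := hL
  obtain ⟨C, C1', hTk⟩ := hTok K0 κ0 (w.N * w.τ) hκ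
  have τ0 := hw.τ0
  have hβ' : β ∈ Set.Icc (0 : ℝ) 1 := ⟨hβ.1.le, hβ.2.le⟩
  have r0 : (0 : ℝ) < m * w.τ := by positivity
  have X0 : 0 ≤ XS w.N prev (m + 1) i := XS_nn fun m' i' c => (hprev m' i' c).2.1
  obtain ⟨ei, ei0, ei1, eie, eiX⟩ : ∃ ei > (0 : ℝ), ei ≤ 1 ∧ ei ≤ e ∧
      C * w.N * XS w.N prev (m + 1) i * ei ≤ e := by
    have A0 : 0 ≤ C * w.N * XS w.N prev (m + 1) i := by positivity
    generalize C * w.N * XS w.N prev (m + 1) i = A at A0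
    have h1 : e / (A + 1) ≤ e := div_le_self e0.le (by linarith)
    have h2 : A * (e / (A + 1)) ≤ e := by
      rw [← mul_div_assoc, div_le_iff₀ (by linarith)]; nlinarith
    exact ⟨min 1 (e / (A + 1)), by positivity, min_le_left _ _, (min_le_right _ _).trans h1,
      (mul_le_mul_of_nonneg_left (min_le_right _ _) A0).trans h2⟩
  have hf : ∀ j : Σ p : Sw w.N (m + 1) i, Fin (prev p.1.1 p.1.2).nb, ∃ f : Vy,
      TY β (m * w.τ) f ∧ Be f ∧ ∀ᶠ x in TF β (m * w.τ), nrm (ub (x.J β) x.y (T _ (x.J β) x.y)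
        ((prev j.1.1.1 j.1.1.2).d.g j.2 _ (x.J β)) (((j.1.1.1 : ℝ) - m) * w.τ) -
          f _ (x.J β) x.y) ≤ ei * √x.n := by
    rintro ⟨⟨⟨m', i'⟩, c⟩, b⟩
    obtain ⟨-, -, h1, h2⟩ := (hprev m' i' c).1 b
    have hm : (m : ℝ) ≤ m' := by exact_mod_cast (Nat.le_succ m).trans c.1
    refine hBar β hβ _ r0.le _ (mul_nonneg (sub_nonneg.2 hm) τ0.le) T _ hTg ?_ ⟨_, h2⟩ ei ei0
    rwa [show (m : ℝ) * w.τ + ((m' : ℝ) - m) * w.τ = m' * w.τ by ring]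
  choose f f1 f2 f3 using hf
  letI := Fintype.ofFinite (Σ p : Sw w.N (m + 1) i, Fin (prev p.1.1 p.1.2).nb)
  obtain ⟨η, η0, nh, h, R0, hh, hG⟩ := hL ei ei0 _ f fun b => ⟨f1 b, f2 b⟩
  obtain ⟨R1, hR1⟩ := hMag β hβ _ r0
  obtain ⟨R, hR0, hR1'⟩ : ∃ R : ℝ, R0 ^ 2 ≤ R ^ 2 ∧ R1 ^ 2 ≤ R ^ 2 :=
    ⟨|R0| + |R1|, by nlinarith [sq_abs R0, abs_nonneg R0, abs_nonneg R1],
      by nlinarith [sq_abs R1, abs_nonneg R0, abs_nonneg R1]⟩
  obtain ⟨d, e', ok, θ, θ0, hMo⟩ := hT _ r0.le w.P R (ω / 2) (ε / 2) (nh + 1)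
    (Fin.cons (fun _ J y => mag (ising J y)) fun b n J y =>
      α n J y * (q n J y * h b n J y) - J *ᵥ (q n J y * h b n J y)) (by positivity) (by linarith)
    (half_pos ε0) (Fin.cases (hTb.mag β hβ _ r0.le) fun b => by
      have := ty_sub hβ' (Mα _ (hh b)) (Mq _ (hh b))
      simp only [mul_assoc] at this
      exact this)
  refine ⟨⟨nh + 1, d, 2 * CM * R ^ 2, e', η⟩, ⟨ok, by positivity, η0⟩, ?_⟩
  intro p hF he c e'' c0 c1 e0' W hW hWx hWp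
  obtain ⟨ρ, ρ0, hρ⟩ := hB.2 _ r0.le
  have hN : p.N = w.N := by rw [← hF.hw]
  have hτ : p.τ = w.τ := by rw [← hF.hw]
  have a1 : 0 < c / 16 ^ m / 2 := by positivity
  have a2 : 0 < c / 16 ^ m / 8 := by positivity
  refine mo_and (Q := fun n J y => (GoodA p (capOf p c e'' n) J m i y (pv n J y) (α n J y) (q n J y)
    ei R0 (T n J y) (fun b => f b n J y) (fun b => h b n J y) ∧
    (∀ y', nrm (y' - y) ≤ ρ * √n → Bas J K0 κ0 y') ∧ GJ J ∧
    (n : ℝ) ≤ R1 ^ 2 * (mag (ising J y) ⬝ᵥ mag (ising J y)) ∧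
    ∀ j, nrm (ub J y (T n J y) ((prev j.1.1.1 j.1.1.2).d.g j.2 n J) (((j.1.1.1 : ℝ) - m) * w.τ) -
      f j n J y) ≤ ei * √n) ∧ 0 < n ∧ 1 * (n : ℝ) ^ (1 - c / 16 ^ m / 2) ≤ ρ ^ 2 * n ∧
    1 * (n : ℝ) ^ (1 - c / 16 ^ m / 2) ≤ θ * n ∧
    C * w.N * XS w.N prev (m + 1) i * p.CN m i ^ 2 * (n : ℝ) ^ (1 - c / 16 ^ m / 8) ≤ e * n)
    ε0 hMo ?_ ?_
  · have hn := (Pos.TF.lim (β := β) (s := m * w.τ)).eventually ((eventually_gt_atTop 0).and
      ((ev_pow 1 a1 (pow_pos ρ0 2)).and ((ev_pow 1 a1 θ0).and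
        (ev_pow (C * w.N * XS w.N prev (m + 1) i * p.CN m i ^ 2) a2 e0))))
    filter_upwards [hG p i { hF with hC := (le_max_left _ _).trans hF.hC } (he ▸ eie) c e'' c0 c1 e0',
      hρ, Pos.TF.opn ⟨hβ.1, hβ.2.le⟩, hR1, eventually_all.2 f3, hn] with x h1 h2 h3 h4 h5 h6
    exact ⟨⟨h1, h2, ⟨x.symm, x.diag, h3⟩, h4, h5⟩, h6⟩
  rintro n J y hM ⟨⟨⟨pA, al, k, v, ε', Ad, φ, g1, g2, g3, g4, g5, g6, g7, g8⟩, hb, gj, hm, hu⟩,
    n0, t1, t2, t3⟩ G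
  have hX : XS p.N W (m + 1) i = XS w.N prev (m + 1) i := by rw [hN]; exact XS_congr hWp
  have n0' : (0 : ℝ) < n := by exact_mod_cast n0
  have tok := fun pA al u0 u ψ => hTk n p (capOf p c e'' n) J W G m i y pA al (q n J y) u0 u ei
    (T n J y) _ (fun b => f b n J y) ψ n0 hF.ok
    (one_le_rpow (by exact_mod_cast n0) e0'.le) (by rw [hN, hτ]) m1 (hN ▸ mN) hF.val
    (hb y (by rw [sub_self, nrm_zero]; positivity)) ei0.le ei1 hW (fun m' i' cs => by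
      rw [hN] at cs
      rw [hWp m' i' cs, hτ]
      exact fun b => ⟨((hprev m' i' cs).1 b).2.2.2 n J gj, ⟨⟨(m', i'), cs⟩, b⟩, hu ⟨⟨(m', i'), cs⟩, b⟩⟩)
    (by rw [hX, hN, he]; exact eiX) (by rw [hX, hN, he, ← mul_assoc]; exact t3)
  refine ⟨pA, al, q n J y, k, v, ε', Ad, φ, g1, g2, g3, g4, fun u0 u ha => ?_,
    fun u0 u ha => tok _ _ _ _ _ (g6 u0 u ha), g7, ?_⟩
  · obtain ⟨ψ, hψ⟩ := g5 u0 u ha
    exact (tok _ _ _ _ _ hψ).imp fun _ ht => ht.1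
  have eK : p.K0 = K0 := by rw [← hK, ← hF.hw]
  have ek : p.κ0 = κ0 := by rw [← hk, ← hF.hw]
  have eC : p.C1 = C1 := by rw [← hC, ← hF.hw]
  have eP : p.P = w.P := by rw [← hF.hw]
  have eM : p.CM = w.CM := by rw [← hF.hw]
  refine hMok n p _ J W G m i y _ _ al _ k nh v (fun b => h b n J y) d CM R θ ε' e' η _ n0 hF.ok gj m1
    (hN ▸ mN) hF.val hW hWx CM1 (by rw [eC, eM]; exact hCM)
    (by rw [eC]; exact (le_max_right _ _).trans hF.hC) (fun y' hy => ?_) (by simpa [capOf] using t2)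
    g4 (modes_mono g8 hR0) (hm.trans (mul_le_mul_of_nonneg_right hR1' (dot_self_nonneg _))) ?_
  · rw [eK, ek]
    refine hb y' (le_of_pow_le_pow_left₀ two_ne_zero (by positivity) ?_)
    rw [mul_pow, sq_sqrt n0'.le]
    exact hy.trans (by simpa [capOf] using t1)
  · rw [eK, ek, eP, hF.hω]
    convert hM using 2 with b
    exact Fin.cases rfl (fun _ => rfl) b

end Crest.Agent.T157.Kz

end
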