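import Crest.Agent.T157.KDefB_19
import Crest.Agent.T157.KCrt_42
import Crest.Agent.T157.ZLip_85

/-!
# Row 157, part B (helper42): the targets of a window
-/

set_option autoImplicit false

noncomputable section

namespace Crest.Agent.T157.Kz

open MeasureTheory Real Matrix Finset Filter Topology
open Crest.ProbabilityR.SpinGlassDynamics
open Crest.Agent.T157.E Crest.Agent.T157.Eig Crest.Agent.T157.K
open Crest.Agent.T157.Tap (V Mx)
open Crest.Agent.T157.SL (law)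
open Crest.Agent.T157.Z (Nt Nw Ty)
open Crest.Agent.T157.Zf (QQ)
open Crest.Agent.T157.Md (Crt gR eR)
open Crest.Agent.T157.Pos (In TF)

namespace Tar42

theorem ty_ev {β r : ℝ} {P : ∀ n, Mx n → V n → Prop} (h : Ty β r P) :
    ∀ᶠ x in TF β r, P x.n (x.J β) x.y := by
  obtain ⟨κ, hκ, h⟩ := h
  exact Pos.TF.of_dis (P := fun n g y => P n (β • Jmat n g) y) fun ε hε =>
    h.mono (((TapPl.tendsto_exp_neg hκ).eventually (ge_mem_nhds hε)).mono
      fun _ hn _ hW => hW.trans hn)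

theorem mo_ev {β r ε : ℝ} {P : ∀ n, Mx n → V n → Prop} (h : ∀ᶠ x in TF β r, P x.n (x.J β) x.y)
    (hε : 0 < ε) : Mo β r ε P := Pos.TF.out (P := fun n g y => P n (β • Jmat n g) y) h hε

end Tar42

open Tar42

theorem tarGlue : TarGlue := by
  intro hA hM hG hB hPs hP hD hT hC hR hTc hTg hRp β hβ K0 κ0 κ00
  have hβ' : β ∈ Set.Icc (0 : ℝ) 1 := ⟨hβ.1.le, hβ.2.le⟩
  obtain ⟨c1, H1⟩ := Md.crtGlue hR hPs hP hD hT hC hG
  obtain ⟨CM, CM1, c0, H0⟩ := hM K0 κ0 κ00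
  obtain ⟨c2, hG⟩ := hG
  obtain ⟨c3, hP⟩ := hP
  obtain ⟨c4, c41, hD⟩ := hD
  obtain ⟨c, d0, d1, d2, d3, d4⟩ := ((eventually_ge_atTop c0).and ((eventually_ge_atTop c1).and
    ((eventually_ge_atTop c2).and ((eventually_ge_atTop c3).and (eventually_ge_atTop c4))))).exists
  obtain ⟨K, -, hK⟩ := hA β hβ.1.le hβ.2
  refine ⟨CM, CM1, fun r r0 P R ω ε nb a ω0 ω1 ε0 ha => ?_⟩
  choose C C0 hC' using fun b => (hTc.flat β r r0 _ (ha b)).1
  obtain ⟨k, δ, δ0, Λ0, H0⟩ := H0 c d0 P (∑ b, C b) R ω nb ω0 ω1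
  choose m E E1 E2 E3 using fun b => hRp β hβ' r r0 _ (ha b) δ δ0
  obtain ⟨M, M0, hb⟩ := ((eventually_gt_atTop 0).and
    (eventually_all.2 fun b => Md.ev_blo hB (E1 b) (E2 b))).exists
  obtain ⟨Λ, l0, l1, H1⟩ := ((eventually_ge_atTop Λ0).and ((eventually_ge_atTop 1).and
    (H1 c d1 (Fin nb) m E k K r M δ (ε / 2) (fun b => ⟨E1 b, E2 b⟩) r0 M0 δ0 (half_pos ε0) hb))).exists
  obtain ⟨e, H1⟩ := H1.exists
  obtain ⟨η, η0, H1⟩ := ((eventually_ge_atTop 0).and H1).exists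
  obtain ⟨θ, θ0, H0⟩ := H0 Λ l0 M e η M0.le η0
  have cM : 0 ≤ c * M := mul_nonneg (by linarith) M0.le
  refine ⟨⟨k, c, Λ, M, m, E⟩, eR c Λ M k, fun b => ⟨E1 b, E2 b, ?_, fun n J hJ =>
    (hG c d2 n J _ Λ M k _ (hTc.jq n J hJ) l1 M0.le (hb b n J)).1⟩, θ, θ0, ?_⟩
  · refine (hTg β hβ' r r0 _ (E b) c Λ (c * M) (Z.L85.mono (E1 b)) (E2 b) (by linarith) cM
      fun l => ⟨_, fun n J hJ => (hP c d3 n J _ Λ (c * M) _ l (hTc.jq n J hJ) l1 cM ?_).1⟩).2 k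
    exact Pg11.rf_mono (hD n J _ _ M (hTc.jq n J hJ) M0.le (hb b n J)).1
      (mul_le_mul_of_nonneg_right d4 M0.le)
  have e1 := ty_ev ((hTc.ty β r r0 fun _ J _ => GJ J).2 (hTc.gj Bool β hβ' _ _))
  have e2 := eventually_all.2 fun b => (ty_ev (hC' b)).and (ty_ev (E3 b))
  have := mo_ev (P := fun n J y => GJ J ∧ ∀ b, nrm (a b n J y) ≤ C b * √n ∧
    mean (ising J y) (dev (QQ J) (Eh (E b) n J) (a b n J y) y) ≤ δ * n) (e1.and e2) (half_pos ε0)
  refine (this.and hK).mono ?_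
  filter_upwards [H0, eventually_gt_atTop 0] with n H0 n0 g ⟨h1, h2⟩
  have := Pos.prob_law β r n g
  have key : ∀ y, (GJ (β • Jmat n g) ∧ ∀ b, nrm (a b n (β • Jmat n g) y) ≤ C b * √n ∧
      mean (ising (β • Jmat n g) y) (dev (QQ (β • Jmat n g)) (Eh (E b) n (β • Jmat n g))
        (a b n (β • Jmat n g) y) y) ≤ δ * n) → (∀ b, Crt (β • Jmat n g) (QQ (β • Jmat n g)) y c Λ M e η
        δ k (Eh (E b) n (β • Jmat n g))) → ModC K0 κ0 CM P R ω θ ⟨k, c, Λ, M, m, E⟩ (β • Jmat n g) y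
        fun b => a b n (β • Jmat n g) y := by
    intro y ⟨hJ, h3⟩ h4 D s t ec A κ a1 a2 a3 a4 a5
    rw [← a2] at hJ h3 h4 a4 a5 ⊢
    exact H0 (Fin nb) _ y _ _ D s t ec A κ (by simp) (hTc.jq n _ hJ) (fun b => (h4 b).tgt (hb b n _)
      ((h3 b).1.trans (mul_le_mul_of_nonneg_right (single_le_sum (fun b _ => C0 b) (mem_univ b))
        (sqrt_nonneg _))) (h3 b).2) a1 a3 a4 a5
  by_cases hJ : GJ (β • Jmat n g)
  · rw [gibbsWeight_eq_ising] at h2
    have h3 := H1 n _ _ n0 (hTc.jq n _ hJ) h2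
    rw [← gibbsWeight_eq_ising] at h3
    refine (measureReal_mono (fun y hy => ?_) (measure_ne_top _ _)).trans
      ((measureReal_union_le _ _).trans ((add_le_add h1 h3).trans_eq (add_halves ε)))
    by_contra hn
    simp only [Set.mem_union, Set.mem_ofPred_eq, not_or, not_not] at hn
    exact hy (key y hn.1 hn.2)
  · refine (measureReal_mono (fun y _ => ?_) (measure_ne_top _ _)).trans
      (h1.trans (half_le_self ε0.le))
    exact fun h => hJ h.1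

end Crest.Agent.T157.Kz

end
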