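import Crest.Agent.T157.KDefB_19

/-!
# Row 157, part B: the collective supply from the steps of the backward recursion (helper64)
-/

set_option autoImplicit false

noncomputable section

namespace Crest.Agent.T157.Kz

open MeasureTheory Real Matrix Finset Filter
open Crest.ProbabilityR.SpinGlassDynamics
open Crest.Agent.T157.E Crest.Agent.T157.Eig Crest.Agent.T157.K Crest.Agent.T157.S1
open Crest.Agent.T157.Tap (V Mx)
open Crest.Agent.T157.SL (Wt law)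
open Crest.Agent.T157.Z (Nt Nw)
open Crest.Agent.T157.Pos (In TF)
open Crest.Agent.T157.Top (Whp)

namespace Z64

/-- the empty window -/
def d0 : Wn := ⟨0, ⟨0, 0, 0, 0, Fin.elim0, fun b => b.elim0⟩, 0, 0, 1⟩

/-- what holds for every window -/
def Un (x : Wn) : Prop := 0 < x.η ∧ 0 ≤ x.cz ∧ ∀ b, Nw True (x.d.E b) ∧ Z.Bd (x.d.E b)

theorem un_d0 : Un d0 := ⟨one_pos, le_rfl, fun b => b.elim0⟩

theorem un_of {β r : ℝ} {x : Wn} (h : x.Ok β r) : Un x :=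
  ⟨h.2.2, h.2.1, fun b => ⟨(h.1 b).1, (h.1 b).2.1⟩⟩

theorem whp_gj {β : ℝ} (hβ : β ∈ Set.Ioo (0 : ℝ) 1) :
    Whp disorderLaw fun n g => GJ (β • Jmat n g) :=
  Z.Hp58.whp_opn.imp fun n g hg => ⟨In.symm ⟨n, g, 0, 0⟩, In.diag ⟨n, g, 0, 0⟩, by
    rw [opn_smul, abs_of_pos hβ.1]
    nlinarith [hβ.1, hβ.2, opn_nonneg (Jmat n g)]⟩

theorem mass_le {X : Type} [MeasurableSpace X] (μ : Measure X) [IsFiniteMeasure μ] (s : Finset ℕ)
    {A : X → Prop} {B : ℕ → X → Prop} {a ε : ℝ} (hA : μ.real {y | ¬ A y} ≤ a)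
    (hB : ∀ i ∈ s, μ.real {y | ¬ B i y} ≤ ε) :
    μ.real {y | A y ∧ ∀ i ∈ s, B i y}ᶜ ≤ a + #s * ε := by
  refine (measureReal_mono (s₂ := {y | ¬ A y} ∪ ⋃ i ∈ s, {y | ¬ B i y}) fun y hy => ?_).trans
    ((measureReal_union_le _ _).trans (add_le_add hA ((measureReal_biUnion_finset_le _ _).trans ?_)))
  · by_cases h : A y
    · refine Or.inr ?_
      by_contra hc
      exact hy ⟨h, fun i hi => not_not.1 fun h' => hc (Set.mem_biUnion hi h')⟩
    · exact Or.inl h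
  · exact (Finset.sum_le_card_nsmul _ _ _ hB).trans_eq (nsmul_eq_mul _ _)

end Z64

open Z64

theorem zGlue : ZGlue := by
  intro _ hS hL hR β hβ lam 𝒬 hQ hloc a0 ab a' h1 h2 h3 h4
  obtain ⟨u, uOk, hBas, H⟩ := hloc a0 ab a' h1 h2 h3 h4
  obtain ⟨CM, CM0, hstep⟩ := hS β hβ u.K0 u.κ0 u.C1 uOk.k0
  refine ⟨{ u with CM := CM }, { uOk with CM0 := CM0 }, fun w wOk hw ha0 hab hθ => ?_⟩
  have wCM : w.CM = CM := congrArg P1.CM hw
  have wK : w.K0 = u.K0 := by simpa using congrArg P1.K0 hw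
  have wκ : w.κ0 = u.κ0 := by simpa using congrArg P1.κ0 hw
  have wC : w.C1 = u.C1 := by simpa using congrArg P1.C1 hw
  obtain ⟨CP, gW, CP1, gW0, H2⟩ := H w wOk (by rw [wCM]; exact hw) ha0 hab hθ
  choose! pv α H3 using H2
  choose! CN q T H4 using H3
  obtain ⟨ε, hε⟩ : ∃ ε : ℝ, ε = 1 / (4 * (2 ^ w.N + 1)) := ⟨_, rfl⟩
  have ε0 : 0 < ε := by rw [hε]; positivity
  obtain ⟨W, hW, hpast⟩ := hR Wn d0 w.N (fun m i ω e prev x => Un x ∧ (1 ≤ m → m < w.N → 0 < ω →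
      ω ≤ 1 → 0 < e → (∀ m' i', Sub w.N (m + 1) i m' i' → (prev m' i').Ok β (m' * w.τ)) →
      x.Ok β (m * w.τ) ∧ Win β w CP gW m i (pv m) (α m) ω (max (CN m ω) CM) e ε prev x))
    fun m i ω e prev => by
      by_cases hc : 1 ≤ m ∧ m < w.N ∧ 0 < ω ∧ ω ≤ 1 ∧ 0 < e ∧
          ∀ m' i', Sub w.N (m + 1) i m' i' → (prev m' i').Ok β (m' * w.τ)
      · obtain ⟨c1, c2, c3, c4, c5, c6⟩ := hc
        obtain ⟨x, hx⟩ := hstep w CP gW m i (pv m) (α m) ω (CN m ω) (q m ω) (T m ω) e ε prev wOk wK wκ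
          wC wCM.ge hBas c1 c2 c3 c4 c5 ε0 (H4 m c1 c2 ω c3 c4) c6
        exact ⟨x, un_of hx.1, fun _ _ _ _ _ _ => hx⟩
      · exact ⟨d0, un_d0, fun c1 c2 c3 c4 c5 c6 => absurd ⟨c1, c2, c3, c4, c5, c6⟩ hc⟩
  refine ⟨CP, gW, fun m ω => max (CN m ω) CM, fun j ω e =>
    ((range w.N ×ˢ range (j + 1)).filter fun x => x.2 + 2 ^ (w.N - (x.1 + 1)) ≤ j).fold min 1
      fun x => (W ω e x.1 x.2).η, CP1, gW0, ⟨fun j ω e => ?_, fun j ω ω' e e' k1 k2 => ?_⟩, ?_⟩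
  · exact (Finset.lt_fold_min _).2 ⟨one_pos, fun x _ => (hW ω e x.1 x.2).1.1⟩
  · exact Finset.fold_congr fun x hx => by
      rw [hpast j ω ω' e e' k1 k2 x.1 x.2 (Finset.mem_filter.1 hx).2]
  intro p pOk hp hCP hgW hthr c e' c0 c1 e0
  subst hp
  have hun : ∀ m i, Un (W p.ω p.ee m i) := fun m i => (hW p.ω p.ee m i).1
  have hok : ∀ k m i, p.N - m ≤ k → 1 ≤ m → m < p.N → (W p.ω p.ee m i).Ok β (m * p.τ) ∧
      Win β p.toP2 CP gW m i (pv m) (α m) (p.ω m i) (max (CN m (p.ω m i)) CM)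
        (p.ee (i + 2 ^ (p.N - (m + 1)))) ε
        (fun m' i' => if Sub p.N (m + 1) i m' i' then W p.ω p.ee m' i' else d0)
        (W p.ω p.ee m i) := by
    intro k
    induction k with
    | zero => intro m i k1 _ k3; omega
    | succ k ih =>
      intro m i k1 k2 k3
      refine (hW p.ω p.ee m i).2 k2 k3 (pOk.ω0 m i) (pOk.ω1 m i) (pOk.e0 _) fun m' i' hs => ?_
      simp only [if_pos hs]
      exact (ih m' i' (by have := hs.1; omega) (by have := hs.1; omega) hs.2.1).1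
  have hmo : ∀ m i, 1 ≤ m → m < p.N → p.Val (m + 1) i → Mo β (m * p.τ) ε fun n J y => ∀ G,
      S1.Good p (capOf p c e' n) J (orc p.N (W p.ω p.ee) G J) m i y (pv m n J y) (α m n J y) :=
    fun m i k1 k2 k3 => (hok _ m i le_rfl k1 k2).2 p
      ⟨pOk, rfl, hCP, hgW, k3, rfl, hthr.1 m i k2, (hthr.2 _).trans ((Finset.fold_min_le _).2 (Or.inr
        ⟨(m, i), Finset.mem_filter.2 ⟨Finset.mem_product.2 ⟨mem_range.2 k2, mem_range.2 (Nat.lt_succ_of_le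
          (Nat.le_add_right _ _))⟩, le_rfl⟩, le_rfl⟩))⟩
      rfl c e' c0 c1 e0 _ (fun m' i' => (hun m' i').2.1) rfl fun m' i' hs => (if_pos hs).symm
  obtain ⟨k, Q, Cq, C, hQ', Cq0, hlev⟩ := hL β 𝒬 p.N p.τ (W p.ω p.ee) hQ pOk.τ0.le
    fun m i => (hun m i).2
  refine ⟨k, Q, Cq, hQ', Cq0, ?_⟩
  have w1 := Whp.finset (μ := disorderLaw) (Icc 1 p.N) (R := fun m n g =>
    (law sv (gibbsWeight n β g) (m * p.τ)).real {y | ¬ Bas (β • Jmat n g) u.K0 u.κ0 y} ≤ 1 / 4)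
    fun m _ => by
      obtain ⟨ρ, ρ0, hρ⟩ := hBas.2 (m * p.τ) (mul_nonneg (Nat.cast_nonneg _) pOk.τ0.le)
      exact Pos.TF.out (P := fun n g y => Bas (β • Jmat n g) u.K0 u.κ0 y)
        (hρ.mono fun x hx => hx x.y (by rw [sub_self, nrm_zero]; positivity)) (by norm_num)
  have w2 := Whp.finset (μ := disorderLaw) (Icc 1 p.N ×ˢ range (2 ^ p.N + 1)) (R := fun x n g =>
    (law sv (gibbsWeight n β g) (x.1 * p.τ)).real {y | ¬ (x.1 < p.N → p.Val (x.1 + 1) x.2 → ∀ G,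
      S1.Good p (capOf p c e' n) (β • Jmat n g) (orc p.N (W p.ω p.ee) G (β • Jmat n g)) x.1 x.2 y
        (pv x.1 n (β • Jmat n g) y) (α x.1 n (β • Jmat n g) y))} ≤ ε) fun x hx => by
      by_cases hc : x.1 < p.N ∧ p.Val (x.1 + 1) x.2
      · refine (hmo x.1 x.2 (mem_Icc.1 (Finset.mem_product.1 hx).1).1 hc.1 hc.2).imp fun n g hg => ?_
        have := Pos.prob_law β (x.1 * p.τ) n g
        exact le_trans (measureReal_mono fun y hy h => hy fun _ _ => h) hg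
      · refine Top.whp_of_eventually (.of_forall fun n g => ?_)
        rw [Set.eq_empty_of_forall_notMem (s := {y | ¬ _}) fun y hy =>
          hy fun k1 k2 => absurd ⟨k1, k2⟩ hc, measureReal_empty]
        exact ε0.le
  have hK : ∀ᶠ n : ℕ in atTop, C ≤ (n : ℝ) ^ e' :=
    ((tendsto_rpow_atTop e0).comp tendsto_natCast_atTop_atTop).eventually_ge_atTop C
  refine (((hBas.1.and w1).and w2).and (whp_gj hβ)).mono ?_
  filter_upwards [hK, eventually_gt_atTop 0] with n hn n0 g ⟨⟨⟨b0, b1⟩, b2⟩, b3⟩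
  obtain ⟨l1, l2⟩ := hlev n g n0 b3
  refine ⟨orc p.N (W p.ω p.ee) (fun m => {y | Bas (β • Jmat n g) u.K0 u.κ0 y ∧
    ∀ i ∈ range (2 ^ p.N + 1), m < p.N → p.Val (m + 1) i → ∀ G,
      S1.Good p (capOf p c e' n) (β • Jmat n g) (orc p.N (W p.ω p.ee) G (β • Jmat n g)) m i y
        (pv m n (β • Jmat n g) y) (α m n (β • Jmat n g) y)}) (β • Jmat n g),
    by rw [wK, wκ]; exact b0, fun m m1 m2 => ?_, fun m _ _ y hy => by rw [wK, wκ]; exact hy.1,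
    fun m _ m2 y hy => ⟨_, _, fun i hi => hy.2 i (mem_range.2 (Nat.lt_succ_of_le
      ((Nat.le_add_right _ _).trans hi))) m2 hi _⟩, fun m' i' _ σ y => ?_, l1,
    fun f hf => (l2 _ f hf).trans (add_le_add le_rfl hn)⟩
  · have := Pos.prob_law β (m * p.τ) n g
    rw [← gibbsWeight_eq_ising]
    refine (mass_le _ _ (b1 m (mem_Icc.2 ⟨m1, m2⟩)) fun i hi =>
      b2 (m, i) (Finset.mem_product.2 ⟨mem_Icc.2 ⟨m1, m2⟩, hi⟩)).trans_eq ?_
    rw [card_range, hε]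
    push_cast
    field_simp
    ring
  · have : Rec.grad (0 : Cube n → ℝ) σ = 0 := Rec.grad_const 0 σ
    simp [Wd.rs, Md.Rsp, this]

end Crest.Agent.T157.Kz

end
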