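import Crest.Agent.T157.KTm_42
import Crest.Agent.T157.KAll_66
import Crest.Agent.T157.KRl_58
import Crest.Agent.T157.KPd_90
import Crest.Agent.T157.KzTar_42
import Crest.Agent.T157.KzBar_25
import Crest.Agent.T157.KzZ_64
import Crest.Agent.T157.KzStep_76
import Crest.Agent.T157.KzLev_63
import Crest.Agent.T157.S1W_6
import Crest.Agent.T157.S1Cr_89
import Crest.Agent.T157.WsAll_32

/-!
# Row 157, part B (helper42): the collective supply, assembled
-/

namespace Crest.Agent.T157.Kz

open Crest.Agent.T157.K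

theorem tar_of (hM : Md.ModStmt) : TarStmt :=
  tarGlue Rv.at0 hM (Md.regGlue progStmt dirStmt gtStmt) bpStmt psiStmt progStmt dirStmt tailStmt
    concStmt revStmt tcStmt tcgStmt repStmt

theorem barStmt : BarStmt := barGlue tcStmt tchStmt tmStmt evStmt

theorem levStmt : LevStmt := levGlue tcStmt psiStmt phiStmt S1.mtStmt

theorem zSup_of (hM : Md.ModStmt) (hg : MagStmt) (ht : TokGlue) (hk : MokGlue)
    (hr : RecStmt) : ZSup :=
  zGlue tcStmt (Kz.stepGlue tcStmt tbStmt (tar_of hM) barStmt hg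
    (ht (Md.predGlue rfStmt) S1.mtStmt) (hk Md.linStmt S1.crudeStmt)) levStmt hr

end Crest.Agent.T157.Kz
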