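import Crest.Agent.T157.KDefB_19

/-!
# Row 157, part B (helper23): calculus of `Kz.Mo`, sizes of the caps
-/

set_option autoImplicit false

noncomputable section

namespace Crest.Agent.T157.Kz

open MeasureTheory Real Matrix Filter Topology
open Crest.ProbabilityR.SpinGlassDynamics
open Crest.Agent.T157.E Crest.Agent.T157.Eig Crest.Agent.T157.K Crest.Agent.T157.S1
open Crest.Agent.T157.Tap (V Mx)
open Crest.Agent.T157.SL (law)
open Crest.Agent.T157.Z (Ty)
open Crest.Agent.T157.Pos (In TF)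
open Crest.Agent.T157.Top (Whp)

variable {β r ε ε' : ℝ} {P Q : ∀ n, Mx n → V n → Prop}

theorem Mo.mono' (h : Mo β r ε P) (he : ε ≤ ε')
    (e : ∀ᶠ n in atTop, ∀ g y, P n (β • Jmat n g) y → Q n (β • Jmat n g) y) : Mo β r ε' Q :=
  Whp.mono h (e.mono fun n hn g hg => by
    have := Pos.prob_law β r n g
    refine le_trans (measureReal_mono ?_) (hg.trans he)
    exact fun y hy hP => hy (hn g y hP))

theorem Mo.mono (h : Mo β r ε P) (e : ∀ᶠ n in atTop, ∀ J y, P n J y → Q n J y) : Mo β r ε Q :=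
  h.mono' le_rfl (e.mono fun _ hn _ y => hn _ y)

theorem Mo.imp (h : Mo β r ε P) (e : ∀ n J y, P n J y → Q n J y) : Mo β r ε Q :=
  h.mono (.of_forall e)

theorem Mo.le (h : Mo β r ε P) (he : ε ≤ ε') : Mo β r ε' P := h.mono' he (.of_forall fun _ _ _ => id)

theorem Mo.and (h : Mo β r ε P) (h' : Mo β r ε' Q) :
    Mo β r (ε + ε') fun n J y => P n J y ∧ Q n J y := (Whp.and h h').imp fun n g hg => by
  have := Pos.prob_law β r n g
  refine le_trans (le_trans (measureReal_mono fun y hy => ?_) (measureReal_union_le _ _))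
    (add_le_add hg.1 hg.2)
  exact not_and_or.1 hy

theorem Mo.finset {ι : Type*} (s : Finset ι) {R : ι → ∀ n, Mx n → V n → Prop}
    (h : ∀ i ∈ s, Mo β r ε (R i)) : Mo β r (s.card * ε) fun n J y => ∀ i ∈ s, R i n J y :=
  (Whp.finset s h).imp fun n g hg => by
    have := Pos.prob_law β r n g
    have e : {y | ¬ ∀ i ∈ s, R i n (β • Jmat n g) y} = ⋃ i ∈ s, {y | ¬ R i n (β • Jmat n g) y} := by
      ext y; simp
    rw [e]
    exact (measureReal_biUnion_finset_le s _).trans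
      ((Finset.sum_le_card_nsmul _ _ _ hg).trans_eq (nsmul_eq_mul _ _))

theorem Mo.all {ι : Type*} [Fintype ι] {R : ι → ∀ n, Mx n → V n → Prop} (h : ∀ i, Mo β r ε (R i)) :
    Mo β r (Fintype.card ι * ε) fun n J y => ∀ i, R i n J y :=
  (Mo.finset Finset.univ fun i _ => h i).imp fun _ _ _ hy i => hy i (Finset.mem_univ i)

theorem Mo.of_tf (h : ∀ᶠ x in TF β r, P x.n (x.J β) x.y) (hε : 0 < ε) : Mo β r ε P :=
  TF.out (P := fun n g y => P n (β • Jmat n g) y) h hε

theorem tf_of_mo (h : ∀ ε > (0 : ℝ), Mo β r ε P) : ∀ᶠ x in TF β r, P x.n (x.J β) x.y :=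
  TF.of_dis (P := fun n g y => P n (β • Jmat n g) y) h

theorem Mo.of_ty (h : Ty β r P) (hε : 0 < ε) : Mo β r ε P :=
  let ⟨_, hκ, h⟩ := h
  h.mono (((TapPl.tendsto_exp_neg hκ).eventually (ge_mem_nhds hε)).mono fun _ hn _ hW => hW.trans hn)

theorem tf_of_ty (h : Ty β r P) : ∀ᶠ x in TF β r, P x.n (x.J β) x.y :=
  tf_of_mo fun _ hε => .of_ty h hε

theorem Mo.of_whp {R : ∀ n, Mx n → Prop} (h : Whp disorderLaw fun n g => R n (β • Jmat n g))
    (hε : 0 ≤ ε) : Mo β r ε fun n J _ => R n J := h.imp fun n g hg => by simpa [hg] using hε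

/-- a set of mass `ε` and a typical implication -/
theorem Mo.tf (h : Mo β r ε P) (he : ε < ε')
    (e : ∀ᶠ x in TF β r, P x.n (x.J β) x.y → Q x.n (x.J β) x.y) : Mo β r ε' Q :=
  ((h.and (Mo.of_tf (P := fun n J y => P n J y → Q n J y) e (sub_pos.2 he))).imp
    fun _ _ _ h => h.2 h.1).le (by linarith)

theorem tf_gj (hβ : β ∈ Set.Ioc (0 : ℝ) 1) : ∀ᶠ x in TF β r, GJ (x.J β) :=
  (TF.opn hβ).mono fun x h => ⟨x.symm, x.diag, h⟩

theorem whp_gj (hβ : β ∈ Set.Ioc (0 : ℝ) 1) : Whp disorderLaw fun n g => GJ (β • Jmat n g) :=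
  Whp.imp (Mo.of_tf (r := 0) (P := fun _ J _ => GJ J) (tf_gj hβ) one_half_pos) fun n g hg => by
    have := Pos.prob_law β 0 n g
    by_contra h
    simp only [h, not_false_eq_true, Set.ofPred_true, probReal_univ] at hg
    linarith

theorem tf_ev {R : ℕ → Prop} (h : ∀ᶠ n in atTop, R n) : ∀ᶠ x in TF β r, R x.n := TF.lim.eventually h

theorem rpow_le {a θ : ℝ} (ha : a < 1) (hθ : 0 < θ) : ∀ᶠ n : ℕ in atTop, (n : ℝ) ^ a ≤ θ * n := by
  have := ((tendsto_rpow_neg_atTop (sub_pos.2 ha)).comp tendsto_natCast_atTop_atTop).eventually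
    (ge_mem_nhds hθ)
  filter_upwards [this, eventually_gt_atTop 0] with n hn h0
  have h1 : (0 : ℝ) < n := Nat.cast_pos.2 h0
  have e : (n : ℝ) ^ a = (n : ℝ) ^ (-(1 - a)) * n := by
    rw [← rpow_add_one h1.ne']; congr 1; ring
  rw [e]
  exact mul_le_mul_of_nonneg_right hn h1.le

/-- the caps are sublinear -/
theorem cap_le (p : Par) {c : ℝ} (hc : 0 < c) (e : ℝ) (m : ℕ) {θ : ℝ} (hθ : 0 < θ) :
    ∀ᶠ n : ℕ in atTop, (capOf p c e n).T m ≤ θ * n ∧ (capOf p c e n).t m ≤ θ * n ∧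
      (capOf p c e n).t' m ≤ θ * n :=
  (rpow_le (sub_lt_self _ (by positivity)) hθ).and ((rpow_le (sub_lt_self _ (by positivity)) hθ).and
    (rpow_le (sub_lt_self _ (by positivity)) hθ))

/-- the additive error is unbounded -/
theorem cap_K (p : Par) (c : ℝ) {e : ℝ} (he : 0 < e) (C : ℝ) :
    ∀ᶠ n : ℕ in atTop, C ≤ (capOf p c e n).K :=
  ((tendsto_rpow_atTop he).comp tendsto_natCast_atTop_atTop).eventually_ge_atTop C

/-- the additive error dominates the logarithm -/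
theorem cap_log (p : Par) (c : ℝ) {e : ℝ} (he : 0 < e) (C : ℝ) :
    ∀ᶠ n : ℕ in atTop, C * (log n + 1) ≤ (capOf p c e n).K := by
  have h := (isLittleO_log_rpow_atTop he).def (c := 1 / (2 * (|C| + 1))) (by positivity)
  filter_upwards [tendsto_natCast_atTop_atTop.eventually h, cap_K p c he (2 * |C|)] with n h1 h2
  change _ ≤ (n : ℝ) ^ e at h2 ⊢
  have h3 : (0 : ℝ) ≤ (n : ℝ) ^ e := by positivity
  have h4 := log_natCast_nonneg n
  rw [Real.norm_of_nonneg h4, Real.norm_of_nonneg h3, one_div, inv_mul_eq_div,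
    le_div_iff₀ (by positivity)] at h1
  nlinarith [mul_le_mul_of_nonneg_right (le_abs_self C) (add_nonneg h4 zero_le_one)]

/-- fields within the cap are in the macroscopic ball -/
theorem cap_ball (p : Par) {c : ℝ} (hc : 0 < c) (e : ℝ) (m : ℕ) {ρ : ℝ} (hρ : 0 < ρ) :
    ∀ᶠ n : ℕ in atTop, ∀ x : ℝ, x ^ 2 ≤ (capOf p c e n).t m → x ≤ ρ * √n :=
  (cap_le p hc e m (θ := ρ ^ 2) (by positivity)).mono fun n hn x hx =>
    abs_le_of_sq_le_sq' (by rw [mul_pow, sq_sqrt n.cast_nonneg]; exact hx.trans hn.2.1)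
      (by positivity) |>.2

end Crest.Agent.T157.Kz

end
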