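import Crest.Agent.T157.KDefB_19

/-!
# Row 157, part B (helper25): the backward recursion
-/

set_option autoImplicit false

noncomputable section

namespace Crest.Agent.T157.Kz

namespace Rec25

variable {D : Type} (d0 : D) (N : ℕ) (F : ℕ → ℕ → ℝ → ℝ → (ℕ → ℕ → D) → D)

/-- the recursion -/
def W (ω : ℕ → ℕ → ℝ) (e : ℕ → ℝ) (m i : ℕ) : D :=
  F m i (ω m i) (e (i + 2 ^ (N - (m + 1))))
    fun m' i' => if _h : Sub N (m + 1) i m' i' then W ω e m' i' else d0
termination_by N - m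
decreasing_by
  have h1 := _h.1
  have h2 := _h.2.1
  omega

lemma past (j : ℕ) (ω ω' : ℕ → ℕ → ℝ) (e e' : ℕ → ℝ) (h1 : ∀ m, ∀ i < j, ω m i = ω' m i)
    (h2 : ∀ i ≤ j, e i = e' i) (m i : ℕ) (h : i + 2 ^ (N - (m + 1)) ≤ j) :
    W d0 N F ω e m i = W d0 N F ω' e' m i := by
  rw [W, W, h1 m i (lt_of_lt_of_le (Nat.lt_add_of_pos_right (by positivity)) h), h2 _ h]
  congr 1
  funext m' i'
  split_ifs with hs
  · exact past j ω ω' e e' h1 h2 m' i' (hs.2.2.2.trans h)
  · rfl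
termination_by N - m
decreasing_by
  have h1 := hs.1
  have h2 := hs.2.1
  omega

end Rec25

theorem recStmt25 : RecStmt := by
  intro D d0 N R h
  choose F hF using h
  refine ⟨Rec25.W d0 N F, fun ω e m i => ?_, Rec25.past d0 N F⟩
  rw [Rec25.W]
  simpa only [dite_eq_ite] using hF _ _ _ _ _

end Crest.Agent.T157.Kz

end
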