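import Crest.Agent.T157.KDefB_19

/-!
# Row 157, part B (helper27): the backward recursion
-/

set_option autoImplicit false

namespace Crest.Agent.T157.Kz

theorem recStmt27 : RecStmt := by
  intro D d0 N R h
  choose f hf using h
  let Φ : (ℕ → ℕ → ℝ) → (ℕ → ℝ) → (ℕ → ℕ → D) → ℕ → ℕ → D := fun ω e W m i =>
    f m i (ω m i) (e (i + 2 ^ (N - (m + 1)))) fun m' i' => if Sub N (m + 1) i m' i' then W m' i' else d0
  have A : ∀ ω e k W0 W1 m i, N ≤ m + k → (Φ ω e)^[k + 1] W0 m i = (Φ ω e)^[k + 1] W1 m i := by
    intro ω e k W0 W1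
    induction k with
    | zero =>
      intro m i hm
      refine congrArg (f _ _ _ _) (funext₂ fun m' i' => ?_)
      rw [if_neg, if_neg] <;> exact fun c => by have := c.1; have := c.2.1; omega
    | succ k ih =>
      intro m i hm
      rw [Function.iterate_succ_apply' _ (k + 1), Function.iterate_succ_apply' _ (k + 1)]
      refine congrArg (f _ _ _ _) (funext₂ fun m' i' => ?_)
      split_ifs with c
      exacts [ih m' i' (by have := c.1; omega), rfl]
  refine ⟨fun ω e => (Φ ω e)^[N + 1] fun _ _ => d0, fun ω e m i => ?_, fun j ω ω' e e' hω he => ?_⟩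
  · have := A ω e N (fun _ _ => d0) (Φ ω e fun _ _ => d0) m i (by omega)
    rw [← Function.iterate_succ_apply, Function.iterate_succ_apply' _ (N + 1)] at this
    beta_reduce
    rw [this]
    exact hf _ _ _ _ _
  · beta_reduce
    generalize N + 1 = k
    induction k with
    | zero => exact fun _ _ _ => rfl
    | succ k ih =>
      intro m i hi
      have : 0 < 2 ^ (N - (m + 1)) := by positivity
      rw [Function.iterate_succ_apply', Function.iterate_succ_apply']
      simp only [Φ, hω m i (by omega), he _ hi]
      refine congrArg (f _ _ _ _) (funext₂ fun m' i' => ?_)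
      split_ifs with c
      exacts [ih m' i' (c.2.2.2.trans hi), rfl]

end Crest.Agent.T157.Kz
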