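import Crest.Agent.T157.KDefB_19

/-!
# Row 157, part B (helper62, after helper36's `KRec_36`): the backward recursion `RecStmt`
-/

set_option autoImplicit false

noncomputable section

namespace Crest.Agent.T157.Kz

namespace Rec62

variable {D : Type} (d0 : D) (N : ℕ) (S : ℕ → ℕ → ℝ → ℝ → (ℕ → ℕ → D) → D)

/-- `k` steps of the recursion -/
def it (ω : ℕ → ℕ → ℝ) (e : ℕ → ℝ) : ℕ → ℕ → ℕ → D
  | 0 => fun _ _ => d0
  | k + 1 => fun m i => S m i (ω m i) (e (i + 2 ^ (N - (m + 1))))
      (fun m' i' => if Sub N (m + 1) i m' i' then it ω e k m' i' else d0)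

theorem it_succ (ω : ℕ → ℕ → ℝ) (e : ℕ → ℝ) (k m i : ℕ) : it d0 N S ω e (k + 1) m i =
    S m i (ω m i) (e (i + 2 ^ (N - (m + 1))))
      (fun m' i' => if Sub N (m + 1) i m' i' then it d0 N S ω e k m' i' else d0) := rfl

theorem it_stab (ω : ℕ → ℕ → ℝ) (e : ℕ → ℝ) :
    ∀ k m i, N < m + k + 1 → it d0 N S ω e (k + 2) m i = it d0 N S ω e (k + 1) m i := by
  intro k
  induction k with
  | zero =>
    intro m i h
    rw [it_succ d0 N S ω e 1, it_succ d0 N S ω e 0]
    congr 1
    funext m' i'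
    split_ifs with hs
    · exact absurd (hs.1.trans_lt hs.2.1) (by omega)
    · rfl
  | succ k ih =>
    intro m i h
    rw [it_succ d0 N S ω e (k + 2), it_succ d0 N S ω e (k + 1)]
    congr 1
    funext m' i'
    split_ifs with hs
    · exact ih m' i' (by have := hs.1; omega)
    · rfl

theorem it_loc {j : ℕ} {ω ω' : ℕ → ℕ → ℝ} {e e' : ℕ → ℝ} (h1 : ∀ m, ∀ i < j, ω m i = ω' m i)
    (h2 : ∀ i ≤ j, e i = e' i) :
    ∀ k m i, i + 2 ^ (N - (m + 1)) ≤ j → it d0 N S ω e k m i = it d0 N S ω' e' k m i := by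
  intro k
  induction k with
  | zero => intro m i _; rfl
  | succ k ih =>
    intro m i h
    have : 0 < 2 ^ (N - (m + 1)) := by positivity
    rw [it_succ, it_succ, h1 m i (by omega), h2 _ h]
    congr 1
    funext m' i'
    split_ifs with hs
    · exact ih m' i' (hs.2.2.2.trans h)
    · rfl

end Rec62

theorem recStmt62 : RecStmt := by
  intro D d0 N R h
  choose S hS using h
  refine ⟨fun ω e => Rec62.it d0 N S ω e (N + 2), fun ω e m i => ?_,
    fun j ω ω' e e' h1 h2 m i hm => Rec62.it_loc d0 N S h1 h2 _ m i hm⟩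
  have : (fun m' i' => if Sub N (m + 1) i m' i' then Rec62.it d0 N S ω e (N + 2) m' i' else d0) =
      fun m' i' => if Sub N (m + 1) i m' i' then Rec62.it d0 N S ω e (N + 1) m' i' else d0 := by
    funext m' i'
    split_ifs
    · exact Rec62.it_stab d0 N S ω e N m' i' (by omega)
    · rfl
  beta_reduce
  rw [this, Rec62.it_succ d0 N S ω e (N + 1)]
  exact hS _ _ _ _ _

end Crest.Agent.T157.Kz

end
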