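import Crest.Agent.T157.LcDefB_30

/-!
# Row 157, block B/S4b (helper6): the response is equicontinuous in the static field (`EqGlue`)
-/

set_option autoImplicit false

noncomputable section

namespace Crest.Agent.T157.Tw.Eq6

open MeasureTheory Real Matrix Set Filter Topology

lemma sech2_eq (z : ℝ) : sech2 z = 1 - tanh z ^ 2 := by
  have := (cosh_pos z).ne'
  rw [sech2, tanh_eq_sinh_div_cosh]; field_simp; linarith [cosh_sq' z]

lemma cosh_le {z z' δ : ℝ} (h : |z - z'| ≤ δ) : cosh z' ≤ exp δ * cosh z := by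
  obtain ⟨h1, h2⟩ := abs_le.1 h
  have a1 : exp z' ≤ exp δ * exp z := by rw [← exp_add]; exact exp_le_exp.2 (by linarith)
  have a2 : exp (-z') ≤ exp δ * exp (-z) := by rw [← exp_add]; exact exp_le_exp.2 (by linarith)
  rw [cosh_eq, cosh_eq]; linarith

lemma sech2_le' {z z' δ : ℝ} (h : |z - z'| ≤ δ) : sech2 z ≤ exp δ ^ 2 * sech2 z' := by
  have := cosh_pos z
  have := cosh_pos z'
  rw [sech2, sech2, mul_one_div, div_le_div_iff₀ (by positivity) (by positivity), one_mul, ← mul_pow]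
  exact pow_le_pow_left₀ this.le (cosh_le h) 2

lemma tanh_le' {z z' δ : ℝ} (h : |z - z'| ≤ δ) : 1 + tanh z ≤ exp δ ^ 2 * (1 + tanh z') := by
  have e : ∀ x, 1 + tanh x = exp x / cosh x := fun x => by
    have := (cosh_pos x).ne'
    rw [tanh_eq_sinh_div_cosh, ← cosh_add_sinh]; field_simp
  have := cosh_pos z
  have := cosh_pos z'
  have a1 : exp z ≤ exp δ * exp z' := by
    rw [← exp_add]; exact exp_le_exp.2 (by linarith [(abs_le.1 h).2])
  rw [e, e, ← mul_div_assoc, div_le_div_iff₀ (by positivity) (by positivity)]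
  exact (mul_le_mul a1 (cosh_le h) this.le (by positivity)).trans_eq (by ring)

variable (c : Cal) {b : Bath} {ξ ξ' δ : ℝ}
include c

lemma ex_le (h : |ξ - ξ'| ≤ δ) {F : SV b.m} (hF : ∀ s X, 0 ≤ F.1 s X) :
    exS b ξ F ≤ exp δ ^ 2 * exS b ξ' F := by
  have p1 := c.pos b 0 (F + sS _ * F) fun s X => by
    have := hF s X
    change 0 ≤ F.1 s X + sg s * F.1 s X
    cases s <;> simp [sg, this]
  have p2 := c.pos b 0 (F - sS _ * F) fun s X => by
    have := hF s X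
    change 0 ≤ F.1 s X - sg s * F.1 s X
    cases s <;> simp [sg, this]
  rw [map_add] at p1
  rw [map_sub] at p2
  have t1 := tanh_le' h
  have t2 := tanh_le' (z := -ξ) (z' := -ξ') (δ := δ) (by rwa [neg_sub_neg, abs_sub_comm])
  rw [tanh_neg, tanh_neg] at t2
  rw [c.aff b ξ, c.aff b ξ']
  nlinarith [mul_le_mul_of_nonneg_right t1 p1, mul_le_mul_of_nonneg_right t2 p2]

lemma ex_cen (ξ : ℝ) (F : SV b.m) (x : ℝ) : exS b ξ ((F - x • 1) * (F - x • 1)) =
    (imS b ξ).N F F + (exS b ξ F - x) ^ 2 := by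
  have e : (F - x • 1) * (F - x • 1) = F * F - (2 * x) • F + x ^ 2 • (1 : SV b.m) := by
    simp only [Algebra.smul_def, map_mul, map_pow, map_ofNat]; ring
  rw [e, map_add, map_sub, map_smul, map_smul, c.ex1, c.N, smul_eq_mul, smul_eq_mul]
  ring

lemma N_le (h : |ξ - ξ'| ≤ δ) (F : SV b.m) : (imS b ξ).N F F ≤ exp δ ^ 2 * (imS b ξ').N F F := by
  have h1 := ex_le c h (F := (F - exS b ξ' F • 1) * (F - exS b ξ' F • 1)) fun s X => mul_self_nonneg _
  rw [ex_cen c, ex_cen c, sub_self] at h1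
  nlinarith [sq_nonneg (exS b ξ F - exS b ξ' F)]

lemma rs_sq (ξ : ℝ) (F : SV b.m) : exS b ξ (rsS b ξ F * rsS b ξ F) =
    1 / 4 * exS b ξ ((1 - tS b ξ ^ 2) * ((F - fl _ F) * (F - fl _ F))) := by
  set G := (F - fl _ F) * (F - fl _ F) with hG
  have h1 := c.db b ξ (tS b ξ * G) (Subtype.ext (funext fun s => funext fun X => by
    change _ * ((F.1 (!s) X - F.1 (!!s) X) * (F.1 (!s) X - F.1 (!!s) X)) =
      _ * ((F.1 s X - F.1 (!s) X) * (F.1 s X - F.1 (!s) X))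
    rw [Bool.not_not]
    exact congrArg₂ _ rfl (by ring)))
  have e : rsS b ξ F * rsS b ξ F = (1 / 4 : ℝ) • ((1 - tS b ξ ^ 2) * G +
      (2 : ℝ) • (tS b ξ * (tS b ξ * G) - sS _ * (tS b ξ * G))) := by
    have h2 : algebraMap ℝ (SV b.m) (1 / 4) = algebraMap ℝ _ (1 / 2) ^ 2 := by
      rw [← map_pow]; norm_num
    change ((1 / 2 : ℝ) • (1 - sS _ * tS b ξ) * (F - fl _ F)) *
      ((1 / 2 : ℝ) • (1 - sS _ * tS b ξ) * (F - fl _ F)) = _
    simp only [Algebra.smul_def, h2, map_ofNat, hG]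
    linear_combination (algebraMap ℝ (SV b.m) (1 / 2) ^ 2 * tS b ξ ^ 2 * (F - fl _ F) ^ 2) * c.ss b.m
  rw [e, map_smul, map_add, map_smul, map_sub, h1, sub_self, smul_zero, add_zero, smul_eq_mul]

lemma En_le (h : |ξ - ξ'| ≤ δ) (F : SV b.m) :
    (imS b ξ).En F F ≤ (exp δ ^ 2) ^ 2 * (imS b ξ').En F F := by
  have r1 : 1 ≤ exp δ ^ 2 := one_le_pow₀ (one_le_exp ((abs_nonneg _).trans h))
  have e : ∀ ξ, ∑ i, ∑ j, b.A i j * exS b ξ (dd i F * dd j F) =
      exS b ξ (∑ i, ∑ j, b.A i j • (dd i F * dd j F)) := fun ξ => by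
    simp only [map_sum, map_smul, smul_eq_mul]
  have p : ∀ s X, 0 ≤ (∑ i, ∑ j, b.A i j • (dd i F * dd j F)).1 s X := fun s X => by
    have := b.psd.dotProduct_mulVec_nonneg fun i => (dd i F).1 s X
    simp only [star_trivial, dotProduct, mulVec, Finset.mul_sum] at this
    simp only [AddSubmonoidClass.coe_finsetSum, Finset.sum_apply, SetLike.val_smul, Pi.smul_apply,
      MulMemClass.coe_mul, Pi.mul_apply, smul_eq_mul]
    exact this.trans_eq (Finset.sum_congr rfl fun i _ => Finset.sum_congr rfl fun j _ => by ring)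
  have h1 := ex_le c h p
  have h2 := c.pos b ξ' _ p
  set G := (F - fl _ F) * (F - fl _ F) with hG
  have g0 : ∀ s X, 0 ≤ G.1 s X := fun s X => mul_self_nonneg _
  have q : ∀ ξ s X, ((1 - tS b ξ ^ 2) * G).1 s X = sech2 (fld b ξ X) * G.1 s X := fun ξ s X => by
    rw [sech2_eq]; rfl
  have h3 := ex_le c h (F := (1 - tS b ξ' ^ 2) * G) fun s X => by
    rw [q]; exact mul_nonneg (sech2_pos _).le (g0 s X)
  have h4 := c.pos b ξ (exp δ ^ 2 • ((1 - tS b ξ' ^ 2) * G) - (1 - tS b ξ ^ 2) * G) fun s X => by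
    change 0 ≤ exp δ ^ 2 * ((1 - tS b ξ' ^ 2) * G).1 s X - ((1 - tS b ξ ^ 2) * G).1 s X
    rw [q, q, ← mul_assoc, ← sub_mul]
    exact mul_nonneg (sub_nonneg.2 (sech2_le' (by simpa [fld] using h))) (g0 s X)
  rw [map_sub, map_smul, smul_eq_mul] at h4
  rw [c.En, c.En, rs_sq c, rs_sq c, e, e, ← hG]
  nlinarith [mul_le_mul_of_nonneg_left h3 (zero_le_one.trans r1),
    mul_le_mul_of_nonneg_right r1 (mul_nonneg (zero_le_one.trans r1) h2)]

lemma N_s (ξ : ℝ) (F : SV b.m) : (imS b ξ).N (sS _) F = sech2 ξ * exS b 0 (sS _ * F) := by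
  rw [c.N, c.exs, c.aff b ξ, c.aff b ξ F, ← mul_assoc (sS _), c.ss, one_mul, sech2_eq]; ring

lemma En_s (ξ : ℝ) (F : SV b.m) :
    (imS b ξ).En (sS _) F = (imS b ξ).N (sS _) F - (imS b ξ).N (tS b ξ) F := by
  have e : rsS b ξ (sS _) = sS _ - tS b ξ := by
    have h2 : algebraMap ℝ (SV b.m) (1 / 2) * 2 = 1 := by
      rw [← map_ofNat (algebraMap ℝ (SV b.m)) 2, ← map_mul]; norm_num
    change (1 / 2 : ℝ) • (1 - sS _ * tS b ξ) * (sS _ - fl _ (sS _)) = _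
    rw [c.fls, Algebra.smul_def]
    linear_combination (sS b.m - sS b.m * sS b.m * tS b ξ) * h2 - tS b ξ * c.ss b.m
  have h1 := c.db b ξ 1 (map_one _)
  rw [mul_one, mul_one] at h1
  rw [(c.ok b ξ).sE, c.En, c.rs_ip, e, c.N, c.N, h1, mul_sub, map_sub, mul_comm F, mul_comm F]
  simp [c.ds]

omit c in
lemma N_exp {V : Type} [AddCommGroup V] [Module ℝ V] {H : Pre V} (h : H.Ok) (u v : V) (x : ℝ) :
    0 ≤ H.N v v * (x * x) + 2 * H.N u v * x + H.N u u := by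
  have := h.pN (u + x • v)
  simp only [map_add, map_smul, LinearMap.add_apply, LinearMap.smul_apply, smul_eq_mul, h.sN v u] at this
  linarith

/-- the Galerkin solution and the quantities attached to it -/
lemma gal (p : PolApi) (g : GalStmt) {l a : ℝ} (hl : a < l) (hb : Coer b l) (D : ℕ) (ξ : ℝ) :
    ∃ φ ∈ PolS b.m D, gamD b a D ξ = sech2 ξ * (1 + a * exS b 0 (sS _ * φ)) ∧
      Mf b ξ (-a) φ = sech2 ξ * exS b 0 (sS _ * φ) ∧ 0 ≤ exS b 0 (sS _ * φ) ∧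
      exS b 0 (sS _ * φ) ≤ 1 / (l - a) ∧ (l - a) ^ 2 * (imS b ξ).N φ φ ≤ sech2 ξ ∧
      (1 - a) * gamD b a D ξ = sech2 ξ + a * (imS b ξ).N (tS b ξ) φ ∧
      ∀ P ∈ PolS b.m D, 2 * (sech2 ξ * exS b 0 (sS _ * P)) - Mf b ξ (-a) P ≤
        sech2 ξ * exS b 0 (sS _ * φ) := by
  obtain ⟨⟨n, P, k, -, h1⟩, h2⟩ := g b l hb D (-a) (by linarith)
  obtain ⟨h3, h4⟩ := h2 ξ _ (h1 ξ)
  obtain ⟨hφ, -, h5⟩ := h1 ξ
  generalize ∑ i, k i ξ • P i = φ at *
  rw [neg_neg] at h3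
  have ok := c.ok b ξ
  have p0 := sech2_pos ξ
  have la : 0 < l - a := sub_pos.2 hl
  have h6 := h5 _ (by simpa using p.s (p.one b.m D) : sS _ ∈ PolS b.m D)
  have h7 := h5 _ hφ
  have h8 := hb.2 ξ D _ hφ
  have h9 := N_exp ok (sS _) φ (-(l - a))
  have h10 := En_s c ξ φ
  have h11 := ok.pN φ
  rw [ok.sN φ, ok.sE φ, ← h3, c.Ns] at h6
  rw [c.Ns] at h9
  rw [← h3] at h10
  rw [N_s c] at h6 h7 h9 h10
  have h12 : (l - a) * (imS b ξ).N φ φ ≤ sech2 ξ * exS b 0 (sS _ * φ) := by linarith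
  have h13 := mul_le_mul_of_nonneg_left h12 la.le
  have h14 : (l - a) * (sech2 ξ * exS b 0 (sS _ * φ)) ≤ sech2 ξ := by linarith
  refine ⟨φ, hφ, by linarith, h7, ?_, ?_, by linarith, ?_, fun P hP => ?_⟩
  · exact nonneg_of_mul_nonneg_right ((mul_nonneg la.le h11).trans h12) p0
  · rw [le_div_iff₀ la]
    exact le_of_mul_le_mul_left (by linarith) p0
  · linear_combination h6 - a * h10
  · have h15 := h4 P hP
    have h16 := hb.2 ξ D _ (sub_mem hP hφ)
    have h17 := mul_nonneg la.le (ok.pN (P - φ))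
    simp only [Jf, N_s c, Mf] at h15 ⊢
    linarith

omit c in
lemma one_side {l a r p p' m m' N N' En En' : ℝ} (a0 : 0 ≤ a) (hl : a < l) (r1 : 1 ≤ r) (p0 : 0 < p')
    (N0 : 0 ≤ N) (m0 : 0 ≤ m) (m1 : m ≤ 1 / (l - a)) (hp : p ≤ r * p') (hQ : -a * N + En = p * m)
    (hc : l * N ≤ En) (hN : N ≤ r * N') (hE : En' ≤ r ^ 2 * En)
    (h : 2 * (p' * m) - (-a * N' + En') ≤ p' * m') :
    m - m' ≤ ((1 + ((r ^ 2 - 1) * l + a * (r - 1)) / (l - a)) * r - 1) / (l - a) := by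
  have la : 0 < l - a := sub_pos.2 hl
  have r2 : 0 ≤ r ^ 2 - 1 := sub_nonneg.2 (one_le_pow₀ r1)
  have l0 : 0 < l := by linarith
  have b1 : N ≤ p * m / (l - a) := by rw [le_div_iff₀ la]; linarith
  have b2 : En ≤ l * (p * m / (l - a)) := by
    rw [← mul_div_assoc, le_div_iff₀ la, ← hQ]; nlinarith
  have b3 : N - N' ≤ (r - 1) * N := by
    refine le_of_mul_le_mul_left ?_ (show 0 < r by linarith)
    nlinarith [mul_nonneg (sq_nonneg (r - 1)) N0]
  set κ := 1 + ((r ^ 2 - 1) * l + a * (r - 1)) / (l - a) with hκ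
  have κ1 : 1 ≤ κ := le_add_of_nonneg_right (div_nonneg (add_nonneg (by positivity)
    (mul_nonneg a0 (by linarith))) la.le)
  have b4 : -a * N' + En' ≤ κ * (p * m) := by
    have c1 := mul_le_mul_of_nonneg_left b2 r2
    have c2 := mul_le_mul_of_nonneg_left (b3.trans (mul_le_mul_of_nonneg_left b1 (by linarith))) a0
    have e : κ * (p * m) = p * m + ((r ^ 2 - 1) * (l * (p * m / (l - a))) +
        a * ((r - 1) * (p * m / (l - a)))) := by rw [hκ]; ring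
    linarith
  have b5 : κ * (p * m) ≤ κ * (r * p' * m) := by gcongr
  have b6 : m - m' ≤ (κ * r - 1) * m := le_of_mul_le_mul_left (by linarith) p0
  rw [div_eq_mul_one_div]
  exact b6.trans (mul_le_mul_of_nonneg_left m1 (by nlinarith))

theorem eq (p : PolApi) (g : GalStmt) (t : TailStmt) : EqStmt := by
  intro l a K a0 hl η η0
  have la : 0 < l - a := sub_pos.2 hl
  set f : ℝ → ℝ := fun r => ((1 + ((r ^ 2 - 1) * l + a * (r - 1)) / (l - a)) * r - 1) / (l - a) with hf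
  have fc : Continuous fun δ : ℝ => a * f (exp δ ^ 2) := by rw [hf]; fun_prop
  obtain ⟨δ, h1, δ0⟩ := ((((fc.tendsto' 0 0 (by simp [hf])).eventually (ge_mem_nhds η0)).filter_mono
    nhdsWithin_le_nhds).and (self_mem_nhdsWithin (a := (0 : ℝ)) (s := Ioi 0))).exists
  obtain ⟨B, hB⟩ := t K ((η * (l - a) / (a + 1)) ^ 2) (by positivity)
  refine ⟨δ, δ0, B, fun b D hb hK ξ => ?_⟩
  have r1 : 1 ≤ exp δ ^ 2 := one_le_pow₀ (one_le_exp (le_of_lt δ0))
  obtain ⟨φ, hφ, g1, g2, g3, g4, g5, g6, g7⟩ := gal c p g hl hb D ξ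
  have p0 := sech2_pos ξ
  refine ⟨fun ξ' h => ?_, fun h => ?_⟩
  · obtain ⟨ψ, hψ, k1, k2, k3, k4, -, -, k7⟩ := gal c p g hl hb D ξ'
    have p1 := sech2_pos ξ'
    have h' : |ξ' - ξ| ≤ δ := by rwa [abs_sub_comm]
    have s1 := one_side a0 hl r1 p1 ((c.ok b ξ).pN φ) g3 g4 (sech2_le' h) g2 (hb.2 ξ D _ hφ)
      (N_le c h φ) (En_le c h' φ) (k7 φ hφ)
    have s2 := one_side a0 hl r1 p0 ((c.ok b ξ').pN ψ) k3 k4 (sech2_le' h') k2 (hb.2 ξ' D _ hψ)
      (N_le c h' ψ) (En_le c h ψ) (g7 ψ hψ)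
    rw [g1, k1, mul_div_cancel_left₀ _ p0.ne', mul_div_cancel_left₀ _ p1.ne', add_sub_add_left_eq_sub,
      ← mul_sub, abs_mul, abs_of_nonneg a0]
    exact (mul_le_mul_of_nonneg_left (abs_sub_le_iff.2 ⟨s1, s2⟩) a0).trans h1
  · have h2 := hB b hK ξ h
    have h3 := discrim_le_zero (N_exp (c.ok b ξ) (tS b ξ) φ)
    have h4 := mul_le_mul g5 h2 ((c.ok b ξ).pN _) p0.le
    have h5 : ((l - a) * (imS b ξ).N (tS b ξ) φ) ^ 2 ≤ (η * (l - a) / (a + 1) * sech2 ξ) ^ 2 := by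
      rw [discrim] at h3
      nlinarith [mul_le_mul_of_nonneg_left h3 (sq_nonneg (l - a))]
    have h6 := abs_le_of_sq_le_sq' h5 (by positivity)
    have h7 : |(imS b ξ).N (tS b ξ) φ| ≤ η / (a + 1) * sech2 ξ := by
      refine le_of_mul_le_mul_left ?_ la
      rw [← abs_of_pos la, ← abs_mul, abs_of_pos la]
      exact (abs_le.2 h6).trans_eq (by ring)
    rw [← mul_div_assoc, g6, add_div, div_self p0.ne', add_sub_cancel_left, abs_div, abs_mul,
      abs_of_nonneg a0, abs_of_pos p0, div_le_iff₀ p0]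
    refine (mul_le_mul_of_nonneg_left h7 a0).trans ?_
    rw [← mul_assoc, ← mul_div_assoc]
    gcongr
    rw [div_le_iff₀ (by positivity)]
    nlinarith

end Crest.Agent.T157.Tw.Eq6

namespace Crest.Agent.T157.Tw

theorem eqGlue : EqGlue := fun c p g t => Eq6.eq c p g t

end Crest.Agent.T157.Tw
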