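import Crest.Agent.T157.LcDef_30

/-!
# Row 157, block B/S4c (helper49): irreducible functions and the exact ansatz (`ExGlue`)
-/

set_option autoImplicit false

noncomputable section

namespace Crest.Agent.T157.Tw

open Real Matrix Set

namespace Ex49

variable {m k : ℕ}

/-- `⟨v, Z⟩` -/
def zl (b : Bath) : (Fin b.m → ℝ) →ₗ[ℝ] SV b.m := emb (zS b)

lemma zl_apply (b : Bath) (v : Fin b.m → ℝ) : zl b v = ∑ j, v j • zS b j := emb_apply _ _
lemma lin_apply (v : Fin m → ℝ) : linS m v = ∑ j, v j • xS j := emb_apply _ _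

lemma zl_eq (b : Bath) (v : Fin b.m → ℝ) : zl b v = linS _ v - (v ⬝ᵥ b.g) • sS _ := by
  rw [zl_apply, lin_apply, dotProduct, Finset.sum_smul, ← Finset.sum_sub_distrib]
  exact Finset.sum_congr rfl fun j _ => by rw [zS, smul_sub, smul_smul]

lemma pull_s (ι : Matrix (Fin k) (Fin m) ℝ) : pull ι (sS m) = sS k := rfl
lemma fl_x (j : Fin m) : fl m (xS j) = xS j := rfl

lemma alg (r : ℝ) : algebraMap ℝ (SV m) r = r • 1 := Algebra.algebraMap_eq_smul_one r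

lemma rs_inv (b : Bath) (ξ : ℝ) {F : SV b.m} (h : fl _ F = F) : rsS b ξ F = 0 := by
  simp [rsS, h]

lemma rs_one (b : Bath) (ξ : ℝ) : rsS b ξ 1 = 0 := rs_inv b ξ (map_one _)

lemma rs_lin (b : Bath) (ξ : ℝ) (v : Fin b.m → ℝ) : rsS b ξ (linS _ v) = 0 :=
  rs_inv b ξ (by simp only [lin_apply, map_sum, map_smul, fl_x])

lemma w_g (e : Ext) (u : Fin e.b.m → ℝ) : e.w u ⬝ᵥ e.bt.g = 0 := by
  rw [e.hg, dotProduct_comm, ← vecMul_transpose, ← dotProduct_mulVec, Ext.w, mulVec_sub,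
    mulVec_mulVec, mulVec_mulVec, mulVec_mulVec, ← e.hA, e.iso, one_mulVec, sub_self,
    dotProduct_zero]

lemma iso_g (e : Ext) (u : Fin e.b.m → ℝ) : (e.ι *ᵥ u) ⬝ᵥ e.bt.g = u ⬝ᵥ e.b.g := by
  rw [e.hg, ← vecMul_transpose, ← dotProduct_mulVec, mulVec_mulVec, e.iso, one_mulVec]

section forms
variable {V : Type} [AddCommGroup V] [Module ℝ V] {H : Pre V}

lemma add_le (h : H.Ok) {c : ℝ} (hc : 0 ≤ c) (F G : V) :
    c * H.N (F + G) (F + G) + H.En (F + G) (F + G) ≤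
      2 * (c * H.N F F + H.En F F) + 2 * (c * H.N G G + H.En G G) := by
  have h1 := mul_nonneg hc (h.pN (F - G))
  have h2 := h.pE (F - G)
  simp only [map_add, map_sub, LinearMap.add_apply, LinearMap.sub_apply] at h1 h2 ⊢
  linarith

end forms

lemma mf_add {b : Bath} {ξ c : ℝ} (h : (imS b ξ).Ok) (hc : 0 ≤ c) (F G : SV b.m) :
    Mf b ξ c (F + G) ≤ 2 * Mf b ξ c F + 2 * Mf b ξ c G := add_le h hc F G

lemma mf_smul (b : Bath) (ξ c r : ℝ) (F : SV b.m) : Mf b ξ c (r • F) = r ^ 2 * Mf b ξ c F := by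
  simp only [Mf, map_smul, LinearMap.smul_apply, smul_eq_mul]; ring

section cal
variable (c : Cal)
include c

lemma d_z (b : Bath) (i j : Fin b.m) : dd i (zS b j) = if j = i then 1 else 0 := by
  rw [zS, map_sub, map_smul, c.ds, c.dx, smul_zero, sub_zero]

lemma d_zl (b : Bath) (i : Fin b.m) (v : Fin b.m → ℝ) : dd i (zl b v) = v i • 1 := by
  simp [zl_apply, d_z c]

lemma d_lin (i : Fin m) (v : Fin m → ℝ) : dd i (linS m v) = v i • 1 := by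
  simp [lin_apply, c.dx]

lemma ex_zl (b : Bath) (ξ : ℝ) (v : Fin b.m → ℝ) (F : SV b.m) :
    exS b ξ (zl b v * F) = ∑ j, v j * exS b ξ (dd j F) := by
  simp only [zl_apply, Finset.sum_mul, smul_mul_assoc, map_sum, map_smul, c.stein, smul_eq_mul]

lemma ex_zl1 (b : Bath) (ξ : ℝ) (v : Fin b.m → ℝ) : exS b ξ (zl b v) = 0 := by
  simpa [c.done] using ex_zl c b ξ v 1

lemma ex_szl (b : Bath) (ξ : ℝ) (v : Fin b.m → ℝ) : exS b ξ (sS _ * zl b v) = 0 := by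
  simpa [c.ds, mul_comm] using ex_zl c b ξ v (sS _)

lemma p_eq (ξ : ℝ) : sech2 ξ = 1 - tanh ξ ^ 2 := by
  rw [← c.Ns Bath.nil ξ, c.N, c.ss, c.ex1, c.exs, sq]

lemma N_one (b : Bath) (ξ : ℝ) (F : SV b.m) : (imS b ξ).N F 1 = 0 := by
  rw [c.N, mul_one, c.ex1, mul_one, sub_self]

lemma N_zl (b : Bath) (ξ : ℝ) (v : Fin b.m → ℝ) (F : SV b.m) :
    (imS b ξ).N F (zl b v) = ∑ j, v j * exS b ξ (dd j F) := by
  rw [c.N, mul_comm F, ex_zl c, ex_zl1 c, mul_zero, sub_zero]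

lemma En_one (b : Bath) (ξ : ℝ) (F : SV b.m) : (imS b ξ).En F 1 = 0 := by
  simp [c.En, rs_one, c.done]

lemma En_lin (b : Bath) (ξ : ℝ) (v : Fin b.m → ℝ) {F : SV b.m} (h : ∀ j, exS b ξ (dd j F) = 0) :
    (imS b ξ).En F (linS _ v) = 0 := by
  simp [c.En, rs_lin, d_lin c, h]

lemma ex_gen (b : Bath) (ξ : ℝ) (F : SV b.m) : exS b ξ (gen b ξ F) = 0 := by
  rw [← one_mul (gen b ξ F), c.l0, (c.ok b ξ).sE, En_one c]

lemma gen_one (b : Bath) (ξ : ℝ) : gen b ξ 1 = 0 := by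
  simp [gen, ouS, rs_one, c.done]

lemma gen_lin (b : Bath) (ξ : ℝ) (v : Fin b.m → ℝ) : gen b ξ (linS _ v) = zl b (b.A *ᵥ v) := by
  simp [gen, ouS, rs_lin, d_lin c, c.done, zl_apply, mulVec, dotProduct, Finset.sum_smul, smul_smul]

lemma gen_s (b : Bath) (ξ : ℝ) : gen b ξ (sS _) = rsS b ξ (sS _) := by
  simp [gen, ouS, c.ds]

lemma pull_lin (ι : Matrix (Fin k) (Fin m) ℝ) (v : Fin m → ℝ) :
    pull ι (linS m v) = linS k (ι *ᵥ v) := by
  simp only [lin_apply, map_sum, map_smul, c.p_x, Finset.smul_sum, smul_smul, mulVec, dotProduct,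
    Finset.sum_smul]
  rw [Finset.sum_comm]
  simp only [mul_comm]

lemma ex_s_mul (b : Bath) (ξ : ℝ) (F : SV b.m) :
    exS b ξ (sS _ * F) = exS b 0 (sS _ * F) + tanh ξ * exS b 0 F := by
  rw [c.aff, ← mul_assoc, c.ss, one_mul]

omit c in
lemma irr_eq (b : Bath) (ξ : ℝ) (F : SV b.m) : irr b ξ F =
    F - (exS b 0 F • 1 + exS b 0 (sS _ * F) • sS _) - zl b fun j => exS b ξ (dd j F) := by
  rw [irr, alg, zl_apply]

lemma irr_irr (b : Bath) (ξ : ℝ) (F : SV b.m) : Irr b ξ (irr b ξ F) := by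
  have h0 : exS b ξ (irr b ξ F) = 0 := by
    simp only [irr_eq, map_sub, map_add, map_smul, c.ex1, c.exs, ex_zl1 c, smul_eq_mul]
    rw [c.aff b ξ F]; ring
  refine ⟨h0, fun j => ?_, ?_⟩
  · simp [irr_eq, d_zl c, c.done, c.ds, c.ex1]
  · rw [c.N, h0, irr_eq]
    simp only [mul_sub, mul_add, mul_smul_comm, map_sub, map_add, map_smul, c.ss, mul_one, c.ex1,
      c.exs, ex_szl c, smul_eq_mul]
    rw [ex_s_mul c b ξ F]; ring

lemma irr_fix (b : Bath) (ξ : ℝ) (F : SV b.m) (h : Irr b ξ F) : irr b ξ F = F := by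
  obtain ⟨h1, h2, h3⟩ := h
  rw [c.N, h1, mul_zero, sub_zero, ex_s_mul c] at h3
  rw [c.aff] at h1
  have hp := sech2_pos ξ
  rw [p_eq c] at hp
  have a0 : exS b 0 F = 0 := by
    have : (1 - tanh ξ ^ 2) * exS b 0 F = 0 := by linear_combination h1 - tanh ξ * h3
    exact (mul_eq_zero.1 this).resolve_left hp.ne'
  have a1 : exS b 0 (sS _ * F) = 0 := by rw [a0] at h3; linarith
  simp [irr, a0, a1, h2]

omit c in
lemma R_eq (e : Ext) (a ξ : ℝ) (Ξ : SV e.b.m) : e.R a ξ Ξ =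
    gen e.bt ξ (pull e.ι (sS _ + Ξ)) - a • pull e.ι Ξ - (imS e.b ξ).En (sS _) (sS _ + Ξ) •
      ((1 / sech2 ξ) • (sS _ - tanh ξ • 1) - zl e.bt e.bt.g) := by
  rw [Ext.R, stS, alg, zl_apply]

lemma ex_d_pull (e : Ext) (ξ : ℝ) {F : SV e.b.m} (h : ∀ j, exS e.b ξ (dd j F) = 0) (j) :
    exS e.bt ξ (dd j (pull e.ι F)) = 0 := by
  simp [c.p_d, c.p_ex, h]

lemma irr_R (e : Ext) (a ξ : ℝ) (Ξ : SV e.b.m) (h : Irr e.b ξ Ξ) : Irr e.bt ξ (e.R a ξ Ξ) := by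
  obtain ⟨h1, h2, h3⟩ := h
  have hq : (imS e.bt ξ).En (sS _) (pull e.ι (sS _ + Ξ)) = (imS e.b ξ).En (sS _) (sS _ + Ξ) :=
    c.p_En e ξ (sS _) _
  have h0 : exS e.bt ξ (e.R a ξ Ξ) = 0 := by
    simp only [R_eq, map_sub, map_smul, ex_gen c, c.p_ex, h1, c.exs, c.ex1, ex_zl1 c, smul_eq_mul]
    ring
  refine ⟨h0, fun j => ?_, ?_⟩
  · have h4 : ∀ j, exS e.b ξ (dd j (sS _ + Ξ)) = 0 := fun j => by simp [c.ds, h2]
    simp only [R_eq, map_sub, map_smul, c.dgen, map_add (exS e.bt ξ), map_sum, ex_gen c,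
      ex_d_pull c e ξ h4, ex_d_pull c e ξ h2, c.psi_ex, hq, c.ds, c.done, d_zl c, c.ex1,
      smul_eq_mul, map_zero, mul_zero, Finset.sum_const_zero]
    ring
  · have h5 : exS e.bt ξ (sS _ * pull e.ι Ξ) = 0 := by
      rw [c.N, h1, mul_zero, sub_zero, ← c.p_ex, map_mul] at h3; exact h3
    have hp := (sech2_pos ξ).ne'
    rw [c.N, h0, R_eq]
    simp only [mul_sub, mul_smul_comm, map_sub, map_smul, c.l0, hq, h5, c.ss, mul_one, c.ex1,
      c.exs, ex_szl c, smul_eq_mul]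
    have : 1 / sech2 ξ * 1 - 1 / sech2 ξ * (tanh ξ * tanh ξ) = 1 := by
      field_simp; rw [p_eq c]
    linear_combination (-(imS e.b ξ).En (sS _) (sS _ + Ξ)) * this

lemma N_le (b : Bath) (ξ : ℝ) (F : SV b.m) : (imS b ξ).N F F ≤ exS b ξ (F * F) := by
  rw [c.N]; nlinarith [mul_self_nonneg (exS b ξ F)]

lemma En_g (b : Bath) (ξ : ℝ) {F G : SV b.m} (h : ∀ j, dd j F = b.g j • G) :
    (imS b ξ).En F F = exS b ξ (rsS b ξ F * rsS b ξ F) + b.g ⬝ᵥ b.A *ᵥ b.g * exS b ξ (G * G) := by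
  simp only [c.En, h, smul_mul_assoc, mul_smul_comm, map_smul, smul_eq_mul, dotProduct, mulVec,
    Finset.sum_mul, Finset.mul_sum]
  congr 1
  exact Finset.sum_congr rfl fun _ _ => Finset.sum_congr rfl fun _ _ => by ring

lemma R0 (e : Ext) : ∃ C, ∀ a ξ, Mf e.bt ξ 1 (e.R a ξ 0) ≤ C * sech2 ξ := by
  set g2 := e.bt.g ⬝ᵥ e.bt.g
  set gA := e.bt.g ⬝ᵥ e.bt.A *ᵥ e.bt.g
  have hg2 : 0 ≤ g2 := dotProduct_self_star_nonneg e.bt.g
  have hgA : 0 ≤ gA := e.bt.psd.dotProduct_mulVec_nonneg e.bt.g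
  refine ⟨2 * (2 + gA) + 4 * 2 + 4 * (2 * g2 + gA), fun a ξ => ?_⟩
  have ok := c.ok e.bt ξ
  have hp := sech2_pos ξ
  have hp1 := sech2_le ξ
  set q := (imS e.bt ξ).En (sS _) (sS _) with hq
  have hq0 : 0 ≤ q := ok.pE _
  have hq1 : q ≤ sech2 ξ := c.Es _ _
  have hq' : (imS e.b ξ).En (sS _) (sS _) = q := (c.p_En e ξ (sS _) (sS _)).symm
  have e1 : e.R a ξ 0 = rsS e.bt ξ (sS _) +
      ((-(q / sech2 ξ)) • (sS _ - tanh ξ • 1) + q • zl e.bt e.bt.g) := by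
    rw [R_eq, add_zero, map_zero, pull_s, gen_s c, hq']
    module
  have r0 : exS e.bt ξ (rsS e.bt ξ (sS _) * rsS e.bt ξ (sS _)) = q := by simp [hq, c.En, c.ds]
  have m1 : Mf e.bt ξ 1 (rsS e.bt ξ (sS _)) ≤ (2 + gA) * sech2 ξ := by
    have a1 := N_le c e.bt ξ (rsS e.bt ξ (sS _))
    have a2 := c.rs_le e.bt ξ (rsS e.bt ξ (sS _))
    have a3 := c.psi_le e.bt ξ (sS _)
    have a4 : ∀ j, dd j (rsS e.bt ξ (sS _)) = e.bt.g j • -psi e.bt ξ (sS _) := fun j => by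
      rw [c.drs, c.ds, map_zero]; module
    rw [Mf, En_g c _ _ a4, show -psi e.bt ξ (sS _) * -psi e.bt ξ (sS _) =
      psi e.bt ξ (sS _) * psi e.bt ξ (sS _) by ring]
    rw [r0] at a1 a2 a3
    nlinarith [mul_le_mul_of_nonneg_left (a3.trans hq1) hgA]
  have m2 : Mf e.bt ξ 1 ((-(q / sech2 ξ)) • (sS _ - tanh ξ • 1)) ≤ 2 * sech2 ξ := by
    have a1 : (q / sech2 ξ) ^ 2 ≤ 1 := pow_le_one₀ (by positivity) ((div_le_one hp).2 hq1)
    rw [mf_smul, Mf, neg_sq]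
    simp only [map_sub, map_smul, LinearMap.sub_apply, LinearMap.smul_apply, N_one c, En_one c,
      ok.sN 1, ok.sE 1, c.Ns, smul_eq_mul, mul_zero, sub_zero, ← hq]
    nlinarith
  have m3 : Mf e.bt ξ 1 (q • zl e.bt e.bt.g) ≤ (2 * g2 + gA) * sech2 ξ := by
    have a0 : exS e.bt ξ (zl e.bt e.bt.g * zl e.bt e.bt.g) = g2 := by
      simp [ex_zl c, d_zl c, c.ex1, g2, dotProduct]
    have a1 := N_le c e.bt ξ (zl e.bt e.bt.g)
    have a2 := c.rs_le e.bt ξ (zl e.bt e.bt.g)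
    have a3 : q ^ 2 ≤ sech2 ξ := by nlinarith
    have a4 : Mf e.bt ξ 1 (zl e.bt e.bt.g) ≤ 2 * g2 + gA := by
      rw [Mf, En_g c _ _ fun j => d_zl c _ j _, mul_one, c.ex1]
      linarith
    rw [mf_smul, mul_comm]
    exact mul_le_mul a4 a3 (sq_nonneg _) (by positivity)
  rw [e1]
  have s1 := mf_add ok one_pos.le (rsS e.bt ξ (sS _))
    ((-(q / sech2 ξ)) • (sS _ - tanh ξ • 1) + q • zl e.bt e.bt.g)
  have s2 := mf_add ok one_pos.le ((-(q / sech2 ξ)) • (sS _ - tanh ξ • 1)) (q • zl e.bt e.bt.g)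
  linarith

end cal

lemma s_mem (p : PolApi) (m D : ℕ) : sS m ∈ PolS m D := by simpa using p.s (p.one m D)

lemma irr_pol (p : PolApi) (b : Bath) (ξ : ℝ) (D : ℕ) (hD : 1 ≤ D) (F : SV b.m)
    (hF : F ∈ PolS b.m D) : irr b ξ F ∈ PolS b.m D := by
  rw [irr, alg]
  refine sub_mem (sub_mem hF (add_mem (Submodule.smul_mem _ _ (p.one _ _))
    (Submodule.smul_mem _ _ (s_mem p _ _)))) (sum_mem fun j _ => Submodule.smul_mem _ _ ?_)
  refine sub_mem (p.mono _ hD ?_) (Submodule.smul_mem _ _ (s_mem p _ _))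
  simpa using p.x j (p.one b.m 0)

theorem irrApi (c : Cal) (p : PolApi) : IrrApi :=
  ⟨irr_irr c, irr_fix c, irr_pol p, irr_R c, R0 c⟩

section ex
variable (c : Cal) {b : Bath} {l a ξ : ℝ} {D : ℕ} {φ : SV b.m} {u : Fin b.m → ℝ}
include c

/-- a priori bounds on a Galerkin solution -/
lemma gal_bd (p : PolApi) (ha : 0 ≤ a) (hl : a < l) (hC : Coer b l) (hφ : Gal b ξ (-a) D φ) :
    (imS b ξ).En (sS _) φ = sech2 ξ + a * (imS b ξ).N (sS _) φ ∧ 0 ≤ (imS b ξ).N (sS _) φ ∧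
      (imS b ξ).En φ φ ≤ 1 / (l - a) + a / (l - a) ^ 2 := by
  have ok := c.ok b ξ
  have h1 := hφ.2.2 _ (s_mem p _ _)
  have h2 := hφ.2.2 _ hφ.1
  have h3 := hC.2 ξ D φ hφ.1
  have h4 := ok.pN φ
  have h5 := ok.pN (sS _ - (l - a) • φ)
  have h0 : 0 < l - a := sub_pos.2 hl
  have hp := sech2_le ξ
  simp only [map_sub, map_smul, LinearMap.sub_apply, LinearMap.smul_apply, smul_eq_mul, c.Ns,
    ok.sN φ (sS _)] at h5
  rw [c.Ns, ok.sN φ, ok.sE φ] at h1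
  have h6 : (l - a) * (imS b ξ).N φ φ ≤ (imS b ξ).N (sS _) φ := by linarith
  have h7 : (imS b ξ).N (sS _) φ ≤ 1 / (l - a) := by
    rw [le_div_iff₀ h0]; nlinarith [mul_le_mul_of_nonneg_left h6 h0.le]
  have h8 : (imS b ξ).N φ φ ≤ 1 / (l - a) ^ 2 := by
    rw [sq, ← div_div, le_div_iff₀ h0]; linarith
  refine ⟨by linarith, (mul_nonneg h0.le h4).trans h6, ?_⟩
  have := mul_le_mul_of_nonneg_left h8 ha
  rw [mul_one_div] at this
  linarith

omit c in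
lemma decomp {γ : ℝ} (hd : ∀ j, exS b ξ (dd j φ) = γ * u j) :
    φ = irr b ξ φ + exS b 0 φ • 1 + cf b ξ φ • sS _ + γ • linS _ u ∧
      cf b ξ φ = exS b 0 (sS _ * φ) - γ * (u ⬝ᵥ b.g) := by
  have h1 : cf b ξ φ = exS b 0 (sS _ * φ) - γ * (u ⬝ᵥ b.g) := by
    simp only [cf, hd, dotProduct, Finset.mul_sum, mul_assoc]
  refine ⟨?_, h1⟩
  have h2 : (fun j => exS b ξ (dd j φ)) = γ • u := funext hd
  rw [irr_eq, h1, h2, map_smul, zl_eq]
  module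

/-- the scalar identities -/
lemma core (p : PolApi) (ha : 0 ≤ a) (hl : a < l) (hC : Coer b l) (hD : 1 ≤ D)
    (hφ : Gal b ξ (-a) D φ) (hd : ∀ j, exS b ξ (dd j φ) = (imS b ξ).En (sS _) φ * u j) :
    1 ≤ cf b ξ φ ∧ ∀ Ξ, Ξ = (cf b ξ φ)⁻¹ • irr b ξ φ →
      Mf b ξ 1 Ξ ≤ 2 * (1 + a) / (l - a) + 4 ∧ l * sech2 ξ ≤ (imS b ξ).En (sS _) (sS _ + Ξ) ∧
      (imS b ξ).En (sS _) Ξ ≤ 0 ∧
      cf b ξ φ * (imS b ξ).En (sS _) (sS _ + Ξ) = (imS b ξ).En (sS _) φ ∧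
      (imS b ξ).En (sS _) φ = sech2 ξ * (1 + a * exS b 0 (sS _ * φ)) := by
  have ok := c.ok b ξ
  obtain ⟨g1, g2, -⟩ := gal_bd c p ha hl hC hφ
  obtain ⟨d1, d2⟩ := decomp hd
  obtain ⟨i1, i2, i3⟩ := irr_irr c b ξ φ
  have hP := irr_pol p b ξ D hD φ hφ.1
  have hp := sech2_pos ξ
  have hp1 := sech2_le ξ
  have h0 : 0 < l - a := sub_pos.2 hl
  set γ := (imS b ξ).En (sS _) φ with hγ
  set ψ := irr b ξ φ
  set κ := cf b ξ φ
  have hγp : sech2 ξ ≤ γ := by nlinarith [mul_nonneg ha g2]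
  have hs : ∀ j, exS b ξ (dd j (sS b.m)) = 0 := fun j => by rw [c.ds, map_zero]
  have hlin : linS _ u = zl b u + (u ⬝ᵥ b.g) • sS _ := by rw [zl_eq, sub_add_cancel]
  have e1 : γ = (imS b ξ).En (sS _) ψ + κ * (imS b ξ).En (sS _) (sS _) := by
    have := congrArg ((imS b ξ).En (sS _)) d1
    simpa only [map_add, map_smul, En_one c, En_lin c b ξ u hs, smul_eq_mul, mul_zero,
      add_zero] using this
  have e2 : (imS b ξ).N (sS _) φ = sech2 ξ * exS b 0 (sS _ * φ) := by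
    have := congrArg ((imS b ξ).N (sS _)) d1
    simp only [hlin, map_add, map_smul, N_one c, N_zl c, hs, i3, c.Ns, smul_eq_mul, mul_zero,
      add_zero, zero_add, Finset.sum_const_zero] at this
    rw [this, d2]; ring
  have e3 : (imS b ξ).En ψ ψ - a * (imS b ξ).N ψ ψ + κ * (imS b ξ).En (sS _) ψ = 0 := by
    have h1 := hφ.2.2 _ hP
    have h2 := congrArg ((imS b ξ).N ψ) d1
    have h3 := congrArg ((imS b ξ).En ψ) d1
    simp only [hlin, map_add, map_smul, N_one c, N_zl c, i2, ok.sN ψ (sS _), i3, smul_eq_mul,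
      mul_zero, add_zero, Finset.sum_const_zero] at h2
    simp only [map_add, map_smul, En_one c, En_lin c b ξ u i2, smul_eq_mul, mul_zero,
      add_zero, ok.sE ψ (sS _)] at h3
    rw [ok.sN φ, ok.sE φ, h2, h3, i3] at h1
    linarith
  have hκ : κ ≠ 0 := fun h => by
    have h1 := hC.2 ξ D ψ hP
    have h2 := ok.pN ψ
    rw [h, zero_mul, add_zero] at e3 e1
    have h3 : (imS b ξ).N ψ ψ = 0 := by nlinarith
    rw [c.N, i1, mul_zero, sub_zero] at h3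
    rw [c.defn b ξ ψ h3, map_zero] at e1
    linarith
  have key : ∀ Ξ, Ξ = κ⁻¹ • ψ → Mf b ξ 1 Ξ ≤ 2 * (1 + a) / (l - a) + 4 ∧
      l * sech2 ξ ≤ (imS b ξ).En (sS _) (sS _ + Ξ) ∧ (imS b ξ).En (sS _) Ξ ≤ 0 ∧
      κ * (imS b ξ).En (sS _) (sS _ + Ξ) = γ ∧
      γ = sech2 ξ * (1 + a * exS b 0 (sS _ * φ)) := fun Ξ hΞ => by
    have hψ : ψ = κ • Ξ := by rw [hΞ, smul_smul, mul_inv_cancel₀ hκ, one_smul]
    have hΞP : Ξ ∈ PolS b.m D := hΞ ▸ Submodule.smul_mem _ _ hP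
    have n0 : (imS b ξ).N (sS _) Ξ = 0 := by rw [hΞ, map_smul, i3, smul_zero]
    rw [hψ] at e1 e3
    simp only [map_smul, LinearMap.smul_apply, smul_eq_mul] at e1 e3
    have f1 : (imS b ξ).En Ξ Ξ - a * (imS b ξ).N Ξ Ξ + (imS b ξ).En (sS _) Ξ = 0 := by
      refine mul_left_cancel₀ (mul_ne_zero hκ hκ) ?_
      linear_combination e3
    have f2 := hC.2 ξ D Ξ hΞP
    have f3 := hC.2 ξ D _ (add_mem (s_mem p _ _) hΞP)
    have f4 := ok.pN Ξ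
    have f5 := c.Es b ξ
    have f6 := mul_nonneg h0.le f4
    simp only [map_add, LinearMap.add_apply, c.Ns, n0, ok.sN Ξ (sS _), ok.sE Ξ (sS _)] at f3 ⊢
    have f7 : 0 ≤ l * sech2 ξ := mul_nonneg (ha.trans hl.le) hp.le
    have f8 : (imS b ξ).N Ξ Ξ ≤ 1 / (l - a) := by rw [le_div_iff₀ h0]; nlinarith
    refine ⟨?_, by nlinarith, by nlinarith, by linarith, by rw [g1, e2]; ring⟩
    have f9 := mul_le_mul_of_nonneg_left f8 (add_nonneg zero_le_one ha)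
    have f10 : 0 ≤ (1 + a) * (1 / (l - a)) := by positivity
    have f11 : 2 * (1 + a) / (l - a) = 2 * ((1 + a) * (1 / (l - a))) := by ring
    rw [Mf, f11]
    nlinarith
  refine ⟨?_, key⟩
  obtain ⟨-, k1, k2, k3, -⟩ := key _ rfl
  have k4 : 0 < l * sech2 ξ := mul_pos (ha.trans_lt hl) hp
  have k5 := c.Es b ξ
  rw [map_add] at k1 k3
  by_contra hlt
  nlinarith [mul_pos (sub_pos.2 (not_le.1 hlt)) (k4.trans_le k1)]

end ex

/-- the residual of the ansatz -/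
lemma res_eq (c : Cal) (e : Ext) {a ξ γ κ q : ℝ} {φ Ξ : SV e.b.m} {u : Fin e.b.m → ℝ}
    {r1 r2 : SV e.bt.m} (hu : e.b.A *ᵥ u + (-a) • u = e.b.g) (h0 : exS e.b ξ φ = 0)
    (d1 : φ = κ • Ξ + exS e.b 0 φ • 1 + κ • sS _ + γ • linS _ u)
    (d2 : κ = exS e.b 0 (sS _ * φ) - γ * (u ⬝ᵥ e.b.g))
    (hq : q = (imS e.b ξ).En (sS _) (sS _ + Ξ)) (h1 : κ * q = γ)
    (h2 : γ = sech2 ξ * (1 + a * exS e.b 0 (sS _ * φ)))
    (hr : (-a) • pull e.ι φ + gen e.bt ξ (pull e.ι φ) - stS _ ξ =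
      r1 + (γ • linS _ (e.w u) + r2)) : κ • e.R a ξ Ξ = r1 + r2 := by
  have hp := (sech2_pos ξ).ne'
  rw [c.aff] at h0
  set α := exS e.b 0 φ
  set β := exS e.b 0 (sS _ * φ)
  have a1 : e.bt.A *ᵥ (e.ι *ᵥ u) = e.w u + e.bt.g + a • e.ι *ᵥ u := by
    rw [Ext.w, e.hg, ← hu, mulVec_add, mulVec_smul]; module
  have a2 : gen e.bt ξ (linS _ (e.ι *ᵥ u)) = linS _ (e.w u) + zl e.bt e.bt.g +
      a • (linS _ (e.ι *ᵥ u) - (u ⬝ᵥ e.b.g) • sS _) := by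
    rw [gen_lin c, a1, map_add, map_add, map_smul, zl_eq _ (e.w u), w_g, zero_smul, sub_zero,
      zl_eq _ (e.ι *ᵥ u), iso_g]
  have a3 : pull e.ι φ = κ • pull e.ι Ξ + α • 1 + κ • sS _ + γ • linS _ (e.ι *ᵥ u) := by
    have := congrArg (pull e.ι) d1
    simpa only [map_add, map_smul, map_one, pull_s, pull_lin c] using this
  have a4 : κ * q * (1 / sech2 ξ) = 1 + a * β := by rw [h1, h2]; field_simp
  have a5 : α = -(tanh ξ * β) := by linarith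
  have a6 : β = κ + γ * (u ⬝ᵥ e.b.g) := by linarith
  rw [a3, stS, alg] at hr
  simp only [map_add, map_smul, gen_one c, a2] at hr
  have a7 : r1 + r2 = (r1 + (γ • linS _ (e.w u) + r2)) - γ • linS _ (e.w u) := by abel
  rw [a7, ← hr, R_eq, ← hq, map_add, map_add, pull_s, smul_sub, smul_sub, smul_smul κ q, smul_sub,
    smul_smul (κ * q), a4, h1, a5, a6]
  module

theorem exStmt (c : Cal) (p : PolApi) (fx : FixStmt) (ga : GalStmt) : ExStmt := by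
  intro l a ε ha hl hε
  have h0 : 0 < l - a := sub_pos.2 hl
  set K := 1 + 1 / (l - a) with hK
  set K2 := 1 / (l - a) + a / (l - a) ^ 2 with hK2
  have hKp : 0 < K := by positivity
  have hK2p : 0 < K2 := by positivity
  refine ⟨ε / (4 * K * K2), by positivity, fun e hC hE => ?_⟩
  obtain ⟨C, hC0, hfx⟩ := fx e l a ha hl hC
  refine ⟨⌈4 * K * C / ε⌉₊ + 1, by omega, fun D hD a' ha' u hu ξ φ hφ => ?_⟩
  have hD1 : 1 ≤ D := by omega
  have hl' : a' < l := ha'.2.trans_lt hl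
  have h0' : 0 < l - a' := sub_pos.2 hl'
  have hla : l - a ≤ l - a' := by linarith [ha'.2]
  obtain ⟨hd, r1, r2, hr, m1, m2, -⟩ := hfx D hD1 ξ (-a') (neg_le_neg ha'.2) φ hφ _
    (fun y hy => hE y (by linarith)) u hu
  obtain ⟨k0, key⟩ := core c p ha'.1 hl' hC hD1 hφ hd
  refine ⟨k0, fun Ξ hΞ => ?_⟩
  obtain ⟨k1, k2, k3, k4, k5⟩ := key Ξ hΞ
  obtain ⟨d1, d2⟩ := decomp hd
  have hκ : cf e.b ξ φ ≠ 0 := (one_pos.trans_le k0).ne'
  have hp := sech2_pos ξ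
  refine ⟨?_, k1, k2, k3, ?_⟩
  · have hψ : irr e.b ξ φ = cf e.b ξ φ • Ξ := by
      rw [hΞ, smul_smul, mul_inv_cancel₀ hκ, one_smul]
    rw [hψ] at d1
    have ok := c.ok e.bt ξ
    have s0 := res_eq c e hu hφ.2.1 d1 d2 rfl k4 k5 hr
    have s1 := mf_add ok one_pos.le r1 r2
    have s2 : ∀ r, Mf e.bt ξ 1 r ≤ K * Mf e.bt ξ (-a' + l) r := fun r => by
      have n1 := ok.pN r
      have n2 := ok.pE r
      have n3 : 1 ≤ 1 / (l - a) * (-a' + l) := by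
        rw [one_div_mul_eq_div, one_le_div h0]; linarith
      have n4 : 0 < 1 / (l - a) := by positivity
      have n5 : 0 ≤ (-a' + l) * (imS e.bt ξ).N r r := mul_nonneg (by linarith) n1
      rw [Mf, Mf, hK]
      nlinarith [mul_le_mul_of_nonneg_right n3 n1, mul_nonneg n4.le n2]
    have s3 : (imS e.b ξ).En φ φ ≤ K2 := (gal_bd c p ha'.1 hl' hC hφ).2.2.trans (by
      rw [hK2]; gcongr; exact ha'.2)
    have s4 : K * Mf e.bt ξ (-a' + l) r1 ≤ ε / 4 := by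
      have hD0 : (0 : ℝ) < D := by exact_mod_cast hD1
      have n1 : 4 * K * C / ε ≤ D := (Nat.le_ceil _).trans (by exact_mod_cast (by omega))
      rw [div_le_iff₀ hε] at n1
      refine (mul_le_mul_of_nonneg_left m1 hKp.le).trans ?_
      rw [← mul_div_assoc, div_le_iff₀ hD0]
      linarith
    have s5 : K * Mf e.bt ξ (-a' + l) r2 ≤ ε / 4 := by
      refine (mul_le_mul_of_nonneg_left (m2.trans (mul_le_mul_of_nonneg_right s3
        (by positivity))) hKp.le).trans (le_of_eq ?_)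
      field_simp
    have s6 : 0 ≤ Mf e.bt ξ 1 (e.R a' ξ Ξ) := add_nonneg (mul_nonneg one_pos.le (ok.pN _)) (ok.pE _)
    rw [← s0, mf_smul] at s1
    nlinarith [s2 r1, s2 r2, mul_le_mul_of_nonneg_right (one_le_pow₀ k0 (n := 2)) s6]
  · have g1 := ((ga e.b l hC D (-a') (by linarith)).2 ξ φ hφ).1
    rw [neg_neg] at g1
    have g2 : e.b.g ⬝ᵥ e.b.A *ᵥ u = e.b.g ⬝ᵥ e.b.g + a' * (u ⬝ᵥ e.b.g) := by
      have : e.b.A *ᵥ u = e.b.g + a' • u := by rw [← hu]; module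
      rw [this, dotProduct_add, dotProduct_smul, smul_eq_mul, dotProduct_comm e.b.g u]
    have hq : 0 < (imS e.b ξ).En (sS _) (sS _ + Ξ) := (mul_pos (ha.trans_lt hl) hp).trans_le k2
    have hγ : 0 < (imS e.b ξ).En (sS _) φ := k4 ▸ mul_pos (one_pos.trans_le k0) hq
    rw [g1, g2]
    have g3 : exS e.b 0 (sS _ * φ) = cf e.b ξ φ + (imS e.b ξ).En (sS _) φ * (u ⬝ᵥ e.b.g) := by
      linarith
    rw [g3] at k5
    set γ := (imS e.b ξ).En (sS _) φ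
    set q := (imS e.b ξ).En (sS _) (sS _ + Ξ)
    have g4 : a' / q = a' * cf e.b ξ φ / γ := by rw [← k4]; field_simp
    have g5 : 1 / sech2 ξ = (1 + a' * (cf e.b ξ φ + γ * (u ⬝ᵥ e.b.g))) / γ := by
      rw [div_eq_div_iff hp.ne' hγ.ne']; linarith
    rw [g4, g5]
    field_simp
    ring

end Ex49

theorem exGlue : ExGlue := fun c p fx ga => ⟨Ex49.irrApi c p, Ex49.exStmt c p fx ga⟩

end Crest.Agent.T157.Tw

end
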