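import Crest.Agent.T157.LcDef_30

/-!
# Row 157, block B/S4c (helper2): the polynomial local ansatz, `Tw.outGlue`
-/

set_option autoImplicit false

noncomputable section

namespace Crest.Agent.T157.Tw

open MeasureTheory Real Matrix Set Filter Topology
open Crest.Agent.R238.Gap Crest.Agent.R253.Meh74

namespace Out2

/-! ### non-negative bilinear forms -/

section form
variable {V : Type} [AddCommGroup V] [Module ℝ V] {B : V →ₗ[ℝ] V →ₗ[ℝ] ℝ}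

lemma b_add (hp : ∀ u, 0 ≤ B u u) (u v : V) : B (u + v) (u + v) ≤ 2 * B u u + 2 * B v v := by
  have := hp (u - v)
  simp only [map_add, map_sub, LinearMap.add_apply, LinearMap.sub_apply] at *
  linarith

lemma b_sub (hp : ∀ u, 0 ≤ B u u) (u v : V) : B (u - v) (u - v) ≤ 2 * B u u + 2 * B v v := by
  have := hp (u + v)
  simp only [map_add, map_sub, LinearMap.add_apply, LinearMap.sub_apply] at *
  linarith

lemma b_smul (t : ℝ) (u : V) : B (t • u) (t • u) = t ^ 2 * B u u := by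
  simp only [map_smul, LinearMap.smul_apply, smul_eq_mul]; ring

lemma b_conv (hp : ∀ u, 0 ≤ B u u) {t : ℝ} (h0 : 0 ≤ t) (h1 : t ≤ 1) (u v : V) :
    B (t • u + (1 - t) • v) (t • u + (1 - t) • v) ≤ t * B u u + (1 - t) * B v v := by
  have := mul_nonneg (mul_nonneg h0 (sub_nonneg.2 h1)) (hp (u - v))
  simp only [map_add, map_sub, map_smul, LinearMap.add_apply, LinearMap.sub_apply,
    LinearMap.smul_apply, smul_eq_mul] at *
  nlinarith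

lemma b_cs (hp : ∀ u, 0 ≤ B u u) (hs : ∀ u v, B u v = B v u) (u v : V) :
    B u v ^ 2 ≤ B u u * B v v := by
  have := LinearMap.BilinForm.apply_mul_apply_le_of_forall_zero_le B hp u v
  rwa [hs v u, ← sq] at this

end form

/-! ### elementary facts -/

lemma sech2_pos (ξ : ℝ) : 0 < sech2 ξ := by unfold sech2; have := cosh_pos ξ; positivity

lemma sech2_eq (ξ : ℝ) : sech2 ξ = 1 - tanh ξ ^ 2 := by
  have h := (cosh_pos ξ).ne'
  rw [sech2, tanh_eq_sinh_div_cosh]; field_simp; rw [cosh_sq]; ring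

lemma sech2_le (ξ : ℝ) : sech2 ξ ≤ 1 := by rw [sech2_eq]; nlinarith [sq_nonneg (tanh ξ)]

lemma sech2_neg (ξ : ℝ) : sech2 (-ξ) = sech2 ξ := by simp [sech2]

lemma sech2_cont : Continuous sech2 := by
  rw [show sech2 = fun ξ => 1 - tanh ξ ^ 2 from funext sech2_eq]
  exact continuous_const.sub (contDiff_tanh'.continuous.pow 2)

lemma abs_sech2 (ξ : ℝ) : |ξ| * sech2 ξ ≤ 1 := by
  have h1 : |ξ| ≤ cosh ξ := by
    rw [← cosh_abs]; exact (self_le_sinh_iff.2 (abs_nonneg ξ)).trans (sinh_lt_cosh _).le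
  have h2 := one_le_cosh ξ
  rw [sech2, mul_one_div, div_le_one (by positivity)]; nlinarith

lemma small (K : ℝ) {x : ℝ} (hx : 0 < x) : ∀ᶠ η in 𝓝[>] (0 : ℝ), η * K ≤ x := by
  have : Tendsto (fun η : ℝ => η * K) (𝓝 0) (𝓝 (0 * K)) :=
    (continuous_id.mul continuous_const).tendsto 0
  exact (this.eventually (eventually_le_nhds (by simpa using hx))).filter_mono nhdsWithin_le_nhds

/-- even cut-off, equal to one where `sech²` is not small -/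
lemma cut {C x : ℝ} (hx : 0 < x) : ∃ χ : ℝ → ℝ, Continuous χ ∧ HasCompactSupport χ ∧
    ∀ ξ, χ (-ξ) = χ ξ ∧ 0 ≤ χ ξ ∧ χ ξ ≤ 1 ∧ (1 - χ ξ) * (C * sech2 ξ) ≤ x := by
  refine ⟨fun ξ => max 0 (min 1 (C / x + 1 - |ξ|)), by fun_prop, ?_, fun ξ => ⟨by simp,
    le_max_left _ _, max_le zero_le_one (min_le_left _ _), ?_⟩⟩
  · refine HasCompactSupport.intro (isCompact_Icc (a := -(C / x + 1)) (b := C / x + 1))
      fun ξ hξ => max_eq_left ((min_le_right _ _).trans ?_)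
    rw [mem_Icc, ← abs_le, not_le] at hξ; linarith
  · beta_reduce
    rcases le_total |ξ| (C / x) with h | h
    · rw [min_eq_left (by linarith), max_eq_right zero_le_one]; simpa using hx.le
    · rw [div_le_iff₀ hx] at h
      have h1 : C * sech2 ξ ≤ x := by nlinarith [abs_sech2 ξ, sech2_pos ξ]
      have h2 : 0 ≤ max 0 (min 1 (C / x + 1 - |ξ|)) := le_max_left _ _
      have h3 : max 0 (min 1 (C / x + 1 - |ξ|)) ≤ 1 := max_le zero_le_one (min_le_left _ _)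
      nlinarith

/-! ### irreducible polynomials -/

def irrL (b : Bath) (ξ : ℝ) : SV b.m →ₗ[ℝ] SV b.m where
  toFun := irr b ξ
  map_add' F G := by
    simp only [irr, mul_add, map_add, add_smul, Finset.sum_add_distrib]; abel
  map_smul' r F := by
    simp only [irr, mul_smul_comm, map_smul, smul_eq_mul, RingHom.id_apply, mul_smul,
      ← Finset.smul_sum, Algebra.algebraMap_eq_smul_one]
    module

def IS (b : Bath) (D : ℕ) (ξ : ℝ) : Submodule ℝ (SV b.m) where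
  carrier := {F | F ∈ PolS b.m D ∧ Irr b ξ F}
  add_mem' hF hG := ⟨add_mem hF.1 hG.1, by simp [hF.2.1, hG.2.1],
    fun j => by simp [hF.2.2.1 j, hG.2.2.1 j], by simp [hF.2.2.2, hG.2.2.2]⟩
  zero_mem' := ⟨zero_mem _, by simp, fun j => by simp, by simp⟩
  smul_mem' r F hF := ⟨Submodule.smul_mem _ r hF.1, by simp [hF.2.1],
    fun j => by simp [hF.2.2.1 j], by simp [hF.2.2.2]⟩

lemma ex_cont (c : Cal) (b : Bath) (F : SV b.m) : Continuous fun ξ => exS b ξ F := by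
  rw [show (fun ξ => exS b ξ F) = _ from funext fun ξ => c.aff b ξ F]
  exact continuous_const.add (contDiff_tanh'.continuous.mul continuous_const)

lemma poly_mem (m : ℕ) (p : Polynomial ℝ) :
    (fun ξ => algebraMap ℝ (SV m) (p.eval (tanh ξ))) ∈ N0 m := by
  have ht : (fun ξ => algebraMap ℝ (SV m) (tanh ξ)) ∈ N0 m :=
    Algebra.subset_adjoin (Or.inl (Or.inl rfl))
  induction p using Polynomial.induction_on' with
  | add p q hp hq => convert add_mem hp hq using 1; funext ξ; simp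
  | monomial n a =>
    convert Subalgebra.smul_mem _ (pow_mem ht n) a using 1; funext ξ; simp [Algebra.smul_def]

lemma irr_mem (f : FamApi) (b : Bath) {D : ℕ} {P : SV b.m} (hP : P ∈ PolS b.m D) :
    (fun ξ => irr b ξ P) ∈ N0 b.m := by
  have hs : (fun _ => sS b.m) ∈ N0 b.m := Algebra.subset_adjoin (Or.inl (Or.inr rfl))
  have hx : ∀ j, (fun _ => xS j) ∈ N0 b.m := fun j => Algebra.subset_adjoin (Or.inr ⟨j, rfl⟩)
  convert sub_mem (sub_mem (f.cst hP) (add_mem (Subalgebra.algebraMap_mem _ (exS b 0 P))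
    (Subalgebra.smul_mem _ hs (exS b 0 (sS _ * P))))) (sum_mem (t := Finset.univ) fun j _ =>
      mul_mem (f.ex0 b _ (f.d0 j _ (f.cst hP)))
        (sub_mem (hx j) (Subalgebra.smul_mem _ hs (b.g j)))) using 1
  funext ξ
  simp [irr, zS, Algebra.smul_def]

/-- Weierstrass approximation of a compactly supported combination -/
lemma approx (f : FamApi) (w : WsStmt) (b : Bath) {n : ℕ} (Q : Fin n → ℝ → SV b.m)
    (hQ : ∀ i, Q i ∈ N0 b.m) (S : ℝ → Submodule ℝ (SV b.m)) (hS : ∀ i ξ, Q i ξ ∈ S ξ)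
    (d : Fin n → ℝ → ℝ) (hd : ∀ i, Continuous (d i) ∧ HasCompactSupport (d i)) {η : ℝ}
    (hη : 0 < η) : ∃ V ∈ N0 b.m, ∀ ξ, V ξ ∈ S ξ ∧
      (imS b ξ).N (V ξ - ∑ i, d i ξ • Q i ξ) (V ξ - ∑ i, d i ξ • Q i ξ) ≤ η * sech2 ξ ^ 2 := by
  choose M hM using fun i j => (f.N b _ (f.le b (hQ i)) _ (f.le b (hQ j))).2.2
  obtain ⟨t, ⟨h1, h2⟩, h0⟩ := (((small (∑ i, ∑ j, M i j) hη).and (small 1 one_pos)).and
    self_mem_nhdsWithin).exists
  have h0 : 0 < t := h0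
  choose p hp using fun i => w (fun ξ => d i ξ * (sech2 ξ)⁻¹)
    ((hd i).1.mul (sech2_cont.inv₀ fun ξ => (sech2_pos ξ).ne')) (hd i).2.mul_right t h0
  refine ⟨fun ξ => ∑ i, (sech2 ξ * (p i).eval (tanh ξ)) • Q i ξ, ?_,
    fun ξ => ⟨sum_mem fun i _ => Submodule.smul_mem _ _ (hS i ξ), ?_⟩⟩
  · convert sum_mem (t := Finset.univ) fun i _ =>
      mul_mem (poly_mem b.m ((1 - Polynomial.X ^ 2) * p i)) (hQ i) using 1
    funext ξ
    simp [sech2_eq, Algebra.smul_def]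
  · have hp0 := sech2_pos ξ
    have he : ∀ i, |sech2 ξ * (p i).eval (tanh ξ) - d i ξ| ≤ t * sech2 ξ := fun i => by
      have : sech2 ξ * (p i).eval (tanh ξ) - d i ξ =
          -(d i ξ * (sech2 ξ)⁻¹ - (p i).eval (tanh ξ)) * sech2 ξ := by field_simp; ring
      rw [this, abs_mul, abs_neg, abs_of_pos hp0]
      exact mul_le_mul_of_nonneg_right (hp i ξ) hp0.le
    have hM0 : ∀ i j, 0 ≤ M i j := fun i j => (abs_nonneg _).trans (hM i j 0)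
    rw [← Finset.sum_sub_distrib]
    simp only [← sub_smul, map_sum, map_smul, LinearMap.sum_apply, LinearMap.smul_apply,
      smul_eq_mul]
    calc _ ≤ ∑ i, t * sech2 ξ * ∑ j, t * sech2 ξ * M j i := by
          refine Finset.sum_le_sum fun i _ => (le_abs_self _).trans ?_
          rw [abs_mul]
          refine mul_le_mul (he i) ((Finset.abs_sum_le_sum_abs _ _).trans
            (Finset.sum_le_sum fun j _ => ?_)) (abs_nonneg _) (by positivity)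
          rw [abs_mul]
          exact mul_le_mul (he j) (hM j i ξ) (abs_nonneg _) (by positivity)
      _ = t * (t * ∑ i, ∑ j, M i j) * sech2 ξ ^ 2 := by
          rw [Finset.sum_comm]; simp only [← Finset.mul_sum]; ring
      _ ≤ η * sech2 ξ ^ 2 := by
          refine mul_le_mul_of_nonneg_right ?_ (sq_nonneg _)
          have : 0 ≤ t * ∑ i, ∑ j, M i j :=
            mul_nonneg h0.le (Finset.sum_nonneg fun i _ => Finset.sum_nonneg fun j _ => hM0 i j)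
          nlinarith

/-! ### the reflection `(ξ, s, X) ↦ (-ξ, -s, -X)` -/

structure Rf (b : Bath) (ρ : SV b.m →ₐ[ℝ] SV b.m) : Prop where
  pt : ∀ F s X, (ρ F).1 s X = F.1 (!s) (-X)
  pol : ∀ D, ∀ F ∈ PolS b.m D, ρ F ∈ PolS b.m D
  n0 : ∀ F ∈ N0 b.m, (fun ξ => ρ (F (-ξ))) ∈ N0 b.m
  ex : ∀ ξ F, exS b ξ (ρ F) = exS b (-ξ) F
  N : ∀ ξ F G, (imS b ξ).N (ρ F) (ρ G) = (imS b (-ξ)).N F G
  En : ∀ ξ F G, (imS b ξ).En (ρ F) (ρ G) = (imS b (-ξ)).En F G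

lemma ex_rf (f : FamApi) (b : Bath) : ∃ ρ, Rf b ρ := by
  obtain ⟨ρ, h1, h2, h3, h4⟩ := f.refl b.m
  refine ⟨ρ, h1, h2, h3, fun ξ F => ?_, fun ξ F G => ?_, fun ξ F G => ?_⟩
  · simpa using (h4 b.A b.g b.psd (-ξ) F F).1
  · simpa using (h4 b.A b.g b.psd (-ξ) F G).2.1
  · simpa using (h4 b.A b.g b.psd (-ξ) F G).2.2

section rf
variable {b : Bath} {ρ : SV b.m →ₐ[ℝ] SV b.m} (h : Rf b ρ)
include h

lemma Rf.inv (F : SV b.m) : ρ (ρ F) = F := Subtype.ext <| funext fun s => funext fun X => by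
  simp [h.pt]

lemma Rf.s : ρ (sS _) = -sS _ := Subtype.ext <| funext fun s => funext fun X => by
  rw [h.pt]; cases s <;> simp [sS, sg]

lemma Rf.z (j : Fin b.m) : ρ (zS b j) = -zS b j := by
  have : ρ (xS j) = -xS j := Subtype.ext <| funext fun s => funext fun X => by
    rw [h.pt]; simp [xS]
  rw [zS, map_sub, map_smul, this, h.s]; module

lemma Rf.d (c : Cal) (ξ : ℝ) (j : Fin b.m) (F : SV b.m) :
    exS b ξ (dd j (ρ F)) = -exS b (-ξ) (dd j F) := by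
  rw [← c.stein, ← c.stein, ← h.ex, map_mul ρ, h.z, ← map_neg]; congr 1; ring

lemma Rf.sx (F : SV b.m) : exS b 0 (sS _ * ρ F) = -exS b 0 (sS _ * F) := by
  have := h.ex 0 (sS _ * F)
  rw [neg_zero, map_mul ρ, h.s] at this
  rw [← this, ← map_neg]; congr 1; ring

lemma Rf.irr (c : Cal) (ξ : ℝ) (F : SV b.m) : irr b ξ (ρ F) = ρ (irr b (-ξ) F) := by
  simp only [Tw.irr, map_sub, map_add, map_smul, map_sum, h.d c, h.sx, h.ex, neg_zero, h.s, h.z,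
    AlgHom.commutes, smul_neg, neg_smul]

lemma Rf.cf (c : Cal) (ξ : ℝ) (F : SV b.m) : cf b ξ (-ρ F) = cf b (-ξ) F := by
  have : sS _ * -ρ F = -(sS _ * ρ F) := by ring
  simp only [Tw.cf, this, map_neg, h.d c, h.sx, neg_neg]

lemma Rf.Ns (ξ : ℝ) (F : SV b.m) : (imS b ξ).N (sS _) (ρ F) = -(imS b (-ξ)).N (sS _) F := by
  rw [← h.N, h.s]; simp

lemma Rf.is (c : Cal) {D : ℕ} {ξ : ℝ} {F : SV b.m} (hF : F ∈ IS b D (-ξ)) : ρ F ∈ IS b D ξ :=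
  ⟨h.pol _ _ hF.1, by rw [h.ex, hF.2.1], fun j => by rw [h.d c, hF.2.2.1, neg_zero],
    by rw [h.Ns, hF.2.2.2, neg_zero]⟩

lemma Rf.gal {D : ℕ} {ξ y : ℝ} {φ : SV b.m} (hφ : Gal b (-ξ) y D φ) : Gal b ξ y D (-ρ φ) := by
  refine ⟨neg_mem (h.pol _ _ hφ.1), by rw [map_neg, h.ex, hφ.2.1, neg_zero], fun P hP => ?_⟩
  have := hφ.2.2 _ (h.pol _ _ hP)
  rw [← h.inv P, h.Ns]
  simp only [map_neg, LinearMap.neg_apply, h.N, h.En]
  linarith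

/-- the odd part is as close to an odd family -/
lemma Rf.odd (c : Cal) {D : ℕ} {V T : ℝ → SV b.m} {η : ℝ} (hV : V ∈ N0 b.m)
    (hT : ∀ ξ, T ξ = -ρ (T (-ξ)))
    (H : ∀ ξ, V ξ ∈ IS b D ξ ∧ (imS b ξ).N (V ξ - T ξ) (V ξ - T ξ) ≤ η * sech2 ξ ^ 2) :
    ∃ Ξ ∈ N0 b.m, OddF Ξ ∧
      ∀ ξ, Ξ ξ ∈ IS b D ξ ∧ (imS b ξ).N (Ξ ξ - T ξ) (Ξ ξ - T ξ) ≤ η * sech2 ξ ^ 2 := by
  refine ⟨fun ξ => (1 / 2 : ℝ) • (V ξ - ρ (V (-ξ))),
    Subalgebra.smul_mem _ (sub_mem hV (h.n0 V hV)) _, fun ξ s X => ?_,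
    fun ξ => ⟨Submodule.smul_mem _ _ (sub_mem (H ξ).1 (h.is c (H _).1)), ?_⟩⟩
  · simp [h.pt]; ring
  · have e : (1 / 2 : ℝ) • (V ξ - ρ (V (-ξ))) - T ξ =
        (1 / 2 : ℝ) • ((V ξ - T ξ) - ρ (V (-ξ) - T (-ξ))) := by
      have := hT ξ
      rw [map_sub, ← neg_eq_iff_eq_neg.2 this]; module
    have h1 := b_sub (c.ok b ξ).pN (V ξ - T ξ) (ρ (V (-ξ) - T (-ξ)))
    have h2 := (H (-ξ)).2
    rw [h.N] at h1
    rw [sech2_neg] at h2
    rw [e, b_smul]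
    linarith [(H ξ).2]

end rf

lemma gal_uniq (c : Cal) {b : Bath} {l ξ y : ℝ} {D : ℕ} (hC : Coer b l) (hy : -l < y)
    {φ ψ : SV b.m} (hφ : Gal b ξ y D φ) (hψ : Gal b ξ y D ψ) : φ = ψ := by
  have hP := sub_mem hφ.1 hψ.1
  have h1 := hφ.2.2 _ hP
  have h2 := hψ.2.2 _ hP
  have h3 := hC.2 ξ D _ hP
  have h4 := (c.ok b ξ).pN (φ - ψ)
  have h5 : y * (imS b ξ).N (φ - ψ) (φ - ψ) + (imS b ξ).En (φ - ψ) (φ - ψ) = 0 := by
    rw [LinearMap.map_sub₂, LinearMap.map_sub₂]; linarith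
  have h6 : (imS b ξ).N (φ - ψ) (φ - ψ) = 0 := by nlinarith
  rw [c.N, map_sub _ φ, hφ.2.1, hψ.2.1] at h6
  exact sub_eq_zero.1 (c.defn b ξ _ (by linarith))

/-! ### the estimate at a fixed static field -/

/-- `Mf 1` as a bilinear form -/
def MB (b : Bath) (ξ : ℝ) : SV b.m →ₗ[ℝ] SV b.m →ₗ[ℝ] ℝ := (imS b ξ).N + (imS b ξ).En

lemma Mf_eq (b : Bath) (ξ : ℝ) (F : SV b.m) : Mf b ξ 1 F = MB b ξ F F := by simp [Mf, MB]

lemma MB_nn (c : Cal) (b : Bath) (ξ : ℝ) (F : SV b.m) : 0 ≤ MB b ξ F F :=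
  add_nonneg ((c.ok b ξ).pN F) ((c.ok b ξ).pE F)

lemma res_le (c : Cal) (e : Ext) {D : ℕ} {l a ε C C0 η χ ξ : ℝ} {X δ : SV e.b.m} (hl : 0 < l)
    (hC : 0 ≤ C) (hη : 0 ≤ η) (h0 : 0 ≤ χ) (h1 : χ ≤ 1)
    (hB : ∀ F ∈ PolS e.b.m D, (imS e.b ξ).En F F ≤ C * (imS e.b ξ).N F F ∧
      Mf e.bt ξ 1 (gen e.bt ξ (pull e.ι F)) ≤ C * (imS e.b ξ).N F F)
    (hs : sS _ ∈ PolS e.b.m D) (hδ : δ ∈ PolS e.b.m D) (hN : (imS e.b ξ).N δ δ ≤ η)
    (hq : l * sech2 ξ ≤ (imS e.b ξ).En (sS _) (sS _))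
    (hR0 : Mf e.bt ξ 1 (e.R a ξ 0) ≤ C0 * sech2 ξ) (hχ : (1 - χ) * (C0 * sech2 ξ) ≤ ε / 8)
    (hX : Mf e.bt ξ 1 (e.R a ξ X) ≤ ε / 8)
    (hK : η * (2 * C + 4 * a ^ 2 * (1 + C) + 8 * C * (C + C0) / l) ≤ ε / 4) :
    Mf e.bt ξ 1 (e.R a ξ (χ • X + δ)) ≤ ε := by
  have hp := sech2_pos ξ
  have nn := MB_nn c e.bt ξ
  obtain ⟨W, hW⟩ : ∃ W, W = (1 / sech2 ξ) • stS _ ξ - ∑ j, e.bt.g j • zS e.bt j := ⟨_, rfl⟩
  have e1 : e.R a ξ (χ • X + δ) = (χ • e.R a ξ X + (1 - χ) • e.R a ξ 0) +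
      (gen e.bt ξ (pull e.ι δ) - (a • pull e.ι δ + (imS e.b ξ).En (sS _) δ • W)) := by
    simp only [Ext.R, ← hW, map_add, map_smul, map_zero, smul_eq_mul]; module
  have e2 : (imS e.b ξ).En (sS _) (sS _) • W = gen e.bt ξ (pull e.ι (sS _)) - e.R a ξ 0 := by
    simp only [Ext.R, ← hW, add_zero, map_zero]; module
  have b1 := b_conv nn h0 h1 (e.R a ξ X) (e.R a ξ 0)
  have b2 := b_sub nn (gen e.bt ξ (pull e.ι (sS _))) (e.R a ξ 0)
  have b3 := (hB _ hs).2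
  have b4 := (hB _ hδ).2
  have b5 := (hB _ hδ).1.trans (mul_le_mul_of_nonneg_left hN hC)
  have b6 : MB e.bt ξ (pull e.ι δ) (pull e.ι δ) ≤ (1 + C) * η := by
    simp only [MB, LinearMap.add_apply, c.p_N, c.p_En]; linarith
  have b7 := b_cs (c.ok e.b ξ).pE (c.ok e.b ξ).sE (sS _) δ
  have b8 := b_add nn (a • pull e.ι δ) ((imS e.b ξ).En (sS _) δ • W)
  have b9 := b_sub nn (gen e.bt ξ (pull e.ι δ)) (a • pull e.ι δ + (imS e.b ξ).En (sS _) δ • W)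
  rw [← e2, b_smul] at b2
  rw [b_smul, b_smul] at b8
  rw [c.Ns] at b3
  rw [Mf_eq] at *
  rw [e1]
  refine (b_add nn _ _).trans ?_
  have nW := nn W
  have nR := nn (e.R a ξ X)
  have nE := (c.ok e.b ξ).pE δ
  generalize MB e.bt ξ W W = w at *
  generalize (imS e.b ξ).En (sS _) (sS _) = q at *
  have hq0 : 0 < q := (mul_pos hl hp).trans_le hq
  have c1 : q * w ≤ 2 * (C + C0) / l := by
    rw [le_div_iff₀ hl]
    refine le_of_mul_le_mul_right ?_ hp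
    have := mul_le_mul_of_nonneg_left hq (mul_nonneg hq0.le nW)
    nlinarith
  have c2 : (imS e.b ξ).En (sS _) δ ^ 2 * w ≤ C * η * (2 * (C + C0) / l) :=
    calc _ ≤ q * (imS e.b ξ).En δ δ * w := mul_le_mul_of_nonneg_right b7 nW
      _ = (imS e.b ξ).En δ δ * (q * w) := by ring
      _ ≤ _ := mul_le_mul b5 c1 (mul_nonneg hq0.le nW) (mul_nonneg hC hη)
  have c3 := mul_le_mul_of_nonneg_left b6 (sq_nonneg a)
  have c4 := mul_le_mul_of_nonneg_left hN hC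
  have c5 := mul_le_mul_of_nonneg_left hR0 (sub_nonneg.2 h1)
  have c6 := mul_le_mul_of_nonneg_right h1 nR
  have c7 : η * (2 * C + 4 * a ^ 2 * (1 + C) + 8 * C * (C + C0) / l) =
      2 * (C * η) + 4 * (a ^ 2 * ((1 + C) * η)) + 4 * (C * η * (2 * (C + C0) / l)) := by ring
  linarith

lemma last_le {l a a' G ε κ p γ q q' : ℝ} (hl : 0 < l) (hp : 0 < p) (h0 : 0 ≤ a') (ha : a' ≤ a)
    (hG : 0 ≤ G) (hε : 0 < ε) (hκ : 0 ≤ κ) (hκ1 : κ * 2 ≤ l) (hκ2 : κ * (2 * a * (1 + a * G)) ≤ ε * l ^ 2)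
    (h1 : p ≤ γ) (h2 : γ ≤ p * (1 + a' * G)) (hq : l * p ≤ q) (hq' : q - κ * p ≤ q') :
    a' / q' - a' / q ≤ ε / γ := by
  have hγ : 0 < γ := hp.trans_le h1
  have h3 : l * p / 2 ≤ q - κ * p := by nlinarith
  have h4 : 0 < q - κ * p := lt_of_lt_of_le (by positivity) h3
  have h5 : 0 < q := lt_of_lt_of_le (by positivity) hq
  have h6 : a' / q' ≤ a' / (q - κ * p) := div_le_div_of_nonneg_left h0 h4 hq'
  have h7 : a' / (q - κ * p) - a' / q = a' * (κ * p) / ((q - κ * p) * q) := by field_simp; ring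
  have h8 : a' * (κ * p) / ((q - κ * p) * q) ≤ a * (κ * p) / (l * p / 2 * (l * p)) := by
    have : 0 ≤ a := h0.trans ha
    gcongr
  have h9 : ε / (p * (1 + a * G)) ≤ ε / γ :=
    div_le_div_of_nonneg_left hε.le hγ (h2.trans (by gcongr))
  have h10 : a * (κ * p) / (l * p / 2 * (l * p)) ≤ ε / (p * (1 + a * G)) := by
    have : 0 ≤ a := h0.trans ha
    rw [div_le_div_iff₀ (by positivity) (by positivity)]
    have := mul_le_mul_of_nonneg_right hκ2 (by positivity : 0 ≤ p ^ 2 / 2)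
    nlinarith
  linarith

lemma point (c : Cal) (e : Ext) {D : ℕ} {l a a' G ε C C0 η κ χ ξ γ B : ℝ} {X Y : SV e.b.m}
    (hl : 0 < l) (h0 : 0 ≤ a') (ha : a' ≤ a) (hal : a < l) (hG : 0 ≤ G) (hε : 0 < ε)
    (hC0 : 0 ≤ C) (e0 : 0 ≤ η) (k0 : 0 ≤ κ) (c0 : 0 ≤ χ) (c1 : χ ≤ 1)
    (hB : ∀ F ∈ PolS e.b.m D, (imS e.b ξ).En F F ≤ C * (imS e.b ξ).N F F ∧
      Mf e.bt ξ 1 (gen e.bt ξ (pull e.ι F)) ≤ C * (imS e.b ξ).N F F)
    (hs : sS _ ∈ PolS e.b.m D) (hX : X ∈ PolS e.b.m D) (hY : Y ∈ PolS e.b.m D)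
    (hN : (imS e.b ξ).N (Y - χ • X) (Y - χ • X) ≤ η * sech2 ξ ^ 2)
    (hq : l * sech2 ξ ≤ (imS e.b ξ).En (sS _) (sS _))
    (hR0 : Mf e.bt ξ 1 (e.R a' ξ 0) ≤ C0 * sech2 ξ) (c2 : (1 - χ) * (C0 * sech2 ξ) ≤ ε / 8)
    (k1 : κ * 2 ≤ l) (k2 : κ * (2 * a * (1 + a * G)) ≤ ε * l ^ 2) (e1 : η * C ≤ κ ^ 2)
    (e2 : η * ((1 + C) * l) ≤ 2)
    (e3 : η * (2 * C + 4 * a' ^ 2 * (1 + C) + 8 * C * (C + C0) / l) ≤ ε / 4)
    (g1 : sech2 ξ ≤ γ) (g2 : γ ≤ sech2 ξ * (1 + a' * G))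
    (x1 : Mf e.bt ξ 1 (e.R a' ξ X) ≤ ε / 8) (x2 : Mf e.b ξ 1 X ≤ 2 * (1 + a') / (l - a') + 4)
    (x3 : l * sech2 ξ ≤ (imS e.b ξ).En (sS _) (sS _ + X)) (x4 : (imS e.b ξ).En (sS _) X ≤ 0)
    (x5 : 1 / γ + B = 1 / sech2 ξ + e.b.g ⬝ᵥ e.b.g - a' / (imS e.b ξ).En (sS _) (sS _ + X)) :
    Mf e.bt ξ 1 (e.R a' ξ Y) ≤ ε ∧ Mf e.b ξ 1 Y ≤ 8 * (1 + a') / (l - a') + 8 ∧
      l * sech2 ξ / 2 ≤ (imS e.b ξ).En (sS _) (sS _ + Y) ∧
      (imS e.b ξ).En (sS _) (sS _ + Y) ≤ 2 * sech2 ξ ∧ (1 - ε) / γ + B ≤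
        1 / sech2 ξ + e.b.g ⬝ᵥ e.b.g - a' / (imS e.b ξ).En (sS _) (sS _ + Y) := by
  obtain ⟨δ, rfl⟩ : ∃ δ, Y = χ • X + δ := ⟨Y - χ • X, by abel⟩
  have hδ : δ ∈ PolS e.b.m D := by simpa using sub_mem hY (Submodule.smul_mem _ χ hX)
  rw [add_sub_cancel_left] at hN
  have hp := sech2_pos ξ
  have hp1 := sech2_le ξ
  have hN1 : (imS e.b ξ).N δ δ ≤ η :=
    hN.trans (mul_le_of_le_one_right e0 (pow_le_one₀ hp.le hp1))
  have hq1 := c.Es e.b ξ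
  have hE1 := (hB _ hδ).1
  have hk : |(imS e.b ξ).En (sS _) δ| ≤ κ * sech2 ξ := by
    refine abs_le_of_sq_le_sq ?_ (by positivity)
    calc _ ≤ _ := b_cs (c.ok e.b ξ).pE (c.ok e.b ξ).sE (sS _) δ
      _ ≤ 1 * (C * (η * sech2 ξ ^ 2)) := mul_le_mul (hq1.trans hp1)
        (hE1.trans (mul_le_mul_of_nonneg_left hN hC0)) ((c.ok e.b ξ).pE δ) zero_le_one
      _ = η * C * sech2 ξ ^ 2 := by ring
      _ ≤ κ ^ 2 * sech2 ξ ^ 2 := mul_le_mul_of_nonneg_right e1 (sq_nonneg _)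
      _ = _ := by ring
  rw [abs_le] at hk
  have hqe : (imS e.b ξ).En (sS _) (sS _ + (χ • X + δ)) = (imS e.b ξ).En (sS _) (sS _) +
      χ * (imS e.b ξ).En (sS _) X + (imS e.b ξ).En (sS _) δ := by
    simp only [map_add, map_smul, smul_eq_mul]; ring
  have q1 := mul_nonneg c0 (neg_nonneg.2 x4)
  have q2 := mul_nonneg (sub_nonneg.2 c1) (neg_nonneg.2 x4)
  have q3 := mul_le_mul_of_nonneg_right k1 hp.le
  have hq2 : (imS e.b ξ).En (sS _) (sS _ + X) - κ * sech2 ξ ≤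
      (imS e.b ξ).En (sS _) (sS _ + (χ • X + δ)) := by
    rw [hqe, map_add]; linarith [hk.1]
  refine ⟨res_le c e hl hC0 e0 c0 c1 hB hs hδ hN1 hq hR0 c2 x1 e3, ?_, by linarith,
    by rw [hqe]; linarith [hk.2], ?_⟩
  · have nn := MB_nn c e.b ξ
    have b1 := b_add nn (χ • X) δ
    have b2 : MB e.b ξ δ δ ≤ (1 + C) * η := by
      simp only [MB, LinearMap.add_apply]; linarith [mul_le_mul_of_nonneg_left hN1 hC0]
    have b3 : (1 + C) * η ≤ 2 * (1 + a') / (l - a') := by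
      rw [le_div_iff₀ (by linarith)]
      linarith [mul_nonneg (mul_nonneg (by linarith : 0 ≤ 1 + C) e0) h0]
    have b4 : 8 * (1 + a') / (l - a') = 4 * (2 * (1 + a') / (l - a')) := by ring
    rw [b_smul] at b1
    rw [Mf_eq] at x2 ⊢
    linarith [mul_le_mul_of_nonneg_right (pow_le_one₀ c0 c1 : χ ^ 2 ≤ 1) (nn X),
      mul_nonneg (by linarith : 0 ≤ 1 + C) e0]
  · have := last_le hl hp h0 ha hG hε k0 k1 k2 g1 g2 x3 hq2
    rw [sub_div]; linarith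

end Out2

open Out2 in
theorem outGlue : OutGlue := by
  intro c pa f w bd ga gm ir ex l a G ε ha hal hG hε
  have hl : 0 < l := ha.trans_lt hal
  obtain ⟨η0, hη0, H⟩ := ex l a (ε / 8) ha hal (by positivity)
  refine ⟨η0, hη0, fun e hC hR hE => ?_⟩
  obtain ⟨D0, hD0, H⟩ := H e hC hE
  refine ⟨D0, fun D hD a' ha' u hu => ?_⟩
  have hal' : a' < l := ha'.2.trans_lt hal
  have hy : -l < -a' := by linarith
  obtain ⟨n, P, cc, hP, hφ⟩ := (ga e.b l hC D (-a') hy).1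
  replace H := fun ξ => H D hD a' ha' u hu ξ _ (hφ ξ)
  have hγ := (gm e.b l a' G ha'.1 hal' hC
    (fun ξ D F hF y h1 h2 => hR ξ D F hF y (by linarith [ha'.2]) h2) D).2
  obtain ⟨C, hC0, hB⟩ := bd e D
  obtain ⟨C0, hR0⟩ := ir.R0 e
  obtain ⟨χ, hχc, hχs, hχ⟩ := cut (C := C0) (by positivity : 0 < ε / 8)
  obtain ⟨κ, ⟨k1, k2⟩, k0⟩ := (((small 2 hl).and (small (2 * a * (1 + a * G))
    (by positivity : 0 < ε * l ^ 2))).and self_mem_nhdsWithin).exists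
  have k0 : 0 < κ := k0
  obtain ⟨η, ⟨⟨e1, e2⟩, e3⟩, e0⟩ := ((((small C (by positivity : 0 < κ ^ 2)).and
    (small ((1 + C) * l) two_pos)).and (small (2 * C + 4 * a' ^ 2 * (1 + C) + 8 * C * (C + C0) / l)
    (by positivity : 0 < ε / 4))).and self_mem_nhdsWithin).exists
  have e0 : 0 < η := e0
  obtain ⟨ρ, hρ⟩ := ex_rf f e.b
  obtain ⟨φ, hφd⟩ : ∃ φ : ℝ → SV e.b.m, ∀ ξ, φ ξ = ∑ i, cc i ξ • P i := ⟨_, fun _ => rfl⟩
  have hcf : Continuous fun ξ => cf e.b ξ (φ ξ) := by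
    have h1 := fun i => (hP i).2
    have h2 := ex_cont c e.b
    simp only [hφd, cf, Finset.mul_sum, mul_smul_comm, map_sum, map_smul, smul_eq_mul]
    fun_prop
  have hT : ∀ ξ, ∑ i, (χ ξ * ((cf e.b ξ (φ ξ))⁻¹ * cc i ξ)) • irr e.b ξ (P i) =
      χ ξ • ((cf e.b ξ (φ ξ))⁻¹ • irr e.b ξ (φ ξ)) := fun ξ => by
    have : irr e.b ξ (φ ξ) = ∑ i, cc i ξ • irr e.b ξ (P i) := by
      rw [hφd]; exact (map_sum (irrL e.b ξ) _ _).trans (by simp only [map_smul]; rfl)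
    simp only [this, Finset.smul_sum, mul_smul]
  simp only [← hφd] at H hφ
  have hI : ∀ ξ, ∀ F ∈ PolS e.b.m D, irr e.b ξ F ∈ IS e.b D ξ := fun ξ F hF =>
    ⟨ir.pol _ _ _ (hD0.trans hD) _ hF, ir.irr _ _ _⟩
  obtain ⟨V, hV, hVa⟩ := approx f w e.b (fun i ξ => irr e.b ξ (P i))
    (fun i => irr_mem f _ (hP i).1) (IS e.b D) (fun i ξ => hI ξ _ (hP i).1)
    (fun i ξ => χ ξ * ((cf e.b ξ (φ ξ))⁻¹ * cc i ξ))
    (fun i => ⟨hχc.mul ((hcf.inv₀ fun ξ => (one_pos.trans_le (H ξ).1).ne').mul (hP i).2),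
      hχs.mul_right⟩) e0
  simp only [hT] at hVa
  obtain ⟨Ξ, h1, h2, h3⟩ := hρ.odd c hV (fun ξ => by
    have h := gal_uniq c hC hy (hφ ξ) (hρ.gal (hφ (-ξ)))
    have h' : irr e.b ξ (φ ξ) = -ρ (irr e.b (-ξ) (φ (-ξ))) := by
      rw [h, ← hρ.irr c]; exact map_neg (irrL e.b ξ) _
    rw [h', (hχ ξ).1, ← hρ.cf c, ← h, map_smul, map_smul]; module) hVa
  have hs : sS _ ∈ PolS e.b.m D := by simpa using pa.s (pa.one _ D)
  refine ⟨Ξ, ⟨h1, h2, fun ξ => (h3 ξ).1.2.1, fun ξ => (h3 ξ).1.1⟩, fun ξ =>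
    ⟨(h3 ξ).1.2, ir.R _ _ _ _ (h3 ξ).1.2, ?_⟩⟩
  obtain ⟨x1, x2, x3, x4, x5⟩ := (H ξ).2 _ rfl
  obtain ⟨-, c0, c1, c2⟩ := hχ ξ
  exact point c e hl ha'.1 ha'.2 hal hG hε hC0 e0.le k0.le c0 c1 (hB ξ) hs
    (Submodule.smul_mem _ _ (hI ξ _ (hφ ξ).1).1) (h3 ξ).1.1 (h3 ξ).2
    (c.Ns e.b ξ ▸ hC.2 ξ D _ hs) (hR0 a' ξ) c2 k1 k2 e1 e2 e3 (hγ ξ).2.1 (hγ ξ).2.2 x1 x2 x3 x4 x5

end Crest.Agent.T157.Tw
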