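import Crest.Agent.T157.LcLocB_30
import Crest.Agent.T157.LcOut_2

/-!
# Row 157, block B/S4b (helper30, after helper2): the two-sided output
-/

set_option autoImplicit false

noncomputable section

namespace Crest.Agent.T157.Tw

open MeasureTheory Real Matrix Set Filter Topology
open Out2

lemma cut2 {C x : ℝ} (hx : 0 < x) (B : ℝ) : ∃ χ : ℝ → ℝ, Continuous χ ∧ HasCompactSupport χ ∧
    ∀ ξ, χ (-ξ) = χ ξ ∧ 0 ≤ χ ξ ∧ χ ξ ≤ 1 ∧ (1 - χ ξ) * (C * sech2 ξ) ≤ x ∧ (χ ξ = 1 ∨ B ≤ |ξ|) := by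
  set T := max (C / x) B
  have one : ∀ ξ, |ξ| ≤ T → max 0 (min 1 (T + 1 - |ξ|)) = 1 := fun ξ h => by
    rw [min_eq_left (by linarith), max_eq_right zero_le_one]
  refine ⟨fun ξ => max 0 (min 1 (T + 1 - |ξ|)), by fun_prop, ?_, fun ξ => ⟨by simp,
    le_max_left _ _, max_le zero_le_one (min_le_left _ _), ?_, ?_⟩⟩
  · refine HasCompactSupport.intro (isCompact_Icc (a := -(T + 1)) (b := T + 1))
      fun ξ hξ => max_eq_left ((min_le_right _ _).trans ?_)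
    rw [mem_Icc, ← abs_le, not_le] at hξ; linarith
  · beta_reduce
    rcases le_total |ξ| T with h | h
    · rw [one ξ h]; simpa using hx.le
    · replace h := (le_max_left _ _).trans h
      rw [div_le_iff₀ hx] at h
      have h1 : C * sech2 ξ ≤ x := by nlinarith [abs_sech2 ξ, sech2_pos ξ]
      have h2 : 0 ≤ max 0 (min 1 (T + 1 - |ξ|)) := le_max_left _ _
      have h3 : max 0 (min 1 (T + 1 - |ξ|)) ≤ 1 := max_le zero_le_one (min_le_left _ _)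
      nlinarith
  · exact (le_total |ξ| T).imp (one ξ) fun h => (le_max_right _ _).trans h

lemma up_le {l a a' G ε κ p χ q0 q q' : ℝ} (hl : 0 < l) (hp : 0 < p) (h0 : 0 ≤ a') (ha : a' ≤ a)
    (hG : 0 ≤ G) (hε : 0 < ε) (hκ : 0 ≤ κ) (k2 : κ * (2 * a * (1 + a * G)) ≤ ε * l ^ 2)
    (c0 : 0 ≤ χ) (c1 : χ ≤ 1) (h1 : l * p ≤ q) (h2 : q ≤ q0) (h3 : q0 ≤ p) (h4 : 0 < q')
    (h5 : q' ≤ q0 + χ * (q - q0) + κ * p) (h6 : χ = 1 ∨ a' / q ≤ (a' + ε / 2) / p) :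
    a' / q - a' / q' ≤ ε / p := by
  obtain ⟨r, hr⟩ : ∃ r, r = q0 + χ * (q - q0) := ⟨_, rfl⟩
  have a0 : 0 ≤ a := h0.trans ha
  have r1 : q ≤ r := by nlinarith
  have r2 : r ≤ p := by nlinarith
  have lp := mul_pos hl hp
  have r0 : 0 < r := by linarith
  have kp := mul_nonneg hκ hp.le
  have e1 : a' / (r + κ * p) ≤ a' / q' := div_le_div_of_nonneg_left h0 h4 (hr ▸ h5)
  have e2 : a' / r - a' / (r + κ * p) = a' * (κ * p) / (r * (r + κ * p)) := by field_simp; ring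
  have e3 : a' * (κ * p) / (r * (r + κ * p)) ≤ a * (κ * p) / (l * p * (l * p)) := by
    gcongr <;> linarith
  have e4 : a * (κ * p) / (l * p * (l * p)) ≤ ε / 2 / p := by
    rw [div_le_div_iff₀ (by positivity) hp]
    have := mul_le_mul_of_nonneg_right k2 (by positivity : 0 ≤ p ^ 2 / 2)
    nlinarith [mul_nonneg (mul_nonneg (mul_nonneg hκ a0) (mul_nonneg a0 hG)) (sq_nonneg p)]
  have e5 : a' / q - a' / r ≤ ε / 2 / p := by
    rcases h6 with rfl | h6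
    · rw [hr, one_mul, add_sub_cancel, sub_self]; positivity
    · have := div_le_div_of_nonneg_left h0 r0 r2
      rw [add_div] at h6; linarith
  have e6 : ε / p = ε / 2 / p + ε / 2 / p := by ring
  linarith

theorem outGlue2 : OutGlue2 := by
  intro c pa f w bd ga gm ir ex eq l a G ε ha hal hG hε
  have hl : 0 < l := ha.trans_lt hal
  obtain ⟨η0, hη0, H⟩ := ex l a (ε / 8) ha hal (by positivity)
  refine ⟨η0, hη0, fun e hC hR hE => ?_⟩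
  obtain ⟨D0, hD0, H⟩ := H e hC hE
  refine ⟨D0, fun D hD a' ha' u hu => ?_⟩
  have hal' : a' < l := ha'.2.trans_lt hal
  have hy : -l < -a' := by linarith
  obtain ⟨n, P, cc, hP, hφ⟩ := (ga e.b l hC D (-a') hy).1
  replace H := fun ξ => H D hD a' ha' u hu ξ _ (hφ ξ)
  have hγ := (gm e.b l a' G ha'.1 hal' hC
    (fun ξ D F hF y h1 h2 => hR ξ D F hF y (by linarith [ha'.2]) h2) D).2
  obtain ⟨C, hC0, hB⟩ := bd e D
  obtain ⟨C0, hR0⟩ := ir.R0 e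
  obtain ⟨_, -, B, hT⟩ := eq l a' (e.b.g ⬝ᵥ e.b.g) ha'.1 hal' (ε / 2) (half_pos hε)
  replace hT := fun ξ => (hT e.b D hC le_rfl ξ).2
  obtain ⟨χ, hχc, hχs, hχ⟩ := cut2 (C := C0) (by positivity : 0 < ε / 8) B
  obtain ⟨κ, ⟨k1, k2⟩, k0⟩ := (((small 2 hl).and (small (2 * a * (1 + a * G))
    (by positivity : 0 < ε * l ^ 2))).and self_mem_nhdsWithin).exists
  have k0 : 0 < κ := k0
  obtain ⟨η, ⟨⟨e1, e2⟩, e3⟩, e0⟩ := ((((small C (by positivity : 0 < κ ^ 2)).and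
    (small ((1 + C) * l) two_pos)).and (small (2 * C + 4 * a' ^ 2 * (1 + C) + 8 * C * (C + C0) / l)
    (by positivity : 0 < ε / 4))).and self_mem_nhdsWithin).exists
  have e0 : 0 < η := e0
  obtain ⟨ρ, hρ⟩ := ex_rf f e.b
  obtain ⟨φ, hφd⟩ : ∃ φ : ℝ → SV e.b.m, ∀ ξ, φ ξ = ∑ i, cc i ξ • P i := ⟨_, fun _ => rfl⟩
  have hcf : Continuous fun ξ => cf e.b ξ (φ ξ) := by
    have h1 := fun i => (hP i).2
    have h2 := ex_cont c e.b
    simp only [hφd, cf, Finset.mul_sum, mul_smul_comm, map_sum, map_smul, smul_eq_mul]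
    fun_prop
  have hT' : ∀ ξ, ∑ i, (χ ξ * ((cf e.b ξ (φ ξ))⁻¹ * cc i ξ)) • irr e.b ξ (P i) =
      χ ξ • ((cf e.b ξ (φ ξ))⁻¹ • irr e.b ξ (φ ξ)) := fun ξ => by
    have : irr e.b ξ (φ ξ) = ∑ i, cc i ξ • irr e.b ξ (P i) := by
      rw [hφd]; exact (map_sum (irrL e.b ξ) _ _).trans (by simp only [map_smul]; rfl)
    simp only [this, Finset.smul_sum, mul_smul]
  simp only [← hφd] at H hφ
  have hI : ∀ ξ, ∀ F ∈ PolS e.b.m D, irr e.b ξ F ∈ IS e.b D ξ := fun ξ F hF =>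
    ⟨ir.pol _ _ _ (hD0.trans hD) _ hF, ir.irr _ _ _⟩
  obtain ⟨V, hV, hVa⟩ := approx f w e.b (fun i ξ => irr e.b ξ (P i))
    (fun i => irr_mem f _ (hP i).1) (IS e.b D) (fun i ξ => hI ξ _ (hP i).1)
    (fun i ξ => χ ξ * ((cf e.b ξ (φ ξ))⁻¹ * cc i ξ))
    (fun i => ⟨hχc.mul ((hcf.inv₀ fun ξ => (one_pos.trans_le (H ξ).1).ne').mul (hP i).2),
      hχs.mul_right⟩) e0
  simp only [hT'] at hVa
  obtain ⟨Ξ, h1, h2, h3⟩ := hρ.odd c hV (fun ξ => by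
    have h := gal_uniq c hC hy (hφ ξ) (hρ.gal (hφ (-ξ)))
    have h' : irr e.b ξ (φ ξ) = -ρ (irr e.b (-ξ) (φ (-ξ))) := by
      rw [h, ← hρ.irr c]; exact map_neg (irrL e.b ξ) _
    rw [h', (hχ ξ).1, ← hρ.cf c, ← h, map_smul, map_smul]; module) hVa
  have hs : sS _ ∈ PolS e.b.m D := by simpa using pa.s (pa.one _ D)
  refine ⟨Ξ, ⟨h1, h2, fun ξ => (h3 ξ).1.2.1, fun ξ => (h3 ξ).1.1⟩, fun ξ =>
    ⟨(h3 ξ).1.2, ir.R _ _ _ _ (h3 ξ).1.2, ?_⟩⟩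
  obtain ⟨x1, x2, x3, x4, x5⟩ := (H ξ).2 _ rfl
  obtain ⟨-, c0, c1, c2, c3⟩ := hχ ξ
  have hX := Submodule.smul_mem _ (cf e.b ξ (φ ξ))⁻¹ (hI ξ _ (hφ ξ).1).1
  obtain ⟨y1, y2, y3, y4, y5⟩ := point c e hl ha'.1 ha'.2 hal hG hε hC0 e0.le k0.le c0 c1 (hB ξ) hs
    hX (h3 ξ).1.1 (h3 ξ).2
    (c.Ns e.b ξ ▸ hC.2 ξ D _ hs) (hR0 a' ξ) c2 k1 k2 e1 e2 e3 (hγ ξ).2.1 (hγ ξ).2.2 x1 x2 x3 x4 x5
  refine ⟨y1, y2, y3, y4, ?_⟩
  have hp := sech2_pos ξ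
  have g1 := (hγ ξ).2.1
  have hN := (h3 ξ).2
  have hδ := sub_mem (h3 ξ).1.1 (Submodule.smul_mem _ (χ ξ) hX)
  generalize (cf e.b ξ (φ ξ))⁻¹ • irr e.b ξ (φ ξ) = X at *
  have hq1 := c.Es e.b ξ
  have hk : |(imS e.b ξ).En (sS _) (Ξ ξ - χ ξ • X)| ≤ κ * sech2 ξ := by
    refine abs_le_of_sq_le_sq ?_ (by positivity)
    calc _ ≤ _ := b_cs (c.ok e.b ξ).pE (c.ok e.b ξ).sE (sS _) _
      _ ≤ 1 * (C * (η * sech2 ξ ^ 2)) := mul_le_mul (hq1.trans (sech2_le ξ))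
        ((hB ξ _ hδ).1.trans (mul_le_mul_of_nonneg_left hN hC0)) ((c.ok e.b ξ).pE _) zero_le_one
      _ = η * C * sech2 ξ ^ 2 := by ring
      _ ≤ κ ^ 2 * sech2 ξ ^ 2 := mul_le_mul_of_nonneg_right e1 (sq_nonneg _)
      _ = _ := by ring
  have hh : e.b.g ⬝ᵥ e.b.g ≤ e.b.g ⬝ᵥ e.b.A *ᵥ u := by
    obtain ⟨k, -⟩ := sol_bd hC.1 (y := -a') (by linarith) hu
    have := le_trans (mul_nonneg (by linarith) (dot_nonneg u)) k
    rw [gAu hu]; nlinarith [ha'.1]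
  have d1 : ε / gamD e.b a' D ξ ≤ ε / sech2 ξ := div_le_div_of_nonneg_left hε.le hp g1
  have z := up_le (q0 := (imS e.b ξ).En (sS _) (sS _)) (q' := (imS e.b ξ).En (sS _) (sS _ + Ξ ξ))
    hl hp ha'.1 ha'.2 hG hε k0.le k2 c0 c1 x3 (by rw [map_add]; linarith) hq1
    (lt_of_lt_of_le (by positivity) y3) (by
      have := (abs_le.1 hk).2
      simp only [map_add, map_sub, map_smul, smul_eq_mul] at this ⊢
      linarith) (c3.imp_right fun hB' => by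
      have t := (abs_le.1 (hT ξ hB')).2
      have γ0 := hp.trans_le g1
      have t2 : (1 - a') / sech2 ξ ≤ (1 + ε / 2) / gamD e.b a' D ξ := by
        rw [div_le_div_iff₀ hp γ0]
        rw [← mul_div_assoc, sub_le_iff_le_add, div_le_iff₀ hp] at t
        linarith
      have t3 : ε / 2 / gamD e.b a' D ξ ≤ ε / 2 / sech2 ξ :=
        div_le_div_of_nonneg_left (half_pos hε).le hp g1
      rw [add_div] at t2 ⊢
      rw [sub_div] at t2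
      linarith)
  rw [sub_div] at y5
  rw [abs_le]
  constructor <;> linarith

end Crest.Agent.T157.Tw
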