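import Crest.Agent.T157.LcDefB_30

/-!
# Row 157, block B/S4b (helper26): `TailGlue`, the variance of `tanh` in large static fields
-/

set_option autoImplicit false

noncomputable section

namespace Crest.Agent.T157.Tw

open MeasureTheory ProbabilityTheory Real Matrix Set
open Crest.Agent.R238.Gap Crest.Agent.R253.Meh74

namespace Tail26

lemma mgfG {m : ℕ} (v : E m) (t : ℝ) :
    Integrable (fun z => exp (t * inner ℝ v z)) (gam m) ∧
      ∫ z, exp (t * inner ℝ v z) ∂gam m = exp (‖v‖ ^ 2 * t ^ 2 / 2) := by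
  have h := IsGaussian.map_eq_gaussianReal (μ := gam m) (innerSL ℝ v)
  rw [integral_strongDual_stdGaussian, variance_dual_stdGaussian, innerSL_apply_norm] at h
  have hm : AEMeasurable (innerSL ℝ v) (gam m) := (innerSL ℝ v).continuous.measurable.aemeasurable
  have hc : ∀ μ : Measure ℝ, AEStronglyMeasurable (fun x => exp (t * x)) μ := fun μ =>
    (by fun_prop : Continuous fun x => exp (t * x)).aestronglyMeasurable
  constructor
  · have := integrable_exp_mul_gaussianReal (μ := 0) (v := (‖v‖ ^ 2).toNNReal) t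
    rw [← h, integrable_map_measure (hc _) hm] at this
    exact this
  · have := congrFun (mgf_fun_id_gaussianReal (μ := 0) (v := (‖v‖ ^ 2).toNNReal)) t
    rw [mgf, ← h, integral_map hm (hc _), Real.coe_toNNReal _ (sq_nonneg _)] at this
    simpa using this

lemma one_sub_tanh (z : ℝ) : (1 - tanh z) ^ 2 ≤ 4 * exp (-3 * z) := by
  have hu := exp_pos z
  have e1 : exp (-z) = (exp z)⁻¹ := exp_neg z
  have e2 : exp (-3 * z) = (exp z ^ 3)⁻¹ := by
    rw [← exp_nat_mul, ← exp_neg]; congr 1; push_cast; ring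
  have e3 : 1 - tanh z = 2 / (exp z ^ 2 + 1) := by
    rw [tanh_eq_sinh_div_cosh, sinh_eq, cosh_eq, e1]; field_simp; ring
  rw [e3, e2, div_pow, ← div_eq_mul_inv, div_le_div_iff₀ (by positivity) (by positivity)]
  nlinarith [mul_nonneg (sq_nonneg (exp z)) (sq_nonneg (exp z - 1)), pow_pos hu 3, pow_pos hu 2]

lemma sub_tanh {σ : ℝ} (hσ : σ = 1 ∨ σ = -1) (z : ℝ) :
    (tanh z - σ) * (tanh z - σ) ≤ 4 * exp (-3 * σ * z) := by
  rcases hσ with rfl | rfl
  · have := one_sub_tanh z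
    rw [mul_one]; nlinarith
  · have := one_sub_tanh (-z)
    rw [tanh_neg] at this
    rw [show -3 * -1 * z = -3 * -z by ring]; nlinarith

lemma sech_ge (ξ : ℝ) : exp (-2 * |ξ|) ≤ sech2 ξ := by
  have h1 : cosh ξ ≤ exp |ξ| := by
    rw [cosh_eq]
    have := exp_le_exp.2 (le_abs_self ξ)
    have := exp_le_exp.2 (neg_le_abs ξ)
    linarith
  have e : exp (-2 * |ξ|) = 1 / exp |ξ| ^ 2 := by
    rw [← exp_nat_mul, one_div, ← exp_neg]; congr 1; push_cast; ring
  rw [e, sech2]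
  exact one_div_le_one_div_of_le (by have := cosh_pos ξ; positivity)
    (pow_le_pow_left₀ (cosh_pos ξ).le h1 2)

lemma ex_le (b : Bath) (ξ : ℝ) {σ K : ℝ} (hσ : σ = 1 ∨ σ = -1) (hK : b.g ⬝ᵥ b.g ≤ K) :
    exS b ξ ((tS b ξ - algebraMap ℝ _ σ) * (tS b ξ - algebraMap ℝ _ σ)) ≤
      4 * exp (-3 * σ * ξ + 8 * K) := by
  have hv : ‖b.v‖ ^ 2 ≤ K := by
    rw [EuclideanSpace.real_norm_sq_eq]
    simpa [Bath.v, dotProduct, sq] using hK
  have hσ2 : σ ^ 2 = 1 := by rcases hσ with rfl | rfl <;> norm_num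
  have key : ∀ s, ∫ z, (tanh (fld b ξ (z + sg s • b.v)) - σ) * (tanh (fld b ξ (z + sg s • b.v)) - σ)
      ∂gam b.m ≤ 4 * exp (-3 * σ * ξ + 8 * K) := fun s => by
    obtain ⟨hi, he⟩ := mgfG b.v (-3 * σ)
    have hs : -(σ * sg s) ≤ 1 := by
      rcases hσ with rfl | rfl <;> cases s <;> norm_num [sg]
    refine (integral_mono_of_nonneg (g := fun z => 4 * exp (-3 * σ * ξ + 3 * K) *
      exp (-3 * σ * inner ℝ b.v z)) (ae_of_all _ fun z => mul_self_nonneg _) (hi.const_mul _)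
      (ae_of_all _ fun z => (sub_tanh hσ _).trans ?_)).trans ?_
    · beta_reduce
      rw [mul_assoc 4, ← exp_add]
      refine mul_le_mul_of_nonneg_left (exp_le_exp.2 ?_) (by norm_num)
      rw [fld, inner_add_right, inner_smul_right, real_inner_self_eq_norm_sq]
      nlinarith [mul_le_mul_of_nonneg_right hs (sq_nonneg ‖b.v‖)]
    · rw [integral_const_mul, he, mul_assoc 4, ← exp_add]
      refine mul_le_mul_of_nonneg_left (exp_le_exp.2 ?_) (by norm_num)
      rw [mul_pow, hσ2]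
      nlinarith [sq_nonneg ‖b.v‖]
  change ∑ s, hb ξ s * ∫ z, (tanh (fld b ξ (z + sg s • b.v)) - σ) *
    (tanh (fld b ξ (z + sg s • b.v)) - σ) ∂gam b.m ≤ _
  rw [Fintype.sum_bool]
  have h1 := mul_le_mul_of_nonneg_left (key true) (hb_pos ξ true).le
  have h2 := mul_le_mul_of_nonneg_left (key false) (hb_pos ξ false).le
  refine (add_le_add h1 h2).trans (le_of_eq ?_)
  rw [← add_mul, hb_sum, one_mul]

end Tail26

open Tail26 in
theorem tailGlue : TailGlue := fun C K η hη => by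
  refine ⟨8 * K - log (η / 4), fun b hK ξ hB => ?_⟩
  obtain ⟨σ, hσ, hξ⟩ : ∃ σ : ℝ, (σ = 1 ∨ σ = -1) ∧ σ * ξ = |ξ| := by
    rcases le_total 0 ξ with h | h
    · exact ⟨1, .inl rfl, by rw [abs_of_nonneg h, one_mul]⟩
    · exact ⟨-1, .inr rfl, by rw [abs_of_nonpos h, neg_one_mul]⟩
  have h1 := ex_le b ξ hσ hK
  have e : (tS b ξ - algebraMap ℝ _ σ) * (tS b ξ - algebraMap ℝ _ σ) =
      tS b ξ * tS b ξ - (2 * σ) • tS b ξ + (σ * σ) • 1 := by
    simp only [Algebra.algebraMap_eq_smul_one, sub_mul, mul_sub, smul_mul_assoc, mul_smul_comm,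
      one_mul, mul_one, smul_smul]
    module
  rw [e, map_add, map_sub, map_smul, map_smul, C.ex1, smul_eq_mul, smul_eq_mul] at h1
  have h2 : 4 * exp (-3 * σ * ξ + 8 * K) ≤ η * exp (-2 * |ξ|) := by
    rw [show η = 4 * exp (log (η / 4)) by rw [exp_log (by positivity)]; ring, mul_assoc 4,
      ← exp_add]
    refine mul_le_mul_of_nonneg_left (exp_le_exp.2 ?_) (by norm_num)
    nlinarith
  have h3 := mul_le_mul_of_nonneg_left (sech_ge ξ) hη.le
  rw [C.N]
  nlinarith [sq_nonneg (exS b ξ (tS b ξ) - σ)]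

end Crest.Agent.T157.Tw
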