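import Crest.Agent.T157.LcXL_30
import Crest.Agent.T157.LcAp_79
import Crest.Agent.T157.LcBd_77
import Crest.Agent.T157.LcEq_6
import Crest.Agent.T157.LcEx_49
import Crest.Agent.T157.LcFam_29
import Crest.Agent.T157.LcFix_20
import Crest.Agent.T157.LcGal_44
import Crest.Agent.T157.LcOne_67
import Crest.Agent.T157.LcOutB_30
import Crest.Agent.T157.LcSpec_3
import Crest.Agent.T157.LcTail_26

/-!
# Row 157, block B/S4b (helper30): assembly
-/

set_option autoImplicit false

namespace Crest.Agent.T157.Tw

theorem famApi : FamApi := famGlue cal polApi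
theorem bdStmt : BdStmt := bdGlue cal polApi
theorem specStmt : SpecStmt := specGlue cal polApi
theorem fixStmt : FixStmt := fixGlue cal polApi specStmt
theorem galStmt : GalStmt := (galGlue cal polApi famApi).1
theorem gamStmt : GamStmt := (galGlue cal polApi famApi).2
theorem apStmt : ApStmt := apGlue cal polApi famApi wsStmt bdStmt galStmt
theorem oneStmt : OneStmt := oneGlue cal polApi famApi bdStmt fixStmt galStmt gamStmt apStmt
theorem irrApi : IrrApi := (exGlue cal polApi fixStmt galStmt).1
theorem exStmt : ExStmt := (exGlue cal polApi fixStmt galStmt).2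
theorem twStep : TwStep := (extGlue cal polApi famApi).1
theorem extStmt : ExtStmt := (extGlue cal polApi famApi).2
theorem tailStmt : TailStmt := tailGlue cal
theorem eqStmt : EqStmt := eqGlue cal polApi galStmt tailStmt

theorem outStmt2 : OutStmt2 :=
  outGlue2 cal polApi famApi wsStmt bdStmt galStmt gamStmt irrApi exStmt eqStmt

/-- **the local ansatz** -/
theorem locStmt2 : LocStmt2 := locGlue2 polApi gamStmt oneStmt outStmt2 eqStmt twStep
theorem xLoc : XLoc := xLoc_of famApi locStmt2

end Crest.Agent.T157.Tw
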