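import Crest.Agent.T157.LcDef_30

/-!
# Row 157, block B/S4b (helper52): the calculus rules `Cal` of the smooth algebra
-/

set_option autoImplicit false

noncomputable section

namespace Crest.Agent.T157.Tw

open MeasureTheory Real Matrix Set
open Crest.Agent.R238.Gap Crest.Agent.R253.Meh74

namespace Cal52

variable {m k : ℕ}

lemma ext' {F G : SV m} (h : ∀ s X, F.1 s X = G.1 s X) : F = G :=
  Subtype.ext (funext fun s => funext (h s))

lemma mul_ap (F G : SV m) (s : Bool) (X : E m) : (F * G).1 s X = F.1 s X * G.1 s X := rfl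
lemma add_ap (F G : SV m) (s : Bool) (X : E m) : (F + G).1 s X = F.1 s X + G.1 s X := rfl
lemma sub_ap (F G : SV m) (s : Bool) (X : E m) : (F - G).1 s X = F.1 s X - G.1 s X := rfl
lemma neg_ap (F : SV m) (s : Bool) (X : E m) : (-F).1 s X = -F.1 s X := rfl
lemma smul_ap (c : ℝ) (F : SV m) (s : Bool) (X : E m) : (c • F).1 s X = c * F.1 s X := rfl
lemma one_ap (s : Bool) (X : E m) : (1 : SV m).1 s X = 1 := rfl
lemma zero_ap (s : Bool) (X : E m) : (0 : SV m).1 s X = 0 := rfl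
lemma sq_ap (F : SV m) (s : Bool) (X : E m) : (F ^ 2).1 s X = F.1 s X ^ 2 := by
  rw [sq, sq, mul_ap]
lemma sum_ap {ι : Type*} (S : Finset ι) (F : ι → SV m) (s : Bool) (X : E m) :
    (∑ i ∈ S, F i).1 s X = ∑ i ∈ S, (F i).1 s X := by
  simp only [AddSubmonoidClass.coe_finsetSum, Finset.sum_apply]
lemma alg_ap (c : ℝ) (s : Bool) (X : E m) : (algebraMap ℝ (SV m) c).1 s X = c := rfl
lemma s_ap (s : Bool) (X : E m) : (sS m).1 s X = sg s := rfl
lemma x_ap (j : Fin m) (s : Bool) (X : E m) : (xS j).1 s X = X j := rfl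
lemma t_ap (b : Bath) (ξ : ℝ) (s : Bool) (X : E b.m) :
    (tS b ξ).1 s X = tanh (fld b ξ X) := rfl
lemma fl_ap (F : SV m) (s : Bool) (X : E m) : (fl m F).1 s X = F.1 (!s) X := rfl
lemma z_ap (b : Bath) (j : Fin b.m) (s : Bool) (X : E b.m) :
    (zS b j).1 s X = X j - b.g j * sg s := rfl
lemma pull_ap (ι : Matrix (Fin k) (Fin m) ℝ) (F : SV m) (s : Bool) (X : E k) :
    (pull ι F).1 s X = F.1 s (mv ιᵀ X) := rfl
lemma dd_ap (j : Fin m) (F : SV m) (s : Bool) (X : E m) : (dd j F).1 s X = pd j (F.1 s) X := rfl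

lemma rs_eq (b : Bath) (ξ : ℝ) (F : SV b.m) :
    rsS b ξ F = ((1 / 2 : ℝ) • (1 - sS _ * tS b ξ)) * (F - fl _ F) := rfl
lemma psi_eq (b : Bath) (ξ : ℝ) (F : SV b.m) :
    psi b ξ F = ((1 / 2 : ℝ) • ((1 - tS b ξ ^ 2) * sS _)) * (F - fl _ F) := rfl
lemma rs_ap (b : Bath) (ξ : ℝ) (F : SV b.m) (s : Bool) (X : E b.m) :
    (rsS b ξ F).1 s X = 1 / 2 * (1 - sg s * tanh (fld b ξ X)) * (F.1 s X - F.1 (!s) X) := rfl
lemma psi_ap (b : Bath) (ξ : ℝ) (F : SV b.m) (s : Bool) (X : E b.m) :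
    (psi b ξ F).1 s X =
      1 / 2 * ((1 - tanh (fld b ξ X) ^ 2) * sg s) * (F.1 s X - F.1 (!s) X) := by
  rw [psi_eq, mul_ap, smul_ap, mul_ap, sub_ap, sq_ap]; rfl
lemma ou_eq (b : Bath) (F : SV b.m) :
    ouS b F = ∑ i, ∑ j, b.A i j • (zS b i * dd j F - dd i (dd j F)) := by
  simp only [ouS, LinearMap.sum_apply, LinearMap.smul_apply, LinearMap.sub_apply,
    LinearMap.comp_apply, LinearMap.mul_apply']
lemma gen_eq (b : Bath) (ξ : ℝ) (F : SV b.m) : gen b ξ F = rsS b ξ F + ouS b F := rfl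

lemma cp (F : SV m) : F.1 ∈ CP m := fun s => ⟨(F.2 s).c1.cont, (F.2 s).c1.g⟩
lemma exS_eq (b : Bath) (ξ : ℝ) (F : SV b.m) : exS b ξ F = ex b ξ F.1 := rfl

lemma hb_t (h : ℝ) : hb h true = (1 + tanh h) / 2 := by
  have := (cosh_pos h).ne'
  simp only [hb, sg, if_true, one_mul]
  rw [tanh_eq_sinh_div_cosh, ← cosh_add_sinh]; field_simp
lemma hb_f (h : ℝ) : hb h false = (1 - tanh h) / 2 := by linarith [hb_sum h, hb_t h]
lemma sg_t : sg true = 1 := rfl
lemma sg_f : sg false = -1 := rfl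

lemma sech2_eq (ξ : ℝ) : sech2 ξ = 1 - tanh ξ ^ 2 := by
  rw [← O42.hb_mul, hb_t, hb_f]; ring

lemma tanh_sq_le (h : ℝ) : tanh h ^ 2 ≤ 1 := by
  have := abs_tanh_lt_one h
  rw [← sq_abs]; nlinarith [abs_nonneg (tanh h)]

/-- comparison after conditioning on the bath -/
lemma le_cond (b : Bath) (ξ : ℝ) {F G : SV b.m}
    (h : ∀ X, (1 + tanh (fld b ξ X)) * F.1 true X + (1 - tanh (fld b ξ X)) * F.1 false X ≤
      (1 + tanh (fld b ξ X)) * G.1 true X + (1 - tanh (fld b ξ X)) * G.1 false X) :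
    exS b ξ F ≤ exS b ξ G := by
  rw [← sub_nonneg, ← map_sub, exS_eq]
  refine O42.ex_nonneg_cond b ξ (cp (G - F)) fun X => ?_
  simp only [Fintype.sum_bool, hb_t, hb_f]
  have := h X
  change 0 ≤ _ * (G.1 true X - F.1 true X) + _ * (G.1 false X - F.1 false X)
  linarith

lemma eq_cond (b : Bath) (ξ : ℝ) {F G : SV b.m}
    (h : ∀ X, (1 + tanh (fld b ξ X)) * F.1 true X + (1 - tanh (fld b ξ X)) * F.1 false X =
      (1 + tanh (fld b ξ X)) * G.1 true X + (1 - tanh (fld b ξ X)) * G.1 false X) :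
    exS b ξ F = exS b ξ G :=
  le_antisymm (le_cond b ξ fun X => (h X).le) (le_cond b ξ fun X => (h X).ge)

lemma contDiff_two {f : E m → ℝ} (hf : Sm f) : ContDiff ℝ 2 f := by
  rw [show (2 : WithTop ℕ∞) = 1 + 1 from rfl, contDiff_succ_iff_fderiv]
  refine ⟨hf.c1.diff, by simp, contDiff_clm_apply_iff.2 fun y => ?_⟩
  have : (fun x => fderiv ℝ f x y) = fun x => ∑ i, y i * pd i f x :=
    funext fun x => clm_apply_eq_sum _ _
  rw [this]
  exact ContDiff.sum fun i _ => contDiff_const.mul (hf.pd i).c1.c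

lemma dmul (j : Fin m) (F G : SV m) : dd j (F * G) = dd j F * G + F * dd j G :=
  ext' fun s X => (F.2 s).c1.pd_mul (G.2 s).c1 j X
lemma dcomm (i j : Fin m) (F : SV m) : dd i (dd j F) = dd j (dd i F) :=
  ext' fun s X => R253.Meh74.pd_comm (contDiff_two (F.2 s)) X i j
lemma done (j : Fin m) : dd j (1 : SV m) = 0 :=
  ext' fun s X => by change pd j (fun _ => (1 : ℝ)) X = 0; simp [pd]
lemma ds (j : Fin m) : dd j (sS m) = 0 :=
  ext' fun s X => by change pd j (fun _ => sg s) X = 0; simp [pd]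
lemma dx (i j : Fin m) : dd i (xS j) = if j = i then 1 else 0 :=
  ext' fun s X => by
    refine (R253.Meh74.pd_coord i j X).trans ?_
    split_ifs <;> rfl
lemma dt (b : Bath) (ξ : ℝ) (j : Fin b.m) : dd j (tS b ξ) = b.g j • (1 - tS b ξ ^ 2) :=
  ext' fun s X => by
    rw [smul_ap, sub_ap, sq_ap]; exact pd_tanh b ξ j X
lemma dfl (j : Fin m) (F : SV m) : dd j (fl m F) = fl m (dd j F) := rfl
lemma dz (b : Bath) (i j : Fin b.m) : dd j (zS b i) = if i = j then 1 else 0 := by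
  rw [zS, map_sub, map_smul, ds, dx, smul_zero, sub_zero]
lemma ss (m : ℕ) : sS m * sS m = 1 := ext' fun s X => by
  rw [mul_ap, s_ap, one_ap]; cases s <;> simp [sg]
lemma fls (m : ℕ) : fl m (sS m) = -sS m := ext' fun s X => by
  rw [fl_ap, neg_ap, s_ap, s_ap]; cases s <;> simp [sg]

lemma ex1 (b : Bath) (ξ : ℝ) : exS b ξ 1 = 1 := O42.ex_const b ξ 1
lemma exs (b : Bath) (ξ : ℝ) : exS b ξ (sS _) = tanh ξ := by
  refine (Lin84.ex_spin b ξ sg).trans ?_
  rw [hb_t, hb_f, sg_t, sg_f]; ring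
lemma aff (b : Bath) (ξ : ℝ) (F : SV b.m) :
    exS b ξ F = exS b 0 F + tanh ξ * exS b 0 (sS _ * F) := by
  simp only [exS_eq, ex, Fintype.sum_bool, hb_t, hb_f, tanh_zero, mul_ap, s_ap,
    integral_const_mul, sg_t, sg_f]
  ring
lemma defn (b : Bath) (ξ : ℝ) (F : SV b.m) (h : exS b ξ (F * F) = 0) : F = 0 :=
  ext' fun s X => mul_self_eq_zero.1
    (O42.eq_zero_of_ex b ξ (cp (F * F)) (fun _ _ => mul_self_nonneg _) h s X)
lemma stein (b : Bath) (ξ : ℝ) (j : Fin b.m) (F : SV b.m) :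
    exS b ξ (zS b j * F) = exS b ξ (dd j F) := by
  have h : exS b ξ (xS j * F) = exS b ξ (dd j F) + b.g j * exS b ξ (sS _ * F) := by
    simp only [exS_eq, ex, Finset.mul_sum, ← Finset.sum_add_distrib]
    refine Finset.sum_congr rfl fun s _ => ?_
    simp only [mul_ap, x_ap, s_ap, dd_ap, integral_const_mul]
    rw [Lin84.stein1 (F.2 s).c1]
    have : (sg s • b.v) j = sg s * b.g j := rfl
    rw [this]; ring
  rw [zS, sub_mul, map_sub, h, smul_mul_assoc, map_smul, smul_eq_mul, add_sub_cancel_right]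
lemma db (b : Bath) (ξ : ℝ) (M : SV b.m) (h : fl _ M = M) :
    exS b ξ (sS _ * M) = exS b ξ (tS b ξ * M) := eq_cond b ξ fun X => by
  have h1 : M.1 false X = M.1 true X := congrFun (congrFun (congrArg Subtype.val h) true) X
  simp only [mul_ap, s_ap, t_ap, h1, sg_t, sg_f]; ring

lemma ok (b : Bath) (ξ : ℝ) : (imS b ξ).Ok :=
  have h := (okStmt b ξ).1
  ⟨fun _ _ => h.sN _ _, fun _ _ => h.sE _ _, fun _ => h.pN _, fun _ => h.pE _,
    fun _ hu => h.null _ hu⟩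
lemma N_eq (b : Bath) (ξ : ℝ) (F G : SV b.m) :
    (imS b ξ).N F G = exS b ξ (F * G) - exS b ξ F * exS b ξ G := rfl
lemma rsL_eq (b : Bath) (ξ : ℝ) (F : SV b.m) : (rsL b ξ (inc _ (cv _ F))).1 = (rsS b ξ F).1 := by
  funext s X
  rw [O42.rs_apply, rs_ap, hb_t, hb_f]
  change F.1 s X - (_ * F.1 true X + _ * F.1 false X) = _
  cases s <;> simp only [sg_t, sg_f, Bool.not_true, Bool.not_false] <;> ring
lemma En_eq (b : Bath) (ξ : ℝ) (F G : SV b.m) : (imS b ξ).En F G =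
    exS b ξ (rsS b ξ F * rsS b ξ G) + ∑ i, ∑ j, b.A i j * exS b ξ (dd i F * dd j G) := by
  refine (Lin84.En_eq b ξ (cv _ F) (cv _ G)).trans ?_
  rw [rsL_eq, rsL_eq]; rfl
lemma Ns (b : Bath) (ξ : ℝ) : (imS b ξ).N (sS _) (sS _) = sech2 ξ := by
  rw [N_eq, ss, ex1, exs, sech2_eq]; ring
lemma rs_ip (b : Bath) (ξ : ℝ) (F G : SV b.m) :
    exS b ξ (rsS b ξ F * rsS b ξ G) = exS b ξ (F * rsS b ξ G) := eq_cond b ξ fun X => by
  simp only [mul_ap, rs_ap, sg_t, sg_f, Bool.not_true, Bool.not_false]; ring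
lemma rs_le (b : Bath) (ξ : ℝ) (F : SV b.m) :
    exS b ξ (rsS b ξ F * rsS b ξ F) ≤ exS b ξ (F * F) := le_cond b ξ fun X => by
  simp only [mul_ap, rs_ap, sg_t, sg_f, Bool.not_true, Bool.not_false]
  nlinarith [sq_nonneg ((1 + tanh (fld b ξ X)) * F.1 true X + (1 - tanh (fld b ξ X)) * F.1 false X)]
lemma En_s (b : Bath) (ξ : ℝ) (F : SV b.m) :
    (imS b ξ).En (sS _) F = exS b ξ (sS _ * rsS b ξ F) := by
  rw [En_eq, rs_ip]; simp [ds]
lemma Es (b : Bath) (ξ : ℝ) : (imS b ξ).En (sS _) (sS _) ≤ sech2 ξ := by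
  have h1 : rsS b ξ (stS _ ξ) = rsS b ξ (sS _) := ext' fun s X => by
    simp only [rs_ap, stS, sub_ap, alg_ap]; ring
  have h2 : stS b.m ξ * stS _ ξ = (1 + tanh ξ ^ 2) • (1 : SV b.m) - (2 * tanh ξ) • sS _ :=
    ext' fun s X => by
      simp only [stS, mul_ap, sub_ap, smul_ap, alg_ap, s_ap, one_ap]
      cases s <;> simp only [sg_t, sg_f] <;> ring
  have h3 := rs_le b ξ (stS _ ξ)
  rw [h1, h2, map_sub, map_smul, map_smul, ex1, exs, rs_ip, ← En_s] at h3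
  rw [sech2_eq]
  simp only [smul_eq_mul] at h3
  linarith
lemma l0 (b : Bath) (ξ : ℝ) (F G : SV b.m) : exS b ξ (G * gen b ξ F) = (imS b ξ).En G F := by
  rw [En_eq, rs_ip, gen_eq, mul_add, map_add, ou_eq]
  congr 1
  simp only [Finset.mul_sum, map_sum, mul_smul_comm, map_smul, smul_eq_mul]
  refine Finset.sum_congr rfl fun i _ => Finset.sum_congr rfl fun j _ => ?_
  rw [mul_sub, map_sub, mul_left_comm, stein, dmul, map_add, add_sub_cancel_right]
lemma drs (b : Bath) (ξ : ℝ) (j : Fin b.m) (F : SV b.m) :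
    dd j (rsS b ξ F) = rsS b ξ (dd j F) - b.g j • psi b ξ F := by
  rw [rs_eq, rs_eq, psi_eq, dmul, map_smul, map_sub, map_sub, dmul, done, ds, dt, dfl]
  refine ext' fun s X => ?_
  simp only [mul_ap, add_ap, sub_ap, smul_ap, zero_ap, one_ap, sq_ap]; ring
lemma dpsi (b : Bath) (ξ : ℝ) (j : Fin b.m) (F : SV b.m) :
    dd j (psi b ξ F) = psi b ξ (dd j F) - (2 * b.g j) • (tS b ξ * psi b ξ F) := by
  have h : dd j (tS b ξ ^ 2) = b.g j • (1 - tS b ξ ^ 2) * tS b ξ +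
      tS b ξ * b.g j • (1 - tS b ξ ^ 2) := by rw [← dt, sq, dmul]
  rw [psi_eq, psi_eq, dmul, map_smul, map_sub, dmul, map_sub, done, ds, h, dfl]
  refine ext' fun s X => ?_
  simp only [mul_ap, add_ap, sub_ap, smul_ap, zero_ap, one_ap, sq_ap]; ring
lemma dou (b : Bath) (j : Fin b.m) (F : SV b.m) :
    dd j (ouS b F) = ouS b (dd j F) + ∑ i, b.A j i • dd i F := by
  have h : ∑ i, b.A j i • dd i F =
      ∑ i, ∑ l, b.A i l • ((if i = j then 1 else 0 : SV b.m) * dd l F) := by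
    symm
    rw [Finset.sum_eq_single j (fun i _ hi => by simp [hi]) (by simp)]
    simp
  rw [h, ou_eq, ou_eq, map_sum, ← Finset.sum_add_distrib]
  refine Finset.sum_congr rfl fun i _ => ?_
  rw [map_sum, ← Finset.sum_add_distrib]
  refine Finset.sum_congr rfl fun l _ => ?_
  rw [map_smul, ← smul_add, map_sub, dmul, dz, dcomm j i, dcomm j l]
  congr 1; ring
lemma dgen (b : Bath) (ξ : ℝ) (j : Fin b.m) (F : SV b.m) :
    dd j (gen b ξ F) = gen b ξ (dd j F) + ∑ i, b.A j i • dd i F - b.g j • psi b ξ F := by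
  rw [gen_eq, gen_eq, map_add, drs, dou]; ring
lemma psi_le (b : Bath) (ξ : ℝ) (F : SV b.m) :
    exS b ξ (psi b ξ F * psi b ξ F) ≤ exS b ξ (rsS b ξ F * rsS b ξ F) := le_cond b ξ fun X => by
  simp only [mul_ap, rs_ap, psi_ap, sg_t, sg_f, Bool.not_true, Bool.not_false]
  have h1 := tanh_sq_le (fld b ξ X)
  have h2 : 0 ≤ (1 - tanh (fld b ξ X) ^ 2) * tanh (fld b ξ X) ^ 2 *
      (F.1 true X - F.1 false X) ^ 2 := by
    have : 0 ≤ 1 - tanh (fld b ξ X) ^ 2 := by linarith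
    positivity
  nlinarith
lemma t_le (b : Bath) (ξ : ℝ) (F : SV b.m) :
    exS b ξ (tS b ξ * F * (tS b ξ * F)) ≤ exS b ξ (F * F) :=
  M1.ex_mono b ξ (cp (tS b ξ * F * (tS b ξ * F))) (cp (F * F)) fun s X => by
    change tanh (fld b ξ X) * F.1 s X * (tanh (fld b ξ X) * F.1 s X) ≤ F.1 s X * F.1 s X
    nlinarith [mul_le_mul_of_nonneg_right (tanh_sq_le (fld b ξ X)) (sq_nonneg (F.1 s X))]
lemma psi_ex (b : Bath) (ξ : ℝ) (F : SV b.m) : exS b ξ (psi b ξ F) = (imS b ξ).En (sS _) F := by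
  rw [En_s]
  refine eq_cond b ξ fun X => ?_
  simp only [mul_ap, rs_ap, psi_ap, s_ap, sg_t, sg_f, Bool.not_true, Bool.not_false]; ring

lemma p_ex (e : Ext) (ξ : ℝ) (F : SV e.b.m) : exS e.bt ξ (pull e.ι F) = exS e.b ξ F := by
  have h := M1.ex_av (b1 := e.b) (b2 := e.bt) (P := e.ιᵀ) (R := (0 : Matrix _ (Fin 0) ℝ))
    (by rw [transpose_transpose, e.iso]; simp) (by rw [e.hg, mulVec_mulVec, e.iso, one_mulVec]) ξ
    (cp F)
  rw [exS_eq, exS_eq, ← h]
  congr 1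
  funext s X
  have h0 : ∀ y : E 0, mv (0 : Matrix (Fin e.b.m) (Fin 0) ℝ) y = 0 := fun y => by
    ext i; rw [M1.mv_apply]; simp
  simp [M1.av, h0, pull_ap]
lemma p_d (ι : Matrix (Fin k) (Fin m) ℝ) (j : Fin k) (F : SV m) :
    dd j (pull ι F) = ∑ i, ι j i • pull ι (dd i F) := ext' fun s X => by
  have h := M1.pd_aff (F.2 s).c1.diff 0 ιᵀ j X
  simp only [zero_add, transpose_apply] at h
  rw [sum_ap]; exact h
lemma p_t (e : Ext) (ξ : ℝ) : pull e.ι (tS e.b ξ) = tS e.bt ξ := ext' fun s X => by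
  have h : e.bt.v = mv e.ι e.b.v := by
    ext i; rw [M1.mv_apply]; exact congrFun e.hg i
  rw [pull_ap, t_ap, t_ap, fld, fld, h, M1.inner_mv]
lemma p_x (ι : Matrix (Fin k) (Fin m) ℝ) (i : Fin m) : pull ι (xS i) = ∑ j, ι j i • xS j :=
  ext' fun s X => by rw [sum_ap]; rfl
lemma p_s (ι : Matrix (Fin k) (Fin m) ℝ) : pull ι (sS m) = sS k := rfl
lemma p_fl (ι : Matrix (Fin k) (Fin m) ℝ) (F : SV m) : pull ι (fl m F) = fl k (pull ι F) := rfl
lemma p_rs (e : Ext) (ξ : ℝ) (F : SV e.b.m) : rsS e.bt ξ (pull e.ι F) = pull e.ι (rsS e.b ξ F) := by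
  rw [rs_eq, rs_eq, map_mul, map_smul, map_sub, map_sub, map_one, map_mul, p_t, p_s, p_fl]
lemma p_N (e : Ext) (ξ : ℝ) (F G : SV e.b.m) :
    (imS e.bt ξ).N (pull e.ι F) (pull e.ι G) = (imS e.b ξ).N F G := by
  rw [N_eq, N_eq, ← map_mul, p_ex, p_ex, p_ex]

/-- change of variables in a quadratic sum -/
lemma quad (e : Ext) {M : Type*} [AddCommGroup M] [Module ℝ M] (c : Fin e.b.m → Fin e.b.m → M) :
    ∑ i, ∑ j, e.bt.A i j • ∑ p, ∑ q, (e.ι i p * e.ι j q) • c p q = ∑ p, ∑ q, e.b.A p q • c p q := by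
  have h : ∀ p q, e.b.A p q = ∑ i, ∑ j, e.bt.A i j * (e.ι i p * e.ι j q) := fun p q => by
    rw [e.hA, Matrix.mul_assoc, Matrix.mul_apply]
    refine Finset.sum_congr rfl fun i _ => ?_
    rw [Matrix.mul_apply, Finset.mul_sum]
    exact Finset.sum_congr rfl fun j _ => by rw [transpose_apply]; ring
  simp only [h, Finset.sum_smul, Finset.smul_sum, smul_smul]
  rw [Finset.sum_comm' (t' := Finset.univ) (s' := fun _ => Finset.univ) (by simp)]
  symm
  calc ∑ p, ∑ q, ∑ i, ∑ j, (e.bt.A i j * (e.ι i p * e.ι j q)) • c p q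
      = ∑ p, ∑ i, ∑ q, ∑ j, (e.bt.A i j * (e.ι i p * e.ι j q)) • c p q :=
        Finset.sum_congr rfl fun p _ => Finset.sum_comm
    _ = ∑ i, ∑ p, ∑ q, ∑ j, (e.bt.A i j * (e.ι i p * e.ι j q)) • c p q := Finset.sum_comm
    _ = ∑ i, ∑ p, ∑ j, ∑ q, (e.bt.A i j * (e.ι i p * e.ι j q)) • c p q :=
        Finset.sum_congr rfl fun i _ => Finset.sum_congr rfl fun p _ => Finset.sum_comm
    _ = ∑ i, ∑ j, ∑ p, ∑ q, (e.bt.A i j * (e.ι i p * e.ι j q)) • c p q :=
        Finset.sum_congr rfl fun i _ => Finset.sum_comm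
    _ = _ := Finset.sum_comm

lemma p_En (e : Ext) (ξ : ℝ) (F G : SV e.b.m) :
    (imS e.bt ξ).En (pull e.ι F) (pull e.ι G) = (imS e.b ξ).En F G := by
  rw [En_eq, En_eq, p_rs, p_rs, ← map_mul, p_ex]
  congr 1
  have h := quad e fun p q => exS e.b ξ (dd p F * dd q G)
  simp only [smul_eq_mul] at h
  rw [← h]
  refine Finset.sum_congr rfl fun i _ => Finset.sum_congr rfl fun j _ => ?_
  rw [p_d, p_d, Finset.sum_mul_sum, map_sum]
  congr 1
  refine Finset.sum_congr rfl fun p _ => ?_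
  rw [map_sum]
  refine Finset.sum_congr rfl fun q _ => ?_
  rw [smul_mul_smul_comm, map_smul, ← map_mul, p_ex, smul_eq_mul]

lemma p_z (e : Ext) (q : Fin e.b.m) : ∑ i, ∑ j, (e.bt.A i j * e.ι j q) • zS e.bt i =
    ∑ p, e.b.A p q • pull e.ι (zS e.b p) + linS _ (e.w (Pi.single q 1)) := ext' fun s X => by
  have h1 : ∀ i, e.w (Pi.single q 1) i = ∑ j, e.bt.A i j * e.ι j q - ∑ p, e.ι i p * e.b.A p q :=
    fun i => by
      simp only [Ext.w, mulVec_single_one, Pi.sub_apply]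
      rfl
  have h2 : ∑ i, (∑ j, e.bt.A i j * e.ι j q) * e.bt.g i = ∑ p, e.b.A p q * e.b.g p := by
    rw [e.hg, e.hA, Matrix.mul_assoc]
    simp only [mulVec, dotProduct, Matrix.mul_apply, transpose_apply, Finset.mul_sum,
      Finset.sum_mul]
    symm
    rw [Finset.sum_comm]
    refine Finset.sum_congr rfl fun i _ => ?_
    exact Finset.sum_congr rfl fun p _ => Finset.sum_congr rfl fun j _ => by ring
  have h3 : ∑ p, e.b.A p q * ∑ i, e.ι i p * X i = ∑ i, (∑ p, e.ι i p * e.b.A p q) * X i := by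
    simp only [Finset.mul_sum, Finset.sum_mul]
    rw [Finset.sum_comm]
    exact Finset.sum_congr rfl fun i _ => Finset.sum_congr rfl fun p _ => by ring
  simp only [linS, emb_apply, add_ap, sum_ap, smul_ap, pull_ap, z_ap, x_ap, h1, M1.mv_apply,
    transpose_apply, ← Finset.sum_mul]
  simp only [mul_sub, sub_mul, Finset.sum_sub_distrib, ← mul_assoc, ← Finset.sum_mul]
  rw [h2, h3]; ring

lemma p_gen (e : Ext) (ξ : ℝ) (F : SV e.b.m) : gen e.bt ξ (pull e.ι F) =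
    pull e.ι (gen e.b ξ F) + ∑ i, pull e.ι (dd i F) * linS _ (e.w (Pi.single i 1)) := by
  rw [gen_eq, gen_eq, map_add, p_rs, add_assoc]
  congr 1
  have h1 : ∑ i, ∑ j, e.bt.A i j • dd i (dd j (pull e.ι F)) =
      ∑ p, ∑ q, e.b.A p q • pull e.ι (dd p (dd q F)) := by
    rw [← quad e]
    refine Finset.sum_congr rfl fun i _ => Finset.sum_congr rfl fun j _ => ?_
    congr 1
    rw [p_d, map_sum, Finset.sum_comm]
    refine Finset.sum_congr rfl fun q _ => ?_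
    rw [map_smul, p_d, Finset.smul_sum]
    exact Finset.sum_congr rfl fun p _ => by rw [smul_smul, mul_comm]
  have h2 : ∑ i, ∑ j, e.bt.A i j • (zS e.bt i * dd j (pull e.ι F)) =
      ∑ q, pull e.ι (dd q F) * ∑ i, ∑ j, (e.bt.A i j * e.ι j q) • zS e.bt i := by
    simp only [p_d, Finset.mul_sum, Finset.smul_sum]
    symm
    rw [Finset.sum_comm]
    refine Finset.sum_congr rfl fun i _ => ?_
    rw [Finset.sum_comm]
    refine Finset.sum_congr rfl fun j _ => Finset.sum_congr rfl fun q _ => ?_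
    rw [mul_smul_comm, mul_smul_comm, smul_smul, mul_comm (zS e.bt i)]
  have h3 : ∑ p, ∑ q, e.b.A p q • (pull e.ι (zS e.b p) * pull e.ι (dd q F)) =
      ∑ q, pull e.ι (dd q F) * ∑ p, e.b.A p q • pull e.ι (zS e.b p) := by
    rw [Finset.sum_comm]
    refine Finset.sum_congr rfl fun q _ => ?_
    rw [Finset.mul_sum]
    exact Finset.sum_congr rfl fun p _ => by rw [mul_smul_comm, mul_comm]
  rw [ou_eq, ou_eq]
  simp only [map_sum, map_smul, map_sub, map_mul, smul_sub, Finset.sum_sub_distrib]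
  rw [h1, h2, h3]
  simp only [p_z, mul_add, Finset.sum_add_distrib]
  ring

end Cal52

open Cal52 in
theorem cal : Cal where
  dmul := dmul
  dcomm := dcomm
  done := done
  ds := ds
  dx := dx
  dt := dt
  dfl := dfl
  ss := ss
  fls := fls
  ex1 := ex1
  exs := exs
  aff := aff
  pos b ξ _ h := O42.ex_nonneg b ξ h
  defn := defn
  stein := stein
  db := db
  ok := ok
  N := N_eq
  En := En_eq
  Ns := Ns
  Es := Es
  l0 := l0
  rs_ip := rs_ip
  rs_le := rs_le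
  drs := drs
  dpsi := dpsi
  dgen := dgen
  psi_le := psi_le
  t_le := t_le
  psi_ex := psi_ex
  p_ex := p_ex
  p_d := p_d
  p_t := p_t
  p_x := p_x
  p_rs := p_rs
  p_N := p_N
  p_En := p_En
  p_gen := p_gen

end Crest.Agent.T157.Tw
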