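import Crest.Agent.T157.LcDef_30

/-!
# Row 157, block B/S4b (helper30): two-sided local ansatz with a canonical diagonal
-/

set_option autoImplicit false

noncomputable section

namespace Crest.Agent.T157.Tw

open MeasureTheory Real Matrix Set

/-- the local ansatz `s + Ξ`, diagonal `al` up to `ε / p` -/
def Out2 (e : Ext) (D : ℕ) (l a ε : ℝ) (Ξ : ℝ → SV e.b.m) (al : ℝ → ℝ) : Prop := Cl0 e.b D Ξ ∧ ∀ ξ,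
  Irr e.b ξ (Ξ ξ) ∧ Irr e.bt ξ (e.R a ξ (Ξ ξ)) ∧ Mf e.bt ξ 1 (e.R a ξ (Ξ ξ)) ≤ ε ∧
  Mf e.b ξ 1 (Ξ ξ) ≤ 8 * (1 + a) / (l - a) + 8 ∧
  l * sech2 ξ / 2 ≤ (imS e.b ξ).En (sS _) (sS _ + Ξ ξ) ∧
  (imS e.b ξ).En (sS _) (sS _ + Ξ ξ) ≤ 2 * sech2 ξ ∧
  |1 / sech2 ξ + e.b.g ⬝ᵥ e.b.g - a / (imS e.b ξ).En (sS _) (sS _ + Ξ ξ) - al ξ| ≤ ε / sech2 ξ

/-- large static fields -/
def TailStmt : Prop := ∀ K : ℝ, ∀ η > (0 : ℝ), ∃ B : ℝ, ∀ b : Bath, b.g ⬝ᵥ b.g ≤ K → ∀ ξ, B ≤ |ξ| →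
  (imS b ξ).N (tS b ξ) (tS b ξ) ≤ η * sech2 ξ

/-- the response is equicontinuous, uniformly in the bath and the degree -/
def EqStmt : Prop := ∀ l a K : ℝ, 0 ≤ a → a < l → ∀ η > (0 : ℝ), ∃ δ > (0 : ℝ), ∃ B : ℝ,
  ∀ (b : Bath) (D : ℕ), Coer b l → b.g ⬝ᵥ b.g ≤ K → ∀ ξ,
    (∀ ξ', |ξ - ξ'| ≤ δ → |gamD b a D ξ / sech2 ξ - gamD b a D ξ' / sech2 ξ'| ≤ η) ∧
    (B ≤ |ξ| → |(1 - a) * (gamD b a D ξ / sech2 ξ) - 1| ≤ η)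

def OutStmt2 : Prop := ∀ l a G ε : ℝ, 0 ≤ a → a < l → 0 ≤ G → 0 < ε → ∃ η > (0 : ℝ),
  ∀ e : Ext, Coer e.b l → Resp e.b a G → (∀ y ≥ -a, e.Eps l y η) → ∃ D0 : ℕ, ∀ D ≥ D0,
    ∀ a' ∈ Icc 0 a, ∀ u, e.b.A *ᵥ u + (-a') • u = e.b.g →
      ∃ Ξ, Out2 e D l a' ε Ξ fun ξ => 1 / gamD e.b a' D ξ + e.b.g ⬝ᵥ e.b.A *ᵥ u

/-- **the local ansatz**, with a diagonal `1 / γ + h` that does not depend on the accuracy -/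
def LocStmt2 : Prop := ∀ 𝒞 : Cls, (∀ m, 𝒞.C m = PV m) → ∀ β : ℝ, 0 < β → β < 1 →
  ∀ a ∈ Ico 0 (lam 𝒞 β), ∀ (ν : Measure ℝ) [IsProbabilityMeasure ν],
  ∀ (P : Ext → Prop) (e0 : Ext), P e0 → TwL admStmt 𝒞 β e0.b →
  (∀ e, P e → ∃ D1 : ℕ, ∀ D ≥ D1, ∀ 𝒱 : Set (ℝ → SV e.b.m), 𝒱.Finite → (∀ v ∈ 𝒱, Cl0 e.b D v) →
    ∃ e' f0 f, Step β ν D e e' f0 f ∧ (∀ v ∈ 𝒱, InU ν f0 v) ∧ P e') →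
  ∃ (γ : ℝ → ℝ) (h : ℝ), Continuous γ ∧ (∀ ξ, γ (-ξ) = γ ξ ∧ sech2 ξ ≤ γ ξ ∧
      β * γ ξ ≤ sech2 ξ * (1 - β * (lam 𝒞 β - a))) ∧ β ^ 2 * ∫ ξ, γ ξ ∂ν ≤ h ∧
    ∀ ε > (0 : ℝ), ∃ (e : Ext) (D : ℕ), P e ∧ TwL admStmt 𝒞 β e.b ∧
      (∀ y ≥ -a, e.Eps (lam 𝒞 β) y ε) ∧
      (∀ a' ∈ Icc 0 a, ∃ Ξ al, Out2 e D (lam 𝒞 β) a' ε Ξ al) ∧
      ∃ Ξ, Out2 e D (lam 𝒞 β) a ε Ξ fun ξ => 1 / γ ξ + h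

def TailGlue : Prop := Cal → TailStmt
def EqGlue : Prop := Cal → PolApi → GalStmt → TailStmt → EqStmt
def OutGlue2 : Prop := Cal → PolApi → FamApi → WsStmt → BdStmt → GalStmt → GamStmt → IrrApi →
  ExStmt → EqStmt → OutStmt2
def LocGlue2 : Prop := PolApi → GamStmt → OneStmt → OutStmt2 → EqStmt → TwStep → LocStmt2

end Crest.Agent.T157.Tw
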