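import Crest.Agent.T157.LcLocB_30

/-!
# Row 157, block B/S4b (helper30): the diagonal `1 / γ + h` has the exact form `1 / g + β² E g`
-/

set_option autoImplicit false

namespace Crest.Agent.T157.Tw

open MeasureTheory Real Set

theorem exists_fix (β : ℝ) (ν : Measure ℝ) [IsProbabilityMeasure ν] {γ : ℝ → ℝ} {h M : ℝ}
    (hc : Continuous γ) (h0 : ∀ ξ, sech2 ξ ≤ γ ξ) (hM : ∀ ξ, γ ξ ≤ M) (hh : β ^ 2 * ∫ ξ, γ ξ ∂ν ≤ h) :
    ∃ t ∈ Icc 0 h, ∃ g : ℝ → ℝ, (∀ ξ, g ξ = γ ξ / (1 + t * γ ξ)) ∧ Continuous g ∧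
      ∀ ξ, sech2 ξ / (1 + h) ≤ g ξ ∧ 0 < g ξ ∧ g ξ ≤ γ ξ ∧
        1 / γ ξ + h = 1 / g ξ + β ^ 2 * ∫ ξ, g ξ ∂ν := by
  have p0 : ∀ ξ, 0 < γ ξ := fun ξ => (sech2_pos ξ).trans_le (h0 ξ)
  have d0 : ∀ t ξ, 1 ≤ 1 + |t| * γ ξ := fun t ξ =>
    le_add_of_nonneg_right (mul_nonneg (abs_nonneg t) (p0 ξ).le)
  have b0 : ∀ t ξ, 0 < γ ξ / (1 + |t| * γ ξ) ∧ γ ξ / (1 + |t| * γ ξ) ≤ γ ξ := fun t ξ =>
    ⟨div_pos (p0 ξ) (by linarith [d0 t ξ]), div_le_self (p0 ξ).le (d0 t ξ)⟩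
  have cg : ∀ t, Continuous fun ξ => γ ξ / (1 + |t| * γ ξ) := fun t =>
    hc.div (by fun_prop) fun ξ => by linarith [d0 t ξ]
  have cI : Continuous fun t : ℝ => ∫ ξ, γ ξ / (1 + |t| * γ ξ) ∂ν :=
    continuous_of_dominated (bound := fun _ => M) (fun t => (cg t).aestronglyMeasurable)
      (fun t => ae_of_all _ fun ξ => by
        rw [norm_eq_abs, abs_of_pos (b0 t ξ).1]; exact (b0 t ξ).2.trans (hM ξ))
      (integrable_const _) (ae_of_all _ fun ξ =>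
        continuous_const.div (by fun_prop) fun t => by linarith [d0 t ξ])
  have i0 : ∀ t, 0 ≤ β ^ 2 * ∫ ξ, γ ξ / (1 + |t| * γ ξ) ∂ν := fun t =>
    mul_nonneg (sq_nonneg _) (integral_nonneg fun ξ => (b0 t ξ).1.le)
  have hp : 0 ≤ h := le_trans (by simpa using i0 0) hh
  obtain ⟨t, ht, e⟩ := intermediate_value_Icc hp
    (f := fun t => t + β ^ 2 * ∫ ξ, γ ξ / (1 + |t| * γ ξ) ∂ν) (by fun_prop)
    (show h ∈ Icc _ _ from ⟨by simpa using hh, by simpa using i0 h⟩)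
  have b1 := b0 t
  have c1 := cg t
  simp only [abs_of_nonneg ht.1] at e b1 c1
  refine ⟨t, ht, _, fun _ => rfl, c1, fun ξ => ⟨?_, (b1 ξ).1, (b1 ξ).2, ?_⟩⟩
  · have := mul_nonneg ht.1 (p0 ξ).le
    rw [div_le_div_iff₀ (by linarith) (by linarith)]
    nlinarith [h0 ξ, mul_le_mul_of_nonneg_left (sech2_le ξ) this,
      mul_le_mul_of_nonneg_right ht.2 (p0 ξ).le]
  · have := (p0 ξ).ne'
    rw [← e, one_div_div, add_div, mul_div_cancel_right₀ _ this]; ring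

end Crest.Agent.T157.Tw
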