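import Crest.Agent.T157.LcDef_30

/-!
# Row 157, block B/S4b (helper30): the local ansatz from the contraction and the output
-/

set_option autoImplicit false

noncomputable section

namespace Crest.Agent.T157.Tw

open MeasureTheory Real Matrix Set

lemma mv_bd {k n : ℕ} (M : Matrix (Fin k) (Fin n) ℝ) (u : Fin n → ℝ) :
    (M *ᵥ u) ⬝ᵥ (M *ᵥ u) ≤ (∑ i, ∑ j, M i j ^ 2) * (u ⬝ᵥ u) := by
  rw [Finset.sum_mul]
  refine Finset.sum_le_sum fun i _ => ?_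
  have h := Finset.sum_mul_sq_le_sq_mul_sq Finset.univ (M i) u
  simpa [mulVec, dotProduct, sq] using h

lemma two_dot_le {n : ℕ} (u v : Fin n → ℝ) : 2 * (u ⬝ᵥ v) ≤ u ⬝ᵥ u + v ⬝ᵥ v := by
  have h := dot_nonneg (u - v)
  simp only [sub_dotProduct, dotProduct_sub, dotProduct_comm v u] at h
  linarith

/-- a priori bounds for the resolvent -/
lemma sol_bd {b : Bath} {l y : ℝ} (hb : b.Ge l) (hy : 0 < y + l) {u : Fin b.m → ℝ}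
    (hu : b.A *ᵥ u + y • u = b.g) :
    (y + l) * (u ⬝ᵥ u) ≤ b.g ⬝ᵥ u ∧ (y + l) * (b.g ⬝ᵥ u) ≤ b.g ⬝ᵥ b.g := by
  have h1 : (y + l) * (u ⬝ᵥ u) ≤ b.g ⬝ᵥ u := by
    have := hb u
    rw [← hu, add_dotProduct, smul_dotProduct, smul_eq_mul, dotProduct_comm (b.A *ᵥ u)]
    linarith
  have h2 := two_dot_le b.g ((y + l) • u)
  simp only [dotProduct_smul, smul_dotProduct, smul_eq_mul] at h2
  exact ⟨h1, by nlinarith⟩

lemma exists_sol {b : Bath} {l y : ℝ} (hb : b.Ge l) (hy : 0 < y + l) :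
    ∃ u, b.A *ᵥ u + y • u = b.g := by
  obtain ⟨r, hr⟩ := solve b hb (a := -y) (by linarith) b.g
  exact ⟨r, by rw [hr]; simp⟩

lemma Ext.Eps.mono {e : Ext} {l y η η' : ℝ} (h : e.Eps l y η) (hη : η ≤ η') : e.Eps l y η' :=
  fun u hu => (h u hu).trans hη

lemma Ext.eps0 (e : Ext) {l a : ℝ} (hb : e.b.Ge l) (ha : a < l) :
    ∃ S ≥ (0 : ℝ), ∀ y ≥ -a, e.Eps l y S := by
  set W := ∑ i, ∑ j, (e.bt.A * e.ι - e.ι * e.b.A) i j ^ 2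
  set K := ∑ i, ∑ j, e.bt.A i j ^ 2
  have W0 : 0 ≤ W := by positivity
  have K0 : 0 ≤ K := by positivity
  have c0 : 0 < l - a := by linarith
  have g0 := dot_nonneg e.b.g
  refine ⟨W * (e.b.g ⬝ᵥ e.b.g / (l - a)) + (1 + K) * (W * (e.b.g ⬝ᵥ e.b.g / (l - a) ^ 2)),
    by positivity, fun y hy u hu => ?_⟩
  have hc : l - a ≤ y + l := by linarith
  obtain ⟨h1, h2⟩ := sol_bd hb (c0.trans_le hc) hu
  have u0 := dot_nonneg u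
  have h3 : (y + l) * (u ⬝ᵥ u) ≤ e.b.g ⬝ᵥ e.b.g / (l - a) := by
    rw [le_div_iff₀ c0]; nlinarith [mul_nonneg (c0.trans_le hc).le u0]
  have h4 : u ⬝ᵥ u ≤ e.b.g ⬝ᵥ e.b.g / (l - a) ^ 2 := by
    rw [le_div_iff₀ c0] at h3
    rw [le_div_iff₀ (by positivity)]; nlinarith [mul_nonneg c0.le u0]
  have hw : e.w u ⬝ᵥ e.w u ≤ W * (u ⬝ᵥ u) := by
    have : e.w u = (e.bt.A * e.ι - e.ι * e.b.A) *ᵥ u := by simp [Ext.w, sub_mulVec]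
    rw [this]; exact mv_bd _ _
  have w0 := dot_nonneg (e.w u)
  have h5 := two_dot_le (e.w u) (e.bt.A *ᵥ e.w u)
  have h6 := mv_bd e.bt.A (e.w u)
  have h7 := mul_le_mul_of_nonneg_left hw (c0.trans_le hc).le
  have h8 := mul_le_mul_of_nonneg_left h3 W0
  have h9 := mul_le_mul_of_nonneg_left (hw.trans (mul_le_mul_of_nonneg_left h4 W0))
    (by positivity : 0 ≤ 1 + K)
  unfold Ext.res
  nlinarith [mul_nonneg K0 w0]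

lemma pigeon {X : Type} {Q G : X → Prop} (h : X → ℝ) {M ε : ℝ} (hε : 0 < ε)
    (bd : ∀ x, Q x → 0 ≤ h x ∧ h x ≤ M) (st : ∀ x, Q x → G x ∨ ∃ x', Q x' ∧ h x + ε ≤ h x')
    {x0 : X} (h0 : Q x0) : ∃ x, Q x ∧ G x := by
  by_contra hn
  have key : ∀ k : ℕ, ∃ x, Q x ∧ k * ε ≤ h x := fun k => by
    induction k with
    | zero => exact ⟨x0, h0, by simpa using (bd _ h0).1⟩
    | succ k ih =>
      obtain ⟨x, hx, hk⟩ := ih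
      obtain hg | ⟨x', hx', hh⟩ := st x hx
      · exact (hn ⟨x, hx, hg⟩).elim
      · exact ⟨x', hx', by push_cast; linarith⟩
  obtain ⟨k, hk⟩ := exists_nat_gt (M / ε)
  obtain ⟨x, hx, h1⟩ := key k
  rw [div_lt_iff₀ hε] at hk
  linarith [(bd x hx).2]

lemma Out.mono {e : Ext} {D : ℕ} {l a ε B B' : ℝ} {Ξ : ℝ → SV e.b.m} (h : Out e D l a ε B Ξ)
    (hB : B' ≤ B) : Out e D l a ε B' Ξ := ⟨h.1, fun ξ => by
  obtain ⟨h1, h2, h3, h4, h5, h6, h7⟩ := h.2 ξ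
  exact ⟨h1, h2, h3, h4, h5, h6, by linarith⟩⟩

lemma gAu {b : Bath} {y : ℝ} {u : Fin b.m → ℝ} (hu : b.A *ᵥ u + y • u = b.g) :
    b.g ⬝ᵥ b.A *ᵥ u = b.g ⬝ᵥ b.g - y * (b.g ⬝ᵥ u) := by
  rw [eq_sub_of_add_eq hu, dotProduct_sub, dotProduct_smul, smul_eq_mul]

lemma coer_resp (po : PolApi) {𝒞 : Cls} (h𝒞 : ∀ m, 𝒞.C m = PV m) {β a : ℝ} (ha : a < lam 𝒞 β)
    {b : Bath} (hb : TwL admStmt 𝒞 β b) : Coer b (lam 𝒞 β) ∧ Resp b a (Gs 𝒞 β a) := by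
  obtain ⟨h1, h2⟩ := domStmt _ _ _ _ hb
  refine ⟨⟨h1, fun ξ D F hF => sub_nonneg.1 (h2 ξ (cv _ F) (h𝒞 _ ▸ po.pv hF)).1⟩,
    fun ξ D F hF y hy hy0 => ?_⟩
  have h3 := (h2 ξ (cv _ F) (h𝒞 _ ▸ po.pv hF)).2 (-y) ⟨by linarith, by linarith⟩
  have h4 := mul_le_mul_of_nonneg_left (Gs_mono okStmt (show -y ≤ a by linarith) ha) (sech2_pos ξ).le
  have h5 : -Jf b ξ y F = 2 * (imp b ξ).N (sp _) (cv _ F) - (imp b ξ).Q (-y) (cv _ F) := by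
    change -(y * (imp b ξ).N (cv _ F) (cv _ F) + (imp b ξ).En (cv _ F) (cv _ F) -
      2 * (imp b ξ).N (sp _) (cv _ F)) = _
    rw [Pre.Q]; ring
  linarith

theorem locGlue : LocGlue := by
  intro _ po gam one out tw 𝒞 h𝒞 β hβ hβ1 a ha ν _ ε hε P e0 hP0 hT0 hst
  obtain ⟨hG1, -, hG⟩ := (lamStmt 𝒞 β hβ.le hβ1).2.2.2 a ha
  set l := lam 𝒞 β
  set G := Gs 𝒞 β a
  have c0 : 0 < l - a := sub_pos.2 ha.2
  have cr := fun b (hb : TwL admStmt 𝒞 β b) => coer_resp po h𝒞 ha.2 hb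
  obtain ⟨ω, Ω, θ, θ0, θ1, hω, one⟩ := one β l a G hβ ha.1 ha.2 (by linarith)
    (by nlinarith [mul_pos hβ c0])
  obtain ⟨η, η0, out⟩ := out l a G ε ha.1 ha.2 (by linarith) hε
  have Ω0 : 0 < Ω := by linarith [hω 0]
  set B := β ^ 2 + e0.b.g ⬝ᵥ e0.b.g
  let St : Ext → ℝ → Prop := fun e S => P e ∧ TwL admStmt 𝒞 β e.b ∧ e.b.g ⬝ᵥ e.b.g ≤ B ∧
    ∀ y ≥ -a, e.Eps l y (S * ω y)
  have mono : ∀ e S S', St e S → S ≤ S' → St e S' := fun e S S' h hS => ⟨h.1, h.2.1, h.2.2.1,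
    fun y hy => (h.2.2.2 y hy).mono (mul_le_mul_of_nonneg_right hS (by linarith [hω y]))⟩
  have step : ∀ e S, St e S → 0 ≤ S → ∀ δ > (0 : ℝ), ∀ D2 : ℕ, ∃ D ≥ D2, ∃ e', St e' (θ * S + δ) ∧
      ∀ u, e'.b.A *ᵥ u + (-a) • u = e'.b.g →
        β ^ 2 * ∫ ξ, gamD e.b a D ξ ∂ν - δ ≤ e'.b.g ⬝ᵥ e'.b.A *ᵥ u := by
    intro e S h S0 δ δ0 D2
    obtain ⟨D0, h0⟩ := one ν e (cr _ h.2.1).1 (cr _ h.2.1).2 S S0 h.2.2.2 δ δ0
    obtain ⟨D1, h1⟩ := hst e h.1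
    obtain ⟨𝒱, hf, hc, h0⟩ := h0 (D0 + D1 + D2) (by omega)
    obtain ⟨e', f0, f, hs, hin, hP⟩ := h1 (D0 + D1 + D2) (by omega) 𝒱 hf hc
    obtain ⟨k1, k2, k3⟩ := h0 e' f0 f hs hin
    exact ⟨_, by omega, e', ⟨hP, tw 𝒞 h𝒞 β hβ.ne' ν _ _ _ _ _ hs h.2.1,
      k2.trans (le_add_of_nonneg_right (dot_nonneg _)), k1⟩, k3⟩
  obtain ⟨S0, S00, hS0⟩ := e0.eps0 (cr _ hT0).1.1 ha.2
  set T := η / Ω
  have T0 : 0 < T := div_pos η0 Ω0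
  have ph1 : ∀ k : ℕ, ∃ e, St e (θ ^ k * S0 + T / 2) := fun k => by
    induction k with
    | zero => exact ⟨e0, hP0, hT0, le_add_of_nonneg_left (sq_nonneg β), fun y hy =>
        (hS0 y hy).mono (by nlinarith [hω y])⟩
    | succ k ih =>
      obtain ⟨e, he⟩ := ih
      obtain ⟨_, -, e', he', -⟩ := step e _ he (by positivity) ((1 - θ) * (T / 2))
        (mul_pos (by linarith) (by linarith)) 0
      exact ⟨e', mono _ _ _ he' (le_of_eq (by ring))⟩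
  obtain ⟨k, hk⟩ := exists_pow_lt_of_lt_one (show 0 < T / 2 / (S0 + 1) by positivity) θ1
  rw [lt_div_iff₀ (by positivity)] at hk
  obtain ⟨e1, he1⟩ := ph1 k
  replace he1 := mono _ _ T he1 (by nlinarith [pow_nonneg θ0 k])
  obtain ⟨u1, hu1⟩ := exists_sol (cr _ he1.2.1).1.1 (y := -a) (by linarith)
  refine (pigeon (X := (e : Ext) × (Fin e.b.m → ℝ))
    (Q := fun x => St x.1 T ∧ x.1.b.A *ᵥ x.2 + (-a) • x.2 = x.1.b.g)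
    (G := fun x => ∃ D, (∀ a' ∈ Icc 0 a, ∃ Ξ, Out x.1 D l a' ε 0 Ξ) ∧
      ∃ Ξ, Out x.1 D l a ε (β ^ 2 * ∫ ξ, gamD x.1.b a D ξ ∂ν - ε) Ξ)
    (fun x => x.1.b.g ⬝ᵥ x.1.b.A *ᵥ x.2) (M := B + a * (B / (l - a))) (half_pos hε) ?_ ?_
    (x0 := ⟨e1, u1⟩) ⟨he1, hu1⟩).elim ?_
  rotate_left 2
  · rintro x ⟨hx, D, hD⟩
    obtain ⟨g1, g2⟩ := gam x.1.b l a G ha.1 ha.2 (cr _ hx.1.2.1).1 (cr _ hx.1.2.1).2 D
    refine ⟨x.1, D, hx.1.1, hx.1.2.1, hD.1, hD.2, g1, fun ξ => ⟨(g2 ξ).1, (g2 ξ).2.1, ?_⟩⟩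
    have h1 := mul_le_mul_of_nonneg_left (g2 ξ).2.2 hβ.le
    have h2 := mul_le_mul_of_nonneg_left hG (sech2_pos ξ).le
    linarith
  · rintro ⟨e, u⟩ ⟨he, hu⟩
    obtain ⟨h1, h2⟩ := sol_bd (cr _ he.2.1).1.1 (y := -a) (by linarith) hu
    have h3 : 0 ≤ e.b.g ⬝ᵥ u := le_trans (mul_nonneg (by linarith) (dot_nonneg u)) h1
    have h4 : e.b.g ⬝ᵥ u ≤ B / (l - a) := by
      rw [le_div_iff₀ c0]; linarith [he.2.2.1]
    have h5 := mul_le_mul_of_nonneg_left h4 ha.1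
    have h6 := mul_nonneg ha.1 h3
    simp only [gAu hu]
    constructor <;> linarith [dot_nonneg e.b.g, he.2.2.1]
  · rintro ⟨e, u⟩ ⟨he, hu⟩
    obtain ⟨D0, h0⟩ := out e (cr _ he.2.1).1 (cr _ he.2.1).2 fun y hy => (he.2.2.2 y hy).mono (by
      have := mul_le_mul_of_nonneg_left (hω y).2 T0.le
      rwa [div_mul_cancel₀ _ Ω0.ne'] at this)
    obtain ⟨D, hD, e', he', h1⟩ := step e T he T0.le (min ((1 - θ) * T) (ε / 2))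
      (lt_min (mul_pos (by linarith) T0) (half_pos hε)) D0
    replace he' := mono _ _ T he' (by linarith [min_le_left ((1 - θ) * T) (ε / 2)])
    obtain ⟨u', hu'⟩ := exists_sol (cr _ he'.2.1).1.1 (y := -a) (by linarith)
    by_cases hc : e.b.g ⬝ᵥ e.b.A *ᵥ u + ε / 2 ≤ e'.b.g ⬝ᵥ e'.b.A *ᵥ u'
    · exact .inr ⟨⟨e', u'⟩, ⟨he', hu'⟩, hc⟩
    refine .inl ⟨D, fun a' ha' => ?_, ?_⟩
    · obtain ⟨v, hv⟩ := exists_sol (cr _ he.2.1).1.1 (y := -a') (by linarith [ha'.2])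
      obtain ⟨Ξ, hΞ⟩ := h0 D hD a' ha' v hv
      obtain ⟨k1, -⟩ := sol_bd (cr _ he.2.1).1.1 (y := -a') (by linarith [ha'.2]) hv
      have k3 : 0 ≤ e.b.g ⬝ᵥ v := le_trans (mul_nonneg (by linarith [ha'.2]) (dot_nonneg v)) k1
      refine ⟨Ξ, hΞ.mono ?_⟩
      rw [gAu hv]
      linarith [dot_nonneg e.b.g, mul_nonneg ha'.1 k3]
    · obtain ⟨Ξ, hΞ⟩ := h0 D hD a ⟨ha.1, le_rfl⟩ u hu
      exact ⟨Ξ, hΞ.mono (by linarith [h1 u' hu', min_le_right ((1 - θ) * T) (ε / 2)])⟩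

end Crest.Agent.T157.Tw
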