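import Crest.Agent.T157.LcDefB_30
import Crest.Agent.T157.LcLoc_30

/-!
# Row 157, block B/S4b (helper30): the local ansatz with a canonical diagonal
-/

set_option autoImplicit false

noncomputable section

namespace Crest.Agent.T157.Tw

open MeasureTheory Real Matrix Set Filter Topology

lemma unif_lim (𝒰 : Ultrafilter ℕ) (r : ℕ → ℝ → ℝ) {M : ℝ} (bd : ∀ k ξ, r k ξ ∈ Icc 0 M)
    (eq : ∀ η > (0 : ℝ), ∃ δ > (0 : ℝ), ∃ B : ℝ, ∀ k ξ, (∀ ξ', |ξ - ξ'| ≤ δ → |r k ξ - r k ξ'| ≤ η) ∧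
      (B ≤ |ξ| → ∀ j, |r k ξ - r j ξ| ≤ η)) :
    ∃ R : ℝ → ℝ, Continuous R ∧ (∀ ξ, Tendsto (r · ξ) 𝒰 (𝓝 (R ξ))) ∧
      ∀ η > (0 : ℝ), ∀ᶠ k in 𝒰, ∀ ξ, |r k ξ - R ξ| ≤ η := by
  have ex : ∀ ξ, ∃ x, Tendsto (r · ξ) 𝒰 (𝓝 x) := fun ξ => by
    obtain ⟨x, -, hx⟩ := (isCompact_Icc (a := 0) (b := M)).ultrafilter_le_nhds (𝒰.map (r · ξ))
      (by rw [Ultrafilter.coe_map, le_principal_iff, mem_map]; exact univ_mem' fun k => bd k ξ)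
    exact ⟨x, hx⟩
  choose R hR using ex
  have eR : ∀ {η ξ ξ'}, (∀ k, |r k ξ - r k ξ'| ≤ η) → |R ξ - R ξ'| ≤ η := fun h =>
    le_of_tendsto' ((hR _).sub (hR _)).abs h
  refine ⟨R, Metric.continuous_iff.2 fun ξ η η0 => ?_, hR, fun η η0 => ?_⟩
  · obtain ⟨δ, δ0, B, h⟩ := eq (η / 2) (half_pos η0)
    exact ⟨δ, δ0, fun ξ' hξ => (eR fun k => (h k ξ').1 ξ hξ.le).trans_lt (half_lt_self η0)⟩
  obtain ⟨δ, δ0, B, h⟩ := eq (η / 3) (by positivity)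
  obtain ⟨t, -, ht, hc⟩ := finite_cover_balls_of_compact (isCompact_Icc (a := -B) (b := B)) δ0
  have h1 : ∀ᶠ k in 𝒰, ∀ x ∈ t, |r k x - R x| ≤ η / 3 := (eventually_all_finite ht).2 fun x _ =>
    (Metric.tendsto_nhds.1 (hR x) (η / 3) (by positivity)).mono fun k hk => hk.le
  refine h1.mono fun k hk ξ => ?_
  by_cases hB : B ≤ |ξ|
  · exact (le_of_tendsto' (tendsto_const_nhds.sub (hR ξ)).abs ((h k ξ).2 hB)).trans (by linarith)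
  obtain ⟨x, hx, hξ⟩ := mem_iUnion₂.1 (hc (abs_le.1 (not_le.1 hB).le))
  have hξ : |ξ - x| ≤ δ := (Metric.mem_ball.1 hξ).le
  have a1 := abs_le.1 ((h k ξ).1 x hξ)
  have a2 := abs_le.1 (hk x hx)
  have a3 := abs_le.1 (eR fun j => (h j ξ).1 x hξ)
  rw [abs_le]; constructor <;> linarith

lemma Out2.mono {e : Ext} {D : ℕ} {l a ε ε' : ℝ} {Ξ : ℝ → SV e.b.m} {al al' : ℝ → ℝ}
    (h : Out2 e D l a ε Ξ al) (hε : ε ≤ ε') (hal : ∀ ξ, |al ξ - al' ξ| ≤ (ε' - ε) / sech2 ξ) :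
    Out2 e D l a ε' Ξ al' := ⟨h.1, fun ξ => by
  obtain ⟨h1, h2, h3, h4, h5, h6, h7⟩ := h.2 ξ
  refine ⟨h1, h2, h3.trans hε, h4, h5, h6, (abs_sub_le _ (al ξ) _).trans ?_⟩
  have := hal ξ
  rw [sub_div] at this
  linarith⟩

/-- towers with a small residual functional and a stationary response -/
lemma loc_core (po : PolApi) (one : OneStmt) (tw : TwStep) {𝒞 : Cls} (h𝒞 : ∀ m, 𝒞.C m = PV m)
    {β : ℝ} (hβ : 0 < β) (hβ1 : β < 1) {a : ℝ} (ha : a ∈ Ico 0 (lam 𝒞 β)) (ν : Measure ℝ)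
    [IsProbabilityMeasure ν] {P : Ext → Prop} {e0 : Ext} (hP0 : P e0) (hT0 : TwL admStmt 𝒞 β e0.b)
    (hst : ∀ e, P e → ∃ D1 : ℕ, ∀ D ≥ D1, ∀ 𝒱 : Set (ℝ → SV e.b.m), 𝒱.Finite →
      (∀ v ∈ 𝒱, Cl0 e.b D v) → ∃ e' f0 f, Step β ν D e e' f0 f ∧ (∀ v ∈ 𝒱, InU ν f0 v) ∧ P e') :
    ∃ B M : ℝ, ∀ η > (0 : ℝ), ∀ D0 : Ext → ℕ, ∃ (e : Ext) (D : ℕ) (u : Fin e.b.m → ℝ),
      P e ∧ TwL admStmt 𝒞 β e.b ∧ e.b.g ⬝ᵥ e.b.g ≤ B ∧ (∀ y ≥ -a, e.Eps (lam 𝒞 β) y η) ∧ D0 e ≤ D ∧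
      e.b.A *ᵥ u + (-a) • u = e.b.g ∧ e.b.g ⬝ᵥ e.b.A *ᵥ u ∈ Icc 0 M ∧
      β ^ 2 * ∫ ξ, gamD e.b a D ξ ∂ν - η ≤ e.b.g ⬝ᵥ e.b.A *ᵥ u := by
  obtain ⟨hG1, -, hG⟩ := (lamStmt 𝒞 β hβ.le hβ1).2.2.2 a ha
  set l := lam 𝒞 β
  set G := Gs 𝒞 β a
  have c0 : 0 < l - a := sub_pos.2 ha.2
  have cr := fun b (hb : TwL admStmt 𝒞 β b) => coer_resp po h𝒞 ha.2 hb
  obtain ⟨ω, Ω, θ, θ0, θ1, hω, one⟩ := one β l a G hβ ha.1 ha.2 (by linarith)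
    (by nlinarith [mul_pos hβ c0])
  have Ω0 : 0 < Ω := by linarith [hω 0]
  set B := β ^ 2 + e0.b.g ⬝ᵥ e0.b.g
  refine ⟨B, B + a * (B / (l - a)), fun η η0 D0 => ?_⟩
  let St : Ext → ℝ → Prop := fun e S => P e ∧ TwL admStmt 𝒞 β e.b ∧ e.b.g ⬝ᵥ e.b.g ≤ B ∧
    ∀ y ≥ -a, e.Eps l y (S * ω y)
  have mono : ∀ e S S', St e S → S ≤ S' → St e S' := fun e S S' h hS => ⟨h.1, h.2.1, h.2.2.1,
    fun y hy => (h.2.2.2 y hy).mono (mul_le_mul_of_nonneg_right hS (by linarith [hω y]))⟩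
  have step : ∀ e S, St e S → 0 ≤ S → ∀ δ > (0 : ℝ), ∀ D2 : ℕ, ∃ D ≥ D2, ∃ e', St e' (θ * S + δ) ∧
      ∀ u, e'.b.A *ᵥ u + (-a) • u = e'.b.g →
        β ^ 2 * ∫ ξ, gamD e.b a D ξ ∂ν - δ ≤ e'.b.g ⬝ᵥ e'.b.A *ᵥ u := by
    intro e S h S0 δ δ0 D2
    obtain ⟨D0, h0⟩ := one ν e (cr _ h.2.1).1 (cr _ h.2.1).2 S S0 h.2.2.2 δ δ0
    obtain ⟨D1, h1⟩ := hst e h.1
    obtain ⟨𝒱, hf, hc, h0⟩ := h0 (D0 + D1 + D2) (by omega)
    obtain ⟨e', f0, f, hs, hin, hP⟩ := h1 (D0 + D1 + D2) (by omega) 𝒱 hf hc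
    obtain ⟨k1, k2, k3⟩ := h0 e' f0 f hs hin
    exact ⟨_, by omega, e', ⟨hP, tw 𝒞 h𝒞 β hβ.ne' ν _ _ _ _ _ hs h.2.1,
      k2.trans (le_add_of_nonneg_right (dot_nonneg _)), k1⟩, k3⟩
  obtain ⟨S0, S00, hS0⟩ := e0.eps0 (cr _ hT0).1.1 ha.2
  set T := η / Ω
  have T0 : 0 < T := div_pos η0 Ω0
  have ph1 : ∀ k : ℕ, ∃ e, St e (θ ^ k * S0 + T / 2) := fun k => by
    induction k with
    | zero => exact ⟨e0, hP0, hT0, le_add_of_nonneg_left (sq_nonneg β), fun y hy =>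
        (hS0 y hy).mono (by nlinarith [hω y])⟩
    | succ k ih =>
      obtain ⟨e, he⟩ := ih
      obtain ⟨_, -, e', he', -⟩ := step e _ he (by positivity) ((1 - θ) * (T / 2))
        (mul_pos (by linarith) (by linarith)) 0
      exact ⟨e', mono _ _ _ he' (le_of_eq (by ring))⟩
  obtain ⟨k, hk⟩ := exists_pow_lt_of_lt_one (show 0 < T / 2 / (S0 + 1) by positivity) θ1
  rw [lt_div_iff₀ (by positivity)] at hk
  obtain ⟨e1, he1⟩ := ph1 k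
  replace he1 := mono _ _ T he1 (by nlinarith [pow_nonneg θ0 k])
  obtain ⟨u1, hu1⟩ := exists_sol (cr _ he1.2.1).1.1 (y := -a) (by linarith)
  have bd : ∀ x : (e : Ext) × (Fin e.b.m → ℝ), St x.1 T ∧ x.1.b.A *ᵥ x.2 + (-a) • x.2 = x.1.b.g →
      0 ≤ x.1.b.g ⬝ᵥ x.1.b.A *ᵥ x.2 ∧ x.1.b.g ⬝ᵥ x.1.b.A *ᵥ x.2 ≤ B + a * (B / (l - a)) := by
    rintro ⟨e, u⟩ ⟨he, hu⟩
    obtain ⟨h1, h2⟩ := sol_bd (cr _ he.2.1).1.1 (y := -a) (by linarith) hu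
    have h3 : 0 ≤ e.b.g ⬝ᵥ u := le_trans (mul_nonneg (by linarith) (dot_nonneg u)) h1
    have h4 : e.b.g ⬝ᵥ u ≤ B / (l - a) := by
      rw [le_div_iff₀ c0]; linarith [he.2.2.1]
    have h5 := mul_le_mul_of_nonneg_left h4 ha.1
    have h6 := mul_nonneg ha.1 h3
    simp only [gAu hu]
    constructor <;> linarith [dot_nonneg e.b.g, he.2.2.1]
  refine (pigeon (X := (e : Ext) × (Fin e.b.m → ℝ)) (G := fun x => ∃ D ≥ D0 x.1,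
      β ^ 2 * ∫ ξ, gamD x.1.b a D ξ ∂ν - η ≤ x.1.b.g ⬝ᵥ x.1.b.A *ᵥ x.2)
    (fun x => x.1.b.g ⬝ᵥ x.1.b.A *ᵥ x.2) (half_pos η0) bd ?_ (x0 := ⟨e1, u1⟩) ⟨he1, hu1⟩).elim ?_
  · rintro ⟨e, u⟩ ⟨he, hu⟩
    obtain ⟨D, hD, e', he', h1⟩ := step e T he T0.le (min ((1 - θ) * T) (η / 2))
      (lt_min (mul_pos (by linarith) T0) (half_pos η0)) (D0 e)
    replace he' := mono _ _ T he' (by linarith [min_le_left ((1 - θ) * T) (η / 2)])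
    obtain ⟨u', hu'⟩ := exists_sol (cr _ he'.2.1).1.1 (y := -a) (by linarith)
    by_cases hc : e.b.g ⬝ᵥ e.b.A *ᵥ u + η / 2 ≤ e'.b.g ⬝ᵥ e'.b.A *ᵥ u'
    · exact .inr ⟨⟨e', u'⟩, ⟨he', hu'⟩, hc⟩
    · exact .inl ⟨D, hD, by linarith [h1 u' hu', min_le_right ((1 - θ) * T) (η / 2)]⟩
  · rintro x ⟨hx, D, hD, h⟩
    refine ⟨x.1, D, x.2, hx.1.1, hx.1.2.1, hx.1.2.2.1, fun y hy => (hx.1.2.2.2 y hy).mono ?_, hD, hx.2,
      bd x hx, h⟩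
    have := mul_le_mul_of_nonneg_left (hω y).2 T0.le
    rwa [div_mul_cancel₀ _ Ω0.ne'] at this

lemma continuous_sech2 : Continuous sech2 :=
  continuous_const.div (continuous_cosh.pow 2) fun x => pow_ne_zero _ (cosh_pos x).ne'

theorem locGlue2 : LocGlue2 := by
  intro po gam one out eq tw 𝒞 h𝒞 β hβ hβ1 a ha ν _ P e0 hP0 hT0 hst
  obtain ⟨B, M, core⟩ := loc_core po one tw h𝒞 hβ hβ1 ha ν hP0 hT0 hst
  obtain ⟨hG1, -, hG⟩ := (lamStmt 𝒞 β hβ.le hβ1).2.2.2 a ha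
  have a1 : 0 < 1 - a := by nlinarith [(lamStmt 𝒞 β hβ.le hβ1).2.1, ha.2]
  set l := lam 𝒞 β
  set G := Gs 𝒞 β a
  have cr := fun b (hb : TwL admStmt 𝒞 β b) => coer_resp po h𝒞 ha.2 hb
  have fin : ∀ k : ℕ, ∃ (e : Ext) (D : ℕ) (h : ℝ), P e ∧ TwL admStmt 𝒞 β e.b ∧ e.b.g ⬝ᵥ e.b.g ≤ B ∧
      (∀ y ≥ -a, e.Eps l y (1 / (k + 1))) ∧ (∀ a' ∈ Icc 0 a, ∃ Ξ al, Out2 e D l a' (1 / (k + 1)) Ξ al) ∧
      (∃ Ξ, Out2 e D l a (1 / (k + 1)) Ξ fun ξ => 1 / gamD e.b a D ξ + h) ∧ h ∈ Icc 0 M ∧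
      β ^ 2 * ∫ ξ, gamD e.b a D ξ ∂ν - 1 / (k + 1) ≤ h := fun k => by
    have ε0 : (0 : ℝ) < 1 / (k + 1) := by positivity
    obtain ⟨η, η0, out⟩ := out l a G _ ha.1 ha.2 (by linarith) ε0
    choose! D0 hD0 using out
    obtain ⟨e, D, u, h1, h2, h3, h4, h5, h6, h7, h8⟩ := core _ (lt_min η0 ε0) D0
    have o := hD0 e (cr _ h2).1 (cr _ h2).2 (fun y hy => (h4 y hy).mono (min_le_left _ _)) D h5
    refine ⟨e, D, _, h1, h2, h3, fun y hy => (h4 y hy).mono (min_le_right _ _), fun a' ha' => ?_,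
      o a ⟨ha.1, le_rfl⟩ u h6, h7, by linarith [min_le_right η (1 / (k + 1))]⟩
    obtain ⟨v, hv⟩ := exists_sol (cr _ h2).1.1 (y := -a') (by linarith [ha'.2, ha.2])
    obtain ⟨Ξ, hΞ⟩ := o a' ha' v hv
    exact ⟨Ξ, _, hΞ⟩
  choose e D h hP hT hB hE hO hO' hM hI using fin
  have gm := fun k => gam (e k).b l a G ha.1 ha.2 (cr _ (hT k)).1 (cr _ (hT k)).2 (D k)
  set r : ℕ → ℝ → ℝ := fun k ξ => gamD (e k).b a (D k) ξ / sech2 ξ with hr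
  have r1 : ∀ k ξ, 1 ≤ r k ξ ∧ r k ξ ≤ 1 + a * G := fun k ξ =>
    ⟨(one_le_div (sech2_pos ξ)).2 ((gm k).2 ξ).2.1,
      (div_le_iff₀' (sech2_pos ξ)).2 ((gm k).2 ξ).2.2⟩
  obtain ⟨R, hRc, hR, hU⟩ := unif_lim (hyperfilter ℕ) r (M := 1 + a * G)
    (fun k ξ => ⟨by linarith [r1 k ξ], (r1 k ξ).2⟩) fun η η0 => by
      obtain ⟨δ, δ0, B', h⟩ := eq l a B ha.1 ha.2 (η * (1 - a) / 2) (by positivity)
      have h := fun k => h _ (D k) (cr _ (hT k)).1 (hB k)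
      refine ⟨δ, δ0, B', fun k ξ => ⟨fun ξ' hξ => ((h k ξ).1 ξ' hξ).trans (by nlinarith [ha.1]),
        fun hξ j => ?_⟩⟩
      have b1 := abs_le.1 ((h k ξ).2 hξ)
      have b2 := abs_le.1 ((h j ξ).2 hξ)
      rw [abs_le]
      constructor <;> refine le_of_mul_le_mul_left ?_ a1 <;> simp only [hr] <;> linarith
  obtain ⟨H, -, hH⟩ := (isCompact_Icc (a := 0) (b := M)).ultrafilter_le_nhds ((hyperfilter ℕ).map h)
    (by rw [Ultrafilter.coe_map, le_principal_iff, mem_map]; exact univ_mem' hM)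
  have R1 : ∀ ξ, 1 ≤ R ξ ∧ R ξ ≤ 1 + a * G := fun ξ =>
    ⟨ge_of_tendsto' (hR ξ) fun k => (r1 k ξ).1, le_of_tendsto' (hR ξ) fun k => (r1 k ξ).2⟩
  have ev : ∀ η > (0 : ℝ), ∃ k : ℕ, (∀ ξ, |r k ξ - R ξ| ≤ η) ∧ |h k - H| ≤ η ∧ (1 : ℝ) / (k + 1) ≤ η :=
    fun η η0 => ((hU η η0).and (((Metric.tendsto_nhds.1 hH η η0).mono fun k hk => hk.le).and
      (((tendsto_one_div_add_atTop_nhds_zero_nat.eventually (ge_mem_nhds η0))).filter_mono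
        (hyperfilter_le_cofinite.trans Nat.cofinite_eq_atTop.le)))).exists
  have eg : ∀ k ξ, gamD (e k).b a (D k) ξ = r k ξ * sech2 ξ := fun k ξ =>
    (div_mul_cancel₀ _ (sech2_pos ξ).ne').symm
  have hc : Continuous fun ξ => R ξ * sech2 ξ := hRc.mul continuous_sech2
  have bm : ∀ c : ℝ → ℝ, Continuous (fun ξ => c ξ * sech2 ξ) → (∀ ξ, 1 ≤ c ξ ∧ c ξ ≤ 1 + a * G) →
      Integrable (fun ξ => c ξ * sech2 ξ) ν := fun c h1 h2 =>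
    BM.int ⟨h1.measurable, 1 + a * G, fun ξ => by
      rw [abs_of_nonneg (mul_nonneg (by linarith [h2 ξ]) (sech2_pos ξ).le)]
      nlinarith [h2 ξ, sech2_le ξ, sech2_pos ξ]⟩ ν
  refine ⟨fun ξ => R ξ * sech2 ξ, H, hc, fun ξ => ⟨?_, ?_, ?_⟩, ?_, fun ε ε0 => ?_⟩
  · have e1 : sech2 (-ξ) = sech2 ξ := by simp [sech2]
    have e2 : R (-ξ) = R ξ := tendsto_nhds_unique (hR (-ξ)) ((hR ξ).congr fun k => by
      simp only [hr, ((gm k).2 ξ).1, e1])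
    simp only [e1, e2]
  · nlinarith [R1 ξ, sech2_pos ξ]
  · nlinarith [mul_le_mul_of_nonneg_left (R1 ξ).2 hβ.le, sech2_pos ξ]
  · refine le_of_forall_pos_le_add fun η η0 => ?_
    obtain ⟨k, k1, k2, k3⟩ := ev (η / 3) (by positivity)
    have i2 := bm (r k) (by simpa only [← eg] using (gm k).1) (r1 k)
    have i3 : ∫ ξ, R ξ * sech2 ξ ∂ν ≤ ∫ ξ, (r k ξ * sech2 ξ + η / 3) ∂ν :=
      integral_mono (bm R hc R1) (i2.add (integrable_const _)) fun ξ => by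
        have := abs_le.1 (k1 ξ)
        simp only
        nlinarith [sech2_le ξ, sech2_pos ξ]
    rw [integral_add i2 (integrable_const _), integral_const] at i3
    have i4 := hI k
    simp only [eg] at i4
    simp only [probReal_univ, smul_eq_mul, one_mul] at i3
    have b2 : β ^ 2 ≤ 1 := by nlinarith
    nlinarith [abs_le.1 k2, mul_le_mul_of_nonneg_left i3 (sq_nonneg β)]
  · obtain ⟨k, k1, k2, k3⟩ := ev (ε / 3) (by positivity)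
    obtain ⟨Ξ, hΞ⟩ := hO' k
    refine ⟨e k, D k, hP k, hT k, fun y hy => (hE k y hy).mono (by linarith), fun a' ha' => ?_, Ξ,
      hΞ.mono (by linarith) fun ξ => ?_⟩
    · obtain ⟨Ξ, al, h⟩ := hO k a' ha'
      exact ⟨Ξ, al, h.mono (by linarith) fun ξ => by
        rw [sub_self, abs_zero]; exact div_nonneg (by linarith) (sech2_pos ξ).le⟩
    · have p0 := sech2_pos ξ
      have q1 := (r1 k ξ).1
      have q2 := (R1 ξ).1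
      have e1 : 1 / gamD (e k).b a (D k) ξ + h k - (1 / (R ξ * sech2 ξ) + H) =
          ((R ξ - r k ξ) / (r k ξ * R ξ) + (h k - H) * sech2 ξ) / sech2 ξ := by
        rw [eg]; field_simp; ring
      rw [e1, abs_div, abs_of_pos p0]
      refine div_le_div_of_nonneg_right ((abs_add_le _ _).trans ?_) p0.le
      have e2 : |(R ξ - r k ξ) / (r k ξ * R ξ)| ≤ ε / 3 := by
        rw [abs_div, abs_of_pos (by positivity : 0 < r k ξ * R ξ), abs_sub_comm]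
        exact (div_le_self (abs_nonneg _) (by nlinarith)).trans (k1 ξ)
      have e3 : |(h k - H) * sech2 ξ| ≤ ε / 3 := by
        rw [abs_mul, abs_of_pos p0]
        nlinarith [sech2_le ξ, abs_nonneg (h k - H)]
      linarith

end Crest.Agent.T157.Tw
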