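import Crest.Agent.T157.LcAll_30

/-!
# Row 157, block B/S4b (helper30): the weighted energy of the ansatz
-/

set_option autoImplicit false

namespace Crest.Agent.T157.Tw

open Real Ex49

lemma amgm {x A B c : ℝ} (hc : 0 < c) (hA : 0 ≤ A) (hB : 0 ≤ B) (h : x ^ 2 ≤ A * B) :
    |x| ≤ c / 4 * A + B / c := by
  refine abs_le_of_sq_le_sq (h.trans ?_) (by positivity)
  have e : A * B = 4 * (c / 4 * A) * (B / c) := by field_simp
  rw [e]; nlinarith [sq_nonneg (c / 4 * A - B / c)]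

theorem Out2.mf_le {e : Ext} {D : ℕ} {l a ε : ℝ} {Ξ : ℝ → SV e.b.m} {al : ℝ → ℝ} (hC : Coer e.b l)
    (ha : 0 ≤ a) (hal : a < l) (h : Out2 e D l a ε Ξ al) (ξ : ℝ) :
    Mf e.b ξ 1 (Ξ ξ) ≤ 4 / (l - a) ^ 2 * (sech2 ξ + ε) := by
  obtain ⟨hI, -, hR, -⟩ := h.2 ξ
  have hX := hC.2 ξ D _ (h.1.2.2.2 ξ)
  have hs := hC.2 ξ D _ (s_mem polApi e.b.m D)
  generalize Ξ ξ = X at *
  have ok := cal.ok e.b ξ
  have ok' := cal.ok e.bt ξ
  have hp := sech2_pos ξ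
  have hq := cal.Es e.b ξ
  rw [cal.Ns] at hs
  have l1 : l ≤ 1 := by nlinarith
  have c0 : 0 < l - a := sub_pos.2 hal
  have h0 : exS e.bt ξ (pull e.ι X) = 0 := by rw [cal.p_ex, hI.1]
  have key : (imS e.bt ξ).N (e.R a ξ X) (pull e.ι X) = (imS e.b ξ).En (sS _) X +
      (imS e.b ξ).En X X - a * (imS e.b ξ).N X X := by
    have e1 := Ext3.N_gen cal e.bt ξ (pull e.ι (sS _ + X)) _ h0
    have e2 := Ext3.N_st cal e.bt ξ (pull e.ι X)
    have e3 := N_zl cal e.bt ξ e.bt.g (pull e.ι X)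
    rw [← pull_s e.ι, cal.p_N, hI.2.2] at e2
    rw [ok'.sN, zl_apply] at e3
    simp only [ex_d_pull cal e ξ hI.2.1, mul_zero, Finset.sum_const_zero] at e3
    rw [cal.p_En, LinearMap.map_add₂] at e1
    simp only [Ext.R, map_sub, map_smul, LinearMap.sub_apply, LinearMap.smul_apply, smul_eq_mul, e1,
      e2, e3, cal.p_N]
    ring
  have r0 : (imS e.bt ξ).N (e.R a ξ X) (e.R a ξ X) ≤ ε := by
    have := ok'.pE (e.R a ξ X)
    rw [Mf] at hR; linarith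
  have N0 := ok.pN X
  have E0 := ok.pE X
  have ε0 : 0 ≤ ε := (ok'.pN _).trans r0
  have b1 := Out2.b_cs ok'.pN ok'.sN (e.R a ξ X) (pull e.ι X)
  have b2 := Out2.b_cs ok.pE ok.sE (sS _) X
  rw [cal.p_N] at b1
  have a1 := abs_le.1 (amgm c0 N0 ε0 (b1.trans (by nlinarith)))
  have a2 := abs_le.1 (amgm c0 E0 hp.le (b2.trans (by nlinarith)))
  rw [Mf, one_mul, div_mul_eq_mul_div, le_div_iff₀ (by positivity)]
  have q1 : (l - a) * (imS e.b ξ).En X X ≤ (imS e.b ξ).En X X - a * (imS e.b ξ).N X X := by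
    refine le_of_mul_le_mul_left ?_ (ha.trans_lt hal)
    nlinarith [mul_le_mul_of_nonneg_left hX ha, mul_le_mul_of_nonneg_right l1 (mul_nonneg c0.le E0)]
  have q2 : (imS e.b ξ).En X X - a * (imS e.b ξ).N X X ≤ 2 * ((sech2 ξ + ε) / (l - a)) := by
    rw [add_div]; linarith [a1.2, a2.1]
  have q3 := mul_le_mul_of_nonneg_left q2 c0.le
  rw [mul_left_comm, mul_div_cancel₀ _ c0.ne'] at q3
  nlinarith [mul_le_mul_of_nonneg_left q1 c0.le, mul_le_mul_of_nonneg_left hX c0.le]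

end Crest.Agent.T157.Tw
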