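import Crest.Agent.T157.LcDef_30
import Crest.Agent.T157.HmC_3

/-!
# Row 157, block B/S4b (helper3): `PolApi`
-/

set_option autoImplicit false
set_option linter.all false

noncomputable section

namespace Crest.Agent.T157.Tw

open MeasureTheory Real Matrix Set
open Crest.Agent.R238.Gap Crest.Agent.R253.Meh74

namespace Pol3

variable {m : ℕ}

lemma mem_iff {D : ℕ} {F : SV m} : F ∈ PolS m D ↔ Hm.PQ (D + 1) F.1 := by
  refine forall_congr' fun s => ⟨?_, fun h => ?_⟩
  · rintro ⟨p, hp, e⟩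
    rw [show F.1 s = fun X => MvPolynomial.eval (fun i => X i) p from funext e]
    exact Hm.eval_mem p (Nat.lt_succ_of_le hp)
  · simpa using Hm.exists_eval h

lemma sm_pl {D : ℕ} {f : E m → ℝ} (h : f ∈ Hm.Pl m D) : Sm f :=
  sm_of (S := Hm.Pl m D) (fun _ hh => ⟨Hm.c1 hh, Hm.pd_mem_self hh⟩) h

/-- a pair of polynomials as an element of the smooth algebra -/
def mk {D : ℕ} (F : Hm.Fn m) (h : Hm.PQ D F) : SV m := ⟨F, fun s => sm_pl (h s)⟩

lemma ou_eq (b : Bath) (F : SV b.m) : (ouS b F).1 = Hm.NN b F.1 := by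
  funext s X
  simp only [ouS, LinearMap.sum_apply, LinearMap.smul_apply, LinearMap.sub_apply,
    LinearMap.comp_apply, LinearMap.mul_apply', AddSubmonoidClass.coe_finsetSum, Finset.sum_apply,
    Hm.NN, Hm.ds]
  refine Finset.sum_congr rfl fun i _ => Finset.sum_congr rfl fun j _ => ?_
  show b.A i j * ((X i - b.g i * sg s) * pd j (F.1 s) X - pd i (pd j (F.1 s)) X) = _
  simp only [Hm.dd, mul_comm (b.g i)]

lemma ex_mul (b : Bath) (ξ : ℝ) (F G : SV b.m) : exS b ξ (F * G) = Hm.iq b ξ F.1 G.1 := rfl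

end Pol3

open Pol3 in
theorem polApi : PolApi where
  fg m D := by
    let L : (Bool → Hm.Pl m (D + 1)) →ₗ[ℝ] SV m :=
      { toFun := fun p => mk (fun s => (p s).1) fun s => (p s).2
        map_add' := fun _ _ => rfl
        map_smul' := fun _ _ => rfl }
    have : PolS m D = LinearMap.range L := by
      ext F
      rw [mem_iff]
      exact ⟨fun h => ⟨fun s => ⟨F.1 s, h s⟩, rfl⟩, by rintro ⟨p, rfl⟩ s; exact (p s).2⟩
    rw [this, LinearMap.range_eq_map]
    exact Module.Finite.fg_top.map L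
  mono m D D' h F hF := mem_iff.2 ((mem_iff.1 hF).mono (Nat.succ_le_succ h))
  one m D := mem_iff.2 (Hm.pq_spin D fun _ => 1)
  s hF := mem_iff.2 fun s => Hm.smul_mem' (sg s) (mem_iff.1 hF s)
  x j _ hF := mem_iff.2 fun s => Hm.mulX_mem j (mem_iff.1 hF s)
  fl hF := mem_iff.2 fun s => mem_iff.1 hF (!s)
  d j _ hF := mem_iff.2 ((mem_iff.1 hF).dd j)
  d0 j _ hF := Subtype.ext (funext fun s => Hm.mem_zero.1 ((mem_iff.1 hF).dd j s))
  ou b _ F hF := mem_iff.2 (by rw [ou_eq]; exact Hm.NN_mem (mem_iff.1 hF))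
  pv hF s := by
    obtain ⟨p, -, e⟩ := hF s
    exact ⟨p, e⟩
  p2 b ξ D G h := by
    have key : ∀ s, ∀ r ∈ Hm.Pl b.m (D + 1), Hm.ip (Hm.zs b s (G.1 s)) r = 0 := by
      intro s r hr
      have hq : Hm.PQ (D + 1) fun t X => if t = s then r (X + -(sg s • b.v)) else 0 := fun t => by
        by_cases ht : t = s
        · simpa only [ht, if_true] using Hm.shift_mem hr _
        · simp only [ht, if_false]; exact zero_mem _
      have h1 := h (mk _ hq) (mem_iff.2 hq)
      rw [ex_mul, Hm.iq_eq, Finset.sum_eq_single s] at h1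
      · have e : Hm.zs b s ((mk _ hq).1 s) = r := by
          funext z; simp [Pol3.mk, Hm.zs]
        rw [e] at h1
        exact (mul_eq_zero.1 h1).resolve_left (hb_pos _ _).ne'
      · intro t _ ht
        have e : Hm.zs b t ((mk _ hq).1 t) = fun _ => 0 := by
          funext z; simp [Pol3.mk, Hm.zs, ht]
        rw [e]; simp [Hm.ip]
      · simp
    simp only [ex_mul]
    refine le_trans ?_ (Hm.sum_iq_dd ξ G.1).ge
    rw [Hm.iq_eq, Finset.mul_sum]
    refine Finset.sum_le_sum fun s _ => ?_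
    rw [mul_left_comm]
    refine mul_le_mul_of_nonneg_left ?_ (hb_pos _ _).le
    exact_mod_cast Hm.le_en (D + 1) (Hm.c1_zs (G.2 s).c1 s) (key s)

end Crest.Agent.T157.Tw
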