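import Crest.Agent.T157.LcLocB_30
import Crest.Agent.T157.LcExt_3
import Crest.Agent.T157.LcCal_52
import Crest.Agent.T157.LcPol_3

/-!
# Row 157, block B/S4b (helper30): extended towers at a level, the local ansatz on them
-/

set_option autoImplicit false

noncomputable section

namespace Crest.Agent.T157.Tw

open MeasureTheory Real Matrix Set

/-- the trivial extension -/
def Ext.triv (b : Bath) : Ext := ⟨b, b, 1, by simp, by simp, by simp⟩

/-- `E sech² ξ` -/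
def pb (ν : Measure ℝ) : ℝ := ∫ ξ, sech2 ξ ∂ν

/-- the one-dimensional bath spanned by the node `(s - tanh ξ) / √pb`, read over `b` -/
def up (β : ℝ) (ν : Measure ℝ) (b : Bath) : Bath :=
  ⟨1, of fun _ _ => |Eb ν b (fun _ => sS _) fun _ => sS _| / pb ν, fun _ => β * √(pb ν), by
    have h : (of fun _ _ => |Eb ν b (fun _ => sS _) fun _ => sS _| / pb ν : Matrix (Fin 1) (Fin 1) ℝ) =
        Matrix.diagonal fun _ => |Eb ν b (fun _ => sS _) fun _ => sS _| / pb ν := by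
      ext i j; rw [Subsingleton.elim i j]; simp
    rw [h]
    exact posSemidef_diagonal_iff.2 fun _ => div_nonneg (abs_nonneg _)
      (integral_nonneg fun ξ => (sech2_pos ξ).le)⟩

/-- **the first layer**: one node `(s - tanh ξ) / √pb`, read over itself -/
def base (β : ℝ) (ν : Measure ℝ) : Bath := up β ν (up β ν Bath.nil)

/-- **extended towers at the level `ν`**; the first step uses functions of the spin only -/
inductive XL (β : ℝ) (ν : Measure ℝ) : Ext → Prop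
  | base {e f0 f} : Step β ν 0 (Ext.triv (base β ν)) e f0 f → XL β ν e
  | step {e e' D f0 f} : XL β ν e → Step β ν D e e' f0 f → XL β ν e'

variable {β : ℝ} {ν : Measure ℝ}

lemma pb_pos [IsProbabilityMeasure ν] : 0 < pb ν :=
  (integral_pos_iff_support_of_nonneg (fun ξ => (sech2_pos ξ).le) (bm_sech2.int ν)).2 (by
    have : Function.support sech2 = univ := eq_univ_of_forall fun ξ => (sech2_pos ξ).ne'
    simp [this])

lemma Eb_nonneg (b : Bath) (F : ℝ → SV b.m) : 0 ≤ Eb ν b F F :=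
  integral_nonneg fun ξ => (cal.ok b ξ).pE _

/-- the energy of the first layer is self-consistent -/
lemma base_A (k l : Fin 1) :
    (base β ν).A k l = Eb ν (base β ν) (fun _ => sS _) (fun _ => sS _) / pb ν := by
  change |Eb ν (up β ν Bath.nil) _ _| / _ = _
  rw [abs_of_nonneg (Eb_nonneg _ _)]
  congr 1
  refine integral_congr_ae (ae_of_all _ fun ξ => ?_)
  simp only [cal.En, cal.ds, mul_zero, map_zero, Finset.sum_const_zero, add_zero]
  rfl

lemma base_g (k : Fin 1) : (base β ν).g k = β * √(pb ν) := rfl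

lemma TwL.up [IsProbabilityMeasure ν] {𝒞 : Cls} {b : Bath} (hb : TwL admStmt 𝒞 β b) :
    TwL admStmt 𝒞 β (up β ν b) := by
  have p0 := pb_pos (ν := ν)
  have s0 := sqrt_pos.2 p0
  have hN : (lev admStmt 𝒞 ν b).N (lev admStmt 𝒞 ν b).σ (lev admStmt 𝒞 ν b).σ = pb ν :=
    integral_congr_ae (ae_of_all _ fun ξ => (okStmt b ξ).2.1)
  have hE : (lev admStmt 𝒞 ν b).En (lev admStmt 𝒞 ν b).σ (lev admStmt 𝒞 ν b).σ =
    Eb ν b (fun _ => sS _) fun _ => sS _ := rfl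
  have q := mul_self_sqrt p0.le
  refine TwL.step (b' := ⟨1, (Tw.up β ν b).A, fun _ => √(pb ν), (Tw.up β ν b).psd⟩) ν
    (f := fun _ => (√(pb ν))⁻¹ • (lev admStmt 𝒞 ν b).σ) hb ⟨fun k l => ?_, fun k l => ?_, fun k => ?_⟩
  · rw [Subsingleton.elim k l, if_pos rfl]
    simp only [map_smul, LinearMap.smul_apply, smul_eq_mul, hN]
    field_simp; linarith [sq_sqrt p0.le]
  · simp only [map_smul, LinearMap.smul_apply, smul_eq_mul, hE]
    change _ = |Eb ν b (fun _ => sS _) fun _ => sS _| / pb ν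
    rw [abs_of_nonneg (Eb_nonneg _ _), ← mul_assoc, ← mul_inv, q, div_eq_inv_mul]
  · simp only [map_smul, smul_eq_mul, hN]
    field_simp; linarith [sq_sqrt p0.le]

lemma twl_base [IsProbabilityMeasure ν] (𝒞 : Cls) : TwL admStmt 𝒞 β (base β ν) :=
  (TwL.base Tw0.nil).up.up

/-- the spin lies in the span of the nodes -/
lemma Step.stt {D : ℕ} {e e' : Ext} {f0 f} (h : Step β ν D e e' f0 f) :
    ∀ᵐ ξ ∂ν, β • stS _ ξ = ∑ k, e'.bt.g k • f k ξ := by
  filter_upwards [h.st, ae_all_iff.2 h.inc] with ξ h1 h2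
  have h3 := congrArg (pull e.ι) h1
  rw [map_smul, Ext3.pull_st, map_sum] at h3
  simp only [h3, map_smul, h2, Finset.smul_sum, smul_smul, e'.hg, mulVec, dotProduct,
    Finset.sum_smul]
  rw [Finset.sum_comm]
  simp only [mul_comm]

lemma Ext.gg (e : Ext) : e.bt.g ⬝ᵥ e.bt.g = e.b.g ⬝ᵥ e.b.g := by
  rw [e.hg, dotProduct_mulVec, vecMul_mulVec, e.iso, vecMul_one]

lemma Step.gg [IsProbabilityMeasure ν] (fa : FamApi) {D : ℕ} {e e' : Ext} {f0 f}
    (h : Step β ν D e e' f0 f) : e'.b.g ⬝ᵥ e'.b.g = β ^ 2 * pb ν := by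
  have h1 : ∑ k, e'.bt.g k * Nb ν e.bt (fun _ => sS _) (f k) = β * pb ν := by
    simp only [Nb, pb, ← integral_const_mul]
    rw [← integral_finsetSum _ fun k _ => ((fa.N _ _ (fa.le _ (Ext3.s_mem0 _)) _
      (h.c1 k).1).2.int ν).const_mul _]
    refine integral_congr_ae (h.stt.mono fun ξ hξ => ?_)
    have h2 := congrArg ((imS e.bt ξ).N (sS _)) hξ
    rw [map_smul, (cal.ok _ _).sN, Ext3.N_st cal, cal.Ns] at h2
    simpa using h2.symm
  rw [← e'.gg, sq, mul_assoc, ← h1, Finset.mul_sum]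
  exact Finset.sum_congr rfl fun k _ => by rw [mul_left_comm, h.g]

lemma XL.gg [IsProbabilityMeasure ν] (fa : FamApi) {e : Ext} (h : XL β ν e) :
    e.b.g ⬝ᵥ e.b.g = β ^ 2 * pb ν := by
  cases h with
  | base h => exact h.gg fa
  | step _ h => exact h.gg fa

/-- families are continuous in the static field -/
lemma n1_cont {b : Bath} {F : ℝ → SV b.m} (hF : F ∈ N1 b) (s : Bool) (X) :
    Continuous fun ξ => (F ξ).1 s X := by
  have ht := contDiff_tanh'.continuous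
  induction hF using Algebra.adjoin_induction with
  | mem x hx =>
    rcases hx with rfl | (rfl | rfl) | ⟨j, rfl⟩
    · exact ht.comp (continuous_id.add continuous_const)
    · exact ht
    · exact continuous_const
    · exact continuous_const
  | algebraMap r => exact continuous_const
  | add x y _ _ hx hy => exact hx.add hy
  | mul x y _ _ hx hy => exact hx.mul hy

lemma n1_ext [ν.IsOpenPosMeasure] {b : Bath} {F G : ℝ → SV b.m} (hF : F ∈ N1 b) (hG : G ∈ N1 b)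
    (h : ∀ᵐ ξ ∂ν, F ξ = G ξ) (ξ : ℝ) : F ξ = G ξ :=
  Subtype.ext (funext fun s => funext fun X => congrFun
    (((n1_cont hF s X).ae_eq_iff_eq ν (n1_cont hG s X)).1 (h.mono fun _ h => by simp only [h])) ξ)

lemma n1_sum {b : Bath} {n : ℕ} {f : Fin n → ℝ → SV b.m} (hf : ∀ k, f k ∈ N1 b) (c : Fin n → ℝ) :
    (fun ξ => ∑ k, c k • f k ξ) ∈ N1 b := by
  have : (fun ξ => ∑ k, c k • f k ξ) = ∑ k, c k • f k := by funext ξ; simp
  rw [this]; exact sum_mem fun k _ => Subalgebra.smul_mem _ (hf k) _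

/-- the identities of a step hold everywhere when the law has full support -/
lemma Step.ptw [ν.IsOpenPosMeasure] (fa : FamApi) {D : ℕ} {e e' : Ext} {f0 f}
    (h : Step β ν D e e' f0 f) (ξ : ℝ) : (∀ l, pull e.ι (f0 l ξ) = ∑ k, e'.ι k l • f k ξ) ∧
      (∀ l, gen e.bt ξ (pull e.ι (f0 l ξ)) = ∑ k, (e'.bt.A * e'.ι) k l • f k ξ) ∧
      β • stS _ ξ = ∑ l, e'.b.g l • f0 l ξ ∧ β • stS _ ξ = ∑ k, e'.bt.g k • f k ξ :=
  have c := fun k => (h.c1 k).1
  have st := fun b : Bath => Subalgebra.smul_mem _ (fa.le b (Ext3.st_cl cal polApi b 0).1) β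
  ⟨fun l => n1_ext (fa.pull e D _ (h.c0 l)).1 (n1_sum c _) (h.inc l) ξ,
    fun l => n1_ext (fa.gen _ _ (fa.pull e D _ (h.c0 l))).1 (n1_sum c _) (h.cl l) ξ,
    n1_ext (st _) (n1_sum (fun l => fa.le _ (h.c0 l).1) _) h.st ξ, n1_ext (st _) (n1_sum c _) h.stt ξ⟩

/-- **the local ansatz on the towers `XL`** -/
def XLoc : Prop := ∀ 𝒞 : Cls, (∀ m, 𝒞.C m = PV m) → ∀ β : ℝ, 0 < β → β < 1 →
  ∀ a ∈ Ico 0 (lam 𝒞 β), ∀ (ν : Measure ℝ) [IsProbabilityMeasure ν],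
  ∃ (γ : ℝ → ℝ) (h : ℝ), Continuous γ ∧ (∀ ξ, γ (-ξ) = γ ξ ∧ sech2 ξ ≤ γ ξ ∧
      β * γ ξ ≤ sech2 ξ * (1 - β * (lam 𝒞 β - a))) ∧ β ^ 2 * ∫ ξ, γ ξ ∂ν ≤ h ∧
    ∀ ε > (0 : ℝ), ∃ (e : Ext) (D : ℕ), XL β ν e ∧ e.b.g ⬝ᵥ e.b.g = β ^ 2 * pb ν ∧
      Coer e.b (lam 𝒞 β) ∧ (∀ y ≥ -a, e.Eps (lam 𝒞 β) y ε) ∧
      (∀ a' ∈ Icc 0 a, ∃ Ξ al, Out2 e D (lam 𝒞 β) a' ε Ξ al) ∧
      ∃ Ξ, Out2 e D (lam 𝒞 β) a ε Ξ fun ξ => 1 / γ ξ + h

theorem xLoc_of (fa : FamApi) (loc : LocStmt2) : XLoc := by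
  intro 𝒞 h𝒞 β hβ hβ1 a ha ν _
  obtain ⟨tw, ex⟩ := extGlue cal polApi fa
  obtain ⟨e0, f0, f, h0, -⟩ := ex β ν 0 (Ext.triv (base β ν)) ∅ ∅ finite_empty finite_empty
    (by simp) (by simp)
  obtain ⟨γ, h, h1, h2, h3, h4⟩ := loc 𝒞 h𝒞 β hβ hβ1 a ha ν (XL β ν) e0 (.base h0)
    (tw 𝒞 h𝒞 β hβ.ne' ν _ _ _ _ _ h0 (twl_base 𝒞)) fun e he => ⟨0, fun D _ 𝒱 hf hc => by
      obtain ⟨e', f0, f, hs, hi, -⟩ := ex β ν D e 𝒱 ∅ hf finite_empty hc (by simp)
      exact ⟨e', f0, f, hs, hi, he.step hs⟩⟩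
  refine ⟨γ, h, h1, h2, h3, fun ε ε0 => ?_⟩
  obtain ⟨e, D, k1, k2, k3⟩ := h4 ε ε0
  exact ⟨e, D, k1, k1.gg fa, (coer_resp polApi h𝒞 ha.2 k2).1, k3⟩

end Crest.Agent.T157.Tw
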