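import Crest.Agent.T157.Lift_74
import Crest.Agent.T157.CutDef_54

/-!
# Row 157, part D: the end of the lifting argument (helper74)

If no vertex of the cube near the magnetisation `μ x` of a state `x ∈ S` lies on the boundary of
`B`, then a state near `B` and a state near `Bᶜ` are not joined in `S`.
-/

set_option autoImplicit false

noncomputable section

namespace Crest.Agent.T157.Lift

open Set Filter Topology
open Crest.ProbabilityR.SpinGlassDynamics Crest.Agent.T157.E Crest.Agent.T157.Cut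

variable {n : ℕ}

/-- squared distance of a vertex to a point -/
def d2 (σ : Cube n) (m : Fin n → ℝ) : ℝ := ∑ i, (sv σ i - m i) ^ 2

/-- rounding -/
def rnd (m : Fin n → ℝ) : Cube n := fun i => decide (0 ≤ m i)

lemma sq_rnd_le (m : Fin n → ℝ) (i : Fin n) (b : Bool) :
    (spin (rnd m i) - m i) ^ 2 ≤ (spin b - m i) ^ 2 := by
  by_cases h : 0 ≤ m i <;> cases b <;> simp [rnd, spin, h] <;> nlinarith

lemma d2_rnd_le (σ : Cube n) (m : Fin n → ℝ) : d2 (rnd m) m ≤ d2 σ m :=
  Finset.sum_le_sum fun i _ => sq_rnd_le m i (σ i)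

lemma d2_rnd_le_norm {m : Fin n → ℝ} (hm : ∀ i, |m i| ≤ 1) :
    d2 (rnd m) m ≤ n - ∑ i, m i ^ 2 := by
  have : (n : ℝ) - ∑ i, m i ^ 2 = ∑ i : Fin n, (1 - m i ^ 2) := by
    rw [Finset.sum_sub_distrib]; simp
  rw [this]
  refine Finset.sum_le_sum fun i _ => ?_
  have := abs_le.1 (hm i)
  by_cases h : 0 ≤ m i <;> simp [sv, rnd, spin, h] <;> nlinarith

lemma continuous_d2 (σ : Cube n) : Continuous (d2 σ) := by
  unfold d2; fun_prop

/-- all vertices of a boundary-free ball are on the side of the rounding -/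
lemma side_eq {B : Set (Cube n)} {m : Fin n → ℝ} {r : ℝ} (h : ∀ σ, d2 σ m < r → σ ∉ bd B)
    {σ : Cube n} (hσ : d2 σ m < r) : σ ∈ B ↔ rnd m ∈ B := by
  classical
  have key : ∀ s : Finset (Fin n), (σ ∈ B ↔ (fun i => if i ∈ s then rnd m i else σ i) ∈ B) := by
    intro s
    induction s using Finset.induction_on with
    | empty => simp
    | insert i s hi ih =>
      have h1 : d2 (fun j => if j ∈ s then rnd m j else σ j) m < r := by
        refine lt_of_le_of_lt (Finset.sum_le_sum fun j _ => ?_) hσ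
        by_cases hj : j ∈ s
        · simpa [sv, hj] using sq_rnd_le m j (σ j)
        · simp [sv, hj]
      have h2 := h _ h1
      simp only [bd, mem_ofPred_eq, not_exists, not_not] at h2
      have e : (fun j => if j ∈ insert i s then rnd m j else σ j) =
          Function.update (fun j => if j ∈ s then rnd m j else σ j) i (rnd m i) := by
        funext j
        by_cases hj : j = i
        · subst hj; simp
        · simp [hj]
      rw [e, ← h2 i (rnd m i)]
      exact ih
  simpa using key Finset.univ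

/-- **End of the lifting argument.** -/
theorem not_joined_of_ball {X : Type*} [TopologicalSpace X] {S : Set X} {μ : X → Fin n → ℝ}
    (hμ : ContinuousOn μ S) {B : Set (Cube n)} {r : ℝ}
    (h1 : ∀ x ∈ S, d2 (rnd (μ x)) (μ x) < r)
    (h2 : ∀ x ∈ S, ∀ σ, d2 σ (μ x) < r → σ ∉ bd B) {a b : X} {σ τ : Cube n} (hσ : σ ∈ B)
    (hτ : τ ∉ B) (ha : d2 σ (μ a) < r) (hb : d2 τ (μ b) < r) : ¬ JoinedIn S a b := by
  rintro ⟨p, hp⟩
  have hc : Continuous fun t => μ (p t) := hμ.comp_continuous p.continuous hp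
  have hloc : ∀ t, ∀ᶠ u in 𝓝 t, (rnd (μ (p t)) ∈ B ↔ rnd (μ (p u)) ∈ B) := by
    intro t
    have : ∀ᶠ u in 𝓝 t, d2 (rnd (μ (p t))) (μ (p u)) < r :=
      (((continuous_d2 _).comp hc).tendsto t).eventually (gt_mem_nhds (h1 _ (hp t)))
    filter_upwards [this] with u hu using side_eq (h2 _ (hp u)) hu
  have hopen : IsOpen {t | rnd (μ (p t)) ∈ B} := by
    rw [isOpen_iff_mem_nhds]
    intro t ht
    filter_upwards [hloc t] with u hu using hu.1 ht
  have hclosed : IsClosed {t | rnd (μ (p t)) ∈ B} := by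
    rw [← isOpen_compl_iff, isOpen_iff_mem_nhds]
    intro t ht
    filter_upwards [hloc t] with u hu using fun h => ht (hu.2 h)
  have h0 : rnd (μ (p 0)) ∈ B := by
    have := side_eq (h2 _ (hp 0)) (σ := σ) (by simpa using ha)
    exact this.1 hσ
  have hall : {t | rnd (μ (p t)) ∈ B} = univ := IsClopen.eq_univ ⟨hclosed, hopen⟩ ⟨0, h0⟩
  have h3 : rnd (μ (p 1)) ∈ B := by
    have : (1 : unitInterval) ∈ {t | rnd (μ (p t)) ∈ B} := hall ▸ mem_univ _
    exact this
  have := side_eq (h2 _ (hp 1)) (σ := τ) (by simpa using hb)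
  exact hτ (this.2 h3)

end Crest.Agent.T157.Lift
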