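import Crest.Agent.T157.ConcG_16

/-!
# Row 157, part D: path lifting through random steps (helper74)

* `Rep γ f T ε x z`: all but (outer) mass `ε` of the seeds `ξ` give a successor `f x ξ` that is
  joined to `z` inside `T`;
* `lift`: a path in `S` lifts to a path in `T` between representatives;
* `chain`, `chain_false`: induction over the levels and the final sign change;
* `mp_rot`: `a ξ + b ξ'` is standard Gaussian for `a² + b² = 1`;
* `exists_rep_of_slack`: slack + small exceptional set give a representative (rotation of seeds);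
* `rep_of_segment`: anchoring by segments.
-/

set_option autoImplicit false

noncomputable section

namespace Crest.Agent.T157.Lift

open MeasureTheory ProbabilityTheory Set Filter Topology
open scoped ENNReal NNReal unitInterval
open Crest.Agent.T157.Conc (gv en)

section abstract
variable {X Y E : Type*} [TopologicalSpace X] [TopologicalSpace Y] [MeasurableSpace E]

/-- `z` represents the successors of `x`. -/
def Rep (γ : Measure E) (f : X → E → Y) (T : Set Y) (ε : ℝ≥0∞) (x : X) (z : Y) : Prop :=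
  γ {ξ | ¬ JoinedIn T z (f x ξ)} ≤ ε

omit [TopologicalSpace X] in
lemma Rep.mono {γ : Measure E} {f : X → E → Y} {T : Set Y} {ε ε' : ℝ≥0∞} {x : X} {z : Y}
    (h : Rep γ f T ε x z) (hε : ε ≤ ε') : Rep γ f T ε' x z := le_trans h hε

lemma exists_not_mem {γ : Measure E} {A B G : Set E} {ε : ℝ≥0∞} (hA : γ A ≤ ε) (hB : γ B ≤ ε)
    (hG : 2 * ε < γ G) : ∃ ξ ∈ G, ξ ∉ A ∧ ξ ∉ B := by
  by_contra hcon
  push Not at hcon
  have hsub : G ⊆ A ∪ B := fun ξ hξ => by
    by_cases h : ξ ∈ A
    · exact Or.inl h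
    · exact Or.inr (hcon ξ hξ h)
  have : γ G ≤ 2 * ε := by
    calc γ G ≤ γ (A ∪ B) := measure_mono hsub
      _ ≤ γ A + γ B := measure_union_le _ _
      _ ≤ ε + ε := add_le_add hA hB
      _ = 2 * ε := (two_mul ε).symm
  exact absurd hG (not_lt.2 this)

lemma two_mul_lt {ε a : ℝ≥0∞} (hε : 3 * ε < 1) (h : 1 ≤ a + ε) : 2 * ε < a := by
  by_contra hcon
  have h1 : a ≤ 2 * ε := not_lt.1 hcon
  have : (1 : ℝ≥0∞) ≤ 3 * ε := by
    calc (1 : ℝ≥0∞) ≤ a + ε := h
      _ ≤ 2 * ε + ε := by gcongr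
      _ = 3 * ε := by ring
  exact absurd hε (not_lt.2 this)

omit [TopologicalSpace X] in
/-- two representatives of the same state are joined -/
lemma Rep.joined {γ : Measure E} [IsProbabilityMeasure γ] {f : X → E → Y} {T : Set Y}
    {ε : ℝ≥0∞} (hε : 3 * ε < 1) {x : X} {z z' : Y} (h : Rep γ f T ε x z)
    (h' : Rep γ f T ε x z') : JoinedIn T z z' := by
  obtain ⟨ξ, -, h1, h2⟩ := exists_not_mem (G := univ) h h'
    (two_mul_lt hε (by rw [measure_univ]; exact le_self_add))
  simp only [mem_ofPred_eq, not_not] at h1 h2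
  exact h1.trans h2.symm

lemma joinedIn_of_Icc {T : Set Y} {g : ℝ → Y} {a b : ℝ} (hg : ContinuousOn g (uIcc a b))
    (hT : ∀ t ∈ uIcc a b, g t ∈ T) : JoinedIn T (g a) (g b) := by
  have h1 : IsPathConnected (uIcc a b) := (convex_uIcc a b).isPathConnected ⟨a, left_mem_uIcc⟩
  have h2 := (h1.image' hg).joinedIn (g a) ⟨a, left_mem_uIcc, rfl⟩ (g b) ⟨b, right_mem_uIcc, rfl⟩
  exact h2.mono (by rintro _ ⟨t, ht, rfl⟩; exact hT t ht)

/-- **Path lifting.** -/
theorem lift {γ : Measure E} [IsProbabilityMeasure γ] {f : X → E → Y} {S : Set X} {T : Set Y}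
    {ε : ℝ≥0∞} (hε : 3 * ε < 1) (hT : IsOpen T) (hf : ∀ ξ, ContinuousOn (fun x => f x ξ) S)
    (hrep : ∀ x ∈ S, ∃ z, Rep γ f T ε x z) {x x' : X} (hx : JoinedIn S x x') {z z' : Y}
    (hz : Rep γ f T ε x z) (hz' : Rep γ f T ε x' z') : JoinedIn T z z' := by
  obtain ⟨p, hp⟩ := hx
  have hpS : ∀ t : ℝ, p.extend t ∈ S := fun t => by
    obtain ⟨u, hu⟩ : p.extend t ∈ range p := by
      rw [← p.extend_range]; exact ⟨t, rfl⟩
    rw [← hu]; exact hp u
  have hc : ∀ ξ, Continuous fun t : ℝ => f (p.extend t) ξ := fun ξ =>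
    (hf ξ).comp_continuous p.continuous_extend hpS
  choose r hr using fun t : ℝ => hrep _ (hpS t)
  -- local constancy
  have hloc : ∀ t : ℝ, ∀ᶠ u in 𝓝 t, JoinedIn T (r t) (r u) := by
    intro t
    set G : ℕ → Set E := fun k => {ξ | ∀ u, |u - t| < 1 / ((k : ℝ) + 1) → f (p.extend u) ξ ∈ T}
      with hG
    have hmono : Monotone G := by
      intro k l hkl ξ hξ u hu
      refine hξ u (hu.trans_le ?_)
      have : (k : ℝ) ≤ l := by exact_mod_cast hkl
      gcongr
    have hU : {ξ | JoinedIn T (r t) (f (p.extend t) ξ)} ⊆ ⋃ k, G k := by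
      intro ξ hξ
      have h1 : (fun u => f (p.extend u) ξ) ⁻¹' T ∈ 𝓝 t :=
        (hc ξ).continuousAt.preimage_mem_nhds (hT.mem_nhds (JoinedIn.target_mem hξ))
      obtain ⟨δ, hδ, hb⟩ := Metric.mem_nhds_iff.1 h1
      obtain ⟨k, hk⟩ := exists_nat_one_div_lt hδ
      exact mem_iUnion.2 ⟨k, fun u hu => hb (by
        rw [Metric.mem_ball, Real.dist_eq]; exact hu.trans hk)⟩
    have h1 : (1 : ℝ≥0∞) ≤ γ (⋃ k, G k) + ε := by
      calc (1 : ℝ≥0∞) = γ univ := measure_univ.symm
        _ ≤ γ ((⋃ k, G k) ∪ {ξ | ¬ JoinedIn T (r t) (f (p.extend t) ξ)}) := by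
          refine measure_mono fun ξ _ => ?_
          by_cases h : JoinedIn T (r t) (f (p.extend t) ξ)
          · exact Or.inl (hU h)
          · exact Or.inr h
        _ ≤ _ := (measure_union_le _ _).trans (add_le_add le_rfl (hr t))
    have h2 := two_mul_lt hε h1
    rw [hmono.measure_iUnion, lt_iSup_iff] at h2
    obtain ⟨k, hk⟩ := h2
    have hpos : (0 : ℝ) < 1 / ((k : ℝ) + 1) := by positivity
    filter_upwards [Metric.ball_mem_nhds t hpos] with u hu
    rw [Metric.mem_ball, Real.dist_eq] at hu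
    obtain ⟨ξ, hξ, h3, h4⟩ := exists_not_mem (hr t) (hr u) hk
    simp only [mem_ofPred_eq, not_not] at h3 h4
    have h5 : JoinedIn T (f (p.extend t) ξ) (f (p.extend u) ξ) := by
      refine joinedIn_of_Icc (g := fun v => f (p.extend v) ξ) (hc ξ).continuousOn fun v hv => ?_
      exact hξ v ((abs_sub_left_of_mem_uIcc hv).trans_lt hu)
    exact (h3.trans h5).trans h4.symm
  have hopen : IsOpen {t : ℝ | JoinedIn T (r 0) (r t)} := by
    rw [isOpen_iff_mem_nhds]
    intro t ht
    filter_upwards [hloc t] with u hu using JoinedIn.trans ht hu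
  have hclosed : IsClosed {t : ℝ | JoinedIn T (r 0) (r t)} := by
    rw [← isOpen_compl_iff, isOpen_iff_mem_nhds]
    intro t ht
    filter_upwards [hloc t] with u hu using fun h => ht (JoinedIn.trans h hu.symm)
  have hall : {t : ℝ | JoinedIn T (r 0) (r t)} = univ :=
    IsClopen.eq_univ ⟨hclosed, hopen⟩ ⟨0, (hloc 0).self_of_nhds⟩
  have h01 : JoinedIn T (r 0) (r 1) := by
    have : (1 : ℝ) ∈ {t : ℝ | JoinedIn T (r 0) (r t)} := hall ▸ mem_univ _
    exact this
  have e0 := hr 0
  have e1 := hr 1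
  rw [p.extend_zero] at e0
  rw [p.extend_one] at e1
  exact ((hz.joined hε e0).trans h01).trans (e1.joined hε hz')

/-- induction over the levels -/
theorem chain {γ : Measure E} [IsProbabilityMeasure γ] {f : ℕ → X → E → X} {S : ℕ → Set X}
    {ε : ℝ≥0∞} (hε : 3 * ε < 1) (N : ℕ) (hS : ∀ j < N, IsOpen (S (j + 1)))
    (hf : ∀ j < N, ∀ ξ, ContinuousOn (fun x => f j x ξ) (S j))
    (hrep : ∀ j < N, ∀ x ∈ S j, ∃ z, Rep γ (f j) (S (j + 1)) ε x z) {a b : ℕ → X}
    (h0 : JoinedIn (S 0) (a 0) (b 0))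
    (ha : ∀ j < N, Rep γ (f j) (S (j + 1)) ε (a j) (a (j + 1)))
    (hb : ∀ j < N, Rep γ (f j) (S (j + 1)) ε (b j) (b (j + 1))) :
    JoinedIn (S N) (a N) (b N) := by
  induction N with
  | zero => exact h0
  | succ N ih =>
    have h := ih (fun j hj => hS j (by omega)) (fun j hj => hf j (by omega))
      (fun j hj => hrep j (by omega)) (fun j hj => ha j (by omega)) (fun j hj => hb j (by omega))
    exact lift hε (hS N (by omega)) (hf N (by omega)) (hrep N (by omega)) h (ha N (by omega))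
      (hb N (by omega))

/-- a continuous function without zero on `S` has the same sign at joined points -/
theorem not_joined_of_sign {S : Set X} {g : X → ℝ} (hg : ContinuousOn g S)
    (h0 : ∀ x ∈ S, g x ≠ 0) {a b : X} (ha : g a < 0) (hb : 0 < g b) : ¬ JoinedIn S a b := by
  rintro ⟨p, hp⟩
  have hc : Continuous fun t => g (p t) := hg.comp_continuous p.continuous hp
  have : (0 : ℝ) ∈ range fun t => g (p t) :=
    intermediate_value_univ 0 1 hc ⟨by simpa using ha.le, by simpa using hb.le⟩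
  obtain ⟨t, ht⟩ := this
  exact h0 _ (hp t) ht

end abstract

section segment
variable {X Y E : Type*} [TopologicalSpace Y] [AddCommGroup Y] [Module ℝ Y]
  [IsTopologicalAddGroup Y] [ContinuousSMul ℝ Y] [MeasurableSpace E]

lemma joinedIn_of_segment {T : Set Y} {z w : Y}
    (h : ∀ t ∈ Icc (0 : ℝ) 1, (1 - t) • z + t • w ∈ T) : JoinedIn T z w := by
  have := joinedIn_of_Icc (T := T) (g := fun t : ℝ => (1 - t) • z + t • w) (a := 0) (b := 1)
    (by fun_prop) (fun t ht => h t (by rwa [uIcc_of_le zero_le_one] at ht))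
  simpa using this

/-- anchoring: the segment from `z` to the successor stays in `T` for most seeds -/
lemma rep_of_segment {γ : Measure E} {f : X → E → Y} {T : Set Y} {ε : ℝ≥0∞} {x : X} {z : Y}
    (h : γ {ξ | ∃ t ∈ Icc (0 : ℝ) 1, (1 - t) • z + t • f x ξ ∉ T} ≤ ε) : Rep γ f T ε x z := by
  refine le_trans (measure_mono fun ξ hξ => ?_) h
  by_contra hcon
  simp only [mem_ofPred_eq, not_exists, not_and, not_not] at hcon
  exact hξ (joinedIn_of_segment hcon)

end segment

section rot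
variable {ι : Type*} [Fintype ι]

lemma mp_rot_real {a b : ℝ} (h : a ^ 2 + b ^ 2 = 1) :
    MeasurePreserving (fun p : ℝ × ℝ => a * p.1 + b * p.2)
      ((gaussianReal 0 1).prod (gaussianReal 0 1)) (gaussianReal 0 1) := by
  refine ⟨by fun_prop, ?_⟩
  have e : (fun p : ℝ × ℝ => a * p.1 + b * p.2) =
      (fun p : ℝ × ℝ => p.1 + p.2) ∘ Prod.map (fun x => a * x) (fun x => b * x) := rfl
  rw [e, ← Measure.map_map (by fun_prop) (by fun_prop),
    ← Measure.map_prod_map _ _ (by fun_prop) (by fun_prop), gaussianReal_map_const_mul,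
    gaussianReal_map_const_mul]
  change Measure.conv _ _ = _
  rw [gaussianReal_conv_gaussianReal]
  congr 1
  · simp
  · ext; simpa using h

/-- `a ξ + b ξ'` is a standard Gaussian vector -/
theorem mp_rot {a b : ℝ} (h : a ^ 2 + b ^ 2 = 1) :
    MeasurePreserving (fun p : (ι → ℝ) × (ι → ℝ) => a • p.1 + b • p.2)
      ((gv ι).prod (gv ι)) (gv ι) := by
  have h1 := (measurePreserving_arrowProdEquivProdArrow ℝ ℝ ι (fun _ => gaussianReal 0 1)
    (fun _ => gaussianReal 0 1)).symm
  have h2 := measurePreserving_pi (fun _ : ι => (gaussianReal 0 1).prod (gaussianReal 0 1))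
    (fun _ : ι => gaussianReal 0 1) (fun _ => mp_rot_real h)
  exact h2.comp h1

lemma en_rot_le (ξ ξ' : ι → ℝ) (s t : ℝ) :
    en ((Real.cos t • ξ + Real.sin t • ξ') - (Real.cos s • ξ + Real.sin s • ξ')) ≤
      |t - s| * (en ξ + en ξ') := by
  have e : (Real.cos t • ξ + Real.sin t • ξ') - (Real.cos s • ξ + Real.sin s • ξ') =
      (Real.cos t - Real.cos s) • ξ + (Real.sin t - Real.sin s) • ξ' := by
    simp only [sub_smul]; abel
  rw [e, mul_add]
  refine (Conc.en_add_le _ _).trans (add_le_add ?_ ?_) <;> rw [Conc.en_smul]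
  · exact mul_le_mul_of_nonneg_right (Real.abs_cos_sub_cos_le t s) (Conc.en_nonneg _)
  · exact mul_le_mul_of_nonneg_right (Real.abs_sin_sub_sin_le t s) (Conc.en_nonneg _)

/-- **Rotation of seeds.** If outside an exceptional set `B` the whole Euclidean `ρ`-ball of seeds
is mapped into `T`, then most pairs of seeds have joined images. -/
theorem prod_not_joined_le {Y : Type*} [TopologicalSpace Y] {F : (ι → ℝ) → Y} (hF : Continuous F)
    {T : Set Y} {B : Set (ι → ℝ)} {ρ R : ℝ} (M : ℕ) (hM : 0 < M) (hρ : 4 * R ≤ ρ * M)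
    (hB : ∀ ξ ∉ B, ∀ ξ', en (ξ' - ξ) ≤ ρ → F ξ' ∈ T) :
    (gv ι).prod (gv ι) {p | ¬ JoinedIn T (F p.1) (F p.2)} ≤
      M * gv ι B + 2 * gv ι {ξ | R < en ξ} := by
  set D : Set (ι → ℝ) := {ξ | R < en ξ} with hD
  set th : ℕ → ℝ := fun k => k * (Real.pi / 2 / M) with hth
  set rot : ℝ → (ι → ℝ) × (ι → ℝ) → (ι → ℝ) :=
    fun t p => Real.cos t • p.1 + Real.sin t • p.2 with hrot
  have hM' : (0 : ℝ) < M := by exact_mod_cast hM
  have hstep : (0 : ℝ) < Real.pi / 2 / M := by positivity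
  have hsub : {p : (ι → ℝ) × (ι → ℝ) | ¬ JoinedIn T (F p.1) (F p.2)} ⊆
      (⋃ k ∈ Finset.range M, rot (th k) ⁻¹' B) ∪ (Prod.fst ⁻¹' D ∪ Prod.snd ⁻¹' D) := by
    intro p hp
    by_contra hcon
    simp only [mem_union, mem_iUnion, mem_preimage, not_or, not_exists, Finset.mem_range, hD,
      mem_ofPred_eq, not_lt] at hcon
    obtain ⟨h1, h2, h3⟩ := hcon
    apply hp
    have key := joinedIn_of_Icc (T := T) (g := fun t => F (rot t p)) (a := 0) (b := Real.pi / 2)
      (hF.comp (by simp only [hrot]; fun_prop)).continuousOn ?_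
    · simpa [hrot] using key
    intro t ht
    rw [uIcc_of_le (by positivity)] at ht
    obtain ⟨k, hk, hkt⟩ : ∃ k < M, |t - th k| ≤ Real.pi / 2 / M := by
      set u := t / (Real.pi / 2 / M) with hu
      have hu0 : 0 ≤ u := div_nonneg ht.1 hstep.le
      have huM : u ≤ M := by
        rw [hu, div_le_iff₀ hstep]
        calc t ≤ Real.pi / 2 := ht.2
          _ = M * (Real.pi / 2 / M) := by field_simp
      have htu : t = u * (Real.pi / 2 / M) := by rw [hu]; field_simp
      refine ⟨min ⌊u⌋₊ (M - 1), by omega, ?_⟩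
      have hk1 : |u - (min ⌊u⌋₊ (M - 1) : ℕ)| ≤ 1 := by
        have f1 := Nat.floor_le hu0
        have f2 := Nat.lt_floor_add_one u
        rcases le_total ⌊u⌋₊ (M - 1) with h | h
        · rw [min_eq_left h, abs_le]; constructor <;> linarith
        · rw [min_eq_right h, abs_le]
          have e : ((M - 1 : ℕ) : ℝ) = M - 1 := by
            rw [Nat.cast_sub hM]; simp
          have h' : ((M - 1 : ℕ) : ℝ) ≤ ⌊u⌋₊ := by exact_mod_cast h
          rw [e] at h' ⊢
          constructor <;> linarith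
      rw [htu]
      simp only [hth]
      rw [← sub_mul, abs_mul, abs_of_pos hstep]
      exact mul_le_of_le_one_left hstep.le hk1
    refine hB _ (h1 k hk) _ ((en_rot_le _ _ _ _).trans ?_)
    have hR : 0 ≤ R := (Conc.en_nonneg _).trans h2
    calc |t - th k| * (en p.1 + en p.2) ≤ Real.pi / 2 / M * (R + R) :=
          mul_le_mul hkt (add_le_add h2 h3)
            (add_nonneg (Conc.en_nonneg _) (Conc.en_nonneg _)) hstep.le
      _ = Real.pi * R / M := by ring
      _ ≤ 4 * R / M := by gcongr; exact Real.pi_le_four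
      _ ≤ ρ := by rw [div_le_iff₀ hM']; exact hρ
  have hr : ∀ k, (gv ι).prod (gv ι) (rot (th k) ⁻¹' B) ≤ gv ι B := fun k =>
    (mp_rot (ι := ι) (Real.cos_sq_add_sin_sq (th k))).measure_preimage_le B
  have hf : (gv ι).prod (gv ι) (Prod.fst ⁻¹' D) ≤ gv ι D :=
    (measurePreserving_fst (μ := gv ι) (ν := gv ι)).measure_preimage_le D
  have hs : (gv ι).prod (gv ι) (Prod.snd ⁻¹' D) ≤ gv ι D :=
    (measurePreserving_snd (μ := gv ι) (ν := gv ι)).measure_preimage_le D
  refine (measure_mono hsub).trans ((measure_union_le _ _).trans (add_le_add ?_ ?_))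
  · refine (measure_biUnion_finset_le _ _).trans ?_
    refine (Finset.sum_le_sum fun k _ => hr k).trans ?_
    simp
  · rw [two_mul]
    exact (measure_union_le _ _).trans (add_le_add hf hs)

/-- from pairs to a representative -/
theorem exists_rep_of_prod {X Y E : Type*} [TopologicalSpace Y] [MeasurableSpace E]
    {γ : Measure E} [IsProbabilityMeasure γ] {f : X → E → Y} {T : Set Y} {ε : ℝ≥0∞} {x : X}
    (h : γ.prod γ {p | ¬ JoinedIn T (f x p.1) (f x p.2)} ≤ ε) : ∃ z, Rep γ f T ε x z := by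
  set A : Set (E × E) := {p | ¬ JoinedIn T (f x p.1) (f x p.2)} with hA
  have hm := measurableSet_toMeasurable (γ.prod γ) A
  have h1 : ∫⁻ ξ, γ (Prod.mk ξ ⁻¹' toMeasurable (γ.prod γ) A) ∂γ ≤ ε := by
    rw [← Measure.prod_apply hm, measure_toMeasurable]; exact h
  obtain ⟨ξ, hξ⟩ := exists_le_lintegral (μ := γ)
    (measurable_measure_prodMk_left (ν := γ) hm).aemeasurable
  refine ⟨f x ξ, le_trans (measure_mono fun ξ' hξ' => ?_) (hξ.trans h1)⟩
  exact subset_toMeasurable _ _ hξ'

/-- **One-step hypothesis of `chain`** from slack. -/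
theorem exists_rep_of_slack {X Y : Type*} [TopologicalSpace Y] {f : X → (ι → ℝ) → Y} {x : X}
    (hF : Continuous (f x)) {T : Set Y} {B : Set (ι → ℝ)} {ρ R : ℝ} (M : ℕ) (hM : 0 < M)
    (hρ : 4 * R ≤ ρ * M) (hB : ∀ ξ ∉ B, ∀ ξ', en (ξ' - ξ) ≤ ρ → f x ξ' ∈ T) {ε : ℝ≥0∞}
    (hε : M * gv ι B + 2 * gv ι {ξ | R < en ξ} ≤ ε) : ∃ z, Rep (gv ι) f T ε x z :=
  exists_rep_of_prod ((prod_not_joined_le hF M hM hρ hB).trans hε)

end rot

end Crest.Agent.T157.Lift
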