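import Crest.Agent.T157.LlDef_91

/-!
# Row 157, part E: the a priori bound `Ll.AprStmt` (bootstrap in `η`), helper75

`apr (R : ResApi) (V : VhpApi) (hQ : QDetStmt) : AprStmt`.
All auxiliary declarations are private (no name clash with the sibling `Ll*` files).
-/

set_option autoImplicit false

noncomputable section

namespace Crest.Agent.T157.Ll

open MeasureTheory ProbabilityTheory Matrix Filter Function

variable {n : ℕ}

private lemma ee_dot (k : Fin n) : ee k ⬝ᵥ ee k = 1 := by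
  simp [ee]

private lemma InS.dot_le {u v a : Fin n → ℝ} (hu : u ⬝ᵥ u ≤ 1) (hv : v ⬝ᵥ v ≤ 1) (ha : InS u v a) :
    a ⬝ᵥ a ≤ 1 := by
  rcases ha with rfl | rfl | ⟨k, rfl⟩
  · exact hu
  · exact hv
  · exact (ee_dot k).le

private lemma InS.ee (u v : Fin n → ℝ) (k : Fin n) : InS u v (ee k) := Or.inr (Or.inr ⟨k, rfl⟩)

private lemma InS.sub {u v a b w : Fin n → ℝ} (ha : InS u v a) (hb : InS u v b) (hw : InS a b w) :
    InS u v w := by
  rcases hw with rfl | rfl | ⟨k, rfl⟩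
  · exact ha
  · exact hb
  · exact InS.ee u v k

private lemma Bd.mono {A : Matrix (Fin n) (Fin n) ℝ} {z : ℂ} {Γ Γ' : ℝ} {u v : Fin n → ℝ}
    (h : Bd A z Γ u v) (hΓ : Γ ≤ Γ') : Bd A z Γ' u v :=
  fun a b ha hb => (h a b ha hb).trans hΓ

private lemma Bd.sub {A : Matrix (Fin n) (Fin n) ℝ} {z : ℂ} {Γ : ℝ} {u v a b : Fin n → ℝ}
    (h : Bd A z Γ u v) (ha : InS u v a) (hb : InS u v b) : Bd A z Γ a b :=
  fun c d hc hd => h c d (ha.sub hb hc) (ha.sub hb hd)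

private lemma MData.Ok.mono {ι : Type} [Fintype ι] [DecidableEq ι] {D : MData ι} {B B' : ℝ}
    (h : D.Ok B) (hB : B ≤ B') : D.Ok B' :=
  { h with
    bX := fun x => (h.bX x).trans hB
    br := fun x => (h.br x).trans hB
    bf := fun a x => (h.bf a x).trans hB
    bf1 := fun a x => (h.bf1 a x).trans hB
    bf2 := fun a x => (h.bf2 a x).trans hB
    bX1 := fun a x => (h.bX1 a x).trans hB
    bX2 := fun a x => (h.bX2 a x).trans hB }

private lemma MData.Cond1.cond {ι : Type} [Fintype ι] [DecidableEq ι] {D : MData ι} {φ : ℝ}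
    {x : ι → ℝ} (h : D.Cond1 φ x) (hφ : 0 ≤ φ) : D.Cond φ x :=
  ⟨φ, hφ, le_add_of_nonneg_right (mul_nonneg hφ (norm_nonneg _)), h⟩

private lemma abs_dot_le_one {a b : Fin n → ℝ} (ha : a ⬝ᵥ a ≤ 1) (hb : b ⬝ᵥ b ≤ 1) : |a ⬝ᵥ b| ≤ 1 := by
  have h : |a ⬝ᵥ b| ≤ (a ⬝ᵥ a + b ⬝ᵥ b) / 2 := by
    unfold dotProduct
    refine (Finset.abs_sum_le_sum_abs _ _).trans ?_
    rw [← Finset.sum_add_distrib, Finset.sum_div]
    refine Finset.sum_le_sum fun k _ => ?_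
    rw [abs_le]
    constructor <;> nlinarith [sq_nonneg (a k + b k), sq_nonneg (a k - b k)]
  linarith

/-- `c n^a ≤ n^b` eventually, if `a < b` -/
private lemma ev_mul_rpow_le (c : ℝ) {a b : ℝ} (h : a < b) :
    ∀ᶠ n : ℕ in atTop, c * (n : ℝ) ^ a ≤ (n : ℝ) ^ b := by
  have h1 : Tendsto (fun n : ℕ => (n : ℝ) ^ (b - a)) atTop atTop :=
    (tendsto_rpow_atTop (sub_pos.2 h)).comp tendsto_natCast_atTop_atTop
  filter_upwards [h1.eventually_ge_atTop c, eventually_ge_atTop 1] with n hn hn1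
  have hp : (0 : ℝ) < n := by exact_mod_cast hn1
  calc c * (n : ℝ) ^ a ≤ (n : ℝ) ^ (b - a) * (n : ℝ) ^ a :=
        mul_le_mul_of_nonneg_right hn (Real.rpow_nonneg hp.le _)
    _ = (n : ℝ) ^ b := by rw [← Real.rpow_add hp]; ring_nf

private lemma Dom.norm_le {K ε : ℝ} {z : ℂ} (h : Dom K ε n z) : ‖z‖ ≤ 2 * K := by
  have h0 : 0 ≤ z.im := (Real.rpow_nonneg (Nat.cast_nonneg n) _).trans h.2.1
  have := Complex.norm_le_abs_re_add_abs_im z
  rw [abs_of_nonneg h0] at this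
  linarith [h.1, h.2.2]

private lemma Dom.inv_le {K ε : ℝ} {z : ℂ} (hε : 0 ≤ ε) (hn : 1 ≤ n) (h : Dom K ε n z) :
    1 / (n : ℝ) ≤ z.im := by
  have hp : (1 : ℝ) ≤ n := by exact_mod_cast hn
  refine le_trans ?_ h.2.1
  rw [one_div, ← Real.rpow_neg_one]
  exact Real.rpow_le_rpow_of_exponent_le hp (by linarith)

private lemma Dom.im_pos {K ε : ℝ} {z : ℂ} (hn : 1 ≤ n) (h : Dom K ε n z) : 0 < z.im := by
  have hp : (0 : ℝ) < n := by exact_mod_cast hn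
  exact (Real.rpow_pos_of_pos hp _).trans_le h.2.1

private lemma Dom.qq_le {K ε : ℝ} {z : ℂ} (hn : 1 ≤ n) (h : Dom K ε n z) : qq n z ≤ (n : ℝ) ^ (-ε) := by
  have hp : (0 : ℝ) < n := by exact_mod_cast hn
  have hz := h.im_pos hn
  unfold qq
  rw [div_le_iff₀ (mul_pos hp hz)]
  calc (1 : ℝ) = (n : ℝ) ^ (-ε) * (n * (n : ℝ) ^ (-1 + ε)) := by
        nth_rewrite 2 [← Real.rpow_one (n : ℝ)]
        rw [← Real.rpow_add hp, ← Real.rpow_add hp]
        simp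
    _ ≤ (n : ℝ) ^ (-ε) * (n * z.im) :=
        mul_le_mul_of_nonneg_left (mul_le_mul_of_nonneg_left h.2.1 hp.le)
          (Real.rpow_nonneg hp.le _)

private lemma Dom.mono {K K' ε ε' : ℝ} {z : ℂ} (hn : 1 ≤ n) (hK : K ≤ K') (hε : ε' ≤ ε)
    (h : Dom K ε n z) : Dom K' ε' n z := by
  have hp : (1 : ℝ) ≤ n := by exact_mod_cast hn
  exact ⟨h.1.trans hK, (Real.rpow_le_rpow_of_exponent_le hp (by linarith)).trans h.2.1,
    h.2.2.trans hK⟩

/-- `P` is the average of the `Q_kk` -/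
private lemma PP_eq_avg (R : ResApi) (hn : 1 ≤ n) (A : Matrix (Fin n) (Fin n) ℝ) (z : ℂ) :
    PP A z = (∑ k, QQ A z (ee k) (ee k)) / n := by
  have hp : (n : ℂ) ≠ 0 := by exact_mod_cast (Nat.one_le_iff_ne_zero.1 hn)
  have h := R.st_eq A z
  have h2 : ∑ k, gb A z (ee k) (ee k) = n * st A z := by rw [h]; field_simp
  unfold PP QQ
  simp only [ee_dot, Complex.ofReal_one, Finset.sum_add_distrib, Finset.sum_const,
    Finset.card_univ, Fintype.card_fin, nsmul_eq_mul, mul_one, ← Finset.mul_sum, h2]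
  field_simp
  ring

/-- the deterministic step: small `Q` gives bounded `G` -/
private lemma bd_of_QQ (R : ResApi) (hn : 1 ≤ n) {A : Matrix (Fin n) (Fin n) ℝ} {z : ℂ}
    {u v : Fin n → ℝ} (hu : u ⬝ᵥ u ≤ 1) (hv : v ⬝ᵥ v ≤ 1)
    (h : ∀ a b, InS u v a → InS u v b → ‖QQ A z a b‖ ≤ 1 / 2) : Bd A z (3 * (‖z‖ + 2)) u v := by
  have hp : (0 : ℝ) < n := by exact_mod_cast hn
  have hP : ‖PP A z‖ ≤ 1 / 2 := by
    rw [PP_eq_avg R hn, norm_div, Complex.norm_natCast, div_le_iff₀ hp]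
    refine (norm_sum_le _ _).trans ?_
    refine (Finset.sum_le_sum fun k _ => h _ _ (InS.ee u v k) (InS.ee u v k)).trans ?_
    simp [mul_comm]
  set m := st A z with hm
  have hPm : PP A z = 1 + (z + m) * m := by unfold PP; ring
  have e1 : (z + m) * m = PP A z - 1 := by rw [hPm]; ring
  have hlo : 1 / 2 ≤ ‖z + m‖ * ‖m‖ := by
    rw [← norm_mul, e1]
    have := norm_sub_norm_le (1 : ℂ) (PP A z)
    rw [norm_sub_rev] at this
    simp only [norm_one] at this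
    linarith
  have hhi : ‖z + m‖ * ‖m‖ ≤ 3 / 2 := by
    rw [← norm_mul, e1]
    have := norm_sub_le (PP A z) 1
    simp only [norm_one] at this
    linarith
  have hz0 := norm_nonneg z
  have hmle : ‖m‖ ≤ ‖z‖ + 2 := by
    by_contra hc
    push Not at hc
    have h3 : ‖m‖ ≤ ‖z + m‖ + ‖z‖ := by
      have := norm_sub_le (z + m) z
      simpa using this
    nlinarith
  have hzm : 1 ≤ 2 * (‖z‖ + 2) * ‖z + m‖ := by
    nlinarith [norm_nonneg (z + m)]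
  intro a b ha hb
  have hQ := h a b ha hb
  have hd := abs_dot_le_one (ha.dot_le hu hv) (hb.dot_le hu hv)
  have e2 : (z + m) * gb A z a b = QQ A z a b - ((a ⬝ᵥ b : ℝ) : ℂ) := by
    unfold QQ; ring
  have h4 : ‖z + m‖ * ‖gb A z a b‖ ≤ 3 / 2 := by
    rw [← norm_mul, e2]
    have := norm_sub_le (QQ A z a b) ((a ⬝ᵥ b : ℝ) : ℂ)
    rw [Complex.norm_real, Real.norm_eq_abs] at this
    linarith
  have hg := norm_nonneg (gb A z a b)
  calc ‖gb A z a b‖ ≤ 2 * (‖z‖ + 2) * ‖z + m‖ * ‖gb A z a b‖ := le_mul_of_one_le_left hg hzm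
    _ = 2 * (‖z‖ + 2) * (‖z + m‖ * ‖gb A z a b‖) := by ring
    _ ≤ 2 * (‖z‖ + 2) * (3 / 2) := mul_le_mul_of_nonneg_left h4 (by linarith)
    _ = 3 * (‖z‖ + 2) := by ring

/-- parameter space of the bootstrap: `((u, v), z)` -/
private abbrev TB (n : ℕ) : Type := ((Fin n → ℝ) × (Fin n → ℝ)) × ℂ

/-- admissible parameters at level `τ` -/
private def Adm (K ε τ : ℝ) (n : ℕ) (θ : TB n) : Prop :=
  θ.1.1 ⬝ᵥ θ.1.1 ≤ 1 ∧ θ.1.2 ⬝ᵥ θ.1.2 ≤ 1 ∧ Dom K ε n θ.2 ∧ (n : ℝ) ^ (-τ) ≤ θ.2.im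

/-- the bootstrap hypothesis -/
private def BHyp (K ε τ : ℝ) : Prop :=
  Vhp (Θ := TB) fun n E θ x => Adm K ε τ n θ → Bd (E.H x) θ.2 (6 * K + 6) θ.1.1 θ.1.2

private lemma bhyp_zero (R : ResApi) (V : VhpApi) {K ε : ℝ} (hK : 1 ≤ K) : BHyp K ε 0 := by
  refine V.of_all (Eventually.of_forall fun n E θ x hθ a b ha hb => ?_)
  obtain ⟨hu, hv, -, hz⟩ := hθ
  rw [neg_zero, Real.rpow_zero] at hz
  have h0 : 0 < θ.2.im := by linarith
  refine (R.bound (R.herm E x) h0 a b (ha.dot_le hu hv) (hb.dot_le hu hv)).trans ?_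
  have : 1 / θ.2.im ≤ 1 := by rw [div_le_one h0]; exact hz
  linarith

/-- raising `η` to `n^(-τ)` -/
private def up (τ : ℝ) (n : ℕ) (θ : TB n) : TB n := (θ.1, ⟨θ.2.re, max θ.2.im ((n : ℝ) ^ (-τ))⟩)

private lemma bhyp_weak (R : ResApi) (V : VhpApi) {K ε τ d : ℝ} (hK : 1 ≤ K) (hτ : 0 ≤ τ) (hd : 0 ≤ d)
    (h : BHyp K ε τ) : Vhp (Θ := TB) fun n E θ x => Adm K ε (τ + d) n θ →
      Bd (E.H x) θ.2 (2 * (6 * K + 6) * (n : ℝ) ^ d) θ.1.1 θ.1.2 := by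
  refine V.mono (V.comp (up τ) h) ?_
  filter_upwards [eventually_ge_atTop 1] with n hn E θ x hb hθ
  obtain ⟨hu, hv, hD, hz⟩ := hθ
  have hp : (1 : ℝ) ≤ n := by exact_mod_cast hn
  have hp0 : (0 : ℝ) < n := by linarith
  have h0 := hD.im_pos hn
  have h1 : (n : ℝ) ^ (-τ) ≤ 1 := Real.rpow_le_one_of_one_le_of_nonpos hp (by linarith)
  have hA : Adm K ε τ n (up τ n θ) :=
    ⟨hu, hv, ⟨hD.1, hD.2.1.trans (le_max_left _ _), max_le hD.2.2 (h1.trans hK)⟩, le_max_right _ _⟩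
  have hb' := R.bd_down (R.herm E x) (z := θ.2) (z' := (up τ n θ).2) h0 rfl (le_max_left _ _) (hb hA)
  refine hb'.mono ?_
  have hr : (up τ n θ).2.im / θ.2.im ≤ (n : ℝ) ^ d := by
    rw [div_le_iff₀ h0]
    refine max_le (le_mul_of_one_le_left h0.le (Real.one_le_rpow hp hd)) ?_
    calc (n : ℝ) ^ (-τ) = (n : ℝ) ^ d * (n : ℝ) ^ (-(τ + d)) := by
          rw [← Real.rpow_add hp0]; ring_nf
      _ ≤ (n : ℝ) ^ d * θ.2.im := mul_le_mul_of_nonneg_left hz (Real.rpow_nonneg hp0.le _)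
  nlinarith

private lemma bhyp_step (R : ResApi) (V : VhpApi) (hQ : QDetStmt) {K ε : ℝ} (hK : 1 ≤ K) (hε : 0 < ε)
    (hε1 : ε ≤ 1) : ∃ d : ℝ, 0 < d ∧ ∀ τ, 0 ≤ τ → BHyp K ε τ → BHyp K ε (τ + d) := by
  obtain ⟨C, k, hC, hQ⟩ := hQ
  have hk0 : (0 : ℝ) ≤ k := Nat.cast_nonneg k
  set d : ℝ := ε / (16 * (k + 1)) with hd
  have hd0 : 0 < d := by positivity
  have hdk : d * (k + 1) = ε / 16 := by rw [hd]; field_simp
  have hd1 : d ≤ ε / 16 := by nlinarith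
  refine ⟨d, hd0, fun τ hτ h => ?_⟩
  set C0 : ℝ := 6 * K + 6 with hC0
  have hC1 : 1 ≤ C0 := by linarith
  have hw := bhyp_weak R V hK hτ hd0.le h
  -- the good event on the extended parameter space
  have hG := V.and
    (V.comp (Θ' := fun n => TB n × (Fin n → ℝ) × (Fin n → ℝ)) (fun _ θ => θ.1) hw)
    (V.ent (Θ := fun n => TB n × (Fin n → ℝ) × (Fin n → ℝ)) d hd0)
  have hM := V.mom (Θ := fun n => TB n × (Fin n → ℝ) × (Fin n → ℝ))
    (fun n E θ x => QQ (E.H x) θ.1.2 θ.2.1 θ.2.2)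
    (fun n _ => C * ((n : ℝ) ^ d * (2 * C0 * (n : ℝ) ^ d)) ^ k * (n : ℝ) ^ (-(ε / 4)))
    (fun n θ => Adm K ε (τ + d) n θ.1 ∧ InS θ.1.1.1 θ.1.1.2 θ.2.1 ∧ InS θ.1.1.1 θ.1.1.2 θ.2.2)
    (k + 1) hG ?_ (ε / 16) (by positivity)
  · refine V.mono (V.allS (fun _ θ => θ.1.1) (fun _ θ => θ.1.2) hM) ?_
    filter_upwards [eventually_ge_atTop 1,
      ev_mul_rpow_le (2 * (C * (2 * C0) ^ k)) (show -(ε / 16) < 0 by linarith)]
      with n hn hs E θ x hq hθ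
    have hp : (1 : ℝ) ≤ n := by exact_mod_cast hn
    have hp0 : (0 : ℝ) < n := by linarith
    refine (bd_of_QQ R hn hθ.1 hθ.2.1 fun a b ha hb => ?_).mono ?_
    · refine (hq a b ha hb ⟨hθ, ha, hb⟩).trans ?_
      have e : (n : ℝ) ^ (ε / 16) * (C * ((n : ℝ) ^ d * (2 * C0 * (n : ℝ) ^ d)) ^ k *
          (n : ℝ) ^ (-(ε / 4))) =
          C * (2 * C0) ^ k * (n : ℝ) ^ (ε / 16 + 2 * d * k + -(ε / 4)) := by
        rw [Real.rpow_add hp0, Real.rpow_add hp0, Real.rpow_mul_natCast hp0.le,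
          show 2 * d = d + d by ring, Real.rpow_add hp0, mul_pow, mul_pow, mul_pow]
        ring
      rw [e]
      have h2 : (n : ℝ) ^ (ε / 16 + 2 * d * k + -(ε / 4)) ≤ (n : ℝ) ^ (-(ε / 16)) :=
        Real.rpow_le_rpow_of_exponent_le hp (by nlinarith)
      rw [Real.rpow_zero] at hs
      have h3 : 0 ≤ C * (2 * C0) ^ k := by positivity
      nlinarith [mul_le_mul_of_nonneg_left h2 h3]
    · have := hθ.2.2.1.norm_le
      linarith
  · filter_upwards [eventually_ge_atTop 1,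
      ev_mul_rpow_le (2 * K) (show (0 : ℝ) < 1 by linarith),
      ev_mul_rpow_le C (show (0 : ℝ) < 1 by linarith),
      ev_mul_rpow_le (16 * C0) (show d + d < 1 / 2 by linarith),
      ev_mul_rpow_le (2 * C0) (show d < ε / 2 by linarith)]
      with n hn hs1 hs2 hs3 hs4 E θ hθ
    obtain ⟨⟨hu, hv, hD, hz⟩, ha, hb⟩ := hθ
    have hp : (1 : ℝ) ≤ n := by exact_mod_cast hn
    have hp0 : (0 : ℝ) < n := lt_of_lt_of_le one_pos hp
    rw [Real.rpow_zero, Real.rpow_one, mul_one] at hs1 hs2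
    have hW : 1 ≤ (n : ℝ) ^ d := Real.one_le_rpow hp hd0.le
    have hΓ : 1 ≤ 2 * C0 * (n : ℝ) ^ d := by nlinarith
    have hψ0 : 0 < (n : ℝ) ^ (-(ε / 4)) := Real.rpow_pos_of_pos hp0 _
    have hψ1 : (n : ℝ) ^ (-(ε / 4)) ≤ 1 := Real.rpow_le_one_of_one_le_of_nonpos hp (by linarith)
    have hψ2 : ((n : ℝ) ^ (-(ε / 4))) ^ 2 = (n : ℝ) ^ (-(ε / 2)) := by
      rw [← Real.rpow_mul_natCast hp0.le]; ring_nf
    have hinv : ∀ s : ℝ, s ≤ 1 → 1 / (n : ℝ) ≤ (n : ℝ) ^ (-s) := fun s hs => by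
      rw [one_div, ← Real.rpow_neg_one]
      exact Real.rpow_le_rpow_of_exponent_le hp (by linarith)
    have hWΓ : 1 ≤ ((n : ℝ) ^ d * (2 * C0 * (n : ℝ) ^ d)) ^ k :=
      one_le_pow₀ (by nlinarith)
    have hφ : (n : ℝ) ^ (-(ε / 4)) ≤
        C * ((n : ℝ) ^ d * (2 * C0 * (n : ℝ) ^ d)) ^ k * (n : ℝ) ^ (-(ε / 4)) :=
      le_mul_of_one_le_left hψ0.le (by nlinarith)
    refine ⟨le_trans ?_ ((hinv (ε / 4) (by linarith)).trans hφ), ?_⟩
    · refine one_div_le_one_div_of_le hp0 ?_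
      exact le_self_pow₀ hp (Nat.succ_ne_zero k)
    have hzn := hD.norm_le
    obtain ⟨D, hX, hOk, hC1'⟩ := hQ n E θ.1.2 θ.2.1 θ.2.2 hn (hD.inv_le hε.le hn)
      (hzn.trans hs1) (ha.dot_le hu hv) (hb.dot_le hu hv)
    refine ⟨D, hX, hOk.mono ?_, fun x hx => ?_⟩
    · rw [pow_succ, mul_comm]
      exact mul_le_mul_of_nonneg_left hs2 (by positivity)
    · have hBd := (hx.1 ⟨hu, hv, hD, hz⟩).sub ha hb
      refine (hC1' x _ _ _ hW hΓ (by nlinarith) hx.2 ?_ hBd hψ0.le hψ1 ?_ ?_).cond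
        (hψ0.le.trans hφ)
      · rw [Real.sqrt_eq_rpow]
        refine le_trans (le_of_eq ?_) hs3
        rw [Real.rpow_add hp0]; ring
      · rw [hψ2]; exact hinv _ (by linarith)
      · intro w hw
        rw [hψ2]
        have h1 : (gb (E.H x) θ.1.2 w w).im ≤ (n : ℝ) ^ (ε / 2) :=
          ((Complex.im_le_norm _).trans (hBd w w hw hw)).trans hs4
        have h2 := hD.qq_le hn
        have h3 : 0 ≤ qq n θ.1.2 := by
          unfold qq; have := hD.im_pos hn; positivity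
        calc qq n θ.1.2 * (gb (E.H x) θ.1.2 w w).im ≤ qq n θ.1.2 * (n : ℝ) ^ (ε / 2) :=
              mul_le_mul_of_nonneg_left h1 h3
          _ ≤ (n : ℝ) ^ (-ε) * (n : ℝ) ^ (ε / 2) :=
              mul_le_mul_of_nonneg_right h2 (Real.rpow_nonneg hp0.le _)
          _ = (n : ℝ) ^ (-(ε / 2)) := by rw [← Real.rpow_add hp0]; ring_nf

private lemma bhyp_one (R : ResApi) (V : VhpApi) (hQ : QDetStmt) {K ε : ℝ} (hK : 1 ≤ K) (hε : 0 < ε)
    (hε1 : ε ≤ 1) : ∃ τ : ℝ, 1 ≤ τ ∧ BHyp K ε τ := by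
  obtain ⟨d, hd, hs⟩ := bhyp_step R V hQ hK hε hε1
  have hj : ∀ j : ℕ, BHyp K ε (j * d) := by
    intro j
    induction j with
    | zero => simpa using bhyp_zero R V hK
    | succ j ih =>
      have := hs _ (by positivity) ih
      rwa [show (j : ℝ) * d + d = ((j + 1 : ℕ) : ℝ) * d by push_cast; ring] at this
  obtain ⟨j, hj1⟩ := exists_nat_ge (1 / d)
  exact ⟨j * d, by rwa [div_le_iff₀ hd] at hj1, hj j⟩

/-- **L8, the a priori bound** -/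
theorem apr (R : ResApi) (V : VhpApi) (hQ : QDetStmt) : AprStmt := by
  intro K ε hε
  set K' : ℝ := max K 1 with hK'
  set ε' : ℝ := min ε 1 with hε'
  have hK1 : 1 ≤ K' := le_max_right _ _
  have hε0 : 0 < ε' := lt_min hε one_pos
  obtain ⟨τ, hτ, h⟩ := bhyp_one R V hQ hK1 hε0 (min_le_right _ _)
  refine ⟨6 * K' + 6 + 1, by linarith, ?_⟩
  have h1 : Vhp (Θ := fun n => ((Fin n → ℝ) × (Fin n → ℝ)) × ℂ) fun n E θ x =>
      Dom K' ε' n θ.2 → (θ.1.1 ⬝ᵥ θ.1.1 ≤ 1 → θ.1.2 ⬝ᵥ θ.1.2 ≤ 1 →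
        Bd (E.H x) θ.2 (6 * K' + 6) θ.1.1 θ.1.2) := by
    refine V.mono h ?_
    filter_upwards [eventually_ge_atTop 1] with n hn E θ x hb hD hu hv
    have hp : (1 : ℝ) ≤ n := by exact_mod_cast hn
    exact hb ⟨hu, hv, hD, (Real.rpow_le_rpow_of_exponent_le hp (by linarith)).trans hD.2.1⟩
  have h2 := V.grid (Θ := fun n => (Fin n → ℝ) × (Fin n → ℝ)) K' ε' 2
    (R := fun n E θ z x => θ.1 ⬝ᵥ θ.1 ≤ 1 → θ.2 ⬝ᵥ θ.2 ≤ 1 → Bd (E.H x) z (6 * K' + 6) θ.1 θ.2) h1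
  refine V.mono h2 ?_
  filter_upwards [eventually_ge_atTop 1] with n hn E θ x hx hu hv z hz a b ha hb
  have hp : (0 : ℝ) < n := by exact_mod_cast hn
  have hD : Dom K' ε' n z := hz.mono hn (le_max_left _ _) (min_le_left _ _)
  obtain ⟨z', hD', hzz, hB⟩ := hx z hD
  have h3 := hB hu hv a b ha hb
  have h4 := R.lipz (R.herm E x) (hD.im_pos hn) (hD'.im_pos hn) a b (ha.dot_le hu hv)
    (hb.dot_le hu hv)
  have h5 : ‖z - z'‖ / (z.im * z'.im) ≤ 1 := by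
    rw [div_le_one (mul_pos (hD.im_pos hn) (hD'.im_pos hn))]
    refine hzz.trans ?_
    rw [show 1 / (n : ℝ) ^ 2 = 1 / (n : ℝ) * (1 / n) by field_simp]
    exact mul_le_mul (hD.inv_le hε0.le hn) (hD'.inv_le hε0.le hn) (by positivity)
      (hD.im_pos hn).le
  have h6 := norm_le_norm_add_norm_sub' (gb (E.H x) z a b) (gb (E.H x) z' a b)
  linarith

end Crest.Agent.T157.Ll
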