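import Crest.Agent.T157.LlDef_91

/-!
# Row 157, part E: local law, the self-consistent equation and the averaged law (helper79)

* `pStmt : ResApi → MscApi → VhpApi → PDetStmt → PhiStmt → AprStmt → PStmt`;
* `avg : ResApi → MscApi → VhpApi → PStmt → AvgStmt`.
-/

set_option autoImplicit false

noncomputable section

namespace Crest.Agent.T157.Ll

open MeasureTheory ProbabilityTheory Matrix Filter Function
open Crest.ProbabilityR.SpinGlassDynamics Crest.Agent.T157.E Crest.Agent.T157.Eig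

namespace A79

lemma ok_mono {ι : Type} [Fintype ι] [DecidableEq ι] {D : MData ι} {B B' : ℝ} (h : D.Ok B)
    (hB : B ≤ B') : D.Ok B' :=
  { h with
    bX := fun x => (h.bX x).trans hB
    br := fun x => (h.br x).trans hB
    bf := fun a x => (h.bf a x).trans hB
    bf1 := fun a x => (h.bf1 a x).trans hB
    bf2 := fun a x => (h.bf2 a x).trans hB
    bX1 := fun a x => (h.bX1 a x).trans hB
    bX2 := fun a x => (h.bX2 a x).trans hB }

lemma ev_const_le (C e : ℝ) (he : 0 < e) : ∀ᶠ n : ℕ in atTop, C ≤ (n : ℝ) ^ e :=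
  ((tendsto_rpow_atTop he).comp tendsto_natCast_atTop_atTop).eventually_ge_atTop C

lemma ev_const_le_nat (C : ℝ) : ∀ᶠ n : ℕ in atTop, C ≤ (n : ℝ) :=
  tendsto_natCast_atTop_atTop.eventually_ge_atTop C

variable {n : ℕ}

lemma ee_dot (k : Fin n) : ee k ⬝ᵥ ee k ≤ 1 := by
  simp [ee]

lemma norm_st_le (R : ResApi) {A : Matrix (Fin n) (Fin n) ℝ} (hA : A.IsHermitian) {z : ℂ}
    (hz : 0 < z.im) : ‖st A z‖ ≤ 1 / z.im := by
  rw [R.st_eq, norm_div, Complex.norm_natCast]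
  rcases Nat.eq_zero_or_pos n with rfl | hn
  · simp; positivity
  have hn' : (0 : ℝ) < n := by exact_mod_cast hn
  rw [div_le_iff₀ hn']
  calc ‖∑ k, gb A z (ee k) (ee k)‖ ≤ ∑ k, ‖gb A z (ee k) (ee k)‖ := norm_sum_le _ _
    _ ≤ ∑ _k : Fin n, 1 / z.im :=
        Finset.sum_le_sum fun k _ => R.bound hA hz _ _ (ee_dot k) (ee_dot k)
    _ = 1 / z.im * n := by simp [mul_comm]

lemma st_im_nonneg (R : ResApi) {A : Matrix (Fin n) (Fin n) ℝ} (hA : A.IsHermitian) {z : ℂ}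
    (hz : 0 < z.im) : 0 ≤ (st A z).im := by
  rw [R.st_eq, Complex.div_natCast_im, Complex.im_sum]
  exact div_nonneg (Finset.sum_nonneg fun k _ => R.im_nonneg hA hz _) (Nat.cast_nonneg n)

lemma dom_im {K ε : ℝ} {z : ℂ} (hD : Dom K ε n z) (hn : 1 ≤ n) (hε : 0 < ε) :
    1 / (n : ℝ) ≤ z.im := by
  have hn' : (1 : ℝ) ≤ n := by exact_mod_cast hn
  refine le_trans ?_ hD.2.1
  rw [one_div, ← Real.rpow_neg_one]
  exact Real.rpow_le_rpow_of_exponent_le hn' (by linarith)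

lemma dom_pos {K ε : ℝ} {z : ℂ} (hD : Dom K ε n z) (hn : 1 ≤ n) (hε : 0 < ε) : 0 < z.im := by
  have hn' : (0 : ℝ) < n := by exact_mod_cast hn
  exact lt_of_lt_of_le (by positivity) (dom_im hD hn hε)

lemma dom_norm {K ε : ℝ} {z : ℂ} (hD : Dom K ε n z) : ‖z‖ ≤ 2 * |K| := by
  have h0 : (0 : ℝ) ≤ z.im := le_trans (Real.rpow_nonneg (Nat.cast_nonneg n) _) hD.2.1
  have h1 := Complex.norm_le_abs_re_add_abs_im z
  rw [abs_of_nonneg h0] at h1
  have h2 := le_abs_self K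
  linarith [hD.1, hD.2.2]

/-- the bound on `P` at a fixed spectral parameter -/
lemma pFixed (R : ResApi) (M : MscApi) (V : VhpApi) (hP : PDetStmt) (hF : PhiStmt) (hA : AprStmt)
    (K ε e : ℝ) (hε : 0 < ε) (he : 0 < e) :
    Vhp (Θ := fun _ => Unit × ℂ) fun n E θ x =>
      Dom K ε n θ.2 → ‖PP (E.H x) θ.2‖ ≤ (n : ℝ) ^ e * Phi n θ.2 := by
  obtain ⟨C, k, hC, hP⟩ := hP
  obtain ⟨C1, hC1, hF⟩ := hF (2 * |K|)
  obtain ⟨C2, hC2, hA⟩ := hA K ε hε
  set Γ : ℝ := C2 + 2 * |K| with hΓ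
  have hK0 : 0 ≤ |K| := abs_nonneg K
  have hΓ1 : 1 ≤ Γ := by linarith
  set δ : ℝ := min (1 / 4) (e / (4 * (k + 1))) with hδ
  have hδ0 : 0 < δ := lt_min (by norm_num) (by positivity)
  have hδ1 : δ ≤ 1 / 4 := min_le_left _ _
  have hδ2 : δ * (2 * k) ≤ e / 2 := by
    have h : δ ≤ e / (4 * (k + 1)) := min_le_right _ _
    rw [le_div_iff₀ (by positivity)] at h
    nlinarith
  have hG1 := V.comp (Θ' := fun _ => Unit × ℂ)
    (fun n _ => (((0 : Fin n → ℝ), (0 : Fin n → ℝ)) : (Fin n → ℝ) × (Fin n → ℝ))) hA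
  have hG := V.and hG1 (V.ent (Θ := fun _ => Unit × ℂ) δ hδ0)
  have hm := V.mom (Θ := fun _ => Unit × ℂ) (fun n E θ x => PP (E.H x) θ.2)
    (fun n θ => C ^ 2 * ((n : ℝ) ^ δ * Γ) ^ (2 * k) * C1 * Phi n θ.2)
    (fun n θ => Dom K ε n θ.2) (k + 2) hG ?_ (e / 4) (by positivity)
  · refine V.mono hm ?_
    filter_upwards [ev_const_le (C ^ 2 * Γ ^ (2 * k) * C1) (e / 4) (by positivity),
      eventually_ge_atTop 1, M.near K ε hε] with n h1 hn hnear E θ x h hD
    have hn' : (1 : ℝ) ≤ n := by exact_mod_cast hn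
    have hn0 : (0 : ℝ) < n := by linarith
    have hΦ : 0 ≤ Phi n θ.2 :=
      le_trans (by positivity) (hnear θ.2 θ.2 hD hD (by simp)).2.2.2.2.2.2.1
    refine (h hD).trans ?_
    rw [← mul_assoc]
    refine mul_le_mul_of_nonneg_right ?_ hΦ
    have h2 : ((n : ℝ) ^ δ) ^ (2 * k) ≤ (n : ℝ) ^ (e / 2) := by
      rw [← Real.rpow_natCast, ← Real.rpow_mul hn0.le]
      refine Real.rpow_le_rpow_of_exponent_le hn' ?_
      push_cast; exact hδ2
    have h3 : (n : ℝ) ^ e = (n : ℝ) ^ (e / 4) * ((n : ℝ) ^ (e / 4) * (n : ℝ) ^ (e / 2)) := by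
      rw [← Real.rpow_add hn0, ← Real.rpow_add hn0]; congr 1; ring
    rw [h3]
    refine mul_le_mul_of_nonneg_left ?_ (by positivity)
    calc C ^ 2 * ((n : ℝ) ^ δ * Γ) ^ (2 * k) * C1
        = (C ^ 2 * Γ ^ (2 * k) * C1) * ((n : ℝ) ^ δ) ^ (2 * k) := by rw [mul_pow]; ring
      _ ≤ (n : ℝ) ^ (e / 4) * (n : ℝ) ^ (e / 2) :=
          mul_le_mul h1 h2 (by positivity) (by positivity)
  · filter_upwards [ev_const_le (8 * Γ) (1 / 4) (by norm_num), ev_const_le_nat C,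
      ev_const_le_nat (2 * |K|), eventually_ge_atTop 1, M.near K ε hε]
      with n h1 h2 h3 hn hnear E θ hD
    have hn' : (1 : ℝ) ≤ n := by exact_mod_cast hn
    have hn0 : (0 : ℝ) < n := by linarith
    have hW : (1 : ℝ) ≤ (n : ℝ) ^ δ := Real.one_le_rpow hn' hδ0.le
    have hWΓ : (1 : ℝ) ≤ (n : ℝ) ^ δ * Γ := one_le_mul_of_one_le_of_one_le hW hΓ1
    have hL : (1 : ℝ) ≤ C ^ 2 * ((n : ℝ) ^ δ * Γ) ^ (2 * k) * C1 :=
      one_le_mul_of_one_le_of_one_le
        (one_le_mul_of_one_le_of_one_le (one_le_pow₀ hC) (one_le_pow₀ hWΓ)) hC1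
    have hΦ := (hnear θ.2 θ.2 hD hD (by simp)).2.2.2.2.2.2.1
    have hΦ0 : 0 ≤ Phi n θ.2 := le_trans (by positivity) hΦ
    have him := dom_im hD hn hε
    have hpos := dom_pos hD hn hε
    have hnorm := dom_norm hD
    refine ⟨?_, ?_⟩
    · calc 1 / (n : ℝ) ^ (k + 2) ≤ 1 / (n : ℝ) ^ 2 :=
            one_div_le_one_div_of_le (by positivity) (pow_le_pow_right₀ hn' (by omega))
        _ ≤ Phi n θ.2 := hΦ
        _ ≤ _ := le_mul_of_one_le_left hΦ0 hL
    obtain ⟨D, hX, hOk, hD1⟩ := hP n E θ.2 hn him (hnorm.trans h3)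
    refine ⟨D, hX, ok_mono hOk ?_, ?_⟩
    · calc C * (n : ℝ) ^ k ≤ n * (n : ℝ) ^ k := by gcongr
        _ = (n : ℝ) ^ (k + 1) := by ring
        _ ≤ _ := pow_le_pow_right₀ hn' (by omega)
    rintro x ⟨hx1, hx2⟩
    have hBd : Bd (E.H x) θ.2 C2 0 0 := hx1 (by simp) (by simp) θ.2 hD
    have h8 : 8 * (n : ℝ) ^ δ * Γ ≤ √(n : ℝ) := by
      have h4 : (n : ℝ) ^ δ ≤ (n : ℝ) ^ (1 / 4 : ℝ) := Real.rpow_le_rpow_of_exponent_le hn' hδ1
      have h5 : √(n : ℝ) = (n : ℝ) ^ (1 / 4 : ℝ) * (n : ℝ) ^ (1 / 4 : ℝ) := by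
        rw [← Real.rpow_add hn0, Real.sqrt_eq_rpow]; norm_num
      rw [h5]
      calc 8 * (n : ℝ) ^ δ * Γ = (8 * Γ) * (n : ℝ) ^ δ := by ring
        _ ≤ _ := mul_le_mul h1 h4 (by positivity) (by positivity)
    have hc := hD1 x ((n : ℝ) ^ δ) Γ hW hΓ1 (by linarith) hx2 h8 fun a b =>
      (hBd _ _ (Or.inr (Or.inr ⟨a, rfl⟩)) (Or.inr (Or.inr ⟨b, rfl⟩))).trans (by linarith)
    have hφ := hF n θ.2 (st (E.H x) θ.2) hn him hnorm (st_im_nonneg R (R.herm E x) hpos)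
    have hφ0 : 0 ≤ phi1 n θ.2 (st (E.H x) θ.2) := Real.sqrt_nonneg _
    refine ⟨_, by positivity, ?_, hc⟩
    rw [hX]
    change _ ≤ _ + _ * ‖1 + θ.2 * st (E.H x) θ.2 + st (E.H x) θ.2 ^ 2‖
    set p := ‖1 + θ.2 * st (E.H x) θ.2 + st (E.H x) θ.2 ^ 2‖ with hp
    have hp0 : 0 ≤ p := norm_nonneg _
    set L := C ^ 2 * ((n : ℝ) ^ δ * Γ) ^ (2 * k) * C1 with hLdef
    set Φ := Phi n θ.2
    have hT : 0 ≤ C ^ 2 * ((n : ℝ) ^ δ * Γ) ^ (2 * k) := by positivity
    calc (C * ((n : ℝ) ^ δ * Γ) ^ k * phi1 n θ.2 (st (E.H x) θ.2)) ^ 2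
        = C ^ 2 * ((n : ℝ) ^ δ * Γ) ^ (2 * k) * phi1 n θ.2 (st (E.H x) θ.2) ^ 2 := by ring
      _ ≤ C ^ 2 * ((n : ℝ) ^ δ * Γ) ^ (2 * k) * (C1 * (Φ ^ 2 + Φ * p)) :=
          mul_le_mul_of_nonneg_left hφ hT
      _ = L * Φ ^ 2 + L * Φ * p := by rw [hLdef]; ring
      _ ≤ (L * Φ) ^ 2 + L * Φ * p := by
          have : L * Φ ^ 2 ≤ (L * Φ) ^ 2 := by
            rw [mul_pow]
            exact mul_le_mul_of_nonneg_right (by nlinarith) (sq_nonneg _)
          linarith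

/-- `P` is Lipschitz in the spectral parameter -/
lemma pp_lip (R : ResApi) {A : Matrix (Fin n) (Fin n) ℝ} (hA : A.IsHermitian) {z z' : ℂ}
    (hn : 2 ≤ n) (hz : 1 / (n : ℝ) ≤ z.im) (hz' : 1 / (n : ℝ) ≤ z'.im) (hK : ‖z'‖ ≤ n)
    (hd : ‖z - z'‖ ≤ 1 / (n : ℝ) ^ 10) : ‖PP A z - PP A z'‖ ≤ 1 / (n : ℝ) ^ 2 := by
  have hn' : (2 : ℝ) ≤ n := by exact_mod_cast hn
  have hn0 : (0 : ℝ) < n := by linarith
  have h0 : 0 < z.im := lt_of_lt_of_le (by positivity) hz
  have h0' : 0 < z'.im := lt_of_lt_of_le (by positivity) hz'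
  have i1 : 1 / z.im ≤ n := by rw [div_le_iff₀ h0]; rw [div_le_iff₀ hn0] at hz; linarith
  have i2 : 1 / z'.im ≤ n := by rw [div_le_iff₀ h0']; rw [div_le_iff₀ hn0] at hz'; linarith
  have m1 : ‖st A z‖ ≤ n := (norm_st_le R hA h0).trans i1
  have m2 : ‖st A z'‖ ≤ n := (norm_st_le R hA h0').trans i2
  have m3 : ‖st A z - st A z'‖ ≤ 1 / (n : ℝ) ^ 8 := by
    refine (R.lipst hA h0 h0').trans ?_
    calc ‖z - z'‖ / (z.im * z'.im) = ‖z - z'‖ * (1 / z.im) * (1 / z'.im) := by field_simp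
      _ ≤ 1 / (n : ℝ) ^ 10 * n * n := by gcongr
      _ = 1 / (n : ℝ) ^ 8 := by field_simp
  have e : PP A z - PP A z' =
      (z - z') * st A z + (st A z - st A z') * (z' + st A z + st A z') := by
    unfold PP; ring
  rw [e]
  have m4 : ‖z' + st A z + st A z'‖ ≤ 3 * n := by
    have := norm_add₃_le (a := z') (b := st A z) (c := st A z')
    linarith
  calc ‖(z - z') * st A z + (st A z - st A z') * (z' + st A z + st A z')‖
      ≤ ‖z - z'‖ * ‖st A z‖ + ‖st A z - st A z'‖ * ‖z' + st A z + st A z'‖ := by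
        refine (norm_add_le _ _).trans ?_
        rw [norm_mul, norm_mul]
    _ ≤ 1 / (n : ℝ) ^ 10 * n + 1 / (n : ℝ) ^ 8 * (3 * n) := by gcongr
    _ = (1 / (n : ℝ) ^ 7 + 3 / (n : ℝ) ^ 5) * (1 / (n : ℝ) ^ 2) := by field_simp
    _ ≤ 1 * (1 / (n : ℝ) ^ 2) := by
        gcongr
        have a1 : (2 : ℝ) ^ 7 ≤ (n : ℝ) ^ 7 := by gcongr
        have a2 : (2 : ℝ) ^ 5 ≤ (n : ℝ) ^ 5 := by gcongr
        have a3 : 1 / (n : ℝ) ^ 7 ≤ 1 / 2 ^ 7 := one_div_le_one_div_of_le (by norm_num) a1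
        have a4 : 3 / (n : ℝ) ^ 5 ≤ 3 / 2 ^ 5 :=
          div_le_div_of_nonneg_left (by norm_num) (by norm_num) a2
        norm_num at a3 a4 ⊢
        linarith
    _ = _ := one_mul _

end A79

open A79

/-- **L9a** -/
theorem pStmt (R : ResApi) (M : MscApi) (V : VhpApi) (hP : PDetStmt) (hF : PhiStmt)
    (hA : AprStmt) : PStmt := by
  intro K ε ε' hε hε'
  have h1 := pFixed R M V hP hF hA K ε (ε' / 2) hε (by positivity)
  have h2 := V.grid (Θ := fun _ => Unit) K ε 10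
    (R := fun n E _ z x => ‖PP (E.H x) z‖ ≤ (n : ℝ) ^ (ε' / 2) * Phi n z) h1
  refine V.mono h2 ?_
  filter_upwards [ev_const_le 9 (ε' / 2) (by positivity), ev_const_le_nat (2 * |K|),
    eventually_ge_atTop 2, M.near K ε hε] with n h9 hK hn hnear E θ x h z hD
  obtain ⟨z', hD', hd, hb⟩ := h z hD
  have hn1 : 1 ≤ n := by omega
  have hn0 : (0 : ℝ) < n := by exact_mod_cast hn1
  obtain ⟨-, hΦ8, -, -, -, -, hΦ, -⟩ := hnear z z' hD hD' hd
  have hl := pp_lip R (R.herm E x) hn (dom_im hD hn1 hε) (dom_im hD' hn1 hε)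
    ((dom_norm hD').trans hK) hd
  have hΦ0 : 0 ≤ Phi n z := le_trans (by positivity) hΦ
  have e : (n : ℝ) ^ ε' = (n : ℝ) ^ (ε' / 2) * (n : ℝ) ^ (ε' / 2) := by
    rw [← Real.rpow_add hn0]; congr 1; ring
  have t := norm_le_norm_add_norm_sub' (PP (E.H x) z) (PP (E.H x) z')
  set a := (n : ℝ) ^ (ε' / 2)
  have hb2 : a * Phi n z' ≤ a * (8 * Phi n z) := mul_le_mul_of_nonneg_left hΦ8 (by linarith)
  rw [e]
  have : a * (8 * Phi n z) + Phi n z ≤ a * a * Phi n z := by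
    have : 8 * a + 1 ≤ a * a := by nlinarith
    nlinarith
  linarith

namespace A79

variable {n : ℕ}

/-- `δ ≤ 4 Λ q` -/
lemma delta_le (M : MscApi) {z : ℂ} (hz : 0 < z.im) (hn : 1 ≤ n) {La p δ : ℝ} (hLa : 1 ≤ La)
    (hp : p ≤ La * Phi n z) (hδ0 : 0 ≤ δ) (h1 : δ ^ 2 ≤ p) (h2 : al z * δ ≤ 2 * p) :
    δ ≤ 4 * La * qq n z := by
  have hn0 : (0 : ℝ) < n := by exact_mod_cast hn
  have hq : 0 < qq n z := by unfold qq; positivity
  have hal : 0 ≤ al z := norm_nonneg _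
  have him := M.im_le_al hz
  have hm := M.im_pos hz
  have hs : √(al z * (msc z).im) ≤ al z := by
    rw [Real.sqrt_le_left hal]
    nlinarith
  have hΦ : Phi n z ≤ qq n z * al z + qq n z ^ 2 := by
    unfold Phi
    have := mul_le_mul_of_nonneg_left hs hq.le
    linarith
  set q := qq n z
  set a := al z
  have hp2 : p ≤ La * (q * a + q ^ 2) := hp.trans (mul_le_mul_of_nonneg_left hΦ (by linarith))
  rcases le_total q a with h | h
  · have ha : 0 < a := lt_of_lt_of_le hq h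
    have h3 : q ^ 2 ≤ q * a := by nlinarith
    have h4 : La * (q * a + q ^ 2) ≤ La * (2 * (q * a)) :=
      mul_le_mul_of_nonneg_left (by linarith) (by linarith)
    have h5 : a * δ ≤ a * (4 * La * q) := by nlinarith
    exact le_of_mul_le_mul_left h5 ha
  · have h3 : q * a ≤ q ^ 2 := by nlinarith
    have h4 : La * (q * a + q ^ 2) ≤ La * (2 * q ^ 2) :=
      mul_le_mul_of_nonneg_left (by linarith) (by linarith)
    have h5 : δ ^ 2 ≤ (4 * La * q) ^ 2 := by
      have : La * (2 * q ^ 2) ≤ (4 * La * q) ^ 2 := by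
        have h6 : La * 2 ≤ 16 * La ^ 2 := by nlinarith
        have h7 : 0 ≤ q ^ 2 := sq_nonneg q
        nlinarith
      linarith
    exact (pow_le_pow_iff_left₀ hδ0 (by positivity) two_ne_zero).1 h5

lemma cont_st (R : ResApi) {A : Matrix (Fin n) (Fin n) ℝ} (hA : A.IsHermitian) {z : ℂ}
    (hz : 0 < z.im) : ContinuousAt (st A) z := by
  have hev : ∀ᶠ w in nhds z, 0 < Complex.im w :=
    Complex.continuous_im.continuousAt.eventually (lt_mem_nhds hz)
  have h1 : ContinuousAt (fun w : ℂ => (∑ k ∈ Finset.range n, ((lam A k : ℂ) - w)⁻¹) / n) z := by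
    refine ContinuousAt.div_const ?_ _
    refine tendsto_finsetSum _ fun k _ => ?_
    refine ContinuousAt.inv₀ (f := fun w : ℂ => (lam A k : ℂ) - w) (by fun_prop) fun h => ?_
    have := congrArg Complex.im h
    simp at this
    linarith
  refine h1.congr ?_
  filter_upwards [hev] with w hw
  exact (R.spec_st hA hw.ne').symm

/-- the deterministic part of the averaged law -/
lemma avg_det (R : ResApi) (M : MscApi) {A : Matrix (Fin n) (Fin n) ℝ} (hA : A.IsHermitian)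
    {K ε La : ℝ} (hK : 1 ≤ K) (hε : 0 < ε) (hn : 1 ≤ n) (hLa : 1 ≤ La) (hLn : 4 * La < n)
    (h : ∀ z, Dom K ε n z → ‖PP A z‖ ≤ La * Phi n z) {z : ℂ} (hD : Dom K ε n z) :
    ‖st A z - msc z‖ ≤ 14 * La * qq n z ∧ al z * ‖st A z - msc z‖ ≤ 102 * La ^ 2 * Phi n z := by
  have hn0 : (0 : ℝ) < n := by exact_mod_cast hn
  have key : ∀ w, Dom K ε n w → ∃ δ : ℝ, 0 ≤ δ ∧
      (δ = ‖st A w - msc w‖ ∨ δ = ‖st A w - (msc w)⁻¹‖) ∧ δ ≤ 4 * La * qq n w ∧
      al w * δ ≤ 2 * (La * Phi n w) := by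
    intro w hw
    have hw0 := dom_pos hw hn hε
    obtain ⟨δ, h0, h1, -, -, h4, h5, -⟩ := M.dist hw0 (st_im_nonneg R hA hw0)
    have hp : ‖1 + w * st A w + st A w ^ 2‖ ≤ La * Phi n w := h w hw
    exact ⟨δ, h0, h1, delta_le M hw0 hn hLa hp h0 h4 h5, by linarith⟩
  have tri : ∀ w : ℂ, al w ≤ ‖st A w - msc w‖ + ‖st A w - (msc w)⁻¹‖ := by
    intro w
    rw [M.al_eq]
    have := norm_sub_le (st A w - (msc w)⁻¹) (st A w - msc w)
    have e : st A w - (msc w)⁻¹ - (st A w - msc w) = msc w - (msc w)⁻¹ := by ring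
    rw [e] at this
    linarith
  have tri2 : ‖st A z - msc z‖ ≤ ‖st A z - (msc z)⁻¹‖ + al z := by
    rw [M.al_eq]
    have := norm_sub_le (st A z - (msc z)⁻¹) (msc z - (msc z)⁻¹)
    have e : st A z - (msc z)⁻¹ - (msc z - (msc z)⁻¹) = st A z - msc z := by ring
    rwa [e] at this
  have hz0 := dom_pos hD hn hε
  have hq : 0 < qq n z := by unfold qq; positivity
  have hal : 0 ≤ al z := norm_nonneg _
  have hΦq : qq n z ^ 2 ≤ Phi n z := by
    unfold Phi
    have : 0 ≤ qq n z * √(al z * (msc z).im) := by positivity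
    linarith
  have hΦ0 : 0 ≤ Phi n z := le_trans (sq_nonneg _) hΦq
  have hLL : La ≤ La ^ 2 := by nlinarith
  have hLΦ : La * Phi n z ≤ La ^ 2 * Phi n z := mul_le_mul_of_nonneg_right hLL hΦ0
  have hLΦ0 : 0 ≤ La ^ 2 * Phi n z := by positivity
  have hLq : 0 < La * qq n z := by positivity
  obtain ⟨δ, h0, h1, h2, h3⟩ := key z hD
  rcases le_or_gt (al z) (10 * La * qq n z) with hs | hs
  · have hm : ‖st A z - msc z‖ ≤ δ + al z := by
      rcases h1 with h1 | h1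
      · linarith
      · linarith
    refine ⟨by linarith, ?_⟩
    have a1 : al z * ‖st A z - msc z‖ ≤ al z * (δ + al z) := mul_le_mul_of_nonneg_left hm hal
    have a2 : al z ^ 2 ≤ (10 * La * qq n z) ^ 2 := by gcongr
    have a3 : La ^ 2 * qq n z ^ 2 ≤ La ^ 2 * Phi n z := by gcongr
    nlinarith
  · -- continuity argument along the vertical line
    set w : ℝ → ℂ := fun t => ⟨z.re, t⟩ with hw
    have hwD : ∀ t ∈ Set.Icc z.im K, Dom K ε n (w t) := fun t ht =>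
      ⟨hD.1, hD.2.1.trans ht.1, ht.2⟩
    set g : ℝ → ℝ := fun t => ‖st A (w t) - msc (w t)‖ - al (w t) / 2 with hg
    have hwc : Continuous w := by
      have : w = fun t : ℝ => (z.re : ℂ) + (t : ℂ) * Complex.I := by
        funext t; apply Complex.ext <;> simp [hw]
      rw [this]; fun_prop
    have hgc : ContinuousOn g (Set.Icc z.im K) := by
      intro t ht
      have ht0 : 0 < (w t).im := lt_of_lt_of_le hz0 ht.1
      have c1 : ContinuousAt (fun t => st A (w t)) t :=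
        ContinuousAt.comp (cont_st R hA ht0) hwc.continuousAt
      have c2 : ContinuousAt (fun t => msc (w t)) t :=
        ContinuousAt.comp (M.deriv ht0).continuousAt hwc.continuousAt
      have c3 : ContinuousAt (fun t => al (w t)) t :=
        (hwc.continuousAt.add (continuousAt_const.mul c2)).norm
      exact ((c1.sub c2).norm.sub (c3.div_const 2)).continuousWithinAt
    have dich : ∀ t ∈ Set.Icc z.im K, ∀ d : ℝ, d ≤ 4 * La * qq n (w t) →
        (d = ‖st A (w t) - msc (w t)‖ → g t < 0) ∧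
        (d = ‖st A (w t) - (msc (w t))⁻¹‖ → 0 < g t) := by
      intro t ht d hd
      have b1 : qq n (w t) ≤ qq n z := by
        unfold qq
        exact one_div_le_one_div_of_le (by positivity)
          (mul_le_mul_of_nonneg_left ht.1 hn0.le)
      have b2 : al z ≤ al (w t) := M.al_mono hz0 rfl ht.1
      have b3 : La * qq n (w t) ≤ La * qq n z := mul_le_mul_of_nonneg_left b1 (by linarith)
      have b4 := tri (w t)
      constructor
      · intro e
        simp only [hg]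
        linarith
      · intro e
        simp only [hg]
        linarith
    have hKm : K ∈ Set.Icc z.im K := ⟨hD.2.2, le_rfl⟩
    have gK : g K < 0 := by
      obtain ⟨d, -, d1, d2, -⟩ := key (w K) (hwD K hKm)
      rcases d1 with d1 | d1
      · exact (dich K hKm d d2).1 d1
      · exfalso
        have hK0 : 0 < (w K).im := lt_of_lt_of_le one_pos hK
        have i1 := Complex.im_le_norm (st A (w K) - (msc (w K))⁻¹)
        rw [M.inv_eq] at i1 d1
        have i2 := st_im_nonneg R hA hK0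
        have i3 := M.im_pos hK0
        have i4 : (w K).im = K := rfl
        simp only [Complex.sub_im, Complex.neg_im] at i1
        have i5 : qq n (w K) ≤ 1 / n := by
          unfold qq
          refine one_div_le_one_div_of_le hn0 ?_
          rw [i4]; nlinarith
        have i6 : 4 * La * qq n (w K) ≤ 4 * La * (1 / n) :=
          mul_le_mul_of_nonneg_left i5 (by linarith)
        have i7 : 4 * La * (1 / (n : ℝ)) < 1 := by
          rw [mul_one_div, div_lt_one hn0]; exact hLn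
        linarith
    have hzm : z.im ∈ Set.Icc z.im K := ⟨le_rfl, hD.2.2⟩
    have hwz : w z.im = z := rfl
    have hδ : δ = ‖st A z - msc z‖ := by
      rcases h1 with h1 | h1
      · exact h1
      · exfalso
        have g0 : 0 < g z.im := (dich z.im hzm δ h2).2 h1
        obtain ⟨t, ht, ht0⟩ := intermediate_value_Icc' hD.2.2 hgc ⟨gK.le, g0.le⟩
        obtain ⟨d, -, d1, d2, -⟩ := key (w t) (hwD t ht)
        rcases d1 with d1 | d1
        · exact absurd ht0 ((dich t ht d d2).1 d1).ne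
        · exact absurd ht0 ((dich t ht d d2).2 d1).ne'
    rw [← hδ]
    exact ⟨by linarith, by linarith⟩

end A79

/-- **L9b** -/
theorem avg (R : ResApi) (M : MscApi) (V : VhpApi) (h : PStmt) : AvgStmt := by
  intro K ε ε' hε hε'
  set e : ℝ := min ε' 1 / 4 with he
  have he0 : 0 < e := div_pos (lt_min hε' one_pos) (by norm_num)
  have he1 : 4 * e ≤ ε' := by have := min_le_left ε' 1; linarith
  have he2 : 4 * e ≤ 1 := by have := min_le_right ε' 1; linarith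
  refine V.mono (h (max K 1) ε e hε he0) ?_
  filter_upwards [ev_const_le 14 e he0, eventually_ge_atTop 1] with n h14 hn E θ x hx z hD
  have hn' : (1 : ℝ) ≤ n := by exact_mod_cast hn
  have hn0 : (0 : ℝ) < n := by linarith
  have hD' : Dom (max K 1) ε n z :=
    ⟨hD.1.trans (le_max_left _ _), hD.2.1, hD.2.2.trans (le_max_left _ _)⟩
  have e4 : ((n : ℝ) ^ e) ^ 4 = (n : ℝ) ^ (4 * e) := by
    rw [← Real.rpow_natCast, ← Real.rpow_mul hn0.le]; congr 1; push_cast; ring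
  have p1 : ((n : ℝ) ^ e) ^ 4 ≤ (n : ℝ) ^ ε' := by
    rw [e4]; exact Real.rpow_le_rpow_of_exponent_le hn' he1
  have p2 : ((n : ℝ) ^ e) ^ 4 ≤ n := by
    rw [e4]
    calc (n : ℝ) ^ (4 * e) ≤ (n : ℝ) ^ (1 : ℝ) := Real.rpow_le_rpow_of_exponent_le hn' he2
      _ = n := Real.rpow_one _
  set a := (n : ℝ) ^ e
  have q1 : 196 ≤ a ^ 2 := by nlinarith
  have q2 : 196 * a ^ 2 ≤ a ^ 4 := by nlinarith
  have q3 : 14 * a ≤ a ^ 2 := by nlinarith
  obtain ⟨r1, r2⟩ := avg_det R M (R.herm E x) (le_max_right K 1) hε hn (by linarith : 1 ≤ a)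
    (by nlinarith) hx hD'
  have hz0 := dom_pos hD hn hε
  have hq : 0 < qq n z := by unfold qq; positivity
  have hΦ : 0 ≤ Phi n z := by unfold Phi; positivity
  constructor
  · refine r1.trans (mul_le_mul_of_nonneg_right ?_ hq.le)
    nlinarith
  · refine r2.trans (mul_le_mul_of_nonneg_right ?_ hΦ)
    nlinarith

end Crest.Agent.T157.Ll
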