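import Crest.Agent.T157.LlDef_91

/-!
# Row 157, part E: eigenvalue counting from the averaged local law (`CntStmt`) (helper59)

`F z = (1/n) ∑ log (z - λ_k)`, `L z = msc z ^ 2 / 2 - log (- msc z)`, `F' = - st`, `L' = - msc`.
-/

set_option autoImplicit false

noncomputable section

namespace Crest.Agent.T157.Ll

open MeasureTheory Matrix Filter Function Topology
open Crest.Agent.T157.E Crest.Agent.T157.Eig

namespace Cnt59

/-- the point `E + i η` -/
def pt (E η : ℝ) : ℂ := ⟨E, η⟩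

@[simp] lemma pt_re (E η : ℝ) : (pt E η).re = E := rfl
@[simp] lemma pt_im (E η : ℝ) : (pt E η).im = η := rfl

lemma pt_eq (E η : ℝ) : pt E η = (E : ℂ) + (η : ℂ) * Complex.I := by
  apply Complex.ext <;> simp

lemma norm_pt_sub_le (E η E' η' : ℝ) : ‖pt E η - pt E' η'‖ ≤ |E - E'| + |η - η'| := by
  have := Complex.norm_le_abs_re_add_abs_im (pt E η - pt E' η')
  simpa using this

/-- variation along a vertical segment when the derivative is `O(1/η)` -/
lemma vert {D D' : ℂ → ℂ} (hD : ∀ z : ℂ, 0 < z.im → HasDerivAt D (D' z) z) {E a b c : ℝ}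
    (ha : 0 < a) (hab : a ≤ b) (h : ∀ η : ℝ, a ≤ η → η ≤ b → ‖D' (pt E η)‖ ≤ c / η) :
    ‖D (pt E b) - D (pt E a)‖ ≤ c * (Real.log b - Real.log a) := by
  have hb : 0 < b := ha.trans_le hab
  have hl : Real.log a ≤ Real.log b := Real.log_le_log ha hab
  have hd : ∀ s : ℝ, HasDerivAt (fun s : ℝ => D (pt E (Real.exp s)))
      (D' (pt E (Real.exp s)) * ((Real.exp s : ℂ) * Complex.I)) s := by
    intro s
    have h1 : HasDerivAt (fun s : ℝ => pt E (Real.exp s)) ((Real.exp s : ℂ) * Complex.I) s := by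
      simp only [pt_eq]
      exact (((Real.hasDerivAt_exp s).ofReal_comp).mul_const Complex.I).const_add _
    have h2 := hD (pt E (Real.exp s)) (by simpa using Real.exp_pos s)
    exact h2.comp_of_eq s h1 rfl
  have key := Convex.norm_image_sub_le_of_norm_hasDerivWithin_le
    (f := fun s : ℝ => D (pt E (Real.exp s)))
    (f' := fun s => D' (pt E (Real.exp s)) * ((Real.exp s : ℂ) * Complex.I)) (C := c)
    (s := Set.Icc (Real.log a) (Real.log b)) (x := Real.log a) (y := Real.log b)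
    (fun s _ => (hd s).hasDerivWithinAt) (fun s hs => by
      have e1 : a ≤ Real.exp s := by
        rw [← Real.exp_log ha]; exact Real.exp_le_exp.2 hs.1
      have e2 : Real.exp s ≤ b := by
        rw [← Real.exp_log hb]; exact Real.exp_le_exp.2 hs.2
      have := h _ e1 e2
      rw [norm_mul, norm_mul, Complex.norm_I, mul_one, Complex.norm_real, Real.norm_eq_abs,
        abs_of_pos (Real.exp_pos s)]
      rwa [le_div_iff₀ (Real.exp_pos s)] at this)
    (convex_Icc _ _) (Set.left_mem_Icc.2 hl) (Set.right_mem_Icc.2 hl)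
  simp only [Real.exp_log ha, Real.exp_log hb] at key
  rwa [Real.norm_eq_abs, abs_of_nonneg (sub_nonneg.2 hl)] at key

/-- variation along a horizontal segment -/
lemma horiz {D D' : ℂ → ℂ} (hD : ∀ z : ℂ, 0 < z.im → HasDerivAt D (D' z) z) {E E' K η c : ℝ}
    (hη : 0 < η) (hE : |E| ≤ K) (hE' : |E'| ≤ K) (h : ∀ x : ℝ, |x| ≤ K → ‖D' (pt x η)‖ ≤ c) :
    ‖D (pt E' η) - D (pt E η)‖ ≤ c * |E' - E| := by
  have hd : ∀ s : ℝ, HasDerivAt (fun s : ℝ => D (pt s η)) (D' (pt s η) * 1) s := by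
    intro s
    have h1 : HasDerivAt (fun s : ℝ => pt s η) (1 : ℂ) s := by
      simp only [pt_eq]
      simpa using ((hasDerivAt_id s).ofReal_comp).add_const ((η : ℂ) * Complex.I)
    have h2 := hD (pt s η) (by simpa using hη)
    exact h2.comp_of_eq s h1 rfl
  have key := Convex.norm_image_sub_le_of_norm_hasDerivWithin_le
    (f := fun s : ℝ => D (pt s η)) (f' := fun s => D' (pt s η) * 1) (C := c)
    (s := Set.Icc (-K) K) (x := E) (y := E')
    (fun s _ => (hd s).hasDerivWithinAt) (fun s hs => by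
      rw [mul_one]; exact h s (abs_le.2 hs))
    (convex_Icc _ _) (abs_le.1 hE) (abs_le.1 hE')
  rwa [Real.norm_eq_abs] at key

/-- the logarithmic potential of the semicircle law -/
def LL (z : ℂ) : ℂ := msc z ^ 2 / 2 - Complex.log (-msc z)

lemma LL_deriv (M : MscApi) {z : ℂ} (hz : 0 < z.im) : HasDerivAt LL (-msc z) z := by
  have hi := M.im_pos hz
  have hal : z + 2 * msc z ≠ 0 := by
    intro h
    have := M.im_le_al hz
    rw [al, h, norm_zero] at this
    linarith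
  have hs : -msc z ∈ Complex.slitPlane := by
    right; simpa using hi.ne'
  have h1 := M.deriv hz
  have h2 := ((h1.pow 2).div_const 2).sub (h1.neg.clog hs)
  refine HasDerivAt.congr_deriv (f := LL) h2 ?_
  have hw : -msc z / (z + 2 * msc z) * (z + 2 * msc z) = -msc z := div_mul_cancel₀ _ hal
  simp only [Pi.neg_apply]
  generalize -msc z / (z + 2 * msc z) = w at hw ⊢
  rw [neg_div_neg_eq, div_eq_mul_inv w, M.inv_eq]
  push_cast
  linear_combination hw

lemma LL_lip (M : MscApi) {z w : ℂ} (hz : 0 < z.im) (hw : 0 < w.im) : ‖LL z - LL w‖ ≤ ‖z - w‖ := by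
  have key := Convex.norm_image_sub_le_of_norm_hasDerivWithin_le (f := LL)
    (f' := fun z => -msc z) (C := 1) (s := {z : ℂ | 0 < z.im}) (x := w) (y := z)
    (fun y hy => (LL_deriv M hy).hasDerivWithinAt) (fun y hy => by
      rw [norm_neg]; exact M.norm_le hy) (convex_halfSpace_im_gt 0) hw hz
  simpa using key

lemma LL_val (M : MscApi) {ρ t : ℝ} (h0 : 0 < ρ) (h1 : ρ < 1) (ht0 : 0 < t) (ht1 : t < Real.pi) :
    (LL (pt ((ρ + ρ⁻¹) * Real.cos t) ((ρ⁻¹ - ρ) * Real.sin t))).im =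
      t - ρ ^ 2 * (Real.sin t * Real.cos t) := by
  have hs : 0 < Real.sin t := Real.sin_pos_of_pos_of_lt_pi ht0 ht1
  have hr : 0 < ρ⁻¹ - ρ := by
    have : 1 < ρ⁻¹ := one_lt_inv₀ h0 |>.2 h1
    linarith
  have hsc := Real.sin_sq_add_cos_sq t
  have hinv : ρ * ρ⁻¹ = 1 := mul_inv_cancel₀ h0.ne'
  have hm : pt (-(ρ * Real.cos t)) (ρ * Real.sin t) =
      msc (pt ((ρ + ρ⁻¹) * Real.cos t) ((ρ⁻¹ - ρ) * Real.sin t)) := by
    refine M.uniq (by simpa using mul_pos hr hs) (by simpa using (mul_pos h0 hs).le) ?_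
    apply Complex.ext
    · simp only [sq, Complex.add_re, Complex.mul_re, pt_re, pt_im, Complex.one_re, Complex.zero_re]
      linear_combination (-(Real.sin t ^ 2 + Real.cos t ^ 2)) * hinv - hsc
    · simp only [sq, Complex.add_im, Complex.mul_im, pt_re, pt_im, Complex.one_im, Complex.zero_im]
      ring
  have ha : Complex.arg (-pt (-(ρ * Real.cos t)) (ρ * Real.sin t)) = -t := by
    have := Complex.arg_mul_cos_add_sin_mul_I h0 (θ := -t) ⟨by linarith, by linarith⟩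
    rw [← this]
    congr 1
    apply Complex.ext
    · simp [← Complex.ofReal_cos, ← Complex.ofReal_sin]
    · simp [← Complex.ofReal_cos, ← Complex.ofReal_sin]
  rw [LL, ← hm, Complex.sub_im, Complex.log_im, ha, Complex.div_ofNat_im]
  simp only [sq, Complex.mul_im, pt_re, pt_im]
  ring

/-- boundary values of `Im L` -/
lemma LL_bdry (M : MscApi) {ρ t : ℝ} (h0 : 0 < ρ) (h1 : ρ ≤ 1) (ht : t ∈ Set.Icc (0 : ℝ) Real.pi)
    {z : ℂ} (hz : 0 < z.im) :
    |(LL z).im - (t - ρ ^ 2 * (Real.sin t * Real.cos t))| ≤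
      |z.re - (ρ + ρ⁻¹) * Real.cos t| + |z.im - (ρ⁻¹ - ρ) * Real.sin t| := by
  have hin : ∀ r s : ℝ, 0 < r → r < 1 → 0 < s → s < Real.pi →
      |(LL z).im - (s - r ^ 2 * (Real.sin s * Real.cos s))| ≤
        |z.re - (r + r⁻¹) * Real.cos s| + |z.im - (r⁻¹ - r) * Real.sin s| := by
    intro r s r0 r1 s0 s1
    have hs : 0 < Real.sin s := Real.sin_pos_of_pos_of_lt_pi s0 s1
    have hr : 0 < r⁻¹ - r := by
      have : 1 < r⁻¹ := one_lt_inv₀ r0 |>.2 r1
      linarith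
    rw [← LL_val M r0 r1 s0 s1, ← Complex.sub_im]
    refine (Complex.abs_im_le_norm _).trans ((LL_lip M hz (by simpa using mul_pos hr hs)).trans ?_)
    exact norm_pt_sub_le z.re z.im _ _
  set r : ℝ → ℝ := fun s => ρ * (1 - s) with hr
  set u : ℝ → ℝ := fun s => t * (1 - s) + Real.pi / 2 * s with hu
  have hr0 : r 0 = ρ := by simp [hr]
  have hu0 : u 0 = t := by simp [hu]
  have cr : ContinuousAt r 0 := by rw [hr]; fun_prop
  have cu : ContinuousAt u 0 := by rw [hu]; fun_prop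
  have hne : r 0 ≠ 0 := by rw [hr0]; exact h0.ne'
  have c1 : ContinuousAt (fun s => |(LL z).im - (u s - r s ^ 2 * (Real.sin (u s) * Real.cos (u s)))|)
      0 := by fun_prop
  have c2 : ContinuousAt (fun s => |z.re - (r s + (r s)⁻¹) * Real.cos (u s)| +
      |z.im - ((r s)⁻¹ - r s) * Real.sin (u s)|) 0 := by fun_prop (disch := exact hne)
  have := le_of_tendsto_of_tendsto (b := 𝓝[>] (0 : ℝ)) (c1.tendsto.mono_left nhdsWithin_le_nhds)
    (c2.tendsto.mono_left nhdsWithin_le_nhds) (by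
      filter_upwards [Ioo_mem_nhdsGT (show (0 : ℝ) < 1 by norm_num)] with s hs
      have hp := Real.pi_pos
      obtain ⟨s0, s1⟩ := hs
      obtain ⟨t0, t1⟩ := ht
      refine hin _ _ ?_ ?_ ?_ ?_
      · exact mul_pos h0 (by linarith)
      · simp only [hr]; nlinarith
      · simp only [hu]; nlinarith [mul_nonneg t0 (show 0 ≤ 1 - s by linarith), mul_pos hp s0]
      · simp only [hu]
        nlinarith [mul_nonneg (sub_nonneg.2 t1) (show 0 ≤ 1 - s by linarith), mul_pos hp s0])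
  simpa only [hr0, hu0] using this

lemma arcsin_le {s : ℝ} (h0 : 0 ≤ s) : Real.arcsin s ≤ 2 * s := by
  by_cases h1 : s ≤ 1
  · have a0 : 0 ≤ Real.arcsin s := Real.arcsin_nonneg.2 h0
    have := Real.mul_le_sin a0 (Real.arcsin_le_pi_div_two s)
    rw [Real.sin_arcsin (by linarith) h1] at this
    have hp := Real.pi_pos
    have h4 := Real.pi_le_four
    rw [div_mul_eq_mul_div, div_le_iff₀ hp] at this
    nlinarith
  · have := Real.arcsin_le_pi_div_two s
    have h4 := Real.pi_le_four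
    linarith

lemma arg_le {w : ℂ} (hw : 0 ≤ w.im) {d : ℝ} (hd : 0 < d) (h : d ≤ w.re) :
    Complex.arg w ≤ 2 * (w.im / d) := by
  rw [Complex.arg_of_re_nonneg (by linarith)]
  have hn : d ≤ ‖w‖ := h.trans (Complex.re_le_norm w)
  refine (arcsin_le (div_nonneg hw (norm_nonneg _))).trans ?_
  gcongr

lemma le_arg {w : ℂ} (hw : 0 ≤ w.im) {d : ℝ} (hd : 0 < d) (h : w.re ≤ -d) :
    Real.pi - 2 * (w.im / d) ≤ Complex.arg w := by
  rw [Complex.arg_of_re_neg_of_im_nonneg (by linarith) hw]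
  have hn : d ≤ ‖w‖ := by
    have := Complex.abs_re_le_norm w
    have := neg_abs_le w.re
    linarith
  have h1 := arcsin_le (div_nonneg hw (norm_nonneg w))
  have h2 : w.im / ‖w‖ ≤ w.im / d := by gcongr
  rw [Complex.neg_im, neg_div, Real.arcsin_neg]
  linarith

variable {n : ℕ}

/-- the empirical logarithmic potential -/
def FF (A : Matrix (Fin n) (Fin n) ℝ) (z : ℂ) : ℂ :=
  (∑ k ∈ Finset.range n, Complex.log (z - (lam A k : ℂ))) / n

lemma FF_deriv (R : ResApi) {A : Matrix (Fin n) (Fin n) ℝ} (hA : A.IsHermitian) {z : ℂ}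
    (hz : 0 < z.im) : HasDerivAt (FF A) (-st A z) z := by
  have h1 : ∀ k ∈ Finset.range n, HasDerivAt (fun z : ℂ => Complex.log (z - (lam A k : ℂ)))
      (1 / (z - (lam A k : ℂ))) z := by
    intro k _
    refine ((hasDerivAt_id z).sub_const _).clog ?_
    right; simpa using hz.ne'
  have h2 := (HasDerivAt.fun_sum h1).div_const (n : ℂ)
  refine HasDerivAt.congr_deriv (f := FF A) h2 (Eq.symm ?_)
  rw [R.spec_st hA hz.ne', ← neg_div, ← Finset.sum_neg_distrib]
  congr 1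
  refine Finset.sum_congr rfl fun k _ => ?_
  rw [one_div, ← inv_neg, neg_sub]

lemma FF_im (A : Matrix (Fin n) (Fin n) ℝ) (hn : 1 ≤ n) (z : ℂ) :
    n * (FF A z).im = ∑ k ∈ Finset.range n, Complex.arg (z - (lam A k : ℂ)) := by
  have hn0 : (n : ℝ) ≠ 0 := by positivity
  rw [FF, Complex.div_natCast_im, Complex.im_sum]
  simp only [Complex.log_im]
  field_simp

lemma cnt_sum (A : Matrix (Fin n) (Fin n) ℝ) (x : ℝ) :
    (cnt A x : ℝ) = ∑ k ∈ Finset.range n, if x ≤ lam A k then (1 : ℝ) else 0 := by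
  rw [cnt, Fintype.card_fin, Finset.card_filter]
  push_cast
  rfl

lemma cnt_le_FF (A : Matrix (Fin n) (Fin n) ℝ) (hn : 1 ≤ n) (x : ℝ) {d η : ℝ} (hd : 0 < d)
    (hη : 0 ≤ η) :
    Real.pi * cnt A x ≤ n * (FF A (pt (x - d) η)).im + n * (2 * (η / d)) := by
  rw [FF_im A hn, cnt_sum, Finset.mul_sum]
  have : (n : ℝ) * (2 * (η / d)) = ∑ _k ∈ Finset.range n, 2 * (η / d) := by simp
  rw [this, ← Finset.sum_add_distrib]
  refine Finset.sum_le_sum fun k _ => ?_
  have him : (pt (x - d) η - (lam A k : ℂ)).im = η := by simp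
  have hq : 0 ≤ η / d := div_nonneg hη hd.le
  split_ifs with h
  · have := le_arg (w := pt (x - d) η - (lam A k : ℂ)) (by rw [him]; exact hη) hd
      (by simp; linarith)
    rw [him] at this
    linarith
  · have := Complex.arg_nonneg_iff.2 (show 0 ≤ (pt (x - d) η - (lam A k : ℂ)).im by
      rw [him]; exact hη)
    linarith

lemma FF_le_cnt (A : Matrix (Fin n) (Fin n) ℝ) (hn : 1 ≤ n) (x : ℝ) {d η : ℝ} (hd : 0 < d)
    (hη : 0 ≤ η) :
    n * (FF A (pt (x + d) η)).im ≤ Real.pi * cnt A x + n * (2 * (η / d)) := by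
  rw [FF_im A hn, cnt_sum, Finset.mul_sum]
  have : (n : ℝ) * (2 * (η / d)) = ∑ _k ∈ Finset.range n, 2 * (η / d) := by simp
  rw [this, ← Finset.sum_add_distrib]
  refine Finset.sum_le_sum fun k _ => ?_
  have him : (pt (x + d) η - (lam A k : ℂ)).im = η := by simp
  have hq : 0 ≤ η / d := div_nonneg hη hd.le
  split_ifs with h
  · have := Complex.arg_le_pi (pt (x + d) η - (lam A k : ℂ))
    linarith
  · have := arg_le (w := pt (x + d) η - (lam A k : ℂ)) (by rw [him]; exact hη) hd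
      (by simp; linarith)
    rw [him] at this
    linarith

lemma FF_far (A : Matrix (Fin n) (Fin n) ℝ) (hA : A.IsHermitian) (hn : 1 ≤ n) (h3 : opn A ≤ 3)
    {η : ℝ} (hη : 0 ≤ η) : |(FF A (pt (17 / 4) η)).im| ≤ 2 * η := by
  have hn0 : (0 : ℝ) < n := by positivity
  have h0 : 0 ≤ n * (FF A (pt (17 / 4) η)).im := by
    rw [FF_im A hn]
    exact Finset.sum_nonneg fun k _ => Complex.arg_nonneg_iff.2 (by simpa using hη)
  have hc : cnt A (13 / 4) = 0 := by
    rw [cnt, Finset.card_eq_zero, Finset.filter_eq_empty_iff]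
    intro k _
    have := lam_le_opn hA k
    push Not
    linarith
  have h1 := FF_le_cnt A hn (13 / 4) (d := 1) one_pos hη
  rw [hc, show (13 / 4 : ℝ) + 1 = 17 / 4 by norm_num] at h1
  have h2 : 0 ≤ (FF A (pt (17 / 4) η)).im := le_of_mul_le_mul_left (by simpa using h0) hn0
  rw [abs_of_nonneg h2]
  refine le_of_mul_le_mul_left ?_ hn0
  simpa using h1

/-- the smoothed counting function against the semicircle -/
lemma FF_close (R : ResApi) (M : MscApi) {A : Matrix (Fin n) (Fin n) ℝ} (hA : A.IsHermitian)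
    (hn : 1 ≤ n) {η η0 c C ℓ : ℝ} (h0 : 0 < η0) (h01 : η0 ≤ η) (hη1 : η ≤ 1) (hc : 0 ≤ c)
    (hC : 0 ≤ C) (hℓ : -Real.log η0 ≤ ℓ)
    (h1 : ∀ z : ℂ, |z.re| ≤ 5 → η ≤ z.im → z.im ≤ 5 → ‖st A z - msc z‖ ≤ c / z.im)
    (h2 : ∀ z : ℂ, |z.re| ≤ 5 → 0 < z.im → z.im ≤ η → ‖st A z‖ ≤ C / z.im)
    (h3 : opn A ≤ 3) {t : ℝ} (ht : t ∈ Set.Icc (0 : ℝ) Real.pi) {E d : ℝ} (hd : d ≤ 1)
    (hE : |E - 2 * Real.cos t| ≤ d) :
    |(FF A (pt E η0)).im - (t - Real.sin t * Real.cos t)| ≤ C * ℓ + c * (2 * ℓ + 10) + 4 * η + d := by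
  have hη : 0 < η := h0.trans_le h01
  have hE3 : |E| ≤ 3 := by
    have a1 := Real.cos_le_one t
    have a2 := Real.neg_one_le_cos t
    have := abs_le.1 hE
    rw [abs_le]; constructor <;> linarith
  have hE5 : |E| ≤ 5 := by linarith
  have h17 : |(17 / 4 : ℝ)| ≤ 5 := by rw [abs_le]; constructor <;> norm_num
  have l1 : Real.log η0 ≤ Real.log η := Real.log_le_log h0 h01
  have l2 : Real.log η ≤ 0 := Real.log_nonpos hη.le hη1
  have hD : ∀ z : ℂ, 0 < z.im → HasDerivAt (fun z => FF A z - LL z) (-(st A z - msc z)) z := by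
    intro z hz
    refine HasDerivAt.congr_deriv (f := fun z => FF A z - LL z)
      ((FF_deriv R hA hz).sub (LL_deriv M hz)) ?_
    ring
  have a1 := vert (D := FF A) (D' := fun z => -st A z) (fun z hz => FF_deriv R hA hz) (E := E)
    (c := C) h0 h01 (fun y y0 y1 => by
      rw [norm_neg]; exact h2 _ hE5 (h0.trans_le y0) y1)
  have a2 := vert hD (E := E) (c := c) hη hη1 (fun y y0 y1 => by
      rw [norm_neg]; exact h1 _ hE5 y0 (by simp; linarith))
  have a3 := vert hD (E := 17 / 4) (c := c) hη hη1 (fun y y0 y1 => by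
      rw [norm_neg]; exact h1 _ h17 y0 (by simp; linarith))
  have a4 := horiz hD (E := E) (E' := 17 / 4) (K := 5) (η := 1) (c := c) one_pos hE5 h17
    (fun x hx => by
      rw [norm_neg]
      simpa using h1 (pt x 1) hx hη1 (by simp))
  have a5 := FF_far A hA hn h3 hη.le
  have a6 := LL_bdry M (ρ := 1 / 4) (t := 0) (by norm_num) (by norm_num)
    ⟨le_rfl, Real.pi_pos.le⟩ (z := pt (17 / 4) η) hη
  have a7 := LL_bdry M (ρ := 1) (t := t) one_pos le_rfl ht (z := pt E η) hη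
  simp only [pt_re, pt_im, Real.sin_zero, Real.cos_zero, inv_one, sub_self, zero_mul, mul_zero,
    sub_zero, one_pow, one_mul, mul_one, abs_of_pos hη] at a6 a7
  rw [show (17 / 4 : ℝ) - (1 / 4 + (1 / 4)⁻¹) = 0 by norm_num, abs_zero, zero_add] at a6
  rw [show (1 : ℝ) + 1 = 2 by norm_num] at a7
  rw [Real.log_one] at a2 a3
  have b1 := (Complex.abs_im_le_norm _).trans a1
  have b2 := (Complex.abs_im_le_norm _).trans a2
  have b3 := (Complex.abs_im_le_norm _).trans a3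
  have b4 := (Complex.abs_im_le_norm _).trans a4
  simp only [Complex.sub_im] at b1 b2 b3 b4
  have e1 : C * (Real.log η - Real.log η0) ≤ C * ℓ := by gcongr; linarith
  have e2 : c * (0 - Real.log η) ≤ c * ℓ := by gcongr; linarith
  have e4 : c * |17 / 4 - E| ≤ c * 10 := by
    gcongr
    have := abs_le.1 hE3
    rw [abs_le]; constructor <;> linarith
  have f1 := abs_le.1 b1
  have f2 := abs_le.1 b2
  have f3 := abs_le.1 b3
  have f4 := abs_le.1 b4
  have f5 := abs_le.1 a5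
  have f6 := abs_le.1 a6
  have f7 := abs_le.1 a7
  rw [abs_le]
  constructor <;> linarith [f1.1, f1.2, f2.1, f2.2, f3.1, f3.2, f4.1, f4.2, f5.1, f5.2, f6.1, f6.2,
    f7.1, f7.2]

/-- deterministic counting estimate -/
lemma det (R : ResApi) (M : MscApi) {A : Matrix (Fin n) (Fin n) ℝ} (hA : A.IsHermitian)
    (hn : 1 ≤ n) {η c C : ℝ} (h01 : 1 / (n : ℝ) ^ 2 ≤ η) (hη1 : η ≤ 1) (hc : 0 ≤ c) (hC : 0 ≤ C)
    (h1 : ∀ z : ℂ, |z.re| ≤ 5 → η ≤ z.im → z.im ≤ 5 → ‖st A z - msc z‖ ≤ c / z.im)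
    (h2 : ∀ z : ℂ, |z.re| ≤ 5 → 0 < z.im → z.im ≤ η → ‖st A z‖ ≤ C / z.im)
    (h3 : opn A ≤ 3) {t : ℝ} (ht : t ∈ Set.Icc (0 : ℝ) Real.pi) :
    |(cnt A (2 * Real.cos t) : ℝ) - n * (t - Real.sin t * Real.cos t) / Real.pi| ≤
      n * C * (2 * Real.log n) + n * c * (4 * Real.log n + 10) + 4 * (n * η) + 3 := by
  have hn0 : (0 : ℝ) < n := by positivity
  have hn1 : (1 : ℝ) ≤ n := by exact_mod_cast hn
  have h0 : 0 < 1 / (n : ℝ) ^ 2 := by positivity
  have hd0 : 0 < 1 / (n : ℝ) := by positivity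
  have hd1 : 1 / (n : ℝ) ≤ 1 := by rw [div_le_one hn0]; exact hn1
  have hℓ : -Real.log (1 / (n : ℝ) ^ 2) ≤ 2 * Real.log n := by
    rw [one_div, Real.log_inv, Real.log_pow]; simp
  have hl0 : 0 ≤ Real.log n := Real.log_nonneg hn1
  have a1 := FF_close R M hA hn h0 h01 hη1 hc hC hℓ h1 h2 h3 ht hd1
    (E := 2 * Real.cos t - 1 / n) (by simp)
  have a2 := FF_close R M hA hn h0 h01 hη1 hc hC hℓ h1 h2 h3 ht hd1
    (E := 2 * Real.cos t + 1 / n) (by simp)
  have b1 := cnt_le_FF A hn (2 * Real.cos t) hd0 h0.le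
  have b2 := FF_le_cnt A hn (2 * Real.cos t) hd0 h0.le
  have e : (n : ℝ) * (2 * (1 / (n : ℝ) ^ 2 / (1 / n))) = 2 := by field_simp
  rw [e] at b1 b2
  set err := C * (2 * Real.log n) + c * (2 * (2 * Real.log n) + 10) + 4 * η + 1 / n with herr
  have e2 : n * C * (2 * Real.log n) + n * c * (4 * Real.log n + 10) + 4 * (n * η) + 3 =
      n * err + 2 := by rw [herr]; field_simp; ring
  rw [e2]
  have hη : 0 < η := h0.trans_le h01
  have herr0 : 0 ≤ n * err + 2 := by rw [herr]; positivity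
  have c1 := mul_le_mul_of_nonneg_left (abs_le.1 a1).2 hn0.le
  have c2 := mul_le_mul_of_nonneg_left (abs_le.1 a2).1 hn0.le
  have hp := Real.pi_pos
  have h3' := Real.pi_gt_three
  have e3 : (cnt A (2 * Real.cos t) : ℝ) - n * (t - Real.sin t * Real.cos t) / Real.pi =
      (Real.pi * cnt A (2 * Real.cos t) - n * (t - Real.sin t * Real.cos t)) / Real.pi := by
    field_simp
  rw [e3, abs_div, abs_of_pos hp, div_le_iff₀ hp]
  have : |Real.pi * cnt A (2 * Real.cos t) - n * (t - Real.sin t * Real.cos t)| ≤ n * err + 2 := by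
    rw [abs_le]; constructor <;> nlinarith
  nlinarith

lemma ev_log (K δ : ℝ) (hδ : 0 < δ) :
    ∀ᶠ n : ℕ in atTop, K * (Real.log n + 1) ≤ (n : ℝ) ^ δ := by
  have h1 : Tendsto (fun n : ℕ => (n : ℝ) ^ (δ / 2)) atTop atTop :=
    (tendsto_rpow_atTop (half_pos hδ)).comp tendsto_natCast_atTop_atTop
  filter_upwards [h1.eventually_ge_atTop (|K| * (2 / δ + 1)), eventually_ge_atTop 1] with n h hn
  have hn1 : (1 : ℝ) ≤ n := by exact_mod_cast hn
  have hn0 : (0 : ℝ) < n := by linarith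
  have hl := Real.log_le_rpow_div hn0.le (half_pos hδ)
  have hl0 : 0 ≤ Real.log n := Real.log_nonneg hn1
  have hp : 1 ≤ (n : ℝ) ^ (δ / 2) := Real.one_le_rpow hn1 (half_pos hδ).le
  have e : (n : ℝ) ^ δ = (n : ℝ) ^ (δ / 2) * (n : ℝ) ^ (δ / 2) := by
    rw [← Real.rpow_add hn0]; congr 1; ring
  have h2 : Real.log n + 1 ≤ (2 / δ + 1) * (n : ℝ) ^ (δ / 2) := by
    have : (n : ℝ) ^ (δ / 2) / (δ / 2) = 2 / δ * (n : ℝ) ^ (δ / 2) := by field_simp
    rw [this] at hl
    nlinarith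
  calc K * (Real.log n + 1) ≤ |K| * (Real.log n + 1) := by gcongr; exact le_abs_self K
    _ ≤ |K| * ((2 / δ + 1) * (n : ℝ) ^ (δ / 2)) := by gcongr
    _ = (|K| * (2 / δ + 1)) * (n : ℝ) ^ (δ / 2) := by ring
    _ ≤ (n : ℝ) ^ (δ / 2) * (n : ℝ) ^ (δ / 2) := by gcongr
    _ = _ := e.symm

end Cnt59

open Cnt59 in
/-- **L12, eigenvalue counting** -/
theorem cnt_stmt (R : ResApi) (M : MscApi) (V : VhpApi) (hA : AprStmt) (hAv : AvgStmt)
    (hE : EdgeStmt) : CntStmt := by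
  intro ε hε
  set e : ℝ := min (ε / 2) (1 / 2) with he
  have e0 : 0 < e := lt_min (half_pos hε) (by norm_num)
  have e1 : e ≤ ε / 2 := min_le_left _ _
  have e2 : e ≤ 1 / 2 := min_le_right _ _
  obtain ⟨C, hC1, hC⟩ := hA 5 e e0
  have v1 := V.comp (Θ' := fun _ => Unit) (fun n _ => ((0 : Fin n → ℝ), (0 : Fin n → ℝ))) hC
  have v2 := hAv 5 e e e0 e0
  have v3 := hE (1 / 3) (by norm_num)
  refine V.mono (V.and v1 (V.and v2 v3)) ?_
  filter_upwards [ev_log (4 * C + 17) (ε / 2) (half_pos hε), eventually_ge_atTop 1]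
    with n hlog hn E θ x hx t ht
  obtain ⟨x1, x2, x3⟩ := hx
  have hH := R.herm E x
  have hn1 : (1 : ℝ) ≤ n := by exact_mod_cast hn
  have hn0 : (0 : ℝ) < n := by linarith
  set η : ℝ := (n : ℝ) ^ (-1 + e) with hη
  have η0 : 0 < η := Real.rpow_pos_of_pos hn0 _
  have η1 : η ≤ 1 := Real.rpow_le_one_of_one_le_of_nonpos hn1 (by linarith)
  have hnη : n * η = (n : ℝ) ^ e := by
    rw [hη, Real.rpow_add hn0, Real.rpow_neg_one]; field_simp
  have p1 : 1 ≤ (n : ℝ) ^ e := Real.one_le_rpow hn1 e0.le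
  have η2 : 1 / (n : ℝ) ^ 2 ≤ η := by
    rw [div_le_iff₀ (by positivity)]
    nlinarith
  have h3 : opn (E.H x) ≤ 3 := by
    have : (n : ℝ) ^ (-(2 / 3 : ℝ) + 1 / 3) ≤ 1 :=
      Real.rpow_le_one_of_one_le_of_nonpos hn1 (by norm_num)
    have x3' : opn (E.H x) ≤ 2 + (n : ℝ) ^ (-(2 / 3 : ℝ) + 1 / 3) := x3
    linarith
  have key := det R M hH hn (η := η) (c := (n : ℝ) ^ e / n) (C := 2 * η * C) η2 η1
    (by positivity) (by positivity)
    (fun z z1 z2 z3 => by
      have := (x2 z ⟨z1, z2, z3⟩).1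
      rw [qq] at this
      refine this.trans (le_of_eq ?_)
      have : 0 < z.im := η0.trans_le z2
      field_simp)
    (fun z z1 z2 z3 => by
      have b := x1 (by simp) (by simp) (pt z.re η) ⟨z1, le_rfl, by simp; linarith⟩
      have b2 := R.bd_down hH (z := z) (z' := pt z.re η) z2 rfl z3 b
      rw [R.st_eq, norm_div, Complex.norm_natCast, div_le_iff₀ hn0]
      refine (norm_sum_le _ _).trans ?_
      refine (Finset.sum_le_sum fun k _ => b2 _ _ (Or.inr (Or.inr ⟨k, rfl⟩))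
        (Or.inr (Or.inr ⟨k, rfl⟩))).trans (le_of_eq ?_)
      simp only [Finset.sum_const, Finset.card_univ, Fintype.card_fin, nsmul_eq_mul, pt_im]
      field_simp)
    h3 ht
  refine key.trans ?_
  have hl0 : 0 ≤ Real.log n := Real.log_nonneg hn1
  have q1 : (n : ℝ) * (2 * η * C) = 2 * C * (n : ℝ) ^ e := by rw [← hnη]; ring
  have q2 : (n : ℝ) * ((n : ℝ) ^ e / n) = (n : ℝ) ^ e := by field_simp
  rw [q1, q2, hnη]
  have q3 : (n : ℝ) ^ e ≤ (n : ℝ) ^ (ε / 2) := Real.rpow_le_rpow_of_exponent_le hn1 e1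
  have q4 : (n : ℝ) ^ ε = (n : ℝ) ^ (ε / 2) * (n : ℝ) ^ (ε / 2) := by
    rw [← Real.rpow_add hn0]; congr 1; ring
  have C0 : 0 ≤ C := by linarith
  calc 2 * C * (n : ℝ) ^ e * (2 * Real.log n) + (n : ℝ) ^ e * (4 * Real.log n + 10) +
        4 * (n : ℝ) ^ e + 3 ≤ (n : ℝ) ^ e * ((4 * C + 17) * (Real.log n + 1)) := by
        have : 0 ≤ (n : ℝ) ^ e * Real.log n := by positivity
        have : 0 ≤ (n : ℝ) ^ e * C := by positivity
        nlinarith
    _ ≤ (n : ℝ) ^ (ε / 2) * (n : ℝ) ^ (ε / 2) := by gcongr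
    _ = _ := q4.symm

end Crest.Agent.T157.Ll
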