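import Crest.Agent.T157.LlDef_91
import Crest.Agent.T157.NrmS_84

/-!
# Row 157, part E: crude norm bound and absence of outliers for Wigner ensembles (helper84)

* `Ens.opn_tail`, `norm : NormStmt`;
* `edge_det` (deterministic), `edge : EdgeStmt`.
-/

set_option autoImplicit false

noncomputable section

namespace Crest.Agent.T157.Ll

open MeasureTheory ProbabilityTheory Matrix Filter Finset
open Crest.Agent.T157.Eig Crest.Agent.T157.Nrm

variable {n : ℕ}

lemma bil_Dl (i j : Fin n) (u v : Fin n → ℝ) : u ⬝ᵥ Dl i j *ᵥ v = u i * v j + u j * v i := by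
  simp [Dl, add_mulVec, single_mulVec, dotProduct, Function.update_apply, mul_add, sum_add_distrib]

lemma Ens.bil (E : Ens n) (x : E.ι → ℝ) (u v : Fin n → ℝ) :
    u ⬝ᵥ E.H x *ᵥ v = ∑ a, E.c a * (u (E.i a) * v (E.j a) + u (E.j a) * v (E.i a)) * x a := by
  rw [Ens.H, sum_mulVec, dotProduct_sum]
  refine sum_congr rfl fun a _ => ?_
  rw [smul_mulVec, dotProduct_smul, bil_Dl, smul_eq_mul]
  ring

lemma Ens.cov_le' (E : Ens n) (F : Fin n → Fin n → ℝ) (hF : ∀ k l, 0 ≤ F k l) :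
    ∑ a, E.c a ^ 2 * (F (E.i a) (E.j a) + F (E.j a) (E.i a)) ≤ 2 * (∑ k, ∑ l, F k l) / n := by
  rw [Ens.cov E F]
  refine div_le_div_of_nonneg_right ?_ (Nat.cast_nonneg n)
  have : ∑ k, E.d k * F k k ≤ ∑ k, ∑ l, F k l := by
    refine sum_le_sum fun k _ => ?_
    have h1 := single_le_sum (f := F k) (fun l _ => hF k l) (mem_univ k)
    have h2 := mul_le_mul_of_nonneg_right (abs_le.1 (E.d_le k)).2 (hF k k)
    linarith
  linarith

lemma Ens.proxy (E : Ens n) {u v : Fin n → ℝ} (hu : u ⬝ᵥ u ≤ 1) (hv : v ⬝ᵥ v ≤ 1) :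
    ∑ a, (E.c a * (u (E.i a) * v (E.j a) + u (E.j a) * v (E.i a))) ^ 2 ≤ 4 / n := by
  have h := E.cov_le' (fun k l => u k * u k * (v l * v l)) fun k l =>
    mul_nonneg (mul_self_nonneg _) (mul_self_nonneg _)
  have e : ∑ k, ∑ l, u k * u k * (v l * v l) = (u ⬝ᵥ u) * (v ⬝ᵥ v) := by
    rw [dotProduct, dotProduct, sum_mul_sum]
  rw [e] at h
  have h1 : (u ⬝ᵥ u) * (v ⬝ᵥ v) ≤ 1 := mul_le_one₀ hu (dot_self_nonneg v) hv
  calc _ ≤ ∑ a, 2 * (E.c a ^ 2 * (u (E.i a) * u (E.i a) * (v (E.j a) * v (E.j a)) +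
        u (E.j a) * u (E.j a) * (v (E.i a) * v (E.i a)))) := by
        refine sum_le_sum fun a _ => ?_
        rw [mul_pow]
        nlinarith [mul_nonneg (sq_nonneg (E.c a))
          (sq_nonneg (u (E.i a) * v (E.j a) - u (E.j a) * v (E.i a)))]
    _ ≤ 2 * (2 * ((u ⬝ᵥ u) * (v ⬝ᵥ v)) / n) := by rw [← mul_sum]; linarith
    _ ≤ 4 / n := by
        rw [← mul_div_assoc]
        exact div_le_div_of_nonneg_right (by linarith) (Nat.cast_nonneg n)

theorem Ens.opn_tail (E : Ens n) {K : ℝ} (hK : 0 ≤ K) :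
    E.μ.real {x | K < opn (E.H x)} ≤ Real.exp (-(n * (K ^ 2 / 128 - 4))) := by
  rcases Nat.eq_zero_or_pos n with rfl | hn
  · simp
  have hn' : (0 : ℝ) < n := Nat.cast_pos.2 hn
  obtain ⟨N, hNc, hN1, hN⟩ := exists_half_net (Fin n)
  have hsub : {x | K < opn (E.H x)} ⊆
      ⋃ q ∈ N ×ˢ N, {x : E.ι → ℝ | K / 4 ≤ q.1 ⬝ᵥ E.H x *ᵥ q.2} := by
    intro g hg
    by_contra hc
    simp only [Set.mem_iUnion, not_exists, Set.mem_ofPred_eq, not_le, mem_product] at hc
    have := opn_le_of_net hN hN (A := E.H g) (M := K / 4) fun c hc' d hd =>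
      (hc (c, d) ⟨hc', hd⟩).le
    have hg' : K < opn (E.H g) := hg
    linarith
  have h1 : ∀ q ∈ N ×ˢ N, E.μ.real {x : E.ι → ℝ | K / 4 ≤ q.1 ⬝ᵥ E.H x *ᵥ q.2} ≤
      Real.exp (-(n * (K ^ 2 / 128))) := by
    intro q hq
    rw [mem_product] at hq
    have a1 := (nrm_le_iff zero_le_one).1 (hN1 _ hq.1)
    have a2 := (nrm_le_iff zero_le_one).1 (hN1 _ hq.2)
    rw [one_pow] at a1 a2
    have := (subG_dot E.ν (fun a => (E.law a).sg)
      (fun a => E.c a * (q.1 (E.i a) * q.2 (E.j a) + q.1 (E.j a) * q.2 (E.i a)))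
      (c := NNReal.mk (4 / n) (by positivity)) (E.proxy a1 a2)).measure_ge_le
      (ε := K / 4) (by positivity)
    simp only [E.bil]
    refine this.trans (le_of_eq ?_)
    rw [NNReal.coe_mk]
    congr 1
    field_simp
    ring
  refine (measureReal_mono hsub (measure_ne_top _ _)).trans
    ((measureReal_biUnion_finset_le _ _).trans ((sum_le_sum h1).trans ?_))
  rw [sum_const, card_product, nsmul_eq_mul]
  have h5 : ((N.card * N.card : ℕ) : ℝ) ≤ Real.exp (n * 4) := by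
    have h6 : (N.card : ℝ) ≤ 5 ^ n := by simpa using (Nat.cast_le (α := ℝ)).2 hNc
    have h7 : (5 : ℝ) ≤ Real.exp 2 := by
      have := Real.quadratic_le_exp_of_nonneg (x := 2) (by norm_num)
      linarith
    have h8 : (5 : ℝ) ^ n ≤ Real.exp (n * 2) := by
      rw [Real.exp_nat_mul]; exact pow_le_pow_left₀ (by norm_num) h7 n
    rw [show (n : ℝ) * 4 = n * 2 + n * 2 by ring, Real.exp_add]
    push_cast
    exact mul_le_mul (h6.trans h8) (h6.trans h8) (Nat.cast_nonneg _) (Real.exp_pos _).le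
  refine (mul_le_mul_of_nonneg_right h5 (Real.exp_pos _).le).trans (le_of_eq ?_)
  rw [← Real.exp_add]
  congr 1
  ring

/-- the crude norm bound, with the explicit constant `26` -/
theorem norm26 : VhpM (Θ := fun _ => Unit) fun _ _ A => opn A ≤ 26 := by
  refine ⟨1, one_pos, Eventually.of_forall fun n E _ => ?_⟩
  have h := E.opn_tail (K := 26) (by norm_num)
  simp only [not_le]
  rw [← ofReal_measureReal (measure_ne_top _ _)]
  refine ENNReal.ofReal_le_ofReal (h.trans (Real.exp_le_exp.2 ?_))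
  rw [Real.rpow_one]
  nlinarith [Nat.cast_nonneg (α := ℝ) n]

theorem normStmt : NormStmt := ⟨26, norm26⟩

theorem norm (_R : ResApi) : NormStmt := normStmt

/-- an eigenvalue at distance `0` from `Re z` forces `Im m ≥ 1 / (n η)` -/
lemma qq_le_im (R : ResApi) {A : Matrix (Fin n) (Fin n) ℝ} (hA : A.IsHermitian) {k : ℕ}
    (hk : k < n) {z : ℂ} (hz : 0 < z.im) (hl : z.re = lam A k) : qq n z ≤ (st A z).im := by
  rw [R.spec_st hA hz.ne', ← Complex.ofReal_natCast, Complex.div_ofReal_im, Complex.im_sum, qq,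
    mul_comm, ← div_div]
  refine div_le_div_of_nonneg_right ?_ (Nat.cast_nonneg n)
  refine le_trans (le_of_eq ?_) (single_le_sum
    (f := fun k => (((lam A k : ℝ) : ℂ) - z)⁻¹.im) (fun j _ => ?_) (mem_range.2 hk))
  · simp only [Complex.inv_im, Complex.normSq_apply, Complex.sub_re, Complex.sub_im,
      Complex.ofReal_re, Complex.ofReal_im, hl]
    field_simp
    ring
  · simp only [Complex.inv_im, Complex.sub_im, Complex.ofReal_im]
    exact div_nonneg (by linarith) (Complex.normSq_nonneg _)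

/-- the deterministic part of the edge bound -/
lemma edge_det (R : ResApi) (M : MscApi) {A : Matrix (Fin n) (Fin n) ℝ} (hA : A.IsHermitian)
    {K q t : ℝ} (hK : 1 ≤ K) (hq : 0 < q) (hq1 : q ≤ 1) (hnq : n * q ^ 3 = 1) (ht : 2 * K + 1 < t)
    (hN : opn A ≤ K)
    (hP : ∀ z : ℂ, |z.re| ≤ K → z.im = q ^ 2 → ‖PP A z‖ ≤ t * Phi n z) :
    opn A ≤ 2 + q ^ 2 * t ^ 4 := by
  have ht0 : 0 < t := by linarith
  refine opn_le_of_lam hA (by positivity) fun k hk => ?_
  rw [Fintype.card_fin] at hk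
  by_contra hc
  rw [not_le] at hc
  set l := lam A k with hl
  have hlK : |l| ≤ K := (abs_lam_le hA k).trans hN
  set z : ℂ := ⟨l, q ^ 2⟩ with hz
  have hre : z.re = l := rfl
  have him : z.im = q ^ 2 := rfl
  have hz0 : 0 < z.im := by rw [him]; positivity
  have hqq : qq n z = q := by
    rw [qq, him, div_eq_iff (by
      intro h
      have : (n : ℝ) * q ^ 3 = n * q ^ 2 * q := by ring
      rw [this, h, zero_mul] at hnq
      exact zero_ne_one hnq)]
    linarith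
  have h1 := qq_le_im R hA hk hz0 hre
  rw [hqq] at h1
  obtain ⟨δ, -, -, -, -, -, h2, h3, -⟩ := M.dist hz0 (m := st A z) (hq.le.trans h1)
  have h4 := hP z hlK rfl
  have hκ : 0 < q ^ 2 * t ^ 4 := by positivity
  have h5 := M.outside hz0 (by rw [hre]; linarith) (by rw [him]; nlinarith)
  rw [hre, him] at h5
  have h6 : al z * (msc z).im ≤ (K * q) ^ 2 := by
    refine h5.trans ?_
    rw [mul_pow]
    exact mul_le_mul_of_nonneg_right (by nlinarith) (sq_nonneg q)
  have h7 : Phi n z ≤ (K + 1) * q ^ 2 := by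
    rw [Phi, hqq]
    have := Real.sqrt_le_iff.2 ⟨(by positivity : 0 ≤ K * q), h6⟩
    nlinarith
  have ha0 : 0 ≤ al z := norm_nonneg _
  have h8 : al z * q ≤ q * (q * (K + 2 * t * (K + 1))) := by
    have b1 := mul_le_mul_of_nonneg_left (h1.trans h3) ha0
    have b2 := mul_le_mul_of_nonneg_left h7 ht0.le
    have b3 := mul_le_mul_of_nonneg_right hlK (sq_nonneg q)
    rw [PP] at h4
    nlinarith
  have h9 : al z ≤ q * (K + 2 * t * (K + 1)) := by
    rw [mul_comm] at h8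
    exact le_of_mul_le_mul_left h8 hq
  have h10 : (2 * q * t ^ 2) ^ 2 ≤ al z ^ 2 := by
    rw [M.al_sq]
    have b1 : |l - 2| ≤ ‖z - 2‖ := by simpa [hre] using Complex.abs_re_le_norm (z - 2)
    have b2 : |l + 2| ≤ ‖z + 2‖ := by simpa [hre] using Complex.abs_re_le_norm (z + 2)
    refine le_trans ?_ (mul_le_mul b1 b2 (abs_nonneg _) (norm_nonneg _))
    rw [← abs_mul]
    refine le_trans ?_ (le_abs_self _)
    have b3 : (2 + q ^ 2 * t ^ 4) ^ 2 ≤ l ^ 2 := by
      rw [← sq_abs l]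
      exact pow_le_pow_left₀ (by positivity) hc.le 2
    nlinarith
  have h11 : 2 * q * t ^ 2 ≤ al z := (pow_le_pow_iff_left₀ (by positivity) ha0 two_ne_zero).1 h10
  have h12 : 2 * t ^ 2 ≤ K + 2 * t * (K + 1) := by
    refine le_of_mul_le_mul_left ?_ hq
    linarith
  nlinarith

theorem edge (R : ResApi) (M : MscApi) (V : VhpApi) (hP : PStmt) (hN : NormStmt) : EdgeStmt := by
  intro ε hε
  obtain ⟨K0, hN⟩ := hN
  have h := V.and hN (hP (max K0 1) (1 / 3) (ε / 4) (by norm_num) (by positivity))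
  refine V.mono h ?_
  have h1 : ∀ᶠ n : ℕ in atTop, 2 * max K0 1 + 1 < (n : ℝ) ^ (ε / 4) :=
    ((tendsto_rpow_atTop (by positivity)).comp tendsto_natCast_atTop_atTop).eventually_gt_atTop _
  filter_upwards [h1, eventually_ge_atTop 1] with n hn hn1 E _ x hx
  have hn1' : (1 : ℝ) ≤ n := Nat.one_le_cast.2 hn1
  have hn0 : (0 : ℝ) < n := by linarith
  have e1 : ((n : ℝ) ^ (-(1 / 3) : ℝ)) ^ 2 = (n : ℝ) ^ (-1 + 1 / 3 : ℝ) := by
    rw [← Real.rpow_natCast, ← Real.rpow_mul hn0.le]; norm_num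
  have hq1 : (n : ℝ) ^ (-(1 / 3) : ℝ) ≤ 1 := Real.rpow_le_one_of_one_le_of_nonpos hn1' (by norm_num)
  have hq0 : 0 < (n : ℝ) ^ (-(1 / 3) : ℝ) := Real.rpow_pos_of_pos hn0 _
  have := edge_det R M (R.herm E x) (K := max K0 1) (q := (n : ℝ) ^ (-(1 / 3) : ℝ))
    (t := (n : ℝ) ^ (ε / 4)) (le_max_right _ _) hq0 hq1
    (by
      rw [← Real.rpow_natCast _ 3, ← Real.rpow_mul hn0.le,
        show -(1 / 3 : ℝ) * ((3 : ℕ) : ℝ) = -1 by norm_num, Real.rpow_neg_one, mul_inv_cancel₀ hn0.ne'])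
    hn (hx.1.trans (le_max_left _ _))
    fun z hz hz' => hx.2 z ⟨hz, by rw [hz', e1], by
      rw [hz']
      exact (pow_le_one₀ hq0.le hq1).trans (le_max_right _ _)⟩
  refine this.trans (le_of_eq ?_)
  rw [e1, ← Real.rpow_natCast _ 4, ← Real.rpow_mul hn0.le, ← Real.rpow_add hn0]
  congr 2
  push_cast
  ring

end Crest.Agent.T157.Ll

end
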