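import Crest.Agent.T157.LlDef_91

/-!
# Row 157, part E: isotropic local law and delocalisation (helper32)

`iso : IsoStmt` (bootstrap in the exponent `τ` of the error `n^τ q`) and `del : DelStmt`.
-/

set_option autoImplicit false

noncomputable section

namespace Crest.Agent.T157.Ll

open MeasureTheory ProbabilityTheory Matrix Filter Function
open Crest.ProbabilityR.SpinGlassDynamics Crest.Agent.T157.E Crest.Agent.T157.Eig

namespace Iso32

lemma ev_le (C δ : ℝ) (hδ : 0 < δ) : ∀ᶠ n : ℕ in atTop, C ≤ (n : ℝ) ^ δ :=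
  ((tendsto_rpow_atTop hδ).comp tendsto_natCast_atTop_atTop).eventually_ge_atTop C

lemma ev_le' (C : ℝ) : ∀ᶠ n : ℕ in atTop, C ≤ (n : ℝ) :=
  tendsto_natCast_atTop_atTop.eventually_ge_atTop C

lemma ok_mono {ι : Type} [Fintype ι] [DecidableEq ι] {D : MData ι} {B B' : ℝ} (h : D.Ok B)
    (hB : B ≤ B') : D.Ok B' :=
  { h with
    bX := fun x => (h.bX x).trans hB
    br := fun x => (h.br x).trans hB
    bf := fun a x => (h.bf a x).trans hB
    bf1 := fun a x => (h.bf1 a x).trans hB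
    bf2 := fun a x => (h.bf2 a x).trans hB
    bX1 := fun a x => (h.bX1 a x).trans hB
    bX2 := fun a x => (h.bX2 a x).trans hB }

variable {n : ℕ}

lemma ee_dot (k : Fin n) : ee k ⬝ᵥ ee k = (1 : ℝ) := by simp [ee]

lemma dot_ee (w : Fin n → ℝ) (k : Fin n) : w ⬝ᵥ ee k = w k := by simp [ee]

lemma inS_le {u v a : Fin n → ℝ} (hu : u ⬝ᵥ u ≤ 1) (hv : v ⬝ᵥ v ≤ 1) (ha : InS u v a) :
    a ⬝ᵥ a ≤ 1 := by
  rcases ha with rfl | rfl | ⟨k, rfl⟩
  · exact hu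
  · exact hv
  · exact (ee_dot k).le

lemma inS_trans {u v a b c : Fin n → ℝ} (ha : InS u v a) (hb : InS u v b) (hc : InS a b c) :
    InS u v c := by
  rcases hc with rfl | rfl | hc
  · exact ha
  · exact hb
  · exact Or.inr (Or.inr hc)

lemma abs_dot_le_one {a b : Fin n → ℝ} (ha : a ⬝ᵥ a ≤ 1) (hb : b ⬝ᵥ b ≤ 1) : |a ⬝ᵥ b| ≤ 1 := by
  have h := dot_sq_le a b
  have h0 := dot_self_nonneg a
  have h1 := dot_self_nonneg b
  exact abs_le_one_iff_mul_self_le_one.2 (by nlinarith)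

lemma dom_pos {K ε : ℝ} {z : ℂ} (hn : (1 : ℝ) ≤ n) (h : Dom K ε n z) : 0 < z.im :=
  (Real.rpow_pos_of_pos (by linarith) _).trans_le h.2.1

lemma dom_inv {K ε : ℝ} {z : ℂ} (hε : 0 < ε) (hn : (1 : ℝ) ≤ n) (h : Dom K ε n z) :
    1 / (n : ℝ) ≤ z.im := by
  refine le_trans ?_ h.2.1
  rw [one_div, ← Real.rpow_neg_one]
  exact Real.rpow_le_rpow_of_exponent_le hn (by linarith)

lemma dom_norm {K ε : ℝ} {z : ℂ} (hn : (1 : ℝ) ≤ n) (h : Dom K ε n z) : ‖z‖ ≤ 2 * K := by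
  have h1 := Complex.norm_le_abs_re_add_abs_im z
  have h2 := dom_pos hn h
  rw [abs_of_pos h2] at h1
  linarith [h.1, h.2.2]

lemma qq_pos {K ε : ℝ} {z : ℂ} (hn : (1 : ℝ) ≤ n) (h : Dom K ε n z) : 0 < qq n z := by
  have := dom_pos hn h
  unfold qq; positivity

lemma qq_le {K ε : ℝ} {z : ℂ} (hn : (1 : ℝ) ≤ n) (h : Dom K ε n z) :
    qq n z * (n : ℝ) ^ ε ≤ 1 := by
  have h0 := dom_pos hn h
  have hn0 : (0 : ℝ) < n := by linarith
  have h1 : (n : ℝ) ^ ε ≤ n * z.im := by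
    have h2 : (n : ℝ) ^ ε = n * (n : ℝ) ^ (-1 + ε) := by
      rw [Real.rpow_add hn0, Real.rpow_neg_one, ← mul_assoc, mul_inv_cancel₀ hn0.ne', one_mul]
    rw [h2]; exact mul_le_mul_of_nonneg_left h.2.1 hn0.le
  unfold qq
  rw [one_div, inv_mul_le_iff₀ (by positivity), mul_one]; exact h1

/-- the error parameter with exponent `τ` -/
def ph (τ : ℝ) (n : ℕ) (z : ℂ) : ℝ := √(qq n z * (msc z).im) + (n : ℝ) ^ τ * qq n z

/-- the isotropic law at one `z` with error `n^δ ph τ` -/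
def Ev (K ε τ δ : ℝ) (n : ℕ) (u v : Fin n → ℝ) (z : ℂ) (A : Matrix (Fin n) (Fin n) ℝ) : Prop :=
  u ⬝ᵥ u ≤ 1 → v ⬝ᵥ v ≤ 1 → Dom K ε n z → ∀ a b, InS u v a → InS u v b →
    ‖gb A z a b - msc z * ((a ⬝ᵥ b : ℝ) : ℂ)‖ ≤ (n : ℝ) ^ δ * ph τ n z

/-- the bootstrap statement -/
def I (K ε τ : ℝ) : Prop :=
  ∀ δ : ℝ, 0 < δ → Vhp (Θ := fun n => ((Fin n → ℝ) × (Fin n → ℝ)) × ℂ)
    fun n E θ x => Ev K ε τ δ n θ.1.1 θ.1.2 θ.2 (E.H x)

lemma I_one (M : MscApi) (V : VhpApi) (hA : AprStmt) {K ε : ℝ} (hK : 1 ≤ K) (hε : 0 < ε) :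
    I K ε 1 := by
  intro δ hδ
  obtain ⟨C, hC, hV⟩ := hA K ε hε
  refine V.mono (V.comp (Θ' := fun n => ((Fin n → ℝ) × (Fin n → ℝ)) × ℂ) (fun _ θ => θ.1) hV) ?_
  filter_upwards [ev_le ((C + 1) * K) δ hδ, ev_le' 1] with n h1 hn E θ x hx hu hv hz a b ha hb
  have hz0 := dom_pos hn hz
  have hG := hx hu hv θ.2 hz a b ha hb
  have hab := abs_dot_le_one (inS_le hu hv ha) (inS_le hu hv hb)
  have h2 : ‖msc θ.2 * ((a ⬝ᵥ b : ℝ) : ℂ)‖ ≤ 1 := by
    rw [norm_mul, Complex.norm_real, Real.norm_eq_abs]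
    exact mul_le_one₀ (M.norm_le hz0) (abs_nonneg _) hab
  have h3 : 1 / K ≤ ph 1 n θ.2 := by
    have : (n : ℝ) ^ (1 : ℝ) * qq n θ.2 = 1 / θ.2.im := by
      rw [Real.rpow_one, qq]; field_simp
    have h4 : 1 / K ≤ 1 / θ.2.im := one_div_le_one_div_of_le hz0 hz.2.2
    unfold ph; rw [this]; linarith [Real.sqrt_nonneg (qq n θ.2 * (msc θ.2).im)]
  calc _ ≤ C + 1 := (norm_sub_le _ _).trans (add_le_add hG h2)
    _ = (C + 1) * K * (1 / K) := by field_simp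
    _ ≤ _ := mul_le_mul h1 h3 (by positivity) (by positivity)

/-- the algebraic identity behind the isotropic law -/
lemma err_le (M : MscApi) (A : Matrix (Fin n) (Fin n) ℝ) {z : ℂ} (hz : 0 < z.im)
    (a b : Fin n → ℝ) : ‖gb A z a b - msc z * ((a ⬝ᵥ b : ℝ) : ℂ)‖ ≤
      ‖QQ A z a b‖ + ‖st A z - msc z‖ * ‖gb A z a b‖ := by
  have h : gb A z a b - msc z * ((a ⬝ᵥ b : ℝ) : ℂ) =
      -msc z * (QQ A z a b - (st A z - msc z) * gb A z a b) := by
    have := M.eq z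
    unfold QQ
    linear_combination (gb A z a b) * this
  rw [h, norm_mul, norm_neg]
  refine (mul_le_of_le_one_left (norm_nonneg _) (M.norm_le hz)).trans ?_
  rw [← norm_mul]; exact norm_sub_le _ _

lemma step (M : MscApi) (V : VhpApi) (hQ : QDetStmt) (hA : AprStmt) (hAv : AvgStmt)
    {K ε τ : ℝ} (hK : 1 ≤ K) (hε : 0 < ε) (hτ : 0 ≤ τ) (hI : I K ε τ) : I K ε (τ / 2) := by
  intro δ' hδ'
  obtain ⟨CQ, k, hCQ, hQ⟩ := hQ
  obtain ⟨C, hC, hV⟩ := hA K ε hε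
  obtain ⟨δ, hδ, hδ4, hδk⟩ : ∃ δ : ℝ, 0 < δ ∧ δ ≤ 1 / 4 ∧ δ * (k + 3) ≤ δ' := by
    refine ⟨min (1 / 4) (δ' / (k + 3)), by positivity, min_le_left _ _, ?_⟩
    rw [← le_div_iff₀ (by positivity)]; exact min_le_right _ _
  set Γ : ℝ := C + 2 * K with hΓ
  let Θ : ℕ → Type := fun n => ((Fin n → ℝ) × (Fin n → ℝ)) × ℂ
  let Θ' : ℕ → Type := fun n => Θ n × (Fin n → ℝ) × (Fin n → ℝ)
  let ψ : ℕ → ℂ → ℝ := fun n z => min 1 ((n : ℝ) ^ δ * ph (τ / 2) n z)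
  have hGd := V.and (V.ent (Θ := Θ') δ hδ) (V.and (V.comp (Θ' := Θ') (fun _ θ => θ.1.1) hV)
    (V.comp (Θ' := Θ') (fun _ θ => θ.1) (hI δ hδ)))
  have hmom := V.mom (Θ := Θ') (fun n E θ x => QQ (E.H x) θ.1.2 θ.2.1 θ.2.2)
    (fun n θ => CQ * ((n : ℝ) ^ δ * Γ) ^ k * ψ n θ.1.2)
    (fun n θ => θ.1.1.1 ⬝ᵥ θ.1.1.1 ≤ 1 ∧ θ.1.1.2 ⬝ᵥ θ.1.1.2 ≤ 1 ∧ Dom K ε n θ.1.2 ∧
      InS θ.1.1.1 θ.1.1.2 θ.2.1 ∧ InS θ.1.1.1 θ.1.1.2 θ.2.2) (k + 1) hGd ?_ δ hδ
  · have hall := V.allS (Θ := Θ) (fun _ θ => θ.1.1) (fun _ θ => θ.1.2) hmom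
    refine V.mono (V.and hall (V.and (V.comp (Θ' := Θ) (fun _ θ => θ.1) hV)
      (V.comp (Θ' := Θ) (fun _ _ => ()) (hAv K ε δ hε hδ)))) ?_
    filter_upwards [ev_le (CQ * Γ ^ k + C) δ hδ, ev_le' 1] with n h1 hn E θ x hx hu hv hz a b ha hb
    obtain ⟨hq, hb', hav⟩ := hx
    have hz0 := dom_pos hn hz
    have hq0 := qq_pos hn hz
    have hq1 := hq a b ha hb ⟨hu, hv, hz, ha, hb⟩
    have hG := hb' hu hv θ.2 hz a b ha hb
    have hm := (hav θ.2 hz).1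
    set W : ℝ := (n : ℝ) ^ δ with hW
    have hW1 : 1 ≤ W := Real.one_le_rpow hn hδ.le
    have hqp : qq n θ.2 ≤ ph (τ / 2) n θ.2 := by
      have := Real.one_le_rpow hn (by linarith : 0 ≤ τ / 2)
      unfold ph
      nlinarith [Real.sqrt_nonneg (qq n θ.2 * (msc θ.2).im)]
    have hp0 : 0 ≤ ph (τ / 2) n θ.2 := hq0.le.trans hqp
    have hΓ0 : 0 ≤ Γ := by positivity
    have hWk : W ^ (k + 3) ≤ (n : ℝ) ^ δ' := by
      rw [hW, ← Real.rpow_natCast, ← Real.rpow_mul (by linarith)]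
      exact Real.rpow_le_rpow_of_exponent_le hn (by push_cast; exact hδk)
    have h2 : ‖QQ (E.H x) θ.2 a b‖ ≤ CQ * Γ ^ k * (W ^ (k + 2) * ph (τ / 2) n θ.2) := by
      refine hq1.trans ?_
      calc W * (CQ * (W * Γ) ^ k * ψ n θ.2) ≤ W * (CQ * (W * Γ) ^ k * (W * ph (τ / 2) n θ.2)) := by
            gcongr; exact min_le_right _ _
        _ = _ := by ring
    have h3 : ‖st (E.H x) θ.2 - msc θ.2‖ * ‖gb (E.H x) θ.2 a b‖ ≤
        C * (W ^ (k + 2) * ph (τ / 2) n θ.2) := by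
      rw [mul_comm]
      refine mul_le_mul hG (hm.trans ?_) (norm_nonneg _) (by linarith)
      refine mul_le_mul ?_ hqp hq0.le (by positivity)
      exact le_self_pow₀ hW1 (by omega)
    calc _ ≤ _ := err_le M (E.H x) hz0 a b
      _ ≤ (CQ * Γ ^ k + C) * (W ^ (k + 2) * ph (τ / 2) n θ.2) := by linarith
      _ ≤ W * (W ^ (k + 2) * ph (τ / 2) n θ.2) := by gcongr
      _ = W ^ (k + 3) * ph (τ / 2) n θ.2 := by ring
      _ ≤ _ := by gcongr
  · filter_upwards [ev_le (2 * K + 1) δ hδ, ev_le' 1, ev_le' (2 * K), ev_le' CQ, ev_le C ε hε,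
      ev_le (8 * Γ) (1 / 4) (by norm_num)] with n h1 hn hnK hnC hCε h8 E θ hθ
    obtain ⟨hu, hv, hz, ha, hb⟩ := hθ
    have hn0 : (0 : ℝ) < n := by linarith
    have hz0 := dom_pos hn hz
    have hq0 := qq_pos hn hz
    have hzn := dom_norm hn hz
    set W : ℝ := (n : ℝ) ^ δ with hW
    have hW1 : 1 ≤ W := Real.one_le_rpow hn hδ.le
    have hΓ1 : 1 ≤ Γ := by linarith
    have him := M.im_pos hz0
    set s : ℝ := √(qq n θ.1.2 * (msc θ.1.2).im) with hs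
    have hs0 : 0 ≤ s := Real.sqrt_nonneg _
    have hs2 : s ^ 2 = qq n θ.1.2 * (msc θ.1.2).im := Real.sq_sqrt (by positivity)
    set T : ℝ := (n : ℝ) ^ (τ / 2) with hT
    have hT1 : 1 ≤ T := Real.one_le_rpow hn (by linarith)
    have hTT : (n : ℝ) ^ τ = T ^ 2 := by
      rw [hT, ← Real.rpow_natCast, ← Real.rpow_mul hn0.le]; congr 1; push_cast; ring
    have hph : ph (τ / 2) n θ.1.2 = s + T * qq n θ.1.2 := rfl
    have hp0 : 0 ≤ W * ph (τ / 2) n θ.1.2 := by rw [hph]; positivity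
    have hψ0 : 0 ≤ ψ n θ.1.2 := le_min zero_le_one hp0
    have hψ1 : ψ n θ.1.2 ≤ 1 := min_le_left _ _
    have hsq : ∀ y : ℝ, y ≤ 1 → y ≤ (W * ph (τ / 2) n θ.1.2) ^ 2 → y ≤ ψ n θ.1.2 ^ 2 := by
      intro y h1 h2
      rcases min_cases 1 (W * ph (τ / 2) n θ.1.2) with h | h
      · show y ≤ (min 1 _) ^ 2
        rw [h.1]; linarith
      · show y ≤ (min 1 _) ^ 2
        rw [h.1]; exact h2
    have hψn : 1 / (n : ℝ) ≤ ψ n θ.1.2 ^ 2 := by
      refine hsq _ ((div_le_one hn0).2 hn) ?_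
      have h2 := M.le_im hz0
      have h3 : 1 / (n : ℝ) ≤ (‖θ.1.2‖ + 1) ^ 2 * s ^ 2 := by
        rw [hs2]
        calc 1 / (n : ℝ) = (‖θ.1.2‖ + 1) ^ 2 * (qq n θ.1.2 * (θ.1.2.im / (‖θ.1.2‖ + 1) ^ 2)) := by
              unfold qq; field_simp
          _ ≤ _ := by gcongr
      refine h3.trans ?_
      rw [mul_pow, hph]
      refine mul_le_mul (pow_le_pow_left₀ (by positivity) (by linarith) 2)
        (pow_le_pow_left₀ hs0 (le_add_of_nonneg_right (by positivity)) 2) (by positivity)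
        (by positivity)
    have hφ1 : 1 ≤ CQ * (W * Γ) ^ k :=
      one_le_mul_of_one_le_of_one_le hCQ (one_le_pow₀ (one_le_mul_of_one_le_of_one_le hW1 hΓ1))
    refine ⟨?_, ?_⟩
    · have h2 : 1 / (n : ℝ) ≤ ψ n θ.1.2 := hψn.trans (by nlinarith)
      calc 1 / (n : ℝ) ^ (k + 1) ≤ 1 / (n : ℝ) :=
            one_div_le_one_div_of_le hn0 (le_self_pow₀ hn (by omega))
        _ ≤ ψ n θ.1.2 := h2
        _ ≤ _ := le_mul_of_one_le_left hψ0 hφ1
    · obtain ⟨D, hDX, hDO, hD⟩ := hQ n E θ.1.2 θ.2.1 θ.2.2 (by exact_mod_cast hn)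
        (dom_inv hε hn hz) (hzn.trans hnK) (inS_le hu hv ha) (inS_le hu hv hb)
      refine ⟨D, hDX, ok_mono hDO ?_, fun x hx => ?_⟩
      · rw [pow_succ']; gcongr
      obtain ⟨hent, hbd, hev⟩ := hx
      have hbd' := hbd hu hv θ.1.2 hz
      refine ⟨_, by positivity, le_add_of_nonneg_right (by positivity),
        hD x W Γ (ψ n θ.1.2) hW1 hΓ1 (by linarith) hent ?_ ?_ hψ0 hψ1 hψn ?_⟩
      · have h2 : W ≤ (n : ℝ) ^ (1 / 4 : ℝ) := Real.rpow_le_rpow_of_exponent_le hn hδ4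
        have h3 : √(n : ℝ) = (n : ℝ) ^ (1 / 4 : ℝ) * (n : ℝ) ^ (1 / 4 : ℝ) := by
          rw [Real.sqrt_eq_rpow, ← Real.rpow_add hn0]; norm_num
        rw [h3, mul_right_comm]
        exact mul_le_mul h8 h2 (by linarith) (by positivity)
      · intro c d hc hd
        exact (hbd' c d (inS_trans ha hb hc) (inS_trans ha hb hd)).trans (by linarith)
      · intro c hc
        have hc' := inS_trans ha hb hc
        have hcc := inS_le hu hv hc'
        refine hsq _ ?_ ?_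
        · have h2 : (gb (E.H x) θ.1.2 c c).im ≤ (n : ℝ) ^ ε :=
            ((Complex.im_le_norm _).trans (hbd' c c hc' hc')).trans hCε
          exact (mul_le_mul_of_nonneg_left h2 hq0.le).trans (qq_le hn hz)
        · have h2 := (Complex.im_le_norm _).trans (hev hu hv hz c c hc' hc')
          have h3 : ph τ n θ.1.2 = s + T ^ 2 * qq n θ.1.2 := by rw [← hTT]; rfl
          rw [h3, Complex.sub_im, Complex.mul_im, Complex.ofReal_re, Complex.ofReal_im, mul_zero,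
            zero_add, ← hW] at h2
          have h4 : (gb (E.H x) θ.1.2 c c).im ≤ (msc θ.1.2).im + W * (s + T ^ 2 * qq n θ.1.2) := by
            nlinarith
          set q := qq n θ.1.2
          have h5 : q * (gb (E.H x) θ.1.2 c c).im ≤ s ^ 2 + W * (s * q + (T * q) ^ 2) := by
            rw [hs2]; nlinarith [mul_le_mul_of_nonneg_left h4 hq0.le]
          have h6 : s * q ≤ s * (T * q) := by gcongr; nlinarith
          have h7 : s ^ 2 + W * (s * q + (T * q) ^ 2) ≤ W * (s + T * q) ^ 2 := by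
            have : 0 ≤ s * (T * q) := by positivity
            nlinarith [sq_nonneg s]
          rw [hph, mul_pow]
          refine (h5.trans h7).trans ?_
          gcongr; nlinarith

lemma I_pow (M : MscApi) (V : VhpApi) (hQ : QDetStmt) (hA : AprStmt) (hAv : AvgStmt)
    {K ε : ℝ} (hK : 1 ≤ K) (hε : 0 < ε) (j : ℕ) : I K ε ((1 / 2) ^ j) := by
  induction j with
  | zero => simpa using I_one M V hA hK hε
  | succ j ih =>
    have := step M V hQ hA hAv hK hε (by positivity) ih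
    rwa [pow_succ, mul_one_div]

end Iso32

open Iso32

/-- **L10, isotropic local law** -/
theorem iso (R : ResApi) (M : MscApi) (V : VhpApi) (hQ : QDetStmt) (hA : AprStmt)
    (hAv : AvgStmt) : IsoStmt := by
  intro K0 ε ε' hε hε'
  set K := max K0 1 with hKd
  have hK : 1 ≤ K := le_max_right _ _
  obtain ⟨j, hj⟩ := exists_pow_lt_of_lt_one (show 0 < ε' / 4 by positivity)
    (show (1 / 2 : ℝ) < 1 by norm_num)
  have h1 := I_pow M V hQ hA hAv hK hε j (ε' / 4) (by positivity)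
  have h2 := V.grid (Θ := fun n => (Fin n → ℝ) × (Fin n → ℝ)) K ε 10
    (R := fun n E θ z x => Ev K ε ((1 / 2) ^ j) (ε' / 4) n θ.1 θ.2 z (E.H x))
    (V.mono h1 (Eventually.of_forall fun n E θ x h _ => h))
  refine V.mono h2 ?_
  filter_upwards [M.near K ε hε, ev_le' 1, ev_le 4 (ε' / 2) (by positivity)]
    with n hnear hn h4 E θ x hx hu hv z hz0 a b ha hb
  have hz : Dom K ε n z := ⟨hz0.1.trans (le_max_left _ _), hz0.2.1, hz0.2.2.trans (le_max_left _ _)⟩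
  obtain ⟨z', hz', hzz, hev⟩ := hx z hz
  obtain ⟨-, -, hPsi, hm, -, -, -, hP1⟩ := hnear z z' hz hz' hzz
  have hn0 : (0 : ℝ) < n := by linarith
  have ha1 := inS_le hu hv ha
  have hb1 := inS_le hu hv hb
  have he := hev hu hv hz' a b ha hb
  have hl := R.lipz (R.herm E x) (dom_pos hn hz) (dom_pos hn hz') a b ha1 hb1
  have hab := abs_dot_le_one ha1 hb1
  set L : ℝ := (n : ℝ) ^ (ε' / 2) with hL
  have hLL : (n : ℝ) ^ ε' = L * L := by rw [hL, ← Real.rpow_add hn0]; congr 1; ring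
  have hn8 : 1 / (n : ℝ) ^ 8 ≤ Psi n z :=
    (one_div_le_one_div_of_le hn0 (le_self_pow₀ hn (by omega))).trans hP1
  have hP0 : 0 ≤ Psi n z := le_trans (by positivity) hP1
  have h5 : ‖z - z'‖ / (z.im * z'.im) ≤ 1 / (n : ℝ) ^ 8 := by
    have i1 := dom_inv hε hn hz
    have i2 := dom_inv hε hn hz'
    have i3 := (dom_pos hn hz).le
    calc _ ≤ (1 / (n : ℝ) ^ 10) / (1 / (n : ℝ) * (1 / (n : ℝ))) := by
          gcongr
      _ = _ := by field_simp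
  have h6 : (n : ℝ) ^ (ε' / 4) * ph ((1 / 2) ^ j) n z' ≤ L * (2 * Psi n z) := by
    have hT1 : 1 ≤ (n : ℝ) ^ (ε' / 4) := Real.one_le_rpow hn (by positivity)
    have hT : (n : ℝ) ^ ((1 / 2 : ℝ) ^ j) ≤ (n : ℝ) ^ (ε' / 4) :=
      Real.rpow_le_rpow_of_exponent_le hn hj.le
    have hq0 := qq_pos hn hz'
    have h7 : ph ((1 / 2) ^ j) n z' ≤ (n : ℝ) ^ (ε' / 4) * Psi n z' := by
      unfold ph Psi
      have := Real.sqrt_nonneg (qq n z' * (msc z').im)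
      nlinarith
    have h8 : L = (n : ℝ) ^ (ε' / 4) * (n : ℝ) ^ (ε' / 4) := by
      rw [hL, ← Real.rpow_add hn0]; congr 1; ring
    rw [h8, mul_assoc]
    gcongr
    exact h7.trans (by gcongr)
  have h9 : ‖(msc z' - msc z) * ((a ⬝ᵥ b : ℝ) : ℂ)‖ ≤ 1 / (n : ℝ) ^ 8 := by
    rw [norm_mul, Complex.norm_real, Real.norm_eq_abs, norm_sub_rev]
    exact (mul_le_of_le_one_right (norm_nonneg _) hab).trans hm
  calc _ = ‖(gb (E.H x) z a b - gb (E.H x) z' a b) + (gb (E.H x) z' a b - msc z' * ((a ⬝ᵥ b : ℝ) : ℂ))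
        + (msc z' - msc z) * ((a ⬝ᵥ b : ℝ) : ℂ)‖ := by congr 1; ring
    _ ≤ Psi n z + L * (2 * Psi n z) + Psi n z :=
        norm_add₃_le.trans (add_le_add_three ((hl.trans h5).trans hn8) (he.trans h6) (h9.trans hn8))
    _ ≤ _ := by rw [hLL]; nlinarith [mul_nonneg (by linarith : 0 ≤ L - 4) hP0,
        mul_nonneg (mul_nonneg (by linarith : 0 ≤ L) (by linarith : 0 ≤ L - 4)) hP0]

/-- **L13, isotropic delocalisation** -/
theorem del (R : ResApi) (V : VhpApi) (hA : AprStmt) (hN : NormStmt) : DelStmt := by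
  intro ε hε
  obtain ⟨K0, hK0⟩ := hN
  set e : ℝ := min ε 1 / 2 with he
  have he0 : 0 < e := by positivity
  have he1 : e ≤ 1 / 2 := by have := min_le_right ε 1; linarith
  have he2 : 2 * e ≤ ε := by have := min_le_left ε 1; linarith
  obtain ⟨C, hC, hV⟩ := hA (max K0 1) e he0
  refine V.mono (V.and (V.comp (Θ' := fun n => Fin n → ℝ) (fun _ v => (v, v)) hV)
    (V.comp (Θ' := fun n => Fin n → ℝ) (fun _ _ => ()) hK0)) ?_
  filter_upwards [ev_le' 1, ev_le C e he0] with n hn hCe E v x hx hv w l hw hw1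
  obtain ⟨hb, ho⟩ := hx
  have hn0 : (0 : ℝ) < n := by linarith
  have key : ∀ a, InS v v a → (w ⬝ᵥ a) ^ 2 ≤ (n : ℝ) ^ (-1 + ε) := by
    intro a ha
    by_cases h0 : w = 0
    · rw [h0, zero_dotProduct, zero_pow two_ne_zero]; positivity
    have hl : |l| ≤ opn (E.H x) := by
      have h1 := nrm_mulVec_le (E.H x) w
      rw [hw, nrm_smul] at h1
      exact le_of_mul_le_mul_right h1 (nrm_pos h0)
    set η : ℝ := (n : ℝ) ^ (-1 + e) with hη
    have hη0 : 0 < η := Real.rpow_pos_of_pos hn0 _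
    have hη1 : η ≤ 1 := Real.rpow_le_one_of_one_le_of_nonpos hn (by linarith)
    have hz : Dom (max K0 1) e n ⟨l, η⟩ :=
      ⟨(hl.trans ho).trans (le_max_left _ _), le_rfl, hη1.trans (le_max_right _ _)⟩
    have h2 := R.eigv (R.herm E x) (z := ⟨l, η⟩) hη0 w a l hw hw1
    have h3 : ‖(l : ℂ) - ⟨l, η⟩‖ ^ 2 = η ^ 2 := by
      rw [Complex.sq_norm, Complex.normSq_apply]; simp [sq]
    have h4 := (Complex.im_le_norm _).trans (hb hv hv _ hz a a ha ha)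
    rw [h3] at h2
    calc _ ≤ _ := h2
      _ = η * (gb (E.H x) ⟨l, η⟩ a a).im := by field_simp
      _ ≤ η * (n : ℝ) ^ e := by gcongr; exact h4.trans hCe
      _ = (n : ℝ) ^ (-1 + 2 * e) := by rw [hη, ← Real.rpow_add hn0]; congr 1; ring
      _ ≤ _ := Real.rpow_le_rpow_of_exponent_le hn (by linarith)
  refine ⟨key v (Or.inl rfl), fun k => ?_⟩
  rw [← dot_ee w k]
  exact key _ (Or.inr (Or.inr ⟨k, rfl⟩))

end Crest.Agent.T157.Ll
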