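import Crest.Agent.T157.LlDef_91

/-!
# Row 157, part E: local law — the moment lemma, pointwise part (helper91)
-/

set_option autoImplicit false

noncomputable section

namespace Crest.Agent.T157.Ll.Mom

open Finset Function

local notation "cj" => starRingEnd ℂ

lemma wt_nonneg (t : ℝ) : 0 ≤ wt t := by unfold wt; positivity

/-- second order Taylor estimate in the form used by the moment lemma -/
lemma taylor2 {h h1 h2 : ℝ → ℂ} (hd : ∀ t, HasDerivAt h (h1 t) t) (hd1 : ∀ t, HasDerivAt h1 (h2 t) t)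
    {x K : ℝ} (hK : ∀ t ∈ Set.uIcc 0 x, ‖h2 t‖ ≤ K) :
    ‖(x : ℂ) * (h x - h 0 - x * h1 0) - (h1 x - h1 0)‖ ≤ wt x * K := by
  have hK0 : 0 ≤ K := (norm_nonneg _).trans (hK 0 Set.left_mem_uIcc)
  have m1 : ∀ t ∈ Set.uIcc 0 x, ‖h1 t - h1 0‖ ≤ K * |t| := by
    intro t ht
    have := (convex_uIcc 0 x).norm_image_sub_le_of_norm_hasDerivWithin_le
      (fun s _ => (hd1 s).hasDerivWithinAt) hK Set.left_mem_uIcc ht
    simpa using this
  have hmem : ∀ s ∈ Set.Icc (0 : ℝ) 1, s * x ∈ Set.uIcc 0 x := by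
    intro s hs
    have := (convex_uIcc (0 : ℝ) x) Set.left_mem_uIcc Set.right_mem_uIcc (a := 1 - s) (b := s)
      (by linarith [hs.2]) hs.1 (by ring)
    simpa using this
  have hg : ∀ s : ℝ, HasDerivAt (fun s : ℝ => h (s * x) - h 0 - ((s * x : ℝ) : ℂ) * h1 0)
      ((x : ℂ) * (h1 (s * x) - h1 0)) s := by
    intro s
    have e1 : HasDerivAt (fun s : ℝ => s * x) x s := by simpa using (hasDerivAt_id s).mul_const x
    have e2 := (hd (s * x)).scomp s e1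
    have e3 := (e1.ofReal_comp).mul_const (h1 0)
    refine ((e2.sub_const (h 0)).sub e3).congr_deriv ?_
    rw [Complex.real_smul]; ring
  have hB : ∀ s : ℝ, HasDerivAt (fun s : ℝ => K * x ^ 2 * (s ^ 2 / 2)) (K * x ^ 2 * s) s := by
    intro s
    have := ((hasDerivAt_pow 2 s).div_const 2).const_mul (K * x ^ 2)
    refine this.congr_deriv ?_
    simp
  have m2 := image_norm_le_of_norm_deriv_right_le_deriv_boundary (a := 0) (b := 1)
    (f := fun s : ℝ => h (s * x) - h 0 - ((s * x : ℝ) : ℂ) * h1 0)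
    (fun s _ => (hg s).continuousAt.continuousWithinAt) (fun s _ => (hg s).hasDerivWithinAt)
    (B := fun s : ℝ => K * x ^ 2 * (s ^ 2 / 2)) (by simp) hB (fun s hs => by
      rw [norm_mul, Complex.norm_real, Real.norm_eq_abs]
      have := m1 _ (hmem s ⟨hs.1, hs.2.le⟩)
      rw [abs_mul, abs_of_nonneg hs.1] at this
      calc _ ≤ |x| * (K * (s * |x|)) := mul_le_mul_of_nonneg_left this (abs_nonneg x)
        _ = K * |x| ^ 2 * s := by ring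
        _ = _ := by rw [sq_abs]) (x := 1) ⟨zero_le_one, le_rfl⟩
  simp only [one_mul, one_pow] at m2
  have m3 := m1 x Set.right_mem_uIcc
  calc _ ≤ ‖(x : ℂ) * (h x - h 0 - x * h1 0)‖ + ‖h1 x - h1 0‖ := norm_sub_le _ _
    _ ≤ |x| * (K * x ^ 2 * (1 / 2)) + K * |x| := by
        rw [norm_mul, Complex.norm_real, Real.norm_eq_abs]
        exact add_le_add (mul_le_mul_of_nonneg_left m2 (abs_nonneg x)) m3
    _ = wt x * K := by rw [wt, ← sq_abs x]; ring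

/-- `X^(k+1) conj X^(k+2)` and its first two derivatives -/
def R0 (k : ℕ) (X : ℂ) : ℂ := X ^ (k + 1) * cj X ^ (k + 2)

def R1 (k : ℕ) (X Y : ℂ) : ℂ :=
  (k + 1) * (X ^ k * cj X ^ (k + 2)) * Y + (k + 2) * (X ^ (k + 1) * cj X ^ (k + 1)) * cj Y

def R2 (k : ℕ) (X Y Z : ℂ) : ℂ :=
  R1 k X Z + (k + 1) * (k * X ^ (k - 1) * cj X ^ (k + 2) * Y ^ 2 +
    2 * (k + 2) * (X ^ k * cj X ^ (k + 1)) * (Y * cj Y) + (k + 2) * (X ^ (k + 1) * cj X ^ k) * cj Y ^ 2)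

lemma hasDerivAt_cj {X : ℝ → ℂ} {Y : ℂ} {t : ℝ} (h : HasDerivAt X Y t) :
    HasDerivAt (fun s => cj (X s)) (cj Y) t := h.star

lemma deriv_R0 (k : ℕ) {X : ℝ → ℂ} {Y : ℂ} {t : ℝ} (h : HasDerivAt X Y t) :
    HasDerivAt (fun s => R0 k (X s)) (R1 k (X t) Y) t := by
  have := (h.fun_pow (k + 1)).mul ((hasDerivAt_cj h).fun_pow (k + 2))
  refine this.congr_deriv ?_
  simp only [R1, Nat.add_sub_cancel, show k + 2 - 1 = k + 1 from rfl]
  push_cast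
  ring

lemma deriv_R1 (k : ℕ) {X Y : ℝ → ℂ} {Z : ℂ} {t : ℝ} (h : HasDerivAt X (Y t) t)
    (h1 : HasDerivAt Y Z t) :
    HasDerivAt (fun s => R1 k (X s) (Y s)) (R2 k (X t) (Y t) Z) t := by
  have := ((((h.fun_pow k).mul ((hasDerivAt_cj h).fun_pow (k + 2))).const_mul ((k : ℂ) + 1)).mul h1).add
    ((((h.fun_pow (k + 1)).mul ((hasDerivAt_cj h).fun_pow (k + 1))).const_mul ((k : ℂ) + 2)).mul
      (hasDerivAt_cj h1))
  refine this.congr_deriv ?_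
  simp only [R2, R1, Nat.add_sub_cancel, show k + 2 - 1 = k + 1 from rfl, Pi.mul_apply]
  push_cast
  ring

lemma norm_pp {X : ℂ} {M : ℝ} (hX : ‖X‖ ≤ M) (a b : ℕ) : ‖X ^ a * cj X ^ b‖ ≤ M ^ (a + b) := by
  rw [norm_mul, norm_pow, norm_pow, Complex.norm_conj, ← pow_add]
  exact pow_le_pow_left₀ (norm_nonneg _) hX _

lemma norm_R0 (k : ℕ) {X : ℂ} {M : ℝ} (hX : ‖X‖ ≤ M) : ‖R0 k X‖ ≤ M ^ (2 * k + 3) := by
  have := norm_pp hX (k + 1) (k + 2)
  rwa [show k + 1 + (k + 2) = 2 * k + 3 by ring] at this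

lemma nc1 (k : ℕ) : ‖(k : ℂ) + 1‖ = k + 1 := by
  exact_mod_cast Complex.norm_natCast (k + 1)

lemma nc2 (k : ℕ) : ‖(k : ℂ) + 2‖ = k + 2 := by
  exact_mod_cast Complex.norm_natCast (k + 2)

lemma norm_R1 (k : ℕ) {X Y : ℂ} {M b : ℝ} (hX : ‖X‖ ≤ M) (hY : ‖Y‖ ≤ b) :
    ‖R1 k X Y‖ ≤ 2 * (k + 2) * b * M ^ (2 * k + 2) := by
  have hM : 0 ≤ M := (norm_nonneg _).trans hX
  have hb : 0 ≤ b := (norm_nonneg _).trans hY
  have h1 := norm_pp hX k (k + 2)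
  have h2 := norm_pp hX (k + 1) (k + 1)
  rw [show k + (k + 2) = 2 * k + 2 by ring] at h1
  rw [show k + 1 + (k + 1) = 2 * k + 2 by ring] at h2
  calc _ ≤ (k + 1) * M ^ (2 * k + 2) * b + (k + 2) * M ^ (2 * k + 2) * b := by
        refine (norm_add_le _ _).trans (add_le_add ?_ ?_)
        · rw [norm_mul, norm_mul, nc1]; gcongr
        · rw [norm_mul, norm_mul, nc2, Complex.norm_conj]; gcongr
    _ ≤ _ := by nlinarith [mul_nonneg hb (pow_nonneg hM (2 * k + 2))]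

lemma norm_R2 (k : ℕ) {X Y Z : ℂ} {M b c : ℝ} (hX : ‖X‖ ≤ M) (hY : ‖Y‖ ≤ b) (hZ : ‖Z‖ ≤ c) :
    ‖R2 k X Y Z‖ ≤ 2 * (k + 2) * c * M ^ (2 * k + 2) + 4 * (k + 2) ^ 2 * b ^ 2 * M ^ (2 * k + 1) := by
  have hM : 0 ≤ M := (norm_nonneg _).trans hX
  have hb : 0 ≤ b := (norm_nonneg _).trans hY
  have h0 : ‖(k : ℂ) * X ^ (k - 1) * cj X ^ (k + 2)‖ ≤ k * M ^ (2 * k + 1) := by
    rcases k with _ | k
    · simp
    · have := norm_pp hX k (k + 1 + 2)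
      rw [show k + (k + 1 + 2) = 2 * (k + 1) + 1 by ring] at this
      rw [mul_assoc, norm_mul, Complex.norm_natCast, Nat.add_sub_cancel]
      exact mul_le_mul_of_nonneg_left this (Nat.cast_nonneg _)
  have h1 := norm_pp hX k (k + 1)
  have h2 := norm_pp hX (k + 1) k
  rw [show k + (k + 1) = 2 * k + 1 by ring] at h1
  rw [show k + 1 + k = 2 * k + 1 by ring] at h2
  have h3 : ‖(k : ℂ) * X ^ (k - 1) * cj X ^ (k + 2) * Y ^ 2 +
      2 * (k + 2) * (X ^ k * cj X ^ (k + 1)) * (Y * cj Y) + (k + 2) * (X ^ (k + 1) * cj X ^ k) * cj Y ^ 2‖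
      ≤ k * M ^ (2 * k + 1) * b ^ 2 + 2 * (k + 2) * M ^ (2 * k + 1) * (b * b) +
        (k + 2) * M ^ (2 * k + 1) * b ^ 2 := by
    refine (norm_add₃_le).trans (add_le_add (add_le_add ?_ ?_) ?_)
    · rw [norm_mul, norm_pow]; gcongr
    · rw [norm_mul, norm_mul, norm_mul, nc2, norm_mul Y, Complex.norm_conj, Complex.norm_two]; gcongr
    · rw [norm_mul, norm_mul, nc2, norm_pow, Complex.norm_conj]; gcongr
  refine (norm_add_le _ _).trans (add_le_add (norm_R1 k hX hZ) ?_)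
  rw [norm_mul, nc1]
  refine (mul_le_mul_of_nonneg_left h3 (by positivity)).trans ?_
  have : 0 ≤ b ^ 2 * M ^ (2 * k + 1) := by positivity
  have hk : (0 : ℝ) ≤ k := Nat.cast_nonneg k
  nlinarith [mul_nonneg hk this]

/-- the Taylor error of `f · R` along one coordinate -/
lemma err_le (k : ℕ) {f f1 f2 X X1 X2 : ℝ → ℂ} (df : ∀ t, HasDerivAt f (f1 t) t)
    (df1 : ∀ t, HasDerivAt f1 (f2 t) t) (dX : ∀ t, HasDerivAt X (X1 t) t)
    (dX1 : ∀ t, HasDerivAt X1 (X2 t) t) {x M a0 a1 a2 b1 b2 : ℝ}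
    (hb : ∀ t ∈ Set.uIcc 0 x, ‖f t‖ ≤ a0 ∧ ‖f1 t‖ ≤ a1 ∧ ‖f2 t‖ ≤ a2 ∧ ‖X1 t‖ ≤ b1 ∧ ‖X2 t‖ ≤ b2 ∧
      ‖X t‖ ≤ M) :
    ‖(x : ℂ) * (f x * R0 k (X x) - f 0 * R0 k (X 0) - x * (f1 0 * R0 k (X 0) + f 0 * R1 k (X 0) (X1 0))) -
      ((f1 x * R0 k (X x) + f x * R1 k (X x) (X1 x)) - (f1 0 * R0 k (X 0) + f 0 * R1 k (X 0) (X1 0)))‖ ≤
      wt x * (a2 * M ^ (2 * k + 3) + 4 * (k + 2) * (a1 * b1 + a0 * b2) * M ^ (2 * k + 2) +
        4 * (k + 2) ^ 2 * (a0 * b1 ^ 2) * M ^ (2 * k + 1)) := by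
  refine taylor2 (h := fun t => f t * R0 k (X t))
    (h1 := fun t => f1 t * R0 k (X t) + f t * R1 k (X t) (X1 t))
    (h2 := fun t => f2 t * R0 k (X t) + 2 * (f1 t * R1 k (X t) (X1 t)) + f t * R2 k (X t) (X1 t) (X2 t))
    (fun t => (df t).mul (deriv_R0 k (dX t))) (fun t => ?_) fun t ht => ?_
  · refine (((df1 t).mul (deriv_R0 k (dX t))).add ((df t).mul (deriv_R1 k (dX t) (dX1 t)))).congr_deriv ?_
    ring
  · obtain ⟨h0, h1, h2, g1, g2, hM⟩ := hb t ht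
    have p0 : 0 ≤ a0 := (norm_nonneg _).trans h0
    have p1 : 0 ≤ a1 := (norm_nonneg _).trans h1
    have p2 : 0 ≤ a2 := (norm_nonneg _).trans h2
    have q2 : 0 ≤ b2 := (norm_nonneg _).trans g2
    have pM : 0 ≤ M := (norm_nonneg _).trans hM
    calc _ ≤ a2 * M ^ (2 * k + 3) + 2 * (a1 * (2 * (k + 2) * b1 * M ^ (2 * k + 2))) +
          a0 * (2 * (k + 2) * b2 * M ^ (2 * k + 2) + 4 * (k + 2) ^ 2 * b1 ^ 2 * M ^ (2 * k + 1)) := by
          refine (norm_add₃_le).trans (add_le_add (add_le_add ?_ ?_) ?_)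
          · rw [norm_mul]; exact mul_le_mul h2 (norm_R0 k hM) (norm_nonneg _) p2
          · rw [norm_mul, norm_mul, Complex.norm_two]
            exact mul_le_mul_of_nonneg_left (mul_le_mul h1 (norm_R1 k hM g1) (norm_nonneg _) p1) zero_le_two
          · rw [norm_mul]; exact mul_le_mul h0 (norm_R2 k hM g1 g2) (norm_nonneg _) p0
      _ ≤ _ := by
          have : 0 ≤ (k + 2 : ℝ) * (a0 * b2) * M ^ (2 * k + 2) := by positivity
          nlinarith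

/-- the real inequality behind the dichotomy -/
lemma dichotomy (k : ℕ) {y φ φ0 : ℝ} (hy : 0 ≤ y) (hφ : 0 ≤ φ) (h0 : 0 < φ0)
    (h : φ ^ 2 ≤ φ0 ^ 2 + φ0 * y) :
    φ * (y + φ) ^ (2 * k + 3) + 4 * (k + 2) * φ ^ 2 * (y + φ) ^ (2 * k + 2) +
      4 * (k + 2) ^ 2 * φ ^ 3 * (y + φ) ^ (2 * k + 1) ≤
      y ^ (2 * (k + 2)) / 2 + (512 * (k + 2) ^ 2 * φ0) ^ (2 * (k + 2)) / 2 := by
  set p : ℝ := k + 2 with hp
  have hp2 : 2 ≤ p := by rw [hp]; linarith [(Nat.cast_nonneg k : (0 : ℝ) ≤ k)]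
  have hp0 : 0 < p := by linarith
  by_cases hc : 128 * p ^ 2 * φ0 ≤ y
  · have h1 : φ0 ≤ y / (128 * p ^ 2) := by rw [le_div_iff₀ (by positivity)]; linarith
    have h1' : φ0 ≤ y := by
      have : 1 ≤ 128 * p ^ 2 := by nlinarith
      nlinarith
    have h2 : φ ≤ y / (8 * p) := by
      refine le_of_sq_le_sq ?_ (by positivity)
      calc φ ^ 2 ≤ φ0 * φ0 + φ0 * y := by rw [← sq]; exact h
        _ ≤ 2 * (y / (128 * p ^ 2)) * y := by nlinarith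
        _ = _ := by field_simp; ring
    have h3 : y + φ ≤ (1 + 1 / (8 * p)) * y := by
      rw [add_mul, one_mul, one_div_mul_eq_div]; linarith
    have h4 : ∀ j ≤ 2 * k + 4, (y + φ) ^ j ≤ 3 * y ^ j := by
      intro j hj
      have e1 : (1 + 1 / (8 * p)) ^ j ≤ 3 := by
        have : 1 + 1 / (8 * p) ≤ Real.exp (1 / (8 * p)) := by
          linarith [Real.add_one_le_exp (1 / (8 * p))]
        calc _ ≤ Real.exp (1 / (8 * p)) ^ j := pow_le_pow_left₀ (by positivity) this j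
          _ = Real.exp (j * (1 / (8 * p))) := (Real.exp_nat_mul _ _).symm
          _ ≤ Real.exp 1 := by
              refine Real.exp_le_exp.2 ?_
              rw [mul_one_div, div_le_one (by positivity)]
              have : (j : ℝ) ≤ 2 * k + 4 := by exact_mod_cast hj
              linarith
          _ ≤ 3 := by linarith [Real.exp_one_lt_d9]
      calc _ ≤ ((1 + 1 / (8 * p)) * y) ^ j := pow_le_pow_left₀ (by positivity) h3 j
        _ = (1 + 1 / (8 * p)) ^ j * y ^ j := mul_pow _ _ _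
        _ ≤ _ := mul_le_mul_of_nonneg_right e1 (by positivity)
    have a1 := h4 (2 * k + 3) (by omega)
    have a2 := h4 (2 * k + 2) (by omega)
    have a3 := h4 (2 * k + 1) (by omega)
    have hpos : 0 ≤ (512 * p ^ 2 * φ0) ^ (2 * (k + 2)) / 2 := by positivity
    calc _ ≤ y / (8 * p) * (3 * y ^ (2 * k + 3)) + 4 * p * (y / (8 * p)) ^ 2 * (3 * y ^ (2 * k + 2)) +
          4 * p ^ 2 * (y / (8 * p)) ^ 3 * (3 * y ^ (2 * k + 1)) := by gcongr
      _ = y ^ (2 * (k + 2)) * (75 / 128 / p) := by field_simp; ring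
      _ ≤ y ^ (2 * (k + 2)) * (1 / 2) := by
          refine mul_le_mul_of_nonneg_left ?_ (by positivity)
          rw [div_le_iff₀ hp0]; linarith
      _ ≤ _ := by linarith
  · push Not at hc
    set L : ℝ := 128 * p ^ 2 * φ0 with hL
    have hT : 2 ≤ 128 * p ^ 2 := by nlinarith
    have hL0 : 0 < L := by positivity
    have h2 : φ ≤ L := by
      refine le_of_sq_le_sq ?_ hL0.le
      have : φ0 * y ≤ φ0 * L := mul_le_mul_of_nonneg_left hc.le h0.le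
      have h3 : 2 * φ0 ≤ L := by nlinarith
      nlinarith
    have h3 : y + φ ≤ 2 * L := by linarith
    have h5 : (1 + p) ^ 2 ≤ 2 ^ (2 * (k + 2)) := by
      have : 1 + p ≤ 2 ^ (k + 2) := by
        have := Nat.lt_two_pow_self (n := k + 2)
        have h' : ((k + 2 + 1 : ℕ) : ℝ) ≤ ((2 ^ (k + 2) : ℕ) : ℝ) := by exact_mod_cast this
        push_cast at h'
        linarith
      rw [mul_comm, pow_mul]
      exact pow_le_pow_left₀ (by positivity) this 2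
    have hpos : 0 ≤ y ^ (2 * (k + 2)) / 2 := by positivity
    calc _ ≤ L * (2 * L) ^ (2 * k + 3) + 4 * p * L ^ 2 * (2 * L) ^ (2 * k + 2) +
          4 * p ^ 2 * L ^ 3 * (2 * L) ^ (2 * k + 1) := by gcongr
      _ = (2 * L) ^ (2 * (k + 2)) * (1 + p) ^ 2 / 2 := by ring
      _ ≤ (2 * L) ^ (2 * (k + 2)) * 2 ^ (2 * (k + 2)) / 2 := by gcongr
      _ = (512 * p ^ 2 * φ0) ^ (2 * (k + 2)) / 2 := by
          rw [← mul_pow]; congr 2; rw [hL]; ring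
      _ ≤ _ := by linarith

variable {ι : Type} [Fintype ι] [DecidableEq ι]

/-- the centred terms -/
def JJ (D : MData ι) (k : ℕ) (a : ι) (x : ι → ℝ) : ℂ :=
  (x a : ℂ) * (D.f a (update x a 0) * R0 k (D.X (update x a 0))) + ((x a ^ 2 - 1 : ℝ) : ℂ) *
    (D.f1 a (update x a 0) * R0 k (D.X (update x a 0)) +
      D.f a (update x a 0) * R1 k (D.X (update x a 0)) (D.X1 a (update x a 0)))

lemma mul_R0 (k : ℕ) (X : ℂ) : X * R0 k X = ((‖X‖ ^ (2 * (k + 2)) : ℝ) : ℂ) := by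
  rw [R0, ← mul_assoc, ← pow_succ', ← mul_pow, Complex.mul_conj, Complex.normSq_eq_norm_sq, pow_mul]
  push_cast
  rfl

/-- pointwise bound of the integrand -/
lemma norm_I_le {D : MData ι} {B : ℝ} (hD : D.Ok B) (k : ℕ) (x : ι → ℝ) {M : ℝ}
    {a0 a1 a2 b1 b2 : ι → ℝ} (hM : ‖D.X x‖ ≤ M)
    (hb : ∀ a, ∀ t ∈ Set.uIcc 0 (x a), ‖D.f a (update x a t)‖ ≤ a0 a ∧ ‖D.f1 a (update x a t)‖ ≤ a1 a ∧
      ‖D.f2 a (update x a t)‖ ≤ a2 a ∧ ‖D.X1 a (update x a t)‖ ≤ b1 a ∧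
      ‖D.X2 a (update x a t)‖ ≤ b2 a ∧ ‖D.X (update x a t)‖ ≤ M) :
    ‖((‖D.X x‖ ^ (2 * (k + 2)) : ℝ) : ℂ) - ∑ a, JJ D k a x‖ ≤
      (‖D.r x + ∑ a, D.f1 a x‖ + ∑ a, wt (x a) * a2 a) * M ^ (2 * k + 3) +
      4 * (k + 2) * (‖∑ a, D.f a x * D.X1 a x‖ + ‖∑ a, D.f a x * cj (D.X1 a x)‖ +
        ∑ a, wt (x a) * (a1 a * b1 a + a0 a * b2 a)) * M ^ (2 * k + 2) +
      4 * (k + 2) ^ 2 * (∑ a, wt (x a) * (a0 a * b1 a ^ 2)) * M ^ (2 * k + 1) := by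
  have hM0 : 0 ≤ M := (norm_nonneg _).trans hM
  set Er : ι → ℂ := fun a => (x a : ℂ) * (D.f a x * R0 k (D.X x)) -
    (D.f1 a x * R0 k (D.X x) + D.f a x * R1 k (D.X x) (D.X1 a x)) - JJ D k a x with hEr
  have hE : ∀ a, ‖Er a‖ ≤ wt (x a) * (a2 a * M ^ (2 * k + 3) +
      4 * (k + 2) * (a1 a * b1 a + a0 a * b2 a) * M ^ (2 * k + 2) +
        4 * (k + 2) ^ 2 * (a0 a * b1 a ^ 2) * M ^ (2 * k + 1)) := by
    intro a
    have := err_le k (hD.df a x) (hD.df1 a x) (hD.dX a x) (hD.dX1 a x) (hb a)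
    simp only [update_eq_self] at this
    refine le_of_eq_of_le ?_ this
    congr 1
    simp only [hEr, JJ]
    push_cast
    ring
  have e : ((‖D.X x‖ ^ (2 * (k + 2)) : ℝ) : ℂ) - ∑ a, JJ D k a x =
      (D.r x + ∑ a, D.f1 a x) * R0 k (D.X x) +
      ((k + 1) * (D.X x ^ k * cj (D.X x) ^ (k + 2)) * ∑ a, D.f a x * D.X1 a x +
        (k + 2) * (D.X x ^ (k + 1) * cj (D.X x) ^ (k + 1)) * ∑ a, D.f a x * cj (D.X1 a x)) +
      ∑ a, Er a := by
    rw [← mul_R0]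
    nth_rewrite 1 [hD.eq x]
    simp only [hEr, add_mul, sum_mul, mul_sum, sum_sub_distrib, sum_add_distrib, R1, mul_add]
    have c1 : ∑ a, D.f a x * ((k : ℂ) * (D.X x ^ k * cj (D.X x) ^ (k + 2)) * D.X1 a x) =
      ∑ a, (k : ℂ) * (D.X x ^ k * cj (D.X x) ^ (k + 2)) * (D.f a x * D.X1 a x) :=
      sum_congr rfl fun a _ => by ring
    have c2 : ∑ a, D.f a x * (1 * (D.X x ^ k * cj (D.X x) ^ (k + 2)) * D.X1 a x) =
      ∑ a, 1 * (D.X x ^ k * cj (D.X x) ^ (k + 2)) * (D.f a x * D.X1 a x) :=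
      sum_congr rfl fun a _ => by ring
    have c3 : ∑ a, D.f a x * ((k : ℂ) * (D.X x ^ (k + 1) * cj (D.X x) ^ (k + 1)) * cj (D.X1 a x)) =
      ∑ a, (k : ℂ) * (D.X x ^ (k + 1) * cj (D.X x) ^ (k + 1)) * (D.f a x * cj (D.X1 a x)) :=
      sum_congr rfl fun a _ => by ring
    have c4 : ∑ a, D.f a x * (2 * (D.X x ^ (k + 1) * cj (D.X x) ^ (k + 1)) * cj (D.X1 a x)) =
      ∑ a, 2 * (D.X x ^ (k + 1) * cj (D.X x) ^ (k + 1)) * (D.f a x * cj (D.X1 a x)) :=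
      sum_congr rfl fun a _ => by ring
    have c5 : ∑ a, (x a : ℂ) * D.f a x * R0 k (D.X x) = ∑ a, (x a : ℂ) * (D.f a x * R0 k (D.X x)) :=
      sum_congr rfl fun a _ => by ring
    rw [c1, c2, c3, c4, c5]
    ring
  have h1 := norm_pp hM k (k + 2)
  have h2 := norm_pp hM (k + 1) (k + 1)
  rw [show k + (k + 2) = 2 * k + 2 by ring] at h1
  rw [show k + 1 + (k + 1) = 2 * k + 2 by ring] at h2
  have hk : (0 : ℝ) ≤ k := Nat.cast_nonneg k
  have s1 : ‖(D.r x + ∑ a, D.f1 a x) * R0 k (D.X x)‖ ≤ ‖D.r x + ∑ a, D.f1 a x‖ * M ^ (2 * k + 3) := by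
    rw [norm_mul]; exact mul_le_mul_of_nonneg_left (norm_R0 k hM) (norm_nonneg _)
  have s2 : ‖((k : ℂ) + 1) * (D.X x ^ k * cj (D.X x) ^ (k + 2)) * ∑ a, D.f a x * D.X1 a x +
        (k + 2) * (D.X x ^ (k + 1) * cj (D.X x) ^ (k + 1)) * ∑ a, D.f a x * cj (D.X1 a x)‖ ≤
      4 * (k + 2) * (‖∑ a, D.f a x * D.X1 a x‖ + ‖∑ a, D.f a x * cj (D.X1 a x)‖) * M ^ (2 * k + 2) := by
    calc _ ≤ (k + 1) * M ^ (2 * k + 2) * ‖∑ a, D.f a x * D.X1 a x‖ +
          (k + 2) * M ^ (2 * k + 2) * ‖∑ a, D.f a x * cj (D.X1 a x)‖ := by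
          refine (norm_add_le _ _).trans (add_le_add ?_ ?_)
          · rw [norm_mul, norm_mul, nc1]; gcongr
          · rw [norm_mul, norm_mul, nc2]; gcongr
      _ ≤ _ := by
          have p1 : 0 ≤ M ^ (2 * k + 2) * ‖∑ a, D.f a x * D.X1 a x‖ := by positivity
          have p2 : 0 ≤ M ^ (2 * k + 2) * ‖∑ a, D.f a x * cj (D.X1 a x)‖ := by positivity
          nlinarith [mul_nonneg hk p1, mul_nonneg hk p2]
  have s3 : ‖∑ a, Er a‖ ≤ (∑ a, wt (x a) * a2 a) * M ^ (2 * k + 3) +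
      4 * (k + 2) * (∑ a, wt (x a) * (a1 a * b1 a + a0 a * b2 a)) * M ^ (2 * k + 2) +
      4 * (k + 2) ^ 2 * (∑ a, wt (x a) * (a0 a * b1 a ^ 2)) * M ^ (2 * k + 1) := by
    refine (norm_sum_le _ _).trans ((sum_le_sum fun a _ => hE a).trans_eq ?_)
    simp only [sum_mul, mul_sum, ← sum_add_distrib]
    exact sum_congr rfl fun a _ => by ring
  rw [e]
  refine (norm_add₃_le).trans ?_
  linarith

/-- on the good event -/
lemma good_le {D : MData ι} {B : ℝ} (hD : D.Ok B) (k : ℕ) {φ0 : ℝ} (h0 : 0 < φ0) {x : ι → ℝ}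
    (hx : D.Cond φ0 x) : ‖((‖D.X x‖ ^ (2 * (k + 2)) : ℝ) : ℂ) - ∑ a, JJ D k a x‖ ≤
      ‖D.X x‖ ^ (2 * (k + 2)) / 2 + (512 * (k + 2) ^ 2 * φ0) ^ (2 * (k + 2)) / 2 := by
  obtain ⟨φ, hφ, hφ2, a0, a1, a2, b1, b2, hb, s1, s2, s3⟩ := hx
  refine (norm_I_le hD k x (M := ‖D.X x‖ + φ) (a0 := a0) (a1 := a1) (a2 := a2) (b1 := b1) (b2 := b2)
    (by linarith) fun a t ht => ?_).trans
    (le_trans ?_ (dichotomy k (norm_nonneg _) hφ h0 hφ2))
  · obtain ⟨h1, h2, h3, h4, h5, h6⟩ := hb a t ht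
    exact ⟨h1, h2, h3, h4, h5, by linarith [norm_le_insert' (D.X (update x a t)) (D.X x)]⟩
  · gcongr

/-- everywhere -/
lemma bad_le {D : MData ι} {B : ℝ} (hD : D.Ok B) (k : ℕ) (x : ι → ℝ) :
    ‖((‖D.X x‖ ^ (2 * (k + 2)) : ℝ) : ℂ) - ∑ a, JJ D k a x‖ ≤
      9 * (k + 2) ^ 2 * B ^ (2 * (k + 2)) * ((Fintype.card ι + 1) + ∑ a, wt (x a)) := by
  have hB : 0 ≤ B := (norm_nonneg _).trans (hD.bX x)
  have h := norm_I_le hD k x (M := B) (a0 := fun _ => B) (a1 := fun _ => B) (a2 := fun _ => B)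
    (b1 := fun _ => B) (b2 := fun _ => B) (hD.bX x) fun a t _ =>
      ⟨hD.bf _ _, hD.bf1 _ _, hD.bf2 _ _, hD.bX1 _ _, hD.bX2 _ _, hD.bX _⟩
  simp only [← sum_mul] at h
  set S := ∑ a, wt (x a) with hS
  set N : ℝ := (Fintype.card ι : ℝ) with hN
  have hS0 : 0 ≤ S := sum_nonneg fun a _ => wt_nonneg _
  have hN0 : 0 ≤ N := Nat.cast_nonneg _
  have t1 : ‖D.r x + ∑ a, D.f1 a x‖ ≤ (N + 1) * B := by
    refine (norm_add_le _ _).trans ?_
    have := (norm_sum_le univ fun a => D.f1 a x).trans (sum_le_sum fun a _ => hD.bf1 a x)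
    rw [sum_const, card_univ, nsmul_eq_mul] at this
    linarith [hD.br x]
  have t2 : ‖∑ a, D.f a x * D.X1 a x‖ ≤ N * (B * B) := by
    have := (norm_sum_le univ fun a => D.f a x * D.X1 a x).trans (sum_le_sum (g := fun _ => B * B)
      fun a _ => by rw [norm_mul]; exact mul_le_mul (hD.bf a x) (hD.bX1 a x) (norm_nonneg _) hB)
    rwa [sum_const, card_univ, nsmul_eq_mul] at this
  have t3 : ‖∑ a, D.f a x * cj (D.X1 a x)‖ ≤ N * (B * B) := by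
    have := (norm_sum_le univ fun a => D.f a x * cj (D.X1 a x)).trans (sum_le_sum (g := fun _ => B * B)
      fun a _ => by
        rw [norm_mul, Complex.norm_conj]
        exact mul_le_mul (hD.bf a x) (hD.bX1 a x) (norm_nonneg _) hB)
    rwa [sum_const, card_univ, nsmul_eq_mul] at this
  set p : ℝ := k + 2 with hp
  have hp2 : 2 ≤ p := by rw [hp]; linarith [(Nat.cast_nonneg k : (0 : ℝ) ≤ k)]
  calc _ ≤ _ := h
    _ ≤ ((N + 1) * B + S * B) * B ^ (2 * k + 3) +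
      4 * p * (N * (B * B) + N * (B * B) + S * (B * B + B * B)) * B ^ (2 * k + 2) +
      4 * p ^ 2 * (S * (B * B ^ 2)) * B ^ (2 * k + 1) := by gcongr
    _ = B ^ (2 * (k + 2)) * ((N + 1) + S + 8 * p * (N + S) + 4 * p ^ 2 * S) := by ring
    _ ≤ B ^ (2 * (k + 2)) * (9 * p ^ 2 * ((N + 1) + S)) := by
        refine mul_le_mul_of_nonneg_left ?_ (by positivity)
        have q1 : 1 + 8 * p + 4 * p ^ 2 ≤ 9 * p ^ 2 := by nlinarith
        nlinarith [mul_le_mul_of_nonneg_right q1 hS0, mul_le_mul_of_nonneg_right q1 hN0,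
          mul_nonneg hN0 (sq_nonneg p)]
    _ = _ := by ring

end Crest.Agent.T157.Ll.Mom
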