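import Crest.Agent.T157.LlMomA_91
import Crest.Agent.R146.Lind1_878

/-!
# Row 157, part E: local law — the moment lemma (helper91)
-/

set_option autoImplicit false

noncomputable section

namespace Crest.Agent.T157.Ll

open Finset Function MeasureTheory ProbabilityTheory

namespace Law
variable {ν : Measure ℝ}

lemma pow6_le (x : ℝ) : x ^ 6 ≤ 720 * (Real.exp (1 * x) + Real.exp (-1 * x)) := by
  have h := Real.pow_div_factorial_le_exp |x| (abs_nonneg x) 6
  have h2 : |x| ^ 6 = x ^ 6 := by rw [show 6 = 2 * 3 from rfl, pow_mul, pow_mul, sq_abs]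
  have h3 : Real.exp |x| ≤ Real.exp (1 * x) + Real.exp (-1 * x) := by
    rcases abs_cases x with h | h
    · rw [h.1, one_mul]; linarith [Real.exp_pos (-1 * x)]
    · rw [h.1, neg_one_mul]; linarith [Real.exp_pos (1 * x)]
  rw [h2, show ((Nat.factorial 6 : ℕ) : ℝ) = 720 by norm_num [Nat.factorial],
    div_le_iff₀ (by norm_num)] at h
  linarith

lemma int6 (h : Law ν) : Integrable (fun x : ℝ => x ^ 6) ν := by
  refine Integrable.mono' (((h.sg.integrable_exp_mul 1).add (h.sg.integrable_exp_mul (-1))).const_mul 720)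
    (by fun_prop) (ae_of_all _ fun x => ?_)
  rw [Real.norm_eq_abs, abs_of_nonneg (by positivity)]
  exact pow6_le x

lemma mom6 (h : Law ν) : ∫ x, x ^ 6 ∂ν ≤ 4000 := by
  have i1 := h.sg.integrable_exp_mul 1
  have i2 := h.sg.integrable_exp_mul (-1)
  have h1 := h.sg.mgf_le 1
  have h2 := h.sg.mgf_le (-1)
  have e : Real.exp (1 / 2) ≤ 2.72 :=
    (Real.exp_le_exp.2 (by norm_num : (1 / 2 : ℝ) ≤ 1)).trans (by linarith [Real.exp_one_lt_d9])
  simp only [mgf, NNReal.coe_one, one_pow, mul_one, even_two, Even.neg_pow] at h1 h2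
  calc _ ≤ ∫ x, 720 * (Real.exp (1 * x) + Real.exp (-1 * x)) ∂ν :=
        integral_mono h.int6 ((i1.add i2).const_mul 720) pow6_le
    _ = 720 * (∫ x, Real.exp (1 * x) ∂ν + ∫ x, Real.exp (-1 * x) ∂ν) := by
        rw [integral_const_mul, integral_add i1 i2]
    _ ≤ _ := by linarith

lemma int_of_le (h : Law ν) {f : ℝ → ℝ} (hf : Measurable f) (hb : ∀ x, |f x| ≤ 3 + x ^ 6) :
    Integrable f ν := by
  have := h.prob
  exact Integrable.mono' ((integrable_const 3).add h.int6) hf.aestronglyMeasurable (ae_of_all _ hb)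

lemma sq_le (x : ℝ) : x ^ 2 ≤ 1 + x ^ 6 := by
  have := sq_nonneg x
  rcases le_total (x ^ 2) 1 with h | h
  · have : 0 ≤ x ^ 6 := by positivity
    linarith
  · have : x ^ 2 ≤ (x ^ 2) ^ 3 := le_self_pow₀ h (by norm_num)
    nlinarith

lemma int1 (h : Law ν) : Integrable (fun x : ℝ => x) ν :=
  h.int_of_le measurable_id fun x => by
    have := sq_le x
    have h2 := sq_nonneg (|x| - 1)
    have h3 := sq_abs x
    have h4 := abs_nonneg x
    nlinarith

lemma int2 (h : Law ν) : Integrable (fun x : ℝ => x ^ 2) ν :=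
  h.int_of_le (by fun_prop) fun x => by
    rw [abs_of_nonneg (sq_nonneg x)]; linarith [sq_le x]

lemma wt_sq_le (x : ℝ) : wt x ^ 2 ≤ x ^ 6 / 2 + 2 * x ^ 2 := by
  have h2 : |x| ^ 6 = x ^ 6 := by rw [show 6 = 2 * 3 from rfl, pow_mul, pow_mul, sq_abs]
  have h4 := sq_abs x
  unfold wt
  nlinarith [sq_nonneg (|x| ^ 3 / 2 - |x|)]

end Law

namespace Mom

variable {ι : Type} [Fintype ι] [DecidableEq ι]

lemma meas_upd (a : ι) : Measurable fun x : ι → ℝ => update x a (0 : ℝ) :=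
  (R146L878.measurable_updateMap a).comp (measurable_id.prodMk measurable_const)

/-- independence of `x a` and `update x a 0` -/
lemma indep_mul (ν : ι → Measure ℝ) [∀ a, IsProbabilityMeasure (ν a)] (a : ι) {φ : ℝ → ℝ}
    (hφ : Measurable φ) {h : (ι → ℝ) → ℂ} (hh : Measurable h) :
    ∫ x, (φ (x a) : ℂ) * h (update x a 0) ∂Measure.pi ν =
      ((∫ t, φ t ∂ν a : ℝ) : ℂ) * ∫ x, h (update x a 0) ∂Measure.pi ν := by
  have hm := R146L878.map_update_prod ν a (ν a)
  rw [update_eq_self] at hm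
  have hF : Measurable fun x : ι → ℝ => (φ (x a) : ℂ) * h (update x a 0) :=
    (Complex.measurable_ofReal.comp (hφ.comp (measurable_pi_apply a))).mul (hh.comp (meas_upd a))
  conv_lhs => rw [← hm, integral_map (R146L878.measurable_updateMap a).aemeasurable
    hF.aestronglyMeasurable]
  simp only [update_self, update_idem]
  have := integral_prod_mul (μ := Measure.pi ν) (ν := ν a) (fun x => h (update x a 0))
    fun t => (φ t : ℂ)
  simp only [mul_comm (h _)] at this
  rw [this, integral_complex_ofReal, mul_comm]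

lemma int_mul (ν : ι → Measure ℝ) [∀ a, IsProbabilityMeasure (ν a)] (a : ι) {φ : ℝ → ℝ}
    (hi : Integrable φ (ν a)) {h : (ι → ℝ) → ℂ} (hh : Measurable h) {C : ℝ}
    (hb : ∀ x, ‖h x‖ ≤ C) :
    Integrable (fun x : ι → ℝ => (φ (x a) : ℂ) * h (update x a 0)) (Measure.pi ν) := by
  have h1 : Integrable (fun x : ι → ℝ => (φ (x a) : ℂ)) (Measure.pi ν) :=
    ((measurePreserving_eval ν a).integrable_comp_of_integrable hi).ofReal
  exact h1.mul_bdd (c := C) (hh.comp (meas_upd a)).aestronglyMeasurable (ae_of_all _ fun x => hb _)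

lemma JJ_int {ν : ι → Measure ℝ} (hν : ∀ a, Law (ν a)) {D : MData ι} {B : ℝ} (hD : D.Ok B) (k : ℕ)
    (a : ι) : Integrable (JJ D k a) (Measure.pi ν) ∧ ∫ x, JJ D k a x ∂Measure.pi ν = 0 := by
  have := fun a => (hν a).prob
  have cX : Measurable fun x => (starRingEnd ℂ) (D.X x) := Complex.continuous_conj.measurable.comp hD.mX
  have cX1 : Measurable fun x => (starRingEnd ℂ) (D.X1 a x) :=
    Complex.continuous_conj.measurable.comp (hD.mX1 a)
  have m0 : Measurable fun x => R0 k (D.X x) := (hD.mX.pow_const _).mul (cX.pow_const _)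
  have m1 : Measurable fun x => R1 k (D.X x) (D.X1 a x) :=
    ((((hD.mX.pow_const _).mul (cX.pow_const _)).const_mul _).mul (hD.mX1 a)).add
      ((((hD.mX.pow_const _).mul (cX.pow_const _)).const_mul _).mul cX1)
  have mF : Measurable fun x => D.f a x * R0 k (D.X x) := (hD.mf a).mul m0
  have mG : Measurable fun x => D.f1 a x * R0 k (D.X x) + D.f a x * R1 k (D.X x) (D.X1 a x) :=
    ((hD.mf1 a).mul m0).add ((hD.mf a).mul m1)
  have hB : 0 ≤ B := (norm_nonneg _).trans (hD.bX 0)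
  have bF : ∀ x, ‖D.f a x * R0 k (D.X x)‖ ≤ B * B ^ (2 * k + 3) := fun x => by
    rw [norm_mul]; exact mul_le_mul (hD.bf a x) (norm_R0 k (hD.bX x)) (norm_nonneg _) hB
  have bG : ∀ x, ‖D.f1 a x * R0 k (D.X x) + D.f a x * R1 k (D.X x) (D.X1 a x)‖ ≤
      B * B ^ (2 * k + 3) + B * (2 * (k + 2) * B * B ^ (2 * k + 2)) := fun x => by
    refine (norm_add_le _ _).trans (add_le_add ?_ ?_)
    · rw [norm_mul]; exact mul_le_mul (hD.bf1 a x) (norm_R0 k (hD.bX x)) (norm_nonneg _) hB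
    · rw [norm_mul]
      exact mul_le_mul (hD.bf a x) (norm_R1 k (hD.bX x) (hD.bX1 a x)) (norm_nonneg _) hB
  have i2 : Integrable (fun t : ℝ => t ^ 2 - 1) (ν a) := (hν a).int2.sub (integrable_const 1)
  have j1 := int_mul ν a (φ := fun t => t) (hν a).int1 mF bF
  have j2 := int_mul ν a (φ := fun t => t ^ 2 - 1) i2 mG bG
  refine ⟨j1.add j2, ?_⟩
  have e1 := indep_mul ν a (φ := fun t => t) measurable_id mF
  have e2 := indep_mul ν a (φ := fun t => t ^ 2 - 1) (by fun_prop) mG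
  rw [(hν a).mean] at e1
  rw [integral_sub (hν a).int2 (integrable_const 1), (hν a).var] at e2
  simp only [integral_const, probReal_univ, smul_eq_mul, mul_one, sub_self, Complex.ofReal_zero,
    zero_mul] at e1 e2
  unfold JJ
  rw [integral_add j1 j2, e1, e2, add_zero]

/-- the moment bound -/
lemma moment_le {ν : ι → Measure ℝ} (hν : ∀ a, Law (ν a)) {D : MData ι} {B φ0 δ : ℝ} (k : ℕ)
    (hD : D.Ok B) (h0 : 0 < φ0) (hδ : 0 < δ)
    (hbad : Measure.pi ν {x | ¬ D.Cond φ0 x} ≤ ENNReal.ofReal δ) :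
    Integrable (fun x => ‖D.X x‖ ^ (2 * (k + 2))) (Measure.pi ν) ∧
    ∫ x, ‖D.X x‖ ^ (2 * (k + 2)) ∂Measure.pi ν ≤ (512 * (k + 2) ^ 2 * φ0) ^ (2 * (k + 2)) +
      10 ^ 5 * (Fintype.card ι + 1) * (k + 2) ^ 2 * B ^ (2 * (k + 2)) * (δ + √δ) := by
  have := fun a => (hν a).prob
  set μ := Measure.pi ν with hμ
  have hB : 0 ≤ B := (norm_nonneg _).trans (hD.bX 0)
  have iX : Integrable (fun x => ‖D.X x‖ ^ (2 * (k + 2))) μ :=
    Integrable.of_bound (hD.mX.norm.pow_const _).aestronglyMeasurable (B ^ (2 * (k + 2)))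
      (ae_of_all _ fun x => by
        rw [Real.norm_eq_abs, abs_of_nonneg (by positivity)]
        exact pow_le_pow_left₀ (norm_nonneg _) (hD.bX x) _)
  refine ⟨iX, ?_⟩
  set S := toMeasurable μ {x | ¬ D.Cond φ0 x} with hS
  have mS : MeasurableSet S := measurableSet_toMeasurable _ _
  have hSδ : μ.real S ≤ δ := by
    rw [hS, Measure.real, measure_toMeasurable]
    exact ENNReal.toReal_le_of_le_ofReal hδ.le hbad
  set N : ℝ := (Fintype.card ι : ℝ) with hN
  have hN0 : 0 ≤ N := Nat.cast_nonneg _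
  set C0 : ℝ := (512 * (k + 2) ^ 2 * φ0) ^ (2 * (k + 2)) with hC0
  set C1 : ℝ := 9 * (k + 2) ^ 2 * B ^ (2 * (k + 2)) with hC1
  have hC00 : 0 ≤ C0 := by positivity
  have hC10 : 0 ≤ C1 := by positivity
  have hs : 0 < √δ := Real.sqrt_pos.2 hδ
  have hss : √δ * √δ = δ := Real.mul_self_sqrt hδ.le
  set g : (ι → ℝ) → ℝ := fun x => ∑ a, (x a ^ 6 / 2 + 2 * x a ^ 2) with hg
  have ia : ∀ a, Integrable (fun x : ι → ℝ => x a ^ 6 / 2 + 2 * x a ^ 2) μ := fun a =>
    (measurePreserving_eval ν a).integrable_comp_of_integrable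
      (((hν a).int6.div_const 2).add ((hν a).int2.const_mul 2))
  have ig : Integrable g μ := integrable_finsetSum _ fun a _ => ia a
  have eg : ∫ x, g x ∂μ ≤ N * 2002 := by
    rw [hg, integral_finsetSum _ fun a _ => ia a]
    refine (sum_le_sum (g := fun _ => (2002 : ℝ)) fun a _ => ?_).trans_eq
      (by rw [sum_const, card_univ, nsmul_eq_mul])
    have h1 : ∫ x, (x a ^ 6 / 2 + 2 * x a ^ 2) ∂μ = ∫ t, (t ^ 6 / 2 + 2 * t ^ 2) ∂ν a := by
      rw [← (measurePreserving_eval ν a).map_eq, integral_map (measurable_pi_apply a).aemeasurable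
        (by fun_prop)]
    rw [h1, integral_add ((hν a).int6.div_const 2) ((hν a).int2.const_mul 2), integral_div,
      integral_const_mul, (hν a).var]
    linarith [(hν a).mom6]
  have i1 : Integrable (S.indicator fun _ => (1 : ℝ)) μ := (integrable_const 1).indicator mS
  have hpt : ∀ x, ‖((‖D.X x‖ ^ (2 * (k + 2)) : ℝ) : ℂ) - ∑ a, JJ D k a x‖ ≤
      ‖D.X x‖ ^ (2 * (k + 2)) / 2 + C0 / 2 +
        C1 * (((N + 1) + N / (2 * √δ)) * S.indicator (fun _ => (1 : ℝ)) x + √δ / 2 * g x) := by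
    intro x
    have g0 : 0 ≤ g x := sum_nonneg fun a _ => by positivity
    by_cases hx : x ∈ S
    · rw [Set.indicator_of_mem hx, mul_one]
      have h1 : ∑ a, wt (x a) ≤ N / (2 * √δ) + √δ / 2 * g x := by
        rw [hg, mul_sum, show N / (2 * √δ) = ∑ _a : ι, 1 / (2 * √δ) by
          rw [sum_const, card_univ, nsmul_eq_mul, mul_one_div], ← sum_add_distrib]
        refine sum_le_sum fun a _ => ?_
        have h2 := Law.wt_sq_le (x a)
        have h3 : wt (x a) ≤ 1 / (2 * √δ) + √δ / 2 * wt (x a) ^ 2 := by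
          have : 1 / (2 * √δ) + √δ / 2 * wt (x a) ^ 2 - wt (x a) =
              (1 - √δ * wt (x a)) ^ 2 / (2 * √δ) := by field_simp; ring
          have h4 : 0 ≤ (1 - √δ * wt (x a)) ^ 2 / (2 * √δ) := by positivity
          linarith
        have := mul_le_mul_of_nonneg_left h2 (by positivity : 0 ≤ √δ / 2)
        linarith
      have h2 := bad_le hD k x
      have h3 : 0 ≤ ‖D.X x‖ ^ (2 * (k + 2)) := by positivity
      have h4 := mul_le_mul_of_nonneg_left h1 hC10
      rw [← hC1, ← hN] at h2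
      nlinarith
    · rw [Set.indicator_of_notMem hx, mul_zero, zero_add]
      have hc : D.Cond φ0 x := by
        by_contra hc
        exact hx (subset_toMeasurable _ _ hc)
      have h2 := good_le hD k h0 hc
      have : 0 ≤ C1 * (√δ / 2 * g x) := by positivity
      linarith
  have iJ : Integrable (fun x => ∑ a, JJ D k a x) μ :=
    integrable_finsetSum _ fun a _ => (JJ_int hν hD k a).1
  have eI : ∫ x, (((‖D.X x‖ ^ (2 * (k + 2)) : ℝ) : ℂ) - ∑ a, JJ D k a x) ∂μ =
      ((∫ x, ‖D.X x‖ ^ (2 * (k + 2)) ∂μ : ℝ) : ℂ) := by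
    have iX' : Integrable (fun x => ((‖D.X x‖ ^ (2 * (k + 2)) : ℝ) : ℂ)) μ := iX.ofReal
    rw [integral_sub iX' iJ, integral_finsetSum _ fun a _ => (JJ_int hν hD k a).1,
      sum_eq_zero fun a _ => (JJ_int hν hD k a).2, sub_zero, integral_complex_ofReal]
  have iA : Integrable (fun x => ‖D.X x‖ ^ (2 * (k + 2)) / 2 + C0 / 2) μ :=
    (iX.div_const 2).add (integrable_const _)
  have iB1 := i1.const_mul ((N + 1) + N / (2 * √δ))
  have iB2 := ig.const_mul (√δ / 2)
  have iB : Integrable (fun x => C1 * (((N + 1) + N / (2 * √δ)) * S.indicator (fun _ => (1 : ℝ)) x +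
      √δ / 2 * g x)) μ := (iB1.add iB2).const_mul C1
  have iAB : Integrable (fun x => ‖D.X x‖ ^ (2 * (k + 2)) / 2 + C0 / 2 +
      C1 * (((N + 1) + N / (2 * √δ)) * S.indicator (fun _ => (1 : ℝ)) x + √δ / 2 * g x)) μ := iA.add iB
  have key := norm_integral_le_of_norm_le iAB (ae_of_all _ hpt)
  rw [eI, Complex.norm_real, Real.norm_eq_abs] at key
  have e2 : ∫ x, (‖D.X x‖ ^ (2 * (k + 2)) / 2 + C0 / 2 +
      C1 * (((N + 1) + N / (2 * √δ)) * S.indicator (fun _ => (1 : ℝ)) x + √δ / 2 * g x)) ∂μ =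
      (∫ x, ‖D.X x‖ ^ (2 * (k + 2)) ∂μ) / 2 + C0 / 2 +
      C1 * (((N + 1) + N / (2 * √δ)) * μ.real S + √δ / 2 * ∫ x, g x ∂μ) := by
    rw [integral_add iA iB, integral_add (iX.div_const 2) (integrable_const _),
      integral_const_mul, integral_add iB1 iB2, integral_const_mul, integral_const_mul, integral_div,
      integral_indicator_const _ mS]
    simp
  rw [e2] at key
  have h5 : ((N + 1) + N / (2 * √δ)) * μ.real S ≤ (N + 1) * δ + N / 2 * √δ := by
    refine (mul_le_mul_of_nonneg_left hSδ (by positivity)).trans_eq ?_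
    rw [add_mul]
    congr 1
    field_simp
    nlinarith
  have h6 : √δ / 2 * ∫ x, g x ∂μ ≤ √δ / 2 * (N * 2002) := mul_le_mul_of_nonneg_left eg (by positivity)
  have h7 : ((N + 1) + N / (2 * √δ)) * μ.real S + √δ / 2 * ∫ x, g x ∂μ ≤ 1002 * ((N + 1) * (δ + √δ)) := by
    nlinarith [mul_nonneg hN0 hs.le, mul_nonneg hN0 hδ.le]
  have h8 := mul_le_mul_of_nonneg_left h7 hC10
  have h9 := le_abs_self (∫ x, ‖D.X x‖ ^ (2 * (k + 2)) ∂μ)
  have h10 : 0 ≤ ((k : ℝ) + 2) ^ 2 * B ^ (2 * (k + 2)) * ((N + 1) * (δ + √δ)) := by positivity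
  rw [hC1] at h8
  nlinarith

end Mom

/-- **the recursive moment lemma** -/
theorem momStmt : MomStmt := by
  intro ι _ _ ν hν D B φ0 δ l p hD _ h0 hδ hl hp hbad
  have := fun a => (hν a).prob
  obtain ⟨k, rfl⟩ : ∃ k, p = k + 2 := ⟨p - 2, by omega⟩
  obtain ⟨iX, hm⟩ := Mom.moment_le hν k hD h0 hδ hbad
  have hl2 : 0 < l ^ (2 * (k + 2)) := by positivity
  have h1 := mul_meas_ge_le_integral_of_nonneg (ae_of_all _ fun x => by positivity) iX (l ^ (2 * (k + 2)))
  have h2 : {x | l < ‖D.X x‖} ⊆ {x | l ^ (2 * (k + 2)) ≤ ‖D.X x‖ ^ (2 * (k + 2))} :=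
    fun x hx => pow_le_pow_left₀ hl.le (le_of_lt hx) _
  refine (measure_mono h2).trans ?_
  rw [← ofReal_measureReal]
  refine ENNReal.ofReal_le_ofReal ?_
  rw [le_div_iff₀' hl2]
  push_cast
  exact h1.trans hm

end Crest.Agent.T157.Ll
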