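import Crest.Agent.T157.LlDef_91

/-!
# Row 157, local law: the semicircle API `MscApi` and the self-improving inequality `PhiStmt`
(helper14)
-/

set_option autoImplicit false

noncomputable section

namespace Crest.Agent.T157.Ll

open Filter Topology

namespace Msc14

theorem eq0 (z : ℂ) : msc z ^ 2 + z * msc z + 1 = 0 := by
  have h : ((z ^ 2 - 4) ^ (2⁻¹ : ℂ)) ^ 2 = z ^ 2 - 4 := Complex.cpow_ofNat_inv_pow _ 2
  unfold msc
  split_ifs
  · linear_combination (1 / 4 : ℂ) * h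
  · linear_combination (1 / 4 : ℂ) * h

theorem mul_eq (z : ℂ) : msc z * (-z - msc z) = 1 := by
  linear_combination (-1 : ℂ) * eq0 z

theorem ne0 (z : ℂ) : msc z ≠ 0 := by
  intro h
  have := mul_eq z
  rw [h] at this
  simp at this

theorem inv_eq (z : ℂ) : (msc z)⁻¹ = -z - msc z :=
  inv_eq_of_mul_eq_one_right (mul_eq z)

/-- two numbers with product `1`: relation of imaginary parts -/
theorem im_of_mul {a b : ℂ} (h : a * b = 1) : Complex.normSq a * b.im = -a.im := by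
  have hr := congrArg Complex.re h
  have hi := congrArg Complex.im h
  simp only [Complex.mul_re, Complex.mul_im, Complex.one_re, Complex.one_im] at hr hi
  rw [Complex.normSq_apply]
  linear_combination a.re * hi - a.im * hr

theorem im_pos {z : ℂ} (hz : 0 < z.im) : 0 < (msc z).im := by
  have h : ((z ^ 2 - 4) ^ (2⁻¹ : ℂ)) ^ 2 = z ^ 2 - 4 := Complex.cpow_ofNat_inv_pow _ 2
  unfold msc
  split_ifs with h1
  · exact h1
  · set w := (z ^ 2 - 4) ^ (2⁻¹ : ℂ) with hw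
    have hm : ((-z - w) / 2) * ((-z + w) / 2) = 1 := by linear_combination (-1 / 4 : ℂ) * h
    have h2 := im_of_mul hm
    have hs : ((-z - w) / 2).im + ((-z + w) / 2).im = -z.im := by
      have : (-z - w) / 2 + (-z + w) / 2 = -z := by ring
      rw [← Complex.add_im, this, Complex.neg_im]
    have hn := Complex.normSq_nonneg ((-z - w) / 2)
    push Not at h1
    by_contra h3
    push Not at h3
    have h4 : Complex.normSq ((-z - w) / 2) * ((-z + w) / 2).im ≤ 0 := mul_nonpos_of_nonneg_of_nonpos hn h1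
    have h5 : ((-z - w) / 2).im = 0 := by linarith
    have h6 : ((-z + w) / 2).im < 0 := by linarith
    have h7 : Complex.normSq ((-z - w) / 2) = 0 := by
      rw [h5, neg_zero] at h2
      rcases mul_eq_zero.1 h2 with h | h
      · exact h
      · exact absurd h h6.ne
    rw [Complex.normSq_eq_zero] at h7
    rw [h7] at hm
    simp at hm

theorem factor (z m : ℂ) : 1 + z * m + m ^ 2 = (m - msc z) * (m - (msc z)⁻¹) := by
  rw [inv_eq]
  linear_combination eq0 z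

theorem normSq {z : ℂ} : ‖msc z‖ ^ 2 * ((msc z).im + z.im) = (msc z).im := by
  have h := im_of_mul (mul_eq z)
  rw [Complex.normSq_eq_norm_sq] at h
  simp only [Complex.sub_im, Complex.neg_im] at h
  linear_combination (-1 : ℝ) * h

theorem inv_im_neg {z : ℂ} (hz : 0 < z.im) : ((msc z)⁻¹).im < 0 := by
  rw [inv_eq]
  have := im_pos hz
  simp only [Complex.sub_im, Complex.neg_im]
  linarith

theorem uniq {z m : ℂ} (hz : 0 < z.im) (hm : 0 ≤ m.im) (h : m ^ 2 + z * m + 1 = 0) : m = msc z := by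
  have h1 : (m - msc z) * (m - (msc z)⁻¹) = 0 := by rw [← factor]; linear_combination h
  rcases mul_eq_zero.1 h1 with h2 | h2
  · exact sub_eq_zero.1 h2
  · have h3 := inv_im_neg hz
    rw [← sub_eq_zero.1 h2] at h3
    linarith

theorem al_eq (z : ℂ) : al z = ‖msc z - (msc z)⁻¹‖ := by
  unfold al
  rw [inv_eq]
  congr 1
  ring

theorem s_sq (z : ℂ) : (z + 2 * msc z) ^ 2 = z ^ 2 - 4 := by
  linear_combination (4 : ℂ) * eq0 z

theorem al_sq (z : ℂ) : al z ^ 2 = ‖z - 2‖ * ‖z + 2‖ := by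
  unfold al
  rw [← norm_pow, s_sq, ← norm_mul]
  congr 1
  ring

theorem al_nonneg (z : ℂ) : 0 ≤ al z := norm_nonneg _

theorem norm_sq_le {z : ℂ} (hz : 0 < z.im) : ‖msc z‖ ^ 2 ≤ 1 := by
  have h := normSq (z := z)
  have hp := im_pos hz
  by_contra h1
  push Not at h1
  nlinarith

theorem norm_le {z : ℂ} (hz : 0 < z.im) : ‖msc z‖ ≤ 1 := by
  have := norm_sq_le hz
  nlinarith [norm_nonneg (msc z)]

theorem im_le_one {z : ℂ} (hz : 0 < z.im) : (msc z).im ≤ 1 :=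
  (Complex.im_le_norm _).trans (norm_le hz)

theorem one_le_mul {z : ℂ} (hz : 0 < z.im) : 1 ≤ ‖msc z‖ * (‖z‖ + 1) := by
  have h := congrArg norm (mul_eq z)
  rw [norm_mul, norm_one] at h
  have h2 : ‖-z - msc z‖ ≤ ‖z‖ + 1 := by
    refine (norm_sub_le _ _).trans ?_
    rw [norm_neg]
    linarith [norm_le hz]
  calc (1 : ℝ) = ‖msc z‖ * ‖-z - msc z‖ := h.symm
    _ ≤ _ := mul_le_mul_of_nonneg_left h2 (norm_nonneg _)

theorem le_norm {z : ℂ} (hz : 0 < z.im) : 1 / (‖z‖ + 1) ≤ ‖msc z‖ := by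
  rw [div_le_iff₀ (by positivity)]
  exact one_le_mul hz

theorem s_im (z : ℂ) : (z + 2 * msc z).im = 2 * (msc z).im + z.im := by
  simp only [Complex.add_im, Complex.mul_im, Complex.re_ofNat, Complex.im_ofNat]
  ring

theorem im_le_al (z : ℂ) : 2 * (msc z).im + z.im ≤ al z := by
  rw [← s_im]
  exact Complex.im_le_norm _

theorem le_im {z : ℂ} (hz : 0 < z.im) : z.im / (‖z‖ + 1) ^ 2 ≤ (msc z).im := by
  have h := normSq (z := z)
  have hp := im_pos hz
  have h1 := one_le_mul hz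
  have h2 : 1 ≤ ‖msc z‖ ^ 2 * (‖z‖ + 1) ^ 2 := by
    rw [← mul_pow]; exact one_le_pow₀ h1
  rw [div_le_iff₀ (by positivity)]
  have h3 : ‖msc z‖ ^ 2 * z.im ≤ (msc z).im := by nlinarith [sq_nonneg ‖msc z‖]
  calc z.im = z.im * 1 := (mul_one _).symm
    _ ≤ z.im * (‖msc z‖ ^ 2 * (‖z‖ + 1) ^ 2) := mul_le_mul_of_nonneg_left h2 hz.le
    _ = (‖msc z‖ ^ 2 * z.im) * (‖z‖ + 1) ^ 2 := by ring
    _ ≤ _ := mul_le_mul_of_nonneg_right h3 (by positivity)

theorem le_al_im {z : ℂ} (hz : 0 < z.im) : z.im / (‖z‖ + 1) ≤ al z * (msc z).im := by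
  have h := normSq (z := z)
  have hp := im_pos hz
  have h0 : 0 < ‖msc z‖ := norm_pos_iff.2 (ne0 z)
  have h1 : 1 - ‖msc z‖ ^ 2 ≤ al z * ‖msc z‖ := by
    have h2 : al z * ‖msc z‖ = ‖1 - msc z ^ 2‖ := by
      unfold al
      rw [← norm_mul, ← norm_neg]
      congr 1
      linear_combination (-1 : ℂ) * eq0 z
    rw [h2, ← norm_pow]
    have := norm_sub_norm_le (1 : ℂ) (msc z ^ 2)
    rwa [norm_one] at this
  have h3 : ‖msc z‖ * z.im ≤ al z * (msc z).im := by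
    refine le_of_mul_le_mul_left ?_ h0
    have := mul_le_mul_of_nonneg_right h1 hp.le
    nlinarith
  refine le_trans ?_ h3
  have h4 := mul_le_mul_of_nonneg_right (le_norm hz) hz.le
  rwa [one_div, ← div_eq_inv_mul] at h4

theorem s_re_im (z : ℂ) : (z + 2 * msc z).re ^ 2 - (z + 2 * msc z).im ^ 2 = z.re ^ 2 - z.im ^ 2 - 4 ∧
    (z + 2 * msc z).re * (z + 2 * msc z).im = z.re * z.im := by
  have h := s_sq z
  generalize z + 2 * msc z = s at h ⊢
  have hr := congrArg Complex.re h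
  have hi := congrArg Complex.im h
  simp only [sq, Complex.mul_re, Complex.mul_im, Complex.sub_re, Complex.sub_im, Complex.re_ofNat,
    Complex.im_ofNat] at hr hi
  constructor
  · linear_combination hr
  · linear_combination (1 / 2 : ℝ) * hi

theorem al_sq' (z : ℂ) : al z ^ 2 = (z + 2 * msc z).re ^ 2 + (z + 2 * msc z).im ^ 2 := by
  unfold al
  rw [← Complex.normSq_eq_norm_sq, Complex.normSq_apply]
  ring

theorem inside {z : ℂ} (hz : 0 < z.im) (hE : |z.re| ≤ 2) :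
    al z ≤ 2 * (2 * (msc z).im + z.im) := by
  obtain ⟨h1, -⟩ := s_re_im z
  have h2 := al_sq' z
  have hp := im_pos hz
  rw [s_im] at h1 h2
  have h3 : z.re ^ 2 ≤ 4 := by
    have := sq_abs z.re
    nlinarith [abs_nonneg z.re]
  refine abs_le_of_sq_le_sq' ?_ (by positivity) |>.2
  nlinarith [sq_nonneg z.im, sq_nonneg (2 * (msc z).im + z.im)]

theorem outside {z : ℂ} (hz : 0 < z.im) (hE : 2 ≤ |z.re|) :
    al z * (msc z).im ≤ |z.re| * z.im := by
  obtain ⟨h1, h1'⟩ := s_re_im z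
  have h2 := al_sq' z
  have hp := im_pos hz
  rw [s_im] at h1 h1' h2
  set a := (z + 2 * msc z).re
  set μ := (msc z).im
  set η := z.im
  have h3 : 4 ≤ z.re ^ 2 := by
    have := sq_abs z.re
    nlinarith [abs_nonneg z.re]
  refine abs_le_of_sq_le_sq' ?_ (by positivity) |>.2
  have h4 : (|z.re| * η) ^ 2 = a ^ 2 * (2 * μ + η) ^ 2 := by
    rw [mul_pow, sq_abs, ← mul_pow, ← h1', mul_pow]
  rw [h4, mul_pow, h2]
  have h5 : 4 * μ ^ 2 ≤ a ^ 2 := by nlinarith [mul_pos hp hz]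
  have h6 : 4 * μ ^ 2 ≤ (2 * μ + η) ^ 2 := by nlinarith [mul_pos hp hz]
  have h7 := mul_le_mul_of_nonneg_left h6 (sq_nonneg a)
  have h8 := mul_le_mul_of_nonneg_left h5 (sq_nonneg (2 * μ + η))
  nlinarith [mul_nonneg (sq_nonneg a) (sq_nonneg (2 * μ + η))]

theorem lip0 {z z' : ℂ} (hz : 0 < z.im) (hz' : 0 < z'.im) :
    ‖msc z - msc z'‖ * z.im ≤ 2 * (1 + z.im) * ‖z - z'‖ := by
  have hid : (msc z - msc z') * (1 - msc z * msc z') = (z - z') * (msc z * msc z') := by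
    linear_combination (-msc z') * eq0 z + msc z * eq0 z'
  have hn := congrArg norm hid
  rw [norm_mul, norm_mul, norm_mul] at hn
  have h1 := norm_le hz
  have h1' := norm_le hz'
  have h0 := norm_nonneg (msc z)
  have h0' := norm_nonneg (msc z')
  have h2 : 1 - ‖msc z‖ ≤ ‖1 - msc z * msc z'‖ := by
    have := norm_sub_norm_le (1 : ℂ) (msc z * msc z')
    rw [norm_one, norm_mul] at this
    nlinarith
  have h3 : ‖msc z‖ ^ 2 * (1 + z.im) ≤ 1 := by
    have h := normSq (z := z)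
    have h4 := im_le_one hz
    have h5 := norm_sq_le hz
    nlinarith
  have h4 : z.im ≤ 2 * (1 + z.im) * (1 - ‖msc z‖) := by
    nlinarith [mul_nonneg (show 0 ≤ 1 + z.im by positivity) (sq_nonneg (1 - ‖msc z‖))]
  have h5 : ‖msc z - msc z'‖ * (1 - ‖msc z‖) ≤ ‖z - z'‖ := by
    calc ‖msc z - msc z'‖ * (1 - ‖msc z‖) ≤ ‖msc z - msc z'‖ * ‖1 - msc z * msc z'‖ :=
          mul_le_mul_of_nonneg_left h2 (norm_nonneg _)
      _ = ‖z - z'‖ * (‖msc z‖ * ‖msc z'‖) := hn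
      _ ≤ ‖z - z'‖ * 1 := mul_le_mul_of_nonneg_left (by nlinarith) (norm_nonneg _)
      _ = _ := mul_one _
  calc ‖msc z - msc z'‖ * z.im ≤ ‖msc z - msc z'‖ * (2 * (1 + z.im) * (1 - ‖msc z‖)) :=
        mul_le_mul_of_nonneg_left h4 (norm_nonneg _)
    _ = 2 * (1 + z.im) * (‖msc z - msc z'‖ * (1 - ‖msc z‖)) := by ring
    _ ≤ _ := mul_le_mul_of_nonneg_left h5 (by positivity)

theorem lip {z z' : ℂ} (hz : 0 < z.im) (hz' : 0 < z'.im) (h1 : z.im ≤ 1) :
    ‖msc z - msc z'‖ ≤ 4 * ‖z - z'‖ / z.im := by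
  rw [le_div_iff₀ hz]
  have := lip0 hz hz'
  nlinarith [norm_nonneg (z - z')]

theorem lip' {z z' : ℂ} (hz : 0 < z.im) (hz' : 0 < z'.im) (h1 : 1 ≤ z.im) :
    ‖msc z - msc z'‖ ≤ 4 * ‖z - z'‖ := by
  have := lip0 hz hz'
  refine le_of_mul_le_mul_right ?_ hz
  nlinarith [norm_nonneg (z - z')]

theorem al_mono {z z' : ℂ} (hz : 0 < z.im) (hre : z.re = z'.re) (him : z.im ≤ z'.im) :
    al z ≤ al z' := by
  have key : ∀ c : ℂ, c.im = 0 → ‖z + c‖ ≤ ‖z' + c‖ := by
    intro c hc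
    refine abs_le_of_sq_le_sq' ?_ (norm_nonneg _) |>.2
    rw [← Complex.normSq_eq_norm_sq, ← Complex.normSq_eq_norm_sq, Complex.normSq_apply,
      Complex.normSq_apply]
    simp only [Complex.add_re, Complex.add_im, hc, add_zero, hre]
    nlinarith
  refine abs_le_of_sq_le_sq' ?_ (al_nonneg _) |>.2
  rw [al_sq, al_sq, sub_eq_add_neg, sub_eq_add_neg]
  exact mul_le_mul (key _ (by simp)) (key _ (by simp)) (norm_nonneg _) (norm_nonneg _)

theorem dist {z m : ℂ} (hz : 0 < z.im) : ∃ δ : ℝ, 0 ≤ δ ∧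
    (δ = ‖m - msc z‖ ∨ δ = ‖m - (msc z)⁻¹‖) ∧ δ ≤ ‖m - msc z‖ ∧ δ ≤ ‖m - (msc z)⁻¹‖ ∧
    δ ^ 2 ≤ ‖1 + z * m + m ^ 2‖ ∧ al z * δ ≤ 2 * ‖1 + z * m + m ^ 2‖ ∧
    m.im ≤ (msc z).im + δ ∧ ‖z + 2 * m‖ ≤ al z + 2 * δ := by
  rw [factor, norm_mul]
  have ha : al z ≤ ‖m - msc z‖ + ‖m - (msc z)⁻¹‖ := by
    rw [al_eq]
    have : msc z - (msc z)⁻¹ = (m - (msc z)⁻¹) - (m - msc z) := by ring
    rw [this, add_comm]
    exact norm_sub_le _ _
  have h1 := norm_nonneg (m - msc z)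
  have h2 := norm_nonneg (m - (msc z)⁻¹)
  have hp := im_pos hz
  rcases le_total ‖m - msc z‖ ‖m - (msc z)⁻¹‖ with h | h
  · refine ⟨_, h1, Or.inl rfl, le_rfl, h, by nlinarith, by nlinarith, ?_, ?_⟩
    · have := Complex.im_le_norm (m - msc z)
      rw [Complex.sub_im] at this
      linarith
    · have : z + 2 * m = (z + 2 * msc z) + 2 * (m - msc z) := by ring
      rw [this]
      refine (norm_add_le _ _).trans ?_
      rw [norm_mul, Complex.norm_ofNat]
      exact le_rfl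
  · refine ⟨_, h2, Or.inr rfl, h, le_rfl, by nlinarith, by nlinarith, ?_, ?_⟩
    · have := Complex.im_le_norm (m - (msc z)⁻¹)
      rw [Complex.sub_im] at this
      linarith [inv_im_neg hz]
    · have : z + 2 * m = -(z + 2 * msc z) + 2 * (m - (msc z)⁻¹) := by rw [inv_eq]; ring
      rw [this]
      refine (norm_add_le _ _).trans ?_
      rw [norm_mul, Complex.norm_ofNat, norm_neg]
      exact le_rfl

theorem ev_im {z : ℂ} (hz : 0 < z.im) : ∀ᶠ w in 𝓝 z, 0 < w.im :=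
  Complex.continuous_im.continuousAt.eventually (lt_mem_nhds hz)

theorem contAt {z : ℂ} (hz : 0 < z.im) : ContinuousAt msc z := by
  rw [ContinuousAt, tendsto_iff_norm_sub_tendsto_zero]
  have h1 : Tendsto (fun w : ℂ => 2 * (1 + z.im) * ‖z - w‖ / z.im) (𝓝 z)
      (𝓝 (2 * (1 + z.im) * ‖z - z‖ / z.im)) := by
    refine ContinuousAt.tendsto (f := fun w : ℂ => 2 * (1 + z.im) * ‖z - w‖ / z.im) ?_
    fun_prop
  rw [sub_self, norm_zero, mul_zero, zero_div] at h1
  refine squeeze_zero' (Eventually.of_forall fun _ => norm_nonneg _) ?_ h1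
  filter_upwards [ev_im hz] with w hw
  rw [norm_sub_rev, le_div_iff₀ hz]
  exact lip0 hz hw

theorem deriv {z : ℂ} (hz : 0 < z.im) : HasDerivAt msc (-msc z / (z + 2 * msc z)) z := by
  rw [hasDerivAt_iff_tendsto_slope]
  have hne : ∀ w : ℂ, 0 < w.im → w + msc w + msc z ≠ 0 := by
    intro w hw h
    have := congrArg Complex.im h
    simp only [Complex.add_im, Complex.zero_im] at this
    linarith [im_pos hw, im_pos hz]
  have h1 : Tendsto (fun w : ℂ => -msc z / (w + msc w + msc z)) (𝓝 z)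
      (𝓝 (-msc z / (z + msc z + msc z))) :=
    tendsto_const_nhds.div ((tendsto_id.add (contAt hz).tendsto).add tendsto_const_nhds) (hne z hz)
  have h2 : z + msc z + msc z = z + 2 * msc z := by ring
  rw [h2] at h1
  refine (h1.mono_left nhdsWithin_le_nhds).congr' ?_
  filter_upwards [nhdsWithin_le_nhds (ev_im hz), self_mem_nhdsWithin] with w hw hwz
  have hwz' : w - z ≠ 0 := sub_ne_zero.2 hwz
  rw [slope_def_field, div_eq_div_iff (hne w hw) hwz']
  linear_combination eq0 z - eq0 w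

theorem near (K ε : ℝ) (hε : 0 < ε) : ∀ᶠ n : ℕ in atTop, ∀ z z' : ℂ, Dom K ε n z → Dom K ε n z' →
    ‖z - z'‖ ≤ 1 / (n : ℝ) ^ 10 → qq n z' ≤ 2 * qq n z ∧ Phi n z' ≤ 8 * Phi n z ∧
      Psi n z' ≤ 2 * Psi n z ∧ ‖msc z - msc z'‖ ≤ 1 / (n : ℝ) ^ 8 ∧
      1 / (n : ℝ) ^ 2 ≤ qq n z ∧ qq n z ≤ (n : ℝ) ^ (-ε) ∧ 1 / (n : ℝ) ^ 2 ≤ Phi n z ∧
      1 / (n : ℝ) ≤ Psi n z := by
  filter_upwards [tendsto_natCast_atTop_atTop.eventually_ge_atTop ((2 * |K| + 1) ^ 2 + 4 : ℝ)]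
    with n hn z z' hD hD' hzz
  set N : ℝ := (n : ℝ) with hN
  have hK0 := abs_nonneg K
  have hN4 : 4 ≤ N := by nlinarith [sq_nonneg (2 * |K| + 1)]
  have hN0 : 0 < N := by linarith
  have hN1 : 1 ≤ N := by linarith
  have hlow : ∀ w : ℂ, Dom K ε n w → 1 / N ≤ w.im := by
    intro w hw
    refine le_trans ?_ hw.2.1
    rw [one_div, ← Real.rpow_neg_one]
    exact Real.rpow_le_rpow_of_exponent_le hN1 (by linarith)
  have hl := hlow z hD
  have hl' := hlow z' hD'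
  have hiN : 0 < 1 / N := by positivity
  have hz : 0 < z.im := hiN.trans_le hl
  have hz' : 0 < z'.im := hiN.trans_le hl'
  have hzK : ‖z‖ + 1 ≤ 2 * |K| + 1 := by
    have := Complex.norm_le_abs_re_add_abs_im z
    rw [abs_of_pos hz] at this
    linarith [hD.1, hD.2.2, le_abs_self K]
  have hzn : (‖z‖ + 1) ^ 2 ≤ N := by
    have := pow_le_pow_left₀ (by positivity) hzK 2
    linarith
  have hzn1 : ‖z‖ + 1 ≤ N := by nlinarith [norm_nonneg z]
  have hηN : z.im ≤ N := by linarith [Complex.im_le_norm z]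
  have hpow : ∀ a b : ℕ, a ≤ b → 1 / N ^ b ≤ 1 / N ^ a := fun a b hab =>
    one_div_le_one_div_of_le (by positivity) (pow_le_pow_right₀ hN1 hab)
  have hpow4 : ∀ a : ℕ, 4 * (1 / N ^ (a + 1)) ≤ 1 / N ^ a := by
    intro a
    rw [mul_one_div, div_le_div_iff₀ (by positivity) (by positivity), pow_succ]
    nlinarith [pow_pos hN0 a]
  -- Lipschitz
  have hm : ‖msc z - msc z'‖ ≤ 1 / N ^ 8 := by
    rcases le_total z.im 1 with h | h
    · refine (lip hz hz' h).trans ?_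
      rw [div_le_iff₀ hz]
      calc 4 * ‖z - z'‖ ≤ 4 * (1 / N ^ (9 + 1)) := by linarith
        _ ≤ 1 / N ^ 9 := hpow4 9
        _ = 1 / N ^ 8 * (1 / N) := by field_simp
        _ ≤ _ := mul_le_mul_of_nonneg_left hl (by positivity)
    · refine (lip' hz hz' h).trans ?_
      calc 4 * ‖z - z'‖ ≤ 4 * (1 / N ^ (9 + 1)) := by linarith
        _ ≤ 1 / N ^ 9 := hpow4 9
        _ ≤ _ := hpow 8 9 (by norm_num)
  have hq0 : 0 < qq n z := by unfold qq; positivity
  have hq0' : 0 < qq n z' := by unfold qq; positivity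
  have hq : qq n z' ≤ 2 * qq n z := by
    have h1 : z.im ≤ 2 * z'.im := by
      have h2 := Complex.im_le_norm (z - z')
      rw [Complex.sub_im] at h2
      have h3 := hpow 1 10 (by norm_num)
      rw [pow_one] at h3
      linarith
    unfold qq
    rw [mul_one_div, div_le_div_iff₀ (by positivity) (by positivity)]
    nlinarith
  have hμ := im_pos hz
  have hμ' := im_pos hz'
  have hμ2 : (msc z').im ≤ 2 * (msc z).im := by
    have h1 := Complex.im_le_norm (msc z' - msc z)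
    rw [Complex.sub_im, norm_sub_rev] at h1
    have h2 : 1 / N ^ 2 ≤ (msc z).im := by
      refine le_trans ?_ (le_im hz)
      calc 1 / N ^ 2 = (1 / N) / N := by field_simp
        _ ≤ z.im / N := by gcongr
        _ ≤ _ := by gcongr
    linarith [hpow 2 8 (by norm_num)]
  have hal2 : al z' ≤ 2 * al z := by
    have h1 : al z' ≤ al z + ‖z - z'‖ + 2 * ‖msc z - msc z'‖ := by
      unfold al
      have : z' + 2 * msc z' = (z + 2 * msc z) - (z - z') - 2 * (msc z - msc z') := by ring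
      rw [this]
      refine (norm_sub_le _ _).trans ?_
      rw [norm_mul, Complex.norm_ofNat]
      linarith [norm_sub_le (z + 2 * msc z) (z - z')]
    have h2 := im_le_al z
    have h3 := hpow4 1
    have h4 := hpow (1 + 1) 8 (by norm_num)
    have h5 := hpow (1 + 1) 10 (by norm_num)
    rw [pow_one] at h3
    have h6 : 0 < 1 / N ^ (1 + 1) := by positivity
    linarith
  have hsq : ∀ a b : ℝ, a ≤ 4 * b → √a ≤ 2 * √b := by
    intro a b hab
    have : (2 : ℝ) * √b = √(4 * b) := by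
      rw [Real.sqrt_mul (by norm_num), show (4 : ℝ) = 2 ^ 2 by norm_num,
        Real.sqrt_sq (by norm_num)]
    rw [this]
    exact Real.sqrt_le_sqrt hab
  refine ⟨hq, ?_, ?_, hm, ?_, ?_, ?_, ?_⟩
  · have h1 : √(al z' * (msc z').im) ≤ 2 * √(al z * (msc z).im) := by
      refine hsq _ _ ?_
      have := mul_le_mul hal2 hμ2 hμ'.le (by linarith [al_nonneg z])
      linarith
    unfold Phi
    have h2 := mul_le_mul hq h1 (Real.sqrt_nonneg _) (by positivity)
    have h3 := pow_le_pow_left₀ hq0'.le hq 2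
    have h4 := mul_nonneg hq0.le (Real.sqrt_nonneg (al z * (msc z).im))
    nlinarith [sq_nonneg (qq n z)]
  · have h1 : √(qq n z' * (msc z').im) ≤ 2 * √(qq n z * (msc z).im) := by
      refine hsq _ _ ?_
      have := mul_le_mul hq hμ2 hμ'.le (by positivity)
      linarith
    unfold Psi
    linarith
  · unfold qq
    refine one_div_le_one_div_of_le (by positivity) ?_
    nlinarith
  · unfold qq
    rw [div_le_iff₀ (by positivity)]
    have h1 : N ^ (-ε) * (N * N ^ (-1 + ε)) = 1 := by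
      rw [Real.rpow_add hN0, Real.rpow_neg_one, Real.rpow_neg hN0.le]
      have : 0 < N ^ ε := by positivity
      field_simp
    rw [← h1]
    have := hD.2.1
    gcongr
  · have h1 : z.im / N ≤ √(al z * (msc z).im) := by
      refine Real.le_sqrt_of_sq_le (le_trans ?_ (le_al_im hz))
      rw [div_pow, div_le_div_iff₀ (by positivity) (by positivity)]
      have := mul_le_mul hηN hzn1 (by positivity) hN0.le
      nlinarith
    unfold Phi
    have h2 : 1 / N ^ 2 = qq n z * (z.im / N) := by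
      unfold qq
      rw [← hN]
      field_simp
    have h3 := mul_le_mul_of_nonneg_left h1 hq0.le
    nlinarith [sq_nonneg (qq n z)]
  · have h1 : 1 / N ≤ √(qq n z * (msc z).im) := by
      refine Real.le_sqrt_of_sq_le ?_
      have h2 : (1 / N) ^ 2 = qq n z * (z.im / N) := by
        unfold qq
        rw [← hN]
        field_simp
      rw [h2]
      refine mul_le_mul_of_nonneg_left (le_trans ?_ (le_im hz)) hq0.le
      gcongr
    unfold Psi
    linarith

/-- the real inequality behind `PhiStmt` -/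
theorem phi_real {K a μ δ q ν η s i P Φ : ℝ} (hK : 0 ≤ K) (ha : 0 ≤ a) (hμ : 0 ≤ μ) (hδ : 0 ≤ δ)
    (hq : 0 ≤ q) (hq1 : q ≤ 1) (hη : 0 ≤ η) (hηK : η ≤ K) (hν : ν = q * η) (haK : a ≤ K + 2)
    (hμa : 2 * μ ≤ a) (hηa : η ≤ (K + 1) * (a * μ)) (hs : s ≤ a + 2 * δ)
    (hi0 : 0 ≤ i) (hi : i ≤ μ + δ) (hP : 0 ≤ P) (hδ2 : δ ^ 2 ≤ P) (haδ : a * δ ≤ 2 * P)
    (hΦ1 : q ^ 2 ≤ Φ) (hΦ2 : q ^ 2 * (a * μ) + q ^ 4 ≤ Φ ^ 2) :
    (s + q) * q * (q * i + ν) + (q * i) ^ 2 + q * ν ≤ 10 * (K + 2) ^ 2 * (Φ ^ 2 + Φ * P) := by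
  have hq2 : 0 ≤ q ^ 2 := sq_nonneg q
  have hΦ0 : 0 ≤ Φ := hq2.trans hΦ1
  have hν0 : 0 ≤ ν := by rw [hν]; positivity
  have haμ : 0 ≤ a * μ := mul_nonneg ha hμ
  have e1 : q ^ 2 * (a * μ) ≤ Φ ^ 2 := by linarith [pow_nonneg hq 4]
  have e1' : q ^ 4 ≤ Φ ^ 2 := by linarith [mul_nonneg hq2 haμ]
  have e2 : q ^ 2 * (a * δ) ≤ 2 * (Φ * P) := by
    have := mul_le_mul hΦ1 haδ (mul_nonneg ha hδ) hΦ0
    linarith
  have e3 : q ^ 2 * δ ^ 2 ≤ Φ * P := mul_le_mul hΦ1 hδ2 (sq_nonneg δ) hΦ0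
  have e4 : q ^ 2 * (2 * μ * δ) ≤ q ^ 2 * (a * δ) :=
    mul_le_mul_of_nonneg_left (mul_le_mul_of_nonneg_right hμa hδ) hq2
  have e5 : q ^ 2 * (2 * μ * μ) ≤ q ^ 2 * (a * μ) :=
    mul_le_mul_of_nonneg_left (mul_le_mul_of_nonneg_right hμa hμ) hq2
  have e6 : q * ν ≤ (K + 1) * Φ ^ 2 := by
    calc q * ν = q ^ 2 * η := by rw [hν]; ring
      _ ≤ q ^ 2 * ((K + 1) * (a * μ)) := mul_le_mul_of_nonneg_left hηa hq2
      _ = (K + 1) * (q ^ 2 * (a * μ)) := by ring
      _ ≤ _ := mul_le_mul_of_nonneg_left e1 (by positivity)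
  have hqν : 0 ≤ q * ν := mul_nonneg hq hν0
  have e7 : ν ^ 2 ≤ K * ((K + 1) * Φ ^ 2) := by
    calc ν ^ 2 = η * (q * ν) := by rw [hν]; ring
      _ ≤ _ := mul_le_mul hηK e6 hqν hK
  have e8 : a * (q * ν) ≤ (K + 2) * ((K + 1) * Φ ^ 2) := mul_le_mul haK e6 hqν (by positivity)
  have e9 : q * (q * ν) ≤ (K + 1) * Φ ^ 2 := by
    have := mul_le_mul_of_nonneg_right hq1 hqν
    linarith
  have e10 : 2 * δ * (q * ν) ≤ q ^ 2 * δ ^ 2 + ν ^ 2 := by linarith [sq_nonneg (q * δ - ν)]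
  have e11 : 2 * (q ^ 3 * μ) ≤ q ^ 4 + q ^ 2 * μ ^ 2 := by linarith [sq_nonneg (q ^ 2 - q * μ)]
  have e12 : 2 * (q ^ 3 * δ) ≤ q ^ 4 + q ^ 2 * δ ^ 2 := by linarith [sq_nonneg (q ^ 2 - q * δ)]
  have f1 : (s + q) * q * (q * i + ν) ≤ (a + 2 * δ + q) * q * (q * (μ + δ) + ν) := by
    have h1 : (s + q) * q ≤ (a + 2 * δ + q) * q := mul_le_mul_of_nonneg_right (by linarith) hq
    have h2 : q * i + ν ≤ q * (μ + δ) + ν := by linarith [mul_le_mul_of_nonneg_left hi hq]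
    exact mul_le_mul h1 h2 (by positivity) (by positivity)
  have f2 : (q * i) ^ 2 ≤ 2 * (q ^ 2 * μ ^ 2) + 2 * (q ^ 2 * δ ^ 2) := by
    have h1 : i ^ 2 ≤ (μ + δ) ^ 2 := pow_le_pow_left₀ hi0 hi 2
    have h2 : i ^ 2 ≤ 2 * μ ^ 2 + 2 * δ ^ 2 := by linarith [sq_nonneg (μ - δ)]
    have := mul_le_mul_of_nonneg_left h2 hq2
    linarith
  have f3 : (a + 2 * δ + q) * q * (q * (μ + δ) + ν) = q ^ 2 * (a * μ) + q ^ 2 * (a * δ) +
      q ^ 2 * (2 * μ * δ) + 2 * (q ^ 2 * δ ^ 2) + q ^ 3 * μ + q ^ 3 * δ + a * (q * ν) +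
      2 * δ * (q * ν) + q * (q * ν) := by ring
  have e5' : 2 * (q ^ 2 * μ ^ 2) ≤ Φ ^ 2 := by linarith
  have g1 : 0 ≤ Φ ^ 2 := sq_nonneg Φ
  have g2 : 0 ≤ Φ * P := mul_nonneg hΦ0 hP
  have g3 := mul_nonneg hK g1
  have g4 := mul_nonneg hK g2
  have g5 := mul_nonneg hK g3
  have g6 := mul_nonneg hK g4
  linarith

end Msc14

open Msc14 in
theorem mscApi : MscApi where
  eq := eq0
  im_pos := im_pos
  uniq := uniq
  factor := factor
  inv_eq := inv_eq
  al_eq := al_eq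
  al_sq := al_sq
  normSq := fun _ => normSq
  norm_le := norm_le
  le_norm := le_norm
  im_le_al := fun _ => im_le_al _
  le_im := le_im
  le_al_im := le_al_im
  inside := inside
  outside := fun hz hE _ => outside hz hE
  lip := lip
  lip' := lip'
  al_mono := al_mono
  dist := fun hz _ => Msc14.dist hz
  deriv := Msc14.deriv
  near := near

open Msc14 in
theorem phiStmt : PhiStmt := by
  intro K
  refine ⟨10 * (|K| + 2) ^ 2, by nlinarith [abs_nonneg K], ?_⟩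
  intro n z m hn hl hK hm
  have hN : (1 : ℝ) ≤ n := by exact_mod_cast hn
  have hN0 : (0 : ℝ) < n := by linarith
  have hz : 0 < z.im := lt_of_lt_of_le (by positivity) hl
  have hK' : ‖z‖ ≤ |K| := hK.trans (le_abs_self K)
  obtain ⟨δ, hδ, -, -, -, hδ2, haδ, hi, hs⟩ := Msc14.dist (m := m) hz
  have hq0 : 0 < qq n z := by unfold qq; positivity
  have hq1 : qq n z ≤ 1 := by
    unfold qq
    rw [div_le_iff₀ hN0] at hl
    rw [div_le_iff₀ (by positivity)]
    linarith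
  have hν : 1 / (n : ℝ) = qq n z * z.im := by
    unfold qq
    field_simp
  have hμ := im_pos hz
  have hprod : 0 ≤ al z * (msc z).im := mul_nonneg (al_nonneg z) hμ.le
  have haK : al z ≤ |K| + 2 := by
    unfold al
    refine (norm_add_le _ _).trans ?_
    rw [norm_mul, Complex.norm_ofNat]
    linarith [norm_le hz]
  have hηa : z.im ≤ (|K| + 1) * (al z * (msc z).im) := by
    have h1 := le_al_im hz
    rw [div_le_iff₀ (by positivity)] at h1
    nlinarith
  have hsq := Real.sqrt_nonneg (al z * (msc z).im)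
  have hΦ1 : qq n z ^ 2 ≤ Phi n z := by
    unfold Phi
    nlinarith [mul_nonneg hq0.le hsq]
  have hΦ2 : qq n z ^ 2 * (al z * (msc z).im) + qq n z ^ 4 ≤ Phi n z ^ 2 := by
    unfold Phi
    have h1 := Real.sq_sqrt hprod
    have h2 := mul_nonneg (mul_nonneg hq0.le hsq) (sq_nonneg (qq n z))
    nlinarith
  have key := phi_real (abs_nonneg K) (al_nonneg z) hμ.le hδ hq0.le hq1 hz.le
    ((Complex.im_le_norm z).trans hK') hν haK (by linarith [im_le_al z]) hηa hs hm hi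
    (norm_nonneg _) hδ2 haδ hΦ1 hΦ2
  unfold phi1
  rw [Real.sq_sqrt (by positivity), div_eq_mul_one_div (qq n z)]
  exact key

end Crest.Agent.T157.Ll
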