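import Crest.Agent.T157.LlDef_91

/-!
# Row 157, local law: deterministic bounds for `P = 1 + z m + m²` (helper23)
-/

set_option autoImplicit false

noncomputable section

namespace Crest.Agent.T157.LlP

open MeasureTheory Matrix Function Finset
open Crest.Agent.T157.Ll

variable {n : ℕ}

/-- resolvent entries -/
def G (A : Matrix (Fin n) (Fin n) ℝ) (z : ℂ) (k l : Fin n) : ℂ := gb A z (ee k) (ee l)

/-- entries of the squared resolvent -/
def S (A : Matrix (Fin n) (Fin n) ℝ) (z : ℂ) (k l : Fin n) : ℂ := ∑ m, G A z k m * G A z m l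

/-- first derivative of `m` -/
def dm (A : Matrix (Fin n) (Fin n) ℝ) (z : ℂ) (c : ℝ) (i j : Fin n) : ℂ := -(2 * c) * (S A z i j / n)

/-- second derivative of `m` -/
def d2m (A : Matrix (Fin n) (Fin n) ℝ) (z : ℂ) (c : ℝ) (i j : Fin n) : ℂ := 2 * c ^ 2 *
  (G A z i i * (S A z j j / n) + 2 * G A z i j * (S A z i j / n) + G A z j j * (S A z i i / n))

/-- the data of the moment lemma -/
def pD (E : Ens n) (z : ℂ) : MData E.ι where
  X x := PP (E.H x) z
  r x := st (E.H x) z ^ 2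
  f a x := 2 * E.c a / n * G (E.H x) z (E.i a) (E.j a)
  f1 a x := -(2 * E.c a ^ 2 / n) * (G (E.H x) z (E.i a) (E.i a) * G (E.H x) z (E.j a) (E.j a) +
    G (E.H x) z (E.i a) (E.j a) ^ 2)
  f2 a x := 4 * E.c a ^ 3 / n * (G (E.H x) z (E.i a) (E.j a) * (3 * (G (E.H x) z (E.i a) (E.i a) *
    G (E.H x) z (E.j a) (E.j a)) + G (E.H x) z (E.i a) (E.j a) ^ 2))
  X1 a x := (z + 2 * st (E.H x) z) * dm (E.H x) z (E.c a) (E.i a) (E.j a)
  X2 a x := (z + 2 * st (E.H x) z) * d2m (E.H x) z (E.c a) (E.i a) (E.j a) +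
    2 * dm (E.H x) z (E.c a) (E.i a) (E.j a) ^ 2

section det
variable (R : ResApi) {A : Matrix (Fin n) (Fin n) ℝ} {z : ℂ}
include R

theorem G_symm (hA : A.IsHermitian) (z : ℂ) (k l : Fin n) : G A z k l = G A z l k := R.symm hA _ _ _

theorem st_eq (A : Matrix (Fin n) (Fin n) ℝ) (z : ℂ) : st A z = (∑ k, G A z k k) / n := R.st_eq A z

theorem ward_le (hA : A.IsHermitian) (hz : 0 < z.im) {l : Fin n} {B : ℝ} (h : ‖G A z l l‖ ≤ B) :
    ∑ k, ‖G A z k l‖ ^ 2 ≤ B / z.im :=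
  (R.ward hA hz (ee l)).trans_le (div_le_div_of_nonneg_right
    (((le_abs_self _).trans (Complex.abs_im_le_norm _)).trans h) hz.le)

omit R in
theorem sum_mul_le {u v : Fin n → ℝ} {B : ℝ} (hu : ∑ k, u k ^ 2 ≤ B) (hv : ∑ k, v k ^ 2 ≤ B) :
    ∑ k, u k * v k ≤ B := by
  have : ∑ k, 2 * (u k * v k) ≤ ∑ k, (u k ^ 2 + v k ^ 2) :=
    sum_le_sum fun k _ => by nlinarith [sq_nonneg (u k - v k)]
  rw [← mul_sum, sum_add_distrib] at this
  linarith

theorem S_le (hA : A.IsHermitian) (hz : 0 < z.im) {k l : Fin n} {B : ℝ} (hk : ‖G A z k k‖ ≤ B)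
    (hl : ‖G A z l l‖ ≤ B) : ‖S A z k l / n‖ ≤ B * qq n z := by
  rw [norm_div, Complex.norm_natCast, qq, mul_one_div, mul_comm, ← div_div]
  refine div_le_div_of_nonneg_right ((norm_sum_le _ _).trans ?_) n.cast_nonneg
  simp only [norm_mul, G_symm R hA z k]
  exact sum_mul_le (ward_le R hA hz hk) (ward_le R hA hz hl)

theorem st_le {B : ℝ} (hn : 1 ≤ n) (h : ∀ k, ‖G A z k k‖ ≤ B) : ‖st A z‖ ≤ B := by
  rw [st_eq R, norm_div, Complex.norm_natCast, div_le_iff₀ (by exact_mod_cast hn)]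
  exact (norm_sum_le _ _).trans ((sum_le_card_nsmul _ _ B fun k _ => h k).trans_eq (by simp [mul_comm]))

theorem ward_sum (hA : A.IsHermitian) (hz : 0 < z.im) (hn : 1 ≤ n) :
    (∑ k, ∑ l, ‖G A z k l‖ ^ 2) / (n : ℝ) ^ 2 = qq n z * (st A z).im := by
  have n0 : (n : ℝ) ≠ 0 := by positivity
  rw [sum_comm, st_eq R, Complex.div_natCast_im, Complex.im_sum, qq]
  simp only [G, R.ward hA hz, ← sum_div]
  field_simp

section line
variable {τ Γ : ℝ} {i j : Fin n} (hA : A.IsHermitian) (hA' : (A + τ • Dl i j).IsHermitian)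
  (hz : 0 < z.im) (hG : ∀ k l, ‖G A z k l‖ ≤ Γ) (hτ : |τ| * Γ ≤ 1 / 8)
include hA hz hG

theorem diff_le (k l : Fin n) : ‖G (A + τ • Dl i j) z k l - G A z k l‖ ≤
    |τ| * Γ * (‖G (A + τ • Dl i j) z k i‖ + ‖G (A + τ • Dl i j) z k j‖) := by
  rw [G, R.pert hA hz, G, sub_sub_cancel_left, norm_neg, norm_mul, Complex.norm_real,
    Real.norm_eq_abs, mul_assoc, mul_add, mul_comm Γ, mul_comm Γ]
  refine mul_le_mul_of_nonneg_left ((norm_add_le _ _).trans ?_) (abs_nonneg _)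
  rw [norm_mul, norm_mul]
  exact add_le_add (mul_le_mul_of_nonneg_left (hG _ _) (norm_nonneg _))
    (mul_le_mul_of_nonneg_left (hG _ _) (norm_nonneg _))

include hτ

theorem N_le (k : Fin n) : ‖G (A + τ • Dl i j) z k i‖ + ‖G (A + τ • Dl i j) z k j‖ ≤ 3 * Γ := by
  have h1 := (norm_le_norm_add_norm_sub' _ _).trans (add_le_add (hG k i) (diff_le R hA hz hG k i
    (τ := τ) (i := i) (j := j)))
  have h2 := (norm_le_norm_add_norm_sub' _ _).trans (add_le_add (hG k j) (diff_le R hA hz hG k j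
    (τ := τ) (i := i) (j := j)))
  have h3 := mul_le_mul_of_nonneg_right hτ (add_nonneg (norm_nonneg (G (A + τ • Dl i j) z k i))
    (norm_nonneg (G (A + τ • Dl i j) z k j)))
  linarith [(norm_nonneg _).trans (hG k k)]

theorem Gi_le (k : Fin n) : ‖G (A + τ • Dl i j) z k i‖ ≤ 3 * Γ :=
  (le_add_of_nonneg_right (norm_nonneg _)).trans (N_le R hA hz hG hτ k)

theorem Gj_le (k : Fin n) : ‖G (A + τ • Dl i j) z k j‖ ≤ 3 * Γ :=
  (le_add_of_nonneg_left (norm_nonneg _)).trans (N_le R hA hz hG hτ k)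

theorem Gij_le : ‖G (A + τ • Dl i j) z i j‖ ≤ ‖G A z i j‖ + |τ| * Γ * (3 * Γ) :=
  (norm_le_norm_add_norm_sub' _ _).trans (add_le_add le_rfl ((diff_le R hA hz hG i j).trans
    (mul_le_mul_of_nonneg_left (N_le R hA hz hG hτ i)
      (mul_nonneg (abs_nonneg _) ((norm_nonneg _).trans (hG i j))))))

include hA'

theorem Sij_le : ‖S (A + τ • Dl i j) z i j / n‖ ≤ ‖S A z i j / n‖ + |τ| * Γ * (12 * Γ * qq n z) := by
  have Γ0 := (norm_nonneg _).trans (hG i j)
  refine (norm_le_norm_add_norm_sub' _ _).trans (add_le_add le_rfl ?_)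
  rw [← sub_div, norm_div, Complex.norm_natCast, qq, mul_one_div, mul_comm (n : ℝ), ← div_div,
    ← mul_div_assoc _ _ (n : ℝ), S, S, ← sum_sub_distrib]
  refine div_le_div_of_nonneg_right ((norm_sum_le _ _).trans ?_) n.cast_nonneg
  have w1 := ward_le R hA' hz (Gi_le R hA hz hG hτ i)
  have w2 := ward_le R hA' hz (Gj_le R hA hz hG hτ j)
  have w3 := ward_le R hA hz (l := i) (B := 3 * Γ) ((hG i i).trans (by linarith))
  refine (sum_le_sum (g := fun m => |τ| * Γ * (‖G (A + τ • Dl i j) z m i‖ * ‖G (A + τ • Dl i j) z m j‖ +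
    ‖G (A + τ • Dl i j) z m j‖ * ‖G (A + τ • Dl i j) z m j‖ + (‖G (A + τ • Dl i j) z m i‖ * ‖G A z m i‖ +
      ‖G (A + τ • Dl i j) z m j‖ * ‖G A z m i‖))) fun m _ => ?_).trans ?_
  · rw [G_symm R hA' z i m, G_symm R hA z i m, show ∀ a b c d : ℂ, a * b - c * d =
      (a - c) * b + (b - d) * c from fun a b c d => by ring]
    refine (norm_add_le _ _).trans ?_
    rw [norm_mul, norm_mul]
    exact (add_le_add (mul_le_mul_of_nonneg_right (diff_le R hA hz hG m i) (norm_nonneg _))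
      (mul_le_mul_of_nonneg_right (diff_le R hA hz hG m j) (norm_nonneg _))).trans_eq (by ring)
  · rw [← mul_sum, sum_add_distrib, sum_add_distrib, sum_add_distrib]
    refine mul_le_mul_of_nonneg_left ?_ (mul_nonneg (abs_nonneg _) Γ0)
    refine (add_le_add (add_le_add (sum_mul_le w1 w2) (sum_mul_le w2 w2))
      (add_le_add (sum_mul_le w1 w3) (sum_mul_le w2 w3))).trans_eq (by ring)

theorem st_diff : ‖st (A + τ • Dl i j) z - st A z‖ ≤ |τ| * (6 * Γ * qq n z) := by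
  have Γ0 := (norm_nonneg _).trans (hG i j)
  rw [st_eq R, st_eq R, ← sub_div, norm_div, Complex.norm_natCast, qq, mul_one_div, mul_comm (n : ℝ),
    ← div_div, ← mul_div_assoc _ _ (n : ℝ), ← sum_sub_distrib]
  refine div_le_div_of_nonneg_right ((norm_sum_le _ _).trans ?_) n.cast_nonneg
  have w1 := ward_le R hA' hz (Gi_le R hA hz hG hτ i)
  have w2 := ward_le R hA' hz (Gj_le R hA hz hG hτ j)
  have w3 := fun l => ward_le R hA hz (l := l) (B := 3 * Γ) ((hG l l).trans (by linarith))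
  refine (sum_le_sum (g := fun m => |τ| * (‖G (A + τ • Dl i j) z m i‖ * ‖G A z m j‖ +
      ‖G (A + τ • Dl i j) z m j‖ * ‖G A z m i‖)) fun m _ => ?_).trans ?_
  · rw [G_symm R hA z m j, G_symm R hA z m i, G, R.pert hA hz, G, sub_sub_cancel_left, norm_neg,
      norm_mul, Complex.norm_real, Real.norm_eq_abs]
    refine mul_le_mul_of_nonneg_left ((norm_add_le _ _).trans_eq ?_) (abs_nonneg _)
    rw [norm_mul, norm_mul]; rfl
  · rw [← mul_sum, sum_add_distrib]
    exact mul_le_mul_of_nonneg_left ((add_le_add (sum_mul_le w1 (w3 j))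
      (sum_mul_le w2 (w3 i))).trans_eq (by ring)) (abs_nonneg _)

end line

/-! ### derivatives -/

variable (E : Ens n) (x : E.ι → ℝ) (a : E.ι) (hz : 0 < z.im) (t : ℝ)
include hz

theorem dG (k l : Fin n) : HasDerivAt (fun s => G (E.H (update x a s)) z k l)
    (-(E.c a : ℂ) * (G (E.H (update x a t)) z k (E.i a) * G (E.H (update x a t)) z (E.j a) l +
      G (E.H (update x a t)) z k (E.j a) * G (E.H (update x a t)) z (E.i a) l)) t :=
  R.deriv E x a hz _ _ t

theorem dst : HasDerivAt (fun s => st (E.H (update x a s)) z)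
    (dm (E.H (update x a t)) z (E.c a) (E.i a) (E.j a)) t := by
  simp only [st_eq R]
  refine ((HasDerivAt.fun_sum fun k _ => dG R E x a hz t k k).div_const _).congr_deriv ?_
  rw [dm, S, ← mul_div_assoc, mul_sum]
  refine congrArg (· / _) (sum_congr rfl fun k _ => ?_)
  rw [G_symm R (R.herm E _) z k (E.i a), G_symm R (R.herm E _) z (E.j a) k]
  ring

theorem ddm : HasDerivAt (fun s => dm (E.H (update x a s)) z (E.c a) (E.i a) (E.j a))
    (d2m (E.H (update x a t)) z (E.c a) (E.i a) (E.j a)) t := by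
  refine (((HasDerivAt.fun_sum fun k _ => (dG R E x a hz t (E.i a) k).mul
    (dG R E x a hz t k (E.j a))).div_const _).const_mul _).congr_deriv ?_
  simp only [d2m, S, ← mul_div_assoc, ← add_div, mul_sum, ← sum_add_distrib]
  refine congrArg (· / _) (sum_congr rfl fun k _ => ?_)
  ring

omit hz in
theorem measG (z : ℂ) (k l : Fin n) : Measurable fun x => G (E.H x) z k l := R.meas E z _ _

theorem eq_X (hn : 1 ≤ n) : (pD E z).X x = ∑ a, (x a : ℂ) * (pD E z).f a x + (pD E z).r x := by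
  have n0 : (n : ℂ) ≠ 0 := by exact_mod_cast (by omega : n ≠ 0)
  have h := sum_congr rfl fun k (_ : k ∈ univ) => R.expand E x hz (ee k) (ee k)
  rw [sum_comm, sum_add_distrib, ← mul_sum] at h
  have e : ∀ a, ∑ k, (x a : ℂ) * ((E.c a : ℂ) * (ee k (E.i a) * gb (E.H x) z (ee (E.j a)) (ee k) +
      ee k (E.j a) * gb (E.H x) z (ee (E.i a)) (ee k))) = n * (x a * (pD E z).f a x) := fun a => by
    have := G_symm R (R.herm E x) z (E.j a) (E.i a)
    simp only [G] at this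
    simp only [← mul_sum, sum_add_distrib, ee, Pi.single_apply, apply_ite ((↑) : ℝ → ℂ), ite_mul,
      Complex.ofReal_one, Complex.ofReal_zero, one_mul, zero_mul, sum_ite_eq, mem_univ, if_true, pD, G]
    simp only [ee] at this
    rw [this]
    field_simp
    ring
  simp only [e, ← mul_sum] at h
  simp only [ee, single_dotProduct, Pi.single_eq_same, mul_one, Complex.ofReal_one, sum_const,
    card_univ, Fintype.card_fin, nsmul_eq_mul] at h
  refine congrArg (· + _) (mul_left_cancel₀ n0 ?_)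
  rw [← h, R.st_eq]
  simp only [ee]
  field_simp

theorem first_order (hn : 1 ≤ n) :
    ‖(pD E z).r x + ∑ a, (pD E z).f1 a x‖ ≤ 3 * (qq n z * (st (E.H x) z).im) := by
  have n0 : (n : ℂ) ≠ 0 := by exact_mod_cast (by omega : n ≠ 0)
  have h := R.covC E fun k l => G (E.H x) z k k * G (E.H x) z l l + G (E.H x) z k l ^ 2
  have e : (pD E z).r x + ∑ a, (pD E z).f1 a x = -(∑ k, ∑ l, G (E.H x) z k l ^ 2 +
      2 * ∑ k, E.d k * G (E.H x) z k k ^ 2) / n ^ 2 := by
    have e1 : ∑ a, (pD E z).f1 a x = -(∑ a, (E.c a : ℂ) ^ 2 * (G (E.H x) z (E.i a) (E.i a) *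
        G (E.H x) z (E.j a) (E.j a) + G (E.H x) z (E.i a) (E.j a) ^ 2 + (G (E.H x) z (E.j a) (E.j a) *
        G (E.H x) z (E.i a) (E.i a) + G (E.H x) z (E.j a) (E.i a) ^ 2))) / n := by
      rw [← sum_neg_distrib, sum_div]
      refine sum_congr rfl fun a _ => ?_
      rw [G_symm R (R.herm E x) z (E.j a) (E.i a), pD]
      ring
    rw [e1, h]
    simp only [pD, st_eq R, sum_add_distrib, ← mul_sum, ← sum_mul, ← sq, ← two_mul]
    simp only [mul_left_comm _ (2 : ℂ), ← mul_sum]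
    field_simp
    ring
  rw [e, ← ward_sum R (R.herm E x) hz hn, norm_div, norm_neg, norm_pow, Complex.norm_natCast,
    ← mul_div_assoc]
  refine div_le_div_of_nonneg_right ((norm_add_le _ _).trans ?_) (by positivity)
  have h1 : ‖∑ k, ∑ l, G (E.H x) z k l ^ 2‖ ≤ ∑ k, ∑ l, ‖G (E.H x) z k l‖ ^ 2 :=
    (norm_sum_le _ _).trans (sum_le_sum fun k _ => (norm_sum_le _ _).trans_eq (by simp))
  have h2 : ‖∑ k, E.d k * G (E.H x) z k k ^ 2‖ ≤ ∑ k, ∑ l, ‖G (E.H x) z k l‖ ^ 2 :=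
    (norm_sum_le _ _).trans (sum_le_sum fun k _ => by
      rw [norm_mul, norm_pow, Complex.norm_real]
      exact (mul_le_of_le_one_left (by positivity) (E.d_le k)).trans
        (single_le_sum (f := fun l => ‖G (E.H x) z k l‖ ^ 2) (fun _ _ => by positivity) (mem_univ k)))
  rw [norm_mul, Complex.norm_two]
  linarith

end det

/-! ### norms of the data in terms of entry bounds -/

section norms
variable (E : Ens n) (z : ℂ) (a : E.ι) (x : E.ι → ℝ) {B g s ζ : ℝ}

theorem nf (h : ‖G (E.H x) z (E.i a) (E.j a)‖ ≤ g) : ‖(pD E z).f a x‖ ≤ |E.c a| / n * (2 * g) := by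
  simp only [pD, norm_mul, norm_div, Complex.norm_natCast, Complex.norm_real, Complex.norm_two,
    Real.norm_eq_abs]
  exact (mul_le_mul_of_nonneg_left h (by positivity)).trans_eq (by ring)

theorem nf1 (h1 : ‖G (E.H x) z (E.i a) (E.i a)‖ ≤ B) (h2 : ‖G (E.H x) z (E.j a) (E.j a)‖ ≤ B)
    (h3 : ‖G (E.H x) z (E.i a) (E.j a)‖ ≤ B) : ‖(pD E z).f1 a x‖ ≤ |E.c a| ^ 2 / n * (4 * B ^ 2) := by
  have B0 := (norm_nonneg _).trans h1
  simp only [pD, norm_mul, norm_div, Complex.norm_natCast, Complex.norm_real, Complex.norm_two,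
    Real.norm_eq_abs, norm_neg, norm_pow]
  refine (mul_le_mul_of_nonneg_left ((norm_add_le _ _).trans (?_ : _ ≤ B * B + B ^ 2))
    (by positivity)).trans_eq (by ring)
  rw [norm_mul, norm_pow]
  gcongr

theorem nf2 (h1 : ‖G (E.H x) z (E.i a) (E.i a)‖ ≤ B) (h2 : ‖G (E.H x) z (E.j a) (E.j a)‖ ≤ B)
    (h3 : ‖G (E.H x) z (E.i a) (E.j a)‖ ≤ B) (h : ‖G (E.H x) z (E.i a) (E.j a)‖ ≤ g) :
    ‖(pD E z).f2 a x‖ ≤ |E.c a| ^ 3 / n * (16 * B ^ 2 * g) := by
  have B0 := (norm_nonneg _).trans h1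
  have g0 := (norm_nonneg _).trans h
  simp only [pD, norm_mul, norm_div, Complex.norm_natCast, Complex.norm_real, Complex.norm_ofNat,
    Real.norm_eq_abs, norm_pow]
  refine (mul_le_mul_of_nonneg_left (mul_le_mul h ((norm_add_le _ _).trans
    (?_ : _ ≤ 3 * (B * B) + B ^ 2)) (norm_nonneg _) g0) (by positivity)).trans_eq (by ring)
  rw [norm_mul, norm_mul, norm_pow, Complex.norm_ofNat]
  gcongr

theorem ndm (h : ‖S (E.H x) z (E.i a) (E.j a) / n‖ ≤ s) :
    ‖dm (E.H x) z (E.c a) (E.i a) (E.j a)‖ ≤ |E.c a| * (2 * s) := by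
  simp only [dm, norm_mul, Complex.norm_real, Complex.norm_two, Real.norm_eq_abs, norm_neg]
  exact (mul_le_mul_of_nonneg_left h (by positivity)).trans_eq (by ring)

theorem nX1 (hζ : ‖z + 2 * st (E.H x) z‖ ≤ ζ) (h : ‖S (E.H x) z (E.i a) (E.j a) / n‖ ≤ s) :
    ‖(pD E z).X1 a x‖ ≤ |E.c a| * (2 * ζ * s) := by
  simp only [pD, norm_mul]
  exact (mul_le_mul hζ (ndm E z a x h) (norm_nonneg _) ((norm_nonneg _).trans hζ)).trans_eq (by ring)

theorem nX2 (hζ : ‖z + 2 * st (E.H x) z‖ ≤ ζ) (h1 : ‖G (E.H x) z (E.i a) (E.i a)‖ ≤ B)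
    (h2 : ‖G (E.H x) z (E.j a) (E.j a)‖ ≤ B) (h3 : ‖G (E.H x) z (E.i a) (E.j a)‖ ≤ B)
    (s1 : ‖S (E.H x) z (E.i a) (E.i a) / n‖ ≤ s) (s2 : ‖S (E.H x) z (E.j a) (E.j a) / n‖ ≤ s)
    (s3 : ‖S (E.H x) z (E.i a) (E.j a) / n‖ ≤ s) :
    ‖(pD E z).X2 a x‖ ≤ |E.c a| ^ 2 * (8 * ζ * B * s + 8 * s ^ 2) := by
  have B0 := (norm_nonneg _).trans h1
  have s0 := (norm_nonneg _).trans s1
  have ζ0 := (norm_nonneg _).trans hζ
  have h4 : ‖d2m (E.H x) z (E.c a) (E.i a) (E.j a)‖ ≤ 2 * |E.c a| ^ 2 * (B * s + 2 * B * s + B * s) := by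
    simp only [d2m, norm_mul, Complex.norm_real, Complex.norm_two, Real.norm_eq_abs, norm_pow]
    refine mul_le_mul_of_nonneg_left (norm_add₃_le.trans ?_) (by positivity)
    simp only [norm_mul, Complex.norm_two]
    gcongr
  refine (norm_add_le _ _).trans ?_
  rw [norm_mul, norm_mul, norm_pow, Complex.norm_two]
  refine (add_le_add (mul_le_mul hζ h4 (norm_nonneg _) ζ0) (mul_le_mul_of_nonneg_left
    (pow_le_pow_left₀ (norm_nonneg _) (ndm E z a x s3) 2) two_pos.le)).trans_eq (by ring)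

theorem abs_c_le : |E.c a| ≤ √(1 / n) := Real.abs_le_sqrt (E.c_sq a)

end norms

theorem ok (R : ResApi) (E : Ens n) {z : ℂ} (hn : 1 ≤ n) (h1 : 1 / (n : ℝ) ≤ z.im) (h2 : ‖z‖ ≤ n) :
    (pD E z).Ok (4752 * (n : ℝ) ^ 7) := by
  have n1 : (1 : ℝ) ≤ n := by exact_mod_cast hn
  have hz : 0 < z.im := lt_of_lt_of_le (by positivity) h1
  have hG : ∀ x k l, ‖G (E.H x) z k l‖ ≤ n := fun x k l =>
    (R.bound (R.herm E x) hz _ _ (by simp [ee]) (by simp [ee])).trans
      ((one_div_le hz (by positivity)).2 h1)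
  have q1 : qq n z ≤ 1 := by
    rw [qq, div_le_one (by positivity)]; rwa [div_le_iff₀' (by positivity)] at h1
  have hS : ∀ x k l, ‖S (E.H x) z k l / n‖ ≤ n := fun x k l =>
    (S_le R (R.herm E x) hz (hG x k k) (hG x l l)).trans (mul_le_of_le_one_right (by positivity) q1)
  have hm := fun x => st_le R hn fun k => hG x k k
  have hζ : ∀ x, ‖z + 2 * st (E.H x) z‖ ≤ 3 * n := fun x => (norm_add_le _ _).trans (by
    rw [norm_mul, Complex.norm_two]; linarith [hm x])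
  have hc : ∀ a, |E.c a| ≤ 1 := fun a => (abs_c_le E a).trans
    (Real.sqrt_le_one.2 ((div_le_one (by positivity)).2 n1))
  have hc' : ∀ a (k : ℕ), |E.c a| ^ k / n ≤ 1 := fun a k =>
    (div_le_one (by positivity)).2 ((pow_le_one₀ (abs_nonneg _) (hc a)).trans n1)
  have p : ∀ k ≤ 7, (n : ℝ) ^ k ≤ n ^ 7 := fun k hk => pow_le_pow_right₀ n1 hk
  have mG := measG R E z
  have ms : Measurable fun x => st (E.H x) z := by simp only [st_eq R]; fun_prop
  have sy := fun x => G_symm R (R.herm E x) z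
  refine ⟨fun x => eq_X R E x hz hn, by simp only [pD, PP]; fun_prop, by simp only [pD]; fun_prop,
    fun a => by simp only [pD]; fun_prop, fun a => by simp only [pD]; fun_prop,
    fun a => by simp only [pD, dm, S]; fun_prop, fun a x t => ?_, fun a x t => ?_, fun a x t => ?_,
    fun a x t => ?_, fun x => ?_, fun x => ?_, fun a x => ?_, fun a x => ?_, fun a x => ?_,
    fun a x => ?_, fun a x => ?_⟩
  · exact ((dG R E x a hz t _ _).const_mul _).congr_deriv (by simp only [pD]; ring)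
  · refine ((((dG R E x a hz t _ _).mul (dG R E x a hz t _ _)).add
      ((dG R E x a hz t _ _).pow 2)).const_mul _).congr_deriv ?_
    simp only [pD, sy _ (E.j a) (E.i a)]
    push_cast
    ring
  · refine ((((dst R E x a hz t).const_mul z).const_add 1).add ((dst R E x a hz t).pow 2)).congr_deriv ?_
    simp only [pD]
    push_cast
    ring
  · exact ((((dst R E x a hz t).const_mul 2).const_add z).mul (ddm R E x a hz t)).congr_deriv
      (by simp only [pD]; ring)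
  · refine norm_add₃_le.trans ?_
    rw [norm_mul, norm_pow, norm_one]
    nlinarith [mul_le_mul h2 (hm x) (norm_nonneg _) n.cast_nonneg, p 2 (by norm_num),
      pow_le_pow_left₀ (norm_nonneg _) (hm x) 2]
  · simp only [pD, norm_pow]
    nlinarith [p 2 (by norm_num), pow_le_pow_left₀ (norm_nonneg _) (hm x) 2]
  · refine (nf E z a x (hG x _ _)).trans ((mul_le_of_le_one_left (by positivity)
      (by simpa using hc' a 1)).trans ?_)
    nlinarith [p 1 (by norm_num)]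
  · refine (nf1 E z a x (hG x _ _) (hG x _ _) (hG x _ _)).trans ((mul_le_of_le_one_left
      (by positivity) (hc' a 2)).trans ?_)
    nlinarith [p 2 (by norm_num)]
  · refine (nf2 E z a x (hG x _ _) (hG x _ _) (hG x _ _) (hG x _ _)).trans ((mul_le_of_le_one_left
      (by positivity) (hc' a 3)).trans ?_)
    nlinarith [p 3 (by norm_num)]
  · refine (nX1 E z a x (hζ x) (hS x _ _)).trans ((mul_le_of_le_one_left (by positivity) (hc a)).trans ?_)
    nlinarith [p 2 (by norm_num)]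
  · refine (nX2 E z a x (hζ x) (hG x _ _) (hG x _ _) (hG x _ _) (hS x _ _) (hS x _ _) (hS x _ _)).trans
      ((mul_le_of_le_one_left (by positivity) (pow_le_one₀ (abs_nonneg _) (hc a))).trans ?_)
    nlinarith [p 2 (by norm_num), p 3 (by norm_num)]

/-! ### the pointwise conditions -/

/-- the normalised double sum -/
def av (F : Fin n → Fin n → ℝ) : ℝ := (∑ k, ∑ l, F k l) / (n : ℝ) ^ 2

theorem av_nonneg {F : Fin n → Fin n → ℝ} (h : ∀ k l, 0 ≤ F k l) : 0 ≤ av F :=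
  div_nonneg (sum_nonneg fun k _ => sum_nonneg fun l _ => h k l) (sq_nonneg _)

theorem av_mono {F F' : Fin n → Fin n → ℝ} (h : ∀ k l, F k l ≤ F' k l) : av F ≤ av F' :=
  div_le_div_of_nonneg_right (sum_le_sum fun k _ => sum_le_sum fun l _ => h k l) (sq_nonneg _)

theorem av_const_mul (c : ℝ) (F : Fin n → Fin n → ℝ) : av (fun k l => c * F k l) = c * av F := by
  simp only [av, ← mul_sum, mul_div_assoc]

theorem av_add_const (hn : 1 ≤ n) (c : ℝ) (F : Fin n → Fin n → ℝ) :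
    av (fun k l => F k l + c) = av F + c := by
  have : (n : ℝ) ≠ 0 := by positivity
  simp only [av, sum_add_distrib, sum_const, card_univ, Fintype.card_fin, nsmul_eq_mul]
  field_simp

theorem av_mul_sq (F F' : Fin n → Fin n → ℝ) :
    av (fun k l => F k l * F' k l) ^ 2 ≤ av (fun k l => F k l ^ 2) * av fun k l => F' k l ^ 2 := by
  simp only [av, ← Fintype.sum_prod_type', div_pow, div_mul_div_comm, ← sq]
  exact div_le_div_of_nonneg_right (sum_mul_sq_le_sq_mul_sq _ _ _) (sq_nonneg _)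

theorem av_sq (hn : 1 ≤ n) (F : Fin n → Fin n → ℝ) : av F ^ 2 ≤ av fun k l => F k l ^ 2 := by
  have h := av_add_const hn 1 fun _ _ => 0
  have := av_mul_sq F fun _ _ => 1
  simp only [zero_add, mul_one, one_pow] at h this
  rwa [h, show av (fun _ _ : Fin n => (0 : ℝ)) = 0 by simp [av], zero_add, mul_one] at this

theorem av_add_sq (hn : 1 ≤ n) (c : ℝ) (F : Fin n → Fin n → ℝ) :
    av (fun k l => (F k l + c) ^ 2) ≤ 2 * (av (fun k l => F k l ^ 2) + c ^ 2) := by
  rw [← av_add_const hn, ← av_const_mul]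
  exact av_mono fun k l => by nlinarith [sq_nonneg (F k l - c)]

theorem sum2 (R : ResApi) (E : Ens n) {F : Fin n → Fin n → ℝ} (h : ∀ k l, 0 ≤ F k l) :
    ∑ a, |E.c a| ^ 2 / n * F (E.i a) (E.j a) ≤ 2 * av F := by
  simp only [sq_abs, div_mul_eq_mul_div, ← sum_div]
  rw [av, sq (n : ℝ), ← div_div, ← mul_div_assoc, ← mul_div_assoc]
  refine div_le_div_of_nonneg_right (le_trans (sum_le_sum fun a _ => ?_) (R.cov_le E F h)) n.cast_nonneg
  exact mul_le_mul_of_nonneg_left (le_add_of_nonneg_right (h _ _)) (sq_nonneg _)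

theorem sum3 (R : ResApi) (E : Ens n) {F : Fin n → Fin n → ℝ} (h : ∀ k l, 0 ≤ F k l) {x : E.ι → ℝ}
    {W : ℝ} (hW : 1 ≤ W) (hx : ∀ a, |x a| ≤ W) :
    ∑ a, wt (x a) * (|E.c a| ^ 3 / n * F (E.i a) (E.j a)) ≤ 4 * W ^ 3 * (√(1 / n) * av F) := by
  refine (sum_le_sum (g := fun a => 2 * W ^ 3 * √(1 / n) * (|E.c a| ^ 2 / n * F (E.i a) (E.j a)))
    fun a _ => ?_).trans ?_
  · have h1 : wt (x a) ≤ 2 * W ^ 3 := by
      have := pow_le_pow_left₀ (abs_nonneg _) (hx a) 3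
      have := le_self_pow₀ hW three_ne_zero
      rw [wt]; linarith [hx a]
    have := h (E.i a) (E.j a)
    rw [mul_assoc (2 * W ^ 3), pow_succ' _ 2, mul_div_assoc, mul_assoc |E.c a|]
    gcongr
    exact abs_c_le E a
  · rw [← mul_sum]
    exact (mul_le_mul_of_nonneg_left (sum2 R E h) (by positivity)).trans_eq (by ring)

set_option maxHeartbeats 400000 in
theorem cond1 (R : ResApi) (E : Ens n) {z : ℂ} (hn : 1 ≤ n) (h1 : 1 / (n : ℝ) ≤ z.im) (x : E.ι → ℝ)
    {W Γ : ℝ} (hW : 1 ≤ W) (hΓ : 1 ≤ Γ) (hzΓ : ‖z‖ ≤ Γ) (hx : ∀ a, |x a| ≤ W)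
    (hWΓ : 8 * W * Γ ≤ √(n : ℝ)) (hG : ∀ k l, ‖G (E.H x) z k l‖ ≤ Γ) :
    (pD E z).Cond1 (4752 * (W * Γ) ^ 7 * phi1 n z (st (E.H x) z)) x := by
  have n1 : (1 : ℝ) ≤ n := by exact_mod_cast hn
  have hz : 0 < z.im := lt_of_lt_of_le (by positivity) h1
  have hA := R.herm E x
  obtain ⟨φ, hφ⟩ : ∃ φ, φ = phi1 n z (st (E.H x) z) := ⟨_, rfl⟩
  obtain ⟨q, hq⟩ : ∃ q, q = qq n z := ⟨_, rfl⟩
  obtain ⟨ν, hν⟩ : ∃ ν, ν = √(1 / n : ℝ) := ⟨_, rfl⟩
  obtain ⟨ζ, hζ⟩ : ∃ ζ, ζ = ‖z + 2 * st (E.H x) z‖ + q := ⟨_, rfl⟩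
  obtain ⟨t2, ht2⟩ : ∃ t, t = q * (st (E.H x) z).im := ⟨_, rfl⟩
  obtain ⟨P, hP⟩ : ∃ P, P = W * Γ := ⟨_, rfl⟩
  rw [← hφ, ← hP]
  have q0 : 0 < q := by rw [hq, qq]; positivity
  have q1 : q ≤ 1 := by
    rw [hq, qq, div_le_one (by positivity)]; rwa [div_le_iff₀' (by positivity)] at h1
  have ν0 : 0 < ν := by rw [hν]; positivity
  have ν2 : ν ^ 2 = 1 / n := hν ▸ Real.sq_sqrt (by positivity)
  have ν1 : ν ≤ 1 := hν ▸ Real.sqrt_le_one.2 ((div_le_one (by positivity)).2 n1)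
  have hm := st_le R hn fun k => hG k k
  have ζq : q ≤ ζ := hζ ▸ le_add_of_nonneg_left (norm_nonneg _)
  have ζ0 := q0.le.trans ζq
  have ζ4 : ζ ≤ 4 * Γ := by
    have := norm_add_le z (2 * st (E.H x) z)
    rw [norm_mul, Complex.norm_two] at this
    linarith
  have g2 : av (fun k l => ‖G (E.H x) z k l‖ ^ 2) = t2 := by
    rw [ht2, hq]; exact ward_sum R hA hz hn
  have t0 : 0 ≤ t2 := g2 ▸ av_nonneg fun _ _ => sq_nonneg _
  have θ2 : t2 + ν ^ 2 ≤ 2 * (q * Γ) := by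
    have h2 : t2 ≤ q * Γ := ht2 ▸ mul_le_mul_of_nonneg_left
      (((le_abs_self _).trans (Complex.abs_im_le_norm _)).trans hm) q0.le
    have h3 : ν ^ 2 = q * z.im := by rw [ν2, hq, qq]; field_simp
    have h4 := mul_le_mul_of_nonneg_left
      (((le_abs_self _).trans (Complex.abs_im_le_norm z)).trans hzΓ) q0.le
    linarith
  have φ0 : 0 ≤ φ := hφ ▸ Real.sqrt_nonneg _
  have φ2 : φ ^ 2 = ζ * q * (t2 + ν ^ 2) + t2 ^ 2 + q * ν ^ 2 := by
    rw [ν2, mul_one_div, hφ, phi1, ← hq, ← hζ, ← ht2]; exact Real.sq_sqrt (by positivity)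
  have φA : ζ * q * (t2 + ν ^ 2) ≤ φ ^ 2 := by
    linarith [mul_nonneg q0.le (sq_nonneg ν), sq_nonneg t2]
  have φκ : q * ν ^ 2 ≤ φ ^ 2 := by
    linarith [show 0 ≤ ζ * q * (t2 + ν ^ 2) by positivity, sq_nonneg t2]
  have φt : t2 ≤ φ := (abs_le_of_sq_le_sq' (by
    rw [φ2]; linarith [show 0 ≤ ζ * q * (t2 + ν ^ 2) by positivity, mul_nonneg q0.le (sq_nonneg ν)]) φ0).2
  have φν : ν * q ≤ φ := (abs_le_of_sq_le_sq' (by
    linarith [mul_le_mul_of_nonneg_left q1 (mul_nonneg q0.le (sq_nonneg ν))]) φ0).2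
  have P1 : 1 ≤ P := hP ▸ one_le_mul_of_one_le_of_one_le hW hΓ
  have ΓP : Γ ≤ P := hP ▸ le_mul_of_one_le_left (by linarith) hW
  have WP : W ^ 3 * Γ ^ 2 ≤ P ^ 3 := by
    rw [hP, mul_pow]; exact mul_le_mul_of_nonneg_left (pow_le_pow_right₀ hΓ (by norm_num)) (by positivity)
  have WP1 : W ^ 3 * Γ ≤ P ^ 3 :=
    (mul_le_mul_of_nonneg_left (le_self_pow₀ hΓ two_ne_zero) (by positivity)).trans WP
  obtain ⟨g, hg⟩ : ∃ g : Fin n → Fin n → ℝ, ∀ k l, g k l = ‖G (E.H x) z k l‖ + ν := ⟨_, fun _ _ => rfl⟩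
  obtain ⟨h, hh⟩ : ∃ h : Fin n → Fin n → ℝ, ∀ k l, h k l = ‖S (E.H x) z k l / n‖ + q * ν :=
    ⟨_, fun _ _ => rfl⟩
  have g0 : ∀ k l, 0 ≤ g k l := fun k l => by rw [hg]; positivity
  have h0 : ∀ k l, 0 ≤ h k l := fun k l => by rw [hh]; positivity
  have hg2 : av (fun k l => g k l ^ 2) ≤ 2 * (t2 + ν ^ 2) := by
    simp only [hg, ← g2]; exact av_add_sq hn ν _
  have hh2 : av (fun k l => h k l ^ 2) ≤ 2 * (q ^ 2 * (t2 + ν ^ 2)) := by
    simp only [hh]
    refine (av_add_sq hn _ _).trans ?_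
    rw [mul_add (q ^ 2), mul_pow]
    gcongr
    simp only [av, norm_div, div_pow, ← sum_div, Complex.norm_natCast]
    refine (div_le_div_of_nonneg_right (div_le_div_of_nonneg_right (R.ward2 hA hz) (sq_nonneg _))
      (sq_nonneg _)).trans_eq ?_
    rw [ht2, hq, qq]
    field_simp
  have hle : ∀ k l, h k l ≤ 2 * Γ * q := fun k l => by
    have := hq ▸ S_le R hA hz (hG k k) (hG l l)
    simp only [hh]
    linarith [mul_le_mul_of_nonneg_left (ν1.trans hΓ) q0.le]
  have mgh : ζ * av (fun k l => g k l * h k l) ≤ 2 * φ ^ 2 := by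
    have : av (fun k l => g k l * h k l) ≤ 2 * (q * (t2 + ν ^ 2)) := (abs_le_of_sq_le_sq'
      ((av_mul_sq g h).trans ((mul_le_mul hg2 hh2 (av_nonneg fun _ _ => sq_nonneg _)
        (by positivity)).trans_eq (by ring))) (by positivity)).2
    linarith [mul_le_mul_of_nonneg_left this ζ0]
  have mg : ν * av g ≤ 2 * Γ * φ := by
    refine (abs_le_of_sq_le_sq' ?_ (by positivity)).2
    have := mul_le_mul_of_nonneg_left (((av_sq hn g).trans hg2).trans
      (mul_le_mul_of_nonneg_left θ2 two_pos.le)) (sq_nonneg ν)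
    linarith [mul_le_mul φκ (le_self_pow₀ hΓ two_ne_zero) (by linarith) (sq_nonneg φ)]
  have key : ∀ y : ℝ, y ^ 2 ≤ 2 * (q ^ 2 * (t2 + ν ^ 2)) → ζ * (ν * y) ≤ 3 * Γ * φ ^ 2 := fun y hy => by
    refine (abs_le_of_sq_le_sq' ?_ (by positivity)).2
    have h2 := mul_le_mul_of_nonneg_left hy (show 0 ≤ ζ ^ 2 * ν ^ 2 by positivity)
    have h3 := mul_le_mul (mul_le_mul φA φκ (by positivity) (sq_nonneg _))
      (ζ4.trans (mul_le_mul_of_nonneg_left (le_self_pow₀ hΓ two_ne_zero) (by norm_num))) ζ0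
      (by positivity)
    linarith [show 0 ≤ Γ ^ 2 * φ ^ 4 by positivity]
  have mh := key (av h) ((av_sq hn h).trans hh2)
  have mg' := key (q * av g) (by
    rw [mul_pow]
    exact (mul_le_mul_of_nonneg_left ((av_sq hn g).trans hg2) (sq_nonneg q)).trans_eq (by ring))
  obtain ⟨L, hL⟩ : ∃ L, L = 432 * P ^ 4 := ⟨_, rfl⟩
  have L00 : 0 ≤ L := by rw [hL]; positivity
  have L0 : 1 ≤ P ^ 4 := one_le_pow₀ P1
  have L1 : P * Γ ≤ P ^ 4 := by
    linarith [mul_le_mul_of_nonneg_left ΓP (zero_le_one.trans P1),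
      pow_le_pow_right₀ P1 (show 2 ≤ 4 by norm_num)]
  have L2 : Γ ^ 2 ≤ P ^ 4 := (pow_le_pow_left₀ (by linarith) ΓP 2).trans (pow_le_pow_right₀ P1 (by norm_num))
  have L3 : Γ ^ 2 * (P * Γ) ≤ P ^ 4 := by
    linarith [mul_le_mul_of_nonneg_left (pow_le_pow_left₀ (by linarith) ΓP 3) (zero_le_one.trans P1)]
  have eφ : 4752 * P ^ 7 * φ = 11 * P ^ 3 * (L * φ) := by rw [hL]; ring
  have P3 : 1 ≤ P ^ 3 := one_le_pow₀ P1
  have Lφ : 432 * P ^ 2 * φ ≤ L * φ := by rw [hL]; gcongr; norm_num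
  have Lφ0 : 0 ≤ L * φ := by positivity
  have line : ∀ a, ∀ t ∈ Set.uIcc 0 (x a),
      ‖(pD E z).f a (update x a t)‖ ≤ |E.c a| / n * (L * g (E.i a) (E.j a)) ∧
      ‖(pD E z).f1 a (update x a t)‖ ≤ |E.c a| ^ 2 / n * L ∧
      ‖(pD E z).f2 a (update x a t)‖ ≤ |E.c a| ^ 3 / n * (L * g (E.i a) (E.j a)) ∧
      ‖(pD E z).X1 a (update x a t)‖ ≤ |E.c a| * (L * ζ * h (E.i a) (E.j a)) ∧
      ‖(pD E z).X2 a (update x a t)‖ ≤ |E.c a| ^ 2 * (L * ζ * q) ∧
      ‖(pD E z).X (update x a t) - (pD E z).X x‖ ≤ 4752 * P ^ 7 * φ := fun a t ht => by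
    have hA' := R.herm E (update x a t)
    have e := R.upd E x a t
    have τ1 : |(t - x a) * E.c a| * Γ ≤ P * ν := by
      rw [abs_mul, hP, mul_right_comm W, hν]
      have := (Set.abs_sub_right_of_mem_uIcc ht).trans_eq (congrArg _ (sub_zero _))
      rw [abs_sub_comm] at this
      gcongr
      exacts [this.trans (hx a), abs_c_le E a]
    have τ2 : P * ν ≤ 1 / 8 := by
      rw [hν, Real.sqrt_div' _ n.cast_nonneg, Real.sqrt_one, mul_one_div, div_le_iff₀ (by positivity)]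
      linarith
    have hτ := τ1.trans τ2
    have b1 := e ▸ Gi_le R hA hz hG hτ (i := E.i a) (j := E.j a) (E.i a)
    have b2 := e ▸ Gj_le R hA hz hG hτ (i := E.i a) (j := E.j a) (E.j a)
    have b3 := e ▸ Gj_le R hA hz hG hτ (i := E.i a) (j := E.j a) (E.i a)
    have PΓ : 1 ≤ P * Γ := one_le_mul_of_one_le_of_one_le P1 hΓ
    have b4 : ‖G (E.H (update x a t)) z (E.i a) (E.j a)‖ ≤ 3 * (P * Γ) * g (E.i a) (E.j a) := by
      have := e ▸ Gij_le R hA hz hG hτ (i := E.i a) (j := E.j a)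
      simp only [hg]
      linarith [mul_le_mul_of_nonneg_right τ1 (show 0 ≤ 3 * Γ by positivity),
        mul_le_mul_of_nonneg_right PΓ (norm_nonneg (G (E.H x) z (E.i a) (E.j a))),
        norm_nonneg (G (E.H x) z (E.i a) (E.j a))]
    have b5 : ‖S (E.H (update x a t)) z (E.i a) (E.j a) / n‖ ≤ 12 * (P * Γ) * h (E.i a) (E.j a) := by
      have := hq ▸ e ▸ Sij_le R hA (e ▸ hA') hz hG hτ (i := E.i a) (j := E.j a)
      simp only [hh]
      linarith [mul_le_mul_of_nonneg_right τ1 (show 0 ≤ 12 * Γ * q by positivity),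
        mul_le_mul_of_nonneg_right PΓ (norm_nonneg (S (E.H x) z (E.i a) (E.j a) / n)),
        norm_nonneg (S (E.H x) z (E.i a) (E.j a) / n)]
    have b6 : ‖st (E.H (update x a t)) z - st (E.H x) z‖ ≤ 6 * (P * ν) * q := by
      have := hq ▸ e ▸ st_diff R hA (e ▸ hA') hz hG hτ (i := E.i a) (j := E.j a)
      linarith [mul_le_mul_of_nonneg_right τ1 (show 0 ≤ 6 * q by positivity)]
    have b7 : ‖st (E.H (update x a t)) z - st (E.H x) z‖ ≤ q := by
      linarith [mul_le_mul_of_nonneg_right τ2 q0.le]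
    have b8 : ‖z + 2 * st (E.H (update x a t)) z‖ ≤ 2 * ζ := by
      have := norm_add_le (z + 2 * st (E.H x) z) (2 * (st (E.H (update x a t)) z - st (E.H x) z))
      rw [norm_mul, Complex.norm_two, show z + 2 * st (E.H x) z + 2 * (st (E.H (update x a t)) z -
        st (E.H x) z) = z + 2 * st (E.H (update x a t)) z by ring] at this
      linarith [norm_nonneg (z + 2 * st (E.H x) z)]
    have g1 := g0 (E.i a) (E.j a)
    have h1 := h0 (E.i a) (E.j a)
    subst hL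
    refine ⟨(nf E z a _ b4).trans (mul_le_mul_of_nonneg_left ?_ (by positivity)),
      (nf1 E z a _ b1 b2 b3).trans (mul_le_mul_of_nonneg_left ?_ (by positivity)),
      (nf2 E z a _ b1 b2 b3 b4).trans (mul_le_mul_of_nonneg_left ?_ (by positivity)),
      (nX1 E z a _ b8 b5).trans (mul_le_mul_of_nonneg_left ?_ (by positivity)),
      (nX2 E z a _ b8 b1 b2 b3 (hq ▸ S_le R hA' hz b1 b1) (hq ▸ S_le R hA' hz b2 b2)
        (hq ▸ S_le R hA' hz b1 b2)).trans (mul_le_mul_of_nonneg_left ?_ (by positivity)), ?_⟩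
    · linarith [mul_le_mul_of_nonneg_right L1 g1, mul_nonneg (zero_le_one.trans L0) g1]
    · linarith
    · linarith [mul_le_mul_of_nonneg_right L3 g1]
    · linarith [mul_le_mul_of_nonneg_right L1 (mul_nonneg ζ0 h1),
        mul_nonneg (zero_le_one.trans L0) (mul_nonneg ζ0 h1)]
    · linarith [mul_le_mul_of_nonneg_right L2 (mul_nonneg ζ0 q0.le),
        mul_nonneg (zero_le_one.trans L0) (mul_nonneg ζ0 q0.le),
        mul_le_mul_of_nonneg_left ζq (show 0 ≤ Γ ^ 2 * q by positivity)]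
    · have e2 : (pD E z).X (update x a t) - (pD E z).X x = (st (E.H (update x a t)) z - st (E.H x) z) *
          (z + 2 * st (E.H x) z + (st (E.H (update x a t)) z - st (E.H x) z)) := by
        simp only [pD, PP]; ring
      rw [e2, norm_mul, eφ]
      refine (mul_le_mul b6 (((norm_add_le _ _).trans (add_le_add le_rfl b7)).trans (hζ.ge.trans <| ζ4.trans
        (mul_le_mul_of_nonneg_left ΓP (by norm_num)))) (norm_nonneg _) (by positivity)).trans ?_
      linarith [mul_le_mul_of_nonneg_left φν (sq_nonneg P), mul_le_mul_of_nonneg_right P3 Lφ0,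
        mul_nonneg (sq_nonneg P) φ0]
  refine ⟨_, _, _, _, _, line, ?_, ?_, ?_⟩
  · have h2 := first_order R E x hz hn
    rw [← hq, ← ht2] at h2
    have h3 := sum3 R E (F := fun k l => L * g k l) (fun k l => by have := g0 k l; positivity) hW hx
    rw [av_const_mul, ← hν] at h3
    rw [eφ]
    linarith [mul_le_mul_of_nonneg_left mg (show 0 ≤ W ^ 3 * L by positivity),
      mul_le_mul_of_nonneg_right WP1 Lφ0, mul_le_mul_of_nonneg_right P3 Lφ0,
      mul_le_mul_of_nonneg_right (one_le_pow₀ (n := 2) P1) φ0]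
  · have h2 : ∑ a, ‖(pD E z).f a x‖ * ‖(pD E z).X1 a x‖ ≤ 4 * (L * φ) ^ 2 := by
      have h3 := sum2 R E (F := fun k l => L ^ 2 * ζ * (g k l * h k l)) fun k l => by
        have := g0 k l; have := h0 k l; positivity
      rw [av_const_mul] at h3
      refine (sum_le_sum fun a _ => ?_).trans (h3.trans (by
        linarith [mul_le_mul_of_nonneg_left mgh (sq_nonneg L)]))
      have := line a (x a) Set.right_mem_uIcc
      rw [update_eq_self] at this
      exact (mul_le_mul this.1 this.2.2.2.1 (norm_nonneg _)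
        ((norm_nonneg _).trans this.1)).trans_eq (by ring)
    have h3 := (norm_sum_le univ fun a => (pD E z).f a x * (pD E z).X1 a x).trans
      ((sum_congr rfl fun a _ => norm_mul _ _).trans_le h2)
    have h4 := (norm_sum_le univ fun a => (pD E z).f a x * (starRingEnd ℂ) ((pD E z).X1 a x)).trans
      ((sum_congr rfl fun a _ => by rw [norm_mul, Complex.norm_conj]).trans_le h2)
    have h5 := sum3 R E (F := fun k l => L ^ 2 * ζ * h k l) (fun k l => by
      have := h0 k l; positivity) hW hx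
    have h6 := sum3 R E (F := fun k l => L ^ 2 * ζ * q * g k l) (fun k l => by
      have := g0 k l; positivity) hW hx
    rw [av_const_mul, ← hν] at h5 h6
    have h7 := add_le_add h5 h6
    rw [← sum_add_distrib] at h7
    refine (add_le_add (add_le_add h3 h4) ((sum_congr rfl fun a _ => by ring).trans_le h7)).trans ?_
    rw [eφ]
    have h8 := mul_le_mul_of_nonneg_right (WP1.trans (le_self_pow₀ P3 two_ne_zero)) (sq_nonneg (L * φ))
    linarith [mul_le_mul_of_nonneg_left (add_le_add mh mg') (show 0 ≤ W ^ 3 * L ^ 2 by positivity),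
      mul_le_mul_of_nonneg_right (one_le_pow₀ (n := 2) P3) (sq_nonneg (L * φ)), sq_nonneg (L * φ)]
  · have h5 := sum3 R E (F := fun k l => L ^ 3 * ζ ^ 2 * (2 * Γ * q) * (g k l * h k l)) (fun k l => by
      have := g0 k l; have := h0 k l; positivity) hW hx
    rw [av_const_mul, ← hν] at h5
    refine (sum_le_sum fun a _ => ?_).trans (h5.trans ?_)
    · have := g0 (E.i a) (E.j a)
      have := h0 (E.i a) (E.j a)
      refine mul_le_mul_of_nonneg_left (le_of_eq_of_le (b := |E.c a| ^ 3 / n * (L ^ 3 * ζ ^ 2 *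
        h (E.i a) (E.j a) * (g (E.i a) (E.j a) * h (E.i a) (E.j a)))) (by ring) ?_) (by rw [wt]; positivity)
      gcongr
      exact hle _ _
    · have h6 := mul_le_mul (mul_le_mul mgh φν (by positivity) (by positivity)) ζ4 ζ0 (by positivity)
      have h7 := mul_le_mul_of_nonneg_right (WP.trans (le_self_pow₀ P3 three_ne_zero))
        (pow_nonneg Lφ0 3)
      rw [eφ]
      linarith [mul_le_mul_of_nonneg_left h6 (show 0 ≤ W ^ 3 * L ^ 3 * Γ by positivity),
        mul_nonneg (pow_nonneg (zero_le_one.trans P3) 3) (pow_nonneg Lφ0 3)]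

theorem pDet (R : ResApi) : PDetStmt :=
  ⟨4752, 7, by norm_num, fun _ E z hn h1 h2 => ⟨pD E z, rfl, ok R E hn h1 h2,
    fun x _ _ hW hΓ hz hx hWΓ hG => cond1 R E hn h1 x hW hΓ hz hx hWΓ hG⟩⟩

end Crest.Agent.T157.LlP
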