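import Crest.Agent.T157.LlDef_91

/-!
# Row 157, local law: `QDetStmt`, part A — the data and its a priori bounds (helper47)
-/

set_option autoImplicit false

noncomputable section

namespace Crest.Agent.T157.Ll.Q47

open MeasureTheory Matrix Function

variable {n : ℕ}

/-- first derivative of `g p q` along `c • Dl i j` -/
def dG (g : (Fin n → ℝ) → (Fin n → ℝ) → ℂ) (c : ℝ) (i j : Fin n) (p q : Fin n → ℝ) : ℂ :=
  -(c : ℂ) * (g p (ee i) * g (ee j) q + g p (ee j) * g (ee i) q)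

/-- second derivative -/
def ddG (g : (Fin n → ℝ) → (Fin n → ℝ) → ℂ) (c : ℝ) (i j : Fin n) (p q : Fin n → ℝ) : ℂ :=
  -(c : ℂ) * ((dG g c i j p (ee i) * g (ee j) q + g p (ee i) * dG g c i j (ee j) q) +
    (dG g c i j p (ee j) * g (ee i) q + g p (ee j) * dG g c i j (ee i) q))

/-- normalised trace -/
def tr (g : (Fin n → ℝ) → (Fin n → ℝ) → ℂ) : ℂ := (∑ k, g (ee k) (ee k)) / n

/-- `c (u_i g_jv + u_j g_iv)` -/
def ff (g : (Fin n → ℝ) → (Fin n → ℝ) → ℂ) (c : ℝ) (i j : Fin n) (u v : Fin n → ℝ) : ℂ :=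
  (c : ℂ) * (u i * g (ee j) v + u j * g (ee i) v)

def X1 (g : (Fin n → ℝ) → (Fin n → ℝ) → ℂ) (c : ℝ) (i j : Fin n) (z : ℂ) (u v : Fin n → ℝ) : ℂ :=
  tr (dG g c i j) * g u v + (z + tr g) * dG g c i j u v

def X2 (g : (Fin n → ℝ) → (Fin n → ℝ) → ℂ) (c : ℝ) (i j : Fin n) (z : ℂ) (u v : Fin n → ℝ) : ℂ :=
  (tr (ddG g c i j) * g u v + tr (dG g c i j) * dG g c i j u v) +
    (tr (dG g c i j) * dG g c i j u v + (z + tr g) * ddG g c i j u v)

/-- `|g_pi| + |g_pj|` -/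
def NN (g : (Fin n → ℝ) → (Fin n → ℝ) → ℂ) (i j : Fin n) (p : Fin n → ℝ) : ℝ :=
  ‖g p (ee i)‖ + ‖g p (ee j)‖

lemma NN_nonneg (g : (Fin n → ℝ) → (Fin n → ℝ) → ℂ) (i j : Fin n) (p : Fin n → ℝ) :
    0 ≤ NN g i j p := add_nonneg (norm_nonneg _) (norm_nonneg _)

section bounds
variable {g : (Fin n → ℝ) → (Fin n → ℝ) → ℂ} (hs : ∀ p q, g p q = g q p)
  (c : ℝ) (i j : Fin n)
include hs

lemma dG_le_cross (p q : Fin n → ℝ) :
    ‖dG g c i j p q‖ ≤ |c| * (‖g p (ee i)‖ * ‖g q (ee j)‖ + ‖g p (ee j)‖ * ‖g q (ee i)‖) := by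
  unfold dG
  rw [norm_mul, norm_neg, Complex.norm_real, Real.norm_eq_abs, hs (ee j) q, hs (ee i) q]
  refine mul_le_mul_of_nonneg_left ?_ (abs_nonneg _)
  refine (norm_add_le _ _).trans ?_
  rw [norm_mul, norm_mul]

lemma dG_le (p q : Fin n → ℝ) : ‖dG g c i j p q‖ ≤ |c| * (NN g i j p * NN g i j q) := by
  refine (dG_le_cross hs c i j p q).trans (mul_le_mul_of_nonneg_left ?_ (abs_nonneg _))
  unfold NN
  have h1 := norm_nonneg (g p (ee i))
  have h2 := norm_nonneg (g p (ee j))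
  have h3 := norm_nonneg (g q (ee i))
  have h4 := norm_nonneg (g q (ee j))
  nlinarith [mul_nonneg h1 h3, mul_nonneg h2 h4]

lemma ddG_le {Λ : ℝ} (hi : NN g i j (ee i) ≤ Λ) (hj : NN g i j (ee j) ≤ Λ) (p q : Fin n → ℝ) :
    ‖ddG g c i j p q‖ ≤ 2 * c ^ 2 * Λ * (NN g i j p * NN g i j q) := by
  have hp := NN_nonneg g i j p
  have hq := NN_nonneg g i j q
  have hc := abs_nonneg c
  have e1 : ‖dG g c i j p (ee i)‖ ≤ |c| * (NN g i j p * Λ) :=
    (dG_le hs c i j p _).trans (by gcongr)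
  have e2 : ‖dG g c i j p (ee j)‖ ≤ |c| * (NN g i j p * Λ) :=
    (dG_le hs c i j p _).trans (by gcongr)
  have e3 : ‖dG g c i j (ee i) q‖ ≤ |c| * (Λ * NN g i j q) :=
    (dG_le hs c i j _ q).trans (by gcongr)
  have e4 : ‖dG g c i j (ee j) q‖ ≤ |c| * (Λ * NN g i j q) :=
    (dG_le hs c i j _ q).trans (by gcongr)
  unfold ddG
  rw [norm_mul, norm_neg, Complex.norm_real, Real.norm_eq_abs, hs (ee j) q, hs (ee i) q]
  have h : ‖(dG g c i j p (ee i) * g q (ee j) + g p (ee i) * dG g c i j (ee j) q) +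
      (dG g c i j p (ee j) * g q (ee i) + g p (ee j) * dG g c i j (ee i) q)‖ ≤
      (|c| * (NN g i j p * Λ) * ‖g q (ee j)‖ + ‖g p (ee i)‖ * (|c| * (Λ * NN g i j q))) +
      (|c| * (NN g i j p * Λ) * ‖g q (ee i)‖ + ‖g p (ee j)‖ * (|c| * (Λ * NN g i j q))) := by
    refine (norm_add_le _ _).trans (add_le_add ?_ ?_) <;>
    · refine (norm_add_le _ _).trans ?_
      rw [norm_mul, norm_mul]
      gcongr
  refine (mul_le_mul_of_nonneg_left h hc).trans (le_of_eq ?_)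
  rw [← sq_abs c]
  have e5 : NN g i j p = ‖g p (ee i)‖ + ‖g p (ee j)‖ := rfl
  have e6 : NN g i j q = ‖g q (ee i)‖ + ‖g q (ee j)‖ := rfl
  rw [e5, e6]; ring

end bounds

lemma tr_le {g : (Fin n → ℝ) → (Fin n → ℝ) → ℂ} {b : Fin n → ℝ} (h : ∀ k, ‖g (ee k) (ee k)‖ ≤ b k) :
    ‖tr g‖ ≤ (∑ k, b k) / n := by
  unfold tr
  rw [norm_div, Complex.norm_natCast]
  exact div_le_div_of_nonneg_right ((norm_sum_le _ _).trans (Finset.sum_le_sum fun k _ => h k))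
    (Nat.cast_nonneg _)

lemma tr_le_const (hn : 1 ≤ n) {g : (Fin n → ℝ) → (Fin n → ℝ) → ℂ} {b : ℝ}
    (h : ∀ k, ‖g (ee k) (ee k)‖ ≤ b) : ‖tr g‖ ≤ b := by
  have := tr_le (b := fun _ => b) h
  have hn' : (0 : ℝ) < n := by exact_mod_cast hn
  simp only [Finset.sum_const, Finset.card_univ, Fintype.card_fin, nsmul_eq_mul] at this
  rwa [mul_div_cancel_left₀ _ hn'.ne'] at this

lemma ff_le (g : (Fin n → ℝ) → (Fin n → ℝ) → ℂ) (c : ℝ) (i j : Fin n) (u v : Fin n → ℝ) :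
    ‖ff g c i j u v‖ ≤ |c| * (|u i| * ‖g (ee j) v‖ + |u j| * ‖g (ee i) v‖) := by
  unfold ff
  rw [norm_mul, Complex.norm_real, Real.norm_eq_abs]
  refine mul_le_mul_of_nonneg_left ((norm_add_le _ _).trans ?_) (abs_nonneg _)
  rw [norm_mul, norm_mul, Complex.norm_real, Complex.norm_real, Real.norm_eq_abs, Real.norm_eq_abs]

lemma ee_dot (k : Fin n) : ee k ⬝ᵥ ee k ≤ 1 := by
  simp [ee]

lemma sum_sq_le {u : Fin n → ℝ} (hu : u ⬝ᵥ u ≤ 1) : ∑ k, |u k| ^ 2 ≤ 1 := by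
  simpa [dotProduct, sq_abs, sq] using hu

lemma abs_le_one' {u : Fin n → ℝ} (hu : u ⬝ᵥ u ≤ 1) (k : Fin n) : |u k| ≤ 1 := by
  have h := (Finset.single_le_sum (f := fun k => |u k| ^ 2) (fun k _ => sq_nonneg _)
    (Finset.mem_univ k)).trans (sum_sq_le hu)
  exact (sq_le_one_iff₀ (abs_nonneg _)).1 h

lemma dot_le_one {u v : Fin n → ℝ} (hu : u ⬝ᵥ u ≤ 1) (hv : v ⬝ᵥ v ≤ 1) : |u ⬝ᵥ v| ≤ 1 := by
  have h1 : 0 ≤ ∑ k, (u k - v k) ^ 2 := Finset.sum_nonneg fun k _ => sq_nonneg _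
  have h2 : 0 ≤ ∑ k, (u k + v k) ^ 2 := Finset.sum_nonneg fun k _ => sq_nonneg _
  have e1 : ∑ k, (u k - v k) ^ 2 = u ⬝ᵥ u + v ⬝ᵥ v - 2 * u ⬝ᵥ v := by
    simp only [dotProduct, Finset.mul_sum, ← Finset.sum_add_distrib, ← Finset.sum_sub_distrib]
    exact Finset.sum_congr rfl fun k _ => by ring
  have e2 : ∑ k, (u k + v k) ^ 2 = u ⬝ᵥ u + v ⬝ᵥ v + 2 * u ⬝ᵥ v := by
    simp only [dotProduct, Finset.mul_sum, ← Finset.sum_add_distrib]
    exact Finset.sum_congr rfl fun k _ => by ring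
  rw [abs_le]; constructor <;> linarith

/-- the data for `Q_{uv}` -/
def dat (E : Ens n) (z : ℂ) (u v : Fin n → ℝ) : MData E.ι where
  X x := QQ (E.H x) z u v
  r x := tr (gb (E.H x) z) * gb (E.H x) z u v
  f a x := ff (gb (E.H x) z) (E.c a) (E.i a) (E.j a) u v
  f1 a x := ff (dG (gb (E.H x) z) (E.c a) (E.i a) (E.j a)) (E.c a) (E.i a) (E.j a) u v
  f2 a x := ff (ddG (gb (E.H x) z) (E.c a) (E.i a) (E.j a)) (E.c a) (E.i a) (E.j a) u v
  X1 a x := X1 (gb (E.H x) z) (E.c a) (E.i a) (E.j a) z u v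
  X2 a x := X2 (gb (E.H x) z) (E.c a) (E.i a) (E.j a) z u v

lemma QQ_eq (R : ResApi) (A : Matrix (Fin n) (Fin n) ℝ) (z : ℂ) (u v : Fin n → ℝ) :
    QQ A z u v = ((u ⬝ᵥ v : ℝ) : ℂ) + (z + tr (gb A z)) * gb A z u v := by
  unfold QQ tr; rw [R.st_eq]

section deriv
variable {g : ℝ → (Fin n → ℝ) → (Fin n → ℝ) → ℂ} {g' : (Fin n → ℝ) → (Fin n → ℝ) → ℂ} {t : ℝ}

lemma hd_tr (h : ∀ p q, HasDerivAt (fun s => g s p q) (g' p q) t) :
    HasDerivAt (fun s => tr (g s)) (tr g') t := by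
  unfold tr
  exact (HasDerivAt.fun_sum fun k _ => h (ee k) (ee k)).div_const _

lemma hd_ff (h : ∀ p q, HasDerivAt (fun s => g s p q) (g' p q) t) (c : ℝ) (i j : Fin n)
    (u v : Fin n → ℝ) : HasDerivAt (fun s => ff (g s) c i j u v) (ff g' c i j u v) t := by
  unfold ff
  exact (((h _ _).const_mul _).add ((h _ _).const_mul _)).const_mul _

lemma hd_dG {c : ℝ} {i j : Fin n} (h : ∀ p q, HasDerivAt (fun s => g s p q) (dG (g t) c i j p q) t)
    (p q : Fin n → ℝ) : HasDerivAt (fun s => dG (g s) c i j p q) (ddG (g t) c i j p q) t := by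
  unfold ddG
  exact (((h _ _).mul (h _ _)).add ((h _ _).mul (h _ _))).const_mul _

end deriv

section meas
variable {α : Type} [MeasurableSpace α] {g : α → (Fin n → ℝ) → (Fin n → ℝ) → ℂ}

lemma ms_tr (h : ∀ p q, Measurable fun s => g s p q) : Measurable fun s => tr (g s) := by
  unfold tr
  exact (Finset.measurable_fun_sum _ fun k _ => h (ee k) (ee k)).div_const _

lemma ms_ff (h : ∀ p q, Measurable fun s => g s p q) (c : ℝ) (i j : Fin n)
    (u v : Fin n → ℝ) : Measurable fun s => ff (g s) c i j u v := by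
  unfold ff
  exact (((h _ _).const_mul _).add ((h _ _).const_mul _)).const_mul _

lemma ms_dG (h : ∀ p q, Measurable fun s => g s p q) (c : ℝ) (i j : Fin n)
    (p q : Fin n → ℝ) : Measurable fun s => dG (g s) c i j p q := by
  unfold dG
  exact (((h _ _).mul (h _ _)).add ((h _ _).mul (h _ _))).const_mul _

end meas

lemma c_le_one (E : Ens n) (hn : 1 ≤ n) (a : E.ι) : |E.c a| ≤ 1 := by
  have hn' : (1 : ℝ) ≤ n := by exact_mod_cast hn
  have h := E.c_sq a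
  have : (1 : ℝ) / n ≤ 1 := (div_le_one (by linarith)).2 hn'
  rw [← sq_abs] at h
  exact (sq_le_one_iff₀ (abs_nonneg _)).1 (h.trans this)

theorem dat_ok (R : ResApi) (E : Ens n) {z : ℂ} {u v : Fin n → ℝ} (hn : 1 ≤ n)
    (hz : 1 / (n : ℝ) ≤ z.im) (hzn : ‖z‖ ≤ n) (hu : u ⬝ᵥ u ≤ 1) (hv : v ⬝ᵥ v ≤ 1) :
    (dat E z u v).Ok (4000 * (n : ℝ) ^ 7) := by
  have hn' : (1 : ℝ) ≤ n := by exact_mod_cast hn
  have hz0 : 0 < z.im := lt_of_lt_of_le (by positivity) hz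
  have hd : ∀ a x t p q, HasDerivAt (fun s => gb (E.H (update x a s)) z p q)
      (dG (gb (E.H (update x a t)) z) (E.c a) (E.i a) (E.j a) p q) t :=
    fun a x t p q => R.deriv E x a hz0 p q t
  have hm : ∀ p q, Measurable fun x => gb (E.H x) z p q := fun p q => R.meas E z p q
  have hs : ∀ x p q, gb (E.H x) z p q = gb (E.H x) z q p := fun x p q => R.symm (R.herm E x) z p q
  have hb : ∀ x p q, p ⬝ᵥ p ≤ 1 → q ⬝ᵥ q ≤ 1 → ‖gb (E.H x) z p q‖ ≤ n := by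
    intro x p q hp hq
    refine (R.bound (R.herm E x) hz0 p q hp hq).trans ?_
    rw [div_le_iff₀ hz0]
    rw [div_le_iff₀ (by linarith)] at hz
    linarith
  have hN : ∀ x i j p, p ⬝ᵥ p ≤ 1 → NN (gb (E.H x) z) i j p ≤ 2 * n := by
    intro x i j p hp
    have h1 := hb x p _ hp (ee_dot i)
    have h2 := hb x p _ hp (ee_dot j)
    unfold NN; linarith
  have hc := c_le_one E hn
  have h1 : ∀ x a p q, p ⬝ᵥ p ≤ 1 → q ⬝ᵥ q ≤ 1 →
      ‖dG (gb (E.H x) z) (E.c a) (E.i a) (E.j a) p q‖ ≤ 4 * (n : ℝ) ^ 2 := by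
    intro x a p q hp hq
    refine (dG_le (hs x) _ _ _ p q).trans ?_
    have := NN_nonneg (gb (E.H x) z) (E.i a) (E.j a) q
    have e1 := hN x (E.i a) (E.j a) p hp
    have e2 := hN x (E.i a) (E.j a) q hq
    have e3 := mul_le_mul e1 e2 this (by positivity)
    have e4 := mul_le_mul (hc a) e3 (mul_nonneg (NN_nonneg _ _ _ _) this) zero_le_one
    exact e4.trans (le_of_eq (by ring))
  have h2 : ∀ x a p q, p ⬝ᵥ p ≤ 1 → q ⬝ᵥ q ≤ 1 →
      ‖ddG (gb (E.H x) z) (E.c a) (E.i a) (E.j a) p q‖ ≤ 16 * (n : ℝ) ^ 3 := by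
    intro x a p q hp hq
    refine (ddG_le (hs x) _ _ _ (hN _ _ _ _ (ee_dot _)) (hN _ _ _ _ (ee_dot _)) p q).trans ?_
    have := NN_nonneg (gb (E.H x) z) (E.i a) (E.j a) q
    have hc2 : E.c a ^ 2 ≤ 1 := by rw [← sq_abs]; exact (sq_le_one_iff₀ (abs_nonneg _)).2 (hc a)
    have e1 := hN x (E.i a) (E.j a) p hp
    have e2 := hN x (E.i a) (E.j a) q hq
    have e3 := mul_le_mul e1 e2 this (by positivity)
    have e0 : 2 * E.c a ^ 2 * (2 * (n : ℝ)) ≤ 2 * 1 * (2 * n) := by gcongr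
    have e4 := mul_le_mul e0 e3 (mul_nonneg (NN_nonneg _ _ _ _) this) (by positivity)
    exact e4.trans (le_of_eq (by ring))
  have hff : ∀ (g : (Fin n → ℝ) → (Fin n → ℝ) → ℂ) (b : ℝ) (a : E.ι), (∀ k, ‖g (ee k) v‖ ≤ b) →
      ‖ff g (E.c a) (E.i a) (E.j a) u v‖ ≤ 2 * b := by
    intro g b a h
    refine (ff_le _ _ _ _ _ _).trans ?_
    calc _ ≤ 1 * (1 * b + 1 * b) := by
          gcongr
          exacts [hc a, abs_le_one' hu _, h _, abs_le_one' hu _, h _]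
      _ = _ := by ring
  have ht0 : ∀ x, ‖tr (gb (E.H x) z)‖ ≤ n := fun x =>
    tr_le_const hn fun k => hb x _ _ (ee_dot k) (ee_dot k)
  have ht1 : ∀ x a, ‖tr (dG (gb (E.H x) z) (E.c a) (E.i a) (E.j a))‖ ≤ 4 * (n : ℝ) ^ 2 :=
    fun x a => tr_le_const hn fun k => h1 x a _ _ (ee_dot k) (ee_dot k)
  have ht2 : ∀ x a, ‖tr (ddG (gb (E.H x) z) (E.c a) (E.i a) (E.j a))‖ ≤ 16 * (n : ℝ) ^ 3 :=
    fun x a => tr_le_const hn fun k => h2 x a _ _ (ee_dot k) (ee_dot k)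
  have hzt : ∀ x, ‖z + tr (gb (E.H x) z)‖ ≤ 2 * n := fun x =>
    (norm_add_le _ _).trans (by linarith [ht0 x])
  have p0 : (1 : ℝ) ≤ (n : ℝ) ^ 7 := one_le_pow₀ hn'
  have p1 : (n : ℝ) ≤ (n : ℝ) ^ 7 := by simpa using pow_le_pow_right₀ hn' (show 1 ≤ 7 by norm_num)
  have p2 : (n : ℝ) ^ 2 ≤ (n : ℝ) ^ 7 := pow_le_pow_right₀ hn' (by norm_num)
  have p3 : (n : ℝ) ^ 3 ≤ (n : ℝ) ^ 7 := pow_le_pow_right₀ hn' (by norm_num)
  have p4 : (n : ℝ) ^ 4 ≤ (n : ℝ) ^ 7 := pow_le_pow_right₀ hn' (by norm_num)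
  refine ⟨fun x => ?_, ?_, ?_, fun a => ?_, fun a => ?_, fun a => ?_, fun a x t => ?_,
    fun a x t => ?_, fun a x t => ?_, fun a x t => ?_, fun x => ?_, fun x => ?_, fun a x => ?_,
    fun a x => ?_, fun a x => ?_, fun a x => ?_, fun a x => ?_⟩
  · show QQ (E.H x) z u v = ∑ a, (x a : ℂ) * ff (gb (E.H x) z) (E.c a) (E.i a) (E.j a) u v +
      tr (gb (E.H x) z) * gb (E.H x) z u v
    rw [QQ_eq R]
    unfold ff
    rw [← R.expand E x hz0 u v]; ring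
  · show Measurable fun x => QQ (E.H x) z u v
    simp only [QQ_eq R]
    exact (((ms_tr hm).const_add _).mul (hm _ _)).const_add _
  · exact (ms_tr hm).mul (hm _ _)
  · exact ms_ff hm _ _ _ _ _
  · exact ms_ff (ms_dG hm _ _ _) _ _ _ _ _
  · exact ((ms_tr (ms_dG hm _ _ _)).mul (hm _ _)).add
      (((ms_tr hm).const_add _).mul (ms_dG hm _ _ _ _ _))
  · exact hd_ff (hd a x t) _ _ _ _ _
  · exact hd_ff (hd_dG (g := fun s => gb (E.H (update x a s)) z) (hd a x t)) _ _ _ _ _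
  · show HasDerivAt (fun s => QQ (E.H (update x a s)) z u v) _ t
    simp only [QQ_eq R]
    exact (((hd_tr (hd a x t)).const_add z).mul (hd a x t u v)).const_add _
  · exact ((hd_tr (hd_dG (g := fun s => gb (E.H (update x a s)) z) (hd a x t))).mul
      (hd a x t u v)).add (((hd_tr (hd a x t)).const_add z).mul
        (hd_dG (g := fun s => gb (E.H (update x a s)) z) (hd a x t) u v))
  · show ‖QQ (E.H x) z u v‖ ≤ _
    rw [QQ_eq R]
    refine (norm_add_le _ _).trans ?_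
    rw [Complex.norm_real, Real.norm_eq_abs, norm_mul]
    have := mul_le_mul (hzt x) (hb x u v hu hv) (norm_nonneg _) (by positivity)
    nlinarith [dot_le_one hu hv]
  · show ‖tr (gb (E.H x) z) * gb (E.H x) z u v‖ ≤ _
    rw [norm_mul]
    have := mul_le_mul (ht0 x) (hb x u v hu hv) (norm_nonneg _) (by positivity)
    nlinarith
  · exact (hff _ _ a fun k => hb x _ _ (ee_dot k) hv).trans (by linarith)
  · exact (hff _ _ a fun k => h1 x a _ _ (ee_dot k) hv).trans (by linarith)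
  · exact (hff _ _ a fun k => h2 x a _ _ (ee_dot k) hv).trans (by linarith)
  · show ‖X1 (gb (E.H x) z) (E.c a) (E.i a) (E.j a) z u v‖ ≤ _
    unfold X1
    refine (norm_add_le _ _).trans ?_
    rw [norm_mul, norm_mul]
    have e1 := mul_le_mul (ht1 x a) (hb x u v hu hv) (norm_nonneg _) (by positivity)
    have e2 := mul_le_mul (hzt x) (h1 x a u v hu hv) (norm_nonneg _) (by positivity)
    nlinarith
  · show ‖X2 (gb (E.H x) z) (E.c a) (E.i a) (E.j a) z u v‖ ≤ _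
    unfold X2
    refine (norm_add_le _ _).trans ((add_le_add (norm_add_le _ _) (norm_add_le _ _)).trans ?_)
    rw [norm_mul, norm_mul, norm_mul]
    have e1 := mul_le_mul (ht2 x a) (hb x u v hu hv) (norm_nonneg _) (by positivity)
    have e2 := mul_le_mul (hzt x) (h2 x a u v hu hv) (norm_nonneg _) (by positivity)
    have e3 := mul_le_mul (ht1 x a) (h1 x a u v hu hv) (norm_nonneg _) (by positivity)
    nlinarith

end Crest.Agent.T157.Ll.Q47
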