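import Crest.Agent.T157.LlQA_47

/-!
# Row 157, local law: `QDetStmt`, part B — bounds along a coordinate line (helper47)
-/

set_option autoImplicit false

noncomputable section

namespace Crest.Agent.T157.Ll.Q47

open MeasureTheory Matrix Function

variable {n : ℕ}

/-- `|g_ku| + |g_kv| + ψ` -/
def yy (g : (Fin n → ℝ) → (Fin n → ℝ) → ℂ) (u v : Fin n → ℝ) (ψ : ℝ) (k : Fin n) : ℝ :=
  ‖g (ee k) u‖ + ‖g (ee k) v‖ + ψ

/-- the hypotheses at the base point -/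
structure Base (g : (Fin n → ℝ) → (Fin n → ℝ) → ℂ) (z : ℂ) (u v : Fin n → ℝ) (Γ V ψ : ℝ) : Prop where
  hn : 1 ≤ n
  s : ∀ p q, g p q = g q p
  one : 1 ≤ Γ
  le : Γ ≤ V
  z : ‖z‖ ≤ Γ
  b : ∀ p q, InS u v p → InS u v q → ‖g p q‖ ≤ Γ
  ψ0 : 0 ≤ ψ
  ψ1 : ψ ≤ 1
  w : ∀ p, InS u v p → ∑ k, ‖g (ee k) p‖ ^ 2 ≤ n * ψ ^ 2

lemma inS_u (u v : Fin n → ℝ) : InS u v u := Or.inl rfl
lemma inS_v (u v : Fin n → ℝ) : InS u v v := Or.inr (Or.inl rfl)
lemma inS_e (u v : Fin n → ℝ) (k : Fin n) : InS u v (ee k) := Or.inr (Or.inr ⟨k, rfl⟩)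

lemma tr_sub (g g' : (Fin n → ℝ) → (Fin n → ℝ) → ℂ) :
    tr g' - tr g = tr fun p q => g' p q - g p q := by
  unfold tr; rw [Finset.sum_sub_distrib, sub_div]

section line
variable {g g' : (Fin n → ℝ) → (Fin n → ℝ) → ℂ} {z : ℂ} {u v : Fin n → ℝ} {Γ V ψ τ : ℝ}
  {i j : Fin n}

lemma Base.N_le (B : Base g z u v Γ V ψ) (i j : Fin n) {p : Fin n → ℝ} (hp : InS u v p) :
    NN g i j p ≤ 2 * Γ := by
  have h1 := B.b p _ hp (inS_e u v i)
  have h2 := B.b p _ hp (inS_e u v j)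
  unfold NN; linarith

lemma Base.sumN (B : Base g z u v Γ V ψ) (i j : Fin n) :
    ∑ k, NN g i j (ee k) ^ 2 ≤ 4 * (n * ψ ^ 2) := by
  have h1 := B.w _ (inS_e u v i)
  have h2 := B.w _ (inS_e u v j)
  calc ∑ k, NN g i j (ee k) ^ 2 ≤ ∑ k, (2 * ‖g (ee k) (ee i)‖ ^ 2 + 2 * ‖g (ee k) (ee j)‖ ^ 2) :=
        Finset.sum_le_sum fun k _ => by
          unfold NN; nlinarith [sq_nonneg (‖g (ee k) (ee i)‖ - ‖g (ee k) (ee j)‖)]
    _ = 2 * ∑ k, ‖g (ee k) (ee i)‖ ^ 2 + 2 * ∑ k, ‖g (ee k) (ee j)‖ ^ 2 := by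
        rw [Finset.sum_add_distrib, Finset.mul_sum, Finset.mul_sum]
    _ ≤ _ := by linarith

lemma Base.y_ge (B : Base g z u v Γ V ψ) (k : Fin n) : ψ ≤ yy g u v ψ k := by
  unfold yy; linarith [norm_nonneg (g (ee k) u), norm_nonneg (g (ee k) v)]

lemma Base.y0 (B : Base g z u v Γ V ψ) (k : Fin n) : 0 ≤ yy g u v ψ k := B.ψ0.trans (B.y_ge k)

lemma Base.y_le (B : Base g z u v Γ V ψ) (k : Fin n) : yy g u v ψ k ≤ 3 * Γ := by
  have h1 := B.b _ _ (inS_e u v k) (inS_u u v)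
  have h2 := B.b _ _ (inS_e u v k) (inS_v u v)
  unfold yy; linarith [B.ψ1, B.one]

lemma Base.tr_le (B : Base g z u v Γ V ψ) : ‖tr g‖ ≤ Γ :=
  tr_le_const B.hn fun k => B.b _ _ (inS_e u v k) (inS_e u v k)

/-- the perturbed point -/
structure Pert (g g' : (Fin n → ℝ) → (Fin n → ℝ) → ℂ) (Γ V ψ τ : ℝ) (i j : Fin n) : Prop where
  s : ∀ p q, g' p q = g' q p
  e : ∀ p q, g' p q = g p q - τ * (g' p (ee i) * g (ee j) q + g' p (ee j) * g (ee i) q)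
  t1 : |τ| * Γ ≤ 1 / 8
  t2 : |τ| * Γ ≤ V * ψ

lemma Pert.diff (P : Pert g g' Γ V ψ τ i j) (p q : Fin n → ℝ) :
    ‖g' p q - g p q‖ ≤ |τ| * (‖g' p (ee i)‖ * ‖g (ee j) q‖ + ‖g' p (ee j)‖ * ‖g (ee i) q‖) := by
  rw [P.e p q, sub_sub_cancel_left, norm_neg, norm_mul, Complex.norm_real, Real.norm_eq_abs]
  refine mul_le_mul_of_nonneg_left ((norm_add_le _ _).trans ?_) (abs_nonneg _)
  rw [norm_mul, norm_mul]

lemma Pert.diffS (B : Base g z u v Γ V ψ) (P : Pert g g' Γ V ψ τ i j) (p : Fin n → ℝ)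
    {q : Fin n → ℝ} (hq : InS u v q) : ‖g' p q - g p q‖ ≤ |τ| * Γ * NN g' i j p := by
  refine (P.diff p q).trans ?_
  have h1 := B.b _ _ (inS_e u v i) hq
  have h2 := B.b _ _ (inS_e u v j) hq
  calc _ ≤ |τ| * (‖g' p (ee i)‖ * Γ + ‖g' p (ee j)‖ * Γ) := by gcongr
    _ = _ := by unfold NN; ring

lemma Pert.N_le (B : Base g z u v Γ V ψ) (P : Pert g g' Γ V ψ τ i j) (p : Fin n → ℝ) :
    NN g' i j p ≤ 2 * NN g i j p := by
  have h1 := P.diffS B p (inS_e u v i)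
  have h2 := P.diffS B p (inS_e u v j)
  have h3 := norm_le_insert' (g' p (ee i)) (g p (ee i))
  have h4 := norm_le_insert' (g' p (ee j)) (g p (ee j))
  have h0 := NN_nonneg g' i j p
  have h5 := mul_le_mul_of_nonneg_right P.t1 h0
  have h6 := NN_nonneg g i j p
  have e1 : NN g' i j p = ‖g' p (ee i)‖ + ‖g' p (ee j)‖ := rfl
  have e2 : NN g i j p = ‖g p (ee i)‖ + ‖g p (ee j)‖ := rfl
  linarith

lemma Pert.NS (B : Base g z u v Γ V ψ) (P : Pert g g' Γ V ψ τ i j) {p : Fin n → ℝ}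
    (hp : InS u v p) : NN g' i j p ≤ 4 * Γ := by
  linarith [P.N_le B p, B.N_le i j hp]

lemma Pert.b (B : Base g z u v Γ V ψ) (P : Pert g g' Γ V ψ τ i j) {p q : Fin n → ℝ}
    (hp : InS u v p) (hq : InS u v q) : ‖g' p q‖ ≤ 2 * Γ := by
  have h1 := P.diffS B p hq
  have h3 := norm_le_insert' (g' p q) (g p q)
  have h4 := B.b p q hp hq
  have h5 := mul_le_mul P.t1 (P.NS B hp) (NN_nonneg _ _ _ _) (by norm_num)
  linarith [B.one]

lemma Pert.y (B : Base g z u v Γ V ψ) (P : Pert g g' Γ V ψ τ i j) {p : Fin n → ℝ}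
    (hp : p = u ∨ p = v) (l : Fin n) : ‖g' p (ee l)‖ ≤ 4 * V ^ 2 * yy g u v ψ l := by
  have hS : InS u v p := by rcases hp with h | h; exacts [Or.inl h, Or.inr (Or.inl h)]
  have h1 := P.diffS B p (inS_e u v l)
  have h3 := norm_le_insert' (g' p (ee l)) (g p (ee l))
  have hV : 1 ≤ V := B.one.trans B.le
  have h5 := mul_le_mul P.t2 ((P.NS B hS).trans (show 4 * Γ ≤ 4 * V by linarith [B.le]))
    (NN_nonneg _ _ _ _) (mul_nonneg (by linarith) B.ψ0)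
  have h6 : ‖g p (ee l)‖ ≤ ‖g (ee l) u‖ + ‖g (ee l) v‖ := by
    rw [B.s p]
    rcases hp with h | h <;> rw [h] <;> linarith [norm_nonneg (g (ee l) u), norm_nonneg (g (ee l) v)]
  have h7 : 1 ≤ 4 * V ^ 2 := by nlinarith
  have h8 := mul_le_mul_of_nonneg_right h7
    (add_nonneg (norm_nonneg (g (ee l) u)) (norm_nonneg (g (ee l) v)))
  unfold yy; nlinarith

lemma Pert.Ny (B : Base g z u v Γ V ψ) (P : Pert g g' Γ V ψ τ i j) {p : Fin n → ℝ}
    (hp : p = u ∨ p = v) : NN g' i j p ≤ 4 * V ^ 2 * (yy g u v ψ i + yy g u v ψ j) := by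
  have h1 := P.y B hp i
  have h2 := P.y B hp j
  unfold NN; linarith

lemma Pert.sumN (B : Base g z u v Γ V ψ) (P : Pert g g' Γ V ψ τ i j) :
    (∑ k, NN g' i j (ee k) * NN g' i j (ee k)) / n ≤ 16 * ψ ^ 2 := by
  have hn : (0 : ℝ) < n := by exact_mod_cast B.hn
  rw [div_le_iff₀ hn]
  calc _ ≤ ∑ k, 4 * NN g i j (ee k) ^ 2 := Finset.sum_le_sum fun k _ => by
        have h := P.N_le B (ee k)
        have h0 := NN_nonneg g' i j (ee k)
        nlinarith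
    _ = 4 * ∑ k, NN g i j (ee k) ^ 2 := by rw [Finset.mul_sum]
    _ ≤ _ := by linarith [B.sumN i j]

lemma Pert.tr1 (B : Base g z u v Γ V ψ) (P : Pert g g' Γ V ψ τ i j) (c : ℝ) :
    ‖tr (dG g' c i j)‖ ≤ |c| * (16 * ψ ^ 2) := by
  refine (tr_le fun k => dG_le P.s c i j _ _).trans ?_
  rw [← Finset.mul_sum, mul_div_assoc]
  exact mul_le_mul_of_nonneg_left (P.sumN B) (abs_nonneg _)

lemma Pert.dd (B : Base g z u v Γ V ψ) (P : Pert g g' Γ V ψ τ i j) (c : ℝ) (p q : Fin n → ℝ) :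
    ‖ddG g' c i j p q‖ ≤ 2 * c ^ 2 * (4 * Γ) * (NN g' i j p * NN g' i j q) :=
  ddG_le P.s c i j (P.NS B (inS_e u v i)) (P.NS B (inS_e u v j)) p q

lemma Pert.tr2 (B : Base g z u v Γ V ψ) (P : Pert g g' Γ V ψ τ i j) (c : ℝ) :
    ‖tr (ddG g' c i j)‖ ≤ 2 * c ^ 2 * (4 * Γ) * (16 * ψ ^ 2) := by
  refine (tr_le fun k => P.dd B c _ _).trans ?_
  rw [← Finset.mul_sum, mul_div_assoc]
  exact mul_le_mul_of_nonneg_left (P.sumN B) (by have := B.one; positivity)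

lemma Pert.ztr (B : Base g z u v Γ V ψ) (P : Pert g g' Γ V ψ τ i j) : ‖z + tr g'‖ ≤ 3 * Γ := by
  have h := tr_le_const B.hn fun k => P.b B (inS_e u v k) (inS_e u v k)
  linarith [norm_add_le z (tr g'), B.z]

lemma Pert.f0 (B : Base g z u v Γ V ψ) (P : Pert g g' Γ V ψ τ i j) (c : ℝ) :
    ‖ff g' c i j u v‖ ≤ |c| * (4 * V ^ 2) * (|u i| * yy g u v ψ j + |u j| * yy g u v ψ i) := by
  refine (ff_le _ _ _ _ _ _).trans ?_
  rw [P.s (ee j), P.s (ee i)]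
  have h1 := P.y B (Or.inr rfl) i
  have h2 := P.y B (Or.inr rfl) j
  calc _ ≤ |c| * (|u i| * (4 * V ^ 2 * yy g u v ψ j) + |u j| * (4 * V ^ 2 * yy g u v ψ i)) := by
        gcongr
    _ = _ := by ring

lemma ff_le' {g : (Fin n → ℝ) → (Fin n → ℝ) → ℂ} (c : ℝ) (i j : Fin n) (u v : Fin n → ℝ) {b : ℝ}
    (h : ∀ l, ‖g (ee l) v‖ ≤ b) : ‖ff g c i j u v‖ ≤ |c| * ((|u i| + |u j|) * b) := by
  refine (ff_le _ _ _ _ _ _).trans ?_
  have h1 := h i
  have h2 := h j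
  calc _ ≤ |c| * (|u i| * b + |u j| * b) := by gcongr
    _ = _ := by ring

lemma Pert.f1 (B : Base g z u v Γ V ψ) (P : Pert g g' Γ V ψ τ i j) (c : ℝ) :
    ‖ff (dG g' c i j) c i j u v‖ ≤
      c ^ 2 * (16 * V ^ 3) * ((|u i| + |u j|) * (yy g u v ψ i + yy g u v ψ j)) := by
  have hV : 0 ≤ V := by linarith [B.one, B.le]
  have h : ∀ l, ‖dG g' c i j (ee l) v‖ ≤
      |c| * (4 * V * (4 * V ^ 2 * (yy g u v ψ i + yy g u v ψ j))) := fun l => by
    refine (dG_le P.s c i j _ _).trans (mul_le_mul_of_nonneg_left ?_ (abs_nonneg _))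
    exact mul_le_mul ((P.NS B (inS_e u v l)).trans (by linarith [B.le])) (P.Ny B (Or.inr rfl))
      (NN_nonneg _ _ _ _) (by positivity)
  refine (ff_le' c i j u v h).trans (le_of_eq ?_)
  rw [← sq_abs c]; ring

lemma Pert.f2 (B : Base g z u v Γ V ψ) (P : Pert g g' Γ V ψ τ i j) (c : ℝ) :
    ‖ff (ddG g' c i j) c i j u v‖ ≤
      |c| * c ^ 2 * (128 * V ^ 4) * ((|u i| + |u j|) * (yy g u v ψ i + yy g u v ψ j)) := by
  have hV : 0 ≤ V := by linarith [B.one, B.le]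
  have hΓ : 0 ≤ Γ := by linarith [B.one]
  have h : ∀ l, ‖ddG g' c i j (ee l) v‖ ≤
      2 * c ^ 2 * (4 * V) * (4 * V * (4 * V ^ 2 * (yy g u v ψ i + yy g u v ψ j))) := fun l => by
    refine (P.dd B c _ _).trans (mul_le_mul ?_ ?_
      (mul_nonneg (NN_nonneg _ _ _ _) (NN_nonneg _ _ _ _)) (by positivity))
    · have := B.le; gcongr
    · exact mul_le_mul ((P.NS B (inS_e u v l)).trans (by linarith [B.le])) (P.Ny B (Or.inr rfl))
        (NN_nonneg _ _ _ _) (by positivity)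
  refine (ff_le' c i j u v h).trans (le_of_eq ?_)
  ring

lemma Pert.x1 (B : Base g z u v Γ V ψ) (P : Pert g g' Γ V ψ τ i j) (c : ℝ) :
    ‖X1 g' c i j z u v‖ ≤ |c| * (128 * V ^ 5) * (yy g u v ψ i * yy g u v ψ j) := by
  have hV : 1 ≤ V := B.one.trans B.le
  have hΓ : 0 ≤ Γ := by linarith [B.one]
  have yi := B.y0 i
  have yj := B.y0 j
  have hc := abs_nonneg c
  have h1 : ‖dG g' c i j u v‖ ≤ |c| * (32 * V ^ 4 * (yy g u v ψ i * yy g u v ψ j)) := by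
    refine (dG_le_cross P.s c i j u v).trans (mul_le_mul_of_nonneg_left ?_ hc)
    have a1 := P.y B (Or.inl rfl) i
    have a2 := P.y B (Or.inl rfl) j
    have a3 := P.y B (Or.inr rfl) i
    have a4 := P.y B (Or.inr rfl) j
    calc _ ≤ (4 * V ^ 2 * yy g u v ψ i) * (4 * V ^ 2 * yy g u v ψ j) +
          (4 * V ^ 2 * yy g u v ψ j) * (4 * V ^ 2 * yy g u v ψ i) := by gcongr
      _ = _ := by ring
  have h2 : ψ ^ 2 ≤ yy g u v ψ i * yy g u v ψ j := by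
    rw [sq]; exact mul_le_mul (B.y_ge i) (B.y_ge j) B.ψ0 yi
  have h3 := (P.tr1 B c).trans (mul_le_mul_of_nonneg_left
    (mul_le_mul_of_nonneg_left h2 (by norm_num : (0 : ℝ) ≤ 16)) hc)
  have h4 := (P.b B (inS_u u v) (inS_v u v)).trans (show 2 * Γ ≤ 2 * V ^ 5 by
    have : V ≤ V ^ 5 := by simpa using pow_le_pow_right₀ hV (show 1 ≤ 5 by norm_num)
    linarith [B.le])
  have h5 := (P.ztr B).trans (show 3 * Γ ≤ 3 * V by linarith [B.le])
  unfold X1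
  refine (norm_add_le _ _).trans ?_
  rw [norm_mul, norm_mul]
  have e1 := mul_le_mul h3 h4 (norm_nonneg _) (by positivity)
  have e2 := mul_le_mul h5 h1 (norm_nonneg _) (by positivity)
  refine (add_le_add e1 e2).trans (le_of_eq ?_)
  ring

lemma Pert.x2 (B : Base g z u v Γ V ψ) (P : Pert g g' Γ V ψ τ i j) (c : ℝ) :
    ‖X2 g' c i j z u v‖ ≤ c ^ 2 * (1152 * V ^ 6) * (yy g u v ψ i + yy g u v ψ j) ^ 2 := by
  have hV : 1 ≤ V := B.one.trans B.le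
  have hΓ : 0 ≤ Γ := by linarith [B.one]
  have yi := B.y0 i
  have yj := B.y0 j
  have hc := abs_nonneg c
  set Y := yy g u v ψ i + yy g u v ψ j with hY
  have hY0 : 0 ≤ Y := add_nonneg yi yj
  have hN : NN g' i j u * NN g' i j v ≤ (4 * V ^ 2 * Y) * (4 * V ^ 2 * Y) :=
    mul_le_mul (P.Ny B (Or.inl rfl)) (P.Ny B (Or.inr rfl)) (NN_nonneg _ _ _ _) (by positivity)
  have h1 : ‖dG g' c i j u v‖ ≤ |c| * ((4 * V ^ 2 * Y) * (4 * V ^ 2 * Y)) :=
    (dG_le P.s c i j u v).trans (mul_le_mul_of_nonneg_left hN hc)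
  have h2 : ‖ddG g' c i j u v‖ ≤ 2 * c ^ 2 * (4 * V) * ((4 * V ^ 2 * Y) * (4 * V ^ 2 * Y)) := by
    refine (P.dd B c u v).trans (mul_le_mul ?_ hN
      (mul_nonneg (NN_nonneg _ _ _ _) (NN_nonneg _ _ _ _)) (by positivity))
    have := B.le; gcongr
  have hψY : ψ ^ 2 ≤ Y ^ 2 := pow_le_pow_left₀ B.ψ0 (by linarith [B.y_ge i]) 2
  have hψV : ψ ^ 2 ≤ V ^ 2 := pow_le_pow_left₀ B.ψ0 (B.ψ1.trans hV) 2
  have h3 : ‖tr (dG g' c i j)‖ ≤ |c| * (16 * V ^ 2) := (P.tr1 B c).trans (by gcongr)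
  have h4 : ‖tr (ddG g' c i j)‖ ≤ 2 * c ^ 2 * (4 * V) * (16 * Y ^ 2) :=
    (P.tr2 B c).trans (by have := B.le; gcongr)
  have h5 := (P.b B (inS_u u v) (inS_v u v)).trans (show 2 * Γ ≤ 2 * V ^ 5 by
    have : V ≤ V ^ 5 := by simpa using pow_le_pow_right₀ hV (show 1 ≤ 5 by norm_num)
    linarith [B.le])
  have h6 := (P.ztr B).trans (show 3 * Γ ≤ 3 * V by linarith [B.le])
  unfold X2
  refine (norm_add_le _ _).trans ((add_le_add (norm_add_le _ _) (norm_add_le _ _)).trans ?_)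
  rw [norm_mul, norm_mul, norm_mul]
  have e1 := mul_le_mul h4 h5 (norm_nonneg _) (by positivity)
  have e2 := mul_le_mul h3 h1 (norm_nonneg _) (by positivity)
  have e3 := mul_le_mul h6 h2 (norm_nonneg _) (by positivity)
  refine (add_le_add (add_le_add e1 e2) (add_le_add e2 e3)).trans (le_of_eq ?_)
  rw [← sq_abs c]; ring

lemma Pert.x0 (B : Base g z u v Γ V ψ) (P : Pert g g' Γ V ψ τ i j) :
    ‖(z + tr g') * g' u v - (z + tr g) * g u v‖ ≤ 32 * V ^ 3 * ψ := by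
  have hV : 1 ≤ V := B.one.trans B.le
  have hΓ : 0 ≤ Γ := by linarith [B.one]
  have hn : (0 : ℝ) < n := by exact_mod_cast B.hn
  have ψ0 := B.ψ0
  have h1 : ‖tr g' - tr g‖ ≤ |τ| * (8 * ψ ^ 2) := by
    rw [tr_sub]
    refine (tr_le (b := fun k => |τ| * (2 * NN g i j (ee k) ^ 2)) fun k => ?_).trans ?_
    · refine (P.diff _ _).trans (mul_le_mul_of_nonneg_left ?_ (abs_nonneg _))
      rw [B.s (ee j), B.s (ee i)]
      have a := P.N_le B (ee k)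
      have a1 := norm_nonneg (g' (ee k) (ee i))
      have a2 := norm_nonneg (g' (ee k) (ee j))
      have a3 := norm_nonneg (g (ee k) (ee i))
      have a4 := norm_nonneg (g (ee k) (ee j))
      have a5 := mul_le_mul_of_nonneg_right a (add_nonneg a3 a4)
      unfold NN at a5 ⊢
      nlinarith [mul_nonneg a1 a3, mul_nonneg a2 a4]
    · rw [← Finset.mul_sum, ← Finset.mul_sum, mul_div_assoc]
      refine mul_le_mul_of_nonneg_left ?_ (abs_nonneg _)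
      rw [div_le_iff₀ hn]
      linarith [B.sumN i j]
  have h2 : ‖g' u v - g u v‖ ≤ V * ψ * (4 * V) :=
    (P.diffS B u (inS_v u v)).trans (mul_le_mul P.t2
      ((P.NS B (inS_u u v)).trans (by linarith [B.le])) (NN_nonneg _ _ _ _) (by positivity))
  have h3 := P.b B (inS_u u v) (inS_v u v)
  have h4 : ‖z + tr g‖ ≤ 2 * V := by linarith [norm_add_le z (tr g), B.z, B.tr_le, B.le]
  have e : (z + tr g') * g' u v - (z + tr g) * g u v =
      (tr g' - tr g) * g' u v + (z + tr g) * (g' u v - g u v) := by ring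
  rw [e]
  refine (norm_add_le _ _).trans ?_
  rw [norm_mul, norm_mul]
  have e1 := mul_le_mul h1 h3 (norm_nonneg _) (by positivity)
  have e2 := mul_le_mul h4 h2 (norm_nonneg _) (by positivity)
  have e3 : |τ| * (8 * ψ ^ 2) * (2 * Γ) ≤ 16 * V ^ 3 * ψ := by
    have a1 : ψ ^ 2 ≤ V ^ 2 := pow_le_pow_left₀ B.ψ0 (B.ψ1.trans hV) 2
    calc _ = 16 * (|τ| * Γ) * ψ ^ 2 := by ring
      _ ≤ 16 * (V * ψ) * V ^ 2 := by have := P.t2; gcongr
      _ = _ := by ring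
  have e4 : 0 ≤ V ^ 3 * ψ := by positivity
  nlinarith

end line

end Crest.Agent.T157.Ll.Q47
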