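import Crest.Agent.T157.LlQB_47

/-!
# Row 157, local law: `QDetStmt`, part C — the signed first order sums (helper47)
-/

set_option autoImplicit false

noncomputable section

namespace Crest.Agent.T157.Ll.Q47

open MeasureTheory Matrix Function

variable {n : ℕ}

lemma cs_sum (a b : Fin n → ℂ) :
    ‖∑ l, a l * b l‖ ≤ (∑ l, ‖a l‖ ^ 2 + ∑ l, ‖b l‖ ^ 2) / 2 := by
  refine (norm_sum_le _ _).trans ?_
  rw [← Finset.sum_add_distrib, Finset.sum_div]
  refine Finset.sum_le_sum fun l _ => ?_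
  rw [norm_mul]; nlinarith [sq_nonneg (‖a l‖ - ‖b l‖)]

/-- linearity in the first slot -/
def Lin (g : (Fin n → ℝ) → (Fin n → ℝ) → ℂ) : Prop := ∀ p q, g p q = ∑ k, (p k : ℂ) * g (ee k) q

/-- operator norm `≤ n` -/
def Op (g : (Fin n → ℝ) → (Fin n → ℝ) → ℂ) : Prop :=
  ∀ w : Fin n → ℝ, w ⬝ᵥ w ≤ 1 → ∑ l, ‖g w (ee l)‖ ^ 2 ≤ (n : ℝ) ^ 2

lemma Op.real {g : (Fin n → ℝ) → (Fin n → ℝ) → ℂ} (hl : Lin g) (ho : Op g) (w : Fin n → ℝ) :
    ∑ l, ‖g w (ee l)‖ ^ 2 ≤ (n : ℝ) ^ 2 * ∑ k, w k ^ 2 := by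
  set S := ∑ k, w k ^ 2 with hS
  have hS0 : 0 ≤ S := Finset.sum_nonneg fun k _ => sq_nonneg _
  rcases hS0.eq_or_lt with h0 | h0
  · have hw : ∀ k, w k = 0 := fun k => by
      have := (Finset.sum_eq_zero_iff_of_nonneg (fun k _ => sq_nonneg (w k))).1 h0.symm k
        (Finset.mem_univ k)
      exact pow_eq_zero_iff (two_ne_zero) |>.1 this
    have : ∀ l, g w (ee l) = 0 := fun l => by rw [hl]; simp [hw]
    simp [this, ← h0]
  · have hs : 0 < √S := Real.sqrt_pos.2 h0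
    have hs2 : √S ^ 2 = S := Real.sq_sqrt hS0
    have h1 := ho (fun k => w k / √S) (by
      simp only [dotProduct]
      have : ∀ k, w k / √S * (w k / √S) = w k ^ 2 / S := fun k => by
        rw [div_mul_div_comm, ← sq, ← sq, hs2]
      simp only [this]
      rw [← Finset.sum_div, div_self h0.ne'])
    have h2 : ∀ l, g w (ee l) = (√S : ℝ) * g (fun k => w k / √S) (ee l) := fun l => by
      rw [hl w, hl (fun k => w k / √S), Finset.mul_sum]
      refine Finset.sum_congr rfl fun k _ => ?_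
      have : ((√S : ℝ) : ℂ) ≠ 0 := by exact_mod_cast hs.ne'
      push_cast; field_simp
    simp only [h2, norm_mul, mul_pow, Complex.norm_real, Real.norm_eq_abs, sq_abs, hs2]
    rw [← Finset.mul_sum, mul_comm]
    exact mul_le_mul_of_nonneg_right h1 hS0

lemma Op.cplx {g : (Fin n → ℝ) → (Fin n → ℝ) → ℂ} (hl : Lin g) (ho : Op g) (A : Fin n → ℂ) :
    ∑ l, ‖∑ p, A p * g (ee p) (ee l)‖ ^ 2 ≤ 2 * (n : ℝ) ^ 2 * ∑ p, ‖A p‖ ^ 2 := by
  have h1 := ho.real hl fun p => (A p).re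
  have h2 := ho.real hl fun p => (A p).im
  have e : ∀ l, ∑ p, A p * g (ee p) (ee l) =
      g (fun p => (A p).re) (ee l) + Complex.I * g (fun p => (A p).im) (ee l) := fun l => by
    rw [hl (fun p => (A p).re), hl (fun p => (A p).im), Finset.mul_sum, ← Finset.sum_add_distrib]
    refine Finset.sum_congr rfl fun p _ => ?_
    conv_lhs => rw [← Complex.re_add_im (A p)]
    ring
  have e2 : ∑ p, ‖A p‖ ^ 2 = ∑ p, (A p).re ^ 2 + ∑ p, (A p).im ^ 2 := by
    rw [← Finset.sum_add_distrib]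
    exact Finset.sum_congr rfl fun p _ => by rw [Complex.sq_norm, Complex.normSq_apply]; ring
  calc _ ≤ ∑ l, (2 * ‖g (fun p => (A p).re) (ee l)‖ ^ 2 + 2 * ‖g (fun p => (A p).im) (ee l)‖ ^ 2) := by
        refine Finset.sum_le_sum fun l _ => ?_
        rw [e]
        have a := norm_add_le (g (fun p => (A p).re) (ee l))
          (Complex.I * g (fun p => (A p).im) (ee l))
        rw [norm_mul, Complex.norm_I, one_mul] at a
        have b := pow_le_pow_left₀ (norm_nonneg _) a 2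
        nlinarith [sq_nonneg (‖g (fun p => (A p).re) (ee l)‖ - ‖g (fun p => (A p).im) (ee l)‖)]
    _ ≤ _ := by
        rw [Finset.sum_add_distrib, ← Finset.mul_sum, ← Finset.mul_sum, e2]; linarith

lemma cov_norm (R : ResApi) (E : Ens n) (hn : 1 ≤ n) (F : Fin n → Fin n → ℂ) (T : E.ι → ℂ) (r : ℂ)
    (hT : ∀ a, T a = -((E.c a : ℂ) ^ 2 * (F (E.i a) (E.j a) + F (E.j a) (E.i a)))) {M1 M2 : ℝ}
    (h1 : ‖∑ k, ∑ l, F k l - n * r‖ ≤ n * M1) (h2 : ∑ k, ‖F k k‖ ≤ n * M2) :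
    ‖r + ∑ a, T a‖ ≤ M1 + M2 := by
  have hn' : (0 : ℝ) < n := by exact_mod_cast hn
  have hnc : (n : ℂ) ≠ 0 := by exact_mod_cast hn'.ne'
  simp only [hT, Finset.sum_neg_distrib, R.covC E F]
  have e : r + -((∑ k, ∑ l, F k l + ∑ k, (E.d k : ℂ) * F k k) / n) =
      -(((∑ k, ∑ l, F k l - n * r) + ∑ k, (E.d k : ℂ) * F k k) / n) := by
    field_simp; ring
  rw [e, norm_neg, norm_div, Complex.norm_natCast, div_le_iff₀ hn']
  have h3 : ‖∑ k, (E.d k : ℂ) * F k k‖ ≤ ∑ k, ‖F k k‖ :=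
    (norm_sum_le _ _).trans (Finset.sum_le_sum fun k _ => by
      rw [norm_mul, Complex.norm_real, Real.norm_eq_abs]
      exact mul_le_of_le_one_left (norm_nonneg _) (E.d_le k))
  linarith [norm_add_le (∑ k, ∑ l, F k l - n * r) (∑ k, (E.d k : ℂ) * F k k)]

section signed
variable {g h : (Fin n → ℝ) → (Fin n → ℝ) → ℂ} {z : ℂ} {u v : Fin n → ℝ} {Γ V ψ : ℝ}

lemma Base.sum_norm (B : Base g z u v Γ V ψ) {p : Fin n → ℝ} (hp : InS u v p) :
    ∑ k, ‖g (ee k) p‖ ≤ n * ψ := by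
  have h1 := Finset.sum_mul_sq_le_sq_mul_sq Finset.univ (fun _ : Fin n => (1 : ℝ))
    fun k => ‖g (ee k) p‖
  simp only [one_mul, one_pow, Finset.sum_const, Finset.card_univ, Fintype.card_fin, nsmul_eq_mul,
    mul_one] at h1
  have h2 := mul_le_mul_of_nonneg_left (B.w p hp) (Nat.cast_nonneg (α := ℝ) n)
  refine (pow_le_pow_iff_left₀ (Finset.sum_nonneg fun k _ => norm_nonneg _)
    (mul_nonneg (Nat.cast_nonneg _) B.ψ0) two_ne_zero).1 ?_
  calc _ ≤ _ := h1
    _ ≤ _ := h2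
    _ = _ := by ring

theorem S1 (R : ResApi) (E : Ens n) (B : Base g z u v Γ V ψ) (hl : Lin g) (hu : u ⬝ᵥ u ≤ 1) :
    ‖tr g * g u v + ∑ a, ff (dG g (E.c a) (E.i a) (E.j a)) (E.c a) (E.i a) (E.j a) u v‖ ≤
      ψ + 2 * Γ * ψ := by
  have hn' : (0 : ℝ) < n := by exact_mod_cast B.hn
  have hnc : (n : ℂ) ≠ 0 := by exact_mod_cast hn'.ne'
  refine cov_norm R E B.hn (fun k l => u k * (g (ee l) (ee k) * g (ee l) v +
    g (ee l) (ee l) * g (ee k) v)) _ _ (fun a => by unfold ff dG; ring) ?_ ?_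
  · have e : ∑ k, ∑ l, (u k : ℂ) * (g (ee l) (ee k) * g (ee l) v + g (ee l) (ee l) * g (ee k) v) -
        n * (tr g * g u v) = ∑ l, g (ee l) u * g (ee l) v := by
      have e1 : (n : ℂ) * (tr g * g u v) = ∑ k, ∑ l, (u k : ℂ) * (g (ee l) (ee l) * g (ee k) v) := by
        unfold tr
        rw [hl u v, ← mul_assoc, mul_div_cancel₀ _ hnc, mul_comm, Finset.sum_mul_sum]
        exact Finset.sum_congr rfl fun k _ => Finset.sum_congr rfl fun l _ => by ring
      rw [e1, ← Finset.sum_sub_distrib]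
      simp only [← Finset.sum_sub_distrib]
      rw [Finset.sum_comm]
      refine Finset.sum_congr rfl fun l _ => ?_
      rw [B.s (ee l) u, hl u (ee l), Finset.sum_mul]
      exact Finset.sum_congr rfl fun k _ => by rw [B.s (ee l) (ee k)]; ring
    rw [e]
    refine (cs_sum _ _).trans ?_
    have h1 := B.w _ (inS_u u v)
    have h2 := B.w _ (inS_v u v)
    have h3 : ψ ^ 2 ≤ ψ := by nlinarith [B.ψ0, B.ψ1]
    nlinarith
  · calc _ ≤ ∑ k, 2 * Γ * ‖g (ee k) v‖ := Finset.sum_le_sum fun k _ => by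
          rw [← two_mul, norm_mul, norm_mul, norm_mul, Complex.norm_real, Real.norm_eq_abs,
            Complex.norm_two]
          have a1 := abs_le_one' hu k
          have a2 := B.b _ _ (inS_e u v k) (inS_e u v k)
          calc _ ≤ 1 * (2 * (Γ * ‖g (ee k) v‖)) := by gcongr
            _ = _ := by ring
      _ ≤ _ := by
          rw [← Finset.mul_sum]
          have := mul_le_mul_of_nonneg_left (B.sum_norm (inS_v u v))
            (show 0 ≤ 2 * Γ by linarith [B.one])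
          linarith

theorem T1 (R : ResApi) (E : Ens n) (B : Base g z u v Γ V ψ) (B' : Base h z u v Γ V ψ) (hl : Lin h)
    (hu : u ⬝ᵥ u ≤ 1) :
    ‖∑ a, ff g (E.c a) (E.i a) (E.j a) u v * dG h (E.c a) (E.i a) (E.j a) u v‖ ≤
      2 * Γ * ψ ^ 2 + 2 * Γ * ψ ^ 2 := by
  have hΓ : 0 ≤ Γ := by linarith [B.one]
  rw [← zero_add (∑ a, _)]
  refine cov_norm R E B.hn (fun k l => u k * g (ee l) v * (h u (ee k) * h (ee l) v +
    h u (ee l) * h (ee k) v)) _ _ (fun a => by unfold ff dG; ring) ?_ ?_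
  · have e : ∑ k, ∑ l, (u k : ℂ) * g (ee l) v * (h u (ee k) * h (ee l) v + h u (ee l) * h (ee k) v) -
        n * 0 = h u u * ∑ l, g (ee l) v * h (ee l) v + h u v * ∑ l, g (ee l) v * h (ee l) u := by
      rw [hl u u, hl u v, Finset.sum_mul_sum, Finset.sum_mul_sum, mul_zero, sub_zero,
        ← Finset.sum_add_distrib]
      refine Finset.sum_congr rfl fun k _ => ?_
      rw [← Finset.sum_add_distrib]
      refine Finset.sum_congr rfl fun l _ => ?_
      rw [B'.s u (ee k), B'.s u (ee l)]; ring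
    rw [e]
    refine (norm_add_le _ _).trans ?_
    rw [norm_mul, norm_mul]
    have h1 := B.w _ (inS_v u v)
    have h2 := B'.w _ (inS_v u v)
    have h3 := B'.w _ (inS_u u v)
    have a1 : ‖∑ l, g (ee l) v * h (ee l) v‖ ≤ n * ψ ^ 2 := (cs_sum _ _).trans (by linarith)
    have a2 : ‖∑ l, g (ee l) v * h (ee l) u‖ ≤ n * ψ ^ 2 := (cs_sum _ _).trans (by linarith)
    have e1 := mul_le_mul (B'.b _ _ (inS_u u v) (inS_u u v)) a1 (norm_nonneg _) hΓ
    have e2 := mul_le_mul (B'.b _ _ (inS_u u v) (inS_v u v)) a2 (norm_nonneg _) hΓ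
    linarith
  · calc _ ≤ ∑ k, Γ * (‖g (ee k) v‖ ^ 2 + ‖h (ee k) v‖ ^ 2) := Finset.sum_le_sum fun k _ => by
          rw [← two_mul, norm_mul, norm_mul, norm_mul, norm_mul, Complex.norm_real,
            Real.norm_eq_abs, Complex.norm_two]
          have a1 := abs_le_one' hu k
          have a2 := B'.b _ _ (inS_u u v) (inS_e u v k)
          calc _ ≤ 1 * ‖g (ee k) v‖ * (2 * (Γ * ‖h (ee k) v‖)) := by gcongr
            _ = Γ * (2 * ‖g (ee k) v‖ * ‖h (ee k) v‖) := by ring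
            _ ≤ _ := mul_le_mul_of_nonneg_left
                (by nlinarith [sq_nonneg (‖g (ee k) v‖ - ‖h (ee k) v‖)]) hΓ
      _ ≤ _ := by
          rw [← Finset.mul_sum, Finset.sum_add_distrib]
          have := mul_le_mul_of_nonneg_left (add_le_add (B.w _ (inS_v u v)) (B'.w _ (inS_v u v))) hΓ
          linarith

theorem T2 (R : ResApi) (E : Ens n) (B : Base g z u v Γ V ψ) (B' : Base h z u v Γ V ψ) (hl : Lin h)
    (ho : Op h) (hu : u ⬝ᵥ u ≤ 1) :
    ‖∑ a, ff g (E.c a) (E.i a) (E.j a) u v * tr (dG h (E.c a) (E.i a) (E.j a))‖ ≤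
      3 * ψ ^ 2 + 2 * Γ * ψ ^ 2 := by
  have hΓ : 0 ≤ Γ := by linarith [B.one]
  have hn' : (0 : ℝ) < n := by exact_mod_cast B.hn
  have hnc : (n : ℂ) ≠ 0 := by exact_mod_cast hn'.ne'
  have et : ∀ (c : ℝ) (i j : Fin n), tr (dG h c i j) =
      -(c : ℂ) * (2 * ((∑ p, h (ee p) (ee i) * h (ee p) (ee j)) / n)) := by
    intro c i j
    unfold tr dG
    rw [← Finset.mul_sum, mul_div_assoc, ← mul_div_assoc 2, Finset.mul_sum]
    congr 2
    exact Finset.sum_congr rfl fun p _ => by rw [B'.s (ee j), B'.s (ee i)]; ring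
  rw [← zero_add (∑ a, _)]
  refine cov_norm R E B.hn (fun k l => u k * g (ee l) v *
    (2 * ((∑ p, h (ee p) (ee k) * h (ee p) (ee l)) / n))) _ _ (fun a => ?_) ?_ ?_
  · have : ∑ p, h (ee p) (ee (E.j a)) * h (ee p) (ee (E.i a)) =
        ∑ p, h (ee p) (ee (E.i a)) * h (ee p) (ee (E.j a)) :=
      Finset.sum_congr rfl fun p _ => mul_comm _ _
    rw [et, this]; unfold ff; ring
  · have e : ∑ k, ∑ l, (u k : ℂ) * g (ee l) v *
        (2 * ((∑ p, h (ee p) (ee k) * h (ee p) (ee l)) / n)) - n * 0 =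
        2 * ∑ l, g (ee l) v * ((∑ p, h u (ee p) * h (ee p) (ee l)) / n) := by
      rw [mul_zero, sub_zero, Finset.sum_comm, Finset.mul_sum]
      refine Finset.sum_congr rfl fun l _ => ?_
      have : ∑ p, h u (ee p) * h (ee p) (ee l) =
          ∑ k, (u k : ℂ) * ∑ p, h (ee p) (ee k) * h (ee p) (ee l) := by
        simp only [Finset.mul_sum]
        rw [Finset.sum_comm]
        refine Finset.sum_congr rfl fun p _ => ?_
        rw [hl u (ee p), Finset.sum_mul]
        exact Finset.sum_congr rfl fun k _ => by rw [B'.s (ee k) (ee p)]; ring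
      rw [this, Finset.sum_div, Finset.mul_sum, Finset.mul_sum]
      exact Finset.sum_congr rfl fun k _ => by ring
    rw [e, norm_mul, Complex.norm_two]
    have h1 := B.w _ (inS_v u v)
    have h2 : ∑ l, ‖(∑ p, h u (ee p) * h (ee p) (ee l)) / n‖ ^ 2 ≤ 2 * (n * ψ ^ 2) := by
      simp only [norm_div, div_pow, Complex.norm_natCast]
      rw [← Finset.sum_div, div_le_iff₀ (by positivity)]
      refine (ho.cplx hl _).trans ?_
      have h3 := B'.w _ (inS_u u v)
      simp only [B'.s u]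
      have := mul_le_mul_of_nonneg_left h3 (show 0 ≤ 2 * (n : ℝ) ^ 2 by positivity)
      linarith
    linarith [cs_sum (fun l => g (ee l) v) fun l => (∑ p, h u (ee p) * h (ee p) (ee l)) / n]
  · calc _ ≤ ∑ _k : Fin n, 2 * Γ * ψ ^ 2 := Finset.sum_le_sum fun k _ => by
          rw [norm_mul, norm_mul, norm_mul, Complex.norm_real, Real.norm_eq_abs, Complex.norm_two,
            norm_div, Complex.norm_natCast]
          have a1 := abs_le_one' hu k
          have a2 := B.b _ _ (inS_e u v k) (inS_v u v)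
          have a3 : ‖∑ p, h (ee p) (ee k) * h (ee p) (ee k)‖ / n ≤ ψ ^ 2 := by
            rw [div_le_iff₀ hn']
            linarith [cs_sum (fun p => h (ee p) (ee k)) fun p => h (ee p) (ee k),
              B'.w _ (inS_e u v k)]
          calc _ ≤ 1 * Γ * (2 * ψ ^ 2) := by gcongr
            _ = _ := by ring
      _ = _ := by simp

theorem S2 (R : ResApi) (E : Ens n) (B : Base g z u v Γ V ψ) (hl : Lin g) (ho : Op g)
    (hu : u ⬝ᵥ u ≤ 1) (σ : ℂ →+* ℂ) (hσn : ∀ w, ‖σ w‖ = ‖w‖) (hσr : ∀ t : ℝ, σ t = t) :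
    ‖∑ a, ff g (E.c a) (E.i a) (E.j a) u v * σ (X1 g (E.c a) (E.i a) (E.j a) z u v)‖ ≤
      13 * V ^ 2 * ψ ^ 2 := by
  have hΓ : 0 ≤ Γ := by linarith [B.one]
  have B' : Base (fun p q => σ (g p q)) z u v Γ V ψ :=
    ⟨B.hn, fun p q => by rw [B.s], B.one, B.le, B.z, fun p q hp hq => by
      rw [hσn]; exact B.b p q hp hq, B.ψ0, B.ψ1, fun p hp => by
      simp only [hσn]; exact B.w p hp⟩
  have hl' : Lin fun p q => σ (g p q) := fun p q => by
    show σ (g p q) = _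
    rw [hl p q, map_sum]; simp only [map_mul, hσr]
  have ho' : Op fun p q => σ (g p q) := fun w hw => by simp only [hσn]; exact ho w hw
  have e1 : ∀ c i j p q, σ (dG g c i j p q) = dG (fun p q => σ (g p q)) c i j p q := by
    intro c i j p q; unfold dG; simp only [map_mul, map_neg, map_add, hσr]
  have e2 : ∀ c i j, σ (tr (dG g c i j)) = tr (dG (fun p q => σ (g p q)) c i j) := by
    intro c i j; unfold tr; rw [map_div₀, map_sum, map_natCast]; simp only [e1]
  have e : ∑ a, ff g (E.c a) (E.i a) (E.j a) u v * σ (X1 g (E.c a) (E.i a) (E.j a) z u v) =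
      σ (g u v) * ∑ a, ff g (E.c a) (E.i a) (E.j a) u v *
        tr (dG (fun p q => σ (g p q)) (E.c a) (E.i a) (E.j a)) +
      σ (z + tr g) * ∑ a, ff g (E.c a) (E.i a) (E.j a) u v *
        dG (fun p q => σ (g p q)) (E.c a) (E.i a) (E.j a) u v := by
    rw [Finset.mul_sum, Finset.mul_sum, ← Finset.sum_add_distrib]
    refine Finset.sum_congr rfl fun a _ => ?_
    unfold X1
    rw [map_add, map_mul, map_mul, e1, e2]; ring
  rw [e]
  refine (norm_add_le _ _).trans ?_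
  rw [norm_mul, norm_mul, hσn, hσn]
  have h4 : ‖z + tr g‖ ≤ 2 * Γ := by linarith [norm_add_le z (tr g), B.z, B.tr_le]
  have a1 := mul_le_mul (B.b _ _ (inS_u u v) (inS_v u v)) (T2 R E B B' hl' ho' hu) (norm_nonneg _) hΓ
  have a2 := mul_le_mul h4 (T1 R E B B' hl' hu) (norm_nonneg _) (by positivity)
  have b1 : Γ ≤ Γ ^ 2 := by nlinarith [B.one]
  have b2 : Γ ^ 2 ≤ V ^ 2 := pow_le_pow_left₀ hΓ B.le 2
  have b3 := mul_le_mul_of_nonneg_right b1 (sq_nonneg ψ)
  have b4 := mul_le_mul_of_nonneg_right b2 (sq_nonneg ψ)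
  nlinarith

end signed

end Crest.Agent.T157.Ll.Q47
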