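import Crest.Agent.T157.LlDef_91

/-!
# Row 157, part E: the calculus of `Vhp` (helper15)

`Ll.vhpApi : MomStmt → VhpApi`.
-/

set_option autoImplicit false

noncomputable section

namespace Crest.Agent.T157.Ll

open MeasureTheory ProbabilityTheory Matrix Filter Function

namespace Vh15

theorem ev_rpow {a b : ℝ} (hab : a < b) (C : ℝ) :
    ∀ᶠ n : ℕ in atTop, C * (n : ℝ) ^ a ≤ (n : ℝ) ^ b := by
  have h1 : Tendsto (fun n : ℕ => (n : ℝ) ^ (b - a)) atTop atTop :=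
    (tendsto_rpow_atTop (sub_pos.2 hab)).comp tendsto_natCast_atTop_atTop
  filter_upwards [h1.eventually_ge_atTop C, eventually_gt_atTop 0] with n hn hn0
  have hn' : (0 : ℝ) < n := by exact_mod_cast hn0
  have : (n : ℝ) ^ b = (n : ℝ) ^ (b - a) * (n : ℝ) ^ a := by
    rw [← Real.rpow_add hn']; congr 1; ring
  rw [this]
  exact mul_le_mul_of_nonneg_right hn (Real.rpow_nonneg hn'.le _)

theorem ev_poly {c : ℝ} (hc : 0 < c) (C : ℝ) (k : ℕ) :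
    ∀ᶠ n : ℕ in atTop, C * (n : ℝ) ^ k ≤ Real.exp ((n : ℝ) ^ c) := by
  filter_upwards [ev_rpow (half_lt_self hc) (((k : ℝ) + 1) / (c / 2)),
    tendsto_natCast_atTop_atTop.eventually_ge_atTop C, eventually_gt_atTop 0] with n hn hC hn0
  have hn' : (0 : ℝ) < n := by exact_mod_cast hn0
  have hlog := Real.log_le_rpow_div hn'.le (half_pos hc)
  have h1 : ((k : ℝ) + 1) * Real.log n ≤ (n : ℝ) ^ c := by
    refine le_trans ?_ hn
    rw [div_mul_eq_mul_div, mul_div_assoc]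
    exact mul_le_mul_of_nonneg_left hlog (by positivity)
  calc C * (n : ℝ) ^ k ≤ n * (n : ℝ) ^ k := by gcongr
    _ = Real.exp (((k : ℝ) + 1) * Real.log n) := by
        rw [show ((k : ℝ) + 1) = ((k + 1 : ℕ) : ℝ) by push_cast; ring, Real.exp_nat_mul,
          Real.exp_log hn']; ring
    _ ≤ _ := Real.exp_le_exp.2 h1

theorem ev_main {c : ℝ} (hc : 0 < c) (C : ℝ) (k : ℕ) :
    ∀ᶠ n : ℕ in atTop, C * (n : ℝ) ^ k * Real.exp (-(n : ℝ) ^ c) ≤ Real.exp (-(n : ℝ) ^ (c / 2)) := by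
  filter_upwards [ev_poly (half_pos hc) C k, ev_rpow (half_lt_self hc) 2] with n h1 h2
  calc C * (n : ℝ) ^ k * Real.exp (-(n : ℝ) ^ c)
      ≤ Real.exp ((n : ℝ) ^ (c / 2)) * Real.exp (-(n : ℝ) ^ c) := by gcongr
    _ = Real.exp ((n : ℝ) ^ (c / 2) + -(n : ℝ) ^ c) := by rw [Real.exp_add]
    _ ≤ _ := Real.exp_le_exp.2 (by linarith)

variable {Θ : ℕ → Type}

/-- a polynomial loss is harmless -/
theorem of_bound {P : ∀ n (E : Ens n), Θ n → (E.ι → ℝ) → Prop} {c : ℝ} (hc : 0 < c) (C : ℝ) (k : ℕ)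
    (h : ∀ᶠ n : ℕ in atTop, ∀ (E : Ens n) (θ : Θ n),
      E.μ {x | ¬ P n E θ x} ≤ ENNReal.ofReal (C * (n : ℝ) ^ k * Real.exp (-(n : ℝ) ^ c))) :
    Vhp P := by
  refine ⟨c / 2, half_pos hc, ?_⟩
  filter_upwards [h, ev_main hc C k] with n h1 h2 E θ
  exact (h1 E θ).trans (ENNReal.ofReal_le_ofReal h2)

theorem exp_mono {n : ℕ} (hn : 1 ≤ n) {c c' : ℝ} (h : c ≤ c') :
    Real.exp (-(n : ℝ) ^ c') ≤ Real.exp (-(n : ℝ) ^ c) := by
  have : (1 : ℝ) ≤ n := by exact_mod_cast hn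
  exact Real.exp_le_exp.2 (neg_le_neg (Real.rpow_le_rpow_of_exponent_le this h))

theorem of_all {P : ∀ n (E : Ens n), Θ n → (E.ι → ℝ) → Prop}
    (h : ∀ᶠ n : ℕ in atTop, ∀ E θ x, P n E θ x) : Vhp P := by
  refine ⟨1, one_pos, ?_⟩
  filter_upwards [h] with n hn E θ
  have : {x | ¬ P n E θ x} = ∅ := by
    ext x; simp [hn E θ x]
  rw [this]; simp

theorem mono {P Q : ∀ n (E : Ens n), Θ n → (E.ι → ℝ) → Prop} (hP : Vhp P)
    (h : ∀ᶠ n : ℕ in atTop, ∀ E θ x, P n E θ x → Q n E θ x) : Vhp Q := by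
  obtain ⟨c, hc, hP⟩ := hP
  refine ⟨c, hc, ?_⟩
  filter_upwards [h, hP] with n hn hP E θ
  have hs : {x | ¬ Q n E θ x} ⊆ {x | ¬ P n E θ x} := fun x hx hp => hx (hn E θ x hp)
  exact (measure_mono hs).trans (hP E θ)

theorem and {P Q : ∀ n (E : Ens n), Θ n → (E.ι → ℝ) → Prop} (hP : Vhp P) (hQ : Vhp Q) :
    Vhp fun n E θ x => P n E θ x ∧ Q n E θ x := by
  obtain ⟨c, hc, hP⟩ := hP
  obtain ⟨c', hc', hQ⟩ := hQ
  refine of_bound (lt_min hc hc') 2 0 ?_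
  filter_upwards [hP, hQ, eventually_ge_atTop 1] with n hP hQ hn E θ
  have hs : {x | ¬ (P n E θ x ∧ Q n E θ x)} ⊆ {x | ¬ P n E θ x} ∪ {x | ¬ Q n E θ x} := by
    intro x hx
    exact not_and_or.1 hx
  have e1 := exp_mono hn (min_le_left c c')
  have e2 := exp_mono hn (min_le_right c c')
  calc _ ≤ E.μ {x | ¬ P n E θ x} + E.μ {x | ¬ Q n E θ x} :=
        (measure_mono hs).trans (measure_union_le _ _)
    _ ≤ ENNReal.ofReal (Real.exp (-(n : ℝ) ^ c)) + ENNReal.ofReal (Real.exp (-(n : ℝ) ^ c')) :=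
        add_le_add (hP E θ) (hQ E θ)
    _ = ENNReal.ofReal (Real.exp (-(n : ℝ) ^ c) + Real.exp (-(n : ℝ) ^ c')) :=
        (ENNReal.ofReal_add (Real.exp_pos _).le (Real.exp_pos _).le).symm
    _ ≤ _ := ENNReal.ofReal_le_ofReal (by rw [pow_zero]; linarith)

theorem comp {Θ' : ℕ → Type} {P : ∀ n (E : Ens n), Θ n → (E.ι → ℝ) → Prop} (g : ∀ n, Θ' n → Θ n)
    (hP : Vhp P) : Vhp (Θ := Θ') fun n E θ x => P n E (g n θ) x := by
  obtain ⟨c, hc, hP⟩ := hP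
  exact ⟨c, hc, hP.mono fun n hn E θ => hn E (g n θ)⟩

theorem union_le {α T : Type} [MeasurableSpace α] [Fintype T] (μ : Measure α) (s : T → Set α)
    {δ M : ℝ} (hδ : 0 ≤ δ) (hM : (Fintype.card T : ℝ) ≤ M) (h : ∀ τ, μ (s τ) ≤ ENNReal.ofReal δ) :
    μ (⋃ τ, s τ) ≤ ENNReal.ofReal (M * δ) := by
  calc μ (⋃ τ, s τ) ≤ ∑ τ, μ (s τ) := measure_iUnion_fintype_le μ s
    _ ≤ ∑ _τ : T, ENNReal.ofReal δ := Finset.sum_le_sum fun τ _ => h τ
    _ = ENNReal.ofReal (Fintype.card T * δ) := by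
        rw [Finset.sum_const, Finset.card_univ, nsmul_eq_mul, ENNReal.ofReal_mul (by positivity),
          ENNReal.ofReal_natCast]
    _ ≤ _ := ENNReal.ofReal_le_ofReal (by gcongr)

theorem all {T : ℕ → Type} [∀ n, Fintype (T n)] (k : ℕ)
    {P : ∀ n (E : Ens n), Θ n × T n → (E.ι → ℝ) → Prop}
    (hT : ∀ᶠ n : ℕ in atTop, Fintype.card (T n) ≤ n ^ k)
    (hP : Vhp (Θ := fun n => Θ n × T n) P) :
    Vhp (Θ := Θ) fun n E θ x => ∀ τ, P n E (θ, τ) x := by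
  obtain ⟨c, hc, hP⟩ := hP
  refine of_bound hc 1 k ?_
  filter_upwards [hP, hT] with n hP hT E θ
  have hs : {x | ¬ ∀ τ, P n E (θ, τ) x} = ⋃ τ, {x | ¬ P n E (θ, τ) x} := by
    ext x; simp
  rw [hs, one_mul]
  exact union_le _ _ (Real.exp_pos _).le (by exact_mod_cast hT) fun τ => hP E (θ, τ)

/-- enumeration of the test vectors -/
def pick {n : ℕ} (u v : Fin n → ℝ) : Option (Option (Fin n)) → Fin n → ℝ
  | none => u
  | some none => v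
  | some (some k) => ee k

theorem exists_pick {n : ℕ} {u v a : Fin n → ℝ} (h : InS u v a) : ∃ s, a = pick u v s := by
  rcases h with h | h | ⟨k, h⟩
  · exact ⟨none, h⟩
  · exact ⟨some none, h⟩
  · exact ⟨some (some k), h⟩

theorem allS (u v : ∀ n, Θ n → Fin n → ℝ)
    {P : ∀ n (E : Ens n), Θ n × (Fin n → ℝ) × (Fin n → ℝ) → (E.ι → ℝ) → Prop}
    (hP : Vhp (Θ := fun n => Θ n × (Fin n → ℝ) × (Fin n → ℝ)) P) :
    Vhp (Θ := Θ) fun n E θ x => ∀ a b, InS (u n θ) (v n θ) a → InS (u n θ) (v n θ) b →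
      P n E (θ, a, b) x := by
  have h1 := comp (Θ' := fun n => Θ n × (Option (Option (Fin n)) × Option (Option (Fin n))))
    (fun n θ => (θ.1, pick (u n θ.1) (v n θ.1) θ.2.1, pick (u n θ.1) (v n θ.1) θ.2.2)) hP
  have h2 := all (T := fun n => Option (Option (Fin n)) × Option (Option (Fin n))) 4 ?_ h1
  · refine mono h2 (Eventually.of_forall fun n E θ x hx a b ha hb => ?_)
    obtain ⟨s, rfl⟩ := exists_pick ha
    obtain ⟨t, rfl⟩ := exists_pick hb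
    exact hx (s, t)
  · filter_upwards [eventually_ge_atTop 2] with n hn
    simp only [Fintype.card_prod, Fintype.card_option, Fintype.card_fin]
    have : n + 1 + 1 ≤ n ^ 2 := by nlinarith
    calc (n + 1 + 1) * (n + 1 + 1) ≤ n ^ 2 * n ^ 2 := Nat.mul_le_mul this this
      _ = n ^ 4 := by ring

theorem abs_sub_le_of_floor {a b h : ℝ} (ha : 0 ≤ a) (hb : 0 ≤ b) (hh : 0 < h)
    (e : ⌊a * h⌋₊ = ⌊b * h⌋₊) : |a - b| ≤ 1 / h := by
  have h1 := Nat.floor_le (mul_nonneg ha hh.le)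
  have h2 := Nat.floor_le (mul_nonneg hb hh.le)
  have h3 := Nat.lt_floor_add_one (a * h)
  have h4 := Nat.lt_floor_add_one (b * h)
  rw [e] at h1 h3
  rw [le_div_iff₀ hh, ← abs_of_pos hh, ← abs_mul, abs_le]
  constructor <;> nlinarith

open Classical in
/-- a point of the domain in the cell `τ` -/
def pt (K ε : ℝ) (k n : ℕ) (τ : ℕ × ℕ) : ℂ :=
  if h : ∃ z : ℂ, Dom K ε n z ∧ ⌊(z.re + K) * (2 * (n : ℝ) ^ k)⌋₊ = τ.1 ∧
    ⌊z.im * (2 * (n : ℝ) ^ k)⌋₊ = τ.2 then h.choose else 0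

theorem pt_spec {K ε : ℝ} {k n : ℕ} (hn : 1 ≤ n) {z : ℂ} (hz : Dom K ε n z) :
    Dom K ε n (pt K ε k n (⌊(z.re + K) * (2 * (n : ℝ) ^ k)⌋₊, ⌊z.im * (2 * (n : ℝ) ^ k)⌋₊)) ∧
      ‖z - pt K ε k n (⌊(z.re + K) * (2 * (n : ℝ) ^ k)⌋₊, ⌊z.im * (2 * (n : ℝ) ^ k)⌋₊)‖ ≤
        1 / (n : ℝ) ^ k := by
  have hex : ∃ w : ℂ, Dom K ε n w ∧ ⌊(w.re + K) * (2 * (n : ℝ) ^ k)⌋₊ =
      (⌊(z.re + K) * (2 * (n : ℝ) ^ k)⌋₊, ⌊z.im * (2 * (n : ℝ) ^ k)⌋₊).1 ∧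
      ⌊w.im * (2 * (n : ℝ) ^ k)⌋₊ =
      (⌊(z.re + K) * (2 * (n : ℝ) ^ k)⌋₊, ⌊z.im * (2 * (n : ℝ) ^ k)⌋₊).2 := ⟨z, hz, rfl, rfl⟩
  unfold pt
  rw [dif_pos hex]
  obtain ⟨hw, e1, e2⟩ := hex.choose_spec
  set w := hex.choose
  refine ⟨hw, ?_⟩
  have hn' : (0 : ℝ) < n := by exact_mod_cast hn
  have hh : (0 : ℝ) < 2 * (n : ℝ) ^ k := by positivity
  have p0 : (0 : ℝ) ≤ (n : ℝ) ^ (-1 + ε) := Real.rpow_nonneg hn'.le _
  have a1 := abs_sub_le_of_floor (by linarith [(abs_le.1 hz.1).1]) (by linarith [(abs_le.1 hw.1).1])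
    hh e1.symm
  have a2 := abs_sub_le_of_floor (p0.trans hz.2.1) (p0.trans hw.2.1) hh e2.symm
  have a3 := Complex.norm_le_abs_re_add_abs_im (z - w)
  rw [Complex.sub_re, Complex.sub_im] at a3
  rw [show z.re + K - (w.re + K) = z.re - w.re by ring] at a1
  have : 1 / (2 * (n : ℝ) ^ k) + 1 / (2 * (n : ℝ) ^ k) = 1 / (n : ℝ) ^ k := by
    field_simp; ring
  linarith

theorem grid (K ε : ℝ) (k : ℕ) {R : ∀ n (E : Ens n), Θ n → ℂ → (E.ι → ℝ) → Prop}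
    (hR : Vhp (Θ := fun n => Θ n × ℂ) fun n E θ x => Dom K ε n θ.2 → R n E θ.1 θ.2 x) :
    Vhp (Θ := Θ) fun n E θ x => ∀ z, Dom K ε n z →
      ∃ z', Dom K ε n z' ∧ ‖z - z'‖ ≤ 1 / (n : ℝ) ^ k ∧ R n E θ z' x := by
  have h1 := comp (Θ' := fun n => Θ n × (Fin (n ^ (k + 1)) × Fin (n ^ (k + 1))))
    (fun n θ => (θ.1, pt K ε k n (θ.2.1, θ.2.2))) hR
  have h2 := all (T := fun n => Fin (n ^ (k + 1)) × Fin (n ^ (k + 1))) (2 * (k + 1))
    (Eventually.of_forall fun n => by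
      simp only [Fintype.card_prod, Fintype.card_fin]; exact le_of_eq (by ring)) h1
  refine mono h2 ?_
  filter_upwards [eventually_ge_atTop 1,
    tendsto_natCast_atTop_atTop.eventually_gt_atTop (4 * K)] with n hn hK E θ x hx z hz
  have hn' : (0 : ℝ) < n := by exact_mod_cast hn
  have hp : (0 : ℝ) < (n : ℝ) ^ k := by positivity
  have p0 : (0 : ℝ) ≤ (n : ℝ) ^ (-1 + ε) := Real.rpow_nonneg hn'.le _
  have hre := abs_le.1 hz.1
  have hK0 : 0 ≤ K := (abs_nonneg _).trans hz.1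
  have b1 : ⌊(z.re + K) * (2 * (n : ℝ) ^ k)⌋₊ < n ^ (k + 1) := by
    rw [Nat.floor_lt (mul_nonneg (by linarith) (by positivity))]
    push_cast
    rw [pow_succ]
    nlinarith
  have b2 : ⌊z.im * (2 * (n : ℝ) ^ k)⌋₊ < n ^ (k + 1) := by
    rw [Nat.floor_lt (mul_nonneg (p0.trans hz.2.1) (by positivity))]
    push_cast
    rw [pow_succ]
    nlinarith [hz.2.2]
  obtain ⟨d1, d2⟩ := pt_spec (k := k) hn hz
  exact ⟨_, d1, d2, hx (⟨_, b1⟩, ⟨_, b2⟩) d1⟩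

theorem tail {ν : Measure ℝ} (h : Law ν) {t : ℝ} (ht : 0 ≤ t) :
    ν {y | ¬ |y| ≤ t} ≤ ENNReal.ofReal (2 * Real.exp (-t ^ 2 / 2)) := by
  have := h.prob
  have h1 := h.sg.measure_ge_le ht
  have h2 := h.sg.neg.measure_ge_le ht
  simp only [NNReal.coe_one, mul_one, Pi.neg_apply] at h1 h2
  have hs : {y : ℝ | ¬ |y| ≤ t} ⊆ {y | t ≤ y} ∪ {y | t ≤ -y} := by
    intro y hy
    rcases lt_abs.1 (not_le.1 hy) with h | h
    · exact Or.inl h.le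
    · exact Or.inr h.le
  rw [← ENNReal.ofReal_toReal (measure_ne_top ν _)]
  refine ENNReal.ofReal_le_ofReal ?_
  have := (measureReal_mono hs).trans (measureReal_union_le (μ := ν) _ _)
  change ν.real _ ≤ _
  linarith

theorem ent (ε : ℝ) (hε : 0 < ε) :
    Vhp (Θ := Θ) fun n E _ x => ∀ a : E.ι, |x a| ≤ (n : ℝ) ^ ε := by
  refine of_bound hε 2 2 ?_
  filter_upwards [ev_rpow hε 2, eventually_ge_atTop 1] with n h2 hn E θ
  have hn' : (0 : ℝ) < n := by exact_mod_cast hn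
  rw [Real.rpow_zero, mul_one] at h2
  have hs : {x : E.ι → ℝ | ¬ ∀ a : E.ι, |x a| ≤ (n : ℝ) ^ ε} =
      ⋃ a, Function.eval a ⁻¹' {y | ¬ |y| ≤ (n : ℝ) ^ ε} := by
    ext x; simp [Function.eval]
  rw [hs, show 2 * (n : ℝ) ^ 2 * Real.exp (-(n : ℝ) ^ ε) =
    (n : ℝ) ^ 2 * (2 * Real.exp (-(n : ℝ) ^ ε)) by ring]
  refine union_le _ _ (by positivity) (by exact_mod_cast E.card) fun a => ?_
  have hm : MeasurableSet {y : ℝ | ¬ |y| ≤ (n : ℝ) ^ ε} :=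
    (measurableSet_le continuous_abs.measurable measurable_const).compl
  unfold Ens.μ
  rw [(measurePreserving_eval E.ν a).measure_preimage hm.nullMeasurableSet]
  refine (tail (E.law a) (by positivity)).trans (ENNReal.ofReal_le_ofReal ?_)
  gcongr
  nlinarith

/-- the numerical heart of `mom` -/
theorem mom_num {c ε : ℝ} (hc : 0 < c) (hε : 0 < ε) (k : ℕ) :
    ∀ᶠ n : ℕ in atTop, ∀ (φ0 : ℝ) (N : ℕ), 1 / (n : ℝ) ^ k ≤ φ0 → N ≤ n ^ 2 →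
      ∃ p : ℕ, 2 ≤ p ∧ ((512 * p ^ 2 * φ0) ^ (2 * p) + 10 ^ 5 * (N + 1) * p ^ 2 *
        ((n : ℝ) ^ k) ^ (2 * p) * (Real.exp (-(n : ℝ) ^ c) + √(Real.exp (-(n : ℝ) ^ c)))) /
        ((n : ℝ) ^ ε * φ0) ^ (2 * p) ≤
        (1 + 4 * 10 ^ 5) * (n : ℝ) ^ 2 * Real.exp (-(n : ℝ) ^ (min (c / 2) (ε / 4))) := by
  set c' := min (c / 2) (ε / 4) with hc'
  have c0 : 0 < c' := lt_min (half_pos hc) (by positivity)
  have c1 : c' ≤ c / 2 := min_le_left _ _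
  have c2 : c' ≤ ε / 4 := min_le_right _ _
  filter_upwards [ev_rpow (show 2 * c' < ε by linarith) (512 * 9 * 3),
    ev_rpow (show c / 2 + c / 4 < c by linarith) (2 * (12 * k / (c / 4) + 7)),
    eventually_ge_atTop 1] with n h1 h2 hn φ0 N hφ hN
  have hn1 : (1 : ℝ) ≤ n := by exact_mod_cast hn
  have hn' : (0 : ℝ) < n := by linarith
  have hk : (0 : ℝ) < (n : ℝ) ^ k := by positivity
  have hφ0 : 0 < φ0 := lt_of_lt_of_le (by positivity) hφ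
  set y := (n : ℝ) ^ c' with hy
  have y1 : 1 ≤ y := Real.one_le_rpow hn1 c0.le
  refine ⟨max 2 ⌈y⌉₊, le_max_left _ _, ?_⟩
  set p := max 2 ⌈y⌉₊ with hp
  have p1 : y ≤ p := (Nat.le_ceil y).trans (by exact_mod_cast le_max_right _ _)
  have p2 : (p : ℝ) ≤ 3 * y := by
    rw [hp, Nat.cast_max]
    refine max_le (by push_cast; linarith) ?_
    have := Nat.ceil_lt_add_one (zero_le_one.trans y1)
    linarith
  have p0 : (0 : ℝ) ≤ p := by positivity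
  have hne : 1 ≤ (n : ℝ) ^ ε := Real.one_le_rpow hn1 hε.le
  have hl : 0 < (n : ℝ) ^ ε * φ0 := by positivity
  rw [add_div]
  -- first term
  have t1 : (512 * p ^ 2 * φ0) ^ (2 * p) / ((n : ℝ) ^ ε * φ0) ^ (2 * p) ≤ Real.exp (-y) := by
    rw [← div_pow]
    have y2 : (n : ℝ) ^ (2 * c') = y ^ 2 := by
      rw [hy, mul_comm, Real.rpow_mul hn'.le, Real.rpow_two]
    rw [y2] at h1
    have e3 : Real.exp 1 ≤ 3 := Real.exp_one_lt_d9.le.trans (by norm_num)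
    have q : 512 * p ^ 2 * φ0 / ((n : ℝ) ^ ε * φ0) ≤ Real.exp (-1) := by
      rw [mul_div_mul_right _ _ hφ0.ne', div_le_iff₀ (by positivity), Real.exp_neg,
        ← div_eq_inv_mul, le_div_iff₀ (Real.exp_pos 1)]
      have : (p : ℝ) ^ 2 ≤ (3 * y) ^ 2 := by gcongr
      calc 512 * (p : ℝ) ^ 2 * Real.exp 1 ≤ 512 * (3 * y) ^ 2 * 3 := by gcongr
        _ = 512 * 9 * 3 * y ^ 2 := by ring
        _ ≤ _ := h1
    calc _ ≤ Real.exp (-1) ^ (2 * p) := by gcongr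
      _ = Real.exp (((2 * p : ℕ) : ℝ) * (-1)) := (Real.exp_nat_mul _ _).symm
      _ ≤ _ := Real.exp_le_exp.2 (by push_cast; linarith)
  -- second term
  have sq : √(Real.exp (-(n : ℝ) ^ c)) = Real.exp (-(n : ℝ) ^ c / 2) := by
    rw [Real.sqrt_eq_iff_mul_self_eq (Real.exp_pos _).le (Real.exp_pos _).le, ← Real.exp_add]
    congr 1; ring
  have nc : 0 ≤ (n : ℝ) ^ c := Real.rpow_nonneg hn'.le _
  have d1 : Real.exp (-(n : ℝ) ^ c) ≤ Real.exp (-(n : ℝ) ^ c / 2) :=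
    Real.exp_le_exp.2 (by linarith)
  have hN' : (N : ℝ) + 1 ≤ 2 * (n : ℝ) ^ 2 := by
    have : (N : ℝ) ≤ (n : ℝ) ^ 2 := by exact_mod_cast hN
    nlinarith
  have l1 : 1 / ((n : ℝ) ^ ε * φ0) ≤ (n : ℝ) ^ k := by
    rw [div_le_iff₀ hl]
    rw [div_le_iff₀ hk] at hφ
    nlinarith [mul_le_mul_of_nonneg_right hne (mul_pos hφ0 hk).le]
  have pe : (p : ℝ) ^ 2 ≤ Real.exp (6 * y) := by
    have : (p : ℝ) ≤ Real.exp (3 * y) := p2.trans (by linarith [Real.add_one_le_exp (3 * y)])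
    calc (p : ℝ) ^ 2 ≤ Real.exp (3 * y) ^ 2 := by gcongr
      _ = _ := by rw [← Real.exp_nat_mul]; congr 1; push_cast; ring
  have lg := Real.log_le_rpow_div hn'.le (show 0 < c / 4 by positivity)
  have lg0 := Real.log_nonneg hn1
  have yc : y ≤ (n : ℝ) ^ (c / 2) := Real.rpow_le_rpow_of_exponent_le hn1 c1
  have n4 : 1 ≤ (n : ℝ) ^ (c / 4) := Real.one_le_rpow hn1 (by positivity)
  rw [Real.rpow_add hn'] at h2
  have be : (((n : ℝ) ^ k) ^ (2 * p)) * ((n : ℝ) ^ k) ^ (2 * p) =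
      Real.exp (4 * k * p * Real.log n) := by
    rw [← pow_add, ← pow_mul, show (4 : ℝ) * k * p = ((k * (2 * p + 2 * p) : ℕ) : ℝ) by
      push_cast; ring, Real.exp_nat_mul, Real.exp_log hn']
  have key : 6 * y + 4 * k * p * Real.log n + -(n : ℝ) ^ c / 2 ≤ -y := by
    have a1 : 4 * k * p * Real.log n ≤
        12 * k / (c / 4) * ((n : ℝ) ^ (c / 2) * (n : ℝ) ^ (c / 4)) := by
      calc 4 * k * p * Real.log n ≤ 4 * k * (3 * (n : ℝ) ^ (c / 2)) * ((n : ℝ) ^ (c / 4) / (c / 4)) := by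
            gcongr; linarith
        _ = _ := by ring
    have a2 : y ≤ (n : ℝ) ^ (c / 2) * (n : ℝ) ^ (c / 4) :=
      yc.trans (le_mul_of_one_le_right (by positivity) n4)
    nlinarith
  have t2 : 10 ^ 5 * (N + 1) * p ^ 2 * ((n : ℝ) ^ k) ^ (2 * p) *
      (Real.exp (-(n : ℝ) ^ c) + √(Real.exp (-(n : ℝ) ^ c))) / ((n : ℝ) ^ ε * φ0) ^ (2 * p) ≤
      4 * 10 ^ 5 * (n : ℝ) ^ 2 * Real.exp (-y) := by
    rw [sq, div_eq_mul_one_div, ← _root_.one_div_pow]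
    calc _ ≤ 10 ^ 5 * (2 * (n : ℝ) ^ 2) * Real.exp (6 * y) * ((n : ℝ) ^ k) ^ (2 * p) *
          (Real.exp (-(n : ℝ) ^ c / 2) + Real.exp (-(n : ℝ) ^ c / 2)) * ((n : ℝ) ^ k) ^ (2 * p) := by
          gcongr
      _ = 4 * 10 ^ 5 * (n : ℝ) ^ 2 * (Real.exp (6 * y) *
          ((((n : ℝ) ^ k) ^ (2 * p)) * ((n : ℝ) ^ k) ^ (2 * p)) * Real.exp (-(n : ℝ) ^ c / 2)) := by
          ring
      _ = 4 * 10 ^ 5 * (n : ℝ) ^ 2 *
          Real.exp (6 * y + 4 * k * p * Real.log n + -(n : ℝ) ^ c / 2) := by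
          rw [be, Real.exp_add, Real.exp_add]
      _ ≤ _ := by gcongr
  have n2 : Real.exp (-y) ≤ (n : ℝ) ^ 2 * Real.exp (-y) :=
    le_mul_of_one_le_left (Real.exp_pos _).le (one_le_pow₀ hn1)
  linarith

theorem mom (h : MomStmt) (X : ∀ n (E : Ens n), Θ n → (E.ι → ℝ) → ℂ) (φ0 : ∀ n, Θ n → ℝ)
    (A : ∀ n, Θ n → Prop) {Gd : ∀ n (E : Ens n), Θ n → (E.ι → ℝ) → Prop} (k : ℕ) (hG : Vhp Gd)
    (hD : ∀ᶠ n : ℕ in atTop, ∀ (E : Ens n) (θ : Θ n), A n θ → 1 / (n : ℝ) ^ k ≤ φ0 n θ ∧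
      ∃ D : MData E.ι, D.X = X n E θ ∧ D.Ok ((n : ℝ) ^ k) ∧ ∀ x, Gd n E θ x → D.Cond (φ0 n θ) x)
    (ε : ℝ) (hε : 0 < ε) :
    Vhp (Θ := Θ) fun n E θ x => A n θ → ‖X n E θ x‖ ≤ (n : ℝ) ^ ε * φ0 n θ := by
  obtain ⟨c, hc, hG⟩ := hG
  refine of_bound (lt_min (half_pos hc) (show 0 < ε / 4 by positivity)) (1 + 4 * 10 ^ 5) 2 ?_
  filter_upwards [hG, hD, mom_num hc hε k, eventually_ge_atTop 1] with n hG hD hnum hn E θ
  have hn1 : (1 : ℝ) ≤ n := by exact_mod_cast hn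
  by_cases hA : A n θ
  · obtain ⟨hφ, D, hX, hOk, hC⟩ := hD E θ hA
    obtain ⟨p, hp, hb⟩ := hnum (φ0 n θ) (Fintype.card E.ι) hφ E.card
    have hφ0 : 0 < φ0 n θ := lt_of_lt_of_le (by positivity) hφ
    have hs : {x | ¬ D.Cond (φ0 n θ) x} ⊆ {x | ¬ Gd n E θ x} := fun x hx hg => hx (hC x hg)
    have := h E.ι E.ν E.law D ((n : ℝ) ^ k) (φ0 n θ) (Real.exp (-(n : ℝ) ^ c))
      ((n : ℝ) ^ ε * φ0 n θ) p hOk (one_le_pow₀ hn1) hφ0 (Real.exp_pos _) (by positivity) hp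
      ((measure_mono hs).trans (hG E θ))
    refine le_trans (measure_mono ?_) (this.trans (ENNReal.ofReal_le_ofReal hb))
    intro x hx
    rw [hX]
    exact not_le.1 fun h' => hx fun _ => h'
  · have : {x | ¬ (A n θ → ‖X n E θ x‖ ≤ (n : ℝ) ^ ε * φ0 n θ)} = ∅ := by
      ext x; simp [hA]
    rw [this]; simp

end Vh15

/-- **L4** -/
theorem vhpApi (h : MomStmt) : VhpApi where
  of_all := Vh15.of_all
  mono := Vh15.mono
  and := Vh15.and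
  comp := Vh15.comp
  all := Vh15.all
  allS := Vh15.allS
  grid := Vh15.grid
  ent := Vh15.ent
  mom := Vh15.mom h

end Crest.Agent.T157.Ll
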