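import Crest.Agent.T157.LlRes_91
import Crest.Agent.T157.LlMom_91
import Crest.Agent.T157.LlMsc_14
import Crest.Agent.T157.LlVhp_15
import Crest.Agent.T157.LlP_23
import Crest.Agent.T157.LlApr_75
import Crest.Agent.T157.LlAvg_79
import Crest.Agent.T157.LlIso_32
import Crest.Agent.T157.LlEdge_84
import Crest.Agent.T157.LlCnt_59
import Crest.Agent.T157.LlInst_18

/-!
# Row 157, part E: local law — assembly from `QDetStmt` (helper91)
-/

set_option autoImplicit false

namespace Crest.Agent.T157.Ll

theorem vhp : VhpApi := vhpApi momStmt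

theorem all_of_qDet (hQ : QDetStmt) :
    AprStmt ∧ PStmt ∧ AvgStmt ∧ IsoStmt ∧ EdgeStmt ∧ CntStmt ∧ DelStmt :=
  have hA := apr resApi vhp hQ
  have hP := pStmt resApi mscApi vhp (LlP.pDet resApi) phiStmt hA
  have hAv := avg resApi mscApi vhp hP
  have hE := edge resApi mscApi vhp hP normStmt
  ⟨hA, hP, hAv, iso resApi mscApi vhp hQ hA hAv, hE, cnt_stmt resApi mscApi vhp hA hAv hE,
    del resApi vhp hA normStmt⟩

end Crest.Agent.T157.Ll
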