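import Crest.Agent.T157.LmDef_76

/-!
# Row 157, block B/S5 (helper78): gauge systems, reversibility and orbits
-/

set_option autoImplicit false
set_option linter.all false

noncomputable section

namespace Crest.Agent.T157.Lm.Bas

open MeasureTheory Real Filter Topology Finset
open Crest.Agent.R238.Gap (E)
open Crest.Agent.R253.Meh74 (gam)
open Crest.Agent.T157.E (Cube sv mean gen prob siteM gv)
open Crest.Agent.T157.Chain22 (sg)
open Crest.Agent.T157.Rn (fl)
open Crest.Agent.T157.Pl (one cmul gauge IsSign)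

variable {m n : ℕ} (S : GS m n)

/-! ### algebra -/

theorem chi_one (e : Fin m) : S.chi (one n) e = 1 := by simp [GS.chi, Pl.sv_one]

theorem chi_cmul (σ τ : Cube n) (e : Fin m) : S.chi (cmul σ τ) e = S.chi σ e * S.chi τ e := by
  simp only [GS.chi, Pl.sv_cmul, ← Finset.prod_mul_distrib]
  exact Finset.prod_congr rfl fun k _ => by split_ifs <;> simp

theorem chi_sq (σ : Cube n) (e : Fin m) : S.chi σ e * S.chi σ e = 1 := by
  rw [← chi_cmul, Pl.cmul_self, chi_one]

theorem chi_sign (σ : Cube n) : IsSign (S.chi σ) := fun e => mul_self_eq_one_iff.1 (chi_sq S σ e)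

theorem chi_fl (k : Fin n) (e : Fin m) :
    S.chi (fl (one n) k) e = if S.inc k e = true then -1 else 1 := by
  rw [GS.chi, Finset.prod_eq_single k]
  · have : sv (fl (one n) k) k = -1 := by
      have h := Pl.isSign_sv (fl (one n) k) k
      have h1 : sv (one n) k = 1 := by rw [Pl.sv_one]; rfl
      revert h1
      simp [sv, fl, one, Crest.ProbabilityR.SpinGlassDynamics.spin]
    rw [this]
  · intro j _ hj
    have : sv (fl (one n) k) j = sv (one n) j := by simp [sv, fl, hj]
    rw [this, Pl.sv_one]; simp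
  · simp

theorem gz_apply (σ : Cube n) (z : E m) (e : Fin m) :
    S.gz σ z e = S.chi σ e * (z e + S.α e) - S.α e := rfl

theorem gz_gz (σ τ : Cube n) (z : E m) : S.gz σ (S.gz τ z) = S.gz (cmul σ τ) z := by
  ext e; simp only [gz_apply, chi_cmul]; ring

theorem gz_one (z : E m) : S.gz (one n) z = z := by
  ext e; simp only [gz_apply, chi_one]; ring

theorem gz_self (σ : Cube n) (z : E m) : S.gz σ (S.gz σ z) = z := by
  rw [gz_gz, Pl.cmul_self, gz_one]

theorem R_R (k : Fin n) (z : E m) : S.R k (S.R k z) = z := gz_self S _ z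

theorem w_gz (σ : Cube n) (z : E m) : S.w (S.gz σ z) = fun τ => S.w z (cmul σ τ) := by
  funext τ
  simp only [GS.w, gz_apply, chi_cmul]
  congr 1
  exact Finset.sum_congr rfl fun e _ => by ring

theorem orb_gz (F : E m → ℝ) (σ : Cube n) (z : E m) :
    S.orb F (S.gz σ z) = fun τ => S.orb F z (cmul σ τ) := by
  funext τ; simp only [GS.orb, gz_gz, Pl.cmul_comm]

theorem orb_one (F : E m → ℝ) (z : E m) : S.orb F z (one n) = F z := by rw [GS.orb, gz_one]

theorem prob_gz (σ τ : Cube n) (z : E m) :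
    prob (S.w (S.gz σ z)) τ = prob (S.w z) (cmul σ τ) := by
  rw [w_gz]; exact Pl.prob_comp (gauge σ) (S.w z) τ

theorem R_apply' (k : Fin n) (z : E m) (e : Fin m) :
    S.R k z e = if S.inc k e = true then -z e - 2 * S.α e else z e := by
  rw [GS.R, gz_apply, chi_fl]; split_ifs <;> ring

theorem h_R (k : Fin n) (z : E m) : S.h k (S.R k z) = -S.h k z := by
  simp only [GS.h, ← Finset.sum_neg_distrib]
  refine Finset.sum_congr rfl fun e _ => ?_
  rw [R_apply']; split_ifs <;> ring

theorem w_fl (k : Fin n) (z : E m) :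
    S.w z (fl (one n) k) = exp (-(2 * S.h k z)) * S.w z (one n) := by
  simp only [GS.w, GS.h, ← exp_add, chi_fl, chi_one, Finset.mul_sum, ← Finset.sum_neg_distrib,
    ← Finset.sum_add_distrib]
  congr 1
  exact Finset.sum_congr rfl fun e _ => by split_ifs <;> ring

theorem c_eq (k : Fin n) (z : E m) :
    S.c k z = exp (-(2 * S.h k z)) / (1 + exp (-(2 * S.h k z))) := by
  have h1 : exp (-(2 * S.h k z)) = exp (-S.h k z) / exp (S.h k z) := by
    rw [← exp_sub]; congr 1; ring
  have := exp_pos (S.h k z)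
  have := exp_pos (-S.h k z)
  rw [GS.c, tanh_eq_sinh_div_cosh, sinh_eq, cosh_eq, h1]
  field_simp
  ring

theorem c_R (k : Fin n) (z : E m) : exp (-(2 * S.h k z)) * S.c k (S.R k z) = S.c k z := by
  have h1 : exp (-(2 * -S.h k z)) = (exp (-(2 * S.h k z)))⁻¹ := by
    rw [← exp_neg]; congr 1; ring
  have := exp_pos (-(2 * S.h k z))
  rw [c_eq, c_eq, h_R, h1]
  field_simp
  ring

theorem c_nonneg (k : Fin n) (z : E m) : 0 ≤ S.c k z := by rw [c_eq]; positivity

theorem c_le_one (k : Fin n) (z : E m) : S.c k z ≤ 1 := by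
  rw [c_eq, div_le_one (by positivity)]; linarith

/-! ### measurability -/

theorem continuous_gz (σ : Cube n) : Continuous (S.gz σ) := by
  unfold GS.gz; fun_prop

theorem continuous_R (k : Fin n) : Continuous (S.R k) := continuous_gz S _

theorem continuous_h (k : Fin n) : Continuous (S.h k) := by
  unfold GS.h
  refine continuous_finset_sum _ fun e _ => ?_
  split_ifs <;> fun_prop

theorem continuous_c (k : Fin n) : Continuous (S.c k) := by
  have := continuous_h S k
  rw [show S.c k = _ from funext (c_eq S k)]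
  exact Continuous.div (by fun_prop) (by fun_prop) fun z => by positivity

theorem continuous_w (σ : Cube n) : Continuous fun z => S.w z σ := by
  unfold GS.w; fun_prop

theorem Z_pos (z : E m) : 0 < ∑ τ, S.w z τ :=
  Finset.sum_pos (fun τ _ => S.w_pos z τ) Finset.univ_nonempty

theorem continuous_prob (σ : Cube n) : Continuous fun z => prob (S.w z) σ :=
  (continuous_w S σ).div (continuous_finset_sum _ fun τ _ => continuous_w S τ)
    fun z => (Z_pos S z).ne'

theorem prob_nonneg (z : E m) (σ : Cube n) : 0 ≤ prob (S.w z) σ :=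
  div_nonneg (S.w_pos z σ).le (Z_pos S z).le

theorem prob_le_one (z : E m) (σ : Cube n) : prob (S.w z) σ ≤ 1 :=
  (div_le_one (Z_pos S z)).2 (Finset.single_le_sum (fun τ _ => (S.w_pos z τ).le) (mem_univ σ))

theorem sum_prob (z : E m) : ∑ σ, prob (S.w z) σ = 1 := by
  simp only [prob, ← Finset.sum_div]; exact div_self (Z_pos S z).ne'

/-! ### Cameron–Martin -/

theorem mp_toLp : MeasurePreserving (MeasurableEquiv.toLp 2 (Fin m → ℝ)) (gv (Fin m)) (gam m) :=
  ⟨(MeasurableEquiv.toLp 2 (Fin m → ℝ)).measurable, ProbabilityTheory.map_pi_eq_stdGaussian⟩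

theorem dens (σ : Cube n) (g : Fin m → ℝ) :
    S.w (WithLp.toLp 2 g) σ / S.w (WithLp.toLp 2 g) (one n) =
      (Pl.MM false (S.chi σ * S.α - S.α))⁻¹ * exp (g ⬝ᵥ (S.chi σ * S.α - S.α)) := by
  rw [Pl.MM_false, GS.w, GS.w, ← exp_sub, ← exp_neg, ← exp_add]
  congr 1
  simp only [dotProduct, chi_one, Finset.sum_div, ← Finset.sum_sub_distrib,
    ← Finset.sum_neg_distrib, ← Finset.sum_add_distrib, Pi.sub_apply, Pi.mul_apply]
  refine Finset.sum_congr rfl fun e _ => ?_
  have := chi_sq S σ e
  linear_combination (S.α e ^ 2 / 2) * this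

theorem gz_toLp (σ : Cube n) (g : Fin m → ℝ) : S.gz σ (WithLp.toLp 2 g) =
    WithLp.toLp 2 (S.chi σ * g + (S.chi σ * S.α - S.α)) := by
  ext e; simp only [gz_apply, Pi.add_apply, Pi.sub_apply, Pi.mul_apply]; ring

/-- **Cameron–Martin** for the gauge transformations, any `F` -/
theorem cm (σ : Cube n) (F : E m → ℝ) : ∫ z, F (S.gz σ z) ∂gam m =
    ∫ z, S.w z σ / S.w z (one n) * F z ∂gam m := by
  set a := S.chi σ * S.α - S.α with ha
  rw [← mp_toLp.integral_comp', ← mp_toLp.integral_comp']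
  have h1 := Pl.integral_exp_mul false a fun g => F (WithLp.toLp 2 g)
  rw [Pl.integral_tilted_false, Pl.law_false] at h1
  have h2 := (Pl.mp_sign_law false (chi_sign S σ)).integral_comp (chi_sign S σ).emb
    fun g => F (WithLp.toLp 2 (g + a))
  rw [Pl.law_false] at h2
  simp only [MeasurableEquiv.toLp_apply, dens, gz_toLp, mul_assoc]
  rw [integral_const_mul, ← ha, h1, h2, inv_mul_cancel_left₀ (Pl.MM_pos _ _).ne']

theorem cm_int (σ : Cube n) (F : E m → ℝ) : Integrable (fun z => F (S.gz σ z)) (gam m) ↔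
    Integrable (fun z => S.w z σ / S.w z (one n) * F z) (gam m) := by
  set a := S.chi σ * S.α - S.α with ha
  rw [← mp_toLp.integrable_comp_emb (MeasurableEquiv.measurableEmbedding _),
    ← mp_toLp.integrable_comp_emb (MeasurableEquiv.measurableEmbedding _)]
  have h1 := (Pl.integrable_exp_mul false a fun g => F (WithLp.toLp 2 g)).trans
    (Pl.integrable_tilted_false _ _)
  have h2 := (Pl.mp_sign_law false (chi_sign S σ)).integrable_comp_emb (chi_sign S σ).emb
    (g := fun g => F (WithLp.toLp 2 (g + a)))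
  rw [Pl.law_false] at h1 h2
  simp only [Function.comp_def, MeasurableEquiv.toLp_apply, dens, gz_toLp, mul_assoc] at h2 ⊢
  rw [integrable_const_mul_iff (IsUnit.mk0 _ (inv_pos.2 (Pl.MM_pos _ _)).ne'), ← ha, h1, h2]

theorem int_bdd {φ F : E m → ℝ} (hφ : Continuous φ) (h0 : ∀ z, 0 ≤ φ z) (h1 : ∀ z, φ z ≤ 1)
    (hF : Integrable F (gam m)) : Integrable (fun z => φ z * F z) (gam m) :=
  hF.bdd_mul (c := 1) hφ.aestronglyMeasurable
    (Eventually.of_forall fun z => by rw [Real.norm_of_nonneg (h0 z)]; exact h1 z)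

/-- reversibility, any `F` -/
theorem rev_eq (k : Fin n) (F : E m → ℝ) :
    ∫ z, S.c k z * F (S.R k z) ∂gam m = ∫ z, S.c k z * F z ∂gam m := by
  have h := cm S (fl (one n) k) fun z => S.c k (S.R k z) * F z
  simp only [w_fl, mul_div_cancel_right₀ _ (S.w_pos _ _).ne', ← mul_assoc, c_R] at h
  have e : ∀ z, S.gz (fl (one n) k) z = S.R k z := fun _ => rfl
  simpa only [e, R_R] using h

theorem rev_int (k : Fin n) (F : E m → ℝ) : Integrable (fun z => S.c k z * F (S.R k z)) (gam m) ↔
    Integrable (fun z => S.c k z * F z) (gam m) := by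
  have h := cm_int S (fl (one n) k) fun z => S.c k (S.R k z) * F z
  simp only [w_fl, mul_div_cancel_right₀ _ (S.w_pos _ _).ne', ← mul_assoc, c_R] at h
  have e : ∀ z, S.gz (fl (one n) k) z = S.R k z := fun _ => rfl
  simpa only [e, R_R] using h

theorem prob_ratio (σ : Cube n) (z : E m) :
    S.w z σ / S.w z (one n) * prob (S.w z) (one n) = prob (S.w z) σ := by
  have := S.w_pos z (one n)
  simp only [prob]; field_simp

theorem orb_term (σ : Cube n) (F : E m → ℝ) :
    ∫ z, prob (S.w z) σ * S.orb F z σ ∂gam m = ∫ z, prob (S.w z) σ * F z ∂gam m := by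
  have h := cm S σ fun z => prob (S.w z) (one n) * F z
  simpa only [prob_gz, Pl.cmul_one, ← mul_assoc, prob_ratio, GS.orb] using h

theorem orb_term_int (σ : Cube n) (F : E m → ℝ) :
    Integrable (fun z => prob (S.w z) σ * S.orb F z σ) (gam m) ↔
      Integrable (fun z => prob (S.w z) σ * F z) (gam m) := by
  have h := cm_int S σ fun z => prob (S.w z) (one n) * F z
  simpa only [prob_gz, Pl.cmul_one, ← mul_assoc, prob_ratio, GS.orb] using h

/-! ### the fields of `BasStmt` -/

theorem R_apply : ∀ m n (S : GS m n) k z e, S.R k z e =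
    if S.inc k e = true then -z e - 2 * S.α e else z e := fun _ _ S => R_apply' S

theorem rev : ∀ m n (S : GS m n) k (F : E m → ℝ), Measurable F → Integrable F (gam m) →
    Integrable (fun z => S.c k z * F (S.R k z)) (gam m) ∧
      ∫ z, S.c k z * F (S.R k z) ∂gam m = ∫ z, S.c k z * F z ∂gam m :=
  fun _ _ S k F _ hF => ⟨(rev_int S k F).2
    (int_bdd (continuous_c S k) (c_nonneg S k) (c_le_one S k) hF), rev_eq S k F⟩

theorem orb : ∀ m n (S : GS m n) (F : E m → ℝ), Measurable F → Integrable F (gam m) →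
    Integrable (fun z => mean (S.w z) (S.orb F z)) (gam m) ∧
      ∫ z, mean (S.w z) (S.orb F z) ∂gam m = ∫ z, F z ∂gam m := by
  intro m n S F _ hF
  have h1 : ∀ σ, Integrable (fun z => prob (S.w z) σ * F z) (gam m) := fun σ =>
    int_bdd (continuous_prob S σ) (prob_nonneg S · σ) (prob_le_one S · σ) hF
  have h2 := fun σ => (orb_term_int S σ F).2 (h1 σ)
  refine ⟨integrable_finset_sum _ fun σ _ => h2 σ, ?_⟩
  simp only [mean]
  rw [integral_finset_sum _ fun σ _ => h2 σ]
  simp only [orb_term]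
  rw [← integral_finset_sum _ fun σ _ => h1 σ]
  simp only [← Finset.sum_mul, sum_prob, one_mul]

theorem L_eq_gen (F : E m → ℝ) (z : E m) : S.L F z = gen (S.w z) (S.orb F z) (one n) := by
  refine Finset.sum_congr rfl fun k _ => ?_
  have e1 : Function.update (one n) k true = one n := Function.update_eq_self k (one n)
  have e2 : Function.update (one n) k false = fl (one n) k := rfl
  have := S.w_pos z (one n)
  have := exp_pos (-(2 * S.h k z))
  rw [siteM, e1, e2, w_fl, c_eq, orb_one, GS.D, show S.orb F z (fl (one n) k) = F (S.R k z) from rfl]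
  field_simp
  ring

theorem orb_L : ∀ m n (S : GS m n) F z, S.orb (S.L F) z = gen (S.w z) (S.orb F z) := by
  intro m n S F z
  funext σ
  rw [GS.orb, L_eq_gen, w_gz, orb_gz, Pl.gen_gauge, Pl.cmul_one]

theorem orb_T : ∀ m n (S : GS m n) t F z, 0 < n → S.orb (S.T t F) z = sg (S.w z) t (S.orb F z) := by
  intro m n S t F z _
  funext σ
  rw [GS.orb, GS.T, w_gz, orb_gz]
  simp only [sg, Pl.hbCt_gauge, Pl.cmul_one]
  exact Equiv.sum_comp (gauge σ) fun y => E.hbCt (S.w z) t σ y * S.orb F z y

theorem L_sum {ι : Type} (s : Finset ι) (a : ι → ℝ) (G : ι → E m → ℝ) (z : E m) :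
    S.L (fun z => ∑ j ∈ s, a j * G j z) z = ∑ j ∈ s, a j * S.L (G j) z := by
  simp only [GS.L, GS.D, ← Finset.sum_sub_distrib, Finset.mul_sum]
  rw [Finset.sum_comm]
  exact Finset.sum_congr rfl fun j _ => Finset.sum_congr rfl fun k _ => by ring

theorem L_eq_P (hn : 0 < n) (G : E m → ℝ) (z : E m) : S.L G z = n * (S.P G z - G z) := by
  have : (n : ℝ) ≠ 0 := by positivity
  rw [GS.P]; field_simp; ring

theorem res : ∀ m n (S : GS m n) ζ F z, 0 < n → 0 < ζ → ζ * S.Rz ζ F z - S.L (S.Rz ζ F) z =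
    F z - (n / (ζ + n)) ^ n ^ 2 * S.P^[n ^ 2] F z := by
  intro m n S ζ F z hn hζ
  have h0 : ζ + n ≠ 0 := by positivity
  have h1 := Finset.sum_range_sub' (fun j => (n / (ζ + n) : ℝ) ^ j * S.P^[j] F z) (n ^ 2)
  simp only [pow_zero, one_mul, Function.iterate_zero, id] at h1
  rw [← h1, show S.Rz ζ F = fun z => ∑ j ∈ range (n ^ 2), (n / (ζ + n)) ^ j / (ζ + n) * S.P^[j] F z
    from rfl, L_sum, Finset.mul_sum, ← Finset.sum_sub_distrib]
  refine Finset.sum_congr rfl fun j _ => ?_
  rw [L_eq_P S hn, Function.iterate_succ_apply', pow_succ]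
  field_simp
  ring

end Crest.Agent.T157.Lm.Bas

end
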