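import Crest.Agent.T157.LmBasA_78

/-!
# Row 157, block B/S5 (helper5): the `L²` part of `BasStmt`
-/

set_option autoImplicit false

noncomputable section

namespace Crest.Agent.T157.Lm

open MeasureTheory Real Filter Topology Finset
open Crest.Agent.R238.Gap (E)
open Crest.Agent.R253.Meh74 (gam)
open Crest.Agent.T157.E (Cube sv mean gen)
open Crest.Agent.T157.Chain22 (sg)
open Crest.Agent.T157.Pl (one)

/-- the change-of-measure part of `BasStmt` -/
structure BasA : Prop where
  R_apply : ∀ m n (S : GS m n) k z e, S.R k z e =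
    if S.inc k e = true then -z e - 2 * S.α e else z e
  rev : ∀ m n (S : GS m n) k (F : E m → ℝ), Measurable F → Integrable F (gam m) →
    Integrable (fun z => S.c k z * F (S.R k z)) (gam m) ∧
      ∫ z, S.c k z * F (S.R k z) ∂gam m = ∫ z, S.c k z * F z ∂gam m
  orb : ∀ m n (S : GS m n) (F : E m → ℝ), Measurable F → Integrable F (gam m) →
    Integrable (fun z => mean (S.w z) (S.orb F z)) (gam m) ∧
      ∫ z, mean (S.w z) (S.orb F z) ∂gam m = ∫ z, F z ∂gam m
  orb_L : ∀ m n (S : GS m n) F z, S.orb (S.L F) z = gen (S.w z) (S.orb F z)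
  orb_T : ∀ m n (S : GS m n) t F z, 0 < n → S.orb (S.T t F) z = sg (S.w z) t (S.orb F z)
  res : ∀ m n (S : GS m n) ζ F z, 0 < n → 0 < ζ → ζ * S.Rz ζ F z - S.L (S.Rz ζ F) z =
    F z - (n / (ζ + n)) ^ n ^ 2 * S.P^[n ^ 2] F z

namespace B5

variable {m n : ℕ} {S : GS m n} {k : Fin n} {F G : E m → ℝ}

/-! ### measurability -/

theorem cont_gz (σ : Cube n) : Continuous (S.gz σ) :=
  (PiLp.continuous_toLp 2 _).comp (continuous_pi fun e => by fun_prop)
theorem meas_gz (σ : Cube n) : Measurable (S.gz σ) := (cont_gz σ).measurable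
theorem meas_R : Measurable (S.R k) := meas_gz _
theorem cont_h : Continuous (S.h k) :=
  continuous_finsetSum _ fun e _ => by split_ifs <;> fun_prop
theorem cont_tanh : Continuous tanh := by
  have : tanh = fun x => sinh x / cosh x := funext tanh_eq_sinh_div_cosh
  rw [this]
  exact continuous_sinh.div continuous_cosh fun x => (cosh_pos x).ne'
theorem cont_c : Continuous (S.c k) := (continuous_const.sub (cont_tanh.comp cont_h)).div_const 2
theorem meas_c : Measurable (S.c k) := cont_c.measurable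
theorem c_pos (z : E m) : 0 < S.c k z := by
  unfold GS.c; linarith [tanh_lt_one (S.h k z)]
theorem c_lt (z : E m) : S.c k z < 1 := by
  unfold GS.c; linarith [neg_one_lt_tanh (S.h k z)]
theorem cont_w (σ : Cube n) : Continuous fun z => S.w z σ := by unfold GS.w; fun_prop
theorem meas_T (t : ℝ) (hF : Measurable F) : Measurable (S.T t F) :=
  Finset.measurable_sum _ fun y _ =>
    (Rec.measurable_hbCt (fun x => (cont_w x).measurable) t _ y).mul (hF.comp (meas_gz y))

/-! ### square integrable functions -/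

theorem sq_nn (F : E m → ℝ) : 0 ≤ sq F := integral_nonneg fun _ => sq_nonneg _
theorem int_sq (h : M2 F) : Integrable (fun z => F z ^ 2) (gam m) := h.2.integrable_sq
theorem int_mul (h : M2 F) (h' : M2 G) : Integrable (fun z => F z * G z) (gam m) :=
  h.2.integrable_mul h'.2
theorem m2_of (hF : Measurable F) {g : E m → ℝ} (hg : Integrable g (gam m))
    (h : ∀ z, F z ^ 2 ≤ g z) : M2 F ∧ sq F ≤ ∫ z, g z ∂gam m := by
  have i : Integrable (fun z => F z ^ 2) (gam m) :=
    hg.mono' (hF.pow_const 2).aestronglyMeasurable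
      (ae_of_all _ fun z => by rw [norm_of_nonneg (sq_nonneg _)]; exact h z)
  exact ⟨⟨hF, (memLp_two_iff_integrable_sq hF.aestronglyMeasurable).2 i⟩, integral_mono i hg h⟩
theorem m2_add (h : M2 F) (h' : M2 G) : M2 fun z => F z + G z := ⟨h.1.add h'.1, h.2.add h'.2⟩
theorem m2_sub (h : M2 F) (h' : M2 G) : M2 fun z => F z - G z := ⟨h.1.sub h'.1, h.2.sub h'.2⟩
theorem m2_mul (a : ℝ) (h : M2 F) : M2 fun z => a * F z := ⟨h.1.const_mul a, h.2.const_mul a⟩
theorem m2_sum {ι : Type*} (s : Finset ι) {f : ι → E m → ℝ} (h : ∀ i ∈ s, M2 (f i)) :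
    M2 fun z => ∑ i ∈ s, f i z :=
  ⟨Finset.measurable_sum _ fun i hi => (h i hi).1, memLp_finsetSum _ fun i hi => (h i hi).2⟩

theorem int_c {f : E m → ℝ} (h : Integrable f (gam m)) :
    Integrable (fun z => S.c k z * f z) (gam m) :=
  h.bdd_mul (c := 1) meas_c.aestronglyMeasurable
    (ae_of_all _ fun z => by rw [norm_of_nonneg (c_pos z).le]; exact (c_lt z).le)

theorem m2_c (h : M2 F) : M2 fun z => S.c k z * F z :=
  (m2_of (F := fun z => S.c k z * F z) (meas_c.mul h.1) (int_sq h) fun z => by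
    rw [mul_pow]
    exact mul_le_of_le_one_left (sq_nonneg _) (pow_le_one₀ (c_pos z).le (c_lt z).le)).1

theorem fatou {f : ℕ → E m → ℝ} {g : E m → ℝ} {B : ℝ} (hi : ∀ N, Integrable (f N) (gam m))
    (hm : ∀ N, Measurable (f N)) (h0 : ∀ N z, 0 ≤ f N z) (hg : Measurable g)
    (lim : ∀ z, Tendsto (fun N => f N z) atTop (𝓝 (g z))) (hB : ∀ N, ∫ z, f N z ∂gam m ≤ B) :
    Integrable g (gam m) ∧ ∫ z, g z ∂gam m ≤ B := by
  have g0 : ∀ z, 0 ≤ g z := fun z => ge_of_tendsto' (lim z) fun N => h0 N z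
  have B0 : 0 ≤ B := (integral_nonneg (h0 0)).trans (hB 0)
  have h1 : ∫⁻ z, ENNReal.ofReal (g z) ∂gam m ≤ ENNReal.ofReal B := by
    have e : ∀ z, ENNReal.ofReal (g z) = liminf (fun N => ENNReal.ofReal (f N z)) atTop :=
      fun z => (ENNReal.tendsto_ofReal (lim z)).liminf_eq.symm
    simp only [e]
    refine (lintegral_liminf_le fun N => (hm N).ennreal_ofReal).trans
      (liminf_le_of_frequently_le' (Frequently.of_forall fun N => ?_))
    rw [← ofReal_integral_eq_lintegral_ofReal (hi N) (ae_of_all _ (h0 N))]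
    exact ENNReal.ofReal_le_ofReal (hB N)
  have i : Integrable g (gam m) :=
    (lintegral_ofReal_ne_top_iff_integrable hg.aestronglyMeasurable (ae_of_all _ g0)).1
      (h1.trans_lt ENNReal.ofReal_lt_top).ne
  rw [← ofReal_integral_eq_lintegral_ofReal i (ae_of_all _ g0)] at h1
  exact ⟨i, (ENNReal.ofReal_le_ofReal_iff B0).1 h1⟩

theorem jensen {ι : Type*} (s : Finset ι) {θ : ι → ℝ} (h : ∀ i, 0 ≤ θ i) (a : ι → ℝ) :
    (∑ i ∈ s, θ i * a i) ^ 2 ≤ (∑ i ∈ s, θ i) * ∑ i ∈ s, θ i * a i ^ 2 :=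
  sum_sq_le_sum_mul_sum_of_sq_le_mul s (fun i _ => h i)
    (fun i _ => mul_nonneg (h i) (sq_nonneg _)) fun i _ => le_of_eq (by ring)

variable (A : BasA)
include A

theorem RR (z : E m) : S.R k (S.R k z) = z := by
  ext e
  simp only [A.R_apply]
  split_ifs <;> ring

theorem rev_sq (h : M2 F) : Integrable (fun z => S.c k z * F (S.R k z) ^ 2) (gam m) ∧
    ∫ z, S.c k z * F (S.R k z) ^ 2 ∂gam m = ∫ z, S.c k z * F z ^ 2 ∂gam m :=
  A.rev m n S k _ (h.1.pow_const 2) (int_sq h)

theorem m2_cR (h : M2 F) : M2 fun z => S.c k z * F (S.R k z) :=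
  (m2_of (F := fun z => S.c k z * F (S.R k z)) (meas_c.mul (h.1.comp meas_R))
    (rev_sq (S := S) (k := k) A h).1 fun z => by
    have a : 0 < S.c k z := c_pos z
    have b : S.c k z < 1 := c_lt z
    rw [mul_pow]
    exact mul_le_mul_of_nonneg_right (by nlinarith) (sq_nonneg _)).1

/-- reversibility for functions that are only integrable against the rate -/
theorem rev' {f : E m → ℝ} (hf : Measurable f) (h1 : Integrable (fun z => S.c k z * f z) (gam m))
    (h2 : Integrable (fun z => S.c k z * f (S.R k z)) (gam m)) :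
    ∫ z, S.c k z * f (S.R k z) ∂gam m = ∫ z, S.c k z * f z ∂gam m := by
  let τ : ℕ → ℝ → ℝ := fun N u => if |u| ≤ N then u else 0
  have τm : ∀ N, Measurable (τ N) := fun N =>
    Measurable.ite (measurableSet_le (by fun_prop) measurable_const) measurable_id measurable_const
  have τb : ∀ N u, |τ N u| ≤ |u| ∧ |τ N u| ≤ N := fun N u => by
    simp only [τ]; split_ifs with h
    · exact ⟨le_rfl, h⟩
    · simp
  have τl : ∀ u, Tendsto (fun N => τ N u) atTop (𝓝 u) := fun u =>
    tendsto_const_nhds.congr' <| (tendsto_natCast_atTop_atTop.eventually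
      (eventually_ge_atTop |u|)).mono fun N hN => (if_pos hN).symm
  have key : ∀ g : E m → ℝ, Measurable g → Integrable (fun z => S.c k z * g z) (gam m) →
      Tendsto (fun N => ∫ z, S.c k z * τ N (g z) ∂gam m) atTop
        (𝓝 (∫ z, S.c k z * g z ∂gam m)) := fun g hg hi =>
    tendsto_integral_of_dominated_convergence _
      (fun N => (meas_c.mul ((τm N).comp hg)).aestronglyMeasurable) hi.norm
      (fun N => ae_of_all _ fun z => by
        rw [norm_mul, norm_mul]
        exact mul_le_mul_of_nonneg_left (τb N _).1 (norm_nonneg _))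
      (ae_of_all _ fun z => (τl _).const_mul _)
  refine tendsto_nhds_unique (key _ (hf.comp meas_R) h2) ((key f hf h1).congr fun N => ?_)
  exact (A.rev m n S k (fun z => τ N (f z)) ((τm N).comp hf)
    (Integrable.of_bound ((τm N).comp hf).aestronglyMeasurable N
      (ae_of_all _ fun z => (τb N _).2))).2.symm

theorem int_FR (h : M2 F) (h' : M2 G) :
    Integrable (fun z => S.c k z * (F z * G (S.R k z))) (gam m) :=
  (int_mul h (m2_cR (S := S) (k := k) A h')).congr (ae_of_all _ fun z => by ring)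

theorem rev_RR (h : M2 F) (h' : M2 G) :
    Integrable (fun z => S.c k z * (F (S.R k z) * G (S.R k z))) (gam m) ∧
      ∫ z, S.c k z * (F (S.R k z) * G (S.R k z)) ∂gam m = ∫ z, S.c k z * (F z * G z) ∂gam m :=
  A.rev m n S k (fun z => F z * G z) (h.1.mul h'.1) (int_mul h h')

theorem rev_FR (h : M2 F) (h' : M2 G) : ∫ z, S.c k z * (G z * F (S.R k z)) ∂gam m =
    ∫ z, S.c k z * (F z * G (S.R k z)) ∂gam m := by
  have := rev' (S := S) (k := k) A (f := fun z => F z * G (S.R k z))
    (h.1.mul (h'.1.comp meas_R)) (int_FR A h h')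
    ((int_FR (S := S) (k := k) A h' h).congr (ae_of_all _ fun z => by simp only [RR A, mul_comm]))
  rw [← this]
  simp only [RR A, mul_comm]

theorem m2_cD (h : M2 F) : M2 fun z => S.c k z * S.D k F z := by
  simpa only [GS.D, mul_sub] using m2_sub (m2_cR A h) (m2_c h)

theorem m2_L (h : M2 F) : M2 (S.L F) := m2_sum _ fun _ _ => m2_cD A h

theorem En_k (h : M2 F) (h' : M2 G) :
    Integrable (fun z => S.c k z * (S.D k F z * S.D k G z)) (gam m) ∧
      ∫ z, S.c k z * (S.D k F z * S.D k G z) ∂gam m =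
        -2 * ∫ z, F z * (S.c k z * S.D k G z) ∂gam m := by
  obtain ⟨i1, e1⟩ := rev_RR (S := S) (k := k) A h h'
  have i2 := int_FR (S := S) (k := k) A h h'
  have i3 := int_FR (S := S) (k := k) A h' h
  have i4 := int_c (S := S) (k := k) (int_mul h h')
  have e2 := rev_FR (S := S) (k := k) A h h'
  have e : (fun z => S.c k z * (S.D k F z * S.D k G z)) = fun z =>
      S.c k z * (F (S.R k z) * G (S.R k z)) - S.c k z * (F z * G (S.R k z)) -
        S.c k z * (G z * F (S.R k z)) + S.c k z * (F z * G z) := by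
    funext z; simp only [GS.D]; ring
  have e' : (fun z => F z * (S.c k z * S.D k G z)) = fun z =>
      S.c k z * (F z * G (S.R k z)) - S.c k z * (F z * G z) := by
    funext z; simp only [GS.D]; ring
  have j1 : Integrable (fun z => S.c k z * (F (S.R k z) * G (S.R k z)) -
      S.c k z * (F z * G (S.R k z))) (gam m) := i1.sub i2
  have j2 : Integrable (fun z => S.c k z * (F (S.R k z) * G (S.R k z)) -
      S.c k z * (F z * G (S.R k z)) - S.c k z * (G z * F (S.R k z))) (gam m) := j1.sub i3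
  rw [e, e', integral_add j2 i4, integral_sub j1 i3, integral_sub i1 i2, integral_sub i2 i4, e1, e2]
  exact ⟨j2.add i4, by ring⟩

theorem en_eq (h : M2 F) (h' : M2 G) : S.En F G = -∫ z, F z * S.L G z ∂gam m := by
  simp only [GS.En, GS.L, mul_sum, fun k => (En_k (S := S) (k := k) A h h').2]
  rw [integral_finsetSum _ fun k _ => int_mul h (m2_cD A h'), ← mul_sum]
  ring

omit A in
theorem en_nn (F : E m → ℝ) : 0 ≤ S.En F F :=
  div_nonneg (sum_nonneg fun _ _ => integral_nonneg fun z =>
    mul_nonneg (c_pos z).le (mul_self_nonneg _)) zero_le_two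

omit A in
theorem en_comm (F G : E m → ℝ) : S.En F G = S.En G F := by
  simp only [GS.En, mul_comm (S.D _ F _)]

theorem en_le (h : M2 F) : S.En F F ≤ 2 * n * sq F := by
  have : ∀ k, ∫ z, S.c k z * (S.D k F z * S.D k F z) ∂gam m ≤ 4 * sq F := fun k => by
    obtain ⟨i1, e1⟩ := rev_sq (S := S) (k := k) A h
    have i2 := int_c (S := S) (k := k) (int_sq h)
    have l : ∫ z, S.c k z * F z ^ 2 ∂gam m ≤ sq F := integral_mono i2 (int_sq h) fun z =>
      mul_le_of_le_one_left (sq_nonneg _) (c_lt z).le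
    refine (integral_mono (En_k A h h).1 ((i1.add i2).const_mul 2) fun z => ?_).trans ?_
    · have := mul_nonneg (c_pos (S := S) (k := k) z).le (sq_nonneg (F (S.R k z) + F z))
      simp only [GS.D, Pi.add_apply]
      linarith
    · simp only [Pi.add_apply]
      rw [integral_const_mul, integral_add i1 i2, e1]
      linarith
  have := sum_le_card_nsmul univ _ _ fun k _ => this k
  rw [card_univ, Fintype.card_fin, nsmul_eq_mul] at this
  unfold GS.En
  linarith

theorem en_cs (h : M2 F) (h' : M2 G) : S.En F G ^ 2 ≤ S.En F F * S.En G G := by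
  have := discrim_le_zero (a := S.En F F) (b := 2 * S.En F G) (c := S.En G G) fun x => by
    have e : ∀ k, ∫ z, S.c k z * (S.D k (fun z => x * F z + G z) z *
        S.D k (fun z => x * F z + G z) z) ∂gam m =
        x * x * ∫ z, S.c k z * (S.D k F z * S.D k F z) ∂gam m +
        2 * x * ∫ z, S.c k z * (S.D k F z * S.D k G z) ∂gam m +
        ∫ z, S.c k z * (S.D k G z * S.D k G z) ∂gam m := fun k => by
      have i1 := (En_k (S := S) (k := k) A h h).1.const_mul (x * x)
      have i2 := (En_k (S := S) (k := k) A h h').1.const_mul (2 * x)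
      have j : Integrable (fun z => x * x * (S.c k z * (S.D k F z * S.D k F z)) +
          2 * x * (S.c k z * (S.D k F z * S.D k G z))) (gam m) := i1.add i2
      rw [← integral_const_mul, ← integral_const_mul, ← integral_add i1 i2,
        ← integral_add j (En_k (S := S) (k := k) A h' h').1]
      refine integral_congr_ae (ae_of_all _ fun z => ?_)
      simp only [GS.D]; ring
    have h0 := en_nn (S := S) fun z => x * F z + G z
    simp only [GS.En, e, sum_add_distrib, ← mul_sum] at h0 ⊢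
    linarith
  rw [discrim] at this
  linarith

theorem sym_L (h : M2 F) (h' : M2 G) :
    ∫ z, S.L F z * G z ∂gam m = ∫ z, F z * S.L G z ∂gam m := by
  have a := en_eq (S := S) A h h'
  have b := en_eq (S := S) A h' h
  rw [en_comm] at b
  simp only [mul_comm (S.L F _)]
  linarith

theorem sym_P (h : M2 F) (h' : M2 G) :
    ∫ z, S.P F z * G z ∂gam m = ∫ z, F z * S.P G z ∂gam m := by
  have e : (fun z => S.P F z * G z) = fun z => F z * G z + (n : ℝ)⁻¹ * (S.L F z * G z) := by
    funext z; simp only [GS.P]; ring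
  have e' : (fun z => F z * S.P G z) = fun z => F z * G z + (n : ℝ)⁻¹ * (F z * S.L G z) := by
    funext z; simp only [GS.P]; ring
  rw [e, e', integral_add (int_mul h h') ((int_mul (m2_L A h) h').const_mul _),
    integral_add (int_mul h h') ((int_mul h (m2_L A h')).const_mul _), integral_const_mul,
    integral_const_mul, sym_L A h h']

theorem m2_P (hn : 0 < n) (h : M2 F) : M2 (S.P F) ∧ sq (S.P F) ≤ sq F := by
  have n0 : (0 : ℝ) < n := Nat.cast_pos.2 hn
  have i : ∀ k, Integrable (fun z => F z ^ 2 - S.c k z * F z ^ 2 + S.c k z * F (S.R k z) ^ 2)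
      (gam m) := fun k => ((int_sq h).sub (int_c (int_sq h))).add (rev_sq A h).1
  have e : ∀ k, ∫ z, F z ^ 2 - S.c k z * F z ^ 2 + S.c k z * F (S.R k z) ^ 2 ∂gam m = sq F :=
    fun k => by
      have j : Integrable (fun z => F z ^ 2 - S.c k z * F z ^ 2) (gam m) :=
        (int_sq h).sub (int_c (int_sq h))
      rw [integral_add j (rev_sq A h).1, integral_sub (int_sq h) (int_c (int_sq h)),
        (rev_sq A h).2, sq]
      ring
  have := m2_of (F := S.P F) (h.1.add ((m2_L A h).1.div_const _))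
    ((integrable_finsetSum univ fun k _ => i k).const_mul (n : ℝ)⁻¹) fun z => by
      have e1 : S.P F z = ∑ k : Fin n, (n : ℝ)⁻¹ * (F z + S.c k z * S.D k F z) := by
        rw [← mul_sum, sum_add_distrib, sum_const, card_univ, Fintype.card_fin, nsmul_eq_mul,
          GS.P, GS.L]
        field_simp
      rw [e1]
      refine (jensen univ (fun _ => (inv_pos.2 n0).le) _).trans ?_
      rw [sum_const, card_univ, Fintype.card_fin, nsmul_eq_mul, mul_inv_cancel₀ n0.ne', one_mul,
        mul_sum]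
      refine sum_le_sum fun k _ => mul_le_mul_of_nonneg_left ?_ (inv_pos.2 n0).le
      have := mul_nonneg (mul_nonneg (c_pos (S := S) (k := k) z).le
        (sub_nonneg.2 (c_lt (S := S) (k := k) z).le)) (sq_nonneg (F (S.R k z) - F z))
      simp only [GS.D]
      linarith
  refine ⟨this.1, this.2.trans_eq ?_⟩
  rw [integral_const_mul, integral_finsetSum _ fun k _ => i k]
  simp only [e, sum_const, card_univ, Fintype.card_fin, nsmul_eq_mul]
  field_simp

theorem m2_it (hn : 0 < n) (j : ℕ) (h : M2 F) : M2 (S.P^[j] F) ∧ sq (S.P^[j] F) ≤ sq F := by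
  induction j with
  | zero => exact ⟨h, le_rfl⟩
  | succ j ih =>
    rw [Function.iterate_succ_apply']
    exact ⟨(m2_P A hn ih.1).1, (m2_P A hn ih.1).2.trans ih.2⟩

theorem sym_it (hn : 0 < n) (j : ℕ) (h : M2 F) : ∀ {G : E m → ℝ}, M2 G →
    ∫ z, S.P^[j] F z * G z ∂gam m = ∫ z, F z * S.P^[j] G z ∂gam m := by
  induction j with
  | zero => exact fun _ => rfl
  | succ j ih =>
    intro G h'
    rw [Function.iterate_succ_apply', sym_P A (m2_it A hn j h).1 h', ih (m2_P A hn h').1,
      Function.iterate_succ_apply]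

theorem sym_Rz (hn : 0 < n) (ζ : ℝ) (h : M2 F) (h' : M2 G) :
    ∫ z, S.Rz ζ F z * G z ∂gam m = ∫ z, F z * S.Rz ζ G z ∂gam m := by
  simp only [GS.Rz, sum_mul, mul_sum, mul_assoc, mul_left_comm (F _)]
  rw [integral_finsetSum _ fun j _ => (int_mul (m2_it A hn j h).1 h').const_mul _,
    integral_finsetSum _ fun j _ => (int_mul h (m2_it A hn j h').1).const_mul _]
  simp only [integral_const_mul, sym_it A hn _ h h']

theorem m2_Rz (hn : 0 < n) {ζ : ℝ} (hζ : 0 < ζ) (h : M2 F) :
    M2 (S.Rz ζ F) ∧ sq (S.Rz ζ F) ≤ sq F / ζ ^ 2 := by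
  have n0 : (0 : ℝ) < n := Nat.cast_pos.2 hn
  have θ0 : ∀ j : ℕ, 0 ≤ ((n : ℝ) / (ζ + n)) ^ j / (ζ + n) := fun j => by positivity
  have θ1 : ∑ j ∈ range (n ^ 2), ((n : ℝ) / (ζ + n)) ^ j / (ζ + n) ≤ 1 / ζ := by
    have r1 : (n : ℝ) / (ζ + n) < 1 := by rw [div_lt_one (by positivity)]; linarith
    have := (summable_geometric_of_lt_one (by positivity) r1).sum_le_tsum (range (n ^ 2))
      fun j _ => by positivity
    rw [tsum_geometric_of_lt_one (by positivity) r1] at this
    rw [← sum_div, div_le_iff₀ (by positivity)]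
    refine this.trans_eq ?_
    rw [show 1 - (n : ℝ) / (ζ + n) = ζ / (ζ + n) by field_simp; ring]
    field_simp
  have i := fun j => (int_sq (m2_it (S := S) A hn j h).1).const_mul
    (((n : ℝ) / (ζ + n)) ^ j / (ζ + n))
  have := m2_of (F := S.Rz ζ F) (m2_sum _ fun j _ => m2_mul _ (m2_it A hn j h).1).1
    ((integrable_finsetSum (range (n ^ 2)) fun j _ => i j).const_mul (1 / ζ)) fun z =>
      (jensen _ θ0 _).trans (mul_le_mul_of_nonneg_right θ1
        (sum_nonneg fun j _ => mul_nonneg (θ0 j) (sq_nonneg _)))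
  refine ⟨this.1, this.2.trans ?_⟩
  rw [integral_const_mul, integral_finsetSum _ fun j _ => i j]
  simp only [integral_const_mul]
  calc _ ≤ 1 / ζ * ∑ j ∈ range (n ^ 2), ((n : ℝ) / (ζ + n)) ^ j / (ζ + n) * sq F :=
        mul_le_mul_of_nonneg_left (sum_le_sum fun j _ =>
          mul_le_mul_of_nonneg_left (m2_it A hn j h).2 (θ0 j)) (by positivity)
    _ ≤ 1 / ζ * (1 / ζ * sq F) := by
        rw [← sum_mul]
        exact mul_le_mul_of_nonneg_left (mul_le_mul_of_nonneg_right θ1 (sq_nn F)) (by positivity)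
    _ = _ := by field_simp

/-- the semigroup preserves the mean of bounded functions -/
theorem int_T (hn : 0 < n) {t : ℝ} (ht : 0 ≤ t) {f : E m → ℝ} (hf : Measurable f) {b : ℝ}
    (h0 : ∀ z, 0 ≤ f z) (hb : ∀ z, f z ≤ b) :
    Integrable (S.T t f) (gam m) ∧ ∫ z, S.T t f z ∂gam m = ∫ z, f z ∂gam m := by
  have i : Integrable (S.T t f) (gam m) :=
    Integrable.of_bound (meas_T t hf).aestronglyMeasurable b (ae_of_all _ fun z => by
      have : 0 ≤ S.T t f z := Rec.sg_nonneg hn (S.w_pos z) ht (fun _ => h0 _) _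
      rw [norm_of_nonneg this]
      exact (Rec.sg_mono hn (S.w_pos z) ht (fun _ => hb _) _).trans_eq
        (Rec.sg_const hn (S.w_pos z) t b _))
  have i' : Integrable f (gam m) := Integrable.of_bound hf.aestronglyMeasurable b
    (ae_of_all _ fun z => by rw [norm_of_nonneg (h0 z)]; exact hb z)
  refine ⟨i, ?_⟩
  rw [← (A.orb m n S _ (meas_T t hf) i).2, ← (A.orb m n S _ hf i').2]
  simp only [A.orb_T _ _ _ _ _ _ hn, Rec.mean_sg' hn (S.w_pos _)]

theorem m2_T (hn : 0 < n) {t : ℝ} (ht : 0 ≤ t) (h : M2 F) :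
    M2 (S.T t F) ∧ sq (S.T t F) ≤ sq F := by
  have fm : ∀ N : ℕ, Measurable fun z => min (F z ^ 2) N := fun N =>
    (h.1.pow_const 2).min measurable_const
  have f0 : ∀ (N : ℕ) z, 0 ≤ min (F z ^ 2) N := fun N z => le_min (sq_nonneg _) N.cast_nonneg
  have a := fun N => int_T (S := S) A hn ht (fm N) (f0 N) fun _ => min_le_right _ _
  obtain ⟨i, l⟩ := fatou (B := sq F) (g := S.T t fun z => F z ^ 2) (fun N => (a N).1)
    (fun N => meas_T t (fm N)) (fun N z => Rec.sg_nonneg hn (S.w_pos z) ht (fun _ => f0 N _) _)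
    (meas_T t (h.1.pow_const 2))
    (fun z => tendsto_finsetSum _ fun y _ => Tendsto.const_mul _ <|
      tendsto_const_nhds.congr' <| (tendsto_natCast_atTop_atTop.eventually
        (eventually_ge_atTop (F (S.gz y z) ^ 2))).mono fun N hN => (min_eq_left hN).symm)
    fun N => (a N).2.trans_le (integral_mono_of_nonneg (ae_of_all _ (f0 N)) (int_sq h)
      (ae_of_all _ fun z => min_le_left _ _))
  have := m2_of (meas_T (S := S) t h.1) i fun z => Low.sg_sq_le hn (S.w_pos z) ht _ _
  exact ⟨this.1, this.2.trans l⟩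

end B5

open B5 in
theorem bas_of (A : BasA) : BasStmt where
  R_apply := A.R_apply
  rev := A.rev
  orb := A.orb
  orb_L := A.orb_L
  orb_T := A.orb_T
  m2_L _ _ _ _ h := m2_L A h
  m2_P _ _ _ _ hn h := m2_P A hn h
  m2_Rz _ _ _ _ _ hn hζ h := m2_Rz A hn hζ h
  m2_T _ _ _ _ _ hn ht h := m2_T A hn ht h
  int_En _ _ _ _ _ _ h h' := (En_k A h h').1
  en_eq _ _ _ _ _ h h' := en_eq A h h'
  en_le _ _ _ F h := ⟨en_nn F, en_le A h⟩
  en_cs _ _ _ _ _ h h' := en_cs A h h'
  sym_P _ _ _ _ _ h h' := sym_P A h h'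
  sym_Rz _ _ _ ζ _ _ hn h h' := sym_Rz A hn ζ h h'
  res := A.res

theorem basStmt : BasStmt := bas_of ⟨Bas.R_apply, Bas.rev, Bas.orb, Bas.orb_L, Bas.orb_T, Bas.res⟩

end Crest.Agent.T157.Lm

end
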