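import Crest.Agent.T157.LmDef_76
import Crest.Agent.T157.ConcG_16

/-!
# Row 157, block B/S5 (helper66): Gaussian blow-up, from positive to high probability
-/

set_option autoImplicit false

noncomputable section

namespace Crest.Agent.T157.Lm.Blow66

open MeasureTheory Real Filter Topology Set
open Crest.ProbabilityR.SpinGlassDynamics (Pair disorderLaw)
open Crest.Agent.T157.Conc
open Crest.Agent.T157.Top (Whp)

lemma ex_t {c : ℝ} (hc : 0 < c) : ∃ t ≥ (0 : ℝ), exp (-t ^ 2 / (2 * 1 ^ 2)) < c := by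
  refine ⟨√(2 / c), sqrt_nonneg _, ?_⟩
  rw [sq_sqrt (by positivity), show -(2 / c) / (2 * 1 ^ 2) = -c⁻¹ by ring, exp_neg]
  exact inv_lt_of_inv_lt₀ hc (by linarith [add_one_le_exp c⁻¹])

/-- **blow-up** of an arbitrary set of outer measure `≥ c` -/
theorem blow {c η : ℝ} (hc : 0 < c) (hη : 0 < η) : ∃ r > (0 : ℝ), ∀ (ι : Type) [Fintype ι]
    (A : Set (ι → ℝ)), ENNReal.ofReal c ≤ gv ι A →
      gv ι {x | ¬ ∃ y ∈ A, en (x - y) ≤ r} ≤ ENNReal.ofReal η := by
  obtain ⟨t, t0, ht⟩ := ex_t hc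
  obtain ⟨s, s0, hs⟩ := ex_t hη
  refine ⟨t + s + 1, by positivity, fun ι _ A hA => ?_⟩
  have ne : A.Nonempty := nonempty_of_measure_ne_zero ((ENNReal.ofReal_pos.2 hc).trans_le hA).ne'
  let e : (ι → ℝ) → EuclideanSpace ℝ ι := WithLp.toLp 2
  have he : ∀ x y, dist (e x) (e y) = en (x - y) := fun x y => by rw [en_eq_norm, dist_eq_norm]; rfl
  let F : (ι → ℝ) → ℝ := fun x => Metric.infDist (e x) (e '' A)
  have hF : ELip 1 F := fun x y => by
    simpa only [he, NNReal.coe_one, Real.dist_eq] using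
      (Metric.lipschitz_infDist_pt (e '' A)).dist_le_mul (e x) (e y)
  have hm : ∫ y, F y ∂gv ι ≤ t := by
    by_contra h
    have h1 : (gv ι).real A ≤ _ := (measureReal_mono fun x hx => ?_).trans (tail_lip_lower hF t0)
    · exact absurd ((ENNReal.ofReal_le_iff_le_toReal (measure_ne_top _ _)).1 hA)
        (not_le.2 (h1.trans_lt ht))
    · have : F x = 0 := Metric.infDist_zero_of_mem (mem_image_of_mem e hx)
      simp only [mem_ofPred_eq]
      linarith [not_le.1 h]
  rw [← ofReal_measureReal]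
  refine ENNReal.ofReal_le_ofReal ((measureReal_mono fun x hx => ?_).trans
    ((tail_lip hF s0).trans hs.le))
  have : t + s + 1 ≤ F x := (Metric.le_infDist (ne.image e)).2 fun _ ⟨y, hy, h⟩ => by
    rw [← h, he]; exact (not_le.1 fun k => hx ⟨y, hy, k⟩).le
  simp only [mem_ofPred_eq]
  linarith

/-- **from positive to high probability** -/
theorem whp_blow {A G Q : ∀ n, (Pair n → ℝ) → Prop} {c : ℝ} (hc : 0 < c)
    (hA : ∀ᶠ n in atTop, ENNReal.ofReal c ≤ disorderLaw n {g | A n g}) (hG : Whp disorderLaw G)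
    (h : ∀ r > (0 : ℝ), ∀ᶠ n in atTop, ∀ g g', A n g → G n g → G n g' → en (g' - g) ≤ r → Q n g') :
    Whp disorderLaw Q := by
  refine ENNReal.tendsto_nhds_zero.2 fun ε hε => ?_
  obtain ⟨η, hη, hε'⟩ : ∃ η > (0 : ℝ), ENNReal.ofReal (η + η) ≤ ε := by
    obtain ⟨r, -, h1, h2⟩ := ENNReal.lt_iff_exists_real_btwn.1 hε
    exact ⟨r / 2, half_pos (ENNReal.ofReal_pos.1 h1), by rw [add_halves]; exact h2.le⟩
  obtain ⟨r, r0, hr⟩ := blow (half_pos hc) hη
  have sm : ∀ a > (0 : ℝ), ∀ᶠ n in atTop, disorderLaw n {g | ¬ G n g} ≤ ENNReal.ofReal a :=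
    fun a ha => ENNReal.tendsto_nhds_zero.1 hG _ (ENNReal.ofReal_pos.2 ha)
  filter_upwards [hA, h r r0, sm _ hη, sm _ (half_pos hc)] with n h1 h2 h3 h4
  have h5 : ENNReal.ofReal (c / 2) ≤ disorderLaw n {g | A n g ∧ G n g} := by
    have : disorderLaw n {g | A n g} ≤ disorderLaw n {g | A n g ∧ G n g} + ENNReal.ofReal (c / 2) :=
      ((measure_mono fun g hg => (em (G n g)).imp (fun k => ⟨hg, k⟩) id).trans
        (measure_union_le {g | A n g ∧ G n g} {g | ¬ G n g})).trans (add_le_add_right h4 _)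
    rw [← ENNReal.add_le_add_iff_right (a := ENNReal.ofReal (c / 2)) ENNReal.ofReal_ne_top,
      ← ENNReal.ofReal_add (half_pos hc).le (half_pos hc).le, add_halves]
    exact h1.trans this
  refine le_trans ?_ hε'
  rw [ENNReal.ofReal_add hη.le hη.le]
  refine ((measure_mono fun g hg => ?_).trans (measure_union_le _ _)).trans
    (add_le_add (hr _ _ h5) h3)
  by_contra k
  simp only [mem_union, mem_ofPred_eq, not_or, not_not] at k
  obtain ⟨⟨y, hy, e⟩, k⟩ := k
  exact hg (h2 y g hy.1 hy.2 k e)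

end Crest.Agent.T157.Lm.Blow66

end
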