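import Crest.Agent.T157.RegDef_94

/-!
# Row 157, part B (helper2): `Reg.S4Glue` and `Reg.P4Glue`
-/

set_option autoImplicit false

noncomputable section

namespace Crest.Agent.T157.Reg

open Matrix Real Filter Topology Finset
open Crest.Agent.T157.E hiding mean
open Crest.Agent.T157.Eig
open Crest.Agent.T157.Tap (V Mx)
open Crest.Agent.T157.Rec (grad fl)
open Crest.Agent.T157.Da.Gr (loc tt)
open Crest.Agent.T157.Chain22 (sg IsP mean isP_prob' prob_pos' hbRC)

variable {n : ℕ}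

namespace S42

theorem mu_pos (W : Mx n) (x : Cube n) : 0 < mu W x := exp_pos _

theorem isP_mu (W : Mx n) : IsP (prob (mu W)) := isP_prob' (mu_pos W)

theorem S4_nonneg (M : Mx n) : 0 ≤ S4 M :=
  sum_nonneg fun _ _ => sum_nonneg fun _ _ => sq_nonneg _

theorem So_nonneg (M : Mx n) : 0 ≤ So M :=
  add_nonneg (S4_nonneg _) (sum_nonneg fun _ _ => by positivity)

theorem mean_gen {w : Cube n → ℝ} (hw : ∀ x, 0 < w x) (f : Cube n → ℝ) :
    mean (prob w) (gen w f) = 0 := by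
  have : mean (prob w) (gen w f) =
      ∑ i, (mean (prob w) (siteM w f i) - mean (prob w) f) := by
    rw [show gen w f = fun x => ∑ i, (siteM w f i x - f x) from rfl, Ent.mean_sum']
    exact sum_congr rfl fun i _ => Ent.mean_sub' _ _
  rw [this]
  exact sum_eq_zero fun i _ => by rw [Chain22.mean_siteM hw, sub_self]

theorem four_taylor (a b : ℝ) {h : ℝ} (h0 : 0 ≤ h) (h1 : h ≤ 1) :
    (a + h * b) ^ 4 ≤ a ^ 4 + 4 * h * (a ^ 3 * b) + 20 * h ^ 2 * (a ^ 4 + b ^ 4) := by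
  have a4 : 0 ≤ a ^ 4 := by positivity
  have b4 : 0 ≤ b ^ 4 := by positivity
  have e1 : 2 * (a ^ 2 * b ^ 2) ≤ a ^ 4 + b ^ 4 := by nlinarith [sq_nonneg (a ^ 2 - b ^ 2)]
  have e2 : 4 * (a * b ^ 3) ≤ a ^ 4 + 3 * b ^ 4 := by
    nlinarith [sq_nonneg (a ^ 2 - b ^ 2), mul_nonneg (sq_nonneg b) (sq_nonneg (a - b))]
  have h2 : 0 ≤ h ^ 2 := by positivity
  have h3 : h ^ 3 ≤ h ^ 2 := by nlinarith
  have h4 : h ^ 4 ≤ h ^ 2 := by nlinarith
  have f1 := mul_le_mul_of_nonneg_left e1 h2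
  have f2 := mul_le_mul_of_nonneg_left e2 (by positivity : 0 ≤ h ^ 3)
  have f3 := mul_le_mul_of_nonneg_right h3 (by positivity : 0 ≤ a ^ 4 + 3 * b ^ 4)
  have f4 := mul_le_mul_of_nonneg_right h4 b4
  have f5 := mul_nonneg h2 a4
  have f6 := mul_nonneg h2 b4
  nlinarith

theorem off_add_smul (X Y : Mx n) (h : ℝ) : off (X + h • Y) = off X + h • off Y := by
  ext i j
  by_cases e : i = j <;> simp [off, e]

theorem So_taylor (t : ToolStmt) (X Y : Mx n) {h : ℝ} (h0 : 0 ≤ h) (h1 : h ≤ 1) :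
    So (X + h • Y) ≤ So X + h * (4 * fp (off X * (off X)ᵀ * off X) (off Y) +
      4 * ∑ i, X i i ^ 3 * Y i i) + 20 * h ^ 2 * (So X + So Y) := by
  have a := t.s4_taylor n (off X) (off Y) h h0 h1
  have b : ∑ i, (X + h • Y) i i ^ 4 ≤
      ∑ i, (X i i ^ 4 + 4 * h * (X i i ^ 3 * Y i i) + 20 * h ^ 2 * (X i i ^ 4 + Y i i ^ 4)) :=
    sum_le_sum fun i _ => four_taylor _ _ h0 h1
  rw [sum_add_distrib, sum_add_distrib, ← mul_sum, ← mul_sum, sum_add_distrib] at b
  rw [So, So, So, off_add_smul]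
  linarith

theorem entry_le_S4 (t : ToolStmt) (M : Mx n) (i k : Fin n) : M i k ^ 4 ≤ S4 M := by
  refine le_trans ?_ (t.s4_row n M)
  refine le_trans ?_ (single_le_sum (f := fun i => (∑ j, M i j ^ 2) ^ 2)
    (fun _ _ => sq_nonneg _) (mem_univ i))
  rw [show M i k ^ 4 = (M i k ^ 2) ^ 2 by ring]
  exact pow_le_pow_left₀ (sq_nonneg _)
    (single_le_sum (f := fun j => M i j ^ 2) (fun _ _ => sq_nonneg _) (mem_univ k)) 2

theorem entry_le_So (t : ToolStmt) (M : Mx n) (i k : Fin n) : M i k ^ 4 ≤ So M := by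
  by_cases e : i = k
  · subst e
    exact le_add_of_nonneg_of_le (S4_nonneg _)
      (single_le_sum (f := fun i => M i i ^ 4) (fun _ _ => by positivity) (mem_univ i))
  · have := entry_le_S4 t (off M) i k
    rw [show off M i k = M i k by simp [off, e]] at this
    exact le_add_of_le_of_nonneg this (sum_nonneg fun _ _ => by positivity)

theorem ex_root {a : ℝ} (ha : 0 ≤ a) : ∃ m, 0 ≤ m ∧ m ^ 4 = a ∧ ∀ x : ℝ, x ^ 4 ≤ a → |x| ≤ m := by
  refine ⟨√(√a), sqrt_nonneg _, ?_, fun x hx => abs_le_sqrt (le_trans (le_abs_self _)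
    (abs_le_sqrt (by rw [← pow_mul]; exact hx)))⟩
  rw [show (4 : ℕ) = 2 * 2 from rfl, pow_mul, sq_sqrt (sqrt_nonneg _), sq_sqrt ha]

theorem ex_pmin {ρ : Cube n → ℝ} (hρ : ∀ x, 0 < ρ x) :
    ∃ B > (0 : ℝ), ∀ F : Cube n → ℝ, (∀ x, 0 ≤ F x) → ∀ z, F z ≤ B * mean ρ F := by
  refine ⟨∑ x, (ρ x)⁻¹, sum_pos (fun x _ => inv_pos.2 (hρ x)) univ_nonempty, fun F hF z => ?_⟩
  have h1 : ρ z * F z ≤ mean ρ F :=
    single_le_sum (f := fun x => ρ x * F x) (fun x _ => mul_nonneg (hρ x).le (hF x)) (mem_univ z)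
  have h2 : (ρ z)⁻¹ ≤ ∑ x, (ρ x)⁻¹ :=
    single_le_sum (f := fun x => (ρ x)⁻¹) (fun x _ => (inv_pos.2 (hρ x)).le) (mem_univ z)
  calc F z = (ρ z)⁻¹ * (ρ z * F z) := by rw [← mul_assoc, inv_mul_cancel₀ (hρ z).ne', one_mul]
    _ ≤ _ := mul_le_mul h2 h1 (mul_nonneg (hρ z).le (hF z)) ((inv_pos.2 (hρ z)).le.trans h2)

theorem abs_sv (x : Cube n) (k : Fin n) : |sv x k| = 1 := by
  rcases mul_self_eq_one_iff.1 (Rec.sv_mul_self x k) with h | h <;> simp [h]

theorem abs_tt (W : Mx n) (x : Cube n) (k : Fin n) : |tt W 0 x k| ≤ 1 :=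
  abs_le.2 ⟨(neg_one_lt_tanh _).le, (tanh_lt_one _).le⟩

theorem coef_le (W : Mx n) (x : Cube n) (i k : Fin n) : |Tk W x k + al W x i k| ≤ 1 := by
  have e : Tk W x k + al W x i k = (1 - sv x k * tt W 0 (fl x i) k) / 2 := by
    simp only [Tk, al, of_apply]; ring
  have h : |sv x k * tt W 0 (fl x i) k| ≤ 1 := by
    rw [abs_mul, abs_sv, one_mul]; exact abs_tt _ _ _
  rw [e, abs_le]
  constructor <;> linarith [abs_le.1 h]

theorem dj_le (W : Mx n) (ω σ : VF n) {m s : ℝ} (hm : ∀ z i k, |jac ω z i k| ≤ m)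
    (hs : ∀ z i k, |jac σ z i k| ≤ s) (x : Cube n) (i j : Fin n) :
    |dj W ω σ x i j| ≤ (2 * n + 1) * m + s := by
  have k : ∀ z, |∑ k, (Tk W z k + al W z i k) * jac ω z i k| ≤ n * m := fun z => by
    refine (abs_sum_le_sum_abs _ _).trans ?_
    have : ∑ k, |(Tk W z k + al W z i k) * jac ω z i k| ≤ ∑ _k : Fin n, m :=
      sum_le_sum fun k _ => by
        rw [abs_mul]
        exact (mul_le_of_le_one_left (abs_nonneg _) (coef_le W z i k)).trans (hm z i k)
    simpa using this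
  have e : dj W ω σ x i j = ∑ k, (Tk W (fl x j) k + al W (fl x j) i k) * jac ω (fl x j) i k -
      ∑ k, (Tk W x k + al W x i k) * jac ω x i k - jac ω x i j + jac σ x i j := by
    simp only [dj, Matrix.sub_apply, jac, stp, of_apply]; ring
  have h1 := abs_le.1 (k (fl x j))
  have h2 := abs_le.1 (k x)
  have h3 := abs_le.1 (hm x i j)
  have h4 := abs_le.1 (hs x i j)
  rw [e, abs_le]
  constructor <;> linarith [h1.1, h1.2, h2.1, h2.2, h3.1, h3.2, h4.1, h4.2]

theorem So_le_of_entry (t : ToolStmt) (M : Mx n) {e : ℝ} (he : ∀ i j, |M i j| ≤ e) :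
    So M ≤ 17 * (n ^ 4 * e ^ 4) := by
  have h1 : fp M M ≤ n * (n * e ^ 2) := by
    have : fp M M ≤ ∑ _i : Fin n, ∑ _j : Fin n, e ^ 2 :=
      sum_le_sum fun i _ => sum_le_sum fun j _ => by
        rw [← sq, ← sq_abs]; exact pow_le_pow_left₀ (abs_nonneg _) (he i j) 2
    simpa using this
  have h0 : 0 ≤ fp M M := sum_nonneg fun _ _ => sum_nonneg fun _ _ => mul_self_nonneg _
  have h2 := pow_le_pow_left₀ h0 h1 2
  have h3 := (t.so_le n M).1
  have h4 := (t.s4_fro n M).1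
  nlinarith

theorem crude (t : ToolStmt) (W : Mx n) : ∃ B > (0 : ℝ), ∀ ω σ : VF n,
    mean (prob (mu W)) (fun x => So (dj W ω σ x)) ≤
      B * (mean (prob (mu W)) (fun x => So (jac ω x)) +
        mean (prob (mu W)) fun x => S4 (jac σ x)) := by
  obtain ⟨B, B0, hB⟩ := ex_pmin (prob_pos' (mu_pos W))
  refine ⟨136 * (n ^ 4 + 1) * (2 * n + 1) ^ 4 * B, by positivity, fun ω σ => ?_⟩
  set a := mean (prob (mu W)) (fun x => So (jac ω x))
  set b := mean (prob (mu W)) (fun x => S4 (jac σ x))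
  have a0 : 0 ≤ a := (isP_mu W).mean_nonneg fun _ => So_nonneg _
  have b0 : 0 ≤ b := (isP_mu W).mean_nonneg fun _ => S4_nonneg _
  obtain ⟨m, m0, m4, hm⟩ := ex_root (mul_nonneg B0.le a0)
  obtain ⟨s, s0, s4, hs⟩ := ex_root (mul_nonneg B0.le b0)
  have k := dj_le W ω σ
    (fun z i k => hm _ ((entry_le_So t _ i k).trans (hB _ (fun _ => So_nonneg _) z)))
    (fun z i k => hs _ ((entry_le_S4 t _ i k).trans (hB _ (fun _ => S4_nonneg _) z)))
  refine ((isP_mu W).mean_mono fun x => So_le_of_entry t _ (k x)).trans ?_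
  rw [(isP_mu W).mean_const]
  set r : ℝ := 2 * n + 1 with hr
  have r1 : 1 ≤ r := by rw [hr]; linarith [Nat.cast_nonneg (α := ℝ) n]
  have r4 : 1 ≤ r ^ 4 := one_le_pow₀ r1
  have e1 : (r * m + s) ^ 4 ≤ 8 * ((r * m) ^ 4 + s ^ 4) := by
    nlinarith [sq_nonneg ((r * m) ^ 2 - s ^ 2), sq_nonneg (r * m - s), sq_nonneg (r * m + s),
      mul_nonneg (sq_nonneg (r * m - s)) (sq_nonneg (r * m + s)),
      mul_nonneg (sq_nonneg (r * m - s)) (add_nonneg (sq_nonneg (r * m)) (sq_nonneg s))]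
  rw [mul_pow, m4, s4] at e1
  have e2 : B * b ≤ r ^ 4 * (B * b) := le_mul_of_one_le_left (by positivity) r4
  have e3 : (r * m + s) ^ 4 ≤ 8 * (r ^ 4 * B * (a + b)) := by nlinarith
  have e4 : (n : ℝ) ^ 4 * (r * m + s) ^ 4 ≤ (n ^ 4 + 1) * (8 * (r ^ 4 * B * (a + b))) :=
    mul_le_mul (by linarith) e3 (by positivity) (by positivity)
  nlinarith

/-! ### odd functions -/

theorem neg_neg' (x : Cube n) : neg (neg x) = x := by ext i; simp [neg]

theorem sv_neg (x : Cube n) : sv (neg x) = -sv x := by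
  ext i
  simp only [sv, neg, Pi.neg_apply]
  cases x i <;> simp [Crest.ProbabilityR.SpinGlassDynamics.spin]

theorem mu_neg (W : Mx n) (x : Cube n) : mu W (neg x) = mu W x := by
  simp only [mu, ising, sv_neg, mulVec_neg, neg_dotProduct, dotProduct_neg, neg_neg,
    zero_dotProduct, neg_zero]

theorem mean_odd (W : Mx n) {f : Cube n → ℝ} (hf : ∀ x, f (neg x) = -f x) :
    mean (prob (mu W)) f = 0 := by
  have e : mean (prob (mu W)) f = ∑ x, prob (mu W) (neg x) * f (neg x) :=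
    (Equiv.sum_comp (Function.Involutive.toPerm neg neg_neg')
      fun x => prob (mu W) x * f x).symm
  have e2 : ∑ x, prob (mu W) (neg x) * f (neg x) = -mean (prob (mu W)) f := by
    rw [mean, ← sum_neg_distrib]
    exact sum_congr rfl fun x _ => by rw [hf, prob, prob, mu_neg]; ring
  linarith

theorem grad_sq (f : Cube n → ℝ) (x : Cube n) :
    grad f x ⬝ᵥ grad f x = ∑ j, (f (fl x j) - f x) ^ 2 / 4 :=
  sum_congr rfl fun j _ => by
    rw [Rec.grad_eq]; linear_combination (f x - f (fl x j)) ^ 2 / 4 * Rec.sv_mul_self x j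

/-- fourth moment of a centred function from the Poincaré inequality -/
theorem four_le {w : Cube n → ℝ} (hw : ∀ x, 0 < w x) {K : ℝ} (hK : 0 ≤ K) (h : Ent.AT w K 0)
    {f : Cube n → ℝ} (h0 : mean (prob w) f = 0) :
    mean (prob w) (fun x => f x ^ 4) ≤
      (5 * K ^ 2 + K) * mean (prob w) fun x => (∑ j, (f (fl x j) - f x) ^ 2) ^ 2 := by
  have hP := isP_prob' hw
  set g : Cube n → ℝ := fun x => ∑ j, (f (fl x j) - f x) ^ 2 with hg
  have g0 : ∀ x, 0 ≤ g x := fun x => sum_nonneg fun _ _ => sq_nonneg _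
  have p1 := (h.poinc hw hK f).trans (mul_le_mul_of_nonneg_left (Rec.dir_le_grad hw f) hK)
  have p2 := (h.poinc hw hK fun x => f x ^ 2).trans
    (mul_le_mul_of_nonneg_left (Rec.dir_le_grad hw _) hK)
  rw [Chain22.evar_eq, hP.var_eq, Chain22.ip_eq_mean, Chain22.emean_eq] at p1 p2
  have e1 : mean (prob w) (fun x => grad f x ⬝ᵥ grad f x) = 1 / 4 * mean (prob w) g := by
    rw [← Ent.mean_const_mul]
    exact Ent.mean_congr fun x => by rw [grad_sq, ← sum_div]; ring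
  have e2 : mean (prob w) (fun x => grad (fun x => f x ^ 2) x ⬝ᵥ grad (fun x => f x ^ 2) x) ≤
      mean (prob w) fun x => 2 * (f x ^ 2 * g x) + 1 / 2 * g x ^ 2 := by
    refine hP.mean_mono fun x => ?_
    rw [grad_sq]
    have : ∑ j, (f (fl x j) ^ 2 - f x ^ 2) ^ 2 / 4 ≤
        ∑ j, (2 * f x ^ 2 + 1 / 2 * g x) * (f (fl x j) - f x) ^ 2 := sum_le_sum fun j _ => by
      have k : (f (fl x j) - f x) ^ 2 ≤ g x :=
        single_le_sum (f := fun j => (f (fl x j) - f x) ^ 2) (fun _ _ => sq_nonneg _) (mem_univ j)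
      have k2 : (f (fl x j) + f x) ^ 2 / 4 ≤ 2 * f x ^ 2 + 1 / 2 * g x := by
        nlinarith [sq_nonneg (f (fl x j) - 3 * f x)]
      calc _ = (f (fl x j) + f x) ^ 2 / 4 * (f (fl x j) - f x) ^ 2 := by ring
        _ ≤ _ := mul_le_mul_of_nonneg_right k2 (sq_nonneg _)
    rw [← mul_sum] at this
    refine this.trans_eq ?_
    simp only [hg]; ring
  have e3 : K * mean (prob w) (fun x => 2 * (f x ^ 2 * g x) + 1 / 2 * g x ^ 2) ≤
      mean (prob w) fun x => 1 / 2 * f x ^ 4 + (2 * K ^ 2 + K / 2) * g x ^ 2 := by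
    rw [← Ent.mean_const_mul]
    exact hP.mean_mono fun x => by nlinarith [sq_nonneg (f x ^ 2 - 2 * K * g x)]
  rw [Ent.mean_add' (fun x => 1 / 2 * f x ^ 4), Ent.mean_const_mul (1 / 2) (fun x => f x ^ 4),
    Ent.mean_const_mul (2 * K ^ 2 + K / 2)] at e3
  have e4 : mean (prob w) g ^ 2 ≤ mean (prob w) fun x => g x ^ 2 :=
    (hP.mean_sq_le g).trans_eq (Ent.mean_congr fun x => (sq _).symm)
  have e5 : mean (prob w) (fun x => f x ^ 2 * f x ^ 2) = mean (prob w) fun x => f x ^ 4 :=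
    Ent.mean_congr fun x => by ring
  have e6 : mean (prob w) (fun x => f x * f x) = mean (prob w) fun x => f x ^ 2 :=
    Ent.mean_congr fun x => by ring
  rw [h0, e1, e6] at p1
  rw [e5] at p2
  have f0 : 0 ≤ mean (prob w) fun x => f x ^ 2 := hP.mean_nonneg fun _ => sq_nonneg _
  have e7 : mean (prob w) (fun x => f x ^ 2) ^ 2 ≤ (K * (1 / 4 * mean (prob w) g)) ^ 2 :=
    pow_le_pow_left₀ f0 (by linarith) 2
  have e8 := mul_le_mul_of_nonneg_left e2 hK
  have e9 := mul_le_mul_of_nonneg_left e4 (sq_nonneg K)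
  have g2 : 0 ≤ K ^ 2 * mean (prob w) fun x => g x ^ 2 :=
    mul_nonneg (sq_nonneg _) (hP.mean_nonneg fun _ => sq_nonneg _)
  have g3 : 0 ≤ K * mean (prob w) fun x => g x ^ 2 :=
    mul_nonneg hK (hP.mean_nonneg fun _ => sq_nonneg _)
  show _ ≤ (5 * K ^ 2 + K) * mean (prob w) fun x => g x ^ 2
  nlinarith

theorem gam_le {w : Cube n → ℝ} (hn : 0 < n) (hw : ∀ x, 0 < w x) (F : Cube n → ℝ) (x : Cube n) :
    Ent.gam (hbRC hn hw) F x ≤ 1 / n * ∑ j, (F (fl x j) - F x) ^ 2 := by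
  have e := congrFun (Chain22.hbRC_mulVec hn hw fun y => max (F x - F y) 0 ^ 2) x
  refine (le_of_eq e).trans ?_
  rw [Pi.smul_apply, Finset.sum_apply, smul_eq_mul]
  refine mul_le_mul_of_nonneg_left (sum_le_sum fun i _ => ?_) (by positivity)
  have m : ∀ a : ℝ, max a 0 ^ 2 ≤ a ^ 2 := fun a => by
    rcases le_total a 0 with h | h
    · rw [max_eq_right h]; simpa using sq_nonneg a
    · rw [max_eq_left h]
  have k : ∀ b, max (F x - F (Function.update x i b)) 0 ^ 2 ≤ (F (fl x i) - F x) ^ 2 :=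
    fun b => by
      refine (m _).trans ?_
      by_cases hb : b = x i
      · rw [hb, Function.update_eq_self, sub_self]; simpa using sq_nonneg _
      · rw [show b = !x i by cases b <;> cases h : x i <;> simp_all, ← neg_sq, neg_sub]; rfl
  rw [siteM, div_le_iff₀ (Chain22.den_pos hw i x), mul_add]
  exact add_le_add (by rw [mul_comm]; exact mul_le_mul_of_nonneg_right (k true) (hw _).le)
    (by rw [mul_comm]; exact mul_le_mul_of_nonneg_right (k false) (hw _).le)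

/-- sub-Gaussian upper tail of a centred Lipschitz function -/
theorem tail_le {w : Cube n → ℝ} (hn : 0 < n) (hw : ∀ x, 0 < w x) {K γ : ℝ} (hK : 0 < K)
    (h : Ent.AT w K 0) (γ0 : 0 < γ) {F : Cube n → ℝ} (hγ : ∀ x, ∑ j, (F (fl x j) - F x) ^ 2 ≤ γ)
    (h0 : mean (prob w) F = 0) {r : ℝ} (hr : 0 ≤ r) :
    mean (prob w) (Ent.ind fun x => r ≤ F x) ≤ exp (-(r ^ 2 / (4 * (K * γ)))) := by
  have n0 : (0 : ℝ) < n := by exact_mod_cast hn
  have hM := (Ent.mlsi_iff hn hw K 0).2 fun f hf => h.mlsi hw hK.le hf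
  have := hM.tail (by positivity) (F := F) (γ := 1 / n * γ) (by positivity)
    (fun x => (gam_le hn hw F x).trans (mul_le_mul_of_nonneg_left (hγ x) (by positivity))) hr
  rw [show K * n * (1 / n * γ) = K * γ by field_simp, Chain22.hbRC_π, h0] at this
  simpa only [zero_add] using this

theorem loc_neg (W : Mx n) (x : Cube n) (k : Fin n) : loc W 0 (neg x) k = -loc W 0 x k := by
  simp only [loc, sv_neg, mulVec_neg, Pi.neg_apply, Pi.zero_apply]; ring

theorem loc_lip {W : Mx n} {K : ℝ} (hW : Nice W K) (x : Cube n) (k : Fin n) :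
    ∑ j, (loc W 0 (fl x j) k - loc W 0 x k) ^ 2 ≤ 4 * K ^ 2 := by
  have h1 : ∑ j, W j k ^ 2 ≤ K ^ 2 :=
    (Da.Gr.row_sq_le W k).trans (pow_le_pow_left₀ (opn_nonneg _) hW.2.1 2)
  have h2 : ∑ j, (loc W 0 (fl x j) k - loc W 0 x k) ^ 2 ≤ ∑ j, 4 * W j k ^ 2 :=
    sum_le_sum fun j _ => by
      have s : W j k = W k j := congrFun (congrFun hW.1 k) j
      rw [Da.Gr.loc_fl, s]
      split_ifs
      · rw [sub_zero, sub_self]; nlinarith [sq_nonneg (W k j)]
      · exact le_of_eq (by linear_combination 4 * W k j ^ 2 * Rec.sv_mul_self x j)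
  rw [← mul_sum] at h2
  linarith

end S42

open S42

theorem s4Glue : S4Glue := fun t j p K => by
  obtain ⟨C, C1, hC⟩ := p K
  refine ⟨C + 1, by linarith, fun n W hW => ?_⟩
  obtain ⟨B, B0, hB⟩ := crude t W
  have ev : ∀ᶠ h : ℝ in 𝓝[>] 0, h ∈ Set.Ioo 0 (1 / (20 * (1 + B))) :=
    Ioo_mem_nhdsGT (by positivity)
  filter_upwards [ev] with h hh ω σ
  obtain ⟨h0, h1⟩ := hh
  rw [lt_div_iff₀ (by positivity)] at h1
  have h2 : h ≤ 1 := by nlinarith
  have key : mean (prob (mu W)) (fun x => So (jac (stp W h ω σ) x)) ≤ mean (prob (mu W)) fun x =>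
      So (jac ω x) + h * (gen (mu W) (fun z => So (jac ω z)) x +
        C * (So (jac ω x) + S4 (jac σ x))) + 20 * h ^ 2 * (So (jac ω x) + So (dj W ω σ x)) :=
    (isP_mu W).mean_mono fun x => by
      rw [j.lin]
      refine (So_taylor t _ _ h0.le h2).trans ?_
      have := mul_le_mul_of_nonneg_left (hC n W hW ω σ x) h0.le
      linarith
  rw [Ent.mean_add', Ent.mean_add', Ent.mean_const_mul, Ent.mean_const_mul, Ent.mean_add',
    Ent.mean_add', Ent.mean_const_mul, Ent.mean_add', mean_gen (mu_pos W)] at key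
  have k := hB ω σ
  set a := mean (prob (mu W)) (fun x => So (jac ω x))
  set b := mean (prob (mu W)) (fun x => S4 (jac σ x))
  set c := mean (prob (mu W)) (fun x => So (dj W ω σ x))
  have a0 : 0 ≤ a := (isP_mu W).mean_nonneg fun _ => So_nonneg _
  have b0 : 0 ≤ b := (isP_mu W).mean_nonneg fun _ => S4_nonneg _
  have e1 : a + c ≤ (1 + B) * (a + b) := by nlinarith
  have e2 : 20 * h ^ 2 * (a + c) ≤ h * (h * (20 * (1 + B))) * (a + b) := by
    nlinarith [mul_le_mul_of_nonneg_left e1 (by positivity : 0 ≤ 20 * h ^ 2)]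
  have e3 : h * (h * (20 * (1 + B))) * (a + b) ≤ h * 1 * (a + b) :=
    mul_le_mul_of_nonneg_right (mul_le_mul_of_nonneg_left h1.le h0.le) (by positivity)
  nlinarith

theorem p4Glue : P4Glue := fun t _ K K0 => by
  refine ⟨1 + 16 * K ^ 3 + 5 * K ^ 2 + K, by nlinarith [pow_pos K0 3, pow_pos K0 2],
    fun n W hW hA => ⟨fun ω hω => ?_, fun A A0 => ?_⟩⟩
  · rw [Ent.mean_sum']
    have h1 : ∑ i, mean (prob (mu W)) (fun x => ω x i ^ 4) ≤ ∑ i, (5 * K ^ 2 + K) *
        mean (prob (mu W)) fun x => (∑ j, jac ω x i j ^ 2) ^ 2 := sum_le_sum fun i _ =>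
      four_le (mu_pos W) K0.le hA (mean_odd W fun x => congrFun (hω x) i)
    rw [← mul_sum, ← Ent.mean_sum' univ fun i x => (∑ j, jac ω x i j ^ 2) ^ 2] at h1
    refine h1.trans (mul_le_mul (by nlinarith [pow_pos K0 3])
      ((isP_mu W).mean_mono fun x => t.s4_row n _)
      ((isP_mu W).mean_nonneg fun _ => sum_nonneg fun _ _ => sq_nonneg _) (by positivity))
  · rw [Ent.mean_sum']
    have h1 : ∀ k : Fin n, mean (prob (mu W)) (fun x => if A < |loc W 0 x k| then (1 : ℝ) else 0) ≤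
        2 * exp (-(A ^ 2 / (1 + 16 * K ^ 3 + 5 * K ^ 2 + K))) := fun k => by
      have hn : 0 < n := k.pos
      have t1 := tail_le hn (mu_pos W) K0 hA (by positivity : 0 < 4 * K ^ 2)
        (F := fun x => loc W 0 x k) (fun x => loc_lip hW x k) (mean_odd W fun x => loc_neg W x k) A0
      have t2 := tail_le hn (mu_pos W) K0 hA (by positivity : 0 < 4 * K ^ 2)
        (F := fun x => -loc W 0 x k)
        (fun x => (sum_congr rfl fun j _ => by ring).trans_le (loc_lip hW x k))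
        (mean_odd W fun x => by rw [loc_neg]) A0
      have t3 : exp (-(A ^ 2 / (4 * (K * (4 * K ^ 2))))) ≤
          exp (-(A ^ 2 / (1 + 16 * K ^ 3 + 5 * K ^ 2 + K))) :=
        exp_le_exp.2 (neg_le_neg (div_le_div_of_nonneg_left (sq_nonneg _) (by positivity)
          (by nlinarith [pow_pos K0 2])))
      have t4 : mean (prob (mu W)) (fun x => if A < |loc W 0 x k| then (1 : ℝ) else 0) ≤
          mean (prob (mu W)) fun x => Ent.ind (fun x => A ≤ loc W 0 x k) x +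
            Ent.ind (fun x => A ≤ -loc W 0 x k) x := (isP_mu W).mean_mono fun x => by
        have i1 := Ent.ind_nonneg (fun x => A ≤ loc W 0 x k) x
        have i2 := Ent.ind_nonneg (fun x => A ≤ -loc W 0 x k) x
        split_ifs with hx
        · rcases lt_abs.1 hx with h | h
          · rw [Ent.ind_pos (p := fun x => A ≤ loc W 0 x k) h.le]; linarith
          · rw [Ent.ind_pos (p := fun x => A ≤ -loc W 0 x k) h.le]; linarith
        · linarith
      rw [Ent.mean_add'] at t4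
      linarith
    refine (sum_le_sum fun k _ => h1 k).trans_eq ?_
    simp only [sum_const, card_univ, Fintype.card_fin, nsmul_eq_mul]; ring

end Crest.Agent.T157.Reg

end
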