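import Crest.Agent.T157.RegDefB_94
import Crest.Agent.T157.RegBas_66
import Crest.Agent.T157.RegS4_2
import Crest.Agent.T157.LowC_85
import Crest.Agent.T157.NrmG_84

/-!
# Row 157, block B/S5 (helper66): Gibbs measures of two close coupling matrices are `χ²`-close
-/

set_option autoImplicit false

noncomputable section

namespace Crest.Agent.T157.Lm.Cmp66

open Matrix Real Filter Topology Finset
open Crest.ProbabilityR.SpinGlassDynamics (Pair)
open Crest.Agent.T157.E hiding mean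
open Crest.Agent.T157.Tap (V Mx)
open Crest.Agent.T157.Rec (grad fl)
open Crest.Agent.T157.Da.Gr (loc tt)
open Crest.Agent.T157.Chain22 (IsP mean isP_prob' ip)
open Crest.Agent.T157.Reg
open Crest.Agent.T157.Ent (mean_add' mean_sub' mean_const_mul mean_sum' AT)

section abs
variable {Ω : Type*} [Fintype Ω] {q : Ω → ℝ}

lemma exp_le {a : ℝ} (ha : 0 < a) (u : ℝ) :
    exp u ≤ 1 + u + (u ^ 2 / a + a * (exp (2 * u) + 1)) := by
  have h1 := mul_le_mul_of_nonneg_left (add_one_le_exp (-u)) (exp_pos u).le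
  rw [← exp_add, add_neg_cancel, exp_zero] at h1
  have h2 : u * (exp u - 1) ≤ u ^ 2 / a + a * (exp u - 1) ^ 2 := by
    rw [div_add' _ _ _ ha.ne', le_div_iff₀ ha]
    nlinarith [sq_nonneg (u - a * (exp u - 1)), sq_nonneg u, sq_nonneg (a * (exp u - 1))]
  have h3 : (exp u - 1) ^ 2 ≤ exp (2 * u) + 1 := by
    rw [two_mul, exp_add]; nlinarith [exp_pos u]
  nlinarith [mul_le_mul_of_nonneg_left h3 ha.le]

/-- change of measure by a centred exponent with small variance -/
lemma chi (h : IsP q) {Y : Ω → ℝ} {a δ M : ℝ} (ha : 0 < a) (h0 : mean q Y = 0)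
    (h2 : mean q (fun x => Y x ^ 2) ≤ δ) (h4 : mean q (fun x => exp (4 * Y x)) ≤ M) (G : Ω → ℝ) :
    (mean q (fun x => exp (Y x) / mean q (fun x => exp (Y x)) * G x) - mean q G) ^ 2 ≤
      (4 * δ / a + a * (M + 1)) * mean q fun x => G x ^ 2 := by
  set Z := mean q fun x => exp (Y x) with hZ
  have Z1 : 1 ≤ Z := by
    have := h.mean_mono fun x => add_one_le_exp (Y x)
    rwa [mean_add', h0, h.mean_const, zero_add] at this
  have e1 : mean q (fun x => exp (Y x) / Z) = 1 := by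
    simp only [div_eq_inv_mul, mean_const_mul, ← hZ]; exact inv_mul_cancel₀ (by linarith)
  have k : ip q (fun x => exp (Y x) / Z - 1) (fun x => exp (Y x) / Z - 1) ≤
      4 * δ / a + a * (M + 1) := by
    have := h.mean_mono (f := fun x => (exp (Y x) / Z - 1) * (exp (Y x) / Z - 1))
      (g := fun x => 2 + 2 * Y x + (4 / a * Y x ^ 2 + a * (exp (4 * Y x) + 1)) -
        2 * (exp (Y x) / Z)) fun x => by
      have h1 := exp_le ha (2 * Y x)
      have h5 : exp (Y x) / Z ≤ exp (Y x) := div_le_self (exp_pos _).le Z1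
      have h6 : 0 ≤ exp (Y x) / Z := by positivity
      rw [← mul_assoc, two_mul (Y x), exp_add, show (Y x + Y x) ^ 2 / a = 4 / a * Y x ^ 2 by ring,
        show (2 : ℝ) * 2 = 4 by norm_num] at h1
      nlinarith [mul_le_mul h5 h5 h6 (exp_pos _).le]
    simp only [mean_add', mean_sub', mean_const_mul, h.mean_const, h0, e1] at this
    refine le_trans this ?_
    have := mul_le_mul_of_nonneg_left h2 (show 0 ≤ 4 / a by positivity)
    have := mul_le_mul_of_nonneg_left h4 ha.le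
    rw [mul_div_right_comm]
    linarith
  rw [← mean_sub']
  simp only [← sub_one_mul]
  refine (h.ip_sq_le (fun x => exp (Y x) / Z - 1) G).trans ?_
  simp only [sq]
  exact mul_le_mul_of_nonneg_right k (h.ip_self_nonneg G)

end abs

variable {n : ℕ} {W W' D : Mx n} {K : ℝ}

/-- the quadratic form -/
def qf (D : Mx n) (x : Cube n) : ℝ := 1 / 2 * (sv x ⬝ᵥ D *ᵥ sv x)

lemma mu_pos (W : Mx n) (x : Cube n) : 0 < mu W x := exp_pos _

lemma mu_eq (W W' : Mx n) (x : Cube n) : mu W' x = mu W x * exp (qf (W' - W) x) := by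
  simp only [mu, ising, qf, ← exp_add, sub_mulVec, dotProduct_sub]; congr 1; ring

lemma prob_eq (W W' : Mx n) (c : ℝ) (x : Cube n) : prob (mu W') x = prob (mu W) x *
    (exp (qf (W' - W) x - c) / mean (prob (mu W)) fun x => exp (qf (W' - W) x - c)) := by
  have := (Chain22.sum_w_pos (mu_pos W)).ne'
  have := (exp_pos c).ne'
  simp only [prob, mean, mu_eq W W', exp_sub, div_mul_div_comm, ← sum_div]
  field_simp

lemma grad_qf (hD : Dᵀ = D) (x : Cube n) : grad (qf D) x = loc D 0 x := by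
  funext i
  have h := Da.Gr.ising_fl hD 0 x i
  rw [ising, ising, ← exp_add, exp_eq_exp, zero_dotProduct, zero_dotProduct, add_zero, add_zero] at h
  rw [Rec.grad_eq, qf, qf, h]
  linear_combination loc D 0 x i * Rec.sv_mul_self x i

lemma loc_eq (D : Mx n) (x : Cube n) (i : Fin n) : loc D 0 x i = off D i ⬝ᵥ sv x := by
  have : ∀ j, off D i j * sv x j = D i j * sv x j - if i = j then D i j * sv x j else 0 := fun j => by
    simp only [off, of_apply]; split_ifs <;> simp
  simp [loc, mulVec, dotProduct, this]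

lemma off_le (D : Mx n) : ∑ i, off D i ⬝ᵥ off D i ≤ fp D D :=
  sum_le_sum fun i _ => sum_le_sum fun j _ => by
    simp only [off, of_apply]; split_ifs
    · simpa using mul_self_nonneg _
    · rfl

lemma sv_dot (x : Cube n) : sv x ⬝ᵥ sv x = n := by simp [dotProduct, Rec.sv_mul_self]

lemma loc_le (D : Mx n) (x : Cube n) : loc D 0 x ⬝ᵥ loc D 0 x ≤ n * fp D D := by
  refine le_trans ?_ (mul_le_mul_of_nonneg_left (off_le D) n.cast_nonneg)
  rw [mul_sum]
  exact sum_le_sum fun i _ => by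
    rw [← sq, loc_eq, mul_comm, ← sv_dot x]; exact Eig.dot_sq_le _ _

lemma var_le (h : AT (mu W) K 0) (hK : 0 ≤ K) (f : Cube n → ℝ) :
    var (mu W) f ≤ K * mean (prob (mu W)) fun x => grad f x ⬝ᵥ grad f x :=
  (h.poinc (mu_pos W) hK f).trans (mul_le_mul_of_nonneg_left (Rec.dir_le_grad (mu_pos W) f) hK)

lemma mean_loc (h : AT (mu W) K 0) (hK : 0 ≤ K) (D : Mx n) :
    mean (prob (mu W)) (fun x => loc D 0 x ⬝ᵥ loc D 0 x) ≤ K * fp D D := by
  refine le_trans ?_ (mul_le_mul_of_nonneg_left (off_le D) hK)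
  simp only [dotProduct, mean_sum', mul_sum _ _ K]
  refine sum_le_sum fun i _ => ?_
  have h1 := var_le h hK fun x => off D i ⬝ᵥ sv x
  have h2 : E.mean (mu W) (fun x => off D i ⬝ᵥ sv x) = 0 :=
    S42.mean_odd W fun x => by rw [S42.sv_neg, dotProduct_neg]
  simp only [Rec.grad_lin, (isP_prob' (mu_pos W)).mean_const, var, h2, sub_zero] at h1
  simpa only [loc_eq, sq, dotProduct, mul_sum _ _ K, mean] using h1

lemma four (hn : 0 < n) (h : AT (mu W) K 0) (hK : 0 ≤ K) {F : Cube n → ℝ} {B : ℝ}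
    (hF : ∀ x, grad F x ⬝ᵥ grad F x ≤ B) (c : ℝ) :
    mean (prob (mu W)) (fun x => exp (c * (F x - E.mean (mu W) F))) ≤ exp (4 * K * B * c ^ 2) := by
  have := Low.herbst_grad hn (mu_pos W) hK h hF c
  simp only [mul_sub, exp_sub, div_eq_inv_mul, mean_const_mul]
  rwa [inv_mul_le_iff₀ (exp_pos _), ← exp_add]

lemma pow4_le (u : ℝ) : (u ^ 2) ^ 2 ≤ 24 * (exp (1 * u) + exp (-1 * u)) := by
  have := pow_div_factorial_le_exp _ (abs_nonneg u) 4
  rw [Even.pow_abs (by decide), div_le_iff₀ (by positivity)] at this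
  norm_num [Nat.factorial] at this
  rcases abs_cases u with h | h <;> rw [h.1] at this <;>
    simp only [one_mul, neg_mul] <;> nlinarith [exp_pos u, exp_pos (-u)]

lemma ev_lt (C : ℝ) {ε : ℝ} (hε : 0 < ε) : ∀ᶠ a in 𝓝[>] (0 : ℝ), a * C < ε :=
  ((continuous_id.mul continuous_const).tendsto' 0 0 (zero_mul C)).eventually_lt_const hε
    |>.filter_mono nhdsWithin_le_nhds

/-- **comparison of variances and energies** -/
theorem cmp {K B R ε : ℝ} (hK : 0 ≤ K) (hε : 0 < ε) : ∃ δ > (0 : ℝ), ∀ (n : ℕ) (W W' : Mx n)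
    (F : Cube n → ℝ), 0 < n → Wᵀ = W → W'ᵀ = W' → AT (mu W) K 0 → fp (W' - W) (W' - W) ≤ δ →
    n * fp (W' - W) (W' - W) ≤ R → (∀ x, grad F x ⬝ᵥ grad F x ≤ B) →
    |var (mu W') F - var (mu W) F| ≤ ε ∧ |dir (mu W') F - dir (mu W) F| ≤ ε := by
  set C := 4 * K ^ 2 + (exp (4 * K * R * 4 ^ 2) + 1) with hC
  set C4 := 48 * exp (4 * K * B) with hC4
  obtain ⟨a, ⟨⟨a1, a2⟩, a3, a4⟩, a0⟩ := (((ev_lt (C * C4) (sq_pos_of_pos (half_pos hε))).and
    (ev_lt (C * (1 + C4)) (half_pos hε))).and ((ev_lt (C * B ^ 2) (sq_pos_of_pos (half_pos hε))).and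
    (ev_lt (B * (1 + K)) (half_pos hε))) |>.and self_mem_nhdsWithin).exists
  replace a0 : 0 < a := a0
  refine ⟨a ^ 2, by positivity, fun n W W' F hn hW hW' h hδ hR hF => ?_⟩
  have hD : (W' - W)ᵀ = W' - W := by rw [transpose_sub, hW, hW']
  have p := isP_prob' (mu_pos W)
  have p' := isP_prob' (mu_pos W')
  have C0 : 0 ≤ C := by positivity
  have B0 : 0 ≤ B := (Eig.dot_self_nonneg _).trans (hF fun _ => true)
  have ml := (mean_loc h hK (W' - W)).trans (mul_le_mul_of_nonneg_left hδ hK)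
  have key : ∀ G M, mean (prob (mu W)) (fun x => G x ^ 2) ≤ M →
      (mean (prob (mu W')) G - mean (prob (mu W)) G) ^ 2 ≤ a * (C * M) := fun G M hM => by
    have := chi p (Y := fun x => qf (W' - W) x - E.mean (mu W) (qf (W' - W))) (δ := K * (K * a ^ 2))
      a0 (by rw [mean_sub', p.mean_const]; exact sub_self _) ((var_le h hK _).trans (by
        simp only [grad_qf hD]; exact mul_le_mul_of_nonneg_left ml hK))
      (four hn h hK (fun x => by rw [grad_qf hD]; exact (loc_le _ x).trans hR) 4) G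
    rw [show 4 * (K * (K * a ^ 2)) / a + a * (exp (4 * K * R * 4 ^ 2) + 1) = a * C by
      rw [hC]; field_simp] at this
    refine le_trans (le_of_eq ?_) (this.trans ?_)
    · simp only [mean, prob_eq W W' (E.mean (mu W) (qf (W' - W))), mul_assoc]
    · rw [mul_assoc]; gcongr
  constructor
  · set m := E.mean (mu W) F
    have f4 : mean (prob (mu W)) (fun x => ((F x - m) ^ 2) ^ 2) ≤ C4 := by
      refine (p.mean_mono fun x => pow4_le _).trans ?_
      have h1 := four hn h hK hF 1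
      have h2 := four hn h hK hF (-1)
      rw [mean_const_mul, mean_add']
      rw [neg_one_sq, mul_one] at h2
      rw [one_pow, mul_one] at h1
      linarith
    have k1 := (key _ _ f4).trans a1.le
    have k2 := (key (fun x => F x - m) (1 + C4) ((p.mean_mono (g := fun x => 1 + ((F x - m) ^ 2) ^ 2)
      fun x => by nlinarith [sq_nonneg ((F x - m) ^ 2 - 1)]).trans (by
        rw [mean_add', p.mean_const]; linarith))).trans a2.le
    have e : var (mu W') F = mean (prob (mu W')) (fun x => (F x - m) ^ 2) -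
        mean (prob (mu W')) (fun x => F x - m) ^ 2 := by
      rw [Chain22.evar_eq, ← p'.var_add_const F (-m), p'.var_eq]
      simp only [ip, mean, sq, sub_eq_add_neg]
    rw [show mean (prob (mu W)) (fun x => F x - m) = 0 by
      rw [mean_sub', p.mean_const]; exact sub_self _, sub_zero] at k2
    have k3 := abs_le.1 (abs_le_of_sq_le_sq' k1 (half_pos hε).le |> abs_le.2)
    rw [e, abs_le]
    change _ ≤ _ - mean (prob (mu W)) _ ∧ _ - mean (prob (mu W)) _ ≤ _
    constructor <;> nlinarith [sq_nonneg (mean (prob (mu W')) fun x => F x - m)]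
  · rw [Bas66.dir_eq hW, Bas66.dir_eq hW']
    have g1 : ∀ x, |∑ k, (1 - tt W' 0 x k ^ 2) * grad F x k ^ 2| ≤ B := fun x => by
      refine (abs_of_nonneg (sum_nonneg fun k _ =>
        mul_nonneg (Da.Gr.sech_nonneg _) (sq_nonneg _))).trans_le ?_
      exact le_trans (sum_le_sum fun k _ => by
        nlinarith [mul_nonneg (sq_nonneg (tt W' 0 x k)) (sq_nonneg (grad F x k))]) (hF x)
    have k1 := abs_le_of_sq_le_sq' ((key _ (B ^ 2) ((p.mean_mono fun x =>
      sq_le_sq' (abs_le.1 (g1 x)).1 (abs_le.1 (g1 x)).2).trans (p.mean_const _).le)).trans a3.le)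
      (half_pos hε).le
    have g2 : ∀ x k, |(1 - tt W' 0 x k ^ 2) - (1 - tt W 0 x k ^ 2)| ≤
        a + a⁻¹ * (loc (W' - W) 0 x ⬝ᵥ loc (W' - W) 0 x) := fun x k => by
      have h1 := Da.Gr.tanh_lip (loc W 0 x k) (loc W' 0 x k)
      have h2 : |loc W 0 x k - loc W' 0 x k| = |loc (W' - W) 0 x k| := by
        rw [← abs_neg]; congr 1
        simp only [loc, sub_mulVec, Pi.sub_apply, Matrix.sub_apply, Pi.zero_apply]; ring
      have h3 : loc (W' - W) 0 x k * loc (W' - W) 0 x k ≤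
          loc (W' - W) 0 x ⬝ᵥ loc (W' - W) 0 x :=
        single_le_sum (f := fun k => loc (W' - W) 0 x k * loc (W' - W) 0 x k)
          (fun _ _ => mul_self_nonneg _) (mem_univ k)
      have h4 : |tt W 0 x k + tt W' 0 x k| ≤ 2 := (abs_add_le _ _).trans ((add_le_add
        (abs_tanh_lt_one _).le (abs_tanh_lt_one _).le).trans_eq one_add_one_eq_two)
      rw [show (1 - tt W' 0 x k ^ 2) - (1 - tt W 0 x k ^ 2) =
        (tt W 0 x k + tt W' 0 x k) * (tt W 0 x k - tt W' 0 x k) by ring, abs_mul]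
      refine (mul_le_mul h4 (h1.trans h2.le) (abs_nonneg _) zero_le_two).trans ?_
      rw [← abs_mul_abs_self] at h3
      rw [← div_eq_inv_mul, add_div' _ _ _ a0.ne', le_div_iff₀ a0]
      nlinarith [sq_nonneg (|loc (W' - W) 0 x k| - a)]
    have g3 : ∀ x, |∑ k, (1 - tt W' 0 x k ^ 2) * grad F x k ^ 2 -
        ∑ k, (1 - tt W 0 x k ^ 2) * grad F x k ^ 2| ≤
        B * (a + a⁻¹ * (loc (W' - W) 0 x ⬝ᵥ loc (W' - W) 0 x)) := fun x => by
      rw [← sum_sub_distrib]
      refine (abs_sum_le_sum_abs _ _).trans ((sum_le_sum fun k _ => ?_).trans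
        ((sum_mul _ _ _).symm.trans_le (mul_le_mul_of_nonneg_right (hF x)
          (add_nonneg a0.le (mul_nonneg (by positivity) (Eig.dot_self_nonneg _))))))
      rw [← sub_mul, abs_mul, abs_sq, mul_comm, sq]
      exact mul_le_mul_of_nonneg_left (g2 x k) (mul_self_nonneg _)
    have k2 : mean (prob (mu W)) (fun x =>
        B * (a + a⁻¹ * (loc (W' - W) 0 x ⬝ᵥ loc (W' - W) 0 x))) ≤ ε / 2 := by
      rw [mean_const_mul, mean_add', p.mean_const, mean_const_mul]
      refine le_trans ?_ a4.le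
      have := mul_le_mul_of_nonneg_left ml (inv_pos.2 a0).le
      rw [show a⁻¹ * (K * a ^ 2) = a * K by field_simp] at this
      nlinarith [mul_le_mul_of_nonneg_left this B0]
    have k3 := p.mean_mono fun x => (abs_le.1 (g3 x)).2
    have k4 := p.mean_mono fun x => neg_le.1 (abs_le.1 (g3 x)).1
    simp only [neg_sub] at k4
    rw [mean_sub'] at k3 k4
    rw [abs_le]
    constructor <;> linarith [k1.1, k1.2]

lemma abs_qf (D : Mx n) {R : ℝ} (hR : n * fp D D ≤ R) (x : Cube n) : |qf D x| ≤ √(R * n) / 2 := by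
  have h1 : D *ᵥ sv x ⬝ᵥ D *ᵥ sv x ≤ n * fp D D := by
    rw [fp, mul_sum]
    exact sum_le_sum fun i _ => by
      rw [← sq, mul_comm, ← sv_dot x]; exact Eig.dot_sq_le (D i) _
  have h2 := Eig.dot_sq_le (sv x) (D *ᵥ sv x)
  rw [qf, abs_mul, abs_of_pos one_half_pos, one_div, ← div_eq_inv_mul]
  refine div_le_div_of_nonneg_right (abs_le_sqrt (h2.trans ?_)) zero_le_two
  rw [sv_dot, mul_comm]
  exact mul_le_mul_of_nonneg_right (h1.trans hR) n.cast_nonneg

/-- **transfer of warmth** -/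
theorem wm_tr {R H : ℝ} (hR : n * fp (W' - W) (W' - W) ≤ R) {v : Cube n → ℝ}
    (h : Wm (mu W') H v) : Wm (mu W) (H + √(R * n)) v := by
  have p := isP_prob' (mu_pos W)
  refine ⟨h.1, fun x => (h.2 x).trans ?_⟩
  rw [prob_eq W W' (-(√(R * n) / 2)), exp_add, mul_assoc, mul_comm (prob _ _)]
  refine mul_le_mul_of_nonneg_left (mul_le_mul_of_nonneg_right ((div_le_self (exp_pos _).le
    ((p.mean_const 1).symm.trans_le (p.mean_mono fun x => one_le_exp ?_))).trans
      (exp_le_exp.2 ?_)) (p.nn x)) (exp_pos _).le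
  · linarith [(abs_le.1 (abs_qf _ hR x)).1]
  · linarith [(abs_le.1 (abs_qf _ hR x)).2]

/-- **transfer of fields** -/
theorem fld_tr {R H H' e ρ : ℝ} (hR : n * fp (W' - W) (W' - W) ≤ R) {Φ : Cube n → ℝ} {ω : VF n}
    (h : Fld (mu W) Φ ω e ρ H) (hH : H' + √(R * n) ≤ H) : Fld (mu W') Φ ω e ρ H' :=
  ⟨h.odd, h.sup, h.op, fun v hv => h.cl v ⟨hv.1, fun x => ((wm_tr hR hv).2 x).trans
    (mul_le_mul_of_nonneg_right (exp_le_exp.2 hH) ((isP_prob' (mu_pos W)).nn x))⟩⟩

/-- the Frobenius distance of the couplings -/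
theorem fp_Jmat (β : ℝ) (g g' : Pair n → ℝ) :
    fp (β • Jmat n g' - β • Jmat n g) (β • Jmat n g' - β • Jmat n g) =
      2 / n * (β ^ 2 * Conc.en (g' - g) ^ 2) := by
  rw [← smul_sub, Nrm.Jmat_sub, ← Nrm.Jmat_smul, ← mul_pow, ← sq_abs, abs_mul,
    abs_of_nonneg (Conc.en_nonneg _), ← Conc.en_smul, Conc.en_sq, ← Nrm.frob_Jmat]
  simp only [fp, sq]

end Crest.Agent.T157.Lm.Cmp66

end
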