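import Crest.Agent.T157.LmDef_76

/-!
# Row 157, block B/S5 (helper7): `L²` toolbox for rooted families
-/

set_option autoImplicit false
set_option linter.all false

noncomputable section

namespace Crest.Agent.T157.Lm

open MeasureTheory Real Filter Topology Finset
open Crest.Agent.R238.Gap (E pd)
open Crest.Agent.R253.Meh74 (gam C1)
open Crest.Agent.T157.Hm (Pl en)

/-! ### one function -/

section one
variable {m : ℕ} {f g h : E m → ℝ}

theorem M2.add (hf : M2 f) (hg : M2 g) : M2 fun z => f z + g z := ⟨hf.1.add hg.1, hf.2.add hg.2⟩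
theorem M2.sub (hf : M2 f) (hg : M2 g) : M2 fun z => f z - g z := ⟨hf.1.sub hg.1, hf.2.sub hg.2⟩
theorem M2.neg (hf : M2 f) : M2 fun z => -f z := ⟨hf.1.neg, hf.2.neg⟩
theorem M2.cmul (c : ℝ) (hf : M2 f) : M2 fun z => c * f z := ⟨hf.1.const_mul c, hf.2.const_mul c⟩
theorem M2.const (c : ℝ) : M2 fun _ : E m => c := ⟨measurable_const, memLp_const c⟩
theorem M2.sum {ι : Type*} (S : Finset ι) {f : ι → E m → ℝ} (hf : ∀ i ∈ S, M2 (f i)) :
    M2 fun z => ∑ i ∈ S, f i z :=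
  ⟨Finset.measurable_sum _ fun i hi => (hf i hi).1, memLp_finsetSum _ fun i hi => (hf i hi).2⟩
theorem M2.of_c0 (hf : Hm.C0 f) : M2 f := ⟨hf.c.measurable, hf.memLp⟩
theorem M2.of_c1 (hf : C1 f) : M2 f := M2.of_c0 (Hm.c0_of hf)
theorem M2.of_pl {D : ℕ} (hf : f ∈ Pl m D) : M2 f := M2.of_c0 (Hm.c0 hf)
theorem M2.int (hf : M2 f) : Integrable f (gam m) := hf.2.integrable one_le_two
theorem M2.int_mul (hf : M2 f) (hg : M2 g) : Integrable (fun z => f z * g z) (gam m) :=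
  hf.2.integrable_mul hg.2
theorem M2.int_sq (hf : M2 f) : Integrable (fun z => f z ^ 2) (gam m) := hf.2.integrable_sq
theorem M2.of_sq (hm : Measurable f) (hf : Integrable (fun z => f z ^ 2) (gam m)) : M2 f :=
  ⟨hm, (memLp_two_iff_integrable_sq hm.aestronglyMeasurable).2 hf⟩
/-- domination -/
theorem M2.of_le (hg : M2 g) (hm : Measurable f) (h : ∀ z, |f z| ≤ |g z|) : M2 f :=
  ⟨hm, hg.2.of_le hm.aestronglyMeasurable (Eventually.of_forall h)⟩
theorem sq_eq_ip (f : E m → ℝ) : sq f = Hm.ip f f := by simp only [sq, Hm.ip, pow_two]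
theorem sq_nonneg' (f : E m → ℝ) : 0 ≤ sq f := integral_nonneg fun _ => sq_nonneg _
theorem c0_of_lip {B : ℝ} (h : ∀ z z', |f z - f z'| ≤ B * ‖z - z'‖) : Hm.C0 f := by
  have h' : ∀ z z', |f z - f z'| ≤ |B| * ‖z - z'‖ := fun z z' =>
    (h z z').trans (mul_le_mul_of_nonneg_right (le_abs_self B) (norm_nonneg _))
  refine ⟨(LipschitzWith.of_dist_le_mul (K := ⟨|B|, abs_nonneg B⟩) fun z z' => ?_).continuous,
    |f 0| + |B|, 1, fun z => ?_⟩
  · rw [Real.dist_eq, dist_eq_norm]; exact h' z z'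
  · have := h' z 0
    rw [sub_zero] at this
    have e := abs_sub_abs_le_abs_sub (f z) (f 0)
    nlinarith [abs_nonneg (f 0), abs_nonneg B, norm_nonneg z]

end one

/-! ### averages over the roots -/

variable {C : Type} [Fintype C] [DecidableEq C] {n m L : ℕ}

theorem av_add (a b : (C → Fin n) → ℝ) : av (fun x => a x + b x) = av a + av b := by
  simp only [av, sum_add_distrib, add_div]
theorem av_sub (a b : (C → Fin n) → ℝ) : av (fun x => a x - b x) = av a - av b := by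
  simp only [av, sum_sub_distrib, sub_div]
theorem av_mul (c : ℝ) (a : (C → Fin n) → ℝ) : av (fun x => c * a x) = c * av a := by
  simp only [av, ← mul_sum, mul_div_assoc]
theorem av_sum {ι : Type*} (S : Finset ι) (a : ι → (C → Fin n) → ℝ) :
    av (fun x => ∑ i ∈ S, a i x) = ∑ i ∈ S, av (a i) := by
  simp only [av]; rw [sum_comm, sum_div]
theorem av_mono {a b : (C → Fin n) → ℝ} (h : ∀ x, a x ≤ b x) : av a ≤ av b :=
  div_le_div_of_nonneg_right (sum_le_sum fun x _ => h x) (by positivity)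
theorem av_nonneg {a : (C → Fin n) → ℝ} (h : ∀ x, 0 ≤ a x) : 0 ≤ av a :=
  div_nonneg (sum_nonneg fun x _ => h x) (by positivity)
theorem av_const (hn : 0 < n) (c : ℝ) : av (fun _ : C → Fin n => c) = c := by
  simp only [av, sum_const, card_univ, Fintype.card_fun, Fintype.card_fin, nsmul_eq_mul, Nat.cast_pow]
  field_simp
theorem av_le {a : (C → Fin n) → ℝ} {c : ℝ} (hn : 0 < n) (h : ∀ x, a x ≤ c) : av a ≤ c :=
  (av_mono h).trans (av_const hn c).le

/-! ### the scalar product at a fixed size -/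

/-- all members are square integrable -/
def A2 (F : (C → Fin n) → E m → ℝ) : Prop := ∀ x, M2 (F x)
/-- scalar product at a fixed size -/
def ia (F G : (C → Fin n) → E m → ℝ) : ℝ := av fun x => ∫ z, F x z * G x z ∂gam m

theorem ipx_eq (F G : Fam L C) (n : ℕ) : ipx F G n = ia (F n) (G n) := rfl
theorem av_sq (F : (C → Fin n) → E m → ℝ) : (av fun x => sq (F x)) = ia F F := by
  simp only [ia, sq, pow_two]
theorem n2_eq (F : Fam L C) (n : ℕ) : n2 F n = ia (F n) (F n) := av_sq _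
theorem n2_nonneg (F : Fam L C) (n : ℕ) : 0 ≤ n2 F n := av_nonneg fun _ => sq_nonneg' _

section ia
variable {F G H : (C → Fin n) → E m → ℝ}

theorem A2.add (hF : A2 F) (hG : A2 G) : A2 (F + G) := fun x => (hF x).add (hG x)
theorem A2.sub (hF : A2 F) (hG : A2 G) : A2 (F - G) := fun x => (hF x).sub (hG x)
theorem A2.cmul (c : ℝ) (hF : A2 F) : A2 fun x z => c * F x z := fun x => (hF x).cmul c
theorem A2.sum {ι : Type*} (S : Finset ι) {e : ι → (C → Fin n) → E m → ℝ} (he : ∀ i ∈ S, A2 (e i)) :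
    A2 fun x z => ∑ i ∈ S, e i x z := fun x => M2.sum S fun i hi => he i hi x

theorem ia_comm (F G : (C → Fin n) → E m → ℝ) : ia F G = ia G F := by simp only [ia, mul_comm]
theorem ia_self_nonneg (F : (C → Fin n) → E m → ℝ) : 0 ≤ ia F F :=
  av_nonneg fun _ => integral_nonneg fun _ => mul_self_nonneg _
theorem ia_add (hF : A2 F) (hG : A2 G) (hH : A2 H) : ia (F + G) H = ia F H + ia G H := by
  rw [ia, ia, ia, ← av_add]
  refine congrArg av (funext fun x => ?_)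
  simp only [Pi.add_apply, add_mul]
  exact integral_add ((hF x).int_mul (hH x)) ((hG x).int_mul (hH x))
theorem ia_sub (hF : A2 F) (hG : A2 G) (hH : A2 H) : ia (F - G) H = ia F H - ia G H := by
  rw [ia, ia, ia, ← av_sub]
  refine congrArg av (funext fun x => ?_)
  simp only [Pi.sub_apply, sub_mul]
  exact integral_sub ((hF x).int_mul (hH x)) ((hG x).int_mul (hH x))
theorem ia_cmul (c : ℝ) (F H : (C → Fin n) → E m → ℝ) :
    ia (fun x z => c * F x z) H = c * ia F H := by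
  rw [ia, ia, ← av_mul]
  refine congrArg av (funext fun x => ?_)
  simp only [mul_assoc]
  exact integral_const_mul _ _
theorem ia_sum {ι : Type*} (S : Finset ι) {e : ι → (C → Fin n) → E m → ℝ} (he : ∀ i ∈ S, A2 (e i))
    (hH : A2 H) : ia (fun x z => ∑ i ∈ S, e i x z) H = ∑ i ∈ S, ia (e i) H := by
  simp only [ia]
  rw [← av_sum]
  refine congrArg av (funext fun x => ?_)
  simp only [sum_mul]
  exact integral_finsetSum _ fun i hi => (he i hi x).int_mul (hH x)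
theorem ia_add' (hF : A2 F) (hG : A2 G) (hH : A2 H) : ia H (F + G) = ia H F + ia H G := by
  rw [ia_comm, ia_add hF hG hH, ia_comm F, ia_comm G]
theorem ia_sub' (hF : A2 F) (hG : A2 G) (hH : A2 H) : ia H (F - G) = ia H F - ia H G := by
  rw [ia_comm, ia_sub hF hG hH, ia_comm F, ia_comm G]
theorem ia_cmul' (c : ℝ) (F H : (C → Fin n) → E m → ℝ) :
    ia H (fun x z => c * F x z) = c * ia H F := by rw [ia_comm, ia_cmul, ia_comm]
theorem ia_sum' {ι : Type*} (S : Finset ι) {e : ι → (C → Fin n) → E m → ℝ} (he : ∀ i ∈ S, A2 (e i))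
    (hH : A2 H) : ia H (fun x z => ∑ i ∈ S, e i x z) = ∑ i ∈ S, ia H (e i) := by
  rw [ia_comm, ia_sum S he hH]; simp only [ia_comm H]
theorem ia_cmul_self (c : ℝ) (F : (C → Fin n) → E m → ℝ) :
    ia (fun x z => c * F x z) (fun x z => c * F x z) = c ^ 2 * ia F F := by
  rw [ia_cmul, ia_cmul']; ring
theorem ia_add_self (hF : A2 F) (hG : A2 G) :
    ia (F + G) (F + G) = ia F F + 2 * ia F G + ia G G := by
  rw [ia_add hF hG (hF.add hG), ia_add' hF hG hF, ia_add' hF hG hG, ia_comm G F]; ring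
theorem ia_sub_self (hF : A2 F) (hG : A2 G) :
    ia (F - G) (F - G) = ia F F - 2 * ia F G + ia G G := by
  rw [ia_sub hF hG (hF.sub hG), ia_sub' hF hG hF, ia_sub' hF hG hG, ia_comm G F]; ring
/-- Cauchy-Schwarz -/
theorem ia_sq_le (hF : A2 F) (hG : A2 G) : ia F G ^ 2 ≤ ia F F * ia G G := by
  have h : ∀ t : ℝ, 0 ≤ ia F F * (t * t) + 2 * ia F G * t + ia G G := fun t => by
    have h1 := ia_self_nonneg ((fun x z => t * F x z) + G)
    rw [ia_add_self (hF.cmul t) hG, ia_cmul_self, ia_cmul] at h1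
    linarith
  have := discrim_le_zero h
  unfold discrim at this
  nlinarith
theorem ia_add_le (hF : A2 F) (hG : A2 G) : ia (F + G) (F + G) ≤ 2 * ia F F + 2 * ia G G := by
  have := ia_self_nonneg (F - G)
  rw [ia_sub_self hF hG] at this
  rw [ia_add_self hF hG]; linarith
theorem ia_sub_le (hF : A2 F) (hG : A2 G) : ia (F - G) (F - G) ≤ 2 * ia F F + 2 * ia G G := by
  have := ia_self_nonneg (F + G)
  rw [ia_add_self hF hG] at this
  rw [ia_sub_self hF hG]; linarith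
theorem ia_tri (hF : A2 F) (hG : A2 G) (hH : A2 H) :
    ia (F - H) (F - H) ≤ 2 * ia (F - G) (F - G) + 2 * ia (G - H) (G - H) := by
  simpa only [sub_add_sub_cancel] using ia_add_le (hF.sub hG) (hG.sub hH)
theorem ia_le_of_sub (hF : A2 F) (hG : A2 G) : ia F F ≤ 2 * ia (F - G) (F - G) + 2 * ia G G := by
  simpa only [sub_add_cancel] using ia_add_le (hF.sub hG) hG
theorem abs_ia_le (hF : A2 F) (hG : A2 G) : |ia F G| ≤ (ia F F + ia G G) / 2 := by
  have h1 := ia_self_nonneg (F - G)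
  have h2 := ia_self_nonneg (F + G)
  rw [ia_sub_self hF hG] at h1
  rw [ia_add_self hF hG] at h2
  exact abs_le.2 ⟨by linarith, by linarith⟩
theorem abs_ia_small (hF : A2 F) (hG : A2 G) {ε B : ℝ} (hε : 0 < ε)
    (h1 : ia F F ≤ ε ^ 2 / (|B| + 1)) (h2 : ia G G ≤ B) : |ia F G| ≤ ε := by
  refine abs_le_of_sq_le_sq' ((ia_sq_le hF hG).trans ?_) hε.le |>.elim fun a b => abs_le.2 ⟨a, b⟩
  have h3 : ia G G ≤ |B| + 1 := by linarith [le_abs_self B]
  refine (mul_le_mul h1 h3 (ia_self_nonneg _) (by positivity)).trans (le_of_eq ?_)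
  field_simp
/-- distance to a combination of orthogonal families -/
theorem ia_proj {ι : Type} [Fintype ι] [DecidableEq ι] {e : ι → (C → Fin n) → E m → ℝ} (hF : A2 F)
    (he : ∀ i, A2 (e i)) (ho : ∀ i j, i ≠ j → ia (e i) (e j) = 0) (a : ι → ℝ) :
    ia (F - fun x z => ∑ j, a j * e j x z) (F - fun x z => ∑ j, a j * e j x z) =
      ia F F + ∑ j, (a j ^ 2 * ia (e j) (e j) - 2 * a j * ia F (e j)) := by
  have h1 : ∀ j ∈ (univ : Finset ι), A2 fun x z => a j * e j x z := fun j _ => (he j).cmul _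
  rw [ia_sub_self hF (A2.sum _ h1), ia_sum' _ h1 hF, ia_sum _ h1 (A2.sum _ h1), sum_sub_distrib,
    mul_sum]
  have : ∀ i, ia (fun x z => a i * e i x z) (fun x z => ∑ j, a j * e j x z) =
      a i ^ 2 * ia (e i) (e i) := fun i => by
    rw [ia_sum' _ h1 (h1 i (mem_univ _)), sum_eq_single i, ia_cmul_self]
    · intro j _ hj
      rw [ia_cmul, ia_cmul', ho i j hj.symm]; ring
    · exact fun h => absurd (mem_univ i) h
  simp only [this, ia_cmul', mul_assoc]
  ring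

end ia

/-! ### families -/

section fam
variable {F G H : Fam L C}

theorem Eqv.add {F G : (C → Fin n) → E (Nv L n) → ℝ} (hF : Eqv F) (hG : Eqv G) : Eqv (F + G) :=
  fun p x z => by simp only [Pi.add_apply, hF p x z, hG p x z]
theorem Eqv.sub {F G : (C → Fin n) → E (Nv L n) → ℝ} (hF : Eqv F) (hG : Eqv G) : Eqv (F - G) :=
  fun p x z => by simp only [Pi.sub_apply, hF p x z, hG p x z]
theorem Eqv.cmul (c : ℝ) {F : (C → Fin n) → E (Nv L n) → ℝ} (hF : Eqv F) :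
    Eqv fun x z => c * F x z := fun p x z => by simp only [hF p x z]
theorem Adm.a2 (hF : Adm F) : ∀ᶠ n in atTop, A2 (F n) := hF.mono fun _ h => h.1
theorem Adm.add (hF : Adm F) (hG : Adm G) : Adm (F + G) := by
  filter_upwards [hF, hG] with n h1 h2 using ⟨A2.add h1.1 h2.1, h1.2.add h2.2⟩
theorem Adm.sub (hF : Adm F) (hG : Adm G) : Adm (F - G) := by
  filter_upwards [hF, hG] with n h1 h2 using ⟨A2.sub h1.1 h2.1, h1.2.sub h2.2⟩
theorem Adm.smul (a : ℕ → ℝ) (hF : Adm F) : Adm fun n x z => a n * F n x z :=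
  hF.mono fun n h => ⟨A2.cmul (a n) h.1, h.2.cmul (a n)⟩
theorem Adm.sum {ι : Type*} (S : Finset ι) {e : ι → Fam L C} (he : ∀ i ∈ S, Adm (e i)) :
    Adm fun n x z => ∑ i ∈ S, e i n x z :=
  ((eventually_all_finset S).2 he).mono fun n h => ⟨A2.sum S fun i hi => (h i hi).1,
    fun p x z => sum_congr rfl fun i hi => (h i hi).2 p x z⟩

theorem ev_tri (hF : Adm F) (hG : Adm G) (hH : Adm H) :
    ∀ᶠ n in atTop, n2 (F - H) n ≤ 2 * n2 (F - G) n + 2 * n2 (G - H) n := by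
  filter_upwards [hF.a2, hG.a2, hH.a2] with n h1 h2 h3
  simp only [n2_eq]; exact ia_tri h1 h2 h3
theorem Bd.of_sub (hG : Bd G) (aF : Adm F) (aG : Adm G) {ε : ℝ}
    (h : ∀ᶠ n in atTop, n2 (F - G) n ≤ ε) : Bd F := by
  obtain ⟨B, hB⟩ := hG
  refine ⟨2 * ε + 2 * B, ?_⟩
  filter_upwards [aF.a2, aG.a2, h, hB] with n h1 h2 h3 h4
  rw [n2_eq] at h3 h4 ⊢
  have h3' : ia (F n - G n) (F n - G n) ≤ ε := h3
  linarith [ia_le_of_sub h1 h2]
theorem Bd.add (hF : Bd F) (hG : Bd G) (aF : Adm F) (aG : Adm G) : Bd (F + G) := by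
  obtain ⟨B, hB⟩ := hF
  obtain ⟨B', hB'⟩ := hG
  refine ⟨2 * B + 2 * B', ?_⟩
  filter_upwards [aF.a2, aG.a2, hB, hB'] with n h1 h2 h3 h4
  rw [n2_eq] at h3 h4 ⊢
  exact (ia_add_le h1 h2).trans (by linarith)
theorem Bd.sub (hF : Bd F) (hG : Bd G) (aF : Adm F) (aG : Adm G) : Bd (F - G) := by
  obtain ⟨B, hB⟩ := hF
  obtain ⟨B', hB'⟩ := hG
  refine ⟨2 * B + 2 * B', ?_⟩
  filter_upwards [aF.a2, aG.a2, hB, hB'] with n h1 h2 h3 h4
  rw [n2_eq] at h3 h4 ⊢
  exact (ia_sub_le h1 h2).trans (by linarith)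
theorem n2_smul (a : ℕ → ℝ) (F : Fam L C) (n : ℕ) :
    n2 (fun n x z => a n * F n x z) n = a n ^ 2 * n2 F n := by
  rw [n2_eq, n2_eq]; exact ia_cmul_self _ _
theorem Bd.smul (hF : Bd F) {a : ℕ → ℝ} {M : ℝ} (ha : ∀ᶠ n in atTop, |a n| ≤ M) :
    Bd fun n x z => a n * F n x z := by
  obtain ⟨B, hB⟩ := hF
  refine ⟨M ^ 2 * B, ?_⟩
  filter_upwards [ha, hB] with n h1 h2
  rw [n2_smul]
  exact mul_le_mul (sq_le_sq' (abs_le.1 h1).1 (abs_le.1 h1).2) h2 (n2_nonneg _ _) (sq_nonneg _)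
theorem Bd.sum {ι : Type*} (S : Finset ι) {e : ι → Fam L C} (he : ∀ i ∈ S, Bd (e i) ∧ Adm (e i)) :
    Bd fun n x z => ∑ i ∈ S, e i n x z := by
  classical
  induction S using Finset.induction_on with
  | empty => exact ⟨0, Eventually.of_forall fun n => by simp [n2, sq, av]⟩
  | insert i S hi ih =>
    simp only [sum_insert hi]
    exact Bd.add (he i (mem_insert_self _ _)).1 (ih fun j hj => he j (mem_insert_of_mem hj))
      (he i (mem_insert_self _ _)).2 (Adm.sum S fun j hj => (he j (mem_insert_of_mem hj)).2)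
theorem Bd.of_tendsto {l : ℝ} (h : Tendsto (n2 F) atTop (𝓝 l)) : Bd F :=
  ⟨l + 1, h.eventually (eventually_le_nhds (lt_add_one l))⟩

end fam

/-! ### convergent sequences -/

theorem Cv.of_approx {a : ℕ → ℝ} (h : ∀ ε > (0 : ℝ), ∃ b, Cv b ∧ ∀ᶠ n in atTop, |a n - b n| ≤ ε) :
    Cv a := by
  refine cauchySeq_tendsto_of_complete (Metric.cauchySeq_iff.2 fun ε hε => ?_)
  obtain ⟨b, ⟨l, hb⟩, h⟩ := h (ε / 8) (by positivity)
  obtain ⟨N, hN⟩ := eventually_atTop.1 (h.and (Metric.tendsto_nhds.1 hb (ε / 8) (by positivity)))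
  refine ⟨N, fun i hi j hj => ?_⟩
  obtain ⟨a1, a2⟩ := hN i hi
  obtain ⟨a3, a4⟩ := hN j hj
  rw [Real.dist_eq] at a2 a4 ⊢
  rw [abs_le] at a1 a3
  rw [abs_lt] at a2 a4 ⊢
  constructor <;> linarith [a1.1, a1.2, a2.1, a2.2, a3.1, a3.2, a4.1, a4.2]
theorem Cv.congr {a b : ℕ → ℝ} (h : Cv a) (e : ∀ᶠ n in atTop, a n = b n) : Cv b :=
  h.imp fun _ h => h.congr' e
theorem Cv.add {a b : ℕ → ℝ} (ha : Cv a) (hb : Cv b) : Cv fun n => a n + b n :=
  ha.elim fun _ h => hb.elim fun _ h' => ⟨_, h.add h'⟩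
theorem Cv.sub {a b : ℕ → ℝ} (ha : Cv a) (hb : Cv b) : Cv fun n => a n - b n :=
  ha.elim fun _ h => hb.elim fun _ h' => ⟨_, h.sub h'⟩
theorem Cv.mul {a b : ℕ → ℝ} (ha : Cv a) (hb : Cv b) : Cv fun n => a n * b n :=
  ha.elim fun _ h => hb.elim fun _ h' => ⟨_, h.mul h'⟩
theorem Cv.const (c : ℝ) : Cv fun _ => c := ⟨c, tendsto_const_nhds⟩
theorem Cv.bdd {a : ℕ → ℝ} (ha : Cv a) : ∃ M, ∀ᶠ n in atTop, |a n| ≤ M :=
  ha.elim fun l h => ⟨|l| + 1, h.abs.eventually (eventually_le_nhds (lt_add_one _))⟩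

/-- scalar products with a bounded family pass to `L²` limits -/
theorem cv_ipx {F G : Fam L C} (aF : Adm F) (aG : Adm G) (bG : Bd G)
    (h : ∀ ε > (0 : ℝ), ∃ q, Adm q ∧ Cv (ipx q G) ∧ ∀ᶠ n in atTop, n2 (F - q) n ≤ ε) :
    Cv (ipx F G) := by
  obtain ⟨B, hB⟩ := bG
  refine Cv.of_approx fun ε hε => ?_
  obtain ⟨q, aq, cq, hq⟩ := h (ε ^ 2 / (|B| + 1)) (by positivity)
  refine ⟨_, cq, ?_⟩
  filter_upwards [aF.a2, aG.a2, aq.a2, hq, hB] with n h1 h2 h3 h4 h5
  rw [n2_eq] at h4 h5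
  rw [ipx_eq, ipx_eq, ← ia_sub h1 h3 h2]
  exact abs_ia_small (h1.sub h3) h2 hε h4 h5
theorem ipx_comm (F G : Fam L C) : ipx F G = ipx G F := funext fun n => ia_comm _ _

end Crest.Agent.T157.Lm

end
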