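import Crest.Agent.T157.LmDef_76

/-!
# Row 157, block B/S5 (helper84): products and sines in the limit class
-/

set_option autoImplicit false
set_option linter.unusedSectionVars false

noncomputable section

namespace Crest.Agent.T157.Lm.Nl

open MeasureTheory Real Filter Topology Finset
open Crest.Agent.R238.Gap (E pd PG)
open Crest.Agent.R253.Meh74 (gam C1)
open Crest.Agent.T157.Hm (Pl en)

variable {L n m : ℕ}

theorem av_le {a : (Unit → Fin n) → ℝ} {B : ℝ} (hn : 0 < n) (h : ∀ x, a x ≤ B) : av a ≤ B := by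
  rw [av, div_le_iff₀ (by positivity)]
  exact (sum_le_sum fun x _ => h x).trans_eq (by simp [mul_comm])

/-- integrals of equivariant rooted families do not depend on the root -/
theorem root (hS : SkStmt) {F : (Unit → Fin n) → E (Nv L n) → ℝ} (he : Eqv F)
    (hm : ∀ x, Measurable (F x)) (x : Unit → Fin n) :
    av (fun y => ∫ z, F y z ∂gam _) = ∫ z, F x z ∂gam _ := by
  have : ∀ y, ∫ z, F y z ∂gam _ = ∫ z, F x z ∂gam _ := fun y => by
    have e : Equiv.swap (x ()) (y ()) ∘ x = y := funext fun _ => by simp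
    have hp := hS.mp L n (Equiv.swap (x ()) (y ()))
    have := integral_map (μ := gam _) hp.aemeasurable (hm y).aestronglyMeasurable
    rw [hp.map_eq] at this
    exact this.trans (integral_congr_ae (ae_of_all _ fun z => by
      have := he (Equiv.swap (x ()) (y ())) x z
      rwa [e] at this))
  have n0 : (n : ℝ) ≠ 0 := Nat.cast_ne_zero.2 (x ()).pos.ne'
  simp [av, this, n0]

/-- measurable and equivariant -/
def Ms (F : F1 L) : Prop := ∀ᶠ n in atTop, (∀ x, Measurable (F n x)) ∧ Eqv (F n)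
/-- integrable at every root, with integral at most `B` -/
def Dm (F : F1 L) (B : ℝ) : Prop := ∀ᶠ n in atTop, ∀ x,
  Integrable (F n x) (gam _) ∧ ∫ z, F n x z ∂gam _ ≤ B

variable {F G X Y q : F1 L} {B B' : ℝ}

theorem ms (h : Adm F) : Ms F := h.mono fun _ h => ⟨fun x => (h.1 x).1, h.2⟩

theorem Ms.map2 (hF : Ms F) (hG : Ms G) {φ : ℝ × ℝ → ℝ} (hφ : Measurable φ) :
    Ms fun n x z => φ (F n x z, G n x z) := by
  filter_upwards [hF, hG] with n a b
  exact ⟨fun x => hφ.comp ((a.1 x).prodMk (b.1 x)), fun p x z => by simp only [a.2 p, b.2 p]⟩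

theorem Ms.map (hF : Ms F) {φ : ℝ → ℝ} (hφ : Measurable φ) : Ms fun n x z => φ (F n x z) :=
  hF.map2 hF (hφ.comp measurable_fst)

theorem Dm.const (c : ℝ) : Dm (fun _ _ _ => c : F1 L) c :=
  .of_forall fun _ _ => ⟨integrable_const _, by simp⟩

theorem Dm.add (hF : Dm F B) (hG : Dm G B') : Dm (fun n x z => F n x z + G n x z) (B + B') := by
  filter_upwards [hF, hG] with n a b x
  exact ⟨(a x).1.add (b x).1, by rw [integral_add (a x).1 (b x).1]; exact add_le_add (a x).2 (b x).2⟩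

theorem Dm.smul (hF : Dm F B) {c : ℝ} (hc : 0 ≤ c) : Dm (fun n x z => c * F n x z) (c * B) := by
  filter_upwards [hF] with n a x
  exact ⟨(a x).1.const_mul c, by
    rw [integral_const_mul]; exact mul_le_mul_of_nonneg_left (a x).2 hc⟩

theorem Dm.mono (hG : Dm G B) (hF : Ms F) (h : ∀ᶠ n in atTop, ∀ x z, |F n x z| ≤ G n x z) :
    Dm F B := by
  filter_upwards [hG, hF, h] with n a b c x
  have i := (a x).1.mono' (b.1 x).aestronglyMeasurable (ae_of_all _ (c x))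
  exact ⟨i, (integral_mono i (a x).1 fun z => (le_abs_self _).trans (c x z)).trans (a x).2⟩

theorem Dm.n2 (hG : Dm G B) (h : ∀ᶠ n in atTop, ∀ x z, F n x z ^ 2 ≤ G n x z) :
    ∀ᶠ n in atTop, n2 F n ≤ B := by
  filter_upwards [hG, h, eventually_gt_atTop 0] with n a c n0
  exact av_le n0 fun x => (integral_mono_of_nonneg (ae_of_all _ fun z => sq_nonneg _) (a x).1
    (ae_of_all _ (c x))).trans (a x).2

theorem Dm.adm (hG : Dm G B) (hF : Ms F) (h : ∀ᶠ n in atTop, ∀ x z, F n x z ^ 2 ≤ G n x z) :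
    Adm F ∧ Bd F := by
  refine ⟨?_, B, hG.n2 h⟩
  filter_upwards [hG.mono (hF.map (measurable_id.pow_const 2))
    (h.mono fun n c x z => by simpa using c x z), hF] with n a b
  exact ⟨fun x => ⟨b.1 x, (memLp_two_iff_integrable_sq (b.1 x).aestronglyMeasurable).2 (a x).1⟩, b.2⟩

theorem dm_sq (hS : SkStmt) (h : Adm F) (hB : ∀ᶠ n in atTop, n2 F n ≤ B) :
    Dm (fun n x z => F n x z ^ 2) B := by
  filter_upwards [h, (ms h).map (measurable_id.pow_const 2), hB] with n a b c x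
  exact ⟨(a.1 x).2.integrable_sq, (root hS b.2 b.1 x).symm.le.trans c⟩

theorem adm_sub (hF : Adm F) (hG : Adm G) : Adm (F - G) := by
  filter_upwards [hF, hG] with n a b
  exact ⟨fun x => ⟨(a.1 x).1.sub (b.1 x).1, (a.1 x).2.sub (b.1 x).2⟩,
    fun p x z => by simp only [Pi.sub_apply, a.2 p, b.2 p]⟩

theorem small (B : ℝ) {ε : ℝ} (hε : 0 < ε) : ∃ θ, 0 < θ ∧ θ ≤ 1 ∧ θ * B ≤ ε := by
  have h : 0 < |B| + 1 := by positivity
  have h0 : 0 < min 1 (ε / (|B| + 1)) := by positivity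
  refine ⟨_, h0, min_le_left _ _, ?_⟩
  have := (le_div_iff₀ h).1 (min_le_right 1 (ε / (|B| + 1)))
  nlinarith [le_abs_self B]

theorem sq_ip (f : E m → ℝ) : sq f = Hm.ip f f := by simp only [Lm.sq, Hm.ip, pow_two]
theorem sq_nn (f : E m → ℝ) : 0 ≤ sq f := integral_nonneg fun _ => sq_nonneg _

section
variable (hH : HypStmt) (hS : SkStmt) (hP : RpStmt) (hL : LinStmt)

include hH in
theorem sq_mul (D : ℕ) : ∃ C > (0 : ℝ), ∀ m, ∀ f ∈ Pl m D, ∀ g ∈ Pl m D,
    sq (fun z => f z * g z) ≤ C * (sq f * sq g) := by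
  obtain ⟨C, C0, hC⟩ := hH.four D
  refine ⟨C, C0, fun m f hf g hg => ?_⟩
  have h := Hm.ip_sq_le ((Hm.c0 hf).mul (Hm.c0 hf)) ((Hm.c0 hg).mul (Hm.c0 hg))
  have e : ∀ u : E m → ℝ, Hm.ip (fun z => u z * u z) (fun z => u z * u z) = ∫ z, u z ^ 4 ∂gam m :=
    fun u => by unfold Hm.ip; congr 1; funext z; ring
  have e' : Hm.ip (fun z => f z * f z) (fun z => g z * g z) = sq fun z => f z * g z := by
    unfold Hm.ip Lm.sq; congr 1; funext z; ring
  rw [e, e, e'] at h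
  have := sq_nn f
  have := sq_nn g
  refine (abs_le_of_sq_le_sq' (h.trans ((mul_le_mul (hC m f hf) (hC m g hg)
    (integral_nonneg fun z => by positivity) (by positivity)).trans_eq (by ring))) (by positivity)).2

include hS hP in
theorem rp_pt (h : RP Unit q) (hb : Bd q) : ∃ (D : ℕ) (B : ℝ), ∀ᶠ n in atTop, Eqv (q n) ∧
    ∀ x, q n x ∈ Pl _ D ∧ sq (q n x) ≤ B := by
  obtain ⟨D, hD⟩ := hP.deg L _ q h
  obtain ⟨B, hB⟩ := hb
  refine ⟨D, B, ?_⟩
  filter_upwards [hD, hP.eqv L _ q h, dm_sq hS (hP.eqv L _ q h) hB] with n a b c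
  exact ⟨b.2, fun x => ⟨a x, (c x).2⟩⟩

include hH hS hP in
theorem rp_four (h : RP Unit q) (hb : Bd q) : ∃ B, Dm (fun n x z => q n x z ^ 4) B := by
  obtain ⟨D, B, hD⟩ := rp_pt hS hP h hb
  obtain ⟨C, C0, hC⟩ := hH.four D
  refine ⟨C * B ^ 2, hD.mono fun n a x => ⟨?_, (hC _ _ (a.2 x).1).trans ?_⟩⟩
  · have := Hm.c0 (a.2 x).1
    convert (((this.mul this).mul this).mul this).int using 2
    ring
  · exact mul_le_mul_of_nonneg_left (pow_le_pow_left₀ (sq_nn _) (a.2 x).2 2) C0.le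

include hS hP in
theorem cl_dm (h : Cl F) {ε : ℝ} (hε : 0 < ε) :
    ∃ q, RP Unit q ∧ Bd q ∧ Dm (fun n x z => (F n x z - q n x z) ^ 2) ε := by
  obtain ⟨q, a, b, c⟩ := h.2 ε hε
  exact ⟨q, a, b, dm_sq hS (adm_sub h.1 (hP.eqv L _ q a)) c⟩

include hS hL in
theorem cl_sq (h : Cl F) : ∃ B, Dm (fun n x z => F n x z ^ 2) B := by
  obtain ⟨B, hB⟩ := (hL.wk L _ F h).1.2.1
  exact ⟨B, dm_sq hS h.1 hB⟩

theorem pd_sin {f : E m → ℝ} (hf : C1 f) (θ : ℝ) (j : Fin m) (z : E m) :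
    pd j (fun z => sin (θ * f z)) z = cos (θ * f z) * (θ * pd j f z) := by
  have := ((hf.diff z).hasFDerivAt.const_mul θ).sin.fderiv
  simp [pd, this]

theorem c1_sin {f : E m → ℝ} (hf : C1 f) (θ : ℝ) : C1 fun z => sin (θ * f z) :=
  ⟨(contDiff_const.mul hf.c).sin, PG.of_bdd fun _ => abs_sin_le_one _, fun j => by
    rw [funext (pd_sin hf θ j)]
    exact (PG.of_bdd fun _ => abs_cos_le_one _).mul ((R238.Gap.pg_const θ).mul (hf.p j))⟩

include hH in
theorem en_sin (D : ℕ) (θ B B' : ℝ) : ∃ K, ∀ m, ∀ f ∈ Pl m D, ∀ g ∈ Pl m D, sq f ≤ B → sq g ≤ B' →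
    en (fun z => sin (θ * f z) * g z) ≤ K := by
  obtain ⟨C, C0, hC⟩ := sq_mul hH D
  refine ⟨2 * θ ^ 2 * C * (D * B * B') + 2 * (D * B'), fun m f hf g hg h1 h2 => ?_⟩
  have e1 := (hH.bern D m f hf).2.1.trans (mul_le_mul_of_nonneg_left h1 D.cast_nonneg)
  have e2 := (hH.bern D m g hg).2.1.trans (mul_le_mul_of_nonneg_left h2 D.cast_nonneg)
  have e3 : en (fun z => sin (θ * f z) * g z) ≤ 2 * θ ^ 2 * C * (en f * sq g) + 2 * en g := by
    simp only [en, ← sq_ip, sum_mul, mul_sum, ← sum_add_distrib]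
    refine sum_le_sum fun j _ => ?_
    have a := (Hm.c0 (Hm.pd_mem_self hf j)).mul (Hm.c0 hg)
    have b := Hm.c0 (Hm.pd_mem_self hg j)
    have i1 : Integrable (fun z => (pd j f z * g z) ^ 2) (gam m) := a.memLp.integrable_sq
    have i2 : Integrable (fun z => pd j g z ^ 2) (gam m) := b.memLp.integrable_sq
    refine (integral_mono_of_nonneg (ae_of_all _ fun z => sq_nonneg _)
      ((i1.const_mul (2 * θ ^ 2)).add (i2.const_mul 2)) (ae_of_all _ fun z => ?_)).trans ?_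
    · simp only [(c1_sin (Hm.c1 hf) θ).pd_mul (Hm.c1 hg), pd_sin (Hm.c1 hf), Pi.add_apply]
      nlinarith [sq_nonneg (cos (θ * f z) * (θ * pd j f z) * g z - sin (θ * f z) * pd j g z),
        mul_le_mul_of_nonneg_right (cos_sq_le_one (θ * f z)) (sq_nonneg (θ * pd j f z * g z)),
        mul_le_mul_of_nonneg_right (sin_sq_le_one (θ * f z)) (sq_nonneg (pd j g z))]
    · simp only [Pi.add_apply]
      rw [integral_add (i1.const_mul _) (i2.const_mul _), integral_const_mul, integral_const_mul,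
        mul_assoc _ C]
      exact add_le_add (mul_le_mul_of_nonneg_left (hC m _ (Hm.pd_mem_self hf j) g hg)
        (by positivity)) le_rfl
  have e4 := mul_le_mul e1 h2 (sq_nn g) ((Hm.en_nonneg f).trans e1)
  linarith [mul_le_mul_of_nonneg_left e4 (by positivity : 0 ≤ 2 * θ ^ 2 * C)]

include hH hS hP hL

theorem ti_sin (hX : Cl X) (hY : Cl Y) (θ : ℝ) :
    Adm (fun n x z => sin (θ * X n x z) * Y n x z) ∧ Ti fun n x z => sin (θ * X n x z) * Y n x z := by
  have A : ∀ {X Y : F1 L}, Adm X → Adm Y → Bd Y → Adm fun n x z => sin (θ * X n x z) * Y n x z :=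
    fun {X Y} hX hY ⟨B, hB⟩ => ((dm_sq hS hY hB).adm ((ms hX).map2 (ms hY)
      (φ := fun u => sin (θ * u.1) * u.2) (by fun_prop)) (.of_forall fun n x z => by
        rw [mul_pow]; exact mul_le_of_le_one_left (sq_nonneg _) (sin_sq_le_one _))).1
  have A1 := A hX.1 hY.1 (hL.wk L _ Y hY).1.2.1
  refine ⟨A1, hL.tclosed L _ _ A1 fun ε hε => ?_⟩
  obtain ⟨q, q1, q2, q3⟩ := cl_dm hS hP hY (show 0 < ε / 4 by positivity)
  obtain ⟨B4, h4⟩ := rp_four hH hS hP q1 q2
  obtain ⟨s, s0, -, hs⟩ := small B4 (show 0 < ε / 8 by positivity)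
  obtain ⟨δ, δ0, -, hδ⟩ := small (θ ^ 2 / s) (show 0 < ε / 8 by positivity)
  obtain ⟨p, p1, p2, p3⟩ := cl_dm hS hP hX δ0
  obtain ⟨D, B, hD⟩ := rp_pt hS hP p1 p2
  obtain ⟨D', B', hD'⟩ := rp_pt hS hP q1 q2
  obtain ⟨K, hK⟩ := en_sin hH (max D D') θ B B'
  refine ⟨_, A (hP.eqv L _ p p1) (hP.eqv L _ q q1) q2, hL.ti_c1 L _ _ K ?_, ?_⟩
  · filter_upwards [hD, hD', eventually_gt_atTop 0] with n a b n0
    exact ⟨fun r x z => by simp only [a.1 r, b.1 r],
      fun x => (c1_sin (Hm.c1 (a.2 x).1) θ).mul (Hm.c1 (b.2 x).1),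
      av_le n0 fun x => hK _ _ (Hm.mono (le_max_left _ _) (a.2 x).1) _
        (Hm.mono (le_max_right _ _) (b.2 x).1) (a.2 x).2 (b.2 x).2⟩
  · refine (((q3.add ((h4.smul s0.le).add (p3.smul (show 0 ≤ θ ^ 2 / s by positivity)))).smul
      zero_le_two).n2 (.of_forall fun n x z => ?_)).mono fun n h => h.trans (by linarith)
    simp only [Pi.sub_apply]
    generalize X n x z = a, Y n x z = b, p n x z = c, q n x z = d
    have g1 : (sin (θ * a) - sin (θ * c)) ^ 2 ≤ θ ^ 2 * (a - c) ^ 2 := by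
      rw [← mul_pow, mul_sub]; exact sq_le_sq.2 (abs_sin_sub_sin_le _ _)
    have g2 : (sin (θ * a) - sin (θ * c)) ^ 2 ≤ 4 := by
      nlinarith [sin_sq_le_one (θ * a), sin_sq_le_one (θ * c), sq_nonneg (sin (θ * a) + sin (θ * c))]
    have g3 := mul_le_of_le_one_left (sq_nonneg (b - d)) (sin_sq_le_one (θ * a))
    have g4 : (sin (θ * a) - sin (θ * c)) ^ 2 * d ^ 2 ≤ s * d ^ 4 + θ ^ 2 / s * (a - c) ^ 2 := by
      rw [div_mul_eq_mul_div, ← sub_le_iff_le_add', le_div_iff₀ s0]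
      nlinarith [mul_le_mul g2 g1 (sq_nonneg _) (by norm_num),
        sq_nonneg ((sin (θ * a) - sin (θ * c)) ^ 2 - 2 * s * d ^ 2)]
    nlinarith [sq_nonneg (sin (θ * a) * (b - d) - (sin (θ * a) - sin (θ * c)) * d)]

theorem bd_mul {p : F1 L} (hp : Ms p) (hB : Dm (fun n x z => p n x z ^ 4) B) (h : RP Unit q) (hb : Bd q) :
    Adm (fun n x z => p n x z * q n x z) ∧ Bd fun n x z => p n x z * q n x z := by
  obtain ⟨B', h4⟩ := rp_four hH hS hP h hb
  exact (hB.add h4).adm (hp.map2 (ms (hP.eqv L _ q h)) measurable_mul) (.of_forall fun n x z => by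
    nlinarith [sq_nonneg (p n x z ^ 2 - q n x z ^ 2), sq_nonneg (p n x z * q n x z)])

/-- **products** -/
theorem cl_mul (hX : Cl X) (hY : Cl Y) (h4 : Dm (fun n x z => X n x z ^ 4) B)
    (h6 : Dm (fun n x z => (X n x z ^ 3 * Y n x z) ^ 2) B') : Cl fun n x z => X n x z * Y n x z := by
  obtain ⟨B0, h0⟩ := cl_sq hS hL hY
  obtain ⟨A1, A2⟩ := (h0.add h6).adm ((ms hX.1).map2 (ms hY.1) measurable_mul)
    (.of_forall fun n x z => by
      have : X n x z ^ 2 ≤ 1 + (X n x z ^ 2) ^ 3 := by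
        have := sq_nonneg (X n x z)
        generalize X n x z ^ 2 = u at *
        nlinarith [mul_nonneg this (sq_nonneg (u - 1)), sq_nonneg (u - 1)]
      nlinarith [mul_le_mul_of_nonneg_right this (sq_nonneg (Y n x z))])
  refine hL.ws L _ _ ⟨A1, A2, fun q q1 q2 => ?_⟩ (hL.tclosed L _ _ A1 fun ε hε => ?_)
  · obtain ⟨B1, B2⟩ := bd_mul hH hS hP hL (ms hX.1) h4 q1 q2
    convert hL.cv L _ _ Y ⟨B1, B2, fun r r1 r2 => ?_⟩ hY using 1
    · funext n; simp only [ipx, mul_right_comm]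
    · obtain ⟨B3, h3⟩ := rp_four hH hS hP q1 q2
      convert (hL.wk L _ X hX).1.2.2 _ (q1.mul r1)
        (bd_mul hH hS hP hL (ms (hP.eqv L _ q q1)) h3 r1 r2).2 using 1
      funext n; simp only [ipx, mul_assoc]
  · obtain ⟨θ, θ0, θ1, hθ⟩ := small B' hε
    obtain ⟨a, b⟩ := ti_sin hH hS hP hL hX (hL.smul L _ (fun _ => θ⁻¹) Y ⟨_, tendsto_const_nhds⟩ hY) θ
    refine ⟨_, a, b, ((h6.smul θ0.le).n2 (.of_forall fun n x z => ?_)).mono fun n h => h.trans hθ⟩
    simp only [Pi.sub_apply]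
    generalize X n x z = u, Y n x z = v
    have g1 : (θ * u - sin (θ * u)) ^ 2 ≤ ((θ * u) ^ 3) ^ 2 := sq_le_sq.2 ((abs_sub_sin_le _).trans (by
      rw [abs_pow]; exact div_le_self (by positivity) (by norm_num)))
    have g2 : θ ^ 3 ≤ 1 := pow_le_one₀ θ0.le θ1
    calc _ = (θ * u - sin (θ * u)) ^ 2 * (θ⁻¹ * v) ^ 2 := by field_simp
      _ ≤ ((θ * u) ^ 3) ^ 2 * (θ⁻¹ * v) ^ 2 := mul_le_mul_of_nonneg_right g1 (sq_nonneg _)
      _ = θ ^ 3 * (θ * (u ^ 3 * v) ^ 2) := by field_simp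
      _ ≤ _ := mul_le_of_le_one_left (by positivity) g2

/-- the field `mul` -/
theorem mul (L : ℕ) (a v : F1 L) (M : ℝ) (ha : Cl a) (hv : Cl v)
    (hM : ∀ᶠ n in atTop, ∀ x z, |a n x z| ≤ M) : Cl (a * v) := by
  obtain ⟨B0, h0⟩ := cl_sq hS hL hv
  refine cl_mul hH hS hP hL ha hv ((Dm.const (M ^ 4)).mono ((ms ha.1).map (measurable_id.pow_const 4))
    (hM.mono fun n h x z => ?_)) ((h0.smul (c := M ^ 6) (by positivity)).mono
      ((ms ha.1).map2 (ms hv.1) (φ := fun u => (u.1 ^ 3 * u.2) ^ 2) (by fun_prop))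
      (hM.mono fun n h x z => ?_))
  · rw [abs_pow]; exact pow_le_pow_left₀ (abs_nonneg _) (h x z) 4
  · rw [abs_sq, mul_pow, ← pow_mul, ← Even.pow_abs (by decide)]
    exact mul_le_mul_of_nonneg_right (pow_le_pow_left₀ (abs_nonneg _) (h x z) 6) (sq_nonneg _)

omit hH hS hP hL in
theorem exp_le_cosh (u : ℝ) : exp |u| ≤ 2 * cosh u := by
  rw [← cosh_abs, cosh_eq]; linarith [exp_pos (-|u|)]

omit hH hS hP hL in
theorem mom (hX : Ms X) (B0 : 0 < B) (h : Dm (fun n x z => cosh (X n x z / B)) B) (j : ℕ) :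
    ∃ K, Dm (fun n x z => X n x z ^ j) K := by
  refine ⟨_, (h.smul (c := B ^ j * j.factorial * 2) (by positivity)).mono
    (hX.map (measurable_id.pow_const j)) (.of_forall fun n x z => ?_)⟩
  have := (pow_div_factorial_le_exp _ (abs_nonneg (X n x z / B)) j).trans (exp_le_cosh _)
  rw [abs_div, abs_of_pos B0, div_pow, div_div, div_le_iff₀ (by positivity)] at this
  rw [abs_pow]; linarith

omit hH hS hP in
theorem cl_const (hR : RtStmt) (c : ℝ) : Cl (fun _ _ _ => c : F1 L) :=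
  hL.rp L _ _ (.const (hR.const c)) ⟨_, (Dm.const (c ^ 2)).n2 (.of_forall fun _ _ _ => le_rfl)⟩

theorem cl_pow (hR : RtStmt) (hX : Cl X) (hE : SubE X) (j : ℕ) : Cl fun n x z => X n x z ^ j := by
  obtain ⟨B, B0, hB⟩ := hE
  induction j with
  | zero => simpa using cl_const hL hR 1
  | succ j ih =>
    obtain ⟨K, hK⟩ := mom (ms hX.1) B0 hB 4
    obtain ⟨K', hK'⟩ := mom (ms hX.1) B0 hB ((3 + j) * 2)
    simp only [pow_mul, pow_add] at hK'
    simpa only [pow_succ'] using cl_mul hH hS hP hL hX ih hK hK'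

/-- the field `sin` -/
theorem sin (hR : RtStmt) (L : ℕ) (X : F1 L) (hX : Cl X) (hE : SubE X) :
    ∀ᶠ θ : ℝ in 𝓝 0, Cl fun n x z => Real.sin (θ * X n x z) := by
  have hp := cl_pow hH hS hP hL hR hX hE
  obtain ⟨B, B0, hB⟩ := hE
  filter_upwards [(continuous_abs.tendsto' 0 0 abs_zero).eventually_le_const
    (show 0 < (4 * B)⁻¹ by positivity)] with θ hθ
  have hT : ∀ N, Cl fun n x z => ∑ k ∈ range N,
      (-1) ^ k * (θ * X n x z) ^ (2 * k + 1) / ((2 * k + 1).factorial : ℝ) := fun N => by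
    induction N with
    | zero => simpa using cl_const hL hR 0
    | succ N ih =>
      convert hL.add L _ _ _ ih (hL.smul L _ (fun _ => (-1) ^ N * θ ^ (2 * N + 1) /
        ((2 * N + 1).factorial : ℝ)) _ ⟨_, tendsto_const_nhds⟩ (hp (2 * N + 1))) using 1
      funext n x z
      simp only [sum_range_succ, Pi.add_apply, mul_pow]; ring
  refine hL.closed L _ _ ((Dm.const 1).adm ((ms hX.1).map (φ := fun u => Real.sin (θ * u))
    (by fun_prop)) (.of_forall fun n x z => sin_sq_le_one _)).1 fun ε hε => ?_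
  obtain ⟨N, hN⟩ := exists_pow_lt_of_lt_one (show 0 < ε / (8 * B) by positivity)
    (show (1 / 2 : ℝ) < 1 by norm_num)
  rw [lt_div_iff₀ (by positivity)] at hN
  refine ⟨_, hT N, ((Dm.smul hB (c := 8 * (1 / 2) ^ N) (by positivity)).n2
    (.of_forall fun n x z => ?_)).mono fun n h => h.trans (by linarith)⟩
  simp only [Pi.sub_apply]
  generalize X n x z = u
  have g1 := norm_sub_le_of_geometric_bound_of_hasSum (r := 1 / 2) (C := exp (2 * |θ * u|))
    (by norm_num) (fun k => ?_) (hasSum_sin (θ * u)) N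
  · have g2 : exp (2 * |θ * u|) ^ 2 ≤ 2 * cosh (u / B) := by
      refine le_trans ?_ (exp_le_cosh _)
      rw [← exp_nat_mul, exp_le_exp, abs_mul, abs_div, abs_of_pos B0, le_div_iff₀ B0]
      have := mul_le_mul_of_nonneg_right ((le_inv_mul_iff₀ (show 0 < 4 * B by positivity)).1
        (hθ.trans_eq (mul_one _).symm)) (abs_nonneg u)
      push_cast; linarith
    have g3 : (1 / 2 : ℝ) ^ N ≤ 1 := pow_le_one₀ (by norm_num) (by norm_num)
    have g4 : (0 : ℝ) ≤ (1 / 2) ^ N := by positivity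
    rw [norm_sub_rev] at g1
    have g5 := pow_le_pow_left₀ (norm_nonneg _) g1 2
    rw [norm_eq_abs, sq_abs] at g5
    refine g5.trans ?_
    generalize (1 / 2 : ℝ) ^ N = r at *
    rw [show (1 - 1 / 2 : ℝ) = 2⁻¹ by norm_num, div_inv_eq_mul]
    linarith [mul_le_mul g2 (mul_le_mul_of_nonneg_left g3 g4) (by positivity) (by positivity)]
  · have g2 := pow_div_factorial_le_exp _ (show 0 ≤ 2 * |θ * u| by positivity) (2 * k + 1)
    rw [norm_eq_abs, abs_div, abs_mul, abs_pow, abs_neg, abs_one, one_pow, one_mul, abs_pow,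
      Nat.abs_cast, one_div, inv_pow, ← div_eq_mul_inv, le_div_iff₀ (by positivity)]
    refine le_trans ?_ g2
    rw [mul_pow, mul_div_assoc, mul_comm]
    exact mul_le_mul_of_nonneg_right (pow_le_pow_right₀ one_le_two (by omega)) (by positivity)

end

end Crest.Agent.T157.Lm.Nl

end
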