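import Crest.Agent.T157.LmDef_76

/-!
# Row 157, block B/S5 (helper30): `L²` toolbox at fixed size, Galerkin estimate
-/

set_option autoImplicit false

noncomputable section

namespace Crest.Agent.T157.Lm.R30

open MeasureTheory Real Filter Topology Finset
open Crest.Agent.R238.Gap (E pd)
open Crest.Agent.R253.Meh74 (gam C1 c1_const)
open Crest.Agent.T157.Hm (Pl en ip C0 pr)
open Crest.Agent.T157.Rn (Tm)

/-! ### two nonnegative forms -/

section abs
variable {W : Type*} [AddCommGroup W] [Module ℝ W]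

/-- symmetric and nonnegative -/
structure Ps (Q : W →ₗ[ℝ] W →ₗ[ℝ] ℝ) : Prop where
  s : ∀ x y, Q x y = Q y x
  p : ∀ x, 0 ≤ Q x x

variable {I Q : W →ₗ[ℝ] W →ₗ[ℝ] ℝ}

lemma Ps.young (h : Ps Q) (x y : W) (t : ℝ) : 2 * t * Q x y ≤ Q x x + t ^ 2 * Q y y := by
  have := h.p (x - t • y)
  simp only [map_sub, map_smul, LinearMap.sub_apply, LinearMap.smul_apply, smul_eq_mul,
    h.s y x] at this
  linarith

lemma Ps.add_le (h : Ps Q) (x y : W) : Q (x + y) (x + y) ≤ 2 * Q x x + 2 * Q y y := by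
  have := h.young x y 1
  simp only [map_add, LinearMap.add_apply, h.s y x]
  linarith

lemma Ps.sub_le (h : Ps Q) (x y : W) : Q (x - y) (x - y) ≤ 2 * Q x x + 2 * Q y y := by
  have := h.young x y (-1)
  simp only [map_sub, LinearMap.sub_apply, h.s y x]
  linarith

lemma Ps.abs_le (h : Ps Q) (x y : W) : |Q x y| ≤ (Q x x + Q y y) / 2 :=
  _root_.abs_le.2 ⟨by linarith [h.young x y (-1)], by linarith [h.young x y 1]⟩

/-- **Galerkin estimate** -/
theorem gal (hQ : Ps Q) {ζ : ℝ} (hζ : 0 < ζ) (hI : ∀ x, ζ * I x x ≤ Q x x) {M : ℕ} {e : Fin M → W}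
    (ho : ∀ i j, i ≠ j → I (e i) (e j) = 0) (h1 : ∀ j, 1 / 2 ≤ I (e j) (e j)) (u : W)
    (a a' : Fin M → ℝ) : Q (u - ∑ j, a j • e j) (u - ∑ j, a j • e j) ≤
      8 / ζ * ∑ j, Q (∑ i, a i • e i - u) (e j) ^ 2 +
        6 * Q (u - ∑ j, a' j • e j) (u - ∑ j, a' j • e j) := by
  set v := ∑ j, (a j - a' j) • e j with hv
  set y := u - ∑ j, a' j • e j with hy
  set x := ∑ i, a i • e i - u with hx
  have e1 : v = x + y := by simp only [hv, hx, hy, sub_smul, sum_sub_distrib]; abel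
  have e2 : u - ∑ j, a j • e j = y - v := by rw [e1, hx]; abel
  have i1 : ∑ j, (a j - a' j) ^ 2 ≤ 2 * I v v := by
    rw [hv, map_sum, mul_sum]
    refine sum_le_sum fun j _ => ?_
    rw [map_smul, LinearMap.map_sum₂, sum_eq_single j (fun i _ hi => by simp [ho i j hi]) (by simp)]
    simp only [map_smul, LinearMap.smul_apply, smul_eq_mul]
    nlinarith [h1 j, sq_nonneg (a j - a' j)]
  have i2 : Q x v ≤ ζ / 8 * ∑ j, (a j - a' j) ^ 2 + 2 / ζ * ∑ j, Q x (e j) ^ 2 := by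
    rw [hv, map_sum, mul_sum, mul_sum, ← sum_add_distrib]
    refine sum_le_sum fun j _ => ?_
    rw [map_smul, smul_eq_mul]
    have : 0 ≤ 2 / ζ * (Q x (e j) - ζ / 4 * (a j - a' j)) ^ 2 := by positivity
    have e3 : 2 / ζ * (Q x (e j) - ζ / 4 * (a j - a' j)) ^ 2 = 2 / ζ * Q x (e j) ^ 2 -
      (a j - a' j) * Q x (e j) + ζ / 8 * (a j - a' j) ^ 2 := by field_simp; ring
    linarith
  have i3 := hQ.young y v (1 / 2)
  have i4 : Q v v = Q x v + Q y v := by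
    conv_lhs => rw [show Q v = Q x + Q y by rw [e1, map_add]]
    rfl
  have i5 := hQ.sub_le y v
  have i6 := mul_le_mul_of_nonneg_left i1 (show 0 ≤ ζ / 8 by positivity)
  have i7 := hI v
  rw [e2, show 8 / ζ = 4 * (2 / ζ) by ring]
  linarith

end abs

/-! ### square integrable functions -/

variable {m n : ℕ} {F G H : E m → ℝ}

lemma m2_add (h : M2 F) (h' : M2 G) : M2 (F + G) := ⟨h.1.add h'.1, h.2.add h'.2⟩
lemma m2_sub (h : M2 F) (h' : M2 G) : M2 (F - G) := ⟨h.1.sub h'.1, h.2.sub h'.2⟩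
lemma m2_smul (c : ℝ) (h : M2 F) : M2 (c • F) := ⟨h.1.const_smul c, h.2.const_smul c⟩
lemma m2_int (h : M2 F) (h' : M2 G) : Integrable (fun z => F z * G z) (gam m) :=
  h.2.integrable_mul h'.2
lemma m2_c0 (h : C0 F) : M2 F := ⟨h.c.measurable, h.memLp⟩
lemma m2_pl {D : ℕ} (h : F ∈ Pl m D) : M2 F := m2_c0 (Hm.c0 h)
lemma sq_eq (F : E m → ℝ) : sq F = ip F F := by simp only [sq, ip, pow_two]
lemma sq_nn (F : E m → ℝ) : 0 ≤ sq F := integral_nonneg fun _ => sq_nonneg _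

/-- the space of the admissible functions -/
def V (m : ℕ) : Submodule ℝ (E m → ℝ) where
  carrier := {F | M2 F}
  add_mem' := m2_add
  zero_mem' := ⟨measurable_const, MemLp.zero⟩
  smul_mem' c _ := m2_smul c

lemma ip_add (h : M2 F) (h' : M2 G) (k : M2 H) : ip (F + G) H = ip F H + ip G H := by
  simp only [ip, Pi.add_apply, add_mul]; exact integral_add (m2_int h k) (m2_int h' k)
lemma ip_sub (h : M2 F) (h' : M2 G) (k : M2 H) : ip (F - G) H = ip F H - ip G H := by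
  simp only [ip, Pi.sub_apply, sub_mul]; exact integral_sub (m2_int h k) (m2_int h' k)
lemma ip_smul (c : ℝ) (F H : E m → ℝ) : ip (c • F) H = c * ip F H := Hm.ip_smul c F H

/-- a form from its linearity in the first argument -/
def mkB (f : (E m → ℝ) → (E m → ℝ) → ℝ) (hs : ∀ F G, f F G = f G F)
    (ha : ∀ F G H, M2 F → M2 G → M2 H → f (F + G) H = f F H + f G H)
    (hc : ∀ (c : ℝ) F H, M2 F → M2 H → f (c • F) H = c * f F H) : V m →ₗ[ℝ] V m →ₗ[ℝ] ℝ :=
  LinearMap.mk₂ ℝ (fun F G => f F.1 G.1) (fun F G H => ha _ _ _ F.2 G.2 H.2)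
    (fun c F H => hc c _ _ F.2 H.2)
    (fun H F G => by rw [hs, hs H.1, hs H.1]; exact ha _ _ _ F.2 G.2 H.2)
    fun c H F => by rw [hs, hs H.1]; exact hc c _ _ F.2 H.2

/-- scalar product -/
def IB (m : ℕ) : V m →ₗ[ℝ] V m →ₗ[ℝ] ℝ :=
  mkB ip Hm.ip_comm (fun _ _ _ => ip_add) fun c F H _ _ => ip_smul c F H

lemma ps_I : Ps (IB m) := ⟨fun _ _ => Hm.ip_comm _ _, fun _ => Hm.ip_self_nonneg _⟩

lemma sq_add (h : M2 F) (h' : M2 G) : sq (F + G) ≤ 2 * sq F + 2 * sq G := by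
  simp only [sq_eq]; exact ps_I.add_le ⟨F, h⟩ ⟨G, h'⟩
lemma sq_sub (h : M2 F) (h' : M2 G) : sq (F - G) ≤ 2 * sq F + 2 * sq G := by
  simp only [sq_eq]; exact ps_I.sub_le ⟨F, h⟩ ⟨G, h'⟩
lemma sq_smul (c : ℝ) (F : E m → ℝ) : sq (c • F) = c ^ 2 * sq F := by
  simp only [sq, Pi.smul_apply, smul_eq_mul, mul_pow]; exact integral_const_mul _ _
lemma abs_ip (h : M2 F) (h' : M2 G) : |ip F G| ≤ (sq F + sq G) / 2 := by
  simp only [sq_eq]; exact ps_I.abs_le ⟨F, h⟩ ⟨G, h'⟩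

lemma en_sub (h : C1 F) (h' : C1 G) (c : ℝ) :
    C1 (F - c • G) ∧ en (F - c • G) ≤ 2 * en F + 2 * c ^ 2 * en G := by
  refine ⟨h.sub (h'.smul c), ?_⟩
  rw [en, en, en, mul_sum, mul_sum, ← sum_add_distrib]
  refine sum_le_sum fun j _ => ?_
  have e : pd j (F - c • G) = pd j F - c • pd j G := by
    refine (Hm.pd_sub h (h'.smul c) j).trans (funext fun x => ?_)
    rw [(c1_const c).pd_mul h', Hm.pd_const, zero_mul, zero_add]; rfl
  have := sq_sub (m2_c0 (Hm.c0_pd h j)) (m2_smul c (m2_c0 (Hm.c0_pd h' j)))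
  rw [sq_smul, sq_eq, sq_eq, sq_eq] at this
  rw [e]; linarith

/-- the two errors of the projection on the polynomials -/
lemma pr_err (h : Tm 2 F) (D : ℕ) : C1 (F - pr (D + 1) F) ∧ D * sq (F - pr (D + 1) F) ≤ en F ∧
    D * en (F - pr (D + 1) F) ≤ en2 F := by
  refine ⟨Hm.c1_res _ h.1, ?_, ?_⟩
  · have := Hm.res_le_en (D + 1) h.1
    rw [← sq_eq] at this
    push_cast at this
    have h0 := sq_nn fun x => F x - pr (D + 1) F x
    change D * sq (fun x => F x - pr (D + 1) F x) ≤ _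
    linarith
  · rw [en, en2, mul_sum]
    refine sum_le_sum fun j _ => ?_
    rw [show pd j (F - pr (D + 1) F) = _ from Hm.pd_res D h.1 j]
    exact Hm.res_le_en D (h.2 j).1

/-! ### operators of a gauge system -/

variable {S : GS m n} {ζ : ℝ}

lemma P_sub (c : ℝ) (F G : E m → ℝ) : S.P (F - c • G) = S.P F - c • S.P G := by
  funext z
  simp only [GS.P, GS.L, GS.D, Pi.sub_apply, Pi.smul_apply, smul_eq_mul, mul_add, ← mul_div_assoc,
    mul_sum]
  rw [← sub_eq_zero]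
  have : ∑ k, S.c k z * (F (S.R k z) - c * G (S.R k z) - (F z - c * G z)) =
      ∑ k, S.c k z * (F (S.R k z) - F z) - ∑ k, c * (S.c k z * (G (S.R k z) - G z)) := by
    rw [← sum_sub_distrib]; exact sum_congr rfl fun k _ => by ring
  rw [this]; ring

lemma iter_sub (c : ℝ) (j : ℕ) : ∀ F G : E m → ℝ,
    S.P^[j] (F - c • G) = S.P^[j] F - c • S.P^[j] G := by
  induction j with
  | zero => exact fun _ _ => rfl
  | succ j ih => intro F G; simp only [Function.iterate_succ_apply, P_sub, ih]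

lemma Rz_sub (c : ℝ) (F G : E m → ℝ) : S.Rz ζ (F - c • G) = S.Rz ζ F - c • S.Rz ζ G := by
  funext z
  simp only [GS.Rz, iter_sub, Pi.sub_apply, Pi.smul_apply, smul_eq_mul, mul_sum, ← sum_sub_distrib]
  exact sum_congr rfl fun j _ => by ring

lemma Rz_sub' (F G : E m → ℝ) : S.Rz ζ (F - G) = S.Rz ζ F - S.Rz ζ G := by
  simpa only [one_smul] using Rz_sub (S := S) (ζ := ζ) 1 F G

lemma En_comm (S : GS m n) (F G : E m → ℝ) : S.En F G = S.En G F := by
  simp only [GS.En, mul_comm (S.D _ F _)]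

lemma c_le (k : Fin n) (z : E m) : 0 ≤ S.c k z ∧ S.c k z ≤ 1 := by
  have h1 := tanh_lt_one (S.h k z)
  have h2 := neg_one_lt_tanh (S.h k z)
  constructor <;> rw [GS.c] <;> linarith

variable (hB : BasStmt)
include hB

lemma iter_m2 (hn : 0 < n) (h : M2 F) (j : ℕ) : M2 (S.P^[j] F) ∧ sq (S.P^[j] F) ≤ sq F := by
  induction j with
  | zero => exact ⟨h, le_rfl⟩
  | succ j ih =>
    rw [Function.iterate_succ_apply']
    exact ⟨(hB.m2_P _ _ S _ hn ih.1).1, (hB.m2_P _ _ S _ hn ih.1).2.trans ih.2⟩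

lemma En_eq (h : M2 F) (h' : M2 G) : S.En F G = -ip F (S.L G) := hB.en_eq _ _ S F G h h'

/-- the Dirichlet form -/
def EB (S : GS m n) : V m →ₗ[ℝ] V m →ₗ[ℝ] ℝ :=
  mkB S.En (En_comm S)
    (fun F G H h h' k => by
      rw [En_eq hB (m2_add h h') k, En_eq hB h k, En_eq hB h' k, ip_add h h' (hB.m2_L _ _ S _ k)]
      ring)
    fun c F H h k => by rw [En_eq hB (m2_smul c h) k, En_eq hB h k, ip_smul]; ring

lemma ps_E : Ps (EB hB S) := ⟨fun _ _ => En_comm S _ _, fun F => (hB.en_le _ _ S _ F.2).1⟩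

/-- the form of the resolvent -/
def QB (S : GS m n) (ζ : ℝ) : V m →ₗ[ℝ] V m →ₗ[ℝ] ℝ := ζ • IB m + EB hB S

lemma QB_apply (F G : V m) : QB hB S ζ F G = ζ * ip F.1 G.1 + S.En F.1 G.1 := rfl

lemma ps_Q (hζ : 0 ≤ ζ) : Ps (QB hB S ζ) :=
  ⟨fun F G => by rw [QB_apply, QB_apply, Hm.ip_comm, En_comm], fun F =>
    add_nonneg (mul_nonneg hζ (Hm.ip_self_nonneg _)) ((ps_E hB).p F)⟩

/-- the remainder of the truncation -/
def rem (S : GS m n) (ζ : ℝ) (F G : E m → ℝ) : ℝ := (n / (ζ + n)) ^ n ^ 2 * ip (S.P^[n ^ 2] F) G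

/-- the resolvent equation in weak form -/
lemma weak (hn : 0 < n) (hζ : 0 < ζ) (h : M2 F) (h' : M2 G) :
    ζ * ip (S.Rz ζ F) G + S.En (S.Rz ζ F) G = ip F G - rem S ζ F G := by
  have hu := (hB.m2_Rz _ _ S ζ F hn hζ h).1
  rw [En_comm, En_eq hB h' hu, Hm.ip_comm G, ← ip_smul, ← sub_eq_add_neg,
    ← ip_sub (m2_smul _ hu) (hB.m2_L _ _ S _ hu) h', rem, ← ip_smul,
    ← ip_sub h (m2_smul _ (iter_m2 hB hn h _).1) h']
  exact congrArg (ip · G) (funext fun z => hB.res _ _ S ζ F z hn hζ)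

lemma abs_rem (hn : 0 < n) (hζ : 0 < ζ) (h : M2 F) (h' : M2 G) :
    |rem S ζ F G| ≤ (sq F + sq G) / (2 * ζ) / n := by
  have hn' : (0 : ℝ) < n := by exact_mod_cast hn
  have h1 : ((n : ℝ) / (ζ + n)) ^ n ^ 2 ≤ 1 / (ζ * n) := by
    have := one_add_mul_le_pow (a := ζ / n) (by have : 0 < ζ / n := by positivity
                                                linarith) (n ^ 2)
    rw [← inv_div, inv_pow, add_div, div_self hn'.ne', add_comm, one_div]
    refine inv_anti₀ (by positivity) (le_trans ?_ this)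
    push_cast
    rw [show (n : ℝ) ^ 2 * (ζ / n) = ζ * n by field_simp]
    linarith
  have h2 := abs_ip (iter_m2 hB (S := S) hn h (n ^ 2)).1 h'
  have h3 := (iter_m2 hB (S := S) hn h (n ^ 2)).2
  rw [rem, abs_mul, abs_of_nonneg (by positivity)]
  refine (mul_le_mul h1 (h2.trans (show _ ≤ (sq F + sq G) / 2 by linarith)) (abs_nonneg _)
    (by positivity)).trans_eq ?_
  field_simp

lemma cen_m2 (hn : 0 < n) (hζ : 0 < ζ) (h : M2 F) :
    M2 (F - ζ • S.Rz ζ F) ∧ sq (F - ζ • S.Rz ζ F) ≤ 4 * sq F := by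
  obtain ⟨h1, h2⟩ := hB.m2_Rz _ _ S ζ F hn hζ h
  refine ⟨m2_sub h (m2_smul _ h1), (sq_sub h (m2_smul _ h1)).trans ?_⟩
  rw [le_div_iff₀ (by positivity)] at h2
  rw [sq_smul]; linarith

/-- the pairing with a centred function -/
lemma ip_cen (hn : 0 < n) (hζ : 0 < ζ) (h : M2 F) (h' : M2 G) :
    ip (F - ζ • S.Rz ζ F) G = S.En F (S.Rz ζ G) + rem S ζ G F := by
  have := weak hB (S := S) hn hζ h' h
  have e : ip (S.Rz ζ F) G = ip F (S.Rz ζ G) := hB.sym_Rz _ _ S ζ F G hn h h'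
  rw [ip_sub h (m2_smul _ (hB.m2_Rz _ _ S ζ F hn hζ h).1) h', ip_smul, e, Hm.ip_comm F G,
    Hm.ip_comm F, En_comm]
  linarith

end Crest.Agent.T157.Lm.R30

end
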