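import Crest.Agent.T157.LmDef_76

/-! Row 157, block B/S5 (helper90): equivariant polynomials of bounded degree (`Lm.SpanGlue`). -/

set_option autoImplicit false

noncomputable section

namespace Crest.Agent.T157.Lm

open Filter Finset
open Crest.Agent.R238.Gap (E)
open Crest.Agent.T157.Hm (Pl)

namespace Sp90

variable {L n D : ℕ}

/-- a letter: nothing, an edge or a site variable -/
def lt : Option (Option (Fin L)) → Fin n → Fin n → E (Nv L n) → ℝ
  | none, _, _, _ => 1
  | some none, i, j, z => co z (.inl s(i, j))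
  | some (some l), i, _, z => co z (.inr (l, i))

/-- monomials -/
def mo (μ : Fin D → Option (Option (Fin L)) × Fin n × Fin n) (z : E (Nv L n)) : ℝ :=
  ∏ r, lt (μ r).1 (μ r).2.1 (μ r).2.2 z

/-- monomials with listed endpoints -/
def mv (l : Fin D → Option (Option (Fin L))) (φ : Fin (D + D) → Fin n) : E (Nv L n) → ℝ :=
  mo fun r => (l r, φ (Fin.castAdd D r), φ (Fin.natAdd D r))

theorem ex_lt (j : Fin (Nv L n)) : ∃ t : Option (Option (Fin L)) × Fin n × Fin n,
    ∀ z : E (Nv L n), z j = lt t.1 t.2.1 t.2.2 z := by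
  obtain ⟨e, rfl⟩ := (ix L n).surjective j
  rcases e with e | ⟨l, i⟩
  · induction e using Sym2.ind with
    | h a b => exact ⟨(some none, a, b), fun _ => rfl⟩
  · exact ⟨(some (some l), i, i), fun _ => rfl⟩

theorem span_mo (hn : 0 < n) : ∀ (D : ℕ) (f : E (Nv L n) → ℝ), f ∈ Pl (Nv L n) D →
    f ∈ Submodule.span ℝ (Set.range (mo (L := L) (n := n) (D := D)))
  | 0, f, h => by rw [Hm.mem_zero.1 h]; exact zero_mem _
  | D + 1, _, ⟨c, r, hr, rfl⟩ => by
    have e : (fun x : E (Nv L n) => c + ∑ j, x j * r j x) =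
        c • mo (D := D + 1) (fun _ => (none, ⟨0, hn⟩, ⟨0, hn⟩)) + ∑ j, fun x => x j * r j x := by
      funext x
      simp [mo, lt, Finset.sum_apply]
    rw [e]
    refine add_mem (Submodule.smul_mem _ _ (Submodule.subset_span ⟨_, rfl⟩))
      (sum_mem fun j _ => ?_)
    obtain ⟨t, ht⟩ := ex_lt j
    refine Submodule.span_induction (p := fun g _ => (fun x => x j * g x) ∈ Submodule.span ℝ
      (Set.range (mo (L := L) (n := n) (D := D + 1)))) ?_ ?_ ?_ ?_ (span_mo hn D _ (hr j))
    · rintro _ ⟨μ, rfl⟩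
      refine Submodule.subset_span ⟨Fin.cons t μ, funext fun z => ?_⟩
      simp only [mo, Fin.prod_univ_succ, Fin.cons_zero, Fin.cons_succ, ht]
    · simp only [Pi.zero_apply, mul_zero]
      exact zero_mem _
    · intro g g' _ _ h h'
      simp only [Pi.add_apply, mul_add]
      exact add_mem h h'
    · intro a g _ h
      simp only [Pi.smul_apply, smul_eq_mul, mul_left_comm _ a]
      exact Submodule.smul_mem _ a h

theorem ex_coef (hn : 0 < n) {f : E (Nv L n) → ℝ} (h : f ∈ Pl (Nv L n) D) :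
    ∃ A : (Fin D → Option (Option (Fin L))) × (Fin (D + D) → Fin n) → ℝ,
      ∀ z, f z = ∑ l, ∑ φ, A (l, φ) * mv l φ z := by
  have : f ∈ Submodule.span ℝ (Set.range fun t : (Fin D → Option (Option (Fin L))) ×
      (Fin (D + D) → Fin n) => mv t.1 t.2) := by
    refine Submodule.span_mono ?_ (span_mo hn D f h)
    rintro _ ⟨μ, rfl⟩
    exact ⟨(fun r => (μ r).1, Fin.append (fun r => (μ r).2.1) fun r => (μ r).2.2), by
      simp only [mv, Fin.append_left, Fin.append_right]⟩
  obtain ⟨A, rfl⟩ := (Submodule.mem_span_range_iff_exists_fun ℝ).1 this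
  exact ⟨A, fun z => by simp only [Finset.sum_apply, Pi.smul_apply, smul_eq_mul,
    Fintype.sum_prod_type]⟩

theorem mv_act (hS : SkStmt) (p : Equiv.Perm (Fin n)) (l : Fin D → Option (Option (Fin L)))
    (φ : Fin (D + D) → Fin n) (z : E (Nv L n)) : mv l (p ∘ φ) (act p z) = mv l φ z := by
  unfold mv mo
  refine prod_congr rfl fun r _ => ?_
  rcases h : l r with _ | _ | k <;> simp [h, lt, act, hS.co_pt]

/-- the pattern of coincidences -/
def pat {U : Type} (y : U → Fin n) : U × U → Bool := fun p => decide (y p.1 = y p.2)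

theorem ex_perm {U : Type} {y y' : U → Fin n} (h : pat y = pat y') :
    ∃ q : Equiv.Perm (Fin n), q ∘ y = y' := by
  have e : ∀ u u', y u = y u' ↔ y' u = y' u' := fun u u' => decide_eq_decide.1 (congrFun h (u, u'))
  obtain ⟨q, hq⟩ := Equiv.Perm.exists_extending_pair (α := Set.range y) (f := Subtype.val)
    (g := fun a => y' a.2.choose) Subtype.val_injective fun a b hab =>
      Subtype.ext (a.2.choose_spec.symm.trans (((e _ _).2 hab).trans b.2.choose_spec))
  exact ⟨q, funext fun u => (hq ⟨y u, u, rfl⟩).trans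
    ((e _ _).1 (Exists.choose_spec (⟨u, rfl⟩ : y u ∈ Set.range y)))⟩

end Sp90

open Sp90

theorem spanGlue : SpanGlue := fun hR hS hP L C _ _ D => by
  classical
  refine ⟨(Fin D → Option (Option (Fin L))) × ((C ⊕ Fin (D + D)) × (C ⊕ Fin (D + D)) → Bool),
    inferInstance, fun j n x z => ∑ φ : Fin (D + D) → Fin n,
      (if pat (Sum.elim x φ) = j.2 then 1 else 0) * mv j.1 φ z, fun j => ?_, fun n hn w hw he => ?_⟩
  · have h1 : ∀ u : (C ⊕ Fin (D + D)) × (C ⊕ Fin (D + D)), RP (L := L) (C ⊕ Fin (D + D))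
        fun _ y _ => if pat y u = j.2 u then 1 else 0 := fun u => by
      cases j.2 u
      · refine (hP.sub L _ _ _ (.const (hR.const 1)) (.eq u.1 u.2)).congr
          (Eventually.of_forall fun n => funext fun y => funext fun z => ?_)
        by_cases h : y u.1 = y u.2 <;> simp [pat, h]
      · simpa only [pat, decide_eq_true_eq] using RP.eq (L := L) u.1 u.2
    have h2 : ∀ r : Fin D, RP (L := L) (C ⊕ Fin (D + D)) fun _ y z =>
        lt (j.1 r) (y (.inr (Fin.castAdd D r))) (y (.inr (Fin.natAdd D r))) z := fun r => by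
      rcases j.1 r with _ | _ | k
      exacts [.const (hR.const 1), .edge _ _, .site _ _]
    refine (hP.sumV L C (D + D) _ ((hP.fprod L _ _ univ _ fun u _ => h1 u).mul
      (hP.fprod L _ _ univ _ fun r _ => h2 r))).congr
      (Eventually.of_forall fun n => funext fun x => funext fun z => sum_congr rfl fun φ _ => ?_)
    rw [Fintype.prod_boole]
    simp only [← funext_iff]
    rfl
  · choose A hA using fun x => ex_coef hn (hw x)
    let B : (Fin D → Option (Option (Fin L))) → (C ⊕ Fin (D + D) → Fin n) → ℝ := fun l y =>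
      (∑ p : Equiv.Perm (Fin n), A (p ∘ y ∘ .inl) (l, p ∘ y ∘ .inr)) /
        Fintype.card (Equiv.Perm (Fin n))
    have hB : ∀ l y y', pat y = pat y' → B l y = B l y' := fun l y y' h => by
      obtain ⟨q, rfl⟩ := ex_perm h
      exact congrArg (· / _) (Equiv.sum_comp (Equiv.mulRight q)
        fun p : Equiv.Perm (Fin n) => A (p ∘ y ∘ .inl) (l, p ∘ y ∘ .inr)).symm
    refine ⟨fun j => if h : ∃ y, pat y = j.2 then B j.1 h.choose else 0, fun x z => ?_⟩
    have c0 : (Fintype.card (Equiv.Perm (Fin n)) : ℝ) ≠ 0 := Nat.cast_ne_zero.2 Fintype.card_ne_zero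
    have e1 : ∀ p : Equiv.Perm (Fin n), w x z = ∑ l, ∑ φ, A (p ∘ x) (l, p ∘ φ) * mv l φ z :=
      fun p => by
        rw [← he p x z, hA]
        refine sum_congr rfl fun l _ => ?_
        rw [← Equiv.sum_comp (Equiv.arrowCongr (Equiv.refl _) p)]
        exact sum_congr rfl fun φ _ => congrArg _ (mv_act hS p l φ z)
    have e2 : w x z = ∑ l, ∑ φ, B l (Sum.elim x φ) * mv l φ z := by
      simp only [B, div_mul_eq_mul_div, ← sum_div, sum_mul]
      rw [eq_div_iff c0, mul_comm, ← nsmul_eq_mul, ← card_univ, ← sum_const,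
        sum_congr rfl fun p _ => e1 p, sum_comm]
      exact sum_congr rfl fun l _ => sum_comm
    rw [e2, Fintype.sum_prod_type]
    refine sum_congr rfl fun l _ => ?_
    simp only [mul_sum]
    rw [sum_comm]
    refine sum_congr rfl fun φ _ => ?_
    have hy : ∃ y : C ⊕ Fin (D + D) → Fin n, pat y = pat (Sum.elim x φ) := ⟨_, rfl⟩
    simp only [boole_mul, mul_ite, mul_zero, sum_ite_eq, mem_univ, if_true, dif_pos hy]
    rw [hB l _ _ hy.choose_spec]

end Crest.Agent.T157.Lm

end
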