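import Crest.Agent.T157.RegAll_45
import Crest.Agent.T157.RegColG_70

/-!
# Row 157, block B/S5 (helper53): a slow observable seen from nearby couplings
-/

set_option autoImplicit false

noncomputable section

namespace Crest.Agent.T157.Up53

open Matrix Real Filter Topology Finset
open Crest.Agent.T157.E hiding mean
open Crest.Agent.T157.Eig
open Crest.Agent.T157.Tap (V Mx)
open Crest.Agent.T157.Rec (grad fl grad_eq sv_mul_self sg_mono sg_const dir_le_grad)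
open Crest.Agent.T157.Da.Gr (loc tt loc_fl tanh_lip tanh_diff gen_ising row_sq_le)
open Crest.Agent.T157.Chain22 (sg IsP mean isP_prob')
open Crest.Agent.T157.Reg
open Crest.Agent.T157.Reg.Rg10

variable {n : ℕ}

lemma tanh_dif (a b : ℝ) : tanh a - tanh b = tanh (a - b) * (1 - tanh a * tanh b) := by
  have h1 := (cosh_pos a).ne'
  have h2 := (cosh_pos b).ne'
  have h3 := (cosh_pos (a - b)).ne'
  simp only [tanh_eq_sinh_div_cosh]
  field_simp
  rw [cosh_sub, sinh_sub]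

/-- second difference of `tanh` -/
lemma sec2 (h h' c : ℝ) : |tanh h - tanh (h - c) - (tanh h' - tanh (h' - c)) -
    c * (tanh h' ^ 2 - tanh h ^ 2)| ≤ 7 * c ^ 2 * |h - h'| := by
  have e1 := tanh_dif h (h - c)
  have e2 := tanh_dif h' (h' - c)
  rw [sub_sub_cancel] at e1 e2
  obtain ⟨q, q1, -, -, -, q2⟩ := tanh_diff 0 (-c)
  rw [tanh_zero, zero_sub, sub_neg_eq_add, zero_add] at q1
  rw [tanh_zero, abs_neg] at q2
  have l1 := tanh_lip h h'
  have l2 := tanh_lip (h - c) (h' - c)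
  have l3 := tanh_lip h' (h' - c)
  have l4 := tanh_lip c 0
  rw [sub_sub_sub_cancel_right] at l2
  rw [sub_sub_cancel] at l3
  rw [tanh_zero, sub_zero, sub_zero] at l4
  have b1 := (abs_tanh_lt_one h).le
  have b2 := (abs_tanh_lt_one h').le
  have b3 := (abs_tanh_lt_one (h' - c)).le
  generalize tanh h = t at *
  generalize tanh h' = t' at *
  generalize tanh (h - c) = u at *
  generalize tanh (h' - c) = u' at *
  generalize tanh c = d at *
  generalize hΔ : |h - h'| = Δ at *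
  have Δ0 : 0 ≤ Δ := hΔ ▸ abs_nonneg _
  have c0 := abs_nonneg c
  have k1 : |t' * u' - t * u| ≤ 2 * Δ := by
    rw [show t' * u' - t * u = -((t - t') * u' + t * (u - u')) by ring, abs_neg]
    refine (abs_add_le _ _).trans ?_
    rw [abs_mul, abs_mul]
    linarith [mul_le_mul l1 b3 (abs_nonneg _) Δ0, mul_le_mul b1 l2 (abs_nonneg _) zero_le_one]
  have k2 : |t - u - (t' - u')| ≤ |c| * (2 * Δ) := by
    rw [show t - u - (t' - u') = d * (t' * u' - t * u) by rw [e1, e2]; ring, abs_mul]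
    exact mul_le_mul l4 k1 (abs_nonneg _) c0
  have k3 : |t' ^ 2 - t ^ 2| ≤ 2 * Δ := by
    rw [show t' ^ 2 - t ^ 2 = -((t' + t) * (t - t')) by ring, abs_neg, abs_mul]
    exact mul_le_mul ((abs_add_le _ _).trans (by linarith)) l1 (abs_nonneg _) zero_le_two
  have k4 : |d - c| ≤ |c| * (2 * |c|) := by
    rw [show d - c = c * (q - (1 - 0 ^ 2)) by linarith, abs_mul]
    exact mul_le_mul_of_nonneg_left q2 c0
  have k5 : |(t - t') * (t' - u') + t * (t - u - (t' - u'))| ≤ 3 * (|c| * Δ) := by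
    refine (abs_add_le _ _).trans ?_
    rw [abs_mul, abs_mul]
    linarith [mul_le_mul l1 l3 (abs_nonneg _) Δ0, mul_le_mul b1 k2 (abs_nonneg _) zero_le_one]
  rw [show t - u - (t' - u') - c * (t' ^ 2 - t ^ 2) = (d - c) * (t' ^ 2 - t ^ 2) +
    d * ((t - t') * (t' - u') + t * (t - u - (t' - u'))) by linear_combination e1 - e2]
  refine (abs_add_le _ _).trans ?_
  rw [abs_mul, abs_mul, ← sq_abs c]
  linarith [mul_le_mul k4 k3 (abs_nonneg _) (by positivity), mul_le_mul l4 k5 (abs_nonneg _) c0]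

/-- two close coupling matrices -/
structure Near (W W' : Mx n) (r : ℝ) : Prop where
  s : Wᵀ = W
  s' : W'ᵀ = W'
  d : ∀ i, W i i = 0
  d' : ∀ i, W' i i = 0
  r0 : 0 ≤ r
  fro : n * ∑ i, ∑ j, (W i j - W' i j) ^ 2 ≤ r ^ 2

variable {W W' : Mx n} {r K e ρ H : ℝ}

lemma sv_sq (x : Cube n) (i : Fin n) : sv x i ^ 2 = 1 := by rw [sq, sv_mul_self]

lemma Near.dl (h : Near W W' r) (x : Cube n) (i : Fin n) :
    loc W 0 x i - loc W' 0 x i = ∑ k, (W i k - W' i k) * sv x k := by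
  simp only [loc, h.d, h.d', mulVec, dotProduct, sub_mul, sum_sub_distrib]
  ring

lemma Near.loc (h : Near W W' r) (x : Cube n) :
    ∑ i, (loc W 0 x i - loc W' 0 x i) ^ 2 ≤ r ^ 2 := by
  refine le_trans ?_ h.fro
  rw [mul_sum]
  refine sum_le_sum fun i _ => ?_
  rw [h.dl]
  refine (sum_mul_sq_le_sq_mul_sq _ _ _).trans_eq ?_
  simp [sv_sq, mul_comm]

lemma tt_sq (W W' : Mx n) (x : Cube n) (i : Fin n) :
    (tt W 0 x i - tt W' 0 x i) ^ 2 ≤ (loc W 0 x i - loc W' 0 x i) ^ 2 := sq_le_sq.2 (tanh_lip _ _)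

lemma Near.tt (h : Near W W' r) (x : Cube n) : ∑ i, (tt W 0 x i - tt W' 0 x i) ^ 2 ≤ r ^ 2 :=
  (sum_le_sum fun i _ => tt_sq W W' x i).trans (h.loc x)

lemma abs_sum_le {a : Fin n → ℝ} (r0 : 0 ≤ r) (h : ∑ i, a i ^ 2 ≤ r ^ 2) :
    ∑ i, |a i| ≤ r * √n := by
  refine abs_le_of_sq_le_sq' ?_ (by positivity) |>.2
  have := sum_mul_sq_le_sq_mul_sq univ (fun i => |a i|) fun _ => 1
  simp only [mul_one, sq_abs, one_pow, sum_const, card_univ, Fintype.card_fin, nsmul_eq_mul] at this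
  rw [mul_pow, sq_sqrt n.cast_nonneg]
  exact this.trans (mul_le_mul_of_nonneg_right h n.cast_nonneg)

lemma Near.mu (h : Near W W' r) (x : Cube n) :
    mu W x ≤ exp (r * √n / 2) * mu W' x ∧ mu W' x ≤ exp (r * √n / 2) * mu W x := by
  have h1 : |sv x ⬝ᵥ W *ᵥ sv x - sv x ⬝ᵥ W' *ᵥ sv x| ≤ r * √n := by
    refine le_trans ?_ (abs_sum_le h.r0 (h.loc x))
    rw [← dotProduct_sub, dotProduct]
    refine (abs_sum_le_sum_abs _ _).trans (sum_le_sum fun i _ => le_of_eq ?_)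
    rw [abs_mul, sv, abs_spin, one_mul]
    simp [Da.Gr.loc, h.d, h.d']
  rw [abs_le] at h1
  simp only [Reg.mu, ising, ← exp_add, exp_le_exp, zero_dotProduct]
  constructor <;> linarith

lemma Near.wm (h : Near W W' r) {H' : ℝ} {v : Cube n → ℝ} (hv : Wm (Reg.mu W') H' v)
    (hH : H' + r * √n ≤ H) : Wm (Reg.mu W) H v := by
  refine ⟨hv.1, fun x => (hv.2 x).trans ?_⟩
  have z : ∀ W : Mx n, 0 < ∑ y, Reg.mu W y := fun W => sum_pos (fun y _ => mu_pos W y) univ_nonempty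
  have h1 : ∑ y, Reg.mu W y ≤ exp (r * √n / 2) * ∑ y, Reg.mu W' y := by
    rw [mul_sum]; exact sum_le_sum fun y _ => (h.mu y).1
  have h2 : prob (Reg.mu W') x ≤ exp (r * √n) * prob (Reg.mu W) x := by
    rw [prob, prob, ← mul_div_assoc, div_le_div_iff₀ (z _) (z _)]
    refine (mul_le_mul (h.mu x).2 h1 (z _).le (mul_pos (exp_pos _) (mu_pos _ _)).le).trans_eq ?_
    rw [mul_mul_mul_comm, ← exp_add, add_halves, mul_assoc]
  refine (mul_le_mul_of_nonneg_left h2 (exp_pos _).le).trans ?_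
  rw [← mul_assoc, ← exp_add]
  exact mul_le_mul_of_nonneg_right (exp_le_exp.2 hH) ((isP_prob' (mu_pos W)).nn x)

/-- gradient of the paired field -/
lemma Near.grad (h : Near W W' r) (hK : opn W ≤ K) {ω : VF n} (hs : ∀ x i, |ω x i| ≤ e)
    (ho : ∀ x, opn (jac ω x) ≤ e) (x : Cube n) :
    ∑ j, grad (fun z => ∑ k, (Da.Gr.tt W 0 z k - Da.Gr.tt W' 0 z k) * ω z k) x j ^ 2 ≤
      (5 + 48 * K ^ 2 + 1568 * K ^ 4) * (e ^ 2 * r ^ 2) := by
  set J := jac ω x with hJ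
  set Δ : V n := fun k => Da.Gr.loc W 0 x k - Da.Gr.loc W' 0 x k with hΔ
  set a : V n := fun k => Da.Gr.tt W 0 x k - Da.Gr.tt W' 0 x k with ha
  set b : V n := fun k => Da.Gr.tt W' 0 x k ^ 2 - Da.Gr.tt W 0 x k ^ 2 with hb
  have K2 : opn W ^ 2 ≤ K ^ 2 := pow_le_pow_left₀ (opn_nonneg _) hK 2
  have J2 : opn J ^ 2 ≤ e ^ 2 := pow_le_pow_left₀ (opn_nonneg _) (ho x) 2
  have s1 : ∀ y k, ω y k ^ 2 ≤ e ^ 2 := fun y k =>
    sq_le_sq' (abs_le.1 (hs y k)).1 (abs_le.1 (hs y k)).2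
  have cW : ∀ j, ∑ k, W k j ^ 2 ≤ K ^ 2 := fun j => (row_sq_le W j).trans K2
  have rW : ∀ k, ∑ j, W k j ^ 2 ≤ K ^ 2 := fun k => by
    have := (row_sq_le Wᵀ k).trans_eq (by rw [opn_transpose])
    exact this.trans K2
  have b1 : ∀ k, b k ^ 2 ≤ 4 * Δ k ^ 2 := fun k => by
    have h1 := tt_sq W W' x k
    have h2 := abs_le.1 (abs_tanh_lt_one (Da.Gr.loc W 0 x k)).le
    have h3 := abs_le.1 (abs_tanh_lt_one (Da.Gr.loc W' 0 x k)).le
    have h4 : (Da.Gr.tt W' 0 x k + Da.Gr.tt W 0 x k) ^ 2 ≤ 4 := by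
      simp only [Da.Gr.tt]; nlinarith
    calc b k ^ 2 = (Da.Gr.tt W' 0 x k + Da.Gr.tt W 0 x k) ^ 2 *
          (Da.Gr.tt W 0 x k - Da.Gr.tt W' 0 x k) ^ 2 := by rw [hb]; ring
      _ ≤ _ := mul_le_mul h4 h1 (sq_nonneg _) (by norm_num)
  have hr : ∑ k, Δ k ^ 2 ≤ r ^ 2 := h.loc x
  have p2 : ∑ j, (Wᵀ *ᵥ fun k => b k * ω x k) j ^ 2 ≤ K ^ 2 * (4 * e ^ 2 * r ^ 2) := by
    have := mulVec_dot_le Wᵀ fun k => b k * ω x k
    simp only [dotProduct, ← sq, opn_transpose] at this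
    refine this.trans (mul_le_mul K2 ?_ (sum_nonneg fun _ _ => sq_nonneg _) (sq_nonneg _))
    refine le_trans (sum_le_sum fun k _ => ?_)
      ((mul_sum _ _ _).symm.trans_le (mul_le_mul_of_nonneg_left hr (by positivity)))
    rw [mul_pow]
    linarith [mul_le_mul (b1 k) (s1 x k) (sq_nonneg _) (by positivity)]
  have z2 : ∑ j, (Jᵀ *ᵥ a) j ^ 2 ≤ e ^ 2 * r ^ 2 := by
    have := mulVec_dot_le Jᵀ a
    simp only [dotProduct, ← sq, opn_transpose] at this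
    exact this.trans (mul_le_mul J2 (h.tt x) (sum_nonneg fun _ _ => sq_nonneg _) (sq_nonneg _))
  have key : ∀ j, Rec.grad (fun z => ∑ k, (Da.Gr.tt W 0 z k - Da.Gr.tt W' 0 z k) * ω z k) x j ^ 2 ≤
      4 * (Wᵀ *ᵥ fun k => b k * ω x k) j ^ 2 + (32 + 1568 * K ^ 2) * e ^ 2 * ∑ k, W k j ^ 2 * Δ k ^ 2 +
        4 * e ^ 2 * (n * ∑ k, (W k j - W' k j) ^ 2) + (Jᵀ *ᵥ a) j ^ 2 := fun j => by
    have f1 : ∀ (A : Mx n) k, (∀ i, A i i = 0) → Da.Gr.tt A 0 (fl x j) k =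
        tanh (Da.Gr.loc A 0 x k - 2 * sv x j * A k j) := fun A k hA => by
      rw [Da.Gr.tt, loc_fl]
      split_ifs with hk
      · rw [hk, hA, mul_zero]
      · rfl
    set R : V n := fun k => tanh (Da.Gr.loc W 0 x k) - tanh (Da.Gr.loc W 0 x k - 2 * sv x j * W k j) -
      (tanh (Da.Gr.loc W' 0 x k) - tanh (Da.Gr.loc W' 0 x k - 2 * sv x j * W k j)) -
      2 * sv x j * W k j * b k with hR
    set S : V n := fun k => tanh (Da.Gr.loc W' 0 x k - 2 * sv x j * W' k j) -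
      tanh (Da.Gr.loc W' 0 x k - 2 * sv x j * W k j) with hS
    have R2 : ∀ k, R k ^ 2 ≤ 784 * (W k j ^ 4 * Δ k ^ 2) := fun k => by
      have := pow_le_pow_left₀ (abs_nonneg _)
        (sec2 (Da.Gr.loc W 0 x k) (Da.Gr.loc W' 0 x k) (2 * sv x j * W k j)) 2
      rw [sq_abs, mul_pow, sq_abs, mul_pow (2 * sv x j), mul_pow 2, sv_sq] at this
      refine this.trans_eq ?_
      rw [hΔ]; ring
    have S2 : ∀ k, S k ^ 2 ≤ 4 * (W k j - W' k j) ^ 2 := fun k =>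
      (sq_le_sq.2 (tanh_lip _ _)).trans_eq (by
        linear_combination 4 * (W k j - W' k j) ^ 2 * sv_sq x j)
    have q2 := sum_sq_le_sum_mul_sum_of_sq_le_mul univ
      (r := fun k => 2 * sv x j * W k j * b k * J k j + R k * ω (fl x j) k)
      (f := fun k => W k j ^ 2 * Δ k ^ 2) (g := fun k => 32 * J k j ^ 2 + 1568 * e ^ 2 * W k j ^ 2)
      (fun _ _ => by positivity) (fun _ _ => by positivity) fun k _ => by
        have c1 := mul_le_mul (R2 k) (s1 (fl x j) k) (sq_nonneg _) (by positivity)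
        have c2 := mul_le_mul_of_nonneg_left (b1 k) (show 0 ≤ W k j ^ 2 * J k j ^ 2 by positivity)
        have c3 : (2 * sv x j * W k j * b k * J k j) ^ 2 = 4 * (W k j ^ 2 * J k j ^ 2 * b k ^ 2) := by
          linear_combination 4 * (W k j ^ 2 * J k j ^ 2 * b k ^ 2) * sv_sq x j
        linarith [sq_nonneg (2 * sv x j * W k j * b k * J k j - R k * ω (fl x j) k)]
    rw [sum_add_distrib (f := fun k => 32 * J k j ^ 2), ← mul_sum, ← mul_sum] at q2
    have q3 := q2.trans (mul_le_mul_of_nonneg_left (add_le_add (mul_le_mul_of_nonneg_left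
      ((row_sq_le J j).trans J2) (by norm_num)) (mul_le_mul_of_nonneg_left (cW j) (by positivity)))
      (sum_nonneg fun _ _ => by positivity))
    have v2 := sum_sq_le_sum_mul_sum_of_sq_le_mul univ (r := fun k => S k * ω (fl x j) k)
      (f := fun k => 4 * (W k j - W' k j) ^ 2) (g := fun _ => e ^ 2)
      (fun _ _ => by positivity) (fun _ _ => by positivity) fun k _ => by
        rw [mul_pow]; exact mul_le_mul (S2 k) (s1 _ k) (sq_nonneg _) (by positivity)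
    rw [← mul_sum, sum_const, card_univ, Fintype.card_fin, nsmul_eq_mul] at v2
    have e1 := flip_sq (fun z => ∑ k, (Da.Gr.tt W 0 z k - Da.Gr.tt W' 0 z k) * ω z k) x j
    have e2 : ∑ k, (Da.Gr.tt W 0 x k - Da.Gr.tt W' 0 x k) * ω x k -
        ∑ k, (Da.Gr.tt W 0 (fl x j) k - Da.Gr.tt W' 0 (fl x j) k) * ω (fl x j) k =
        2 * sv x j * (Wᵀ *ᵥ fun k => b k * ω x k) j +
          ∑ k, (2 * sv x j * W k j * b k * J k j + R k * ω (fl x j) k) +
          ∑ k, S k * ω (fl x j) k - (Jᵀ *ᵥ a) j := by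
      simp only [mulVec, dotProduct, transpose_apply, mul_sum, ← sum_add_distrib, ← sum_sub_distrib]
      refine sum_congr rfl fun k _ => ?_
      rw [f1 W k h.d, f1 W' k h.d']
      simp only [hR, hS, ha, hJ, jac, of_apply, Da.Gr.tt]
      ring
    rw [e2] at e1
    generalize (Wᵀ *ᵥ fun k => b k * ω x k) j = p at *
    generalize ∑ k, (2 * sv x j * W k j * b k * J k j + R k * ω (fl x j) k) = q at *
    generalize ∑ k, S k * ω (fl x j) k = v at *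
    generalize (Jᵀ *ᵥ a) j = z at *
    have e3 : (2 * sv x j * p) ^ 2 = 4 * p ^ 2 := by linear_combination 4 * p ^ 2 * sv_sq x j
    generalize 2 * sv x j * p = p' at *
    nlinarith [sq_nonneg (p' - q), sq_nonneg (p' - v), sq_nonneg (p' + z), sq_nonneg (q - v),
      sq_nonneg (q + z), sq_nonneg (v + z)]
  refine (sum_le_sum fun j _ => key j).trans ?_
  simp only [sum_add_distrib, ← mul_sum]
  have t1 : ∑ j, ∑ k, W k j ^ 2 * Δ k ^ 2 ≤ K ^ 2 * r ^ 2 := by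
    rw [sum_comm]
    refine le_trans (sum_le_sum fun k _ => ?_)
      ((mul_sum _ _ _).symm.trans_le (mul_le_mul_of_nonneg_left hr (sq_nonneg K)))
    rw [← sum_mul]
    exact mul_le_mul_of_nonneg_right (rW k) (sq_nonneg _)
  have t2 := h.fro
  rw [sum_comm] at t2
  linarith [mul_le_mul_of_nonneg_left t1 (show 0 ≤ (32 + 1568 * K ^ 2) * e ^ 2 by positivity),
    mul_le_mul_of_nonneg_left t2 (show 0 ≤ 4 * e ^ 2 by positivity)]

lemma var_le_grad {w : Cube n → ℝ} (hw : ∀ x, 0 < w x) (K0 : 0 ≤ K) (hA : Ent.AT w K 0)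
    {G : Cube n → ℝ} {B : ℝ} (hB : ∀ x, grad G x ⬝ᵥ grad G x ≤ B) : var w G ≤ K * B :=
  (hA.poinc hw K0 G).trans (mul_le_mul_of_nonneg_left
    ((dir_le_grad hw G).trans ((SL.Wt.of_pos hw).mean_le hB)) K0)

/-- the difference of the generators decorrelates -/
lemma Near.cov (h : Near W W' r) (hK : opn W ≤ K) (hA : Ent.AT (Reg.mu W') K 0) {G : Cube n → ℝ}
    {ω : VF n} (hF : Fld (Reg.mu W) G ω e ρ H) (hv : Wm (Reg.mu W) H (prob (Reg.mu W'))) {B : ℝ}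
    (hB : ∀ x, Rec.grad G x ⬝ᵥ Rec.grad G x ≤ B) :
    E.cov (Reg.mu W') G (fun x => gen (Reg.mu W) G x - gen (Reg.mu W') G x) ^ 2 ≤
      K * B * (2 * (K * ((5 + 48 * K ^ 2 + 1568 * K ^ 4) * (e ^ 2 * r ^ 2))) + 2 * (r ^ 2 * ρ)) := by
  have hw := mu_pos W'
  have wt := SL.Wt.of_pos hw
  have K0 : 0 ≤ K := (opn_nonneg _).trans hK
  set Y : Cube n → ℝ := fun z => ∑ k, (Da.Gr.tt W 0 z k - Da.Gr.tt W' 0 z k) * ω z k with hY
  have v1 := var_le_grad hw K0 hA hB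
  have v2 := var_le_grad hw K0 hA (G := Y) fun x => by
    simpa only [dotProduct, ← sq] using h.grad hK hF.sup hF.op x
  have p : ∀ x, (gen (Reg.mu W) G x - gen (Reg.mu W') G x - E.mean (Reg.mu W') Y) ^ 2 ≤
      2 * (Y x - E.mean (Reg.mu W') Y) ^ 2 + 2 * (r ^ 2 * sq2 (Rec.grad G - ω) x) := fun x => by
    have e1 : gen (Reg.mu W) G x - gen (Reg.mu W') G x = Y x +
        ∑ k, (Da.Gr.tt W 0 x k - Da.Gr.tt W' 0 x k) * (Rec.grad G - ω) x k := by
      rw [Reg.mu, Reg.mu, gen_ising h.s, gen_ising h.s', hY, ← sum_sub_distrib, ← sum_add_distrib]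
      exact sum_congr rfl fun k _ => by simp only [Pi.sub_apply]; ring
    have e2 := (sum_mul_sq_le_sq_mul_sq univ (fun k => Da.Gr.tt W 0 x k - Da.Gr.tt W' 0 x k)
      ((Rec.grad G - ω) x)).trans (mul_le_mul_of_nonneg_right (h.tt x)
        (sum_nonneg fun _ _ => sq_nonneg _))
    rw [← sq2_eq] at e2
    rw [e1]
    nlinarith [sq_nonneg (Y x - E.mean (Reg.mu W') Y -
      ∑ k, (Da.Gr.tt W 0 x k - Da.Gr.tt W' 0 x k) * (Rec.grad G - ω) x k)]
  have v3 := (wt.var_le_mean _ (E.mean (Reg.mu W') Y)).trans (wt.mean_mono p)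
  rw [SL.mean_add, SL.mean_const_mul, SL.mean_const_mul, SL.mean_const_mul] at v3
  refine (wt.cov_sq_le _ _).trans (mul_le_mul v1 (v3.trans (add_le_add
    (mul_le_mul_of_nonneg_left v2 zero_le_two) (mul_le_mul_of_nonneg_left
      (mul_le_mul_of_nonneg_left (hF.cl _ hv) (sq_nonneg r)) zero_le_two))) (wt.var_nonneg _)
    ((wt.var_nonneg _).trans v1))

/-- the energies agree -/
lemma Near.dir (h : Near W W' r) (hn : 0 < n) {G : Cube n → ℝ} {ω : VF n}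
    (hF : Fld (Reg.mu W) G ω e ρ H) (hv : Wm (Reg.mu W) H (prob (Reg.mu W'))) {m : ℝ}
    (hm : mean (prob (Reg.mu W')) (fun x => |Low.Gm (Reg.mu W) G G x - dir (Reg.mu W) G|) ≤ m) :
    |dir (Reg.mu W') G - dir (Reg.mu W) G| ≤ m + 2 * (e ^ 2 * (r * √n)) + 4 * ρ := by
  have hp := hv.1
  have p : ∀ x, |Low.Gm (Reg.mu W') G G x - E.dir (Reg.mu W) G| ≤
      |Low.Gm (Reg.mu W) G G x - E.dir (Reg.mu W) G| + 2 * (e ^ 2 * (r * √n)) +
        4 * sq2 (Rec.grad G - ω) x := fun x => by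
    rw [add_assoc, add_comm]
    refine (abs_sub_le _ (Low.Gm (Reg.mu W) G G x) _).trans (add_le_add_left ?_ _)
    refine le_trans ?_ (add_le_add_left (mul_le_mul_of_nonneg_left (mul_le_mul_of_nonneg_left
      (abs_sum_le h.r0 (h.tt x)) (sq_nonneg e)) zero_le_two) _)
    rw [Gm_eq basStmt hn h.s, Gm_eq basStmt hn h.s', ← mul_sub, ← sum_sub_distrib, sq2_eq, mul_sum,
      mul_sum, mul_sum, mul_sum, ← sum_add_distrib]
    refine (abs_sum_le_sum_abs _ _).trans (sum_le_sum fun k _ => ?_)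
    rw [show 2 * (Tk W' x k * Rec.grad G x k ^ 2 - Tk W x k * Rec.grad G x k ^ 2) =
      sv x k * ((Da.Gr.tt W 0 x k - Da.Gr.tt W' 0 x k) * Rec.grad G x k ^ 2) by
        simp only [Tk]; ring, abs_mul, sv, abs_spin, one_mul, abs_mul, abs_sq]
    have c1 : |Da.Gr.tt W 0 x k - Da.Gr.tt W' 0 x k| ≤ 2 := (abs_sub _ _).trans (by
      simp only [Da.Gr.tt]
      linarith [abs_tanh_lt_one (Da.Gr.loc W 0 x k), abs_tanh_lt_one (Da.Gr.loc W' 0 x k)])
    have c2 := sq_le_sq' (abs_le.1 (hF.sup x k)).1 (abs_le.1 (hF.sup x k)).2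
    have c3 : Rec.grad G x k ^ 2 ≤ 2 * e ^ 2 + 2 * (Rec.grad G x k - ω x k) ^ 2 := by
      nlinarith [sq_nonneg (Rec.grad G x k - 2 * ω x k)]
    have c4 := mul_le_mul_of_nonneg_left c3 (abs_nonneg (Da.Gr.tt W 0 x k - Da.Gr.tt W' 0 x k))
    have c5 := mul_le_mul_of_nonneg_right c1 (sq_nonneg (Rec.grad G x k - ω x k))
    simp only [Pi.sub_apply]
    linarith
  have q := hp.mean_mono p
  rw [Ent.mean_add', Ent.mean_add', hp.mean_const, Ent.mean_const_mul] at q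
  refine le_trans ?_ (q.trans (by linarith [hF.cl _ hv]))
  rw [← mean_Gm hn (mu_pos W'), ← hp.mean_const (E.dir (Reg.mu W) G), ← Ent.mean_sub', abs_le,
    ← neg_one_mul, ← Ent.mean_const_mul]
  simp only [hp.mean_const]
  exact ⟨hp.mean_mono fun x => by rw [neg_one_mul]; exact neg_abs_le _,
    hp.mean_mono fun x => le_abs_self _⟩

lemma cov_gen {w : Cube n → ℝ} (hw : ∀ x, 0 < w x) (G : Cube n → ℝ) :
    cov w G (gen w G) = -dir w G := by
  rw [Chain22.ecov_eq hw, S42.mean_gen hw, Chain22.dir_eq_dir2', Chain22.dir2_eq_gen hw]; ring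

lemma hasDerivAt_var {w w' : Cube n → ℝ} (hn : 0 < n) (hw : ∀ x, 0 < w x) (hw' : ∀ x, 0 < w' x)
    (Φ : Cube n → ℝ) (t : ℝ) : HasDerivAt (fun t => var w' (sg w t Φ))
      (2 * cov w' (sg w t Φ) (gen w (sg w t Φ))) t := by
  have d := Chain22.hasDerivAt_sg hn hw Φ
  have d1 := (@Ent.hasDerivAt_mean _ _ (prob w') _ _ _ fun x => (d x t).fun_mul (d x t)).fun_sub
    ((@Ent.hasDerivAt_mean _ _ (prob w') _ _ _ fun x => d x t).fun_pow 2)
  simp only [Chain22.evar_eq, (isP_prob' hw').var_eq, Chain22.ip_eq_mean]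
  refine d1.congr_deriv ?_
  rw [Chain22.ecov_eq hw', Chain22.ip_eq_mean, Ent.mean_add']
  simp only [mul_comm (gen w (sg w t Φ) _)]
  norm_num
  ring

/-- transfer of the variance -/
lemma var_ge {w w' : Cube n → ℝ} (hn : 0 < n) (hw : ∀ x, 0 < w x) (hw' : ∀ x, 0 < w' x)
    (Φ : Cube n → ℝ) {τ T δ : ℝ} (hT : τ ≤ T) (h : ∀ t, τ ≤ t → t ≤ T →
      |dir w' (sg w t Φ) - dir w (sg w t Φ)| ≤ δ ∧
      cov w' (sg w t Φ) (fun x => gen w (sg w t Φ) x - gen w' (sg w t Φ) x) ≤ δ) :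
    var w (sg w τ Φ) - var w (sg w T Φ) - 4 * δ * (T - τ) ≤ var w' (sg w τ Φ) := by
  have d := fun t => (hasDerivAt_var hn hw hw' Φ t).sub (hasDerivAt_var hn hw hw Φ t)
  have := (convex_Icc τ T).image_sub_le_mul_sub_of_deriv_le
    (f := fun t => var w' (sg w t Φ) - var w (sg w t Φ))
    (fun t _ => (d t).continuousAt.continuousWithinAt)
    (fun t _ => (d t).differentiableAt.differentiableWithinAt) (C := 4 * δ) (fun t ht => by
      have ht' := interior_subset ht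
      obtain ⟨h1, h2⟩ := h t ht'.1 ht'.2
      rw [SL.cov_sub, cov_gen hw'] at h2
      refine (d t).deriv.trans_le ?_
      rw [cov_gen hw]
      linarith [(abs_le.1 h1).1]) τ ⟨le_rfl, hT⟩ T ⟨hT, le_rfl⟩ hT
  linarith [(SL.Wt.of_pos hw').var_nonneg (sg w T Φ)]

lemma fld_mono {w Φ : Cube n → ℝ} {ω : VF n} {e' ρ' : ℝ} (h : Fld w Φ ω e ρ H) (he : e ≤ e')
    (hρ : ρ ≤ ρ') : Fld w Φ ω e' ρ' H :=
  ⟨h.odd, fun x i => (h.sup x i).trans he, fun x => (h.op x).trans he,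
    fun v hv => (h.cl v hv).trans hρ⟩

/-- **the deterministic core** -/
lemma core (K0 : 0 < K) {B T : ℝ} (B0 : 0 ≤ B) (T0 : 0 ≤ T) (r : ℝ) : ∃ C ≥ (1 : ℝ),
    ∀ (n : ℕ) (W W' : Mx n) (Φ : Cube n → ℝ) (ω0 : VF n) (e ρ H L η : ℝ), 0 < n → Near W W' r →
    Nice W K → Ent.AT (mu W) K 0 → Ent.AT (mu W') K 0 → Fld (mu W) Φ ω0 e ρ H →
    (∀ x, grad Φ x ⬝ᵥ grad Φ x ≤ B) → r * √n ≤ H → 1 ≤ H → 0 < e → 1 ≤ L → 0 < η → η ≤ 1 →
    ρ ≤ η ^ 2 → n * e ^ 2 / L ^ 2 ≤ η ^ 2 → L ^ 2 * e ^ 2 * H ≤ η ^ 2 →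
    (L ^ 2 * e ^ 2) ^ 2 * (n * H) ≤ η ^ 2 → ∀ t, 0 ≤ t → t ≤ T →
    (∃ ω, Fld (mu W) (sg (mu W) t Φ) ω (C * (L * e)) (C * η ^ 2) H) ∧
    (∀ x, grad (sg (mu W) t Φ) x ⬝ᵥ grad (sg (mu W) t Φ) x ≤ C) ∧
    |dir (mu W') (sg (mu W) t Φ) - dir (mu W) (sg (mu W) t Φ)| ≤ C * η ∧
    cov (mu W') (sg (mu W) t Φ)
      (fun x => gen (mu W) (sg (mu W) t Φ) x - gen (mu W') (sg (mu W) t Φ) x) ≤ C * η := by
  obtain ⟨C1, c1, R1⟩ := All.regS K K0
  obtain ⟨C2, c2, R2⟩ := All.rgStmt K K0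
  obtain ⟨C3, c3, R3⟩ := Da.grStmt K
  obtain ⟨A, hA⟩ : ∃ A, A = C1 * exp (C1 * T) := ⟨_, rfl⟩
  have A1 : 1 ≤ A := hA ▸ one_le_mul_of_one_le_of_one_le c1 (one_le_exp (by positivity))
  obtain ⟨Bg, hBg⟩ : ∃ Bg, Bg = exp (C3 * T) * B := ⟨_, rfl⟩
  have Bg0 : 0 ≤ Bg := hBg ▸ by positivity
  obtain ⟨D1, hD1⟩ : ∃ D1, D1 = C2 * (4 * A + √(4 * A * (2 * Bg + 8 * A + A ^ 2)) + 2 * A ^ 2) +
    2 * (A ^ 2 * |r|) + 16 * A := ⟨_, rfl⟩
  have D10 : 0 ≤ D1 := hD1 ▸ by positivity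
  obtain ⟨D2, hD2⟩ : ∃ D2, D2 = √(K * Bg * (2 * (K * ((5 + 48 * K ^ 2 + 1568 * K ^ 4) *
    (A ^ 2 * r ^ 2))) + 2 * (r ^ 2 * (4 * A)))) := ⟨_, rfl⟩
  have D20 : 0 ≤ D2 := hD2 ▸ sqrt_nonneg _
  refine ⟨4 * A + Bg + D1 + D2, by linarith, fun n W W' Φ ω0 e ρ H L η hn h hN a1 a2 hF hB rH H1 e0
    L1 η0 η1 s1 s2 s3 s4 t t0 tT => ?_⟩
  have hw := mu_pos W
  obtain ⟨ω, -, f1, -, -⟩ := R1 n W hn hN a1 Φ ω0 e ρ H T L e0 T0 L1 hF 1 (fun _ => t) (fun _ => 1)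
    1 (fun _ => ⟨t0, tT⟩) (by simp) (η ^ 2) (by positivity)
  simp only [Fin.sum_univ_one, one_mul, mul_one, one_pow] at f1
  set G := sg (mu W) t Φ with hG
  have Le : 0 < L * e := by positivity
  have η2 : η ^ 2 ≤ η := by nlinarith
  have η3 : η ^ 2 ≤ A * η ^ 2 := le_mul_of_one_le_left (sq_nonneg η) A1
  have f2 : Fld (mu W) G ω (A * (L * e)) (4 * A * η ^ 2) H := by
    refine fld_mono f1 (le_of_eq (by rw [hA]; ring)) ?_
    rw [← hA]
    linarith [mul_le_mul_of_nonneg_left (add_le_add (add_le_add s1 s2) s3) (zero_le_one.trans A1)]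
  clear R1 f1
  have g1 : ∀ x, grad G x ⬝ᵥ grad G x ≤ Bg := fun x =>
    (R3 n W 0 hn hN.1 hN.2.1 t t0 Φ x).trans (hBg ▸ mul_le_mul
      (exp_le_exp.2 (mul_le_mul_of_nonneg_left tT c3))
      ((sg_mono hn hw t0 hB x).trans_eq (sg_const hn hw _ _ _))
      (Rec.sg_nonneg hn hw t0 (fun _ => dot_self_nonneg _) x) (exp_pos _).le)
  have hv : Wm (mu W) H (prob (mu W')) := h.wm (wm_self (mu_pos W') le_rfl) (by linarith)
  have u1 : (L * e) ^ 2 ≤ η ^ 2 := by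
    rw [mul_pow]; exact (le_mul_of_one_le_right (by positivity) H1).trans s3
  have u2 : (L * e) ^ 2 * √(n * (H + 1)) ≤ 2 * η := by
    refine (abs_le_of_sq_le_sq' ?_ (by positivity)).2
    rw [mul_pow, sq_sqrt (by positivity), mul_pow L]
    have : (L ^ 2 * e ^ 2) ^ 2 * (n * (H + 1)) ≤ (L ^ 2 * e ^ 2) ^ 2 * (n * (H + H)) := by gcongr
    nlinarith [sq_nonneg η]
  have u3 : (L * e) ^ 2 * √n ≤ η := by
    refine (abs_le_of_sq_le_sq' ?_ η0.le).2
    rw [mul_pow, sq_sqrt (by positivity), mul_pow L]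
    exact (mul_le_mul_of_nonneg_left (le_mul_of_one_le_right n.cast_nonneg H1) (sq_nonneg _)).trans s4
  refine ⟨⟨ω, fld_mono f2 (by gcongr; linarith) (by gcongr; linarith)⟩,
    fun x => (g1 x).trans (by linarith), ?_, ?_⟩
  · have m1 := (R2 n W hn hN a1 G ω _ _ _ f2 _ hv).1 (2 * Bg + 8 * A)
      ((ColG.sq2_two (isP_prob' hw) (grad G) ω g1 (f2.cl _ (wm_self hw (by linarith)))).trans
        (by nlinarith))
    have m2 : √(4 * A * η ^ 2 * (2 * Bg + 8 * A + (A * (L * e)) ^ 2 * H)) ≤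
        √(4 * A * (2 * Bg + 8 * A + A ^ 2)) * η := by
      refine sqrt_le_iff.2 ⟨by positivity, ?_⟩
      rw [mul_pow √_, sq_sqrt (by positivity), mul_right_comm]
      have : (A * (L * e)) ^ 2 * H ≤ A ^ 2 := by
        rw [mul_pow, mul_pow, mul_assoc]
        exact mul_le_of_le_one_right (sq_nonneg _) (s3.trans (η2.trans η1))
      gcongr
    have m3 : (A * (L * e)) ^ 2 * √(n * (H + 1)) ≤ 2 * A ^ 2 * η := by
      rw [mul_pow, mul_assoc]; linarith [mul_le_mul_of_nonneg_left u2 (sq_nonneg A)]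
    have m4 : 4 * A * η ^ 2 ≤ 4 * A * η := mul_le_mul_of_nonneg_left η2 (by linarith)
    have m5 : (A * (L * e)) ^ 2 * (r * √n) ≤ A ^ 2 * |r| * η := by
      rw [abs_of_nonneg h.r0, mul_pow]
      linarith [mul_le_mul_of_nonneg_left u3 (mul_nonneg (sq_nonneg A) h.r0)]
    refine (h.dir hn f2 hv (m1.trans (mul_le_mul_of_nonneg_left (add_le_add (add_le_add m4 m2) m3)
      (by linarith)))).trans (le_trans ?_ (mul_le_mul_of_nonneg_right (show D1 ≤ _ by linarith) η0.le))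
    rw [hD1]
    linarith
  · refine le_trans (abs_le_of_sq_le_sq' ((h.cov hN.2.1 a2 f2 hv g1).trans ?_) (by positivity)).2
      (mul_le_mul_of_nonneg_right (show D2 ≤ _ by linarith) η0.le)
    rw [mul_pow D2, hD2, sq_sqrt (by positivity), mul_assoc (K * Bg), mul_pow A]
    refine mul_le_mul_of_nonneg_left ?_ (by positivity)
    linarith [mul_le_mul_of_nonneg_left u1 (show 0 ≤ K * (5 + 48 * K ^ 2 + 1568 * K ^ 4) *
      (A ^ 2 * r ^ 2) by positivity)]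

end Crest.Agent.T157.Up53

end
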