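import Crest.Agent.T157.LowDef_85
import Crest.Agent.T157.Lag_85
import Crest.Agent.T157.RecD_77

/-!
# Row 157, part B (helper85): the overlap test at fixed `n`

`S_t = φ(X_0) · φ(X_t)` for any feature map `φ`; `low_fix`: second-moment bound up to time `T`
and a variance bound for short times give a start far from equilibrium.
-/

set_option autoImplicit false

noncomputable section

namespace Crest.Agent.T157.Low

open Matrix Real Finset
open Crest.Agent.T157.E Crest.Agent.T157.Lag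
open Crest.Agent.T157.Chain22 (sg hbRC ip sg_eq sg_add sg_zero isP_hbCt isP_prob' IsP ip_sg_symm)
open Crest.Agent.T157.Rec (sg_sum sg_const_mul sg_const sg_mono sg_add_fun sg_sub_fun)

variable {n : ℕ} {κ : Type*} [Fintype κ] {w : Cube n → ℝ} {φ : Cube n → κ → ℝ} {t : ℝ}

/-- `E S_t` -/
def Bf (φ : Cube n → κ → ℝ) (w : Cube n → ℝ) (t : ℝ) : ℝ :=
  mean w fun x => sg w t (fun y => φ x ⬝ᵥ φ y) x

/-- `E S_t²` -/
def Af (φ : Cube n → κ → ℝ) (w : Cube n → ℝ) (t : ℝ) : ℝ :=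
  mean w fun x => sg w t (fun y => (φ x ⬝ᵥ φ y) ^ 2) x

/-- `E S²` for two independent copies -/
def Vf (φ : Cube n → κ → ℝ) (w : Cube n → ℝ) : ℝ := mean w fun x => mean w fun y => (φ x ⬝ᵥ φ y) ^ 2

theorem B1_eq (w : Cube n → ℝ) : B1 w = Bf sv w := rfl
theorem A2_eq (w : Cube n → ℝ) : A2 w = Af sv w := rfl

theorem pe_ip (hn : 0 < n) (hw : ∀ x, 0 < w x) (f : Cube n → ℝ) :
    PE fun t => ip (prob w) f (sg w t f) :=
  ⟨Cube n, inferInstance,
    fun j => ip (prob w) f ((hbRC hn hw).φ j) * ip (prob w) f ((hbRC hn hw).φ j),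
    fun j => n * (1 - (hbRC hn hw).ev j), fun _ => mul_self_nonneg _, fun t => by
      have := (hbRC hn hw).ip_H_spec (n * t) f f
      beta_reduce
      rw [sg_eq hn hw]
      refine this.trans (sum_congr rfl fun j _ => ?_)
      rw [mul_comm]; congr 3; ring⟩

theorem mean_sq_le_ip (hn : 0 < n) (hw : ∀ x, 0 < w x) (t : ℝ) (f : Cube n → ℝ) :
    mean w f ^ 2 ≤ ip (prob w) f (sg w t f) := by
  have e := sg_add hn hw (t / 2) (t / 2) f
  rw [add_halves] at e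
  rw [e, ip_sg_symm hn hw, ← Rec.mean_sg' hn hw (t / 2) f]
  exact (isP_prob' hw).mean_sq_le _

theorem Bf_eq (φ : Cube n → κ → ℝ) (w : Cube n → ℝ) (t : ℝ) :
    Bf φ w t = ∑ i, ip (prob w) (fun x => φ x i) (sg w t fun x => φ x i) := by
  simp only [Bf, dotProduct, sg_sum, sg_const_mul, mean, mul_sum, ip]
  exact sum_comm

theorem dot_sq (a b : κ → ℝ) : (a ⬝ᵥ b) ^ 2 = ∑ p : κ × κ, a p.1 * a p.2 * (b p.1 * b p.2) := by
  rw [sq, dotProduct, sum_mul_sum, Fintype.sum_prod_type]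
  exact sum_congr rfl fun i _ => sum_congr rfl fun j _ => by ring

theorem Af_eq (φ : Cube n → κ → ℝ) (w : Cube n → ℝ) (t : ℝ) : Af φ w t =
    ∑ p : κ × κ, ip (prob w) (fun x => φ x p.1 * φ x p.2) (sg w t fun x => φ x p.1 * φ x p.2) := by
  simp only [Af, dot_sq, sg_sum, sg_const_mul, mean, mul_sum, ip]
  exact sum_comm

theorem Vf_eq (φ : Cube n → κ → ℝ) (w : Cube n → ℝ) :
    Vf φ w = ∑ p : κ × κ, mean w (fun x => φ x p.1 * φ x p.2) ^ 2 := by
  simp only [Vf, dot_sq, SL.mean_sum, SL.mean_const_mul]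
  refine sum_congr rfl fun p _ => ?_
  rw [sq]
  exact Ent.mean_mul_const _ _

theorem pe_Bf (hn : 0 < n) (hw : ∀ x, 0 < w x) : PE (Bf φ w) :=
  (PE.sum univ fun i _ => pe_ip hn hw fun x => φ x i).congr fun t => (Bf_eq φ w t).symm

theorem pe_Af (hn : 0 < n) (hw : ∀ x, 0 < w x) : PE (Af φ w) :=
  (PE.sum univ fun (p : κ × κ) _ => pe_ip hn hw fun x => φ x p.1 * φ x p.2).congr
    fun t => (Af_eq φ w t).symm

theorem Vf_le_Af (hn : 0 < n) (hw : ∀ x, 0 < w x) (t : ℝ) : Vf φ w ≤ Af φ w t := by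
  rw [Vf_eq, Af_eq]
  exact sum_le_sum fun p _ => mean_sq_le_ip hn hw t _

theorem sg_sq_le (hn : 0 < n) (hw : ∀ x, 0 < w x) (ht : 0 ≤ t) (f : Cube n → ℝ) (x : Cube n) :
    sg w t f x ^ 2 ≤ sg w t (fun y => f y ^ 2) x := by
  have := (isP_hbCt hn hw ht x).mean_sq_le f
  simp only [ip, ← sq] at this
  exact this

theorem Bf_sq_le (hn : 0 < n) (hw : ∀ x, 0 < w x) (ht : 0 ≤ t) : Bf φ w t ^ 2 ≤ Af φ w t := by
  refine ((isP_prob' hw).mean_sq_le _).trans ((isP_prob' hw).mean_mono fun x => ?_)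
  rw [← sq]
  exact sg_sq_le hn hw ht _ x

theorem B1_zero (hn : 0 < n) (hw : ∀ x, 0 < w x) : B1 w 0 = n := by
  simp only [B1, sg_zero hn hw, sv_dot_self]
  exact (isP_prob' hw).mean_const _

/-- Chebyshev under both laws -/
theorem tv_low (hn : 0 < n) (hw : ∀ x, 0 < w x) (ht : 0 ≤ t) {η : ℝ}
    (h : ∀ x, tv (hbCt w t x) (prob w) ≤ 1 - η) :
    η * Bf φ w t ^ 2 ≤ 4 * (Af φ w t - Bf φ w t ^ 2) + 4 * Vf φ w := by
  have hP := isP_prob' hw
  have B0 : 0 ≤ Bf φ w t := (pe_Bf hn hw).nonneg t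
  set B := Bf φ w t with hB
  have key : ∀ x, η * B ^ 2 ≤ 4 * sg w t (fun y => (φ x ⬝ᵥ φ y) ^ 2) x +
      (-(8 * B) * sg w t (fun y => φ x ⬝ᵥ φ y) x + 4 * B ^ 2) +
        4 * mean w fun y => (φ x ⬝ᵥ φ y) ^ 2 := fun x => by
    set p : Cube n → Prop := fun y => B / 2 < φ x ⬝ᵥ φ y
    have h1 := (Chain22.mean_sub_le_tv (isP_hbCt hn hw ht x) hP (Ent.ind_nonneg p)
      (Ent.ind_le_one p)).trans (h x)
    have h2 : sg w t (fun _ => B ^ 2) x ≤ sg w t (fun y => B ^ 2 * Ent.ind p y +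
        (4 * (φ x ⬝ᵥ φ y) ^ 2 + (-(8 * B) * (φ x ⬝ᵥ φ y) + 4 * B ^ 2))) x :=
      sg_mono hn hw ht (fun y => by
        by_cases hy : p y
        · rw [Ent.ind_pos hy]; nlinarith [sq_nonneg (φ x ⬝ᵥ φ y - B)]
        · rw [Ent.ind_neg hy]
          have : φ x ⬝ᵥ φ y ≤ B / 2 := not_lt.1 hy
          nlinarith) x
    have h3 : Chain22.mean (prob w) (fun y => B ^ 2 * Ent.ind p y) ≤
        Chain22.mean (prob w) fun y => 4 * (φ x ⬝ᵥ φ y) ^ 2 := hP.mean_mono fun y => by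
      by_cases hy : p y
      · rw [Ent.ind_pos hy]
        have : B / 2 < φ x ⬝ᵥ φ y := hy
        nlinarith
      · rw [Ent.ind_neg hy]; nlinarith [sq_nonneg (φ x ⬝ᵥ φ y)]
    simp only [sg_add_fun, sg_const_mul, sg_const hn hw] at h2
    rw [Ent.mean_const_mul, Ent.mean_const_mul] at h3
    have h4 := mul_le_mul_of_nonneg_left h1 (sq_nonneg B)
    have e1 : Chain22.mean (hbCt w t x) (Ent.ind p) = sg w t (Ent.ind p) x := rfl
    have e2 : sg w t (fun z => Ent.ind p z) x = sg w t (Ent.ind p) x := rfl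
    have e3 : Chain22.mean (prob w) (fun z => Ent.ind p z) = Chain22.mean (prob w) (Ent.ind p) := rfl
    have e4 : (Chain22.mean (prob w) fun y => (φ x ⬝ᵥ φ y) ^ 2) =
      mean w fun y => (φ x ⬝ᵥ φ y) ^ 2 := rfl
    rw [e1] at h4
    rw [e2] at h2
    rw [e3, e4] at h3
    nlinarith
  have := hP.mean_mono key
  simp only [Ent.mean_add', Ent.mean_const_mul, hP.mean_const] at this
  change _ ≤ 4 * Af φ w t + (-(8 * B) * B + _) + 4 * Vf φ w at this
  nlinarith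

/-- **lower bound from upper bound at fixed `n`.** `M`: bound of `e^{2λt} E S_t²` on `[0,T]`;
`e^{-x} M`: bound of `e^{2λt} Var S_t` on `[0,b]`. -/
theorem var_prop (hn : 0 < n) (hw : ∀ x, 0 < w x) {lam T b r x M : ℝ} (N : ℕ) (hr : 0 ≤ r)
    (hb : 10 * r ≤ b) (hx : 80 * 10 ^ N ≤ x)
    (hM : ∀ t, 0 ≤ t → t ≤ T → Af φ w t ≤ M * exp (-(2 * lam * t)))
    (h0 : ∀ t, 0 ≤ t → t ≤ b → exp (2 * lam * t) * (Af φ w t - Bf φ w t ^ 2) ≤ exp (-x) * (2 * M))
    (ht : 0 ≤ t) (h1 : t ≤ b + N * r) (h2 : t + 10 * r ≤ T) :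
    exp (2 * lam * t) * (Af φ w t - Bf φ w t ^ 2) ≤ exp (-(x / 10 ^ N)) * (2 * M) := by
  have := prop ((pe_Af (φ := φ) hn hw).exp_mul (2 * lam)) ((pe_Bf (φ := φ) hn hw).sq.exp_mul (2 * lam))
    (T := T) (M := 2 * M) N hr hb hx (fun t h h' => by
      have a := mul_le_mul_of_nonneg_left (hM t h h') (exp_pos (2 * lam * t)).le
      rw [mul_left_comm, ← exp_add, add_neg_cancel, exp_zero, mul_one] at a
      have b := mul_le_mul_of_nonneg_left (Bf_sq_le (φ := φ) hn hw h) (exp_pos (2 * lam * t)).le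
      linarith)
    (fun t h h' _ => by
      rw [← mul_sub, abs_of_nonneg (mul_nonneg (exp_pos _).le (sub_nonneg.2 (Bf_sq_le hn hw h)))]
      exact h0 t h h') t ht h1 h2
  rw [← mul_sub] at this
  exact (le_abs_self _).trans this

end Crest.Agent.T157.Low

end
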