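import Crest.Agent.T157.LowA_85
import Crest.Agent.T157.DaGr_82
import Crest.Agent.T157.TopL_59
import Crest.Agent.T157.PlC_37

/-!
# Row 157, part B (helper85): the lower bound follows from the upper bound

`cutLow : U2 → LB → RV → CutLow`, `rv_of : PoinHi → RV`, `u2_of : SubGHi → UE → U2`, `UX.ue`.
-/

set_option autoImplicit false

noncomputable section

namespace Crest.Agent.T157.Low

open MeasureTheory ProbabilityTheory Matrix Real Finset Filter Topology
open Crest.ProbabilityR.SpinGlassDynamics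
open Crest.Agent.T157.E Crest.Agent.T157.Lag Crest.Agent.T157.Top
open Crest.Agent.T157.Chain22 (sg hbRC ip sg_eq sg_add sg_zero isP_hbCt isP_prob' IsP ip_sg_symm
  hasDerivAt_sg)
open Crest.Agent.T157.Rec (sg_sum sg_const_mul sg_const sg_mono sg_add_fun sg_sub_fun GR grad fl
  sg_nonneg)

variable {n : ℕ} {w : Cube n → ℝ} {t : ℝ}

theorem tendsto_log : Tendsto (fun n : ℕ => log n) atTop atTop :=
  tendsto_log_atTop.comp tendsto_natCast_atTop_atTop

theorem ev_log (a : ℝ) {c : ℝ} (hc : 0 < c) : ∀ᶠ n : ℕ in atTop, a ≤ c * log n :=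
  (tendsto_log.const_mul_atTop hc).eventually_ge_atTop a

theorem ev_exp (a : ℝ) {c : ℝ} (hc : 0 < c) : ∀ᶠ n : ℕ in atTop, a ≤ exp (c * log n) :=
  (ev_log a hc).mono fun n h => by linarith [add_one_le_exp (c * log n)]

theorem rpow_eq (hn : 0 < n) (a : ℝ) : (n : ℝ) ^ a = exp (a * log n) := by
  rw [rpow_def_of_pos (by exact_mod_cast hn), mul_comm]

/-! ### the lower bound -/

theorem cutLow {β lam : ℝ} (hl : 0 < lam) (hU : U2 β lam) (hL : LB β lam) (hR : RV β) :
    CutLow β lam := by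
  intro ε hε hε1 η hη
  obtain ⟨K, hK, C, hC, hR⟩ := hR
  obtain ⟨δ, δ0, hδ⟩ : ∃ δ > (0 : ℝ), (C + 2 * lam) * δ = 1 / 2 :=
    ⟨1 / (2 * (C + 2 * lam)), by positivity, by field_simp⟩
  obtain ⟨ρ, ρ0, ρ1, ρ2⟩ : ∃ ρ > (0 : ℝ), 10 * ρ ≤ δ ∧ 10 * ρ ≤ ε / (2 * lam) := by
    refine ⟨min δ (ε / (2 * lam)) / 10, by positivity, ?_, ?_⟩
    · linarith [min_le_left δ (ε / (2 * lam))]
    · linarith [min_le_right δ (ε / (2 * lam))]
  obtain ⟨N, hN⟩ := exists_nat_ge (1 / (2 * lam) / ρ)
  rw [div_le_iff₀ ρ0] at hN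
  obtain ⟨e, e0, e1, e2⟩ : ∃ e > (0 : ℝ), 3 * e ≤ 1 / 4 / 10 ^ N ∧ 3 * e ≤ ε := by
    refine ⟨min (1 / 4 / 10 ^ N) ε / 3, by positivity, ?_, ?_⟩
    · linarith [min_le_left (1 / 4 / 10 ^ N : ℝ) ε]
    · linarith [min_le_right (1 / 4 / 10 ^ N : ℝ) ε]
  obtain ⟨T, T0, hL⟩ := hL (lam * e) (by positivity)
  have h1ε : 0 < 1 - ε := by linarith
  refine (((hU e e0).and hL).and hR).mono ?_
  filter_upwards [eventually_gt_atTop 0, ev_log (80 * 10 ^ N) (c := 1 / 4) (by norm_num),
    ev_log T (c := (1 - ε) / (2 * lam)) (by positivity), ev_exp K (c := 1 / 4) (by norm_num),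
    ev_exp (12 / η + 1) e0] with n hn a1 a2 a3 a4 g ⟨⟨hU, hL⟩, hR⟩
  have hw := gibbsWeight_pos β g
  set w := gibbsWeight n β g
  have hnL : (n : ℝ) = exp (log n) := (exp_log (by exact_mod_cast hn)).symm
  simp only [tn, rpow_eq hn, A2_eq, B1_eq] at hU hL hR
  have L0 : 0 ≤ log n := log_natCast_nonneg n
  set L := log n
  by_contra hc
  simp only [not_exists, not_lt, stateTV_eq] at hc
  set t1 := (1 - ε) * (L / (2 * lam)) with ht1
  have t0 : 0 ≤ t1 := by positivity
  have q1 : 2 * lam * t1 = (1 - ε) * L := by rw [ht1]; field_simp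
  have q2 : 2 * lam * (L / (2 * lam)) = L := by field_simp
  have b1 := tv_low (φ := sv) hn hw t0 hc
  have b2 := var_prop (φ := sv) hn hw (lam := lam) (T := L / (2 * lam)) (b := δ * L) (r := ρ * L)
    (x := 1 / 4 * L) (M := exp ((2 + e) * L)) (t := t1) N (by positivity) (by nlinarith) a1 hU
    (fun t h h' => by
      refine (mul_le_mul_of_nonneg_left (hR t h) (exp_pos _).le).trans ?_
      have c1 : exp (2 * lam * t) * (K * n * exp (C * t)) ≤
          exp (2 * lam * t) * (exp (1 / 4 * L) * exp L * exp (C * t)) := by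
        rw [← hnL]; gcongr
      refine c1.trans ?_
      rw [← exp_add, ← exp_add, ← exp_add, mul_left_comm, ← exp_add]
      refine le_trans (exp_le_exp.2 ?_) (le_mul_of_one_le_left (exp_pos _).le one_le_two)
      have c2 := mul_le_mul_of_nonneg_left h' (show 0 ≤ C + 2 * lam by positivity)
      rw [← mul_assoc, hδ] at c2
      nlinarith [mul_nonneg e0.le L0])
    t0 (by
      have c1 := mul_le_mul_of_nonneg_right hN L0
      have c2 : t1 ≤ 1 / (2 * lam) * L := by
        rw [ht1, one_div_mul_eq_div]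
        exact mul_le_of_le_one_left (by positivity) (by linarith)
      nlinarith [mul_nonneg δ0.le L0])
    (by
      have c1 := mul_le_mul_of_nonneg_right ρ2 L0
      have c2 : t1 = L / (2 * lam) - ε / (2 * lam) * L := by rw [ht1]; ring
      linarith)
  have b3 := (Vf_le_Af (φ := sv) hn hw (L / (2 * lam))).trans (hU _ (by positivity) le_rfl)
  have b4 := (pe_Bf (φ := sv) hn hw).jensen (m := n) (ρ := lam + lam * e) (t := t1) T0
    (by rw [ht1]; linarith [show (1 - ε) / (2 * lam) * L = (1 - ε) * (L / (2 * lam)) by ring])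
    (B1_zero hn hw).le hL
  have b5 : exp ((2 - e) * L) ≤ exp (2 * lam * t1) * Bf sv w t1 ^ 2 := by
    refine le_trans ?_ (mul_le_mul_of_nonneg_left (pow_le_pow_left₀ (by positivity) b4 2)
      (exp_pos _).le)
    rw [hnL, ← exp_add, ← exp_nat_mul, ← exp_add]
    refine exp_le_exp.2 ?_
    have : 2 * ((lam + lam * e) * t1) = (1 + e) * (2 * lam * t1) := by ring
    push_cast
    nlinarith [mul_nonneg (mul_nonneg e0.le hε.le) L0]
  have b6 : exp (-(1 / 4 * L / 10 ^ N)) * (2 * exp ((2 + e) * L)) ≤ 2 * exp ((2 - 2 * e) * L) := by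
    rw [mul_left_comm, ← exp_add]
    refine mul_le_mul_of_nonneg_left (exp_le_exp.2 ?_) zero_le_two
    have := mul_le_mul_of_nonneg_right e1 L0
    rw [show 1 / 4 * L / 10 ^ N = 1 / 4 / 10 ^ N * L by ring]
    linarith
  have b7 : exp (2 * lam * t1) * Vf sv w ≤ exp ((2 - 2 * e) * L) := by
    refine (mul_le_mul_of_nonneg_left b3 (exp_pos _).le).trans ?_
    rw [q1, q2, ← exp_add, ← exp_add]
    refine exp_le_exp.2 ?_
    nlinarith [mul_le_mul_of_nonneg_right e2 L0]
  have b8 := mul_le_mul_of_nonneg_left b1 (exp_pos (2 * lam * t1)).le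
  have b9 : η * exp ((2 - e) * L) ≤ 12 * exp ((2 - 2 * e) * L) := by
    nlinarith [mul_le_mul_of_nonneg_left b5 hη.le]
  rw [show (2 - e) * L = e * L + (2 - 2 * e) * L by ring, exp_add, ← mul_assoc,
    mul_le_mul_iff_left₀ (exp_pos _)] at b9
  have := mul_le_mul_of_nonneg_left a4 hη.le
  rw [mul_add, mul_div_cancel₀ _ hη.ne'] at this
  linarith

/-! ### the crude variance bound -/

/-- local Poincaré inequality -/
theorem lvar_le {C : ℝ} (h : GR w C) (hn : 0 < n) (hw : ∀ x, 0 < w x) (hC : 0 ≤ C) (ht : 0 ≤ t)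
    (f : Cube n → ℝ) (x : Cube n) : sg w t (fun z => f z ^ 2) x - sg w t f x ^ 2 ≤
      4 * t * exp (C * t) * sg w t (fun z => grad f z ⬝ᵥ grad f z) x := by
  have d : ∀ u, HasDerivAt (fun u => sg w u (fun z => sg w (t - u) f z ^ 2) x)
      (sg w u (fun z => gen w (fun z => sg w (t - u) f z ^ 2) z -
        2 * sg w (t - u) f z * gen w (sg w (t - u) f) z) x) u := fun u => by
    refine Rec.hasDerivAt_sg_fam hn hw (F := fun u z => sg w (t - u) f z ^ 2) (fun z => ?_) x
    have := ((hasDerivAt_sg hn hw f z (t - u)).comp u ((hasDerivAt_id' u).const_sub t)).pow 2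
    exact this.congr_deriv (by simp)
  have := (convex_Icc 0 t).image_sub_le_mul_sub_of_deriv_le
    (fun q _ => (d q).continuousAt.continuousWithinAt)
    (fun q _ => (d q).differentiableAt.differentiableWithinAt)
    (C := 4 * exp (C * t) * sg w t (fun z => grad f z ⬝ᵥ grad f z) x) (fun u hu => by
      rw [interior_Icc] at hu
      have e := sg_add hn hw u (t - u) fun z => grad f z ⬝ᵥ grad f z
      rw [add_sub_cancel] at e
      rw [(d u).deriv, e, ← sg_const_mul]
      refine sg_mono hn hw hu.1.le (fun z => (Rec.gen_sq_le hw _ z).trans ?_) x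
      rw [mul_assoc]
      refine mul_le_mul_of_nonneg_left ((h _ (by linarith [hu.2]) f z).trans
        (mul_le_mul_of_nonneg_right (exp_le_exp.2 (by nlinarith [hu.1])) (sg_nonneg hn hw
          (by linarith [hu.2]) (fun z => Eig.dot_self_nonneg _) z))) (by norm_num))
    0 (Set.left_mem_Icc.2 ht) t (Set.right_mem_Icc.2 ht) ht
  simp only [sub_zero, sg_zero hn hw, sub_self] at this
  linarith

theorem grad_diag (w : Cube n → ℝ) (t : ℝ) (x : Cube n) (i : Fin n) :
    grad (fun x => sg w t (fun y => sv x ⬝ᵥ sv y) x) x i =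
      grad (sg w t fun y => sv x ⬝ᵥ sv y) x i + sg w t (fun y => sv y i) (fl x i) := by
  have e : (fun y => sv (fl x i) ⬝ᵥ sv y) =
      fun y : Cube n => sv x ⬝ᵥ sv y + -2 * sv x i * sv y i := funext fun y => by
    rw [← single_dotProduct (sv y) (-2 * sv x i) i, ← Rec.sv_fl_sub, sub_dotProduct]; ring
  rw [Rec.grad_eq, Rec.grad_eq, e, sg_add_fun, sg_const_mul]
  linear_combination sg w t (fun y => sv y i) (fl x i) * Rec.sv_mul_self x i

theorem var_le {C K : ℝ} (h : GR w C) (hP : Poin w K) (hn : 0 < n) (hw : ∀ x, 0 < w x) (hC : 0 ≤ C)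
    (hK : 0 ≤ K) (ht : 0 ≤ t) : A2 w t - B1 w t ^ 2 ≤ (4 + 4 * K) * n * exp ((C + 1) * t) := by
  have hp := isP_prob' hw
  set G : Cube n → ℝ := fun x => sg w t (fun y => sv x ⬝ᵥ sv y) x
  have h1 : ∀ x, sg w t (fun y => (sv x ⬝ᵥ sv y) ^ 2) x ≤ G x * G x + 4 * t * exp (C * t) * n :=
    fun x => by
      have := lvar_le h hn hw hC ht (fun y => sv x ⬝ᵥ sv y) x
      simp only [Rec.grad_lin, sv_dot_self, sg_const hn hw] at this
      linarith
  have h2 : ∀ x, grad G x ⬝ᵥ grad G x ≤ 2 * (exp (C * t) * n) + 2 * n := fun x => by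
    have a := h t ht (fun y => sv x ⬝ᵥ sv y) x
    simp only [Rec.grad_lin, sv_dot_self, sg_const hn hw] at a
    have b : ∀ i, grad G x i * grad G x i ≤ 2 * (grad (sg w t fun y => sv x ⬝ᵥ sv y) x i *
        grad (sg w t fun y => sv x ⬝ᵥ sv y) x i) + 2 := fun i => by
      have c := sg_sq_le hn hw ht (fun y => sv y i) (fl x i)
      simp only [sq, Rec.sv_mul_self, sg_const hn hw] at c
      rw [grad_diag]
      nlinarith [sq_nonneg (grad (sg w t fun y => sv x ⬝ᵥ sv y) x i -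
        sg w t (fun y => sv y i) (fl x i))]
    refine (sum_le_sum fun i _ => b i).trans ?_
    rw [sum_add_distrib, ← mul_sum, sum_const, card_univ, Fintype.card_fin, nsmul_eq_mul]
    exact add_le_add (mul_le_mul_of_nonneg_left a zero_le_two) (mul_comm _ _).le
  have h3 := hp.mean_mono h1
  rw [Ent.mean_add', hp.mean_const] at h3
  have h4 := (hP G).trans (mul_le_mul_of_nonneg_left ((Rec.dir_le_grad hw G).trans
    ((hp.mean_mono h2).trans_eq (hp.mean_const _))) hK)
  rw [Chain22.evar_eq, hp.var_eq] at h4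
  change A2 w t ≤ ip (prob w) G G + _ at h3
  change _ - B1 w t ^ 2 ≤ _ at h4
  have e1 := add_one_le_exp t
  have e2 := one_le_exp (mul_nonneg hC ht)
  have n0 : (0 : ℝ) ≤ n := n.cast_nonneg
  rw [add_mul C, one_mul, exp_add]
  have e3 : t * (exp (C * t) * n) ≤ exp t * (exp (C * t) * n) :=
    mul_le_mul_of_nonneg_right (by linarith) (by positivity)
  have e4 : exp (C * t) * n ≤ exp t * (exp (C * t) * n) :=
    le_mul_of_one_le_left (by positivity) (by linarith)
  have e5 : (n : ℝ) ≤ exp (C * t) * n := le_mul_of_one_le_left n0 e2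
  nlinarith [mul_le_mul_of_nonneg_left e4 hK, mul_le_mul_of_nonneg_left e5 hK]

/-- the gradient estimate holds with high probability -/
theorem whp_gr (β : ℝ) : ∃ C ≥ (0 : ℝ), Whp disorderLaw fun n g => GR (gibbsWeight n β g) C := by
  obtain ⟨C, hC, h⟩ := Da.grStmt (|β| * 18)
  refine ⟨C, hC, Chain22.whp_opn'.mono ?_⟩
  filter_upwards [eventually_gt_atTop 0] with n hn g hg
  rw [gibbsWeight_eq_ising]
  refine h n _ 0 hn (by rw [transpose_smul, Jmat_transpose]) ?_
  rw [Eig.opn_smul]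
  exact mul_le_mul_of_nonneg_left hg (abs_nonneg _)

theorem rv_of (hP : PoinHi) {β : ℝ} (h0 : 0 ≤ β) (h1 : β < 1) : RV β := by
  obtain ⟨K, hK⟩ := hP β h0 h1
  obtain ⟨C, hC, hG⟩ := whp_gr β
  refine ⟨4 + 4 * |K|, by positivity, C + 1, by positivity, (hK.and hG).mono ?_⟩
  filter_upwards [eventually_gt_atTop 0] with n hn g hg t ht
  have hw := gibbsWeight_pos β g
  exact var_le hg.2 (fun f => (hg.1 f).trans (mul_le_mul_of_nonneg_right (le_abs_self K)
    (Ent.dir_nonneg hw f))) hn hw hC (abs_nonneg K) ht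

/-! ### second moments from entropy -/

/-- exponential square moment of a sub-Gaussian variable -/
theorem exp_sq_le {Ω : Type*} [Fintype Ω] {μ X : Ω → ℝ} {c : ℝ} (hc : 0 < c)
    (h : ∀ τ, Chain22.mean μ (fun x => exp (τ * X x)) ≤ exp (c / 2 * τ ^ 2)) :
    Chain22.mean μ (fun x => exp (1 / (4 * c) * X x ^ 2)) ≤ exp 1 := by
  set a := √(1 / (2 * c))
  have a2 : a ^ 2 = 1 / (2 * c) := sq_sqrt (by positivity)
  have e : ∀ x, exp (1 / (4 * c) * X x ^ 2) = ∫ z, exp (a * X x * z) ∂gaussianReal 0 1 := fun x => by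
    have := congrFun (mgf_id_gaussianReal (μ := 0) (v := 1)) (a * X x)
    simp only [mgf, id, zero_mul, zero_add, NNReal.coe_one, one_mul] at this
    rw [this, mul_pow, a2]; congr 1; field_simp; ring
  have i1 : ∀ x, Integrable (fun z => μ x * exp (a * X x * z)) (gaussianReal 0 1) := fun x =>
    (integrable_exp_mul_gaussianReal (a * X x)).const_mul _
  obtain ⟨i2, e2⟩ := Pl.integral_exp_sq (a := 1 / 2) (by norm_num)
  simp only [Chain22.mean, e, ← integral_const_mul]
  rw [← integral_finsetSum _ fun x _ => i1 x]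
  refine (integral_mono (integrable_finsetSum _ fun x _ => i1 x) i2 fun z => ?_).trans ?_
  · have := h (a * z)
    rw [mul_pow, a2, show c / 2 * (1 / (2 * c) * z ^ 2) = 1 / 2 * z ^ 2 / 2 by field_simp] at this
    refine le_trans (le_of_eq ?_) this
    exact sum_congr rfl fun x _ => by rw [mul_right_comm]
  · rw [e2]
    refine le_trans ?_ (add_one_le_exp 1)
    rw [inv_le_comm₀ (by positivity) (by norm_num)]
    exact le_sqrt_of_sq_le (by norm_num)

/-- `E_ν X² ≤ 4 c (H(ν|μ) + 1)` -/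
theorem mean_sq_le_kl {Ω : Type*} [Fintype Ω] {μ ν X : Ω → ℝ} (hμ : IsP μ) (hν : IsP ν)
    (hac : Ent.AC ν μ) {c : ℝ} (hc : 0 < c)
    (h : ∀ τ, Chain22.mean μ (fun x => exp (τ * X x)) ≤ exp (c / 2 * τ ^ 2)) :
    Chain22.mean ν (fun x => X x ^ 2) ≤ 4 * c * (Ent.kl ν μ + 1) := by
  have h1 := Ent.mean_le_kl_theta hν hμ hac (fun x => X x ^ 2) (θ := 1 / (4 * c)) (by positivity)
  have h2 := (log_le_iff_le_exp (Ent.mean_exp_pos hμ _)).2 (exp_sq_le hc h)
  rw [div_div_eq_mul_div, div_one, mul_comm] at h1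
  exact h1.trans (mul_le_mul_of_nonneg_left (by linarith) (by positivity))

theorem A2_le {K : ℝ} (hn : 0 < n) (hw : ∀ x, 0 < w x) (hK : 0 < K) (hS : SubG w K) (hm : mag w = 0)
    (ht : 0 ≤ t) : A2 w t ≤ 4 * (K * n) * (mean w (Hx w t) + 1) := by
  have hp := isP_prob' hw
  have n0 : (0 : ℝ) < n := by exact_mod_cast hn
  have h1 : ∀ x, sg w t (fun y => (sv x ⬝ᵥ sv y) ^ 2) x ≤ 4 * (K * n) * (Hx w t x + 1) := fun x =>
    mean_sq_le_kl hp (isP_hbCt hn hw ht x) (Ent.AC.of_pos _ (Chain22.prob_pos' hw)) (by positivity)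
      fun τ => by
        have := hS (τ • sv x)
        simp only [hm, sub_zero, smul_dotProduct, dotProduct_smul, sv_dot_self, smul_eq_mul] at this
        refine le_trans this (le_of_eq ?_)
        congr 1; ring
  have h2 := hp.mean_mono h1
  rwa [Ent.mean_const_mul, Ent.mean_add', hp.mean_const] at h2

theorem one_le_decay {lam : ℝ} (hl : 0 < lam) (hn : 0 < n) (ht : t ≤ tn lam n) {a : ℝ} (ha : 1 ≤ a) :
    1 ≤ (n : ℝ) ^ a * exp (-(2 * lam * t)) := by
  rw [rpow_eq hn, ← exp_add]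
  have := (le_div_iff₀' (by positivity)).1 ht
  exact one_le_exp (by nlinarith [log_natCast_nonneg n])

theorem u2_of (hS : TopL.SubGHi) {β lam : ℝ} (h0 : 0 ≤ β) (h1 : β < 1) (hl : 0 < lam)
    (h : UE β lam) : U2 β lam := fun e he => by
  obtain ⟨K, hK⟩ := hS β h0 h1
  refine (hK.and (h (e / 2) (by positivity))).mono ?_
  filter_upwards [eventually_gt_atTop 0, ev_exp (8 * (|K| + 1)) (half_pos he)] with n hn a g hg t t0 t1
  have hw := gibbsWeight_pos β g
  have b1 := A2_le hn hw (K := |K| + 1) (by positivity) (fun u => (hg.1 u).trans (exp_le_exp.2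
    (mul_le_mul_of_nonneg_right (by linarith [le_abs_self K]) (Eig.dot_self_nonneg u))))
    (by rw [gibbsWeight_eq_ising]; exact TopL.mag_ising_zero _) t0
  have b2 := hg.2 t t0 t1
  have b3 := one_le_decay hl hn t1 (a := 1 + e / 2) (by linarith)
  have n0 : (0 : ℝ) < n := by exact_mod_cast hn
  rw [← rpow_eq hn] at a
  have e1 : (n : ℝ) ^ (2 + e) = n ^ (e / 2) * (n * n ^ (1 + e / 2)) := by
    rw [show 2 + e = e / 2 + (1 + (1 + e / 2)) by ring, rpow_add n0, rpow_add n0 1, rpow_one]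
  rw [e1, mul_assoc, mul_assoc]
  set D := (n : ℝ) ^ (1 + e / 2) * exp (-(2 * lam * t))
  calc _ ≤ 4 * ((|K| + 1) * n) * (D + D) :=
        b1.trans (mul_le_mul_of_nonneg_left (add_le_add b2 b3) (by positivity))
    _ = 8 * (|K| + 1) * (n * D) := by ring
    _ ≤ _ := mul_le_mul_of_nonneg_right a (by positivity)

theorem UX.ue {β lam : ℝ} (h : UX β lam) : UE β lam := fun e he =>
  (h e he).imp fun _ g hg t t0 t1 =>
    ((isP_prob' (gibbsWeight_pos β g)).mean_mono (hg t t0 t1)).trans_eq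
      ((isP_prob' (gibbsWeight_pos β g)).mean_const _)

theorem cutLow_of (hP : PoinHi) (hS : TopL.SubGHi) {β lam : ℝ} (h0 : 0 ≤ β) (h1 : β < 1)
    (hl : 0 < lam) (hU : UE β lam) (hL : LB β lam) : CutLow β lam :=
  cutLow hl (u2_of hS h0 h1 hl hU) hL (rv_of hP h0 h1)

end Crest.Agent.T157.Low

end
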