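import Crest.Agent.T157.LpDef_17

/-!
# Row 157, part A: the pieces of `Lp.LpGlue` (helper17)

`v` is the (unnormalised) law `ν ∝ f² w`, `y_s` the localisation driven by `v`.
-/

set_option autoImplicit false

noncomputable section

namespace Crest.Agent.T157.Lp

open MeasureTheory ProbabilityTheory Matrix Filter Set
open Crest.ProbabilityR.SpinGlassDynamics
open Crest.Agent.T157.E Crest.Agent.T157.Eig Crest.Agent.T157.Cond Crest.Agent.T157.Tap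

variable {n : ℕ}

/-- squared TAP defect of the tilted law -/
def Dv (J : Mx n) (b : ℝ) (v : Cube n → ℝ) (y : V n) : ℝ := dfc J b y (mag (tilt v y)) ^ 2
/-- log-normaliser of the tilted law minus the TAP value at the cavity field -/
def Xi (J : Mx n) (b : ℝ) (v : Cube n → ℝ) (y : V n) : ℝ :=
  Real.log (Zw (tilt v y)) - Phi J b y (cav J b y (mag (tilt v y)))
/-- squared Frobenius norm of the covariance matrix -/
def frob (v : Cube n → ℝ) : ℝ := ∑ i, ∑ j, covM v i j ^ 2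

/-! ### the random-matrix events, for a fixed `(J, b)` -/

def U2P (J : Mx n) (b k1 c L : ℝ) (r : ℕ) (ρ : ℝ) : Prop :=
  ∀ p0 : V n, Cb p0 → avg (DD p0) ≤ 1 - k1 → ∃ E, Pen r L E ∧ GoodE J b E c (ρ * Real.sqrt n) p0

def UfP (J : Mx n) (b c L : ℝ) (r : ℕ) (ε : ℝ) : Prop :=
  ∀ (p : V n) (E : Mx n), Cb p → b * avg (DD p) ≤ 1 - c → Pen r L E →
    Pos c (NN (B1 J b p - E) (dd p)) →
    nrm (err (B1 J b p - E) (dd p) b 1 1) ≤ ε * Real.sqrt n ∧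
    |(GG (B1 J b p - E) (dd p)).trace - n * avg (DD p)| ≤ ε * n

def KsP (J : Mx n) (b k1 R K2 η : ℝ) (N : ℕ) (C δ : ℝ) : Prop :=
  ∀ y p0 : V n, nrm y ≤ R * Real.sqrt n → Cb p0 → ∃ r : Fin N → V n,
    (∀ j, nrm (r j) ≤ C * Real.sqrt n) ∧
    ∀ x, nrm (Ymap J b x - y) ≤ η * Real.sqrt n → avg (DD (th x)) ≤ 1 - k1 →
      K2 * η * Real.sqrt n ≤ nrm (th x - p0) → ∃ j, δ * n ≤ |(th x - p0) ⬝ᵥ r j|

def ZP (J : Mx n) (b k1 η : ℝ) : Prop :=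
  ∀ x : V n, nrm (Ymap J b x) ≤ η * Real.sqrt n → 1 - k1 < avg (DD (th x))

def EndP (J : Mx n) (b η T0 M : ℝ) : Prop :=
  ∀ T ≥ T0, ∀ (σ : Cube n) (y : V n), nrm (y - T • sv σ) ≤ η * T * Real.sqrt n →
    ∀ v : Cube n → ℝ, SL.Wt v → dfc J b y (mag v) ^ 2 ≤ M * (fis (ising J y) v + 1)

/-- one step of the backward induction from a good parent field `y` -/
def StepP (J : Mx n) (b κ0 R h0 K σ δ' : ℝ) : Prop :=
  ∀ v : Cube n → ℝ, SL.Wt v → ∀ y : V n, nrm y ≤ R * Real.sqrt n → κ0 * n ≤ th y ⬝ᵥ th y →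
    frob (tilt v y) ≤ δ' ^ 2 * (n : ℝ) ^ 2 → ∀ h ∈ Icc 0 h0,
    Dv J b v y ≤ K * (slE sv (tilt v y) h (fun _ z => Dv J b v (y + z)) + σ * n) ∧
    slE sv (tilt v y) h (fun _ z => Xi J b v (y + z)) ≤
      Xi J b v y + K * (slE sv (tilt v y) h (fun _ z => Dv J b v (y + z)) + σ * n)

/-! ### the pieces -/

/-- the step (helper17) -/
def StepStmt : Prop := ∀ κ0 ∈ Ioc (0 : ℝ) 1, ∀ c > (0 : ℝ), ∀ L ≥ (0 : ℝ), ∀ r : ℕ, ∀ ρ > (0 : ℝ),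
  ∀ K2 > (0 : ℝ), ∃ η1 > (0 : ℝ), ∀ η ∈ Ioc (0 : ℝ) η1, ∀ (N : ℕ) (C : ℝ), ∀ δ > (0 : ℝ),
  ∀ R > (0 : ℝ), ∃ h0 ∈ Ioc (0 : ℝ) 1, ∃ K ≥ (1 : ℝ), ∀ σ > (0 : ℝ), ∃ ε1 > (0 : ℝ), ∃ δ' > (0 : ℝ),
  ∀ᶠ n : ℕ in atTop, ∀ (J : Mx n) (b : ℝ), Jᵀ = J → opn J ≤ 3 → b ∈ Icc (0 : ℝ) 1 →
    U2P J b (κ0 / 400) c L r ρ → UfP J b c L r ε1 → KsP J b (κ0 / 100) R K2 η N C δ →
    StepP J b κ0 R h0 K σ δ'

/-- the Fisher information is a supermartingale (and is bounded by `n`) -/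
def FisStmt : Prop := ∀ (n : ℕ) (w v : Cube n → ℝ) (t : ℝ), (∀ x, 0 < w x) → SL.Wt v → 0 ≤ t →
  SL.MG (fun y => fis (tilt w y) (tilt v y)) ∧
  slE sv v t (fun _ y => fis (tilt w y) (tilt v y)) ≤ fis w v

/-- a time in every interval at which the covariance is small in Frobenius norm -/
def GridStmt : Prop := ∀ (n : ℕ) (v : Cube n → ℝ) (a h : ℝ), SL.Wt v → 0 ≤ a → 0 < h →
  SL.MG (fun y => frob (tilt v y)) ∧
  ∃ s ∈ Icc a (a + h), slE sv v s (fun _ y => frob (tilt v y)) ≤ n / h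

/-- the field is of order `√n` and macroscopically polarised -/
def BadStmt : Prop := ∀ t0 > (0 : ℝ), ∃ κ0 ∈ Ioc (0 : ℝ) 1, ∀ T : ℝ, ∃ R > (0 : ℝ), ∀ ε > (0 : ℝ),
  ∀ᶠ n : ℕ in atTop, ∀ v : Cube n → ℝ, SL.Wt v → ∀ s ∈ Icc t0 T,
    (SL.law sv v s).real {y | ¬ (nrm y ≤ R * Real.sqrt n ∧ κ0 * n ≤ th y ⬝ᵥ th y)} ≤ ε

/-- small times: the TAP value is the replica symmetric one -/
def StartStmt : Prop := ∀ ε > (0 : ℝ), ∃ k1 > (0 : ℝ), ∀ η > (0 : ℝ), ∃ t1 > (0 : ℝ), ∃ τ > (0 : ℝ),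
  ∀ (n : ℕ) (J : Mx n) (b : ℝ), 0 < n → opn J ≤ 3 → b ∈ Icc (0 : ℝ) 1 → ZP J b k1 η →
  ∀ v : Cube n → ℝ, SL.Wt v → ∀ s ∈ Icc 0 t1, slE sv v s (fun _ y => Dv J b v y) ≤ τ * n →
    slE sv v s (fun _ y => Xi J b v y) ≤ Real.log (Zw v) - n * (Real.log 2 + b / 4) + ε * n

/-- large times: the relative entropy is bounded by the value -/
def TermStmt : Prop := ∀ ε > (0 : ℝ), ∃ T1 : ℝ, ∀ T ≥ T1, ∀ (n : ℕ) (J : Mx n) (b : ℝ), Jᵀ = J →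
  opn J ≤ 3 → b ∈ Icc (0 : ℝ) 1 → ∀ v : Cube n → ℝ, SL.Wt v →
    kl v (ising J 0) ≤ Real.log (Zw (ising J 0)) - Real.log (Zw v) +
      slE sv v T (fun _ y => Xi J b v y) + ε * n

/-- large times: the defect is bounded by the Fisher information -/
def LastStmt : Prop := ∀ η > (0 : ℝ), ∃ T2 : ℝ, ∀ M ≥ (0 : ℝ), ∀ τ > (0 : ℝ), ∀ᶠ n : ℕ in atTop,
  ∀ (J : Mx n) (b T0 : ℝ), EndP J b η T0 M → ∀ T, T0 ≤ T → T2 ≤ T → ∀ v : Cube n → ℝ, SL.Wt v →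
    slE sv v T (fun _ y => Dv J b v y) ≤ M * fis (ising J 0) v + τ * n

/-- annealed upper bound of the free energy -/
def ZwStmt : Prop := ∀ β ∈ Icc (0 : ℝ) 1, ∀ ε > (0 : ℝ), Top.Whp GOE fun n W =>
  Real.log (Zw (ising (β • W) 0)) ≤ n * (Real.log 2 + β ^ 2 / 4) + ε * n

/-- iteration of the step along a grid of times -/
def ChainStmt : Prop := ∀ t0 > (0 : ℝ), ∀ T ≥ t0, ∀ h0 > (0 : ℝ), ∀ K ≥ (1 : ℝ), ∀ τ > (0 : ℝ),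
  ∃ σ > (0 : ℝ), ∃ ε > (0 : ℝ), ∀ δ' > (0 : ℝ), ∀ᶠ n : ℕ in atTop,
  ∀ (J : Mx n) (b κ0 R : ℝ), opn J ≤ 3 → b ∈ Icc (0 : ℝ) 1 → StepP J b κ0 R h0 K σ δ' →
  ∀ v : Cube n → ℝ, SL.Wt v →
    (∀ s ∈ Icc t0 (T + 1), (SL.law sv v s).real
      {y | ¬ (nrm y ≤ R * Real.sqrt n ∧ κ0 * n ≤ th y ⬝ᵥ th y)} ≤ ε) →
    (∀ s ∈ Icc T (T + 1), slE sv v s (fun _ y => Dv J b v y) ≤ σ * n) →
    ∃ s0 ∈ Icc t0 (2 * t0), ∃ s1 ∈ Icc T (T + 1), slE sv v s0 (fun _ y => Dv J b v y) ≤ τ * n ∧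
      slE sv v s1 (fun _ y => Xi J b v y) ≤ slE sv v s0 (fun _ y => Xi J b v y) + τ * n

def StepGlue : Prop := ExEStmt → WinGStmt → StepStmt
def LastGlue : Prop := FisStmt → LastStmt
def ChainGlue : Prop := GridStmt → ChainStmt
/-- the final assembly -/
def LpTop : Prop := StepStmt → BadStmt → StartStmt → TermStmt → LastStmt → ZwStmt → ChainStmt →
  UFStmt → FrzStmt → EndStmt → U2Stmt → UfEStmt → KsStmt → ZStmt → LpStmt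

end Crest.Agent.T157.Lp
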