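import Crest.Agent.T157.LpG0_17
import Crest.Agent.T157.TapFroz_10
import Crest.Agent.T157.TapSE_6

/-!
# Row 157, part A: elementary facts for the pieces of `Lp.LpGlue` (helper17)
-/

set_option autoImplicit false

noncomputable section

namespace Crest.Agent.T157.Lp.G1

open MeasureTheory ProbabilityTheory Matrix Filter Set
open Crest.ProbabilityR.SpinGlassDynamics
open Crest.Agent.T157.E Crest.Agent.T157.Eig Crest.Agent.T157.Tap Crest.Agent.T157.Tap.Froz10

variable {n : ℕ} {J : Mx n} {b : ℝ} {v : Cube n → ℝ}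

/-! ### the cube -/

theorem cb_sv (σ : Cube n) : Cb (sv σ) := fun i => by
  simp only [sv, spin]; split_ifs <;> simp

theorem cb_mag (hv : SL.Wt v) : Cb (mag v) := fun i => hv.abs_mean_le fun x => cb_sv x i

theorem tilt_tilt (v : Cube n → ℝ) (y z : V n) : tilt (tilt v y) z = tilt v (y + z) := by
  ext x; simp only [tilt, add_dotProduct, Real.exp_add, mul_assoc]

theorem tilt_zero (v : Cube n → ℝ) : tilt v 0 = v := by ext x; simp [tilt]

theorem ising_eq_tilt (J : Mx n) (y : V n) : ising J y = tilt (ising J 0) y := by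
  ext x; simp [ising, tilt, Real.exp_add]

theorem nrm_sub_comm (u w : V n) : nrm (u - w) = nrm (w - u) := by rw [← nrm_neg, neg_sub]

theorem nrm_tri (u w z : V n) : nrm (u - z) ≤ nrm (u - w) + nrm (w - z) := by
  have := nrm_add_le (u - w) (w - z); rwa [sub_add_sub_cancel] at this

theorem nrm_sub_cb {p q : V n} (hp : Cb p) (hq : Cb q) : nrm (p - q) ≤ 2 * Real.sqrt n := by
  linarith [nrm_sub_le p q, nrm_le_sqrt hp, nrm_le_sqrt hq]

theorem sq_sqrt_n : Real.sqrt n * Real.sqrt n = n := Real.mul_self_sqrt (Nat.cast_nonneg n)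

theorem abs_dot_cb (y : V n) {p : V n} (hp : Cb p) : |y ⬝ᵥ p| ≤ nrm y * Real.sqrt n :=
  (abs_dot_le y p).trans (mul_le_mul_of_nonneg_left (nrm_le_sqrt hp) (nrm_nonneg y))

theorem avg_DD_eq (hn : 0 < n) (p : V n) : avg (DD p) = 1 - p ⬝ᵥ p / n := by
  have : (n : ℝ) ≠ 0 := by positivity
  simp only [avg, DD, dotProduct, Finset.sum_sub_distrib, sq, Finset.sum_const, Finset.card_univ,
    Fintype.card_fin, nsmul_eq_mul, mul_one]
  field_simp

/-! ### the cavity field -/

theorem ons_lip (hb : b ∈ Icc (0 : ℝ) 1) {p q : V n} (hp : Cb p) (hq : Cb q) :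
    nrm ((b * avg (DD p)) • p - (b * avg (DD q)) • q) ≤ 3 * nrm (p - q) := by
  rcases Nat.eq_zero_or_pos n with rfl | hn
  · simp [nrm]
  have hn' : (0 : ℝ) < n := by positivity
  have e : (b * avg (DD p)) • p - (b * avg (DD q)) • q =
      (b * avg (DD p)) • (p - q) + (b * (avg (DD p) - avg (DD q))) • q := by
    ext i; simp; ring
  have h0 := nrm_nonneg (p - q)
  have h1 : |b * avg (DD p)| ≤ 1 := by
    rw [abs_of_nonneg (mul_nonneg hb.1 (avg_DD_nonneg hp))]
    exact mul_le_one₀ hb.2 (avg_DD_nonneg hp) (avg_DD_le _)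
  have h2 : |avg (DD p) - avg (DD q)| * n ≤ nrm (p - q) * (2 * Real.sqrt n) := by
    have : (avg (DD p) - avg (DD q)) * n = -((p - q) ⬝ᵥ (p + q)) := by
      rw [avg_DD_eq hn, avg_DD_eq hn, sub_dotProduct, dotProduct_add, dotProduct_add,
        dotProduct_comm q p]
      field_simp; ring
    rw [← abs_of_pos hn', ← abs_mul, this, abs_neg, abs_of_pos hn']
    refine (abs_dot_le _ _).trans (mul_le_mul_of_nonneg_left ?_ h0)
    linarith [nrm_add_le p q, nrm_le_sqrt hp, nrm_le_sqrt hq]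
  have h3 : |b * (avg (DD p) - avg (DD q))| * nrm q ≤ 2 * nrm (p - q) := by
    have hs : 0 < Real.sqrt n := Real.sqrt_pos.2 hn'
    have a1 : |b * (avg (DD p) - avg (DD q))| ≤ |avg (DD p) - avg (DD q)| := by
      rw [abs_mul, abs_of_nonneg hb.1]; exact mul_le_of_le_one_left (abs_nonneg _) hb.2
    have a2 : |avg (DD p) - avg (DD q)| * Real.sqrt n ≤ 2 * nrm (p - q) := by
      refine le_of_mul_le_mul_right ?_ hs
      rw [mul_assoc, sq_sqrt_n]; linarith
    exact (mul_le_mul a1 (nrm_le_sqrt hq) (nrm_nonneg q) (abs_nonneg _)).trans a2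
  rw [e]
  refine (nrm_add_le _ _).trans ?_
  rw [nrm_smul, nrm_smul]
  nlinarith [mul_le_mul_of_nonneg_right h1 h0]

theorem cav_lip (hJ : opn J ≤ 3) (hb : b ∈ Icc (0 : ℝ) 1) (y y' : V n) {p q : V n} (hp : Cb p)
    (hq : Cb q) : nrm (cav J b y p - cav J b y' q) ≤ nrm (y - y') + 6 * nrm (p - q) := by
  have e : cav J b y p - cav J b y' q =
      (y - y') + J *ᵥ (p - q) - ((b * avg (DD p)) • p - (b * avg (DD q)) • q) := by
    simp only [cav, mulVec_sub]; abel
  have h1 := nrm_mulVec_le J (p - q)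
  have h2 := mul_le_mul_of_nonneg_right hJ (nrm_nonneg (p - q))
  rw [e]
  linarith [nrm_sub_le ((y - y') + J *ᵥ (p - q)) ((b * avg (DD p)) • p - (b * avg (DD q)) • q),
    nrm_add_le (y - y') (J *ᵥ (p - q)), ons_lip hb hp hq]

theorem cav_Ymap (J : Mx n) (b : ℝ) (x : V n) : cav J b (Ymap J b x) (th x) = x := by
  simp only [cav, Ymap]; abel

/-- the cavity field is an approximate TAP solution -/
theorem nrm_Ymap_cav (hJ : opn J ≤ 3) (hb : b ∈ Icc (0 : ℝ) 1) (y : V n) {m : V n} (hm : Cb m) :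
    nrm (Ymap J b (cav J b y m) - y) ≤ 6 * dfc J b y m := by
  have e : Ymap J b (cav J b y m) - y = cav J b y m - cav J b y (th (cav J b y m)) := by
    generalize cav J b y m = x
    simp only [cav, Ymap]; abel
  simpa [e, dfc] using cav_lip hJ hb y y hm (cb_th (cav J b y m))

theorem nrm_cav_sub (hJ : opn J ≤ 3) (hb : b ∈ Icc (0 : ℝ) 1) (y : V n) {m : V n} (hm : Cb m) :
    nrm (cav J b y m - y) ≤ 4 * Real.sqrt n := by
  have e : cav J b y m - y = J *ᵥ m - (b * avg (DD m)) • m := by rw [cav]; abel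
  have h1 := nrm_le_sqrt hm
  have h0 := nrm_nonneg m
  have h2 := nrm_mulVec_le J m
  have h3 : |b * avg (DD m)| ≤ 1 := by
    rw [abs_of_nonneg (mul_nonneg hb.1 (avg_DD_nonneg hm))]
    exact mul_le_one₀ hb.2 (avg_DD_nonneg hm) (avg_DD_le _)
  have h4 := nrm_sub_le (J *ᵥ m) ((b * avg (DD m)) • m)
  rw [nrm_smul] at h4
  rw [e]
  nlinarith [mul_le_mul_of_nonneg_right hJ h0, mul_le_mul_of_nonneg_right h3 h0]

theorem dfc_nonneg (J : Mx n) (b : ℝ) (y m : V n) : 0 ≤ dfc J b y m := nrm_nonneg _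

theorem dfc_le (J : Mx n) (b : ℝ) (y : V n) {m : V n} (hm : Cb m) : dfc J b y m ≤ 2 * Real.sqrt n :=
  nrm_sub_cb hm (cb_th _)

theorem dfc_sq_le (J : Mx n) (b : ℝ) (y : V n) {m : V n} (hm : Cb m) : dfc J b y m ^ 2 ≤ 4 * n := by
  have := pow_le_pow_left₀ (dfc_nonneg J b y m) (dfc_le J b y hm) 2
  rw [mul_pow, Real.sq_sqrt (Nat.cast_nonneg n)] at this
  linarith

theorem Dv_nonneg (J : Mx n) (b : ℝ) (v : Cube n → ℝ) (y : V n) : 0 ≤ Dv J b v y := sq_nonneg _

theorem Dv_le (J : Mx n) (b : ℝ) (hv : SL.Wt v) (y : V n) : Dv J b v y ≤ 4 * n :=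
  dfc_sq_le J b y (cb_mag (hv.tilt y))

/-! ### the TAP value -/

theorem hb2_eq (t : ℝ) : Real.log 2 - hb2 t = ((1 + Real.tanh t) * Real.log (1 + Real.tanh t) +
    (1 - Real.tanh t) * Real.log (1 - Real.tanh t)) / 2 := by
  have hc := Real.cosh_pos t
  have e1 : 1 + Real.tanh t = Real.exp t / Real.cosh t := by
    rw [Real.tanh_eq_sinh_div_cosh, ← Real.cosh_add_sinh]; field_simp
  have e2 : 1 - Real.tanh t = Real.exp (-t) / Real.cosh t := by
    rw [Real.tanh_eq_sinh_div_cosh, ← Real.cosh_sub_sinh]; field_simp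
  have l1 : Real.log (1 + Real.tanh t) = t - Real.log (Real.cosh t) := by
    rw [e1, Real.log_div (Real.exp_pos _).ne' hc.ne', Real.log_exp]
  have l2 : Real.log (1 - Real.tanh t) = -t - Real.log (Real.cosh t) := by
    rw [e2, Real.log_div (Real.exp_pos _).ne' hc.ne', Real.log_exp]
  rw [l1, l2, hb2, Real.log_mul two_ne_zero hc.ne']; ring

theorem le_hb2 (t : ℝ) : Real.log 2 - Real.tanh t ^ 2 ≤ hb2 t := by
  have h := abs_lt.1 (Real.abs_tanh_lt_one t)
  have a1 := Real.log_le_sub_one_of_pos (show 0 < 1 + Real.tanh t by linarith)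
  have a2 := Real.log_le_sub_one_of_pos (show 0 < 1 - Real.tanh t by linarith)
  have := hb2_eq t
  nlinarith [mul_le_mul_of_nonneg_left a1 (show 0 ≤ 1 + Real.tanh t by linarith),
    mul_le_mul_of_nonneg_left a2 (show 0 ≤ 1 - Real.tanh t by linarith)]

theorem hb2_le (t : ℝ) : hb2 t ≤ Real.log 2 := by
  have h := abs_lt.1 (Real.abs_tanh_lt_one t)
  have a1 := Real.self_sub_one_le_mul_log (show 0 ≤ 1 + Real.tanh t by linarith)
  have a2 := Real.self_sub_one_le_mul_log (show 0 ≤ 1 - Real.tanh t by linarith)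
  have := hb2_eq t
  linarith

theorem abs_hb2_le (t : ℝ) : |hb2 t| ≤ 1 := by
  have := Real.log_two_lt_d9
  have := Real.log_two_gt_d9
  rw [abs_le]; constructor <;> linarith [le_hb2 t, hb2_le t, Real.tanh_sq_lt_one t]

theorem abs_quad_cb (hJ : opn J ≤ 3) {p : V n} (hp : Cb p) : |p ⬝ᵥ J *ᵥ p| ≤ 3 * n := by
  have h := pow_le_pow_left₀ (nrm_nonneg p) (nrm_le_sqrt hp) 2
  rw [nrm_sq, Real.sq_sqrt (Nat.cast_nonneg n)] at h
  exact (abs_quad_le J p).trans (mul_le_mul hJ h (dot_self_nonneg p) (by norm_num))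

theorem abs_Phi_sub_le (hJ : opn J ≤ 3) (hb : b ∈ Icc (0 : ℝ) 1) (y x : V n) :
    |Phi J b y x - y ⬝ᵥ th x| ≤ 3 * n := by
  have h1 := abs_le.1 (abs_quad_cb hJ (cb_th x))
  have h2 : |∑ i, hb2 (x i)| ≤ n := (Finset.abs_sum_le_sum_abs _ _).trans
    ((Finset.sum_le_card_nsmul _ _ 1 fun i _ => abs_hb2_le _).trans_eq (by simp))
  have h2 := abs_le.1 h2
  have a0 := avg_DD_nonneg (cb_th x)
  have h3 : b * avg (DD (th x)) ^ 2 ≤ 1 := mul_le_one₀ hb.2 (sq_nonneg _) (pow_le_one₀ a0 (avg_DD_le _))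
  have h4 : 0 ≤ b * avg (DD (th x)) ^ 2 := mul_nonneg hb.1 (sq_nonneg _)
  have hn : (0 : ℝ) ≤ n := Nat.cast_nonneg n
  rw [Phi, abs_le]
  constructor <;> nlinarith [mul_le_mul_of_nonneg_left h3 hn, mul_nonneg hn h4]

theorem abs_Phi_le (hJ : opn J ≤ 3) (hb : b ∈ Icc (0 : ℝ) 1) (y x : V n) :
    |Phi J b y x| ≤ 3 * n + nrm y * Real.sqrt n := by
  have h1 := abs_le.1 (abs_Phi_sub_le hJ hb y x)
  have h2 := abs_le.1 (abs_dot_cb y (cb_th x))
  rw [abs_le]; constructor <;> linarith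

/-! ### the normaliser -/

theorem log_Zw_tilt_le (hv : SL.Wt v) (z : V n) :
    Real.log (Zw (tilt v z)) ≤ Real.log (Zw v) + nrm z * Real.sqrt n := by
  have h0 : 0 < Zw v := hv.pos
  rw [← Real.log_exp (nrm z * Real.sqrt n), ← Real.log_mul h0.ne' (Real.exp_pos _).ne']
  refine Real.log_le_log (hv.tilt z).pos ?_
  rw [Zw, Zw, Finset.sum_mul]
  exact Finset.sum_le_sum fun x _ => mul_le_mul_of_nonneg_left
    (Real.exp_le_exp.2 ((le_abs_self _).trans (abs_dot_cb z (cb_sv x)))) (hv.nn x)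

theorem abs_log_Zw_sub (hv : SL.Wt v) (z : V n) :
    |Real.log (Zw (tilt v z)) - Real.log (Zw v)| ≤ nrm z * Real.sqrt n := by
  have h1 := log_Zw_tilt_le hv z
  have h2 := log_Zw_tilt_le (hv.tilt z) (-z)
  rw [tilt_tilt, add_neg_cancel, tilt_zero, nrm_neg] at h2
  rw [abs_le]; constructor <;> linarith

theorem Xi_sub_le (hJ : opn J ≤ 3) (hb : b ∈ Icc (0 : ℝ) 1) (hv : SL.Wt v) (y z : V n) :
    Xi J b v (y + z) ≤ Xi J b v y + 6 * n + 2 * (nrm y + nrm z) * Real.sqrt n := by
  have h1 := log_Zw_tilt_le (hv.tilt y) z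
  rw [tilt_tilt] at h1
  have h2 := abs_le.1 (abs_Phi_le hJ hb y (cav J b y (mag (tilt v y))))
  have h3 := abs_le.1 (abs_Phi_le hJ hb (y + z) (cav J b (y + z) (mag (tilt v (y + z)))))
  have h4 := mul_le_mul_of_nonneg_right (nrm_add_le y z) (Real.sqrt_nonneg n)
  simp only [Xi]; linarith

/-! ### measurability and growth -/

theorem continuous_Zw_tilt (v : Cube n → ℝ) : Continuous fun y => Zw (tilt v y) := by
  unfold Zw tilt dotProduct; fun_prop

theorem continuous_mean_tilt (hv : SL.Wt v) (f : Cube n → ℝ) :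
    Continuous fun y => mean (tilt v y) f := by
  refine continuous_finsetSum _ fun x _ => Continuous.mul ?_ continuous_const
  exact Continuous.div (by unfold tilt dotProduct; fun_prop) (continuous_Zw_tilt v)
    fun y => (hv.tilt y).pos.ne'

theorem continuous_mag_tilt (hv : SL.Wt v) : Continuous fun y => mag (tilt v y) :=
  continuous_pi fun _ => continuous_mean_tilt hv _

theorem continuous_th : Continuous (th : V n → V n) := by unfold th; fun_prop

theorem continuous_cav (J : Mx n) (b : ℝ) : Continuous fun p : V n × V n => cav J b p.1 p.2 := by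
  unfold cav avg DD mulVec dotProduct; fun_prop

theorem continuous_hb2 : Continuous hb2 := by
  refine Continuous.sub (Continuous.log (by fun_prop) fun t => ?_) (by fun_prop)
  have := Real.cosh_pos t; positivity

theorem continuous_Phi (J : Mx n) (b : ℝ) : Continuous fun p : V n × V n => Phi J b p.1 p.2 := by
  have := continuous_hb2
  unfold Phi avg DD th mulVec dotProduct; fun_prop

theorem continuous_cav_tilt (J : Mx n) (b : ℝ) (hv : SL.Wt v) :
    Continuous fun y => cav J b y (mag (tilt v y)) :=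
  (continuous_cav J b).comp (continuous_id.prodMk (continuous_mag_tilt hv))

theorem continuous_Dv (J : Mx n) (b : ℝ) (hv : SL.Wt v) : Continuous (Dv J b v) :=
  (continuous_nrm.comp ((continuous_mag_tilt hv).sub
    (continuous_th.comp (continuous_cav_tilt J b hv)))).pow 2

theorem continuous_Xi (J : Mx n) (b : ℝ) (hv : SL.Wt v) : Continuous (Xi J b v) := by
  have h1 : Continuous fun y => Real.log (Zw (tilt v y)) :=
    (continuous_Zw_tilt v).log fun y => (hv.tilt y).pos.ne'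
  have h2 := (continuous_Phi J b).comp (continuous_id.prodMk (continuous_cav_tilt J b hv))
  simp only [Function.comp_def, id] at h2
  exact h1.sub h2

theorem mg_nrm : SL.MG (nrm : V n → ℝ) := by
  refine ⟨continuous_nrm.measurable, Real.sqrt n, 1, Real.sqrt_nonneg _, zero_le_one, fun y => ?_⟩
  have h : nrm y ≤ Real.sqrt n * ‖y‖ := by
    rw [nrm_le_iff (by positivity), mul_pow, Real.sq_sqrt (Nat.cast_nonneg n)]
    refine (Finset.sum_le_card_nsmul _ _ (‖y‖ ^ 2) fun i _ => ?_).trans_eq (by simp)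
    rw [← sq, ← sq_abs]
    exact pow_le_pow_left₀ (abs_nonneg _) (norm_le_pi_norm y i) 2
  rw [abs_of_nonneg (nrm_nonneg y), one_mul]
  exact h.trans (mul_le_mul_of_nonneg_left (by linarith [Real.add_one_le_exp ‖y‖])
    (Real.sqrt_nonneg _))

theorem mg_dot : SL.MG fun y : V n => y ⬝ᵥ y := by simpa only [nrm_mul_self] using mg_nrm.mul mg_nrm

theorem mg_of_lin {F : V n → ℝ} (hm : Measurable F) (C c : ℝ) (h : ∀ y, |F y| ≤ C + c * nrm y) :
    SL.MG F := ((SL.MG.const C).add (mg_nrm.const_mul c)).of_le hm fun y => (h y).trans (le_abs_self _)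

theorem mg_shift {F : V n → ℝ} (h : SL.MG F) (y : V n) : SL.MG fun z => F (y + z) := by
  simpa using h.affine y 1

theorem mg_Dv (J : Mx n) (b : ℝ) (hv : SL.Wt v) : SL.MG (Dv J b v) :=
  .of_bdd (continuous_Dv J b hv).measurable (4 * n) fun y => by
    rw [abs_of_nonneg (Dv_nonneg J b v y)]; exact Dv_le J b hv y

theorem mg_Xi (hJ : opn J ≤ 3) (hb : b ∈ Icc (0 : ℝ) 1) (hv : SL.Wt v) : SL.MG (Xi J b v) := by
  refine mg_of_lin (continuous_Xi J b hv).measurable (|Real.log (Zw v)| + 3 * n) (2 * Real.sqrt n)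
    fun y => ?_
  have h1 := abs_le.1 (abs_log_Zw_sub hv y)
  have h2 := abs_le.1 (abs_Phi_le hJ hb y (cav J b y (mag (tilt v y))))
  have h3 := le_abs_self (Real.log (Zw v))
  have h4 := neg_abs_le (Real.log (Zw v))
  rw [Xi, abs_le]; constructor <;> linarith

/-! ### expectations along the localisation -/

theorem slE_const (hv : SL.Wt v) (s c : ℝ) : slE sv v s (fun _ _ => c) = c := by
  rw [SL.slE_fun, hv.mean_const]

theorem slE_ind (hv : SL.Wt v) (s c : ℝ) {A : Set (V n)} (hA : MeasurableSet A) :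
    slE sv v s (fun _ => A.indicator fun _ => c) = c * (SL.law sv v s).real A := by
  rw [SL.slE_indicator hA, SL.law_real hv hA, SL.mean_const_mul]

theorem exists_lt (hv : SL.Wt v) {s c : ℝ} {F : V n → ℝ} (hF : SL.MG F)
    (h : slE sv v s (fun _ y => F y) < c) : ∃ y, F y < c := by
  by_contra hc
  push Not at hc
  have := SL.slE_mono (φ := sv) (s := s) hv (.of_mg fun _ => SL.MG.const c) (.of_mg fun _ => hF)
    fun _ y => hc y
  rw [slE_const hv] at this
  linarith

theorem slE_normsq (hv : SL.Wt v) {s : ℝ} (hs : 0 ≤ s) :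
    slE sv v s (fun _ y => y ⬝ᵥ y) = (s ^ 2 + s) * n := by
  have key : ∀ σ : Cube n, ∫ g, (s • sv σ + Real.sqrt s • g) ⬝ᵥ (s • sv σ + Real.sqrt s • g) ∂gv (Fin n) =
      (s ^ 2 + s) * n := fun σ => by
    have one : ∀ i : Fin n, Integrable (fun g : V n => (s * sv σ i + Real.sqrt s * g i) *
        (s * sv σ i + Real.sqrt s * g i)) (gv (Fin n)) ∧ ∫ g : V n, (s * sv σ i + Real.sqrt s * g i) *
        (s * sv σ i + Real.sqrt s * g i) ∂gv (Fin n) = s ^ 2 + s := fun i => by
      have hp := measurePreserving_eval (fun _ : Fin n => gaussianReal 0 1) i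
      have m2 : MemLp id 2 (gaussianReal 0 1) := memLp_id_gaussianReal 2
      have i1 : Integrable (fun x : ℝ => x) (gaussianReal 0 1) := m2.integrable one_le_two
      have i2 : Integrable (fun x : ℝ => x ^ 2) (gaussianReal 0 1) := m2.integrable_sq
      have e2 : ∫ x, x ^ 2 ∂gaussianReal 0 1 = 1 := by
        have := variance_id_gaussianReal (μ := 0) (v := 1)
        rw [variance_eq_integral measurable_id.aemeasurable] at this
        simpa using this
      have hσ : sv σ i * sv σ i = 1 := by simp only [sv, spin]; split_ifs <;> simp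
      have e : (fun x : ℝ => (s * sv σ i + Real.sqrt s * x) * (s * sv σ i + Real.sqrt s * x)) =
          fun x => s ^ 2 + (2 * s * sv σ i * Real.sqrt s * x + s * x ^ 2) := by
        ext x; linear_combination s ^ 2 * hσ + x ^ 2 * Real.mul_self_sqrt hs
      have i3 : Integrable (fun x : ℝ => (s * sv σ i + Real.sqrt s * x) * (s * sv σ i + Real.sqrt s * x))
          (gaussianReal 0 1) := by
        rw [e]; exact (integrable_const _).add ((i1.const_mul _).add (i2.const_mul _))
      refine ⟨hp.integrable_comp_of_integrable i3, ?_⟩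
      have := integral_map (μ := gv (Fin n)) hp.measurable.aemeasurable (hp.map_eq ▸ i3.1)
      rw [hp.map_eq] at this
      refine Eq.trans this.symm ?_
      have i4 : Integrable (fun x : ℝ => 2 * s * sv σ i * Real.sqrt s * x + s * x ^ 2)
          (gaussianReal 0 1) := (i1.const_mul _).add (i2.const_mul _)
      rw [e, integral_add (integrable_const _) i4,
        integral_add (i1.const_mul _) (i2.const_mul _), integral_const_mul, integral_const_mul, e2]
      simp
    simp only [dotProduct, Pi.add_apply, Pi.smul_apply, smul_eq_mul]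
    rw [integral_finsetSum _ fun i _ => (one i).1]
    rw [Finset.sum_congr rfl fun i _ => (one i).2]
    simp; ring
  rw [SL.slE_eq_mean]
  simp only [key]
  exact hv.mean_const _

theorem exit_le (hv : SL.Wt v) {t R : ℝ} (ht : t ∈ Icc (0 : ℝ) 1) (hR : 44 * t * n < R ^ 2) :
    (SL.law sv v t).real {z | R ^ 2 ≤ 2 * (z ⬝ᵥ z)} ≤ Real.exp (-(2 * n)) := by
  have hA : MeasurableSet {z : V n | R ^ 2 ≤ 2 * (z ⬝ᵥ z)} :=
    measurableSet_le measurable_const (by unfold dotProduct; fun_prop)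
  rw [SL.law_real hv hA]
  refine hv.mean_le fun σ => ?_
  rw [SL.px, map_measureReal_apply (by fun_prop) hA]
  refine le_trans (measureReal_mono fun g hg => ?_) (gv_normsq_tail n)
  simp only [mem_preimage, mem_ofPred_eq] at hg ⊢
  have h1 := dot_add_le (t • sv σ) (Real.sqrt t • g)
  rw [smul_dotProduct, dotProduct_smul, smul_dotProduct, dotProduct_smul, sv_dot_self] at h1
  simp only [smul_eq_mul] at h1
  rw [← mul_assoc (Real.sqrt t), Real.mul_self_sqrt ht.1] at h1
  by_contra hc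
  have h4 : t * (t * n) ≤ t * n :=
    mul_le_of_le_one_left (mul_nonneg ht.1 (Nat.cast_nonneg n)) ht.2
  have h5 : t * (g ⬝ᵥ g) ≤ t * (10 * n) := mul_le_mul_of_nonneg_left (not_le.1 hc).le ht.1
  linarith

theorem mg_lin_sq (hv : SL.Wt v) (m u : V n) : SL.MG fun z => ((mag (tilt v z) - m) ⬝ᵥ u) ^ 2 := by
  have hc := continuous_mag_tilt hv
  refine .of_bdd (Continuous.measurable (by unfold dotProduct; fun_prop))
    (((Real.sqrt n + nrm m) * nrm u) ^ 2) fun z => ?_
  rw [abs_pow]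
  refine pow_le_pow_left₀ (abs_nonneg _) ((abs_dot_le _ _).trans ?_) 2
  exact mul_le_mul_of_nonneg_right
    (by linarith [nrm_sub_le (mag (tilt v z)) m, nrm_le_sqrt (cb_mag (hv.tilt z))]) (nrm_nonneg u)

/-- the fluctuation of the posterior mean is bounded by the covariance of the prior -/
theorem slE_lin_sq_le (hv : SL.Wt v) {s : ℝ} (hs : 0 ≤ s) (u : V n) :
    slE sv v s (fun _ z => ((mag (tilt v z) - mag v) ⬝ᵥ u) ^ 2) ≤ u ⬝ᵥ covM v *ᵥ u := by
  set f : Cube n → ℝ := fun x => u ⬝ᵥ sv x - mean v fun x => u ⬝ᵥ sv x with hf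
  have h := SL.total_cov (φ := sv) hv f f hs
  have h0 : 0 ≤ SL.ex sv v (fun p => cov (SL.pw sv v p) f f) s :=
    SL.ex_nonneg hv fun y => by rw [← SL.var_eq_cov]; exact (hv.post _ _ _).var_nonneg _
  have e1 : mean v (fun x => f x * f x) = u ⬝ᵥ covM v *ᵥ u := by
    rw [covM, SL.covMat_quad, SL.cov_eq_mean]
  have e2 : ∀ z, mean (post sv v s z) f = (mag (tilt v z) - mag v) ⬝ᵥ u := fun z => by
    rw [SL.mean_post_sv, hf, SL.mean_sub, (hv.tilt z).mean_const, dotProduct_comm, dotProduct_sub,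
      mag, mag, SL.meanV_dot, SL.meanV_dot]
  simp only [SL.ex, SL.pw, e2, ← sq] at h h0
  simp only [← sq] at e1
  linarith

theorem quad_le_frob (v : Cube n → ℝ) {a : ℝ} (ha : 0 ≤ a) (h : frob v ≤ a ^ 2) (u : V n) :
    u ⬝ᵥ covM v *ᵥ u ≤ a * (u ⬝ᵥ u) :=
  ((le_abs_self _).trans (abs_quad_le _ u)).trans (mul_le_mul_of_nonneg_right
    (abs_le_of_sq_le_sq' ((opn_sq_le_frob _).trans h) ha).2 (dot_self_nonneg u))

end Crest.Agent.T157.Lp.G1
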