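import Crest.Agent.T157.LpG1_17

/-!
# Row 157, part A: the window lemma along the plain localisation, good children (helper17)
-/

set_option autoImplicit false

noncomputable section

namespace Crest.Agent.T157.Lp.G2

open MeasureTheory ProbabilityTheory Matrix Filter Set
open Crest.ProbabilityR.SpinGlassDynamics
open Crest.Agent.T157.E Crest.Agent.T157.Eig Crest.Agent.T157.Tap Crest.Agent.T157.Tap.Froz10
open Crest.Agent.T157.Lp.G1

variable {n : ℕ} {J E : Mx n} {b : ℝ} {v : Cube n → ℝ}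

theorem log_Zw_post (hv : SL.Wt v) (t : ℝ) (z : V n) :
    Real.log (Zw (post sv v t z)) = Real.log (Zw (tilt v z)) - t * n / 2 := by
  have h0 : 0 < Zw (tilt v z) := (hv.tilt z).pos
  rw [SL.post_sv, Zw, ← Finset.sum_mul, ← Zw, Real.log_mul h0.ne' (Real.exp_pos _).ne', Real.log_exp]
  ring

/-- the window lemma for the driver `Q = 1` -/
theorem win1 (hW : WinGStmt) {c K : ℝ} (hc : 0 < c) (hK : 1 ≤ K) : ∃ K' > (0 : ℝ), ∀ (n : ℕ)
    (J E : Mx n) (b h r R ε ω : ℝ) (y0 p0 : V n) (v : Cube n → ℝ) (ψ : V n → ℝ),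
    0 < n → Jᵀ = J → opn J ≤ K → Eᵀ = E → opn E ≤ K → b ∈ Icc (0 : ℝ) 1 → h ∈ Icc (0 : ℝ) 1 → 0 < R →
    (n : ℝ) ≤ K * R ^ 2 → R ^ 2 ≤ K * n → Cb p0 → SL.Wt v → 0 ≤ ω → GoodE J b E c r p0 →
    (∀ z : V n, nrm z ≤ 2 * R → ∃ x, nrm (th x - p0) < r ∧ YE J b E p0 x = y0 + z) →
    (∀ p : V n, Cb p → nrm (p - p0) ≤ r → nrm (err (B1 J b p - E) (dd p) b 1 1) ≤ ω) →
    SL.MG ψ → (∀ z, 0 ≤ ψ z) →
    (∀ z : V n, nrm z ≤ R → ∀ x, nrm (th x - p0) < r → YE J b E p0 x = y0 + z →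
      nrm (mag (tilt v z) - th x) ^ 2 ≤ ψ z) →
    (∀ t ∈ Icc 0 h, (SL.law sv v t).real {z | R ^ 2 ≤ 2 * (z ⬝ᵥ z)} ≤ ε) →
    ∀ x0, nrm (th x0 - p0) < r → YE J b E p0 x0 = y0 →
      nrm (mag v - th x0) ^ 2 ≤ K' * (slE sv v h (fun _ z => ψ z) + ω ^ 2 + 1 + n * ε) ∧
      ∀ (ω' u : ℝ) (U : V n → ℝ), 0 ≤ ω' → 0 ≤ u →
        (∀ p : V n, Cb p → nrm (p - p0) ≤ r →
          |(GG (B1 J b p - E) (dd p)).trace - n * avg (DD p)| ≤ 2 * ω') →
        SL.MG U → (∀ z, U z ≤ u) →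
        (∀ z : V n, nrm z ≤ R → ∀ x, nrm (th x - p0) < r → YE J b E p0 x = y0 + z →
          U z ≤ Real.log (Zw (tilt v z)) - PhiE J b E p0 (y0 + z) x -
            (Real.log (Zw v) - PhiE J b E p0 y0 x0)) →
        slE sv v h (fun _ z => U z) ≤
          K' * (slE sv v h (fun _ z => ψ z) + ω ^ 2 + 1 + n * ε) + ω' + u * ε := by
  obtain ⟨K', hK', H⟩ := hW c hc K (by linarith)
  refine ⟨K', hK', fun n J E b h r R ε ω y0 p0 v ψ hn hJ hJK hE hEK hb hh hR h1 h2 hp hv hω hG hex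
    herr hψ hψ0 hend hexit x0 hx0 hy0 => ?_⟩
  have hφ : (fun σ : Cube n => (1 : Mx n) *ᵥ sv σ) = sv := funext fun σ => one_mulVec _
  have hm : ∀ t z, mag (post sv v t z) = mag (tilt v z) := fun t z => SL.meanV_post_sv _ _ _ _
  have := H n J 1 E b 0 1 h r R ε ω y0 p0 v ψ hn hJ hJK hE hEK hb ⟨le_rfl, zero_le_one⟩ hh.1 hh.2
    (by simpa using hK) (by simp) hR h1 h2 hp hv hω
  simp only [val, hφ, hm, log_Zw_post hv, zero_mul, sub_zero, one_smul, one_pow, one_mul, mul_one,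
    transpose_one, one_mulVec, zero_smul, zero_add, mul_zero, add_zero, zero_div, G1.tilt_zero] at this
  obtain ⟨c1, c2⟩ := this (fun _ _ => hG) (fun _ _ => hex) (fun _ _ => herr) hψ hψ0 hend hexit x0 hx0 hy0
  refine ⟨c1, fun ω' u U a1 a2 a3 a4 a5 a6 => c2 ω' u U a1 a2 (fun _ _ p hp hr => ?_) a4 a5
    fun z hz x hx hy => by linarith [a6 z hz x hx hy]⟩
  have := abs_le.1 (a3 p hp hr)
  rw [abs_le]; constructor <;> linarith

/-! ### penalties -/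

theorem pen_mulVec {r : ℕ} (L : ℝ) (u : Fin r → V n) (q : V n) :
    (L • ∑ j, vecMulVec (u j) (u j)) *ᵥ q = L • ∑ j, (q ⬝ᵥ u j) • u j := by
  rw [smul_mulVec, sum_mulVec]
  simp only [vecMulVec_mulVec, dotProduct_comm q, op_smul_eq_smul]

theorem pen_symm {r : ℕ} {L : ℝ} (h : Pen r L E) : Eᵀ = E := by
  obtain ⟨u, -, rfl⟩ := h
  simp [transpose_smul, transpose_sum, transpose_vecMulVec]

theorem pen_opn {r : ℕ} {L : ℝ} (hL : 0 ≤ L) (h : Pen r L E) : opn E ≤ L * r := by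
  obtain ⟨u, hu, rfl⟩ := h
  rw [opn_smul, abs_of_nonneg hL]
  refine mul_le_mul_of_nonneg_left ((opn_sum_le _ _).trans ?_) hL
  exact (Finset.sum_le_card_nsmul _ _ 1 fun j _ =>
    (opn_vecMulVec_le _ _).trans ((nrm_mul_self _).trans_le (hu j))).trans_eq (by simp)

theorem pen_nrm {r : ℕ} {L : ℝ} (hL : 0 ≤ L) (h : Pen r L E) (q : V n) :
    nrm (E *ᵥ q) ≤ L * r * nrm q :=
  (nrm_mulVec_le E q).trans (mul_le_mul_of_nonneg_right (pen_opn hL h) (nrm_nonneg q))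

theorem pen_quad {r : ℕ} {L : ℝ} (hL : 0 ≤ L) (h : Pen r L E) (q : V n) :
    0 ≤ q ⬝ᵥ E *ᵥ q ∧ q ⬝ᵥ E *ᵥ q ≤ L * r * nrm q ^ 2 := by
  refine ⟨?_, ((le_abs_self _).trans (abs_quad_le E q)).trans ?_⟩
  · obtain ⟨u, -, rfl⟩ := h
    rw [pen_mulVec, dotProduct_smul, dotProduct_sum]
    exact mul_nonneg hL (Finset.sum_nonneg fun j _ => by
      rw [dotProduct_smul]; exact mul_self_nonneg _)
  · rw [nrm_sq]; exact mul_le_mul_of_nonneg_right (pen_opn hL h) (dot_self_nonneg q)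

theorem nrm_sum_le {r : ℕ} (f : Fin r → V n) : nrm (∑ j, f j) ≤ ∑ j, nrm (f j) :=
  Finset.le_sum_of_subadditive nrm nrm_zero.le nrm_add_le _ f

theorem pen_nrm_sq {r : ℕ} {L : ℝ} (hL : 0 ≤ L) {u : Fin r → V n} (hu : ∀ j, u j ⬝ᵥ u j ≤ 1)
    (q : V n) : nrm ((L • ∑ j, vecMulVec (u j) (u j)) *ᵥ q) ^ 2 ≤ L ^ 2 * r * ∑ j, (q ⬝ᵥ u j) ^ 2 := by
  rw [pen_mulVec, nrm_smul, abs_of_nonneg hL, mul_pow, mul_assoc]
  refine mul_le_mul_of_nonneg_left ?_ (sq_nonneg L)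
  have h1 : nrm (∑ j, (q ⬝ᵥ u j) • u j) ≤ ∑ j, |q ⬝ᵥ u j| := (nrm_sum_le _).trans
    (Finset.sum_le_sum fun j _ => by
      rw [nrm_smul]
      exact mul_le_of_le_one_right (abs_nonneg _) ((nrm_le_iff zero_le_one).2 (by simpa using hu j)))
  refine (pow_le_pow_left₀ (nrm_nonneg _) h1 2).trans (sq_sum_le_card_mul_sum_sq.trans_eq ?_)
  simp

/-- the defect is controlled by the distance to the penalised branch -/
theorem dfc_le_branch (hJ : opn J ≤ 3) (hb : b ∈ Icc (0 : ℝ) 1) {r : ℕ} {L : ℝ} (hL : 0 ≤ L)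
    (h : Pen r L E) {m x y : V n} (hm : Cb m) (hx : YE J b E m x = y) :
    dfc J b y m ≤ (7 + L * r) * nrm (m - th x) := by
  have e : y - Ymap J b x = E *ᵥ (th x - m) := by rw [← hx, YE]; abel
  have h1 := cav_lip hJ hb y (Ymap J b x) hm (cb_th x)
  rw [cav_Ymap, e] at h1
  have h2 := pen_nrm hL h (th x - m)
  rw [nrm_sub_comm (th x)] at h2
  have h3 := SE.nrm_th_sub_le x (cav J b y m)
  rw [nrm_sub_comm x] at h3
  have := nrm_tri m (th x) (th (cav J b y m))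
  rw [dfc]; linarith

/-- a good child lies close to the parent magnetisation -/
theorem child (hn : 0 < n) (hJ : opn J ≤ 3) (hb : b ∈ Icc (0 : ℝ) 1) {k η θ K2 C δ : ℝ} {N : ℕ}
    (hk : 0 ≤ k) (hη : η ≤ k / 2) (hθ : 12 * θ ≤ η) (hθ0 : 0 ≤ θ) (hC : θ * |C| ≤ δ / 2) {y m0 : V n}
    (hy : k * Real.sqrt n ≤ nrm (th y)) {rr : Fin N → V n} (hr : ∀ j, nrm (rr j) ≤ C * Real.sqrt n)
    (hK : ∀ x, nrm (Ymap J b x - y) ≤ η * Real.sqrt n → avg (DD (th x)) ≤ 1 - k ^ 2 / 100 →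
      K2 * η * Real.sqrt n ≤ nrm (th x - m0) → ∃ j, δ * n ≤ |(th x - m0) ⬝ᵥ rr j|)
    {z m : V n} (hz : nrm z ≤ η * Real.sqrt n / 2) (hm : Cb m)
    (hd : dfc J b (y + z) m ≤ θ * Real.sqrt n) (hj : ∀ j, |(m - m0) ⬝ᵥ rr j| < δ * n / 2) :
    nrm (Ymap J b (cav J b (y + z) m) - y) ≤ η * Real.sqrt n ∧
      k * Real.sqrt n / 10 ≤ nrm (th (cav J b (y + z) m)) ∧
      nrm (th (cav J b (y + z) m) - m0) < K2 * η * Real.sqrt n := by
  have h1 := nrm_Ymap_cav hJ hb (y + z) hm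
  rw [dfc] at hd h1
  set x := cav J b (y + z) m
  have hs : 0 ≤ Real.sqrt n := Real.sqrt_nonneg _
  have hn' : (0 : ℝ) < n := by positivity
  have a1 : nrm (Ymap J b x - y) ≤ η * Real.sqrt n := by
    have := nrm_tri (Ymap J b x) (y + z) y
    rw [add_sub_cancel_left] at this
    nlinarith [mul_le_mul_of_nonneg_right hθ hs]
  have a2 : k * Real.sqrt n / 10 ≤ nrm (th x) := by
    have b1 := SE.nrm_th_sub_le y x
    have b2 := SE.nrm_sub_Ymap_le hJ hb x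
    have b3 := nrm_tri x (Ymap J b x) y
    have b4 := nrm_add_le (th y - th x) (th x)
    rw [sub_add_cancel] at b4
    rw [nrm_sub_comm y] at b1
    rw [nrm_sub_comm x (Ymap J b x)] at b3
    nlinarith [mul_le_mul_of_nonneg_right hη hs]
  refine ⟨a1, a2, not_le.1 fun hc => ?_⟩
  obtain ⟨j, hj'⟩ := hK x a1 (by
    have := pow_le_pow_left₀ (by positivity) a2 2
    rw [nrm_sq, div_pow, mul_pow, Real.sq_sqrt hn'.le] at this
    rw [avg_DD_eq hn, sub_le_sub_iff_left, le_div_iff₀ hn']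
    linarith) hc
  have e : (th x - m0) ⬝ᵥ rr j = (m - m0) ⬝ᵥ rr j - (m - th x) ⬝ᵥ rr j := by
    simp only [sub_dotProduct]; ring
  have b1 : |(m - th x) ⬝ᵥ rr j| ≤ θ * Real.sqrt n * (|C| * Real.sqrt n) := (abs_dot_le _ _).trans
    (mul_le_mul hd ((hr j).trans (mul_le_mul_of_nonneg_right (le_abs_self C) hs)) (nrm_nonneg _)
      (by positivity))
  have b2 : θ * Real.sqrt n * (|C| * Real.sqrt n) = θ * |C| * n := by
    linear_combination θ * |C| * sq_sqrt_n (n := n)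
  have b3 := abs_sub ((m - m0) ⬝ᵥ rr j) ((m - th x) ⬝ᵥ rr j)
  rw [← e] at b3
  nlinarith [hj j, mul_le_mul_of_nonneg_right hC hn'.le]

/-- comparison of the branch with the cavity field of a child inside the good ball -/
theorem compare (hX : ExEStmt) (hJs : Jᵀ = J) (hJ : opn J ≤ 3) (hb : b ∈ Icc (0 : ℝ) 1) {r : ℕ}
    {L c ρ : ℝ} (hL : 0 ≤ L) (hc : 0 < c) {u : Fin r → V n} (hu : ∀ j, u j ⬝ᵥ u j ≤ 1)
    (hE : E = L • ∑ j, vecMulVec (u j) (u j)) {m0 y m x : V n} (hG : GoodE J b E c ρ m0) (hm : Cb m)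
    (hx : nrm (th x - m0) ≤ ρ) (hy : YE J b E m0 x = y) (hx' : nrm (th (cav J b y m) - m0) ≤ ρ) :
    nrm (m - th x) ^ 2 ≤ (2 + 2 * (2 * (6 + L * r) ^ 2 + 2 * (L ^ 2 * r)) / c ^ 2) *
        (dfc J b y m ^ 2 + ∑ j, ((m - m0) ⬝ᵥ u j) ^ 2) ∧
      PhiE J b E m0 y x ≤ Phi J b y (cav J b y m) + (2 * (6 + L * r) ^ 2 + 2 * (L ^ 2 * r)) / c *
        (dfc J b y m ^ 2 + ∑ j, ((m - m0) ⬝ᵥ u j) ^ 2) := by
  have hP : Pen r L E := ⟨u, hu, hE⟩
  obtain ⟨c1, c2⟩ := (hX n J E b c ρ m0 hJs (pen_symm hP) hc hG).1 x _ hx hx'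
  have c2 := c2 y
  have h1 := nrm_Ymap_cav hJ hb y hm
  have h2 := pen_nrm_sq hL hu (m - m0)
  rw [← hE] at h2
  have hd : dfc J b y m = nrm (m - th (cav J b y m)) := rfl
  set x' := cav J b y m
  set S := ∑ j, ((m - m0) ⬝ᵥ u j) ^ 2
  have hS : 0 ≤ S := Finset.sum_nonneg fun j _ => sq_nonneg _
  set d := dfc J b y m
  have hd0 : 0 ≤ d := dfc_nonneg J b y m
  set B := 2 * (6 + L * r) ^ 2 + 2 * (L ^ 2 * r)
  rw [hy] at c1
  set e := y - YE J b E m0 x' with he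
  have h3 : nrm e ≤ (6 + L * r) * d + nrm (E *ᵥ (m - m0)) := by
    have e1 : e = E *ᵥ (m - th x') - ((Ymap J b x' - y) + E *ᵥ (m - m0)) := by
      simp only [he, YE, mulVec_sub]; abel
    have := pen_nrm hL hP (m - th x')
    rw [← hd] at this
    rw [e1]
    linarith [nrm_sub_le (E *ᵥ (m - th x')) ((Ymap J b x' - y) + E *ᵥ (m - m0)),
      nrm_add_le (Ymap J b x' - y) (E *ᵥ (m - m0))]
  have h4 : nrm e ^ 2 ≤ B * (d ^ 2 + S) := by
    have := pow_le_pow_left₀ (nrm_nonneg e) h3 2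
    have p1 : 0 ≤ L ^ 2 * r * d ^ 2 := by positivity
    have p2 : 0 ≤ (6 + L * r) ^ 2 * S := by positivity
    nlinarith [sq_nonneg ((6 + L * r) * d - nrm (E *ᵥ (m - m0)))]
  have h5 : nrm (th x - th x') ≤ nrm e / c := by rw [le_div_iff₀ hc]; linarith
  constructor
  · have b1 := nrm_tri m (th x') (th x)
    rw [← hd, nrm_sub_comm (th x')] at b1
    have b2 := pow_le_pow_left₀ (nrm_nonneg _) (b1.trans (add_le_add le_rfl h5)) 2
    have b3 : (nrm e / c) ^ 2 ≤ B / c ^ 2 * (d ^ 2 + S) := by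
      rw [div_pow, div_mul_eq_mul_div]; exact div_le_div_of_nonneg_right h4 (sq_nonneg c)
    rw [mul_div_assoc]
    nlinarith [sq_nonneg (d - nrm e / c)]
  · have b1 := (dot_le e (th x - th x')).trans (mul_le_mul_of_nonneg_left h5 (nrm_nonneg e))
    have b2 : nrm e * (nrm e / c) ≤ B / c * (d ^ 2 + S) := by
      rw [← mul_div_assoc, ← sq, div_mul_eq_mul_div]; exact div_le_div_of_nonneg_right h4 hc.le
    have b3 := (pen_quad hL hP (th x' - m0)).1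
    have b4 : PhiE J b E m0 y x' = Phi J b y x' - 1 / 2 * ((th x' - m0) ⬝ᵥ E *ᵥ (th x' - m0)) := rfl
    linarith

/-- the value at the parent -/
theorem parent (hX : ExEStmt) (hJs : Jᵀ = J) (hJ : opn J ≤ 3) (hb : b ∈ Icc (0 : ℝ) 1) {r : ℕ}
    {L c ρ R : ℝ} (hL : 0 ≤ L) (hc : 0 < c) (hρ : 0 < ρ) (hR : 0 ≤ R) (hP : Pen r L E) {m0 y x : V n}
    (hG : GoodE J b E c (ρ * Real.sqrt n) m0) (hm : Cb m0) (hx : nrm (th x - m0) ≤ ρ * Real.sqrt n)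
    (hy : YE J b E m0 x = y) (hyR : nrm y ≤ R * Real.sqrt n) :
    Phi J b y (cav J b y m0) ≤ PhiE J b E m0 y x +
      (L * r / 2 + (6 + 2 * R + 2 * (L * r)) / ρ ^ 2) * dfc J b y m0 ^ 2 := by
  have hd : dfc J b y m0 = nrm (th (cav J b y m0) - m0) := nrm_sub_comm _ _
  set x' := cav J b y m0
  have hn : (0 : ℝ) ≤ n := Nat.cast_nonneg n
  have p1 : 0 ≤ (6 + 2 * R + 2 * (L * r)) / ρ ^ 2 := by positivity
  have p2 : 0 ≤ L * r / 2 := by positivity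
  rw [hd]
  by_cases h : nrm (th x' - m0) ≤ ρ * Real.sqrt n
  · have c2 := ((hX n J E b c _ m0 hJs (pen_symm hP) hc hG).1 x' x h hx).2 y
    rw [hy, sub_self, zero_dotProduct, add_zero] at c2
    have b3 := (pen_quad hL hP (th x' - m0)).2
    have b4 : PhiE J b E m0 y x' = Phi J b y x' - 1 / 2 * ((th x' - m0) ⬝ᵥ E *ᵥ (th x' - m0)) := rfl
    nlinarith [mul_nonneg p1 (sq_nonneg (nrm (th x' - m0)))]
  · have b1 := pow_le_pow_left₀ (by positivity) (not_le.1 h).le 2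
    rw [mul_pow, Real.sq_sqrt hn] at b1
    have b2 : (6 + 2 * R + 2 * (L * r)) * n ≤
        (6 + 2 * R + 2 * (L * r)) / ρ ^ 2 * nrm (th x' - m0) ^ 2 := by
      refine le_trans (le_of_eq ?_) (mul_le_mul_of_nonneg_left b1 p1)
      field_simp
    have b3 := (pen_quad hL hP (th x - m0)).2
    have b4 : PhiE J b E m0 y x = Phi J b y x - 1 / 2 * ((th x - m0) ⬝ᵥ E *ᵥ (th x - m0)) := rfl
    have b5 := pow_le_pow_left₀ (nrm_nonneg _) (nrm_sub_cb (cb_th x) hm) 2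
    rw [mul_pow, Real.sq_sqrt hn] at b5
    have b6 := abs_le.1 (abs_Phi_le hJ hb y x)
    have b7 := abs_le.1 (abs_Phi_le hJ hb y x')
    have b8 := mul_le_mul_of_nonneg_right hyR (Real.sqrt_nonneg n)
    rw [mul_assoc, sq_sqrt_n] at b8
    nlinarith [mul_nonneg p2 (sq_nonneg (nrm (th x' - m0))),
      mul_le_mul_of_nonneg_left b5 (show 0 ≤ L * r by positivity)]

end Crest.Agent.T157.Lp.G2
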