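import Crest.Agent.T157.LpG2_17

/-!
# Row 157, part A: one step of the backward induction (helper17)
-/

set_option autoImplicit false

noncomputable section

namespace Crest.Agent.T157.Lp.G3

open MeasureTheory ProbabilityTheory Matrix Filter Set
open Crest.ProbabilityR.SpinGlassDynamics
open Crest.Agent.T157.E Crest.Agent.T157.Eig Crest.Agent.T157.Tap Crest.Agent.T157.Tap.Froz10
open Crest.Agent.T157.Lp.G1 Crest.Agent.T157.Lp.G2

variable {n : ℕ} {J E : Mx n} {b : ℝ} {v : Cube n → ℝ}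

/-- squared displacement of the magnetisation along finitely many directions -/
def Sq (v : Cube n → ℝ) {N : ℕ} (w : Fin N → V n) (z : V n) : ℝ :=
  ∑ j, ((mag (tilt v z) - mag v) ⬝ᵥ w j) ^ 2

theorem Sq_nonneg {N : ℕ} (w : Fin N → V n) (z : V n) : 0 ≤ Sq v w z :=
  Finset.sum_nonneg fun _ _ => sq_nonneg _

theorem mg_Sq (hv : SL.Wt v) {N : ℕ} (w : Fin N → V n) : SL.MG (Sq v w) :=
  SL.MG.sum _ fun _ _ => mg_lin_sq hv _ _

theorem slE_Sq (hv : SL.Wt v) {s a q : ℝ} (hs : 0 ≤ s) (ha : 0 ≤ a) (h : frob v ≤ a ^ 2) {N : ℕ}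
    {w : Fin N → V n} (hw : ∀ j, w j ⬝ᵥ w j ≤ q) : slE sv v s (fun _ z => Sq v w z) ≤ N * (a * q) := by
  simp only [Sq]
  rw [SL.slE_sum _ fun j _ => .of_mg fun _ => mg_lin_sq hv _ _]
  exact (Finset.sum_le_card_nsmul _ _ (a * q) fun j _ => ((slE_lin_sq_le hv hs _).trans
    (quad_le_frob v ha h _)).trans (mul_le_mul_of_nonneg_left (hw j) ha)).trans_eq (by simp)

theorem slE_lin3 {s : ℝ} {F G H : V n → ℝ} (hF : SL.MG F) (hG : SL.MG G) (hH : SL.MG H) (a c d : ℝ) :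
    slE sv v s (fun _ z => a * F z + c * G z + d * H z) = a * slE sv v s (fun _ z => F z) +
      c * slE sv v s (fun _ z => G z) + d * slE sv v s (fun _ z => H z) := by
  rw [SL.slE_add (.of_mg fun _ => (hF.const_mul a).add (hG.const_mul c)) (.of_mg fun _ => hH.const_mul d),
    SL.slE_add (.of_mg fun _ => hF.const_mul a) (.of_mg fun _ => hG.const_mul c), SL.slE_const_mul,
    SL.slE_const_mul, SL.slE_const_mul]

theorem slE_normsq_le (hv : SL.Wt v) {h : ℝ} (hh : h ∈ Icc (0 : ℝ) 1) :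
    slE sv v h (fun _ z => z ⬝ᵥ z) ≤ 2 * h * n := by
  rw [slE_normsq hv hh.1]
  exact mul_le_mul_of_nonneg_right (by nlinarith [hh.1, hh.2]) (Nat.cast_nonneg n)

/-- the crude bound of the value increment -/
theorem slE_Xi_crude (hJ : opn J ≤ 3) (hb : b ∈ Icc (0 : ℝ) 1) (hv : SL.Wt v) {h R : ℝ}
    (hh : h ∈ Icc (0 : ℝ) 1) {y : V n} (hy : nrm y ≤ R * Real.sqrt n) :
    slE sv (tilt v y) h (fun _ z => Xi J b v (y + z)) ≤ Xi J b v y + (9 + 2 * R) * n := by
  have h1 := SL.slE_mono (φ := sv) (s := h) (hv.tilt y) (.of_mg fun _ => mg_shift (mg_Xi hJ hb hv) y)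
    (.of_mg fun _ => (SL.MG.const (Xi J b v y + (7 + 2 * R) * n)).add mg_dot) fun _ z => by
      have a := Xi_sub_le hJ hb hv y z
      have a2 := mul_le_mul_of_nonneg_right hy (Real.sqrt_nonneg n)
      rw [mul_assoc, sq_sqrt_n] at a2
      nlinarith [sq_nonneg (nrm z - Real.sqrt n), sq_sqrt_n (n := n), nrm_sq z]
  rw [SL.slE_add (.of_mg fun _ => SL.MG.const _) (.of_mg fun _ => mg_dot), slE_const (hv.tilt y)] at h1
  have h2 := slE_normsq_le (hv.tilt y) hh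
  nlinarith [mul_le_mul_of_nonneg_right hh.2 (Nat.cast_nonneg (α := ℝ) n)]

/-- either the child is good or the majorant exceeds `n` -/
theorem good_or (hn : 0 < n) {θ δ d : ℝ} (hθ : 0 < θ) (hδ : 0 < δ) (hd : 0 ≤ d) {N : ℕ}
    (w : Fin N → V n) (z : V n) :
    (d ≤ θ * Real.sqrt n ∧ ∀ j, |(mag (tilt v z) - mag v) ⬝ᵥ w j| < δ * n / 2) ∨
      n ≤ 1 / θ ^ 2 * d ^ 2 + 4 / (δ ^ 2 * n) * Sq v w z := by
  have hn' : (0 : ℝ) < n := by positivity
  have p1 : 0 ≤ 1 / θ ^ 2 * d ^ 2 := by positivity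
  have p2 : 0 ≤ 4 / (δ ^ 2 * n) * Sq v w z := mul_nonneg (by positivity) (Sq_nonneg w z)
  by_cases h1 : d ≤ θ * Real.sqrt n
  · by_cases h2 : ∀ j, |(mag (tilt v z) - mag v) ⬝ᵥ w j| < δ * n / 2
    · exact .inl ⟨h1, h2⟩
    · push Not at h2
      obtain ⟨j, hj⟩ := h2
      have a1 := pow_le_pow_left₀ (by positivity) hj 2
      rw [sq_abs] at a1
      have a2 : ((mag (tilt v z) - mag v) ⬝ᵥ w j) ^ 2 ≤ Sq v w z :=
        Finset.single_le_sum (f := fun j => ((mag (tilt v z) - mag v) ⬝ᵥ w j) ^ 2)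
          (fun _ _ => sq_nonneg _) (Finset.mem_univ j)
      have a3 := mul_le_mul_of_nonneg_left (a1.trans a2) (show 0 ≤ 4 / (δ ^ 2 * n) by positivity)
      have a4 : 4 / (δ ^ 2 * n) * (δ * n / 2) ^ 2 = n := by field_simp; norm_num
      exact .inr (by linarith)
  · have a1 := pow_le_pow_left₀ (by positivity) (not_le.1 h1).le 2
    have a3 := mul_le_mul_of_nonneg_left a1 (show 0 ≤ 1 / θ ^ 2 by positivity)
    have a4 : 1 / θ ^ 2 * (θ * Real.sqrt n) ^ 2 = n := by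
      rw [mul_pow, Real.sq_sqrt hn'.le]; field_simp
    exact .inr (by linarith)

theorem mul_exp_le (n : ℕ) : (n : ℝ) * Real.exp (-(2 * n)) ≤ 1 := by
  rw [Real.exp_neg, ← div_eq_mul_inv, div_le_one (Real.exp_pos _)]
  linarith [Real.add_one_le_exp (2 * (n : ℝ)), Nat.cast_nonneg (α := ℝ) n]

set_option maxHeartbeats 1600000 in
theorem stepGlue : StepGlue := by
  intro hX hW κ0 hκ c hc L hL r ρ hρ K2 hK2
  obtain ⟨k, hk, rfl⟩ : ∃ k > 0, κ0 = k ^ 2 := ⟨_, Real.sqrt_pos.2 hκ.1, (Real.sq_sqrt hκ.1.le).symm⟩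
  have hk1 : k ≤ 1 := by nlinarith [hκ.2]
  obtain ⟨D0, hD0⟩ : ∃ D0, D0 = K2 + (2 + L * r * K2) / c := ⟨_, rfl⟩
  have D0p : 0 < D0 := by rw [hD0]; positivity
  refine ⟨min (k / 2) (min (k / (20 * K2)) (ρ / (2 * D0))), by positivity,
    fun η hη N C δ hδ R hR => ?_⟩
  have η0 := hη.1
  have η1 : η ≤ k / 2 := hη.2.trans (min_le_left _ _)
  have η2 : K2 * η ≤ k / 20 := by
    have := hη.2.trans ((min_le_right _ _).trans (min_le_left _ _))
    rw [le_div_iff₀ (by positivity)] at this; linarith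
  have η3 : D0 * η < ρ := by
    have := hη.2.trans ((min_le_right _ _).trans (min_le_right _ _))
    rw [le_div_iff₀ (by positivity)] at this; linarith
  have η4 : K2 * η ≤ ρ := by
    have : 0 ≤ (2 + L * r * K2) / c * η := by positivity
    rw [hD0] at η3; linarith
  obtain ⟨θ, θ0, θ1, θ2⟩ : ∃ θ > 0, 12 * θ ≤ η ∧ θ * |C| ≤ δ / 2 := by
    refine ⟨min (η / 12) (δ / (2 * (|C| + 1))), by positivity, by linarith [min_le_left (η / 12) (δ / (2 * (|C| + 1)))], ?_⟩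
    have := min_le_right (η / 12) (δ / (2 * (|C| + 1)))
    rw [le_div_iff₀ (by positivity)] at this
    have : 0 < min (η / 12) (δ / (2 * (|C| + 1))) := by positivity
    linarith
  have hLr : 0 ≤ L * r := by positivity
  obtain ⟨K', hK', HW⟩ := win1 hW hc (K := 3 + L * r + 4 / η ^ 2)
    (by have : 0 ≤ 4 / η ^ 2 := by positivity
        linarith)
  obtain ⟨B, hB⟩ : ∃ B, B = 2 * (6 + L * r) ^ 2 + 2 * (L ^ 2 * r) := ⟨_, rfl⟩
  have B0 : 0 ≤ B := by rw [hB]; positivity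
  obtain ⟨A, A1, A2, A3⟩ : ∃ A, 2 + 2 * B / c ^ 2 ≤ A ∧ B / c ≤ A ∧ 8 + 2 * R ≤ A := by
    have p1 : 0 ≤ 2 * B / c ^ 2 := by positivity
    have p2 : 0 ≤ B / c := by positivity
    exact ⟨2 + 2 * B / c ^ 2 + B / c + (8 + 2 * R), by linarith, by linarith, by linarith⟩
  have A0 : 1 ≤ A := by linarith
  obtain ⟨C4, hC4⟩ : ∃ C4, C4 = L * r / 2 + (6 + 2 * R + 2 * (L * r)) / ρ ^ 2 := ⟨_, rfl⟩
  have C40 : 0 ≤ C4 := by rw [hC4]; positivity
  obtain ⟨K1, hK1⟩ : ∃ K1, K1 = (7 + L * r) ^ 2 * K' := ⟨_, rfl⟩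
  have K10 : 0 ≤ K1 := by rw [hK1]; positivity
  obtain ⟨A', hA'⟩ : ∃ A', A' = A * (1 / θ ^ 2 + 1) := ⟨_, rfl⟩
  have A'1 : 1 ≤ A' := by
    have : 0 ≤ A * (1 / θ ^ 2) := by positivity
    rw [hA']; linarith
  obtain ⟨K0, hK0⟩ : ∃ K0, K0 = (K' + 1 + C4 * K1 + K1) * A' := ⟨_, rfl⟩
  have K00 : 0 ≤ K0 := by rw [hK0]; positivity
  obtain ⟨K3, hK3⟩ : ∃ K3, K3 = 4 * (9 + 2 * R) / θ ^ 2 := ⟨_, rfl⟩
  have K30 : 0 ≤ K3 := by rw [hK3]; positivity
  refine ⟨min 1 (η ^ 2 / 200), ⟨by positivity, min_le_left _ _⟩, K0 + 1 + K3, by linarith,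
    fun σ hσ => ?_⟩
  obtain ⟨δ', δ0, δ1, δ2⟩ : ∃ δ' > 0, 4 * N * C ^ 2 / δ ^ 2 * δ' ≤ 1 / 4 ∧
      A * ((4 * N * C ^ 2 / δ ^ 2 + r) * δ') ≤ σ / 4 := by
    obtain ⟨G, hG⟩ : ∃ G, G = 4 * N * C ^ 2 / δ ^ 2 := ⟨_, rfl⟩
    have G0 : 0 ≤ G := by rw [hG]; positivity
    rw [← hG]
    have a1 := min_le_left (1 / (4 * (G + 1))) (σ / (4 * (A * (G + r + 1))))
    have a2 := min_le_right (1 / (4 * (G + 1))) (σ / (4 * (A * (G + r + 1))))
    have a0 : 0 < min (1 / (4 * (G + 1))) (σ / (4 * (A * (G + r + 1)))) := by positivity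
    rw [le_div_iff₀ (by positivity)] at a1 a2
    have a3 := mul_nonneg (zero_le_one.trans A0) a0.le
    exact ⟨_, a0, by linarith only [a1, a0], by linarith only [a2, a3]⟩
  obtain ⟨ε1, ε0, ε11, ε12⟩ : ∃ ε1 > 0, ε1 ≤ 1 ∧ ε1 ≤ σ / 4 :=
    ⟨min 1 (σ / 4), by positivity, min_le_left _ _, min_le_right _ _⟩
  refine ⟨ε1, ε0, δ', δ0, ?_⟩
  filter_upwards [eventually_gt_atTop 0,
    tendsto_natCast_atTop_atTop.eventually_ge_atTop ((6 + 2 * R + 8 / σ) / (σ / 4))]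
    with n hn hn2 J b hJs hJ hb hU hF hKs v hv y hy hty hfr h hh
  have hn' : (0 : ℝ) < n := by positivity
  have hs : 0 < Real.sqrt n := Real.sqrt_pos.2 hn'
  have ss := sq_sqrt_n (n := n)
  rw [div_le_iff₀ (by positivity)] at hn2
  have p8 : 0 < 8 / σ := by positivity
  have hh1 : h ∈ Icc (0 : ℝ) 1 := ⟨hh.1, hh.2.trans (min_le_left _ _)⟩
  have hh2 : h ≤ η ^ 2 / 200 := hh.2.trans (min_le_right _ _)
  have hv' := hv.tilt y
  have mD := mg_shift (mg_Dv J b hv) y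
  have eD : ∀ z, Dv J b v (y + z) = dfc J b (y + z) (mag (tilt (tilt v y) z)) ^ 2 := fun z => by
    rw [G1.tilt_tilt, Dv]
  obtain ⟨d1, hd1⟩ : ∃ d1, d1 = slE sv (tilt v y) h fun _ z => Dv J b v (y + z) := ⟨_, rfl⟩
  have d0 : 0 ≤ d1 := hd1 ▸ SL.slE_nonneg hv' fun _ _ => Dv_nonneg _ _ _ _
  have σn : 0 ≤ σ * n := by positivity
  rw [← hd1]
  by_cases htr : θ ^ 2 * n / 4 ≤ d1
  · have a1 : (9 + 2 * R) * n ≤ K3 * d1 := by
      refine le_trans (le_of_eq ?_) (mul_le_mul_of_nonneg_left htr K30)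
      rw [hK3]; field_simp
    have a2 : K3 * d1 ≤ (K0 + 1 + K3) * (d1 + σ * n) :=
      mul_le_mul (by linarith) (by linarith) d0 (by linarith)
    exact ⟨by linarith only [Dv_le J b hv y, a1, a2, hn', mul_pos hR hn'],
      by linarith only [slE_Xi_crude hJ hb hv hh1 hy, a1, a2]⟩
  have hm0 := cb_mag hv'
  obtain ⟨rr, hrr, hK⟩ := hKs y _ hy hm0
  have hty' : k * Real.sqrt n ≤ nrm (th y) := by
    refine abs_le_of_sq_le_sq' ?_ (nrm_nonneg _) |>.2
    rw [nrm_sq, mul_pow, Real.sq_sqrt hn'.le]; exact hty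
  have hfr' : frob (tilt v y) ≤ (δ' * n) ^ 2 := by rwa [mul_pow]
  have eR : slE sv (tilt v y) h (fun _ z => Sq (tilt v y) rr z) ≤ N * (δ' * n * (C ^ 2 * n)) :=
    slE_Sq hv' hh.1 (by positivity) hfr' fun j => by
      have := pow_le_pow_left₀ (nrm_nonneg _) (hrr j) 2
      rwa [nrm_sq, mul_pow, Real.sq_sqrt hn'.le] at this
  have eR' : 4 / (δ ^ 2 * n) * slE sv (tilt v y) h (fun _ z => Sq (tilt v y) rr z) ≤
      4 * N * C ^ 2 / δ ^ 2 * δ' * n := by
    refine (mul_le_mul_of_nonneg_left eR (by positivity)).trans (le_of_eq ?_)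
    field_simp
  have eN := slE_normsq_le hv' hh1
  have hch := fun z hz => @child n J b hn hJ hb k η θ K2 C δ N hk.le η1 θ1 θ0.le θ2 y _ hty' rr hrr hK
    z _ hz (cb_mag (hv'.tilt z))
  -- a good child
  obtain ⟨z0, hz0⟩ := exists_lt hv' (s := h) (c := n)
    (((mg_dot.const_mul (4 / η ^ 2)).add (mD.const_mul (1 / θ ^ 2))).add
      ((mg_Sq hv' rr).const_mul (4 / (δ ^ 2 * n)))) (by
      rw [slE_lin3 mg_dot mD (mg_Sq hv' rr), ← hd1]
      have a1 : 4 / η ^ 2 * (2 * (η ^ 2 / 200) * n) = n / 25 := by field_simp; norm_num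
      have a2 := mul_le_mul_of_nonneg_left (eN.trans (mul_le_mul_of_nonneg_right
        (mul_le_mul_of_nonneg_left hh2 zero_le_two) hn'.le)) (show 0 ≤ 4 / η ^ 2 by positivity)
      have a3 := mul_le_mul_of_nonneg_left (not_le.1 htr).le (show 0 ≤ 1 / θ ^ 2 by positivity)
      have a4 : 1 / θ ^ 2 * (θ ^ 2 * n / 4) = n / 4 := by field_simp
      have a5 := mul_le_mul_of_nonneg_right δ1 hn'.le
      linarith)
  have q1 : 0 ≤ 4 / η ^ 2 * (z0 ⬝ᵥ z0) := mul_nonneg (by positivity) (dot_self_nonneg _)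
  have q2 : 0 ≤ 1 / θ ^ 2 * Dv J b v (y + z0) := mul_nonneg (by positivity) (Dv_nonneg _ _ _ _)
  have q3 : 0 ≤ 4 / (δ ^ 2 * n) * Sq (tilt v y) rr z0 := mul_nonneg (by positivity) (Sq_nonneg _ _)
  have z0n : nrm z0 ≤ η * Real.sqrt n / 2 := by
    rw [nrm_le_iff (by positivity), div_pow, mul_pow, Real.sq_sqrt hn'.le]
    have : 4 / η ^ 2 * (z0 ⬝ᵥ z0) ≤ n := by linarith
    rw [div_mul_eq_mul_div, div_le_iff₀ (by positivity)] at this
    linarith
  obtain ⟨g1, g2⟩ := (good_or (v := tilt v y) hn θ0 hδ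
    (dfc_nonneg J b (y + z0) (mag (tilt (tilt v y) z0))) rr z0).resolve_right (by
      rw [← eD]; linarith)
  obtain ⟨c1, c2, c3⟩ := hch z0 z0n g1 g2
  generalize cav J b (y + z0) (mag (tilt (tilt v y) z0)) = xs at c1 c2 c3
  clear hz0 q1 q2 q3 z0n g1 g2
  -- the penalised good ball
  obtain ⟨E, hP, hG⟩ := hU _ hm0 (by
    have b1 := nrm_add_le (th xs - mag (tilt v y)) (mag (tilt v y))
    rw [sub_add_cancel] at b1
    have b2 : k * Real.sqrt n / 20 ≤ nrm (mag (tilt v y)) := by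
      linarith only [mul_le_mul_of_nonneg_right η2 hs.le, b1, c2, c3]
    have := pow_le_pow_left₀ (by positivity) b2 2
    rw [nrm_sq, div_pow, mul_pow, Real.sq_sqrt hn'.le] at this
    rw [avg_DD_eq hn, sub_le_sub_iff_left, le_div_iff₀ hn']
    linarith)
  have hex : ∀ z : V n, nrm z ≤ 2 * (η * Real.sqrt n / 2) → ∃ x,
      nrm (th x - mag (tilt v y)) < ρ * Real.sqrt n ∧ YE J b E (mag (tilt v y)) x = y + z := by
    intro z hz
    obtain ⟨x, h1, h2⟩ := (hX n J E b c _ _ hJs (pen_symm hP) hc hG).2 xs (y + z) (by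
      have e : y + z - YE J b E (mag (tilt v y)) xs =
          z - ((Ymap J b xs - y) + E *ᵥ (th xs - mag (tilt v y))) := by rw [YE]; abel
      have b1 := pen_nrm hL hP (th xs - mag (tilt v y))
      have b2 := mul_le_mul_of_nonneg_left c3.le hLr
      have b3 : nrm (y + z - YE J b E (mag (tilt v y)) xs) / c ≤
          (2 + L * r * K2) * (η * Real.sqrt n) / c := by
        refine div_le_div_of_nonneg_right ?_ hc.le
        rw [e]
        linarith [nrm_sub_le z ((Ymap J b xs - y) + E *ᵥ (th xs - mag (tilt v y))),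
          nrm_add_le (Ymap J b xs - y) (E *ᵥ (th xs - mag (tilt v y)))]
      have b4 := mul_lt_mul_of_pos_right η3 hs
      rw [hD0] at b4
      rw [mul_div_right_comm] at b3
      linarith)
    exact ⟨x, h2, h1⟩
  obtain ⟨x0, hx0, hy0⟩ := hex 0 (by rw [nrm_zero]; positivity)
  rw [add_zero] at hy0
  obtain ⟨u, hu, hE⟩ := id hP
  have eU : slE sv (tilt v y) h (fun _ z => Sq (tilt v y) u z) ≤ r * (δ' * n * 1) :=
    slE_Sq hv' hh.1 (by positivity) hfr' hu
  obtain ⟨ψ, hψ⟩ : ∃ ψ : V n → ℝ, ψ = fun z => A' * Dv J b v (y + z) +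
    A * (4 / (δ ^ 2 * n)) * Sq (tilt v y) rr z + A * Sq (tilt v y) u z := ⟨_, rfl⟩
  have mψ : SL.MG ψ := hψ ▸ ((mD.const_mul _).add ((mg_Sq hv' rr).const_mul _)).add
    ((mg_Sq hv' u).const_mul _)
  have ψ0 : ∀ z, 0 ≤ ψ z := fun z => by
    have := Dv_nonneg J b v (y + z)
    have := Sq_nonneg (v := tilt v y) rr z
    have := Sq_nonneg (v := tilt v y) u z
    rw [hψ]; positivity
  have eψ : slE sv (tilt v y) h (fun _ z => ψ z) ≤ A' * d1 + σ * n / 4 := by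
    simp only [hψ]
    rw [slE_lin3 mD (mg_Sq hv' rr) (mg_Sq hv' u), ← hd1, mul_assoc A]
    have a1 := mul_le_mul_of_nonneg_left (add_le_add eR' eU) (zero_le_one.trans A0)
    have a2 := mul_le_mul_of_nonneg_right δ2 hn'.le
    linarith
  have hend : ∀ z : V n, nrm z ≤ η * Real.sqrt n / 2 → ∀ x, nrm (th x - mag (tilt v y)) < ρ * Real.sqrt n →
      YE J b E (mag (tilt v y)) x = y + z → nrm (mag (tilt (tilt v y) z) - th x) ^ 2 ≤ ψ z ∧
        PhiE J b E (mag (tilt v y)) (y + z) x ≤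
          Phi J b (y + z) (cav J b (y + z) (mag (tilt (tilt v y) z))) + ψ z := by
    intro z hz x hx hyx
    have s1 := Sq_nonneg (v := tilt v y) rr z
    have s2 := Sq_nonneg (v := tilt v y) u z
    have e : ψ z = A * (1 / θ ^ 2 * dfc J b (y + z) (mag (tilt (tilt v y) z)) ^ 2 +
        4 / (δ ^ 2 * n) * Sq (tilt v y) rr z) +
        A * (dfc J b (y + z) (mag (tilt (tilt v y) z)) ^ 2 + Sq (tilt v y) u z) := by
      simp only [hψ, hA', eD]; ring
    have p1 : 0 ≤ A * (1 / θ ^ 2 * dfc J b (y + z) (mag (tilt (tilt v y) z)) ^ 2 +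
        4 / (δ ^ 2 * n) * Sq (tilt v y) rr z) := by positivity
    have p2 : 0 ≤ dfc J b (y + z) (mag (tilt (tilt v y) z)) ^ 2 + Sq (tilt v y) u z := by positivity
    rcases good_or (v := tilt v y) hn θ0 hδ
      (dfc_nonneg J b (y + z) (mag (tilt (tilt v y) z))) rr z with ⟨g1, g2⟩ | g
    · have b0 := ((hch z hz g1 g2).2.2.trans_le (mul_le_mul_of_nonneg_right η4 hs.le)).le
      obtain ⟨b1, b2⟩ := compare hX hJs hJ hb hL hc hu hE hG (cb_mag (hv'.tilt z)) hx.le hyx b0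
      rw [← hB] at b1 b2
      have b3 := mul_le_mul_of_nonneg_right A1 p2
      have b4 := mul_le_mul_of_nonneg_right A2 p2
      simp only [Sq] at e p1 p2 b3 b4
      constructor <;> linarith
    · have b1 := pow_le_pow_left₀ (nrm_nonneg _) (nrm_sub_cb (cb_mag (hv'.tilt z)) (cb_th x)) 2
      rw [mul_pow, Real.sq_sqrt hn'.le] at b1
      have b2 := (mul_le_mul_of_nonneg_right A3 hn'.le).trans
        (mul_le_mul_of_nonneg_left g (zero_le_one.trans A0))
      have b3 := mul_nonneg (zero_le_one.trans A0) p2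
      have b4 := (abs_le.1 (abs_Phi_le hJ hb (y + z) x)).2
      have b5 := (abs_le.1 (abs_Phi_le hJ hb (y + z) (cav J b (y + z) (mag (tilt (tilt v y) z))))).1
      have b6 := (pen_quad hL hP (th x - mag (tilt v y))).1
      have b7 : nrm (y + z) * Real.sqrt n ≤ (R + 1) * n := by
        have : nrm (y + z) ≤ (R + 1) * Real.sqrt n := by
          linarith only [nrm_add_le y z, hy, hz, hs,
            mul_le_mul_of_nonneg_right (η1.trans (by linarith only [hk1] : k / 2 ≤ 1)) hs.le]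
        refine (mul_le_mul_of_nonneg_right this hs.le).trans_eq ?_
        rw [mul_assoc, ss]
      have b8 := mul_nonneg hR.le hn'.le
      rw [PhiE]
      constructor <;> linarith
  have hRw : (η * Real.sqrt n / 2) ^ 2 = η ^ 2 * n / 4 := by
    rw [div_pow, mul_pow, Real.sq_sqrt hn'.le]; norm_num
  obtain ⟨w1, w2⟩ := HW n J E b h (ρ * Real.sqrt n) (η * Real.sqrt n / 2) (Real.exp (-(2 * n)))
    (ε1 * Real.sqrt n) y _ (tilt v y) ψ hn hJs (by have : 0 ≤ 4 / η ^ 2 := by positivity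
                                                   linarith) (pen_symm hP)
    (by have : 0 ≤ 4 / η ^ 2 := by positivity
        linarith [pen_opn hL hP]) hb hh1 (by positivity)
    (by have a : 4 / η ^ 2 * (η ^ 2 * n / 4) = n := by field_simp
        have : 0 ≤ (3 + L * r) * (η ^ 2 * n / 4) := by positivity
        rw [hRw]; linarith)
    (by have : 0 ≤ (L * r + 4 / η ^ 2) * n := by positivity
        have : η ^ 2 * n ≤ 1 * n := mul_le_mul_of_nonneg_right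
          (pow_le_one₀ η0.le (by linarith only [η1, hk1])) hn'.le
        rw [hRw]; linarith)
    hm0 hv' (by positivity) hG hex (fun p hp hr => (hF p E hp (hG p hp hr).2 hP (hG p hp hr).1).1) mψ ψ0
    (fun z hz x hx hyx => (hend z hz x hx hyx).1)
    (fun t ht => exit_le hv' ⟨ht.1, ht.2.trans hh1.2⟩ (by
      have := mul_le_mul_of_nonneg_right (ht.2.trans hh2) hn'.le
      have : 0 < η ^ 2 * n := by positivity
      rw [hRw]; linarith)) x0 hx0 hy0
  obtain ⟨P, hPd⟩ : ∃ P, P = slE sv (tilt v y) h (fun _ z => ψ z) + (ε1 * Real.sqrt n) ^ 2 + 1 +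
    n * Real.exp (-(2 * n)) := ⟨_, rfl⟩
  rw [← hPd] at w1 w2
  have e2 := mul_exp_le n
  have e3 : 0 ≤ n * Real.exp (-(2 * n)) := by positivity
  have e4 : (ε1 * Real.sqrt n) ^ 2 ≤ σ * n / 4 := by
    rw [mul_pow, Real.sq_sqrt hn'.le]
    have : ε1 ^ 2 * n ≤ σ / 4 * n :=
      mul_le_mul_of_nonneg_right (by nlinarith only [ε0, ε11, ε12]) hn'.le
    linarith
  have P1 : P ≤ A' * (d1 + σ * n) := by
    have := mul_le_mul_of_nonneg_right A'1 σn
    rw [hPd]; linarith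
  have P2 : slE sv (tilt v y) h (fun _ z => ψ z) ≤ P := by
    rw [hPd]; linarith [sq_nonneg (ε1 * Real.sqrt n)]
  have P0 : 0 ≤ P := (SL.slE_nonneg hv' fun _ z => ψ0 z).trans P2
  have D1 : Dv J b v y ≤ K1 * P := by
    have := pow_le_pow_left₀ (dfc_nonneg _ _ _ _) (dfc_le_branch hJ hb hL hP hm0 hy0) 2
    rw [mul_pow] at this
    rw [hK1, mul_assoc]
    exact this.trans (mul_le_mul_of_nonneg_left w1 (sq_nonneg _))
  have hpar := parent hX hJs hJ hb hL hc hρ hR.le hP hG hm0 hx0.le hy0 hy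
  rw [← hC4, ← Dv] at hpar
  have mX := mg_shift (mg_Xi hJ hb hv) y
  have w3 := w2 (ε1 * n / 2) ((6 + 2 * R + 8 / σ) * n)
    (fun z => 1 * Xi J b v (y + z) + (-1) * ψ z + (-(σ / 8)) * (z ⬝ᵥ z) + -(Xi J b v y + C4 * Dv J b v y))
    (by positivity) (by positivity)
    (fun p hp hr => by linarith [(hF p E hp (hG p hp hr).2 hP (hG p hp hr).1).2])
    ((((mX.const_mul _).add (mψ.const_mul _)).add (mg_dot.const_mul _)).add (SL.MG.const _))
    (fun z => by
      have a := Xi_sub_le hJ hb hv y z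
      have a2 := mul_le_mul_of_nonneg_right hy hs.le
      rw [mul_assoc, ss] at a2
      have a3 : 2 * nrm z * Real.sqrt n ≤ σ / 8 * (z ⬝ᵥ z) + 8 / σ * n := by
        have e : σ / 8 * (nrm z - 8 / σ * Real.sqrt n) ^ 2 =
            σ / 8 * nrm z ^ 2 - 2 * nrm z * Real.sqrt n + 8 / σ * (Real.sqrt n * Real.sqrt n) := by
          field_simp; ring
        have : 0 ≤ σ / 8 * (nrm z - 8 / σ * Real.sqrt n) ^ 2 := by positivity
        rw [e, ss, nrm_sq] at this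
        linarith
      have a4 := mul_nonneg C40 (Dv_nonneg J b v y)
      linarith [ψ0 z])
    (fun z hz x hx hyx => by
      have a1 := (hend z hz x hx hyx).2
      have a2 : 0 ≤ σ / 8 * (z ⬝ᵥ z) := mul_nonneg (by positivity) (dot_self_nonneg z)
      rw [G1.tilt_tilt] at a1 ⊢
      simp only [Xi]
      linarith)
  rw [SL.slE_add (.of_mg fun _ => ((mX.const_mul _).add (mψ.const_mul _)).add (mg_dot.const_mul _))
    (.of_mg fun _ => SL.MG.const _), slE_lin3 mX mψ mg_dot, slE_const hv'] at w3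
  have f1 : σ / 8 * slE sv (tilt v y) h (fun _ z => z ⬝ᵥ z) ≤ σ / 8 * (2 * n) :=
    mul_le_mul_of_nonneg_left (eN.trans (by nlinarith only [hh1.2, hn'])) (by positivity)
  have f2 : (6 + 2 * R + 8 / σ) * (n * Real.exp (-(2 * n))) ≤ 6 + 2 * R + 8 / σ :=
    mul_le_of_le_one_right (by positivity) e2
  have f3 := mul_le_mul_of_nonneg_right ε12 hn'.le
  have f4 := mul_le_mul_of_nonneg_left D1 C40
  have f5 : (K' + 1 + C4 * K1 + K1) * P ≤ K0 * (d1 + σ * n) := by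
    rw [hK0, mul_assoc]; exact mul_le_mul_of_nonneg_left P1 (by positivity)
  have f6 := mul_nonneg K30 (add_nonneg d0 σn)
  have f7 := mul_nonneg hK'.le P0
  have f8 := mul_nonneg K10 P0
  have f9 := mul_nonneg C40 f8
  constructor <;> linarith

end Crest.Agent.T157.Lp.G3
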