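import Crest.Agent.T157.LpKs_17
import Crest.Agent.T157.TapSE_6

/-!
# Row 157, part A: first-moment bound for tuples of smeared children (helper99)
-/

set_option autoImplicit false

noncomputable section

namespace Crest.Agent.T157.Lp.K99

open MeasureTheory ProbabilityTheory Matrix Filter Set
open Crest.Agent.T157.E Crest.Agent.T157.Eig Crest.Agent.T157.Cond Crest.Agent.T157.Tap
open Crest.Agent.T157.Kr (phi phiS phi_nonneg phiS_nonneg)
open scoped ENNReal

variable {n : ℕ}

theorem lint_pi_prod {X : Type*} [MeasurableSpace X] (μ : Measure X) [SigmaFinite μ] {k : ℕ}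
    (f : Fin k → X → ℝ≥0∞) (hf : ∀ i, Measurable (f i)) :
    ∫⁻ x, ∏ j, f j (x j) ∂(Measure.pi fun _ : Fin k => μ) = ∏ j, ∫⁻ t, f j t ∂μ := by
  induction k with
  | zero =>
    simp [Measure.pi_of_empty (fun _ : Fin 0 => μ) Fin.elim0]
  | succ k ih =>
    have hmp := (measurePreserving_piFinSuccAbove (fun _ : Fin (k + 1) => μ) 0).symm
    have hF : Measurable fun x : Fin (k + 1) → X => ∏ j, f j (x j) :=
      Finset.measurable_prod _ fun i _ => (hf i).comp (measurable_pi_apply i)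
    have h1 := hmp.lintegral_comp hF
    rw [← h1]
    have h2 : ∀ p : X × (Fin k → X),
        (∏ j, f j ((MeasurableEquiv.piFinSuccAbove (fun _ : Fin (k + 1) => X) 0).symm p j))
          = f 0 p.1 * ∏ j : Fin k, f j.succ (p.2 j) := by
      intro p
      rw [Fin.prod_univ_succ]
      simp [MeasurableEquiv.piFinSuccAbove, Fin.insertNthEquiv]
    simp_rw [h2]
    have h3 : Measurable fun y : Fin k → X => ∏ j : Fin k, f j.succ (y j) :=
      Finset.measurable_prod _ fun (i : Fin k) _ => (hf i.succ).comp (measurable_pi_apply i)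
    have h4 := ih (fun i : Fin k => f i.succ) fun i : Fin k => hf i.succ
    rw [lintegral_prod_mul (hf 0).aemeasurable h3.aemeasurable, Fin.prod_univ_succ]
    congr 1

lemma cb_th (x : V n) : Cb (th x) := fun i => SE.abs_tanh_le _

lemma dot_le_of_abs {v : V n} {a : ℝ} (h : ∀ i, |v i| ≤ a) : v ⬝ᵥ v ≤ a ^ 2 * n := by
  have : ∀ i, v i * v i ≤ a ^ 2 := fun i => by
    have := h i
    have h0 := abs_nonneg (v i)
    nlinarith [abs_mul_abs_self (v i)]
  calc v ⬝ᵥ v ≤ ∑ _i : Fin n, a ^ 2 := Finset.sum_le_sum fun i _ => this i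
    _ = a ^ 2 * n := by simp [mul_comm]

lemma nrm_le_of_abs {v : V n} {a : ℝ} (ha : 0 ≤ a) (h : ∀ i, |v i| ≤ a) :
    nrm v ≤ a * Real.sqrt n := by
  rw [nrm_le_iff (by positivity), mul_pow, Real.sq_sqrt (Nat.cast_nonneg n)]
  exact dot_le_of_abs h

lemma abs_sub_cb {p q : V n} (hp : Cb p) (hq : Cb q) (i : Fin n) : |(p - q) i| ≤ 2 := by
  have := abs_sub (p i) (q i)
  have := hp i
  have := hq i
  simp only [Pi.sub_apply]
  linarith

lemma dot_sub_cb {p q : V n} (hp : Cb p) (hq : Cb q) : (p - q) ⬝ᵥ (p - q) ≤ 4 * n := by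
  have := dot_le_of_abs (abs_sub_cb hp hq)
  linarith

lemma nrm_sub_cb {p q : V n} (hp : Cb p) (hq : Cb q) : nrm (p - q) ≤ 2 * Real.sqrt n :=
  nrm_le_of_abs (by norm_num) (abs_sub_cb hp hq)

lemma int_abs_le : ∫ z, |z| ∂(gaussianReal 0 1) ≤ 1 := by
  have h2 : Integrable (fun z : ℝ => z ^ 2) (gaussianReal 0 1) :=
    (memLp_id_gaussianReal (μ := 0) (v := 1) 2).integrable_sq
  have h1 : Integrable (fun z : ℝ => |z|) (gaussianReal 0 1) :=
    ((memLp_id_gaussianReal (μ := 0) (v := 1) 1).integrable le_rfl).abs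
  have hv : ∫ z, z ^ 2 ∂(gaussianReal 0 1) = 1 := by
    have h := variance_id_gaussianReal (μ := 0) (v := 1)
    rw [variance_eq_integral aemeasurable_id] at h
    simpa using h
  have : ∫ z, |z| ∂(gaussianReal 0 1) ≤ ∫ z, (1 / 2 + 1 / 2 * z ^ 2) ∂(gaussianReal 0 1) :=
    integral_mono h1 ((integrable_const _).add (h2.const_mul _)) fun z => by
      simp only
      nlinarith [sq_nonneg (|z| - 1), sq_abs z]
  rw [integral_add (integrable_const _) (h2.const_mul _), integral_const_mul, hv] at this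
  simp only [integral_const, probReal_univ, smul_eq_mul] at this
  linarith

lemma gE_tanh_lip (m m' v v' : ℝ) :
    |gE Real.tanh m v - gE Real.tanh m' v'| ≤ |m - m'| + |Real.sqrt v - Real.sqrt v'| := by
  have i1 := SE.integrable_gE SE.measurable_tanh SE.abs_tanh_le m (Real.sqrt v)
  have i2 := SE.integrable_gE SE.measurable_tanh SE.abs_tanh_le m' (Real.sqrt v')
  have h1 : Integrable (fun z : ℝ => |z|) (gaussianReal 0 1) :=
    ((memLp_id_gaussianReal (μ := 0) (v := 1) 1).integrable le_rfl).abs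
  unfold gE
  rw [← integral_sub i1 i2]
  refine (abs_integral_le_integral_abs).trans ?_
  calc ∫ z, |Real.tanh (m + Real.sqrt v * z) - Real.tanh (m' + Real.sqrt v' * z)| ∂gaussianReal 0 1
      ≤ ∫ z, (|m - m'| + |Real.sqrt v - Real.sqrt v'| * |z|) ∂gaussianReal 0 1 := by
        refine integral_mono (i1.sub i2).abs ((integrable_const _).add (h1.const_mul _)) fun z => ?_
        refine (SE.abs_tanh_sub_le _ _).trans ?_
        have : m + Real.sqrt v * z - (m' + Real.sqrt v' * z) =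
            (m - m') + (Real.sqrt v - Real.sqrt v') * z := by ring
        rw [this, ← abs_mul]
        exact abs_add_le _ _
    _ = |m - m'| + |Real.sqrt v - Real.sqrt v'| * ∫ z, |z| ∂gaussianReal 0 1 := by
        rw [integral_add (integrable_const _) (h1.const_mul _), integral_const_mul]
        simp
    _ ≤ _ := by
        have := mul_le_mul_of_nonneg_left int_abs_le (abs_nonneg (Real.sqrt v - Real.sqrt v'))
        linarith

lemma gE_tanh_zero (v : ℝ) : gE Real.tanh 0 v = 0 := by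
  have h : ∫ z, Real.tanh (0 + Real.sqrt v * -z) ∂(gaussianReal 0 1) =
      ∫ z, Real.tanh (0 + Real.sqrt v * z) ∂(gaussianReal 0 1) := by
    have hm : (gaussianReal 0 1).map (fun z : ℝ => -z) = gaussianReal 0 1 := by
      rw [gaussianReal_map_neg, neg_zero]
    have hc : Continuous fun z : ℝ => Real.tanh (0 + Real.sqrt v * z) :=
      SE.continuous_tanh.comp (by fun_prop)
    conv_rhs => rw [← hm]
    rw [integral_map measurable_neg.aemeasurable hc.aestronglyMeasurable]
  unfold gE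
  have e : ∀ z : ℝ, Real.tanh (0 + Real.sqrt v * -z) = -Real.tanh (0 + Real.sqrt v * z) := by
    intro z
    rw [zero_add, zero_add, mul_neg, Real.tanh_neg]
  simp_rw [e, integral_neg] at h
  linarith

/-! ### continuity and measurability -/

lemma cont_th : Continuous (th : V n → V n) :=
  continuous_pi fun i => SE.continuous_tanh.comp (continuous_apply i)

lemma cont_e : Continuous fun x : V n => avg (DD (th x)) := by
  unfold avg DD
  have := cont_th (n := n)
  fun_prop

lemma cont_Xc (b : ℝ) (c : V n) : Continuous (Xc b c) := by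
  unfold Xc
  have := cont_th (n := n)
  have := cont_e (n := n)
  fun_prop

lemma cont_gam (b τ : ℝ) (p0 : V n) : Continuous (gam b τ p0) := by
  unfold gam
  have := cont_th (n := n)
  fun_prop

lemma cont_rv (b τ : ℝ) (c p0 : V n) :
    Continuous fun x : V n => rv b (avg (DD (th x))) (gam b τ p0 x) c p0 := by
  refine continuous_pi fun i => ?_
  unfold rv
  have h1 := cont_e (n := n)
  refine (SE.continuous_gE SE.continuous_tanh SE.abs_tanh_le ?_ (cont_gam b τ p0)).sub
    continuous_const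
  fun_prop

lemma cont_jac (b : ℝ) : Continuous (jac b : V n → ℝ) := by
  unfold jac
  have := cont_e (n := n)
  fun_prop

lemma jac_nonneg (b : ℝ) (x : V n) : 0 ≤ jac b x := (Real.exp_pos _).le

lemma meas_Child (b τ A k1 K3 t : ℝ) (c p0 : V n) :
    MeasurableSet {x | Child b τ A k1 K3 t c p0 x} := by
  have h1 := cont_th (n := n)
  have h2 := cont_e (n := n)
  have h3 := cont_Xc b c
  have h4 := cont_gam b τ p0
  have h5 := cont_rv b τ c p0
  refine IsClosed.measurableSet ?_
  simp only [Child, setOf_and]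
  refine (isClosed_le h2 continuous_const).inter ((isClosed_le continuous_const ?_).inter
    ((isClosed_le ?_ ?_).inter (isClosed_le ?_ ?_))) <;> fun_prop

lemma meas_Tup (k : ℕ) (b τ A k1 K3 t t' : ℝ) (c p0 : V n) :
    MeasurableSet (Tup k b τ A k1 K3 t t' c p0) := by
  have h1 := cont_th (n := n)
  have h3 := cont_Xc b c
  have h4 := cont_gam b τ p0
  have e : Tup k b τ A k1 K3 t t' c p0 =
      (⋂ a, (fun x : Fin k → V n => x a) ⁻¹' {x | Child b τ A k1 K3 t c p0 x}) ∩
      ⋂ a, ⋂ a', ⋂ _ : a < a', {x : Fin k → V n | Orth b τ t' c p0 (x a) (x a')} := by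
    ext x
    simp [Tup]
  rw [e]
  refine (MeasurableSet.iInter fun a => measurable_pi_apply a (meas_Child _ _ _ _ _ _ _ _)).inter
    (MeasurableSet.iInter fun a => MeasurableSet.iInter fun a' => MeasurableSet.iInter fun _ => ?_)
  refine IsClosed.measurableSet ?_
  simp only [Orth, setOf_and]
  refine (isClosed_le ?_ ?_).inter (isClosed_le ?_ ?_) <;> fun_prop

/-- the smeared counting functional -/
def Fq (k : ℕ) (β τ A k1 K3 t t' : ℝ) (c p0 : V n) (W : Mx n) : ℝ≥0∞ :=
  ∫⁻ x' in Tup k (β ^ 2) τ A k1 K3 t t' c p0, ∏ a, ENNReal.ofReal (jac (β ^ 2) (x' a) *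
    phi τ (Xc (β ^ 2) c (x' a) - (β • W) *ᵥ (th (x' a) - p0)))

lemma meas_integrand (k : ℕ) (β τ : ℝ) (c p0 : V n) :
    Measurable fun z : Mx n × (Fin k → V n) => ∏ a, ENNReal.ofReal (jac (β ^ 2) (z.2 a) *
      phi τ (Xc (β ^ 2) c (z.2 a) - (β • z.1) *ᵥ (th (z.2 a) - p0))) := by
  have h1 := (cont_th (n := n)).measurable
  have h3 := (cont_Xc (β ^ 2) c).measurable
  have h4 := (cont_jac (n := n) (β ^ 2)).measurable
  refine Finset.measurable_prod _ fun a _ => ENNReal.measurable_ofReal.comp ?_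
  have ha : Measurable fun z : Mx n × (Fin k → V n) => z.2 a :=
    (measurable_pi_apply a).comp measurable_snd
  refine (h4.comp ha).mul (Measurable.t157_phi measurable_const ((h3.comp ha).sub ?_))
  have h5 : Measurable fun z : Mx n × (Fin k → V n) => th (z.2 a) - p0 :=
    (h1.comp ha).sub measurable_const
  have h6 : Measurable fun z : Mx n × (Fin k → V n) => β • z.1 := measurable_fst.const_smul β
  fun_prop

lemma meas_Fq (k : ℕ) (β τ A k1 K3 t t' : ℝ) (c p0 : V n) :
    Measurable (Fq k β τ A k1 K3 t t' c p0) :=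
  (meas_integrand k β τ c p0).lintegral_prod_right'

/-- one child -/
def gC (β τ : ℝ) (c p0 x : V n) : ℝ≥0∞ := ENNReal.ofReal (jac (β ^ 2) x *
  phiS τ (β * (1 / Real.sqrt n) * len (th x - p0)) (unitv (th x - p0)) (Xc (β ^ 2) c x))

lemma meas_gC (β τ : ℝ) (c p0 : V n) : Measurable (gC β τ c p0) := by
  have h1 := (cont_th (n := n)).measurable
  have h3 := (cont_Xc (β ^ 2) c).measurable
  have h4 := (cont_jac (n := n) (β ^ 2)).measurable
  have h5 : Measurable fun x : V n => th x - p0 := h1.sub measurable_const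
  have h6 : Measurable fun x : V n => β * (1 / Real.sqrt n) * len (th x - p0) := by
    unfold len; fun_prop
  have h7 : Measurable fun x : V n => unitv (th x - p0) := h5.t157_unitv
  refine ENNReal.measurable_ofReal.comp (h4.mul ?_)
  unfold phiS
  refine ((Measurable.t157_phi (by fun_prop) h3).mul (by fun_prop)).mul ?_
  fun_prop

/-- **first moment** -/
theorem first_moment {A Cm : ℝ} (hCm : 0 < Cm)
    (hM : ∀ (n k : ℕ) (β τ t : ℝ) (v X : Fin k → V n),
      0 < n → β ∈ Ioc (0 : ℝ) 1 → τ ∈ Ioc (0 : ℝ) 1 → 0 ≤ t → k * t ≤ 1 / 2 →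
      (∀ a, v a ⬝ᵥ v a ≤ 4 * n) →
      (∀ a, X a ⬝ᵥ X a ≤ A * (τ + β ^ 2 * (v a ⬝ᵥ v a / n)) * n) →
      (∀ a a', a < a' → |v a ⬝ᵥ v a'| ≤ t * Real.sqrt ((τ + β ^ 2 * (v a ⬝ᵥ v a / n)) *
          (τ + β ^ 2 * (v a' ⬝ᵥ v a' / n))) * n ∧
        |X a ⬝ᵥ v a'| ≤ t * Real.sqrt ((τ + β ^ 2 * (v a ⬝ᵥ v a / n)) *
          (τ + β ^ 2 * (v a' ⬝ᵥ v a' / n))) * n) → (∀ a, τ * n ≤ β ^ 2 * (v a ⬝ᵥ v a)) →
      ∫⁻ W, ∏ a, ENNReal.ofReal (phi τ (X a - β • W *ᵥ v a)) ∂(GOE n) ≤
        ENNReal.ofReal (Real.exp (Cm * k ^ 2 * t * n / β ^ 2) * (Cm / τ) ^ (k ^ 2) *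
          ∏ a, phiS τ (β * (1 / Real.sqrt n) * len (v a)) (unitv (v a)) (X a)))
    {k : ℕ} {β τ k1 K3 K3' t t' c0 : ℝ} (hn : 0 < n) (hβ : β ∈ Ioc (0 : ℝ) 1)
    (hτ : τ ∈ Ioc (0 : ℝ) 1) (ht' : 0 ≤ t') (hkt : k * t' ≤ 1 / 2) (hK : K3 ≤ K3')
    (hK' : 1 ≤ β ^ 2 * K3') {c p0 : V n} (hp0 : Cb p0)
    (hC : ∫⁻ x in {x | Child (β ^ 2) τ A k1 K3 t c p0 x}, gC β τ c p0 x ≤
      ENNReal.ofReal (Real.exp (-c0 * n))) :
    ∫⁻ W, Fq k β τ A k1 K3' t t' c p0 W ∂(GOE n) ≤
      ENNReal.ofReal (Real.exp (Cm * k ^ 2 * t' * n / β ^ 2) * (Cm / τ) ^ (k ^ 2) *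
        Real.exp (-c0 * n) ^ k) := by
  have hn' : (0 : ℝ) < n := Nat.cast_pos.2 hn
  set M : ℝ := Real.exp (Cm * k ^ 2 * t' * n / β ^ 2) * (Cm / τ) ^ (k ^ 2) with hMdef
  have hM0 : 0 ≤ M := by have := hτ.1; positivity
  set S : Set (V n) := {x | Child (β ^ 2) τ A k1 K3 t c p0 x} with hS
  have hSm : MeasurableSet S := meas_Child _ _ _ _ _ _ _ _
  unfold Fq
  rw [lintegral_lintegral_swap (meas_integrand k β τ c p0).aemeasurable]
  have hT := meas_Tup k (β ^ 2) τ A k1 K3' t t' c p0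
  calc ∫⁻ x' in Tup k (β ^ 2) τ A k1 K3' t t' c p0, ∫⁻ W, ∏ a, ENNReal.ofReal (jac (β ^ 2) (x' a) *
          phi τ (Xc (β ^ 2) c (x' a) - (β • W) *ᵥ (th (x' a) - p0))) ∂(GOE n)
      ≤ ∫⁻ x' in Tup k (β ^ 2) τ A k1 K3' t t' c p0,
          ENNReal.ofReal M * ∏ a, S.indicator (gC β τ c p0) (x' a) := by
        refine setLIntegral_mono' hT fun x' hx' => ?_
        have hch : ∀ a, x' a ∈ S := fun a => by
          obtain ⟨h1, h2, h3, h4⟩ := hx'.1 a
          refine ⟨h1, le_trans ?_ h2, h3, h4⟩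
          have := hτ.1
          gcongr
        have e1 : ∀ W : Mx n, ∏ a, ENNReal.ofReal (jac (β ^ 2) (x' a) *
            phi τ (Xc (β ^ 2) c (x' a) - (β • W) *ᵥ (th (x' a) - p0))) =
            (∏ a, ENNReal.ofReal (jac (β ^ 2) (x' a))) * ∏ a, ENNReal.ofReal
              (phi τ (Xc (β ^ 2) c (x' a) - β • W *ᵥ (th (x' a) - p0))) := fun W => by
          rw [← Finset.prod_mul_distrib]
          refine Finset.prod_congr rfl fun a _ => ?_
          rw [ENNReal.ofReal_mul (jac_nonneg _ _), Matrix.smul_mulVec]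
        simp_rw [e1]
        rw [lintegral_const_mul' _ _ (ENNReal.prod_ne_top fun a _ => ENNReal.ofReal_ne_top)]
        have hb := hM n k β τ t' (fun a => th (x' a) - p0) (fun a => Xc (β ^ 2) c (x' a)) hn hβ hτ
          ht' hkt (fun a => dot_sub_cb (cb_th _) hp0) (fun a => (hx'.1 a).2.2.1)
          (fun a a' h => hx'.2 a a' h) (fun a => by
            have h2 := (hx'.1 a).2.1
            have := hτ.1
            calc τ * n ≤ β ^ 2 * K3' * (τ * n) := le_mul_of_one_le_left (by positivity) hK'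
              _ = β ^ 2 * (K3' * τ * n) := by ring
              _ ≤ _ := by gcongr)
        refine (mul_le_mul_right hb _).trans (le_of_eq ?_)
        rw [ENNReal.ofReal_mul hM0, ENNReal.ofReal_prod_of_nonneg fun a _ => phiS_nonneg _ _ _ _,
          mul_left_comm, ← Finset.prod_mul_distrib]
        congr 1
        refine Finset.prod_congr rfl fun a _ => ?_
        rw [indicator_of_mem (hch a), gC, ENNReal.ofReal_mul (jac_nonneg _ _)]
    _ ≤ ∫⁻ x' : Fin k → V n, ENNReal.ofReal M * ∏ a, S.indicator (gC β τ c p0) (x' a) :=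
        setLIntegral_le_lintegral _ _
    _ = ENNReal.ofReal M * ∏ _a : Fin k, ∫⁻ x, S.indicator (gC β τ c p0) x := by
        rw [lintegral_const_mul' _ _ ENNReal.ofReal_ne_top, volume_pi,
          lint_pi_prod volume (fun _ => S.indicator (gC β τ c p0))
            fun _ => (meas_gC β τ c p0).indicator hSm]
    _ ≤ ENNReal.ofReal M * ∏ _a : Fin k, ENNReal.ofReal (Real.exp (-c0 * n)) := by
        refine mul_le_mul_right (Finset.prod_le_prod' fun a _ => ?_) _
        rw [lintegral_indicator hSm]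
        exact hC
    _ = _ := by
        rw [Finset.prod_const, Finset.card_univ, Fintype.card_fin, ENNReal.ofReal_mul hM0,
          ENNReal.ofReal_pow (Real.exp_pos _).le]

/-- Markov's inequality in the form used below -/
theorem markov {F : Mx n → ℝ≥0∞} (hF : Measurable F) {a B : ℝ} (ha : 0 < a)
    (h : ∫⁻ W, F W ∂(GOE n) ≤ ENNReal.ofReal B) :
    GOE n {W | ENNReal.ofReal a ≤ F W} ≤ ENNReal.ofReal (B / a) := by
  have h1 := meas_ge_le_lintegral_div (μ := GOE n) hF.aemeasurable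
    (ε := ENNReal.ofReal a) (ENNReal.ofReal_pos.2 ha).ne' ENNReal.ofReal_ne_top
  refine h1.trans ?_
  rw [ENNReal.ofReal_div_of_pos ha]
  exact ENNReal.div_le_div_right h _

end Crest.Agent.T157.Lp.K99
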