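import Crest.Agent.T157.LpKsA_99

/-!
# Row 157, part A: with high probability there is no long chain of children (helper99)
-/

set_option autoImplicit false

noncomputable section

namespace Crest.Agent.T157.Lp.K99

open MeasureTheory ProbabilityTheory Matrix Filter Set Topology
open Crest.Agent.T157.E Crest.Agent.T157.Eig Crest.Agent.T157.Cond Crest.Agent.T157.Tap
open Crest.Agent.T157.Kr (phi phiS phi_nonneg phiS_nonneg)
open scoped ENNReal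

variable {n : ℕ}

/-- the hypotheses of `SmearStmt` on one child -/
def H2 (b τ η k1 K4 t : ℝ) (J : Mx n) (c p0 x : V n) : Prop :=
  nrm (Xc b c x - J *ᵥ (th x - p0)) ≤ η * Real.sqrt n ∧ avg (DD (th x)) ≤ 1 - k1 ∧
    K4 * τ * n ≤ (th x - p0) ⬝ᵥ (th x - p0) ∧
    |(th x - p0) ⬝ᵥ rv b (avg (DD (th x))) (gam b τ p0 x) c p0| ≤ t / 2 * gam b τ p0 x * n

/-- the hypotheses of `SmearStmt` on an ordered pair -/
def H3 (b δ : ℝ) (c p0 x x' : V n) : Prop :=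
  |(th x - p0) ⬝ᵥ (th x' - p0)| ≤ δ * n ∧ |Xc b c x ⬝ᵥ (th x' - p0)| ≤ δ * n

/-- no chain of length `k` -/
def NoCh (k : ℕ) (b τ η k1 K4 t δ : ℝ) (J : Mx n) (c p0 : V n) : Prop :=
  ¬ ∃ x : Fin k → V n, (∀ a, H2 b τ η k1 K4 t J c p0 (x a)) ∧
    ∀ a a', a < a' → H3 b δ c p0 (x a) (x a')

lemma whp_symm : Top.Whp GOE fun _ W => Wᵀ = W := by
  have : (fun n => GOE n {W | ¬ Wᵀ = W}) = fun _ => 0 :=
    funext fun n => ae_iff.1 (goe_ae_symm _)
  rw [Top.Whp, this]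
  exact tendsto_const_nhds

lemma tend_exp (M : ℝ) {γ : ℝ} (hγ : 0 < γ) :
    Tendsto (fun n : ℕ => M * Real.exp (-(n * γ))) atTop (𝓝 0) := by
  have := (Real.tendsto_exp_neg_atTop_nhds_zero.comp
    (tendsto_natCast_atTop_atTop.atTop_mul_const hγ)).const_mul M
  rwa [mul_zero] at this

lemma whp_of_exp {P : ∀ n, Mx n → Prop} (M : ℝ) {γ : ℝ} (hγ : 0 < γ)
    (h : ∀ᶠ n : ℕ in atTop, GOE n {W | ¬ P n W} ≤ ENNReal.ofReal (M * Real.exp (-(n * γ)))) :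
    Top.Whp GOE P := by
  refine Top.whp_iff.2 fun ε hε => ?_
  filter_upwards [h, (tend_exp M hγ).eventually (gt_mem_nhds hε)] with n h1 h2
  exact h1.trans (ENNReal.ofReal_le_ofReal h2.le)

lemma whp_opn : Top.Whp GOE fun _ W => opn W ≤ 3 := by
  refine Top.whp_of_real_le (tend_exp 2 (show (0 : ℝ) < 1 / 4 by norm_num))
    (Eventually.of_forall fun n => ?_)
  have := Nrm.goe_opn_tail_n (n := n) zero_le_one
  rw [one_pow, mul_div_assoc] at this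
  refine le_trans (measureReal_mono fun W hW => ?_) this
  simp only [mem_ofPred_eq, not_le] at hW ⊢
  linarith

lemma union_bound {ι : Type*} (S : Finset ι) (B : ι → Set (Mx n)) {a N : ℝ} (ha : 0 ≤ a)
    (hN : (S.card : ℝ) ≤ N) (h : ∀ z ∈ S, GOE n (B z) ≤ ENNReal.ofReal a) :
    GOE n {W | ¬ ∀ z ∈ S, W ∉ B z} ≤ ENNReal.ofReal (N * a) := by
  have e : {W | ¬ ∀ z ∈ S, W ∉ B z} = ⋃ z ∈ S, B z := by
    ext W
    simp
  rw [e]
  refine (measure_biUnion_finset_le S B).trans ((Finset.sum_le_sum h).trans ?_)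
  rw [Finset.sum_const, nsmul_eq_mul, ← ENNReal.ofReal_natCast,
    ← ENNReal.ofReal_mul (Nat.cast_nonneg _)]
  exact ENNReal.ofReal_le_ofReal (mul_le_mul_of_nonneg_right hN ha)

/-- **no long chain**, simultaneously on a net of exponential size -/
theorem core (hC : ChildStmt) (hM : MultiStmt) (hS : SmearStmt) (hU : U2Stmt) (hD : DetEStmt)
    {β k1 : ℝ} (hβ : β ∈ Ioc (0 : ℝ) 1) (hk1 : 0 < k1) :
    ∃ c0 > (0 : ℝ), ∃ t > (0 : ℝ), ∃ K4 > (0 : ℝ), ∃ s1 ≥ (2 : ℝ), ∃ κ > (0 : ℝ), ∃ τ1 > (0 : ℝ),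
      ∃ Cs > (0 : ℝ), ∀ (η : ℝ) (k : ℕ) (δ : ℝ), 0 < η → (s1 * η) ^ 2 ≤ τ1 → 0 < k → 0 < δ →
        k * (2 * δ / (s1 * η) ^ 2 + Cs * (s1 * η)) ≤ κ →
        ∀ S : ∀ n, Finset (V n × V n), (∀ n, ∀ z ∈ S n, Cb z.2) →
          (∀ n, ((S n).card : ℝ) ≤ Real.exp (k * c0 * n / 8)) →
          Top.Whp GOE fun n W => Wᵀ = W ∧ opn W ≤ 3 ∧
            ∀ z ∈ S n, NoCh k (β ^ 2) ((s1 * η) ^ 2) (2 * η) k1 K4 t δ (β • W) z.1 z.2 := by
  obtain ⟨c1, hc1, L, hL, r, ρ, hρ, hU'⟩ := hU β hβ k1 hk1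
  obtain ⟨A, Cs, hCs, hS'⟩ := hS c1 hc1 L hL r β hβ
  obtain ⟨c0, hc0, t, ht, K3, hK3, hC'⟩ := hC β hβ (k1 / 2) (by positivity) A
  have hβ0 := hβ.1
  obtain ⟨K4, hK4, τ0, hτ0, hS''⟩ := hS' (k1 / 2) (by positivity) t ht (max K3 (1 / β ^ 2))
    (lt_max_of_lt_left hK3)
  obtain ⟨Cm, hCm, hM'⟩ := hM A
  have hD' := hD β hβ c1 hc1 L hL r (c0 / 8) (by positivity)
  refine ⟨c0, hc0, t, ht, K4, hK4, max 2 (16 * Cs / c0), le_max_left _ _,
    min (1 / 2) (c0 * β ^ 2 / (8 * Cm)), by positivity, min (min 1 τ0) ((c0 / (8 * Cs)) ^ 2),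
    by positivity, Cs, hCs, fun η k δ hη hτ1 hk hδ hκ S hSc hSN => ?_⟩
  set s1 : ℝ := max 2 (16 * Cs / c0) with hs1
  have hs2 : 2 ≤ s1 := le_max_left _ _
  have hs3 : 16 * Cs / c0 ≤ s1 := le_max_right _ _
  have hs0 : 0 < s1 := by linarith
  set τ : ℝ := (s1 * η) ^ 2 with hτ
  have hτp : 0 < τ := by positivity
  have hsq : Real.sqrt τ = s1 * η := Real.sqrt_sq (by positivity)
  have hτa : τ ≤ 1 := hτ1.trans ((min_le_left _ _).trans (min_le_left _ _))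
  have hτb : τ ≤ τ0 := hτ1.trans ((min_le_left _ _).trans (min_le_right _ _))
  have hτc : Cs * (s1 * η) ≤ c0 / 8 := by
    have h1 : (s1 * η) ^ 2 ≤ (c0 / (8 * Cs)) ^ 2 := hτ1.trans (min_le_right _ _)
    have h2 : s1 * η ≤ c0 / (8 * Cs) := (pow_le_pow_iff_left₀ (by positivity)
      (by positivity) two_ne_zero).1 h1
    calc Cs * (s1 * η) ≤ Cs * (c0 / (8 * Cs)) := by gcongr
      _ = c0 / 8 := by field_simp
  have hηs : Cs * (2 * η / (s1 * η)) ≤ c0 / 8 := by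
    have h1 : 2 * η / (s1 * η) = 2 / s1 := by field_simp
    rw [h1, ← mul_div_assoc, div_le_div_iff₀ hs0 (by norm_num)]
    rw [div_le_iff₀ hc0] at hs3
    linarith
  set t' : ℝ := 2 * δ / τ + Cs * Real.sqrt τ with ht'
  have ht'0 : 0 ≤ t' := by positivity
  have hkt : k * t' ≤ min (1 / 2) (c0 * β ^ 2 / (8 * Cm)) := by rwa [ht', hsq]
  have hk' : (1 : ℝ) ≤ k := by exact_mod_cast hk
  -- the lower bound `a n` and the bad event
  set a : ℕ → ℝ := fun n =>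
    Real.exp (-(k * n * (Cs * (2 * η / Real.sqrt τ + Real.sqrt τ) + c0 / 8)) - 1) with ha
  have hBad : Top.Whp GOE fun n W => ∀ z ∈ S n, W ∉ {W : Mx n | ENNReal.ofReal (a n) ≤
      Fq k β τ A (k1 / 2) (max K3 (1 / β ^ 2)) t t' z.1 z.2 W} := by
    refine whp_of_exp (Real.exp 1 * (Cm / τ) ^ (k ^ 2)) (γ := 3 * c0 / 8) (by positivity) ?_
    filter_upwards [eventually_gt_atTop 0, hC' τ ⟨hτp, hτa⟩] with n hn hCn
    have hn0 : (0 : ℝ) ≤ n := Nat.cast_nonneg n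
    have h1 := union_bound (S n) (fun z => {W : Mx n | ENNReal.ofReal (a n) ≤
      Fq k β τ A (k1 / 2) (max K3 (1 / β ^ 2)) t t' z.1 z.2 W})
      (a := Real.exp (Cm * k ^ 2 * t' * n / β ^ 2) * (Cm / τ) ^ (k ^ 2) *
        Real.exp (-c0 * n) ^ k / a n) (by positivity) (hSN n) fun z hz =>
      markov (meas_Fq _ _ _ _ _ _ _ _ _ _) (Real.exp_pos _)
        (first_moment hCm hM' hn hβ ⟨hτp, hτa⟩ ht'0 (hkt.trans (min_le_left _ _))
          (le_max_left _ _) (by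
            calc (1 : ℝ) = β ^ 2 * (1 / β ^ 2) := by field_simp
              _ ≤ _ := by gcongr; exact le_max_right _ _)
          (hSc n z hz) (hCn z.1 z.2 (hSc n z hz)))
    refine h1.trans (ENNReal.ofReal_le_ofReal ?_)
    have e1 : Real.exp (k * c0 * n / 8) * (Real.exp (Cm * k ^ 2 * t' * n / β ^ 2) *
        (Cm / τ) ^ (k ^ 2) * Real.exp (-c0 * n) ^ k / a n) = (Cm / τ) ^ (k ^ 2) *
        Real.exp (k * c0 * n / 8 + Cm * k ^ 2 * t' * n / β ^ 2 + k * (-c0 * n) -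
          (-(k * n * (Cs * (2 * η / Real.sqrt τ + Real.sqrt τ) + c0 / 8)) - 1)) := by
      rw [Real.exp_sub, Real.exp_add, Real.exp_add, Real.exp_nat_mul]
      simp only [ha]
      ring
    rw [e1, mul_comm (Real.exp 1), mul_assoc ((Cm / τ) ^ (k ^ 2)), ← Real.exp_add]
    refine mul_le_mul_of_nonneg_left (Real.exp_le_exp.2 ?_) (by positivity)
    have h2 : Cm * k ^ 2 * t' * n / β ^ 2 ≤ k * n * (c0 / 8) := by
      have h3 : k * t' ≤ c0 * β ^ 2 / (8 * Cm) := hkt.trans (min_le_right _ _)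
      calc Cm * k ^ 2 * t' * n / β ^ 2 = k * n * (Cm / β ^ 2 * (k * t')) := by ring
        _ ≤ k * n * (Cm / β ^ 2 * (c0 * β ^ 2 / (8 * Cm))) := by gcongr
        _ = k * n * (c0 / 8) := by field_simp
    have h4 : k * n * (Cs * (2 * η / Real.sqrt τ + Real.sqrt τ) + c0 / 8) ≤
        k * n * (3 * c0 / 8) := by
      rw [hsq]
      refine mul_le_mul_of_nonneg_left ?_ (by positivity)
      linarith
    have h5 : n * (3 * c0 / 8) ≤ k * n * (3 * c0 / 8) := by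
      rw [mul_assoc]
      exact le_mul_of_one_le_left (by positivity) hk'
    linarith
  refine ((((whp_symm.and whp_opn).and hU').and hD').and hBad).mono ?_
  filter_upwards [hS'' τ ⟨hτp, hτb⟩ k (2 * η) δ (c0 / 8) (by positivity)
    (by rw [hτ]; gcongr) hδ (by positivity)] with n hSn
  rintro W ⟨⟨⟨⟨h1, h2⟩, h3⟩, h4⟩, h5⟩
  refine ⟨h1, h2, fun z hz => ?_⟩
  rintro ⟨x, hx1, hx2⟩
  refine h5 z hz (hSn (β • W) z.1 z.2 x (by rw [transpose_smul, h1]) ?_ (hSc n z hz)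
    (fun a => ?_) (fun a => ?_) hx2)
  · rw [opn_smul, abs_of_pos hβ0]
    have := opn_nonneg W
    nlinarith [hβ.2]
  · obtain ⟨E, hE, hG⟩ := h3 (th (x a)) (cb_th _) (hx1 a).2.1
    have hG' := hG (th (x a)) (cb_th _) (by
      rw [sub_self, nrm_eq_zero.2 rfl]
      positivity)
    exact ⟨E, hE, hG'.1, h4 _ E (cb_th _) hG'.2 hE hG'.1⟩
  · obtain ⟨g1, g2, g3, g4⟩ := hx1 a
    exact ⟨g1, by linarith, g3, g4⟩

end Crest.Agent.T157.Lp.K99
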