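import Crest.Agent.T157.LpDef_17
import Crest.Agent.T157.KrB_53

/-!
# Row 157, part A: the four leaves of `Lp.KsGlue` (helper17)

`c` stands for `y + J p0`; `Xc = x - c + b e p`, so that `Ymap x - y = Xc - J (p - p0)`.
-/

set_option autoImplicit false

noncomputable section

namespace Crest.Agent.T157.Lp

open MeasureTheory ProbabilityTheory Matrix Filter Set
open Crest.Agent.T157.E Crest.Agent.T157.Eig Crest.Agent.T157.Cond Crest.Agent.T157.Tap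
open Crest.Agent.T157.Kr (phi phiS)
open scoped ENNReal

variable {n : ℕ}

/-- `X = x - c + b e p` -/
def Xc (b : ℝ) (c x : V n) : V n := x - c + (b * avg (DD (th x))) • th x
/-- `γ = τ + b |p - p0|² / n` -/
def gam (b τ : ℝ) (p0 x : V n) : ℝ := τ + b * ((th x - p0) ⬝ᵥ (th x - p0) / n)
/-- the mean displacement in the reference model with susceptibility `e` and variance `γ` -/
def rv (b e γ : ℝ) (c p0 : V n) : V n := fun i => gE Real.tanh (c i - b * e * p0 i) γ - p0 i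
/-- constraints on one (smeared) child -/
def Child (b τ A k1 K3 t : ℝ) (c p0 x : V n) : Prop :=
  avg (DD (th x)) ≤ 1 - k1 ∧ K3 * τ * n ≤ (th x - p0) ⬝ᵥ (th x - p0) ∧
  Xc b c x ⬝ᵥ Xc b c x ≤ A * gam b τ p0 x * n ∧
  |(th x - p0) ⬝ᵥ rv b (avg (DD (th x))) (gam b τ p0 x) c p0| ≤ t * gam b τ p0 x * n
/-- constraints on an ordered pair of children -/
def Orth (b τ t : ℝ) (c p0 x x' : V n) : Prop :=
  |(th x - p0) ⬝ᵥ (th x' - p0)| ≤ t * Real.sqrt (gam b τ p0 x * gam b τ p0 x') * n ∧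
  |Xc b c x ⬝ᵥ (th x' - p0)| ≤ t * Real.sqrt (gam b τ p0 x * gam b τ p0 x') * n
/-- admissible tuples -/
def Tup (k : ℕ) (b τ A k1 K3 t t' : ℝ) (c p0 : V n) : Set (Fin k → V n) :=
  {x | (∀ a, Child b τ A k1 K3 t c p0 (x a)) ∧ ∀ a a', a < a' → Orth b τ t' c p0 (x a) (x a')}
/-- the Jacobian bound -/
def jac (b : ℝ) (x : V n) : ℝ := Real.exp (n * (b * avg (DD (th x)) ^ 2 / 2))

/-- negative complexity of one child, uniformly in the parent -/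
def ChildStmt : Prop := ∀ β ∈ Ioc (0 : ℝ) 1, ∀ k1 > (0 : ℝ), ∀ A : ℝ, ∃ c0 > (0 : ℝ), ∃ t > (0 : ℝ),
  ∃ K3 > (0 : ℝ), ∀ τ ∈ Ioc (0 : ℝ) 1, ∀ᶠ n : ℕ in atTop, ∀ c p0 : V n, Cb p0 →
    ∫⁻ x in {x | Child (β ^ 2) τ A k1 K3 t c p0 x}, ENNReal.ofReal (jac (β ^ 2) x *
      phiS τ (β * (1 / Real.sqrt n) * len (th x - p0)) (unitv (th x - p0)) (Xc (β ^ 2) c x)) ≤
      ENNReal.ofReal (Real.exp (-c0 * n))

/-- almost orthogonal queries are almost independent -/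
def MultiStmt : Prop := ∀ A : ℝ, ∃ C > (0 : ℝ), ∀ (n k : ℕ) (β τ t : ℝ) (v X : Fin k → V n),
  0 < n → β ∈ Ioc (0 : ℝ) 1 → τ ∈ Ioc (0 : ℝ) 1 → 0 ≤ t → k * t ≤ 1 / 2 →
  (∀ a, v a ⬝ᵥ v a ≤ 4 * n) →
  (∀ a, X a ⬝ᵥ X a ≤ A * (τ + β ^ 2 * (v a ⬝ᵥ v a / n)) * n) →
  (∀ a a', a < a' → |v a ⬝ᵥ v a'| ≤ t * Real.sqrt ((τ + β ^ 2 * (v a ⬝ᵥ v a / n)) *
      (τ + β ^ 2 * (v a' ⬝ᵥ v a' / n))) * n ∧
    |X a ⬝ᵥ v a'| ≤ t * Real.sqrt ((τ + β ^ 2 * (v a ⬝ᵥ v a / n)) *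
      (τ + β ^ 2 * (v a' ⬝ᵥ v a' / n))) * n) → (∀ a, τ * n ≤ β ^ 2 * (v a ⬝ᵥ v a)) →
  ∫⁻ W, ∏ a, ENNReal.ofReal (phi τ (X a - β • W *ᵥ v a)) ∂(GOE n) ≤
    ENNReal.ofReal (Real.exp (C * k ^ 2 * t * n / β ^ 2) * (C / τ) ^ (k ^ 2) *
      ∏ a, phiS τ (β * (1 / Real.sqrt n) * len (v a)) (unitv (v a)) (X a))

/-- approximate solutions carry volume -/
def SmearStmt : Prop := ∀ c1 > (0 : ℝ), ∀ L ≥ (0 : ℝ), ∀ r : ℕ, ∀ β ∈ Ioc (0 : ℝ) 1, ∃ A C : ℝ, 0 < C ∧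
  ∀ k1 > (0 : ℝ), ∀ t > (0 : ℝ), ∀ K3 > (0 : ℝ), ∃ K4 > (0 : ℝ), ∃ τ0 > (0 : ℝ), ∀ τ ∈ Ioc (0 : ℝ) τ0,
  ∀ (k : ℕ) (η δ ε : ℝ), 0 ≤ η → η ^ 2 ≤ τ → 0 < δ → 0 ≤ ε → ∀ᶠ n : ℕ in atTop,
  ∀ (J : Mx n) (c p0 : V n) (x : Fin k → V n), Jᵀ = J → opn J ≤ 3 → Cb p0 →
    (∀ a, ∃ E, Pen r L E ∧ Pos c1 (NN (B1 J (β ^ 2) (th (x a)) - E) (dd (th (x a)))) ∧
      |(NN (B1 J (β ^ 2) (th (x a)) - E) (dd (th (x a)))).det| ≤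
        Real.exp (n * (β ^ 2 * avg (DD (th (x a))) ^ 2 / 2 + ε))) →
    (∀ a, nrm (Xc (β ^ 2) c (x a) - J *ᵥ (th (x a) - p0)) ≤ η * Real.sqrt n ∧
      avg (DD (th (x a))) ≤ 1 - 2 * k1 ∧ K4 * τ * n ≤ (th (x a) - p0) ⬝ᵥ (th (x a) - p0) ∧
      |(th (x a) - p0) ⬝ᵥ rv (β ^ 2) (avg (DD (th (x a)))) (gam (β ^ 2) τ p0 (x a)) c p0| ≤
        t / 2 * gam (β ^ 2) τ p0 (x a) * n) →
    (∀ a a', a < a' → |(th (x a) - p0) ⬝ᵥ (th (x a') - p0)| ≤ δ * n ∧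
      |Xc (β ^ 2) c (x a) ⬝ᵥ (th (x a') - p0)| ≤ δ * n) →
    ENNReal.ofReal (Real.exp (-(k * n * (C * (η / Real.sqrt τ + Real.sqrt τ) + ε)) - 1)) ≤
      ∫⁻ x' in Tup k (β ^ 2) τ A k1 K3 t (2 * δ / τ + C * Real.sqrt τ) c p0,
        ∏ a, ENNReal.ofReal (jac (β ^ 2) (x' a) *
          phi τ (Xc (β ^ 2) c (x' a) - J *ᵥ (th (x' a) - p0)))

/-- greedy choice, net, Markov and Tonelli -/
def KsTop : Prop := ChildStmt → MultiStmt → SmearStmt → KsGlue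

end Crest.Agent.T157.Lp
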