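import Crest.Agent.T157.LpKs_17
import Crest.Agent.T157.CondD_53
import Crest.Agent.T157.ConcH_16
import Crest.Agent.T157.NrmG_84

/-!
# Row 157, part A (helper61): `Lp.SmearStmt`, probabilistic part

Fourth moments of Gaussian linear forms, the good event of `k` independent Gaussian vectors, and the
change of variables.
-/

set_option autoImplicit false

noncomputable section

namespace Crest.Agent.T157.Lp.Sm61

open MeasureTheory ProbabilityTheory Matrix Filter Set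
open Crest.Agent.T157.E Crest.Agent.T157.Eig Crest.Agent.T157.Cond Crest.Agent.T157.Tap
open Crest.Agent.T157.Kr (phi)
open Crest.Agent.T157.Conc (ex)
open scoped ENNReal

variable {n k : ℕ}

lemma pow_four_le (x : ℝ) : x ^ 4 ≤ 24 * (Real.exp x + Real.exp (-x)) := by
  have h := Real.pow_div_factorial_le_exp |x| (abs_nonneg x) 4
  have h1 : |x| ^ 4 = x ^ 4 := by
    rw [show (4 : ℕ) = 2 * 2 from rfl, pow_mul, sq_abs, ← pow_mul]
  have h2 : Real.exp |x| ≤ Real.exp x + Real.exp (-x) := by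
    rcases abs_cases x with h | h <;> rw [h.1] <;>
      linarith [Real.exp_pos x, Real.exp_pos (-x)]
  rw [h1] at h
  norm_num [Nat.factorial] at h
  linarith

lemma lint_ex_le {w : V n} (hw : nrm w ≤ 1) : ∫⁻ g, ex (w ⬝ᵥ g) ∂gv (Fin n) ≤ ENNReal.ofReal 2 := by
  rw [Conc.lint_dot_gv, Nrm.en_eq_nrm]
  refine ENNReal.ofReal_le_ofReal ?_
  have h1 : nrm w ^ 2 / 2 ≤ Real.log 2 := by
    have := Real.log_two_gt_d9
    have := nrm_nonneg w
    nlinarith
  exact (Real.exp_le_exp.2 h1).trans (Real.exp_log two_pos).le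

/-- fourth moment of a linear form -/
lemma mom4 {u : V n} {c : ℝ} (hc : 0 < c) (hu : nrm u ≤ c) :
    ∫⁻ g, ENNReal.ofReal ((u ⬝ᵥ g) ^ 4) ∂gv (Fin n) ≤ ENNReal.ofReal (96 * c ^ 4) := by
  have hw : nrm (c⁻¹ • u) ≤ 1 := by
    rw [nrm_smul, abs_of_pos (inv_pos.2 hc), inv_mul_le_iff₀ hc, mul_one]; exact hu
  have hw' : nrm (-(c⁻¹ • u)) ≤ 1 := by rwa [nrm_neg]
  have h1 : ∀ g : V n, ENNReal.ofReal ((u ⬝ᵥ g) ^ 4) ≤ ENNReal.ofReal (24 * c ^ 4) *
      (ex ((c⁻¹ • u) ⬝ᵥ g) + ex ((-(c⁻¹ • u)) ⬝ᵥ g)) := fun g => by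
    rw [ex, ex, ← ENNReal.ofReal_add (Real.exp_pos _).le (Real.exp_pos _).le,
      ← ENNReal.ofReal_mul (by positivity)]
    refine ENNReal.ofReal_le_ofReal ?_
    have h2 := pow_four_le ((c⁻¹ • u) ⬝ᵥ g)
    have h3 : (u ⬝ᵥ g) ^ 4 = c ^ 4 * ((c⁻¹ • u) ⬝ᵥ g) ^ 4 := by
      rw [smul_dotProduct, smul_eq_mul]; field_simp
    rw [h3, neg_dotProduct]
    nlinarith [pow_pos hc 4]
  refine (lintegral_mono h1).trans ?_
  rw [lintegral_const_mul _ (by fun_prop), lintegral_add_left (by fun_prop)]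
  refine (mul_le_mul_right (add_le_add (lint_ex_le hw) (lint_ex_le hw')) _).trans (le_of_eq ?_)
  rw [← ENNReal.ofReal_add (by norm_num) (by norm_num), ← ENNReal.ofReal_mul (by positivity)]
  congr 1; ring

lemma markov {Ω : Type*} [MeasurableSpace Ω] (μ : Measure Ω) {f : Ω → ℝ} (hf : Measurable f)
    {A B : ℝ} (hB : 0 < B) (h : ∫⁻ g, ENNReal.ofReal (f g) ∂μ ≤ ENNReal.ofReal A) :
    μ {g | B ≤ f g} ≤ ENNReal.ofReal (A / B) := by
  have h1 := meas_ge_le_lintegral_div (μ := μ) (f := fun g => ENNReal.ofReal (f g))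
    (by fun_prop) (ε := ENNReal.ofReal B) (by simpa using hB) ENNReal.ofReal_ne_top
  rw [ENNReal.ofReal_div_of_pos hB]
  refine le_trans (measure_mono fun g hg => ENNReal.ofReal_le_ofReal hg) (h1.trans ?_)
  exact ENNReal.div_le_div_right h _

lemma lin_tail {u : V n} {c θ : ℝ} (hc : 0 < c) (hθ : 0 < θ) (hu : nrm u ≤ c) :
    gv (Fin n) {g | θ ≤ |u ⬝ᵥ g|} ≤ ENNReal.ofReal (96 * c ^ 4 / θ ^ 4) := by
  refine le_trans (measure_mono fun g hg => ?_)
    (markov _ (f := fun g => (u ⬝ᵥ g) ^ 4) (by fun_prop) (by positivity) (mom4 hc hu))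
  have := pow_le_pow_left₀ hθ.le (show θ ≤ |u ⬝ᵥ g| from hg) 4
  rwa [show (4 : ℕ) = 2 * 2 from rfl, pow_mul |_|, sq_abs, ← pow_mul] at this

lemma four_tail (hn : 0 < n) {R : Mx n} {c : ℝ} (hc : 0 < c) (hR : opn R ≤ c) :
    gv (Fin n) {g | 400 * c ^ 4 * n ≤ ∑ i, (R *ᵥ g) i ^ 4} ≤ ENNReal.ofReal (1 / 4) := by
  have hn' : (0 : ℝ) < n := by exact_mod_cast hn
  have h1 : ∫⁻ g, ENNReal.ofReal (∑ i, (R *ᵥ g) i ^ 4) ∂gv (Fin n) ≤
      ENNReal.ofReal (96 * c ^ 4 * n) := by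
    have e : ∀ g : V n, ENNReal.ofReal (∑ i, (R *ᵥ g) i ^ 4) =
        ∑ i, ENNReal.ofReal ((R i ⬝ᵥ g) ^ 4) := fun g =>
      ENNReal.ofReal_sum_of_nonneg fun i _ => by positivity
    simp only [e]
    rw [lintegral_finsetSum _ fun i _ => by fun_prop]
    have h2 : ∀ i, nrm (R i) ≤ c := fun i => by
      have h3 := nrm_mulVec_le Rᵀ (Pi.single i 1)
      rw [nrm_single, mul_one, opn_transpose] at h3
      have e2 : Rᵀ *ᵥ Pi.single i 1 = R i := by ext j; simp
      rw [e2] at h3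
      exact h3.trans hR
    refine (Finset.sum_le_sum fun i _ => mom4 hc (h2 i)).trans (le_of_eq ?_)
    rw [Finset.sum_const, Finset.card_univ, Fintype.card_fin, nsmul_eq_mul, mul_comm,
      ENNReal.ofReal_mul (p := 96 * c ^ 4) (by positivity), ENNReal.ofReal_natCast]
  refine (markov _ (by fun_prop) (by positivity) h1).trans (ENNReal.ofReal_le_ofReal ?_)
  rw [div_le_iff₀ (by positivity)]
  nlinarith [mul_pos (pow_pos hc 4) hn']

/-- the single-vector good event -/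
def A1 (c : ℝ) (R : Mx n) : Set (V n) :=
  {g | nrm g ≤ 5 * √n ∧ ∑ i, (R *ᵥ g) i ^ 4 ≤ 400 * c ^ 4 * n}

lemma A1_ge (hn : 0 < n) {R : Mx n} {c : ℝ} (hc : 0 < c) (hR : opn R ≤ c) :
    ENNReal.ofReal (1 / 2) ≤ gv (Fin n) (A1 c R) := by
  have hn' : (0 : ℝ) < n := by exact_mod_cast hn
  have h1 := four_tail hn hc hR
  have h2 := four_tail hn one_pos (opn_one_le (ι := Fin n))
  have h3 : (univ : Set (V n)) ⊆ A1 c R ∪ ({g | 400 * c ^ 4 * n ≤ ∑ i, (R *ᵥ g) i ^ 4} ∪
      {g | 400 * 1 ^ 4 * n ≤ ∑ i, ((1 : Mx n) *ᵥ g) i ^ 4}) := fun g _ => by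
    by_contra hg
    simp only [mem_union, mem_ofPred_eq, not_or, not_le, one_mulVec, one_pow, mul_one] at hg
    refine hg.1 ⟨(nrm_le_iff (by positivity)).2 ?_, hg.2.1.le⟩
    have h4 := Finset.sum_mul_sq_le_sq_mul_sq Finset.univ (fun _ : Fin n => (1 : ℝ))
      fun i => g i * g i
    simp only [one_mul, one_pow, Finset.sum_const, Finset.card_univ, Fintype.card_fin,
      nsmul_eq_mul, mul_one] at h4
    have h5 : ∑ i, (g i * g i) ^ 2 = ∑ i, g i ^ 4 := Finset.sum_congr rfl fun i _ => by ring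
    rw [mul_pow, Real.sq_sqrt hn'.le]
    refine abs_le_of_sq_le_sq' ?_ (by positivity) |>.2
    change (∑ i, g i * g i) ^ 2 ≤ _
    nlinarith [hg.2.2]
  have h6 := (measure_mono (μ := gv (Fin n)) h3).trans ((measure_union_le _ _).trans
    (add_le_add le_rfl ((measure_union_le _ _).trans (add_le_add h1 h2))))
  rw [measure_univ, ← ENNReal.ofReal_add (by norm_num) (by norm_num)] at h6
  have h7 : (1 : ℝ≥0∞) = ENNReal.ofReal (1 / 2) + ENNReal.ofReal (1 / 4 + 1 / 4) := by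
    rw [← ENNReal.ofReal_add (by norm_num) (by norm_num)]; norm_num
  rw [h7] at h6
  exact (ENNReal.add_le_add_iff_right ENNReal.ofReal_ne_top).1 h6

lemma pi_le (j : Fin k) {S : Set (Fin k → V n)} (hS : MeasurableSet S) {ε : ℝ≥0∞}
    (h : ∀ g, gv (Fin n) {t | Function.update g j t ∈ S} ≤ ε) : gK k (Fin n) S ≤ ε := by
  have mp := mp_update (τ := Fin k) (gv (Fin n)) j
  rw [← mp.measure_preimage hS.nullMeasurableSet, Measure.prod_apply (mp.measurable hS)]
  refine (lintegral_mono fun g => h g).trans ?_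
  simp

/-- finitely many forms, each linear in one of the vectors -/
lemma forms {I : Type*} [Fintype I] (a : I → Fin k) (U : I → (Fin k → V n) → V n)
    (hm : ∀ i, Continuous (U i)) (hU : ∀ i g t, U i (Function.update g (a i) t) = U i g)
    {c θ : ℝ} (hc : 0 < c) (hθ : 0 < θ) :
    gK k (Fin n) {g | ∃ i, nrm (U i g) ≤ c ∧ θ ≤ |U i g ⬝ᵥ g (a i)|} ≤
      ENNReal.ofReal (Fintype.card I * (96 * c ^ 4 / θ ^ 4)) := by
  rw [ofPred_exists]
  refine (measure_iUnion_fintype_le _ _).trans ?_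
  rw [ENNReal.ofReal_mul (Nat.cast_nonneg _), ENNReal.ofReal_natCast, ← nsmul_eq_mul,
    ← Finset.card_univ]
  refine Finset.sum_le_card_nsmul _ _ _ fun i _ => pi_le (a i) ?_ fun g => ?_
  · have := hm i
    have h1 : Continuous fun g : Fin k → V n => nrm (U i g) := continuous_nrm.comp this
    have h2 : Continuous fun g : Fin k → V n => |U i g ⬝ᵥ g (a i)| := by fun_prop
    exact ((isClosed_le h1 continuous_const).inter
      (isClosed_le continuous_const h2)).measurableSet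
  · simp only [mem_ofPred_eq, hU, Function.update_self]
    by_cases h : nrm (U i g) ≤ c
    · exact le_trans (measure_mono fun t ht => ht.2) (lin_tail hc hθ h)
    · simp [h]

/-- the good event -/
def Gd {I : Type*} (c θ : ℝ) (R G : Fin k → Mx n) (w : I → V n) : Set (Fin k → V n) :=
  {g | (∀ a, g a ∈ A1 c (R a)) ∧
    (∀ a i, |w i ⬝ᵥ G a *ᵥ g a| ≤ θ * n ∧ |w i ⬝ᵥ R a *ᵥ g a| ≤ θ * n) ∧
    ∀ a b, a ≠ b → |(G b *ᵥ g b) ⬝ᵥ G a *ᵥ g a| ≤ θ * n ∧ |(G b *ᵥ g b) ⬝ᵥ R a *ᵥ g a| ≤ θ * n}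

lemma dot_tr (M : Mx n) (u v : V n) : (Mᵀ *ᵥ u) ⬝ᵥ v = u ⬝ᵥ M *ᵥ v := by
  rw [dotProduct_mulVec, mulVec_transpose]

theorem Gd_ge (k m : ℕ) {c θ s : ℝ} (hc : 1 ≤ c) (hθ : 0 < θ) (hs : 0 < s) :
    ∀ᶠ n : ℕ in atTop, ∀ (I : Type) [Fintype I], Fintype.card I = m →
      ∀ (R G : Fin k → Mx n) (w : I → V n), (∀ a, opn (R a) ≤ c) → (∀ a, opn (G a) ≤ c) →
      (∀ i, nrm (w i) ≤ 7 * √n) →
      ENNReal.ofReal (Real.exp (-(k * n * s) - 1)) ≤ gK k (Fin n) (Gd c θ R G w) := by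
  have hc0 : 0 < c := by linarith
  set Q : ℝ := (k * 2 * (m + k) : ℕ) * (96 * (7 * c ^ 2) ^ 4 / θ ^ 4) with hQ
  have hQ0 : 0 ≤ Q := by positivity
  filter_upwards [eventually_gt_atTop 0, tendsto_natCast_atTop_atTop.eventually_ge_atTop (1 / s),
    tendsto_natCast_atTop_atTop.eventually_ge_atTop (2 * 2 ^ k * Q)]
    with n hn h1 h2 I _ hI R G w hR hG hw
  have hn' : (0 : ℝ) < n := by exact_mod_cast hn
  have hn1 : (1 : ℝ) ≤ n := by exact_mod_cast hn
  have hN : 0 < √(n : ℝ) := Real.sqrt_pos.2 hn'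
  let Mt : Fin k × Bool → Mx n := fun p => if p.2 then G p.1 else R p.1
  have hMt : ∀ p, opn (Mt p) ≤ c := fun p => by
    simp only [Mt]; split_ifs
    · exact hG _
    · exact hR _
  let U : (Fin k × Bool) × (I ⊕ Fin k) → (Fin k → V n) → V n := fun q g =>
    (Mt q.1)ᵀ *ᵥ Sum.elim w (fun b => if b = q.1.1 then 0 else G b *ᵥ g b) q.2
  have hb := forms (fun q : (Fin k × Bool) × (I ⊕ Fin k) => q.1.1) U (fun q => by
      rcases q with ⟨p, i | b⟩
      · simp only [U, Sum.elim_inl]; fun_prop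
      · simp only [U, Sum.elim_inr]; split_ifs <;> fun_prop)
    (fun q g t => by
      rcases q with ⟨p, i | b⟩
      · rfl
      · simp only [U, Sum.elim_inr]; split_ifs with h
        · rfl
        · rw [Function.update_of_ne h])
    (c := 7 * c ^ 2 * √n) (θ := θ * n) (by positivity) (by positivity)
  have e1 : (Fintype.card ((Fin k × Bool) × (I ⊕ Fin k)) : ℝ) *
      (96 * (7 * c ^ 2 * √n) ^ 4 / (θ * n) ^ 4) = Q / n ^ 2 := by
    have e2 : √(n : ℝ) ^ 4 = n ^ 2 := by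
      rw [show (4 : ℕ) = 2 * 2 from rfl, pow_mul, Real.sq_sqrt hn'.le]
    rw [hQ, mul_pow (7 * c ^ 2), e2]
    simp only [Fintype.card_prod, Fintype.card_sum, Fintype.card_fin, Fintype.card_bool, hI]
    field_simp
  rw [e1] at hb
  have hA : ENNReal.ofReal ((1 / 2) ^ k) ≤ gK k (Fin n) (univ.pi fun a => A1 c (R a)) := by
    rw [Measure.pi_pi, ENNReal.ofReal_pow (by norm_num)]
    have := Finset.prod_le_prod' (s := Finset.univ) (f := fun _ : Fin k => ENNReal.ofReal (1 / 2))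
      fun a _ => A1_ge hn hc0 (hR a)
    rwa [Finset.prod_const, Finset.card_univ, Fintype.card_fin] at this
  have hsub : (univ.pi fun a => A1 c (R a)) \
      {g | ∃ q, nrm (U q g) ≤ 7 * c ^ 2 * √n ∧ θ * n ≤ |U q g ⬝ᵥ g q.1.1|} ⊆ Gd c θ R G w := by
    rintro g ⟨hg, hg'⟩
    simp only [mem_ofPred_eq, not_exists, not_and, not_le] at hg'
    have key : ∀ (q : (Fin k × Bool) × (I ⊕ Fin k)) (z : V n), U q g = (Mt q.1)ᵀ *ᵥ z →
        nrm z ≤ 7 * c * √n → |z ⬝ᵥ Mt q.1 *ᵥ g q.1.1| ≤ θ * n := fun q z e hz => by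
      rw [← dot_tr, ← e]
      refine (hg' q ?_).le
      rw [e]
      refine (nrm_mulVec_le _ _).trans ?_
      rw [opn_transpose]
      calc _ ≤ c * (7 * c * √n) := mul_le_mul (hMt _) hz (nrm_nonneg _) hc0.le
        _ = _ := by ring
    refine ⟨fun a => hg a trivial, fun a i => ?_, fun a b hab => ?_⟩
    · have hz : nrm (w i) ≤ 7 * c * √n := (hw i).trans (by nlinarith)
      exact ⟨key ((a, true), Sum.inl i) _ rfl hz, key ((a, false), Sum.inl i) _ rfl hz⟩
    · have hz : nrm (G b *ᵥ g b) ≤ 7 * c * √n := by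
        refine (nrm_mulVec_le _ _).trans ?_
        calc _ ≤ c * (5 * √n) := mul_le_mul (hG b) (hg b trivial).1 (nrm_nonneg _) hc0.le
          _ ≤ _ := by nlinarith [mul_pos hc0 hN]
      exact ⟨key ((a, true), Sum.inr b) _ (by simp [U, hab.symm]) hz,
        key ((a, false), Sum.inr b) _ (by simp [U, hab.symm]) hz⟩
  refine le_trans ?_ (le_measure_sdiff.trans (measure_mono hsub))
  refine le_trans ?_ (tsub_le_tsub hA hb)
  rw [← ENNReal.ofReal_sub _ (by positivity)]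
  refine ENNReal.ofReal_le_ofReal ?_
  have h3 : Real.exp (-1) ≤ 1 / 2 := by
    have := Real.exp_neg_one_lt_d9; linarith
  have h4 : Real.exp (-(k * n * s)) ≤ (1 / 2) ^ k := by
    have h5 : 1 ≤ n * s := by rwa [div_le_iff₀ hs] at h1
    calc Real.exp (-(k * n * s)) ≤ Real.exp (k * (-1)) :=
          Real.exp_le_exp.2 (by nlinarith [Nat.cast_nonneg (α := ℝ) k])
      _ = Real.exp (-1) ^ k := Real.exp_nat_mul _ _
      _ ≤ _ := pow_le_pow_left₀ (Real.exp_pos _).le h3 k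
  have h6 : Q / n ^ 2 ≤ (1 / 2) ^ k / 2 := by
    rw [div_le_iff₀ (by positivity), one_div, inv_pow]
    have h7 : (0 : ℝ) < 2 ^ k := by positivity
    have h8 : Q ≤ (2 ^ k)⁻¹ / 2 * n := by
      rw [div_mul_eq_mul_div, le_div_iff₀ two_pos, inv_mul_eq_div, le_div_iff₀ h7]; linarith
    refine h8.trans (mul_le_mul_of_nonneg_left (by nlinarith) (by positivity))
  rw [sub_eq_add_neg, Real.exp_add]
  have := mul_le_mul h4 h3 (Real.exp_pos _).le (by positivity)
  linarith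

/-- change of variables, lower bound -/
theorem vol_ge (M : Fin k → Mx n) (hM : ∀ a, (M a).det ≠ 0) (x : Fin k → V n)
    (F : Fin k → V n → ℝ) (hF : ∀ a, Measurable (F a)) {κ : ℝ} (hκ : 0 ≤ κ)
    (S T : Set (Fin k → V n)) (hT : ∀ g ∈ T, (fun a => x a + M a *ᵥ g a) ∈ S ∧
      ∀ a, κ * (|(M a).det⁻¹| * phi 1 (g a)) ≤ F a (x a + M a *ᵥ g a)) :
    ENNReal.ofReal (κ ^ k) * gK k (Fin n) T ≤ ∫⁻ y in S, ∏ a, ENNReal.ofReal (F a (y a)) := by
  let ρ : Fin k → V n → ℝ := fun a y => |(M a).det⁻¹| * phi 1 ((M a)⁻¹ *ᵥ (y - x a))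
  have hρ0 : ∀ a y, 0 ≤ ρ a y := fun a y => mul_nonneg (abs_nonneg _) (Kr.phi_nonneg _ _)
  have hρm : ∀ a, Measurable (ρ a) := fun a => by simp only [ρ]; fun_prop
  have hmap : ∀ a, (gv (Fin n)).map (fun g => x a + M a *ᵥ g) =
      (volume : Measure (V n)).withDensity fun y => ENNReal.ofReal (ρ a y) := fun a => by
    ext S hS
    rw [← lintegral_indicator_one hS, ← lintegral_indicator_one hS,
      lintegral_map (measurable_one.indicator hS) (by fun_prop),
      Kr.lintegral_gv_affine (hM a) (x a) (measurable_one.indicator hS),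
      lintegral_withDensity_eq_lintegral_mul _ (hρm a).ennreal_ofReal
        (measurable_one.indicator hS)]
    rfl
  have hint : ∀ a, Integrable (ρ a) := fun a => by
    refine ⟨(hρm a).aestronglyMeasurable, ?_⟩
    rw [hasFiniteIntegral_iff_ofReal (ae_of_all _ (hρ0 a))]
    have h := Kr.lintegral_gv_affine (hM a) (x a) (G := fun _ => 1) measurable_const
    simp only [lintegral_const, measure_univ, mul_one] at h
    rw [← h]
    exact ENNReal.one_lt_top
  have hpi : (gK k (Fin n)).map (fun g a => x a + M a *ᵥ g a) =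
      (volume : Measure (Fin k → V n)).withDensity fun y => ENNReal.ofReal (∏ a, ρ a (y a)) := by
    rw [Measure.pi_map_pi (f := fun a g => x a + M a *ᵥ g) fun a => by fun_prop]
    simp only [hmap]
    exact Kr.pi_withDensity_ofReal (fun _ => volume) ρ hρ0 hint
  let S' : Set (Fin k → V n) := {y | y ∈ S ∧ ∀ a, κ * ρ a (y a) ≤ F a (y a)}
  have h1 : gK k (Fin n) T ≤ ∫⁻ y in S', ENNReal.ofReal (∏ a, ρ a (y a)) := by
    rw [← withDensity_apply', ← hpi]
    refine le_trans (measure_mono fun g hg => ?_) (Measure.le_map_apply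
      (Measurable.aemeasurable (by fun_prop)) S')
    refine ⟨(hT g hg).1, fun a => ?_⟩
    have hu : IsUnit (M a).det := isUnit_iff_ne_zero.2 (hM a)
    simp only [ρ, add_sub_cancel_left, mulVec_mulVec, nonsing_inv_mul _ hu, one_mulVec]
    exact (hT g hg).2 a
  refine (mul_le_mul_right h1 _).trans ?_
  rw [← lintegral_const_mul' _ _ ENNReal.ofReal_ne_top]
  refine le_trans (setLIntegral_mono ?_ fun y hy => ?_) (lintegral_mono_set fun y hy => hy.1)
  · exact Finset.measurable_prod _ fun a _ =>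
      ((hF a).comp (measurable_pi_apply a)).ennreal_ofReal
  · rw [← ENNReal.ofReal_mul (by positivity), ← ENNReal.ofReal_prod_of_nonneg fun a _ =>
      (mul_nonneg hκ (hρ0 a _)).trans (hy.2 a)]
    refine ENNReal.ofReal_le_ofReal ?_
    have := Finset.prod_le_prod (s := Finset.univ) (fun a _ => mul_nonneg hκ (hρ0 a (y a)))
      fun a _ => hy.2 a
    rwa [Finset.prod_mul_distrib, Finset.prod_const, Finset.card_univ, Fintype.card_fin] at this

end Crest.Agent.T157.Lp.Sm61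

end
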