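import Crest.Agent.T157.Mix_49
import Crest.Agent.T157.CutDef_54
import Crest.Agent.T157.NrmS_84

/-!
Row 157, part D (helper49): `CutStmt` gives the third part of S0231; S0231 from `BarStmt` and
`CutStmt`.
-/

set_option autoImplicit false
set_option linter.dupNamespace false

noncomputable section

namespace Crest.Agent.T157.Mix

open Finset Matrix MeasureTheory Filter
open Crest.ProbabilityR.SpinGlassDynamics
open Crest.Agent.T157.E Crest.Agent.T157.Cut Crest.Agent.T157.Bar Crest.Agent.T157.Eig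

variable {n : ℕ}

theorem hb_ge {w : Cube n → ℝ} (hw : ∀ x, 0 < w x) {R : ℝ} (hR0 : 0 < R)
    (hR : ∀ x i b, w x ≤ R * w (Function.update x i b)) (x : Cube n) (i : Fin n) (b : Bool) :
    1 / n * (1 / (2 * R)) ≤ hb w x (Function.update x i b) := by
  refine mul_le_mul_of_nonneg_left ?_ (by positivity)
  refine le_trans ?_ (single_le_sum (f := fun i' : Fin n =>
    if (∀ j : Fin n, j ≠ i' → Function.update x i b j = x j) then w (Function.update x i b) /
      (w (Function.update x i' true) + w (Function.update x i' false)) else 0)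
    (fun i' _ => ?_) (mem_univ i))
  · rw [if_pos fun j hj => Function.update_of_ne hj _ _,
      div_le_div_iff₀ (by positivity) (add_pos (hw _) (hw _))]
    have h1 := hR (Function.update x i true) i b
    have h2 := hR (Function.update x i false) i b
    rw [Function.update_idem] at h1 h2
    linarith
  · split_ifs
    · exact (div_pos (hw _) (add_pos (hw _) (hw _))).le
    · exact le_rfl

theorem fl_ge_bd (hn : 0 < n) {w : Cube n → ℝ} (hw : ∀ x, 0 < w x) {R : ℝ} (hR0 : 0 < R)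
    (hR : ∀ x i b, w x ≤ R * w (Function.update x i b)) (A : Set (Cube n)) :
    mass w (bd A) / (4 * n * R) ≤ fl (rc hn hw) (I A) := by
  have hn' : (0 : ℝ) < n := by exact_mod_cast hn
  have e : mass w (bd A) / (4 * n * R) =
      (1 / 2) * ∑ x, prob w x * (I (bd A) x * (1 / n * (1 / (2 * R)))) := by
    rw [mass_eq, Chain22.mean]
    simp only [← mul_assoc, ← sum_mul]
    field_simp
    ring
  rw [e, fl]
  refine mul_le_mul_of_nonneg_left (sum_le_sum fun x _ => ?_) (by norm_num)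
  have hnn : ∀ y, 0 ≤ (rc hn hw).π x * (rc hn hw).P x y * |I A x - I A y| := fun y =>
    mul_nonneg (w_nn _ x y) (abs_nonneg _)
  by_cases hx : x ∈ bd A
  · rw [I_mem hx, one_mul]
    obtain ⟨i, b, h⟩ := hx
    refine le_trans ?_ (single_le_sum (fun y _ => hnn y) (mem_univ (Function.update x i b)))
    have e1 : |I A x - I A (Function.update x i b)| = 1 := by
      by_cases h1 : x ∈ A <;> by_cases h2 : Function.update x i b ∈ A <;> simp_all
    rw [e1, mul_one]
    exact mul_le_mul_of_nonneg_left (hb_ge hw hR0 hR x i b) ((rc hn hw).pos x).le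
  · rw [I_not hx, zero_mul, mul_zero]
    exact sum_nonneg fun y _ => hnn y

theorem mass_compl {w : Cube n → ℝ} (hn : 0 < n) (hw : ∀ x, 0 < w x) (A : Set (Cube n)) :
    mass w Aᶜ = 1 - mass w A := by
  rw [mass_eq, mass_eq, eq_sub_iff_add_eq, ← Chain22.mean_add, ← (rc hn hw).isP.mean_const 1]
  refine Ent.mean_congr fun x => ?_
  by_cases hx : x ∈ A <;> simp [hx]

theorem mass_mono {w : Cube n → ℝ} (hn : 0 < n) (hw : ∀ x, 0 < w x) {A B : Set (Cube n)}
    (h : A ⊆ B) : mass w A ≤ mass w B := by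
  rw [mass_eq, mass_eq]
  refine (rc hn hw).isP.mean_mono fun x => ?_
  by_cases hx : x ∈ A
  · simp [hx, h hx]
  · rw [Set.indicator_of_notMem hx]; exact I_nn B x

/-- mixing from typical starts for a weight without cut -/
theorem mix_cube (hn : 0 < n) {w : Cube n → ℝ} (hw : ∀ x, 0 < w x) {R : ℝ} (hR0 : 0 < R)
    (hR : ∀ x i b, w x ≤ R * w (Function.update x i b)) {d φ : ℝ} (hd : 0 < d) (hd4 : d ≤ 1 / 4)
    (hφ : 0 < φ) (h : NoCut w d φ) :
    ∃ t : ℝ, 0 ≤ t ∧ t ≤ 72 * n ^ 3 * R ^ 2 / (φ ^ 2 * d ^ 2) + 2 ∧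
      mass w {x | 1 / 4 < E.tv (hbCt w t x) (prob w)} ≤ 20 * d := by
  have hn' : (0 : ℝ) < n := by exact_mod_cast hn
  have hn1 : (1 : ℝ) ≤ n := by exact_mod_cast hn
  set ψ : ℝ := φ / (12 * n * R) with hψ
  have hψ0 : 0 < ψ := by positivity
  set T : ℝ := 72 * n ^ 3 * R ^ 2 / (φ ^ 2 * d ^ 2) with hT
  have hT0 : 0 ≤ T := by positivity
  obtain ⟨j, hj, h1⟩ := mix_heat (rc hn hw) hd hd4 hψ0 (fun A h1 h2 => by
      have h3 : d ≤ mass w A := by rwa [mass_eq]
      have h4 : mass w A ≤ 1 / 2 := by rwa [mass_eq]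
      have h5 := h A h3 (by rw [mass_compl hn hw]; linarith)
      refine le_trans ?_ (fl_ge_bd hn hw hR0 hR A)
      have : 3 * ψ = φ / (4 * n * R) := by rw [hψ]; field_simp; ring
      rw [this]
      exact div_le_div_of_nonneg_right h5 (by positivity))
    (k := ⌈T⌉₊ + 1) (Nat.succ_pos _) (by
      have e1 : Real.log (Fintype.card (Cube n)) ≤ n := by
        simp only [Fintype.card_pi, Fintype.card_bool, prod_const, card_univ, Fintype.card_fin,
          Nat.cast_pow, Nat.cast_ofNat, Real.log_pow]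
        have := Real.log_two_lt_d9
        nlinarith
      have e2 : T * (2 * ψ ^ 2 * d ^ 2) = n := by rw [hT, hψ]; field_simp; ring
      have e3 : T ≤ ((⌈T⌉₊ + 1 : ℕ) : ℝ) := by push_cast; linarith [Nat.le_ceil T]
      calc _ ≤ (n : ℝ) := e1
        _ = T * (2 * ψ ^ 2 * d ^ 2) := e2.symm
        _ ≤ _ := mul_le_mul_of_nonneg_right e3 (by positivity))
  refine ⟨j / n, by positivity, ?_, ?_⟩
  · have e1 : (j : ℝ) ≤ ⌈T⌉₊ := by exact_mod_cast Nat.lt_succ_iff.1 hj
    have e2 := (Nat.ceil_lt_add_one hT0).le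
    have e3 : (j : ℝ) / n ≤ j := div_le_self (Nat.cast_nonneg _) hn1
    linarith
  · have e : hbCt w (j / n) = (rc hn hw).H (j : ℕ) := by
      funext x y
      rw [hbCt_eq hn hw, mul_div_cancel₀ _ hn'.ne']
    rw [e, mass_eq]
    exact h1

theorem nrm_sv (x : Cube n) : nrm (sv x) = Real.sqrt n := by rw [nrm, sv_dot_self]

theorem nrm_flip (x : Cube n) (i : Fin n) (b : Bool) :
    nrm (sv x - sv (Function.update x i b)) ≤ 2 := by
  rw [nrm_le_iff (by norm_num), dotProduct, sum_eq_single i]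
  · simp only [Pi.sub_apply, sv, Function.update_self]
    cases x i <;> cases b <;> norm_num [spin]
  · intro j _ hj; simp [sv, Function.update_of_ne hj]
  · simp

/-- one flip changes an Ising weight by at most `exp (2 ‖A‖ √n)` -/
theorem ising_ratio (A : Matrix (Fin n) (Fin n) ℝ) {K : ℝ} (hK : opn A ≤ K) (x : Cube n)
    (i : Fin n) (b : Bool) :
    ising A 0 x ≤ Real.exp (2 * K * Real.sqrt n) * ising A 0 (Function.update x i b) := by
  rw [ising, ising, ← Real.exp_add, Real.exp_le_exp, zero_dotProduct, zero_dotProduct]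
  set u := sv x
  set v := sv (Function.update x i b)
  have e : u ⬝ᵥ A *ᵥ u = v ⬝ᵥ A *ᵥ v + (u - v) ⬝ᵥ A *ᵥ u + v ⬝ᵥ A *ᵥ (u - v) := by
    rw [sub_dotProduct, mulVec_sub, dotProduct_sub]; ring
  have h1 := (le_abs_self _).trans (abs_bil_le A (u - v) u)
  have h2 := (le_abs_self _).trans (abs_bil_le A v (u - v))
  have h3 : nrm (u - v) ≤ 2 := nrm_flip x i b
  rw [nrm_sv] at h1 h2
  have h4 : opn A * (nrm (u - v) * Real.sqrt n) ≤ K * (2 * Real.sqrt n) :=
    mul_le_mul hK (mul_le_mul_of_nonneg_right h3 (Real.sqrt_nonneg _))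
      (mul_nonneg (nrm_nonneg _) (Real.sqrt_nonneg _)) ((opn_nonneg A).trans hK)
  rw [mul_comm (Real.sqrt n)] at h2
  linarith

theorem gibbs_ratio {β : ℝ} (hβ : 0 ≤ β) {g : Pair n → ℝ} (hg : opn (Jmat n g) ≤ 18) (x : Cube n)
    (i : Fin n) (b : Bool) : gibbsWeight n β g x ≤
      Real.exp (2 * (β * 18) * Real.sqrt n) * gibbsWeight n β g (Function.update x i b) := by
  rw [gibbsWeight_eq_ising]
  refine ising_ratio _ ?_ x i b
  rw [opn_smul, abs_of_nonneg hβ]
  exact mul_le_mul_of_nonneg_left hg hβ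

theorem opn_small : Tendsto (fun n : ℕ => disorderLaw n {g | 18 < opn (Jmat n g)}) atTop
    (nhds 0) := by
  have h1 : Tendsto (fun n : ℕ => ENNReal.ofReal (Real.exp (-n))) atTop (nhds 0) := by
    rw [← ENNReal.ofReal_zero]
    exact ENNReal.tendsto_ofReal (Real.tendsto_exp_neg_atTop_nhds_zero.comp
      tendsto_natCast_atTop_atTop)
  refine tendsto_of_tendsto_of_tendsto_of_le_of_le tendsto_const_nhds h1 (fun _ => bot_le)
    fun n => ?_
  have h := Nrm.opn_Jmat_18 (n := n) (fun _ => ProbabilityTheory.gaussianReal 0 1)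
    fun _ => Nrm.subG_gauss
  rw [← ofReal_measureReal (measure_ne_top _ _)]
  exact ENNReal.ofReal_le_ofReal h

theorem time_le {β d c c0 : ℝ} (hβ : 0 ≤ β) (hd : 0 < d) (hc : c0 < c) (hc0 : c0 < 1 / 2) :
    ∀ᶠ n : ℕ in atTop, 72 * (n : ℝ) ^ 3 * Real.exp (2 * (β * 18) * Real.sqrt n) ^ 2 /
      (Real.exp (-(n : ℝ) ^ (1 - c)) ^ 2 * d ^ 2) + 2 ≤ Real.exp ((n : ℝ) ^ (1 - c0)) := by
  set b : ℝ := max (1 - c) (1 / 2) with hb
  have hb1 : b < 1 - c0 := max_lt (by linarith) (by linarith)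
  set K : ℝ := 72 * 720 / d ^ 2 + 2 with hK
  have hK0 : 0 < K := by positivity
  have h2 : Tendsto (fun n : ℕ => (n : ℝ) ^ (1 - c0 - b)) atTop atTop :=
    (tendsto_rpow_atTop (by linarith)).comp tendsto_natCast_atTop_atTop
  filter_upwards [h2.eventually_ge_atTop (K + 72 * β + 3), eventually_ge_atTop 1] with n hn hn1
  have hn0 : (1 : ℝ) ≤ n := by exact_mod_cast hn1
  set u : ℝ := (n : ℝ) ^ b with hu
  have u1 : 1 ≤ u := Real.one_le_rpow hn0 (by positivity)
  have u2 : Real.sqrt n ≤ u := by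
    rw [Real.sqrt_eq_rpow]; exact Real.rpow_le_rpow_of_exponent_le hn0 (le_max_right _ _)
  have u3 : (n : ℝ) ^ (1 - c) ≤ u := Real.rpow_le_rpow_of_exponent_le hn0 (le_max_left _ _)
  have u4 : (n : ℝ) ^ (1 - c0) = (n : ℝ) ^ (1 - c0 - b) * u := by
    rw [hu, ← Real.rpow_add (by linarith)]; ring_nf
  have u5 : (n : ℝ) ^ 3 ≤ 720 * Real.exp u := by
    have h1 := Real.pow_div_factorial_le_exp u (by linarith) 6
    have h3 : (n : ℝ) ^ 3 = Real.sqrt n ^ 6 := by
      rw [show 6 = 2 * 3 by norm_num, pow_mul, Real.sq_sqrt (by linarith)]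
    have h4 : Real.sqrt n ^ 6 ≤ u ^ 6 := pow_le_pow_left₀ (Real.sqrt_nonneg _) u2 6
    norm_num [Nat.factorial] at h1
    rw [div_le_iff₀ (by norm_num)] at h1
    linarith
  have e1 : 72 * (n : ℝ) ^ 3 * Real.exp (2 * (β * 18) * Real.sqrt n) ^ 2 /
      (Real.exp (-(n : ℝ) ^ (1 - c)) ^ 2 * d ^ 2) =
      72 / d ^ 2 * (n : ℝ) ^ 3 * Real.exp (72 * β * Real.sqrt n + 2 * (n : ℝ) ^ (1 - c)) := by
    rw [Real.exp_neg, Real.exp_add, show 72 * β * Real.sqrt n =
      2 * (β * 18) * Real.sqrt n + 2 * (β * 18) * Real.sqrt n by ring, Real.exp_add, two_mul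
      ((n : ℝ) ^ (1 - c)), Real.exp_add]
    field_simp
  have e2 : Real.exp (72 * β * Real.sqrt n + 2 * (n : ℝ) ^ (1 - c)) ≤
      Real.exp ((72 * β + 2) * u) := Real.exp_le_exp.2 (by nlinarith)
  have e3 : 72 / d ^ 2 * (n : ℝ) ^ 3 * Real.exp (72 * β * Real.sqrt n + 2 * (n : ℝ) ^ (1 - c)) ≤
      72 / d ^ 2 * (720 * Real.exp u) * Real.exp ((72 * β + 2) * u) := by gcongr
  have e4 : Real.exp u * Real.exp ((72 * β + 2) * u) = Real.exp ((72 * β + 3) * u) := by
    rw [← Real.exp_add]; ring_nf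
  have e5 : 1 ≤ Real.exp ((72 * β + 3) * u) := Real.one_le_exp (by positivity)
  have e6 : K ≤ Real.exp (K * u) := by
    have := Real.add_one_le_exp (K * u)
    nlinarith
  calc _ ≤ K * Real.exp ((72 * β + 3) * u) := by
        rw [e1, hK, add_mul, ← e4]
        have : 72 / d ^ 2 * (720 * Real.exp u) * Real.exp ((72 * β + 2) * u) =
          72 * 720 / d ^ 2 * (Real.exp u * Real.exp ((72 * β + 2) * u)) := by ring
        rw [e4] at this ⊢
        linarith
    _ ≤ Real.exp (K * u) * Real.exp ((72 * β + 3) * u) :=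
        mul_le_mul_of_nonneg_right e6 (Real.exp_pos _).le
    _ ≤ _ := by
        rw [← Real.exp_add, Real.exp_le_exp, u4]; nlinarith

/-- third part of S0231 from the cut statement -/
theorem upper_of_cut (h : CutStmt) (β : ℝ) (hβ : 1 < β) (η : ℝ) (hη : 0 < η) :
    Tendsto (fun n : ℕ => disorderLaw n {g | gibbsMass n β g
      {x | ∃ t : ℝ, 0 ≤ t ∧ t ≤ Real.exp ((n : ℝ) ^ (1 - 1 / 40000000 : ℝ)) ∧
        stateTV n β g t x ≤ 1 / 4} ≤ 1 - η}) atTop (nhds 0) := by
  set d : ℝ := min η 1 / 40 with hd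
  have hd0 : 0 < d := by positivity
  have hd1 : d ≤ 1 / 4 := by linarith [min_le_right η 1]
  have hd2 : 20 * d < η := by linarith [min_le_left η 1]
  obtain ⟨c, hc, h⟩ := h β hβ d hd0
  have h2 := h.add opn_small
  rw [add_zero] at h2
  refine tendsto_of_tendsto_of_tendsto_of_le_of_le' tendsto_const_nhds h2
    (Eventually.of_forall fun _ => bot_le) ?_
  filter_upwards [time_le (by linarith : 0 ≤ β) hd0 hc (by norm_num), eventually_gt_atTop 0]
    with n hn hn0
  refine le_trans (measure_mono fun g hg => ?_) (measure_union_le _ _)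
  by_contra hcon
  simp only [Set.mem_union, Set.mem_ofPred_eq, not_or, not_not, not_lt] at hcon
  obtain ⟨t, ht0, ht1, ht2⟩ := mix_cube hn0 (gibbsWeight_pos β g) (Real.exp_pos _)
    (gibbs_ratio (by linarith) hcon.2) hd0 hd1 (Real.exp_pos _) hcon.1
  simp only [Set.mem_ofPred_eq, gibbsMass_eq, stateTV_eq] at hg
  have h3 := mass_mono hn0 (gibbsWeight_pos β g)
    (A := {x | 1 / 4 < E.tv (hbCt (gibbsWeight n β g) t x) (prob (gibbsWeight n β g))}ᶜ)
    (B := {x | ∃ t : ℝ, 0 ≤ t ∧ t ≤ Real.exp ((n : ℝ) ^ (1 - 1 / 40000000 : ℝ)) ∧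
      E.tv (hbCt (gibbsWeight n β g) t x) (prob (gibbsWeight n β g)) ≤ 1 / 4})
    fun x hx => ⟨t, ht0, ht1.trans hn, not_lt.1 hx⟩
  rw [mass_compl hn0 (gibbsWeight_pos β g)] at h3
  linarith

/-- S0231 from the barrier and the cut statements -/
theorem s0231_of (h1 : BarStmt) (h2 : CutStmt) (β : ℝ) (hβ : 1 < β) (η : ℝ) (hη : 0 < η) :
    Tendsto (fun n : ℕ => disorderLaw n {g | η ≤ gibbsMass n β g
      {x | stateTV n β g (Real.exp ((n : ℝ) ^ (1 / 10000 : ℝ))) x ≤ 1 / 4}}) atTop (nhds 0) ∧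
    Tendsto (fun n : ℕ => disorderLaw n {g | η ≤ gibbsMass n β g
      {x | stateTVdisc n β g ⌊Real.exp ((n : ℝ) ^ (1 / 10000 : ℝ))⌋₊ x ≤ 1 / 4}})
      atTop (nhds 0) ∧
    Tendsto (fun n : ℕ => disorderLaw n {g | gibbsMass n β g
      {x | ∃ t : ℝ, 0 ≤ t ∧ t ≤ Real.exp ((n : ℝ) ^ (1 - 1 / 40000000 : ℝ)) ∧
        stateTV n β g t x ≤ 1 / 4} ≤ 1 - η}) atTop (nhds 0) :=
  ⟨lower_cont h1 β hβ η hη, lower_disc h1 β hβ η hη, upper_of_cut h2 β hβ η hη⟩

end Crest.Agent.T157.Mix
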