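import Crest.Agent.T157.Orb_59

/-!
# Row 157, part A2 (helper59): first and second moments on cosets of `SO(m)`
-/

set_option autoImplicit false

noncomputable section

namespace Crest.Agent.T157.Orb

open MeasureTheory Matrix Set Filter
open Crest.Agent.Lib.OrthPoinc Crest.Agent.T157.Oc

variable {m : ℕ}

lemma exists_perp {r : ℕ} (h : r < m) (a : Fin r → Fin m → ℝ) :
    ∃ u : Fin m → ℝ, u ≠ 0 ∧ ∀ i, u ⬝ᵥ a i = 0 := by
  have h1 : LinearMap.ker (Matrix.of a).mulVecLin ≠ ⊥ :=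
    LinearMap.ker_ne_bot_of_finrank_lt (by simpa using h)
  obtain ⟨u, hu, hu0⟩ := Submodule.exists_mem_ne_zero_of_ne_bot h1
  exact ⟨u, hu0, fun i => (dotProduct_comm _ _).trans (congrFun (LinearMap.mem_ker.1 hu) i)⟩

/-- a vector orthogonal to `a, b` and fixed by their stabiliser vanishes -/
lemma fix_perp (hm : 4 ≤ m) {a b y : Fin m → ℝ} (ha : y ⬝ᵥ a = 0) (hb : y ⬝ᵥ b = 0)
    (h : ∀ k ∈ SO m, Matrix.of k *ᵥ a = a → Matrix.of k *ᵥ b = b → Matrix.of k *ᵥ y = y) :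
    y = 0 := by
  by_contra hy
  obtain ⟨u, hu, hu'⟩ := exists_perp (r := 3) (by omega) ![a, b, y]
  have e : ∀ v, Matrix.of (fun k l => (hs y * hs u) k l) *ᵥ v = hs y *ᵥ (hs u *ᵥ v) := fun v =>
    (mulVec_mulVec v (hs y) (hs u)).symm
  have h1 := h _ (hs_hs_mem hy hu) (by rw [e, hs_fix (x := a) (hu' 0), hs_fix ha])
    (by rw [e, hs_fix (x := b) (hu' 1), hs_fix hb])
  rw [e, hs_fix (x := y) (hu' 2), hs_self] at h1
  exact hy (funext fun i => by have := congrFun h1 i; simp only [Pi.neg_apply] at this; simp; linarith)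

/-- the part of `v` orthogonal to `a` -/
def pr (a v : Fin m → ℝ) : Fin m → ℝ := v - (v ⬝ᵥ a / (a ⬝ᵥ a)) • a

lemma pr_dot (a v : Fin m → ℝ) : pr a v ⬝ᵥ a = 0 := by
  rw [pr, sub_dotProduct, smul_dotProduct, smul_eq_mul]
  by_cases h : a ⬝ᵥ a = 0
  · rw [dotProduct_self_eq_zero.1 h]; simp
  · rw [div_mul_cancel₀ _ h, sub_self]

lemma fix_vec (hm : 4 ≤ m) {σ v : Fin m → ℝ}
    (h : ∀ k ∈ SO m, Matrix.of k *ᵥ σ = σ → Matrix.of k *ᵥ v = v) :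
    v = (v ⬝ᵥ σ / (σ ⬝ᵥ σ)) • σ :=
  sub_eq_zero.1 (fix_perp hm (pr_dot σ v) (pr_dot σ v) fun k hk h1 _ => by
    rw [mulVec_sub, mulVec_smul, h k hk h1, h1])

lemma fix_mat (hm : 4 ≤ m) {σ : Fin m → ℝ} (hσ : σ ≠ 0) {N : Matrix (Fin m) (Fin m) ℝ}
    (h : ∀ k ∈ SO m, Matrix.of k *ᵥ σ = σ → Matrix.of k * N * (Matrix.of k)ᵀ = N) :
    N = (σ ⬝ᵥ N *ᵥ σ / (σ ⬝ᵥ σ) ^ 2) • vecMulVec σ σ +
      ((N.trace - σ ⬝ᵥ N *ᵥ σ / (σ ⬝ᵥ σ)) / (m - 1)) • (1 - (σ ⬝ᵥ σ)⁻¹ • vecMulVec σ σ) := by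
  have hs0 : σ ⬝ᵥ σ ≠ 0 := fun h0 => hσ (dotProduct_self_eq_zero.1 h0)
  have hc : ∀ k ∈ SO m, Matrix.of k *ᵥ σ = σ → ∀ v,
      Matrix.of k *ᵥ (N *ᵥ v) = N *ᵥ (Matrix.of k *ᵥ v) := fun k hk h1 v => by
    conv_rhs => rw [← h k hk h1]
    simp only [mulVec_mulVec, Matrix.mul_assoc, tp_mul hk, Matrix.mul_one]
  have hc' : ∀ k ∈ SO m, Matrix.of k *ᵥ σ = σ → Matrix.of k *ᵥ (Nᵀ *ᵥ σ) = Nᵀ *ᵥ σ :=
    fun k hk h1 => by
      conv_rhs => rw [← h k hk h1, ← h1]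
      simp only [transpose_mul, transpose_transpose, mulVec_mulVec, Matrix.mul_assoc, tp_mul hk,
        Matrix.mul_one]
  have h1 : N *ᵥ σ = ((N *ᵥ σ) ⬝ᵥ σ / (σ ⬝ᵥ σ)) • σ :=
    fix_vec hm fun k hk e => by rw [hc k hk e, e]
  have h2 : ∀ v, v ⬝ᵥ σ = 0 → (N *ᵥ v) ⬝ᵥ σ = 0 := fun v hv => by
    rw [dotProduct_comm, dotProduct_mulVec, ← mulVec_transpose, fix_vec hm hc', smul_dotProduct,
      dotProduct_comm σ v, hv, smul_zero]
  have h3 : ∀ v, v ⬝ᵥ σ = 0 → N *ᵥ v = ((N *ᵥ v) ⬝ᵥ v / (v ⬝ᵥ v)) • v := fun v hv =>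
    sub_eq_zero.1 (fix_perp hm (a := σ) (b := v)
      (by rw [sub_dotProduct, smul_dotProduct, h2 v hv, hv, smul_zero, sub_zero]) (pr_dot v _)
      fun k hk e1 e2 => by rw [mulVec_sub, mulVec_smul, hc k hk e1, e2])
  have h4 : ∀ v w, v ⬝ᵥ σ = 0 → w ⬝ᵥ σ = 0 → v ⬝ᵥ v = w ⬝ᵥ w →
      (N *ᵥ v) ⬝ᵥ v = (N *ᵥ w) ⬝ᵥ w := fun v w hv hw hvw => by
    rcases eq_or_ne v w with rfl | hne
    · rfl
    obtain ⟨u, hu, hu'⟩ := exists_perp (r := 2) (by omega) ![σ, v]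
    have hk := hs_hs_mem (sub_ne_zero.2 hne) hu
    have e : ∀ x, Matrix.of (fun k l => (hs (v - w) * hs u) k l) *ᵥ x =
        hs (v - w) *ᵥ (hs u *ᵥ x) := fun x => (mulVec_mulVec x (hs (v - w)) (hs u)).symm
    have e1 := (e σ).trans (show _ = σ by
      rw [hs_fix (x := σ) (hu' 0), hs_fix (by rw [sub_dotProduct, hv, hw, sub_zero])])
    have e2 := (e v).trans (show _ = w by rw [hs_fix (x := v) (hu' 1), hs_swap hvw])
    rw [← e2, ← hc _ hk e1, dotProduct_mulVec, ← mulVec_transpose, mulVec_mulVec, tp_mul hk,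
      one_mulVec]
  obtain ⟨v0, hv0, hv0'⟩ := exists_perp (r := 1) (by omega) ![σ]
  have hv00 : v0 ⬝ᵥ σ = 0 := hv0' 0
  have hp0 : 0 < v0 ⬝ᵥ v0 := lt_of_le_of_ne (dotProduct_self_star_nonneg v0 |>.trans_eq (by simp))
    fun h0 => hv0 (dotProduct_self_eq_zero.1 h0.symm)
  set β := (N *ᵥ v0) ⬝ᵥ v0 / (v0 ⬝ᵥ v0) with hβ
  have h5 : ∀ v, v ⬝ᵥ σ = 0 → N *ᵥ v = β • v := fun v hv => by
    rcases eq_or_ne v 0 with rfl | hne
    · simp
    have hp : 0 ≤ v ⬝ᵥ v := dotProduct_self_star_nonneg v |>.trans_eq (by simp)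
    have hp' : v ⬝ᵥ v ≠ 0 := fun h0 => hne (dotProduct_self_eq_zero.1 h0)
    have hq : Real.sqrt (v ⬝ᵥ v / (v0 ⬝ᵥ v0)) * Real.sqrt (v ⬝ᵥ v / (v0 ⬝ᵥ v0)) =
        v ⬝ᵥ v / (v0 ⬝ᵥ v0) := Real.mul_self_sqrt (by positivity)
    have := h4 v (Real.sqrt (v ⬝ᵥ v / (v0 ⬝ᵥ v0)) • v0) hv (by rw [smul_dotProduct, hv00, smul_zero])
      (by rw [smul_dotProduct, dotProduct_smul, smul_eq_mul, smul_eq_mul, ← mul_assoc, hq,
        div_mul_cancel₀ _ hp0.ne'])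
    rw [h3 v hv, this, mulVec_smul, smul_dotProduct, dotProduct_smul, smul_eq_mul, smul_eq_mul,
      ← mul_assoc, hq, hβ]
    congr 1
    field_simp
  have h6 : N = (σ ⬝ᵥ N *ᵥ σ / (σ ⬝ᵥ σ) ^ 2) • vecMulVec σ σ +
      β • (1 - (σ ⬝ᵥ σ)⁻¹ • vecMulVec σ σ) := by
    refine Matrix.ext_of_mulVec_single fun i => ?_
    generalize (Pi.single i 1 : Fin m → ℝ) = x
    have e : x = pr σ x + (x ⬝ᵥ σ / (σ ⬝ᵥ σ)) • σ := (sub_add_cancel _ _).symm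
    conv_lhs => rw [e, mulVec_add, h5 _ (pr_dot σ x), mulVec_smul, h1]
    simp only [pr, add_mulVec, smul_mulVec, sub_mulVec, one_mulVec, vv_mulVec, smul_smul,
      dotProduct_comm σ x, dotProduct_comm (N *ᵥ σ) σ]
    rw [add_comm]
    congr 2
    · field_simp
    · rw [div_eq_inv_mul]
  have h7 : β = (N.trace - σ ⬝ᵥ N *ᵥ σ / (σ ⬝ᵥ σ)) / (m - 1) := by
    have := congrArg Matrix.trace h6
    simp only [trace_add, trace_smul, trace_sub, trace_one, trace_vecMulVec, smul_eq_mul,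
      Fintype.card_fin, inv_mul_cancel₀ hs0] at this
    have hm' : (m : ℝ) - 1 ≠ 0 := by
      have : (4 : ℝ) ≤ m := by exact_mod_cast hm
      linarith
    rw [eq_div_iff hm', this]
    field_simp
    ring
  rw [← h7]
  exact h6

variable {μ : Measure (Mat m)} [IsProbabilityMeasure μ]

lemma int_left (hμ : SOInv μ) {k : Mat m} (hk : k ∈ SO m) {f : Mat m → ℝ} (hf : Integrable f μ) :
    ∫ U, f (mm k U) ∂μ = ∫ U, f U ∂μ := by
  have h := mp_left hμ hk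
  conv_rhs => rw [← h.map_eq]
  exact (integral_map h.measurable.aemeasurable
    (by rw [h.map_eq]; exact hf.aestronglyMeasurable)).symm

lemma xi_fix {σ : Fin m → ℝ} {k : Mat m} (hk : k ∈ SO m) (h : Matrix.of k *ᵥ σ = σ) (U : Mat m) :
    xi σ (mm k U) = xi σ U := by rw [xi_mm, xi_eq_of hk h]

/-- mean of an equivariant vector -/
theorem mean_vec (hμ : SOInv μ) (hm : 4 ≤ m) (σ : Fin m → ℝ) {F : Mat m → Fin m → ℝ}
    (hi : ∀ i, Integrable (fun U => F U i) μ)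
    (h : ∀ k ∈ SO m, Matrix.of k *ᵥ σ = σ → ∀ U, F (mm k U) = Matrix.of k *ᵥ F U) (i : Fin m) :
    ∫ U, F U i ∂μ = (∫ U, F U ⬝ᵥ σ ∂μ) / (σ ⬝ᵥ σ) * σ i := by
  have h1 := fix_vec hm (σ := σ) (v := fun i => ∫ U, F U i ∂μ) fun k hk e => funext fun i => by
    rw [← int_left hμ hk (hi i)]
    simp only [h k hk e, mulVec, dotProduct]
    rw [integral_finsetSum _ fun j _ => (hi j).const_mul _]
    simp only [integral_const_mul]
  have h2 : (fun i => ∫ U, F U i ∂μ) ⬝ᵥ σ = ∫ U, F U ⬝ᵥ σ ∂μ := by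
    simp only [dotProduct]
    rw [integral_finsetSum _ fun j _ => (hi j).mul_const _]
    simp only [integral_mul_const]
  rw [h2] at h1
  exact congrFun h1 i

/-- mean of an equivariant matrix -/
theorem mean_mat (hμ : SOInv μ) (hm : 4 ≤ m) {σ : Fin m → ℝ} (hσ : σ ≠ 0)
    {F : Mat m → Matrix (Fin m) (Fin m) ℝ} (hi : ∀ i j, Integrable (fun U => F U i j) μ)
    (h : ∀ k ∈ SO m, Matrix.of k *ᵥ σ = σ → ∀ U,
      F (mm k U) = Matrix.of k * F U * (Matrix.of k)ᵀ) :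
    (Matrix.of fun i j => ∫ U, F U i j ∂μ) =
      ((∫ U, σ ⬝ᵥ F U *ᵥ σ ∂μ) / (σ ⬝ᵥ σ) ^ 2) • vecMulVec σ σ +
      ((∫ U, (F U).trace ∂μ - (∫ U, σ ⬝ᵥ F U *ᵥ σ ∂μ) / (σ ⬝ᵥ σ)) / (m - 1)) •
        (1 - (σ ⬝ᵥ σ)⁻¹ • vecMulVec σ σ) := by
  have h1 := fix_mat hm hσ (N := Matrix.of fun i j => ∫ U, F U i j ∂μ) fun k hk e => by
    ext i j
    rw [of_apply, ← int_left hμ hk (hi i j)]
    simp only [h k hk e, Matrix.mul_apply, of_apply]
    rw [integral_finsetSum _ fun a _ =>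
      (integrable_finsetSum _ fun b _ => (hi b a).const_mul _).mul_const _]
    refine Finset.sum_congr rfl fun a _ => ?_
    rw [integral_mul_const, integral_finsetSum _ fun b _ => (hi b a).const_mul _]
    simp only [integral_const_mul]
  have h2 : σ ⬝ᵥ (Matrix.of fun i j => ∫ U, F U i j ∂μ) *ᵥ σ = ∫ U, σ ⬝ᵥ F U *ᵥ σ ∂μ := by
    simp only [dotProduct, mulVec, of_apply]
    rw [integral_finsetSum _ fun a _ =>
      (integrable_finsetSum _ fun b _ => (hi a b).mul_const _).const_mul _]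
    refine Finset.sum_congr rfl fun a _ => ?_
    rw [integral_const_mul, integral_finsetSum _ fun b _ => (hi a b).mul_const _]
    simp only [integral_mul_const]
  have h3 : (Matrix.of fun i j => ∫ U, F U i j ∂μ).trace = ∫ U, (F U).trace ∂μ := by
    simp only [Matrix.trace, diag_apply, of_apply]
    rw [integral_finsetSum _ fun a _ => hi a a]
  rwa [h2, h3] at h1

omit [IsProbabilityMeasure μ] in
lemma int_entry_mul (hμ : SOInv μ) {f : Mat m → ℝ} (hf : Integrable f μ) (a b : Fin m) :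
    Integrable (fun U => U a b * f U) μ :=
  hf.bdd_mul (c := 1) (Measurable.aestronglyMeasurable (by fun_prop))
    (hμ.mem.mono fun _ hU => abs_le_one_of_so hU a b)

/-- **(M2)** `E [U w(ξ)] = E [w(ξ) · ξ] σ / |σ|²`, `ξ = U' σ` -/
theorem coset_vec (hμ : SOInv μ) (hm : 4 ≤ m) (σ : Fin m → ℝ) {w : (Fin m → ℝ) → Fin m → ℝ}
    (hi : ∀ i, Integrable (fun U => w (xi σ U) i) μ) (i : Fin m) :
    ∫ U, (Matrix.of U *ᵥ w (xi σ U)) i ∂μ =
      (∫ U, w (xi σ U) ⬝ᵥ xi σ U ∂μ) / (σ ⬝ᵥ σ) * σ i := by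
  rw [mean_vec hμ hm σ (F := fun U => Matrix.of U *ᵥ w (xi σ U))
    (fun i => integrable_finsetSum Finset.univ fun j _ => int_entry_mul hμ (hi j) i j)
    (fun k hk e U => by rw [xi_fix hk e, of_mm, mulVec_mulVec]) i]
  congr 3
  funext U
  rw [dotProduct_comm, dotProduct_mulVec, ← mulVec_transpose, dotProduct_comm]
  rfl

/-- **(M3)** `E [U M(ξ) U']` -/
theorem coset_mat (hμ : SOInv μ) (hm : 4 ≤ m) {σ : Fin m → ℝ} (hσ : σ ≠ 0)
    {M : (Fin m → ℝ) → Matrix (Fin m) (Fin m) ℝ}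
    (hi : ∀ i j, Integrable (fun U => M (xi σ U) i j) μ) :
    (Matrix.of fun i j => ∫ U, (Matrix.of U * M (xi σ U) * (Matrix.of U)ᵀ) i j ∂μ) =
      ((∫ U, xi σ U ⬝ᵥ M (xi σ U) *ᵥ xi σ U ∂μ) / (σ ⬝ᵥ σ) ^ 2) • vecMulVec σ σ +
      ((∫ U, (M (xi σ U)).trace ∂μ -
        (∫ U, xi σ U ⬝ᵥ M (xi σ U) *ᵥ xi σ U ∂μ) / (σ ⬝ᵥ σ)) / (m - 1)) •
        (1 - (σ ⬝ᵥ σ)⁻¹ • vecMulVec σ σ) := by
  rw [mean_mat hμ hm hσ (F := fun U => Matrix.of U * M (xi σ U) * (Matrix.of U)ᵀ)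
    (fun i j => (integrable_finsetSum Finset.univ fun a _ => int_entry_mul hμ
      (integrable_finsetSum Finset.univ fun b _ => int_entry_mul hμ (hi b a) i b) j a).congr
        (ae_of_all _ fun U => Finset.sum_congr rfl fun a _ => mul_comm _ _))
    fun k hk e U => by simp only [xi_fix hk e, of_mm, transpose_mul, Matrix.mul_assoc]]
  have e1 : ∀ U : Mat m, σ ⬝ᵥ (Matrix.of U * M (xi σ U) * (Matrix.of U)ᵀ) *ᵥ σ =
      xi σ U ⬝ᵥ M (xi σ U) *ᵥ xi σ U := fun U => by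
    rw [← mulVec_mulVec, ← mulVec_mulVec, dotProduct_mulVec, ← mulVec_transpose]
    rfl
  have e2 : ∫ U, (Matrix.of U * M (xi σ U) * (Matrix.of U)ᵀ).trace ∂μ =
      ∫ U, (M (xi σ U)).trace ∂μ := by
    refine integral_congr_ae ((ae_SO hμ).mono fun U hU => ?_)
    simp only
    rw [trace_mul_cycle, tp_mul hU, Matrix.one_mul]
  simp only [e1, e2]

end Crest.Agent.T157.Orb
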