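import Crest.Agent.T157.MjA_84

set_option autoImplicit false
set_option linter.unusedSectionVars false

/-!
Row 157, A2 section 4 (helper84): spin flips at a fixed direction, Stein's identity on the cube,
the pointwise bound on `P (T - p)`.
-/

noncomputable section

namespace Crest.Agent.T157.Mj

open MeasureTheory Matrix Crest.Agent.Lib.OrthPoinc Filter Topology Set Real
open Crest.Agent.T157.Oc Crest.Agent.T157.E Crest.Agent.T157.SL Crest.Agent.T157.Ks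
open Crest.Agent.T157.Od Crest.Agent.T157.Oo

/-! ### scalar facts on `tanh` -/

theorem hd_tanh (x : ℝ) : HasDerivAt tanh (1 - tanh x ^ 2) x := by
  have h := (hasDerivAt_sinh x).div (hasDerivAt_cosh x) (cosh_pos x).ne'
  have e : tanh = sinh / cosh := funext fun y => tanh_eq_sinh_div_cosh y
  have := (cosh_pos x).ne'
  rw [e]
  refine h.congr_deriv ?_
  simp only [Pi.div_apply]
  field_simp

@[fun_prop] theorem cont_tanh : Continuous tanh :=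
  continuous_iff_continuousAt.2 fun x => (hd_tanh x).continuousAt

theorem th_lip (x η : ℝ) : |tanh (x + η) - tanh x| ≤ |η| := by
  have := convex_univ.norm_image_sub_le_of_norm_hasDerivWithin_le (C := 1) (f := tanh)
    (fun y _ => (hd_tanh y).hasDerivWithinAt) (fun y _ => by
      rw [Real.norm_eq_abs, abs_of_nonneg (sub_nonneg.2 (tanh_sq_lt_one y).le)]
      nlinarith [sq_nonneg (tanh y)]) (mem_univ x) (mem_univ (x + η))
  simpa using this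

theorem abs_th (η : ℝ) : |tanh η| ≤ |η| := by simpa using th_lip 0 η

theorem th_cube (η : ℝ) : |tanh η - η| ≤ |η| ^ 3 / 3 := by
  have hm : Monotone fun y => tanh y - y + y ^ 3 / 3 := by
    have hd : ∀ y, HasDerivAt (fun y => tanh y - y + y ^ 3 / 3) (y ^ 2 - tanh y ^ 2) y := fun y =>
      (((hd_tanh y).fun_sub (hasDerivAt_id' y)).fun_add ((hasDerivAt_pow 3 y).div_const 3)).congr_deriv
        (by norm_num; ring)
    refine monotone_of_deriv_nonneg (fun y => (hd y).differentiableAt) fun y => ?_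
    rw [(hd y).deriv, sub_nonneg]
    exact sq_le_sq.2 (abs_th y)
  have h0 := abs_le.1 (abs_th η)
  rcases le_total 0 η with h | h
  · have := hm h
    simp only [tanh_zero] at this
    rw [abs_of_nonneg h] at h0 ⊢
    exact abs_le.2 ⟨by linarith, by nlinarith [pow_nonneg h 3]⟩
  · have := hm h
    simp only [tanh_zero] at this
    rw [abs_of_nonpos h] at h0 ⊢
    exact abs_le.2 ⟨by nlinarith [pow_nonneg (neg_nonneg.2 h) 3], by nlinarith⟩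

theorem th_add (x η : ℝ) : tanh (x + η) * (1 + tanh x * tanh η) = tanh x + tanh η := by
  have h1 := (cosh_pos x).ne'
  have h2 := (cosh_pos η).ne'
  have h3 := (cosh_pos (x + η)).ne'
  simp only [tanh_eq_sinh_div_cosh]
  field_simp
  rw [sinh_add, cosh_add]
  ring

theorem th_taylor (x η : ℝ) :
    |tanh (x + η) - tanh x - (1 - tanh x ^ 2) * η| ≤ 2 * |tanh x| * η ^ 2 + |η| ^ 3 / 3 := by
  have h1 := th_add x η
  have hp := abs_tanh_lt_one x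
  have ht := abs_tanh_lt_one η
  have h2 := th_cube η
  have h3 : tanh η ^ 2 ≤ η ^ 2 := sq_le_sq.2 (abs_th η)
  generalize tanh (x + η) = T at *
  generalize tanh x = p at *
  generalize tanh η = τ at *
  have h4 : |p * τ| ≤ |p| := by
    rw [abs_mul]; exact mul_le_of_le_one_right (abs_nonneg _) ht.le
  have h5 : 0 < 1 + p * τ := by linarith [neg_abs_le (p * τ)]
  have hD : 0 ≤ 1 - p ^ 2 := by nlinarith [sq_abs p, abs_nonneg p]
  have h6 : (1 - p ^ 2) / (1 + p * τ) ≤ 2 := by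
    rw [div_le_iff₀ h5]; nlinarith [neg_abs_le (p * τ), sq_abs p, abs_nonneg p]
  have e : T - p - (1 - p ^ 2) * η =
      (1 - p ^ 2) * (τ - η) - (1 - p ^ 2) / (1 + p * τ) * (p * τ ^ 2) := by
    have : T = (p + τ) / (1 + p * τ) := by rw [eq_div_iff h5.ne', h1]
    rw [this]; field_simp; ring
  rw [e]
  refine (abs_sub _ _).trans ?_
  rw [abs_mul, abs_mul, abs_mul, abs_of_nonneg hD, abs_of_nonneg (div_nonneg hD h5.le),
    abs_of_nonneg (sq_nonneg τ)]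
  have a1 : (1 - p ^ 2) * |τ - η| ≤ |η| ^ 3 / 3 :=
    (mul_le_of_le_one_left (abs_nonneg _) (by nlinarith [sq_nonneg p])).trans h2
  have a2 : (1 - p ^ 2) / (1 + p * τ) * (|p| * τ ^ 2) ≤ 2 * (|p| * η ^ 2) :=
    mul_le_mul h6 (mul_le_mul_of_nonneg_left h3 (abs_nonneg _)) (by positivity) (by norm_num)
  linarith

/-- the remainder after removing the component `a` of the field -/
theorem th_rem (x a b : ℝ) : (tanh (x + (a + b)) - tanh x - (1 - tanh x ^ 2) * a) ^ 2 ≤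
    3 * (64 * (tanh x ^ 2 * a ^ 4) + 9 * a ^ 6 + 9 * b ^ 2) := by
  have hD : 0 ≤ 1 - tanh x ^ 2 := sub_nonneg.2 (tanh_sq_lt_one x).le
  have hD1 : 1 - tanh x ^ 2 ≤ 1 := by nlinarith [sq_nonneg (tanh x)]
  have key : |tanh (x + (a + b)) - tanh x - (1 - tanh x ^ 2) * a| ≤
      8 * |tanh x| * a ^ 2 + (3 * |a| ^ 3 + 3 * |b|) := by
    have h1 : |a + b| ≤ |a| + |b| := abs_add_le a b
    rcases le_total |b| |a| with h | h
    · have h2 := th_taylor x (a + b)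
      have h3 : |a + b| ≤ 2 * |a| := by linarith
      have h4 : (a + b) ^ 2 ≤ 4 * a ^ 2 := by
        have := pow_le_pow_left₀ (abs_nonneg _) h3 2
        rw [sq_abs, mul_pow, sq_abs] at this; linarith
      have h5 : |a + b| ^ 3 ≤ 8 * |a| ^ 3 := by
        have := pow_le_pow_left₀ (abs_nonneg _) h3 3
        rw [mul_pow] at this; linarith
      have h6 : |(1 - tanh x ^ 2) * b| ≤ |b| := by
        rw [abs_mul, abs_of_nonneg hD]; exact mul_le_of_le_one_left (abs_nonneg _) hD1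
      have e : tanh (x + (a + b)) - tanh x - (1 - tanh x ^ 2) * a =
          (tanh (x + (a + b)) - tanh x - (1 - tanh x ^ 2) * (a + b)) + (1 - tanh x ^ 2) * b := by ring
      rw [e]
      refine (abs_add_le _ _).trans ?_
      nlinarith [mul_le_mul_of_nonneg_left h4 (abs_nonneg (tanh x)), abs_nonneg b,
        pow_nonneg (abs_nonneg a) 3]
    · have h6 : |(1 - tanh x ^ 2) * a| ≤ |a| := by
        rw [abs_mul, abs_of_nonneg hD]; exact mul_le_of_le_one_left (abs_nonneg _) hD1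
      refine (abs_sub _ _).trans ?_
      have := th_lip x (a + b)
      have h7 : 0 ≤ 8 * |tanh x| * a ^ 2 := by positivity
      linarith [pow_nonneg (abs_nonneg a) 3]
  have h8 := pow_le_pow_left₀ (abs_nonneg _) key 2
  rw [sq_abs] at h8
  refine h8.trans ((sq3_le _ _ _).trans_eq ?_)
  have e6 : (|a| ^ 3) ^ 2 = a ^ 6 := by
    rw [← pow_mul, show 3 * 2 = 2 * 3 by rfl, pow_mul, sq_abs, ← pow_mul]
  simp only [mul_pow, sq_abs, e6]
  ring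

/-! ### flips and Stein's identity -/

variable {n k : ℕ} (o : Oo.Orb n k)

/-- flip of the spin `i` -/
def fl (i : Fin n) (s : Cube n) : Cube n := Function.update s i (!s i)
/-- logarithm of the polar weight -/
def lw (s : Cube n) (ω : Vn n) : ℝ := o.h ⬝ᵥ sv s + xp o s ω ⬝ᵥ o.W *ᵥ xp o s ω / 2
/-- the local field at fixed direction -/
def bi (s : Cube n) (ω : Vn n) (i : Fin n) : ℝ := sv s i * (lw o s ω - lw o (fl i s) ω) / 2
/-- conditional mean of the spins -/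
def Ti (s : Cube n) (ω : Vn n) (i : Fin n) : ℝ := tanh (bi o s ω i)
/-- discrete derivative -/
def dI (i : Fin n) (F : Cube n → Vn n → ℝ) (s : Cube n) (ω : Vn n) : ℝ :=
  sv s i * (F s ω - F (fl i s) ω) / 2
/-- `c` in polar form -/
abbrev cp (s : Cube n) (ω : Vn n) : ℝ := cc o s (xp o s ω)
/-- `|Π s|²` -/
def Z2 (s : Cube n) : ℝ := Qm o *ᵥ sv s ⬝ᵥ Qm o *ᵥ sv s
/-- the gradient `G = c ζ - Π y - p / χ` -/
def Gv (χ : ℝ) (s : Cube n) (ξ : Vn n) : Vn n :=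
  cc o s ξ • (Qm o *ᵥ sv s) - Qm o *ᵥ (A0 o *ᵥ ξ) - χ⁻¹ • o.p

/-- the frame of the orbit -/
structure Fr (x : Vn n) (χ r0 : ℝ) (e1 e2 : Vn n) : Prop where
  hp : ∀ i, o.p i = tanh (x i)
  hh : o.h = x + χ • o.p
  hz : o.z = χ + χ⁻¹
  lo : 1 / 2 ≤ χ
  hi : χ ≤ 1
  hW : Op2 o.W 9
  hq : Qm o = vecMulVec e1 e1 + vecMulVec e2 e2
  e11 : e1 ⬝ᵥ e1 = 1
  e22 : e2 ⬝ᵥ e2 = 1
  e12 : e1 ⬝ᵥ e2 = 0
  pe1 : o.p = r0 • e1
  n4 : 4 ≤ n
  pn : 4 * r0 ^ 2 ≤ n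

variable {o} {μ : Measure (Mat k)} [IsProbabilityMeasure μ]

theorem fl_fl (i : Fin n) (s : Cube n) : fl i (fl i s) = s := by simp [fl]
theorem sv_fl_self (i : Fin n) (s : Cube n) : sv (fl i s) i = -sv s i := by simp [fl, sv, spin_not]
theorem sv_sq (i : Fin n) (s : Cube n) : sv s i * sv s i = 1 := spin_mul_self _
theorem sv_fl (i : Fin n) (s : Cube n) : sv (fl i s) = sv s - (2 * sv s i) • Pi.single i 1 := by
  ext j
  by_cases h : j = i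
  · subst h; rw [sv_fl_self]; simp; ring
  · simp [fl, sv, h]
theorem bi_fl (s : Cube n) (ω : Vn n) (i : Fin n) : bi o (fl i s) ω i = bi o s ω i := by
  rw [bi, bi, fl_fl, sv_fl_self]; ring
theorem dI_fl (i : Fin n) (F : Cube n → Vn n → ℝ) (s : Cube n) (ω : Vn n) :
    dI i F (fl i s) ω = dI i F s ω := by rw [dI, dI, fl_fl, sv_fl_self]; ring
theorem dI_sq (i : Fin n) (F : Cube n → Vn n → ℝ) (s : Cube n) (ω : Vn n) :
    dI i F s ω ^ 2 = (F s ω - F (fl i s) ω) ^ 2 / 4 := by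
  rw [dI, div_pow, mul_pow, sq (sv s i), sv_sq]; norm_num

@[fun_prop] theorem cont_lw (s : Cube n) : Continuous (lw o s) := by unfold lw; fun_prop
@[fun_prop] theorem cont_Ti (s : Cube n) : Continuous (Ti o s) := by unfold Ti bi; fun_prop
@[fun_prop] theorem cont_Gv (χ : ℝ) (s : Cube n) : Continuous (Gv o χ s) := by unfold Gv; fun_prop
theorem CF.dI {F : Cube n → Vn n → ℝ} (hF : CF F) (i : Fin n) : CF (dI i F) := fun s => by
  have := hF s; have := hF (fl i s); unfold Mj.dI; fun_prop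

theorem stein0 (F : Cube n → Vn n → ℝ) (ω : Vn n) (i : Fin n) :
    ∑ s, wx o s (xp o s ω) * ((sv s i - Ti o s ω i) * F s ω - (1 - Ti o s ω i ^ 2) * dI i F s ω)
      = 0 := by
  set a := fun s => wx o s (xp o s ω) *
    ((sv s i - Ti o s ω i) * F s ω - (1 - Ti o s ω i ^ 2) * dI i F s ω) with ha
  have h1 : ∀ s, a (fl i s) = -a s := fun s => by
    have e : ∀ s, wx o s (xp o s ω) = exp (lw o s ω) := fun _ => rfl
    simp only [ha, e, Ti, bi_fl, dI_fl, sv_fl_self]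
    simp only [bi, dI]
    have hσ := sv_sq i s
    generalize lw o s ω = L
    generalize lw o (fl i s) ω = L'
    generalize sv s i = σ at hσ
    have e1 : exp L = exp ((L + L') / 2) * exp ((L - L') / 2) := by rw [← exp_add]; ring_nf
    have e2 : exp L' = exp ((L + L') / 2) * exp (-((L - L') / 2)) := by rw [← exp_add]; ring_nf
    have e3 : exp ((L - L') / 2) + exp (-((L - L') / 2)) ≠ 0 := by positivity
    rcases mul_self_eq_one_iff.1 hσ with rfl | rfl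
    · rw [e1, e2, one_mul, tanh_eq_sinh_div_cosh, sinh_eq, cosh_eq]
      generalize exp ((L - L') / 2) = u at *
      generalize exp (-((L - L') / 2)) = v at *
      field_simp; ring
    · rw [e1, e2, neg_one_mul, neg_div, tanh_neg, tanh_eq_sinh_div_cosh, sinh_eq, cosh_eq]
      generalize exp ((L - L') / 2) = u at *
      generalize exp (-((L - L') / 2)) = v at *
      field_simp; ring
  have h2 := Equiv.sum_comp (Function.Involutive.toPerm (fl i) (fl_fl i)) a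
  simp only [Function.Involutive.coe_toPerm, h1, Finset.sum_neg_distrib] at h2
  linarith

/-- **STEIN** on the cube at a fixed direction -/
theorem stein (hμ : SOInv μ) {F : Cube n → Vn n → ℝ} (hF : CF F) (i : Fin n) :
    pe o μ (fun s ω => sh o s i * F s ω) = pe o μ (fun s ω => (Ti o s ω i - o.p i) * F s ω) +
      pe o μ fun s ω => (1 - Ti o s ω i ^ 2) * dI i F s ω := by
  have c1 : CF fun s ω => (Ti o s ω i - o.p i) * F s ω := fun s => by have := hF s; fun_prop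
  have c2 : CF fun s ω => (1 - Ti o s ω i ^ 2) * dI i F s ω := fun s => by
    have := hF.dI i s; fun_prop
  rw [← pe_add hμ c1 c2, pe, pe]
  congr 2
  funext U
  rw [← sub_eq_zero, ← Finset.sum_sub_distrib, ← stein0 (o := o) F (om o U) i]
  exact Finset.sum_congr rfl fun s _ => by simp only [sh, Pi.sub_apply]; ring

/-! ### the algebra of a flip -/

theorem dot_sq_le (u v : Vn n) : (u ⬝ᵥ v) ^ 2 ≤ (u ⬝ᵥ u) * (v ⬝ᵥ v) := by
  have := Finset.sum_mul_sq_le_sq_mul_sq Finset.univ u v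
  simpa only [dotProduct, sq] using this

theorem dot_self_eq_sq (v : Vn n) : v ⬝ᵥ v = ∑ i, v i ^ 2 := by simp only [dotProduct, sq]

theorem pyth (h : o.Ok) (v : Vn n) :
    v ⬝ᵥ v = Pm o *ᵥ v ⬝ᵥ Pm o *ᵥ v + Qm o *ᵥ v ⬝ᵥ Qm o *ᵥ v := by
  rw [dot_P, P_P h, dot_Q, Q_Q h, ← add_dotProduct, Pm_add_Qm]
theorem P_le (h : o.Ok) (v : Vn n) : Pm o *ᵥ v ⬝ᵥ Pm o *ᵥ v ≤ v ⬝ᵥ v := by
  linarith [pyth h v, dot_self_nonneg (Qm o *ᵥ v)]
theorem Q_le (h : o.Ok) (v : Vn n) : Qm o *ᵥ v ⬝ᵥ Qm o *ᵥ v ≤ v ⬝ᵥ v := by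
  linarith [pyth h v, dot_self_nonneg (Pm o *ᵥ v)]
theorem R2_add (h : o.Ok) (s : Cube n) : R2 o s + Z2 o s = n := by
  rw [← sv_dot_self s, pyth h (sv s), R2_eq, dot_P, P_P h, Z2]
theorem Z2_nonneg (s : Cube n) : 0 ≤ Z2 o s := dot_self_nonneg _

/-- `u_i = Π e_i` -/
def uq (o : Oo.Orb n k) (i : Fin n) : Vn n := Qm o *ᵥ Pi.single i 1
theorem uq_dot (i : Fin n) (v : Vn n) : uq o i ⬝ᵥ v = (Qm o *ᵥ v) i := by
  rw [uq, ← dot_Q, single_dot]
theorem uq_sq (h : o.Ok) (i : Fin n) : uq o i ⬝ᵥ uq o i = Qm o i i := by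
  rw [uq_dot, uq, Q_Q h]; simp
theorem Qii_nonneg (h : o.Ok) (i : Fin n) : 0 ≤ Qm o i i := uq_sq h i ▸ dot_self_nonneg _
theorem Qii_le (h : o.Ok) (i : Fin n) : Qm o i i ≤ 1 := by
  have := Q_le h (Pi.single i 1)
  rw [← uq, uq_sq h] at this
  simpa using this
theorem Qi_sq (h : o.Ok) (i : Fin n) (v : Vn n) :
    (Qm o *ᵥ v) i ^ 2 ≤ Qm o i i * (Qm o *ᵥ v ⬝ᵥ Qm o *ᵥ v) := by
  rw [← uq_sq h, ← Q_Q h v, ← uq_dot, Q_Q h]; exact dot_sq_le _ _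
theorem Q_fl (i : Fin n) (s : Cube n) :
    Qm o *ᵥ sv (fl i s) = Qm o *ᵥ sv s - (2 * sv s i) • uq o i := by
  rw [sv_fl, mulVec_sub, mulVec_smul, uq]
theorem Z2_fl (h : o.Ok) (i : Fin n) (s : Cube n) :
    Z2 o (fl i s) = Z2 o s - 4 * sv s i * (Qm o *ᵥ sv s) i + 4 * Qm o i i := by
  have e : uq o i ⬝ᵥ Qm o *ᵥ sv s = (Qm o *ᵥ sv s) i := by rw [uq_dot, Q_Q h]
  simp only [Z2, Q_fl, sub_dotProduct, dotProduct_sub, smul_dotProduct, dotProduct_smul, smul_eq_mul,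
    dotProduct_comm (Qm o *ᵥ sv s) (uq o i), e, uq_sq h]
  linear_combination 4 * Qm o i i * sv_sq i s
theorem Z2_fl_le (h : o.Ok) (i : Fin n) (s : Cube n) : Z2 o (fl i s) ≤ 2 * Z2 o s + 8 := by
  have h1 := Qi_sq h i (sv s)
  have h2 := Qii_le h i
  have h3 := mul_le_of_le_one_left (Z2_nonneg (o := o) s) h2
  rw [Z2_fl h]
  rw [← Z2] at h1
  nlinarith [sq_nonneg ((Qm o *ᵥ sv s) i + 2 * sv s i), sv_sq i s]
theorem Qsh (h : o.Ok) (s : Cube n) : Qm o *ᵥ sh o s = Qm o *ᵥ sv s - o.p := by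
  rw [sh, mulVec_sub, Q_p h]
theorem xp_fl (h : o.Ok) (i : Fin n) (s : Cube n) (ω : Vn n) : xp o (fl i s) ω = xp o s ω +
    ((√(R2 o (fl i s)) - √(R2 o s)) • ω - (2 * sv s i) • uq o i) := by
  rw [xp, xp, Qsh h, Qsh h, Q_fl, sub_smul]; abel
theorem Sph.dotQ {ω : Vn n} (hω : Sph o ω) (v : Vn n) : ω ⬝ᵥ Qm o *ᵥ v = 0 := by
  rw [dot_Q, hω.q, zero_dotProduct]
theorem xp_sq {ω : Vn n} (hω : Sph o ω) (s : Cube n) :
    xp o s ω ⬝ᵥ xp o s ω = Qm o *ᵥ sh o s ⬝ᵥ Qm o *ᵥ sh o s + R2 o s := by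
  simp only [xp, add_dotProduct, dotProduct_add, smul_dotProduct, dotProduct_smul, smul_eq_mul,
    hω.dotQ, dotProduct_comm (Qm o *ᵥ sh o s) ω, hω.one, mul_zero, add_zero, zero_add, mul_one,
    Real.mul_self_sqrt (R2_nonneg s)]
theorem cp_mul (h : o.Ok) {ω : Vn n} (hω : Sph o ω) {s : Cube n} (h0 : 0 < R2 o s) :
    cp o s ω * √(R2 o s) = ω ⬝ᵥ A0 o *ᵥ xp o s ω := by
  have h1 := Real.sqrt_pos.2 h0
  rw [cp, cc, P_xp h hω, dotProduct_smul, smul_eq_mul, dotProduct_comm, div_mul_eq_mul_div,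
    div_eq_iff h0.ne']
  linear_combination (ω ⬝ᵥ A0 o *ᵥ xp o s ω) * Real.mul_self_sqrt h0.le

section Frame

variable {x : Vn n} {χ r0 : ℝ} {e1 e2 : Vn n} (h : o.Ok) (f : Fr o x χ r0 e1 e2)
include h f

theorem Fr.inv_le : 0 < χ⁻¹ ∧ χ⁻¹ ≤ 2 := by
  have := f.lo
  exact ⟨by positivity, by rw [inv_le_comm₀ (by linarith) two_pos]; linarith⟩

theorem Fr.opA : Op2 (A0 o) 36 := fun v => by
  have h1 := f.inv_le h
  have h2 : o.z ^ 2 ≤ 9 := by rw [f.hz]; nlinarith [f.lo, f.hi]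
  have h3 := dot_sub_le (o.z • v) (o.W *ᵥ v)
  rw [smul_dotProduct, dotProduct_smul, smul_eq_mul, smul_eq_mul] at h3
  rw [A0, sub_mulVec, smul_mulVec, one_mulVec]
  nlinarith [f.hW v, dot_self_nonneg v]

theorem Fr.p_sq : o.p ⬝ᵥ o.p = r0 ^ 2 := by
  rw [f.pe1, smul_dotProduct, dotProduct_smul, f.e11]; simp [sq]

theorem Fr.Qvec (v : Vn n) : Qm o *ᵥ v = (e1 ⬝ᵥ v) • e1 + (e2 ⬝ᵥ v) • e2 := by
  rw [f.hq, add_mulVec, Orb.vv_mulVec, Orb.vv_mulVec]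

theorem Fr.Q1 : Qm o *ᵥ e1 = e1 := by
  rw [f.Qvec h, f.e11, dotProduct_comm, f.e12]; simp
theorem Fr.Q2 : Qm o *ᵥ e2 = e2 := by rw [f.Qvec h, f.e22, f.e12]; simp
theorem Fr.trQ : ∑ i, Qm o i i = 2 := by
  have h1 := f.e11
  have h2 := f.e22
  simp only [f.hq, Matrix.add_apply, vecMulVec_apply, Finset.sum_add_distrib]
  rw [dotProduct] at h1 h2
  rw [h1, h2]; norm_num
theorem Fr.Qsq (v : Vn n) : Qm o *ᵥ v ⬝ᵥ Qm o *ᵥ v = (e1 ⬝ᵥ v) ^ 2 + (e2 ⬝ᵥ v) ^ 2 := by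
  rw [dot_Q, Q_Q h, f.Qvec h, add_dotProduct, smul_dotProduct, smul_dotProduct]; simp [sq]

variable {s : Cube n} (hs : 4 * Z2 o s ≤ n) {ω : Vn n} (hω : Sph o ω)
include hs

theorem Fr.R2_ge : 3 * (n : ℝ) ≤ 4 * R2 o s ∧ 3 ≤ R2 o s := by
  have h1 := R2_add h s
  have h2 : (4 : ℝ) ≤ n := by exact_mod_cast f.n4
  constructor <;> linarith

theorem Fr.Qsh_le : Qm o *ᵥ sh o s ⬝ᵥ Qm o *ᵥ sh o s ≤ n := by
  have := dot_sub_le (Qm o *ᵥ sv s) o.p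
  rw [f.p_sq h, ← Z2] at this
  rw [Qsh h]; linarith [f.pn]

theorem Fr.dR (i : Fin n) : (√(R2 o (fl i s)) - √(R2 o s)) ^ 2 ≤ 22 * Qm o i i := by
  obtain ⟨h1, h2⟩ := f.R2_ge h hs
  have e1 := R2_add h s
  have e2 := R2_add h (fl i s)
  have e3 := Z2_fl h i s
  have q0 := Qii_nonneg h i
  have q1 := Qii_le h i
  have h3 := Qi_sq h i (sv s)
  rw [← Z2] at h3
  have a := Real.mul_self_sqrt (R2_nonneg (o := o) s)
  have a' := Real.mul_self_sqrt (R2_nonneg (o := o) (fl i s))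
  have b := Real.sqrt_nonneg (R2 o s)
  have b' := Real.sqrt_nonneg (R2 o (fl i s))
  have hσ := sv_sq i s
  generalize √(R2 o s) = R at *
  generalize √(R2 o (fl i s)) = R' at *
  generalize (Qm o *ᵥ sv s) i = ζ at *
  generalize Qm o i i = q at *
  have h4 : (R' - R) * (R' + R) = 4 * sv s i * ζ - 4 * q := by linarith
  have h5 : (R' - R) ^ 2 * (R * R) ≤ ((R' - R) * (R' + R)) ^ 2 := by
    rw [mul_pow]
    exact mul_le_mul_of_nonneg_left (by nlinarith [mul_nonneg b b']) (sq_nonneg _)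
  have h6 : (4 * sv s i * ζ - 4 * q) ^ 2 ≤ 32 * ζ ^ 2 + 32 * q ^ 2 := by
    nlinarith [sq_nonneg (sv s i * ζ + q)]
  have h7 : q * Z2 o s ≤ q * (R2 o s / 3) := mul_le_mul_of_nonneg_left (by linarith) q0
  have h8 : q * q ≤ q * (R2 o s / 3) := mul_le_mul_of_nonneg_left (by linarith) q0
  rw [h4, a] at h5
  refine le_of_mul_le_mul_right ?_ (by linarith : 0 < R2 o s)
  nlinarith [mul_nonneg q0 (R2_nonneg (o := o) s)]

include hω

theorem Fr.xp_le : xp o s ω ⬝ᵥ xp o s ω ≤ 7 / 3 * R2 o s ∧ xp o s ω ⬝ᵥ xp o s ω ≤ 2 * n := by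
  have h1 := f.Qsh_le h hs
  have h2 := (f.R2_ge h hs).1
  have h3 := R2_add h s
  rw [xp_sq hω]
  constructor <;> linarith [Z2_nonneg (o := o) s]

theorem Fr.cp_sq : cp o s ω ^ 2 ≤ 84 := by
  have h0 : 0 < R2 o s := by linarith [(f.R2_ge h hs).2]
  have h1 := dot_sq_le ω (A0 o *ᵥ xp o s ω)
  rw [← cp_mul h hω h0, mul_pow, Real.sq_sqrt h0.le, hω.one, one_mul] at h1
  refine le_of_mul_le_mul_right ?_ h0
  linarith [f.opA h (xp o s ω), (f.xp_le h hs hω).1]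

/-- **the local field**: `b_i = x_i + G_i + O (|u_i|²)` -/
theorem Fr.field (i : Fin n) : |bi o s ω i - x i - Gv o χ s (xp o s ω) i| ≤ 52 * Qm o i i := by
  have h0 : 0 < R2 o s := by linarith [(f.R2_ge h hs).2]
  have hd := f.dR h hs i
  have q0 := Qii_nonneg h i
  have hc := cp_mul h hω h0
  have a := Real.mul_self_sqrt h0.le
  have a' := Real.mul_self_sqrt (R2_nonneg (o := o) (fl i s))
  have hR := Real.sqrt_pos.2 h0
  have hσ := sv_sq i s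
  have e3 : R2 o (fl i s) - R2 o s = 4 * sv s i * (Qm o *ᵥ sv s) i - 4 * Qm o i i := by
    linarith [R2_add h s, R2_add h (fl i s), Z2_fl h i s]
  set ξ := xp o s ω with hξ
  set Δ := (√(R2 o (fl i s)) - √(R2 o s)) • ω - (2 * sv s i) • uq o i with hΔ
  have hW : o.W *ᵥ ξ = o.z • ξ - A0 o *ᵥ ξ := by
    rw [A0, sub_mulVec, smul_mulVec, one_mulVec]; abel
  have hωξ : ω ⬝ᵥ ξ = √(R2 o s) := by
    rw [hξ, xp, dotProduct_add, hω.dotQ, dotProduct_smul, hω.one]; simp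
  have huξ : uq o i ⬝ᵥ ξ = (Qm o *ᵥ sv s) i - o.p i := by rw [uq_dot, hξ, Q_xp h hω, Qsh h]; rfl
  have hΔξ : Δ ⬝ᵥ o.W *ᵥ ξ = (√(R2 o (fl i s)) - √(R2 o s)) * ((o.z - cp o s ω) * √(R2 o s)) -
      2 * sv s i * (o.z * ((Qm o *ᵥ sv s) i - o.p i) - (Qm o *ᵥ (A0 o *ᵥ ξ)) i) := by
    rw [hΔ, hW]
    simp only [sub_dotProduct, dotProduct_sub, smul_dotProduct, dotProduct_smul, smul_eq_mul, hωξ,
      huξ, ← hc, uq_dot i (A0 o *ᵥ ξ)]
    ring
  have hΔ2 : Δ ⬝ᵥ Δ = (√(R2 o (fl i s)) - √(R2 o s)) ^ 2 + 4 * Qm o i i := by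
    have e : ω ⬝ᵥ uq o i = 0 := hω.dotQ _
    simp only [hΔ, sub_dotProduct, dotProduct_sub, smul_dotProduct, dotProduct_smul, smul_eq_mul,
      dotProduct_comm (uq o i) ω, e, hω.one, uq_sq h]
    linear_combination 4 * Qm o i i * hσ
  have hΔW : |Δ ⬝ᵥ o.W *ᵥ Δ| ≤ 78 * Qm o i i := by
    have h1 := dot_sq_le Δ (o.W *ᵥ Δ)
    have h2 := mul_le_mul_of_nonneg_left (f.hW Δ) (dot_self_nonneg Δ)
    have h3 : |Δ ⬝ᵥ o.W *ᵥ Δ| ≤ 3 * (Δ ⬝ᵥ Δ) :=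
      abs_le_of_sq_le_sq (by nlinarith) (by linarith [dot_self_nonneg Δ])
    linarith
  have hzc : |o.z - cp o s ω| ≤ 5 := by
    have h1 := dot_sq_le ω (o.W *ᵥ ξ)
    have h2 : ω ⬝ᵥ o.W *ᵥ ξ = (o.z - cp o s ω) * √(R2 o s) := by
      rw [hW, dotProduct_sub, dotProduct_smul, hωξ, ← hc, smul_eq_mul]; ring
    rw [h2, mul_pow, Real.sq_sqrt h0.le, hω.one, one_mul] at h1
    refine abs_le_of_sq_le_sq (le_of_mul_le_mul_right ?_ h0) (by norm_num)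
    linarith [f.hW ξ, (f.xp_le h hs hω).1]
  have hl : lw o (fl i s) ω = lw o s ω - 2 * sv s i * (x i + χ * o.p i) + Δ ⬝ᵥ o.W *ᵥ ξ +
      Δ ⬝ᵥ o.W *ᵥ Δ / 2 := by
    rw [lw, lw, xp_fl h, ← hξ, ← hΔ, sv_fl, dotProduct_sub, dotProduct_smul, dotProduct_comm o.h
      (Pi.single i 1), single_dot, mulVec_add, add_dotProduct, dotProduct_add, dotProduct_add,
      symm_dot h.symm ξ Δ, dotProduct_comm (o.W *ᵥ ξ) Δ]
    have : o.h i = x i + χ * o.p i := by rw [f.hh]; rfl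
    rw [this, smul_eq_mul]; ring
  have e : bi o s ω i - x i - Gv o χ s ξ i = sv s i * ((o.z - cp o s ω) *
      (2 * Qm o i i + (√(R2 o (fl i s)) - √(R2 o s)) ^ 2 / 2) - Δ ⬝ᵥ o.W *ᵥ Δ / 2) / 2 := by
    have hG : Gv o χ s ξ i = cp o s ω * (Qm o *ᵥ sv s) i - (Qm o *ᵥ (A0 o *ᵥ ξ)) i - χ⁻¹ * o.p i := rfl
    have hz : χ⁻¹ = o.z - χ := by rw [f.hz]; ring
    rw [bi, hl, hΔξ, hG, hz]
    linear_combination (x i + χ * o.p i + o.z * ((Qm o *ᵥ sv s) i - o.p i) -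
      (Qm o *ᵥ (A0 o *ᵥ ξ)) i - (o.z - cp o s ω) * (Qm o *ᵥ sv s) i) * hσ -
      sv s i * (o.z - cp o s ω) / 4 * (a' - a + e3)
  have hσ1 : |sv s i| = 1 := by rw [← sq_eq_sq₀ (abs_nonneg _) zero_le_one, sq_abs, sq, hσ]; simp
  rw [e, abs_div, abs_mul, hσ1, one_mul, abs_two]
  have h9 := abs_sub ((o.z - cp o s ω) * (2 * Qm o i i + (√(R2 o (fl i s)) - √(R2 o s)) ^ 2 / 2))
    (Δ ⬝ᵥ o.W *ᵥ Δ / 2)
  rw [abs_mul, abs_div, abs_two, abs_of_nonneg (by positivity :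
    0 ≤ 2 * Qm o i i + (√(R2 o (fl i s)) - √(R2 o s)) ^ 2 / 2)] at h9
  have h10 := mul_le_mul hzc (by linarith :
    2 * Qm o i i + (√(R2 o (fl i s)) - √(R2 o s)) ^ 2 / 2 ≤ 13 * Qm o i i) (by positivity) (by norm_num)
  linarith

/-- `c` is `n^{-1/2}`-Lipschitz -/
theorem Fr.dc (i : Fin n) (hs' : 4 * Z2 o (fl i s) ≤ n) :
    (cp o s ω - cp o (fl i s) ω) ^ 2 * n ≤ 3200 * Qm o i i := by
  have h0 : 0 < R2 o s := by linarith [(f.R2_ge h hs).2]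
  have h0' : 0 < R2 o (fl i s) := by linarith [(f.R2_ge h hs').2]
  have hn := (f.R2_ge h hs').1
  have hd := f.dR h hs i
  have q0 := Qii_nonneg h i
  have hc := cp_mul h hω h0
  have hc' := cp_mul h hω h0'
  rw [xp_fl h, mulVec_add, dotProduct_add, ← hc, mulVec_sub, dotProduct_sub, mulVec_smul,
    mulVec_smul, dotProduct_smul, dotProduct_smul, smul_eq_mul, smul_eq_mul] at hc'
  have hα := dot_sq_le ω (A0 o *ᵥ (Qm o *ᵥ sh o s))
  have hβ := dot_sq_le ω (A0 o *ᵥ uq o i)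
  have h1 := f.opA h (Qm o *ᵥ sh o s)
  have h2 := f.opA h (uq o i)
  rw [hω.one, one_mul] at hα hβ
  rw [uq_sq h] at h2
  rw [xp, mulVec_add, dotProduct_add, mulVec_smul, dotProduct_smul, smul_eq_mul] at hc
  have h3 := f.Qsh_le h hs
  have h4 := (f.R2_ge h hs).1
  have a := Real.sq_sqrt h0.le
  have a' := Real.sq_sqrt h0'.le
  have hσ := sv_sq i s
  generalize √(R2 o s) = R at *
  generalize √(R2 o (fl i s)) = R' at *
  generalize ω ⬝ᵥ A0 o *ᵥ (Qm o *ᵥ sh o s) = α at *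
  generalize ω ⬝ᵥ A0 o *ᵥ uq o i = β at *
  generalize ω ⬝ᵥ A0 o *ᵥ ω = γ at *
  generalize cp o s ω = c at *
  generalize cp o (fl i s) ω = c' at *
  have e : (c - c') * R' = (c - γ) * (R' - R) + 2 * sv s i * β := by linarith
  have h5 : (c - γ) ^ 2 ≤ 48 := by
    refine le_of_mul_le_mul_right ?_ h0
    have : (c - γ) ^ 2 * R2 o s = α ^ 2 := by rw [← a, ← mul_pow]; congr 1; linarith
    linarith
  have h6 : ((c - γ) * (R' - R)) ^ 2 ≤ 48 * (22 * Qm o i i) := by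
    rw [mul_pow]; exact mul_le_mul h5 hd (sq_nonneg _) (by norm_num)
  have h7 : (2 * sv s i * β) ^ 2 = 4 * β ^ 2 := by linear_combination 4 * β ^ 2 * hσ
  have h8 : (c - c') ^ 2 * R2 o (fl i s) ≤ 2400 * Qm o i i := by
    rw [← a', ← mul_pow, e]
    nlinarith [sq_nonneg ((c - γ) * (R' - R) - 2 * sv s i * β)]
  nlinarith [sq_nonneg (c - c')]

theorem Fr.dxp (i : Fin n) :
    (xp o s ω - xp o (fl i s) ω) ⬝ᵥ (xp o s ω - xp o (fl i s) ω) ≤ 52 * Qm o i i := by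
  have hd := f.dR h hs i
  have h1 := dot_sub_le ((2 * sv s i) • uq o i) ((√(R2 o (fl i s)) - √(R2 o s)) • ω)
  simp only [smul_dotProduct, dotProduct_smul, smul_eq_mul, hω.one, uq_sq h] at h1
  rw [xp_fl h, sub_add_cancel_left, neg_sub]
  have : 2 * sv s i * (2 * sv s i * Qm o i i) = 4 * Qm o i i := by
    linear_combination 4 * Qm o i i * sv_sq i s
  nlinarith

theorem Fr.Gv_eq (i : Fin n) : Gv o χ s (xp o s ω) i =
    (e1 ⬝ᵥ Gv o χ s (xp o s ω)) * e1 i + (e2 ⬝ᵥ Gv o χ s (xp o s ω)) * e2 i := by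
  have e : Qm o *ᵥ Gv o χ s (xp o s ω) = Gv o χ s (xp o s ω) := by
    simp only [Gv, mulVec_sub, mulVec_smul, Q_Q h, Q_p h]
  have := congrFun (f.Qvec h (Gv o χ s (xp o s ω))) i
  rwa [e] at this

theorem Fr.rho_sum : ∑ i, (bi o s ω i - x i - Gv o χ s (xp o s ω) i) ^ 2 ≤ 5408 := by
  have : ∀ i, (bi o s ω i - x i - Gv o χ s (xp o s ω) i) ^ 2 ≤ 2704 * Qm o i i := fun i => by
    have h1 := pow_le_pow_left₀ (abs_nonneg _) (f.field h hs hω i) 2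
    rw [sq_abs] at h1
    nlinarith [Qii_nonneg h i, Qii_le h i]
  refine (Finset.sum_le_sum fun i _ => this i).trans ?_
  rw [← Finset.mul_sum, f.trQ h]; norm_num

/-- `|T - p|² ≤ 3 G₁² + 3 G₂² + C` -/
theorem Fr.Tp_le : (Ti o s ω - o.p) ⬝ᵥ (Ti o s ω - o.p) ≤
    3 * ((e1 ⬝ᵥ Gv o χ s (xp o s ω)) ^ 2 + (e2 ⬝ᵥ Gv o χ s (xp o s ω)) ^ 2 + 5408) := by
  have hG := f.Gv_eq h hs hω
  have hr := f.rho_sum h hs hω
  generalize e1 ⬝ᵥ Gv o χ s (xp o s ω) = G1 at *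
  generalize e2 ⬝ᵥ Gv o χ s (xp o s ω) = G2 at *
  have s1 : ∑ i, (G1 * e1 i) ^ 2 ≤ G1 ^ 2 := by
    simp only [mul_pow, ← Finset.mul_sum]
    rw [← dot_self_eq_sq e1, f.e11, mul_one]
  have s2 : ∑ i, (G2 * e2 i) ^ 2 ≤ G2 ^ 2 := by
    simp only [mul_pow, ← Finset.mul_sum]
    rw [← dot_self_eq_sq e2, f.e22, mul_one]
  refine le_trans ?_ (sum_sq3_le _ _ _ s1 s2 hr)
  rw [dot_self_eq_sq]
  refine Finset.sum_le_sum fun i _ => ?_
  have := th_lip (x i) (bi o s ω i - x i)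
  rw [add_sub_cancel, ← f.hp i] at this
  refine (sq_le_sq.2 this).trans_eq ?_
  rw [hG i]; ring

theorem Fr.G1_le {Λ : ℝ} (h1 : Z2 o s ≤ Λ) (h2 : r0 ^ 2 ≤ Λ)
    (h3 : (A0 o *ᵥ e1 ⬝ᵥ A0 o *ᵥ e1) * n ≤ Λ) : (e1 ⬝ᵥ Gv o χ s (xp o s ω)) ^ 2 ≤ 270 * Λ := by
  have e : e1 ⬝ᵥ Gv o χ s (xp o s ω) = cp o s ω * (e1 ⬝ᵥ Qm o *ᵥ sv s) +
      (-(A0 o *ᵥ e1 ⬝ᵥ xp o s ω) + -(χ⁻¹ * r0)) := by
    rw [Gv, dotProduct_sub, dotProduct_sub, dotProduct_smul, dotProduct_smul, dot_Q e1 (A0 o *ᵥ _),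
      f.Q1 h, symm_dot (A0_symm h), f.pe1, dotProduct_smul, f.e11]
    simp only [smul_eq_mul]; ring
  have a1 := dot_sq_le e1 (Qm o *ᵥ sv s)
  rw [f.e11, one_mul, ← Z2] at a1
  have a2 := mul_le_mul (f.cp_sq h hs hω) (a1.trans h1) (sq_nonneg _) (by norm_num)
  have a3 := (dot_sq_le (A0 o *ᵥ e1) (xp o s ω)).trans
    (mul_le_mul_of_nonneg_left (f.xp_le h hs hω).2 (dot_self_nonneg _))
  have a4 : χ⁻¹ ^ 2 ≤ 4 := by nlinarith [f.inv_le h]
  have a5 := mul_le_mul a4 h2 (sq_nonneg _) (by norm_num)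
  rw [e]
  refine (sq3_le _ _ _).trans ?_
  simp only [neg_sq, mul_pow]
  nlinarith

/-- **KEY**: the pointwise bound on `P (T - p)` -/
theorem Fr.key {Λ κ : ℝ} (h1 : Z2 o s ≤ Λ) (h2 : r0 ^ 2 ≤ Λ)
    (h3 : (A0 o *ᵥ e1 ⬝ᵥ A0 o *ᵥ e1) * n ≤ Λ) (h6 : ∑ i, e1 i ^ 6 ≤ κ) :
    Pm o *ᵥ (Ti o s ω - o.p) ⬝ᵥ Pm o *ᵥ (Ti o s ω - o.p) ≤ 5000000 *
      (κ * Λ ^ 2 * (e1 ⬝ᵥ Gv o χ s (xp o s ω)) ^ 2 + (e2 ⬝ᵥ Gv o χ s (xp o s ω)) ^ 2 + 1) := by
  have hG := f.Gv_eq h hs hω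
  have hr := f.rho_sum h hs hω
  have hG1 := f.G1_le h hs hω h1 h2 h3
  generalize e1 ⬝ᵥ Gv o χ s (xp o s ω) = G1 at *
  generalize e2 ⬝ᵥ Gv o χ s (xp o s ω) = G2 at *
  have hΛ : 0 ≤ Λ := (sq_nonneg _).trans h2
  have k0 : 0 ≤ ∑ i, e1 i ^ 6 := Finset.sum_nonneg fun i _ => by positivity
  have hκ : 0 ≤ κ := k0.trans h6
  set r : Vn n := fun i => Ti o s ω i - o.p i - (1 - o.p i ^ 2) * (G1 * e1 i) with hr'
  set v : Vn n := fun i => o.p i ^ 2 * e1 i with hv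
  have e : Ti o s ω - o.p = r + G1 • e1 - G1 • v := by
    ext i; simp only [hr', hv, Pi.sub_apply, Pi.add_apply, Pi.smul_apply, smul_eq_mul]; ring
  have P1 : Pm o *ᵥ e1 = 0 := by rw [← f.Q1 h, P_Q h]
  have hp : ∀ i, o.p i = r0 * e1 i := fun i => by rw [f.pe1]; rfl
  have b1 : v ⬝ᵥ v ≤ Λ ^ 2 * κ := by
    have : v ⬝ᵥ v = (r0 ^ 2) ^ 2 * ∑ i, e1 i ^ 6 := by
      rw [dotProduct, Finset.mul_sum]
      exact Finset.sum_congr rfl fun i _ => by simp only [hv, hp]; ring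
    rw [this]
    exact mul_le_mul (pow_le_pow_left₀ (sq_nonneg _) h2 2) h6 k0 (by positivity)
  have b2 : r ⬝ᵥ r ≤ 3 * (64 * (r0 ^ 2 * G1 ^ 4 * ∑ i, e1 i ^ 6) + 9 * (G1 ^ 6 * ∑ i, e1 i ^ 6) +
      18 * (G2 ^ 2 * ∑ i, e2 i ^ 2 + ∑ i, (bi o s ω i - x i - Gv o χ s (xp o s ω) i) ^ 2)) := by
    rw [dot_self_eq_sq]
    simp only [Finset.mul_sum, ← Finset.sum_add_distrib]
    refine Finset.sum_le_sum fun i _ => ?_
    have := th_rem (x i) (G1 * e1 i) (G2 * e2 i + (bi o s ω i - x i - Gv o χ s (xp o s ω) i))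
    rw [show x i + (G1 * e1 i + (G2 * e2 i + (bi o s ω i - x i - Gv o χ s (xp o s ω) i))) =
      bi o s ω i by rw [hG i]; ring, ← f.hp i] at this
    refine this.trans ?_
    rw [hp i]
    nlinarith [sq_nonneg (G2 * e2 i - (bi o s ω i - x i - Gv o χ s (xp o s ω) i))]
  rw [← dot_self_eq_sq e2, f.e22] at b2
  have c1 : r0 ^ 2 * G1 ^ 4 * ∑ i, e1 i ^ 6 ≤ Λ * (270 * Λ * G1 ^ 2) * κ :=
    mul_le_mul (mul_le_mul h2 (by nlinarith [sq_nonneg G1]) (by positivity) hΛ) h6 k0 (by positivity)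
  have c2 : G1 ^ 6 * ∑ i, e1 i ^ 6 ≤ (270 * Λ) ^ 2 * G1 ^ 2 * κ := by
    refine mul_le_mul ?_ h6 k0 (by positivity)
    rw [show G1 ^ 6 = (G1 ^ 2) ^ 2 * G1 ^ 2 by ring]
    exact mul_le_mul_of_nonneg_right (pow_le_pow_left₀ (sq_nonneg _) hG1 2) (sq_nonneg _)
  have c3 := dot_sub_le (Pm o *ᵥ r) (G1 • (Pm o *ᵥ v))
  rw [smul_dotProduct, dotProduct_smul, smul_eq_mul, smul_eq_mul, ← mul_assoc, ← sq] at c3
  have c4 := mul_le_mul_of_nonneg_left ((P_le h v).trans b1) (sq_nonneg G1)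
  rw [e, mulVec_sub, mulVec_add, mulVec_smul, mulVec_smul, P1, smul_zero, add_zero]
  have c5 : 0 ≤ κ * Λ ^ 2 * G1 ^ 2 := by positivity
  nlinarith [P_le h r, sq_nonneg G2]

end Frame

end Crest.Agent.T157.Mj
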