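import Crest.Agent.T157.MjB_84

set_option autoImplicit false
set_option linter.unusedSectionVars false

/-!
Row 157, A2 section 4 (helper84): positive functionals, Bessel's inequality, the exact
identities for the blocks of `E (y yᵀ - A)`, Stein's identity for linear functions.
-/

noncomputable section

namespace Crest.Agent.T157.Mj

open MeasureTheory Matrix Crest.Agent.Lib.OrthPoinc Filter Topology Set Real
open Crest.Agent.T157.Oc Crest.Agent.T157.E Crest.Agent.T157.SL Crest.Agent.T157.Ks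
open Crest.Agent.T157.Od Crest.Agent.T157.Oo

variable {n k : ℕ}

/-! ### positive normalised functionals -/

section PF

variable {X : Type} [TopologicalSpace X]

/-- a positive normalised linear functional carried by `S` -/
structure PF (S : X → Prop) (L : (Cube n → X → ℝ) → ℝ) : Prop where
  add : ∀ {F G : Cube n → X → ℝ}, (∀ s, Continuous (F s)) → (∀ s, Continuous (G s)) → L (fun s x => F s x + G s x) = L F + L G
  mul : ∀ c F, L (fun s x => c * F s x) = c * L F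
  mono : ∀ {F G : Cube n → X → ℝ}, (∀ s, Continuous (F s)) → (∀ s, Continuous (G s)) → (∀ s x, S x → F s x ≤ G s x) → L F ≤ L G
  one : ∀ c, L (fun _ _ => c) = c

/-- entrywise mean of a matrix -/
def lM (L : (Cube n → X → ℝ) → ℝ) (M : Cube n → X → Mn n) : Mn n :=
  Matrix.of fun i j => L fun s x => M s x i j
/-- `E a bᵀ` -/
abbrev pM (L : (Cube n → X → ℝ) → ℝ) (a b : Cube n → X → Vn n) : Mn n :=
  lM L fun s x => vecMulVec (a s x) (b s x)

namespace PF

variable {S : X → Prop} {L : (Cube n → X → ℝ) → ℝ} (hL : PF S L) {F G : Cube n → X → ℝ}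
include hL

theorem congr (hF : ∀ s, Continuous (F s)) (hG : ∀ s, Continuous (G s)) (e : ∀ s x, S x → F s x = G s x) : L F = L G :=
  le_antisymm (hL.mono hF hG fun s x h => (e s x h).le) (hL.mono hG hF fun s x h => (e s x h).ge)

theorem sub (hF : ∀ s, Continuous (F s)) (hG : ∀ s, Continuous (G s)) : L (fun s x => F s x - G s x) = L F - L G := by
  have := hL.add hF (G := fun s x => -1 * G s x) fun s => by fun_prop
  rw [hL.mul] at this
  simpa only [neg_one_mul, ← sub_eq_add_neg] using this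

theorem mul' (c : ℝ) (F : Cube n → X → ℝ) : L (fun s x => F s x * c) = L F * c := by
  simp only [mul_comm _ c, hL.mul]

theorem sum {ι : Type*} (t : Finset ι) {F : ι → Cube n → X → ℝ} (hF : ∀ i, ∀ s, Continuous (F i s)) :
    L (fun s x => ∑ i ∈ t, F i s x) = ∑ i ∈ t, L (F i) := by
  classical
  induction t using Finset.induction_on with
  | empty => simpa using hL.one 0
  | insert a t ha ih =>
    simp only [Finset.sum_insert ha]
    rw [hL.add (hF a) fun s => continuous_finsetSum _ fun i _ => hF i s, ih]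

theorem nonneg (hF : ∀ s, Continuous (F s)) (h0 : ∀ s x, S x → 0 ≤ F s x) : 0 ≤ L F :=
  (hL.one 0).ge.trans (hL.mono (fun _ => continuous_const) hF h0)

theorem le_const (hF : ∀ s, Continuous (F s)) {c : ℝ} (h0 : ∀ s x, S x → F s x ≤ c) : L F ≤ c :=
  (hL.mono hF (fun _ => continuous_const) h0).trans (hL.one c).le

theorem le_mul (hF : ∀ s, Continuous (F s)) (hG : ∀ s, Continuous (G s)) {c : ℝ} (h0 : ∀ s x, S x → F s x ≤ c * G s x) :
    L F ≤ c * L G := (hL.mono hF (fun s => by fun_prop) h0).trans (hL.mul c G).le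

theorem cs (hF : ∀ s, Continuous (F s)) (hG : ∀ s, Continuous (G s)) :
    L (fun s x => F s x * G s x) ^ 2 ≤ L (fun s x => F s x ^ 2) * L fun s x => G s x ^ 2 := by
  have key : ∀ t : ℝ, 0 ≤ L (fun s x => F s x ^ 2) * (t * t) +
      2 * L (fun s x => F s x * G s x) * t + L fun s x => G s x ^ 2 := fun t => by
    have h0 := hL.nonneg (F := fun s x => t * t * F s x ^ 2 + 2 * t * (F s x * G s x) + G s x ^ 2)
      (fun s => by fun_prop) fun s x _ => by nlinarith [sq_nonneg (t * F s x + G s x)]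
    rw [hL.add (fun s => by fun_prop) fun s => by fun_prop,
      hL.add (fun s => by fun_prop) fun s => by fun_prop, hL.mul, hL.mul] at h0
    linarith
  have := discrim_le_zero key
  rw [discrim] at this
  linarith

theorem sq_le (hF : ∀ s, Continuous (F s)) : L F ^ 2 ≤ L fun s x => F s x ^ 2 := by
  simpa only [mul_one, one_pow, hL.one] using hL.cs hF (G := fun _ _ => 1) fun _ => continuous_const

theorem dotV {a : Cube n → X → Vn n} (ha : ∀ s, Continuous (a s)) (u : Vn n) :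
    L (fun s x => u ⬝ᵥ a s x) = u ⬝ᵥ fun i => L fun s x => a s x i := by
  simp only [dotProduct]
  rw [hL.sum _ (F := fun i s x => u i * a s x i) fun i s => by fun_prop]
  simp only [hL.mul]

theorem dot {M : Cube n → X → Mn n} (hM : ∀ s, Continuous (M s)) (u v : Vn n) :
    u ⬝ᵥ lM L M *ᵥ v = L fun s x => u ⬝ᵥ M s x *ᵥ v := by
  rw [hL.dotV (a := fun s x => M s x *ᵥ v) fun s => by fun_prop]
  congr 1
  funext i
  simp only [mulVec, dotProduct, lM, of_apply]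
  rw [hL.sum _ (F := fun j s x => M s x i j * v j) fun j s => by fun_prop]
  simp only [hL.mul']

theorem dotP {a b : Cube n → X → Vn n} (ha : ∀ s, Continuous (a s)) (hb : ∀ s, Continuous (b s)) (u v : Vn n) :
    u ⬝ᵥ pM L a b *ᵥ v = L fun s x => (u ⬝ᵥ a s x) * (v ⬝ᵥ b s x) := by
  rw [hL.dot fun s => (ha s).matrix_vecMulVec (hb s)]
  simp only [Orb.vv_mulVec, dotProduct_smul, smul_eq_mul, dotProduct_comm v, mul_comm]

/-- a rare event -/
theorem bad {τ : Cube n → ℝ} {M : Cube n → X → Mn n} (hM : ∀ s, Continuous (M s)) {δ B : ℝ}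
    (hτ : L (fun s _ => τ s ^ 2) ≤ δ) (hB : ∀ s x, S x → fr (M s x) ≤ B) (B0 : 0 ≤ B) :
    fr (lM L fun s x => τ s • M s x) ≤ δ * B := by
  have t0 : 0 ≤ L fun s _ => τ s ^ 2 := hL.nonneg (fun s => by fun_prop) fun _ _ _ => sq_nonneg _
  have h1 : fr (lM L fun s x => τ s • M s x) ≤
      L (fun s _ => τ s ^ 2) * L fun s x => ∑ i, ∑ j, M s x i j ^ 2 := by
    rw [hL.sum _ (F := fun i s x => ∑ j, M s x i j ^ 2) fun i s => by fun_prop, Finset.mul_sum]
    refine Finset.sum_le_sum fun i _ => ?_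
    rw [hL.sum _ (F := fun j s x => M s x i j ^ 2) fun j s => by fun_prop, Finset.mul_sum]
    exact Finset.sum_le_sum fun j _ =>
      hL.cs (F := fun s _ => τ s) (G := fun s x => M s x i j) (fun s => by fun_prop) fun s => by fun_prop
  exact h1.trans ((mul_le_mul_of_nonneg_left (hL.le_const (fun s => by unfold fr; fun_prop) hB) t0).trans
    (mul_le_mul_of_nonneg_right hτ B0))

/-- **Bessel** -/
theorem bes {a b : Cube n → X → Vn n} (ha : ∀ s, Continuous (a s)) (hb : ∀ s, Continuous (b s)) {A B : ℝ} (B0 : 0 ≤ B)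
    (hA : L (fun s x => a s x ⬝ᵥ a s x) ≤ A)
    (hB : ∀ w, L (fun s x => (w ⬝ᵥ b s x) ^ 2) ≤ B * (w ⬝ᵥ w)) : fr (pM L a b) ≤ A * B := by
  refine le_trans ?_ (mul_le_mul_of_nonneg_right hA B0)
  simp only [dot_self_eq_sq]
  rw [hL.sum _ (F := fun i s x => a s x i ^ 2) fun i s => by fun_prop, Finset.sum_mul]
  refine Finset.sum_le_sum fun i _ => ?_
  have a0 : 0 ≤ L fun s x => a s x i ^ 2 := hL.nonneg (fun s => by fun_prop) fun _ _ _ => sq_nonneg _
  set w : Vn n := pM L a b i with hw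
  have e : w ⬝ᵥ w = L fun s x => a s x i * (w ⬝ᵥ b s x) := by
    have := hL.dotP ha hb (Pi.single i 1) w
    simp only [single_dot] at this
    exact this
  have h1 := hL.cs (F := fun s x => a s x i) (G := fun s x => w ⬝ᵥ b s x) (fun s => by fun_prop)
    fun s => by fun_prop
  rw [← e] at h1
  have h2 := h1.trans (mul_le_mul_of_nonneg_left (hB w) a0)
  rw [← dot_self_eq_sq w]
  rcases (dot_self_nonneg w).eq_or_lt with h0 | h0
  · rw [← h0]; positivity
  · exact le_of_mul_le_mul_right (by nlinarith) h0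

theorem dot_sq {b : Cube n → X → Vn n} (hb : ∀ s, Continuous (b s)) {B : ℝ} (hB : L (fun s x => b s x ⬝ᵥ b s x) ≤ B)
    (w : Vn n) : L (fun s x => (w ⬝ᵥ b s x) ^ 2) ≤ B * (w ⬝ᵥ w) := by
  rw [mul_comm]
  exact (hL.le_mul (fun s => by fun_prop) (fun s => by fun_prop) fun s x _ => dot_sq_le _ _).trans
    (mul_le_mul_of_nonneg_left hB (dot_self_nonneg w))

end PF

end PF

theorem ext_dot {M N : Mn n} (h : ∀ u v, u ⬝ᵥ M *ᵥ v = u ⬝ᵥ N *ᵥ v) : M = N := by
  ext i j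
  simpa only [single_dot, mulVec_single_one, col_apply] using h (Pi.single i 1) (Pi.single j 1)

variable {o : Oo.Orb n k} {μ : Measure (Mat k)} [IsProbabilityMeasure μ] (hμ : SOInv μ) (h : o.Ok)
include hμ h

theorem pfP : PF (Sph o) (pe o μ) :=
  ⟨pe_add hμ, pe_mul, pe_mono hμ h, pe_const hμ⟩

theorem pfA : PF (· ∈ SO k) (o.an μ) := by
  have Z : 0 < ∫ U, ∑ s, o.w U s ∂μ := int_Z_pos hμ h.iso h.symm Oo.Orb.wt0
  have i : ∀ {F : Cube n → Mat k → ℝ}, (∀ s, Continuous (F s)) → Integrable (fun U => ∑ s, o.w U s * F s U) μ :=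
    fun hF => intg hμ (continuous_finsetSum _ fun s _ => (cont_w s).mul (hF s))
  refine ⟨fun hF hG => ?_, fun c F => ?_, fun hF hG hle => ?_, fun c => ?_⟩
  · simp only [Oo.Orb.an_eq hμ h, mul_add, Finset.sum_add_distrib]
    rw [integral_add (i hF) (i hG), add_div]
  · simp only [Oo.Orb.an_eq hμ h, mul_left_comm _ c, ← Finset.mul_sum, integral_const_mul,
      mul_div_assoc]
  · rw [Oo.Orb.an_eq hμ h, Oo.Orb.an_eq hμ h]
    refine div_le_div_of_nonneg_right (integral_mono_ae (i hF) (i hG) ?_) Z.le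
    filter_upwards [Orb.ae_SO hμ] with U hU
    exact Finset.sum_le_sum fun s _ => mul_le_mul_of_nonneg_left (hle s U hU) (Oo.Orb.w_pos U s).le
  · simp only [Oo.Orb.an_eq hμ h, ← Finset.sum_mul, integral_mul_const]
    exact mul_div_cancel_left₀ _ Z.ne'

/-! ### exact identities -/

/-- the bilinear form of `y yᵀ - A_U` -/
def Xf (o : Oo.Orb n k) (u v : Vn n) (s : Cube n) (U : Mat k) : ℝ :=
  (u ⬝ᵥ yv o s U) * (v ⬝ᵥ yv o s U) - u ⬝ᵥ o.A U *ᵥ v
/-- `c² + (c - a) / R²` -/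
def ph (o : Oo.Orb n k) (s : Cube n) (ξ : Vn n) : ℝ := cc o s ξ ^ 2 + (cc o s ξ - aa o s ξ) / R2 o s

omit hμ h in
@[fun_prop] theorem cont_Xf (u v : Vn n) (s : Cube n) : Continuous (Xf o u v s) := by
  unfold Xf; fun_prop
omit hμ h in
@[fun_prop] theorem cont_ph (s : Cube n) : Continuous (ph o s) := by unfold ph; fun_prop

omit hμ in
theorem EM_eq : (EM (o.P μ) fun U => o.A U * sm2 (o.w U) sv o.p * o.A U - o.A U) =
    lM (o.an μ) fun s U => vecMulVec (yv o s U) (yv o s U) - o.A U := by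
  ext i j
  simp only [EM, lM, of_apply, Oo.Orb.an]
  refine integral_congr_ae (ae_of_all _ fun U => ?_)
  have e := mean_dot2 (σ := sv) (p := o.p) (Oo.Orb.wt (o := o) U) (o.A U i) (o.A U j)
  simp only [Matrix.sub_apply, vecMulVec_apply, mean_sub, (Oo.Orb.wt U).mean_const]
  rw [Matrix.mul_assoc]
  congr 1
  refine Eq.trans ?_ e.symm
  simp only [Matrix.mul_apply, dotProduct, mulVec]
  have : ∀ a b, o.A U a b = o.A U b a := fun a b => (congrFun (congrFun (Oo.Orb.A_symm h U) b) a)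
  simp only [this _ j]

omit hμ h in
theorem EV_eq : (EV (o.P μ) fun U => o.A U *ᵥ o.d U) = fun i => o.an μ fun s U => yv o s U i := by
  funext i
  simp only [EV, Oo.Orb.an]
  refine integral_congr_ae (ae_of_all _ fun U => ?_)
  change o.A U i ⬝ᵥ (meanV (o.w U) sv - o.p) = mean (o.w U) fun s => o.A U i ⬝ᵥ (sv s - o.p)
  simp only [dotProduct_sub, mean_sub, (Oo.Orb.wt U).mean_const, meanV_dot]

/-- coset means, annealed form -/
theorem an_coset (hk : 4 ≤ k) {a : Cube n → Vn n → Vn n} (ha : ∀ s, Continuous (a s)) (v : Vn n) :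
    o.an μ (fun s U => Pm o *ᵥ v ⬝ᵥ o.g U *ᵥ a s (xh o s U)) = pe o μ fun s ω =>
      a s (xp o s ω) ⬝ᵥ Pm o *ᵥ xp o s ω / R2 o s * (Pm o *ᵥ v ⬝ᵥ sv s) := by
  rw [← an_polar hμ h (F := fun s ξ => a s ξ ⬝ᵥ Pm o *ᵥ ξ / R2 o s * (Pm o *ᵥ v ⬝ᵥ sv s))
    fun s => by fun_prop]
  refine an_congr hμ h (fun s => by fun_prop) (fun s => by fun_prop) fun s => ?_
  have := coset hμ h hk s (a := fun ξ => wx o s ξ • a s ξ) (by fun_prop) v
  simpa only [mulVec_smul, dotProduct_smul, smul_dotProduct, smul_eq_mul, w_xh, mul_div_assoc,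
    mul_assoc] using this

/-- Schwinger-Dyson, annealed form -/
theorem an_sd (τ : Cube n → ℝ) (u v : Vn n) :
    o.an μ (fun s U => τ s * (R2 o s * Xf o u (Pm o *ᵥ v) s U +
      (u ⬝ᵥ Pm o *ᵥ v) * (yv o s U ⬝ᵥ Pm o *ᵥ sv s) -
      (Pm o *ᵥ v ⬝ᵥ sv s) * ((u ⬝ᵥ yv o s U) * (yv o s U ⬝ᵥ Pm o *ᵥ sv s) -
        u ⬝ᵥ o.A U *ᵥ (Pm o *ᵥ sv s)) - (u ⬝ᵥ Pm o *ᵥ sv s) * (Pm o *ᵥ v ⬝ᵥ yv o s U))) = 0 := by
  rw [← (pfA hμ h).one 0]
  refine an_congr hμ h (fun s => by fun_prop) (fun s => by fun_prop) fun s => ?_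
  have hw : RD (fun U => o.w U s) fun a U => o.w U s * hq (o.A U) (o.th a U) o.p sv s :=
    ((rd_HU h.iso h.symm o.z s).exp.const_mul (o.w0 s)).congr (fun _ _ => rfl) fun _ _ _ =>
      (mul_assoc _ _ _).symm
  have hy := (RDV.const u).dot ((rd_AU (W := o.W) (z := o.z) h.iso).mulVec (RDV.const (sh o s)))
  have key := sd hμ h (M := fun U => o.w U s • ((u ⬝ᵥ yv o s U) • vecMulVec (yv o s U) (sh o s) +
    vecMulVec u (yv o s U) - vecMulVec (o.A U *ᵥ u) (sh o s))) ((hw.mul hy).congr (fun _ _ => rfl)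
      fun a U _ => ?_) v (sv s)
  · simp only [mul_zero, integral_zero, mul_left_comm _ (τ s), integral_const_mul]
    refine mul_eq_zero_of_right _ (Eq.trans (integral_congr_ae (ae_of_all _ fun U => ?_)) key)
    have e1 : sh o s ⬝ᵥ Pm o *ᵥ sv s = R2 o s := by rw [dot_P, P_sh h, R2_eq]
    have e2 : sh o s ⬝ᵥ Pm o *ᵥ v = Pm o *ᵥ v ⬝ᵥ sv s := by
      rw [dot_P, P_sh h, dotProduct_comm, dot_P]
    have e3 : ∀ w, w ⬝ᵥ o.A U *ᵥ u = u ⬝ᵥ o.A U *ᵥ w := fun w => by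
      rw [symm_dot (Oo.Orb.A_symm h U), dotProduct_comm]
    simp only [Xf, smul_mulVec, add_mulVec, sub_mulVec, Orb.vv_mulVec, dotProduct_smul,
      dotProduct_add, dotProduct_sub, smul_eq_mul, e1, e2, e3, dotProduct_comm (Pm o *ᵥ _) u,
      dotProduct_comm (Pm o *ᵥ _) (yv o s U)]
    ring
  · have e : ∀ a' b : Vn n, ipF (o.th a U) (vecMulVec a' b) = a' ⬝ᵥ o.th a U *ᵥ b := fun a' b =>
      (dot_eq_ipF _ a' b).symm
    have e' : ∀ (c d : ℝ) (M1 M2 M3 : Mn n), ipF (o.th a U) (c • (d • M1 + M2 - M3) : Mn n) =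
        c * (d * ipF (o.th a U) M1 + ipF (o.th a U) M2 - ipF (o.th a U) M3) := fun c d M1 M2 M3 => by
      simp only [ipF, Finset.mul_sum, ← Finset.sum_add_distrib, ← Finset.sum_sub_distrib,
        Matrix.smul_apply, Matrix.add_apply, Matrix.sub_apply, smul_eq_mul]
      exact Finset.sum_congr rfl fun _ _ => Finset.sum_congr rfl fun _ _ => by ring
    rw [e', e, e, e, ← symm_dot (Oo.Orb.A_symm h U)]
    simp only [hq, yv, sh, zero_dotProduct, mulVec_zero, add_zero, zero_add, sub_mulVec,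
      dotProduct_sub (u := u), ← mulVec_mulVec]
    ring

omit hμ in
theorem P_dot_sh (u : Vn n) (s : Cube n) : Pm o *ᵥ u ⬝ᵥ sh o s = Pm o *ᵥ u ⬝ᵥ sv s := by
  rw [← dot_P, P_sh h, dot_P]

/-- the block `P · P` -/
theorem pp (hk : 4 ≤ k) {θ : Cube n → ℝ} (hθ : ∀ s, θ s = 0 ∨ 0 < R2 o s) (u v : Vn n) :
    o.an μ (fun s U => θ s * Xf o (Pm o *ᵥ u) (Pm o *ᵥ v) s U) = pe o μ fun s ω => θ s *
      (ph o s (xp o s ω) * ((Pm o *ᵥ u ⬝ᵥ sh o s) * (Pm o *ᵥ v ⬝ᵥ sh o s)) -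
        cp o s ω * (Pm o *ᵥ u ⬝ᵥ Pm o *ᵥ v)) := by
  have A := pfA hμ h
  have B := pfP hμ h
  have h0 := an_sd hμ h (fun s => θ s / R2 o s) (Pm o *ᵥ u) v
  have h1 := an_polar hμ h (F := fun s ξ => -(θ s * cc o s ξ * (Pm o *ᵥ u ⬝ᵥ Pm o *ᵥ v)))
    fun s => by fun_prop
  have h2 := an_coset hμ h hk (a := fun s ξ => (θ s * (Pm o *ᵥ v ⬝ᵥ sv s)) •
    (cc o s ξ • A0 o *ᵥ ξ - (R2 o s)⁻¹ • A0 o *ᵥ (Pm o *ᵥ ξ))) (fun s => by fun_prop) u
  have h3 := an_coset hμ h hk (a := fun s ξ => (θ s / R2 o s * (Pm o *ᵥ u ⬝ᵥ sv s)) • A0 o *ᵥ ξ)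
    (fun s => by fun_prop) v
  have h4 := congrArg₂ (· + ·) h0 (congrArg₂ (· + ·) h1 (congrArg₂ (· + ·) h2 h3))
  simp only [zero_add] at h4
  rw [← A.add (fun s => by fun_prop) fun s => by fun_prop,
    ← A.add (fun s => by fun_prop) fun s => by fun_prop,
    ← A.add (fun s => by fun_prop) fun s => by fun_prop,
    ← B.add (fun s => by fun_prop) fun s => by fun_prop,
    ← B.add (fun s => by fun_prop) fun s => by fun_prop] at h4
  refine (A.congr (fun s => by fun_prop) (fun s => by fun_prop) fun s U hU => ?_).trans (h4.trans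
    (B.congr (fun s => by fun_prop) (fun s => by fun_prop) fun s ω _ => ?_))
  · rcases hθ s with h5 | h5
    · simp [h5]
    · have e1 : yv o s U ⬝ᵥ Pm o *ᵥ sv s = cc o s (xh o s U) * R2 o s := by
        rw [yv_dot_P h hU, cc, div_mul_cancel₀ _ h5.ne']
      have e2 : Pm o *ᵥ u ⬝ᵥ Pm o *ᵥ sv s = Pm o *ᵥ u ⬝ᵥ sv s := by rw [dot_P, P_P h]
      simp only [mulVec_smul, mulVec_sub, dotProduct_smul, dotProduct_sub, smul_eq_mul, e1, e2,
        ← yv_eq h hU, A_vec h hU (Pm o *ᵥ sv s), gt_P h]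
      field_simp
      ring
  · simp only [P_dot_sh h, smul_dotProduct, sub_dotProduct, smul_eq_mul, ph, cc, aa]
    ring

omit hμ in
theorem Q_dot_y {U : Mat k} (hU : U ∈ SO k) (u : Vn n) (s : Cube n) :
    Qm o *ᵥ u ⬝ᵥ yv o s U = u ⬝ᵥ Qm o *ᵥ (A0 o *ᵥ xh o s U) := by
  rw [yv_eq h hU, Q_dot_g h, dot_Q]

/-- the vector of the block `Π · P` -/
def bq (o : Oo.Orb n k) (s : Cube n) (ω : Vn n) : Vn n :=
  Qm o *ᵥ (cp o s ω • A0 o *ᵥ xp o s ω - (R2 o s)⁻¹ • A0 o *ᵥ (Pm o *ᵥ xp o s ω))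

omit hμ h in
@[fun_prop] theorem cont_bq (s : Cube n) : Continuous (bq o s) := by unfold bq; fun_prop

/-- the block `Π · P` -/
theorem qp (hk : 4 ≤ k) (θ : Cube n → ℝ) (u v : Vn n) :
    o.an μ (fun s U => θ s * Xf o (Qm o *ᵥ u) (Pm o *ᵥ v) s U) =
      pe o μ fun s ω => (u ⬝ᵥ θ s • bq o s ω) * (v ⬝ᵥ Pm o *ᵥ sh o s) := by
  have h2 := an_coset hμ h hk (a := fun s ξ => θ s •
    ((u ⬝ᵥ Qm o *ᵥ (A0 o *ᵥ ξ)) • A0 o *ᵥ ξ - A0 o *ᵥ (Qm o *ᵥ u))) (fun s => by fun_prop) v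
  refine ((pfA hμ h).congr (fun s => by fun_prop) (fun s => by fun_prop) fun s U hU => ?_).trans
    (h2.trans ((pfP hμ h).congr (fun s => by fun_prop) (fun s => by fun_prop) fun s ω _ => ?_))
  · have e : Qm o *ᵥ u ⬝ᵥ o.A U *ᵥ (Pm o *ᵥ v) = Pm o *ᵥ v ⬝ᵥ o.g U *ᵥ (A0 o *ᵥ (Qm o *ᵥ u)) := by
      rw [symm_dot (Oo.Orb.A_symm h U), dotProduct_comm, A_vec h hU, gt_Q h]
    simp only [Xf, Q_dot_y h hU, e, mulVec_smul, mulVec_sub, dotProduct_smul, dotProduct_sub,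
      smul_eq_mul, ← yv_eq h hU]
  · have e : A0 o *ᵥ (Qm o *ᵥ u) ⬝ᵥ Pm o *ᵥ xp o s ω = u ⬝ᵥ Qm o *ᵥ (A0 o *ᵥ (Pm o *ᵥ xp o s ω)) := by
      rw [← symm_dot (A0_symm h), dot_Q]
    simp only [bq, dot_P v, P_dot_sh h, mulVec_smul, mulVec_sub, dotProduct_smul, dotProduct_sub,
      smul_dotProduct, sub_dotProduct, smul_eq_mul, e, cc]
    ring

/-- the mean of `P y` -/
theorem py (hk : 4 ≤ k) (θ : Cube n → ℝ) (v : Vn n) :
    o.an μ (fun s U => θ s * (Pm o *ᵥ v ⬝ᵥ yv o s U)) =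
      pe o μ fun s ω => (Pm o *ᵥ v ⬝ᵥ sh o s) * (θ s * cp o s ω) := by
  have h2 := an_coset hμ h hk (a := fun s ξ => θ s • A0 o *ᵥ ξ) (fun s => by fun_prop) v
  refine ((pfA hμ h).congr (fun s => by fun_prop) (fun s => by fun_prop) fun s U hU => ?_).trans
    (h2.trans ((pfP hμ h).congr (fun s => by fun_prop) (fun s => by fun_prop) fun s ω _ => ?_))
  · simp only [mulVec_smul, dotProduct_smul, smul_eq_mul, ← yv_eq h hU]
  · simp only [P_dot_sh h, smul_dotProduct, smul_eq_mul, cc]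
    ring

/-! ### Stein's identity for linear functions -/

theorem stein_dot {F : Cube n → Vn n → ℝ} (hF : ∀ s, Continuous (F s)) (u : Vn n) :
    pe o μ (fun s ω => (u ⬝ᵥ sh o s) * F s ω) = pe o μ (fun s ω => (u ⬝ᵥ (Ti o s ω - o.p)) * F s ω) +
      u ⬝ᵥ fun i => pe o μ fun s ω => (1 - Ti o s ω i ^ 2) * dI i F s ω := by
  have B := pfP hμ h
  have e1 := B.dotV (a := fun s ω => F s ω • sh o s) (fun s => by fun_prop) u
  have e2 := B.dotV (a := fun s ω => F s ω • (Ti o s ω - o.p)) (fun s => by fun_prop) u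
  simp only [dotProduct_smul, Pi.smul_apply, Pi.sub_apply, smul_eq_mul, mul_comm (F _ _)] at e1 e2
  rw [e1, e2, ← dotProduct_add]
  congr 1
  funext i
  exact stein hμ hF i

omit hμ h in
theorem dI_dot (i : Fin n) (u : Vn n) (s : Cube n) (ω : Vn n) :
    dI i (fun s _ => u ⬝ᵥ sh o s) s ω = u i := by
  simp only [dI, sh, sv_fl, dotProduct_sub, dotProduct_smul, smul_eq_mul, dotProduct_comm u
    (Pi.single i 1), single_dot]
  linear_combination u i * sv_sq i s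

section K

variable {K : ℝ}
  (hK : pe o μ (fun s ω => Pm o *ᵥ (Ti o s ω - o.p) ⬝ᵥ Pm o *ᵥ (Ti o s ω - o.p)) ≤ K)
include hK

/-- **ST** -/
theorem st {F : Cube n → Vn n → ℝ} (hF : ∀ s, Continuous (F s)) {b d : ℝ} (hb : pe o μ (fun s ω => F s ω ^ 2) ≤ b)
    (hd : ∑ i, pe o μ (fun s ω => dI i F s ω ^ 2) ≤ d) (w : Vn n) :
    pe o μ (fun s ω => (Pm o *ᵥ w ⬝ᵥ sh o s) * F s ω) ^ 2 ≤ 2 * (K * b + d) * (w ⬝ᵥ w) := by
  have B := pfP hμ h
  have w0 := dot_self_nonneg w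
  have K0 : 0 ≤ K := (B.nonneg (fun s => by fun_prop) fun _ _ _ => dot_self_nonneg _).trans hK
  have h1 := B.cs (F := fun s ω => w ⬝ᵥ Pm o *ᵥ (Ti o s ω - o.p)) (fun s => by fun_prop) hF
  have h2 := B.dot_sq (b := fun s ω => Pm o *ᵥ (Ti o s ω - o.p)) (fun s => by fun_prop) hK w
  have h3 := h1.trans (mul_le_mul h2 hb (B.nonneg (fun s => by fun_prop) fun _ _ _ => sq_nonneg _)
    (mul_nonneg K0 w0))
  simp only [dot_P w] at h3
  rw [stein_dot hμ h hF]
  set N : Vn n := fun i => pe o μ fun s ω => (1 - Ti o s ω i ^ 2) * dI i F s ω with hN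
  have h4 : N ⬝ᵥ N ≤ d := by
    rw [dot_self_eq_sq]
    refine (Finset.sum_le_sum fun i _ => ?_).trans hd
    have c := CF.dI hF i
    refine (B.sq_le fun s => by have := c s; fun_prop).trans
      (B.mono (fun s => by have := c s; fun_prop) (fun s => (c s).pow 2) fun s ω _ => ?_)
    rw [mul_pow]
    have := tanh_sq_lt_one (bi o s ω i)
    exact mul_le_of_le_one_left (sq_nonneg _) (by
      rw [Ti]; nlinarith [sq_nonneg (tanh (bi o s ω i))])
  have h5 := (dot_sq_le (Pm o *ᵥ w) N).trans (mul_le_mul (P_le h w) h4 (dot_self_nonneg _) w0)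
  nlinarith [sq_nonneg (pe o μ (fun s ω => (Pm o *ᵥ w ⬝ᵥ (Ti o s ω - o.p)) * F s ω) - Pm o *ᵥ w ⬝ᵥ N)]

/-- **(S)** -/
theorem sS (w : Vn n) :
    pe o μ (fun s _ => (w ⬝ᵥ Pm o *ᵥ sh o s) ^ 2) ≤ (2 * K + 2) * (w ⬝ᵥ w) := by
  have B := pfP hμ h
  have w0 := dot_self_nonneg w
  have K0 : 0 ≤ K := (B.nonneg (fun s => by fun_prop) fun _ _ _ => dot_self_nonneg _).trans hK
  have h1 := st hμ h hK (F := fun s _ => Pm o *ᵥ w ⬝ᵥ sh o s) (fun s => by fun_prop) le_rfl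
    (d := w ⬝ᵥ w) (by
      simp only [dI_dot, B.one, ← dot_self_eq_sq]; exact P_le h w) w
  simp only [← sq, dot_P w] at h1 ⊢
  generalize pe o μ (fun s _ => (Pm o *ᵥ w ⬝ᵥ sh o s) ^ 2) = Y at *
  by_contra hc
  have h2 := lt_of_not_ge hc
  nlinarith [mul_nonneg K0 w0, mul_nonneg (mul_nonneg K0 w0) w0]

end K

end Crest.Agent.T157.Mj
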