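import Crest.Agent.T157.MjC_84

set_option autoImplicit false
set_option linter.unusedSectionVars false

/-!
Row 157, A2 section 4 (helper84): (M2), (M3) from second moments.
-/

noncomputable section

namespace Crest.Agent.T157.Mj

open MeasureTheory Matrix Crest.Agent.Lib.OrthPoinc Filter Topology Set Real
open Crest.Agent.T157.Oc Crest.Agent.T157.E Crest.Agent.T157.SL Crest.Agent.T157.Ks
open Crest.Agent.T157.Od Crest.Agent.T157.Oo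

variable {n k : ℕ}

/-- indicator of the good spins -/
def tg (o : Oo.Orb n k) (Λ : ℝ) (s : Cube n) : ℝ := if Z2 o s ≤ Λ then 1 else 0
/-- indicator of the spins near a bad spin -/
def tb (o : Oo.Orb n k) (Λ : ℝ) (s : Cube n) : ℝ := if Λ < 2 * Z2 o s + 8 then 1 else 0

/-- the input numbers -/
structure Nm where
  (Λ κ δ m1 m2 my mg : ℝ)

def Nm.g1 (c : Nm) : ℝ := 3 * (c.Λ * c.mg + 4 * c.m1 + c.my)
def Nm.g2 (c : Nm) : ℝ := 168 * c.m2 + 2 * c.my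
/-- bound for `E |P (T - p)|²` -/
def Nm.K (c : Nm) (n : ℕ) : ℝ := 5000000 * (c.κ * c.Λ ^ 2 * c.g1 + c.g2 + 1) + 4 * n * c.δ
/-- bound for `E |T - p|²` -/
def Nm.T (c : Nm) (n : ℕ) : ℝ := 3 * (c.g1 + c.g2 + 5408) + 4 * n * c.δ

/-- the inputs -/
structure In (o : Oo.Orb n k) (μ : Measure (Mat k)) (x : Vn n) (χ r0 : ℝ) (e1 e2 : Vn n) (c : Nm) :
    Prop where
  inv : SOInv μ
  ok : o.Ok
  k4 : 4 ≤ k
  fr : Fr o x χ r0 e1 e2
  Λn : 4 * c.Λ ≤ n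
  r0Λ : r0 ^ 2 ≤ c.Λ
  Ae1 : (A0 o *ᵥ e1 ⬝ᵥ A0 o *ᵥ e1) * n ≤ c.Λ
  e6 : ∑ i, e1 i ^ 6 ≤ c.κ
  bad : o.an μ (fun s _ => tb o c.Λ s) ≤ c.δ
  m1 : o.an μ (fun s U => (e1 ⬝ᵥ xh o s U) ^ 2) ≤ c.m1
  m2 : o.an μ (fun s U => (e2 ⬝ᵥ xh o s U) ^ 2) ≤ c.m2
  my : o.an μ (fun s U => Qm o *ᵥ (A0 o *ᵥ xh o s U) ⬝ᵥ Qm o *ᵥ (A0 o *ᵥ xh o s U)) ≤ c.my
  mg : o.an μ (fun s U => tg o c.Λ s * (cc o s (xh o s U) - χ⁻¹) ^ 2) ≤ c.mg

theorem fr_smul (a : ℝ) (M : Mn n) : fr (a • M) = a ^ 2 * fr M := by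
  simp only [fr, Matrix.smul_apply, smul_eq_mul, mul_pow, Finset.mul_sum]
theorem fr_vmv (u v : Vn n) : fr (vecMulVec u v) = (u ⬝ᵥ u) * (v ⬝ᵥ v) := by
  simp only [fr, vecMulVec_apply, dotProduct, Finset.sum_mul_sum]
  exact Finset.sum_congr rfl fun _ _ => Finset.sum_congr rfl fun _ _ => by ring
theorem fr_diag (d : Vn n) : fr (diagonal d) = ∑ i, d i ^ 2 := by
  simp [fr, diagonal_apply]
theorem fr_op {M : Mn n} {a : ℝ} (h : Op2 M a) : fr M ≤ a * n := by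
  simpa [fr, one_apply] using h.fr_left 1
theorem quad_le {M : Mn n} (h : Op2 M 36) (u : Vn n) : |u ⬝ᵥ M *ᵥ u| ≤ 6 * (u ⬝ᵥ u) :=
  abs_le_of_sq_le_sq ((dot_sq_le _ _).trans ((mul_le_mul_of_nonneg_left (h u)
    (dot_self_nonneg u)).trans_eq (by ring))) (by linarith [dot_self_nonneg u])

variable {o : Oo.Orb n k} {μ : Measure (Mat k)} [IsProbabilityMeasure μ] {x : Vn n} {χ r0 : ℝ}
  {e1 e2 : Vn n} {c : Nm}

theorem tb0 (Λ : ℝ) (s : Cube n) : 0 ≤ tb o Λ s := by unfold tb; split_ifs <;> norm_num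
theorem tg0 (Λ : ℝ) (s : Cube n) : 0 ≤ tg o Λ s := by unfold tg; split_ifs <;> norm_num
theorem opP (h : o.Ok) : Op2 (Pm o) 1 := fun v => by simpa using P_le h v
theorem opQ (h : o.Ok) : Op2 (Qm o) 1 := fun v => by simpa using Q_le h v
theorem Psh_sq (h : o.Ok) (s : Cube n) : Pm o *ᵥ sh o s ⬝ᵥ Pm o *ᵥ sh o s = R2 o s := by
  rw [P_sh h, dot_P, P_P h, R2_eq]
theorem R2_le (h : o.Ok) (s : Cube n) : R2 o s ≤ n := by linarith [R2_add h s, Z2_nonneg (o := o) s]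
theorem Tp_sq (f : Fr o x χ r0 e1 e2) (s : Cube n) (ω : Vn n) :
    (Ti o s ω - o.p) ⬝ᵥ (Ti o s ω - o.p) ≤ 4 * n := by
  rw [dot_self_eq_sq]
  refine (Finset.sum_le_sum (g := fun _ => (4 : ℝ)) fun i _ => ?_).trans (by simp [mul_comm])
  have h1 := tanh_sq_lt_one (bi o s ω i)
  have h2 := tanh_sq_lt_one (x i)
  rw [Pi.sub_apply, f.hp, Ti]
  nlinarith [sq_nonneg (tanh (bi o s ω i) + tanh (x i))]

namespace In

variable (H : In o μ x χ r0 e1 e2 c)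
include H

theorem A : PF (· ∈ SO k) (o.an μ) := pfA H.inv H.ok
theorem B : PF (Sph o) (pe o μ) := pfP H.inv H.ok

theorem cases (s : Cube n) : (tg o c.Λ s = 1 ∧ 4 * Z2 o s ≤ n ∧ Z2 o s ≤ c.Λ) ∨
    (tg o c.Λ s = 0 ∧ tb o c.Λ s = 1 ∧ c.Λ < Z2 o s) := by
  by_cases h : Z2 o s ≤ c.Λ
  · exact Or.inl ⟨if_pos h, by linarith [H.Λn], h⟩
  · exact Or.inr ⟨if_neg h, if_pos (by linarith [Z2_nonneg (o := o) s]), lt_of_not_ge h⟩

theorem Λ0 : 0 ≤ c.Λ := (sq_nonneg _).trans H.r0Λ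
theorem n4 : (4 : ℝ) ≤ n := by exact_mod_cast H.fr.n4
theorem badP : pe o μ (fun s _ => tb o c.Λ s) ≤ c.δ :=
  (an_polar H.inv H.ok (F := fun s _ => tb o c.Λ s) fun s => by fun_prop).ge.trans H.bad
theorem myP : pe o μ (fun s ω => Qm o *ᵥ (A0 o *ᵥ xp o s ω) ⬝ᵥ Qm o *ᵥ (A0 o *ᵥ xp o s ω)) ≤ c.my :=
  (an_polar H.inv H.ok (F := fun _ ξ => Qm o *ᵥ (A0 o *ᵥ ξ) ⬝ᵥ Qm o *ᵥ (A0 o *ᵥ ξ))
    fun s => by fun_prop).ge.trans H.my
theorem mgP : pe o μ (fun s ω => tg o c.Λ s * (cp o s ω - χ⁻¹) ^ 2) ≤ c.mg :=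
  (an_polar H.inv H.ok (F := fun s ξ => tg o c.Λ s * (cc o s ξ - χ⁻¹) ^ 2)
    fun s => by fun_prop).ge.trans H.mg
theorem δ0 : 0 ≤ c.δ := (H.A.nonneg (fun s => by fun_prop) fun s _ _ => tb0 _ s).trans H.bad
theorem my0 : 0 ≤ c.my :=
  (H.A.nonneg (fun s => by fun_prop) fun _ _ _ => dot_self_nonneg _).trans H.my
theorem mg0 : 0 ≤ c.mg := (H.A.nonneg (fun s => by fun_prop) fun s _ _ =>
  mul_nonneg (tg0 _ s) (sq_nonneg _)).trans H.mg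
theorem bad2 (s : Cube n) : (1 - tg o c.Λ s) ^ 2 ≤ tb o c.Λ s := by
  rcases H.cases s with h | h
  · simpa [h.1] using tb0 _ s
  · simp [h.1, h.2.1]
theorem badA2 : o.an μ (fun s _ => (1 - tg o c.Λ s) ^ 2) ≤ c.δ :=
  (H.A.mono (fun s => by fun_prop) (fun s => by fun_prop) fun s _ _ => H.bad2 s).trans H.bad
theorem badP2 : pe o μ (fun s _ => (1 - tg o c.Λ s) ^ 2) ≤ c.δ :=
  (H.B.mono (fun s => by fun_prop) (fun s => by fun_prop) fun s _ _ => H.bad2 s).trans H.badP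

theorem e_xp {e ω : Vn n} (he : Qm o *ᵥ e = e) (hω : Sph o ω) (s : Cube n) :
    e ⬝ᵥ xp o s ω = e ⬝ᵥ Qm o *ᵥ sv s - e ⬝ᵥ o.p := by
  rw [← dotProduct_sub, ← Qsh H.ok, ← Q_xp H.ok hω, dot_Q, he]

theorem hg1 : pe o μ (fun s ω => tg o c.Λ s * (e1 ⬝ᵥ Gv o χ s (xp o s ω)) ^ 2) ≤ c.g1 := by
  have h1 := (an_polar H.inv H.ok (F := fun _ ξ => (e1 ⬝ᵥ ξ) ^ 2) fun s => by fun_prop).ge.trans H.m1
  have h2 := H.B.mono (F := fun s ω => tg o c.Λ s * (e1 ⬝ᵥ Gv o χ s (xp o s ω)) ^ 2)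
    (G := fun s ω => 3 * c.Λ * (tg o c.Λ s * (cp o s ω - χ⁻¹) ^ 2) + (12 * (e1 ⬝ᵥ xp o s ω) ^ 2 +
      3 * (Qm o *ᵥ (A0 o *ᵥ xp o s ω) ⬝ᵥ Qm o *ᵥ (A0 o *ᵥ xp o s ω))))
    (fun s => by fun_prop) (fun s => by fun_prop) fun s ω hω => by
      have a3 := dot_sq_le e1 (Qm o *ᵥ (A0 o *ᵥ xp o s ω))
      rw [H.fr.e11, one_mul] at a3
      rcases H.cases s with h | h
      · have e : e1 ⬝ᵥ Gv o χ s (xp o s ω) = (cp o s ω - χ⁻¹) * (e1 ⬝ᵥ Qm o *ᵥ sv s) +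
            (χ⁻¹ * (e1 ⬝ᵥ xp o s ω) + -(e1 ⬝ᵥ Qm o *ᵥ (A0 o *ᵥ xp o s ω))) := by
          simp only [Gv, dotProduct_sub, dotProduct_smul, smul_eq_mul, H.e_xp (H.fr.Q1 H.ok) hω]
          ring
        have a1 := dot_sq_le e1 (Qm o *ᵥ sv s)
        rw [H.fr.e11, one_mul, ← Z2] at a1
        have a2 := mul_le_mul_of_nonneg_left (a1.trans h.2.2) (sq_nonneg (cp o s ω - χ⁻¹))
        have a4 : χ⁻¹ ^ 2 ≤ 4 := by nlinarith [H.fr.inv_le H.ok]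
        have a5 := mul_le_mul_of_nonneg_right a4 (sq_nonneg (e1 ⬝ᵥ xp o s ω))
        rw [h.1, one_mul, one_mul, e]
        refine (sq3_le _ _ _).trans ?_
        simp only [neg_sq, mul_pow]
        linarith
      · simp only [h.1, zero_mul, mul_zero, zero_add]
        linarith [sq_nonneg (e1 ⬝ᵥ xp o s ω), sq_nonneg (e1 ⬝ᵥ Qm o *ᵥ (A0 o *ᵥ xp o s ω))]
  rw [H.B.add (fun s => by fun_prop) fun s => by fun_prop,
    H.B.add (fun s => by fun_prop) fun s => by fun_prop, H.B.mul, H.B.mul, H.B.mul] at h2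
  have := mul_le_mul_of_nonneg_left H.mgP H.Λ0
  rw [Nm.g1]
  linarith [H.myP]

theorem hg2 : pe o μ (fun s ω => tg o c.Λ s * (e2 ⬝ᵥ Gv o χ s (xp o s ω)) ^ 2) ≤ c.g2 := by
  have h1 := (an_polar H.inv H.ok (F := fun _ ξ => (e2 ⬝ᵥ ξ) ^ 2) fun s => by fun_prop).ge.trans H.m2
  have h2 := H.B.mono (F := fun s ω => tg o c.Λ s * (e2 ⬝ᵥ Gv o χ s (xp o s ω)) ^ 2)
    (G := fun s ω => 168 * (e2 ⬝ᵥ xp o s ω) ^ 2 +
      2 * (Qm o *ᵥ (A0 o *ᵥ xp o s ω) ⬝ᵥ Qm o *ᵥ (A0 o *ᵥ xp o s ω)))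
    (fun s => by fun_prop) (fun s => by fun_prop) fun s ω hω => by
      have a3 := dot_sq_le e2 (Qm o *ᵥ (A0 o *ᵥ xp o s ω))
      rw [H.fr.e22, one_mul] at a3
      rcases H.cases s with h | h
      · have e0 : e2 ⬝ᵥ o.p = 0 := by
          rw [H.fr.pe1, dotProduct_smul, dotProduct_comm, H.fr.e12, smul_zero]
        have e : e2 ⬝ᵥ Gv o χ s (xp o s ω) = cp o s ω * (e2 ⬝ᵥ xp o s ω) -
            e2 ⬝ᵥ Qm o *ᵥ (A0 o *ᵥ xp o s ω) := by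
          simp only [Gv, dotProduct_sub, dotProduct_smul, smul_eq_mul, H.e_xp (H.fr.Q2 H.ok) hω, e0]
          ring
        have a5 := mul_le_mul_of_nonneg_right (H.fr.cp_sq H.ok h.2.1 hω) (sq_nonneg (e2 ⬝ᵥ xp o s ω))
        rw [h.1, one_mul, e]
        nlinarith [sq_nonneg (cp o s ω * (e2 ⬝ᵥ xp o s ω) + e2 ⬝ᵥ Qm o *ᵥ (A0 o *ᵥ xp o s ω))]
      · simp only [h.1, zero_mul]
        linarith [sq_nonneg (e2 ⬝ᵥ xp o s ω), sq_nonneg (e2 ⬝ᵥ Qm o *ᵥ (A0 o *ᵥ xp o s ω))]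
  rw [H.B.add (fun s => by fun_prop) fun s => by fun_prop, H.B.mul, H.B.mul] at h2
  rw [Nm.g2]
  linarith [H.myP]

theorem comb {F : Cube n → Vn n → ℝ} (hF : ∀ s, Continuous (F s)) {a b d : ℝ} (a0 : 0 ≤ a)
    (b0 : 0 ≤ b) (d0 : 0 ≤ d) (h1 : ∀ s ω, F s ω ≤ 4 * n) (h2 : ∀ s ω, Sph o ω → 4 * Z2 o s ≤ n →
      Z2 o s ≤ c.Λ → F s ω ≤ a * (e1 ⬝ᵥ Gv o χ s (xp o s ω)) ^ 2 +
        b * (e2 ⬝ᵥ Gv o χ s (xp o s ω)) ^ 2 + d) :
    pe o μ F ≤ a * c.g1 + b * c.g2 + d + 4 * n * c.δ := by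
  have h3 := H.B.mono hF (G := fun s ω => a * (tg o c.Λ s * (e1 ⬝ᵥ Gv o χ s (xp o s ω)) ^ 2) +
      b * (tg o c.Λ s * (e2 ⬝ᵥ Gv o χ s (xp o s ω)) ^ 2) + d + 4 * n * tb o c.Λ s)
    (fun s => by fun_prop) fun s ω hω => by
      rcases H.cases s with h | h
      · have := mul_nonneg (by positivity : (0 : ℝ) ≤ 4 * n) (tb0 (o := o) c.Λ s)
        simp only [h.1, one_mul]
        linarith [h2 s ω hω h.2.1 h.2.2]
      · simp only [h.1, h.2.1, zero_mul, mul_zero, mul_one]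
        linarith [h1 s ω]
  rw [H.B.add (fun s => by fun_prop) fun s => by fun_prop,
    H.B.add (fun s => by fun_prop) fun s => by fun_prop,
    H.B.add (fun s => by fun_prop) fun s => by fun_prop, H.B.mul, H.B.mul, H.B.mul, H.B.one] at h3
  linarith [mul_le_mul_of_nonneg_left H.hg1 a0, mul_le_mul_of_nonneg_left H.hg2 b0,
    mul_le_mul_of_nonneg_left H.badP (by positivity : (0 : ℝ) ≤ 4 * n)]

theorem κ0 : 0 ≤ c.κ := (Finset.sum_nonneg fun i _ => by positivity).trans H.e6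

theorem hK : pe o μ (fun s ω => Pm o *ᵥ (Ti o s ω - o.p) ⬝ᵥ Pm o *ᵥ (Ti o s ω - o.p)) ≤ c.K n := by
  have := H.κ0
  refine (H.comb (a := 5000000 * (c.κ * c.Λ ^ 2)) (b := 5000000) (d := 5000000) (fun s => by fun_prop)
    (by positivity) (by norm_num) (by norm_num) (fun s ω => (P_le H.ok _).trans (Tp_sq H.fr s ω))
    fun s ω hω h1 h2 => (H.fr.key H.ok h1 hω h2 H.r0Λ H.Ae1 H.e6).trans_eq (by ring)).trans_eq ?_
  rw [Nm.K]; ring

theorem hT : pe o μ (fun s ω => (Ti o s ω - o.p) ⬝ᵥ (Ti o s ω - o.p)) ≤ c.T n := by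
  refine (H.comb (a := 3) (b := 3) (d := 16224) (fun s => by fun_prop)
    (by norm_num) (by norm_num) (by norm_num) (fun s ω => Tp_sq H.fr s ω)
    fun s ω hω h1 _ => (H.fr.Tp_le H.ok h1 hω).trans_eq (by ring)).trans_eq ?_
  rw [Nm.T]; ring

theorem K_ge : 5000000 + c.my + 4 * n * c.δ ≤ c.K n := by
  have h1 : 0 ≤ c.g1 := (H.B.nonneg (fun s => by fun_prop) fun s _ _ =>
    mul_nonneg (tg0 _ s) (sq_nonneg _)).trans H.hg1
  have h2 : 0 ≤ c.m2 := (H.A.nonneg (fun s => by fun_prop) fun _ _ _ => sq_nonneg _).trans H.m2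
  have h3 := mul_nonneg (mul_nonneg H.κ0 (sq_nonneg c.Λ)) h1
  rw [Nm.K, Nm.g2]
  linarith [H.my0]

theorem nδ0 : 0 ≤ n * c.δ := mul_nonneg (Nat.cast_nonneg n) H.δ0

theorem opAU {U : Mat k} (hU : U ∈ SO k) : Op2 (o.A U) 36 := fun v => by
  rw [A_vec H.ok hU, Op2.orth (emb_orth' H.ok.iso hU),
    ← Op2.orth (G := (o.g U)ᵀ) (by rw [transpose_transpose]; exact emb_orth H.ok.iso hU) v]
  exact H.fr.opA H.ok _

theorem y_sq {U : Mat k} (hU : U ∈ SO k) (s : Cube n) : yv o s U ⬝ᵥ yv o s U ≤ 144 * n := by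
  have h1 := dot_sub_le (sv s) o.p
  rw [sv_dot_self, H.fr.p_sq H.ok, ← sh] at h1
  linarith [H.opAU hU (sh o s), H.fr.pn, show yv o s U = o.A U *ᵥ sh o s from rfl, H.n4,
    show yv o s U ⬝ᵥ yv o s U = o.A U *ᵥ sh o s ⬝ᵥ o.A U *ᵥ sh o s from rfl]

theorem Py_sq {U : Mat k} (hU : U ∈ SO k) (s : Cube n) (v : Vn n) :
    (Pm o *ᵥ v ⬝ᵥ yv o s U) ^ 2 ≤ 144 * n * (v ⬝ᵥ v) :=
  (dot_sq_le _ _).trans ((mul_le_mul (P_le H.ok v) (H.y_sq hU s) (dot_self_nonneg _)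
    (dot_self_nonneg _)).trans_eq (mul_comm _ _))

theorem Qy (v : Vn n) : o.an μ (fun s U => (Qm o *ᵥ v ⬝ᵥ yv o s U) ^ 2) ≤ c.my * (v ⬝ᵥ v) :=
  (H.A.congr (fun s => by fun_prop) (fun s => by fun_prop) fun s U hU => by
    rw [Q_dot_y H.ok hU]).trans_le
    (H.A.dot_sq (b := fun s U => Qm o *ᵥ (A0 o *ᵥ xh o s U)) (fun s => by fun_prop) H.my v)

theorem tc_sq (s : Cube n) {ω : Vn n} (hω : Sph o ω) : (tg o c.Λ s * cp o s ω) ^ 2 ≤ 84 := by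
  rcases H.cases s with h | h
  · simpa only [h.1, one_mul] using H.fr.cp_sq H.ok h.2.1 hω
  · simp [h.1]

theorem dtc : ∑ i, pe o μ (fun s ω => dI i (fun s ω => tg o c.Λ s * cp o s ω) s ω ^ 2) ≤
    400 + 21 * (n * c.δ) := by
  have h1 : ∀ i, pe o μ (fun s ω => dI i (fun s ω => tg o c.Λ s * cp o s ω) s ω ^ 2) ≤
      200 * Qm o i i + 21 * c.δ := fun i => by
    have q0 := Qii_nonneg H.ok i
    have h2 := H.B.mono (F := fun s ω => dI i (fun s ω => tg o c.Λ s * cp o s ω) s ω ^ 2)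
      (G := fun s _ => 200 * Qm o i i + 21 * tb o c.Λ s) (fun s => by unfold dI; fun_prop)
      (fun s => by fun_prop) fun s ω hω => by
        have a1 := H.tc_sq s hω
        have a2 := H.tc_sq (fl i s) hω
        rw [dI_sq]
        rcases H.cases s with h | h <;> rcases H.cases (fl i s) with h' | h'
        · have := H.fr.dc H.ok h.2.1 hω i h'.2.1
          simp only [h.1, h'.1, one_mul]
          nlinarith [tb0 (o := o) c.Λ s, H.n4, sq_nonneg (cp o s ω - cp o (fl i s) ω)]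
        · have : tb o c.Λ s = 1 := if_pos (h'.2.2.trans_le (Z2_fl_le H.ok i s))
          simp only [h'.1, this, zero_mul, sub_zero]
          linarith
        · simp only [h.1, h.2.1, zero_mul, zero_sub, neg_sq]
          linarith
        · simp only [h.1, h'.1, h.2.1, zero_mul, sub_zero]
          linarith
    rw [H.B.add (fun s => by fun_prop) fun s => by fun_prop, H.B.one, H.B.mul] at h2
    linarith [H.badP]
  refine (Finset.sum_le_sum fun i _ => h1 i).trans_eq ?_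
  rw [Finset.sum_add_distrib, ← Finset.mul_sum, H.fr.trQ H.ok]
  simp; ring

/-- **(M2)** -/
theorem M2 : (EV (o.P μ) fun U => o.A U *ᵥ o.d U) ⬝ᵥ (EV (o.P μ) fun U => o.A U *ᵥ o.d U) ≤
    700 * c.K n := by
  rw [EV_eq]
  set v : Vn n := fun i => o.an μ fun s U => yv o s U i with hv
  have v0 := dot_self_nonneg v
  have e : v ⬝ᵥ v = o.an μ (fun s U => Qm o *ᵥ v ⬝ᵥ yv o s U) +
      (o.an μ (fun s U => (1 - tg o c.Λ s) * (Pm o *ᵥ v ⬝ᵥ yv o s U)) +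
        o.an μ fun s U => tg o c.Λ s * (Pm o *ᵥ v ⬝ᵥ yv o s U)) := by
    rw [← H.A.add (fun s => by fun_prop) fun s => by fun_prop,
      ← H.A.add (fun s => by fun_prop) fun s => by fun_prop]
    refine (H.A.dotV (a := yv o) (fun s => by fun_prop) v).symm.trans (congrArg _ ?_)
    funext s U
    rw [Qm_vec, sub_dotProduct]; ring
  have h1 := (H.A.sq_le fun s => by fun_prop).trans (H.Qy v)
  have h2 := (H.A.cs (F := fun s _ => 1 - tg o c.Λ s) (G := fun s U => Pm o *ᵥ v ⬝ᵥ yv o s U)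
    (fun s => by fun_prop) fun s => by fun_prop).trans (mul_le_mul H.badA2
      (H.A.le_const (fun s => by fun_prop) fun s U hU => H.Py_sq hU s v)
      (H.A.nonneg (fun s => by fun_prop) fun _ _ _ => sq_nonneg _) H.δ0)
  have h3 := st H.inv H.ok H.hK (F := fun s ω => tg o c.Λ s * cp o s ω) (fun s => by fun_prop)
    (H.B.le_const (fun s => by fun_prop) fun s ω hω => H.tc_sq s hω) H.dtc v
  rw [← py H.inv H.ok H.k4] at h3
  have h4 := sq3_le (o.an μ fun s U => Qm o *ᵥ v ⬝ᵥ yv o s U)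
    (o.an μ fun s U => (1 - tg o c.Λ s) * (Pm o *ᵥ v ⬝ᵥ yv o s U))
    (o.an μ fun s U => tg o c.Λ s * (Pm o *ᵥ v ⬝ᵥ yv o s U))
  rw [← e] at h4
  have h5 := mul_le_mul_of_nonneg_right (show 3 * (c.my + 144 * (n * c.δ) +
    2 * (c.K n * 84 + (400 + 21 * (n * c.δ)))) ≤ 700 * c.K n by
      linarith [H.K_ge, H.my0, H.nδ0]) v0
  rcases v0.eq_or_lt with h0 | h0
  · linarith [H.K_ge, H.my0, H.nδ0]
  · exact le_of_mul_le_mul_right (by nlinarith) h0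

theorem hθ (s : Cube n) : tg o c.Λ s = 0 ∨ 0 < R2 o s := by
  rcases H.cases s with h | h
  · exact Or.inr (by linarith [(H.fr.R2_ge H.ok h.2.1).2])
  · exact Or.inl h.1

theorem Phi_dot (u v : Vn n) :
    u ⬝ᵥ (EM (o.P μ) fun U => o.A U * sm2 (o.w U) sv o.p * o.A U - o.A U) *ᵥ v = o.an μ (Xf o u v) := by
  rw [EM_eq H.ok, H.A.dot fun s => by fun_prop]
  simp only [sub_mulVec, dotProduct_sub, Orb.vv_mulVec, dotProduct_smul, smul_eq_mul,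
    dotProduct_comm _ v, mul_comm (v ⬝ᵥ _)]
  rfl

theorem aa_le {s : Cube n} (hs : 4 * Z2 o s ≤ n) {ω : Vn n} (hω : Sph o ω) :
    |aa o s (xp o s ω)| ≤ 6 := by
  have h0 : 0 < R2 o s := by linarith [(H.fr.R2_ge H.ok hs).2]
  have h1 := quad_le (H.fr.opA H.ok) (Pm o *ᵥ xp o s ω)
  have e : Pm o *ᵥ xp o s ω ⬝ᵥ Pm o *ᵥ xp o s ω = R2 o s := by
    rw [P_xp H.ok hω, smul_dotProduct, dotProduct_smul, hω.one, smul_eq_mul, smul_eq_mul, mul_one,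
      Real.mul_self_sqrt h0.le]
  rw [aa, abs_div, abs_of_pos h0, div_le_iff₀ h0, dotProduct_comm, ← e]
  exact h1

theorem ca_le {s : Cube n} (hs : 4 * Z2 o s ≤ n) {ω : Vn n} (hω : Sph o ω) :
    |cp o s ω| ≤ 10 ∧ |(cp o s ω - aa o s (xp o s ω)) / R2 o s| * R2 o s ≤ 16 := by
  have h0 : 0 < R2 o s := by linarith [(H.fr.R2_ge H.ok hs).2]
  have h1 : |cp o s ω| ≤ 10 :=
    abs_le_of_sq_le_sq (by linarith [H.fr.cp_sq H.ok hs hω]) (by norm_num)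
  rw [abs_div, abs_of_pos h0, div_mul_cancel₀ _ h0.ne']
  exact ⟨h1, (abs_sub _ _).trans (by linarith [H.aa_le hs hω])⟩

/-- **(M3)**, operator form -/
theorem M3op (v : Vn n) :
    v ⬝ᵥ (EM (o.P μ) fun U => o.A U * sm2 (o.w U) sv o.p * o.A U - o.A U) *ᵥ v ≤
      500 * c.K n * (v ⬝ᵥ v) := by
  have v0 := dot_self_nonneg v
  have pv := P_le H.ok v
  have h1 := H.A.mono (F := Xf o v v) (G := fun s U => 2 * (Qm o *ᵥ v ⬝ᵥ yv o s U) ^ 2 +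
      2 * (tg o c.Λ s * Xf o (Pm o *ᵥ v) (Pm o *ᵥ v) s U) + 288 * n * (v ⬝ᵥ v) * tb o c.Λ s +
      18 * (v ⬝ᵥ v)) (fun s => by fun_prop) (fun s => by fun_prop) fun s U hU => by
    have a1 := abs_le.1 (quad_le (H.opAU hU) v)
    have a2 := abs_le.1 (quad_le (H.opAU hU) (Pm o *ᵥ v))
    have a3 := H.Py_sq hU s v
    have e : v ⬝ᵥ yv o s U = Pm o *ᵥ v ⬝ᵥ yv o s U + Qm o *ᵥ v ⬝ᵥ yv o s U := by
      rw [← add_dotProduct, Pm_add_Qm]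
    have a4 := sq_nonneg (Pm o *ᵥ v ⬝ᵥ yv o s U - Qm o *ᵥ v ⬝ᵥ yv o s U)
    have a5 := mul_nonneg (by positivity : (0 : ℝ) ≤ 288 * n * (v ⬝ᵥ v)) (tb0 (o := o) c.Λ s)
    rcases H.cases s with h | h
    · simp only [Xf, h.1, e]
      nlinarith
    · simp only [Xf, h.1, h.2.1, e]
      nlinarith
  rw [H.A.add (fun s => by fun_prop) fun s => by fun_prop,
    H.A.add (fun s => by fun_prop) fun s => by fun_prop,
    H.A.add (fun s => by fun_prop) fun s => by fun_prop, H.A.mul, H.A.mul, H.A.mul, H.A.one,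
    pp H.inv H.ok H.k4 H.hθ] at h1
  have h2 := H.B.mono (F := fun s ω => tg o c.Λ s * (ph o s (xp o s ω) *
      ((Pm o *ᵥ v ⬝ᵥ sh o s) * (Pm o *ᵥ v ⬝ᵥ sh o s)) - cp o s ω * (Pm o *ᵥ v ⬝ᵥ Pm o *ᵥ v)))
    (G := fun s _ => 90 * (v ⬝ᵥ Pm o *ᵥ sh o s) ^ 2 + 10 * (v ⬝ᵥ v)) (fun s => by fun_prop)
    (fun s => by fun_prop) fun s ω hω => by
      rw [dot_P v, ← sq]
      rcases H.cases s with h | h
      · obtain ⟨a1, a2⟩ := H.ca_le h.2.1 hω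
        have a3 : ph o s (xp o s ω) ≤ 90 := by
          have := le_abs_self ((cp o s ω - aa o s (xp o s ω)) / R2 o s)
          rw [ph]
          nlinarith [H.fr.cp_sq H.ok h.2.1 hω, (H.fr.R2_ge H.ok h.2.1).2,
            abs_nonneg ((cp o s ω - aa o s (xp o s ω)) / R2 o s)]
        have a4 := mul_le_mul_of_nonneg_right a3 (sq_nonneg (Pm o *ᵥ v ⬝ᵥ sh o s))
        have a5 := mul_le_mul_of_nonneg_right (abs_le.1 a1).1 (dot_self_nonneg (Pm o *ᵥ v))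
        rw [h.1]
        linarith
      · rw [h.1, zero_mul]; positivity
  rw [H.B.add (fun s => by fun_prop) fun s => by fun_prop, H.B.mul, H.B.one] at h2
  have h3 := sS H.inv H.ok H.hK v
  have h4 := mul_le_mul_of_nonneg_left H.bad (by positivity : (0 : ℝ) ≤ 288 * n * (v ⬝ᵥ v))
  have h5 := mul_le_mul_of_nonneg_right (show 2 * c.my + 180 * (2 * c.K n + 2) + 288 * (n * c.δ) +
    38 ≤ 500 * c.K n by linarith [H.K_ge, H.my0, H.nδ0]) v0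
  rw [H.Phi_dot]
  linarith [H.Qy v]

end In

end Crest.Agent.T157.Mj
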