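import Crest.Agent.T157.MjD_84

set_option autoImplicit false
set_option linter.unusedSectionVars false

/-!
Row 157, A2 section 4 (helper84): (M3) in Frobenius norm.
-/

noncomputable section

namespace Crest.Agent.T157.Mj

open MeasureTheory Matrix Crest.Agent.Lib.OrthPoinc Filter Topology Set Real
open Crest.Agent.T157.Oc Crest.Agent.T157.E Crest.Agent.T157.SL Crest.Agent.T157.Ks
open Crest.Agent.T157.Od Crest.Agent.T157.Oo

variable {n k : ℕ} {o : Oo.Orb n k} {μ : Measure (Mat k)} [IsProbabilityMeasure μ] {x : Vn n}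
  {χ r0 : ℝ} {e1 e2 : Vn n} {c : Nm}

theorem dot_vmv (u v a b : Vn n) : u ⬝ᵥ vecMulVec a b *ᵥ v = (u ⬝ᵥ a) * (v ⬝ᵥ b) := by
  rw [Orb.vv_mulVec, dotProduct_smul, smul_eq_mul, dotProduct_comm b, mul_comm]

theorem PP_dot (h : o.Ok) (u v : Vn n) : Pm o *ᵥ u ⬝ᵥ Pm o *ᵥ v = u ⬝ᵥ Pm o *ᵥ v := by
  rw [← dot_P, P_P h]

theorem frP (h : o.Ok) : fr (Pm o) ≤ n := by simpa using fr_op (opP h)

/-- the block `P · P` -/
def PPm (o : Oo.Orb n k) (μ : Measure (Mat k)) (Λ : ℝ) : Mn n := lM (pe o μ) fun s ω => tg o Λ s •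
  (ph o s (xp o s ω) • vecMulVec (Pm o *ᵥ sh o s) (Pm o *ᵥ sh o s) - cp o s ω • Pm o)

namespace In

variable (H : In o μ x χ r0 e1 e2 c)
include H

theorem K1 : 1 ≤ c.K n := by linarith [H.K_ge, H.my0, H.nδ0]

theorem frA {V : ℝ} (hV : ∑ i, (1 - o.p i ^ 2 - χ) ^ 2 ≤ V) :
    ∑ i, (pe o μ (fun s ω => 1 - Ti o s ω i ^ 2) - χ) ^ 2 ≤ 2 * V + 8 * c.T n := by
  have h1 := H.hT
  simp only [dot_self_eq_sq] at h1
  rw [H.B.sum _ (F := fun i s ω => (Ti o s ω - o.p) i ^ 2) fun i s => by fun_prop] at h1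
  refine le_trans (Finset.sum_le_sum (g := fun i => 2 * (1 - o.p i ^ 2 - χ) ^ 2 +
    8 * pe o μ fun s ω => (Ti o s ω - o.p) i ^ 2) fun i _ => ?_) ?_
  · have e : pe o μ (fun s ω => 1 - Ti o s ω i ^ 2) =
        1 - o.p i ^ 2 + pe o μ fun s ω => o.p i ^ 2 - Ti o s ω i ^ 2 := by
      rw [← H.B.one (1 - o.p i ^ 2), ← H.B.add (fun s => by fun_prop) fun s => by fun_prop]
      simp only [sub_add_sub_cancel]
    have h2 := (H.B.sq_le (F := fun s ω => o.p i ^ 2 - Ti o s ω i ^ 2) fun s => by fun_prop).trans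
      (H.B.le_mul (G := fun s ω => (Ti o s ω - o.p) i ^ 2) (c := 4) (fun s => by fun_prop)
        (fun s => by fun_prop) fun s ω _ => by
          have a1 := tanh_sq_lt_one (bi o s ω i)
          have a2 := tanh_sq_lt_one (x i)
          rw [Pi.sub_apply, H.fr.hp, Ti]
          generalize tanh (bi o s ω i) = T at *
          generalize tanh (x i) = p at *
          have a3 : (T + p) ^ 2 ≤ 4 := by nlinarith [sq_nonneg (T - p)]
          nlinarith [mul_le_mul_of_nonneg_right a3 (sq_nonneg (T - p))])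
    rw [e]
    nlinarith [sq_nonneg (1 - o.p i ^ 2 - χ - pe o μ fun s ω => o.p i ^ 2 - Ti o s ω i ^ 2)]
  · rw [Finset.sum_add_distrib, ← Finset.mul_sum, ← Finset.mul_sum]
    linarith

theorem PP_eq : PPm o μ c.Λ =
    (pM (pe o μ) (fun s ω => (tg o c.Λ s * (ph o s (xp o s ω) - χ⁻¹ ^ 2)) • (Pm o *ᵥ sh o s))
        (fun s _ => Pm o *ᵥ sh o s) - pe o μ (fun s ω => tg o c.Λ s * (cp o s ω - χ⁻¹)) • Pm o) +
      (χ⁻¹ ^ 2 • (pM (pe o μ) (fun s ω => Pm o *ᵥ (Ti o s ω - o.p)) (fun s _ => Pm o *ᵥ sh o s) +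
        Pm o * diagonal (fun i => pe o μ (fun s ω => 1 - Ti o s ω i ^ 2) - χ) * Pm o) +
      lM (pe o μ) fun s _ => (1 - tg o c.Λ s) •
        (χ⁻¹ • Pm o - χ⁻¹ ^ 2 • vecMulVec (Pm o *ᵥ sh o s) (Pm o *ᵥ sh o s))) := by
  refine ext_dot fun u v => ?_
  have h1 := stein_dot H.inv H.ok (F := fun s _ => Pm o *ᵥ v ⬝ᵥ sh o s) (fun s => by fun_prop)
    (Pm o *ᵥ u)
  simp only [dI_dot, H.B.mul'] at h1
  simp only [← dot_P u, ← dot_P v] at h1
  have h2 : u ⬝ᵥ (Pm o * diagonal (fun i => pe o μ (fun s ω => 1 - Ti o s ω i ^ 2) - χ) * Pm o) *ᵥ v =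
      (u ⬝ᵥ Pm o *ᵥ fun i => pe o μ (fun s ω => 1 - Ti o s ω i ^ 2) * (Pm o *ᵥ v) i) -
        χ * (u ⬝ᵥ Pm o *ᵥ v) := by
    rw [← mulVec_mulVec, ← mulVec_mulVec, ← P_P H.ok v, ← smul_eq_mul, ← dotProduct_smul,
      ← mulVec_smul, ← dotProduct_sub, ← mulVec_sub, P_P H.ok v]
    congr 2
    funext i
    simp only [mulVec_diagonal, Pi.sub_apply, Pi.smul_apply, smul_eq_mul, sub_mul]
  have h3 : χ⁻¹ ^ 2 * χ = χ⁻¹ := by
    have : χ ≠ 0 := by linarith [H.fr.lo]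
    field_simp
  have h4 := H.B.congr (F := fun s ω => tg o c.Λ s * (ph o s (xp o s ω) * ((u ⬝ᵥ Pm o *ᵥ sh o s) *
      (v ⬝ᵥ Pm o *ᵥ sh o s)) - cp o s ω * (u ⬝ᵥ Pm o *ᵥ v)))
    (G := fun s ω => tg o c.Λ s * (ph o s (xp o s ω) - χ⁻¹ ^ 2) * (u ⬝ᵥ Pm o *ᵥ sh o s) *
      (v ⬝ᵥ Pm o *ᵥ sh o s) - tg o c.Λ s * (cp o s ω - χ⁻¹) * (u ⬝ᵥ Pm o *ᵥ v) +
      (χ⁻¹ ^ 2 * ((u ⬝ᵥ Pm o *ᵥ sh o s) * (v ⬝ᵥ Pm o *ᵥ sh o s)) - χ⁻¹ * (u ⬝ᵥ Pm o *ᵥ v) +
      (1 - tg o c.Λ s) * (χ⁻¹ * (u ⬝ᵥ Pm o *ᵥ v) -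
        χ⁻¹ ^ 2 * ((u ⬝ᵥ Pm o *ᵥ sh o s) * (v ⬝ᵥ Pm o *ᵥ sh o s))))) (fun s => by fun_prop)
    (fun s => by fun_prop) fun s ω _ => by ring
  rw [H.B.add (fun s => by fun_prop) fun s => by fun_prop,
    H.B.sub (fun s => by fun_prop) fun s => by fun_prop,
    H.B.add (fun s => by fun_prop) fun s => by fun_prop,
    H.B.sub (fun s => by fun_prop) fun s => by fun_prop, H.B.mul', H.B.mul, H.B.one, h1] at h4
  simp only [add_mulVec, sub_mulVec, smul_mulVec, dotProduct_add, dotProduct_sub, dotProduct_smul,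
    smul_eq_mul, h2]
  rw [PPm, H.B.dot fun s => by fun_prop, H.B.dot fun s => by fun_prop,
    H.B.dot fun s => by fun_prop, H.B.dot fun s => by fun_prop]
  simp only [sub_mulVec, smul_mulVec, dotProduct_sub, dotProduct_smul, smul_eq_mul, dot_vmv]
  rw [h4]
  linear_combination (u ⬝ᵥ Pm o *ᵥ v) * h3

theorem frPP {V : ℝ} (hV : ∑ i, (1 - o.p i ^ 2 - χ) ^ 2 ≤ V) : Ks.fr (PPm o μ c.Λ) ≤
    6000 * (n * c.mg * c.K n) + 3300 * c.K n ^ 2 + 256 * V + 1024 * c.T n + 160 * (n ^ 2 * c.δ) := by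
  have K1 := H.K1
  have hS := sS H.inv H.ok H.hK
  have i2 : χ⁻¹ ^ 2 ≤ 4 := by nlinarith [H.fr.inv_le H.ok]
  have i4 : (χ⁻¹ ^ 2) ^ 2 ≤ 16 := by nlinarith [sq_nonneg χ⁻¹]
  have n0 : (0 : ℝ) ≤ n := Nat.cast_nonneg n
  have g0 := mul_nonneg n0 H.mg0
  have h1 := H.B.bes (a := fun s ω => (tg o c.Λ s * (ph o s (xp o s ω) - χ⁻¹ ^ 2)) • (Pm o *ᵥ sh o s))
    (A := 352 * n * c.mg + 171) (fun s => by fun_prop) (fun s => by fun_prop) (by linarith) (by
      have a := H.B.mono (F := fun s ω => (tg o c.Λ s * (ph o s (xp o s ω) - χ⁻¹ ^ 2)) •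
          (Pm o *ᵥ sh o s) ⬝ᵥ (tg o c.Λ s * (ph o s (xp o s ω) - χ⁻¹ ^ 2)) • (Pm o *ᵥ sh o s))
        (G := fun s ω => 352 * n * (tg o c.Λ s * (cp o s ω - χ⁻¹) ^ 2) + 171)
        (fun s => by fun_prop) (fun s => by fun_prop) fun s ω hω => by
          rw [smul_dotProduct, dotProduct_smul, Psh_sq H.ok, smul_eq_mul, smul_eq_mul]
          rcases H.cases s with h | h
          · have a1 := (H.ca_le h.2.1 hω).2
            have a2 := (H.fr.R2_ge H.ok h.2.1).2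
            have a3 := H.fr.cp_sq H.ok h.2.1 hω
            have a4 := R2_le H.ok s
            rw [h.1, one_mul, one_mul, ph]
            change (cp o s ω ^ 2 + (cp o s ω - _) / _ - _) * ((cp o s ω ^ 2 + (cp o s ω - _) / _ - _) *
              _) ≤ _
            generalize (cp o s ω - aa o s (xp o s ω)) / R2 o s = b at *
            generalize cp o s ω = y at *
            generalize R2 o s = R at *
            have a5 : (y + χ⁻¹) ^ 2 ≤ 176 := by nlinarith [sq_nonneg (y - χ⁻¹)]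
            have a6 : (|b| * R) ^ 2 ≤ 16 ^ 2 := pow_le_pow_left₀ (by positivity) a1 2
            rw [mul_pow, sq_abs] at a6
            have a7 : b ^ 2 * R * 3 ≤ 256 := by nlinarith [mul_nonneg (sq_nonneg b) (by linarith : 0 ≤ R)]
            have a8 := mul_le_mul (mul_le_mul_of_nonneg_left a5 (sq_nonneg (y - χ⁻¹))) a4 (by linarith)
              (by positivity)
            nlinarith [mul_nonneg (sq_nonneg ((y - χ⁻¹) * (y + χ⁻¹) - b)) (by linarith : 0 ≤ R)]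
          · simp [h.1]
      rw [H.B.add (fun s => by fun_prop) fun s => by fun_prop, H.B.mul, H.B.one] at a
      linarith [mul_le_mul_of_nonneg_left H.mgP (by positivity : (0 : ℝ) ≤ 352 * n)]) hS
  have h2 : Ks.fr (pe o μ (fun s ω => tg o c.Λ s * (cp o s ω - χ⁻¹)) • Pm o) ≤ c.mg * n := by
    rw [fr_smul]
    refine mul_le_mul ((H.B.sq_le fun s => by fun_prop).trans (le_trans (H.B.congr
      (fun s => by fun_prop) (fun s => by fun_prop) fun s ω _ => ?_).le H.mgP)) (frP H.ok)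
      fr_nonneg H.mg0
    rcases H.cases s with h | h <;> simp [h.1]
  have h3 := H.B.bes (a := fun s ω => Pm o *ᵥ (Ti o s ω - o.p)) (fun s => by fun_prop)
    (fun s => by fun_prop) (by linarith) H.hK hS
  have h4 : Ks.fr (Pm o * diagonal (fun i => pe o μ (fun s ω => 1 - Ti o s ω i ^ 2) - χ) * Pm o) ≤
      2 * V + 8 * c.T n := by
    refine (Op2.fr_right (b := 1) (by rw [Pm_symm]; exact opP H.ok) _).trans ?_
    rw [one_mul]
    refine ((opP H.ok).fr_left _).trans ?_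
    rw [one_mul, fr_diag]
    exact H.frA hV
  have h5 := H.B.bad (M := fun s _ => χ⁻¹ • Pm o - χ⁻¹ ^ 2 • vecMulVec (Pm o *ᵥ sh o s) (Pm o *ᵥ sh o s))
    (B := 40 * n ^ 2) (fun s => by fun_prop) H.badP2 (fun s ω _ => by
      refine (fr_sub_le _ _).trans ?_
      rw [fr_smul, fr_smul, fr_vmv, Psh_sq H.ok]
      have a1 := mul_le_mul i2 (frP H.ok) fr_nonneg (by norm_num)
      have a2 := mul_le_mul i4 (mul_self_le_mul_self (R2_nonneg s) (R2_le H.ok s))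
        (mul_self_nonneg _) (by norm_num)
      nlinarith [H.n4]) (by positivity)
  rw [H.PP_eq]
  refine (fr_add_le _ _).trans ?_
  have h6 := fr_add_le (pM (pe o μ) (fun s ω => Pm o *ᵥ (Ti o s ω - o.p)) fun s _ => Pm o *ᵥ sh o s)
    (Pm o * diagonal (fun i => pe o μ (fun s ω => 1 - Ti o s ω i ^ 2) - χ) * Pm o)
  have h7 := mul_le_mul i4 h6 fr_nonneg (by norm_num)
  rw [← fr_smul] at h7
  refine (mul_le_mul_of_nonneg_left (add_le_add (fr_sub_le _ _) (fr_add_le _ _)) zero_le_two).trans ?_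
  nlinarith [mul_le_mul_of_nonneg_left K1 g0, mul_le_mul_of_nonneg_left K1 (zero_le_one.trans K1)]

theorem frN : Ks.fr (pM (pe o μ) (fun s ω => tg o c.Λ s • bq o s ω) fun s _ => Pm o *ᵥ sh o s) ≤
    (168 * c.my + 24) * (2 * c.K n + 2) := by
  refine H.B.bes (fun s => by fun_prop) (fun s => by fun_prop) (by linarith [H.K1]) ?_
    (sS H.inv H.ok H.hK)
  have a := H.B.mono (F := fun s ω => tg o c.Λ s • bq o s ω ⬝ᵥ tg o c.Λ s • bq o s ω)
    (G := fun s ω => 168 * (Qm o *ᵥ (A0 o *ᵥ xp o s ω) ⬝ᵥ Qm o *ᵥ (A0 o *ᵥ xp o s ω)) + 24)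
    (fun s => by fun_prop) (fun s => by fun_prop) fun s ω hω => by
      have y0 := dot_self_nonneg (Qm o *ᵥ (A0 o *ᵥ xp o s ω))
      rcases H.cases s with h | h
      · have a2 := (H.fr.R2_ge H.ok h.2.1).2
        have h0 : 0 < R2 o s := by linarith
        have a3 := mul_le_mul_of_nonneg_right (H.fr.cp_sq H.ok h.2.1 hω) y0
        have a4 := (Q_le H.ok _).trans (H.fr.opA H.ok (Pm o *ᵥ xp o s ω))
        rw [P_xp H.ok hω, smul_dotProduct (√(R2 o s)), dotProduct_smul, hω.one, smul_eq_mul, smul_eq_mul,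
          mul_one, Real.mul_self_sqrt h0.le, ← P_xp H.ok hω] at a4
        have a5 := mul_le_mul_of_nonneg_left a4 (mul_pos (inv_pos.2 h0) (inv_pos.2 h0)).le
        have a6 : (R2 o s)⁻¹ * (R2 o s)⁻¹ * (36 * R2 o s) ≤ 12 := by
          field_simp; linarith
        rw [h.1, one_smul, bq, mulVec_sub, mulVec_smul, mulVec_smul]
        refine (dot_sub_le _ _).trans ?_
        simp only [smul_dotProduct, dotProduct_smul, smul_eq_mul]
        nlinarith
      · simp only [h.1, zero_smul, dotProduct_zero]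
        linarith
  rw [H.B.add (fun s => by fun_prop) fun s => by fun_prop, H.B.mul, H.B.one] at a
  linarith [H.myP]

theorem tg_le (s : Cube n) : tg o c.Λ s ^ 2 ≤ 1 := by rcases H.cases s with h | h <;> simp [h.1]

theorem frQQ : Ks.fr (pM (o.an μ) (fun s U => tg o c.Λ s • Qm o *ᵥ (A0 o *ᵥ xh o s U))
    (fun s U => Qm o *ᵥ (A0 o *ᵥ xh o s U)) - o.an μ (fun s _ => tg o c.Λ s) • (Qm o * (A0 o * Qm o))) ≤
    2 * c.my ^ 2 + 144 := by
  have h1 := H.A.bes (a := fun s U => tg o c.Λ s • Qm o *ᵥ (A0 o *ᵥ xh o s U)) (A := c.my)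
    (fun s => by fun_prop) (fun s => by fun_prop) H.my0 ((H.A.mono (fun s => by fun_prop)
      (fun s => by fun_prop) fun s U _ => by
        rw [smul_dotProduct, dotProduct_smul, smul_eq_mul, smul_eq_mul, ← mul_assoc, ← sq]
        exact mul_le_of_le_one_left (dot_self_nonneg _) (H.tg_le s)).trans H.my)
    (H.A.dot_sq (b := fun s U => Qm o *ᵥ (A0 o *ᵥ xh o s U)) (fun s => by fun_prop) H.my)
  have h2 : Ks.fr (Qm o) = 2 := by
    rw [← sum_single_dot, ← H.fr.trQ H.ok]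
    exact Finset.sum_congr rfl fun i _ => uq_sq H.ok i
  have h3 := (opQ H.ok).fr_left (A0 o * Qm o)
  have h4 := (H.fr.opA H.ok).fr_left (Qm o)
  have h5 := mul_le_of_le_one_left (fr_nonneg (U := Qm o * (A0 o * Qm o)))
    ((H.A.sq_le (F := fun s _ => tg o c.Λ s) fun s => by fun_prop).trans
      (H.A.le_const (fun s => by fun_prop) fun s _ _ => H.tg_le s))
  refine (fr_sub_le _ _).trans ?_
  rw [fr_smul]
  nlinarith

/-- **(M3)**, Frobenius form -/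
theorem M3F {V : ℝ} (hV : ∑ i, (1 - o.p i ^ 2 - χ) ^ 2 ≤ V) :
    Ks.fr (EM (o.P μ) fun U => o.A U * sm2 (o.w U) sv o.p * o.A U - o.A U) ≤
      100000 * (n * c.mg * c.K n + c.K n ^ 2 + V + c.T n + n ^ 2 * c.δ) := by
  set N := pM (pe o μ) (fun s ω => tg o c.Λ s • bq o s ω) fun s _ => Pm o *ᵥ sh o s with hN
  have e : (EM (o.P μ) fun U => o.A U * sm2 (o.w U) sv o.p * o.A U - o.A U) =
      (lM (o.an μ) fun s U => (1 - tg o c.Λ s) • (vecMulVec (yv o s U) (yv o s U) - o.A U)) +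
      ((PPm o μ c.Λ + N) + (Nᵀ + (pM (o.an μ) (fun s U => tg o c.Λ s • Qm o *ᵥ (A0 o *ᵥ xh o s U))
        (fun s U => Qm o *ᵥ (A0 o *ᵥ xh o s U)) -
        o.an μ (fun s _ => tg o c.Λ s) • (Qm o * (A0 o * Qm o))))) := by
    refine ext_dot fun u v => ?_
    have h1 := H.A.congr (F := Xf o u v) (G := fun s U => (1 - tg o c.Λ s) * Xf o u v s U +
      ((tg o c.Λ s * Xf o (Pm o *ᵥ u) (Pm o *ᵥ v) s U + tg o c.Λ s * Xf o (Qm o *ᵥ u) (Pm o *ᵥ v) s U) +
      (tg o c.Λ s * Xf o (Qm o *ᵥ v) (Pm o *ᵥ u) s U + (tg o c.Λ s * (u ⬝ᵥ Qm o *ᵥ (A0 o *ᵥ xh o s U)) *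
        (v ⬝ᵥ Qm o *ᵥ (A0 o *ᵥ xh o s U)) - tg o c.Λ s * (u ⬝ᵥ (Qm o * (A0 o * Qm o)) *ᵥ v)))))
      (fun s => by fun_prop) (fun s => by fun_prop) fun s U hU => by
        have a1 : u ⬝ᵥ (Qm o * (A0 o * Qm o)) *ᵥ v = Qm o *ᵥ u ⬝ᵥ o.A U *ᵥ (Qm o *ᵥ v) := by
          rw [A_vec H.ok hU, gt_Q H.ok, Q_dot_g H.ok, ← mulVec_mulVec, ← mulVec_mulVec, dot_Q]
        have a2 : Qm o *ᵥ v ⬝ᵥ o.A U *ᵥ (Pm o *ᵥ u) = Pm o *ᵥ u ⬝ᵥ o.A U *ᵥ (Qm o *ᵥ v) := by
          rw [symm_dot (Oo.Orb.A_symm H.ok U), dotProduct_comm]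
        have a3 : Xf o u v s U = Xf o (Pm o *ᵥ u + Qm o *ᵥ u) (Pm o *ᵥ v + Qm o *ᵥ v) s U := by
          rw [Pm_add_Qm, Pm_add_Qm]
        rw [a1, ← Q_dot_y H.ok hU, ← Q_dot_y H.ok hU, a3]
        simp only [Xf, a2, add_dotProduct, dotProduct_add, mulVec_add]
        ring
    rw [H.A.add (fun s => by fun_prop) fun s => by fun_prop,
      H.A.add (fun s => by fun_prop) fun s => by fun_prop,
      H.A.add (fun s => by fun_prop) fun s => by fun_prop,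
      H.A.add (fun s => by fun_prop) fun s => by fun_prop,
      H.A.sub (fun s => by fun_prop) fun s => by fun_prop, H.A.mul', pp H.inv H.ok H.k4 H.hθ,
      qp H.inv H.ok H.k4, qp H.inv H.ok H.k4] at h1
    rw [H.Phi_dot, h1]
    simp only [add_mulVec, sub_mulVec, smul_mulVec, dotProduct_add, dotProduct_sub, dotProduct_smul,
      smul_eq_mul, mulVec_transpose, dotProduct_comm u (v ᵥ* N), ← dotProduct_mulVec]
    rw [PPm, hN, H.A.dot fun s => by fun_prop, H.B.dot fun s => by fun_prop,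
      H.B.dot fun s => by fun_prop, H.B.dot fun s => by fun_prop, H.A.dot fun s => by fun_prop]
    simp only [sub_mulVec, smul_mulVec, dotProduct_sub, dotProduct_smul, smul_eq_mul, dot_vmv, Xf,
      ← dot_P u, ← dot_P v, P_P H.ok]
  have h1 := H.A.bad (M := fun s U => vecMulVec (yv o s U) (yv o s U) - o.A U) (B := 41500 * n ^ 2)
    (fun s => by fun_prop) H.badA2 (fun s U hU => by
      refine (fr_sub_le _ _).trans ?_
      rw [fr_vmv]
      nlinarith [H.n4, fr_op (H.opAU hU), mul_self_le_mul_self (dot_self_nonneg _) (H.y_sq hU s)])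
    (by positivity)
  have h2 := H.frPP hV
  have h3 := H.frN
  have h4 := H.frQQ
  have K1 := H.K1
  have h5 : c.my ≤ c.K n := by linarith [H.K_ge, H.nδ0]
  have h6 : 0 ≤ V := (Finset.sum_nonneg fun _ _ => sq_nonneg _).trans hV
  have h7 : 0 ≤ c.T n := (H.B.nonneg (fun s => by fun_prop) fun _ _ _ => dot_self_nonneg _).trans H.hT
  have h8 := mul_nonneg (mul_nonneg (Nat.cast_nonneg n) H.mg0) (zero_le_one.trans K1)
  have h9 := mul_nonneg (sq_nonneg (n : ℝ)) H.δ0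
  have h10 := mul_le_mul (show 168 * c.my + 24 ≤ 192 * c.K n by linarith)
    (show 2 * c.K n + 2 ≤ 4 * c.K n by linarith) (by linarith) (by linarith)
  have h11 := pow_le_pow_left₀ H.my0 h5 2
  rw [e]
  refine (fr_add_le _ _).trans ((mul_le_mul_of_nonneg_left (add_le_add le_rfl ((fr_add_le _ _).trans
    (mul_le_mul_of_nonneg_left (add_le_add (fr_add_le _ _) (fr_add_le _ _)) zero_le_two)))
    zero_le_two).trans ?_)
  rw [fr_transpose]
  nlinarith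

end In

end Crest.Agent.T157.Mj
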