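import Crest.Agent.T157.O4mE_53

set_option autoImplicit false
set_option linter.unusedSectionVars false

/-!
Row 157, A2 section 4 (helper53): (M4) in the polar model.
-/

noncomputable section

namespace Crest.Agent.T157.M4

open MeasureTheory Matrix Crest.Agent.Lib.OrthPoinc Filter Topology Set Real
open Crest.Agent.T157.Oc Crest.Agent.T157.E Crest.Agent.T157.SL Crest.Agent.T157.Ks
open Crest.Agent.T157.Od Crest.Agent.T157.Oo Crest.Agent.T157.Mj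

variable {n k : ℕ} {o : Oo.Orb n k} {χ : ℝ} {x : Vn n} {Gr : Matrix (Fin k) (Fin k) ℝ}
  {Q A S g Λ : ℝ} {μ : Measure (Mat k)} [IsProbabilityMeasure μ]

@[fun_prop] theorem c_lw (s : Cube n) : Continuous fun ω => lw o ω s := by unfold lw; fun_prop
@[fun_prop] theorem c_yq (s : Cube n) : Continuous (yq o s) := by unfold yq; fun_prop
@[fun_prop] theorem c_yn (s : Cube n) : Continuous (yn o s) := by unfold yn; fun_prop
@[fun_prop] theorem c_kp (s : Cube n) : Continuous (kp o χ s) := by unfold kp; fun_prop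
@[fun_prop] theorem c_k0 (s : Cube n) : Continuous (k0 o χ s) := by unfold k0; fun_prop
@[fun_prop] theorem c_gm (s : Cube n) : Continuous (gm o χ s) := by unfold gm; fun_prop
@[fun_prop] theorem c_Tn (s : Cube n) (i : Fin n) : Continuous fun ω => Tn o s ω i := by
  unfold Tn cav; fun_prop
@[fun_prop] theorem c_St (u v : Vn n) (φ : ℝ) (s : Cube n) : Continuous (St o u v φ s) := by
  unfold St; fun_prop
@[fun_prop] theorem c_bad (v : Vn n) (s : Cube n) : Continuous (bad o χ v s) := by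
  unfold bad; fun_prop

theorem pe_cond (hμ : SOInv μ) {F G : Cube n → Vn n → ℝ} (hF : CF F) (hG : CF G)
    (h : ∀ s, |∫ U, wx o s (xp o s (om o U)) * F s (om o U) ∂μ| ≤
      ∫ U, wx o s (xp o s (om o U)) * G s (om o U) ∂μ) : |pe o μ F| ≤ pe o μ G := by
  rw [pe, pe, abs_div, abs_of_pos (Zp_pos hμ),
    integral_finsetSum _ fun s _ => intg hμ (by have := hF s; fun_prop),
    integral_finsetSum _ (f := fun s U => wx o s (xp o s (om o U)) * G s (om o U))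
      fun s _ => intg hμ (by have := hG s; fun_prop)]
  exact div_le_div_of_nonneg_right ((Finset.abs_sum_le_sum_abs _ _).trans
    (Finset.sum_le_sum fun s _ => h s)) (Zp_pos hμ).le

/-- Stein identity in the polar model -/
theorem pe_stein (u v : Vn n) (m : ℝ) :
    pe o μ (fun s _ => (v ⬝ᵥ sh o s) * (u ⬝ᵥ sh o s - m)) =
      pe o μ fun s ω => St o u v (u ⬝ᵥ sh o s - m) s ω := by
  unfold pe
  congr 2
  funext U
  exact stein (lw o (om o U)) o.p u v m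

/-- the linear part on the sphere -/
def bv (o : Oo.Orb n k) (s : Cube n) : Fin k → ℝ := o.Eᵀ *ᵥ (A0 o *ᵥ zh o s)

theorem Bm_vec (ξ : Fin k → ℝ) : Bm o *ᵥ ξ = o.Eᵀ *ᵥ (A0 o *ᵥ (o.E *ᵥ ξ)) := by
  simp only [Bm, mulVec_mulVec, Matrix.mul_assoc]

theorem Et_le (h : o.Ok) (v : Vn n) : o.Eᵀ *ᵥ v ⬝ᵥ o.Eᵀ *ᵥ v ≤ v ⬝ᵥ v := by
  have := sum_E_sq_le h.iso v
  simpa only [dotProduct, sq] using this

theorem E_dot (h : o.Ok) (ξ : Fin k → ℝ) : o.E *ᵥ ξ ⬝ᵥ o.E *ᵥ ξ = ξ ⬝ᵥ ξ := by rw [dot_E, Et_E h]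

theorem sg_dot (h : o.Ok) (s : Cube n) : (√(R2 o s) • e0 k) ⬝ᵥ (√(R2 o s) • e0 k) = R2 o s := by
  rw [smul_dotProduct, dotProduct_smul, e0_dot h, smul_eq_mul, smul_eq_mul, mul_one,
    Real.mul_self_sqrt (R2_nonneg s)]

theorem link (hμ : SOInv μ) (h : o.Ok) (s : Cube n) : ∃ C : ℝ, 0 < C ∧ ∀ F : ℝ → ℝ,
    ∫ U, wx o s (xp o s (om o U)) * F (cc o s (xp o s (om o U)) - k / R2 o s) ∂μ =
      C * ∫ U, F (ka (Bm o) (bv o s) ((√(R2 o s) • e0 k) ⬝ᵥ (√(R2 o s) • e0 k))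
        (Orb.xi (√(R2 o s) • e0 k) U)) * ew (Bm o) (bv o s) (Orb.xi (√(R2 o s) • e0 k) U) ∂μ := by
  refine ⟨exp (o.h ⬝ᵥ sv s + o.z * (sh o s ⬝ᵥ sh o s) / 2 - zh o s ⬝ᵥ A0 o *ᵥ zh o s / 2),
    exp_pos _, fun F => ?_⟩
  rw [← integral_const_mul]
  refine integral_congr_ae ((Orb.ae_SO hμ).mono fun U hU => ?_)
  have h1 := xp_dot h (sph_om h hU) s
  have h2 : xp o s (om o U) = zh o s + o.E *ᵥ Orb.xi (√(R2 o s) • e0 k) U := by
    simp only [xp, om, Orb.xi, mulVec_smul, zh]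
  simp only
  rw [sg_dot h]
  generalize Orb.xi (√(R2 o s) • e0 k) U = ξ at h2
  have h3 : A0 o *ᵥ zh o s ⬝ᵥ o.E *ᵥ ξ = bv o s ⬝ᵥ ξ := by
    rw [dotProduct_comm, dot_E, dotProduct_comm, bv]
  have h4 : o.E *ᵥ ξ ⬝ᵥ A0 o *ᵥ (o.E *ᵥ ξ) = ξ ⬝ᵥ Bm o *ᵥ ξ := by rw [dot_E, Bm_vec]
  have h5 : cc o s (xp o s (om o U)) - k / R2 o s = ka (Bm o) (bv o s) (R2 o s) ξ := by
    rw [cc, ka, h2, mulVec_add (Pm o), zh, P_Q h, zero_add, P_E h, mulVec_add, add_dotProduct, ← zh,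
      h3, dotProduct_comm (A0 o *ᵥ (o.E *ᵥ ξ)), h4]
    ring
  have h6 : xp o s (om o U) ⬝ᵥ o.W *ᵥ xp o s (om o U) = o.z * (sh o s ⬝ᵥ sh o s) -
      xp o s (om o U) ⬝ᵥ A0 o *ᵥ xp o s (om o U) := by
    rw [A0, sub_mulVec, smul_mulVec, one_mulVec, dotProduct_sub, dotProduct_smul, h1, smul_eq_mul]
    ring
  rw [h5, wx, h6, h2, ew, mul_left_comm, ← exp_add, mul_comm]
  congr 2
  simp only [mulVec_add, add_dotProduct, dotProduct_add, h4, symm_dot (A0_symm h) (zh o s) (o.E *ᵥ ξ),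
    dotProduct_comm (o.E *ᵥ ξ) (A0 o *ᵥ zh o s), h3]
  ring

namespace Hz

variable (h : Hz o x Gr χ Q A S g Λ)
include h

theorem sph {s : Cube n} (hs : n * χ ≤ 2 * R2 o s) :
    Sph (Bm o) Gr (bv o s) (√(R2 o s) • e0 k) Q g (Λ + 4 * Q * zn o s) S := by
  have hz := zn_nn (o := o) s
  have hQ := h.Q1; have hL := h.L1; have hS := h.S0
  have hQz : 0 ≤ Q * zn o s := by positivity
  have hR := h.RG hs
  refine ⟨?_, h.symmG, h.inv, fun v => ?_, h.hG, h.co, hQ, h.g1, by linarith, hS, ?_, ?_, ?_, ?_, ?_⟩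
  · simp only [Bm, transpose_mul, transpose_transpose, A0_symm h.ok, Matrix.mul_assoc]
  · rw [Bm_vec]
    exact (Et_le h.ok _).trans ((h.hA _).trans_eq (by rw [E_dot h.ok]))
  · rw [sg_dot h.ok]
    exact le_of_mul_le_mul_left (by linarith [h.Qn]) (by linarith : 0 < Q)
  · rw [sg_dot h.ok, R2_Q, ← QQ_dot h.ok, h.SS]; linarith [dsq (Qm o *ᵥ sv s)]
  · rwa [sg_dot h.ok]
  · exact (Et_le h.ok _).trans ((op2_le h.hA (zn_sq s).ge).trans
      (pow_le_pow_left₀ hQz (by linarith) 2))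
  · rw [sg_dot h.ok, h.R2_w, sub_right_comm]
    refine (abs_sub _ _).trans ?_
    have : S * zn o s ≤ Q * (S * zn o s) := le_mul_of_one_le_left (by positivity) hQ
    linarith [h.tr, h.w_le s]

theorem K4 (hμ : SOInv μ) : pe o μ (fun s ω => (S * k0 o χ s ω) ^ 4) ≤
    pe o μ fun s _ => 1024 * (g * (Λ + 4 * Q * zn o s) * Q ^ 2) ^ 4 := by
  refine (le_abs_self _).trans (pe_cond hμ (fun s => by fun_prop) (fun s => by fun_prop) fun s => ?_)
  obtain ⟨C, hC, hl⟩ := link hμ h.ok s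
  by_cases hs : n * χ ≤ 2 * R2 o s
  · simp only [k0, ind, if_pos hs, one_mul]
    rw [hl fun y => (S * y) ^ 4, hl fun _ => 1024 * (g * (Λ + 4 * Q * zn o s) * Q ^ 2) ^ 4,
      integral_const_mul, abs_of_nonneg (mul_nonneg hC.le (integral_nonneg fun U =>
        mul_nonneg (by positivity) (ew_pos _ _ _).le))]
    exact mul_le_mul_of_nonneg_left ((h.sph hs).k4 hμ) hC.le
  · simp only [k0, ind, if_neg hs, zero_mul, mul_zero, zero_pow four_ne_zero, integral_zero, abs_zero]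
    exact integral_nonneg fun U => mul_nonneg (exp_pos _).le (by positivity)

theorem K1 (hμ : SOInv μ) (φ : Cube n → ℝ) :
    |pe o μ fun s ω => ((Gr * Gr).trace * k0 o χ s ω - ind o χ s * (R2 o s - Gr.trace)) * φ s| ≤
    pe o μ fun s _ => 70 * g ^ 2 * (g * (Λ + 4 * Q * zn o s) * Q ^ 2) ^ 2 * |φ s| := by
  refine pe_cond hμ (fun s => by fun_prop) (fun s => by fun_prop) fun s => ?_
  obtain ⟨C, hC, hl⟩ := link hμ h.ok s
  by_cases hs : n * χ ≤ 2 * R2 o s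
  · simp only [k0, ind, if_pos hs, one_mul]
    have h1 := (h.sph hs).k1 hμ
    rw [← integral_const_mul, ← integral_const_mul, ← integral_sub (intg hμ (by fun_prop))
      (intg hμ (by fun_prop))] at h1
    rw [hl fun y => ((Gr * Gr).trace * y - (R2 o s - Gr.trace)) * φ s,
      hl fun _ => 70 * g ^ 2 * (g * (Λ + 4 * Q * zn o s) * Q ^ 2) ^ 2 * |φ s|, integral_const_mul,
      abs_mul, abs_of_pos hC]
    refine mul_le_mul_of_nonneg_left ?_ hC.le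
    refine le_trans (le_of_eq ?_) ((mul_le_mul_of_nonneg_right h1 (abs_nonneg (φ s))).trans
      (le_of_eq (by ring)))
    rw [← abs_mul, ← integral_mul_const]
    congr 2
    funext U
    rw [sg_dot h.ok]; ring
  · simp only [k0, ind, if_neg hs, zero_mul, mul_zero, sub_zero, integral_zero, abs_zero]
    exact integral_nonneg fun U => mul_nonneg (exp_pos _).le (by positivity)

/-- the pointwise error -/
theorem Z_le {ω : Vn n} (hω : Mj.Sph o ω) (s : Cube n) {u v : Vn n} (hu : u ⬝ᵥ u ≤ 1)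
    (hv : v ⬝ᵥ v ≤ 1) {φ θ : ℝ}
    (hθ : θ = 1 + zn o s + yn o s ω + |S * k0 o χ s ω| + |φ| + |Dv o.p v ⬝ᵥ sh o s|) :
    S * |Dv o.p v ⬝ᵥ u + (Dv o.p v ⬝ᵥ gm o χ s ω) * φ - St o u v φ s ω -
      kp o χ s ω * (Dv o.p v ⬝ᵥ sh o s) * φ - bad o χ (Dv o.p v) s ω * φ -
      (Dv o.p v ⬝ᵥ o.p) * (Ps o χ Gr.trace (Gr * Gr).trace s * φ)| ≤
        427000 * (A ^ 2 * Λ * Q ^ 6) * θ ^ 3 := by
  have hz := zn_nn (o := o) s
  have hy := yn_nn (o := o) s ω
  have hQ := h.Q1; have hL := h.L1; have hS := h.S0; have hA := h.A1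
  have n1 := abs_nonneg (S * k0 o χ s ω)
  have n2 := abs_nonneg φ
  have n3 := abs_nonneg (Dv o.p v ⬝ᵥ sh o s)
  have hθ1 : 1 ≤ θ := by linarith
  have hDv : Dv o.p v ⬝ᵥ Dv o.p v ≤ 1 := by
    refine le_trans (Finset.sum_le_sum fun i _ => ?_) hv
    have := h.p1 i
    rw [Dv, mul_mul_mul_comm]
    exact mul_le_of_le_one_left (mul_self_nonneg _)
      (mul_le_one₀ (sub_le_self _ (sq_nonneg _)) (by linarith) (sub_le_self _ (sq_nonneg _)))
  have hQ2 : 1 ≤ Q ^ 2 := one_le_pow₀ hQ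
  have q1 : θ ≤ Q ^ 2 * θ := le_mul_of_one_le_left (by linarith) hQ2
  have q2 : Q ^ 2 * θ ≤ Q ^ 3 * θ := by gcongr; norm_num
  have q3 : Q ^ 3 ≤ Q ^ 3 * θ := le_mul_of_one_le_right (by positivity) hθ1
  have a1 : S * |kp o χ s ω| ≤ 3 * (Q ^ 2 * θ) := by
    have : Q ^ 2 * (1 + 2 * zn o s) ≤ Q ^ 2 * (2 * θ) := by gcongr; linarith
    linarith [h.kp_le s ω]
  have a2 : |χ⁻¹| * zn o s ≤ Q ^ 2 * θ :=
    mul_le_mul (h.χi.trans (by nlinarith)) (by linarith) hz (by positivity)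
  have a3 := h.St_le hω (s := s) (Γ := 56 * (Q ^ 3 * θ)) (by positivity) (h.gm_le s ω) (by linarith)
    (fun hs => (h.notG hs).trans (by
      have c1 : Q * zn o s ≤ Q ^ 3 * θ :=
        mul_le_mul (le_self_pow₀ hQ (by norm_num)) (by linarith) hz (by positivity)
      have c2 : Q ^ 3 * θ ≤ A * (Q ^ 3 * θ) := le_mul_of_one_le_left (by positivity) hA
      have : 0 ≤ A * (Q ^ 3 * θ) := by positivity
      linarith)) hu hv φ
  obtain ⟨K, hK⟩ : ∃ K, K = A ^ 2 * Λ * Q ^ 6 := ⟨_, rfl⟩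
  have k1 : A ^ 2 * Q ^ 6 ≤ K := by
    rw [hK, mul_right_comm]; exact le_mul_of_one_le_right (by positivity) hL
  have k2 : Λ * Q ^ 3 ≤ K := by
    rw [hK, mul_assoc]
    exact (mul_le_mul_of_nonneg_left (pow_le_pow_right₀ hQ (by norm_num)) (by linarith)).trans
      (le_mul_of_one_le_left (by positivity) (one_le_pow₀ hA))
  have k3 : Q ^ 3 ≤ K := (le_mul_of_one_le_left (by positivity) hL).trans k2
  have k4 : Q ^ 2 ≤ K := (pow_le_pow_right₀ hQ (by norm_num)).trans k3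
  have t1 : |φ| ≤ θ := by linarith
  have K0 : 0 ≤ K := by rw [hK]; positivity
  have θ0 : 0 ≤ θ := by linarith
  have b1 : A ^ 2 * Q ^ 6 * θ ^ 2 * |φ| ≤ K * θ ^ 2 * θ := by gcongr
  have b2 : A ^ 2 * Q ^ 6 * θ ^ 2 * 1 ≤ K * θ ^ 2 * θ := by gcongr
  have b3 : S * |kp o χ s ω * (Dv o.p v ⬝ᵥ sh o s) * φ| ≤ 3 * (K * θ) * θ * θ := by
    rw [abs_mul, abs_mul, ← mul_assoc, ← mul_assoc]
    exact mul_le_mul (mul_le_mul (a1.trans (by gcongr)) (by linarith) n3 (by positivity)) t1 n2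
      (by positivity)
  have b4 : S * |bad o χ (Dv o.p v) s ω * φ| ≤ 48 * K * θ ^ 2 * θ := by
    rw [abs_mul, ← mul_assoc]
    exact mul_le_mul ((h.bad_le hω s hDv).trans (by gcongr; linarith)) t1 n2 (by positivity)
  have b5 : S * |(Dv o.p v ⬝ᵥ o.p) * (Ps o χ Gr.trace (Gr * Gr).trace s * φ)| ≤ 28 * K * θ ^ 2 * θ := by
    have c1 : |Dv o.p v ⬝ᵥ o.p| ≤ 1 * S := abs_dot_le zero_le_one hS.le (by rwa [one_pow]) h.pp
    have c2 : S ^ 2 * |Ps o χ Gr.trace (Gr * Gr).trace s| ≤ 28 * K * θ ^ 2 :=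
      (h.Ps_le s).trans (by rw [mul_assoc 28]; gcongr; linarith)
    rw [abs_mul, abs_mul]
    calc _ ≤ S * (1 * S * (|Ps o χ Gr.trace (Gr * Gr).trace s| * |φ|)) := by gcongr
      _ = S ^ 2 * |Ps o χ Gr.trace (Gr * Gr).trace s| * |φ| := by ring
      _ ≤ _ := by gcongr
  have b6 : 0 ≤ K * θ ^ 3 := by rw [hK]; positivity
  rw [← hK]
  refine (mul_le_mul_of_nonneg_left ((abs_sub _ _).trans (add_le_add ((abs_sub _ _).trans
    (add_le_add (abs_sub _ _) le_rfl)) le_rfl)) hS.le).trans ?_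
  linarith

end Hz

end Crest.Agent.T157.M4
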