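import Crest.Agent.T157.MjD_84
import Crest.Agent.T157.O4mF_53

set_option autoImplicit false
set_option linter.unusedSectionVars false

/-!
Row 157, A2 section 4 (helper84): the second moment of `c - 1 / χ`.
-/

noncomputable section

namespace Crest.Agent.T157.Mj

open MeasureTheory Matrix Crest.Agent.Lib.OrthPoinc Filter Topology Set Real
open Crest.Agent.T157.Oc Crest.Agent.T157.E Crest.Agent.T157.SL Crest.Agent.T157.Ks
open Crest.Agent.T157.Od Crest.Agent.T157.Oo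

variable {n k : ℕ}

theorem psd_cs {ι : Type*} [Fintype ι] [DecidableEq ι] {M : Matrix ι ι ℝ} (hM : Mᵀ = M)
    (h0 : ∀ v, 0 ≤ v ⬝ᵥ M *ᵥ v) (u v : ι → ℝ) :
    (u ⬝ᵥ M *ᵥ v) ^ 2 ≤ (u ⬝ᵥ M *ᵥ u) * (v ⬝ᵥ M *ᵥ v) := by
  have key : ∀ t : ℝ, 0 ≤ (u ⬝ᵥ M *ᵥ u) * (t * t) + 2 * (u ⬝ᵥ M *ᵥ v) * t + v ⬝ᵥ M *ᵥ v := fun t => by
    have := h0 (t • u + v)
    simp only [mulVec_add, mulVec_smul, add_dotProduct, dotProduct_add, smul_dotProduct,
      dotProduct_smul, smul_eq_mul, symm_dot hM v u, dotProduct_comm (M *ᵥ v) u] at this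
    linarith
  have := discrim_le_zero key
  rw [discrim] at this
  linarith

/-- second moment of `κ` on one sphere -/
theorem k2s {μ : Measure (Mat k)} [IsProbabilityMeasure μ] (hμ : SOInv μ)
    {B Gr : Matrix (Fin k) (Fin k) ℝ} {b σ : Fin k → ℝ} {g a : ℝ} (hB : Bᵀ = B) (hG : Grᵀ = Gr)
    (inv : B * Gr = 1) (psd : ∀ v, 0 ≤ v ⬝ᵥ B *ᵥ v) (h6 : ∀ v, v ⬝ᵥ B *ᵥ v ≤ 6 * (v ⬝ᵥ v))
    (hg : ∀ v, v ⬝ᵥ Gr *ᵥ v ≤ g * (v ⬝ᵥ v)) (ha : b ⬝ᵥ Gr *ᵥ b ≤ a) (hb : b ⬝ᵥ b ≤ 49 * (σ ⬝ᵥ σ))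
    (r1 : 1 ≤ σ ⬝ᵥ σ) :
    ∫ U, M4.ka B b (σ ⬝ᵥ σ) (Orb.xi σ U) ^ 2 * M4.ew B b (Orb.xi σ U) ∂μ ≤
      (72 * (σ ⬝ᵥ σ - Gr.trace) ^ 2 / (σ ⬝ᵥ σ) ^ 2 + (18 * a + 240 * g) / (σ ⬝ᵥ σ)) *
        ∫ U, M4.ew B b (Orb.xi σ U) ∂μ := by
  have h0 : 0 < σ ⬝ᵥ σ := by linarith
  have h1 := M4.ibp_w (b := b) hμ hB h0.ne' (M4.sg_ka (b := b) hB (σ ⬝ᵥ σ)) Gr 0
  have BG : ∀ v, B *ᵥ (Gr *ᵥ v) = v := fun v => by rw [mulVec_mulVec, inv, one_mulVec]
  have pG : ∀ v, 0 ≤ v ⬝ᵥ Gr *ᵥ v := fun v => by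
    have := psd (Gr *ᵥ v); rwa [BG, dotProduct_comm] at this
  have a0 := (pG b).trans ha
  have h2 := M4.int_le3 hμ (f := fun U => M4.ka B b (σ ⬝ᵥ σ) (Orb.xi σ U) ^ 2 * M4.ew B b (Orb.xi σ U))
    (f1 := fun U => M4.Ig B b (σ ⬝ᵥ σ) Gr 0 (Orb.xi σ U) (M4.ka B b (σ ⬝ᵥ σ) (Orb.xi σ U))
      (M4.ka B b (σ ⬝ᵥ σ) (Orb.xi σ U)) ((σ ⬝ᵥ σ)⁻¹ • ((2 : ℝ) • B *ᵥ Orb.xi σ U + b)) *
      M4.ew B b (Orb.xi σ U)) (f2 := fun U => M4.ew B b (Orb.xi σ U)) (f3 := fun _ => 0)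
    (c1 := 12 / (σ ⬝ᵥ σ)) (c3 := 0)
    (c2 := 72 * (σ ⬝ᵥ σ - Gr.trace) ^ 2 / (σ ⬝ᵥ σ) ^ 2 + (18 * a + 240 * g) / (σ ⬝ᵥ σ))
    (by unfold M4.ka; fun_prop) (by unfold M4.Ig M4.ka; fun_prop) (by fun_prop) (by fun_prop)
    fun U hU => by
      have hx := Orb.dot_xi σ hU
      generalize Orb.xi σ U = x at hx
      rw [mul_zero, add_zero, ← mul_assoc, ← add_mul]
      refine mul_le_mul_of_nonneg_right ?_ (M4.ew_pos _ _ _).le
      have e1 : Gr *ᵥ x ⬝ᵥ B *ᵥ x = σ ⬝ᵥ σ := by rw [symm_dot hB, BG, hx]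
      have c1 := psd_cs hB psd (Gr *ᵥ x) x
      have c2 := psd_cs hG pG x b
      have c3 := M4.cs b x
      have c4 := h6 x
      have c5 := hg x
      have c6 := pG x
      have c7 := psd x
      rw [e1, BG] at c1
      rw [symm_dot hG x b] at c2
      simp only [M4.Ig, add_zero, zero_dotProduct, zero_div, dotProduct_add, add_dotProduct,
        dotProduct_smul, smul_dotProduct, smul_eq_mul, e1, dotProduct_comm (B *ᵥ x) x,
        dotProduct_comm (Gr *ᵥ x) x] at c1 ⊢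
      rw [hx] at c3 c4 c5
      generalize M4.ka B b (σ ⬝ᵥ σ) x = κ
      generalize σ ⬝ᵥ σ = r at *
      generalize x ⬝ᵥ Gr *ᵥ x = Y at *
      generalize Gr *ᵥ x ⬝ᵥ b = β at *
      generalize x ⬝ᵥ B *ᵥ x = q at *
      generalize b ⬝ᵥ x = l at *
      generalize Gr.trace = T
      have d1 : r ≤ 6 * Y := le_of_mul_le_mul_right (by nlinarith) h0
      have d2 : β ^ 2 ≤ Y * a := c2.trans (mul_le_mul_of_nonneg_left ha c6)
      have d3 : l ≤ 7 * r := abs_le_of_sq_le_sq' (by nlinarith) (by linarith) |>.2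
      have Y0 : 0 < Y := by linarith
      have d4 : κ * β ≤ κ ^ 2 * Y / 4 + a :=
        le_of_mul_le_mul_right (by nlinarith [sq_nonneg (κ * Y / 2 - β)]) Y0
      have d5 : κ * (r - T) ≤ κ ^ 2 * r / 24 + 6 * (r - T) ^ 2 / r := by
        refine le_of_mul_le_mul_right ?_ h0
        rw [add_mul, div_mul_cancel₀ _ h0.ne']
        nlinarith [sq_nonneg (κ * r - 12 * (r - T))]
      have d6 : -(a / 2 + g / 2) ≤ β / r := by
        rw [le_div_iff₀ h0]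
        have : -β ≤ (a + Y) / 2 := abs_le_of_sq_le_sq' (by nlinarith [sq_nonneg (a - Y)])
          (by linarith) |>.2
        nlinarith
      have d7 : Y * (r⁻¹ * (2 * q + l)) / r ≤ 19 * g := by
        rw [div_le_iff₀ h0]
        have : r⁻¹ * (2 * q + l) ≤ 19 := by rw [inv_mul_le_iff₀ h0]; linarith
        nlinarith
      have d8 : r⁻¹ * (2 * r + β) = 2 + β / r := by field_simp
      have d9 := mul_le_mul_of_nonneg_left d1 (sq_nonneg κ)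
      have g0 : 0 ≤ g := le_of_mul_le_mul_right (by linarith) h0
      refine le_of_mul_le_mul_right ?_ h0
      have e : (12 / r * ((κ * Y + T - (r + β)) * κ + (r⁻¹ * (2 * r + β) - Y * (r⁻¹ * (2 * q + l)) / r)) +
          (72 * (r - T) ^ 2 / r ^ 2 + (18 * a + 240 * g) / r)) * r = 12 * ((κ * Y + T - (r + β)) * κ +
          (r⁻¹ * (2 * r + β) - Y * (r⁻¹ * (2 * q + l)) / r)) + (12 * (6 * (r - T) ^ 2 / r) +
          (18 * a + 240 * g)) := by field_simp; ring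
      rw [e, d8]
      nlinarith
  rw [h1] at h2
  simpa using h2

variable {o : Oo.Orb n k} {μ : Measure (Mat k)} [IsProbabilityMeasure μ] {x : Vn n} {χ r0 : ℝ}
  {e1 e2 : Vn n}

/-- **the law of `c`**, second moment -/
theorem mg_le (hμ : SOInv μ) (h : o.Ok) (f : Fr o x χ r0 e1 e2) (dim : k + 2 = n)
    (hχ : n * χ = n - o.p ⬝ᵥ o.p) {Gr : Matrix (Fin k) (Fin k) ℝ} {Λ g a D m : ℝ} (hG : Grᵀ = Gr)
    (inv : M4.Bm o * Gr = 1) (psd : ∀ v, 0 ≤ v ⬝ᵥ M4.Bm o *ᵥ v)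
    (hg : ∀ v, v ⬝ᵥ Gr *ᵥ v ≤ g * (v ⬝ᵥ v)) (a0 : 0 ≤ a) (g1 : 1 ≤ g)
    (ha : ∀ z, o.Eᵀ *ᵥ (A0 o *ᵥ z) ⬝ᵥ Gr *ᵥ (o.Eᵀ *ᵥ (A0 o *ᵥ z)) ≤ a * (z ⬝ᵥ z))
    (hD : (n * χ - Gr.trace) ^ 2 ≤ D) (hΛ : 4 * Λ ≤ n)
    (hm : o.an μ (fun s U => Qm o *ᵥ xh o s U ⬝ᵥ Qm o *ᵥ xh o s U) ≤ m) :
    o.an μ (fun s U => tg o Λ s * (cc o s (xh o s U) - χ⁻¹) ^ 2) ≤
      512 * D / n ^ 2 + ((2200 + 48 * a) * m + 700 * g) / n := by
  have B := pfP hμ h
  have n4 : (4 : ℝ) ≤ n := by exact_mod_cast f.n4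
  have D0 : 0 ≤ D := (sq_nonneg _).trans hD
  have hw : ∀ s, 4 * Z2 o s ≤ n → (n * χ - R2 o s) ^ 2 ≤ 4 * n * (M4.zh o s ⬝ᵥ M4.zh o s) := fun s hs => by
    have a1 := f.Qsh_le h hs
    have a2 := dot_sq_le o.p (M4.zh o s)
    have e : n * χ - R2 o s = M4.zh o s ⬝ᵥ M4.zh o s + 2 * (o.p ⬝ᵥ M4.zh o s) := by
      have := R2_add h s
      rw [Z2, M4.zt_eq h] at this
      simp only [add_dotProduct, dotProduct_add, dotProduct_comm (M4.zh o s) o.p] at this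
      linarith
    rw [f.p_sq h] at a2
    rw [← M4.zh] at a1
    have z0 := dot_self_nonneg (M4.zh o s)
    rw [e]
    nlinarith [sq_nonneg (M4.zh o s ⬝ᵥ M4.zh o s - 2 * (o.p ⬝ᵥ M4.zh o s)), mul_le_mul_of_nonneg_right a1 z0,
      mul_le_mul_of_nonneg_right f.pn z0]
  have cs : ∀ s, (tg o Λ s = 1 ∧ 4 * Z2 o s ≤ n) ∨ tg o Λ s = 0 := fun s => by
    by_cases h : Z2 o s ≤ Λ
    · exact Or.inl ⟨if_pos h, by linarith⟩
    · exact Or.inr (if_neg h)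
  have h1 : pe o μ (fun s ω => tg o Λ s * (cc o s (xp o s ω) - k / R2 o s) ^ 2) ≤ pe o μ fun s _ =>
      (1024 + 24 * a) / n * (M4.zh o s ⬝ᵥ M4.zh o s) + (256 * D / n ^ 2 + 320 * g / n) := by
    refine (le_abs_self _).trans (M4.pe_cond hμ (fun s => by fun_prop) (fun s => by fun_prop) fun s => ?_)
    have z0 := dot_self_nonneg (M4.zh o s)
    obtain ⟨C, hC, hl⟩ := M4.link hμ h s
    rcases cs s with hs | hs
    · obtain ⟨r1, r2⟩ := f.R2_ge h hs.2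
      simp only [hs.1, one_mul]
      rw [hl fun y => y ^ 2, hl fun _ => _, integral_const_mul, abs_of_nonneg (mul_nonneg hC.le
        (integral_nonneg fun U => mul_nonneg (by positivity) (M4.ew_pos _ _ _).le))]
      refine mul_le_mul_of_nonneg_left ((k2s hμ (g := g) (a := a * (M4.zh o s ⬝ᵥ M4.zh o s)) ?_ hG inv psd
        (fun v => ?_) hg (ha _) ?_ ?_).trans (mul_le_mul_of_nonneg_right ?_
          (integral_nonneg fun U => (M4.ew_pos _ _ _).le))) hC.le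
      · simp only [M4.Bm, transpose_mul, transpose_transpose, A0_symm h, Matrix.mul_assoc]
      · rw [M4.Bm_vec, ← dot_E, ← M4.E_dot h v]
        exact (le_abs_self _).trans (quad_le (f.opA h) _)
      · rw [M4.sg_dot h]
        linarith [M4.Et_le h (A0 o *ᵥ M4.zh o s), f.opA h (M4.zh o s), f.Qsh_le h hs.2,
          show M4.bv o s ⬝ᵥ M4.bv o s = o.Eᵀ *ᵥ (A0 o *ᵥ M4.zh o s) ⬝ᵥ o.Eᵀ *ᵥ (A0 o *ᵥ M4.zh o s) from rfl,
          show M4.zh o s ⬝ᵥ M4.zh o s = Qm o *ᵥ sh o s ⬝ᵥ Qm o *ᵥ sh o s from rfl]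
      · rw [M4.sg_dot h]; linarith
      · rw [M4.sg_dot h]
        have b1 := hw s hs.2
        have b2 : (R2 o s - Gr.trace) ^ 2 ≤ 8 * n * (M4.zh o s ⬝ᵥ M4.zh o s) + 2 * D := by
          nlinarith [sq_nonneg (n * χ - R2 o s + (n * χ - Gr.trace))]
        have b3 : 72 * (R2 o s - Gr.trace) ^ 2 / R2 o s ^ 2 ≤
            72 * (8 * n * (M4.zh o s ⬝ᵥ M4.zh o s) + 2 * D) / (3 * n / 4) ^ 2 :=
          div_le_div₀ (by positivity) (by linarith) (by positivity)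
            (pow_le_pow_left₀ (by positivity) (by linarith) 2)
        have b4 : (18 * (a * (M4.zh o s ⬝ᵥ M4.zh o s)) + 240 * g) / R2 o s ≤
            (18 * (a * (M4.zh o s ⬝ᵥ M4.zh o s)) + 240 * g) / (3 * n / 4) :=
          div_le_div_of_nonneg_left (by positivity) (by positivity) (by linarith)
        refine (add_le_add b3 b4).trans_eq ?_
        field_simp; ring
    · simp only [hs, zero_mul, mul_zero, integral_zero, abs_zero]
      exact integral_nonneg fun U => mul_nonneg (exp_pos _).le (by positivity)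
  have h2 := B.mono (F := fun s ω => tg o Λ s * (cc o s (xp o s ω) - χ⁻¹) ^ 2)
    (G := fun s ω => 2 * (tg o Λ s * (cc o s (xp o s ω) - k / R2 o s) ^ 2) +
      (120 / n * (M4.zh o s ⬝ᵥ M4.zh o s) + 30 / n)) (fun s => by fun_prop) (fun s => by fun_prop)
    fun s ω _ => by
      have z0 := dot_self_nonneg (M4.zh o s)
      rcases cs s with hs | hs
      · obtain ⟨r1, r2⟩ := f.R2_ge h hs.2
        have b1 := hw s hs.2
        have χ0 : 0 < χ := by linarith [f.lo]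
        have ek : (k : ℝ) = n - 2 := by rw [← dim]; push_cast; ring
        have b2 : (k * χ - R2 o s) ^ 2 ≤ 8 * n * (M4.zh o s ⬝ᵥ M4.zh o s) + 8 := by
          rw [ek]
          nlinarith [sq_nonneg (n * χ - R2 o s + 2 * χ), f.hi, mul_le_mul f.hi f.hi χ0.le zero_le_one]
        have b3 : (k / R2 o s - χ⁻¹) ^ 2 ≤ (8 * n * (M4.zh o s ⬝ᵥ M4.zh o s) + 8) / (3 * n / 8) ^ 2 := by
          rw [show k / R2 o s - χ⁻¹ = (k * χ - R2 o s) / (R2 o s * χ) by field_simp, div_pow]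
          exact div_le_div₀ (by positivity) b2 (by positivity)
            (pow_le_pow_left₀ (by positivity) (by nlinarith [f.lo]) 2)
        have b4 : (8 * n * (M4.zh o s ⬝ᵥ M4.zh o s) + 8) / (3 * n / 8) ^ 2 ≤
            60 / n * (M4.zh o s ⬝ᵥ M4.zh o s) + 15 / n := by
          rw [div_le_iff₀ (by positivity)]
          field_simp
          nlinarith [mul_nonneg (by linarith : (0 : ℝ) ≤ n) z0]
        have b5 : (120 : ℝ) / n * (M4.zh o s ⬝ᵥ M4.zh o s) + 30 / n =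
          2 * (60 / n * (M4.zh o s ⬝ᵥ M4.zh o s) + 15 / n) := by ring
        rw [hs.1, one_mul, one_mul, b5]
        nlinarith [sq_nonneg (cc o s (xp o s ω) - k / R2 o s - (k / R2 o s - χ⁻¹))]
      · simp only [hs, zero_mul, mul_zero, zero_add]; positivity
  have h3 : pe o μ (fun s _ => M4.zh o s ⬝ᵥ M4.zh o s) ≤ m := by
    refine le_trans (B.congr (fun s => by fun_prop) (fun s => by fun_prop) fun s ω hω => ?_).le
      ((an_polar hμ h (F := fun _ ξ => Qm o *ᵥ ξ ⬝ᵥ Qm o *ᵥ ξ) fun s => by fun_prop).ge.trans hm)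
    rw [Q_xp h hω, M4.zh]
  rw [B.add (fun s => by fun_prop) fun s => by fun_prop, B.mul, B.one] at h1
  rw [B.add (fun s => by fun_prop) fun s => by fun_prop,
    B.add (fun s => by fun_prop) fun s => by fun_prop, B.mul, B.mul, B.one] at h2
  rw [an_polar hμ h (F := fun s ξ => tg o Λ s * (cc o s ξ - χ⁻¹) ^ 2) fun s => by fun_prop]
  have z0 : 0 ≤ pe o μ fun s _ => M4.zh o s ⬝ᵥ M4.zh o s :=
    B.nonneg (fun s => by fun_prop) fun _ _ _ => dot_self_nonneg _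
  have h4 := mul_le_mul_of_nonneg_left h3 (by positivity : 0 ≤ (2200 + 48 * a) / n)
  have h5 : (30 : ℝ) / n ≤ 60 * g / n := div_le_div_of_nonneg_right (by linarith) (by linarith)
  have h6 : 0 ≤ 32 / n * pe o μ fun s _ => M4.zh o s ⬝ᵥ M4.zh o s := by positivity
  refine h2.trans ?_
  generalize pe o μ (fun s _ => M4.zh o s ⬝ᵥ M4.zh o s) = Z at *
  simp only [div_eq_mul_inv] at *
  nlinarith

end Crest.Agent.T157.Mj
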