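import Crest.Agent.T157.O4cDef_4
import Crest.Agent.T157.QeDef_24

/-!
# Row 157, A2 section 4 (helper31): the hypotheses `Hw` of the core of (M1) from (HA) and (TR)
-/

set_option autoImplicit false
set_option linter.unusedSectionVars false

noncomputable section

namespace Crest.Agent.T157.O4c.W31

open Matrix Crest.Agent.Lib.OrthPoinc
open Crest.Agent.T157.Oc Crest.Agent.T157.Od Crest.Agent.T157.Oo Crest.Agent.T157.Mj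
open Crest.Agent.T157.Qe (Le)

/-! ### coercive symmetric matrices -/

section lin

variable {ι : Type} [Fintype ι] [DecidableEq ι]

theorem vmv_vec (u v y : ι → ℝ) : vecMulVec u v *ᵥ y = (v ⬝ᵥ y) • u := by
  rw [vecMulVec_mulVec, op_smul_eq_smul]

theorem vmv_form (u y : ι → ℝ) : y ⬝ᵥ vecMulVec u u *ᵥ y = (u ⬝ᵥ y) ^ 2 := by
  rw [vmv_vec, dotProduct_smul, smul_eq_mul, dotProduct_comm y, sq]

theorem dnn (y : ι → ℝ) : 0 ≤ y ⬝ᵥ y := Finset.sum_nonneg fun _ _ => mul_self_nonneg _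

theorem dcs (u v : ι → ℝ) : (u ⬝ᵥ v) ^ 2 ≤ (u ⬝ᵥ u) * (v ⬝ᵥ v) := by
  simpa only [dotProduct, sq] using Finset.sum_mul_sq_le_sq_mul_sq Finset.univ u v

/-- symmetric and `≥ g > 0` -/
structure Cv (M : Matrix ι ι ℝ) (g : ℝ) : Prop where
  symm : Mᵀ = M
  g0 : 0 < g
  co : ∀ y, g * (y ⬝ᵥ y) ≤ y ⬝ᵥ M *ᵥ y

namespace Cv

variable {M : Matrix ι ι ℝ} {g : ℝ} (h : Cv M g)
include h

theorem mono {g' : ℝ} (h0 : 0 < g') (h1 : g' ≤ g) : Cv M g' :=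
  ⟨h.symm, h0, fun y => (mul_le_mul_of_nonneg_right h1 (dnn y)).trans (h.co y)⟩

theorem nn (y : ι → ℝ) : 0 ≤ y ⬝ᵥ M *ᵥ y := (mul_nonneg h.g0.le (dnn y)).trans (h.co y)

theorem unit : IsUnit M.det := by
  refine isUnit_iff_ne_zero.2 fun h0 => ?_
  obtain ⟨v, hv, e⟩ := exists_mulVec_eq_zero_iff.2 h0
  have := h.co v
  rw [e, dotProduct_zero] at this
  exact hv (dotProduct_self_eq_zero.1 (le_antisymm (by nlinarith [h.g0, dnn v]) (dnn v)))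

theorem inv : M * M⁻¹ = 1 := mul_nonsing_inv _ h.unit
theorem inv' : M⁻¹ * M = 1 := nonsing_inv_mul _ h.unit
theorem symm' : (M⁻¹)ᵀ = M⁻¹ := by rw [transpose_nonsing_inv, h.symm]
theorem MG (u : ι → ℝ) : M *ᵥ (M⁻¹ *ᵥ u) = u := by rw [mulVec_mulVec, h.inv, one_mulVec]
theorem GM (u : ι → ℝ) : M⁻¹ *ᵥ (M *ᵥ u) = u := by rw [mulVec_mulVec, h.inv', one_mulVec]

theorem cs (u v : ι → ℝ) : (u ⬝ᵥ M *ᵥ v) ^ 2 ≤ (u ⬝ᵥ M *ᵥ u) * (v ⬝ᵥ M *ᵥ v) := by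
  have := discrim_le_zero (a := u ⬝ᵥ M *ᵥ u) (b := 2 * (u ⬝ᵥ M *ᵥ v)) (c := v ⬝ᵥ M *ᵥ v) fun x => by
    have h1 := h.nn (x • u + v)
    have h2 : v ⬝ᵥ M *ᵥ u = u ⬝ᵥ M *ᵥ v := by rw [symm_dot h.symm, dotProduct_comm]
    simp only [mulVec_add, mulVec_smul, add_dotProduct, dotProduct_add, smul_dotProduct,
      dotProduct_smul, smul_eq_mul, h2] at h1
    linarith
  rw [discrim] at this
  linarith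

theorem GG (u : ι → ℝ) : M⁻¹ *ᵥ u ⬝ᵥ M *ᵥ (M⁻¹ *ᵥ u) = u ⬝ᵥ M⁻¹ *ᵥ u := by
  rw [h.MG, dotProduct_comm]

theorem nn' (u : ι → ℝ) : 0 ≤ u ⬝ᵥ M⁻¹ *ᵥ u := h.GG u ▸ h.nn _

/-- duality -/
theorem dual (u y : ι → ℝ) : (u ⬝ᵥ y) ^ 2 ≤ (u ⬝ᵥ M⁻¹ *ᵥ u) * (y ⬝ᵥ M *ᵥ y) := by
  have := h.cs (M⁻¹ *ᵥ u) y
  rwa [h.GG, symm_dot h.symm, h.MG] at this

theorem G_sq (u : ι → ℝ) : g * (M⁻¹ *ᵥ u ⬝ᵥ M⁻¹ *ᵥ u) ≤ u ⬝ᵥ M⁻¹ *ᵥ u := h.GG u ▸ h.co _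

/-- `c b b' ≤ M` gives `c b · M⁻¹ b ≤ 1` -/
theorem G_of {b : ι → ℝ} {c : ℝ} (hb : ∀ y, c * (b ⬝ᵥ y) ^ 2 ≤ y ⬝ᵥ M *ᵥ y) :
    c * (b ⬝ᵥ M⁻¹ *ᵥ b) ≤ 1 := by
  have h1 := hb (M⁻¹ *ᵥ b)
  rw [h.GG] at h1
  rcases (h.nn' b).eq_or_lt with h0 | h0
  · rw [← h0]; norm_num
  · exact le_of_mul_le_mul_right (by nlinarith) h0

theorem G_le (u : ι → ℝ) : g * (u ⬝ᵥ M⁻¹ *ᵥ u) ≤ u ⬝ᵥ u := by
  have h1 := dcs u (M⁻¹ *ᵥ u)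
  have h2 := mul_le_mul_of_nonneg_left (h.G_sq u) (dnn u)
  rcases (h.nn' u).eq_or_lt with h0 | h0
  · rw [← h0, mul_zero]; exact dnn u
  · exact le_of_mul_le_mul_right (by nlinarith [h.g0]) h0

theorem op2 : Op2 M⁻¹ ((1 / g) ^ 2) := fun u => by
  have h1 := mul_le_mul_of_nonneg_left (h.G_sq u) h.g0.le
  have h2 := h.G_le u
  have := h.g0
  rw [one_div, inv_pow, ← div_eq_inv_mul, le_div_iff₀ (by positivity)]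
  nlinarith

theorem G_add (u v : ι → ℝ) :
    (u + v) ⬝ᵥ M⁻¹ *ᵥ (u + v) ≤ 2 * (u ⬝ᵥ M⁻¹ *ᵥ u) + 2 * (v ⬝ᵥ M⁻¹ *ᵥ v) := by
  have := h.nn' (u - v)
  simp only [mulVec_add, mulVec_sub, add_dotProduct, dotProduct_add, sub_dotProduct,
    dotProduct_sub] at *
  linarith

/-- `A ≤ c M` gives `A M⁻¹ A ≤ c A` -/
theorem AGA {A : Matrix ι ι ℝ} {a c : ℝ} (hA : Cv A a) (hc : ∀ y, y ⬝ᵥ A *ᵥ y ≤ c * (y ⬝ᵥ M *ᵥ y))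
    (c0 : 0 ≤ c) (v : ι → ℝ) : A *ᵥ v ⬝ᵥ M⁻¹ *ᵥ (A *ᵥ v) ≤ c * (v ⬝ᵥ A *ᵥ v) := by
  have h1 := hA.cs (M⁻¹ *ᵥ (A *ᵥ v)) v
  have h2 := hc (M⁻¹ *ᵥ (A *ᵥ v))
  rw [h.GG] at h2
  rw [dotProduct_comm] at h1
  have h3 := mul_le_mul_of_nonneg_right h2 (hA.nn v)
  rcases (h.nn' (A *ᵥ v)).eq_or_lt with h0 | h0
  · rw [← h0]; exact mul_nonneg c0 (hA.nn v)
  · exact le_of_mul_le_mul_right (by nlinarith) h0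

/-- `A ≤ c M` gives `M⁻¹ ≤ c A⁻¹` -/
theorem inv_le {A : Matrix ι ι ℝ} {a c : ℝ} (hA : Cv A a)
    (hc : ∀ y, y ⬝ᵥ A *ᵥ y ≤ c * (y ⬝ᵥ M *ᵥ y)) (c0 : 0 ≤ c) (v : ι → ℝ) :
    v ⬝ᵥ M⁻¹ *ᵥ v ≤ c * (v ⬝ᵥ A⁻¹ *ᵥ v) := by
  have := h.AGA hA hc c0 (A⁻¹ *ᵥ v)
  rwa [hA.GG, hA.MG] at this

theorem add_vmv (u : ι → ℝ) : Cv (M + vecMulVec u u) g :=
  ⟨by rw [transpose_add, h.symm, transpose_vecMulVec], h.g0, fun y => by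
    rw [add_mulVec, dotProduct_add, vmv_form]; linarith [h.co y, sq_nonneg (u ⬝ᵥ y)]⟩

/-- Sherman-Morrison -/
theorem sm (u : ι → ℝ) : (M + vecMulVec u u)⁻¹ =
    M⁻¹ - (1 + u ⬝ᵥ M⁻¹ *ᵥ u)⁻¹ • vecMulVec (M⁻¹ *ᵥ u) (M⁻¹ *ᵥ u) := by
  have h0 : 1 + u ⬝ᵥ M⁻¹ *ᵥ u ≠ 0 := by linarith [h.nn' u]
  refine Matrix.inv_eq_right_inv ?_
  have e : u ᵥ* M⁻¹ = M⁻¹ *ᵥ u := by rw [← mulVec_transpose, h.symm']
  rw [Matrix.add_mul, Matrix.mul_sub, Matrix.mul_sub, Matrix.mul_smul, Matrix.mul_smul, h.inv,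
    mul_vecMulVec, h.MG, vecMulVec_mul, e, vecMulVec_mul_vecMulVec, vecMulVec_smul]
  ext i j
  simp only [Matrix.add_apply, Matrix.sub_apply, Matrix.smul_apply, smul_eq_mul]
  field_simp
  ring

/-- **the rank-one trace lemma** -/
theorem tr1 (u : ι → ℝ) : 0 ≤ M⁻¹.trace - (M + vecMulVec u u)⁻¹.trace ∧
    M⁻¹.trace - (M + vecMulVec u u)⁻¹.trace ≤ 1 / g := by
  have h0 : 0 < 1 + u ⬝ᵥ M⁻¹ *ᵥ u := by linarith [h.nn' u]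
  rw [h.sm, trace_sub, trace_smul, trace_vecMulVec, sub_sub_cancel, smul_eq_mul]
  refine ⟨mul_nonneg (inv_pos.2 h0).le (dnn _), ?_⟩
  rw [← div_eq_inv_mul, div_le_div_iff₀ h0 h.g0]
  linarith [h.G_sq u]

/-- two matrices with a common rank-one majorant -/
theorem tr2 {A : Matrix ι ι ℝ} (hA : Cv A g) {u v : ι → ℝ}
    (e : M + vecMulVec u u = A + vecMulVec v v) : |M⁻¹.trace - A⁻¹.trace| ≤ 1 / g := by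
  have h1 := h.tr1 u
  have h2 := hA.tr1 v
  rw [e] at h1
  exact abs_le.2 ⟨by linarith [h1.1, h2.2], by linarith [h1.2, h2.1]⟩

end Cv

end lin

/-! ### (HA) and (TR) are constant along the orbit -/

variable {n k : ℕ} {o : Oo.Orb n k}

theorem ha_conj (h : o.Ok) {U : Mat k} (hU : U ∈ SO k) {f : Vn n} (hf : o.Eᵀ *ᵥ f = 0) {c a : ℝ} :
    Le (o.Wu U + c • vecMulVec f f) (a • (1 : Mn n)) ↔ Le (o.W + c • vecMulVec f f) (a • (1 : Mn n)) := by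
  have hO := emb_orth h.iso hU
  have hO' := mul_eq_one_comm.1 hO
  have h1 : ∀ y, f ⬝ᵥ (o.g U)ᵀ *ᵥ y = f ⬝ᵥ y := fun y => by
    rw [dotProduct_mulVec, vecMul_transpose, emb_mulVec _ hf]
  have e : ∀ y, y ⬝ᵥ (o.Wu U + c • vecMulVec f f) *ᵥ y =
      (o.g U)ᵀ *ᵥ y ⬝ᵥ (o.W + c • vecMulVec f f) *ᵥ ((o.g U)ᵀ *ᵥ y) := fun y => by
    simp only [add_mulVec, dotProduct_add, smul_mulVec, dotProduct_smul, vmv_form, h1]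
    rw [Orb.Wu, WU, ← mulVec_mulVec, ← mulVec_mulVec, dotProduct_mulVec y, ← mulVec_transpose]
  have e2 : ∀ y, y ⬝ᵥ (a • (1 : Mn n)) *ᵥ y =
      (o.g U)ᵀ *ᵥ y ⬝ᵥ (a • (1 : Mn n)) *ᵥ ((o.g U)ᵀ *ᵥ y) := fun y => by
    simp only [smul_mulVec, one_mulVec, dotProduct_smul]
    rw [Op2.orth (G := (o.g U)ᵀ) (by rwa [transpose_transpose])]
  refine ⟨fun H y => ?_, fun H y => ?_⟩
  · have := H (o.g U *ᵥ y)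
    rwa [e, e2, mulVec_mulVec, hO', one_mulVec] at this
  · rw [e, e2]; exact H _

theorem conj_inv {O X : Mn n} (hO : O * Oᵀ = 1) : (O * X * Oᵀ)⁻¹ = O * X⁻¹ * Oᵀ := by
  rw [Matrix.mul_inv_rev, Matrix.mul_inv_rev, Matrix.inv_eq_right_inv hO,
    Matrix.inv_eq_left_inv hO, Matrix.mul_assoc]

theorem tr_conj (h : o.Ok) {U : Mat k} (hU : U ∈ SO k) (z : ℝ) :
    (z • (1 : Mn n) - o.Wu U)⁻¹.trace = (z • (1 : Mn n) - o.W)⁻¹.trace := by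
  have hO := emb_orth h.iso hU
  rw [show z • (1 : Mn n) - o.Wu U = AU o.E o.W z U from rfl, AU_eq h.iso hU, conj_inv hO,
    trace_mul_cycle, mul_eq_one_comm.1 hO, Matrix.one_mul]

/-! ### the matrix `A + B'` -/

variable {x f1 f2 : Vn n} {η' a g : ℝ}

/-- `b = f2 - β f1` -/
def bb (x f1 f2 : Vn n) : Vn n := f2 - Dq x f1 f2 • f1
/-- `M = A + B'` -/
abbrev MM (o : Oo.Orb n k) (x f1 f2 : Vn n) : Mn n := A0 o + Bp x f1 f2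

theorem MM_add : MM o x f1 f2 + vecMulVec f2 f2 = A0 o + vecMulVec (bb x f1 f2) (bb x f1 f2) := by
  rw [MM, Bp, bb]; abel

theorem MM_form (y : Vn n) : y ⬝ᵥ MM o x f1 f2 *ᵥ y =
    y ⬝ᵥ A0 o *ᵥ y + (bb x f1 f2 ⬝ᵥ y) ^ 2 - (f2 ⬝ᵥ y) ^ 2 := by
  have := congrArg (fun X : Mn n => y ⬝ᵥ X *ᵥ y) (MM_add (o := o) (x := x) (f1 := f1) (f2 := f2))
  simp only [add_mulVec, dotProduct_add, vmv_form] at this ⊢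
  linarith

/-- the input: (HA) at the base point with gap `g` -/
structure Ha (o : Oo.Orb n k) (x f1 f2 : Vn n) (η' a g : ℝ) : Prop where
  ok : o.Ok
  n1 : f1 ⬝ᵥ f1 = 1
  ha : Le (o.W + (1 - η') • vecMulVec f2 f2) (a • (1 : Mn n))
  e0 : 0 ≤ η'
  e1 : η' ≤ 1 / 4
  g0 : 0 < g
  gap : g + 2 * η' * Dq x f1 f2 ^ 2 ≤ o.z - a

namespace Ha

variable (h : Ha o x f1 f2 η' a g)
include h

theorem A_ge (y : Vn n) : (o.z - a) * (y ⬝ᵥ y) + (1 - η') * (f2 ⬝ᵥ y) ^ 2 ≤ y ⬝ᵥ A0 o *ᵥ y := by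
  have := h.ha y
  simp only [A0, add_mulVec, sub_mulVec, smul_mulVec, one_mulVec, dotProduct_add, dotProduct_sub,
    dotProduct_smul, smul_eq_mul, vmv_form] at *
  linarith

theorem g_le : g ≤ o.z - a := by
  nlinarith [h.gap, mul_nonneg h.e0 (sq_nonneg (Dq x f1 f2))]

theorem cvA : Cv (A0 o) g := ⟨A0_symm h.ok, h.g0, fun y => by
  have := mul_le_mul_of_nonneg_right h.g_le (dnn y)
  nlinarith [h.A_ge y, h.e1, sq_nonneg (f2 ⬝ᵥ y)]⟩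

/-- `A + B' ≥ g + (1 - 2 η') b b'` -/
theorem M_ge (y : Vn n) :
    g * (y ⬝ᵥ y) + (1 - 2 * η') * (bb x f1 f2 ⬝ᵥ y) ^ 2 ≤ y ⬝ᵥ MM o x f1 f2 *ᵥ y := by
  have h1 := h.A_ge y
  have h2 := dcs f1 y
  rw [h.n1, one_mul] at h2
  have h3 : f2 ⬝ᵥ y = bb x f1 f2 ⬝ᵥ y + Dq x f1 f2 * (f1 ⬝ᵥ y) := by
    rw [bb, sub_dotProduct, smul_dotProduct, smul_eq_mul]; ring
  have h4 : (f2 ⬝ᵥ y) ^ 2 ≤ 2 * (bb x f1 f2 ⬝ᵥ y) ^ 2 + 2 * (Dq x f1 f2 ^ 2 * (y ⬝ᵥ y)) := by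
    rw [h3]
    nlinarith [sq_nonneg (bb x f1 f2 ⬝ᵥ y - Dq x f1 f2 * (f1 ⬝ᵥ y)),
      mul_le_mul_of_nonneg_left h2 (sq_nonneg (Dq x f1 f2))]
  rw [MM_form]
  nlinarith [mul_le_mul_of_nonneg_left h4 h.e0, mul_le_mul_of_nonneg_right h.gap (dnn y)]

theorem cvM : Cv (MM o x f1 f2) g :=
  ⟨by simp only [MM, Bp, transpose_add, transpose_sub, transpose_vecMulVec, A0_symm h.ok], h.g0,
    fun y => by nlinarith [h.M_ge y, h.e1, sq_nonneg (bb x f1 f2 ⬝ᵥ y)]⟩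

theorem bGb : bb x f1 f2 ⬝ᵥ (MM o x f1 f2)⁻¹ *ᵥ bb x f1 f2 ≤ 2 := by
  have := h.cvM.G_of (b := bb x f1 f2) (c := 1 / 2) fun y => by
    nlinarith [h.M_ge y, h.e1, sq_nonneg (bb x f1 f2 ⬝ᵥ y), mul_nonneg h.g0.le (dnn y)]
  linarith

theorem f2G : f2 ⬝ᵥ (MM o x f1 f2)⁻¹ *ᵥ f2 ≤ 4 + 2 * Dq x f1 f2 ^ 2 / g := by
  have h1 := h.cvM.G_add (bb x f1 f2) (Dq x f1 f2 • f1)
  have h2 := h.cvM.G_le (Dq x f1 f2 • f1)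
  rw [show bb x f1 f2 + Dq x f1 f2 • f1 = f2 by rw [bb]; abel] at h1
  rw [← le_div_iff₀' h.g0, smul_dotProduct (Dq x f1 f2) f1 (Dq x f1 f2 • f1), dotProduct_smul,
    h.n1, smul_eq_mul, smul_eq_mul, mul_one, ← sq] at h2
  rw [mul_div_assoc]
  linarith [h.bGb]

theorem trG : |(MM o x f1 f2)⁻¹.trace - (A0 o)⁻¹.trace| ≤ 1 / g := h.cvM.tr2 h.cvA MM_add

/-- `A ≤ (1 + C) (A + B')` -/
theorem A_le {C : ℝ} (hC : 4 + 2 * Dq x f1 f2 ^ 2 / g ≤ C) (y : Vn n) :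
    y ⬝ᵥ A0 o *ᵥ y ≤ (1 + C) * (y ⬝ᵥ MM o x f1 f2 *ᵥ y) := by
  have h1 := h.cvM.dual f2 y
  have h2 := mul_le_mul_of_nonneg_right (h.f2G.trans hC) (h.cvM.nn y)
  have h3 := MM_form (o := o) (x := x) (f1 := f1) (f2 := f2) y
  nlinarith [sq_nonneg (bb x f1 f2 ⬝ᵥ y)]

theorem C_nn {C : ℝ} (hC : 4 + 2 * Dq x f1 f2 ^ 2 / g ≤ C) : 0 ≤ 1 + C := by
  have : 0 ≤ 2 * Dq x f1 f2 ^ 2 / g := div_nonneg (by positivity) h.g0.le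
  linarith

/-- `A G A ≤ (1 + C) A` -/
theorem AGA {C : ℝ} (hC : 4 + 2 * Dq x f1 f2 ^ 2 / g ≤ C) (v : Vn n) :
    A0 o *ᵥ v ⬝ᵥ (MM o x f1 f2)⁻¹ *ᵥ (A0 o *ᵥ v) ≤ (1 + C) * (v ⬝ᵥ A0 o *ᵥ v) :=
  h.cvM.AGA h.cvA (h.A_le hC) (h.C_nn hC) v

/-- `G ≤ (1 + C) A⁻¹` -/
theorem G_le_inv {C : ℝ} (hC : 4 + 2 * Dq x f1 f2 ^ 2 / g ≤ C) (v : Vn n) :
    v ⬝ᵥ (MM o x f1 f2)⁻¹ *ᵥ v ≤ (1 + C) * (v ⬝ᵥ (A0 o)⁻¹ *ᵥ v) :=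
  h.cvM.inv_le h.cvA (h.A_le hC) (h.C_nn hC) v

/-- **`Hw`**, with `G = (A + B')⁻¹`; `D` is the trace tolerance -/
theorem hw {χ κ η C T0 τ D : ℝ} (hC : 4 + 2 * Dq x f1 f2 ^ 2 / g ≤ C) (hk : κ ^ 2 ≤ C * g)
    (hp : o.p ⬝ᵥ o.p ≤ g * (C * T0)) (hT : 1 ≤ (η * g) ^ 2 * T0)
    (hD : ((A0 o)⁻¹.trace - n * χ) ^ 2 ≤ D) (hτ : 2 * D + 2 / g ^ 2 ≤ τ ^ 2 * T0) :
    Hw o x f1 f2 (MM o x f1 f2)⁻¹ χ κ η C g T0 τ := by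
  refine ⟨h.cvM.symm', h.cvM.inv, h.g0, h.cvM.co, h.f2G.trans hC, hk,
    le_of_mul_le_mul_left ((h.cvM.G_le _).trans hp) h.g0, hT, le_trans ?_ hτ⟩
  have h1 := sq_le_sq' (abs_le.1 h.trG).1 (abs_le.1 h.trG).2
  rw [one_div, inv_pow] at h1
  rw [div_eq_mul_inv]
  nlinarith [sq_nonneg ((MM o x f1 f2)⁻¹.trace - (A0 o)⁻¹.trace - ((A0 o)⁻¹.trace - n * χ))]

end Ha

/-- (HA) in the words of `q`: `g = (1 - ε - 2 η' Cb) q²` -/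
theorem ha_q {q ε Cb : ℝ} (ho : o.Ok) (n1 : f1 ⬝ᵥ f1 = 1) (q0 : 0 < q) (q1 : q < 1)
    (hz : o.z = 1 - q + 1 / (1 - q))
    (ha : Le (o.W + (1 - η') • vecMulVec f2 f2) ((2 + ε * q ^ 2) • (1 : Mn n))) (e0 : 0 ≤ η')
    (e1 : η' ≤ 1 / 4) (hb : Dq x f1 f2 ^ 2 ≤ Cb * q ^ 2) (g0 : 0 < g)
    (hg : g ≤ (1 - ε - 2 * η' * Cb) * q ^ 2) : Ha o x f1 f2 η' (2 + ε * q ^ 2) g := by
  refine ⟨ho, n1, ha, e0, e1, g0, ?_⟩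
  have h1 : q ^ 2 ≤ o.z - 2 := by
    have : 0 < 1 - q := by linarith
    rw [hz, show 1 - q + 1 / (1 - q) - 2 = q ^ 2 / (1 - q) by field_simp; ring]
    exact le_div_self (sq_nonneg q) this (by linarith)
  nlinarith [mul_le_mul_of_nonneg_left hb e0]

/-- **`Hw` in the words of `q`**: `κ = C0 q`, `T0 = c0 n / q`, (TR) with the bound `R` -/
theorem hw_q {q ε Cb C0 c0 C η τ R χ : ℝ} (ho : o.Ok) (n1 : f1 ⬝ᵥ f1 = 1) (q0 : 0 < q) (q1 : q < 1)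
    (hz : o.z = 1 - q + 1 / (1 - q)) (hp : o.p ⬝ᵥ o.p = n * q)
    (ha : Le (o.W + (1 - η') • vecMulVec f2 f2) ((2 + ε * q ^ 2) • (1 : Mn n))) (e0 : 0 ≤ η')
    (e1 : η' ≤ 1 / 4) (hb : Dq x f1 f2 ^ 2 ≤ Cb * q ^ 2) (g0 : q ^ 2 / 2 ≤ g)
    (hg : g ≤ (1 - ε - 2 * η' * Cb) * q ^ 2)
    (tr : ((A0 o)⁻¹.trace - n * χ) ^ 2 * (o.z - 2) ^ 2 ≤ R)
    (c1 : 4 + 4 * Cb ≤ C) (c2 : 2 * C0 ^ 2 ≤ C) (c3 : 2 ≤ C * c0) (c4 : 0 ≤ c0)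
    (c5 : 4 ≤ η ^ 2 * c0 * (n * q ^ 3)) (c6 : 2 * R + 8 ≤ τ ^ 2 * c0 * (n * q ^ 3)) :
    Ha o x f1 f2 η' (2 + ε * q ^ 2) g ∧
      Hw o x f1 f2 (MM o x f1 f2)⁻¹ χ (C0 * q) η C g (c0 * n / q) τ := by
  have q2 : 0 < q ^ 2 := by positivity
  have gp : 0 < g := by linarith
  have H := ha_q ho n1 q0 q1 hz ha e0 e1 hb gp hg
  have n0 : (0 : ℝ) ≤ n := Nat.cast_nonneg n
  have b0 : 0 ≤ Cb := by
    by_contra hn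
    nlinarith [sq_nonneg (Dq x f1 f2), mul_pos (neg_pos.2 (not_le.1 hn)) q2]
  have h1 : q ^ 2 ≤ o.z - 2 := by
    have : 0 < 1 - q := by linarith
    rw [hz, show 1 - q + 1 / (1 - q) - 2 = q ^ 2 / (1 - q) by field_simp; ring]
    exact le_div_self (sq_nonneg q) this (by linarith)
  have h2 : (q ^ 2 / 2) ^ 2 ≤ g ^ 2 := pow_le_pow_left₀ (by positivity) g0 2
  have T0 : 0 ≤ c0 * n / q := by positivity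
  refine ⟨H, H.hw (D := R / q ^ 4) ?_ ?_ ?_ ?_ ?_ ?_⟩
  · have : 2 * Dq x f1 f2 ^ 2 / g ≤ 4 * Cb := by
      rw [div_le_iff₀ gp]; nlinarith [mul_le_mul_of_nonneg_left g0 b0]
    linarith
  · nlinarith [mul_le_mul c2 g0 (by positivity) (by linarith)]
  · rw [hp, ← mul_div_assoc, ← mul_div_assoc, le_div_iff₀ q0]
    nlinarith [mul_le_mul_of_nonneg_right (mul_le_mul g0 c3 (by norm_num) gp.le) n0]
  · calc (1 : ℝ) ≤ η ^ 2 * c0 * (n * q ^ 3) / 4 := by linarith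
      _ = η ^ 2 * (q ^ 2 / 2) ^ 2 * (c0 * n / q) := by field_simp; ring
      _ ≤ η ^ 2 * g ^ 2 * (c0 * n / q) := by gcongr
      _ = _ := by ring
  · rw [le_div_iff₀ (by positivity)]
    refine le_trans (mul_le_mul_of_nonneg_left ?_ (sq_nonneg _)) tr
    rw [show q ^ 4 = (q ^ 2) ^ 2 by ring]
    exact pow_le_pow_left₀ q2.le h1 2
  · have h3 : 2 / g ^ 2 ≤ 2 / (q ^ 2 / 2) ^ 2 :=
      div_le_div_of_nonneg_left (by norm_num) (by positivity) h2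
    calc 2 * (R / q ^ 4) + 2 / g ^ 2 ≤ 2 * (R / q ^ 4) + 2 / (q ^ 2 / 2) ^ 2 := by linarith
      _ = (2 * R + 8) / q ^ 4 := by field_simp; ring
      _ ≤ τ ^ 2 * c0 * (n * q ^ 3) / q ^ 4 := by gcongr
      _ = _ := by field_simp

/-! ### the column `W e` -/

theorem col_conj (h : o.Ok) {U : Mat k} (hU : U ∈ SO k) {e : Vn n} (he : o.Eᵀ *ᵥ e = 0) :
    e ⬝ᵥ o.Wu U *ᵥ e = e ⬝ᵥ o.W *ᵥ e ∧
      o.Wu U *ᵥ e ⬝ᵥ o.Wu U *ᵥ e = o.W *ᵥ e ⬝ᵥ o.W *ᵥ e := by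
  have h1 : (emb o.E U)ᵀ *ᵥ e = e := by rw [emb_transpose]; exact emb_mulVec _ he
  have h2 : o.Wu U *ᵥ e = emb o.E U *ᵥ (o.W *ᵥ e) := by
    rw [Orb.Wu, WU, ← mulVec_mulVec, ← mulVec_mulVec, h1]
  rw [h2]
  exact ⟨by rw [dotProduct_mulVec, ← mulVec_transpose, h1],
    Op2.orth (mul_eq_one_comm.1 (emb_orth h.iso hU)) _⟩

theorem bv_dot {e : Vn n} (he : e ⬝ᵥ e = 1) (c : Vn n) :
    Qe.bv e c ⬝ᵥ Qe.bv e c = c ⬝ᵥ c - (e ⬝ᵥ c) ^ 2 := by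
  simp only [Qe.bv, Qe.R1, sub_mulVec, one_mulVec, vmv_vec, sub_dotProduct, dotProduct_sub,
    smul_dotProduct, dotProduct_smul, smul_eq_mul, he, dotProduct_comm c e]
  ring

/-- the statistics of the column are constant along the orbit -/
theorem bv_conj (h : o.Ok) {U : Mat k} (hU : U ∈ SO k) {e : Vn n} (he : o.Eᵀ *ᵥ e = 0)
    (h1 : e ⬝ᵥ e = 1) : Qe.bv e (o.Wu U *ᵥ e) ⬝ᵥ Qe.bv e (o.Wu U *ᵥ e) =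
      Qe.bv e (o.W *ᵥ e) ⬝ᵥ Qe.bv e (o.W *ᵥ e) := by
  rw [bv_dot h1, bv_dot h1, (col_conj h hU he).1, (col_conj h hU he).2]

/-- `e · A e` and `|A e|²` from the column -/
theorem Ae_eq {e : Vn n} (h1 : e ⬝ᵥ e = 1) : e ⬝ᵥ A0 o *ᵥ e = o.z - e ⬝ᵥ o.W *ᵥ e ∧
    A0 o *ᵥ e ⬝ᵥ A0 o *ᵥ e = (o.z - e ⬝ᵥ o.W *ᵥ e) ^ 2 + Qe.bv e (o.W *ᵥ e) ⬝ᵥ Qe.bv e (o.W *ᵥ e) := by
  rw [bv_dot h1]
  simp only [A0, sub_mulVec, smul_mulVec, one_mulVec, sub_dotProduct, dotProduct_sub,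
    smul_dotProduct, dotProduct_smul, smul_eq_mul, h1, dotProduct_comm (o.W *ᵥ e) e]
  constructor <;> ring

/-- sizes: `2 - e · W e ≤ s`, `|W e - (e · W e) e|² ≤ r`, `z ≤ 2 + ζ`, `A ≥ 0` -/
theorem Ae_le {e : Vn n} (h1 : e ⬝ᵥ e = 1) {s r ζ : ℝ} (h0 : 0 ≤ e ⬝ᵥ A0 o *ᵥ e)
    (hs : 2 - e ⬝ᵥ o.W *ᵥ e ≤ s) (hr : Qe.bv e (o.W *ᵥ e) ⬝ᵥ Qe.bv e (o.W *ᵥ e) ≤ r)
    (hz : o.z ≤ 2 + ζ) : e ⬝ᵥ A0 o *ᵥ e ≤ s + ζ ∧ A0 o *ᵥ e ⬝ᵥ A0 o *ᵥ e ≤ (s + ζ) ^ 2 + r := by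
  obtain ⟨a1, a2⟩ := Ae_eq (o := o) h1
  rw [a1] at h0
  rw [a1, a2]
  exact ⟨by linarith, add_le_add (pow_le_pow_left₀ h0 (by linarith) 2) hr⟩

/-- a nearby unit vector: `f = c e + d e'` gives `f · A f ≤ 2 c² e · A e + 2 d² e' · A e'` -/
theorem form_two {A : Mn n} (hA : ∀ y, 0 ≤ y ⬝ᵥ A *ᵥ y) (u v : Vn n) (c d : ℝ) :
    (c • u + d • v) ⬝ᵥ A *ᵥ (c • u + d • v) ≤
      2 * (c ^ 2 * (u ⬝ᵥ A *ᵥ u)) + 2 * (d ^ 2 * (v ⬝ᵥ A *ᵥ v)) := by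
  have := hA (c • u - d • v)
  simp only [mulVec_add, mulVec_sub, mulVec_smul, add_dotProduct, dotProduct_add, sub_dotProduct,
    dotProduct_sub, smul_dotProduct, dotProduct_smul, smul_eq_mul] at *
  linarith

/-- what `Hw` itself gives back -/
theorem _root_.Crest.Agent.T157.O4c.Hw.cv {G : Mn n} {χ κ η C T0 τ : ℝ} (ho : o.Ok)
    (h : Hw o x f1 f2 G χ κ η C g T0 τ) : Cv (MM o x f1 f2) g ∧ G = (MM o x f1 f2)⁻¹ :=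
  ⟨⟨by simp only [MM, Bp, transpose_add, transpose_sub, transpose_vecMulVec, A0_symm ho], h.g0, h.co⟩,
    (Matrix.inv_eq_right_inv h.inv).symm⟩

end Crest.Agent.T157.O4c.W31

end
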