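import Crest.Agent.T157.MjE_84
import Crest.Agent.T157.MjF_84
import Crest.Agent.T157.O4Hw_31

set_option autoImplicit false
set_option linter.unusedSectionVars false

/-!
Row 157, A2 section 4 (helper84): from the core of (M1) to (M1), (M2), (M3).
-/

noncomputable section

namespace Crest.Agent.T157.Mj

open MeasureTheory Matrix Crest.Agent.Lib.OrthPoinc Filter Topology Set Real
open Crest.Agent.T157.Oc Crest.Agent.T157.E Crest.Agent.T157.SL Crest.Agent.T157.Ks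
open Crest.Agent.T157.Od Crest.Agent.T157.Oo Crest.Agent.T157.O4c Crest.Agent.T157.O4c.W31

variable {n k : ℕ} {o : Oo.Orb n k} {μ : Measure (Mat k)} [IsProbabilityMeasure μ]

theorem tr_mul_nonneg {Δ M : Mn n} (hΔ : Δᵀ = Δ) (h0 : ∀ y, 0 ≤ y ⬝ᵥ Δ *ᵥ y)
    (hM : ∀ y, 0 ≤ y ⬝ᵥ M *ᵥ y) : 0 ≤ (Δ * M).trace := by
  obtain ⟨Q, l, -, h2, h3, -⟩ := exists_spec_cfc hΔ
  have h4 : ∀ i, 0 ≤ l i := fun i => by
    have := h0 fun a => Q a i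
    rwa [← conj_diag_eq, h3, conj_back h2, diagonal_apply_eq] at this
  rw [h3, Matrix.mul_assoc, Matrix.mul_assoc, trace_mul_comm, Matrix.mul_assoc, Matrix.trace]
  refine Finset.sum_nonneg fun i _ => ?_
  rw [diag_apply, diagonal_mul, conj_diag_eq]
  exact mul_nonneg (h4 i) (hM _)

section Schur

variable (h : o.Ok) {S : Mn n} {g : ℝ} (hS : Sᵀ = S) (hE : ∀ w, S *ᵥ (o.E *ᵥ w) = A0 o *ᵥ (o.E *ᵥ w))
include h hS hE

theorem Bm_form (y : Fin k → ℝ) : y ⬝ᵥ M4.Bm o *ᵥ y = o.E *ᵥ y ⬝ᵥ S *ᵥ (o.E *ᵥ y) := by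
  rw [M4.Bm_vec, ← dot_E, hE]

theorem cvB (hc : Cv S g) : Cv (M4.Bm o) g :=
  ⟨by simp only [M4.Bm, transpose_mul, transpose_transpose, A0_symm h, Matrix.mul_assoc], hc.g0,
    fun y => by rw [Bm_form h hS hE, ← M4.E_dot h y]; exact hc.co _⟩

theorem schur (h0 : ∀ y, 0 ≤ y ⬝ᵥ S *ᵥ y) (hB : Cv (M4.Bm o) g) (z : Vn n) :
    o.Eᵀ *ᵥ (S *ᵥ z) ⬝ᵥ (M4.Bm o)⁻¹ *ᵥ (o.Eᵀ *ᵥ (S *ᵥ z)) ≤ z ⬝ᵥ S *ᵥ z := by
  have h1 := psd_cs hS h0 (o.E *ᵥ ((M4.Bm o)⁻¹ *ᵥ (o.Eᵀ *ᵥ (S *ᵥ z)))) z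
  rw [← Bm_form h hS hE, hB.GG, dot_E, dotProduct_comm] at h1
  rcases (hB.nn' (o.Eᵀ *ᵥ (S *ᵥ z))).eq_or_lt with e | e
  · exact e ▸ h0 z
  · exact le_of_mul_le_mul_left (by rwa [← sq]) e

theorem tr_schur (hc : Cv S g) (dim : k + 2 = n) :
    0 ≤ S⁻¹.trace - (M4.Bm o)⁻¹.trace ∧ g * (S⁻¹.trace - (M4.Bm o)⁻¹.trace) ≤ 2 := by
  have hB := cvB h hS hE hc
  set Δ := S⁻¹ - o.E * (M4.Bm o)⁻¹ * o.Eᵀ with hΔ
  have s : Δᵀ = Δ := by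
    simp only [hΔ, transpose_sub, transpose_mul, transpose_transpose, hc.symm', hB.symm',
      Matrix.mul_assoc]
  have p : ∀ y, 0 ≤ y ⬝ᵥ Δ *ᵥ y := fun y => by
    have := schur h hS hE hc.nn hB (S⁻¹ *ᵥ y)
    rw [hc.MG, dotProduct_comm (S⁻¹ *ᵥ y)] at this
    rw [hΔ, sub_mulVec, dotProduct_sub, ← mulVec_mulVec, ← mulVec_mulVec, dotProduct_comm y (o.E *ᵥ _),
      dot_E, dotProduct_comm (_ *ᵥ (o.Eᵀ *ᵥ y))]
    linarith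
  have t : Δ.trace = S⁻¹.trace - (M4.Bm o)⁻¹.trace := by
    rw [hΔ, trace_sub, trace_mul_cycle, h.iso, Matrix.one_mul]
  have e : o.Eᵀ * S * o.E = M4.Bm o := by
    have : S * o.E = A0 o * o.E := by
      ext i j
      have := congrFun (hE (Pi.single j 1)) i
      simp only [mulVec_single_one] at this
      exact this
    rw [Matrix.mul_assoc, this, ← Matrix.mul_assoc, M4.Bm]
  have t2 : (Δ * S).trace = 2 := by
    rw [hΔ, Matrix.sub_mul, hc.inv', trace_sub, Matrix.mul_assoc, Matrix.mul_assoc, trace_mul_comm,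
      Matrix.mul_assoc, e, hB.inv', trace_one, trace_one, ← dim]
    simp
  have h1 := tr_mul_nonneg s p (M := 1) fun y => by simpa using dot_self_nonneg y
  have h2 := tr_mul_nonneg s p (M := S - g • 1) fun y => by
    simpa only [sub_mulVec, smul_mulVec, one_mulVec, dotProduct_sub, dotProduct_smul, smul_eq_mul,
      sub_nonneg] using hc.co y
  rw [Matrix.mul_one, t] at h1
  rw [Matrix.mul_sub, Matrix.mul_smul, Matrix.mul_one, trace_sub, trace_smul, t, t2, smul_eq_mul] at h2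
  exact ⟨h1, by linarith⟩

end Schur

/-- the form of (M1) -/
theorem M1_dot (hμ : SOInv μ) (h : o.Ok) (v : Vn n) :
    v ⬝ᵥ (EM (o.P μ) fun U => (o.g U)ᵀ * sm2 (o.w U) sv o.p * o.g U) *ᵥ v =
      pe o μ fun s ω => (v ⬝ᵥ xp o s ω) ^ 2 := by
  have e : (EM (o.P μ) fun U => (o.g U)ᵀ * sm2 (o.w U) sv o.p * o.g U) =
      pM (o.an μ) (xh o) (xh o) := by
    ext i j
    simp only [EM, lM, of_apply, Oo.Orb.an]
    refine integral_congr_ae (ae_of_all _ fun U => ?_)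
    have e := mean_dot2 (σ := sv) (p := o.p) (Oo.Orb.wt (o := o) U) ((o.g U)ᵀ i) ((o.g U)ᵀ j)
    refine Eq.trans ?_ e.symm
    simp only [Matrix.mul_assoc]
    simp only [Matrix.mul_apply, dotProduct, mulVec, transpose_apply]
  rw [e, (pfA hμ h).dotP (fun s => by fun_prop) fun s => by fun_prop,
    ← an_polar hμ h (F := fun _ ξ => (v ⬝ᵥ ξ) ^ 2) fun s => by fun_prop]
  simp only [sq]

theorem V_le {χ : ℝ} (hχ : n * χ = n - o.p ⬝ᵥ o.p) :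
    ∑ i, (1 - o.p i ^ 2 - χ) ^ 2 ≤ ∑ i, o.p i ^ 4 := by
  have e : ∑ i, (1 - o.p i ^ 2 - χ) ^ 2 =
      ∑ i, o.p i ^ 4 - 2 * (1 - χ) * ∑ i, o.p i ^ 2 + n * (1 - χ) ^ 2 := by
    rw [Finset.mul_sum, ← Finset.sum_sub_distrib, show (n : ℝ) * (1 - χ) ^ 2 = ∑ _i : Fin n, (1 - χ) ^ 2 by
      simp, ← Finset.sum_add_distrib]
    exact Finset.sum_congr rfl fun i _ => by ring
  rw [e, ← dot_self_eq_sq, show o.p ⬝ᵥ o.p = n * (1 - χ) by linarith]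
  nlinarith [mul_nonneg (Nat.cast_nonneg (α := ℝ) n) (sq_nonneg (1 - χ))]

/-- the hypotheses of the glue: `kA` is the constant of the core of (M1) -/
structure Gl (o : Oo.Orb n k) (μ : Measure (Mat k)) (x f1 f2 : Vn n) (G : Mn n)
    (χ X κ η C g T0 τ kA Λ κ6 δ C1 C2 K0 : ℝ) : Prop where
  inv : SOInv μ
  hx : Hx o x f1 f2 χ X κ η C
  hw : Hw o x f1 f2 G χ κ η C g T0 τ
  k4 : 4 ≤ k
  psd : ∀ y, 0 ≤ y ⬝ᵥ A0 o *ᵥ y
  g1 : g ≤ 1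
  gn : 1 ≤ g * n
  kA1 : 1 ≤ kA
  core : ∀ v, pe o μ (fun s ω => (v ⬝ᵥ xp o s ω) ^ 2) ≤ kA * (v ⬝ᵥ G *ᵥ v)
  p0 : 0 < o.p ⬝ᵥ o.p
  pΛ : o.p ⬝ᵥ o.p ≤ Λ
  Λn : 4 * Λ ≤ n
  Ap : (A0 o *ᵥ o.p ⬝ᵥ A0 o *ᵥ o.p) * n ≤ Λ * (o.p ⬝ᵥ o.p)
  p6 : ∑ i, o.p i ^ 6 ≤ κ6 * (o.p ⬝ᵥ o.p) ^ 3
  p2 : (f2 ⬝ᵥ o.p) ^ 2 ≤ C * κ ^ 2 * (o.p ⬝ᵥ o.p)
  bad : pe o μ (fun s _ => tb o Λ s) ≤ δ
  δn : n ^ 2 * δ ≤ 1
  c1 : 1 ≤ C1
  hC1 : κ6 * Λ ^ 2 ≤ C1 * g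
  c2 : 0 ≤ C2
  hC2 : τ ^ 2 * T0 * g ≤ C2 * n
  hK : 10 ^ 11 * C1 * ((1 + C2) * C ^ 2 * kA) ≤ K0

/-- the numbers of `In` -/
def nmOf (n : ℕ) (C g kA Λ κ6 δ C2 : ℝ) : Nm :=
  ⟨Λ, κ6, δ, kA / g, 4 * C ^ 2 * kA, 24 * C * kA, 20000 * ((1 + C2) * C ^ 2 * kA) / (g * n)⟩

namespace Gl

variable {x f1 f2 : Vn n} {G : Mn n} {χ X κ η C g T0 τ kA Λ κ6 δ C1 C2 K0 : ℝ}
  (H : Gl o μ x f1 f2 G χ X κ η C g T0 τ kA Λ κ6 δ C1 C2 K0)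
include H

theorem cv : Cv (MM o x f1 f2) g := (H.hw.cv H.hx.ok).1
theorem G_eq : G = (MM o x f1 f2)⁻¹ := (H.hw.cv H.hx.ok).2

theorem G_le (v : Vn n) : v ⬝ᵥ G *ᵥ v ≤ (v ⬝ᵥ v) / g := by
  rw [le_div_iff₀ H.hw.g0, mul_comm, H.G_eq]; exact H.cv.G_le v

/-- **(M1)** -/
theorem M1 (v : Vn n) : v ⬝ᵥ (EM (o.P μ) fun U => (o.g U)ᵀ * sm2 (o.w U) sv o.p * o.g U) *ᵥ v ≤
    kA / g * (v ⬝ᵥ v) := by
  rw [M1_dot H.inv H.hx.ok]
  exact (H.core v).trans ((mul_le_mul_of_nonneg_left (H.G_le v) (by linarith [H.kA1])).trans_eq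
    (by ring))

theorem coreA (v : Vn n) : o.an μ (fun s U => (v ⬝ᵥ xh o s U) ^ 2) ≤ kA * (v ⬝ᵥ G *ᵥ v) :=
  (an_polar H.inv H.hx.ok (F := fun _ ξ => (v ⬝ᵥ ξ) ^ 2) fun s => by fun_prop).le.trans (H.core v)

theorem Qf (v : Vn n) : Qm o *ᵥ v = (f1 ⬝ᵥ v) • f1 + (f2 ⬝ᵥ v) • f2 := by
  rw [H.hx.hq, add_mulVec, Orb.vv_mulVec, Orb.vv_mulVec]

theorem Qf_sq (v : Vn n) : Qm o *ᵥ v ⬝ᵥ Qm o *ᵥ v = (f1 ⬝ᵥ v) ^ 2 + (f2 ⬝ᵥ v) ^ 2 := by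
  rw [dot_Q, Q_Q H.hx.ok, H.Qf, add_dotProduct, smul_dotProduct, smul_dotProduct]; simp [sq]

theorem MM_E (w : Fin k → ℝ) : MM o x f1 f2 *ᵥ (o.E *ᵥ w) = A0 o *ᵥ (o.E *ᵥ w) := by
  have h1 := H.Qf_sq (o.E *ᵥ w)
  rw [Q_E H.hx.ok, dotProduct_zero] at h1
  have a1 : f1 ⬝ᵥ o.E *ᵥ w = 0 := by nlinarith [sq_nonneg (f1 ⬝ᵥ o.E *ᵥ w), sq_nonneg (f2 ⬝ᵥ o.E *ᵥ w)]
  have a2 : f2 ⬝ᵥ o.E *ᵥ w = 0 := by nlinarith [sq_nonneg (f1 ⬝ᵥ o.E *ᵥ w), sq_nonneg (f2 ⬝ᵥ o.E *ᵥ w)]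
  simp only [MM, Bp, add_mulVec, sub_mulVec, Orb.vv_mulVec, sub_dotProduct, smul_dotProduct, a1, a2,
    smul_zero, sub_zero, zero_smul, add_zero]

theorem AGA {r0 : ℝ} {e1 e2 : Vn n} (f : Fr o x χ r0 e1 e2) {v : Vn n} (hv : v ⬝ᵥ v = 1) :
    A0 o *ᵥ v ⬝ᵥ G *ᵥ (A0 o *ᵥ v) ≤ 12 * C := by
  have h1 := psd_cs (A0_symm H.hx.ok) H.psd v (G *ᵥ (A0 o *ᵥ v))
  have h2 := (le_abs_self _).trans (quad_le (f.opA H.hx.ok) v)
  have h3 := H.cv.dual f2 (G *ᵥ (A0 o *ᵥ v))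
  have h4 := MM_form (o := o) (x := x) (f1 := f1) (f2 := f2) (G *ᵥ (A0 o *ᵥ v))
  have h5 := H.cv.GG (A0 o *ᵥ v)
  have h6 := H.cv.nn' (A0 o *ᵥ v)
  rw [← H.G_eq] at h3 h5 h6
  rw [h5] at h3 h4
  rw [symm_dot (A0_symm H.hx.ok)] at h1
  rw [hv] at h2
  have h7 := mul_le_mul_of_nonneg_right H.hw.G2 h6
  have h8 := mul_le_mul h2 (show G *ᵥ (A0 o *ᵥ v) ⬝ᵥ A0 o *ᵥ (G *ᵥ (A0 o *ᵥ v)) ≤
    2 * C * (A0 o *ᵥ v ⬝ᵥ G *ᵥ (A0 o *ᵥ v)) by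
      nlinarith [sq_nonneg (bb x f1 f2 ⬝ᵥ G *ᵥ (A0 o *ᵥ v)), H.hx.C1]) (H.psd _) (by norm_num)
  rcases h6.eq_or_lt with e | e
  · linarith [H.hx.C1]
  · exact le_of_mul_le_mul_right (by nlinarith) e

theorem Y1 : 1 ≤ (1 + C2) * C ^ 2 * kA :=
  one_le_mul_of_one_le_of_one_le (one_le_mul_of_one_le_of_one_le (by linarith [H.c2])
    (one_le_pow₀ H.hx.C1)) H.kA1

theorem toIn {r0 : ℝ} {e1 e2 : Vn n} (f : Fr o x χ r0 e1 e2) :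
    In o μ x χ r0 e1 e2 (nmOf n C g kA Λ κ6 δ C2) := by
  have h := H.hx.ok
  have A := pfA H.inv h
  have g0 := H.hw.g0
  have C1 := H.hx.C1
  have k1 := H.kA1
  have pr := f.p_sq h
  have r0' : 0 < r0 ^ 2 := pr ▸ H.p0
  have m1 : o.an μ (fun s U => (e1 ⬝ᵥ xh o s U) ^ 2) ≤ kA / g :=
    (H.coreA e1).trans ((mul_le_mul_of_nonneg_left (H.G_le e1) (by linarith)).trans_eq (by
      rw [f.e11]; ring))
  have m2 : o.an μ (fun s U => (e2 ⬝ᵥ xh o s U) ^ 2) ≤ 4 * C ^ 2 * kA := by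
    have a1 := f.Qsq h f1
    have a2 := H.Qf_sq e1
    have a3 := H.Qf_sq e2
    rw [H.Qf_sq, H.hx.n1, dotProduct_comm f2, H.hx.o12, dotProduct_comm e1, dotProduct_comm e2] at a1
    rw [f.Q1 h, f.e11] at a2
    rw [f.Q2 h, f.e22] at a3
    have a4 : (f1 ⬝ᵥ e2) ^ 2 ≤ C * κ ^ 2 := by
      have := H.p2
      rw [pr, f.pe1, dotProduct_smul, smul_eq_mul, mul_pow, mul_comm] at this
      linarith [le_of_mul_le_mul_right this r0']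
    have a5 := form_two (A := G) (fun y => H.G_eq ▸ H.cv.nn' y) f1 f2 (f1 ⬝ᵥ e2) (f2 ⬝ᵥ e2)
    rw [← H.Qf, f.Q2 h] at a5
    have a6 := H.G_le f1
    have a7 : 0 ≤ f1 ⬝ᵥ G *ᵥ f1 := H.G_eq ▸ H.cv.nn' f1
    rw [H.hx.n1, le_div_iff₀ g0] at a6
    have a8 := mul_le_mul_of_nonneg_right (a4.trans (mul_le_mul_of_nonneg_left H.hw.kg (by linarith))) a7
    have a9 := mul_le_mul (show (f2 ⬝ᵥ e2) ^ 2 ≤ 1 by linarith [sq_nonneg (f1 ⬝ᵥ e2)]) H.hw.G2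
      (H.G_eq ▸ H.cv.nn' f2) zero_le_one
    have a10 := mul_le_mul_of_nonneg_left a6 (mul_self_nonneg C)
    refine (H.coreA e2).trans ((mul_le_mul_of_nonneg_left (b := _) (c := 4 * C ^ 2) ?_
      (by linarith)).trans_eq (mul_comm _ _))
    nlinarith
  refine ⟨H.inv, h, H.k4, f, H.Λn, pr ▸ H.pΛ, ?_, ?_, ?_, m1, m2, ?_, ?_⟩
  · have := H.Ap
    rw [pr, f.pe1, mulVec_smul, smul_dotProduct, dotProduct_smul, smul_eq_mul, smul_eq_mul] at this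
    exact le_of_mul_le_mul_right (by simp only [nmOf]; linarith) r0'
  · have := H.p6
    have e : ∑ i, o.p i ^ 6 = (∑ i, e1 i ^ 6) * (r0 ^ 2) ^ 3 := by
      rw [Finset.sum_mul]
      exact Finset.sum_congr rfl fun i _ => by rw [f.pe1, Pi.smul_apply, smul_eq_mul]; ring
    rw [pr, e] at this
    exact le_of_mul_le_mul_right this (by positivity)
  · exact (an_polar H.inv h (F := fun s _ => tb o Λ s) fun s => by fun_prop).le.trans H.bad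
  · simp only [H.Qf_sq, symm_dot (A0_symm h), nmOf]
    rw [A.add (fun s => by fun_prop) fun s => by fun_prop]
    linarith [H.coreA (A0 o *ᵥ f1), H.coreA (A0 o *ᵥ f2),
      mul_le_mul_of_nonneg_left (H.AGA f H.hx.n1) (by linarith : 0 ≤ kA),
      mul_le_mul_of_nonneg_left (H.AGA f H.hx.n2) (by linarith : 0 ≤ kA)]
  · have hB := cvB h H.cv.symm H.MM_E H.cv
    obtain ⟨t1, t2⟩ := tr_schur h H.cv.symm H.MM_E H.cv H.hx.dim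
    rw [← H.G_eq] at t1 t2
    have n0 : (0 : ℝ) < n := by nlinarith [H.gn]
    have gi : 1 ≤ g⁻¹ := (one_le_inv₀ g0).2 H.g1
    have t3 : G.trace - (M4.Bm o)⁻¹.trace ≤ 2 * g⁻¹ := by
      rw [← div_eq_mul_inv, le_div_iff₀ g0]; linarith
    have t4 : τ ^ 2 * T0 ≤ C2 * n * g⁻¹ := by rw [← div_eq_mul_inv, le_div_iff₀ g0]; exact H.hC2
    have t5 : g⁻¹ ≤ n := by rw [inv_le_iff_one_le_mul₀ g0]; linarith [H.gn]
    refine (mg_le H.inv h f H.hx.dim H.hx.chi (g := g⁻¹) (a := 6) (D := (2 * C2 + 8) * n * g⁻¹)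
      (m := kA / g + 4 * C ^ 2 * kA) hB.symm' hB.inv hB.nn (fun v => ?_) (by norm_num) gi
      (fun z => (schur h (A0_symm h) (fun _ => rfl) H.psd hB z).trans
        ((le_abs_self _).trans (quad_le (f.opA h) z))) ?_ H.Λn ?_).trans ?_
    · rw [← div_eq_inv_mul, le_div_iff₀ g0, mul_comm]; exact hB.G_le v
    · nlinarith [H.hw.tr, sq_nonneg (n * χ - G.trace - (G.trace - (M4.Bm o)⁻¹.trace)),
        mul_self_le_mul_self t1 t3, mul_le_mul_of_nonneg_right t5 (by linarith : 0 ≤ g⁻¹)]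
    · simp only [f.Qsq h]
      rw [A.add (fun s => by fun_prop) fun s => by fun_prop]
      linarith
    · have b1 : 1 ≤ C ^ 2 * kA := one_le_mul_of_one_le_of_one_le (one_le_pow₀ C1) k1
      have b2 : kA ≤ C ^ 2 * kA := le_mul_of_one_le_left (by linarith) (one_le_pow₀ C1)
      have b3 := mul_le_mul_of_nonneg_left b1 H.c2
      have b4 := mul_le_mul_of_nonneg_left H.g1 (by linarith : 0 ≤ C ^ 2 * kA)
      simp only [nmOf]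
      rw [le_div_iff₀ (by positivity)]
      field_simp
      nlinarith [H.c2]

theorem K_le : (nmOf n C g kA Λ κ6 δ C2).K n ≤ K0 ∧
    (nmOf n C g kA Λ κ6 δ C2).T n ≤ 10 ^ 5 * ((1 + C2) * C ^ 2 * kA) / g := by
  obtain ⟨r0, e1, e2, f⟩ := H.hx.fr
  have I := H.toIn f
  have g0 := H.hw.g0
  have Y1 := H.Y1
  have n4 := I.n4
  have b1 : 1 ≤ C ^ 2 := one_le_pow₀ H.hx.C1
  have k0 : 0 ≤ kA := by linarith [H.kA1]
  have b2 : C ^ 2 * kA ≤ (1 + C2) * C ^ 2 * kA := by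
    nlinarith [mul_nonneg H.c2 (mul_nonneg (sq_nonneg C) k0)]
  have b3 : kA ≤ C ^ 2 * kA := le_mul_of_one_le_left k0 b1
  have b4 : C * kA ≤ C ^ 2 * kA := mul_le_mul_of_nonneg_right (by nlinarith [H.hx.C1]) k0
  have b5 : n * δ ≤ 1 := by nlinarith [H.δn, I.nδ0]
  set Y := (1 + C2) * C ^ 2 * kA with hY
  have g1 : (nmOf n C g kA Λ κ6 δ C2).g1 ≤ 15100 * Y / g := by
    have a1 : Λ * (20000 * Y / (g * n)) ≤ 5000 * Y / g := by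
      rw [← mul_div_assoc, div_le_div_iff₀ (by positivity) g0]
      nlinarith [mul_le_mul_of_nonneg_right H.Λn (by positivity : 0 ≤ Y * g)]
    have a2 : kA / g ≤ Y / g := div_le_div_of_nonneg_right (by linarith) g0.le
    have a3 : Y ≤ Y / g := le_div_self (by linarith) g0 H.g1
    simp only [Nm.g1, nmOf, ← hY, mul_div_assoc] at *
    linarith
  have g2 : (nmOf n C g kA Λ κ6 δ C2).g2 ≤ 720 * Y := by simp only [Nm.g2, nmOf]; linarith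
  have g3 : κ6 * Λ ^ 2 * (nmOf n C g kA Λ κ6 δ C2).g1 ≤ C1 * g * (15100 * Y / g) :=
    mul_le_mul H.hC1 g1 ((I.B.nonneg (fun s => by fun_prop) fun s _ _ =>
      mul_nonneg (tg0 _ s) (sq_nonneg _)).trans I.hg1) (by nlinarith [H.c1])
  have a3 : Y ≤ Y / g := le_div_self (by linarith) g0 H.g1
  rw [show C1 * g * (15100 * Y / g) = 15100 * (C1 * Y) by field_simp] at g3
  have a4 : Y ≤ C1 * Y := le_mul_of_one_le_left (by linarith) H.c1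
  have a5 := H.hK
  rw [Nm.K, Nm.T, mul_div_assoc]
  rw [mul_div_assoc] at g1
  exact ⟨by simp only [nmOf] at *; linarith, by simp only [nmOf] at *; linarith⟩

/-- **(M2)** -/
theorem M2 : ∑ i, EV (o.P μ) (fun U => o.A U *ᵥ o.d U) i ^ 2 ≤ 700 * K0 := by
  obtain ⟨r0, e1, e2, f⟩ := H.hx.fr
  rw [← dot_self_eq_sq]
  linarith [(H.toIn f).M2, H.K_le.1]

/-- **(M3)**, operator form -/
theorem M3op (v : Vn n) :
    v ⬝ᵥ (EM (o.P μ) fun U => o.A U * sm2 (o.w U) sv o.p * o.A U - o.A U) *ᵥ v ≤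
      500 * K0 * (v ⬝ᵥ v) := by
  obtain ⟨r0, e1, e2, f⟩ := H.hx.fr
  exact ((H.toIn f).M3op v).trans (mul_le_mul_of_nonneg_right (by linarith [H.K_le.1])
    (dot_self_nonneg v))

/-- **(M3)**, Frobenius form -/
theorem M3F : fr (EM (o.P μ) fun U => o.A U * sm2 (o.w U) sv o.p * o.A U - o.A U) ≤
    10 ^ 5 * (∑ i, o.p i ^ 4 + 4 * K0 ^ 2 / g) := by
  obtain ⟨r0, e1, e2, f⟩ := H.hx.fr
  have I := H.toIn f
  obtain ⟨h1, h2⟩ := H.K_le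
  have g0 := H.hw.g0
  have Y1 := H.Y1
  have K1 := I.K1
  have n4 := I.n4
  have a4 := le_mul_of_one_le_left (zero_le_one.trans Y1) H.c1
  have a5 := H.hK
  have h3 := I.M3F (V_le H.hx.chi)
  set Y := (1 + C2) * C ^ 2 * kA with hY
  have a6 : n * (nmOf n C g kA Λ κ6 δ C2).mg = 20000 * Y / g := by simp only [nmOf, ← hY]; field_simp
  have a7 : K0 ^ 2 ≤ K0 ^ 2 / g := le_div_self (sq_nonneg _) g0 H.g1
  have a8 : 20000 * Y / g * (nmOf n C g kA Λ κ6 δ C2).K n ≤ K0 ^ 2 / g := by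
    rw [div_mul_eq_mul_div, sq]
    exact div_le_div_of_nonneg_right (mul_le_mul (by linarith) h1 (by linarith) (by linarith)) g0.le
  have a9 : 10 ^ 5 * Y / g ≤ K0 ^ 2 / g := div_le_div_of_nonneg_right (by nlinarith) g0.le
  have a10 := pow_le_pow_left₀ (by linarith) h1 2
  rw [a6] at h3
  have a11 : (nmOf n C g kA Λ κ6 δ C2).δ = δ := rfl
  rw [a11] at h3
  rw [mul_div_assoc]
  nlinarith [H.δn]

end Gl

end Crest.Agent.T157.Mj
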