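import Crest.Agent.T157.NetDef_32

/-!
# Row 157, block B/S3, section 7 (helper11): appending a batch of nodes (`Nt.AppGlue`)
-/

set_option autoImplicit false

noncomputable section

namespace Crest.Agent.T157.Nt

open MeasureTheory Matrix Real Set Filter Topology
open Crest.Agent.T157.S3L (gm mdl)

namespace App11

section res
variable {L K : Type} [Fintype L] [DecidableEq L] [Fintype K] [DecidableEq K]

/-- the matrix that reads the fields `e x` -/
def Me (e : K → L) : Matrix K L ℝ := of fun x l => if e x = l then 1 else 0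

omit [DecidableEq K] [Fintype K] in
lemma Me_mul (e : K → L) (S : Matrix L L ℝ) : Me e * S * (Me e)ᵀ = S.submatrix e e := by
  ext i j; simp [Me, mul_apply]

omit [DecidableEq K] [Fintype K] [Fintype L] in
lemma Me_row (e : K → L) (o : K) : Me e o = Pi.single (e o) 1 := by
  ext l; simp [Me, Pi.single_apply, eq_comm]

variable (T : Tl) {e : K → L}
include T

omit [DecidableEq K] in
lemma res_eq (F : Fn K) : res e F = pb (Me e) F := (T.dx ℝ L).res e F

lemma bs_res {F : Fn K} (h : BS F) : BS (res e F) := by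
  rw [res_eq T]; exact (T.bs L).pb _ h

lemma dx_in (he : Function.Injective e) {F : Fn K} (h : BS F) (u : K) :
    dx (e u) (res e F) = res e (dx u F) := by
  rw [res_eq T, ((T.dx ℝ L).pb _ _ ((T.bs K).df h)).2, Finset.sum_eq_single u, res_eq T]
  · simp [Me]
  · intro v _ hv; simp [Me, he.ne hv]
  · simp

lemma dx_out {F : Fn K} (h : BS F) {l : L} (hl : l ∉ range e) : dx l (res e F) = 0 := by
  rw [res_eq T, ((T.dx ℝ L).pb _ _ ((T.bs K).df h)).2]
  refine Finset.sum_eq_zero fun v _ => ?_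
  have : e v ≠ l := fun h => hl ⟨v, h⟩
  simp [Me, this]

variable {κ κ' : Type} [Fintype κ] [Fintype κ'] {A' : Matrix L κ' ℝ} {A : Matrix K κ ℝ} {o : K}

lemma Eb_res (hS : (A' * A'ᵀ).submatrix e e = A * Aᵀ) {F : Fn K} (h : BS F) :
    Eb A' (e o) (res e F) = Eb A o F := by
  ext b
  rw [Eb, Eb, (T.ex ℝ L κ').eq, (T.ex ℝ K κ).eq, res_eq T]
  exact (T.ex ℝ L κ').pb A' A (Me e) (e o) o _ (F b) (by rw [Me_mul, hS]) (Me_row e o)
    fun s => ((T.bs K).df h b s).continuous.measurable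

lemma Ev_res (hS : (A' * A'ᵀ).submatrix e e = A * Aᵀ) (ν : Measure ℝ) {F : Fn K} (h : BS F) :
    Ev ν A' (e o) (res e F) = Ev ν A o F := by rw [Ev, Ev, Eb_res T hS h]

omit [DecidableEq K] [Fintype K] in
lemma Ev_zero (ν : Measure ℝ) (o' : L) : Ev ν A' o' 0 = 0 := by
  have : Eb A' o' 0 = fun _ => 0 := by
    ext b; rw [Eb, (T.ex ℝ L κ').eq]; exact (T.ex ℝ L κ').const A' o' _ 0
  rw [Ev, this, integral_zero]

lemma pair_res (hS : (A' * A'ᵀ).submatrix e e = A * Aᵀ) (β : ℝ) (ν : Measure ℝ) {I I1 : Type}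
    [Fintype I] [Fintype I1] {ι : I → I1} (hι : Function.Injective ι) {d al al' : Fn K}
    {a a' : I → Fn K} {c c' : I1 → Fn L} {P : Matrix I I ℝ} {P1 : Matrix I1 I1 ℝ}
    (hd : BS d) (hal : BS al) (hal' : BS al') (ha : ∀ p, BS (a p)) (ha' : ∀ p, BS (a' p))
    (h1 : ∀ p, c (ι p) = res e (a p)) (h2 : ∀ p ∉ range ι, c p = 0)
    (h1' : ∀ p, c' (ι p) = res e (a' p)) (h2' : ∀ p ∉ range ι, c' p = 0)
    (hP : ∀ p q, P1 (ι p) (ι q) = P p q) :
    pair β ν A' (e o) (res e d) (res e al) c (res e al') c' P1 = pair β ν A o d al a al' a' P := by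
  have B := T.bs K
  rw [pair, pair, ← Ev_res T hS ν (B.mul (B.mul hal hd) hal')]
  congr 2
  refine (Fintype.sum_of_injective ι hι _ _ (fun p hp => ?_) fun p => ?_).symm
  · simp [h2 p hp, Ev_zero T]
  · refine Fintype.sum_of_injective ι hι _ _ (fun q hq => ?_) fun q => ?_
    · simp [h2' q hq, Ev_zero T]
    · rw [h1, h1', hP, ← Ev_res T hS ν (B.mul (ha p) (ha' q))]; rfl

lemma dft_res (he : Function.Injective e) {S' : Matrix L L ℝ} (hs : S'ᵀ = S') (al : Fn K)
    {a : K → Fn K} {c : L → Fn L} (ha : ∀ p, BS (a p)) (h1 : ∀ p, c (e p) = res e (a p))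
    (h2 : ∀ p ∉ range e, c p = 0) :
    dft S' (e o) (res e al) c = res e (dft (S'.submatrix e e) o al a) := by
  have e1 : ∑ u, res e (dl (S'.submatrix e e) o u (a u)) = ∑ u, dl S' (e o) u (c u) := by
    refine Fintype.sum_of_injective e he _ _ (fun p hp => ?_) fun p => ?_
    · have : ∀ l : L, dx l (0 : Fn L) = 0 := fun l => (T.dx ℝ L).cb l 0
      simp [h2 p hp, dl, this]
    · rw [h1, res_eq T, res_eq T, (T.dx ℝ L).dl (Me e) S' (e o) (e p) o p hs (Me_row e o)
        (Me_row e p) ((T.bs K).df (ha p)), Me_mul]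
  rw [dft, dft, ← e1]
  ext b s x
  simp only [res, Pi.add_apply, Pi.mul_apply, Pi.sub_apply, Finset.sum_apply]
  rfl

end res

lemma pos_exists (n : ℕ) (K : Type) [Fintype K] : ∃ (n' : ℕ) (E : Ix n ⊕ K ≃ Ix n'), Pos E := by
  refine ⟨n + Fintype.card K, ((Equiv.sumCongr (Equiv.refl _) (Fintype.equivFin K)).trans
    finSumFinEquiv).trans (finCongr (by omega)), fun a b h => ?_, Fin.ext ?_, fun v x => ?_⟩
  · exact h
  · simp
  · have := v.2
    simp only [Fin.lt_def, Equiv.trans_apply, Equiv.sumCongr_apply, Sum.map_inl, Sum.map_inr,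
      finSumFinEquiv_apply_left, finSumFinEquiv_apply_right, finCongr_apply, Fin.val_cast,
      Fin.val_castAdd, Fin.val_natAdd, Equiv.refl_apply]
    omega

end App11

open App11 in
theorem appGlue : AppGlue := by
  intro T
  refine ⟨pos_exists, fun β ν _ n n' N K _ _ E G al a dr hE hN hG hfl hnd hdr hpd => ?_⟩
  have B := T.bs (Ix n)
  have B' := T.bs (Ix n')
  obtain ⟨e, he⟩ : ∃ e : Ix n → Ix n', e = fun v => E (.inl v) := ⟨_, rfl⟩
  have ee : ∀ v, E (.inl v) = e v := fun v => by rw [he]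
  have es : ∀ v, E.symm (e v) = .inl v := fun v => by rw [← ee, E.symm_apply_apply]
  have e0 : e 0 = 0 := (ee 0).symm.trans hE.zero
  have em : StrictMono e := he ▸ hE.mono
  have el : ∀ v x, e v < E (.inr x) := fun v x => ee v ▸ hE.lt v x
  have ei := em.injective
  have eo : ∀ p ∉ range e, ∃ x, E.symm p = .inr x := fun p hp => by
    obtain ⟨i, rfl⟩ := E.surjective p
    rcases i with v | x
    · exact absurd ⟨v, (ee v).symm⟩ hp
    · exact ⟨x, E.symm_apply_apply _⟩
  rw [← he]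
  obtain ⟨-, A', -, hA, -⟩ := (T.gc ℝ (Ix n') Unit 0).2.2.2
    (fun _ => (gram β ν N.A 0 (Sum.elim N.f G)).submatrix E.symm E.symm) _
    (fun _ => (hpd.submatrix E.symm.injective).posSemidef) tendsto_const_nhds
  have hS : (A' * A'ᵀ).submatrix e e = N.A * N.Aᵀ := by
    rw [hA, ← Net.S, hN.gr]; ext u v
    simp only [submatrix_apply, es]; rfl
  have bF : ∀ i, BS (Sum.elim N.f G i) := by rintro (v | x); exacts [hN.bs v, (hG x).1]
  have oF : ∀ i, rf (Sum.elim N.f G i) = -Sum.elim N.f G i := by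
    rintro (v | x); exacts [hN.od v, (hG x).2]
  have fF : ∀ i, N.Flw (Sum.elim N.al al i) (Sum.elim N.a a i) := by
    rintro (v | x); exacts [hN.fl v, (hfl x).1]
  have vF : ∀ i, rf (Sum.elim N.al al i) = Sum.elim N.al al i ∧
      ∀ u, rf (Sum.elim N.a a i u) = Sum.elim N.a a i u := by
    rintro (v | x); exacts [hN.ev v, (hfl x).2]
  have nF : ∀ i, ¬ Sum.elim N.dr dr i → Sum.elim N.al al i = 0 ∧ Sum.elim N.a a i = 0 := by
    rintro (v | x); exacts [hN.nd v, hnd x]
  have dF : ∀ i, Sum.elim N.dr dr i →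
      Sum.elim N.f G i = N.drift (Sum.elim N.al al i) (Sum.elim N.a a i) := by
    rintro (v | x); exacts [fun h => (hN.drf v h).2, hdr x]
  have rF : ∀ (i) (H : Fn (Ix n)), (∀ v, i = .inl v → Rd v H) → Rd (E i) (res e H) := by
    rintro (v | x) H h b s y y' hy
    · exact h v rfl b s _ _ fun m hm => hy _ (ee v ▸ em hm)
    · exact congrArg (H b s) (funext fun m => hy _ (el m x))
  obtain ⟨F, hF⟩ : ∃ F, F = Sum.elim N.f G := ⟨_, rfl⟩
  obtain ⟨AL, hAL⟩ : ∃ F, F = Sum.elim N.al al := ⟨_, rfl⟩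
  obtain ⟨AA, hAA⟩ : ∃ F, F = Sum.elim N.a a := ⟨_, rfl⟩
  obtain ⟨DR, hDR⟩ : ∃ F, F = Sum.elim N.dr dr := ⟨_, rfl⟩
  simp only [← hF, ← hAL, ← hAA, ← hDR] at hpd hA bF oF fF vF nF dF ⊢
  have F1 : ∀ v, F (.inl v) = N.f v := fun v => by rw [hF]; rfl
  have F2 : ∀ v, AL (.inl v) = N.al v := fun v => by rw [hAL]; rfl
  have F3 : ∀ v, AA (.inl v) = N.a v := fun v => by rw [hAA]; rfl
  have F4 : ∀ v, DR (.inl v) = N.dr v := fun v => by rw [hDR]; rfl
  let N' : Net n' :=
    { f := fun v => res e (F (E.symm v))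
      al := fun v => res e (AL (E.symm v))
      a := fun v u => Sum.elim (fun u => res e (AA (E.symm v) u)) 0 (E.symm u)
      dr := fun v => DR (E.symm v)
      A := A'
      PD := of fun l m => pair β ν N.A 0 N.D (gs (F (E.symm l))) (fun p => dx p (F (E.symm l)))
        (gs (F (E.symm m))) (fun p => dx p (F (E.symm m))) N.PD
      P1 := of fun i j => pair β ν N.A 0 1 (eal F AL (Sum.map E.symm E.symm i))
        (ea F AA (Sum.map E.symm E.symm i)) (eal F AL (Sum.map E.symm E.symm j))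
        (ea F AA (Sum.map E.symm E.symm j)) N.P1 }
  have a1 : ∀ l u, N'.a l (e u) = res e (AA (E.symm l) u) := fun l u => by
    simp only [N', es, Sum.elim_inl]
  have a0 : ∀ l, ∀ u ∉ range e, N'.a l u = 0 := fun l u hu => by
    obtain ⟨x, hx⟩ := eo u hu
    simp only [N', hx, Sum.elim_inr, Pi.zero_apply]
  have ac : ∀ {Q : Ix n' → Prop}, (∀ u, Q (e u)) → (∀ u ∉ range e, Q u) → ∀ u, Q u :=
    fun h1 h2 u => by
      by_cases h : u ∈ range e
      · obtain ⟨u, rfl⟩ := h; exact h1 u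
      · exact h2 u h
  have b0 : BS (0 : Fn (Ix n')) := B'.const 0
  have pD : ∀ p q, N'.PD (e p) (e q) = N.PD p q := fun p q => by
    rw [hN.hD]; simp only [N', of_apply, es, F1]
  have m1 : ∀ p, eal F AL (Sum.map E.symm E.symm (Sum.map e e p)) = eal N.f N.al p := by
    rintro (p | p) <;> simp [eal, es, F1, F2]
  have m2 : ∀ p, ea F AA (Sum.map E.symm E.symm (Sum.map e e p)) = ea N.f N.a p := by
    rintro (p | p) <;> ext1 (q | q) <;> simp [ea, es, F1, F3]
  have p1 : ∀ p q, N'.P1 (Sum.map e e p) (Sum.map e e q) = N.P1 p q := fun p q => by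
    rw [hN.h1]; simp only [N', of_apply, m1, m2]
  have bD : BS N.D := B.sub (B.const 1) (B.pow 2 (B.th0 0))
  have rD : N'.D = res e N.D := by rw [Net.D, ← e0]; rfl
  have n1 : ∀ i, eal N'.f N'.al i = res e (eal F AL (Sum.map E.symm E.symm i)) := by
    rintro (i | i) <;> rfl
  have n2 : ∀ i, BS (eal F AL i) := by rintro (i | i); exacts [B.gs (bF _), (fF _).bal]
  have n3 : ∀ i p, BS (ea F AA i p) := by
    rintro (i | i) (p | p); exacts [B.dx _ (bF _), B.const 0, B.const 0, ((fF _).ba _).1]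
  have n4 : ∀ i p, ea N'.f N'.a i (Sum.map e e p) =
      res e (ea F AA (Sum.map E.symm E.symm i) p) := by
    rintro (i | i) (p | p); exacts [dx_in T ei (bF _) p, rfl, rfl, a1 _ _]
  have n5 : ∀ i, ∀ p ∉ range (Sum.map e e), ea N'.f N'.a i p = 0 := by
    rintro (i | i) (p | p) hp
    exacts [dx_out T (bF _) fun ⟨v, h⟩ => hp ⟨.inl v, congrArg Sum.inl h⟩, rfl, rfl,
      a0 _ _ fun ⟨v, h⟩ => hp ⟨.inr v, congrArg Sum.inr h⟩]
  refine ⟨N', ⟨?_, fun l => bs_res T (e := e) (bF (E.symm l)), fun l => congrArg (res e) (oF _),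
    fun l => ?_, fun l => ⟨bs_res T (e := e) (fF (E.symm l)).bal, congrArg (res e) (fF _).free,
      ac (fun u => ?_) fun u hu => ?_,
      ac (fun u hu => ?_) fun u hu _ => a0 l u hu⟩,
    fun l => ⟨congrArg (res e) (vF _).1, ac (fun u => ?_) fun u hu => ?_⟩, fun l => ?_,
    fun l => ac (fun u hu => ?_) fun u hu _ => a0 l u hu,
    fun l hl => ⟨congrArg (res e) (nF _ hl).1, funext (ac (fun u => ?_) (a0 l))⟩,
    fun l hl => ⟨?_, ?_⟩, ?_, ?_, fun l m => ?_, fun i j => ?_⟩,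
    ⟨em, e0, fun l => ?_, fun l => ?_, fun l u => ?_, fun l => a0 _, fun l => ?_, hS,
      Matrix.ext pD, Matrix.ext p1⟩, fun x => ?_, fun x => ?_, ?_, fun i j => ?_, fun i j => ?_⟩
  · change res e (F (E.symm 0)) = _
    rw [← e0, es, F1, hN.f0]; rfl
  · obtain ⟨i, rfl⟩ := E.surjective l
    refine rF i _ ?_
    rintro v rfl
    rw [E.symm_apply_apply, F1]; exact hN.rd v
  · rw [a1]; exact ⟨bs_res T ((fF _).ba u).1, bs_res T (e := e) ((fF (E.symm l)).ba u).2⟩
  · rw [a0 l u hu, zero_mul]; exact ⟨b0, b0⟩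
  · rw [a1, (fF _).nd u (by simpa only [N', es, F4] using hu)]; rfl
  · rw [a1]; exact congrArg (res e) ((vF _).2 u)
  · rw [a0 l u hu]; rfl
  · obtain ⟨i, rfl⟩ := E.surjective l
    refine ⟨rF i _ ?_, ac (fun u => ?_) fun u hu => ?_⟩
    · rintro v rfl
      rw [E.symm_apply_apply, F2]; exact (hN.rd' v).1
    · rw [a1]
      refine rF i _ ?_
      rintro v rfl
      rw [E.symm_apply_apply, F3]; exact (hN.rd' v).2 u
    · rw [a0 _ u hu]; exact fun _ _ _ _ _ => rfl
  · obtain ⟨v | x, rfl⟩ := E.surjective l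
    · rw [a1, E.symm_apply_apply, F3, hN.tri v u (em.le_iff_le.1 (ee v ▸ hu))]; rfl
    · exact absurd hu (el u x).not_ge
  · rw [a1, (nF _ hl).2]; rfl
  · obtain ⟨v | x, rfl⟩ := E.surjective l
    · rw [ee, ← e0]
      exact em (hN.drf v (by simpa only [N', E.symm_apply_apply, F4] using hl)).1
    · exact e0 ▸ el 0 x
  · change res e (F _) = dft (A' * A'ᵀ) 0 (res e (AL _)) _
    rw [dF _ hl, ← e0, dft_res T ei (by simp) _ (fun p => ((fF _).ba p).1) (a1 l) (a0 l), hS]; rfl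
  · change (A' * A'ᵀ).PosDef
    rw [hA]; exact hpd.submatrix E.symm.injective
  · change A' * A'ᵀ = _
    rw [hA]; ext l m
    change β ^ 2 * ∫ b, _ ∂ν = β ^ 2 * ∫ b, Eb A' 0 (res e (F _ * F _)) b -
      Eb A' 0 (res e (F _)) b * Eb A' 0 (res e (F _)) b ∂ν
    rw [← e0, Eb_res T hS (B.mul (bF _) (bF _)), Eb_res T hS (bF _), Eb_res T hS (bF _)]; rfl
  · rw [rD, ← e0]
    exact (pair_res T hS β ν ei bD (B.gs (bF _)) (B.gs (bF _)) (fun p => B.dx p (bF _))
      (fun p => B.dx p (bF _)) (dx_in T ei (bF _)) (fun p => dx_out T (bF _)) (dx_in T ei (bF _))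
      (fun p => dx_out T (bF _)) pD).symm
  · rw [n1, n1, ← e0]
    exact (pair_res T hS β ν (ei.sumMap ei) (d := 1) (B.const 1) (n2 _) (n2 _) (n3 _) (n3 _) (n4 i)
      (n5 i) (n4 j) (n5 j) p1).symm
  · simp only [N', es, F1]
  · simp only [N', es, F2]
  · rw [a1, es, F3]
  · simp only [N', es, F4]
  · simp only [N', E.symm_apply_apply, hDR, Sum.elim_inr]
  · simp only [N', E.symm_apply_apply, hF, Sum.elim_inr]
  · change (A' * A'ᵀ).submatrix E E = _
    rw [hA]; simp
  · simp only [N', of_apply, E.symm_apply_apply]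
  · simp only [N', of_apply, Sum.map_map, E.symm_comp_self, Sum.map_id_id, id]

end Crest.Agent.T157.Nt

end
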