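import Crest.Agent.T157.S3LDef_65

/-!
# Row 157, block B/S3, section 4 (helper22): `TiltStmt`
-/

set_option autoImplicit false
set_option linter.unusedSectionVars false

noncomputable section

namespace Crest.Agent.T157.S3L

open MeasureTheory ProbabilityTheory Matrix Filter Set Real
open Crest.ProbabilityR.SpinGlassDynamics
open Crest.Agent.T157.E Crest.Agent.T157.SL
open Crest.Agent.T157.Conc (en ELip abs_le_en en_nonneg en_sq)

namespace Ti22

variable {L κ Ω : Type} [Fintype L] [Fintype κ] [Fintype Ω]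

theorem int_exp (h : κ → ℝ) : Integrable (fun z => exp (z ⬝ᵥ h)) (gv κ) ∧
    ∫ z, exp (z ⬝ᵥ h) ∂gv κ = exp (h ⬝ᵥ h / 2) := by
  classical
  have e : ∀ z : κ → ℝ, exp (z ⬝ᵥ h) = exp (h ⬝ᵥ h / 2) * (exp (z ⬝ᵥ h - h ⬝ᵥ h / 2) * 1) :=
    fun z => by rw [mul_one, ← exp_add]; congr 1; ring
  simp only [e]
  refine ⟨((cm_int h fun _ => 1).1 (integrable_const _)).const_mul _, ?_⟩
  rw [integral_const_mul, ← cm h fun _ => 1]
  simp

theorem dot_row (A : Matrix L κ ℝ) (l : L) (t : ℝ) (z : κ → ℝ) :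
    z ⬝ᵥ (t • fun k => A l k) = t * (A *ᵥ z) l := by
  rw [dotProduct_smul, dotProduct_comm]; rfl

theorem row_le (A : Matrix L κ ℝ) (l : L) : (fun k => A l k) ⬝ᵥ (fun k => A l k) ≤ f2 A := by
  have := Finset.single_le_sum (f := fun l => ∑ k, A l k ^ 2)
    (fun l _ => Finset.sum_nonneg fun k _ => sq_nonneg _) (Finset.mem_univ l)
  simpa only [dotProduct, sq, f2] using this

/-- majorant -/
def U (x : L → ℝ) : ℝ := ∑ l, (exp (4 * x l) + exp (-4 * x l))

theorem int_U {A : Matrix L κ ℝ} {C : ℝ} (hA : f2 A ≤ C) :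
    Integrable (fun z => U (A *ᵥ z)) (gv κ) ∧
      ∫ z, U (A *ᵥ z) ∂gv κ ≤ 2 * Fintype.card L * exp (8 * C) := by
  have i : ∀ l t, Integrable (fun z => exp (t * (A *ᵥ z) l)) (gv κ) := fun l t => by
    simpa only [dot_row] using (int_exp (t • fun k => A l k)).1
  have j : ∀ l (t : ℝ), t ^ 2 = 16 → ∫ z, exp (t * (A *ᵥ z) l) ∂gv κ ≤ exp (8 * C) := fun l t ht => by
    have := (int_exp (t • fun k => A l k)).2
    rw [smul_dotProduct, dotProduct_smul, smul_eq_mul, smul_eq_mul, ← mul_assoc, ← sq, ht] at this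
    simp only [dot_row] at this
    rw [this, exp_le_exp]
    linarith [row_le A l]
  refine ⟨integrable_finsetSum _ fun l _ => (i l 4).add (i l (-4)), ?_⟩
  rw [show (fun z => U (A *ᵥ z)) = fun z => ∑ l, (exp (4 * (A *ᵥ z) l) + exp (-4 * (A *ᵥ z) l))
    from rfl, integral_finsetSum (f := fun l z => exp (4 * (A *ᵥ z) l) + exp (-4 * (A *ᵥ z) l)) _
      fun l _ => (i l 4).add (i l (-4))]
  refine (Finset.sum_le_sum (g := fun _ => 2 * exp (8 * C)) fun l _ => ?_).trans_eq ?_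
  · rw [integral_add (i l 4) (i l (-4))]
    linarith [j l 4 (by norm_num), j l (-4) (by norm_num)]
  · rw [Finset.sum_const, Finset.card_univ, nsmul_eq_mul]; ring

theorem gm_bd {A : Matrix L κ ℝ} {C c : ℝ} (hA : f2 A ≤ C) {F : (L → ℝ) → ℝ} (hF : Continuous F)
    (hc : 0 ≤ c) (h : ∀ x, |F x| ≤ c * U x) : Integrable (fun z => F (A *ᵥ z)) (gv κ) ∧
      |gm A F| ≤ c * (2 * Fintype.card L * exp (8 * C)) := by
  obtain ⟨i, j⟩ := int_U hA
  refine ⟨(i.const_mul c).mono' (hF.comp (by fun_prop)).aestronglyMeasurable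
    (.of_forall fun z => h _), ?_⟩
  refine (norm_integral_le_of_norm_le (f := fun z => F (A *ᵥ z)) (i.const_mul c)
    (.of_forall fun z => h _)).trans ?_
  rw [integral_const_mul]
  exact mul_le_mul_of_nonneg_left j hc

/-- second majorant -/
def H (o : L) (x : L → ℝ) : ℝ := exp (4 * |x o|) + 8 + 8 * en x ^ 4

theorem exp_abs_le (t : ℝ) : exp (4 * |t|) ≤ exp (4 * t) + exp (-4 * t) := by
  rcases abs_cases t with h | h <;> rw [h.1]
  · linarith [exp_pos (-4 * t)]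
  · rw [show 4 * -t = -4 * t by ring]; linarith [exp_pos (4 * t)]

theorem H_le (o : L) (x : L → ℝ) : H o x ≤ (9 + 8 * Fintype.card L) * U x := by
  have h1 : exp (4 * |x o|) ≤ U x := (exp_abs_le _).trans (Finset.single_le_sum
    (f := fun l => exp (4 * x l) + exp (-4 * x l)) (fun l _ => by positivity) (Finset.mem_univ o))
  have h2 : 1 ≤ exp (4 * |x o|) := one_le_exp (by positivity)
  have h3 : en x ^ 4 ≤ Fintype.card L * U x := by
    rw [show en x ^ 4 = (en x ^ 2) ^ 2 by ring, en_sq]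
    refine (sq_sum_le_card_mul_sum_sq (s := Finset.univ) (f := fun l => x l ^ 2)).trans ?_
    rw [Finset.card_univ]
    refine mul_le_mul_of_nonneg_left (Finset.sum_le_sum fun l _ => le_trans ?_ (exp_abs_le _))
      (Nat.cast_nonneg _)
    have : |x l| ^ 4 ≤ exp |x l| ^ 4 :=
      pow_le_pow_left₀ (abs_nonneg _) (by linarith [add_one_le_exp |x l|]) 4
    rw [← exp_nat_mul, show |x l| ^ 4 = (|x l| ^ 2) ^ 2 by ring, sq_abs] at this
    exact_mod_cast this
  rw [H]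
  linarith

/-- clip -/
def cl (M t : ℝ) : ℝ := max (-M) (min t M)

theorem cl_lip (M t u : ℝ) : |cl M t - cl M u| ≤ |t - u| := by
  refine (abs_max_sub_max_le_max _ _ _ _).trans (max_le (by simp) ?_)
  exact (abs_min_sub_min_le_max _ _ _ _).trans (max_le le_rfl (by simp))

theorem cl_eq {M t : ℝ} (h : |t| ≤ M) : cl M t = t := by
  rw [cl, min_eq_left (abs_le.1 h).2, max_eq_right (abs_le.1 h).1]

theorem cl_le {M : ℝ} (hM : 0 ≤ M) (t : ℝ) : |cl M t| ≤ |t| ∧ |cl M t| ≤ M := by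
  constructor
  · simpa [cl_eq (show |(0 : ℝ)| ≤ M by simpa)] using cl_lip M t 0
  · exact abs_le.2 ⟨le_max_left _ _, max_le (by linarith) (min_le_right _ _)⟩

theorem exp_lip {M u v : ℝ} (hu : u ≤ M) (hv : v ≤ M) : |exp u - exp v| ≤ exp M * |u - v| := by
  have key : ∀ {u v : ℝ}, u ≤ M → v ≤ u → exp u - exp v ≤ exp M * (u - v) := fun {u v} hu h => by
    have h1 : exp v = exp u * exp (v - u) := by rw [← exp_add]; congr 1; ring
    have h2 := add_one_le_exp (v - u)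
    have h3 := exp_le_exp.2 hu
    nlinarith [exp_pos u, mul_le_mul_of_nonneg_left h2 (exp_pos u).le]
  rcases le_total v u with h | h
  · rw [abs_of_nonneg (sub_nonneg.2 (exp_le_exp.2 h)), abs_of_nonneg (sub_nonneg.2 h)]
    exact key hu h
  · rw [abs_sub_comm, abs_sub_comm u, abs_of_nonneg (sub_nonneg.2 (exp_le_exp.2 h)),
      abs_of_nonneg (sub_nonneg.2 h)]
    exact key hv h

variable {o : L} {s M : ℝ} {f : (L → ℝ) → ℝ}

theorem mul_le_abs (hs : |s| = 1) (t : ℝ) : s * t ≤ |t| :=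
  (le_abs_self _).trans_eq (by rw [abs_mul, hs, one_mul])

theorem ph_lip (hs : |s| = 1) (hM : 0 ≤ M) (hf : ELip 1 f) :
    ELip (exp M * (1 + M)) fun x => exp (s * cl M (x o)) * cl M (f x) := fun x y => by
  have b : ∀ t, s * cl M t ≤ M := fun t => (mul_le_abs hs _).trans (cl_le hM t).2
  have h1 := exp_lip (b (x o)) (b (y o))
  rw [← mul_sub, abs_mul, hs, one_mul] at h1
  have h2 : |cl M (x o) - cl M (y o)| ≤ en (x - y) := (cl_lip _ _ _).trans (abs_le_en (x - y) o)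
  have h3 : |cl M (f x) - cl M (f y)| ≤ en (x - y) := (cl_lip _ _ _).trans ((hf x y).trans_eq (one_mul _))
  have e : exp (s * cl M (x o)) * cl M (f x) - exp (s * cl M (y o)) * cl M (f y) =
      (exp (s * cl M (x o)) - exp (s * cl M (y o))) * cl M (f x) +
        exp (s * cl M (y o)) * (cl M (f x) - cl M (f y)) := by ring
  rw [e]
  refine (abs_add_le _ _).trans ?_
  rw [abs_mul, abs_mul, abs_of_pos (exp_pos _)]
  have t1 := mul_le_mul (h1.trans (mul_le_mul_of_nonneg_left h2 (exp_pos _).le)) (cl_le hM (f x)).2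
    (abs_nonneg _) (mul_nonneg (exp_pos _).le (en_nonneg _))
  have t2 := mul_le_mul (exp_le_exp.2 (b (y o))) h3 (abs_nonneg _) (exp_pos _).le
  linarith

theorem pt (hs : |s| = 1) (hM : 0 < M) (hf : ELip 1 f) (h0 : |f 0| ≤ 1) (x : L → ℝ) :
    |exp (s * x o) * f x| ≤ H o x ∧ |exp (s * cl M (x o)) * cl M (f x)| ≤ H o x ∧
      |exp (s * x o) * f x - exp (s * cl M (x o)) * cl M (f x)| ≤ M⁻¹ * H o x := by
  have e0 := en_nonneg x
  have r1 : |f x| ≤ 1 + en x := by
    have := hf x 0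
    rw [sub_zero, one_mul] at this
    linarith [abs_sub_abs_le_abs_sub (f x) (f 0)]
  have a1 : |exp (s * x o) * f x| ≤ exp |x o| * (1 + en x) := by
    rw [abs_mul, abs_of_pos (exp_pos _)]
    exact mul_le_mul (exp_le_exp.2 (mul_le_abs hs _)) r1 (abs_nonneg _) (exp_pos _).le
  have a2 : |exp (s * cl M (x o)) * cl M (f x)| ≤ exp |x o| * (1 + en x) := by
    rw [abs_mul, abs_of_pos (exp_pos _)]
    exact mul_le_mul (exp_le_exp.2 ((mul_le_abs hs _).trans (cl_le hM.le _).1))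
      ((cl_le hM.le _).1.trans r1) (abs_nonneg _) (exp_pos _).le
  have a3 : 2 * (exp |x o| * (1 + en x) ^ 2) ≤ H o x := by
    have h1 : exp |x o| ^ 2 ≤ exp (4 * |x o|) := by
      rw [← exp_nat_mul, exp_le_exp]; push_cast; linarith [abs_nonneg (x o)]
    have h2 : ((1 + en x) ^ 2) ^ 2 ≤ 8 + 8 * en x ^ 4 := by
      have : (1 + en x) ^ 2 ≤ 2 * (1 + en x ^ 2) := by nlinarith [sq_nonneg (1 - en x)]
      have := pow_le_pow_left₀ (sq_nonneg _) this 2
      nlinarith [sq_nonneg (1 - en x ^ 2)]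
    rw [H]
    nlinarith [sq_nonneg (exp |x o| - (1 + en x) ^ 2)]
  have p := exp_pos |x o|
  have q : 0 < exp |x o| * (1 + en x) := by positivity
  have a4 : exp |x o| * (1 + en x) ≤ H o x := by nlinarith
  refine ⟨a1.trans a4, a2.trans a4, ?_⟩
  rcases le_or_gt (1 + en x) M with h | h
  · rw [cl_eq (r1.trans h), cl_eq ((abs_le_en x o).trans (by linarith)), sub_self, abs_zero]
    exact mul_nonneg (inv_pos.2 hM).le (q.le.trans a4)
  · rw [← div_eq_inv_mul, le_div_iff₀ hM]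
    have := (abs_sub _ _).trans (add_le_add a1 a2)
    have := mul_le_mul this h.le hM.le (by positivity)
    nlinarith

theorem key (o : L) (C η : ℝ) (hη : 0 < η) : ∃ δ > (0 : ℝ), ∀ (κ Ω : Type) [Fintype κ] [Fintype Ω]
    (w : Ω → ℝ) (ξ : Ω → L → ℝ) (A : Matrix L κ ℝ), Wt w → (mean w fun x => en (ξ x) ^ 4) ≤ C →
    (mean w fun x => exp (4 * |ξ x o|)) ≤ C → f2 A ≤ C →
    (∀ φ, ELip 1 φ → |(mean w fun x => φ (ξ x)) - gm A φ| ≤ δ) → ∀ (s : ℝ) (f : (L → ℝ) → ℝ),
    |s| = 1 → ELip 1 f → |f 0| ≤ 1 →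
    |(mean w fun x => exp (s * ξ x o) * f (ξ x)) - gm A fun x => exp (s * x o) * f x| ≤ η := by
  obtain ⟨B, hB⟩ : ∃ B : ℝ, B = (9 + 8 * Fintype.card L) * (2 * Fintype.card L * exp (8 * C)) :=
    ⟨_, rfl⟩
  have B0 : 0 ≤ B := by rw [hB]; positivity
  obtain ⟨M, hM⟩ : ∃ M : ℝ, M = 2 * (9 * |C| + 8 + B) / η := ⟨_, rfl⟩
  have M0 : 0 < M := by rw [hM]; positivity
  obtain ⟨Λ, hΛ⟩ : ∃ Λ : ℝ, Λ = exp M * (1 + M) := ⟨_, rfl⟩
  have Λ0 : 0 < Λ := by rw [hΛ]; positivity
  refine ⟨η / 2 / Λ, by positivity, fun κ Ω _ _ w ξ A hw h1 h2 hA hδ s f hs hf h0 => ?_⟩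
  have l := ph_lip (o := o) hs M0.le hf
  have l1 := l.const_mul Λ⁻¹
  rw [← hΛ, abs_of_pos (inv_pos.2 Λ0), inv_mul_cancel₀ Λ0.ne'] at l1
  have d := hδ _ l1
  rw [mean_const_mul, gm, integral_const_mul, ← mul_sub, abs_mul, abs_of_pos (inv_pos.2 Λ0),
    ← div_eq_inv_mul, div_le_div_iff_of_pos_right Λ0] at d
  have cf : Continuous fun x : L → ℝ => exp (s * x o) * f x :=
    (by fun_prop : Continuous fun x : L → ℝ => exp (s * x o)).mul hf.continuous
  have K0 : (0 : ℝ) ≤ 9 + 8 * Fintype.card L := by positivity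
  have g1 := gm_bd hA cf K0 fun x => (pt hs M0 hf h0 x).1.trans (H_le o x)
  have g2 := gm_bd hA l.continuous K0 fun x => (pt hs M0 hf h0 x).2.1.trans (H_le o x)
  have g3 := (gm_bd hA (F := fun x => exp (s * x o) * f x - exp (s * cl M (x o)) * cl M (f x))
    (cf.sub l.continuous) (mul_nonneg (inv_pos.2 M0).le K0) fun x =>
    (pt hs M0 hf h0 x).2.2.trans ((mul_le_mul_of_nonneg_left (H_le o x) (inv_pos.2 M0).le).trans_eq
      (mul_assoc _ _ _).symm)).2
  rw [mul_assoc, ← hB, gm, integral_sub g1.1 g2.1] at g3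
  have hH : mean w (fun x => M⁻¹ * H o (ξ x)) ≤ M⁻¹ * (9 * |C| + 8) := by
    rw [mean_const_mul]
    refine mul_le_mul_of_nonneg_left ?_ (inv_pos.2 M0).le
    simp only [H, mean_add, mean_const_mul, hw.mean_const]
    linarith [le_abs_self C]
  have m1 := hw.mean_mono fun x => (abs_le.1 (pt (o := o) hs M0 hf h0 (ξ x)).2.2).1
  have m2 := hw.mean_mono fun x => (abs_le.1 (pt (o := o) hs M0 hf h0 (ξ x)).2.2).2
  rw [mean_sub] at m1 m2
  rw [mean_neg] at m1
  have e : M⁻¹ * (9 * |C| + 8) + M⁻¹ * B = η / 2 := by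
    rw [hM]; field_simp
  rw [gm]
  rw [abs_le] at d g3 ⊢
  constructor <;> linarith [d.1, d.2, g3.1, g3.2]

theorem shift (A : Matrix L κ ℝ) (o : L) (hs : |s| = 1) (f : (L → ℝ) → ℝ) :
    gm A (fun x => exp (s * x o) * f x) = exp ((fun k => A o k) ⬝ᵥ (fun k => A o k) / 2) *
      gm A fun x => f (s • (fun l => (A * Aᵀ) l o) + x) := by
  classical
  have h := cm (s • fun k => A o k) fun z => f (A *ᵥ z)
  have e1 : A *ᵥ (s • fun k => A o k) = s • fun l => (A * Aᵀ) l o := by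
    rw [mulVec_smul]; rfl
  have e2 : s * s = 1 := by rw [← abs_mul_abs_self, hs, one_mul]
  rw [smul_dotProduct, dotProduct_smul, smul_eq_mul, smul_eq_mul, ← mul_assoc, e2, one_mul] at h
  simp only [mulVec_add, e1, dot_row] at h
  rw [gm, gm, h, ← integral_const_mul]
  refine integral_congr_ae (.of_forall fun z => ?_)
  simp only
  rw [← mul_assoc, ← exp_add]
  congr 2; ring

theorem ratio {N N' D g η B : ℝ} (hN : |N - g * N'| ≤ η) (hD : |D - g| ≤ η) (hg : 1 ≤ g)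
    (hη : η ≤ 1 / 2) (hB : |N'| ≤ B) : |N / D - N'| ≤ 2 * η * (1 + B) := by
  have D0 : 1 / 2 ≤ D := by linarith [(abs_le.1 hD).1]
  have η0 := (abs_nonneg _).trans hN
  have B0 := (abs_nonneg _).trans hB
  have e : N / D - N' = (N - g * N' - (D - g) * N') / D := by field_simp; ring
  rw [e, abs_div, abs_of_pos (by linarith : 0 < D), div_le_iff₀ (by linarith)]
  refine (abs_sub _ _).trans ?_
  rw [abs_mul]
  have := mul_le_mul hD hB (abs_nonneg _) η0
  nlinarith [mul_nonneg η0 B0]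

theorem avg {p q a b η : ℝ} (hp : 0 ≤ p) (hq : 0 ≤ q) (h : p + q = 1) (ha : |a| ≤ η) (hb : |b| ≤ η) :
    |p * a + q * b| ≤ η := by
  refine (abs_add_le _ _).trans ?_
  rw [abs_mul, abs_mul, abs_of_nonneg hp, abs_of_nonneg hq]
  have e : p * η + q * η = η := by rw [← add_mul, h, one_mul]
  linarith [mul_le_mul_of_nonneg_left ha hp, mul_le_mul_of_nonneg_left hb hq]

end Ti22

open Ti22

theorem tiltStmt : TiltStmt := by
  intro L _ o C ε hε
  obtain ⟨B, hB⟩ : ∃ B : ℝ, B = (9 + 8 * Fintype.card L) * (2 * Fintype.card L * exp (8 * C)) :=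
    ⟨_, rfl⟩
  have B0 : 0 ≤ B := by rw [hB]; positivity
  obtain ⟨δ, hδ, h⟩ := key o C (min (1 / 2) (ε / (2 * (1 + B)))) (by positivity)
  refine ⟨δ, hδ, fun κ Ω _ _ w ξ A hw h1 h2 hA hd b ψ hψ => ?_⟩
  replace h := h κ Ω w ξ A hw h1 h2 hA hd
  have hs : ∀ σ, |spin σ| = 1 := fun σ => by cases σ <;> simp [spin]
  obtain ⟨g, hg⟩ : ∃ g, g = exp ((fun k => A o k) ⬝ᵥ (fun k => A o k) / 2) := ⟨_, rfl⟩
  have g1 : 1 ≤ g := hg ▸ one_le_exp
    (div_nonneg (Finset.sum_nonneg fun _ _ => mul_self_nonneg _) zero_le_two)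
  have a1 := fun σ => h _ _ (hs σ) (hψ σ).1 (hψ σ).2
  have a2 := fun σ => h _ (fun _ => 1) (hs σ)
    (fun x y => by simpa using en_nonneg (x - y)) (by simp)
  have a3 : ∀ σ, |gm A fun x => ψ σ (spin σ • (fun l => (A * Aᵀ) l o) + x)| ≤ B := fun σ => by
    have := (gm_bd hA (F := fun x => exp (spin σ * x o) * ψ σ x)
      ((by fun_prop : Continuous fun x : L → ℝ => exp (spin σ * x o)).mul
      (hψ σ).1.continuous) (by positivity)
      fun x => (pt (hs σ) one_pos (hψ σ).1 (hψ σ).2 x).1.trans (H_le o x)).2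
    rw [← hB, shift A o (hs σ), ← hg, abs_mul, abs_of_pos (by linarith)] at this
    exact (le_mul_of_one_le_left (abs_nonneg _) g1).trans this
  simp only [shift A o (hs _), ← hg] at a1 a2
  have one : gm A (fun _ => (1 : ℝ)) = 1 := by simp [gm]
  simp only [one, mul_one] at a2
  have c0 : 0 < 2 * cosh b := by positivity
  have p0 : ∀ σ, 0 ≤ hb b σ := fun σ => div_nonneg (exp_pos _).le c0.le
  have p1 : hb b true + hb b false = 1 := by
    rw [hb, hb, ← add_div, div_eq_one_iff_eq c0.ne', cosh_eq]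
    simp only [spin, if_true, Bool.false_eq_true, if_false, one_mul, neg_one_mul]
    ring
  have e : tl w ξ o b ψ = (∑ σ, hb b σ * mean w fun x => exp (spin σ * ξ x o) * ψ σ (ξ x)) /
      ∑ σ, hb b σ * mean w fun x => exp (spin σ * ξ x o) := by
    simp only [tl, hb, div_mul_eq_mul_div, ← Finset.sum_div]
    rw [div_div_div_cancel_right₀ c0.ne']
  rw [e, mdl]
  simp only [Fintype.sum_bool]
  refine (ratio (g := g) ?_ ?_ g1 (min_le_left _ (ε / (2 * (1 + B))))
    (avg (p0 _) (p0 _) p1 (a3 _) (a3 _))).trans ?_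
  · convert avg (p0 _) (p0 _) p1 (a1 true) (a1 false) using 2
    ring
  · convert avg (p0 _) (p0 _) p1 (a2 true) (a2 false) using 2
    linear_combination g * p1
  · have := (le_div_iff₀ (by positivity : 0 < 2 * (1 + B))).1 (min_le_right (1 / 2) (ε / (2 * (1 + B))))
    linarith

end Crest.Agent.T157.S3L

end
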