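import Crest.Agent.T157.NetDef_32
import Crest.Agent.T157.S3Tilt_22

/-!
# Row 157, block B/S3, section 7: integration by parts in the model (helper15)
-/

set_option autoImplicit false
set_option linter.unusedSectionVars false

noncomputable section

namespace Crest.Agent.T157.Nt

open MeasureTheory Matrix Real Set
open Crest.ProbabilityR.SpinGlassDynamics (spin)
open Crest.Agent.T157.S3L (gm mdl hb)
open Crest.Agent.T157.SL (EG Pt Gs)

namespace Ibp15

variable {J L κ : Type} [TopologicalSpace J] [Fintype L] [DecidableEq L] [Fintype κ]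

/-- a function of the class `C0`, read along an affine map -/
theorem eg [DecidableEq κ] {F : Fj J L} (hF : C0 F) (θ : J) (s : Bool) (c : L → ℝ)
    (A : Matrix L κ ℝ) : EG univ fun p : Pt κ => F θ s (c + A *ᵥ p.2) := by
  obtain ⟨h1, k, C, -, h2⟩ := hF
  have h3 : EG univ fun p : Pt L => F θ s p.2 :=
    ⟨((h1 s).comp (f := fun p : Pt L => (θ, p.2)) (by fun_prop)).continuousOn, |C θ|, |k|,
      abs_nonneg _, abs_nonneg _, fun p _ => (h2 θ s p.2).trans (by
        gcongr <;> exact le_abs_self _)⟩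
  let T : (κ → ℝ) →L[ℝ] L → ℝ := LinearMap.toContinuousLinearMap A.mulVecLin
  exact h3.comp (J := univ) (φ := fun p : Pt κ => (p.1, c + T p.2)) (by fun_prop)
    (fun _ _ => trivial) ‖c‖ ‖T‖ fun p _ => (norm_add_le _ _).trans (by gcongr; exact T.le_opNorm _)

theorem int {F : Fj J L} (hF : C0 F) (θ : J) (s : Bool) (c : L → ℝ) (A : Matrix L κ ℝ) :
    Integrable (fun z => F θ s (c + A *ᵥ z)) (Gs κ) := by
  classical
  exact (eg hF θ s c A).int (t := 0) trivial

/-- Gaussian integration by parts -/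
theorem stein {F : Fj J L} (hF : C0 F) (hd : Df F) (hF' : ∀ p, C0 (dx p F)) (θ : J) (s : Bool)
    (c : L → ℝ) (A : Matrix L κ ℝ) (u : L) :
    gm A (fun x => x u * F θ s (c + x)) = ∑ p, (A * Aᵀ) u p * gm A fun x => dx p F θ s (c + x) := by
  classical
  have h1 : ∀ k, ∫ z, z k * F θ s (c + A *ᵥ z) ∂Gs κ =
      ∑ p, A p k * ∫ z, dx p F θ s (c + A *ᵥ z) ∂Gs κ := fun k => by
    rw [SL.stein (eg hF θ s c A) (EG.sum Finset.univ fun p _ => (eg (hF' p) θ s c A).const_mul (A p k))
      (mem_univ 0) k fun y => ?_, integral_finsetSum _ fun p _ => (int (hF' p) θ s c A).const_mul _]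
    · simp only [integral_const_mul]
    let T : (κ → ℝ) →L[ℝ] L → ℝ := LinearMap.toContinuousLinearMap A.mulVecLin
    have h2 := (T.hasFDerivAt.comp_hasDerivAt (y k) (hasDerivAt_update y k (y k))).const_add c
    have h3 := (hd θ s _).hasFDerivAt.comp_hasDerivAt (y k) h2
    refine h3.congr_deriv ?_
    have e : T (Pi.single k 1) = ∑ p, A p k • (Pi.single p 1 : L → ℝ) := by
      ext l
      simp [T, Finset.sum_apply, Pi.single_apply]
    simp only [e, map_sum, map_smul, Function.comp_apply, Function.update_eq_self, smul_eq_mul]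
    rfl
  have h4 : ∀ z : κ → ℝ, (A *ᵥ z) u * F θ s (c + A *ᵥ z) =
      ∑ k, A u k * (z k * F θ s (c + A *ᵥ z)) := fun z => by
    simp only [← mul_assoc, ← Finset.sum_mul]; rfl
  simp only [gm, h4]
  rw [integral_finsetSum _ fun k _ =>
    (((EG.coord k).mul (eg hF θ s c A)).int (t := 0) trivial).const_mul _]
  simp only [integral_const_mul, h1, mul_apply, transpose_apply, Finset.mul_sum, Finset.sum_mul]
  rw [Finset.sum_comm]
  exact Finset.sum_congr rfl fun p _ => Finset.sum_congr rfl fun k _ => by ring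

/-- the centred fields -/
theorem field {F : Fn L} (hF : C0 F) (hd : Df F) (hF' : ∀ p, C0 (dx p F)) (A : Matrix L κ ℝ)
    (o u : L) (b : ℝ) : Eb A o ((co u - (A * Aᵀ) o u • sp) * F) b =
      ∑ p, (A * Aᵀ) u p * Eb A o (dx p F) b := by
  have hS : (A * Aᵀ) o u = (A * Aᵀ) u o := by simp [mul_apply, mul_comm]
  simp only [Eb, mdl, Finset.mul_sum]
  rw [Finset.sum_comm]
  refine Finset.sum_congr rfl fun s _ => ?_
  have := stein hF hd hF' b s (spin s • fun l => (A * Aᵀ) l o) A u
  simp only [mul_left_comm _ (hb b s), ← Finset.mul_sum, ← this]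
  congr 2
  ext x
  simp only [co, sp, hS, Pi.mul_apply, Pi.sub_apply, Pi.smul_apply, Pi.add_apply, smul_eq_mul]
  ring

/-- the spin given the fields -/
theorem spin0 (A : Matrix L κ ℝ) (o : L) (b : ℝ) {G : Fn L} (hG : G b false = G b true) :
    Eb A o ((sp - th o) * G) b = 0 := by
  have h := fun s => S3L.Ti22.shift A o (s := spin s) (by cases s <;> simp [spin])
    (((sp - th o) * G : Fn L) b s)
  have hq := (exp_pos ((fun k => A o k) ⬝ᵥ (fun k => A o k) / 2)).ne'
  refine mul_left_cancel₀ hq ?_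
  simp only [Eb, mdl, Fintype.sum_bool, mul_add, mul_left_comm _ (hb b _), ← h, mul_zero]
  simp only [gm, ← integral_const_mul]
  rw [add_eq_zero_iff_eq_neg, ← integral_neg]
  congr 1
  ext z
  have hc := (cosh_pos (b + (A *ᵥ z) o)).ne'
  have hc' := (cosh_pos b).ne'
  simp only [hb, sp, th, spin, hG, Pi.mul_apply, Pi.sub_apply, tanh_eq_sinh_div_cosh]
  have e1 : exp b * exp ((A *ᵥ z) o) = cosh (b + (A *ᵥ z) o) + sinh (b + (A *ᵥ z) o) := by
    rw [← exp_add, cosh_add_sinh]
  have e2 : exp (-b) * exp (-(A *ᵥ z) o) = cosh (b + (A *ᵥ z) o) - sinh (b + (A *ᵥ z) o) := by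
    rw [← exp_add, cosh_sub_sinh, neg_add]
  norm_num
  field_simp
  linear_combination (G b true (A *ᵥ z) * (cosh (b + (A *ᵥ z) o) - sinh (b + (A *ᵥ z) o))) * e1 -
    (G b true (A *ᵥ z) * (cosh (b + (A *ᵥ z) o) + sinh (b + (A *ᵥ z) o))) * e2

theorem free {G : Fn L} (hG : gs G = 0) (b : ℝ) : G b false = G b true := by
  ext x
  have : (G b true x - G b false x) / 2 = 0 := congrFun (congrFun (congrFun hG b) true) x
  linarith

end Ibp15

open Ibp15

theorem ibpGlue : IbpGlue := fun T L κ _ _ _ A o b => by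
  have D := T.dx ℝ L
  have S := T.ts ℝ L
  have X := T.ex ℝ L κ
  have ht : TS (th o : Fn L) := (T.bs L).ts ((T.bs L).th0 o)
  have sub : ∀ {F G : Fn L}, TS F → TS G → Eb A o (F - G) b = Eb A o F b - Eb A o G b :=
    fun hF hG => by simp only [Eb, X.eq]; exact X.sub A o _ b (S.c0 hF) (S.c0 hG)
  refine ⟨fun u a G ha hG => ?_, fun G hG h0 => ?_, fun al G ha hG h0 => ?_⟩
  · have hH := S.mul ha hG
    have e : dl (A * Aᵀ) o u a * G = (co u - (A * Aᵀ) o u • sp) * (a * G) -
        ∑ p, (A * Aᵀ) u p • (dx p a * G) := by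
      rw [dl, sub_mul, Finset.sum_mul, mul_comm a, mul_assoc]
      simp only [smul_mul_assoc]
    have hs := fun p => S.smul ((A * Aᵀ) u p) (S.mul (S.dx p ha) hG)
    rw [e, sub (S.mul (S.sub (S.co u) (S.smul _ S.sp)) hH) (S.sum _ fun p _ => hs p),
      field (S.c0 hH) (S.df hH) fun p => S.c0 (S.dx p hH)]
    simp only [Eb, X.eq]
    rw [X.sum A o _ _ b fun p _ => S.c0 (hs p), ← Finset.sum_sub_distrib]
    refine Finset.sum_congr rfl fun p _ => ?_
    rw [X.smul, D.mul p (S.df ha) (S.df hG),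
      X.add A o _ b (S.c0 (S.mul (S.dx p ha) hG)) (S.c0 (S.mul ha (S.dx p hG)))]
    ring
  · rw [← sub_eq_zero, ← sub (S.mul S.sp hG) (S.mul ht hG), ← sub_mul]
    exact spin0 A o b (free h0 b)
  · have h1 : TS (1 : Fn L) := S.cb (c := fun _ => 1) continuous_const
    rw [← sub_eq_zero, ← sub (S.mul (S.mul (S.sub S.sp ht) ha) hG)
      (S.mul (S.mul (S.sub h1 (S.pow 2 ht)) ha) (S.gs hG))]
    have e : (sp - th o) * al * G - (1 - th o ^ 2) * al * gs G =
        (sp - th o) * (al * (G - (sp + th o) * gs G)) := by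
      have : (sp : Fn L) * sp = 1 := by ext b s x; cases s <;> simp [sp, spin]
      linear_combination (al * gs G) * this
    rw [e]
    refine spin0 A o b ?_
    ext x
    simp only [Pi.mul_apply, Pi.sub_apply, Pi.add_apply, free h0 b, sp, gs, th, spin]
    norm_num
    left; ring

end Crest.Agent.T157.Nt

end
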