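import Crest.Agent.T157.NetHer_44
import Crest.Agent.T157.NetIbp_15

/-!
# Row 157, block B/S3 section 7 (helper44): averaging keeps bounded smoothness
-/

set_option autoImplicit false
set_option linter.unusedSectionVars false

noncomputable section

namespace Crest.Agent.T157.Nt

open MeasureTheory Matrix Real Set Filter Topology
open Crest.ProbabilityR.SpinGlassDynamics (spin)
open Crest.Agent.T157.S3L (gm mdl)
open Crest.Agent.T157.E (gv)
open Her44 (dir dd_eq)

namespace Av44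

section avg
variable {H Ω : Type} [NormedAddCommGroup H] [NormedSpace ℝ H] [FiniteDimensional ℝ H]
  [TopologicalSpace Ω] [MeasurableSpace Ω] [OpensMeasurableSpace Ω] [SecondCountableTopology Ω]
  {P : Measure Ω}

/-- averaging a bounded `C¹` function over translations, with an integrable weight -/
lemma avg {f : H → ℝ} (hf : ContDiff ℝ 1 f) {C C' : ℝ} (h0 : ∀ p, |f p| ≤ C)
    (h1 : ∀ p, ‖fderiv ℝ f p‖ ≤ C') {c : Ω → H} (hc : Continuous c) {w : Ω → ℝ} (hw : Continuous w)
    (hi : Integrable w P) : ContDiff ℝ 1 (fun p => ∫ ω, w ω * f (p + c ω) ∂P) ∧ ∀ p v,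
      fderiv ℝ (fun p => ∫ ω, w ω * f (p + c ω) ∂P) p v = ∫ ω, w ω * fderiv ℝ f (p + c ω) v ∂P := by
  have c0 := hf.continuous
  have c1 := hf.continuous_fderiv one_ne_zero
  have bF : ∀ p ω, ‖w ω • fderiv ℝ f (p + c ω)‖ ≤ ‖w ω‖ * C' := fun p ω => by
    rw [norm_smul]; exact mul_le_mul_of_nonneg_left (h1 _) (norm_nonneg _)
  have iF : ∀ p, Integrable (fun ω => w ω • fderiv ℝ f (p + c ω)) P := fun p =>
    (hi.norm.mul_const C').mono' (Continuous.aestronglyMeasurable (by fun_prop)) (.of_forall (bF p))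
  have hd : ∀ p, HasFDerivAt (fun p => ∫ ω, w ω * f (p + c ω) ∂P)
      (∫ ω, w ω • fderiv ℝ f (p + c ω) ∂P) p := fun p =>
    hasFDerivAt_integral_of_dominated_of_fderiv_le (s := univ)
      (F' := fun p ω => w ω • fderiv ℝ f (p + c ω)) univ_mem
      (.of_forall fun q => Continuous.aestronglyMeasurable (by fun_prop))
      (hi.mul_bdd (Continuous.aestronglyMeasurable (by fun_prop)) (.of_forall fun ω => h0 _))
      (iF p).1 (.of_forall fun ω q _ => bF q ω) (hi.norm.mul_const C')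
      (.of_forall fun ω q _ => ((hasFDerivAt_comp_add_right (c ω)).2
        (hf.differentiable one_ne_zero (q + c ω)).hasFDerivAt).const_mul (w ω))
  refine ⟨contDiff_one_iff_fderiv.2 ⟨fun p => (hd p).differentiableAt, ?_⟩, fun p v => ?_⟩
  · rw [funext fun p => (hd p).fderiv]
    exact continuous_of_dominated (fun p => (iF p).1) (fun p => .of_forall (bF p))
      (hi.norm.mul_const C') (.of_forall fun ω => by fun_prop)
  · rw [(hd p).fderiv, ContinuousLinearMap.integral_apply (iF p)]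
    rfl

end avg

variable {L κ : Type} [Fintype L] [DecidableEq L] [Fintype κ] {A : Matrix L κ ℝ} {o : L}

/-- exponential weights -/
def ew (o : L) (a : ℝ) : Fn L := fun _ _ x => exp (a * x o)

lemma c0_ew (a : ℝ) : C0 (ew o a) := ⟨fun _ => by unfold ew; fun_prop, |a|, 1, continuous_const,
  fun _ _ x => by
    rw [ew, abs_exp, Pi.one_apply, one_mul]
    exact exp_le_exp.2 ((le_abs_self _).trans (abs_mul a _ ▸
      mul_le_mul_of_nonneg_left (norm_le_pi_norm x o) (abs_nonneg a)))⟩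

lemma intE (h : BsApi L) {F : Fn L} (hF : BS F) (a b : ℝ) (s : Bool) (c : L → ℝ) :
    Integrable (fun z => (ew o a * F) b s (c + A *ᵥ z)) (gv κ) := by
  obtain ⟨C, hC⟩ := h.bd hF
  have := Her44.cont h hF b s
  exact (Ibp15.int (c0_ew a) b s c A).mul_bdd (Continuous.aestronglyMeasurable (by fun_prop))
    (.of_forall fun z => hC _ _ _)

lemma cx_b1 (h : BsApi L) {F : Fn L} (hF : BS F) (a : ℝ) : B1 (cx A o (ew o a * F)) ∧
    ∀ i, ∃ G, BS G ∧ dd i (cx A o (ew o a * F)) = cx A o (ew o a * G) := by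
  obtain ⟨C, hC⟩ := h.bd hF
  have key : ∀ s, ContDiff ℝ 1 (fun b => cx A o (ew o a * F) b s 0) ∧
      ∀ b, deriv (fun b => cx A o (ew o a * F) b s 0) b = cx A o (ew o a * db F) b s 0 := fun s => by
    obtain ⟨h1, C', hC'⟩ := h.iter hF 1 s
    obtain ⟨k1, k2⟩ := avg (P := gv κ) (f := fun p : ℝ × (L → ℝ) => F p.1 s p.2) h1
      (fun p => hC p.1 s p.2) (fun p => (norm_iteratedFDeriv_one (𝕜 := ℝ) _).ge.trans (hC' p))
      (c := fun z => ((0 : ℝ), spin s • (fun l => (A * Aᵀ) l o) + A *ᵥ z)) (by fun_prop)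
      (w := fun z => ew o a 0 s (spin s • (fun l => (A * Aᵀ) l o) + A *ᵥ z)) (by unfold ew; fun_prop)
      (Ibp15.int (c0_ew a) 0 s _ A)
    have d1 := fun b => ((k1.differentiable one_ne_zero (b, 0)).hasFDerivAt.comp_hasDerivAt b
      ((hasDerivAt_id b).prodMk (hasDerivAt_const b (0 : L → ℝ)))).deriv.trans (k2 _ _)
    replace k1 := k1.comp (f := fun b : ℝ => (b, (0 : L → ℝ))) (by fun_prop)
    simp only [Function.comp_def, Prod.mk_add_mk, add_zero, zero_add, id] at k1 d1
    refine ⟨k1, fun b => (d1 b).trans (integral_congr_ae (.of_forall fun z => ?_))⟩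
    exact congrArg _ (dd_eq (F := F) (hF []) none _ _ _).symm
  refine ⟨⟨fun s => (key s).1.comp contDiff_fst, ∑ s, C * ∫ z, ew o a 0 s
    (spin s • (fun l => (A * Aᵀ) l o) + A *ᵥ z) ∂gv κ, fun b s x => le_trans ?_
      (Finset.single_le_sum (fun s _ => mul_nonneg ((abs_nonneg _).trans (hC 0 s 0))
        (integral_nonneg fun _ => (exp_pos _).le)) (Finset.mem_univ s))⟩, fun i => ?_⟩
  · rw [← integral_const_mul]
    refine norm_integral_le_of_norm_le (f := fun z => (ew o a * F) b s (_ + A *ᵥ z))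
      ((Ibp15.int (c0_ew (o := o) a) 0 s _ A).const_mul C) (.of_forall fun z => ?_)
    simp only [Pi.mul_apply, norm_mul, ew, norm_eq_abs, abs_exp]
    rw [mul_comm]
    exact mul_le_mul_of_nonneg_right (hC _ _ _) (exp_pos _).le
  · cases i with
    | none => exact ⟨db F, h.db hF, funext fun b => funext fun s => funext fun _ => (key s).2 b⟩
    | some l => exact ⟨fun _ _ _ => 0, h.const 0, funext fun b => funext fun s => funext fun _ => by
        change fderiv ℝ (fun _ => cx A o (ew o a * F) b s 0) _ _ = _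
        simp [cx, gm]⟩

theorem bs_cx (h : BsApi L) {F : Fn L} (hF : BS F) (a : ℝ) : BS (cx A o (ew o a * F)) := fun l => by
  induction l generalizing F with
  | nil => exact (cx_b1 h hF a).1
  | cons i l ih =>
    obtain ⟨G, hG, e⟩ := (cx_b1 (A := A) (o := o) h hF a).2 i
    rw [List.foldl_cons, e]
    exact ih hG

theorem Eb_eq (T : Tl) (F : Fn L) (b : ℝ) : Eb A o F b =
    (cx A o F b true 0 + cx A o F b false 0) / 2 + tanh b * gs (cx A o F) b true 0 := by
  rw [Eb, (T.ex ℝ L κ).eq]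
  simp only [mE, cx, gs, Fintype.sum_bool, spin, if_true, Bool.false_eq_true, if_false]
  ring

theorem bs_Eb (T : Tl) {F : Fn L} (hF : BS (cx A o F)) : BS (cb (Eb A o F) : Fn L) := by
  have h := T.bs L
  convert h.add (h.sub hF (h.mul h.sp (h.gs hF))) (h.mul (h.th 0) (h.gs hF)) using 1
  funext b s x
  rw [cb, Eb_eq T]
  cases s <;> simp [gs, sp, spin, cx] <;> ring

lemma wm_eq (T : Tl) (b x : ℝ) : wm (tanh b) x = exp (2 * x) * ((1 - tanh (b + x)) ^ 2 / 4) +
    exp (0 * x) * ((1 - tanh (b + x) ^ 2) / 2) + exp (-2 * x) * ((1 + tanh (b + x)) ^ 2 / 4) := by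
  have h1 := abs_lt.1 (abs_tanh_lt_one x)
  have h2 := abs_lt.1 (abs_tanh_lt_one b)
  have h3 : exp (2 * x) = (1 + tanh x) / (1 - tanh x) := by
    have := (cosh_pos x).ne'
    rw [eq_div_iff (by linarith), tanh_eq_sinh_div_cosh, two_mul, exp_add]
    field_simp
    rw [cosh_sub_sinh, cosh_add_sinh, sq, mul_assoc, ← exp_add, add_neg_cancel, exp_zero, mul_one]
  have h4 : 1 + tanh b * tanh x ≠ 0 := by nlinarith
  have h7 : 1 + tanh x * tanh b ≠ 0 := mul_comm (tanh b) _ ▸ h4
  have h5 : 1 - tanh x ≠ 0 := by linarith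
  have h6 : 1 + tanh x ≠ 0 := by linarith
  rw [neg_mul, exp_neg, h3, zero_mul, exp_zero, ← (T.ts ℝ Unit).tm_eq, wm, tm]
  field_simp
  ring

end Av44

open Av44

theorem avGlue : AvGlue := fun T L κ _ _ _ A o F hF => by
  have h := T.bs L
  have h0 : BS (cx A o F) := by
    convert bs_cx (A := A) (o := o) h hF 0 using 2
    funext b s x; simp [ew]
  refine ⟨h0, bs_Eb T h0, bs_Eb T ?_, Eb_eq T F⟩
  have t := h.th0 o
  have b1 := h.mul (h.smul (1 / 4) (h.pow 2 (h.sub (h.const 1) t))) hF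
  have b2 := h.mul (h.smul (1 / 2) (h.sub (h.const 1) (h.pow 2 t))) hF
  have b3 := h.mul (h.smul (1 / 4) (h.pow 2 (h.add (h.const 1) t))) hF
  convert h.add (h.add (bs_cx (A := A) (o := o) h b1 2) (bs_cx (A := A) (o := o) h b2 0))
    (bs_cx (A := A) (o := o) h b3 (-2)) using 1
  funext b s x
  simp only [Pi.add_apply, cx, gm]
  rw [← integral_add (intE h b1 _ _ _ _) (intE h b2 _ _ _ _)]
  refine .trans (integral_congr_ae (.of_forall fun z => ?_))
    (integral_add ((intE h b1 _ _ _ _).add (intE h b2 _ _ _ _)) (intE h b3 _ _ _ _))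
  simp only [wm_eq T, ew, th, Pi.mul_apply, Pi.add_apply, Pi.sub_apply, Pi.smul_apply, Pi.pow_apply,
    smul_eq_mul]
  ring

end Crest.Agent.T157.Nt

end
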