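import Crest.Agent.T157.NetDef_32

/-!
# Row 157, block B/S3, section 7 (helper32): the top family with the weighted energy bound
-/

set_option autoImplicit false

noncomputable section

namespace Crest.Agent.T157.Nt

open MeasureTheory Matrix Real Set Filter Topology
open Crest.Agent.T157.Tw (sech2 Out2 Cls PV lam)

/-- `Top` and the energy bound with the weight `sech² b + e` -/
def Net.TopW {n : ℕ} (N : Net n) (l a e : ℝ) (al0 : ℝ → ℝ) (ψ : Fn (Ix n)) (m : Ix n → Fn (Ix n))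
    (ρ : ℝ → ℝ) : Prop :=
  N.Top l a e al0 ψ m ρ ∧ ∀ b, N.Q ψ b ≤ (8 / (l - a) ^ 2 + 2) * (sech2 b + e)

def TopStmtW : Prop := ∀ β > (0 : ℝ), ∀ (ν : Measure ℝ) [IsProbabilityMeasure ν] (n : ℕ) (N : Net n)
    (e : Tw.Ext) (D : ℕ) (l a ε : ℝ) Ξ al0, 0 ≤ a → a < l → 0 < ε → Sim β ν N e _ id →
  Out2 e D l a ε Ξ al0 → (∀ ξ, Tw.Mf e.b ξ 1 (Ξ ξ) ≤ 4 / (l - a) ^ 2 * (sech2 ξ + ε)) →
  ∃ (n' : ℕ) (N' : Net n') (ι : Ix n → Ix n'),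
    N'.Ok β ν ∧ N.Ext N' ι ∧ ∃ ψ m ρ, N'.TopW l a (2 * ε) al0 ψ m ρ

/-- **NetStmt** with the weighted energy bound -/
def NetStmtW : Prop := ∀ 𝒞 : Cls, (∀ m, 𝒞.C m = PV m) → ∀ β : ℝ, 0 < β → β < 1 →
  ∀ a ∈ Ico 0 (lam 𝒞 β), ∀ (ν : Measure ℝ) [IsProbabilityMeasure ν],
  ∃ (γ : ℝ → ℝ) (h : ℝ), Continuous γ ∧ (∀ b, γ (-b) = γ b ∧ sech2 b ≤ γ b ∧
      β * γ b ≤ sech2 b * (1 - β * (lam 𝒞 β - a))) ∧ β ^ 2 * ∫ b, γ b ∂ν ≤ h ∧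
    ∀ e > (0 : ℝ), ∀ (n : ℕ) (N : Net n), N.Ok β ν → ∃ (n' : ℕ) (N' : Net n') (ι : Ix n → Ix n'),
      N'.Ok β ν ∧ N.Ext N' ι ∧ ∃ ψ m ρ, N'.TopW (lam 𝒞 β) a e (fun b => 1 / γ b + h) ψ m ρ

def TopGlueW : Prop := Tl → Tw.FamApi → AvStmt → CutStmt → DictStmt → FactStmt → TopStmtW

theorem NetStmtW.net (h : NetStmtW) : NetStmt := fun 𝒞 h𝒞 β h0 h1 a ha ν _ => by
  obtain ⟨γ, k, c1, c2, c3, H⟩ := h 𝒞 h𝒞 β h0 h1 a ha ν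
  refine ⟨γ, k, c1, c2, c3, fun e he n N hN => ?_⟩
  obtain ⟨n', N', ι, o, x, ψ, m, ρ, t⟩ := H e he n N hN
  exact ⟨n', N', ι, o, x, ψ, m, ρ, t.1⟩

end Crest.Agent.T157.Nt

end
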