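import Crest.Agent.T157.NetDef_32
import Crest.Agent.T157.LcCal_52
import Crest.Agent.T157.S3Clt_58

/-!
# Row 157, block B/S3, section 7 (helper89): the dictionary and the first level
-/

set_option autoImplicit false
set_option linter.unusedSectionVars false

noncomputable section

namespace Crest.Agent.T157.Nt

open MeasureTheory ProbabilityTheory Matrix Real Set Filter Topology
open Crest.ProbabilityR.SpinGlassDynamics (spin)
open Crest.Agent.R238.Gap Crest.Agent.R253.Meh74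
open Crest.Agent.T157.S3L (gm mdl)
open Crest.Agent.T157.Tw (sech2 Bath SV TwL admStmt Cls okStmt cal sS tS exS imS imp lev BM)

namespace Dict89

lemma tm_eq (b x : ℝ) : tm (tanh b) x = tanh (b + x) := by
  have h1 := cosh_pos b
  have h2 := cosh_pos x
  have h3 := cosh_pos (b + x)
  rw [cosh_add] at h3
  simp only [tm, tanh_eq_sinh_div_cosh, sinh_add, cosh_add]
  field_simp

lemma hb_eq (h : ℝ) (s : Bool) : Tw.hb h s = (1 + spin s * tanh h) / 2 := S3L.Clt58.hb_eq h s

variable {K : Type} [Fintype K] {m : ℕ}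

/-- the read-out as a continuous linear map -/
def rd (V : Matrix K (Fin m) ℝ) : E m →L[ℝ] K → ℝ :=
  LinearMap.toContinuousLinearMap (V.mulVecLin ∘ₗ (WithLp.linearEquiv 2 ℝ (Fin m → ℝ)).toLinearMap)

lemma rd_apply (V : Matrix K (Fin m) ℝ) (X : E m) : rd V X = V *ᵥ X.ofLp := rfl

lemma sech2_pos (ξ : ℝ) : 0 < sech2 ξ := by
  have := cosh_pos ξ
  unfold sech2
  positivity

lemma bm_sech2 : BM sech2 := by
  have := (admStmt Bath.nil (Tw.sp _) (Tw.sp _)).1
  simpa only [(okStmt _ _).2.1] using this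

variable (ν : Measure ℝ) [IsProbabilityMeasure ν]

/-- the mean of `sech²` -/
def pbar : ℝ := ∫ b, sech2 b ∂ν

lemma pbar_pos : 0 < pbar ν :=
  (integral_pos_iff_support_of_nonneg (fun b => (sech2_pos b).le) (bm_sech2.int ν)).2 (by
    rw [eq_univ_of_forall (s := Function.support sech2) fun b => (sech2_pos b).ne']
    simp)

/-- the mean energy of the spin -/
def kap (b : Bath) : ℝ := ∫ ξ, (imp b ξ).En (Tw.sp _) (Tw.sp _) ∂ν

/-- the bath of the spin -/
def nx (b : Bath) : Bath := ⟨1, (kap ν b / pbar ν) • 1, fun _ => √(pbar ν),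
  PosSemidef.one.smul (div_nonneg (integral_nonneg fun ξ => (okStmt b ξ).1.pE _) (pbar_pos ν).le)⟩

lemma tw_nx {𝒞 : Cls} {β : ℝ} {b : Bath} (h : TwL admStmt 𝒞 β b) :
    TwL admStmt 𝒞 β ((nx ν b).scale β) := by
  have p0 := pbar_pos ν
  have q0 := sqrt_pos.2 p0
  have q1 := mul_self_sqrt p0.le
  have n1 : (lev admStmt 𝒞 ν b).N (lev admStmt 𝒞 ν b).σ (lev admStmt 𝒞 ν b).σ = pbar ν := by
    change ∫ ξ, (imp b ξ).N (Tw.sp _) (Tw.sp _) ∂ν = _
    simp only [(okStmt _ _).2.1, pbar]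
  have n2 : (lev admStmt 𝒞 ν b).En (lev admStmt 𝒞 ν b).σ (lev admStmt 𝒞 ν b).σ = kap ν b := rfl
  refine h.step ν (f := fun _ => (√(pbar ν))⁻¹ • (lev admStmt 𝒞 ν b).σ)
    ⟨fun (k l : Fin 1) => ?_, fun (k l : Fin 1) => ?_, fun _ => ?_⟩
  · refine Eq.trans ?_ (if_pos (Subsingleton.elim k l)).symm
    simp only [map_smul, LinearMap.smul_apply, smul_eq_mul, n1]
    field_simp
    linarith
  · obtain rfl := Subsingleton.elim k l
    simp only [map_smul, LinearMap.smul_apply, smul_eq_mul, n2, nx, Matrix.smul_apply, one_apply_eq]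
    field_simp
    rw [sq, q1, mul_comm]
  · simp only [map_smul, smul_eq_mul, n1, nx]
    field_simp
    linarith

lemma en_ss (b : Bath) (ξ : ℝ) : (imp b ξ).En (Tw.sp _) (Tw.sp _) = exS b ξ (1 - tS b ξ ^ 2) := by
  have h := cal.psi_ex b ξ (sS _)
  have e : Tw.psi b ξ (sS _) = 1 - tS b ξ ^ 2 := by
    simp only [Tw.psi, LinearMap.comp_apply, LinearMap.sub_apply, LinearMap.id_apply,
      AlgHom.toLinearMap_apply, cal.fls, LinearMap.mul_apply', sub_neg_eq_add, smul_mul_assoc,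
      mul_assoc, mul_add, cal.ss, mul_one]
    module
  rw [e] at h
  exact h.symm

lemma ext_id {n : ℕ} (N : Net n) : N.Ext N id :=
  ⟨strictMono_id, rfl, fun _ => rfl, fun _ => rfl, fun _ _ => rfl, fun _ u h => absurd ⟨u, rfl⟩ h,
    fun _ => Iff.rfl, rfl, rfl, by rw [Sum.map_id_id]; rfl⟩

lemma quad {R L : Type} [Fintype L] [DecidableEq L] {M : Matrix R L ℝ} (Q : Matrix L L ℝ) {o : L}
    {r : R → ℝ} (h : ∀ i, M i = Pi.single o (r i)) : M * Q * Mᵀ = of fun i j => r i * Q o o * r j := by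
  ext i j
  simp [mul_apply, h, Pi.single_apply]

/-- the trivial extension -/
def e0 (b : Bath) : Tw.Ext := ⟨b, b, 1, by simp, by simp, by simp⟩

end Dict89

open Dict89

theorem dictStmt : DictStmt := by
  intro K _ _ c V o hV
  refine ⟨fun κ _ A b G F hA hG h => ?_, fun G F k hG h s X => ?_, fun b s X => ?_⟩
  · change ∑ σ, _ = ∑ σ, Tw.hb b σ * ∫ z, F.1 σ (z + Tw.sg σ • c.v) ∂gam c.m
    refine Finset.sum_congr rfl fun σ _ => ?_
    have hc : Continuous fun z : E c.m => F.1 σ (z + Tw.sg σ • c.v) :=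
      (F.2 σ).c1.cont.comp (by fun_prop)
    rw [hb_eq, gm, S3L.Clt58.int_congr hA
      (F := fun x => G σ (spin σ • (fun l => (A * Aᵀ) l o) + x)) ((hG σ).comp (by fun_prop)).measurable,
      gam, ← map_pi_eq_stdGaussian, integral_map (by fun_prop) hc.aestronglyMeasurable]
    congr 2
    funext z
    have e : (fun l => (A * Aᵀ) l o) = V *ᵥ c.g := by
      funext l; rw [hA, ← hV]; rfl
    rw [e, ← mulVec_smul, ← mulVec_add, h, add_comm]
    rfl
  · have e : F.1 s = G s ∘ rd V := funext fun X' => (h s X'.ofLp).symm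
    change _ = fderiv ℝ (F.1 s) (WithLp.toLp 2 X) (Crest.Agent.R238.Gap.e k)
    rw [e, fderiv_comp _ (hG s _) (rd V).differentiableAt, (rd V).fderiv,
      ContinuousLinearMap.comp_apply]
    have e2 : rd V (Crest.Agent.R238.Gap.e k) = ∑ y, V y k • Pi.single y 1 := by
      ext y; simp [rd_apply, Finset.sum_apply, Pi.single_apply]
    rw [e2, map_sum]
    simp only [map_smul, smul_eq_mul]
    rfl
  · change tm (tanh b) ((V *ᵥ X) o) = tanh (b + inner ℝ c.v (WithLp.toLp 2 X))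
    rw [tm_eq, mulVec, hV]
    simp [Bath.v, PiLp.inner_apply, dotProduct, mul_comm]

theorem baseGlue : BaseGlue := by
  intro tl _ hd hf _ 𝒞 β hβ ν _
  set c : Bath := (nx ν Bath.nil).scale β with hc
  refine ⟨e0 ((nx ν c).scale β), tw_nx ν (tw_nx ν (.base .nil)), fun n N hN => ?_⟩
  have p0 := pbar_pos ν
  have q0 := sqrt_pos.2 p0
  have q1 := mul_self_sqrt p0.le
  have s0 : N.S 0 0 = β ^ 2 * pbar ν := (hf β ν n N hN).2.2.2
  have d0 : N.PD 0 0 = β ^ 2 * kap ν c := by
    have e1 : gs (sp : Fn (Ix n)) = 1 := by funext b s x; simp [gs, sp, spin]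
    rw [hN.hD, pair, hN.f0, e1]
    simp only [(tl.dx ℝ (Ix n)).sp, mul_zero, one_mul, mul_one, Ev, Eb, mdl, gm, Pi.zero_apply,
      integral_zero, Finset.sum_const_zero, zero_mul, add_zero]
    congr 2
    funext ξ
    rw [en_ss]
    have h1 := hd Unit c (of fun _ => c.g) () rfl
    rw [← h1.1 (Fin c.m) (of fun _ => c.g) ξ (fun _ x => 1 - tanh (ξ + x ()) ^ 2) _ rfl
      (fun _ => by have := Tw.contDiff_tanh'.continuous; fun_prop) (fun s X => by
        have := h1.2.2 ξ s X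
        beta_reduce at this ⊢
        rw [← tm_eq, this]; rfl),
      ← (tl.ex ℝ (Ix n) (Ix n)).pb N.A (of fun _ => c.g) (of fun _ => Pi.single 0 1) 0 () (tanh ξ) _ ?_
        rfl (fun _ => by have := Tw.contDiff_tanh'.continuous; fun_prop),
      ← (tl.ex ℝ (Ix n) (Ix n)).eq]
    · simp [mdl, gm, Net.D, th, mulVec]
    · refine Eq.trans ?_ (quad (r := fun _ => 1) (o := 0) _ fun _ => rfl).symm
      ext i j
      change ∑ _k : Fin 1, β * √(pbar ν) * (β * √(pbar ν)) = 1 * N.S 0 0 * 1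
      rw [s0, Fin.sum_univ_one]
      linear_combination β ^ 2 * q1
  obtain ⟨r, h1, h2⟩ : ∃ r : Rw 1 Empty → ℝ,
      (∀ i, Mm (of fun _ : Fin 1 => Pi.single 0 (√(pbar ν))⁻¹) (Empty.elim : Empty → Ix n) i =
        Pi.single 0 (r i)) ∧ ∀ i, Vm β (e0 ((nx ν c).scale β)) Empty.elim i =
        Pi.single (0 : Fin 1) (β * √(pbar ν) * r i) := by
    refine ⟨fun i => i.elim 1 fun _ => (√(pbar ν))⁻¹, ?_, ?_⟩
    · rintro (_ | k | t)
      exacts [rfl, rfl, t.elim]
    · rintro (_ | k | t)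
      · refine funext fun (l : Fin 1) => ?_
        obtain rfl := Subsingleton.elim 0 l
        exact (mul_one _).symm
      · obtain rfl := Subsingleton.elim (α := Fin 1) 0 k
        exact congrArg (Pi.single (0 : Fin 1)) (mul_inv_cancel_right₀ q0.ne' β).symm
      · exact t.elim
  refine ⟨n, id, of fun _ : Fin 1 => Pi.single 0 (√(pbar ν))⁻¹, Empty.elim, _, fun _ => N,
    fun _ => ⟨hN, ext_id N, fun t => t.elim⟩, ?_, ?_, tendsto_const_nhds, fun t => t.elim⟩
  · refine tendsto_const_nhds.congr fun _ => ?_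
    refine ((congrArg (· * _) (Matrix.mul_one _).symm).trans (quad 1 h2)).trans
      (Eq.trans ?_ (quad N.S h1).symm)
    ext i j
    change β * √(pbar ν) * r i * 1 * (β * √(pbar ν) * r j) = r i * N.S 0 0 * r j
    rw [s0]
    linear_combination (β ^ 2 * r i * r j) * q1
  · refine tendsto_const_nhds.congr fun _ => ?_
    refine (quad _ h2).trans (Eq.trans ?_ (quad N.PD h1).symm)
    ext i j
    change β * √(pbar ν) * r i * (kap ν c / pbar ν * 1) * (β * √(pbar ν) * r j) = r i * N.PD 0 0 * r j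
    rw [d0]
    field_simp
    rw [sq_sqrt p0.le]
    ring

end Crest.Agent.T157.Nt
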