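import Crest.Agent.T157.NetDef_32
import Crest.Agent.T157.S3Clt_58

/-!
# Row 157, block B/S3, networks: the leaves `ExStmt` and `GcStmt` (helper13)
-/

set_option autoImplicit false
set_option linter.unusedSectionVars false

noncomputable section

namespace Crest.Agent.T157.Nt

open MeasureTheory ProbabilityTheory Matrix Real Set Filter Topology
open Crest.ProbabilityR.SpinGlassDynamics (spin)
open Crest.Agent.T157.E (gv)
open Crest.Agent.T157.S3L (gm mdl)
open Crest.Agent.T157.S3L.Clt58 (int_exp_abs int_congr hb_eq cont_mv)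

namespace Ex13

variable {J L κ : Type} [Fintype L] [Fintype κ]

lemma int_exp_norm (t : ℝ) : Integrable (fun z : κ → ℝ => exp (t * ‖z‖)) (gv κ) := by
  classical
  have i1 : Integrable (fun z : κ → ℝ => 1 + ∑ i, exp (|t| * |(Pi.single i 1 : κ → ℝ) ⬝ᵥ z|))
      (gv κ) := (integrable_const _).add (integrable_finsetSum _ fun i _ => int_exp_abs _ _)
  refine i1.mono' (by fun_prop) (.of_forall fun z => ?_)
  rw [Real.norm_eq_abs, abs_of_pos (exp_pos _)]
  simp only [single_dotProduct, one_mul]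
  have s0 : 0 ≤ ∑ i, exp (|t| * |z i|) := Finset.sum_nonneg fun _ _ => (exp_pos _).le
  rcases isEmpty_or_nonempty κ with h | h
  · rw [Subsingleton.elim z 0, norm_zero, mul_zero, exp_zero]
    simp
  · obtain ⟨i, hi⟩ := Finite.exists_max fun i => |z i|
    have h1 : ‖z‖ ≤ |z i| := (pi_norm_le_iff_of_nonneg (abs_nonneg _)).2 hi
    have h2 : exp (t * ‖z‖) ≤ exp (|t| * |z i|) :=
      exp_le_exp.2 (mul_le_mul (le_abs_self t) h1 (norm_nonneg _) (abs_nonneg _))
    have h3 := Finset.single_le_sum (f := fun i => exp (|t| * |z i|))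
      (fun _ _ => (exp_pos _).le) (Finset.mem_univ i)
    linarith

/-- entrywise `ℓ¹` norm -/
def l1 (A : Matrix L κ ℝ) : ℝ := ∑ l, ∑ k, |A l k|

lemma l1_nonneg (A : Matrix L κ ℝ) : 0 ≤ l1 A :=
  Finset.sum_nonneg fun _ _ => Finset.sum_nonneg fun _ _ => abs_nonneg _

lemma mv_le (A : Matrix L κ ℝ) (z : κ → ℝ) : ‖A *ᵥ z‖ ≤ l1 A * ‖z‖ := by
  refine (pi_norm_le_iff_of_nonneg (mul_nonneg (l1_nonneg A) (norm_nonneg _))).2 fun l => ?_
  refine le_trans ?_ (mul_le_mul_of_nonneg_right (Finset.single_le_sum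
    (f := fun l => ∑ k, |A l k|) (fun _ _ => Finset.sum_nonneg fun _ _ => abs_nonneg _)
    (Finset.mem_univ l)) (norm_nonneg z))
  rw [Finset.sum_mul]
  refine (Finset.abs_sum_le_sum_abs _ _).trans (Finset.sum_le_sum fun k _ => ?_)
  rw [abs_mul]
  exact mul_le_mul_of_nonneg_left (norm_le_pi_norm z k) (abs_nonneg _)

lemma bd {φ : (L → ℝ) → ℝ} {C k : ℝ} (h : ∀ x, |φ x| ≤ C * exp (k * ‖x‖)) (c : L → ℝ)
    (A : Matrix L κ ℝ) (z : κ → ℝ) :
    |φ (c + A *ᵥ z)| ≤ |C| * exp (|k| * ‖c‖) * exp (|k| * l1 A * ‖z‖) := by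
  refine (h _).trans ?_
  rw [mul_assoc, ← exp_add]
  refine mul_le_mul (le_abs_self C) (exp_le_exp.2 ?_) (exp_pos _).le (abs_nonneg _)
  rw [mul_assoc, ← mul_add]
  exact mul_le_mul (le_abs_self k) ((norm_add_le _ _).trans (add_le_add le_rfl (mv_le A z)))
    (norm_nonneg _) (abs_nonneg _)

lemma int_of {φ : (L → ℝ) → ℝ} (hc : Continuous φ) {C k : ℝ}
    (h : ∀ x, |φ x| ≤ C * exp (k * ‖x‖)) (c : L → ℝ) (A : Matrix L κ ℝ) :
    Integrable (fun z => φ (c + A *ᵥ z)) (gv κ) :=
  ((int_exp_norm (|k| * l1 A)).const_mul _).mono'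
    (hc.comp (continuous_const.add (cont_mv A))).aestronglyMeasurable (.of_forall (bd h c A))

lemma int_C0 [TopologicalSpace J] {F : Fj J L} (hF : C0 F) (θ : J) (s : Bool) (c : L → ℝ)
    (A : Matrix L κ ℝ) : Integrable (fun z => F θ s (c + A *ᵥ z)) (gv κ) := by
  obtain ⟨h1, k, C, -, h2⟩ := hF
  exact int_of ((h1 s).comp (Continuous.prodMk_right θ)) (h2 θ s) c A

lemma w_nonneg {m : ℝ} (hm : |m| ≤ 1) (σ : Bool) : 0 ≤ (1 + spin σ * m) / 2 := by
  have := abs_le.1 hm
  cases σ <;> simp [spin] <;> linarith [this.1, this.2]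

lemma gm_neg (A : Matrix L κ ℝ) (φ : (L → ℝ) → ℝ) : gm A (fun x => φ (-x)) = gm A φ := by
  unfold gm
  have h : (gv κ).IsNegInvariant := by
    have : (gaussianReal 0 1).IsNegInvariant :=
      ⟨by simpa [Measure.neg] using gaussianReal_map_neg (μ := 0) (v := 1)⟩
    infer_instance
  rw [← integral_neg_eq_self (fun z => φ (A *ᵥ z)) (gv κ)]
  simp only [mulVec_neg]

lemma int_dot_sq (a : κ → ℝ) : ∫ z, (a ⬝ᵥ z) ^ 2 ∂gv κ = a ⬝ᵥ a := by
  have a0 : 0 ≤ a ⬝ᵥ a := S3L.Clt58.dnn a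
  have h := int_congr (A := (of fun (_ : Unit) k => a k : Matrix Unit κ ℝ))
    (B := (of fun _ _ => √(a ⬝ᵥ a) : Matrix Unit Unit ℝ)) (F := fun x => x () ^ 2) (by
      ext i j
      simp only [mul_apply, of_apply, transpose_apply, Finset.univ_unique, Finset.sum_singleton,
        mul_self_sqrt a0]
      rfl) (by fun_prop)
  refine Eq.trans h ?_
  have e : ∀ z : Unit → ℝ, ((of fun _ _ => √(a ⬝ᵥ a) : Matrix Unit Unit ℝ) *ᵥ z) () ^ 2 =
      a ⬝ᵥ a * z () ^ 2 := fun z => by
    simp [mulVec, dotProduct, mul_pow, sq_sqrt (show 0 ≤ ∑ i, a i * a i from a0)]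
  simp only [e, integral_const_mul]
  have mp := measurePreserving_eval (fun _ : Unit => gaussianReal 0 1) ()
  have h2 := Conc.sq_entry false
  change ∫ x, x ^ 2 ∂gaussianReal 0 1 = 1 at h2
  rw [← mp.map_eq, integral_map mp.measurable.aemeasurable (by fun_prop)] at h2
  rw [show ∫ z : Unit → ℝ, z () ^ 2 ∂gv Unit = 1 from h2, mul_one]

lemma mE_eq (A : Matrix L κ ℝ) (o : L) (b : ℝ) (ψ : Bool → (L → ℝ) → ℝ) :
    mdl A o b ψ = mE A o (tanh b) ψ := by
  simp only [mdl, mE, hb_eq]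

lemma cont_mE [TopologicalSpace J] [FirstCountableTopology J] (o : L) {A : J → Matrix L κ ℝ}
    {m : J → ℝ} {F : Fj J L} (hA : Continuous A) (hm : Continuous m) (hF : C0 F) :
    Continuous fun θ => mE (A θ) o (m θ) (F θ) := by
  refine continuous_finsetSum _ fun σ _ => Continuous.mul (by fun_prop) ?_
  obtain ⟨h1, k, C, hC, h2⟩ := hF
  have cu : Continuous fun θ => spin σ • fun l => (A θ * (A θ)ᵀ) l o :=
    continuous_pi fun l => continuous_const.mul
      ((hA.matrix_mul hA.matrix_transpose).matrix_elem l o)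
  have c1 : Continuous fun θ => |C θ| * exp (|k| * ‖spin σ • fun l => (A θ * (A θ)ᵀ) l o‖) :=
    hC.abs.mul (continuous_exp.comp (continuous_const.mul cu.norm))
  have c2 : Continuous fun θ => |k| * l1 (A θ) :=
    continuous_const.mul (continuous_finsetSum _ fun l _ => continuous_finsetSum _ fun j _ =>
      (hA.matrix_elem l j).abs)
  refine continuous_iff_continuousAt.2 fun θ0 => ?_
  unfold gm
  refine continuousAt_of_dominated (bound := fun z =>
    (|C θ0| * exp (|k| * ‖spin σ • fun l => (A θ0 * (A θ0)ᵀ) l o‖) + 1) *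
      exp ((|k| * l1 (A θ0) + 1) * ‖z‖)) (.of_forall fun θ => ?_) ?_
    ((int_exp_norm _).const_mul _) (.of_forall fun z => ?_)
  · exact (int_of ((h1 σ).comp (Continuous.prodMk_right θ)) (h2 θ σ) _ _).aestronglyMeasurable
  · filter_upwards [(c1.tendsto θ0).eventually (gt_mem_nhds (lt_add_one _)),
      (c2.tendsto θ0).eventually (gt_mem_nhds (lt_add_one _))] with θ e1 e2
    refine .of_forall fun z => (bd (h2 θ σ) _ _ z).trans ?_
    exact mul_le_mul e1.le (exp_le_exp.2 (mul_le_mul_of_nonneg_right e2.le (norm_nonneg _)))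
      (exp_pos _).le (by positivity)
  · exact ((h1 σ).comp (continuous_id.prodMk
      (cu.add (hA.matrix_mulVec continuous_const)))).continuousAt

/-- `tanh` with values in `[-1, 1]` -/
def tI (b : ℝ) : Im := ⟨tanh b, (neg_one_lt_tanh b).le, (tanh_lt_one b).le⟩

lemma cont_tanh : Continuous tanh := by
  have e : tanh = fun y => sinh y / cosh y := funext tanh_eq_sinh_div_cosh
  rw [e]
  exact continuous_sinh.div continuous_cosh fun y => (cosh_pos y).ne'

lemma cont_tI : Continuous tI := cont_tanh.subtype_mk _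

lemma dense_tI : DenseRange tI := by
  refine Subtype.dense_iff.2 ?_
  refine (closure_Ioo (show (-1 : ℝ) ≠ 1 by norm_num)).ge.trans ?_
  exact closure_mono fun x hx => ⟨tI (artanh x), mem_range_self _, tanh_artanh hx⟩

lemma ev_lt [TopologicalSpace J] {G : J × Im → ℝ} (hG : Continuous G) (θ0 : J) {c : ℝ}
    (h : ∀ m, G (θ0, m) < c) : ∀ᶠ θ in 𝓝 θ0, ∀ m, G (θ, m) < c := by
  have := isCompact_univ.eventually_forall_of_forall_eventually (x₀ := θ0)
    (P := fun θ (m : Im) => G (θ, m) < c) fun m _ => (hG.tendsto (θ0, m)).eventually (gt_mem_nhds (h m))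
  exact this.mono fun θ hθ m => hθ m (mem_univ m)

lemma gc2 [TopologicalSpace J] [FirstCountableTopology J] (ν : Measure ℝ) [IsProbabilityMeasure ν]
    (g : J → ℝ → ℝ) (hg : Continuous fun p : J × Im => g p.1 p.2) :
    (∀ θ, Integrable (fun b => g θ (tanh b)) ν) ∧ (Continuous fun θ => ∫ b, g θ (tanh b) ∂ν) ∧
    ∀ θ0 c c', c < c' → (∀ b, g θ0 (tanh b) ≤ c) → ∀ᶠ θ in 𝓝 θ0, ∀ b, g θ (tanh b) ≤ c' := by
  have c1 : ∀ θ, Continuous fun b => g θ (tanh b) := fun θ =>
    hg.comp ((continuous_const (y := θ)).prodMk cont_tI)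
  have b1 : ∀ θ, ∃ M, ∀ m : Im, ‖g θ m‖ < M := fun θ => by
    obtain ⟨M, hM⟩ := isCompact_univ.exists_bound_of_continuousOn
      (hg.comp (Continuous.prodMk_right θ)).continuousOn
    exact ⟨M + 1, fun m => (hM m (mem_univ m)).trans_lt (lt_add_one M)⟩
  refine ⟨fun θ => ?_, continuous_iff_continuousAt.2 fun θ0 => ?_, fun θ0 c c' hc h => ?_⟩
  · obtain ⟨M, hM⟩ := b1 θ
    exact .of_bound (c1 θ).aestronglyMeasurable M (.of_forall fun b => (hM (tI b)).le)
  · obtain ⟨M, hM⟩ := b1 θ0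
    refine continuousAt_of_dominated (bound := fun _ => M)
      (.of_forall fun θ => (c1 θ).aestronglyMeasurable)
      ((ev_lt hg.norm θ0 hM).mono fun θ hθ => .of_forall fun b => (hθ (tI b)).le)
      (integrable_const M) (.of_forall fun b => ?_)
    exact (hg.comp (continuous_id.prodMk (continuous_const (y := tI b)))).continuousAt
  · have h1 : ∀ m : Im, g θ0 m ≤ c := isClosed_property dense_tI
      (isClosed_le (hg.comp (Continuous.prodMk_right θ0)) continuous_const) h
    exact (ev_lt hg θ0 fun m => (h1 m).trans_lt hc).mono fun θ hθ b => (hθ (tI b)).le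

lemma gc3 (o : L) (A : Matrix L κ ℝ) (F : Fn L) (hF : C0 F) : Continuous (Eb A o F) ∧
    ∀ (ν : Measure ℝ) [IsProbabilityMeasure ν], (∃ C, ∀ b s x, |F b s x| ≤ C * exp (C * ‖x‖)) →
      Integrable (Eb A o F) ν := by
  have e : Eb A o F = fun b => mE A o (tanh b) (F b) := funext fun b => mE_eq A o b _
  have hc : Continuous (Eb A o F) := by
    rw [e]; exact cont_mE o continuous_const cont_tanh hF
  refine ⟨hc, fun ν _ ⟨C, hC⟩ => .of_bound hc.aestronglyMeasurable (∑ σ, ∫ z, |C| *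
    exp (|C| * ‖spin σ • fun l => (A * Aᵀ) l o‖) * exp (|C| * l1 A * ‖z‖) ∂gv κ)
    (.of_forall fun b => ?_)⟩
  rw [Real.norm_eq_abs, Eb, mdl]
  refine (Finset.abs_sum_le_sum_abs _ _).trans (Finset.sum_le_sum fun σ _ => ?_)
  rw [abs_mul, abs_of_nonneg (S3L.Clt58.hb_nonneg b σ)]
  have h1 : S3L.hb b σ ≤ 1 := (Finset.single_le_sum (f := fun σ => S3L.hb b σ)
    (fun σ _ => S3L.Clt58.hb_nonneg b σ) (Finset.mem_univ σ)).trans_eq (S3L.Clt58.hb_sum b)
  refine (mul_le_of_le_one_left (abs_nonneg _) h1).trans ?_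
  rw [gm, ← Real.norm_eq_abs]
  exact norm_integral_le_of_norm_le ((int_exp_norm _).const_mul _) (.of_forall (bd (hC b σ) _ A))

open scoped Matrix.Norms.L2Operator MatrixOrder in
lemma gc4 [DecidableEq L] (S : ℕ → Matrix L L ℝ) (S0 : Matrix L L ℝ)
    (h : ∀ j, (S j).PosSemidef) (ht : Tendsto S atTop (𝓝 S0)) :
    ∃ (A : ℕ → Matrix L L ℝ) (A0 : Matrix L L ℝ), (∀ j, A j * (A j)ᵀ = S j) ∧ A0 * A0ᵀ = S0 ∧
      Tendsto A atTop (𝓝 A0) := by
  have h0 : S0.PosSemidef := by
    refine PosSemidef.of_dotProduct_mulVec_nonneg ?_ fun x => ?_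
    · have t : Tendsto (fun j => (S j)ᴴ) atTop (𝓝 S0ᴴ) :=
        ((continuous_id.matrix_conjTranspose).tendsto S0).comp ht
      have e : (fun j => (S j)ᴴ) = S := funext fun j => (h j).1
      rw [e] at t
      exact tendsto_nhds_unique t ht
    · have c : Continuous fun M : Matrix L L ℝ => star x ⬝ᵥ M *ᵥ x := by fun_prop
      exact ge_of_tendsto' ((c.tendsto S0).comp ht) fun j => (h j).dotProduct_mulVec_nonneg x
  have rt : ∀ M : Matrix L L ℝ, M.PosSemidef → CFC.sqrt M * (CFC.sqrt M)ᵀ = M := fun M hM => by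
    have : (CFC.sqrt M)ᵀ = CFC.sqrt M := (CFC.sqrt_nonneg M).posSemidef.1
    rw [this, CFC.sqrt_mul_sqrt_self _ hM.nonneg]
  refine ⟨fun j => CFC.sqrt (S j), CFC.sqrt S0, fun j => rt _ (h j), rt _ h0, ?_⟩
  exact (CFC.continuousOn_sqrt S0 h0.nonneg).tendsto.comp
    (tendsto_nhdsWithin_iff.2 ⟨ht, .of_forall fun j => (h j).nonneg⟩)

end Ex13

open Ex13

/-- **`ExStmt`** -/
theorem exStmt : ExStmt := by
  intro J L κ _ _ _ _
  refine ⟨mE_eq, fun A o m F G θ hF hG => ?_, fun A o m F G θ hF hG => ?_,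
    fun A o m I T F θ hF => ?_, fun A o m c F θ => ?_, fun A o m c F θ => ?_, fun A o m c => ?_,
    fun A o m F G θ hm hF hG h => ?_, fun A o m F θ hm hF h => ?_, fun A o m ψ => ?_,
    fun A A' M o o' m ψ hA hM hψ => ?_, fun A o m w => ?_⟩
  · simp only [mE, gm, Pi.add_apply, ← Finset.sum_add_distrib]
    exact Finset.sum_congr rfl fun σ _ => by
      rw [integral_add (int_C0 hF θ σ _ A) (int_C0 hG θ σ _ A), mul_add]
  · simp only [mE, gm, Pi.sub_apply, ← Finset.sum_sub_distrib]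
    exact Finset.sum_congr rfl fun σ _ => by
      rw [integral_sub (int_C0 hF θ σ _ A) (int_C0 hG θ σ _ A), mul_sub]
  · simp only [mE, gm, Finset.sum_apply]
    rw [Finset.sum_comm]
    exact Finset.sum_congr rfl fun σ _ => by
      rw [integral_finsetSum _ fun i hi => int_C0 (hF i hi) θ σ _ A, Finset.mul_sum]
  · simp only [mE, gm, Pi.mul_apply, cb, integral_const_mul, Finset.mul_sum]
    exact Finset.sum_congr rfl fun σ _ => by ring
  · simp only [mE, gm, Pi.smul_apply, smul_eq_mul, integral_const_mul, Finset.mul_sum]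
    exact Finset.sum_congr rfl fun σ _ => by ring
  · simp [mE, gm, spin]; ring
  · exact Finset.sum_le_sum fun σ _ => mul_le_mul_of_nonneg_left
      (integral_mono (int_C0 hF θ σ _ A) (int_C0 hG θ σ _ A) fun z => h σ _) (w_nonneg hm σ)
  · have p : ∀ σ, 0 < gm A fun x => F θ σ (spin σ • (fun l => (A * Aᵀ) l o) + x) := fun σ => by
      refine (integral_pos_iff_support_of_nonneg (fun z => (h σ _).le) (int_C0 hF θ σ _ A)).2 ?_
      rw [show Function.support _ = univ from eq_univ_of_forall fun z => (h σ _).ne']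
      simp
    have w1 := w_nonneg hm true
    have w2 := w_nonneg hm false
    have p1 := p true
    have p2 := p false
    rw [mE, Fintype.sum_bool]
    rcases w1.eq_or_lt with e | e
    · have : 0 < (1 + spin false * m) / 2 := by
        simp only [spin, if_true, Bool.false_eq_true, if_false] at e ⊢
        linarith
      positivity
    · positivity
  · have e : ∀ σ, (gm A fun x => ψ (!σ) (-(spin σ • (fun l => (A * Aᵀ) l o) + x))) =
        gm A fun x => ψ (!σ) (spin (!σ) • (fun l => (A * Aᵀ) l o) + x) := fun σ => by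
      rw [← gm_neg A fun x => ψ (!σ) (spin (!σ) • (fun l => (A * Aᵀ) l o) + x)]
      have : spin (!σ) = -spin σ := by cases σ <;> simp [spin]
      simp only [this, neg_add, neg_smul]
    simp only [mE, e, Fintype.sum_bool, Bool.not_true, Bool.not_false]
    simp only [spin, if_true, Bool.false_eq_true, if_false]
    ring
  · refine Finset.sum_congr rfl fun σ _ => ?_
    congr 1
    have e1 : M *ᵥ (fun l => (A * Aᵀ) l o) = fun k => (A' * A'ᵀ) k o' := by
      funext k
      rw [hA, mul_apply]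
      simp only [transpose_apply, hM, Pi.single_apply, mul_ite, mul_one, mul_zero,
        Finset.sum_ite_eq', Finset.mem_univ, if_true]
      rfl
    have e2 : (M * A) * (M * A)ᵀ = A' * A'ᵀ := by
      rw [hA, transpose_mul]; simp only [Matrix.mul_assoc]
    simp only [gm, mulVec_add, mulVec_smul, e1, mulVec_mulVec]
    exact int_congr e2 (F := fun x => ψ σ (spin σ • (fun k => (A' * A'ᵀ) k o') + x))
      ((hψ σ).comp (measurable_const.add measurable_id))
  · have e : ∀ σ, (gm A fun x => (w ⬝ᵥ (spin σ • (fun l => (A * Aᵀ) l o) + x) -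
        spin σ * (w ⬝ᵥ fun l => (A * Aᵀ) l o)) ^ 2) = w ⬝ᵥ (A * Aᵀ) *ᵥ w := fun σ => by
      simp only [gm, dotProduct_add, dotProduct_smul, smul_eq_mul, add_sub_cancel_left]
      simp only [dotProduct_mulVec w A, int_dot_sq]
      rw [← mulVec_mulVec, dotProduct_mulVec, mulVec_transpose]
    simp only [mE, e]
    simp [spin]; ring

/-- **`GcStmt`** -/
theorem gcStmt_13 : GcStmt := fun _ _ _ _ _ _ _ _ o =>
  ⟨fun _ _ _ hA hm hF => cont_mE o hA hm hF, fun ν _ g hg => gc2 ν g hg, gc3 o, gc4⟩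

end Crest.Agent.T157.Nt

end
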