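import Crest.Agent.T157.NetDef_32

/-!
# Row 157, block B/S3, section 7 (helper67): `FactGlue`, the model facts and the one-node network
-/

set_option autoImplicit false

noncomputable section

namespace Crest.Agent.T157.Nt

open MeasureTheory Matrix Real Set
open Crest.ProbabilityR.SpinGlassDynamics (spin)
open Crest.Agent.T157.S3L (gm mdl)
open Crest.Agent.T157.Tw (sech2)

namespace Fact67

variable {L κ : Type} [Fintype L] [DecidableEq L] [Fintype κ]

omit [Fintype L] [DecidableEq L] in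
lemma gs_sp : gs (sp : Fn L) = 1 := by
  funext b s x; simp [gs, sp, spin]

omit [Fintype L] [DecidableEq L] in
lemma gs_one : gs (1 : Fn L) = 0 := by
  funext b s x; simp [gs]

omit [Fintype L] [DecidableEq L] in
lemma gs_co (l : L) : gs (co l : Fn L) = 0 := by
  funext b s x; simp [gs, co]

omit [Fintype L] [DecidableEq L] in
lemma sp_sq : (sp * sp : Fn L) = 1 := by
  funext b s x; cases s <;> simp [sp, spin]

omit [Fintype L] [DecidableEq L] in
lemma gs_free (o : L) {al : Fn L} (h : gs al = 0) (G : Fn L) : gs (th o * (al * gs G)) = 0 := by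
  funext b s x
  have h1 := congrFun (congrFun (congrFun h b) s) x
  simp only [gs, Pi.zero_apply] at h1
  have h2 : al b true x = al b false x := by linarith
  simp [gs, th, h2]

lemma sech2_eq (b : ℝ) : sech2 b = 1 - tanh b ^ 2 := by
  have := cosh_pos b
  rw [sech2, tanh_eq_sinh_div_cosh]
  field_simp
  rw [cosh_sq]; ring

variable (T : Tl)
include T

lemma ts {F : Fn L} (h : BS F) : TS F := (T.bs L).ts h
lemma c0 {F : Fn L} (h : TS F) : C0 F := (T.ts ℝ L).c0 h
lemma bs_one : BS (1 : Fn L) := (T.bs L).const 1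
lemma bs_zero : BS (0 : Fn L) := (T.bs L).const 0
lemma dx_one (l : L) : dx l (1 : Fn L) = 0 := (T.dx ℝ L).cb l fun _ => 1

variable (A : Matrix L κ ℝ) (o : L)

lemma E_add {F G : Fn L} (hF : TS F) (hG : TS G) (b : ℝ) :
    Eb A o (F + G) b = Eb A o F b + Eb A o G b := by
  simp only [Eb, (T.ex ℝ L κ).eq]
  exact (T.ex ℝ L κ).add A o _ b (c0 T hF) (c0 T hG)

lemma E_sub {F G : Fn L} (hF : TS F) (hG : TS G) (b : ℝ) :
    Eb A o (F - G) b = Eb A o F b - Eb A o G b := by
  simp only [Eb, (T.ex ℝ L κ).eq]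
  exact (T.ex ℝ L κ).sub A o _ b (c0 T hF) (c0 T hG)

lemma E_sum {I : Type} (s : Finset I) {F : I → Fn L} (hF : ∀ i ∈ s, TS (F i)) (b : ℝ) :
    Eb A o (∑ i ∈ s, F i) b = ∑ i ∈ s, Eb A o (F i) b := by
  simp only [Eb, (T.ex ℝ L κ).eq]
  exact (T.ex ℝ L κ).sum A o _ s b fun i hi => c0 T (hF i hi)

lemma E_smul (c : ℝ) (F : Fn L) (b : ℝ) : Eb A o (c • F) b = c * Eb A o F b := by
  simp only [Eb, (T.ex ℝ L κ).eq]
  exact (T.ex ℝ L κ).smul A o _ c F b

lemma E_one (b : ℝ) : Eb A o (1 : Fn L) b = 1 := by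
  simp only [Eb, (T.ex ℝ L κ).eq]
  exact (T.ex ℝ L κ).const A o _ 1

lemma E_zero (b : ℝ) : Eb A o (0 : Fn L) b = 0 := by
  simp only [Eb, (T.ex ℝ L κ).eq]
  exact (T.ex ℝ L κ).const A o _ 0

lemma E_sp (b : ℝ) : Eb A o (sp : Fn L) b = tanh b := by
  simp only [Eb, (T.ex ℝ L κ).eq]
  simp [mE, sp, gm, spin]
  ring

lemma Cv_sp (b : ℝ) : Cv A o (sp : Fn L) sp b = sech2 b := by
  rw [Cv, sp_sq, E_one T, E_sp T, sech2_eq]; ring

lemma Ev_zero (ν : Measure ℝ) : Ev ν A o (0 : Fn L) = 0 := by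
  simp [Ev, E_zero T]

lemma int_E (ν : Measure ℝ) [IsProbabilityMeasure ν] {F : Fn L} (hF : BS F) :
    Integrable (Eb A o F) ν := by
  refine ((T.gc ℝ L κ o).2.2.1 A F (c0 T (ts T hF))).2 ν ?_
  obtain ⟨C, hC⟩ := (T.bs L).bd hF
  have C0 : 0 ≤ C := (abs_nonneg _).trans (hC 0 true 0)
  exact ⟨C, fun b s x => (hC b s x).trans
    (le_mul_of_one_le_right C0 (one_le_exp (by positivity)))⟩

omit A in
lemma dl_one (S : Matrix L L ℝ) (u : L) : dl S o u (1 : Fn L) = co u - S o u • sp := by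
  simp [dl, dx_one T]

omit A in
lemma bs_dl (S : Matrix L L ℝ) (u : L) {a : Fn L} (h1 : BS a) (h2 : BS (a * co u)) :
    BS (dl S o u a) := by
  have B := T.bs L
  have e : a * (co u - S o u • sp) = a * co u - S o u • (a * sp) := by
    rw [mul_sub, mul_smul_comm]
  rw [dl, e]
  exact B.sub (B.sub h2 (B.smul _ (B.mul h1 B.sp))) (B.sum _ fun p _ => B.smul _ (B.dx p h1))

omit A in
lemma bs_dft (S : Matrix L L ℝ) {al : Fn L} {a : L → Fn L} (h0 : BS al)
    (h : ∀ u, BS (a u) ∧ BS (a u * co u)) : BS (dft S o al a) := by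
  have B := T.bs L
  exact B.add (B.mul (B.sub B.sp (B.th0 o)) h0) (B.sum _ fun u _ => bs_dl T o S u (h u).1 (h u).2)

/-- the drift is the divergence of the flow -/
lemma E_dft (I : IbpStmt) {al G : Fn L} {a : L → Fn L} (h0 : BS al) (hf : gs al = 0)
    (h : ∀ u, BS (a u) ∧ BS (a u * co u)) (hG : TS G) (b : ℝ) :
    Eb A o (dft (A * Aᵀ) o al a * G) b = Eb A o ((1 - th o ^ 2) * al * gs G) b +
      ∑ u, ∑ p, (A * Aᵀ) u p * Eb A o (a u * dx p G) b := by
  have B := T.bs L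
  have t := T.ts ℝ L
  obtain ⟨i1, -, i3⟩ := I L κ A o b
  have hd := fun u => t.mul (ts T (bs_dl T o (A * Aᵀ) u (h u).1 (h u).2)) hG
  rw [dft, add_mul, Finset.sum_mul, E_add T A o (t.mul (ts T (B.mul (B.sub B.sp (B.th0 o)) h0)) hG)
    (t.sum _ fun u _ => hd u), i3 _ _ (ts T h0) hG hf, E_sum T A o _ fun u _ => hd u]
  simp only [fun u => i1 u _ _ (ts T (h u).1) hG]

lemma E_dx_dft (I : IbpStmt) (hS : (A * Aᵀ).PosDef) {al : Fn L} {a : L → Fn L} (h0 : BS al)
    (hf : gs al = 0) (h : ∀ u, BS (a u) ∧ BS (a u * co u)) (b : ℝ) (p : L) :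
    Eb A o (dx p (dft (A * Aᵀ) o al a)) b =
      Eb A o (a p) b - if p = o then Eb A o ((1 - th o ^ 2) * al) b else 0 := by
  have t := T.ts ℝ L
  have hd := ts T (bs_dft T o (A * Aᵀ) h0 h)
  have hs : ∀ u v, (A * Aᵀ) u v = (A * Aᵀ) v u := fun u v => by
    simp only [mul_apply, transpose_apply, mul_comm]
  have key : (A * Aᵀ) *ᵥ (fun p => Eb A o (dx p (dft (A * Aᵀ) o al a)) b) = (A * Aᵀ) *ᵥ
      fun p => Eb A o (a p) b - if p = o then Eb A o ((1 - th o ^ 2) * al) b else 0 := by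
    funext v
    have h1 := (I L κ A o b).1 v 1 _ (ts T (bs_one T)) hd
    have h2 := E_dft T A o I h0 hf h (t.co v) b
    have h3 := E_dft T A o I h0 hf h t.sp b
    have e : (co v - (A * Aᵀ) o v • sp) * dft (A * Aᵀ) o al a =
        dft (A * Aᵀ) o al a * co v - (A * Aᵀ) o v • (dft (A * Aᵀ) o al a * sp) := by
      rw [sub_mul, smul_mul_assoc, mul_comm (co v), mul_comm sp]
    rw [dl_one T, e, E_sub T A o (t.mul hd (t.co v)) (t.smul _ (t.mul hd t.sp)), E_smul T, h2,
      h3] at h1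
    simp only [gs_co, gs_sp, (T.dx ℝ L).sp, (T.dx ℝ L).co, mul_zero, mul_one, one_mul, E_zero T,
      Finset.sum_const_zero, add_zero, zero_add, mul_ite,
      apply_ite (fun F : Fn L => Eb A o F b), Finset.sum_ite_eq', Finset.mem_univ, if_true] at h1
    simp only [mulVec, dotProduct, mul_sub, Finset.sum_sub_distrib, mul_ite, mul_zero,
      Finset.sum_ite_eq', Finset.mem_univ, if_true]
    rw [← h1, hs o v]
    simp only [hs v]
  exact congrFun (mulVec_injective_iff_isUnit.2 hS.isUnit key) p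

end Fact67

open Fact67 in
theorem factStmt (T : Tl) (I : IbpStmt) : FactStmt := by
  intro β ν _ n N ok
  have B := T.bs (Ix n)
  have t := T.ts ℝ (Ix n)
  have d0 : ∀ al a, N.Flw al a → ∀ b, N.E (N.drift al a) b = 0 := fun al a h b => by
    have := E_dft T N.A 0 I h.bal h.free h.ba (ts T (bs_one T)) b
    simp only [mul_one, gs_one, dx_one T, mul_zero, E_zero T, Finset.sum_const_zero,
      add_zero] at this
    exact this
  have d1 : ∀ al a, N.Flw al a → ∀ b, N.E (N.drift al a * sp) b = N.E (N.D * al) b :=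
    fun al a h b => by
      have := E_dft T N.A 0 I h.bal h.free h.ba t.sp b
      simp only [mul_one, gs_sp, (T.dx ℝ _).sp, mul_zero, E_zero T, Finset.sum_const_zero,
        add_zero] at this
      exact this
  have gr : ∀ u p, N.S u p = β ^ 2 * ∫ b, Cv N.A 0 (N.f u) (N.f p) b ∂ν := fun u p => by
    rw [ok.gr]; rfl
  have gd : ∀ u, N.dr u → ∀ p, N.S u p =
      β ^ 2 * ∫ b, N.E (N.drift (N.al u) (N.a u) * N.f p) b ∂ν := fun u hu p => by
    rw [gr, (ok.drf u hu).2]
    have := d0 _ _ (ok.fl u)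
    simp only [Net.E] at this
    simp only [Cv, this, zero_mul, sub_zero, Net.E]
  refine ⟨fun al a h => ⟨bs_dft T 0 _ h.bal h.ba, d0 al a h, d1 al a h,
    fun p b => E_dx_dft T N.A 0 I ok.pd h.bal h.free h.ba b p⟩, fun u hu => ⟨?_, fun p => ?_⟩,
    fun u b => ?_, ?_⟩
  · rw [gd u hu, ok.f0]
    simp only [d1 _ _ (ok.fl u)]
    rfl
  · have h := ok.fl u
    have b0 := B.mul h.bal (B.gs (ok.bs p))
    have b1 := B.mul (B.th0 0) b0
    have b2 : BS (N.al u * (1 - sp * th 0) * gs (N.f p)) :=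
      B.mul (B.mul h.bal (B.sub (bs_one T) (B.mul B.sp (B.th0 0)))) (B.gs (ok.bs p))
    have b3 := fun v q => B.mul (h.ba v).1 (B.dx q (ok.bs p))
    have e : ∀ b, N.E (N.drift (N.al u) (N.a u) * N.f p) b =
        Eb N.A 0 (N.al u * (1 - sp * th 0) * gs (N.f p)) b +
          ∑ v, ∑ q, Eb N.A 0 (N.a u v * dx q (N.f p)) b * N.S v q := fun b => by
      have h1 := E_dft T N.A 0 I h.bal h.free h.ba (ts T (ok.bs p)) b
      have h2 := (I _ _ N.A 0 b).2.1 _ (ts T b1) (gs_free 0 h.free (N.f p))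
      have e1 : (1 - th 0 ^ 2) * N.al u * gs (N.f p) =
          N.al u * gs (N.f p) - th 0 * (th 0 * (N.al u * gs (N.f p))) := by ring
      have e2 : N.al u * (1 - sp * th 0) * gs (N.f p) =
          N.al u * gs (N.f p) - sp * (th 0 * (N.al u * gs (N.f p))) := by ring
      rw [e1, E_sub T _ _ (ts T b0) (ts T (B.mul (B.th0 0) b1))] at h1
      rw [e2, E_sub T _ _ (ts T b0) (ts T (B.mul B.sp b1)), h2]
      simp only [mul_comm (Eb N.A 0 _ b)]
      exact h1
    have i3 := fun v q => (int_E T N.A 0 ν (b3 v q)).mul_const (N.S v q)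
    rw [gd u hu, pair]
    simp only [e, Ev]
    rw [integral_add (int_E T N.A 0 ν b2)
      (integrable_finsetSum _ fun v _ => integrable_finsetSum _ fun q _ => i3 v q),
      integral_finsetSum _ fun v _ => integrable_finsetSum _ fun q _ => i3 v q]
    congr 2
    refine Finset.sum_congr rfl fun v _ => ?_
    rw [integral_finsetSum _ fun q _ => i3 v q]
    simp only [integral_mul_const]
  · have := (I _ _ N.A 0 b).1 u 1 1 (ts T (bs_one T)) (ts T (bs_one T))
    simp only [dl_one T, mul_one, dx_one T, mul_zero, E_zero T, Finset.sum_const_zero] at this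
    exact this
  · rw [gr, ok.f0]
    simp only [Cv_sp T]

open Fact67 in
theorem trivStmt (T : Tl) : TrivStmt := by
  intro β hβ ν _
  have B := T.bs (Ix 0)
  have ip : Integrable sech2 ν := Tw.BM.int ⟨by unfold sech2; fun_prop, 1, fun ξ => by
    rw [sech2_eq, abs_le]
    constructor <;> nlinarith [tanh_sq_lt_one ξ, sq_nonneg (tanh ξ)]⟩ ν
  have p0 : 0 < ∫ b, sech2 b ∂ν := by
    have hp : ∀ b, 0 < sech2 b := fun b => by rw [sech2_eq]; linarith [tanh_sq_lt_one b]
    rw [integral_pos_iff_support_of_nonneg (fun b => (hp b).le) ip]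
    have : Function.support sech2 = univ := eq_univ_of_forall fun b => (hp b).ne'
    rw [this]; simp
  let A : Matrix (Ix 0) (Ix 0) ℝ := of fun _ _ => β * √(∫ b, sech2 b ∂ν)
  have hS : A * Aᵀ = of fun _ _ => β ^ 2 * ∫ b, sech2 b ∂ν := by
    ext i j
    simp only [A, mul_apply, transpose_apply, of_apply]
    rw [mul_mul_mul_comm, mul_self_sqrt p0.le, sq]
    simp
  have ea0 : ∀ i p, ea (fun _ : Ix 0 => (sp : Fn (Ix 0))) (0 : Ix 0 → Ix 0 → Fn (Ix 0)) i p = 0 := by
    rintro (i | i) (p | p)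
    · exact (T.dx ℝ _).sp p
    all_goals rfl
  refine ⟨⟨fun _ => sp, 0, 0, fun _ => False, A,
    of fun _ _ => β ^ 2 * Ev ν A 0 (gs sp * (1 - th 0 ^ 2) * gs sp),
    of fun i j => β ^ 2 * Ev ν A 0 (eal (fun _ => sp) 0 i * 1 * eal (fun _ => sp) 0 j)⟩,
    rfl, fun _ => B.sp, fun _ => ?_, fun _ _ _ _ _ _ => rfl,
    fun _ => ⟨bs_zero T, ?_, fun u => ⟨bs_zero T, ?_⟩, fun _ _ => rfl⟩, fun _ => ⟨rfl, fun _ => rfl⟩,
    fun _ => ⟨fun _ _ _ _ _ => rfl, fun _ _ _ _ _ _ => rfl⟩, fun _ _ _ => rfl,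
    fun _ _ => ⟨rfl, rfl⟩, fun _ h => h.elim, ?_, ?_, fun l m => ?_, fun i j => ?_⟩
  · funext b s x; cases s <;> simp [rf, sp, spin]
  · funext b s x; simp [gs]
  · simpa using bs_zero T
  · change (A * Aᵀ).PosDef
    have : A * Aᵀ = Matrix.diagonal fun _ => β ^ 2 * ∫ b, sech2 b ∂ν := by
      rw [hS]; ext i j
      rw [Subsingleton.elim (α := Fin 1) i j]; simp
    rw [this]
    exact PosDef.diagonal fun _ => by positivity
  · change A * Aᵀ = _
    rw [hS]; ext i j
    simp only [gram, of_apply, Cv_sp T]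
  · simp only [pair, of_apply, (T.dx ℝ _).sp, mul_zero, Ev_zero T, zero_mul, Finset.sum_const_zero,
      add_zero, Net.D]
  · simp only [pair, of_apply, ea0, mul_zero, Ev_zero T, zero_mul, Finset.sum_const_zero,
      add_zero]

theorem factGlue : FactGlue := fun T I => ⟨factStmt T I, trivStmt T⟩

end Crest.Agent.T157.Nt

end
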