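import Crest.Agent.T157.NetMov_87

/-!
# Row 157, block B/S3, section 7 (helper87): `Nt.RootGlue`

The flow of the spin from the top family at `a = 0`.
-/

set_option autoImplicit false
set_option linter.unusedVariables false
set_option linter.unusedSectionVars false
set_option linter.unusedSimpArgs false

noncomputable section

namespace Crest.Agent.T157.Nt

open MeasureTheory Matrix Real Set Filter Topology
open Crest.ProbabilityR.SpinGlassDynamics (spin)
open Crest.Agent.T157.S3L (gm mdl)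
open Crest.Agent.T157.Tw (sech2 Cls PV lam)
open Mov87

namespace Root87

section box
variable {K : Type} [Fintype K] [DecidableEq K]

lemma bs_tanh (T : Tl) : BS (cb tanh : Fn K) := by
  have h := (T.bs K).th 0
  simp only [zero_dotProduct, add_zero] at h
  exact h

lemma bs_sech (T : Tl) : BS (cb sech2 : Fn K) := by
  have X := T.bs K
  have : (cb sech2 : Fn K) = (fun _ _ _ => 1) - cb tanh ^ 2 := by
    funext b s x; simp [cb, sech2_eq]
  rw [this]
  exact X.sub (X.const 1) (X.pow 2 (bs_tanh T))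

lemma split {k : ℝ} (hk : 1 < k) (x y z : ℝ) :
    (x + y + z) ^ 2 ≤ k * z ^ 2 + 2 * k / (k - 1) * (x ^ 2 + y ^ 2) := by
  have h0 : 0 < k - 1 := by linarith
  have h1 : (x + y + z) ^ 2 ≤ k * z ^ 2 + k / (k - 1) * (x + y) ^ 2 := by
    generalize x + y = t
    have : k * z ^ 2 + k / (k - 1) * t ^ 2 - (t + z) ^ 2 = ((k - 1) * z - t) ^ 2 / (k - 1) := by
      field_simp; ring
    have h2 : 0 ≤ ((k - 1) * z - t) ^ 2 / (k - 1) := by positivity
    linarith
  have h3 : k / (k - 1) * (x + y) ^ 2 ≤ k / (k - 1) * (2 * (x ^ 2 + y ^ 2)) :=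
    mul_le_mul_of_nonneg_left (by nlinarith [sq_nonneg (x - y)]) (by positivity)
  have h4 : k / (k - 1) * (2 * (x ^ 2 + y ^ 2)) = 2 * k / (k - 1) * (x ^ 2 + y ^ 2) := by ring
  linarith

end box

variable {n : ℕ}

/-- the main part of the error -/
def Xm (N : Net n) (ψ : Fn (Ix n)) (m : Ix n → Fn (Ix n)) (ρ : ℝ → ℝ) : Fn (Ix n) :=
  cb (fun b => (ρ b)⁻¹) * N.drift (gs ψ) m - (sp - cb tanh) + cb sech2 * (co 0 - N.S 0 0 • sp)

lemma main (T : Tl) (hF : FactStmt) {β : ℝ} {ν : Measure ℝ} [IsProbabilityMeasure ν] {N : Net n}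
    (hN : N.Ok β ν) {l e : ℝ} (hl : 0 < l) {al0 ψ m ρ} (h : N.Top l 0 e al0 ψ m ρ) :
    TS (Xm N ψ m ρ) ∧ ∀ b, N.E (Xm N ψ m ρ ^ 2) b ≤ 16 * e / l ^ 2 := by
  have X := T.bs (Ix n)
  have Y := T.ts ℝ (Ix n)
  obtain ⟨h1, -, h3, -⟩ := hF β ν n N hN
  obtain ⟨hb, h0, -⟩ := h1 _ _ h.fl
  have hi := X.inv (k := l / 4) (by positivity) (fun b => (h.hρ b).2.1) h.bρ
  have hL : TS (co 0 - N.S 0 0 • sp : Fn (Ix n)) := Y.sub (Y.co 0) (Y.smul _ Y.sp)
  have hX : TS (Xm N ψ m ρ) := Y.add (Y.sub (X.ts (X.mul hi hb)) (Y.sub Y.sp (X.ts (bs_tanh T))))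
    (Y.mul (X.ts (bs_sech T)) hL)
  refine ⟨hX, fun b => ?_⟩
  have hρ : 0 < ρ b := lt_of_lt_of_le (by positivity) (h.hρ b).2.1
  have hE : Eb N.A 0 (Xm N ψ m ρ) b = 0 := by
    have e1 := eb_lin T N.A 0 (H := Xm N ψ m ρ + sp) (Y.c0 (X.ts hb)) (Y.c0 hL) b (ρ b)⁻¹ (sech2 b)
      (tanh b) (fun s x => by simp [Xm, cb]; ring)
    have e2 := eb_lin T N.A 0 (H := Xm N ψ m ρ + sp) (Y.c0 hX) (Y.c0 Y.sp) b 1 1 0
      (fun s x => by simp)
    have e3 := h0 b
    have e4 := h3 0 b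
    simp only [Net.E] at e3 e4
    rw [e3, e4] at e1
    rw [eb_sp T] at e2
    linarith
  have hR : ∀ s x, N.R 0 ψ m ρ b s x = ρ b * Xm N ψ m ρ b s x - ρ b * tanh b := fun s x => by
    simp [Net.R, Xm, cb]
    field_simp
    ring
  have e5 := eb_lin T N.A 0 (H := N.R 0 ψ m ρ) (Y.c0 hX) (Y.c0 hX) b (ρ b) 0 (-(ρ b * tanh b))
    (fun s x => by rw [hR]; ring)
  have e6 := eb_lin T N.A 0 (H := N.R 0 ψ m ρ * N.R 0 ψ m ρ) (Y.c0 (Y.pow 2 hX)) (Y.c0 hX) b
    (ρ b ^ 2) (-(2 * ρ b ^ 2 * tanh b)) ((ρ b * tanh b) ^ 2)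
    (fun s x => by simp only [Pi.mul_apply, Pi.pow_apply, hR]; ring)
  have e7 := h.VR b
  rw [Cv, e5, e6, hE] at e7
  have e8 : 0 ≤ Eb N.A 0 (Xm N ψ m ρ ^ 2) b := by
    have := eb_le T N.A 0 (H := fun _ _ _ => 0) (Y.c0 (Y.pow 2 hX)) (Y.c0 hX) (c0_const T 0) b 1 0 0
      (fun s x => by simpa using sq_nonneg _)
    have e9 : Eb N.A 0 (fun _ _ _ => (0 : ℝ)) b = 0 := by
      simp only [Eb, (T.ex ℝ (Ix n) (Ix n)).eq, (T.ex ℝ (Ix n) (Ix n)).const]
    linarith
  have e10 : (l / 4) ^ 2 ≤ ρ b ^ 2 := by gcongr; exact (h.hρ b).2.1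
  simp only [Net.E]
  rw [le_div_iff₀ (by positivity)]
  nlinarith [mul_le_mul_of_nonneg_right e10 e8]

lemma core (T : Tl) (hF : FactStmt) {β : ℝ} {ν : Measure ℝ} [IsProbabilityMeasure ν] {N : Net n}
    (hN : N.Ok β ν) {l e e' k : ℝ} (hl : 0 < l) (hk : 1 < k) {al0 ψ m ρ}
    (h : N.Top l 0 e al0 ψ m ρ) (c : Ix n → Fn (Ix n)) (hc : ∀ u, BS (c u) ∧ BS (c u * co u))
    (hn : ∀ u, ¬ N.dr u → c u = 0) (hr : ∀ u, rf (c u) = c u) (W : Ix n → ℝ)
    (hW : ∀ b, N.E ((∑ u, dl N.S 0 u (c u) - cb sech2 * Ln N.S 0 W) ^ 2) b ≤ e') :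
    ∃ al a, N.Flw al a ∧ rf al = al ∧ (∀ u, rf (a u) = a u) ∧
      ∀ b, N.E ((N.drift al a - (sp - cb tanh)) ^ 2) b ≤
        k * N.sq (W - Pi.single 0 1) + 2 * k / (k - 1) * (16 * e / l ^ 2 + e') := by
  have X := T.bs (Ix n)
  have Y := T.ts ℝ (Ix n)
  obtain ⟨hX, hm⟩ := main T hF hN hl h
  have hi := X.inv (k := l / 4) (by positivity) (fun b => (h.hρ b).2.1) h.bρ
  have hFl : N.Flw (cb (fun b => (ρ b)⁻¹) * gs ψ) fun u => cb (fun b => (ρ b)⁻¹) * m u + c u := by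
    refine ⟨X.mul hi h.fl.bal, ?_, fun u => ⟨X.add (X.mul hi (h.fl.ba u).1) (hc u).1, ?_⟩,
      fun u hu => ?_⟩
    · funext b s x; simp [gs, cb]
    · rw [add_mul, mul_assoc]
      exact X.add (X.mul hi (h.fl.ba u).2) (hc u).2
    · rw [h.fl.nd u hu, hn u hu]; simp
  refine ⟨_, _, hFl, ?_, fun u => ?_, fun b => ?_⟩
  · have h1 := X.rgs ψ
    rw [h.od] at h1
    funext b s x
    have h2 := congrFun (congrFun (congrFun h1 b) s) x
    simp [gs, rf, cb, (h.hρ b).1] at h2 ⊢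
    left
    linarith
  · funext b s x
    have h1 := congrFun (congrFun (congrFun (h.ev u) b) s) x
    have h2 := congrFun (congrFun (congrFun (hr u) b) s) x
    simp only [rf] at h1 h2
    simp [rf, cb, (h.hρ b).1, h1, h2]
  · have hZ : TS (∑ u, dl N.S 0 u (c u) - cb sech2 * Ln N.S 0 W) :=
      Y.sub (Y.sum _ fun u _ => ts_dl T _ 0 u (X.ts (hc u).1))
        (Y.mul (X.ts (bs_sech T)) (ts_Ln T _ _ _))
    have e1 : N.drift (cb (fun b => (ρ b)⁻¹) * gs ψ) (fun u => cb (fun b => (ρ b)⁻¹) * m u + c u) =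
        cb (fun b => (ρ b)⁻¹) * N.drift (gs ψ) m + ∑ u, dl N.S 0 u (c u) := by
      simp only [Net.drift, dft, dl_add T _ _ _ (X.df (X.mul hi (h.fl.ba _).1)) (X.df (hc _).1),
        dl_cb T, Finset.sum_add_distrib, ← Finset.mul_sum]
      ring
    have hD : TS (N.drift (cb (fun b => (ρ b)⁻¹) * gs ψ)
        (fun u => cb (fun b => (ρ b)⁻¹) * m u + c u) - (sp - cb tanh)) :=
      Y.sub (ts_dft T _ 0 (X.ts hFl.bal) fun u => X.ts (hFl.ba u).1)
        (Y.sub Y.sp (X.ts (bs_tanh T)))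
    have hk0 : 0 ≤ 2 * k / (k - 1) := div_nonneg (by linarith) (by linarith)
    have key := eb_le T N.A 0 (Y.c0 (Y.pow 2 (ts_Ln T N.S 0 (W - Pi.single 0 1))))
      (Y.c0 (Y.add (Y.pow 2 hX) (Y.pow 2 hZ))) (Y.c0 (Y.pow 2 hD)) b k (2 * k / (k - 1)) 0
      (fun s x => by
        rw [e1]
        have e2 : (cb (fun b => (ρ b)⁻¹) * N.drift (gs ψ) m + ∑ u, dl N.S 0 u (c u) -
            (sp - cb tanh) : Fn (Ix n)) b s x = Xm N ψ m ρ b s x +
            (∑ u, dl N.S 0 u (c u) - cb sech2 * Ln N.S 0 W : Fn (Ix n)) b s x +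
            sech2 b * Ln N.S 0 (W - Pi.single 0 1) b s x := by
          simp only [Xm, Ln, sub_dotProduct, single_dotProduct, one_mul, Pi.add_apply,
            Pi.sub_apply, Pi.mul_apply, Pi.smul_apply, smul_eq_mul, cb, co, sp]
          ring
        rw [Pi.pow_apply, Pi.pow_apply, Pi.pow_apply, e2]
        generalize (∑ u, dl N.S 0 u (c u) - cb sech2 * Ln N.S 0 W : Fn (Ix n)) = Z
        simp only [Pi.pow_apply, Pi.add_apply]
        refine (split hk _ _ _).trans ?_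
        have h1 : sech2 b ^ 2 ≤ 1 := pow_le_one₀ (sech2_nn b) (sech2_le b)
        have h2 := mul_le_mul_of_nonneg_right h1 (sq_nonneg (Ln N.S 0 (W - Pi.single 0 1) b s x))
        have h3 := mul_le_mul_of_nonneg_left h2 (by linarith : 0 ≤ k)
        rw [mul_pow]
        linarith)
    have e3 := eb_lin T N.A 0 (H := Xm N ψ m ρ ^ 2 +
      (∑ u, dl N.S 0 u (c u) - cb sech2 * Ln N.S 0 W) ^ 2) (Y.c0 (Y.pow 2 hX)) (Y.c0 (Y.pow 2 hZ))
      b 1 1 0 (fun s x => by simp)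
    have e4 : Eb N.A 0 (Ln N.S 0 (W - Pi.single 0 1) ^ 2) b = N.sq (W - Pi.single 0 1) :=
      eb_Ln T N.A 0 _ b
    have h1 := hm b
    have h2 := hW b
    simp only [Net.E] at h1 h2 ⊢
    rw [e3, e4] at key
    have h3 := mul_le_mul_of_nonneg_left (add_le_add h1 h2) hk0
    linarith

lemma sq_single (N : Net n) (u v : Ix n) : N.sq (Pi.single u 1 - Pi.single v 1) =
    N.S u u - N.S u v - N.S v u + N.S v v := by
  simp only [Net.sq, mulVec_sub, sub_dotProduct, dotProduct_sub, mulVec_single_one,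
    single_dotProduct, one_mul, col_apply]
  ring

lemma sq_zero (N : Net n) (v : Ix n) : N.sq (0 - Pi.single v 1) = N.S v v := by
  simp only [Net.sq, zero_sub, mulVec_neg, neg_dotProduct, dotProduct_neg, neg_neg,
    mulVec_single_one, single_dotProduct, one_mul, col_apply]

end Root87

open Root87

theorem rootGlue : RootGlue := by
  intro T hF _ hM hNet 𝒞 h𝒞 β h0 h1 hl ν _ n N hN w hw k hk e he
  obtain ⟨γ, h, -, -, -, H⟩ := hNet 𝒞 h𝒞 β h0 h1 0 ⟨le_rfl, hl⟩ ν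
  set l := lam 𝒞 β with hl'
  have hk1 : 0 < k - 1 := by linarith
  have hk0 : 0 < k := by linarith
  set δ := e * (k - 1) / (4 * k) with hδ
  have hδ0 : 0 < δ := by positivity
  obtain ⟨n', N', ι, hN', hE, ψ, m, ρ, hT⟩ := H (δ * l ^ 2 / 16) (by positivity) n N hN
  have hS : ∀ i j, N'.S (ι i) (ι j) = N.S i j := fun i j => congrFun (congrFun hE.S i) j
  have hfin : 2 * k / (k - 1) * (16 * (δ * l ^ 2 / 16) / l ^ 2 + δ) = e := by
    rw [hδ]; field_simp; ring
  have X := T.bs (Ix n')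
  rcases hw with rfl | ⟨u, hu, rfl⟩
  · obtain ⟨al, a, h1, h2, h3, h4⟩ := core T hF hN' (e' := δ) hl hk hT 0
      (fun u => ⟨X.const 0, by rw [Pi.zero_apply, zero_mul]; exact X.const 0⟩) (fun _ _ => rfl)
      (fun _ => rfl) 0 (fun b => by
        have e1 : ∀ u, dl N'.S 0 u (0 : Fn (Ix n')) = 0 := fun u => by
          simpa using dl_smul T N'.S 0 u 0 0
        rw [Net.E, eb_congr N'.A 0 (G := fun _ _ _ => 0) b (fun s x => by simp [e1, Ln])]
        simp only [Eb, (T.ex ℝ (Ix n') (Ix n')).eq, (T.ex ℝ (Ix n') (Ix n')).const]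
        exact hδ0.le)
    refine ⟨n', N', ι, al, a, hN', hE, h1, h2, h3, fun b => ?_⟩
    have := h4 b
    rw [hfin, sq_zero, ← hE.zero, hS] at this
    rw [sq_zero]
    exact this
  · obtain ⟨C, hC⟩ := hM Empty (cb sech2) (bs_sech T) 0
    obtain ⟨η, hη, hb⟩ := hC (Ix n') N'.A 0 (ι u) (ι u) Empty.elim (fun p => p.elim) δ hδ0
    have hc : BS (cb sech2 * fun _ _ x => rr η (x (ι u)) : Fn (Ix n')) :=
      X.mul (bs_sech T) (X.rr η (ι u))
    obtain ⟨al, a, h1, h2, h3, h4⟩ := core T hF hN' (e' := δ) hl hk hT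
      (Pi.single (ι u) (cb sech2 * fun _ _ x => rr η (x (ι u))))
      (fun v => by
        by_cases hv : v = ι u
        · subst hv
          rw [Pi.single_eq_same, mul_assoc]
          exact ⟨hc, X.mul (bs_sech T) (X.yy η hη (ι u))⟩
        · rw [Pi.single_eq_of_ne hv, zero_mul]
          exact ⟨X.const 0, X.const 0⟩)
      (fun v hv => by
        have : v ≠ ι u := fun h => hv (h ▸ (hE.dr u).2 hu)
        rw [Pi.single_eq_of_ne this])
      (fun v => by
        by_cases hv : v = ι u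
        · subst hv
          rw [Pi.single_eq_same]
          funext b s x
          simp [rf, cb, rr, sech2_neg]
        · rw [Pi.single_eq_of_ne hv]; rfl)
      (Pi.single (ι u) 1) (fun b => by
        have e1 : dl N'.S 0 (ι u) (cb sech2) = cb sech2 * Ln N'.S 0 (Pi.single (ι u) 1) := by
          have sy : N'.S 0 (ι u) = N'.S (ι u) 0 := by simp [Net.S, mul_apply, mul_comm]
          simp only [dl, (T.dx ℝ (Ix n')).cb, smul_zero, Finset.sum_const_zero, sub_zero, sy]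
          funext b s x
          simp [Ln, co, sp, mul_comm]
        have e2 : ∀ v, dl N'.S 0 v (0 : Fn (Ix n')) = 0 := fun v => by
          simpa using dl_smul T N'.S 0 v 0 0
        rw [Finset.sum_eq_single (ι u) (fun v _ hv => by rw [Pi.single_eq_of_ne hv, e2])
          (by simp), Pi.single_eq_same, ← e1]
        have := hb b
        rw [sub_self, zero_dotProduct, mul_zero, add_zero] at this
        exact this)
    refine ⟨n', N', ι, al, a, hN', hE, h1, h2, h3, fun b => ?_⟩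
    have := h4 b
    rw [hfin, sq_single, ← hE.zero, hS, hS, hS, hS] at this
    rw [sq_single]
    exact this

end Crest.Agent.T157.Nt

end
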