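import Crest.Agent.T157.NetDef_32
import Crest.Agent.T157.S3Clt_58

/-!
# Row 157, block B/S3, section 7 (helper58): (ST) for the model networks (`St1Glue`, `StGlue`)
-/

set_option autoImplicit false
set_option linter.unusedVariables false
set_option linter.unusedSectionVars false

noncomputable section

namespace Crest.Agent.T157.Nt

open MeasureTheory Matrix Real Set Filter Topology
open Crest.ProbabilityR.SpinGlassDynamics (spin)
open Crest.Agent.T157.S3L (gm mdl)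

namespace St58

variable {L K κ κ' : Type} [Fintype L] [DecidableEq L] [Fintype K] [DecidableEq K] [Fintype κ]
  [Fintype κ']

open scoped MatrixOrder in
lemma root {S : Matrix L L ℝ} (h : S.PosSemidef) : ∃ A : Matrix L L ℝ, A * Aᵀ = S := by
  obtain ⟨B, hB⟩ := CStarAlgebra.nonneg_iff_eq_star_mul_self.1 h.nonneg
  exact ⟨Bᵀ, by rw [hB, transpose_transpose]; rfl⟩

lemma quad_nonneg (A : Matrix L κ ℝ) (w : L → ℝ) : 0 ≤ w ⬝ᵥ (A * Aᵀ) *ᵥ w := by
  rw [← mulVec_mulVec, dotProduct_mulVec, mulVec_transpose]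
  exact Finset.sum_nonneg fun _ _ => mul_self_nonneg _

/-- the matrix of `res e` -/
def Rm (e : K → L) : Matrix K L ℝ := of fun x l => if e x = l then 1 else 0

lemma Rm_row (e : K → L) (x : K) : Rm e x = Pi.single (e x) 1 := by
  funext l; simp [Rm, Pi.single_apply, eq_comm]

lemma Rm_conj (e : K → L) (S : Matrix L L ℝ) : Rm e * S * (Rm e)ᵀ = S.submatrix e e := by
  ext x y; simp [Rm, mul_apply]

lemma Rm_mulVec (e : K → L) (x : L → ℝ) : Rm e *ᵥ x = x ∘ e := by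
  funext y; simp [Rm, mulVec, dotProduct]

lemma res_eq (e : K → L) (F : Fn K) : res e F = pb (Rm e) F := by
  funext b s x; simp only [res, pb, Rm_mulVec]

lemma abs_th (b : ℝ) : |tanh b| ≤ 1 := abs_le.2 ⟨(neg_one_lt_tanh b).le, (tanh_lt_one b).le⟩

lemma meas_of {F : Fn L} (h : C0 F) (b : ℝ) (s : Bool) : Measurable (F b s) :=
  ((h.1 s).comp (Continuous.prodMk_right b)).measurable

section tl
variable (T : Tl)
include T

lemma bs_res (e : K → L) {F : Fn K} (h : BS F) : BS (res e F) := by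
  rw [res_eq]; exact (T.bs L).pb _ h

lemma ts_res (e : K → L) {F : Fn K} (h : TS F) : TS (res e F) := by
  rw [res_eq]; exact (T.ts ℝ L).pb _ h

lemma Eb_res {A : Matrix L κ ℝ} {A' : Matrix K κ' ℝ} {e : K → L} {o : L} {o' : K} (ho : e o' = o)
    (hA : A' * A'ᵀ = (A * Aᵀ).submatrix e e) {F : Fn K} (hF : C0 F) (b : ℝ) :
    Eb A o (res e F) b = Eb A' o' F b := by
  rw [Eb, Eb, (T.ex ℝ L κ).eq, (T.ex ℝ K κ').eq, res_eq]
  exact (T.ex ℝ L κ).pb A A' (Rm e) o o' _ (F b) (by rw [hA, Rm_conj]) (by rw [Rm_row, ho])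
    (meas_of hF b)

lemma dl_res {S : Matrix L L ℝ} (hS : Sᵀ = S) (e : K → L) (o u : K) {a : Fn K} (ha : Df a) :
    dl S (e o) (e u) (res e a) = res e (dl (S.submatrix e e) o u a) := by
  rw [res_eq, res_eq, ← Rm_conj]
  exact (T.dx ℝ L).dl (Rm e) S _ _ o u hS (Rm_row e o) (Rm_row e u) ha

lemma ts_dl (S : Matrix L L ℝ) (o u : L) {a : Fn L} (ha : TS a) : TS (dl S o u a) :=
  have t := T.ts ℝ L
  t.sub (t.mul ha (t.sub (t.co u) (t.smul _ t.sp))) (t.sum _ fun p _ => t.smul _ (t.dx p ha))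

lemma ts_dft (S : Matrix L L ℝ) (o : L) {al : Fn L} {a : L → Fn L} (h : TS al)
    (ha : ∀ u, TS (a u)) : TS (dft S o al a) :=
  have t := T.ts ℝ L
  t.add (t.mul (t.sub t.sp ((T.bs L).ts ((T.bs L).th0 o))) h) (t.sum _ fun u _ => ts_dl T S o u (ha u))

lemma dl_add (S : Matrix L L ℝ) (o u : L) {F G : Fn L} (hF : Df F) (hG : Df G) :
    dl S o u (F + G) = dl S o u F + dl S o u G := by
  simp only [dl, (T.dx ℝ L).add _ hF hG, smul_add, Finset.sum_add_distrib]; ring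

lemma dl_cbm (S : Matrix L L ℝ) (o u : L) (c : ℝ → ℝ) (F : Fn L) :
    dl S o u (cb c * F) = cb c * dl S o u F := by
  simp only [dl, (T.dx ℝ L).cbm, mul_sub, Finset.mul_sum, mul_smul_comm, mul_assoc]

lemma dl_sum (S : Matrix L L ℝ) (o u : L) {I : Type} [Fintype I] {F : I → Fn L}
    (h : ∀ i, Df (F i)) : dl S o u (∑ i, F i) = ∑ i, dl S o u (F i) := by
  simp only [dl, (T.dx ℝ L).sum _ Finset.univ fun i _ => h i, Finset.sum_mul, Finset.smul_sum,
    Finset.sum_sub_distrib]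
  rw [Finset.sum_comm]

lemma dl_zero (S : Matrix L L ℝ) (o u : L) : dl S o u (0 : Fn L) = 0 := by
  have := dl_cbm T S o u (fun _ => 0) 0
  rwa [show (cb fun _ => 0 : Fn L) = 0 from rfl, zero_mul, zero_mul] at this

lemma Eb_mono (A : Matrix L κ ℝ) (o : L) {F G : Fn L} (hF : TS F) (hG : TS G) (b : ℝ)
    (h : ∀ s x, F b s x ≤ G b s x) : Eb A o F b ≤ Eb A o G b := by
  rw [Eb, Eb, (T.ex ℝ L κ).eq, (T.ex ℝ L κ).eq]
  exact (T.ex ℝ L κ).mono A o _ b (abs_th b) ((T.ts ℝ L).c0 hF) ((T.ts ℝ L).c0 hG) h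

lemma Eb_smul (A : Matrix L κ ℝ) (o : L) (c : ℝ) (F : Fn L) (b : ℝ) :
    Eb A o (c • F) b = c * Eb A o F b := by
  rw [Eb, Eb, (T.ex ℝ L κ).eq, (T.ex ℝ L κ).eq]; exact (T.ex ℝ L κ).smul A o _ c F b

lemma Eb_add (A : Matrix L κ ℝ) (o : L) {F G : Fn L} (hF : TS F) (hG : TS G) (b : ℝ) :
    Eb A o (F + G) b = Eb A o F b + Eb A o G b := by
  simp only [Eb, (T.ex ℝ L κ).eq]
  exact (T.ex ℝ L κ).add A o _ b ((T.ts ℝ L).c0 hF) ((T.ts ℝ L).c0 hG)

lemma Eb_sub_cb (A : Matrix L κ ℝ) (o : L) {F : Fn L} (hF : TS F) {c : ℝ → ℝ} (hc : TS (cb c : Fn L))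
    (b : ℝ) : Eb A o (F - cb c) b = Eb A o F b - c b := by
  simp only [Eb, (T.ex ℝ L κ).eq]
  rw [(T.ex ℝ L κ).sub A o _ b ((T.ts ℝ L).c0 hF) ((T.ts ℝ L).c0 hc)]
  exact congrArg _ ((T.ex ℝ L κ).const A o _ (c b))

lemma Eb_neg (A : Matrix L κ ℝ) (o : L) {F : Fn L} (hF : rf F = -F) (b : ℝ) :
    Eb A o F (-b) = -Eb A o F b := by
  have h := Eb_smul T A o (-1) F b
  rw [neg_one_smul, neg_one_mul, ← hF] at h
  rw [← h, Eb, Eb, (T.ex ℝ L κ).eq, (T.ex ℝ L κ).eq, tanh_neg, (T.ex ℝ L κ).neg]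
  rfl

lemma sq_add (A : Matrix L κ ℝ) (o : L) {F G : Fn L} (hF : TS F) (hG : TS G) (b : ℝ) :
    Eb A o ((F + G) ^ 2) b ≤ 2 * Eb A o (F ^ 2) b + 2 * Eb A o (G ^ 2) b := by
  have t := T.ts ℝ L
  rw [← Eb_smul T, ← Eb_smul T, ← Eb_add T A o (t.smul _ (t.pow 2 hF)) (t.smul _ (t.pow 2 hG))]
  refine Eb_mono T A o (t.pow 2 (t.add hF hG))
    (t.add (t.smul _ (t.pow 2 hF)) (t.smul _ (t.pow 2 hG))) b fun s x => ?_
  simp only [Pi.pow_apply, Pi.add_apply, Pi.smul_apply, smul_eq_mul]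
  nlinarith [sq_nonneg (F b s x - G b s x)]

lemma sq_sum (A : Matrix L κ ℝ) (o : L) {I : Type} [Fintype I] {F : I → Fn L} (h : ∀ i, TS (F i))
    (b : ℝ) : Eb A o ((∑ i, F i) ^ 2) b ≤ Fintype.card I * ∑ i, Eb A o (F i ^ 2) b := by
  have t := T.ts ℝ L
  have e : Eb A o (∑ i, F i ^ 2) b = ∑ i, Eb A o (F i ^ 2) b := by
    simp only [Eb, (T.ex ℝ L κ).eq]
    exact (T.ex ℝ L κ).sum A o _ _ b fun i _ => t.c0 (t.pow 2 (h i))
  rw [← e, ← Eb_smul T]
  refine Eb_mono T A o (t.pow 2 (t.sum _ fun i _ => h i))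
    (t.smul _ (t.sum _ fun i _ => t.pow 2 (h i))) b fun s x => ?_
  simp only [Pi.pow_apply, Pi.smul_apply, smul_eq_mul, Finset.sum_apply]
  exact sq_sum_le_card_mul_sum_sq

lemma sq_cbm (A : Matrix L κ ℝ) (o : L) {c : ℝ → ℝ} {C : ℝ} (hc : TS (cb c : Fn L)) {F : Fn L}
    (hF : TS F) (b : ℝ) (h : |c b| ≤ C) :
    Eb A o ((cb c * F) ^ 2) b ≤ C ^ 2 * Eb A o (F ^ 2) b := by
  have t := T.ts ℝ L
  rw [← Eb_smul T]
  refine Eb_mono T A o (t.pow 2 (t.mul hc hF)) (t.smul _ (t.pow 2 hF)) b fun s x => ?_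
  simp only [Pi.pow_apply, Pi.mul_apply, Pi.smul_apply, smul_eq_mul, cb, mul_pow]
  exact mul_le_mul_of_nonneg_right (sq_le_sq' (abs_le.1 h).1 (abs_le.1 h).2) (sq_nonneg _)

end tl

lemma ext_single {e : K → L} (he : Function.Injective e) (a b : K) :
    Function.extend e (Pi.single a 1 - Pi.single b 1 : K → ℝ) 0 =
      (Pi.single (e a) 1 - Pi.single (e b) 1 : L → ℝ) := by
  funext y
  by_cases h : ∃ x, e x = y
  · obtain ⟨x, rfl⟩ := h
    simp [he.extend_apply, Pi.single_apply, he.eq_iff]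
  · rw [Function.extend_apply' _ _ _ h]
    have h1 : y ≠ e a := fun hy => h ⟨a, hy.symm⟩
    have h2 : y ≠ e b := fun hy => h ⟨b, hy.symm⟩
    simp [h1, h2]

lemma sq_lift (hL : LiftStmt) {n n' : ℕ} {N : Net n} {N' : Net n'} {ι : Ix n → Ix n'}
    (h : N.Ext N' ι) (a b : Ix n) :
    N'.sq (Pi.single (ι a) 1 - Pi.single (ι b) 1) = N.sq (Pi.single a 1 - Pi.single b 1) := by
  rw [← ext_single h.mono.injective, (hL 0 0 n n' N N' ι h).2.2.1]

lemma ext_trans (hL : LiftStmt) {n n' n'' : ℕ} {N : Net n} {N' : Net n'} {N'' : Net n''}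
    {ι : Ix n → Ix n'} {ι' : Ix n' → Ix n''} (h : N.Ext N' ι) (h' : N'.Ext N'' ι') :
    N.Ext N'' (ι' ∘ ι) := (hL 0 0 n n' N N' ι h).2.2.2.2.2 n'' N'' ι' h'

lemma ext_id {n : ℕ} (N : Net n) : N.Ext N id :=
  ⟨strictMono_id, rfl, fun _ => rfl, fun _ => rfl, fun _ _ => rfl,
    fun _ u h => absurd ⟨u, rfl⟩ h, fun _ => Iff.rfl, rfl, rfl, by simp⟩

end St58

open St58

theorem st1Glue : St1Glue := by
  intro T hAv _ hL hH hM β ν _ hR n N hN B h0 hB ρ hρ hE hrd e he δ hδ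
  classical
  -- the functions of the nodes in `B`
  let K := {v // v ∈ B}
  let o : K := ⟨0, h0⟩
  have pdB : (N.S.submatrix (Subtype.val : K → Ix n) Subtype.val).PosDef :=
    hN.pd.submatrix Subtype.val_injective
  obtain ⟨A, hA⟩ := root pdB.posSemidef
  let ρB : Fn K := pb (Rm (Subtype.val : K → Ix n))ᵀ ρ
  have bB : BS ρB := (T.bs K).pb _ hρ
  have rB : res Subtype.val ρB = ρ := by
    funext b s x
    refine hrd b s _ _ fun m hm => ?_
    simp only [mulVec, dotProduct, transpose_apply, Rm, of_apply, Function.comp_apply, ite_mul,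
      one_mul, zero_mul]
    rw [Finset.sum_eq_single (⟨m, hm⟩ : K) (fun y _ hy => if_neg fun h => hy (Subtype.ext h))
      (by simp)]
    simp
  have tK := T.ts ℝ K
  have EB : ∀ b, Eb A o ρB b = 0 := fun b => by
    rw [← Eb_res T (A := N.A) (e := Subtype.val) (o := 0) rfl hA (tK.c0 ((T.bs K).ts bB)), rB]
    exact hE b
  obtain ⟨θ, hθ, hθe⟩ := hH K A o (hA ▸ pdB) ρB bB (e / 8) (by positivity)
  obtain ⟨av1, -, -, av4⟩ := hAv K K A o ρB bB
  let c : ℝ → ℝ := fun b => gs (cx A o ρB) b true 0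
  have bc : BS (cb c : Fn K) := (T.bs K).gs av1
  obtain ⟨Cc, hCc⟩ := (T.bs K).bd bc
  have hcx : cx A o ρB = cb c * (sp - cb tanh) := by
    funext b s x
    have h1 := av4 b
    rw [EB b] at h1
    have h2 : cx A o ρB b s x = cx A o ρB b s 0 := rfl
    have h3 : c b = (cx A o ρB b true 0 - cx A o ρB b false 0) / 2 := rfl
    have h4 : gs (cx A o ρB) b true 0 = c b := rfl
    rw [h4] at h1
    rw [h2]
    cases s <;> simp only [Pi.mul_apply, Pi.sub_apply, cb, sp, spin] <;> simp <;> linarith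
  -- constants
  choose C hC using fun v : K => hM K (θ v) (hθ v) (∑ p : K, |N.S p p|)
  set k : ℝ := (Fintype.card K : ℝ) with hk
  have k0 : 0 ≤ k := Nat.cast_nonneg _
  set D : ℝ := 12 * Cc ^ 2 + 4 * (k * (k + ∑ v, |C v|)) + 1 with hD
  have D0 : 0 < D := by positivity
  set t : ℝ := e / 2 / D with ht
  have t0 : 0 < t := by positivity
  obtain ⟨n1, N1, ι1, u, hN1, x1, hu⟩ := hB (min δ t) (lt_min hδ t0)
  obtain ⟨n2, N2, ι2, al0, a0, hN2, x2, f0, -, -, hr⟩ := hR n1 N1 hN1 (Pi.single (u 0) 1)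
    (.inr ⟨u 0, (hu 0 h0).1, rfl⟩) 2 one_lt_two t t0
  have x12 := ext_trans hL x1 x2
  let j : K → Ix n2 := fun v => ι2 (ι1 v)
  have hj : (N2.A * N2.Aᵀ).submatrix j j = A * Aᵀ := by
    rw [hA, ← x12.S]; rfl
  have j0 : j o = 0 := x12.zero
  have hsq : ∀ v ∈ B, N2.sq (Pi.single (ι2 (u v)) 1 - Pi.single (ι2 (ι1 v)) 1) ≤ min δ t :=
    fun v hv => by rw [sq_lift hL x2]; exact (hu v hv).2
  choose η hη hη' using fun v : K => hC v (Ix n2) N2.A 0 (j v) (ι2 (u v)) j (fun p => by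
    have : (N2.A * N2.Aᵀ) (j p) (j p) = N.S p p := by
      have := congrFun (congrFun hj p) p
      rw [hA] at this; exact this
    rw [this]
    exact (le_abs_self _).trans (Finset.single_le_sum (f := fun p : K => |N.S p p|)
      (fun _ _ => abs_nonneg _) (Finset.mem_univ p))) t t0
  have b2 := T.bs (Ix n2)
  have t2 := T.ts ℝ (Ix n2)
  have bc2 : BS (cb c : Fn (Ix n2)) := b2.cb bc
  let G : K → Fn (Ix n2) := fun v => res j (θ v) * fun _ _ x => rr (η v) (x (ι2 (u v)))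
  have bG : ∀ v, BS (G v) := fun v => b2.mul (bs_res T j (hθ v)) (b2.rr _ _)
  have b0 : BS (0 : Fn (Ix n2)) := b2.const 0
  have bI : ∀ (v : K) (u' : Ix n2), BS (if ι2 (u v) = u' then G v else 0) := fun v u' => by
    split_ifs
    exacts [bG v, b0]
  let a : Ix n2 → Fn (Ix n2) := fun u' =>
    (∑ v : K, if ι2 (u v) = u' then G v else 0) + cb c * a0 u'
  refine ⟨n2, N2, ι2 ∘ ι1, ι2 ∘ u, cb c * al0, a, hN2, x12, ⟨b2.mul bc2 f0.bal, ?_, fun u' => ⟨?_, ?_⟩,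
    fun u' hu' => ?_⟩, fun b => ?_, fun v hv =>
      ⟨(x2.dr _).2 (hu v hv).1, (hsq v hv).trans (min_le_left _ _)⟩⟩
  · funext b s x
    have : gs al0 b s x = 0 := by rw [f0.free]; rfl
    simp only [gs, Pi.mul_apply, cb, Pi.zero_apply] at this ⊢
    rw [← mul_sub, mul_div_assoc, this, mul_zero]
  · exact b2.add (b2.sum _ fun v _ => bI v u') (b2.mul bc2 (f0.ba u').1)
  · simp only [a, add_mul, Finset.sum_mul, mul_assoc]
    refine b2.add (b2.sum _ fun v _ => ?_) (b2.mul bc2 (f0.ba u').2)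
    split_ifs with h
    · subst h
      simp only [G, mul_assoc]
      exact b2.mul (bs_res T j (hθ v)) (b2.yy _ (hη v) _)
    · rw [zero_mul]; exact b0
  · simp only [a, f0.nd u' hu', mul_zero, add_zero]
    refine Finset.sum_eq_zero fun v _ => if_neg fun h => hu' ?_
    rw [← h]; exact (x2.dr _).2 (hu v v.2).1
  have hS : N2.Sᵀ = N2.S := by simp [Net.S, transpose_mul]
  have d1 : N2.drift (cb c * al0) a = cb c * N2.drift al0 a0 + ∑ v : K, dl N2.S 0 (ι2 (u v)) (G v) := by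
    have : ∀ u', dl N2.S 0 u' (a u') = (∑ v : K, if ι2 (u v) = u' then dl N2.S 0 u' (G v) else 0) +
        cb c * dl N2.S 0 u' (a0 u') := fun u' => by
      simp only [a]
      rw [dl_add T _ _ _ (b2.df (b2.sum _ fun v _ => bI v u')) (b2.df (b2.mul bc2 (f0.ba u').1)),
        dl_cbm T, dl_sum T _ _ _ fun v => b2.df (bI v u')]
      congr 1
      refine Finset.sum_congr rfl fun v _ => ?_
      split_ifs
      exacts [rfl, dl_zero T _ _ _]
    simp only [Net.drift, dft, this, Finset.sum_add_distrib, mul_add, Finset.mul_sum]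
    rw [Finset.sum_comm]
    simp only [Finset.sum_ite_eq, Finset.mem_univ, if_true]
    ring
  have d2 : ∀ v : K, dl N2.S 0 (j v) (res j (θ v)) = res j (dl (A * Aᵀ) o v (θ v)) := fun v => by
    rw [← hj, ← j0]; exact dl_res T hS j o v ((T.bs K).df (hθ v))
  let X : Fn (Ix n2) := cb c * (N2.drift al0 a0 - (sp - cb tanh))
  let Y : K → Fn (Ix n2) := fun v => dl N2.S 0 (ι2 (u v)) (G v) - dl N2.S 0 (j v) (res j (θ v))
  let Z : Fn K := ∑ v, dl (A * Aᵀ) o v (θ v) - (ρB - cx A o ρB)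
  have d3 : N2.drift (cb c * al0) a - res (ι2 ∘ ι1) ρ = X + ∑ v, Y v + res j Z := by
    have e1 : res j Z = ∑ v, res j (dl (A * Aᵀ) o v (θ v)) -
        (res (ι2 ∘ ι1) ρ - cb c * (sp - cb tanh)) := by
      simp only [Z, hcx]
      rw [← rB]
      funext b s x
      simp only [res, Pi.sub_apply, Finset.sum_apply]
      rfl
    rw [d1, e1]
    simp only [X, Y, Finset.sum_sub_distrib, d2]
    ring
  have tt : TS (cb tanh : Fn (Ix n2)) := t2.cb (continuous_iff_continuousAt.2 fun x =>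
    (Tw.hasDerivAt_tanh' x).continuousAt)
  have tD : TS (N2.drift al0 a0 - (sp - cb tanh)) :=
    t2.sub (ts_dft T _ _ (b2.ts f0.bal) fun u' => b2.ts (f0.ba u').1) (t2.sub t2.sp tt)
  have tX : TS X := t2.mul (b2.ts bc2) tD
  have tY : ∀ v, TS (Y v) := fun v => t2.sub (ts_dl T _ _ _ (b2.ts (bG v)))
    (ts_dl T _ _ _ (b2.ts (bs_res T j (hθ v))))
  have tZ : TS Z := tK.sub (tK.sum _ fun v _ => ts_dl T _ _ _ ((T.bs K).ts (hθ v)))
    (tK.sub ((T.bs K).ts bB) ((T.bs K).ts av1))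
  have s1 := sq_add T N2.A 0 (t2.add tX (t2.sum Finset.univ fun v _ => tY v)) (ts_res T j tZ) b
  have s2 := sq_add T N2.A 0 tX (t2.sum Finset.univ fun v _ => tY v) b
  have s3 : Eb N2.A 0 (X ^ 2) b ≤ Cc ^ 2 * (3 * t) := by
    refine (sq_cbm T N2.A 0 (b2.ts bc2) tD b (hCc b true 0)).trans
      (mul_le_mul_of_nonneg_left ((hr b).trans ?_) (sq_nonneg _))
    have := ((hu 0 h0).2).trans (min_le_right _ _)
    rw [x1.zero] at this
    linarith
  have s4 : Eb N2.A 0 ((∑ v, Y v) ^ 2) b ≤ k * (k + ∑ v, |C v|) * t := by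
    refine (sq_sum T N2.A 0 tY b).trans ?_
    rw [mul_assoc]
    refine mul_le_mul_of_nonneg_left ((Finset.sum_le_sum fun v _ =>
      (?_ : _ ≤ t + |C v| * t)).trans (le_of_eq ?_)) k0
    · refine (hη' v b).trans (add_le_add le_rfl ?_)
      exact (mul_le_mul_of_nonneg_right (le_abs_self _) (quad_nonneg _ _)).trans
        (mul_le_mul_of_nonneg_left ((hsq v v.2).trans (min_le_right _ _)) (abs_nonneg _))
    · rw [Finset.sum_add_distrib, ← Finset.sum_mul, Finset.sum_const, Finset.card_univ,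
        nsmul_eq_mul, add_mul]
  have s5 : Eb N2.A 0 (res j Z ^ 2) b ≤ e / 8 := by
    have : res j Z ^ 2 = res j (Z ^ 2) := rfl
    rw [this, Eb_res T j0 hj.symm (tK.c0 (tK.pow 2 tZ))]
    exact hθe b
  have s6 : D * t = e / 2 := by rw [ht]; field_simp
  rw [Net.E, d3]
  nlinarith

namespace St58

/-- the nodes of `B` are close to drift nodes of extensions -/
def Near (β : ℝ) (ν : Measure ℝ) {n : ℕ} (N : Net n) (B : Set (Ix n)) : Prop :=
  ∀ e > (0 : ℝ), ∃ (n' : ℕ) (N' : Net n') (ι u : Ix n → Ix n'), N'.Ok β ν ∧ N.Ext N' ι ∧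
    ∀ v ∈ B, N'.dr (u v) ∧ N'.sq (Pi.single (u v) 1 - Pi.single (ι v) 1) ≤ e

lemma near_root (hL : LiftStmt) (hD : DrfStmt) {β : ℝ} (h0 : 0 < β) (h1 : β < 1) {ν : Measure ℝ}
    [IsProbabilityMeasure ν] (hR : RootTop β ν) {n : ℕ} {N : Net n} (hN : N.Ok β ν) :
    Near β ν N {0} := by
  set q : ℝ := (β + 1) / 2 with hq
  have q0 : 0 < q := by positivity
  have q1 : q < 1 := by linarith
  have hk : 1 < q / β := by rw [one_lt_div h0]; linarith
  have step : ∀ r > (0 : ℝ), ∀ (n1 : ℕ) (N1 : Net n1) (ι : Ix n → Ix n1) (w : Ix n1 → ℝ),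
      N1.Ok β ν → N.Ext N1 ι → (w = 0 ∨ ∃ u, N1.dr u ∧ w = Pi.single u 1) →
      N1.sq (w - Pi.single 0 1) ≤ r → ∃ (n' : ℕ) (N' : Net n') (ι : Ix n → Ix n') (u : Ix n'),
        N'.Ok β ν ∧ N.Ext N' ι ∧ N'.dr u ∧ N'.sq (Pi.single u 1 - Pi.single 0 1) ≤ q * r := by
    intro r r0 n1 N1 ι w hN1 x1 hw hr
    have ε0 : 0 < q * (1 - q) * r / 2 := by have : 0 < 1 - q := by linarith
                                            positivity
    obtain ⟨n2, N2, ι2, al, a, hN2, x2, f, e1, e2, h⟩ := hR n1 N1 hN1 w hw _ hk _ ε0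
    obtain ⟨n3, N3, ι3, u, hN3, x3, hu, h'⟩ := hD β ν n2 N2 hN2 al a f e1 e2 0
      (q / β * r + q * (1 - q) * r / 2) (fun b => by
        have : N2.E sp = tanh := funext fun b => ((S3L.mdlStmt _ 0).1 _ N2.A b).1
        rw [hN2.f0, this]
        exact (h b).trans (by nlinarith)) _ hk _ ε0
    refine ⟨n3, N3, _, u, hN3, ext_trans hL (ext_trans hL x1 x2) x3, hu, ?_⟩
    rw [x3.zero] at h'
    refine h'.trans ?_
    have e3 : q / β * β ^ 2 * (q / β * r + q * (1 - q) * r / 2) =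
        q ^ 2 * r + q * β * (q * (1 - q) * r / 2) := by field_simp
    have e4 : q * β ≤ 1 := by nlinarith
    rw [e3]; nlinarith
  set r0 : ℝ := max (N.sq (0 - Pi.single 0 1)) 1 with hr0
  have p0 : 0 < r0 := lt_max_of_lt_right one_pos
  have it : ∀ j : ℕ, ∃ (n' : ℕ) (N' : Net n') (ι : Ix n → Ix n') (u : Ix n'),
      N'.Ok β ν ∧ N.Ext N' ι ∧ N'.dr u ∧
        N'.sq (Pi.single u 1 - Pi.single 0 1) ≤ q * (q ^ j * r0) := fun j => by
    induction j with
    | zero => exact step _ (by positivity) n N id 0 hN (ext_id N) (.inl rfl) (by simp [hr0])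
    | succ j ih =>
      obtain ⟨n1, N1, ι, u, hN1, x1, hu, h⟩ := ih
      exact step _ (by positivity) n1 N1 ι _ hN1 x1 (.inr ⟨u, hu, rfl⟩)
        (h.trans (le_of_eq (by ring)))
  intro e he
  obtain ⟨j, hj⟩ := exists_pow_lt_of_lt_one (div_pos he p0) q1
  obtain ⟨n1, N1, ι, u, hN1, x1, hu, h⟩ := it j
  refine ⟨n1, N1, ι, fun _ => u, hN1, x1, fun v hv => ⟨hu, ?_⟩⟩
  rw [show v = 0 from hv, x1.zero]
  rw [lt_div_iff₀ p0] at hj
  nlinarith [mul_pos (pow_pos q0 j) p0]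

lemma near_step (T : Tl) (hAv : AvStmt) (hL : LiftStmt) (hD : DrfStmt) (hS : SymStmt) {β : ℝ}
    (h0 : 0 < β) (h1 : β < 1) {ν : Measure ℝ} [IsProbabilityMeasure ν] (h : St1Stmt β ν) {n : ℕ}
    {N : Net n} (hN : N.Ok β ν) {B : Set (Ix n)} (hB0 : 0 ∈ B) (hB : Near β ν N B) (l : Ix n)
    (hl : ∀ m < l, m ∈ B) : Near β ν N (insert l B) := by
  classical
  intro e he
  have b1 := T.bs (Ix n)
  have bc : BS (cb (N.E (N.f l)) : Fn (Ix n)) := (hAv _ _ N.A 0 _ (hN.bs l)).2.1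
  have bρ : BS (N.f l - cb (N.E (N.f l))) := b1.sub (hN.bs l) bc
  obtain ⟨n1, N1, ι1, u1, al, a, hN1, x1, f, hE, hu⟩ := h n N hN B hB0 hB _ bρ
    (fun b => by rw [Net.E, Eb_sub_cb T _ _ (b1.ts (hN.bs l)) (b1.ts bc)]; exact sub_self _)
    (fun b s x x' hx => by
      simp only [Pi.sub_apply, cb, hN.rd l b s x x' fun m hm => hx m (hl m hm)])
    (e / 4) (by positivity) e he
  have od : rf (N.f l - cb (N.E (N.f l))) = -(N.f l - cb (N.E (N.f l))) := by
    funext b s x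
    have h2 : N.f l (-b) (!s) (-x) = -N.f l b s x := congrFun (congrFun (congrFun (hN.od l) b) s) x
    have h3 : N.E (N.f l) (-b) = -N.E (N.f l) b := Eb_neg T _ _ (hN.od l) b
    simp only [rf, Pi.sub_apply, Pi.neg_apply, cb, h2, h3]; ring
  obtain ⟨al', a', f', e1, e2, hE'⟩ := hS n1 N1 _ al a _ f (bs_res T ι1 bρ) (by
    funext b s x
    exact congrFun (congrFun (congrFun od b) s) (x ∘ ι1)) hE
  have e3 : N1.f (ι1 l) - cb (N1.E (N1.f (ι1 l))) = res ι1 (N.f l - cb (N.E (N.f l))) := by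
    have : N1.E (res ι1 (N.f l)) = N.E (N.f l) := funext ((hL β ν n n1 N N1 ι1 x1).1 _
      (meas_of ((T.ts ℝ _).c0 (b1.ts (hN.bs l)))))
    rw [x1.f, this]; rfl
  obtain ⟨n2, N2, ι2, u2, hN2, x2, hu2, h2⟩ := hD β ν n1 N1 hN1 al' a' f' e1 e2 (ι1 l) (e / 4)
    (by rw [e3]; exact hE') 2 one_lt_two (e / 2) (by positivity)
  refine ⟨n2, N2, ι2 ∘ ι1, fun v => if v = l then u2 else ι2 (u1 v), hN2, ext_trans hL x1 x2,
    fun v hv => ?_⟩
  by_cases hvl : v = l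
  · subst hvl
    simp only [if_true]
    refine ⟨hu2, h2.trans ?_⟩
    have : β ^ 2 ≤ 1 := by nlinarith
    nlinarith
  · have hv' : v ∈ B := hv.resolve_left hvl
    simp only [if_neg hvl, Function.comp_apply, sq_lift hL x2]
    exact ⟨(x2.dr _).2 (hu v hv').1, (hu v hv').2⟩

lemma Near.mono {β : ℝ} {ν : Measure ℝ} {n : ℕ} {N : Net n} {B B' : Set (Ix n)}
    (h : Near β ν N B) (hB : B' ⊆ B) : Near β ν N B' := fun e he =>
  let ⟨n', N', ι, u, h1, h2, h3⟩ := h e he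
  ⟨n', N', ι, u, h1, h2, fun v hv => h3 v (hB hv)⟩

end St58

theorem stGlue : StGlue := by
  intro T hAv hL hD hS β h0 h1 ν _ hR h
  have key : ∀ (n : ℕ) (N : Net n), N.Ok β ν → Near β ν N univ := fun n N hN => by
    have : ∀ l : ℕ, Near β ν N {v | v.val < l ∨ v = 0} := fun l => by
      induction l with
      | zero => exact (near_root hL hD h0 h1 hR hN).mono fun v hv => hv.resolve_left (by simp)
      | succ l ih =>
        by_cases hl : l < n + 1
        · refine (near_step T hAv hL hD hS h0 h1 h hN (.inr rfl) ih ⟨l, hl⟩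
            fun m hm => .inl hm).mono fun v hv => ?_
          rcases hv with hv | hv
          · rcases Nat.lt_succ_iff_lt_or_eq.1 hv with hv | hv
            exacts [.inr (.inl hv), .inl (Fin.ext hv)]
          · exact .inr (.inr hv)
        · exact ih.mono fun v _ => .inl (lt_of_lt_of_le v.2 (not_lt.1 hl))
    exact (this (n + 1)).mono fun v _ => .inl v.2
  refine ⟨fun n N hN e he => ?_, fun n N hN ρ hρ hE e he => ?_⟩
  · obtain ⟨n', N', ι, u, h1, h2, h3⟩ := key n N hN e he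
    exact ⟨n', N', ι, u, h1, h2, fun v => h3 v trivial⟩
  · obtain ⟨n', N', ι, -, al, a, h1, h2, h3, h4, -⟩ := h n N hN univ trivial (key n N hN) ρ hρ hE
      (fun b s x x' hx => by rw [funext fun m => hx m trivial]) e he 1 one_pos
    exact ⟨n', N', ι, al, a, h1, h2, h3, h4⟩

end Crest.Agent.T157.Nt
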