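import Crest.Agent.T157.NetTopC_91
import Crest.Agent.T157.NetDefB_32

/-!
# Row 157, block B/S3, section 7 (helper91): the top family, IV. `TopGlue`
-/

set_option autoImplicit false
set_option linter.unusedSectionVars false

noncomputable section

namespace Crest.Agent.T157.Nt

open MeasureTheory Matrix Real Set Filter Topology
open Crest.Agent.T157.Tw (sech2 SV Out2)

/-- `TopStmt` with the energy of the top family bounded through the energy of the ansatz -/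
def TopStmtX : Prop := ∀ β > (0 : ℝ), ∀ (ν : Measure ℝ) [IsProbabilityMeasure ν] (n : ℕ)
    (N : Net n) (e : Tw.Ext) (D : ℕ) (l a ε : ℝ) Ξ al0, 0 ≤ a → a < l → 0 < ε →
  Sim β ν N e _ id → Out2 e D l a ε Ξ al0 → ∀ δ > (0 : ℝ),
  ∃ (n' : ℕ) (N' : Net n') (ι : Ix n → Ix n'), N'.Ok β ν ∧ N.Ext N' ι ∧
    ∃ ψ m ρ, N'.Top l a (2 * ε) al0 ψ m ρ ∧
      ∀ b, N'.Q ψ b ≤ 2 * sech2 b + 2 * Tw.Mf e.b b 1 (Ξ b) + δ

namespace Top91

lemma hal_num {p S S0 ρ ρ0 a l δ ε al : ℝ} (p0 : 0 < p) (p1 : p ≤ 1) (hl : 0 < l) (ha : 0 ≤ a)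
    (h0 : l / 2 ≤ ρ0) (h1 : l / 4 ≤ ρ) (h2 : |ρ - ρ0| ≤ δ) (h3 : |S - S0| ≤ δ)
    (h4 : δ * (1 + 8 * a / l ^ 2) ≤ ε) (h5 : |1 / p + S0 - a / (ρ0 * p) - al| ≤ ε / p) :
    |1 / p + S - a / (ρ * p) - al| ≤ 2 * ε / p := by
  have r0 : 0 < ρ0 := by linarith
  have r1 : 0 < ρ := by linarith
  have d0 : 0 ≤ δ := (abs_nonneg _).trans h2
  have e : 1 / p + S - a / (ρ * p) - al = (1 / p + S0 - a / (ρ0 * p) - al) + (S - S0) +
      a / (ρ * ρ0) * (ρ - ρ0) / p := by field_simp; ring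
  have k1 : a / (ρ * ρ0) ≤ 8 * a / l ^ 2 := by
    rw [div_le_div_iff₀ (by positivity) (by positivity)]
    have := mul_le_mul h1 h0 (by positivity) r1.le
    nlinarith [mul_le_mul_of_nonneg_left this ha]
  have k2 : |a / (ρ * ρ0) * (ρ - ρ0) / p| ≤ 8 * a / l ^ 2 * δ / p := by
    rw [abs_div, abs_of_pos p0, abs_mul, abs_of_nonneg (by positivity)]
    exact div_le_div_of_nonneg_right (mul_le_mul k1 h2 (abs_nonneg _) (by positivity)) p0.le
  have k3 : δ ≤ δ / p := le_div_self d0 p0 p1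
  have k4 : δ / p + 8 * a / l ^ 2 * δ / p ≤ ε / p := by
    rw [← add_div]; exact div_le_div_of_nonneg_right (by linarith) p0.le
  rw [e, mul_div_assoc 2]
  refine (abs_add_le _ _).trans ((add_le_add (abs_add_le _ _) k2).trans ?_)
  linarith

abbrev Th (K T : Type) : Type := ℝ × Matrix K K ℝ × Matrix K K ℝ × Matrix (K ⊕ T) (K ⊕ T) ℝ

instance {K L : Type} [Fintype K] [Fintype L] : FirstCountableTopology (Matrix K L ℝ) :=
  inferInstanceAs (FirstCountableTopology (K → L → ℝ))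

/-- the family -/
def fam (β a : ℝ) (e : Tw.Ext) (G : ℝ → Fn (Fin e.b.m)) :
    Dt (Th (Rw e.bt.m (Fin e.b.m)) (Fin e.b.m) × Im) (Rw e.bt.m (Fin e.b.m)) (Fin e.b.m) where
  o := none
  τ := fun x => some (.inr x)
  Rm := of fun x y => β⁻¹ * nv e id x (.inl y)
  c := β⁻¹
  a := a
  η := fun p => p.1.1
  A := fun p => p.1.2.1
  m := fun p => p.2.1
  H := fun p => G p.1.1 p.2.1

/-- the family at one value of the parameter -/
def Dt.rd {Θ K T : Type} (d : Dt (Θ × Im) K T) (θ : Θ) : Dt ℝ K T :=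
  ⟨d.o, d.τ, d.Rm, d.c, d.a, fun b => d.η (θ, ti b), fun b => d.A (θ, ti b), fun b => d.m (θ, ti b),
    fun b => d.H (θ, ti b)⟩

section rd
variable {Θ K T : Type} [Fintype K] [DecidableEq K] [Fintype T] [DecidableEq T]
  (d : Dt (Θ × Im) K T) (θ : Θ)

lemma rd_ps : (d.rd θ).ps = fun b => d.ps (θ, ti b) := by
  funext b s x
  simp only [Dt.ps, Pi.sub_apply, Finset.sum_apply]
  rfl

lemma rd_dv (u : K) (F : Fj (Θ × Im) K) :
    (d.rd θ).dv u (fun b => F (θ, ti b)) = fun b => d.dv u F (θ, ti b) := by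
  funext b s x
  simp only [Dt.dv, Pi.sub_apply, Finset.sum_apply]
  rfl

lemma rd_R : (d.rd θ).R = fun b => d.R (θ, ti b) := by
  have k : ∀ u, (d.rd θ).dv ((d.rd θ).τ u) ((d.rd θ).mt u) =
      fun b => d.dv (d.τ u) (d.mt u) (θ, ti b) := fun u => rd_dv d θ (d.τ u) (d.mt u)
  funext b s x
  simp only [Dt.R, Pi.sub_apply, Pi.add_apply, Finset.sum_apply, rd_ps, k]
  rfl

lemma rd_Q (PD : Θ × Im → Matrix K K ℝ) (F : Fj (Θ × Im) K) (b : ℝ) :
    (d.rd θ).Q (fun _ => PD (θ, ti b)) (fun b => F (θ, ti b)) b = d.Q PD F (θ, ti b) := rfl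

lemma rd_Vr (F : Fj (Θ × Im) K) (b : ℝ) :
    (d.rd θ).Vr (fun b => F (θ, ti b)) b = d.Vr F (θ, ti b) := rfl

lemma rd_En (P : Θ × Im → Matrix (K ⊕ T) (K ⊕ T) ℝ) (b : ℝ) :
    (d.rd θ).En (fun _ => P (θ, ti b)) b = d.En P (θ, ti b) := by
  have k : ∀ i, (d.rd θ).φ i = fun b => d.φ i (θ, ti b) := fun i => by
    cases i with
    | inl x => simp only [Dt.φ, Sum.elim_inl, rd_ps]; rfl
    | inr x => rfl
  simp only [Dt.En, k]
  rfl

end rd

lemma fam_ct (t : Tl) (β a : ℝ) {e : Tw.Ext} {G : ℝ → Fn (Fin e.b.m)} (hG : TS (up G)) :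
    (fam β a e G).Ct where
  η := by unfold fam; fun_prop
  A := by unfold fam; fun_prop
  m := by unfold fam; fun_prop
  m1 := fun p => abs_le.2 p.2.2
  H := (t.ts _ _).re (φ := fun p : Th _ _ × Im => (p.1.1, p.2)) (by fun_prop) hG

lemma fam_at {β : ℝ} (hβ : 0 < β) (a : ℝ) {e : Tw.Ext} {G : ℝ → Fn (Fin e.b.m)} {b : ℝ}
    {Ξ : SV e.b.m} (h0 : ∀ s x, G 0 (tanh b) s x = Ξ.1 s (WithLp.toLp 2 x)) (hI : Tw.Irr e.b b Ξ)
    {A0 : Matrix _ _ ℝ} (hA : A0 * A0ᵀ = Vm β e id * (Vm β e id)ᵀ) (PD P) :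
    At e (fam β a e G) (Vm β e id) ((0, A0, PD, P), ti b) b Ξ where
  o := rfl
  τ := fun u k => inv_mul_cancel_left₀ hβ.ne' _
  Rm := by
    ext x k
    simp [fam, mul_apply, Fintype.sum_option, Fintype.sum_sum_type, nv, Vm, Pi.single_apply]
    field_simp
  η := rfl
  A := hA
  m := rfl
  H := h0
  irr := hI

lemma gg (e : Tw.Ext) : e.bt.g ⬝ᵥ e.bt.g = e.b.g ⬝ᵥ e.b.g := by
  rw [e.hg, dotProduct_mulVec, ← mulVec_transpose, mulVec_mulVec, e.iso, one_mulVec]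

end Top91

open Top91 in
theorem topX (t : Tl) (hF : Tw.FamApi) (hA : AvStmt) (hC : CutStmt) (hD : DictStmt)
    (hFa : FactStmt) : TopStmtX := by
  intro β hβ ν _ n N e D l a ε Ξ al0 ha hal hε hS hO δ0 hδ0
  obtain ⟨n', ι, M, u, P, Ns, hN, l1, l2, l3, hP⟩ := hS
  obtain ⟨A, A0, hAj, hA0, lA⟩ := (t.gc Unit _ Unit none).2.2.2 _ _ (fun j => by
    have := (hN j).1.pd.posSemidef.mul_mul_conjTranspose_same (Mm M u)
    rwa [conjTranspose_eq_transpose_of_trivial] at this) l1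
  obtain ⟨G, hG, hodd, h0⟩ := hC e.b Ξ (hF.le _ hO.1.1) hO.1.2.1
  have hl : 0 < l := by linarith
  obtain ⟨δ, d0, d1, d2, d3, d4⟩ : ∃ δ > (0 : ℝ), δ ≤ δ0 ∧ δ ≤ 1 ∧ δ ≤ l / 4 ∧
      δ * (1 + 8 * a / l ^ 2) ≤ ε := by
    refine ⟨min (min δ0 1) (min (l / 4) (ε / (1 + 8 * a / l ^ 2))), by positivity,
      (min_le_left _ _).trans (min_le_left _ _), (min_le_left _ _).trans (min_le_right _ _),
      (min_le_right _ _).trans (min_le_left _ _), ?_⟩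
    rw [← le_div_iff₀ (by positivity)]
    exact (min_le_right _ _).trans (min_le_right _ _)
  have d5 : δ ≤ ε := by
    have : 0 ≤ δ * (8 * a / l ^ 2) := by positivity
    linarith
  set d := fam β a e G with hdd
  have hd : d.Ct := fam_ct t β a hG.1
  set θ0 : Th _ _ := (0, A0, Vm β e id * e.bt.A * (Vm β e id)ᵀ, P) with hθ0
  have hat : ∀ b, At e d (Vm β e id) (θ0, ti b) b (Ξ b) := fun b =>
    fam_at hβ a (h0 b) (hO.2 b).1 hA0 _ _
  have cP : Continuous fun p : Th (Rw e.bt.m (Fin e.b.m)) (Fin e.b.m) × Im => p.1.2.2.1 := by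
    fun_prop
  have cP' : Continuous fun p : Th (Rw e.bt.m (Fin e.b.m)) (Fin e.b.m) × Im => p.1.2.2.2 := by
    fun_prop
  have lim : Tendsto (fun j : ℕ => ((1 / ((j : ℝ) + 1), A j, Mm M u * (Ns j).PD * (Mm M u)ᵀ,
      Mh M u * (Ns j).P1 * (Mh M u)ᵀ) : Th _ _)) atTop (𝓝 θ0) :=
    tendsto_one_div_add_atTop_nhds_zero_nat.prodMk_nhds (lA.prodMk_nhds (l2.prodMk_nhds l3))
  obtain ⟨j, u1, u2, u3, u4, u5, u6⟩ := (lim.eventually ((unif t (c_En t hd cP') θ0 d0).and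
    ((unif t (c_ρ t hd) θ0 d0).and ((unif t (c_Q t hd cP (ts_R t hd)) θ0 d0).and
    ((unif t (c_Vr t hd (ts_R t hd)) θ0 d0).and ((unif t (c_Q t hd cP (ts_ps t hd)) θ0 d0).and
    (unif t (c_S hd d.o d.o) θ0 d0))))))).exists
  set θ : Th _ _ := (1 / ((j : ℝ) + 1), A j, Mm M u * (Ns j).PD * (Mm M u)ᵀ,
      Mh M u * (Ns j).P1 * (Mh M u)ᵀ) with hθ
  have hη : 1 / ((j : ℝ) + 1) ≠ 0 := by positivity
  have h : Re (d.rd θ) (A j) (1 / ((j : ℝ) + 1)) := ⟨hη, rfl, rfl, rfl, hG.2 _ hη, by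
    funext b s x
    have := congrFun (congrFun (congrFun (hodd (1 / ((j : ℝ) + 1))) (tanh b)) s) x
    exact (congrArg (fun m => G _ m (!s) (-x)) (tanh_neg b)).trans this⟩
  have hS := hAj j
  have m0 : Mm M u (d.rd θ).o = Pi.single 0 1 := rfl
  have mu : ∀ x, Mm M u ((d.rd θ).τ x) = Pi.single (u x) 1 := fun _ => rfl
  have hdr := (hN j).2.2
  have p0 : ∀ b, 0 < sech2 b := fun b => by unfold sech2; have := cosh_pos b; positivity
  have p1 : ∀ b, sech2 b ≤ 1 := fun b => by rw [Tw.Cal52.sech2_eq]; nlinarith [sq_nonneg (tanh b)]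
  have q0 : ∀ b, (Tw.imS e.b b).En (Tw.sS _) (Tw.sS _ + Ξ b) = d.ρ (θ0, ti b) * sech2 b :=
    fun b => (q_at t hD hd (hat b)).symm.trans (q_eq t d (hat b).m).2
  have r0 : ∀ b, l / 2 ≤ d.ρ (θ0, ti b) ∧ d.ρ (θ0, ti b) ≤ 2 := fun b => by
    obtain ⟨-, -, -, -, k1, k2, -⟩ := hO.2 b
    rw [q0] at k1 k2
    exact ⟨le_of_mul_le_mul_right (by linarith) (p0 b), le_of_mul_le_mul_right k2 (p0 b)⟩
  have r1 : ∀ b, l / 4 ≤ d.ρ (θ, ti b) ∧ d.ρ (θ, ti b) ≤ 3 := fun b => by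
    have := abs_le.1 (u2 b)
    exact ⟨by linarith [(r0 b).1], by linarith [(r0 b).2]⟩
  have hQ : ∀ b, (Ns j).Q (pb (Mm M u) (d.rd θ).ps) b ≤
      2 * sech2 b + 2 * Tw.Mf e.b b 1 (Ξ b) + δ := fun b => by
    have k1 := Qψ_at t hD hd (hat b) (PD := fun p => p.1.2.2.1) rfl
    have k2 := (abs_le.1 (u5 b)).2
    rw [Q_pb t h hS m0 (ts_ps t (h.ct t)), rd_ps]
    exact (rd_Q d θ (fun p => p.1.2.2.1) _ b).trans_le (by linarith)
  have hR := fun b => QR_at t hD hd (hat b) (PD := fun p => p.1.2.2.1) rfl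
  refine ⟨n', Ns j, ι, (hN j).1, (hN j).2.1, pb (Mm M u) (d.rd θ).ps, mN (d.rd θ) (Mm M u) u,
    (d.rd θ).ρ, ⟨lt_pb t h hA, by rw [rf_pb, od_ps t h, pb_neg], flw t h mu hA hdr, fun v => ?_,
      E_dx t h hS m0, E_mN t h hS m0, fun b => ?_, bs_ρ t h hA, fun b => ⟨ev_ρ t h b, r1 b⟩,
      hq_pb t h hS m0, c3_pb t h hS m0 mu hA hdr hFa (hN j).1, fun b => ?_, fun b => ?_,
      fun b => ?_, fun b => ?_⟩, fun b => (hQ b).trans (by linarith)⟩
  · simp only [mN_eq, rf_sum, rf_smul, rf_pb, ev_mt t h]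
  · rw [E_quad t h hS m0 (ts_φ t (h.ct t)) (Mh M u) (Ns j).P1 fun p => ?_]
    · have k1 := En_at t hD hd (hat b) (P := fun p => p.1.2.2.2) (nv e id) hP (fun _ _ => rfl)
        fun _ _ => rfl
      have k2 := (abs_le.1 (u1 b)).2
      exact (rd_En d θ (fun p => p.1.2.2.2) b).trans_le (by linarith)
    · rw [Fintype.sum_sum_type]
      cases p with
      | inl v =>
        simp only [Sum.elim_inl, Mh, Pi.zero_apply, zero_smul, Finset.sum_const_zero, add_zero]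
        exact ((t.dx ℝ _).pb _ v ((t.ts ℝ _).df (ts_ps t (h.ct t)))).2
      | inr v =>
        simp only [Sum.elim_inr, Mh, Pi.zero_apply, zero_smul, Finset.sum_const_zero, zero_add,
          mN_eq, Dt.φ, pb_neg, smul_neg, Finset.sum_neg_distrib, Pi.single_apply, eq_comm]
  · have k2 := (abs_le.1 (u3 b)).2
    have k3 := (hO.2 b).2.2.1
    obtain ⟨k4, k5, k6⟩ := hR b
    refine (congrArg (fun F => (Ns j).Q F b) (R_pb t h hS m0 mu)).trans_le ?_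
    rw [Q_pb t h hS m0 (ts_R t (h.ct t)), rd_R]
    rw [show d.a = a from rfl] at k4
    exact (rd_Q d θ (fun p => p.1.2.2.1) _ b).trans_le (by linarith)
  · have k2 := (abs_le.1 (u4 b)).2
    have k3 := (hO.2 b).2.2.1
    obtain ⟨k4, k5, k6⟩ := hR b
    refine (congrArg (fun F => Cv (Ns j).A 0 F F b) (R_pb t h hS m0 mu)).trans_le ?_
    rw [Cv_pb t h hS m0 (ts_R t (h.ct t)), rd_R, rd_Vr]
    rw [show d.a = a from rfl] at k4
    linarith
  · have k1 := (hO.2 b).2.2.2.1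
    have e1 : 16 * (1 + a) / (l - a) = 2 * (8 * (1 + a) / (l - a)) := by ring
    linarith [hQ b, p1 b]
  · have k1 := (hO.2 b).2.2.2.2.2.2
    have k2 : d.S d.o d.o (θ0, ti b) = e.b.g ⬝ᵥ e.b.g := (S_at (hat b) _ _).trans (gg e)
    rw [q0, ← k2] at k1
    rw [← S_eq h hS m0 b]
    exact hal_num (p0 b) (p1 b) hl ha (r0 b).1 (r1 b).1 (u2 b) (u6 b) d4 k1

theorem topGlue : TopGlue := fun t hF hA hC hD hFa β hβ ν _ n N e D l a ε Ξ al0 ha hal hε hS hO => by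
  obtain ⟨n', N', ι, h1, h2, ψ, m, ρ, h3, -⟩ :=
    topX t hF hA hC hD hFa β hβ ν n N e D l a ε Ξ al0 ha hal hε hS hO 1 one_pos
  exact ⟨n', N', ι, h1, h2, ψ, m, ρ, h3⟩

theorem topGlueW : TopGlueW :=
    fun t hF hA hC hD hFa β hβ ν _ n N e D l a ε Ξ al0 ha hal hε hS hO hM => by
  obtain ⟨n', N', ι, h1, h2, ψ, m, ρ, h3, h4⟩ :=
    topX t hF hA hC hD hFa β hβ ν n N e D l a ε Ξ al0 ha hal hε hS hO ε hε
  refine ⟨n', N', ι, h1, h2, ψ, m, ρ, h3, fun b => (h4 b).trans ?_⟩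
  have k : 0 ≤ 4 / (l - a) ^ 2 * ε := by positivity
  have e1 : 8 / (l - a) ^ 2 = 2 * (4 / (l - a) ^ 2) := by ring
  rw [e1]
  nlinarith [hM b]

end Crest.Agent.T157.Nt

end
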