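import Crest.Agent.T157.NetDef_32

/-!
# Row 157, block B/S3, section 7: continuous families and the cut-off (helper14)
-/

set_option autoImplicit false
set_option linter.unusedSectionVars false

noncomputable section

namespace Crest.Agent.T157.Nt

open Matrix Real Set
open Crest.ProbabilityR.SpinGlassDynamics (spin)
open Crest.Agent.T157.Tw (sech2)

namespace Ts14

variable {J L : Type} [TopologicalSpace J] [Fintype L]

lemma c0_norm {F : Fj J L} (h : C0 F) : ∃ (k : ℝ) (C : J → ℝ), 0 ≤ k ∧ Continuous C ∧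
    (∀ θ, 0 ≤ C θ) ∧ ∀ θ s x, |F θ s x| ≤ C θ * exp (k * ‖x‖) := by
  obtain ⟨-, k, C, hC, hb⟩ := h
  have C0 : ∀ θ, 0 ≤ C θ := fun θ => by
    simpa using (abs_nonneg _).trans (hb θ true 0)
  refine ⟨max k 0, C, le_max_right _ _, hC, C0, fun θ s x => (hb θ s x).trans ?_⟩
  gcongr
  · exact C0 θ
  · exact le_max_left _ _

lemma c0_cb {c : J → ℝ} (hc : Continuous c) : C0 (cb c : Fj J L) :=
  ⟨fun _ => hc.comp continuous_fst, 0, fun θ => |c θ|, hc.abs, fun θ s x => by simp [cb]⟩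

lemma c0_add {F G : Fj J L} (hF : C0 F) (hG : C0 G) : C0 (F + G) := by
  obtain ⟨k, C, k0, hC, C0, hb⟩ := c0_norm hF
  obtain ⟨k', C', k0', hC', C0', hb'⟩ := c0_norm hG
  refine ⟨fun s => (hF.1 s).add (hG.1 s), k + k', fun θ => C θ + C' θ, hC.add hC',
    fun θ s x => (abs_add_le _ _).trans ?_⟩
  rw [add_mul]
  refine add_le_add ((hb θ s x).trans ?_) ((hb' θ s x).trans ?_)
  · gcongr
    · exact C0 θ
    · linarith
  · gcongr
    · exact C0' θ
    · linarith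

lemma c0_mul {F G : Fj J L} (hF : C0 F) (hG : C0 G) : C0 (F * G) := by
  obtain ⟨k, C, -, hC, C0, hb⟩ := c0_norm hF
  obtain ⟨k', C', -, hC', -, hb'⟩ := c0_norm hG
  refine ⟨fun s => (hF.1 s).mul (hG.1 s), k + k', fun θ => C θ * C' θ, hC.mul hC',
    fun θ s x => (abs_mul _ _).trans_le ?_⟩
  refine (mul_le_mul (hb θ s x) (hb' θ s x) (abs_nonneg _)
    (mul_nonneg (C0 θ) (exp_pos _).le)).trans_eq ?_
  rw [add_mul, exp_add]; ring

lemma c0_smul (c : ℝ) {F : Fj J L} (hF : C0 F) : C0 (c • F) :=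
  c0_mul (c0_cb (continuous_const (y := c))) hF

lemma c0_sub {F G : Fj J L} (hF : C0 F) (hG : C0 G) : C0 (F - G) := by
  have := c0_add hF (c0_smul (-1) hG)
  rwa [neg_one_smul, ← sub_eq_add_neg] at this

lemma c0_sum {I : Type} (T : Finset I) {F : I → Fj J L} (h : ∀ i ∈ T, C0 (F i)) :
    C0 (∑ i ∈ T, F i) :=
  Finset.sum_induction F C0 (fun _ _ => c0_add) (c0_cb (continuous_const (y := (0 : ℝ)))) h

lemma c0_re {J' : Type} [TopologicalSpace J'] {φ : J' → J} (ϖ : Bool → Bool) {F : Fj J L}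
    (hφ : Continuous φ) (hF : C0 F) : C0 (fun θ s => F (φ θ) (ϖ s) : Fj J' L) := by
  obtain ⟨h1, k, C, hC, hb⟩ := hF
  exact ⟨fun s => (h1 (ϖ s)).comp ((hφ.comp continuous_fst).prodMk continuous_snd), k,
    fun θ => C (φ θ), hC.comp hφ, fun θ s x => hb _ _ _⟩

lemma c0_bdd {F : Fj J L} (h : ∀ s, Continuous fun p : J × (L → ℝ) => F p.1 s p.2)
    (hb : ∀ θ s x, |F θ s x| ≤ 1) : C0 F :=
  ⟨h, 0, fun _ => 1, continuous_const, fun θ s x => by simpa using hb θ s x⟩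

lemma c0_sp : C0 (sp : Fj J L) :=
  c0_bdd (fun _ => continuous_const) fun _ s _ => by cases s <;> simp [sp, spin]

lemma c0_co (l : L) : C0 (co l : Fj J L) :=
  ⟨fun _ => (continuous_apply l).comp continuous_snd, 1, fun _ => 1, continuous_const,
    fun _ _ x => by
      rw [one_mul, one_mul]
      exact (norm_le_pi_norm x l).trans (by linarith [add_one_le_exp ‖x‖])⟩

lemma c0_pb {K : Type} [Fintype K] (M : Matrix K L ℝ) {F : Fj J K} (hF : C0 F) : C0 (pb M F) := by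
  classical
  obtain ⟨k, C, k0, hC, C0, hb⟩ := c0_norm hF
  let A := LinearMap.toContinuousLinearMap M.mulVecLin
  refine ⟨fun s => (hF.1 s).comp (continuous_fst.prodMk (A.continuous.comp continuous_snd)),
    k * ‖A‖, C, hC, fun θ s x => (hb θ s _).trans ?_⟩
  rw [mul_assoc]
  gcongr
  · exact C0 θ
  · exact A.le_opNorm x

variable [DecidableEq L]

omit [TopologicalSpace J] in
lemma dx_add (l : L) {F G : Fj J L} (hF : Df F) (hG : Df G) : dx l (F + G) = dx l F + dx l G := by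
  funext θ s x
  have := ((hF θ s x).hasFDerivAt.add (hG θ s x).hasFDerivAt).fderiv
  change fderiv ℝ (F θ s + G θ s) x _ = _
  rw [this]; rfl

omit [TopologicalSpace J] in
lemma dx_mul (l : L) {F G : Fj J L} (hF : Df F) (hG : Df G) :
    dx l (F * G) = dx l F * G + F * dx l G := by
  funext θ s x
  have := ((hF θ s x).hasFDerivAt.mul (hG θ s x).hasFDerivAt).fderiv
  change fderiv ℝ (F θ s * G θ s) x _ = _
  rw [this]
  simp [dx]; ring

omit [TopologicalSpace J] in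
lemma dx_const (l : L) {F : Fj J L} (h : ∀ θ s, ∃ c, F θ s = fun _ => c) : dx l F = 0 := by
  funext θ s x
  obtain ⟨c, hc⟩ := h θ s
  simp [dx, hc]

lemma ts_of {S : Set (Fj J L)} (hS : ∀ F ∈ S, C0 F ∧ Df F ∧ ∀ l, dx l F ∈ S) {F : Fj J L}
    (hF : F ∈ S) : TS F := fun w => by
  induction w generalizing F with
  | nil => exact ⟨(hS F hF).1, (hS F hF).2.1⟩
  | cons i w ih => exact ih ((hS F hF).2.2 i)

lemma ts_adjoin {T : Set (Fj J L)} (hT : ∀ F ∈ T, C0 F ∧ Df F ∧ ∀ l, dx l F ∈ Algebra.adjoin ℝ T)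
    {F : Fj J L} (hF : F ∈ Algebra.adjoin ℝ T) : TS F := by
  refine ts_of (S := Algebra.adjoin ℝ T) (fun h hh => ?_) hF
  induction hh using Algebra.adjoin_induction with
  | mem x hx => exact hT x hx
  | algebraMap r => exact ⟨c0_cb (continuous_const (y := r)), fun _ _ => differentiable_const r,
      fun l => by
        rw [dx_const l (F := algebraMap ℝ (Fj J L) r) fun _ _ => ⟨r, rfl⟩]; exact zero_mem _⟩
  | add x y _ _ hx hy => exact ⟨c0_add hx.1 hy.1, fun θ s => (hx.2.1 θ s).add (hy.2.1 θ s),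
      fun l => by rw [dx_add l hx.2.1 hy.2.1]; exact add_mem (hx.2.2 l) (hy.2.2 l)⟩
  | mul x y mx my hx hy => exact ⟨c0_mul hx.1 hy.1, fun θ s => (hx.2.1 θ s).mul (hy.2.1 θ s),
      fun l => by
        rw [dx_mul l hx.2.1 hy.2.1]
        exact add_mem (mul_mem (hx.2.2 l) my) (mul_mem mx (hy.2.2 l))⟩

lemma ts_dx (l : L) {F : Fj J L} (h : TS F) : TS (dx l F) := fun w => h (l :: w)

/-- a new atom -/
lemma ts_atom {A : Fj J L} (h0 : C0 A) (h1 : Df A)
    (h2 : ∀ l, dx l A ∈ Algebra.adjoin ℝ (insert A {G : Fj J L | TS G})) : TS A :=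
  ts_adjoin (T := insert A {G | TS G}) (by
    rintro F (rfl | hF)
    · exact ⟨h0, h1, h2⟩
    · exact ⟨(hF []).1, (hF []).2, fun l => Algebra.subset_adjoin (Or.inr (ts_dx l hF))⟩)
    (Algebra.subset_adjoin (Or.inl rfl))

lemma ts_alg {F : Fj J L} (hF : F ∈ Algebra.adjoin ℝ {G : Fj J L | TS G}) : TS F :=
  ts_adjoin (fun G (hG : TS G) => ⟨(hG []).1, (hG []).2, fun l =>
    Algebra.subset_adjoin (show TS (dx l G) from ts_dx l hG)⟩) hF

lemma mem_alg {F : Fj J L} (hF : TS F) : F ∈ Algebra.adjoin ℝ {G : Fj J L | TS G} :=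
  Algebra.subset_adjoin hF

lemma ts_const {F : Fj J L} (h0 : C0 F) (h : ∀ θ s, ∃ c, F θ s = fun _ => c) : TS F :=
  ts_atom h0 (fun θ s => by obtain ⟨c, hc⟩ := h θ s; rw [hc]; exact differentiable_const c)
    fun l => by rw [dx_const l h]; exact zero_mem _

lemma ts_cb {c : J → ℝ} (hc : Continuous c) : TS (cb c : Fj J L) :=
  ts_const (c0_cb hc) fun θ _ => ⟨c θ, rfl⟩

omit [TopologicalSpace J] in
lemma dx_comp {F : Fj J L} (v : L → ℝ) {g g' : J → ℝ → ℝ} (hF : ∀ θ s x, F θ s x = g θ (v ⬝ᵥ x))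
    (hg : ∀ θ u, HasDerivAt (g θ) (g' θ u) u) :
    Df F ∧ ∀ l, dx l F = v l • (fun θ _ x => g' θ (v ⬝ᵥ x) : Fj J L) := by
  let A : (L → ℝ) →L[ℝ] ℝ := LinearMap.toContinuousLinearMap (dotProductBilin ℝ ℝ v)
  have h : ∀ θ s x, HasFDerivAt (F θ s) (g' θ (v ⬝ᵥ x) • A) x := fun θ s x => by
    have e : F θ s = g θ ∘ A := funext fun x => hF θ s x
    rw [e]
    exact (hg θ (v ⬝ᵥ x)).comp_hasFDerivAt x A.hasFDerivAt
  refine ⟨fun θ s x => (h θ s x).differentiableAt, fun l => ?_⟩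
  funext θ s x
  simp [dx, (h θ s x).fderiv, A, mul_comm]

lemma ts_co (l : L) : TS (co l : Fj J L) := by
  obtain ⟨h1, h2⟩ := dx_comp (F := (co l : Fj J L)) (Pi.single l 1) (g := fun _ u => u)
    (g' := fun _ _ => 1) (fun θ s x => by simp [co]) fun _ u => hasDerivAt_id u
  exact ts_atom (c0_co l) h1 fun m => by
    rw [h2]; exact Subalgebra.smul_mem _ (one_mem _) _

lemma ts_re {J' : Type} [TopologicalSpace J'] {φ : J' → J} (ϖ : Bool → Bool) {F : Fj J L}
    (hφ : Continuous φ) (hF : TS F) : TS (fun θ s => F (φ θ) (ϖ s) : Fj J' L) :=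
  ts_of (S := {G | ∃ F : Fj J L, TS F ∧ G = fun θ s => F (φ θ) (ϖ s)}) (by
    rintro _ ⟨F, hF, rfl⟩
    exact ⟨c0_re ϖ hφ (hF []).1, fun θ s => (hF []).2 _ _, fun l => ⟨dx l F, ts_dx l hF, rfl⟩⟩)
    ⟨F, hF, rfl⟩

lemma ts_pb {K : Type} [Fintype K] [DecidableEq K] (M : Matrix K L ℝ) {F : Fj J K} (hF : TS F) :
    TS (pb M F) :=
  ts_adjoin (T := {G | ∃ F : Fj J K, TS F ∧ G = pb M F}) (by
    rintro _ ⟨F, hF, rfl⟩
    let A := LinearMap.toContinuousLinearMap M.mulVecLin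
    have h : ∀ θ s x, HasFDerivAt (pb M F θ s) ((fderiv ℝ (F θ s) (M *ᵥ x)).comp A) x :=
      fun θ s x => ((hF []).2 θ s (M *ᵥ x)).hasFDerivAt.comp x A.hasFDerivAt
    refine ⟨c0_pb M (hF []).1, fun θ s x => (h θ s x).differentiableAt, fun l => ?_⟩
    have e : dx l (pb M F) = ∑ k, M k l • pb M (dx k F) := by
      funext θ s x
      have : M *ᵥ Pi.single l 1 = ∑ k, M k l • (Pi.single k 1 : K → ℝ) := by
        funext k; simp [Finset.sum_apply, Pi.single_apply]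
      simp only [dx, (h θ s x).fderiv, ContinuousLinearMap.comp_apply, Finset.sum_apply,
        Pi.smul_apply, pb]
      change fderiv ℝ (F θ s) (M *ᵥ x) (M *ᵥ Pi.single l 1) = _
      rw [this, map_sum]
      simp only [map_smul]
    rw [e]
    exact sum_mem fun k _ => Subalgebra.smul_mem _
      (Algebra.subset_adjoin (by exact ⟨_, ts_dx k hF, rfl⟩)) _)
    (Algebra.subset_adjoin ⟨F, hF, rfl⟩)

lemma den_pos {m : ℝ} (hm : |m| ≤ 1) (x : ℝ) : 0 < 1 + m * tanh x := by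
  have h1 : |m * tanh x| < 1 := by
    rw [abs_mul]
    exact (mul_le_of_le_one_left (abs_nonneg _) hm).trans_lt (abs_tanh_lt_one x)
  linarith [(abs_lt.1 h1).1]

lemma one_sub_tm {m : ℝ} (hm : |m| ≤ 1) (x : ℝ) :
    1 - tm m x ^ 2 = (1 - m ^ 2) * (1 - tanh x ^ 2) / (1 + m * tanh x) ^ 2 := by
  have := (den_pos hm x).ne'
  rw [tm]; field_simp; ring

lemma abs_tm {m : ℝ} (hm : |m| ≤ 1) (x : ℝ) : |tm m x| ≤ 1 := by
  rw [← sq_le_one_iff_abs_le_one] at hm ⊢
  have h1 : tanh x ^ 2 ≤ 1 := (sq_le_one_iff_abs_le_one _).2 (abs_tanh_lt_one x).le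
  have h := one_sub_tm ((sq_le_one_iff_abs_le_one _).1 hm) x
  have : 0 ≤ (1 - m ^ 2) * (1 - tanh x ^ 2) / (1 + m * tanh x) ^ 2 :=
    div_nonneg (mul_nonneg (by linarith) (by linarith)) (sq_nonneg _)
  linarith

lemma tm_deriv {m : ℝ} (hm : |m| ≤ 1) (x : ℝ) : HasDerivAt (tm m) (1 - tm m x ^ 2) x := by
  have h := Tw.hasDerivAt_tanh' x
  have h0 := (den_pos hm x).ne'
  have := (h.const_add m).div ((h.const_mul m).const_add 1) h0
  rw [one_sub_tm hm]
  exact this.congr_deriv (by ring)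

lemma cont_tanh : Continuous tanh := Tw.contDiff_tanh'.continuous

lemma ts_tm {m : J → ℝ} (hm : Continuous m) (h1 : ∀ θ, |m θ| ≤ 1) (v : L → ℝ) :
    TS (fun θ _ x => tm (m θ) (v ⬝ᵥ x) : Fj J L) := by
  obtain ⟨d1, d2⟩ := dx_comp (F := (fun θ _ x => tm (m θ) (v ⬝ᵥ x) : Fj J L)) v
    (g := fun θ => tm (m θ)) (fun _ _ _ => rfl) fun θ u => tm_deriv (h1 θ) u
  have ct := cont_tanh
  refine ts_atom (c0_bdd (fun _ => ?_) fun θ _ _ => abs_tm (h1 θ) _) d1 fun l => ?_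
  · exact Continuous.div (by fun_prop) (by fun_prop) fun p => (den_pos (h1 p.1) _).ne'
  · rw [d2]
    exact Subalgebra.smul_mem _ (sub_mem (one_mem _)
      (pow_mem (Algebra.subset_adjoin (mem_insert _ _)) 2)) _

lemma wm_eq' (m x : ℝ) : wm m x = 1 / (cosh x + m * sinh x) ^ 2 := by
  have hc := (cosh_pos x).ne'
  have e : 1 + m * tanh x = (cosh x + m * sinh x) / cosh x := by
    rw [tanh_eq_sinh_div_cosh]; field_simp
  have e2 : 1 - tanh x ^ 2 = 1 / cosh x ^ 2 := by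
    rw [tanh_eq_sinh_div_cosh]; field_simp; linarith [cosh_sq_sub_sinh_sq x]
  rw [wm, e, e2, div_pow, div_div_div_eq, mul_comm (cosh x ^ 2),
    mul_div_mul_right _ _ (pow_ne_zero 2 hc)]

omit [DecidableEq L] in
lemma c0_wm {m : J → ℝ} (hm : Continuous m) (h1 : ∀ θ, |m θ| ≤ 1) (l : L) :
    C0 (fun θ _ x => wm (m θ) (x l) : Fj J L) := by
  have ct := cont_tanh
  refine ⟨fun _ => Continuous.div (by fun_prop) (by fun_prop)
    fun p => pow_ne_zero 2 (den_pos (h1 p.1) _).ne', 2, fun _ => 1, continuous_const,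
    fun θ _ x => ?_⟩
  obtain ⟨m1, m2⟩ := abs_le.1 (h1 θ)
  obtain ⟨x1, x2⟩ := abs_le.1 (norm_le_pi_norm x l)
  have a1 : exp (-‖x‖) ≤ exp (x l) := exp_le_exp.2 x1
  have a2 : exp (-‖x‖) ≤ exp (-x l) := exp_le_exp.2 (by linarith)
  have h : exp (-‖x‖) ≤ cosh (x l) + m θ * sinh (x l) := by
    rw [cosh_eq, sinh_eq]
    nlinarith [mul_le_mul_of_nonneg_left a1 (show 0 ≤ 1 + m θ by linarith),
      mul_le_mul_of_nonneg_left a2 (show 0 ≤ 1 - m θ by linarith)]
  beta_reduce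
  rw [wm_eq', abs_of_nonneg (by positivity), one_mul]
  calc _ ≤ 1 / exp (-‖x‖) ^ 2 := by gcongr
    _ = _ := by rw [← exp_nat_mul, one_div, ← exp_neg]; congr 1; push_cast; ring

lemma rr_deriv (η x : ℝ) : HasDerivAt (rr η) (-2 * (η ^ 2 * x * rr η x ^ 2)) x := by
  have h0 : 1 + η ^ 2 * x ^ 2 ≠ 0 := by positivity
  have := (hasDerivAt_const x (1 : ℝ)).div
    ((((hasDerivAt_id x).pow 2).const_mul (η ^ 2)).const_add 1) h0
  refine this.congr_deriv ?_
  simp only [rr, id, Pi.pow_apply]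
  field_simp
  ring

lemma ts_rr {η : J → ℝ} (hη : Continuous η) (l : L) :
    TS (fun θ _ x => rr (η θ) (x l) : Fj J L) := by
  obtain ⟨d1, d2⟩ := dx_comp (F := (fun θ _ x => rr (η θ) (x l) : Fj J L)) (Pi.single l 1)
    (g := fun θ => rr (η θ)) (fun _ _ _ => by simp) fun θ u => rr_deriv (η θ) u
  refine ts_atom (c0_bdd (fun _ => ?_) fun θ _ x => ?_) d1 fun k => ?_
  · exact Continuous.div (by fun_prop) (by fun_prop) fun p => by positivity
  · rw [rr, abs_of_nonneg (by positivity), div_le_one (by positivity)]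
    exact le_add_of_nonneg_right (by positivity)
  · rw [d2]
    refine Subalgebra.smul_mem _ ?_ _
    have e : (fun θ _ x => -2 * (η θ ^ 2 * (Pi.single l 1 ⬝ᵥ x) *
        rr (η θ) (Pi.single l 1 ⬝ᵥ x) ^ 2) : Fj J L) = (-2 : ℝ) • (cb (fun θ => η θ ^ 2) * co l *
          (fun θ _ x => rr (η θ) (x l)) ^ 2) := by
      funext θ s x; simp [cb, co]
    rw [e]
    refine Subalgebra.smul_mem _ (mul_mem (mul_mem (Algebra.subset_adjoin ?_)
      (Algebra.subset_adjoin ?_)) (pow_mem (Algebra.subset_adjoin ?_) 2)) _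
    · exact mem_insert_of_mem _ (ts_cb (hη.pow 2))
    · exact mem_insert_of_mem _ (ts_co l)
    · exact mem_insert _ _

lemma tm_eq (b x : ℝ) : tm (tanh b) x = tanh (b + x) := by
  have h1 := (cosh_pos b).ne'
  have h2 := (cosh_pos x).ne'
  have h3 := (cosh_pos (b + x)).ne'
  rw [cosh_add] at h3
  have h4 := (den_pos (abs_tanh_lt_one b).le x).ne'
  rw [tm, div_eq_iff h4]
  simp only [tanh_eq_sinh_div_cosh, sinh_add, cosh_add]
  field_simp

lemma wm_eq (b x : ℝ) : sech2 b * wm (tanh b) x = 1 - tanh (b + x) ^ 2 := by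
  have h1 := (cosh_pos b).ne'
  have e : 1 - tanh b ^ 2 = sech2 b := by
    rw [tanh_eq_sinh_div_cosh, sech2]; field_simp; linarith [cosh_sq_sub_sinh_sq b]
  rw [← tm_eq, one_sub_tm (abs_tanh_lt_one b).le, e, wm, mul_div_assoc]

end Ts14

open Ts14

theorem tsStmt : TsStmt := fun J L _ _ _ =>
  { c0 := fun h => (h []).1
    df := fun h => (h []).2
    c0add := c0_add
    c0sub := c0_sub
    c0mul := c0_mul
    c0sum := c0_sum
    c0re := fun hφ h => c0_re id hφ h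
    add := fun hF hG => ts_alg (add_mem (mem_alg hF) (mem_alg hG))
    sub := fun hF hG => ts_alg (sub_mem (mem_alg hF) (mem_alg hG))
    mul := fun hF hG => ts_alg (mul_mem (mem_alg hF) (mem_alg hG))
    smul := fun c _ hF => ts_alg (Subalgebra.smul_mem _ (mem_alg hF) c)
    pow := fun k _ hF => ts_alg (pow_mem (mem_alg hF) k)
    sum := fun _ _ h => ts_alg (sum_mem fun i hi => mem_alg (h i hi))
    cb := ts_cb
    sp := ts_const c0_sp fun _ s => ⟨spin s, rfl⟩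
    co := ts_co
    dx := ts_dx
    gs := fun {F} hF => by
      have e : gs F = (1 / 2 : ℝ) • ((fun θ _ => F θ true : Fj J L) - fun θ _ => F θ false) := by
        funext θ s x; simp [gs]; ring
      rw [e]
      exact ts_alg (Subalgebra.smul_mem _ (sub_mem
        (mem_alg (ts_re (fun _ => true) continuous_id hF))
        (mem_alg (ts_re (fun _ => false) continuous_id hF))) _)
    pb := ts_pb
    re := fun hφ h => ts_re id hφ h
    neg := fun {F} hF => by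
      have := ts_pb (-1 : Matrix L L ℝ) (ts_re (fun s => !s) continuous_id hF)
      convert this using 4
      simp only [pb, neg_mulVec, one_mulVec, id]
    tm := ts_tm
    wm := c0_wm
    rr := ts_rr
    tm_eq := tm_eq
    wm_eq := wm_eq }

/-! ### the algebra of families -/

namespace GS
variable {J L : Type} [TopologicalSpace J] [Fintype L] [DecidableEq L] {η : J → ℝ} {G H : J → Fn L}

lemma add (b : BsStmt) (hG : GS η G) (hH : GS η H) : GS η (G + H) :=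
  ⟨(tsStmt _ L).add hG.1 hH.1, fun θ h => (b L).add (hG.2 θ h) (hH.2 θ h)⟩
lemma sub (b : BsStmt) (hG : GS η G) (hH : GS η H) : GS η (G - H) :=
  ⟨(tsStmt _ L).sub hG.1 hH.1, fun θ h => (b L).sub (hG.2 θ h) (hH.2 θ h)⟩
lemma mul (b : BsStmt) (hG : GS η G) (hH : GS η H) : GS η (G * H) :=
  ⟨(tsStmt _ L).mul hG.1 hH.1, fun θ h => (b L).mul (hG.2 θ h) (hH.2 θ h)⟩
lemma smul (b : BsStmt) (c : ℝ) (hG : GS η G) : GS η (c • G) :=
  ⟨(tsStmt _ L).smul c hG.1, fun θ h => (b L).smul c (hG.2 θ h)⟩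
lemma pow (b : BsStmt) (k : ℕ) (hG : GS η G) : GS η (G ^ k) :=
  ⟨(tsStmt _ L).pow k hG.1, fun θ h => (b L).pow k (hG.2 θ h)⟩
lemma const (b : BsStmt) (c : ℝ) : GS η (fun _ _ _ _ => c : J → Fn L) :=
  ⟨(tsStmt _ L).cb (continuous_const (y := c)), fun _ _ => (b L).const c⟩
lemma sum (b : BsStmt) {I : Type} (T : Finset I) {G : I → J → Fn L} (h : ∀ i ∈ T, GS η (G i)) :
    GS η (∑ i ∈ T, G i) :=
  Finset.sum_induction G (GS η) (fun _ _ => add b) (const b 0) h
lemma dx (b : BsStmt) (l : L) (hG : GS η G) : GS η fun θ => Nt.dx l (G θ) :=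
  ⟨(tsStmt _ L).dx l hG.1, fun θ h => (b L).dx l (hG.2 θ h)⟩
lemma gs (b : BsStmt) (hG : GS η G) : GS η fun θ => Nt.gs (G θ) :=
  ⟨(tsStmt _ L).gs hG.1, fun θ h => (b L).gs (hG.2 θ h)⟩
lemma pb (b : BsStmt) {K : Type} [Fintype K] [DecidableEq K] (M : Matrix K L ℝ) {G : J → Fn K}
    (hG : GS η G) : GS η fun θ => Nt.pb M (G θ) :=
  ⟨(tsStmt _ L).pb M hG.1, fun θ h => (b L).pb M (hG.2 θ h)⟩
lemma re {J' : Type} [TopologicalSpace J'] {φ : J' → J} {η' : J' → ℝ} (hφ : Continuous φ)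
    (hη : ∀ θ, η' θ ≠ 0 → η (φ θ) ≠ 0) (hG : GS η G) : GS η' fun θ => G (φ θ) :=
  ⟨(tsStmt _ L).re (φ := fun p : J' × Im => (φ p.1, p.2)) (by fun_prop) hG.1,
    fun θ h => hG.2 _ (hη θ h)⟩
lemma cb {c : J → ℝ → ℝ} (hc : Continuous fun p : J × Im => c p.1 p.2)
    (hb : ∀ θ, η θ ≠ 0 → BS (Nt.cb fun b => c θ (tanh b) : Fn L)) :
    GS η (fun θ => Nt.cb (c θ) : J → Fn L) := ⟨(tsStmt _ L).cb hc, hb⟩
/-- a continuous scalar factor -/
lemma cj (b : BsStmt) {c : J → ℝ} (hc : Continuous c) : GS η (fun θ _ _ _ => c θ : J → Fn L) :=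
  ⟨(tsStmt _ L).cb (hc.comp continuous_fst), fun θ _ => (b L).const (c θ)⟩
lemma tb_rf (F : Fn L) : tb (Nt.rf F) = Nt.rf (tb F) := by
  funext b s x; simp only [tb, Nt.rf, tanh_neg]
lemma rf (b : BsStmt) (hG : GS η G) : GS η fun θ => Nt.rf (G θ) := by
  refine ⟨?_, fun θ h => by rw [tb_rf]; exact (b L).rf (hG.2 θ h)⟩
  have hφ : Continuous fun p : J × Im => (p.1, (⟨-p.2.1, by
      constructor <;> linarith [p.2.2.1, p.2.2.2]⟩ : Im)) := by fun_prop
  exact (tsStmt _ L).neg ((tsStmt _ L).re hφ hG.1)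
lemma mag (b : BsStmt) : GS η (fun _ m _ _ => m : J → Fn L) :=
  cb (c := fun _ m => m) (by fun_prop) fun _ _ => by
    have := (b L).th 0
    simp only [zero_dotProduct, add_zero] at this
    exact this
lemma sp (b : BsStmt) : GS η (fun _ => Nt.sp : J → Fn L) := ⟨(tsStmt _ L).sp, fun _ _ => (b L).sp⟩
lemma rr (b : BsStmt) {ζ : J → ℝ} (hζ : Continuous ζ) (l : L) :
    GS η (fun θ _ _ x => Nt.rr (ζ θ) (x l) : J → Fn L) :=
  ⟨(tsStmt _ L).rr (hζ.comp continuous_fst) l, fun θ _ => (b L).rr (ζ θ) l⟩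
lemma yy (b : BsStmt) (hη : Continuous η) (l : L) :
    GS η (fun θ _ _ x => Nt.rr (η θ) (x l) * x l : J → Fn L) :=
  ⟨(tsStmt _ L).mul ((tsStmt _ L).rr (hη.comp continuous_fst) l) ((tsStmt _ L).co l),
    fun θ h => (b L).yy (η θ) h l⟩
lemma tm (b : BsStmt) (v : L → ℝ) : GS η (fun _ m _ x => Nt.tm m (v ⬝ᵥ x) : J → Fn L) :=
  ⟨(tsStmt _ L).tm (m := fun p : J × Im => p.2) (by fun_prop) (fun p => abs_le.2 p.2.2) v,
    fun _ _ => by
      have := (b L).th v
      simp only [← Ts14.tm_eq] at this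
      exact this⟩

end GS

theorem cutGlue : CutGlue := by
  intro T c F hF ho
  have b := T.bs
  have key : ∃ G : ℝ → Fn (Fin c.m), GS id G ∧
      ∀ b s x, G 0 (tanh b) s x = (F b).1 s (WithLp.toLp 2 x) := by
    clear ho
    induction hF using Algebra.adjoin_induction with
    | mem F hF =>
      rcases hF with rfl | (rfl | rfl) | ⟨j, rfl⟩
      · refine ⟨_, GS.tm b c.g, fun b s x => ?_⟩
        simp only [Ts14.tm_eq, Tw.tS, Tw.fld, Tw.Bath.v, EuclideanSpace.inner_toLp_toLp,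
          star_trivial, dotProduct_comm x]
      · exact ⟨_, GS.mag b, fun _ _ _ => rfl⟩
      · exact ⟨_, GS.sp b, fun _ s _ => by cases s <;> rfl⟩
      · exact ⟨_, GS.yy b continuous_id j, fun _ _ x => by simp [rr, Tw.xS]⟩
    | algebraMap r => exact ⟨_, GS.const b r, fun _ _ _ => rfl⟩
    | add x y _ _ hx hy =>
      obtain ⟨G, h1, h2⟩ := hx
      obtain ⟨H, h3, h4⟩ := hy
      exact ⟨G + H, h1.add b h3, fun b s x => by simp [h2, h4]⟩
    | mul x y _ _ hx hy =>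
      obtain ⟨G, h1, h2⟩ := hx
      obtain ⟨H, h3, h4⟩ := hy
      exact ⟨G * H, h1.mul b h3, fun b s x => by simp [h2, h4]⟩
  obtain ⟨G, h1, h2⟩ := key
  refine ⟨(1 / 2 : ℝ) • (G - fun η => rf (G η)), (h1.sub b (h1.rf b)).smul b _, fun η => ?_,
    fun b s x => ?_⟩
  · funext b s x
    simp [rf]; ring
  · have := ho b s (WithLp.toLp 2 x)
    simp only [Pi.smul_apply, Pi.sub_apply, rf, ← tanh_neg, h2, WithLp.toLp_neg, this, smul_eq_mul]
    ring

end Crest.Agent.T157.Nt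

end
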