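import Crest.Agent.T157.NetStep_32
import Crest.Agent.T157.NetDefB_32
import Crest.Agent.T157.NetBs_54
import Crest.Agent.T157.NetTs_14
import Crest.Agent.T157.NetEx_13
import Crest.Agent.T157.NetAv_44
import Crest.Agent.T157.NetFact_67
import Crest.Agent.T157.NetLift_66
import Crest.Agent.T157.NetApp_11
import Crest.Agent.T157.NetDict_89
import Crest.Agent.T157.NetTop_91
import Crest.Agent.T157.NetRoot_87
import Crest.Agent.T157.NetSt_58
import Crest.Agent.T157.LcMf_30

/-!
# Row 157, block B/S3, section 7 (helper32): the model networks, unconditionally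
-/

set_option autoImplicit false

noncomputable section

namespace Crest.Agent.T157.Nt

open MeasureTheory Set
open Crest.Agent.T157.Tw (lam)

namespace All

theorem tl : Tl := ⟨dxStmt, bsStmt, tsStmt, exStmt, gcStmt_13⟩
theorem ibpStmt : IbpStmt := ibpGlue tl
theorem avStmt : AvStmt := avGlue tl
theorem cutStmt : CutStmt := cutGlue tl
theorem factStmt : FactStmt := (factGlue tl ibpStmt).1
theorem trivStmt : TrivStmt := (factGlue tl ibpStmt).2
theorem liftStmt : LiftStmt := liftGlue tl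
theorem pertStmt : PertStmt := pertGlue tl ibpStmt factStmt
theorem appStmt : AppStmt := appGlue tl
theorem stepStmt : StepStmt :=
  stepGlue tl Tw.famApi cutStmt dictStmt factStmt pertStmt appStmt liftStmt
theorem baseStmt : BaseStmt := baseGlue tl Tw.famApi dictStmt factStmt liftStmt
theorem topStmtW : TopStmtW := topGlueW tl Tw.famApi avStmt cutStmt dictStmt factStmt
theorem herStmt : HerStmt := herGlue tl avStmt
theorem movStmt : MovStmt := movGlue tl
theorem symStmt : SymStmt := symGlue tl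
theorem drfStmt : DrfStmt := drfGlue tl factStmt pertStmt appStmt

/-- **the networks with a top family** -/
theorem netStmtW : NetStmtW := by
  intro 𝒞 h𝒞 β h0 h1 a ha ν _
  obtain ⟨e0, t0, s0⟩ := baseStmt 𝒞 β h0 ν
  obtain ⟨e1, f0, f, st, -, -⟩ :=
    Tw.extStmt β ν 0 e0 ∅ ∅ finite_empty finite_empty (by simp) (by simp)
  obtain ⟨γ, h, c1, c2, c3, H⟩ := Tw.locStmt2 𝒞 h𝒞 β h0 h1 a ha ν
    (fun e => ∀ (n : ℕ) (N : Net n), N.Ok β ν → Sim β ν N e _ id) e1
    (fun n N hN => stepStmt β h0 ν n N 0 e0 e1 f0 f Empty Empty.elim st (fun t => t.elim)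
      (fun i _ l ξ => Tw.polApi.d0 i ((st.c0 l).2.2.2 ξ)) (s0 n N hN))
    (Tw.twStep 𝒞 h𝒞 β h0.ne' ν 0 e0 e1 f0 f st t0)
    (fun e he => ⟨0, fun D _ 𝒱 hV hC => by
      obtain ⟨e', g0, g, st', hi, -⟩ := Tw.extStmt β ν D e 𝒱 ∅ hV finite_empty hC (by simp)
      exact ⟨e', g0, g, st', hi, fun n N hN => stepStmt β h0 ν n N D e e' g0 g _ id st'
        Function.injective_id (fun i hi => absurd ⟨i, rfl⟩ hi) (he n N hN)⟩⟩)
  refine ⟨γ, h, c1, c2, c3, fun e he n N hN => ?_⟩
  obtain ⟨e', D, hS, hT, -, -, Ξ, hO⟩ := H (e / 2) (by positivity)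
  have := topStmtW β h0 ν n N e' D _ a (e / 2) Ξ _ ha.1 ha.2 (by positivity) (hS n N hN) hO
    (hO.mf_le (Tw.coer_resp Tw.polApi h𝒞 ha.2 hT).1 ha.1 ha.2)
  rwa [mul_div_cancel₀ _ two_ne_zero] at this

theorem netStmt : NetStmt := netStmtW.net

/-- **(ST)** -/
theorem stAll : STAll := fun 𝒞 h𝒞 β h0 h1 hl ν _ =>
  have r := rootGlue tl factStmt liftStmt movStmt netStmt 𝒞 h𝒞 β h0 h1 hl ν
  stGlue tl avStmt liftStmt drfStmt symStmt β h0 h1 ν r
    (st1Glue tl avStmt factStmt liftStmt herStmt movStmt β ν r)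

end All

end Crest.Agent.T157.Nt

end
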