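import Crest.Agent.T157.S3LDef_65
import Crest.Agent.T157.LcDefB_30

/-!
# Row 157, block B/S3, section 7 (helper32): bounded model networks; words and leaves

Text: `docs/T157_B_Net.md`.  A function is `F b s ξ` (static field, spin, fields of the nodes).
-/

set_option autoImplicit false
set_option linter.unusedVariables false

noncomputable section

namespace Crest.Agent.T157.Nt

open MeasureTheory Matrix Real Set Filter Topology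
open Crest.ProbabilityR.SpinGlassDynamics (spin)
open Crest.Agent.T157.S3L (gm mdl)
open Crest.Agent.T157.Tw (sech2 Bath SV Step Out2 TwL admStmt Cls PV lam)

abbrev Fj (J L : Type) : Type := J → Bool → (L → ℝ) → ℝ
abbrev Fn (L : Type) : Type := Fj ℝ L

section words
variable {J L K I I' κ : Type} [Fintype L] [DecidableEq L] [Fintype K] [Fintype I] [Fintype I']
  [Fintype κ]

/-- partial derivative in a field -/
def dx (l : L) (F : Fj J L) : Fj J L := fun θ s x => fderiv ℝ (F θ s) x (Pi.single l 1)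
/-- discrete derivative in the spin -/
def gs (F : Fj J L) : Fj J L := fun θ _ x => (F θ true x - F θ false x) / 2
def sp : Fj J L := fun _ s _ => spin s
def co (l : L) : Fj J L := fun _ _ x => x l
def cb (c : J → ℝ) : Fj J L := fun θ _ _ => c θ
/-- read the fields through a matrix -/
def pb (M : Matrix K L ℝ) (F : Fj J K) : Fj J L := fun θ s x => F θ s (M *ᵥ x)
/-- read some of the fields -/
def res (e : K → L) (F : Fj J K) : Fj J L := fun θ s x => F θ s (x ∘ e)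
/-- derivative in the static field -/
def db (F : Fn L) : Fn L := fun b s x => deriv (fun t => F t s x) b
def dd : Option L → Fn L → Fn L
  | none => db
  | some l => dx l
/-- reflection -/
def rf (F : Fn L) : Fn L := fun b s x => F (-b) (!s) (-x)
def th (o : L) : Fn L := fun b _ x => tanh (b + x o)
/-- jointly `C¹` and bounded -/
def B1 (F : Fn L) : Prop :=
  (∀ s, ContDiff ℝ 1 fun p : ℝ × (L → ℝ) => F p.1 s p.2) ∧ ∃ C, ∀ b s x, |F b s x| ≤ C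
/-- **bounded smooth**: all derivatives in `(b, ξ)` are bounded -/
def BS (F : Fn L) : Prop := ∀ w : List (Option L), B1 (w.foldl (fun G i => dd i G) F)
/-- bounded smooth up to a part that is linear in the fields -/
def LT (F : Fn L) : Prop := ∃ (G : Fn L) (c : L → ℝ → ℝ), BS G ∧ (∀ l, BS (cb (c l) : Fn L)) ∧
  F = G + ∑ l, cb (c l) * co l
/-- jointly continuous, exponentially bounded -/
def C0 [TopologicalSpace J] (F : Fj J L) : Prop :=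
  (∀ s, Continuous fun p : J × (L → ℝ) => F p.1 s p.2) ∧
    ∃ (k : ℝ) (C : J → ℝ), Continuous C ∧ ∀ θ s x, |F θ s x| ≤ C θ * exp (k * ‖x‖)
/-- continuous families of smooth functions -/
def TS [TopologicalSpace J] (F : Fj J L) : Prop := ∀ w : List L,
  C0 (w.foldl (fun G i => dx i G) F) ∧ ∀ θ s, Differentiable ℝ (w.foldl (fun G i => dx i G) F θ s)
/-- `m ∈ [-1, 1]` stands for `tanh b` -/
abbrev Im : Type := Icc (-1 : ℝ) 1
def up (G : J → Fn L) : Fj (J × Im) L := fun θ => G θ.1 θ.2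
def tb (F : Fn L) : Fn L := fun b => F (tanh b)
/-- families in `(θ, m)`, bounded smooth in `(b, ξ)` when the cut-off parameter is not zero -/
def GS [TopologicalSpace J] (η : J → ℝ) (G : J → Fn L) : Prop :=
  TS (up G) ∧ ∀ θ, η θ ≠ 0 → BS (tb (G θ))
/-- `tanh (b + x)` in terms of `m = tanh b` -/
def tm (m x : ℝ) : ℝ := (m + tanh x) / (1 + m * tanh x)
/-- `sech² (b + x) / sech² b` -/
def wm (m x : ℝ) : ℝ := (1 - tanh x ^ 2) / (1 + m * tanh x) ^ 2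
/-- the cut-off -/
def rr (η x : ℝ) : ℝ := 1 / (1 + η ^ 2 * x ^ 2)
/-- the model at magnetisation `m` -/
def mE (A : Matrix L κ ℝ) (o : L) (m : ℝ) (ψ : Bool → (L → ℝ) → ℝ) : ℝ :=
  ∑ σ, (1 + spin σ * m) / 2 * gm A fun x => ψ σ (spin σ • (fun l => (A * Aᵀ) l o) + x)
def Eb (A : Matrix L κ ℝ) (o : L) (F : Fn L) (b : ℝ) : ℝ := mdl A o b (F b)
def Cv (A : Matrix L κ ℝ) (o : L) (F G : Fn L) (b : ℝ) : ℝ :=
  Eb A o (F * G) b - Eb A o F b * Eb A o G b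
def Ev (ν : Measure ℝ) (A : Matrix L κ ℝ) (o : L) (F : Fn L) : ℝ := ∫ b, Eb A o F b ∂ν
/-- conditional expectation given the spin -/
def cx (A : Matrix L κ ℝ) (o : L) (F : Fn L) : Fn L :=
  fun b s _ => gm A fun x => F b s (spin s • (fun l => (A * Aᵀ) l o) + x)
/-- Gaussian divergence in the direction of the node `u` -/
def dl (S : Matrix L L ℝ) (o u : L) (a : Fj J L) : Fj J L :=
  a * (co u - S o u • sp) - ∑ p, S u p • dx p a
/-- drift of a flow -/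
def dft (S : Matrix L L ℝ) (o : L) (al : Fn L) (a : L → Fn L) : Fn L :=
  (sp - th o) * al + ∑ u, dl S o u (a u)
/-- the pairing of two edge fields with the weight `d` -/
def pair (β : ℝ) (ν : Measure ℝ) (A : Matrix L κ ℝ) (o : L) (d al : Fn L) (a : I → Fn L)
    (al' : Fn L) (a' : I' → Fn L) (P : Matrix I I' ℝ) : ℝ :=
  β ^ 2 * (Ev ν A o (al * d * al') + ∑ p, ∑ q, Ev ν A o (a p * a' q) * P p q)
/-- gradient (left) or flow (right): diagonal letter -/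
def eal (f al : K → Fn L) : K ⊕ K → Fn L := Sum.elim (fun l => gs (f l)) al
/-- gradient (left) or flow (right): multipliers -/
def ea (f : K → Fn L) (a : K → L → Fn L) : K ⊕ K → L ⊕ L → Fn L
  | .inl l, .inl m => dx m (f l)
  | .inr l, .inr m => a l m
  | _, _ => 0
/-- the perturbations `τ t^{2i}` -/
def pt (o : L) (i : ℕ) : Fn L := (sp - th o) * th o ^ (2 * i)
/-- Gram matrix -/
def gram (β : ℝ) (ν : Measure ℝ) (A : Matrix L κ ℝ) (o : L) (F : K → Fn L) : Matrix K K ℝ :=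
  of fun i j => β ^ 2 * ∫ b, Cv A o (F i) (F j) b ∂ν

end words

abbrev Ix (n : ℕ) : Type := Fin (n + 1)

/-- reads the fields `m < l` only -/
def Rd {n : ℕ} (l : Ix n) (F : Fn (Ix n)) : Prop :=
  ∀ b s x x', (∀ m, m < l → x m = x' m) → F b s x = F b s x'

/-- a model network: nodes, flows of the drift nodes, root of the Gram matrix, pairings -/
structure Net (n : ℕ) where
  f : Ix n → Fn (Ix n)
  al : Ix n → Fn (Ix n)
  a : Ix n → Ix n → Fn (Ix n)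
  dr : Ix n → Prop
  A : Matrix (Ix n) (Ix n) ℝ
  PD : Matrix (Ix n) (Ix n) ℝ
  P1 : Matrix (Ix n ⊕ Ix n) (Ix n ⊕ Ix n) ℝ

namespace Net
variable {n n' : ℕ} (N : Net n)

def S : Matrix (Ix n) (Ix n) ℝ := N.A * N.Aᵀ
def E (F : Fn (Ix n)) (b : ℝ) : ℝ := Eb N.A 0 F b
/-- `1 - t²` -/
def D (N : Net n) : Fn (Ix n) := 1 - th 0 ^ 2
def drift (al : Fn (Ix n)) (a : Ix n → Fn (Ix n)) : Fn (Ix n) := dft N.S 0 al a
/-- admissible letters of a flow -/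
structure Flw (al : Fn (Ix n)) (a : Ix n → Fn (Ix n)) : Prop where
  bal : BS al
  free : gs al = 0
  ba : ∀ u, BS (a u) ∧ BS (a u * co u)
  nd : ∀ u, ¬ N.dr u → a u = 0
/-- the energy `Q_b` -/
def Q (F : Fn (Ix n)) (b : ℝ) : ℝ :=
  N.E (N.D * gs F ^ 2) b + ∑ l, ∑ m, N.E (dx l F * dx m F) b * N.PD l m
/-- squared length of a combination of nodes -/
def sq (w : Ix n → ℝ) : ℝ := w ⬝ᵥ N.S *ᵥ w

structure Ok (β : ℝ) (ν : Measure ℝ) : Prop where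
  f0 : N.f 0 = sp
  bs : ∀ l, BS (N.f l)
  od : ∀ l, rf (N.f l) = -N.f l
  rd : ∀ l, Rd l (N.f l)
  fl : ∀ l, N.Flw (N.al l) (N.a l)
  ev : ∀ l, rf (N.al l) = N.al l ∧ ∀ u, rf (N.a l u) = N.a l u
  rd' : ∀ l, Rd l (N.al l) ∧ ∀ u, Rd l (N.a l u)
  tri : ∀ l u, l ≤ u → N.a l u = 0
  nd : ∀ l, ¬ N.dr l → N.al l = 0 ∧ N.a l = 0
  drf : ∀ l, N.dr l → 0 < l ∧ N.f l = N.drift (N.al l) (N.a l)
  pd : N.S.PosDef
  gr : N.S = gram β ν N.A 0 N.f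
  hD : ∀ l m, N.PD l m = pair β ν N.A 0 N.D (gs (N.f l)) (fun p => dx p (N.f l))
    (gs (N.f m)) (fun p => dx p (N.f m)) N.PD
  h1 : ∀ i j, N.P1 i j = pair β ν N.A 0 1 (eal N.f N.al i) (ea N.f N.a i)
    (eal N.f N.al j) (ea N.f N.a j) N.P1

/-- `N'` extends `N` along `e` -/
structure Ext (N' : Net n') (e : Ix n → Ix n') : Prop where
  mono : StrictMono e
  zero : e 0 = 0
  f : ∀ l, N'.f (e l) = res e (N.f l)
  al : ∀ l, N'.al (e l) = res e (N.al l)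
  a : ∀ l u, N'.a (e l) (e u) = res e (N.a l u)
  a0 : ∀ l u', u' ∉ range e → N'.a (e l) u' = 0
  dr : ∀ l, N'.dr (e l) ↔ N.dr l
  S : N'.S.submatrix e e = N.S
  PD : N'.PD.submatrix e e = N.PD
  P1 : N'.P1.submatrix (Sum.map e e) (Sum.map e e) = N.P1

/-- the residual of the ansatz, `q = ρ sech²` -/
def R (a : ℝ) (ψ : Fn (Ix n)) (m : Ix n → Fn (Ix n)) (ρ : ℝ → ℝ) : Fn (Ix n) :=
  N.drift (gs ψ) m - a • ψ - cb (fun b => ρ b + ρ b * sech2 b * N.S 0 0 - a) * sp +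
    cb (fun b => ρ b * sech2 b) * co 0

/-- **the top family** `ψ = s + Ξ` with the multipliers `m` of its flow -/
structure Top (l a e : ℝ) (al0 : ℝ → ℝ) (ψ : Fn (Ix n)) (m : Ix n → Fn (Ix n)) (ρ : ℝ → ℝ) :
    Prop where
  lt : LT ψ
  od : rf ψ = -ψ
  fl : N.Flw (gs ψ) m
  ev : ∀ u, rf (m u) = m u
  c1 : ∀ u b, N.E (dx u ψ) b = 0
  c2 : ∀ u b, N.E (m u) b = 0
  en : ∀ b, ∑ i, ∑ j, N.E (Sum.elim (fun u => dx u ψ) (fun u => -m u) i *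
    Sum.elim (fun u => dx u ψ) (fun u => -m u) j) b * N.P1 i j ≤ e
  bρ : BS (cb ρ : Fn (Ix n))
  hρ : ∀ b, ρ (-b) = ρ b ∧ l / 4 ≤ ρ b ∧ ρ b ≤ 3
  hq : ∀ b, ρ b * sech2 b = N.E (N.D * gs ψ) b
  c3 : ∀ u b, N.E (dx u (N.R a ψ m ρ)) b = 0
  QR : ∀ b, N.Q (N.R a ψ m ρ) b ≤ e
  VR : ∀ b, Cv N.A 0 (N.R a ψ m ρ) (N.R a ψ m ρ) b ≤ e
  Qψ : ∀ b, N.Q ψ b ≤ 16 * (1 + a) / (l - a) + 19
  hal : ∀ b, |1 / sech2 b + N.S 0 0 - a / (ρ b * sech2 b) - al0 b| ≤ e / sech2 b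

end Net

/-! ### outputs -/

/-- the network with one node -/
def TrivStmt : Prop := ∀ β > (0 : ℝ), ∀ (ν : Measure ℝ) [IsProbabilityMeasure ν],
  ∃ N : Net 0, N.Ok β ν

/-- **model facts** -/
def FactStmt : Prop := ∀ (β : ℝ) (ν : Measure ℝ) [IsProbabilityMeasure ν] (n : ℕ) (N : Net n),
  N.Ok β ν →
  (∀ al a, N.Flw al a → BS (N.drift al a) ∧ (∀ b, N.E (N.drift al a) b = 0) ∧
    (∀ b, N.E (N.drift al a * sp) b = N.E (N.D * al) b) ∧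
    ∀ p b, N.E (dx p (N.drift al a)) b = N.E (a p) b - if p = 0 then N.E (N.D * al) b else 0) ∧
  (∀ u, N.dr u → N.S u 0 = β ^ 2 * Ev ν N.A 0 (N.D * N.al u) ∧ ∀ p, N.S u p =
    pair β ν N.A 0 (1 - sp * th 0) (N.al u) (N.a u) (gs (N.f p)) (fun q => dx q (N.f p)) N.S) ∧
  (∀ u b, N.E (co u - N.S 0 u • sp) b = 0) ∧ N.S 0 0 = β ^ 2 * ∫ b, sech2 b ∂ν

/-- **NetStmt** -/
def NetStmt : Prop := ∀ 𝒞 : Cls, (∀ m, 𝒞.C m = PV m) → ∀ β : ℝ, 0 < β → β < 1 →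
  ∀ a ∈ Ico 0 (lam 𝒞 β), ∀ (ν : Measure ℝ) [IsProbabilityMeasure ν],
  ∃ (γ : ℝ → ℝ) (h : ℝ), Continuous γ ∧ (∀ b, γ (-b) = γ b ∧ sech2 b ≤ γ b ∧
      β * γ b ≤ sech2 b * (1 - β * (lam 𝒞 β - a))) ∧ β ^ 2 * ∫ b, γ b ∂ν ≤ h ∧
    ∀ e > (0 : ℝ), ∀ (n : ℕ) (N : Net n), N.Ok β ν → ∃ (n' : ℕ) (N' : Net n') (ι : Ix n → Ix n'),
      N'.Ok β ν ∧ N.Ext N' ι ∧ ∃ ψ m ρ, N'.Top (lam 𝒞 β) a e (fun b => 1 / γ b + h) ψ m ρ

/-- extensions: expectations, drifts and top families are inherited -/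
def LiftStmt : Prop := ∀ (β : ℝ) (ν : Measure ℝ) (n n' : ℕ) (N : Net n) (N' : Net n')
    (ι : Ix n → Ix n'), N.Ext N' ι →
  (∀ F : Fn (Ix n), (∀ b s, Measurable (F b s)) → ∀ b, N'.E (res ι F) b = N.E F b) ∧
  (∀ al a, N.Flw al a → N'.Flw (res ι al) (Function.extend ι (fun u => res ι (a u)) 0) ∧
    N'.drift (res ι al) (Function.extend ι (fun u => res ι (a u)) 0) = res ι (N.drift al a)) ∧
  (∀ w, N'.sq (Function.extend ι w 0) = N.sq w) ∧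
  (∀ l a e al0 ψ m ρ, N.Top l a e al0 ψ m ρ →
    N'.Top l a e al0 (res ι ψ) (Function.extend ι (fun u => res ι (m u)) 0) ρ) ∧
  N.Ext N id ∧ ∀ (n'' : ℕ) (N'' : Net n'') ι', N'.Ext N'' ι' → N.Ext N'' (ι' ∘ ι)

/-- every node is close to a drift node of an extension -/
def NodeStmt (β : ℝ) (ν : Measure ℝ) : Prop := ∀ (n : ℕ) (N : Net n), N.Ok β ν → ∀ e > (0 : ℝ),
  ∃ (n' : ℕ) (N' : Net n') (ι u : Ix n → Ix n'), N'.Ok β ν ∧ N.Ext N' ι ∧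
    ∀ v, N'.dr (u v) ∧ N'.sq (Pi.single (u v) 1 - Pi.single (ι v) 1) ≤ e

/-- **(ST)** -/
def STStmt (β : ℝ) (ν : Measure ℝ) : Prop := ∀ (n : ℕ) (N : Net n), N.Ok β ν →
  ∀ ρ : Fn (Ix n), BS ρ → (∀ b, N.E ρ b = 0) → ∀ e > (0 : ℝ),
  ∃ (n' : ℕ) (N' : Net n') (ι : Ix n → Ix n') (al : Fn (Ix n')) (a : Ix n' → Fn (Ix n')),
    N'.Ok β ν ∧ N.Ext N' ι ∧ N'.Flw al a ∧ ∀ b, N'.E ((N'.drift al a - res ι ρ) ^ 2) b ≤ e

def STAll : Prop := ∀ 𝒞 : Cls, (∀ m, 𝒞.C m = PV m) → ∀ β : ℝ, 0 < β → β < 1 → 0 < lam 𝒞 β →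
  ∀ (ν : Measure ℝ) [IsProbabilityMeasure ν], NodeStmt β ν ∧ STStmt β ν

/-! ### tools (leaves) -/

section api
variable (J L : Type) [TopologicalSpace J] [Fintype L] [DecidableEq L]

/-- differentiable in the fields -/
def Df {J L : Type} [Fintype L] (F : Fj J L) : Prop := ∀ θ s, Differentiable ℝ (F θ s)

/-- rules of calculus -/
structure DxApi : Prop where
  add : ∀ (l : L) {F G : Fj J L}, Df F → Df G → dx l (F + G) = dx l F + dx l G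
  sub : ∀ (l : L) {F G : Fj J L}, Df F → Df G → dx l (F - G) = dx l F - dx l G
  mul : ∀ (l : L) {F G : Fj J L}, Df F → Df G → dx l (F * G) = dx l F * G + F * dx l G
  smul : ∀ (l : L) (c : ℝ) (F : Fj J L), dx l (c • F) = c • dx l F
  sum : ∀ (l : L) {I : Type} (T : Finset I) {F : I → Fj J L}, (∀ i ∈ T, Df (F i)) →
    dx l (∑ i ∈ T, F i) = ∑ i ∈ T, dx l (F i)
  cb : ∀ (l : L) (c : J → ℝ), dx l (cb c : Fj J L) = 0
  cbm : ∀ (l : L) (c : J → ℝ) (F : Fj J L), dx l (Nt.cb c * F) = Nt.cb c * dx l F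
  sp : ∀ l : L, dx l (sp : Fj J L) = 0
  co : ∀ l m : L, dx l (co m : Fj J L) = if l = m then 1 else 0
  gs : ∀ (l : L) {F : Fj J L}, Df F → dx l (gs F) = gs (dx l F)
  pb : ∀ {K : Type} [Fintype K] [DecidableEq K] (M : Matrix K L ℝ) (l : L) {F : Fj J K}, Df F →
    Df (pb M F) ∧ dx l (pb M F) = ∑ x, M x l • pb M (dx x F)
  res : ∀ {K : Type} [Fintype K] (e : K → L) (F : Fj J K),
    res e F = Nt.pb (of fun x l => if e x = l then 1 else 0) F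
  dl : ∀ {K : Type} [Fintype K] [DecidableEq K] (M : Matrix K L ℝ) (S : Matrix L L ℝ) (o u : L)
    (o' u' : K) {a : Fj J K}, Sᵀ = S → M o' = Pi.single o 1 → M u' = Pi.single u 1 → Df a →
    dl S o u (Nt.pb M a) = Nt.pb M (dl (M * S * Mᵀ) o' u' a)

/-- the algebra of bounded smooth functions -/
structure BsApi : Prop where
  df : ∀ {F : Fn L}, BS F → Df F
  bd : ∀ {F : Fn L}, BS F → ∃ C, ∀ b s x, |F b s x| ≤ C
  ts : ∀ {F : Fn L}, BS F → TS F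
  iter : ∀ {F : Fn L}, BS F → ∀ (k : ℕ) s, ContDiff ℝ k (fun p : ℝ × (L → ℝ) => F p.1 s p.2) ∧
    ∃ C, ∀ p, ‖iteratedFDeriv ℝ k (fun p : ℝ × (L → ℝ) => F p.1 s p.2) p‖ ≤ C
  loc : ∀ {F : Fn L}, BS F → ∀ k : ℕ, ∃ C, ∀ b s, ContDiff ℝ k (F b s) ∧
    ∀ j ≤ k, ∀ x, ‖iteratedFDeriv ℝ j (F b s) x‖ ≤ C
  const : ∀ c : ℝ, BS (fun _ _ _ => c : Fn L)
  add : ∀ {F G : Fn L}, BS F → BS G → BS (F + G)
  sub : ∀ {F G : Fn L}, BS F → BS G → BS (F - G)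
  mul : ∀ {F G : Fn L}, BS F → BS G → BS (F * G)
  smul : ∀ (c : ℝ) {F : Fn L}, BS F → BS (c • F)
  pow : ∀ (k : ℕ) {F : Fn L}, BS F → BS (F ^ k)
  sum : ∀ {I : Type} (T : Finset I) {F : I → Fn L}, (∀ i ∈ T, BS (F i)) → BS (∑ i ∈ T, F i)
  dx : ∀ (l : L) {F : Fn L}, BS F → BS (dx l F)
  db : ∀ {F : Fn L}, BS F → BS (db F)
  gs : ∀ {F : Fn L}, BS F → BS (gs F)
  rf : ∀ {F : Fn L}, BS F → BS (rf F)
  pb : ∀ {K : Type} [Fintype K] [DecidableEq K] (M : Matrix K L ℝ) {F : Fn K}, BS F → BS (pb M F)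
  cb : ∀ {K : Type} [Fintype K] [DecidableEq K] {c : ℝ → ℝ}, BS (cb c : Fn K) → BS (cb c : Fn L)
  sp : BS (sp : Fn L)
  th : ∀ v : L → ℝ, BS (fun b _ x => tanh (b + v ⬝ᵥ x) : Fn L)
  th0 : ∀ o : L, BS (Nt.th o)
  rr : ∀ (η : ℝ) (l : L), BS (fun _ _ x => rr η (x l) : Fn L)
  yy : ∀ η ≠ (0 : ℝ), ∀ l : L, BS (fun _ _ x => Nt.rr η (x l) * x l : Fn L)
  inv : ∀ {c : ℝ → ℝ} {k : ℝ}, 0 < k → (∀ b, k ≤ c b) → BS (Nt.cb c : Fn L) →
    BS (Nt.cb fun b => (c b)⁻¹ : Fn L)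
  rdx : ∀ (l : L) {F : Fn L}, Df F → Nt.dx l (Nt.rf F) = -Nt.rf (Nt.dx l F)
  rgs : ∀ F : Fn L, Nt.gs (Nt.rf F) = -Nt.rf (Nt.gs F)

/-- the algebras of continuous families -/
structure TsApi : Prop where
  c0 : ∀ {F : Fj J L}, TS F → C0 F
  df : ∀ {F : Fj J L}, TS F → Df F
  c0add : ∀ {F G : Fj J L}, C0 F → C0 G → C0 (F + G)
  c0sub : ∀ {F G : Fj J L}, C0 F → C0 G → C0 (F - G)
  c0mul : ∀ {F G : Fj J L}, C0 F → C0 G → C0 (F * G)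
  c0sum : ∀ {I : Type} (T : Finset I) {F : I → Fj J L}, (∀ i ∈ T, C0 (F i)) → C0 (∑ i ∈ T, F i)
  c0re : ∀ {J' : Type} [TopologicalSpace J'] {φ : J' → J} {F : Fj J L}, Continuous φ → C0 F →
    C0 fun θ => F (φ θ)
  add : ∀ {F G : Fj J L}, TS F → TS G → TS (F + G)
  sub : ∀ {F G : Fj J L}, TS F → TS G → TS (F - G)
  mul : ∀ {F G : Fj J L}, TS F → TS G → TS (F * G)
  smul : ∀ (c : ℝ) {F : Fj J L}, TS F → TS (c • F)
  pow : ∀ (k : ℕ) {F : Fj J L}, TS F → TS (F ^ k)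
  sum : ∀ {I : Type} (T : Finset I) {F : I → Fj J L}, (∀ i ∈ T, TS (F i)) → TS (∑ i ∈ T, F i)
  cb : ∀ {c : J → ℝ}, Continuous c → TS (cb c : Fj J L)
  sp : TS (sp : Fj J L)
  co : ∀ l : L, TS (co l : Fj J L)
  dx : ∀ (l : L) {F : Fj J L}, TS F → TS (dx l F)
  gs : ∀ {F : Fj J L}, TS F → TS (gs F)
  pb : ∀ {K : Type} [Fintype K] [DecidableEq K] (M : Matrix K L ℝ) {F : Fj J K}, TS F → TS (pb M F)
  re : ∀ {J' : Type} [TopologicalSpace J'] {φ : J' → J} {F : Fj J L}, Continuous φ → TS F →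
    TS fun θ => F (φ θ)
  neg : ∀ {F : Fj J L}, TS F → TS fun θ s x => F θ (!s) (-x)
  tm : ∀ {m : J → ℝ}, Continuous m → (∀ θ, |m θ| ≤ 1) → ∀ v : L → ℝ,
    TS (fun θ _ x => tm (m θ) (v ⬝ᵥ x) : Fj J L)
  wm : ∀ {m : J → ℝ}, Continuous m → (∀ θ, |m θ| ≤ 1) → ∀ l : L,
    C0 (fun θ _ x => wm (m θ) (x l) : Fj J L)
  rr : ∀ {η : J → ℝ}, Continuous η → ∀ l : L, TS (fun θ _ x => rr (η θ) (x l) : Fj J L)
  tm_eq : ∀ b x, Nt.tm (tanh b) x = tanh (b + x)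
  wm_eq : ∀ b x, sech2 b * Nt.wm (tanh b) x = 1 - tanh (b + x) ^ 2

end api

def DxStmt : Prop := ∀ (J L : Type) [Fintype L] [DecidableEq L], DxApi J L
def BsStmt : Prop := ∀ (L : Type) [Fintype L] [DecidableEq L], BsApi L
def TsStmt : Prop := ∀ (J L : Type) [TopologicalSpace J] [Fintype L] [DecidableEq L], TsApi J L

/-- linearity, change of coordinates, reflection, positivity -/
structure ExApi (J L κ : Type) [TopologicalSpace J] [Fintype L] [DecidableEq L] [Fintype κ] :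
    Prop where
  eq : ∀ (A : Matrix L κ ℝ) o b ψ, mdl A o b ψ = mE A o (tanh b) ψ
  add : ∀ (A : Matrix L κ ℝ) o m {F G : Fj J L} θ, C0 F → C0 G →
    mE A o m ((F + G) θ) = mE A o m (F θ) + mE A o m (G θ)
  sub : ∀ (A : Matrix L κ ℝ) o m {F G : Fj J L} θ, C0 F → C0 G →
    mE A o m ((F - G) θ) = mE A o m (F θ) - mE A o m (G θ)
  sum : ∀ (A : Matrix L κ ℝ) o m {I : Type} (T : Finset I) {F : I → Fj J L} θ, (∀ i ∈ T, C0 (F i)) →
    mE A o m ((∑ i ∈ T, F i) θ) = ∑ i ∈ T, mE A o m (F i θ)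
  cbm : ∀ (A : Matrix L κ ℝ) o m (c : J → ℝ) (F : Fj J L) θ,
    mE A o m ((cb c * F : Fj J L) θ) = c θ * mE A o m (F θ)
  smul : ∀ (A : Matrix L κ ℝ) o m (c : ℝ) (F : Fj J L) θ,
    mE A o m ((c • F) θ) = c * mE A o m (F θ)
  const : ∀ (A : Matrix L κ ℝ) o m (c : ℝ), mE A o m (fun _ _ => c) = c
  mono : ∀ (A : Matrix L κ ℝ) o m {F G : Fj J L} θ, |m| ≤ 1 → C0 F → C0 G →
    (∀ s x, F θ s x ≤ G θ s x) → mE A o m (F θ) ≤ mE A o m (G θ)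
  pos : ∀ (A : Matrix L κ ℝ) o m {F : Fj J L} θ, |m| ≤ 1 → C0 F → (∀ s x, 0 < F θ s x) →
    0 < mE A o m (F θ)
  neg : ∀ (A : Matrix L κ ℝ) o m ψ, mE A o (-m) ψ = mE A o m fun s x => ψ (!s) (-x)
  pb : ∀ {K κ' : Type} [Fintype K] [DecidableEq K] [Fintype κ'] (A : Matrix L κ ℝ)
    (A' : Matrix K κ' ℝ) (M : Matrix K L ℝ) o o' m (ψ : Bool → (K → ℝ) → ℝ),
    A' * A'ᵀ = M * (A * Aᵀ) * Mᵀ → M o' = Pi.single o 1 → (∀ s, Measurable (ψ s)) →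
    mE A o m (fun s x => ψ s (M *ᵥ x)) = mE A' o' m ψ
  lin : ∀ (A : Matrix L κ ℝ) o m (w : L → ℝ),
    mE A o m (fun s x => (w ⬝ᵥ x - spin s * (w ⬝ᵥ fun l => (A * Aᵀ) l o)) ^ 2) =
      w ⬝ᵥ (A * Aᵀ) *ᵥ w

def ExStmt : Prop := ∀ (J L κ : Type) [TopologicalSpace J] [Fintype L] [DecidableEq L] [Fintype κ],
  ExApi J L κ

/-- continuity of the model in all the data -/
def GcStmt : Prop := ∀ (J L κ : Type) [TopologicalSpace J] [FirstCountableTopology J] [Fintype L]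
    [DecidableEq L] [Fintype κ] (o : L),
  (∀ (A : J → Matrix L κ ℝ) (m : J → ℝ) (F : Fj J L), Continuous A → Continuous m → C0 F →
    Continuous fun θ => mE (A θ) o (m θ) (F θ)) ∧
  (∀ (ν : Measure ℝ) [IsProbabilityMeasure ν] (g : J → ℝ → ℝ),
    (Continuous fun p : J × Im => g p.1 p.2) →
    (∀ θ, Integrable (fun b => g θ (tanh b)) ν) ∧ (Continuous fun θ => ∫ b, g θ (tanh b) ∂ν) ∧
    ∀ θ0 c c', c < c' → (∀ b, g θ0 (tanh b) ≤ c) → ∀ᶠ θ in 𝓝 θ0, ∀ b, g θ (tanh b) ≤ c') ∧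
  (∀ (A : Matrix L κ ℝ) (F : Fn L), C0 F → Continuous (Eb A o F) ∧
    ∀ (ν : Measure ℝ) [IsProbabilityMeasure ν], (∃ C, ∀ b s x, |F b s x| ≤ C * exp (C * ‖x‖)) →
      Integrable (Eb A o F) ν) ∧
  ∀ (S : ℕ → Matrix L L ℝ) (S0 : Matrix L L ℝ), (∀ j, (S j).PosSemidef) → Tendsto S atTop (𝓝 S0) →
    ∃ (A : ℕ → Matrix L L ℝ) (A0 : Matrix L L ℝ), (∀ j, A j * (A j)ᵀ = S j) ∧ A0 * A0ᵀ = S0 ∧
      Tendsto A atTop (𝓝 A0)

/-- averaging keeps bounded smoothness -/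
def AvStmt : Prop := ∀ (L κ : Type) [Fintype L] [DecidableEq L] [Fintype κ] (A : Matrix L κ ℝ)
    (o : L) (F : Fn L), BS F → BS (cx A o F) ∧ BS (cb (Eb A o F) : Fn L) ∧
  BS (cb (Eb A o fun b s x => wm (tanh b) (x o) * F b s x) : Fn L) ∧
  ∀ b, Eb A o F b = (cx A o F b true 0 + cx A o F b false 0) / 2 + tanh b * gs (cx A o F) b true 0

/-- integration by parts -/
def IbpStmt : Prop := ∀ (L κ : Type) [Fintype L] [DecidableEq L] [Fintype κ] (A : Matrix L κ ℝ)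
    (o : L) (b : ℝ),
  (∀ (u : L) (a G : Fn L), TS a → TS G →
    Eb A o (dl (A * Aᵀ) o u a * G) b = ∑ p, (A * Aᵀ) u p * Eb A o (a * dx p G) b) ∧
  (∀ G : Fn L, TS G → gs G = 0 → Eb A o (sp * G) b = Eb A o (th o * G) b) ∧
  ∀ al G : Fn L, TS al → TS G → gs al = 0 →
    Eb A o ((sp - th o) * al * G) b = Eb A o ((1 - th o ^ 2) * al * gs G) b

/-- cut-off of the polynomial families of the towers -/
def CutStmt : Prop := ∀ (c : Bath) (F : ℝ → SV c.m), F ∈ Tw.N1 c → Tw.OddF F →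
  ∃ G : ℝ → Fn (Fin c.m), GS id G ∧ (∀ η, rf (G η) = -G η) ∧
    ∀ b s x, G 0 (tanh b) s x = (F b).1 s (WithLp.toLp 2 x)

/-- `G` read on the image of `V` is `F` -/
def Rp {K : Type} {m : ℕ} (V : Matrix K (Fin m) ℝ) (G : Bool → (K → ℝ) → ℝ) (F : SV m) : Prop :=
  ∀ s (X : Fin m → ℝ), G s (V *ᵥ X) = F.1 s (WithLp.toLp 2 X)

/-- dictionary between the model of the networks and the impurity -/
def DictStmt : Prop := ∀ (K : Type) [Fintype K] [DecidableEq K] (c : Bath)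
    (V : Matrix K (Fin c.m) ℝ) (o : K), V o = c.g →
  (∀ (κ : Type) [Fintype κ] (A : Matrix K κ ℝ) b G F, A * Aᵀ = V * Vᵀ → (∀ s, Continuous (G s)) →
    Rp V G F → mE A o (tanh b) G = Tw.exS c b F) ∧
  (∀ (G : Bool → (K → ℝ) → ℝ) F k, (∀ s, Differentiable ℝ (G s)) → Rp V G F →
    Rp V (fun s x => ∑ y, V y k * fderiv ℝ (G s) x (Pi.single y 1)) (Tw.dd k F)) ∧
  ∀ b, Rp V (fun _ x => tm (tanh b) (x o)) (Tw.tS c b)

/-- small perturbations make the Gram matrix definite -/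
def PertStmt : Prop := ∀ (β : ℝ) (ν : Measure ℝ) [IsProbabilityMeasure ν] (n : ℕ) (N : Net n)
    (K : Type) [Fintype K] [DecidableEq K] (F : K → Fn (Ix n)), N.Ok β ν → (∀ x, BS (F x)) →
  ∀ δ > (0 : ℝ), ∃ c : K → Fin (n + 2 + Fintype.card K) → ℝ, ‖c‖ ≤ δ ∧
    (gram β ν N.A 0 (Sum.elim N.f fun x => F x + ∑ i, c x i • pt 0 i)).PosDef

/-- positions of the old and of the new nodes -/
structure Pos {n n' : ℕ} {K : Type} (E : Ix n ⊕ K ≃ Ix n') : Prop where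
  mono : StrictMono fun v => E (.inl v)
  zero : E (.inl 0) = 0
  lt : ∀ v x, E (.inl v) < E (.inr x)

/-- **appending a batch of nodes** -/
def AppStmt : Prop := (∀ (n : ℕ) (K : Type) [Fintype K], ∃ (n' : ℕ) (E : Ix n ⊕ K ≃ Ix n'), Pos E) ∧
  ∀ (β : ℝ) (ν : Measure ℝ) [IsProbabilityMeasure ν] (n n' : ℕ) (N : Net n) (K : Type) [Fintype K]
    [DecidableEq K] (E : Ix n ⊕ K ≃ Ix n') (G al : K → Fn (Ix n)) (a : K → Ix n → Fn (Ix n))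
    (dr : K → Prop), Pos E → N.Ok β ν → (∀ x, BS (G x) ∧ rf (G x) = -G x) →
    (∀ x, N.Flw (al x) (a x) ∧ rf (al x) = al x ∧ ∀ u, rf (a x u) = a x u) →
    (∀ x, ¬ dr x → al x = 0 ∧ a x = 0) → (∀ x, dr x → G x = N.drift (al x) (a x)) →
    (gram β ν N.A 0 (Sum.elim N.f G)).PosDef →
    ∃ N' : Net n', N'.Ok β ν ∧ N.Ext N' (fun v => E (.inl v)) ∧ (∀ x, N'.dr (E (.inr x)) ↔ dr x) ∧
      (∀ x, N'.f (E (.inr x)) = res (fun v => E (.inl v)) (G x)) ∧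
      N'.S.submatrix E E = gram β ν N.A 0 (Sum.elim N.f G) ∧
      (∀ i j, N'.PD (E i) (E j) = pair β ν N.A 0 N.D (gs (Sum.elim N.f G i))
        (fun p => dx p (Sum.elim N.f G i)) (gs (Sum.elim N.f G j))
        (fun p => dx p (Sum.elim N.f G j)) N.PD) ∧
      ∀ i j, N'.P1 (Sum.map E E i) (Sum.map E E j) = pair β ν N.A 0 1
        (eal (Sum.elim N.f G) (Sum.elim N.al al) i) (ea (Sum.elim N.f G) (Sum.elim N.a a) i)
        (eal (Sum.elim N.f G) (Sum.elim N.al al) j) (ea (Sum.elim N.f G) (Sum.elim N.a a) j) N.P1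

/-! ### simulation of extended baths -/

/-- rows: the root, the basis of `U~`, the drifts of the directions `τ t` of `U` -/
abbrev Rw (m : ℕ) (T : Type) : Type := Option (Fin m ⊕ T)

/-- the limits of the rows -/
def Vm (β : ℝ) (e : Tw.Ext) {T : Type} (τ : T → Fin e.b.m) : Matrix (Rw e.bt.m T) (Fin e.bt.m) ℝ
  | none => e.bt.g
  | some (.inl k) => Pi.single k β
  | some (.inr t) => fun k => β * (e.bt.A * e.ι) k (τ t)

/-- read-out of the rows -/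
def Mm {m n : ℕ} {T : Type} (M : Matrix (Fin m) (Ix n) ℝ) (u : T → Ix n) : Matrix (Rw m T) (Ix n) ℝ
  | none => Pi.single 0 1
  | some (.inl k) => M k
  | some (.inr t) => Pi.single (u t) 1

/-- read-out of the gradients of the rows and of the flows -/
def Mh {m n : ℕ} {T : Type} (M : Matrix (Fin m) (Ix n) ℝ) (u : T → Ix n) :
    Matrix (Rw m T ⊕ T) (Ix n ⊕ Ix n) ℝ
  | .inl x => Sum.elim (Mm M u x) 0
  | .inr t => Sum.elim 0 (Pi.single (u t) 1)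

/-- gradient minus flow -/
def nv (e : Tw.Ext) {T : Type} [DecidableEq T] (τ : T → Fin e.b.m) (t : T) : Rw e.bt.m T ⊕ T → ℝ
  | .inl (some (.inl k)) => e.ι k (τ t)
  | .inl _ => 0
  | .inr t' => if t' = t then -1 else 0

/-- a sequence of extensions of `N` simulates `e` -/
def Sim (β : ℝ) (ν : Measure ℝ) {n : ℕ} (N : Net n) (e : Tw.Ext) (T : Type) [Fintype T]
    [DecidableEq T] (τ : T → Fin e.b.m) : Prop :=
  ∃ (n' : ℕ) (ι : Ix n → Ix n') (M : Matrix (Fin e.bt.m) (Ix n') ℝ) (u : T → Ix n')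
    (P : Matrix (Rw e.bt.m T ⊕ T) (Rw e.bt.m T ⊕ T) ℝ) (Ns : ℕ → Net n'),
    (∀ j, (Ns j).Ok β ν ∧ N.Ext (Ns j) ι ∧ ∀ t, (Ns j).dr (u t)) ∧
    Tendsto (fun j => Mm M u * (Ns j).S * (Mm M u)ᵀ) atTop (𝓝 (Vm β e τ * (Vm β e τ)ᵀ)) ∧
    Tendsto (fun j => Mm M u * (Ns j).PD * (Mm M u)ᵀ) atTop
      (𝓝 (Vm β e τ * e.bt.A * (Vm β e τ)ᵀ)) ∧
    Tendsto (fun j => Mh M u * (Ns j).P1 * (Mh M u)ᵀ) atTop (𝓝 P) ∧ ∀ t, P *ᵥ nv e τ t = 0

def StepStmt : Prop := ∀ β > (0 : ℝ), ∀ (ν : Measure ℝ) [IsProbabilityMeasure ν] (n : ℕ) (N : Net n)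
    (D : ℕ) (e e' : Tw.Ext) f0 f (T : Type) [Fintype T] [DecidableEq T] (τ : T → Fin e.b.m),
  Step β ν D e e' f0 f → Function.Injective τ →
  (∀ i, i ∉ range τ → ∀ l ξ, Tw.dd i (f0 l ξ) = 0) → Sim β ν N e T τ → Sim β ν N e' _ id

/-- the first level: the bath of the spin -/
def BaseStmt : Prop := ∀ 𝒞 : Cls, ∀ β > (0 : ℝ), ∀ (ν : Measure ℝ) [IsProbabilityMeasure ν],
  ∃ e : Tw.Ext, TwL admStmt 𝒞 β e.b ∧ ∀ (n : ℕ) (N : Net n), N.Ok β ν →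
    Sim β ν N e Empty Empty.elim

def TopStmt : Prop := ∀ β > (0 : ℝ), ∀ (ν : Measure ℝ) [IsProbabilityMeasure ν] (n : ℕ) (N : Net n)
    (e : Tw.Ext) (D : ℕ) (l a ε : ℝ) Ξ al0, 0 ≤ a → a < l → 0 < ε → Sim β ν N e _ id →
  Out2 e D l a ε Ξ al0 → ∃ (n' : ℕ) (N' : Net n') (ι : Ix n → Ix n'),
    N'.Ok β ν ∧ N.Ext N' ι ∧ ∃ ψ m ρ, N'.Top l a (2 * ε) al0 ψ m ρ

/-! ### (ST) -/

/-- Hermite: functions centred given the spin are almost divergences -/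
def HerStmt : Prop := ∀ (L : Type) [Fintype L] [DecidableEq L] (A : Matrix L L ℝ) (o : L),
  (A * Aᵀ).PosDef → ∀ ρ : Fn L, BS ρ → ∀ e > (0 : ℝ), ∃ θ : L → Fn L, (∀ v, BS (θ v)) ∧
    ∀ b, Eb A o ((∑ v, dl (A * Aᵀ) o v (θ v) - (ρ - cx A o ρ)) ^ 2) b ≤ e

/-- moving the divergences to nearby nodes, with a cut-off -/
def MovStmt : Prop := ∀ (L : Type) [Fintype L] [DecidableEq L] (θ : Fn L), BS θ →
  ∀ B : ℝ, ∃ C : ℝ, ∀ (K : Type) [Fintype K] [DecidableEq K] (A : Matrix K K ℝ) (o v u : K)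
    (ι : L → K), (∀ p, (A * Aᵀ) (ι p) (ι p) ≤ B) → ∀ e > (0 : ℝ), ∃ η ≠ (0 : ℝ), ∀ b,
    Eb A o ((dl (A * Aᵀ) o u (res ι θ * fun _ _ x => rr η (x u)) -
      dl (A * Aᵀ) o v (res ι θ)) ^ 2) b ≤ e + C * ((Pi.single u 1 - Pi.single v 1 : K → ℝ) ⬝ᵥ
        (A * Aᵀ) *ᵥ (Pi.single u 1 - Pi.single v 1 : K → ℝ))

/-- the flow of the spin, given an approximation of the root by a drift node -/
def RootTop (β : ℝ) (ν : Measure ℝ) : Prop := ∀ (n : ℕ) (N : Net n), N.Ok β ν →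
  ∀ w : Ix n → ℝ, (w = 0 ∨ ∃ u, N.dr u ∧ w = Pi.single u 1) → ∀ k > (1 : ℝ), ∀ e > (0 : ℝ),
  ∃ (n' : ℕ) (N' : Net n') (ι : Ix n → Ix n') (al : Fn (Ix n')) (a : Ix n' → Fn (Ix n')),
    N'.Ok β ν ∧ N.Ext N' ι ∧ N'.Flw al a ∧ rf al = al ∧ (∀ u, rf (a u) = a u) ∧
    ∀ b, N'.E ((N'.drift al a - (sp - cb tanh)) ^ 2) b ≤ k * N.sq (w - Pi.single 0 1) + e

/-- an even flow becomes a drift node -/
def DrfStmt : Prop := ∀ (β : ℝ) (ν : Measure ℝ) [IsProbabilityMeasure ν] (n : ℕ) (N : Net n),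
  N.Ok β ν → ∀ al a, N.Flw al a → rf al = al → (∀ u, rf (a u) = a u) → ∀ (v : Ix n) (r : ℝ),
  (∀ b, N.E ((N.drift al a - (N.f v - cb (N.E (N.f v)))) ^ 2) b ≤ r) → ∀ k > (1 : ℝ), ∀ e > (0 : ℝ),
  ∃ (n' : ℕ) (N' : Net n') (ι : Ix n → Ix n') (u : Ix n'), N'.Ok β ν ∧ N.Ext N' ι ∧ N'.dr u ∧
    N'.sq (Pi.single u 1 - Pi.single (ι v) 1) ≤ k * β ^ 2 * r + e

/-- symmetrisation of a flow -/
def SymStmt : Prop := ∀ (n : ℕ) (N : Net n) (ρ al : Fn (Ix n)) a (e : ℝ), N.Flw al a → BS ρ →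
  rf ρ = -ρ → (∀ b, N.E ((N.drift al a - ρ) ^ 2) b ≤ e) →
  ∃ al' a', N.Flw al' a' ∧ rf al' = al' ∧ (∀ u, rf (a' u) = a' u) ∧
    ∀ b, N.E ((N.drift al' a' - ρ) ^ 2) b ≤ e

/-- (ST) for functions of the nodes in `B`, if these nodes are close to drift nodes -/
def St1Stmt (β : ℝ) (ν : Measure ℝ) : Prop := ∀ (n : ℕ) (N : Net n), N.Ok β ν →
  ∀ B : Set (Ix n), 0 ∈ B → (∀ e > (0 : ℝ), ∃ (n' : ℕ) (N' : Net n') (ι u : Ix n → Ix n'),
    N'.Ok β ν ∧ N.Ext N' ι ∧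
      ∀ v ∈ B, N'.dr (u v) ∧ N'.sq (Pi.single (u v) 1 - Pi.single (ι v) 1) ≤ e) →
  ∀ ρ : Fn (Ix n), BS ρ → (∀ b, N.E ρ b = 0) →
  (∀ b s x x', (∀ m ∈ B, x m = x' m) → ρ b s x = ρ b s x') → ∀ e > (0 : ℝ), ∀ δ > (0 : ℝ),
  ∃ (n' : ℕ) (N' : Net n') (ι u : Ix n → Ix n') (al : Fn (Ix n')) (a : Ix n' → Fn (Ix n')),
    N'.Ok β ν ∧ N.Ext N' ι ∧ N'.Flw al a ∧ (∀ b, N'.E ((N'.drift al a - res ι ρ) ^ 2) b ≤ e) ∧
      ∀ v ∈ B, N'.dr (u v) ∧ N'.sq (Pi.single (u v) 1 - Pi.single (ι v) 1) ≤ δ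

/-- the tools -/
structure Tl : Prop where
  dx : DxStmt
  bs : BsStmt
  ts : TsStmt
  ex : ExStmt
  gc : GcStmt

def AvGlue : Prop := Tl → AvStmt
def IbpGlue : Prop := Tl → IbpStmt
def CutGlue : Prop := Tl → CutStmt
def FactGlue : Prop := Tl → IbpStmt → FactStmt ∧ TrivStmt
def LiftGlue : Prop := Tl → LiftStmt
def PertGlue : Prop := Tl → IbpStmt → FactStmt → PertStmt
def AppGlue : Prop := Tl → AppStmt
def StepGlue : Prop := Tl → Tw.FamApi → CutStmt → DictStmt → FactStmt → PertStmt → AppStmt →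
  LiftStmt → StepStmt
def BaseGlue : Prop := Tl → Tw.FamApi → DictStmt → FactStmt → LiftStmt → BaseStmt
def TopGlue : Prop := Tl → Tw.FamApi → AvStmt → CutStmt → DictStmt → FactStmt → TopStmt
def HerGlue : Prop := Tl → AvStmt → HerStmt
def MovGlue : Prop := Tl → MovStmt
def RootGlue : Prop := Tl → FactStmt → LiftStmt → MovStmt → NetStmt →
  ∀ 𝒞 : Cls, (∀ m, 𝒞.C m = PV m) → ∀ β : ℝ, 0 < β → β < 1 → 0 < lam 𝒞 β →
  ∀ (ν : Measure ℝ) [IsProbabilityMeasure ν], RootTop β ν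
def DrfGlue : Prop := Tl → FactStmt → PertStmt → AppStmt → DrfStmt
def SymGlue : Prop := Tl → SymStmt
def St1Glue : Prop := Tl → AvStmt → FactStmt → LiftStmt → HerStmt → MovStmt →
  ∀ (β : ℝ) (ν : Measure ℝ) [IsProbabilityMeasure ν], RootTop β ν → St1Stmt β ν
def StGlue : Prop := Tl → AvStmt → LiftStmt → DrfStmt → SymStmt →
  ∀ β, 0 < β → β < 1 → ∀ (ν : Measure ℝ) [IsProbabilityMeasure ν], RootTop β ν → St1Stmt β ν →
    NodeStmt β ν ∧ STStmt β ν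

theorem net_of (hL : Tw.LocStmt2) (hE : Tw.ExtStmt) (hP : Tw.PolApi) (hT : Tw.TwStep)
    (hs : StepStmt) (hb : BaseStmt) (ht : TopStmt) : NetStmt := by
  intro 𝒞 h𝒞 β h0 h1 a ha ν _
  obtain ⟨e0, t0, s0⟩ := hb 𝒞 β h0 ν
  obtain ⟨e1, f0, f, st, -, -⟩ := hE β ν 0 e0 ∅ ∅ finite_empty finite_empty (by simp) (by simp)
  obtain ⟨γ, h, c1, c2, c3, H⟩ := hL 𝒞 h𝒞 β h0 h1 a ha ν
    (fun e => ∀ (n : ℕ) (N : Net n), N.Ok β ν → Sim β ν N e _ id) e1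
    (fun n N hN => hs β h0 ν n N 0 e0 e1 f0 f Empty Empty.elim st (fun t => t.elim)
      (fun i _ l ξ => hP.d0 i ((st.c0 l).2.2.2 ξ)) (s0 n N hN))
    (hT 𝒞 h𝒞 β h0.ne' ν 0 e0 e1 f0 f st t0)
    (fun e he => ⟨0, fun D _ 𝒱 hV hC => by
      obtain ⟨e', g0, g, st', hi, -⟩ := hE β ν D e 𝒱 ∅ hV finite_empty hC (by simp)
      exact ⟨e', g0, g, st', hi, fun n N hN => hs β h0 ν n N D e e' g0 g _ id st'
        Function.injective_id (fun i hi => absurd ⟨i, rfl⟩ hi) (he n N hN)⟩⟩)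
  refine ⟨γ, h, c1, c2, c3, fun e he n N hN => ?_⟩
  obtain ⟨e', D, hS, -, -, -, Ξ, hO⟩ := H (e / 2) (by positivity)
  have := ht β h0 ν n N e' D _ a (e / 2) Ξ _ ha.1 ha.2 (by positivity) (hS n N hN) hO
  rwa [mul_div_cancel₀ _ two_ne_zero] at this

end Crest.Agent.T157.Nt

end
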