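import Crest.Agent.T157.NetDef_32
import Crest.Agent.T157.LcCal_52

/-!
# Row 157, block B/S3, section 7 (helper32): continuous families, functionals, read-back
-/

set_option autoImplicit false
set_option linter.unusedVariables false
set_option linter.unusedSectionVars false

noncomputable section

namespace Crest.Agent.T157.Nt.Fam

open MeasureTheory Matrix Real Set Filter Topology
open Crest.ProbabilityR.SpinGlassDynamics (spin)
open Crest.Agent.T157.S3L (gm mdl)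
open Crest.Agent.T157.Tw (sech2 Bath SV sS xS zS tS exS rsS imS)

section gen
variable {J L κ K I I' : Type} [TopologicalSpace J] [FirstCountableTopology J] [Fintype L]
  [DecidableEq L] [Fintype κ] [Fintype K] [DecidableEq K] [Fintype I] [Fintype I']

def UC (G : J → Fn L) : Prop := C0 (up G)
def UT (G : J → Fn L) : Prop := TS (up G)
def mF (A : J → Matrix L κ ℝ) (o : L) (G : J → Fn L) (θ : J) (m : ℝ) : ℝ := mE (A θ) o m (G θ m)
def II (ν : Measure ℝ) (A : J → Matrix L κ ℝ) (o : L) (G : J → Fn L) (θ : J) : ℝ :=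
  ∫ b, mF A o G θ (tanh b) ∂ν
def CI (ν : Measure ℝ) (A : J → Matrix L κ ℝ) (o : L) (G G' : J → Fn L) (θ : J) : ℝ :=
  ∫ b, (mF A o (G * G') θ (tanh b) - mF A o G θ (tanh b) * mF A o G' θ (tanh b)) ∂ν
def PF (β : ℝ) (ν : Measure ℝ) (A : J → Matrix L κ ℝ) (o : L) (d al : J → Fn L)
    (a : I → J → Fn L) (al' : J → Fn L) (a' : I' → J → Fn L) (P : Matrix I I' ℝ) (θ : J) : ℝ :=
  β ^ 2 * (II ν A o (al * d * al') θ + ∑ p, ∑ q, II ν A o (a p * a' q) θ * P p q)
/-- `tanh (b + x_o)` -/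
def tF (o : L) : J → Fn L := fun _ m _ x => tm m (x o)

def tI (b : ℝ) : Im := ⟨tanh b, (neg_one_lt_tanh b).le, (tanh_lt_one b).le⟩

lemma up_sum (T : Finset I) (G : I → J → Fn L) : up (∑ i ∈ T, G i) = ∑ i ∈ T, up (G i) := by
  funext θ; simp [up, Finset.sum_apply]

variable (tl : Tl)
include tl

lemma UT.uc {G : J → Fn L} (h : UT G) : UC G := (tl.ts _ _).c0 h
lemma UC.add {G G' : J → Fn L} (h : UC G) (h' : UC G') : UC (G + G') := (tl.ts _ _).c0add h h'
lemma UC.sub {G G' : J → Fn L} (h : UC G) (h' : UC G') : UC (G - G') := (tl.ts _ _).c0sub h h'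
lemma UC.mul {G G' : J → Fn L} (h : UC G) (h' : UC G') : UC (G * G') := (tl.ts _ _).c0mul h h'
lemma UC.sum (T : Finset I) {G : I → J → Fn L} (h : ∀ i ∈ T, UC (G i)) : UC (∑ i ∈ T, G i) := by
  unfold UC; rw [up_sum]; exact (tl.ts _ _).c0sum T h
lemma ut_cb {c : J → ℝ} (hc : Continuous c) : UT (fun θ _ _ _ => c θ : J → Fn L) :=
  (tl.ts (J × Im) L).cb (c := fun p => c p.1) (hc.comp continuous_fst)
lemma ut_one : UT (1 : J → Fn L) := ut_cb tl (c := fun _ => 1) continuous_const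
lemma ut_zero : UT (0 : J → Fn L) := ut_cb tl (c := fun _ => 0) continuous_const
lemma UC.smul (c : ℝ) {G : J → Fn L} (h : UC G) : UC (c • G) :=
  ((ut_cb tl (c := fun _ => c) continuous_const).uc tl).mul tl h
lemma UT.add {G G' : J → Fn L} (h : UT G) (h' : UT G') : UT (G + G') := (tl.ts _ _).add h h'
lemma UT.sub {G G' : J → Fn L} (h : UT G) (h' : UT G') : UT (G - G') := (tl.ts _ _).sub h h'
lemma UT.mul {G G' : J → Fn L} (h : UT G) (h' : UT G') : UT (G * G') := (tl.ts _ _).mul h h'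
lemma UT.smul (c : ℝ) {G : J → Fn L} (h : UT G) : UT (c • G) := (tl.ts _ _).smul c h
lemma UT.pow (k : ℕ) {G : J → Fn L} (h : UT G) : UT (G ^ k) := (tl.ts _ _).pow k h
lemma UT.sum (T : Finset I) {G : I → J → Fn L} (h : ∀ i ∈ T, UT (G i)) : UT (∑ i ∈ T, G i) := by
  unfold UT; rw [up_sum]; exact (tl.ts _ _).sum T h
lemma UT.dx (l : L) {G : J → Fn L} (h : UT G) : UT fun θ => dx l (G θ) := (tl.ts _ _).dx l h
lemma UT.gs {G : J → Fn L} (h : UT G) : UT fun θ => gs (G θ) := (tl.ts _ _).gs h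
lemma UT.pb (M : Matrix K L ℝ) {G : J → Fn K} (h : UT G) : UT fun θ => pb M (G θ) :=
  (tl.ts _ _).pb M h
lemma UT.re {J' : Type} [TopologicalSpace J'] {φ : J' → J} (hφ : Continuous φ) {G : J → Fn L}
    (h : UT G) : TS (up fun θ => G (φ θ)) :=
  (tl.ts (J × Im) L).re (φ := fun p : J' × Im => (φ p.1, p.2))
    ((hφ.comp continuous_fst).prodMk continuous_snd) h
lemma ut_sp : UT (fun _ => sp : J → Fn L) := (tl.ts _ _).sp
lemma ut_co (l : L) : UT (fun _ => co l : J → Fn L) := (tl.ts _ _).co l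
lemma ut_rr {η : J → ℝ} (hη : Continuous η) (l : L) :
    UT (fun θ _ _ x => rr (η θ) (x l) : J → Fn L) :=
  (tl.ts (J × Im) L).rr (η := fun p => η p.1) (hη.comp continuous_fst) l
lemma ut_tF (o : L) : UT (tF o : J → Fn L) := by
  have h := (tl.ts (J × Im) L).tm (m := fun p => p.2) (continuous_subtype_val.comp continuous_snd)
    (fun p => abs_le.2 p.2.2) (Pi.single o 1)
  simp only [single_dotProduct, one_mul] at h
  exact h
lemma tb_tF (o : L) (θ : J) : tb (tF o θ) = th o := by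
  funext b s x; exact (tl.ts ℝ L).tm_eq b (x o)
lemma UT.dl {S : J → Matrix L L ℝ} (hS : Continuous S) (o u : L) {G : J → Fn L} (h : UT G) :
    UT fun θ => dl (S θ) o u (G θ) := by
  have e : (fun θ => Nt.dl (S θ) o u (G θ)) = G * ((fun _ => co u) - (fun θ _ _ _ => S θ o u) *
      fun _ => sp) - ∑ p, (fun θ _ _ _ => S θ u p) * fun θ => Nt.dx p (G θ) := by
    funext θ m s x; simp [Nt.dl, Finset.sum_apply]
  rw [e]
  exact (h.mul tl ((ut_co tl u).sub tl ((ut_cb tl (by fun_prop)).mul tl (ut_sp tl)))).sub tl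
    (UT.sum tl _ fun p _ => (ut_cb tl (by fun_prop)).mul tl (h.dx tl p))
lemma UT.diff {G : J → Fn L} (h : UT G) (θ : J) : Df (tb (G θ)) :=
  fun b s => (tl.ts _ _).df h (θ, tI b) s
omit tl in
lemma UC.cont {G : J → Fn L} (h : UC G) (θ : J) (b : ℝ) (s : Bool) :
    Continuous (G θ (tanh b) s) :=
  (h.1 s).comp (continuous_const (y := (θ, tI b))|>.prodMk continuous_id)

variable (A : J → Matrix L κ ℝ) (o : L)

lemma mF_add {G G' : J → Fn L} (h : UC G) (h' : UC G') (θ : J) (b : ℝ) :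
    mF A o (G + G') θ (tanh b) = mF A o G θ (tanh b) + mF A o G' θ (tanh b) :=
  (tl.ex (J × Im) L κ).add (A θ) o (tanh b) (θ, tI b) h h'
lemma mF_sub {G G' : J → Fn L} (h : UC G) (h' : UC G') (θ : J) (b : ℝ) :
    mF A o (G - G') θ (tanh b) = mF A o G θ (tanh b) - mF A o G' θ (tanh b) :=
  (tl.ex (J × Im) L κ).sub (A θ) o (tanh b) (θ, tI b) h h'
lemma mF_smul (c : ℝ) (G : J → Fn L) (θ : J) (b : ℝ) :
    mF A o (c • G) θ (tanh b) = c * mF A o G θ (tanh b) :=
  (tl.ex (J × Im) L κ).smul (A θ) o (tanh b) c (up G) (θ, tI b)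
lemma mF_sum (T : Finset I) {G : I → J → Fn L} (h : ∀ i ∈ T, UC (G i)) (θ : J) (b : ℝ) :
    mF A o (∑ i ∈ T, G i) θ (tanh b) = ∑ i ∈ T, mF A o (G i) θ (tanh b) := by
  have := (tl.ex (J × Im) L κ).sum (A θ) o (tanh b) T (θ, tI b) h
  rwa [← up_sum] at this

variable {A} (hA : Continuous A) (ν : Measure ℝ) [IsProbabilityMeasure ν]
include hA

lemma mF_cont {G : J → Fn L} (h : UC G) : Continuous fun p : J × Im => mF A o G p.1 p.2 :=
  (tl.gc (J × Im) L κ o).1 (fun p => A p.1) (fun p => p.2) (up G) (hA.comp continuous_fst)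
    (continuous_subtype_val.comp continuous_snd) h
lemma mF_int {G : J → Fn L} (h : UC G) (θ : J) :
    Integrable (fun b => mF A o G θ (tanh b)) ν :=
  ((tl.gc J L κ o).2.1 ν (mF A o G) (mF_cont tl o hA h)).1 θ
lemma II_cont {G : J → Fn L} (h : UC G) : Continuous (II ν A o G) :=
  ((tl.gc J L κ o).2.1 ν (mF A o G) (mF_cont tl o hA h)).2.1
lemma CI_cont {G G' : J → Fn L} (h : UC G) (h' : UC G') : Continuous (CI ν A o G G') :=
  ((tl.gc J L κ o).2.1 ν (fun θ m => mF A o (G * G') θ m - mF A o G θ m * mF A o G' θ m)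
    ((mF_cont tl o hA (h.mul tl h')).sub ((mF_cont tl o hA h).mul (mF_cont tl o hA h')))).2.1
lemma II_add {G G' : J → Fn L} (h : UC G) (h' : UC G') (θ : J) :
    II ν A o (G + G') θ = II ν A o G θ + II ν A o G' θ := by
  unfold II; simp_rw [mF_add tl A o h h']
  exact integral_add (mF_int tl o hA ν h θ) (mF_int tl o hA ν h' θ)
lemma II_smul (c : ℝ) (G : J → Fn L) (θ : J) : II ν A o (c • G) θ = c * II ν A o G θ := by
  unfold II; simp_rw [mF_smul tl A o c G]; exact integral_const_mul _ _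
lemma II_sum (T : Finset I) {G : I → J → Fn L} (h : ∀ i ∈ T, UC (G i)) (θ : J) :
    II ν A o (∑ i ∈ T, G i) θ = ∑ i ∈ T, II ν A o (G i) θ := by
  unfold II; simp_rw [mF_sum tl A o T h]
  exact integral_finsetSum _ fun i hi => mF_int tl o hA ν (h i hi) θ
lemma II_lin (c : I → ℝ) {G : I → J → Fn L} (h : ∀ i, UC (G i)) (θ : J) :
    II ν A o (∑ i, c i • G i) θ = ∑ i, c i * II ν A o (G i) θ := by
  rw [II_sum tl o hA ν _ fun i _ => (h i).smul tl (c i)]
  exact Finset.sum_congr rfl fun i _ => II_smul tl o hA ν _ _ _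
lemma II_bil (c : I → ℝ) (c' : I' → ℝ) {G : I → J → Fn L} {G' : I' → J → Fn L}
    (h : ∀ i, UC (G i)) (h' : ∀ i, UC (G' i)) (θ : J) :
    II ν A o ((∑ i, c i • G i) * ∑ i, c' i • G' i) θ =
      ∑ i, ∑ j, c i * c' j * II ν A o (G i * G' j) θ := by
  have e : (∑ i, c i • G i) * ∑ i, c' i • G' i = ∑ i, ∑ j, (c i * c' j) • (G i * G' j) := by
    rw [Finset.sum_mul_sum]; simp only [smul_mul_smul_comm]
  rw [e, II_sum tl o hA ν _ fun i _ => UC.sum tl _ fun j _ => ((h i).mul tl (h' j)).smul tl _]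
  exact Finset.sum_congr rfl fun i _ => II_lin tl o hA ν _ (fun j => (h i).mul tl (h' j)) θ

lemma PF_lim (β : ℝ) {d al al' : J → Fn L} {a : I → J → Fn L} {a' : I' → J → Fn L} (hd : UC d)
    (hal : UC al) (hal' : UC al') (ha : ∀ i, UC (a i)) (ha' : ∀ i, UC (a' i)) {θ : ℕ → J} {θ0 : J}
    (hθ : Tendsto θ atTop (𝓝 θ0)) {P : ℕ → Matrix I I' ℝ} {P0 : Matrix I I' ℝ}
    (hP : Tendsto P atTop (𝓝 P0)) :
    Tendsto (fun j => PF β ν A o d al a al' a' (P j) (θ j)) atTop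
      (𝓝 (PF β ν A o d al a al' a' P0 θ0)) := by
  refine Tendsto.const_mul _ (Tendsto.add
    (((II_cont tl o hA ν ((hal.mul tl hd).mul tl hal')).tendsto _).comp hθ)
    (tendsto_finsetSum _ fun p _ => tendsto_finsetSum _ fun q _ => Tendsto.mul
      (((II_cont tl o hA ν ((ha p).mul tl (ha' q))).tendsto _).comp hθ) ?_))
  exact ((continuous_apply_apply p q).tendsto _).comp hP

/-- change of the multipliers -/
lemma PF_mat {I0 I0' : Type} [Fintype I0] [Fintype I0'] (β : ℝ) {d al al' : J → Fn L}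
    {a : I → J → Fn L} {a' : I' → J → Fn L} (ha : ∀ i, UC (a i)) (ha' : ∀ i, UC (a' i))
    (W : Matrix I I0 ℝ) (W' : Matrix I' I0' ℝ) (P : Matrix I0 I0' ℝ) (θ : J) :
    PF β ν A o d al (fun p => ∑ x, W x p • a x) al' (fun q => ∑ y, W' y q • a' y) P θ =
      PF β ν A o d al a al' a' (W * P * W'ᵀ) θ := by
  unfold PF
  congr 2
  simp_rw [II_bil tl o hA ν _ _ ha ha', Matrix.mul_apply, transpose_apply, Finset.sum_mul,
    Finset.mul_sum]
  rw [Finset.sum_comm]
  simp_rw [Finset.sum_comm (s := (Finset.univ : Finset I0)) (t := (Finset.univ : Finset I))]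
  rw [Finset.sum_comm]
  refine Finset.sum_congr rfl fun x _ => ?_
  simp_rw [Finset.sum_comm (s := (Finset.univ : Finset I0)) (t := (Finset.univ : Finset I'))]
  rw [Finset.sum_comm]
  refine Finset.sum_congr rfl fun y _ => Finset.sum_congr rfl fun q _ =>
    Finset.sum_congr rfl fun p _ => by ring

/-! ### read-back -/

omit hA in
lemma Eb_pb {κ' : Type} [Fintype κ'] {B : Matrix K κ' ℝ} {W : Matrix L K ℝ} {o' : K} {θ : J}
    (hW : A θ * (A θ)ᵀ = W * (B * Bᵀ) * Wᵀ) (ho : W o = Pi.single o' 1) {G : J → Fn L} (h : UC G)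
    (b : ℝ) : Eb B o' (pb W (tb (G θ))) b = mF A o G θ (tanh b) := by
  unfold Eb mF
  rw [(tl.ex ℝ K κ').eq]
  exact (tl.ex ℝ K κ').pb B (A θ) W o' o (tanh b) _ hW ho fun s => (h.cont θ b s).measurable

omit hA in
lemma gram_pb {κ' : Type} [Fintype κ'] {B : Matrix K κ' ℝ} {W : Matrix L K ℝ} {o' : K} {θ : J}
    (hW : A θ * (A θ)ᵀ = W * (B * Bᵀ) * Wᵀ) (ho : W o = Pi.single o' 1) {G G' : J → Fn L}
    (h : UC G) (h' : UC G') :
    ∫ b, Cv B o' (pb W (tb (G θ))) (pb W (tb (G' θ))) b ∂ν = CI ν A o G G' θ := by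
  unfold CI Cv
  simp_rw [← Eb_pb tl o hW ho h, ← Eb_pb tl o hW ho h', ← Eb_pb tl o hW ho (h.mul tl h')]
  rfl

lemma pair_pb {κ' I0 I0' : Type} [Fintype κ'] [Fintype I0] [Fintype I0'] {B : Matrix K κ' ℝ}
    {W : Matrix L K ℝ} {o' : K} {θ : J} (hW : A θ * (A θ)ᵀ = W * (B * Bᵀ) * Wᵀ)
    (ho : W o = Pi.single o' 1) (β : ℝ) {d al al' : J → Fn L} {a : I → J → Fn L}
    {a' : I' → J → Fn L} (hd : UC d) (hal : UC al) (hal' : UC al') (ha : ∀ i, UC (a i))
    (ha' : ∀ i, UC (a' i)) (U : Matrix I I0 ℝ) (U' : Matrix I' I0' ℝ) (P : Matrix I0 I0' ℝ) :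
    pair β ν B o' (pb W (tb (d θ))) (pb W (tb (al θ))) (fun p => ∑ x, U x p • pb W (tb (a x θ)))
      (pb W (tb (al' θ))) (fun q => ∑ y, U' y q • pb W (tb (a' y θ))) P =
      PF β ν A o d al a al' a' (U * P * U'ᵀ) θ := by
  rw [← PF_mat tl o hA ν β ha ha']
  have e : ∀ G : J → Fn L, UC G → Ev ν B o' (pb W (tb (G θ))) = II ν A o G θ := fun G h => by
    unfold Ev II; simp_rw [Eb_pb tl o hW ho h]
  unfold pair PF
  congr 2
  · exact e _ ((hal.mul tl hd).mul tl hal')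
  · refine Finset.sum_congr rfl fun p _ => Finset.sum_congr rfl fun q _ => ?_
    rw [← e _ ((UC.sum tl _ fun x _ => (ha x).smul tl _).mul tl
      (UC.sum tl _ fun x _ => (ha' x).smul tl _))]
    congr 2
    funext b s x; simp [pb, tb, Finset.sum_apply]

end gen

/-! ### representation on the image of `V` -/

section rp
open Tw.Cal52
variable {K I : Type} [Fintype K] [DecidableEq K] [Fintype I] {m : ℕ} {V : Matrix K (Fin m) ℝ}
  {G G' : Bool → (K → ℝ) → ℝ} {F F' : SV m}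

lemma sg_eq (s : Bool) : Tw.sg s = spin s := rfl
lemma rp_add (h : Rp V G F) (h' : Rp V G' F') : Rp V (G + G') (F + F') :=
  fun s X => congrArg₂ (· + ·) (h s X) (h' s X)
lemma rp_sub (h : Rp V G F) (h' : Rp V G' F') : Rp V (G - G') (F - F') :=
  fun s X => congrArg₂ (· - ·) (h s X) (h' s X)
lemma rp_mul (h : Rp V G F) (h' : Rp V G' F') : Rp V (G * G') (F * F') :=
  fun s X => congrArg₂ (· * ·) (h s X) (h' s X)
lemma rp_smul (c : ℝ) (h : Rp V G F) : Rp V (c • G) (c • F) :=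
  fun s X => congrArg (c * ·) (h s X)
lemma rp_sum (T : Finset I) {G : I → Bool → (K → ℝ) → ℝ} {F : I → SV m}
    (h : ∀ i ∈ T, Rp V (G i) (F i)) : Rp V (∑ i ∈ T, G i) (∑ i ∈ T, F i) := fun s X => by
  rw [sum_ap, Finset.sum_apply, Finset.sum_apply]
  exact Finset.sum_congr rfl fun i hi => h i hi s X
lemma rp_one : Rp V 1 1 := fun _ _ => rfl
lemma rp_zero : Rp V 0 0 := fun _ _ => rfl
lemma rp_sq (h : Rp V G F) : Rp V (G ^ 2) (F ^ 2) := by rw [sq, sq]; exact rp_mul h h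
lemma rp_sp : Rp V (fun s _ => spin s) (sS m) := fun _ _ => rfl
lemma rp_co (r : K) : Rp V (fun _ x => x r) (∑ i, V r i • xS i) := fun s X => by
  simp [sum_ap, smul_ap, x_ap, mulVec, dotProduct]

/-- discrete derivative -/
def gS (F : SV m) : SV m := (1 / 2 : ℝ) • (sS m * (F - Tw.fl m F))

lemma gS_ap (F : SV m) (s : Bool) (X) : (gS F).1 s X = (F.1 true X - F.1 false X) / 2 := by
  cases s <;> simp [gS, smul_ap, mul_ap, sub_ap, s_ap, fl_ap, Tw.sg] <;> ring
lemma rp_gs (h : Rp V G F) : Rp V (fun _ x => (G true x - G false x) / 2) (gS F) := fun s X => by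
  rw [gS_ap, ← h, ← h]
lemma gS_smul (c : ℝ) (F : SV m) : gS (c • F) = c • gS F := ext' fun s X => by
  simp only [gS_ap, smul_ap]; ring
lemma gS_sum (T : Finset I) (F : I → SV m) : gS (∑ i ∈ T, F i) = ∑ i ∈ T, gS (F i) :=
  ext' fun s X => by simp only [gS_ap, sum_ap, ← Finset.sum_sub_distrib, Finset.sum_div]
lemma rs_gS (c : Bath) (b : ℝ) (F : SV c.m) : rsS c b F = (sS _ - tS c b) * gS F :=
  ext' fun s X => by
    cases s <;> simp [rs_ap, mul_ap, sub_ap, gS_ap, s_ap, t_ap, Tw.sg] <;> ring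
lemma ex_rs (c : Bath) (b : ℝ) (F G : SV c.m) :
    exS c b (rsS c b F * rsS c b G) = exS c b (gS F * (1 - tS c b ^ 2) * gS G) :=
  eq_cond c b fun X => by
    simp only [rs_gS, mul_ap, sub_ap, gS_ap, s_ap, t_ap, Tw.sg, sq_ap, one_ap]
    simp; ring
lemma pull_gS {k : ℕ} (ι : Matrix (Fin k) (Fin m) ℝ) (F : SV m) :
    gS (Tw.pull ι F) = Tw.pull ι (gS F) := ext' fun s X => by simp only [gS_ap, pull_ap]

lemma N_alg (c : Bath) (b r : ℝ) (F : SV c.m) : (imS c b).N (algebraMap ℝ _ r) F = 0 := by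
  rw [N_eq, ← Algebra.smul_def, Algebra.algebraMap_eq_smul_one, map_smul, map_smul, ex1]; simp
lemma En_alg (c : Bath) (b r : ℝ) (F : SV c.m) : (imS c b).En (algebraMap ℝ _ r) F = 0 := by
  have h1 : rsS c b (algebraMap ℝ _ r) = 0 := ext' fun s X => by simp [rs_ap, alg_ap, zero_ap]
  have h2 : ∀ i, Tw.dd i (algebraMap ℝ (SV c.m) r) = 0 := fun i => by
    rw [Algebra.algebraMap_eq_smul_one, map_smul, done, smul_zero]
  simp [En_eq, h1, h2]

variable (hD : DictStmt) {c : Bath} {V : Matrix K (Fin c.m) ℝ} {o : K} (hV : V o = c.g)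
include hD hV

lemma rp_dd {G : Fn K} {F : SV c.m} {b : ℝ} (hG : Df G) (h : Rp V (G b) F) (k : Fin c.m) :
    Rp V ((∑ y, V y k • dx y G) b) (Tw.dd k F) := fun s X => by
  rw [← (hD K c V o hV).2.1 (G b) F k (hG b) h s X]
  simp [dx, Finset.sum_apply]

lemma rp_dl {G : Fn K} {F : SV c.m} {b : ℝ} (hG : Df G) (h : Rp V (G b) F) (r : K) :
    Rp V (dl (V * Vᵀ) o r G b) (∑ i, V r i • (zS c i * F - Tw.dd i F)) := fun s X => by
  have h1 := fun i => rp_dd hD hV hG h i s X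
  simp only [sum_ap, smul_ap, sub_ap, mul_ap, z_ap, ← h1, ← h s X, sg_eq, ← hV]
  simp only [dl, co, sp, Pi.sub_apply, Pi.mul_apply, Pi.smul_apply, Finset.sum_apply, smul_eq_mul,
    Matrix.mul_apply, transpose_apply, mulVec, dotProduct, mul_sub, Finset.sum_sub_distrib,
    Finset.mul_sum, Finset.sum_mul]
  congr 1
  · rw [← Finset.sum_sub_distrib]; exact Finset.sum_congr rfl fun _ _ => by ring
  · rw [Finset.sum_comm]
    exact Finset.sum_congr rfl fun _ _ => Finset.sum_congr rfl fun _ _ => by ring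

variable {J κ : Type} [TopologicalSpace J] [FirstCountableTopology J] [Fintype κ] (tl : Tl)
  {A : J → Matrix K κ ℝ} (hA : Continuous A) (ν : Measure ℝ) [IsProbabilityMeasure ν] {θ : J}
  (hθ : A θ * (A θ)ᵀ = V * Vᵀ)
include hθ

lemma mF_rp {G : J → Fn K} (hG : UC G) {b : ℝ} {F : SV c.m} (h : Rp V (G θ (tanh b)) F) :
    mF A o G θ (tanh b) = exS c b F :=
  (hD K c V o hV).1 κ (A θ) b _ F hθ (hG.cont θ b) h

lemma II_rp {G : J → Fn K} (hG : UC G) {F : ℝ → SV c.m}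
    (h : ∀ b, Rp V (G θ (tanh b)) (F b)) : II ν A o G θ = ∫ b, exS c b (F b) ∂ν := by
  unfold II; simp_rw [fun b => mF_rp hD hV hθ hG (h b)]

include tl

lemma CI_rp {G G' : J → Fn K} (hG : UC G) (hG' : UC G') {F F' : ℝ → SV c.m}
    (h : ∀ b, Rp V (G θ (tanh b)) (F b)) (h' : ∀ b, Rp V (G' θ (tanh b)) (F' b)) :
    CI ν A o G G' θ = Tw.Nb ν c F F' := by
  unfold CI Tw.Nb
  simp_rw [fun b => mF_rp hD hV hθ hG (h b), fun b => mF_rp hD hV hθ hG' (h' b),
    fun b => mF_rp hD hV hθ (hG.mul tl hG') (rp_mul (h b) (h' b)), N_eq]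

include hA

/-- functions that agree on the image of `V` have the same integral -/
lemma II_congr {G G' : J → Fn K} (hG : UC G) (hG' : UC G')
    (h : ∀ᵐ b ∂ν, ∀ s X, G θ (tanh b) s (V *ᵥ X) = G' θ (tanh b) s (V *ᵥ X)) :
    II ν A o G θ = II ν A o G' θ := by
  refine integral_congr_ae (h.mono fun b hb => ?_)
  have := mF_rp hD hV hθ (hG.sub tl hG') (b := b) (F := 0) fun s X => sub_eq_zero.2 (hb s X)
  rw [mF_sub tl A o hG hG', map_zero] at this
  exact sub_eq_zero.1 this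

lemma PF_rp (β : ℝ) {G G' : J → Fn K} (hG : UT G) (hG' : UT G') {F F' : ℝ → SV c.m}
    (h : ∀ b, Rp V (G θ (tanh b)) (F b)) (h' : ∀ b, Rp V (G' θ (tanh b)) (F' b)) :
    PF β ν A o (1 - tF o ^ 2) (fun θ => gs (G θ)) (fun p θ => dx p (G θ)) (fun θ => gs (G' θ))
      (fun p θ => dx p (G' θ)) (V * c.A * Vᵀ) θ = β ^ 2 * Tw.Eb ν c F F' := by
  rw [← PF_mat tl o hA ν β (fun p => (hG.dx tl p).uc tl) fun p => (hG'.dx tl p).uc tl]
  have u : ∀ {G : J → Fn K}, UT G → ∀ i, UC (∑ x, V x i • fun θ => dx x (G θ)) := fun hG i =>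
    UC.sum tl _ fun x _ => ((hG.dx tl x).uc tl).smul tl _
  have r : ∀ {G : J → Fn K} {F : ℝ → SV c.m}, UT G → (∀ b, Rp V (G θ (tanh b)) (F b)) → ∀ i b,
      Rp V ((∑ x, V x i • fun θ => dx x (G θ)) θ (tanh b)) (Tw.dd i (F b)) := fun hG h i b => by
    have := rp_dd hD hV (hG.diff tl θ) (h b) i
    convert this using 1
    funext s x; simp [Finset.sum_apply, dx, tb]
  have u0 : UC ((fun θ => gs (G θ)) * (1 - tF o ^ 2) * fun θ => gs (G' θ)) :=
    (((hG.gs tl).mul tl ((ut_one tl).sub tl ((ut_tF tl o).pow tl 2))).mul tl (hG'.gs tl)).uc tl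
  have e0 : ∀ b, mF A o ((fun θ => gs (G θ)) * (1 - tF o ^ 2) * fun θ => gs (G' θ)) θ (tanh b) =
      exS c b (rsS c b (F b) * rsS c b (F' b)) := fun b => by
    rw [ex_rs]
    exact mF_rp hD hV hθ u0 (rp_mul (rp_mul (rp_gs (h b))
      (rp_sub rp_one (rp_sq ((hD K c V o hV).2.2 b)))) (rp_gs (h' b)))
  have e1 := fun i j b => mF_rp hD hV hθ ((u hG i).mul tl (u hG' j))
    (rp_mul (r hG h i b) (r hG' h' j b))
  have i1 := fun i j => mF_int tl o hA ν ((u hG i).mul tl (u hG' j)) θ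
  unfold PF II Tw.Eb
  congr 1
  simp_rw [En_eq, ← e0, ← e1]
  rw [integral_add (mF_int tl o hA ν u0 θ) (integrable_finsetSum _ fun i _ =>
    integrable_finsetSum _ fun j _ => (i1 i j).const_mul _), integral_finsetSum _ fun i _ =>
    integrable_finsetSum _ fun j _ => (i1 i j).const_mul _]
  congr 1
  refine Finset.sum_congr rfl fun i _ => ?_
  rw [integral_finsetSum _ fun j _ => (i1 i j).const_mul _]
  exact Finset.sum_congr rfl fun j _ => by rw [integral_const_mul, mul_comm]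

end rp

end Crest.Agent.T157.Nt.Fam

end
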