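import Crest.Agent.T157.NetDef_32

/-!
# Row 157, block B/S3, section 7 (helper67): `GcStmt`, continuity of the model
-/

set_option autoImplicit false

noncomputable section

namespace Crest.Agent.T157.Nt

open MeasureTheory ProbabilityTheory Matrix Real Set Filter Topology
open Crest.ProbabilityR.SpinGlassDynamics (spin)
open Crest.Agent.T157.S3L (gm mdl hb)
open Crest.Agent.T157.E (gv)

namespace Gc67

variable {J L κ : Type} [TopologicalSpace J] [Fintype L] [Fintype κ]

lemma int_exp_norm (t : ℝ) : Integrable (fun z : κ → ℝ => exp (t * ‖z‖)) (gv κ) := by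
  have h1 : Integrable (fun x : ℝ => exp (|t| * |x|)) (gaussianReal 0 1) :=
    integrable_exp_mul_abs (X := fun x : ℝ => x) (integrable_exp_mul_gaussianReal _)
      (integrable_exp_mul_gaussianReal _)
  refine (Integrable.fintype_prod (f := fun (_ : κ) (x : ℝ) => exp (|t| * |x|))
    fun _ => h1).mono' (by fun_prop) (ae_of_all _ fun z => ?_)
  rw [Real.norm_eq_abs, abs_of_pos (exp_pos _), ← exp_sum, ← Finset.mul_sum]
  refine exp_le_exp.2 ((le_abs_self _).trans ?_)
  rw [abs_mul, abs_norm]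
  refine mul_le_mul_of_nonneg_left ?_ (abs_nonneg t)
  exact (pi_norm_le_iff_of_nonneg (Finset.sum_nonneg fun _ _ => abs_nonneg _)).2 fun i =>
    Finset.single_le_sum (f := fun i => |z i|) (fun _ _ => abs_nonneg _) (Finset.mem_univ i)

lemma norm_mv (A : Matrix L κ ℝ) (z : κ → ℝ) : ‖A *ᵥ z‖ ≤ (∑ l, ∑ k, |A l k|) * ‖z‖ := by
  refine (pi_norm_le_iff_of_nonneg (by positivity)).2 fun l => ?_
  refine le_trans ?_ (mul_le_mul_of_nonneg_right (Finset.single_le_sum
    (f := fun l => ∑ k, |A l k|) (fun _ _ => by positivity) (Finset.mem_univ l)) (norm_nonneg z))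
  rw [Finset.sum_mul]
  refine (Finset.abs_sum_le_sum_abs _ _).trans (Finset.sum_le_sum fun k _ => ?_)
  rw [abs_mul]
  exact mul_le_mul_of_nonneg_left (norm_le_pi_norm z k) (abs_nonneg _)

/-- the majorant -/
lemma maj {C k M g : ℝ} (c : L → ℝ) (A : Matrix L κ ℝ) (z : κ → ℝ)
    (h : |g| ≤ C * exp (k * ‖c + A *ᵥ z‖)) (hM : |C| + ‖c‖ + ∑ l, ∑ k, |A l k| ≤ M) :
    |g| ≤ M * exp (|k| * M) * exp (|k| * M * ‖z‖) := by
  have a0 : 0 ≤ ∑ l, ∑ k, |A l k| := by positivity
  have c0 := norm_nonneg c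
  have C0 := abs_nonneg C
  have h1 : ‖c + A *ᵥ z‖ ≤ M + M * ‖z‖ := (norm_add_le _ _).trans (add_le_add (by linarith)
    ((norm_mv A z).trans (mul_le_mul_of_nonneg_right (by linarith) (norm_nonneg z))))
  rw [mul_assoc M, ← exp_add]
  refine h.trans (mul_le_mul ((le_abs_self C).trans (by linarith)) (exp_le_exp.2 ?_)
    (exp_pos _).le (by linarith))
  calc k * ‖c + A *ᵥ z‖ ≤ |k| * ‖c + A *ᵥ z‖ :=
        mul_le_mul_of_nonneg_right (le_abs_self k) (norm_nonneg _)
    _ ≤ |k| * (M + M * ‖z‖) := mul_le_mul_of_nonneg_left h1 (abs_nonneg k)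
    _ = _ := by ring

lemma cont_gm [FirstCountableTopology J] {A : J → Matrix L κ ℝ} {c : J → L → ℝ}
    {G : J → (L → ℝ) → ℝ} {k : ℝ} {C : J → ℝ} (hA : Continuous A) (hc : Continuous c)
    (hG : Continuous fun p : J × (L → ℝ) => G p.1 p.2) (hC : Continuous C)
    (h : ∀ θ x, |G θ x| ≤ C θ * exp (k * ‖x‖)) :
    Continuous fun θ => gm (A θ) fun x => G θ (c θ + x) := by
  have hj : Continuous fun p : J × (κ → ℝ) => G p.1 (c p.1 + A p.1 *ᵥ p.2) :=
    hG.comp (continuous_fst.prodMk ((hc.comp continuous_fst).add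
      ((hA.comp continuous_fst).matrix_mulVec continuous_snd)))
  have hu : Continuous fun θ => |C θ| + ‖c θ‖ + ∑ l, ∑ k, |A θ l k| :=
    (hC.abs.add hc.norm).add (continuous_finsetSum _ fun l _ => continuous_finsetSum _ fun k _ =>
      (hA.matrix_elem l k).abs)
  refine continuous_iff_continuousAt.2 fun θ0 => ?_
  obtain ⟨M, hM⟩ : ∃ M, ∀ᶠ θ in 𝓝 θ0, |C θ| + ‖c θ‖ + ∑ l, ∑ k, |A θ l k| ≤ M :=
    ⟨_, (hu.tendsto θ0).eventually (eventually_le_nhds (lt_add_one _))⟩
  refine continuousAt_of_dominated (bound := fun z => M * exp (|k| * M) * exp (|k| * M * ‖z‖))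
    (Eventually.of_forall fun θ =>
      (hj.comp (Continuous.prodMk_right θ)).measurable.aestronglyMeasurable)
    (hM.mono fun θ hθ => ae_of_all _ fun z => maj _ _ z (h θ _) hθ)
    ((int_exp_norm _).const_mul _)
    (ae_of_all _ fun z => (hj.comp (Continuous.prodMk_left z)).continuousAt)

variable [DecidableEq L]

lemma gc1 [FirstCountableTopology J] (o : L) (A : J → Matrix L κ ℝ) (m : J → ℝ) (F : Fj J L)
    (hA : Continuous A) (hm : Continuous m) (hF : C0 F) :
    Continuous fun θ => mE (A θ) o (m θ) (F θ) := by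
  obtain ⟨h1, k, C, hC, h⟩ := hF
  refine continuous_finsetSum _ fun σ _ => Continuous.mul (by fun_prop) ?_
  have hc : Continuous fun θ => spin σ • fun l => (A θ * (A θ)ᵀ) l o :=
    continuous_pi fun l =>
      continuous_const.mul ((hA.matrix_mul hA.matrix_transpose).matrix_elem l o)
  exact cont_gm (G := fun θ => F θ σ) hA hc (h1 σ) hC fun θ x => h θ σ x

lemma hb_eq (b : ℝ) (σ : Bool) : hb b σ = (1 + spin σ * tanh b) / 2 := by
  have h := (cosh_pos b).ne'
  rw [hb, tanh_eq_sinh_div_cosh]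
  cases σ
  · simp only [spin, Bool.false_eq_true, if_false]
    field_simp
    rw [← cosh_sub_sinh]; ring
  · simp only [spin, if_true]
    field_simp
    rw [cosh_add_sinh]

omit [DecidableEq L] [Fintype L] in
lemma mdl_eq (A : Matrix L κ ℝ) (o : L) (b : ℝ) (ψ : Bool → (L → ℝ) → ℝ) :
    mdl A o b ψ = mE A o (tanh b) ψ := by
  simp only [mdl, mE, hb_eq]

/-- `tanh b` as a point of `[-1, 1]` -/
def tI (b : ℝ) : Im := ⟨tanh b, (neg_one_lt_tanh b).le, (tanh_lt_one b).le⟩

lemma cont_tanh : Continuous tanh := Tw.contDiff_tanh'.continuous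

lemma cont_tI : Continuous tI := cont_tanh.subtype_mk _

lemma dense_tI : DenseRange tI := by
  refine Subtype.dense_iff.2 ?_
  refine (closure_Ioo (by norm_num)).symm.subset.trans (closure_mono fun x hx => ?_)
  exact ⟨tI (artanh x), mem_range_self _, tanh_artanh hx⟩

lemma tube {g : J → ℝ → ℝ} (hg : Continuous fun p : J × Im => g p.1 p.2) (θ0 : J) {c c' : ℝ}
    (hc : c < c') (h : ∀ b, g θ0 (tanh b) ≤ c) : ∀ᶠ θ in 𝓝 θ0, ∀ b, g θ (tanh b) ≤ c' := by
  have h1 : ∀ m : Im, g θ0 m ≤ c := fun m =>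
    dense_tI.induction_on (p := fun m : Im => g θ0 m ≤ c) m
      (isClosed_le (hg.comp (Continuous.prodMk_right θ0)) continuous_const) h
  have h2 := (isCompact_univ (X := Im)).eventually_forall_of_forall_eventually (x₀ := θ0)
    (P := fun θ m => g θ m ≤ c') fun m _ =>
      (hg.tendsto (θ0, m)).eventually (eventually_le_nhds ((h1 m).trans_lt hc))
  exact h2.mono fun θ hθ b => hθ (tI b) (mem_univ _)

lemma bdd {g : J → ℝ → ℝ} (hg : Continuous fun p : J × Im => g p.1 p.2) (θ : J) :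
    ∃ c, ∀ b, |g θ (tanh b)| ≤ c := by
  obtain ⟨c, hc⟩ := (isCompact_univ (X := Im)).exists_bound_of_continuousOn
    (hg.comp (Continuous.prodMk_right θ)).continuousOn
  exact ⟨c, fun b => hc (tI b) (mem_univ _)⟩

open scoped Matrix.Norms.L2Operator MatrixOrder in
lemma cont_sqrt : ContinuousOn (CFC.sqrt : Matrix L L ℝ → Matrix L L ℝ) {S | 0 ≤ S} :=
  CFC.continuousOn_sqrt

open scoped MatrixOrder in
lemma sqrt_mul {S : Matrix L L ℝ} (h : S.PosSemidef) : CFC.sqrt S * (CFC.sqrt S)ᵀ = S := by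
  have : (CFC.sqrt S)ᵀ = CFC.sqrt S := (CFC.sqrt_nonneg S).posSemidef.1
  rw [this, CFC.sqrt_mul_sqrt_self _ h.nonneg]

omit [DecidableEq L] in
lemma psd_lim {S : ℕ → Matrix L L ℝ} {S0 : Matrix L L ℝ} (h : ∀ j, (S j).PosSemidef)
    (hl : Tendsto S atTop (𝓝 S0)) : S0.PosSemidef := by
  refine .of_dotProduct_mulVec_nonneg ?_ fun x => ?_
  · have h1 : Tendsto (fun j => (S j)ᴴ) atTop (𝓝 S0ᴴ) :=
      (continuous_id.matrix_conjTranspose.tendsto S0).comp hl
    have h2 : (fun j => (S j)ᴴ) = S := funext fun j => (h j).1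
    rw [h2] at h1
    exact tendsto_nhds_unique h1 hl
  · have h1 : Continuous fun M : Matrix L L ℝ => star x ⬝ᵥ M *ᵥ x :=
      continuous_const.dotProduct (continuous_id.matrix_mulVec continuous_const)
    exact ge_of_tendsto' ((h1.tendsto S0).comp hl) fun j => (h j).dotProduct_mulVec_nonneg x

end Gc67

open Gc67 in
theorem gcStmt : GcStmt := by
  intro J L κ _ _ _ _ _ o
  refine ⟨gc1 o, fun ν _ g hg => ?_, fun A F hF => ?_, fun S S0 h hl => ?_⟩
  · have hj : Continuous fun p : J × ℝ => g p.1 (tanh p.2) :=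
      hg.comp (continuous_fst.prodMk (cont_tI.comp continuous_snd))
    have hm := fun θ => (hj.comp (Continuous.prodMk_right θ)).measurable.aestronglyMeasurable
      (μ := ν)
    refine ⟨fun θ => ?_, continuous_iff_continuousAt.2 fun θ0 => ?_,
      fun θ0 c c' hc h => tube hg θ0 hc h⟩
    · obtain ⟨c, hc⟩ := bdd hg θ
      exact (integrable_const c).mono' (hm θ) (ae_of_all _ hc)
    · obtain ⟨c, hc⟩ := bdd hg θ0
      exact continuousAt_of_dominated (bound := fun _ => c + 1) (Eventually.of_forall hm)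
        ((tube (g := fun θ m => |g θ m|) hg.abs θ0 (lt_add_one c) hc).mono fun θ hθ =>
          ae_of_all _ hθ) (integrable_const _)
        (ae_of_all _ fun b => (hj.comp (Continuous.prodMk_left b)).continuousAt)
  · have hc : Continuous (Eb A o F) := by
      have : Eb A o F = fun b => mE A o (tanh b) (F b) := funext fun b => mdl_eq A o b _
      rw [this]
      exact gc1 o (fun _ => A) tanh F continuous_const cont_tanh hF
    refine ⟨hc, fun ν _ ⟨C, hC⟩ => ?_⟩
    have key : ∀ σ, ∃ K, ∀ b,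
        |gm A fun x => F b σ (spin σ • (fun l => (A * Aᵀ) l o) + x)| ≤ K := fun σ => by
      obtain ⟨M, hM⟩ : ∃ M, |C| + ‖spin σ • fun l => (A * Aᵀ) l o‖ + ∑ l, ∑ k, |A l k| ≤ M :=
        ⟨_, le_rfl⟩
      refine ⟨∫ z, M * exp (|C| * M) * exp (|C| * M * ‖z‖) ∂gv κ, fun b => ?_⟩
      rw [← Real.norm_eq_abs]
      exact norm_integral_le_of_norm_le ((int_exp_norm _).const_mul _)
        (ae_of_all _ fun z => maj _ A z (hC b σ _) hM)
    choose K hK using key
    refine (integrable_const (∑ σ, K σ)).mono' hc.measurable.aestronglyMeasurable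
      (ae_of_all _ fun b => ?_)
    rw [Eb, mdl_eq, mE]
    refine (Finset.abs_sum_le_sum_abs _ _).trans (Finset.sum_le_sum fun σ _ => ?_)
    rw [abs_mul]
    have h1 : |(1 + spin σ * tanh b) / 2| ≤ 1 := by
      have := neg_one_lt_tanh b
      have := tanh_lt_one b
      rw [abs_le]
      cases σ <;> simp only [spin, Bool.false_eq_true, if_false, if_true] <;>
        constructor <;> linarith
    exact (mul_le_of_le_one_left (abs_nonneg _) h1).trans (hK σ b)
  · have h0 := psd_lim h hl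
    exact ⟨_, _, fun j => sqrt_mul (h j), sqrt_mul h0, (cont_sqrt S0 h0.nonneg).tendsto.comp
      (tendsto_nhdsWithin_iff.2 ⟨hl, Eventually.of_forall fun j => (h j).nonneg⟩)⟩

end Crest.Agent.T157.Nt

end
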