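import Crest.Agent.T157.NetDef_32

/-!
# Row 157, block B/S3 section 7 (helper44): the solution of the Stein equation

`θ_v = ∫_0^{π/2} cos φ E[∂_v ρ (μ + sin φ (x - μ) + cos φ A z)] dφ` is bounded smooth and
`∑_v dl v θ_v = ρ - E[ρ | s]`.
-/

set_option autoImplicit false
set_option linter.unusedSectionVars false

noncomputable section

namespace Crest.Agent.T157.Nt

open MeasureTheory Matrix Real Set Filter Topology
open Crest.ProbabilityR.SpinGlassDynamics (spin)
open Crest.Agent.T157.S3L (gm mdl)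
open Crest.Agent.T157.E (gv)
open Crest.Agent.R339.Guerra (steinG integrable_coord)

namespace Her44

section avg
variable {H Ω : Type} [NormedAddCommGroup H] [NormedSpace ℝ H] [FiniteDimensional ℝ H]
  [TopologicalSpace Ω] [MeasurableSpace Ω] [OpensMeasurableSpace Ω] [SecondCountableTopology Ω]
  {P : Measure Ω} [IsFiniteMeasure P]

lemma intB {G : Type} [NormedAddCommGroup G] {u : Ω → G} (h : Continuous u) {C : ℝ}
    (hb : ∀ ω, ‖u ω‖ ≤ C) : Integrable u P :=
  (integrable_const C).mono' h.aestronglyMeasurable (.of_forall hb)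

/-- averaging a bounded `C¹` function over affine contractions -/
lemma avg {f : H → ℝ} (hf : ContDiff ℝ 1 f) {C C' : ℝ} (h0 : ∀ p, |f p| ≤ C)
    (h1 : ∀ p, ‖fderiv ℝ f p‖ ≤ C') {T : Ω → H →L[ℝ] H} (hT : Continuous T) (hT1 : ∀ ω, ‖T ω‖ ≤ 1)
    {c : Ω → H} (hc : Continuous c) {w : Ω → ℝ} (hw : Continuous w) (hw1 : ∀ ω, |w ω| ≤ 1) :
    ContDiff ℝ 1 (fun p => ∫ ω, w ω * f (T ω p + c ω) ∂P) ∧ ∀ p v,
      fderiv ℝ (fun p => ∫ ω, w ω * f (T ω p + c ω) ∂P) p v =
        ∫ ω, w ω * fderiv ℝ f (T ω p + c ω) (T ω v) ∂P := by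
  have c0 := hf.continuous
  have c1 := hf.continuous_fderiv one_ne_zero
  have cF : Continuous fun q : H × Ω => w q.2 • (fderiv ℝ f (T q.2 q.1 + c q.2)).comp (T q.2) := by
    fun_prop
  have bF : ∀ p ω, ‖w ω • (fderiv ℝ f (T ω p + c ω)).comp (T ω)‖ ≤ C' := fun p ω => by
    have a0 := (norm_nonneg _).trans (h1 p)
    rw [norm_smul, ← one_mul C', ← mul_one C']
    exact mul_le_mul (hw1 ω) ((ContinuousLinearMap.opNorm_comp_le _ _).trans
      (mul_le_mul (h1 _) (hT1 ω) (norm_nonneg _) a0)) (norm_nonneg _) zero_le_one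
  have iF : ∀ p, Integrable (fun ω => w ω • (fderiv ℝ f (T ω p + c ω)).comp (T ω)) P := fun p =>
    intB (cF.comp (Continuous.prodMk_right p)) (bF p)
  have hd : ∀ p, HasFDerivAt (fun p => ∫ ω, w ω * f (T ω p + c ω) ∂P)
      (∫ ω, w ω • (fderiv ℝ f (T ω p + c ω)).comp (T ω) ∂P) p := fun p =>
    hasFDerivAt_integral_of_dominated_of_fderiv_le (s := univ)
      (F' := fun p ω => w ω • (fderiv ℝ f (T ω p + c ω)).comp (T ω)) univ_mem
      (.of_forall fun q => Continuous.aestronglyMeasurable (by fun_prop))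
      (intB (C := C) (by fun_prop) fun ω => by
        rw [norm_mul, ← one_mul C]
        exact mul_le_mul (hw1 ω) (h0 _) (norm_nonneg _) zero_le_one)
      (iF p).1 (.of_forall fun ω q _ => bF q ω) (integrable_const C')
      (.of_forall fun ω q _ => ((hf.differentiable one_ne_zero _).hasFDerivAt.comp q
        ((T ω).hasFDerivAt.add_const (c ω))).const_mul (w ω))
  refine ⟨contDiff_one_iff_fderiv.2 ⟨fun p => (hd p).differentiableAt, ?_⟩, fun p v => ?_⟩
  · rw [funext fun p => (hd p).fderiv]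
    exact continuous_of_dominated (fun p => (iF p).1) (fun p => .of_forall (bF p))
      (integrable_const C') (.of_forall fun ω => cF.comp (Continuous.prodMk_left ω))
  · rw [(hd p).fderiv, ContinuousLinearMap.integral_apply (iF p)]
    rfl

end avg

variable {L κ : Type} [Fintype L] [DecidableEq L] [Fintype κ] [DecidableEq κ]

/-- the direction of `dd i` -/
def dir : Option L → ℝ × (L → ℝ)
  | none => (1, 0)
  | some l => (0, Pi.single l 1)

lemma dd_eq {F : Fn L} (h : B1 F) (i : Option L) (b : ℝ) (s : Bool) (x : L → ℝ) :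
    dd i F b s x = fderiv ℝ (fun p : ℝ × (L → ℝ) => F p.1 s p.2) (b, x) (dir i) := by
  have hd := ((h.1 s).differentiable one_ne_zero (b, x)).hasFDerivAt
  cases i with
  | none => exact (hd.comp_hasDerivAt b ((hasDerivAt_id b).prodMk (hasDerivAt_const b x))).deriv
  | some l => exact congrArg (· (Pi.single l 1)) (hd.comp x (hasFDerivAt_prodMk_right b x)).fderiv

/-- angle and noise -/
abbrev PP (κ : Type) [Fintype κ] : Measure (ℝ × (κ → ℝ)) :=
  (volume.restrict (Ioc 0 (π / 2))).prod (gv κ)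

variable (A : Matrix L κ ℝ) (μ : Bool → L → ℝ)

/-- the rotated point -/
def rp (s : Bool) (x : L → ℝ) (ω : ℝ × (κ → ℝ)) : L → ℝ :=
  sin ω.1 • x + ((1 - sin ω.1) • μ s + cos ω.1 • A *ᵥ ω.2)

/-- the average along the rotation -/
def av (w : ℝ → ℝ) (F : Fn L) : Fn L := fun b s x => ∫ ω, w ω.1 * F b s (rp A μ s x ω) ∂PP κ

/-- the factor of `dd i` -/
def fac : Option L → ℝ → ℝ
  | none => 1
  | some _ => sin

variable {A μ}

@[fun_prop] lemma c_rp (s : Bool) (x : L → ℝ) : Continuous (rp A μ s x) := by unfold rp; fun_prop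

/-- the contraction -/
def TT (φ : ℝ) : (ℝ × (L → ℝ)) →L[ℝ] ℝ × (L → ℝ) :=
  (ContinuousLinearMap.id ℝ ℝ).prodMap (sin φ • ContinuousLinearMap.id ℝ (L → ℝ))

lemma TT_apply (φ : ℝ) (p : ℝ × (L → ℝ)) : TT φ p = (p.1, sin φ • p.2) := rfl

lemma c_TT : Continuous (TT : ℝ → (ℝ × (L → ℝ)) →L[ℝ] _) :=
  continuous_clm_apply.2 fun p => by simp only [TT_apply]; fun_prop

lemma TT_le (φ : ℝ) : ‖(TT φ : (ℝ × (L → ℝ)) →L[ℝ] _)‖ ≤ 1 :=
  ContinuousLinearMap.opNorm_le_bound _ zero_le_one fun p => by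
    have : ‖sin φ • p.2‖ ≤ ‖p.2‖ := by
      rw [norm_smul]; exact mul_le_of_le_one_left (norm_nonneg _) (abs_sin_le_one _)
    rw [one_mul, TT_apply]
    exact max_le_max le_rfl this

lemma av_d (h : BsApi L) {F : Fn L} (hF : BS F) {w : ℝ → ℝ} (hw : Continuous w)
    (hw1 : ∀ φ, |w φ| ≤ 1) (s : Bool) :
    ContDiff ℝ 1 (fun p : ℝ × (L → ℝ) => av A μ w F p.1 s p.2) ∧ ∀ p v,
      fderiv ℝ (fun p : ℝ × (L → ℝ) => av A μ w F p.1 s p.2) p v = ∫ ω, w ω.1 *
        fderiv ℝ (fun p : ℝ × (L → ℝ) => F p.1 s p.2) (p.1, rp A μ s p.2 ω) (TT ω.1 v) ∂PP κ := by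
  obtain ⟨C, hC⟩ := h.bd hF
  obtain ⟨h1, C', hC'⟩ := h.iter hF 1 s
  have e : ∀ (ω : ℝ × (κ → ℝ)) (p : ℝ × (L → ℝ)), TT ω.1 p +
      ((0 : ℝ), (1 - sin ω.1) • μ s + cos ω.1 • A *ᵥ ω.2) = (p.1, rp A μ s p.2 ω) :=
    fun ω p => Prod.ext (add_zero _) rfl
  have key := avg (P := PP κ) (f := fun p : ℝ × (L → ℝ) => F p.1 s p.2) h1 (fun p => hC p.1 s p.2)
    (fun p => (norm_iteratedFDeriv_one (𝕜 := ℝ) _).ge.trans (hC' p)) (c_TT.comp continuous_fst)
    (fun ω => TT_le ω.1) (c := fun ω => ((0 : ℝ), (1 - sin ω.1) • μ s + cos ω.1 • A *ᵥ ω.2))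
    (by fun_prop) (hw.comp continuous_fst) fun ω => hw1 _
  simp only [Function.comp, e] at key
  exact key

lemma av_b1 (h : BsApi L) {F : Fn L} (hF : BS F) {w : ℝ → ℝ} (hw : Continuous w)
    (hw1 : ∀ φ, |w φ| ≤ 1) : B1 (av A μ w F) ∧ ∀ i, dd i (av A μ w F) = av A μ (w * fac i) (dd i F) := by
  obtain ⟨C, hC⟩ := h.bd hF
  have b1 : B1 (av A μ w F) := ⟨fun s => (av_d h hF hw hw1 s).1, C * (PP κ).real univ, fun b s x =>
    norm_integral_le_of_norm_le_const (f := fun ω => w ω.1 * F b s (rp A μ s x ω))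
      (.of_forall fun ω => by
        rw [norm_mul, ← one_mul C]
        exact mul_le_mul (hw1 _) (hC _ _ _) (norm_nonneg _) zero_le_one)⟩
  refine ⟨b1, fun i => funext fun b => funext fun s => funext fun x => ?_⟩
  rw [dd_eq b1, (av_d h hF hw hw1 s).2]
  refine integral_congr_ae (.of_forall fun ω => ?_)
  have : TT ω.1 (dir i : ℝ × (L → ℝ)) = fac i ω.1 • dir i := by cases i <;> simp [dir, fac, TT_apply]
  simp only [dd_eq (F := F) (hF []), this, map_smul, smul_eq_mul, Pi.mul_apply, mul_assoc]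

theorem bs_av (h : BsApi L) {F : Fn L} (hF : BS F) {w : ℝ → ℝ} (hw : Continuous w)
    (hw1 : ∀ φ, |w φ| ≤ 1) : BS (av A μ w F) := fun l => by
  induction l generalizing F w with
  | nil => exact (av_b1 h hF hw hw1).1
  | cons i l ih =>
    rw [List.foldl_cons, (av_b1 h hF hw hw1).2]
    refine ih (fun l => hF (i :: l)) (hw.mul (by cases i <;> simp only [fac] <;> fun_prop)) fun φ => ?_
    rw [Pi.mul_apply, abs_mul]
    exact mul_le_one₀ (hw1 φ) (abs_nonneg _) (by cases i <;> simp [fac, abs_sin_le_one])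

lemma clm_sum (φ : (L → ℝ) →L[ℝ] ℝ) (u : L → ℝ) : φ u = ∑ v, u v * φ (Pi.single v 1) := by
  conv_lhs => rw [← Finset.univ_sum_single u, map_sum]
  refine Finset.sum_congr rfl fun v _ => ?_
  rw [← smul_eq_mul, ← map_smul, ← Pi.single_smul, smul_eq_mul, mul_one]

lemma cont (h : BsApi L) {F : Fn L} (hF : BS F) (b : ℝ) (s : Bool) : Continuous (F b s) :=
  (h.df hF b s).continuous

lemma intW (h : BsApi L) {F : Fn L} (hF : BS F) {w : ℝ → ℝ} (hw : Continuous w)
    (hw1 : ∀ φ, |w φ| ≤ 1) (b : ℝ) (s : Bool) (x : L → ℝ) :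
    Integrable (fun ω => w ω.1 * F b s (rp A μ s x ω)) (PP κ) ∧
      ∀ k, Integrable (fun ω => ω.2 k * (w ω.1 * F b s (rp A μ s x ω))) (PP κ) := by
  obtain ⟨C, hC⟩ := h.bd hF
  have c1 := cont h hF b s
  have c2 : Continuous fun ω : ℝ × (κ → ℝ) => w ω.1 * F b s (rp A μ s x ω) := by fun_prop
  have hb : ∀ ω : ℝ × (κ → ℝ), ‖w ω.1 * F b s (rp A μ s x ω)‖ ≤ C := fun ω => by
    rw [norm_mul, ← one_mul C]
    exact mul_le_mul (hw1 _) (hC _ _ _) (norm_nonneg _) zero_le_one
  exact ⟨intB c2 hb, fun k => ((integrable_coord k).comp_snd _).mul_bdd c2.aestronglyMeasurable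
    (.of_forall hb)⟩

lemma abs_mul_le {w w' : ℝ → ℝ} (h : ∀ φ, |w φ| ≤ 1) (h' : ∀ φ, |w' φ| ≤ 1) (φ : ℝ) :
    |(w * w') φ| ≤ 1 := by
  rw [Pi.mul_apply, abs_mul]; exact mul_le_one₀ (h φ) (abs_nonneg _) (h' φ)

/-- Gaussian integration by parts along the rotation -/
lemma ibp (h : BsApi L) {G : Fn L} (hG : BS G) (b : ℝ) (s : Bool) (x : L → ℝ) (k : κ) :
    ∫ ω, ω.2 k * (sin ω.1 * G b s (rp A μ s x ω)) ∂PP κ =
      ∑ p, A p k * av A μ (cos * sin) (dx p G) b s x := by
  have i2 := fun p => (intW (A := A) (μ := μ) h (h.dx p hG) (continuous_cos.mul continuous_sin)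
    (abs_mul_le abs_cos_le_one abs_sin_le_one) b s x).1.const_mul (A p k)
  simp only [av, ← integral_const_mul]
  rw [← integral_finsetSum _ fun p _ => i2 p,
    integral_prod _ ((intW h hG continuous_sin abs_sin_le_one b s x).2 k),
    integral_prod _ (integrable_finsetSum _ fun p _ => i2 p)]
  refine integral_congr_ae (.of_forall fun φ => ?_)
  obtain ⟨C, hC⟩ := h.bd hG
  choose C' hC' using fun p => h.bd (h.dx p hG)
  have c1 := cont h hG b s
  have c2 := fun p => cont h (h.dx p hG) b s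
  refine steinG k (f := fun z => sin φ * G b s (rp A μ s x (φ, z))) (by fun_prop)
    (Continuous.measurable (by fun_prop)) (fun z => ?_) (C := C) (fun z => ?_)
    (C' := ∑ p, |A p k| * C' p) fun z => (Finset.abs_sum_le_sum_abs _ _).trans
      (Finset.sum_le_sum fun p _ => ?_)
  · have h1 : HasDerivAt (fun t => rp A μ s x (φ, Function.update z k t))
        (cos φ • A *ᵥ Pi.single k 1) (z k) := by
      have h0 : HasDerivAt (fun t => A *ᵥ Function.update z k t) (A *ᵥ Pi.single k 1) (z k) :=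
        A.toLin'.toContinuousLinearMap.hasFDerivAt.comp_hasDerivAt _ (hasDerivAt_update z k (z k))
      exact ((h0.fun_const_smul (cos φ)).const_add ((1 - sin φ) • μ s)).const_add (sin φ • x)
    have h2 := ((h.df hG b s _).hasFDerivAt.comp_hasDerivAt _ h1).const_mul (sin φ)
    refine h2.congr_deriv ?_
    rw [clm_sum, Finset.mul_sum, Function.update_eq_self]
    refine Finset.sum_congr rfl fun p _ => ?_
    simp only [dx, mulVec_single_one, Pi.smul_apply, Pi.mul_apply, col_apply, smul_eq_mul]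
    ring
  · rw [abs_mul, ← one_mul C]
    exact mul_le_mul (abs_sin_le_one _) (hC _ _ _) (abs_nonneg _) zero_le_one
  · rw [abs_mul, abs_mul, ← one_mul (C' p)]
    exact mul_le_mul_of_nonneg_left (mul_le_mul (abs_mul_le abs_cos_le_one abs_sin_le_one φ)
      (hC' _ _ _ _) (abs_nonneg _) zero_le_one) (abs_nonneg _)

/-- **the Stein equation** -/
theorem stein (h : BsApi L) {ρ : Fn L} (hρ : BS ρ) (b : ℝ) (s : Bool) (x : L → ℝ) :
    ∑ v, (av A μ cos (dx v ρ) b s x * (x v - μ s v) -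
      ∑ p, (A * Aᵀ) v p * dx p (av A μ cos (dx v ρ)) b s x) =
      ρ b s x - gm A fun z => ρ b s (μ s + z) := by
  have i1 := fun v => (intW (A := A) (μ := μ) h (h.dx v hρ) continuous_cos abs_cos_le_one b s x).1.mul_const
    (x v - μ s v)
  have i2 := fun v k => ((intW (A := A) (μ := μ) h (h.dx v hρ) continuous_sin abs_sin_le_one b s x).2
    k).const_mul (A v k)
  have i3 : ∀ v, Integrable (fun ω => cos ω.1 * dx v ρ b s (rp A μ s x ω) * (x v - μ s v) -
      ∑ k, A v k * (ω.2 k * (sin ω.1 * dx v ρ b s (rp A μ s x ω)))) (PP κ) := fun v =>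
    (i1 v).sub (integrable_finsetSum Finset.univ fun k _ => i2 v k)
  have e1 : ∀ v, ∑ p, (A * Aᵀ) v p * dx p (av A μ cos (dx v ρ)) b s x =
      ∫ ω, ∑ k, A v k * (ω.2 k * (sin ω.1 * dx v ρ b s (rp A μ s x ω))) ∂PP κ := fun v => by
    have : ∀ p, dx p (av A μ cos (dx v ρ)) = av A μ (cos * sin) (dx p (dx v ρ)) := fun p =>
      (av_b1 h (h.dx v hρ) continuous_cos abs_cos_le_one).2 (some p)
    rw [integral_finsetSum _ fun k _ => i2 v k]
    simp only [integral_const_mul, ibp h (h.dx v hρ), this, mul_apply, transpose_apply,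
      Finset.sum_mul, Finset.mul_sum, mul_assoc]
    exact Finset.sum_comm
  obtain ⟨C, hC⟩ := h.bd hρ
  have c1 := cont h hρ b s
  have c2 := fun v => cont h (h.dx v hρ) b s
  simp only [e1, av, ← integral_mul_const]
  rw [Finset.sum_congr rfl fun v _ => (integral_sub (i1 v)
      (integrable_finsetSum Finset.univ fun k _ => i2 v k)).symm,
    ← integral_finsetSum _ fun v _ => i3 v,
    integral_prod_symm _ (integrable_finsetSum _ fun v _ => i3 v), gm,
    ← (by simp : ∫ _, ρ b s x ∂gv κ = ρ b s x),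
    ← integral_sub (integrable_const _) (intB (by fun_prop) fun z => hC _ _ _)]
  refine integral_congr_ae (.of_forall fun z => ?_)
  beta_reduce
  rw [← intervalIntegral.integral_of_le (by positivity),
    intervalIntegral.integral_eq_sub_of_hasDerivAt (f := fun φ => ρ b s (rp A μ s x (φ, z)))
      (fun φ _ => ?_) (Continuous.intervalIntegrable (by fun_prop) _ _)]
  · simp [rp]
  · have h1 : HasDerivAt (fun φ => rp A μ s x (φ, z))
        (cos φ • x + ((-cos φ) • μ s + (-sin φ) • A *ᵥ z)) φ :=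
      ((hasDerivAt_sin φ).smul_const x).add ((((hasDerivAt_sin φ).const_sub 1).smul_const (μ s)).add
        ((hasDerivAt_cos φ).smul_const (A *ᵥ z)))
    refine ((h.df hρ b s _).hasFDerivAt.comp_hasDerivAt _ h1).congr_deriv ?_
    rw [clm_sum]
    refine Finset.sum_congr rfl fun v _ => ?_
    simp only [dx, Pi.add_apply, Pi.smul_apply, smul_eq_mul, mulVec, dotProduct, ← mul_assoc,
      ← Finset.sum_mul]
    ring

end Her44

open Her44

theorem herGlue : HerGlue := fun T _ L _ _ A o _ ρ hρ e he => by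
  have h := T.bs L
  refine ⟨fun v => av A (fun s => spin s • fun l => (A * Aᵀ) l o) cos (dx v ρ),
    fun v => bs_av h (h.dx v hρ) continuous_cos abs_cos_le_one, fun b => ?_⟩
  have hs : ∀ v, (A * Aᵀ) o v = (A * Aᵀ) v o := fun v => by simp [mul_apply, mul_comm]
  rw [sub_eq_zero.2 (funext fun b => funext fun s => funext fun x => ?_)]
  · simpa [Eb, mdl, gm] using he.le
  · have := stein (A := A) (μ := fun s => spin s • fun l => (A * Aᵀ) l o) h hρ b s x
    simpa [dl, co, sp, cx, hs, Finset.sum_apply, mul_comm (spin s)] using this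

end Crest.Agent.T157.Nt

end
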