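import Crest.Agent.T157.NetDef_32

/-!
# Row 157, block B/S3, section 7 (helper87): `Nt.MovGlue`, `Nt.SymGlue`

Expectation toolbox at a fixed static field, moving a divergence, symmetrisation of a flow.
-/

set_option autoImplicit false
set_option linter.unusedVariables false
set_option linter.unusedSectionVars false
set_option linter.unusedSimpArgs false

noncomputable section

namespace Crest.Agent.T157.Nt

open MeasureTheory Matrix Real Set Filter Topology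
open Crest.ProbabilityR.SpinGlassDynamics (spin)
open Crest.Agent.T157.S3L (gm mdl)
open Crest.Agent.T157.Tw (sech2 Cls PV lam)

namespace Mov87

lemma spin_t : spin true = 1 := by simp [spin]
lemma spin_f : spin false = -1 := by simp [spin]
lemma spin_not (s : Bool) : spin (!s) = -spin s := by cases s <;> simp [spin]
lemma spin_sq (s : Bool) : spin s ^ 2 = 1 := by cases s <;> simp [spin]
lemma abs_tanh (b : ℝ) : |tanh b| ≤ 1 := (abs_tanh_lt_one b).le

lemma sech2_eq (z : ℝ) : sech2 z = 1 - tanh z ^ 2 := by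
  have h := cosh_pos z
  have h2 := cosh_sq_sub_sinh_sq z
  unfold sech2
  rw [tanh_eq_sinh_div_cosh]
  field_simp
  linarith

lemma sech2_nn (z : ℝ) : 0 ≤ sech2 z := by unfold sech2; positivity
lemma sech2_le (z : ℝ) : sech2 z ≤ 1 := by rw [sech2_eq]; nlinarith [sq_nonneg (tanh z)]
lemma sech2_neg (z : ℝ) : sech2 (-z) = sech2 z := by simp [sech2]

section box
variable {K κ : Type} [Fintype K] [DecidableEq K] [Fintype κ]

lemma c0_const (T : Tl) (c : ℝ) : C0 (fun _ _ _ => c : Fn K) :=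
  (T.ts ℝ K).c0 ((T.ts ℝ K).cb (c := fun _ => c) continuous_const)

lemma c0_smul (T : Tl) (c : ℝ) {F : Fn K} (hF : C0 F) : C0 (c • F) :=
  (T.ts ℝ K).c0mul (c0_const T c) hF

lemma eb_congr (A : Matrix K κ ℝ) (o : K) {F G : Fn K} (b : ℝ) (h : ∀ s x, F b s x = G b s x) :
    Eb A o F b = Eb A o G b := by
  have : F b = G b := by funext s x; exact h s x
  simp only [Eb, this]

lemma eb_mono (T : Tl) (A : Matrix K κ ℝ) (o : K) {F G : Fn K} (hF : C0 F) (hG : C0 G) (b : ℝ)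
    (h : ∀ s x, F b s x ≤ G b s x) : Eb A o F b ≤ Eb A o G b := by
  have X := T.ex ℝ K κ
  simp only [Eb, X.eq]
  exact X.mono A o _ b (abs_tanh b) hF hG h

lemma eb_lin (T : Tl) (A : Matrix K κ ℝ) (o : K) {F G H : Fn K} (hF : C0 F) (hG : C0 G) (b : ℝ)
    (p q c : ℝ) (h : ∀ s x, H b s x = p * F b s x + q * G b s x + c) :
    Eb A o H b = p * Eb A o F b + q * Eb A o G b + c := by
  have X := T.ex ℝ K κ
  have Y := T.ts ℝ K
  rw [eb_congr A o (G := p • F + q • G + fun _ _ _ => c) b (fun s x => by simpa using h s x)]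
  simp only [Eb, X.eq]
  rw [X.add A o _ b (Y.c0add (c0_smul T p hF) (c0_smul T q hG)) (c0_const T c),
    X.add A o _ b (c0_smul T p hF) (c0_smul T q hG), X.smul, X.smul, X.const]

lemma eb_le (T : Tl) (A : Matrix K κ ℝ) (o : K) {F G H : Fn K} (hF : C0 F) (hG : C0 G) (hH : C0 H)
    (b : ℝ) (p q c : ℝ) (h : ∀ s x, H b s x ≤ p * F b s x + q * G b s x + c) :
    Eb A o H b ≤ p * Eb A o F b + q * Eb A o G b + c := by
  have Y := T.ts ℝ K
  rw [← eb_lin T A o (H := p • F + q • G + fun _ _ _ => c) hF hG b p q c (fun s x => by simp)]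
  exact eb_mono T A o hH (Y.c0add (Y.c0add (c0_smul T p hF) (c0_smul T q hG)) (c0_const T c)) b
    (fun s x => by simpa using h s x)

/-- a function that does not read the static field has a bounded mean -/
lemma eb_bd (T : Tl) (A : Matrix K κ ℝ) (o : K) (ψ : Bool → (K → ℝ) → ℝ) :
    ∃ Γ, 0 < Γ ∧ ∀ b, Eb A o (fun _ => ψ) b ≤ Γ := by
  have X := T.ex ℝ K κ
  refine ⟨(∑ σ, |gm A fun x => ψ σ (spin σ • (fun l => (A * Aᵀ) l o) + x)|) + 1, by positivity,
    fun b => ?_⟩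
  simp only [Eb, X.eq, mE]
  refine le_trans (Finset.sum_le_sum fun σ _ => ?_) (le_add_of_nonneg_right zero_le_one)
  have h1 := abs_le.1 (abs_tanh b)
  have h2 : 0 ≤ (1 + spin σ * tanh b) / 2 ∧ (1 + spin σ * tanh b) / 2 ≤ 1 := by
    cases σ <;> simp only [spin_t, spin_f] <;> constructor <;> linarith [h1.1, h1.2]
  calc _ ≤ (1 + spin σ * tanh b) / 2 * |gm A fun x => ψ σ (spin σ • (fun l => (A * Aᵀ) l o) + x)| :=
        mul_le_mul_of_nonneg_left (le_abs_self _) h2.1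
    _ ≤ _ := mul_le_of_le_one_left (abs_nonneg _) h2.2

lemma eb_sp (T : Tl) (A : Matrix K κ ℝ) (o : K) (b : ℝ) : Eb A o sp b = tanh b := by
  have X := T.ex ℝ K κ
  have h : ∀ c : ℝ, gm A (fun _ => c) = c := fun c => by
    have := X.const A o 0 c
    simp only [mE, Fintype.sum_bool] at this
    linarith
  simp only [Eb, X.eq, mE, sp, Fintype.sum_bool, h, spin_t, spin_f]
  ring

lemma eb_rf (T : Tl) (A : Matrix K κ ℝ) (o : K) (F : Fn K) (b : ℝ) :
    Eb A o (rf F) b = Eb A o F (-b) := by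
  have X := T.ex ℝ K κ
  simp only [Eb, X.eq, tanh_neg, X.neg]
  rfl

/-- the centred linear form -/
def Ln (S : Matrix K K ℝ) (o : K) (w : K → ℝ) : Fn K :=
  fun _ s x => w ⬝ᵥ x - spin s * (w ⬝ᵥ fun l => S l o)

lemma ts_Ln (T : Tl) (S : Matrix K K ℝ) (o : K) (w : K → ℝ) : TS (Ln S o w) := by
  have Y := T.ts ℝ K
  have : Ln S o w = ∑ l, w l • co l - (w ⬝ᵥ fun l => S l o) • sp := by
    funext b s x
    simp [Ln, co, sp, Finset.sum_apply, dotProduct, mul_comm]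
  rw [this]
  exact Y.sub (Y.sum _ fun l _ => Y.smul _ (Y.co l)) (Y.smul _ Y.sp)

lemma eb_Ln (T : Tl) (A : Matrix K κ ℝ) (o : K) (w : K → ℝ) (b : ℝ) :
    Eb A o (Ln (A * Aᵀ) o w ^ 2) b = w ⬝ᵥ (A * Aᵀ) *ᵥ w := by
  have X := T.ex ℝ K κ
  simp only [Eb, X.eq]
  exact X.lin A o _ w

lemma ts_dl (T : Tl) (S : Matrix K K ℝ) (o u : K) {a : Fn K} (ha : TS a) : TS (dl S o u a) := by
  have Y := T.ts ℝ K
  exact Y.sub (Y.mul ha (Y.sub (Y.co u) (Y.smul _ Y.sp))) (Y.sum _ fun p _ => Y.smul _ (Y.dx p ha))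

lemma ts_dft (T : Tl) (S : Matrix K K ℝ) (o : K) {al : Fn K} {a : K → Fn K} (hal : TS al)
    (ha : ∀ u, TS (a u)) : TS (dft S o al a) := by
  have Y := T.ts ℝ K
  exact Y.add (Y.mul (Y.sub Y.sp ((T.bs K).ts ((T.bs K).th0 o))) hal)
    (Y.sum _ fun u _ => ts_dl T S o u (ha u))

lemma ts_rf (T : Tl) {F : Fn K} (hF : TS F) : TS (rf F) :=
  (T.ts ℝ K).re (φ := fun b : ℝ => -b) continuous_neg ((T.ts ℝ K).neg hF)

lemma dl_add (T : Tl) (S : Matrix K K ℝ) (o u : K) {a a' : Fn K} (ha : Df a) (ha' : Df a') :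
    dl S o u (a + a') = dl S o u a + dl S o u a' := by
  simp only [dl, (T.dx ℝ K).add _ ha ha', smul_add, Finset.sum_add_distrib]
  ring

lemma dl_cb (T : Tl) (S : Matrix K K ℝ) (o u : K) (c : ℝ → ℝ) (a : Fn K) :
    dl S o u (cb c * a) = cb c * dl S o u a := by
  simp only [dl, (T.dx ℝ K).cbm, mul_sub, Finset.mul_sum, mul_smul_comm]
  ring

lemma dl_smul (T : Tl) (S : Matrix K K ℝ) (o u : K) (c : ℝ) (a : Fn K) :
    dl S o u (c • a) = c • dl S o u a := dl_cb T S o u (fun _ => c) a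

lemma rf_rf (F : Fn K) : rf (rf F) = F := by funext b s x; simp [rf]

lemma rf_dl (T : Tl) (S : Matrix K K ℝ) (o u : K) {a : Fn K} (ha : Df a) :
    rf (dl S o u a) = -dl S o u (rf a) := by
  simp only [dl, (T.bs K).rdx _ ha]
  funext b s x
  simp [rf, co, sp, spin_not, Finset.sum_apply]
  ring

lemma rf_dft (T : Tl) (S : Matrix K K ℝ) (o : K) (al : Fn K) {a : K → Fn K} (ha : ∀ u, Df (a u)) :
    rf (dft S o al a) = -dft S o (rf al) fun u => rf (a u) := by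
  have h : ∀ u b s x, dl S o u (a u) (-b) (!s) (-x) = -dl S o u (rf (a u)) b s x := fun u b s x =>
    congrFun (congrFun (congrFun (rf_dl T S o u (ha u)) b) s) x
  funext b s x
  have h2 : tanh (-b + -x o) = -tanh (b + x o) := by rw [← neg_add, tanh_neg]
  simp [dft, rf, Finset.sum_apply, h, sp, th, spin_not, h2]
  ring

lemma sq_nn (A : Matrix K κ ℝ) (w : K → ℝ) : 0 ≤ w ⬝ᵥ (A * Aᵀ) *ᵥ w := by
  rw [← mulVec_mulVec, dotProduct_mulVec, ← mulVec_transpose]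
  exact Finset.sum_nonneg fun i _ => mul_self_nonneg _

lemma cs (A : Matrix K κ ℝ) (w : K → ℝ) (p : K) :
    ((A * Aᵀ) *ᵥ w) p ^ 2 ≤ (A * Aᵀ) p p * (w ⬝ᵥ (A * Aᵀ) *ᵥ w) := by
  have h1 : w ⬝ᵥ (A * Aᵀ) *ᵥ w = ∑ k, (Aᵀ *ᵥ w) k ^ 2 := by
    rw [← mulVec_mulVec, dotProduct_mulVec, ← mulVec_transpose]
    simp [dotProduct, sq]
  have h2 : (A * Aᵀ) p p = ∑ k, A p k ^ 2 := by simp [mul_apply, sq]
  have h3 : ((A * Aᵀ) *ᵥ w) p = ∑ k, A p k * (Aᵀ *ᵥ w) k := by
    rw [← mulVec_mulVec]; rfl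
  rw [h1, h2, h3]
  exact Finset.sum_mul_sq_le_sq_mul_sq _ _ _

/-- derivative of the cut-off -/
def rr' (η x : ℝ) : ℝ := -(2 * η ^ 2 * x) / (1 + η ^ 2 * x ^ 2) ^ 2

lemma hasDerivAt_rr (η x : ℝ) : HasDerivAt (rr η) (rr' η x) x := by
  have h : HasDerivAt (fun x : ℝ => 1 + η ^ 2 * x ^ 2) (η ^ 2 * (2 * x)) x := by
    simpa using ((hasDerivAt_pow 2 x).const_mul (η ^ 2)).const_add 1
  have := h.inv (by positivity)
  have e1 : rr η = (fun x : ℝ => 1 + η ^ 2 * x ^ 2)⁻¹ := by funext y; simp [rr]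
  have e2 : rr' η x = -(η ^ 2 * (2 * x)) / (1 + η ^ 2 * x ^ 2) ^ 2 := by unfold rr'; ring
  rw [e1, e2]
  exact this

lemma dx_rr (η : ℝ) (u p : K) (b : ℝ) (s : Bool) (x : K → ℝ) :
    dx p (fun _ _ x => rr η (x u) : Fn K) b s x = if p = u then rr' η (x u) else 0 := by
  have h := (hasDerivAt_rr η (x u)).comp_hasFDerivAt x (hasFDerivAt_apply (𝕜 := ℝ) u x)
  have h2 : fderiv ℝ (fun x : K → ℝ => rr η (x u)) x = _ := h.fderiv
  simp only [dx, h2]
  by_cases hp : p = u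
  · subst hp; simp
  · simp [hp, Pi.single_apply, Ne.symm hp]

lemma rr_sub (η x : ℝ) : (rr η x - 1) ^ 2 ≤ η ^ 2 * x ^ 2 := by
  have h : 0 ≤ η ^ 2 * x ^ 2 := by positivity
  unfold rr
  generalize η ^ 2 * x ^ 2 = y at h
  have : 1 / (1 + y) - 1 = -(y / (1 + y)) := by field_simp; ring
  rw [this, neg_sq, div_pow, div_le_iff₀ (by positivity)]
  nlinarith [mul_nonneg h h, mul_nonneg h (mul_nonneg h h)]

lemma rr'_sq (η x : ℝ) : rr' η x ^ 2 ≤ η ^ 2 := by
  have h : 0 ≤ η ^ 2 * x ^ 2 := by positivity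
  unfold rr'
  rw [div_pow, div_le_iff₀ (by positivity)]
  have h1 : (-(2 * η ^ 2 * x)) ^ 2 = η ^ 2 * (4 * (η ^ 2 * x ^ 2)) := by ring
  rw [h1]
  refine mul_le_mul_of_nonneg_left ?_ (sq_nonneg η)
  generalize η ^ 2 * x ^ 2 = y at h
  have h2 : 4 * y ≤ (1 + y) ^ 2 := by nlinarith [sq_nonneg (1 - y)]
  have h3 : 1 ≤ (1 + y) ^ 2 := by nlinarith
  nlinarith

lemma sum_dx_res {L : Type} [Fintype L] [DecidableEq L] (T : Tl) (ι : L → K) {θ : Fn L}
    (hθ : Df θ) (c : K → ℝ) (b : ℝ) (s : Bool) (x : K → ℝ) :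
    ∑ p, c p * dx p (res ι θ) b s x = ∑ l, c (ι l) * dx l θ b s (x ∘ ι) := by
  have X := T.dx ℝ K
  have h : ∀ p, dx p (res ι θ) b s x = ∑ l, (if ι l = p then 1 else 0) * dx l θ b s (x ∘ ι) := by
    intro p
    rw [X.res ι θ, (X.pb _ p hθ).2]
    simp only [Finset.sum_apply, Pi.smul_apply, smul_eq_mul, of_apply, ← X.res]
    rfl
  simp only [h, Finset.mul_sum]
  rw [Finset.sum_comm]
  refine Finset.sum_congr rfl fun l _ => ?_
  rw [Finset.sum_eq_single (ι l)] <;> simp +contextual [eq_comm]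

/-- the cut-off changes a divergence by `O(η)` -/
lemma cut (T : Tl) (A : Matrix K κ ℝ) (S : Matrix K K ℝ) (o u : K) {Θ : Fn K} (hΘ : BS Θ) :
    ∃ G : Bool → (K → ℝ) → ℝ, C0 (fun _ => G : Fn K) ∧ ∀ η b s x,
      (dl S o u (Θ * fun _ _ x => rr η (x u)) b s x - dl S o u Θ b s x) ^ 2 ≤ η ^ 2 * G s x := by
  have B := T.bs K
  have Y := T.ts ℝ K
  obtain ⟨M, hM⟩ := B.bd hΘ
  obtain ⟨M', hM'⟩ := B.bd (B.sum Finset.univ fun p _ => B.smul (S u p) (B.dx p hΘ))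
  refine ⟨fun s x => 3 * (M ^ 2 * ((x u - S o u * spin s) ^ 2 * x u ^ 2) + M' ^ 2 * x u ^ 2 +
    S u u ^ 2 * M ^ 2), ?_, fun η b s x => ?_⟩
  · have h := Y.c0 (Y.smul 3 (Y.add (Y.add (Y.smul (M ^ 2) (Y.mul (Y.pow 2 (Y.sub (Y.co u)
      (Y.smul (S o u) Y.sp))) (Y.pow 2 (Y.co u)))) (Y.smul (M' ^ 2) (Y.pow 2 (Y.co u))))
      (Y.cb (c := fun _ => S u u ^ 2 * M ^ 2) continuous_const)))
    exact h
  · have h1 := hM b s x
    have h2 := hM' b s x
    have e : dl S o u (Θ * fun _ _ x => rr η (x u)) b s x - dl S o u Θ b s x =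
        Θ b s x * (rr η (x u) - 1) * (x u - S o u * spin s) -
          (rr η (x u) - 1) * (∑ p, S u p • dx p Θ) b s x - S u u * (Θ b s x * rr' η (x u)) := by
      simp only [dl, (T.dx ℝ K).mul _ (B.df hΘ) (B.df (B.rr η u)), Pi.sub_apply, Pi.mul_apply,
        Finset.sum_apply, Pi.smul_apply, Pi.add_apply, smul_eq_mul, co, sp, dx_rr, mul_add,
        Finset.sum_add_distrib, mul_ite, mul_zero, Finset.sum_ite_eq', Finset.mem_univ, if_true,
        ← mul_assoc, ← Finset.sum_mul]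
      ring
    rw [e]
    beta_reduce
    generalize (∑ p, S u p • dx p Θ) b s x = d at h2
    generalize Θ b s x = t at h1
    have h3 := rr_sub η (x u)
    have h4 := rr'_sq η (x u)
    generalize rr η (x u) - 1 = r at h3
    generalize rr' η (x u) = r' at h4
    generalize x u - S o u * spin s = y
    have ht : t ^ 2 ≤ M ^ 2 := sq_le_sq' (abs_le.1 h1).1 (abs_le.1 h1).2
    have hd : d ^ 2 ≤ M' ^ 2 := sq_le_sq' (abs_le.1 h2).1 (abs_le.1 h2).2
    have a1 : (t * r * y) ^ 2 ≤ η ^ 2 * (M ^ 2 * (y ^ 2 * x u ^ 2)) := by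
      calc (t * r * y) ^ 2 = t ^ 2 * r ^ 2 * y ^ 2 := by ring
        _ ≤ M ^ 2 * (η ^ 2 * x u ^ 2) * y ^ 2 := by gcongr
        _ = _ := by ring
    have a2 : (r * d) ^ 2 ≤ η ^ 2 * (M' ^ 2 * x u ^ 2) := by
      calc (r * d) ^ 2 = r ^ 2 * d ^ 2 := by ring
        _ ≤ (η ^ 2 * x u ^ 2) * M' ^ 2 := by gcongr
        _ = _ := by ring
    have a3 : (S u u * (t * r')) ^ 2 ≤ η ^ 2 * (S u u ^ 2 * M ^ 2) := by
      calc (S u u * (t * r')) ^ 2 = S u u ^ 2 * (t ^ 2 * r' ^ 2) := by ring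
        _ ≤ S u u ^ 2 * (M ^ 2 * η ^ 2) := by gcongr
        _ = _ := by ring
    generalize t * r * y = p1 at a1
    generalize r * d = p2 at a2
    generalize S u u * (t * r') = p3 at a3
    nlinarith [sq_nonneg (p1 + p2), sq_nonneg (p1 + p3), sq_nonneg (p2 - p3)]

end box

end Mov87

open Mov87

theorem movGlue : MovGlue := by
  intro T L _ _ θ hθ B
  obtain ⟨M, hM⟩ := (T.bs L).bd hθ
  choose m hm using fun l : L => (T.bs L).bd ((T.bs L).dx l hθ)
  refine ⟨4 * M ^ 2 + 4 * (|B| * (∑ l, m l) ^ 2), fun K _ _ A o v u ι hB e he => ?_⟩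
  have X := T.bs K
  have Y := T.ts ℝ K
  have hΘ : BS (res ι θ) := by rw [(T.dx ℝ K).res]; exact X.pb _ hθ
  obtain ⟨G, hG, hc⟩ := cut T A (A * Aᵀ) o u hΘ
  obtain ⟨Γ, hΓ, hb⟩ := eb_bd T A o G
  set w : K → ℝ := Pi.single u 1 - Pi.single v 1 with hw
  set q := w ⬝ᵥ (A * Aᵀ) *ᵥ w with hq
  have hq0 : 0 ≤ q := sq_nn A w
  refine ⟨√(e / (2 * Γ)), by positivity, fun b => ?_⟩
  set η := √(e / (2 * Γ)) with hη
  have hη2 : η ^ 2 = e / (2 * Γ) := sq_sqrt (by positivity)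
  have key := eb_le T A o (H := (dl (A * Aᵀ) o u (res ι θ * fun _ _ x => rr η (x u)) -
      dl (A * Aᵀ) o v (res ι θ)) ^ 2) hG (Y.c0 (Y.pow 2 (ts_Ln T (A * Aᵀ) o w)))
    (Y.c0 (Y.pow 2 (Y.sub (ts_dl T _ o u (X.ts (X.mul hΘ (X.rr η u)))) (ts_dl T _ o v (X.ts hΘ)))))
    b (2 * η ^ 2) (4 * M ^ 2) (4 * (|B| * (∑ l, m l) ^ 2) * q) (fun s x => by
      have h1 := hc η b s x
      have sy : ∀ i j, (A * Aᵀ) i j = (A * Aᵀ) j i := fun i j => by
        simp [mul_apply, mul_comm]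
      have hw' : ∀ p, ((A * Aᵀ) *ᵥ w) p = (A * Aᵀ) u p - (A * Aᵀ) v p := fun p => by
        rw [hw, mulVec_sub, Pi.sub_apply, mulVec_single_one, mulVec_single_one, sy u, sy v]
        rfl
      have e1 : dl (A * Aᵀ) o u (res ι θ) b s x - dl (A * Aᵀ) o v (res ι θ) b s x =
          θ b s (x ∘ ι) * Ln (A * Aᵀ) o w b s x -
            ∑ l, ((A * Aᵀ) *ᵥ w) (ι l) * dx l θ b s (x ∘ ι) := by
        rw [← sum_dx_res T ι ((T.bs L).df hθ)]
        simp only [hw', sub_mul, Finset.sum_sub_distrib]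
        simp only [dl, Ln, hw, sub_dotProduct, single_dotProduct, one_mul, Pi.sub_apply,
          Pi.mul_apply, Finset.sum_apply, Pi.smul_apply, smul_eq_mul, co, sp, sy o]
        simp only [res]
        ring
      have h2 : |∑ l, ((A * Aᵀ) *ᵥ w) (ι l) * dx l θ b s (x ∘ ι)| ≤ √(|B| * q) * ∑ l, m l := by
        rw [Finset.mul_sum]
        refine (Finset.abs_sum_le_sum_abs _ _).trans (Finset.sum_le_sum fun l _ => ?_)
        rw [abs_mul]
        refine mul_le_mul (abs_le_sqrt ((cs A w (ι l)).trans ?_)) (hm l _ _ _) (abs_nonneg _)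
          (sqrt_nonneg _)
        exact mul_le_mul_of_nonneg_right ((hB l).trans (le_abs_self B)) hq0
      have h3 := sq_le_sq' (abs_le.1 h2).1 (abs_le.1 h2).2
      rw [mul_pow, sq_sqrt (by positivity)] at h3
      have h4 := sq_le_sq' (abs_le.1 (hM b s (x ∘ ι))).1 (abs_le.1 (hM b s (x ∘ ι))).2
      have h5 := mul_le_mul_of_nonneg_right h4 (sq_nonneg (Ln (A * Aᵀ) o w b s x))
      simp only [Pi.pow_apply, Pi.sub_apply]
      rw [← mul_pow] at h5
      generalize θ b s (x ∘ ι) * Ln (A * Aᵀ) o w b s x = p1 at *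
      generalize ∑ l, ((A * Aᵀ) *ᵥ w) (ι l) * dx l θ b s (x ∘ ι) = p2 at *
      generalize dl (A * Aᵀ) o u (res ι θ * fun _ _ x => rr η (x u)) b s x = z at *
      generalize dl (A * Aᵀ) o u (res ι θ) b s x = z1 at *
      generalize dl (A * Aᵀ) o v (res ι θ) b s x = z2 at *
      have e2 : z - z2 = (z - z1) + (p1 - p2) := by linarith
      rw [e2]
      generalize z - z1 = p0 at *
      nlinarith [sq_nonneg (p0 - (p1 - p2)), sq_nonneg (p1 + p2)])
  rw [eb_Ln T] at key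
  have h6 : 2 * η ^ 2 * Eb A o (fun _ => G) b ≤ e := by
    calc _ ≤ 2 * η ^ 2 * Γ := mul_le_mul_of_nonneg_left (hb b) (by positivity)
      _ = e := by rw [hη2]; field_simp
  nlinarith

theorem symGlue : SymGlue := by
  intro T n N ρ al a e hF hρ hod hE
  have X := T.bs (Ix n)
  have Y := T.ts ℝ (Ix n)
  refine ⟨(1 / 2 : ℝ) • (al + rf al), fun u => (1 / 2 : ℝ) • (a u + rf (a u)),
    ⟨X.smul _ (X.add hF.bal (X.rf hF.bal)), ?_, fun u => ⟨X.smul _ (X.add (hF.ba u).1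
      (X.rf (hF.ba u).1)), ?_⟩, fun u hu => ?_⟩, ?_, fun u => ?_, fun b => ?_⟩
  · have h1 := X.rgs al
    rw [hF.free] at h1
    funext b s x
    have h2 := congrFun (congrFun (congrFun h1 b) s) x
    have h3 := congrFun (congrFun (congrFun hF.free b) s) x
    simp [gs, rf] at h2 h3 ⊢
    linarith
  · have : (1 / 2 : ℝ) • (a u + rf (a u)) * co u =
        (1 / 2 : ℝ) • (a u * co u - rf (a u * co u)) := by
      funext b s x; simp [rf, co]; ring
    rw [this]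
    exact X.smul _ (X.sub (hF.ba u).2 (X.rf (hF.ba u).2))
  · rw [hF.nd u hu]; funext b s x; simp [rf]
  · funext b s x; simp [rf, add_comm]
  · funext b s x; simp [rf, add_comm]
  · have hD : TS (N.drift al a - ρ) :=
      Y.sub (ts_dft T _ 0 (X.ts hF.bal) fun u => X.ts (hF.ba u).1) (X.ts hρ)
    have e1 : N.drift ((1 / 2 : ℝ) • (al + rf al)) (fun u => (1 / 2 : ℝ) • (a u + rf (a u))) - ρ =
        (1 / 2 : ℝ) • ((N.drift al a - ρ) - rf (N.drift al a - ρ)) := by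
      have h1 : rf (N.drift al a - ρ) = rf (N.drift al a) - rf ρ := rfl
      rw [h1, hod, Net.drift, Net.drift, rf_dft T _ _ _ fun u => X.df (hF.ba u).1]
      simp only [dft, dl_smul T, dl_add T _ _ _ (X.df (hF.ba _).1) (X.df (X.rf (hF.ba _).1)),
        ← Finset.smul_sum, Finset.sum_add_distrib]
      funext b s x
      simp only [Pi.add_apply, Pi.sub_apply, Pi.mul_apply, Pi.smul_apply, Pi.neg_apply,
        smul_eq_mul]
      ring
    rw [e1]
    have key := eb_le T N.A 0 (H := ((1 / 2 : ℝ) • ((N.drift al a - ρ) -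
      rf (N.drift al a - ρ))) ^ 2) (Y.c0 (Y.pow 2 hD)) (Y.c0 (ts_rf T (Y.pow 2 hD)))
      (Y.c0 (Y.pow 2 (Y.smul _ (Y.sub hD (ts_rf T hD))))) b (1 / 2) (1 / 2) 0 (fun s x => by
        generalize N.drift al a - ρ = H
        simp only [Pi.pow_apply, Pi.sub_apply, Pi.smul_apply, smul_eq_mul, rf]
        nlinarith [sq_nonneg (H b s x + H (-b) (!s) (-x))])
    rw [eb_rf T] at key
    have h1 := hE b
    have h2 := hE (-b)
    simp only [Net.E] at h1 h2 ⊢
    linarith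

end Crest.Agent.T157.Nt

end
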