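import Crest.Agent.T157.NetDef_32

/-!
# Row 157, block B/S3, section 7 (helper75): perturbation of Gram matrices, new drift nodes

`Nt.pertGlue : PertGlue`, `Nt.drfGlue : DrfGlue`.
-/

set_option autoImplicit false
set_option linter.unusedSectionVars false

noncomputable section

namespace Crest.Agent.T157.Nt

open MeasureTheory ProbabilityTheory Matrix Real Set Filter Topology
open Crest.ProbabilityR.SpinGlassDynamics (spin)
open Crest.Agent.T157.S3L (gm mdl)

namespace P75

/-! ### linear algebra -/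

lemma pert_lin {U J : Type*} [AddCommGroup U] [Module ℝ U] [Fintype J] [DecidableEq J] {M : ℕ}
    (v : J → U) (s0 : Finset J) (h0 : LinearIndepOn ℝ v s0) {g : Fin M → U}
    (hg : LinearIndependent ℝ g) (hM : Fintype.card J ≤ M) {δ : ℝ} (hδ : 0 < δ) (s : Finset J) :
    ∃ c : J → Fin M → ℝ, ‖c‖ ≤ δ ∧ (∀ j ∈ s0, c j = 0) ∧
      LinearIndepOn ℝ (fun j => v j + ∑ i, c j i • g i) (s0 ∪ s : Finset J) := by
  classical
  induction s using Finset.induction_on with
  | empty => exact ⟨0, by simpa using hδ.le, fun _ _ => rfl, by simpa using h0⟩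
  | insert j s _ ih =>
    obtain ⟨c, c1, c2, c3⟩ := ih
    rw [Finset.union_insert]
    by_cases hj : j ∈ s0 ∪ s
    · exact ⟨c, c1, c2, by rwa [Finset.insert_eq_of_mem hj]⟩
    set w : J → U := fun j => v j + ∑ i, c j i • g i
    set W := Submodule.span ℝ (w '' (s0 ∪ s : Finset J)) with hW
    obtain ⟨i, hi⟩ : ∃ i, g i ∉ W := by
      by_contra! h
      have : Module.Finite ℝ W := .span_of_finite ℝ ((Finset.finite_toSet _).image w)
      have a : LinearIndependent ℝ fun i => (⟨g i, h i⟩ : W) := .of_comp W.subtype hg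
      have b := a.fintype_card_le_finrank
      have d := finrank_span_finset_le_card (R := ℝ) ((s0 ∪ s).image w)
      rw [Set.finrank, Finset.coe_image, ← hW] at d
      have e := (Finset.card_lt_iff_ne_univ (s0 ∪ s)).2 fun h => hj (h ▸ Finset.mem_univ j)
      have f := Finset.card_image_le (s := s0 ∪ s) (f := w)
      rw [Fintype.card_fin] at b
      omega
    obtain ⟨d, d1, d2⟩ : ∃ d : Fin M → ℝ, ‖d‖ ≤ δ ∧ v j + ∑ i, d i • g i ∉ W := by
      by_cases h : v j ∈ W
      · refine ⟨Pi.single i δ, by rw [Pi.norm_single, Real.norm_of_nonneg hδ.le], fun h' => hi ?_⟩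
        simp only [Pi.single_apply, ite_smul, zero_smul, Finset.sum_ite_eq', Finset.mem_univ,
          if_true] at h'
        exact (W.smul_mem_iff hδ.ne').1 ((W.add_mem_iff_right h).1 h')
      · exact ⟨0, by simpa using hδ.le, by simpa using h⟩
    have e : EqOn w (fun k => v k + ∑ i, Function.update c j d k i • g i) (s0 ∪ s : Finset J) :=
      fun k hk => by simp only [Function.update_of_ne fun h : k = j => hj (h ▸ hk), w]
    refine ⟨Function.update c j d, (pi_norm_le_iff_of_nonneg hδ.le).2 fun k => ?_, fun k hk => ?_, ?_⟩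
    · by_cases h : k = j
      · rw [h, Function.update_self]; exact d1
      · rw [Function.update_of_ne h]; exact (norm_le_pi_norm c k).trans c1
    · rw [Function.update_of_ne fun h : k = j => hj (h ▸ Finset.mem_union_left _ hk), c2 k hk]
    · rw [Finset.coe_insert]
      refine (c3.congr e).insert ?_
      rwa [← e.image_eq, Function.update_self]

lemma quad_eq {V I : Type*} [AddCommGroup V] [Module ℝ V] [Fintype I] (B : V →ₗ[ℝ] V →ₗ[ℝ] ℝ)
    (f : I → V) (x : I → ℝ) :
    x ⬝ᵥ (of fun i j => B (f i) (f j)) *ᵥ x = B (∑ i, x i • f i) (∑ i, x i • f i) := by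
  simp only [dotProduct, mulVec, of_apply, map_sum, map_smul, LinearMap.sum_apply,
    LinearMap.smul_apply, smul_eq_mul, Finset.mul_sum]
  rw [Finset.sum_comm]
  exact Finset.sum_congr rfl fun i _ => Finset.sum_congr rfl fun j _ => by ring

lemma posDef_iff {V I : Type*} [AddCommGroup V] [Module ℝ V] [Fintype I] {B : V →ₗ[ℝ] V →ₗ[ℝ] ℝ}
    (hs : ∀ x y, B x y = B y x) (h0 : ∀ x, 0 ≤ B x x) (f : I → V) :
    (of fun i j => B (f i) (f j)).PosDef ↔ LinearIndependent ℝ fun i => B (f i) := by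
  have z : ∀ x : I → ℝ, B (∑ i, x i • f i) (∑ i, x i • f i) = 0 ↔ ∑ i, x i • B (f i) = 0 := by
    intro x
    rw [LinearMap.BilinForm.apply_apply_same_eq_zero_iff B h0 ⟨hs⟩, LinearMap.mem_ker, map_sum]
    simp only [map_smul]
  rw [Fintype.linearIndependent_iff, posDef_iff_dotProduct_mulVec]
  simp only [star_trivial, quad_eq]
  refine ⟨fun h x hx => congrFun (by_contra fun h' => (h.2 h').ne' ((z x).2 hx)), fun h =>
    ⟨IsHermitian.ext fun i j => hs _ _, fun x hx => (h0 _).lt_of_ne' fun h' =>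
      hx (funext (h x ((z x).1 h')))⟩⟩

/-! ### the covariance form -/

variable (T : Tl) {L κ : Type} [Fintype L] [DecidableEq L] [Fintype κ] (A : Matrix L κ ℝ) (o : L)
  {F G : Fn L}

/-- constants -/
def cs (L : Type) (c : ℝ) : Fn L := fun _ _ _ => c

include T

lemma c0 (h : BS F) : C0 F := (T.ts ℝ L).c0 ((T.bs L).ts h)

lemma Eb_add (h : BS F) (h' : BS G) (b : ℝ) : Eb A o (F + G) b = Eb A o F b + Eb A o G b := by
  simp only [Eb, (T.ex ℝ L κ).eq]; exact (T.ex ℝ L κ).add A o _ b (c0 T h) (c0 T h')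

lemma Eb_smul (c : ℝ) (F : Fn L) (b : ℝ) : Eb A o (c • F) b = c * Eb A o F b := by
  simp only [Eb, (T.ex ℝ L κ).eq]; exact (T.ex ℝ L κ).smul A o _ c F b

lemma Eb_cs (c b : ℝ) : Eb A o (cs L c) b = c := by
  simp only [Eb, (T.ex ℝ L κ).eq]; exact (T.ex ℝ L κ).const A o _ c

lemma Eb_mono (h : BS F) (h' : BS G) (b : ℝ) (a : ∀ s x, F b s x ≤ G b s x) :
    Eb A o F b ≤ Eb A o G b := by
  simp only [Eb, (T.ex ℝ L κ).eq]
  exact (T.ex ℝ L κ).mono A o _ b (abs_tanh_lt_one b).le (c0 T h) (c0 T h') a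

lemma Eb_bd (h : BS F) : ∃ C, ∀ b, |Eb A o F b| ≤ C := by
  obtain ⟨C, hC⟩ := (T.bs L).bd h
  refine ⟨C, fun b => abs_le.2 ⟨?_, ?_⟩⟩
  · exact (Eb_cs T A o _ b).symm.trans_le (Eb_mono T A o ((T.bs L).const _) h b
      fun s x => (abs_le.1 (hC b s x)).1)
  · exact (Eb_mono T A o h ((T.bs L).const _) b fun s x => (abs_le.1 (hC b s x)).2).trans_eq
      (Eb_cs T A o _ b)

lemma Cv_int (h : BS F) (h' : BS G) (ν : Measure ℝ) [IsProbabilityMeasure ν] :
    Integrable (Cv A o F G) ν := by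
  have c : ∀ {F : Fn L}, BS F → Continuous (Eb A o F) := fun h =>
    ((T.gc ℝ L κ o).2.2.1 A _ (c0 T h)).1
  obtain ⟨a, ha⟩ := Eb_bd T A o ((T.bs L).mul h h')
  obtain ⟨a', ha'⟩ := Eb_bd T A o h
  obtain ⟨a'', ha''⟩ := Eb_bd T A o h'
  refine .of_bound ((c ((T.bs L).mul h h')).sub ((c h).mul (c h'))).aestronglyMeasurable
    (a + a' * a'') (.of_forall fun b => (abs_sub _ _).trans (add_le_add (ha b) ?_))
  rw [abs_mul]
  exact mul_le_mul (ha' b) (ha'' b) (abs_nonneg _) ((abs_nonneg _).trans (ha' b))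

lemma Eb_sq (h : BS F) (m b : ℝ) :
    Eb A o ((F + cs L m) ^ 2) b = Cv A o F F b + (Eb A o F b + m) ^ 2 := by
  have B := T.bs L
  rw [show (F + cs L m) ^ 2 = F * F + (2 * m) • F + cs L (m ^ 2) by
      funext b s x; simp only [cs, Pi.pow_apply, Pi.add_apply, Pi.mul_apply, Pi.smul_apply,
        smul_eq_mul]; ring,
    Eb_add T A o (G := cs L _) (B.add (B.mul h h) (B.smul _ h)) (B.const _),
    Eb_add T A o (B.mul h h) (B.smul _ h), Eb_smul T, Eb_cs T, Cv]
  ring

lemma Cv_nn (h : BS F) (b : ℝ) : 0 ≤ Cv A o F F b := by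
  have B := T.bs L
  have a := Eb_sq T A o h (-Eb A o F b) b
  have c := Eb_mono T A o (B.const 0) (B.pow 2 (B.add h (B.const (-Eb A o F b)))) b
    fun s x => sq_nonneg _
  rw [show Eb A o (fun _ _ _ => 0) b = 0 from Eb_cs T A o 0 b] at c
  simpa using c.trans_eq a

omit T in
lemma Cv_comm (F G : Fn L) : Cv A o F G = Cv A o G F := by
  funext b; rw [Cv, Cv, mul_comm F, mul_comm (Eb A o F b)]

/-- bounded smooth functions -/
def Bm (L : Type) [Fintype L] [DecidableEq L] : Submodule ℝ (Fn L) where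
  carrier := {F | BS F}
  add_mem' := (T.bs L).add
  zero_mem' := (T.bs L).const 0
  smul_mem' c _ := (T.bs L).smul c

variable (β : ℝ) (ν : Measure ℝ) [IsProbabilityMeasure ν]

lemma cv_add (F F' G : Bm T L) : β ^ 2 * ∫ b, Cv A o (F + F' : Bm T L) G b ∂ν =
    β ^ 2 * ∫ b, Cv A o F G b ∂ν + β ^ 2 * ∫ b, Cv A o F' G b ∂ν := by
  have B := T.bs L
  rw [← mul_add, ← integral_add (Cv_int T A o F.2 G.2 ν) (Cv_int T A o F'.2 G.2 ν)]
  congr 2
  funext b
  simp only [Cv, Submodule.coe_add, add_mul, Eb_add T A o (B.mul F.2 G.2) (B.mul F'.2 G.2),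
    Eb_add T A o F.2 F'.2]
  ring

lemma cv_smul (c : ℝ) (F G : Bm T L) : β ^ 2 * ∫ b, Cv A o (c • F : Bm T L) G b ∂ν =
    c • (β ^ 2 * ∫ b, Cv A o F G b ∂ν) := by
  rw [smul_eq_mul, mul_left_comm, ← integral_const_mul c]
  congr 2
  funext b
  simp only [Cv, Submodule.coe_smul, smul_mul_assoc, Eb_smul T]
  ring

/-- the covariance form -/
def Bf : Bm T L →ₗ[ℝ] Bm T L →ₗ[ℝ] ℝ :=
  LinearMap.mk₂ ℝ (fun F G => β ^ 2 * ∫ b, Cv A o F G b ∂ν) (cv_add T A o β ν) (cv_smul T A o β ν)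
    (fun F G G' => by simpa only [Cv_comm A o F] using cv_add T A o β ν G G' F)
    fun c F G => by simpa only [Cv_comm A o F] using cv_smul T A o β ν c G F

lemma Bf_apply (F G : Bm T L) : Bf T A o β ν F G = β ^ 2 * ∫ b, Cv A o F G b ∂ν := rfl

lemma Bf_comm (F G : Bm T L) : Bf T A o β ν F G = Bf T A o β ν G F := by
  rw [Bf_apply, Bf_apply, Cv_comm]

lemma Bf_nn (F : Bm T L) : 0 ≤ Bf T A o β ν F F :=
  mul_nonneg (sq_nonneg _) (integral_nonneg (Cv_nn T A o F.2))

lemma bs_pt (i : ℕ) : BS (pt o i) :=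
  (T.bs L).mul ((T.bs L).sub (T.bs L).sp ((T.bs L).th0 o)) ((T.bs L).pow _ ((T.bs L).th0 o))

/-- even polynomials of `t` -/
def qq (o : L) {M : ℕ} (c : Fin M → ℝ) : Fn L := ∑ i, c i • th o ^ (2 * (i : ℕ))

lemma bs_qq {M : ℕ} (c : Fin M → ℝ) : BS (qq o c) :=
  (T.bs L).sum _ fun _ _ => (T.bs L).smul _ ((T.bs L).pow _ ((T.bs L).th0 o))

omit T in
lemma qq_apply {M : ℕ} (c : Fin M → ℝ) (b : ℝ) (s : Bool) (x : L → ℝ) :
    qq o c b s x = ∑ i, c i * tanh (b + x o) ^ (2 * (i : ℕ)) := by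
  simp only [qq, Finset.sum_apply, Pi.smul_apply, Pi.pow_apply, th, smul_eq_mul]

omit T in
lemma sum_pt {M : ℕ} (c : Fin M → ℝ) : ∑ i, c i • pt o i = (sp - th o) * qq o c := by
  simp only [pt, qq, Finset.mul_sum, mul_smul_comm]

omit T in
lemma poly_zero {M : ℕ} {c : Fin M → ℝ} (h : ∀ y : ℝ, ∑ i, c i * tanh y ^ (2 * (i : ℕ)) = 0) :
    c = 0 := by
  have a : (∑ i : Fin M, Polynomial.monomial (2 * (i : ℕ)) (c i)) = 0 := by
    refine Polynomial.eq_zero_of_infinite_isRoot _ ((infinite_range_of_injective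
      tanh_injective).mono ?_)
    rintro _ ⟨y, rfl⟩
    simpa [Polynomial.eval_finsetSum] using h y
  funext j
  have := congrArg (Polynomial.coeff · (2 * (j : ℕ))) a
  simpa [Polynomial.coeff_monomial, Fin.val_inj] using this

lemma pt_pos (I : IbpStmt) (h0 : 0 < (A * Aᵀ) o o) {M : ℕ} {c : Fin M → ℝ} (hc : c ≠ 0) (b : ℝ) :
    0 < Cv A o ((sp - th o) * qq o c) ((sp - th o) * qq o c) b := by
  have B := T.bs L
  have q := bs_qq T o c
  have g : gs (qq o c) = 0 := by funext b s x; simp [gs, qq_apply]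
  have a := (I L κ A o b).2.2 _ 1 (B.ts q) (B.ts (B.const 1)) g
  have a' := (I L κ A o b).2.2 _ _ (B.ts q) (B.ts (B.mul (B.sub B.sp (B.th0 o)) q)) g
  rw [mul_one, show gs (1 : Fn L) = 0 by funext b s x; simp [gs], mul_zero,
    show Eb A o 0 b = 0 from Eb_cs T A o 0 b] at a
  rw [Cv, a, a', mul_zero, sub_zero]
  set φ : ℝ → ℝ := fun y => (1 - tanh y ^ 2) * (∑ i, c i * tanh y ^ (2 * (i : ℕ))) ^ 2 with hφ
  have ct : Continuous tanh := by
    have : tanh = fun x => sinh x / cosh x := funext tanh_eq_sinh_div_cosh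
    rw [this]; exact continuous_sinh.div continuous_cosh fun x => (cosh_pos x).ne'
  have φc : Continuous φ := by fun_prop
  have φ0 : ∀ y, 0 ≤ φ y := fun y => mul_nonneg (sub_nonneg.2 (tanh_sq_lt_one y).le) (sq_nonneg _)
  have e : ((1 - th o ^ 2) * qq o c * gs ((sp - th o) * qq o c) : Fn L) b =
      fun _ x => φ (b + x o) := by
    funext s x
    simp only [gs, Pi.mul_apply, Pi.sub_apply, Pi.one_apply, Pi.pow_apply, th, sp, qq_apply, hφ,
      spin, if_true, Bool.false_eq_true, if_false]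
    ring
  obtain ⟨C, hC⟩ := B.bd (B.mul (B.mul (B.sub (B.const 1) (B.pow 2 (B.th0 o))) q)
    (B.gs (B.mul (B.sub B.sp (B.th0 o)) q)))
  have φC : ∀ x : L → ℝ, |φ (b + x o)| ≤ C := fun x => by
    have := hC b true x
    rwa [show (fun _ _ _ => 1 : Fn L) = 1 from rfl, e] at this
  obtain ⟨y, hy⟩ : ∃ y, φ y ≠ 0 := by
    by_contra! h
    exact hc (poly_zero fun y => pow_eq_zero_iff two_ne_zero |>.1 ((mul_eq_zero.1 (h y)).resolve_left
      (sub_pos.2 (tanh_sq_lt_one y)).ne'))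
  have : (gaussianReal 0 1).IsOpenPosMeasure :=
    (gaussianReal_absolutelyContinuous' 0 one_ne_zero).isOpenPosMeasure
  rw [Eb, e, mdl]
  refine Finset.sum_pos (fun σ _ => mul_pos (div_pos (exp_pos _) (by positivity)) ?_)
    Finset.univ_nonempty
  have c : Continuous fun z : κ → ℝ =>
      φ (b + (spin σ • (fun l => (A * Aᵀ) l o) + A *ᵥ z) o) := by fun_prop
  refine integral_pos_of_integrable_nonneg_nonzero c (.of_bound c.aestronglyMeasurable C
    (.of_forall fun z => φC _)) (fun z => φ0 _)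
    (x := ((y - b - spin σ * (A * Aᵀ) o o) / (A * Aᵀ) o o) • A o) ?_
  rw [mulVec_smul]
  convert hy using 2
  change b + (spin σ * (A * Aᵀ) o o + _ * (A * Aᵀ) o o) = y
  field_simp
  ring

omit T in
lemma rf_dft (B : BsApi L) (S : Matrix L L ℝ) {al : Fn L} {a : L → Fn L} (h : rf al = al)
    (h' : ∀ u, rf (a u) = a u) (hb : ∀ u, BS (a u)) : rf (dft S o al a) = -dft S o al a := by
  have d : ∀ u p b s x, dx p (a u) (-b) (!s) (-x) = -dx p (a u) b s x := fun u p b s x => by
    have := congrFun (congrFun (congrFun (B.rdx p (B.df (hb u))) b) s) x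
    rw [h' u] at this
    rw [this]; exact (neg_neg _).symm
  funext b s x
  have e1 : al (-b) (!s) (-x) = al b s x := congrFun (congrFun (congrFun h b) s) x
  have e2 : ∀ u, a u (-b) (!s) (-x) = a u b s x := fun u =>
    congrFun (congrFun (congrFun (h' u) b) s) x
  have e3 : spin (!s) = -spin s := by cases s <;> simp [spin]
  simp only [rf, dft, dl, Pi.add_apply, Pi.mul_apply, Pi.sub_apply, Pi.neg_apply, Pi.smul_apply,
    Finset.sum_apply, sp, th, co, smul_eq_mul, e1, e2, e3, d, ← neg_add b, tanh_neg]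
  rw [neg_add, ← Finset.sum_neg_distrib]
  congr 1
  · ring
  · refine Finset.sum_congr rfl fun u _ => ?_
    simp only [mul_neg, Finset.sum_neg_distrib]
    ring

end P75

open P75

/-- **small perturbations make the Gram matrix definite** -/
theorem pertGlue : PertGlue := fun T I _ β ν _ n N K _ _ F hN hF δ hδ => by
  classical
  have s0 : 0 < N.S 0 0 := hN.pd.diag_pos
  have β0 : 0 < β ^ 2 := (sq_nonneg β).lt_of_ne' fun h => by
    rw [hN.gr, gram, of_apply, h, zero_mul] at s0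
    exact lt_irrefl _ s0
  have pd := fun {J : Type} [Fintype J] => posDef_iff (I := J) (Bf_comm T N.A 0 β ν)
    (Bf_nn T N.A 0 β ν)
  let v : Ix n ⊕ K → Bm T (Ix n) := Sum.elim (fun l => ⟨N.f l, hN.bs l⟩) fun x => ⟨F x, hF x⟩
  let g : Fin (n + 2 + Fintype.card K) → Bm T (Ix n) := fun i => ⟨pt 0 i, bs_pt T 0 i⟩
  have hg : LinearIndependent ℝ fun i => Bf T N.A 0 β ν (g i) := by
    rw [← pd, posDef_iff_dotProduct_mulVec]
    refine ⟨IsHermitian.ext fun i j => Bf_comm T _ _ _ _ _ _, fun c hc => ?_⟩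
    have h := bs_qq T (0 : Ix n) c
    have B := T.bs (Ix n)
    have h' := B.mul (B.sub B.sp (B.th0 0)) h
    rw [star_trivial, quad_eq, Bf_apply, Submodule.coe_sum]
    simp only [Submodule.coe_smul, g, sum_pt]
    refine mul_pos β0 ((integral_pos_iff_support_of_nonneg (Cv_nn T _ _ h')
      (Cv_int T _ _ h' h' ν)).2 ?_)
    rw [show Function.support _ = univ from
      eq_univ_of_forall fun b => (pt_pos T N.A 0 I s0 hc b).ne', measure_univ]
    exact one_pos
  obtain ⟨c, c1, c2, c3⟩ := pert_lin (fun j => Bf T N.A 0 β ν (v j)) (Finset.univ.image Sum.inl)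
    (by
      rw [Finset.coe_image, Finset.coe_univ, image_univ, linearIndepOn_range_iff Sum.inl_injective]
      exact (pd fun l => v (.inl l)).1 (by have := hN.pd; rwa [hN.gr] at this))
    hg (by simp) hδ Finset.univ
  refine ⟨fun x => c (.inr x), (pi_norm_le_iff_of_nonneg hδ.le).2 fun x =>
    (norm_le_pi_norm c _).trans c1, ?_⟩
  rw [Finset.union_eq_right.2 (Finset.subset_univ _), Finset.coe_univ, linearIndepOn_univ_iff] at c3
  simp only [← map_smul, ← map_sum, ← map_add] at c3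
  convert (pd _).2 c3 using 1
  have e : ∀ j, Sum.elim N.f (fun x => F x + ∑ i, c (.inr x) i • pt 0 i) j =
      (v j + ∑ i, c j i • g i : Bm T (Ix n)) := by
    rintro (l | x)
    · rw [c2 _ (Finset.mem_image_of_mem _ (Finset.mem_univ l))]; simp [v]
    · simp [v, g]
  ext i j
  rw [gram, of_apply, of_apply, Bf_apply, e, e]

/-- **an even flow becomes a drift node** -/
theorem drfGlue : DrfGlue := fun T Fa Pe Ap β ν _ n N hN al a hf h1 h2 v r hr k hk e he => by
  classical
  have B := T.bs (Ix n)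
  have hd := ((Fa β ν n N hN).1 al a hf).1
  have k0 : 0 < k - 1 := sub_pos.2 hk
  set Q := β ^ 2 * (k / (k - 1) * (2 * (n + 3)) ^ 2) with hQ
  have Q0 : 0 ≤ Q := by positivity
  obtain ⟨c, c1, c2⟩ := Pe β ν n N Unit (fun _ => N.drift al a) hN (fun _ => hd)
    (min 1 (e / (Q + 1))) (by positivity)
  obtain ⟨n', E, hE⟩ := Ap.1 n Unit
  have eq : N.drift al a + ∑ i, c () i • pt 0 i = N.drift (al + qq 0 (c ())) a := by
    rw [sum_pt, Net.drift, Net.drift, dft, dft]; ring
  have hq := bs_qq T (0 : Ix n) (c ())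
  have r1 : rf (al + qq 0 (c ())) = al + qq 0 (c ()) := by
    funext b s x
    have : al (-b) (!s) (-x) = al b s x := congrFun (congrFun (congrFun h1 b) s) x
    simp only [rf, Pi.add_apply, qq_apply, this, Pi.neg_apply, ← neg_add, tanh_neg,
      Even.neg_pow (even_two_mul _)]
  have fl : N.Flw (al + qq 0 (c ())) a := ⟨B.add hf.bal hq, by
    funext b s x
    have := congrFun (congrFun (congrFun hf.free b) s) x
    simp only [gs, Pi.add_apply, qq_apply, Pi.zero_apply] at this ⊢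
    linarith, hf.ba, hf.nd⟩
  have hG := ((Fa β ν n N hN).1 _ a fl).1
  obtain ⟨N', o1, o2, o3, -, o4, -⟩ := Ap.2 β ν n n' N Unit E
    (fun x => N.drift al a + ∑ i, c x i • pt 0 i) (fun _ => al + qq 0 (c ())) (fun _ => a)
    (fun _ => True) hE hN
    (fun _ => by rw [eq]; exact ⟨hG, rf_dft 0 B _ r1 h2 fun u => (hf.ba u).1⟩)
    (fun _ => ⟨fl, r1, h2⟩) (fun _ h => (h trivial).elim) (fun _ _ => eq) c2
  refine ⟨n', N', _, E (.inr ()), o1, o2, (o3 ()).2 trivial, ?_⟩
  let G : Bm T (Ix n) := ⟨_, hG⟩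
  let f : Bm T (Ix n) := ⟨_, hN.bs v⟩
  have s : ∀ i j, N'.S (E i) (E j) = gram β ν N.A 0 (Sum.elim N.f fun x =>
      N.drift al a + ∑ i, c x i • pt 0 i) i j := fun i j => by rw [← o4]; rfl
  have s1 : N'.sq (Pi.single (E (.inr ())) 1 - Pi.single (E (.inl v)) 1) =
      Bf T N.A 0 β ν (G - f) (G - f) := by
    simp only [Net.sq, mulVec_sub, sub_dotProduct, dotProduct_sub, mulVec_single_one,
      single_one_dotProduct, col_apply, s, gram, of_apply, Sum.elim_inl, Sum.elim_inr, eq, map_sub,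
      LinearMap.sub_apply, Bf_apply, G, f]
  have hX := fun m : ℝ => B.sub hd (B.sub (hN.bs v) (B.const m))
  have key : ∀ b, Cv N.A 0 (G - f : Bm T (Ix n)) (G - f : Bm T (Ix n)) b ≤
      k * r + k / (k - 1) * (2 * (n + 3) * ‖c‖) ^ 2 := fun b => by
    set m := N.E (N.f v) b
    refine ((le_add_of_nonneg_right (sq_nonneg _)).trans_eq
      (Eb_sq T N.A 0 (G - f).2 m b).symm).trans ((Eb_mono T N.A 0
        (B.pow 2 (B.add (G - f).2 (B.const m))) (B.add (B.smul k (B.pow 2 (hX m)))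
          (B.const (k / (k - 1) * (2 * (n + 3) * ‖c‖) ^ 2))) b fun s x => ?_).trans ?_)
    · have y : |(∑ i, c () i • pt 0 i : Fn (Ix n)) b s x| ≤ 2 * (n + 3) * ‖c‖ := by
        simp only [Finset.sum_apply, Pi.smul_apply, smul_eq_mul]
        refine (Finset.abs_sum_le_sum_abs _ _).trans ((Finset.sum_le_card_nsmul _ _ (‖c‖ * 2)
          fun i _ => ?_).trans_eq (by rw [Finset.card_univ, Fintype.card_fin]; simp; ring))
        rw [abs_mul]
        refine mul_le_mul ((norm_le_pi_norm (c ()) i).trans (norm_le_pi_norm c ())) ?_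
          (abs_nonneg _) (norm_nonneg _)
        have t := (abs_tanh_lt_one (b + x 0)).le
        have u : |spin s| = 1 := by cases s <;> simp [spin]
        change |(spin s - tanh (b + x 0)) * tanh (b + x 0) ^ (2 * (i : ℕ))| ≤ 2
        rw [abs_mul, abs_pow]
        exact (mul_le_of_le_one_right (abs_nonneg _) (pow_le_one₀ (abs_nonneg _) t)).trans
          ((abs_sub _ _).trans (by linarith))
      have y2 := mul_le_mul_of_nonneg_left (sq_le_sq' (abs_le.1 y).1 (abs_le.1 y).2)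
        (by positivity : 0 ≤ k / (k - 1))
      simp only [G, f, ← eq, Submodule.coe_sub, Pi.pow_apply, Pi.add_apply, Pi.sub_apply,
        Pi.smul_apply, smul_eq_mul]
      generalize (∑ i, c () i • pt 0 i : Fn (Ix n)) b s x = y at y2
      generalize hz : N.drift al a b s x - (N.f v b s x - m) = z
      rw [show N.drift al a b s x + y - N.f v b s x + m = z + y by rw [← hz]; ring]
      have : k * z ^ 2 + k / (k - 1) * y ^ 2 - (z + y) ^ 2 = ((k - 1) * z - y) ^ 2 / (k - 1) := by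
        field_simp; ring
      have : 0 ≤ ((k - 1) * z - y) ^ 2 / (k - 1) := by positivity
      linarith
    · rw [Eb_add T _ _ (B.smul k (B.pow 2 (hX m))) (B.const _), Eb_smul T]
      exact add_le_add (mul_le_mul_of_nonneg_left (hr b) (by linarith)) (Eb_cs T _ _ _ b).le
  have := mul_le_mul_of_nonneg_left (integral_mono (Cv_int T N.A 0 (G - f).2 (G - f).2 ν)
    (integrable_const _) key) (sq_nonneg β)
  rw [integral_const, probReal_univ, one_smul] at this
  rw [s1]
  refine this.trans ?_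
  have n0 := norm_nonneg c
  have a1 : ‖c‖ ^ 2 ≤ ‖c‖ := by nlinarith [c1.trans (min_le_left _ _)]
  have a2 := (le_div_iff₀ (by positivity)).1 (c1.trans (min_le_right _ _))
  rw [mul_add, mul_pow, ← mul_assoc (k / (k - 1)), ← mul_assoc (β ^ 2) (_ * _), ← hQ]
  nlinarith [mul_le_mul_of_nonneg_left a1 Q0]

end Crest.Agent.T157.Nt

end
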