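import Crest.Agent.T157.NetFam_32
import Crest.Agent.T157.NetPert_75

/-!
# Row 157, block B/S3, section 7 (helper32): one level of an extended tower is simulated
-/

set_option autoImplicit false
set_option linter.unusedVariables false
set_option linter.unusedSectionVars false

noncomputable section

namespace Crest.Agent.T157.Nt

open MeasureTheory Matrix Real Set Filter Topology
open Crest.ProbabilityR.SpinGlassDynamics (spin)
open Crest.Agent.T157.Tw (sech2 Bath SV sS xS zS tS exS rsS imS Step)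

namespace Fam

section net
variable {L K T : Type} [Fintype L] [DecidableEq L] [Fintype K] [DecidableEq K] [Fintype T]

lemma row_ap {W : Matrix K L ℝ} {r : K} {u : L} (h : W r = Pi.single u 1) (x : L → ℝ) :
    (W *ᵥ x) r = x u := by
  change W r ⬝ᵥ x = _; rw [h, single_one_dotProduct]

lemma sel_mul {I I' : Type} {U : Matrix I L ℝ} {U' : Matrix I' K ℝ} {i : I} {j : I'} {p : L}
    {q : K} (h : U i = Pi.single p 1) (h' : U' j = Pi.single q 1) (S : Matrix L K ℝ) :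
    (U * S * U'ᵀ) i j = S p q := by
  have : (U * S * U'ᵀ) i j = U i ⬝ᵥ S *ᵥ U' j := by
    rw [Matrix.mul_assoc]; rfl
  rw [this, h, h', single_one_dotProduct, mulVec_single_one]; rfl

lemma rf_pb (W : Matrix K L ℝ) (F : Fn K) : rf (pb W F) = pb W (rf F) := by
  funext b s x; simp [rf, pb, mulVec_neg]
lemma rf_tb (F : Fn L) : rf (tb F) = tb (rf F) := by
  funext b s x; simp [rf, tb, tanh_neg]

lemma rf_add (F G : Fn L) : rf (F + G) = rf F + rf G := rfl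
lemma rf_mul (F G : Fn L) : rf (F * G) = rf F * rf G := rfl
lemma dl_tb (S : Matrix L L ℝ) (o u : L) (a : Fn L) (b : ℝ) :
    dl S o u (tb a) b = dl S o u a (tanh b) := by
  funext s x; simp only [dl, Pi.sub_apply, Finset.sum_apply]; rfl

lemma dl_lin (tl : Tl) (S : Matrix L L ℝ) (o u : L) (c : T → ℝ) {a : T → Fn L}
    (h : ∀ t, Df (a t)) : dl S o u (∑ t, c t • a t) = ∑ t, c t • dl S o u (a t) := by
  have e : ∀ p, dx p (∑ t, c t • a t) = ∑ t, c t • dx p (a t) := fun p => by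
    rw [(tl.dx ℝ L).sum p _ (F := fun t => c t • a t) fun t _ θ s => (h t θ s).const_smul (c t)]
    exact Finset.sum_congr rfl fun t _ => (tl.dx ℝ L).smul p _ _
  simp only [dl, e, Finset.sum_mul, smul_mul_assoc, Finset.smul_sum, smul_sub,
    Finset.sum_sub_distrib]
  congr 1
  rw [Finset.sum_comm]
  exact Finset.sum_congr rfl fun _ _ => Finset.sum_congr rfl fun _ _ => smul_comm _ _ _

/-- **read-back of a drift** -/
lemma dft_pb (tl : Tl) {S : Matrix L L ℝ} (hS : Sᵀ = S) {W : Matrix K L ℝ} {o : K} {o' : L}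
    {r : T → K} {u : T → L} (ho : W o = Pi.single o' 1) (hr : ∀ t, W (r t) = Pi.single (u t) 1)
    (al : Fn K) {a : T → Fn K} (h : ∀ t, Df (a t)) :
    dft S o' (pb W al) (fun v => ∑ t, (Pi.single (u t) 1 : L → ℝ) v • pb W (a t)) =
      pb W ((sp - th o) * al + ∑ t, dl (W * S * Wᵀ) o (r t) (a t)) := by
  have e : ∀ t, ∑ v, (Pi.single (u t) 1 : L → ℝ) v • dl S o' v (pb W (a t)) =
      pb W (dl (W * S * Wᵀ) o (r t) (a t)) := fun t => by
    rw [← (tl.dx ℝ L).dl W S o' (u t) o (r t) hS ho (hr t) (h t)]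
    simp [Pi.single_apply]
  unfold dft
  simp_rw [dl_lin tl S o' _ _ fun t => ((tl.dx ℝ L).pb W o' (h t)).1]
  rw [Finset.sum_comm]
  simp_rw [e]
  funext b s x
  simp [pb, sp, th, row_ap ho, Finset.sum_apply]

end net

/-! ### the families -/

/-- the data of one level -/
structure Dat (m m0 k k0 : ℕ) (T : Type) where
  β : ℝ
  ι : Matrix (Fin m) (Fin m0) ℝ
  τ : T → Fin m0
  C : Fin k → ℝ → Fn (Fin m)
  H : Fin k0 → ℝ → Fn (Fin m0)

abbrev JJ (m k k0 d : ℕ) (T : Type) : Type :=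
  ℝ × (Fin k ⊕ Fin k0 → Fin d → ℝ) × (Rw m T → Rw m T → ℝ)

namespace Dat
variable {m m0 k k0 : ℕ} {T : Type} [Fintype T] [DecidableEq T] (X : Dat m m0 k k0 T) (d : ℕ)

def AA (θ : JJ m k k0 d T) : Matrix (Rw m T) (Rw m T) ℝ := θ.2.2
def Rm : Matrix (Fin m) (Rw m T) ℝ := of fun i y => if y = some (.inl i) then X.β⁻¹ else 0
def cc (x : Fin k ⊕ Fin k0) (i : Fin d) : JJ m k k0 d T → Fn (Rw m T) := fun θ _ _ _ => θ.2.1 x i
def qq (x : Fin k ⊕ Fin k0) : JJ m k k0 d T → Fn (Rw m T) :=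
  ∑ i, cc d x i * tF none ^ (2 * (i : ℕ))
def aL (l : Fin k0) : JJ m k k0 d T → Fn (Rw m T) :=
  (fun θ => pb (X.ιᵀ * X.Rm) (gs (X.H l θ.1))) + qq d (.inr l)
def aM (l : Fin k0) (t : T) : JJ m k k0 d T → Fn (Rw m T) :=
  X.β⁻¹ • ((fun θ => pb (X.ιᵀ * X.Rm) (dx (X.τ t) (X.H l θ.1))) *
    fun θ _ _ x => rr θ.1 (x (some (.inr t))))
def ta : JJ m k k0 d T → Fn (Rw m T) := (fun _ => (sp : Fn (Rw m T))) - tF none
def g : Rw k (Fin k0) → JJ m k k0 d T → Fn (Rw m T)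
  | none => fun _ => sp
  | some (.inl i) => (fun θ : JJ m k k0 d T => pb X.Rm (X.C i θ.1)) + ta d * qq d (.inl i)
  | some (.inr l) => ta d * X.aL d l +
      ∑ t, fun θ : JJ m k k0 d T => dl (AA d θ * (AA d θ)ᵀ) none (some (.inr t)) (X.aM d l t θ)
def ha : Rw k (Fin k0) ⊕ Fin k0 → JJ m k k0 d T → Fn (Rw m T)
  | .inl x => fun θ => gs (X.g d x θ)
  | .inr l => X.aL d l
def he : Rw k (Fin k0) ⊕ Fin k0 → Rw m T ⊕ T → JJ m k k0 d T → Fn (Rw m T)
  | .inl x, .inl y => fun θ => dx y (X.g d x θ)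
  | .inr l, .inr t => X.aM d l t
  | _, _ => 0

structure Ok : Prop where
  C : ∀ i, GS id (X.C i) ∧ ∀ η, rf (X.C i η) = -X.C i η
  H : ∀ l, GS id (X.H l) ∧ ∀ η, rf (X.H l η) = -X.H l η

lemma cont_AA : Continuous (AA d : JJ m k k0 d T → _) := continuous_snd.comp continuous_snd

variable {X} (tl : Tl) (h : X.Ok)
include tl

lemma ut_qq (x : Fin k ⊕ Fin k0) : UT (qq d x : JJ m k k0 d T → _) :=
  UT.sum tl _ fun i _ => (ut_cb tl (c := fun θ : JJ m k k0 d T => θ.2.1 x i) (by fun_prop)).mul tl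
    ((ut_tF tl none).pow tl _)

lemma tb_qq (x : Fin k ⊕ Fin k0) (θ : JJ m k k0 d T) :
    tb (qq d x θ) = ∑ i, θ.2.1 x i • th none ^ (2 * (i : ℕ)) := by
  rw [← tb_tF tl none θ]
  funext b s y; simp [qq, cc, tb, Finset.sum_apply]

include h

lemma ut_H (l : Fin k0) : UT fun θ : JJ m k k0 d T => X.H l θ.1 :=
  UT.re tl continuous_fst (h.H l).1.1
lemma ut_aL (l : Fin k0) : UT (X.aL d l) :=
  (((ut_H d tl h l).gs tl).pb tl _).add tl (ut_qq d tl _)
lemma ut_aM (l : Fin k0) (t : T) : UT (X.aM d l t) :=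
  ((((ut_H d tl h l).dx tl _).pb tl _).mul tl (ut_rr tl continuous_fst _)).smul tl _
lemma ut_g : ∀ x, UT (X.g d x)
  | none => ut_sp tl
  | some (.inl i) => (UT.pb tl _ (UT.re tl continuous_fst (h.C i).1.1)).add tl
      (((ut_sp tl).sub tl (ut_tF tl _)).mul tl (ut_qq d tl _))
  | some (.inr l) => (((ut_sp tl).sub tl (ut_tF tl _)).mul tl (ut_aL d tl h l)).add tl
      (UT.sum tl _ fun t _ => (ut_aM d tl h l t).dl tl
        ((cont_AA d).matrix_mul (cont_AA d).matrix_transpose) _ _)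
lemma ut_ha : ∀ i, UT (X.ha d i)
  | .inl x => (ut_g d tl h x).gs tl
  | .inr l => ut_aL d tl h l
lemma ut_he : ∀ i p, UT (X.he d i p)
  | .inl x, .inl y => (ut_g d tl h x).dx tl y
  | .inr l, .inr t => ut_aM d tl h l t
  | .inl _, .inr _ => ut_zero tl
  | .inr _, .inl _ => ut_zero tl

section lvl
variable (X) {n : ℕ} (M : Matrix (Fin m) (Ix n) ℝ) (u : T → Ix n) (θ : JJ m k k0 d T)

def G (x : Fin k ⊕ Fin k0) : Fn (Ix n) := pb (Mm M u) (tb (X.g d (some x) θ))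
def al : Fin k ⊕ Fin k0 → Fn (Ix n) := Sum.elim 0 fun l => pb (Mm M u) (tb (X.aL d l θ))
def a : Fin k ⊕ Fin k0 → Ix n → Fn (Ix n) := Sum.elim 0 fun l v =>
  ∑ t, (Pi.single (u t) 1 : Ix n → ℝ) v • pb (Mm M u) (tb (X.aM d l t θ))

variable {X θ} (h0 : θ.1 ≠ 0)

omit h in
lemma bs_qq (x : Fin k ⊕ Fin k0) : BS (tb (qq d x θ)) ∧ rf (tb (qq d x θ)) = tb (qq d x θ) := by
  have B := tl.bs (Rw m T)
  rw [tb_qq d tl]
  refine ⟨B.sum _ fun i _ => B.smul _ (B.pow _ (B.th0 _)), ?_⟩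
  funext b s y
  simp only [rf, th, Finset.sum_apply, Pi.smul_apply, Pi.pow_apply, Pi.neg_apply, ← neg_add b,
    tanh_neg, pow_mul, neg_sq]

omit h in
lemma tb_ta : tb (ta d θ) = sp - th none := by rw [← tb_tF tl none θ]; rfl

include h0

lemma flw {N : Net n} (hu : ∀ t, N.dr (u t)) : ∀ x, N.Flw (X.al d M u θ x) (X.a d M u θ x) ∧
    rf (X.al d M u θ x) = X.al d M u θ x ∧ ∀ v, rf (X.a d M u θ x v) = X.a d M u θ x v := by
  have B := tl.bs (Rw m T)
  have B' := tl.bs (Ix n)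
  have B0 := tl.bs (Fin m0)
  rintro (i | l)
  · refine ⟨⟨B'.const 0, by funext b s y; simp [al, gs], fun v => ⟨B'.const 0, ?_⟩, fun _ _ => rfl⟩,
      rfl, fun _ => rfl⟩
    change BS (0 * co v)
    rw [zero_mul]; exact B'.const 0
  have hH : BS (tb (X.H l θ.1)) := (h.H l).1.2 θ.1 h0
  have oH : rf (tb (X.H l θ.1)) = -tb (X.H l θ.1) := by rw [rf_tb, (h.H l).2]; rfl
  have e1 : tb (X.aL d l θ) = pb (X.ιᵀ * X.Rm) (gs (tb (X.H l θ.1))) + tb (qq d (.inr l) θ) := rfl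
  have e2 : ∀ t, tb (X.aM d l t θ) = X.β⁻¹ • (pb (X.ιᵀ * X.Rm) (dx (X.τ t) (tb (X.H l θ.1))) *
      fun _ _ x => rr θ.1 (x (some (.inr t)))) := fun t => rfl
  have b2 : ∀ t, BS (tb (X.aM d l t θ)) := fun t => by
    rw [e2]; exact B.smul _ (B.mul (B.pb _ (B0.dx _ hH)) (B.rr _ _))
  have b3 : ∀ t, BS (pb (Mm M u) (tb (X.aM d l t θ)) * co (u t)) := fun t => by
    have : pb (Mm M u) (tb (X.aM d l t θ)) * co (u t) = pb (Mm M u) (X.β⁻¹ •
        (pb (X.ιᵀ * X.Rm) (dx (X.τ t) (tb (X.H l θ.1))) *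
          fun _ _ x => rr θ.1 (x (some (.inr t))) * x (some (.inr t)))) := by
      funext b s y
      simp only [e2, pb, co, Pi.mul_apply, Pi.smul_apply, smul_eq_mul,
        row_ap (W := Mm M u) (r := some (.inr t)) rfl]
      ring
    rw [this]
    exact B'.pb _ (B.smul _ (B.mul (B.pb _ (B0.dx _ hH)) (B.yy _ h0 _)))
  have o1 : rf (gs (tb (X.H l θ.1))) = gs (tb (X.H l θ.1)) := by
    have := B0.rgs (tb (X.H l θ.1))
    rw [oH] at this
    rw [← neg_inj, ← this]; funext b s y; simp only [gs, Pi.neg_apply]; ring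
  have o2 : ∀ i, rf (dx i (tb (X.H l θ.1))) = dx i (tb (X.H l θ.1)) := fun i => by
    have := B0.rdx i (B0.df hH)
    rw [oH, ← neg_one_smul ℝ (tb _), (tl.dx ℝ _).smul, neg_one_smul] at this
    exact (neg_inj.1 this).symm
  have b1 : BS (pb (Mm M u) (tb (X.aL d l θ))) :=
    B'.pb _ (by rw [e1]; exact B.add (B.pb _ (B0.gs hH)) (bs_qq d tl _).1)
  refine ⟨⟨b1, ?_, fun v => ⟨?_, ?_⟩,
    fun v hv => ?_⟩, ?_, fun v => ?_⟩
  · funext b s y
    simp [al, e1, tb_qq d tl, gs, pb, th, Finset.sum_apply]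
  · exact B'.sum _ fun t _ => B'.smul _ (B'.pb _ (b2 t))
  · simp only [a, Sum.elim_inr, Finset.sum_mul, smul_mul_assoc]
    refine B'.sum _ fun t _ => ?_
    by_cases e : v = u t
    · subst e; exact B'.smul _ (b3 t)
    · rw [Pi.single_eq_of_ne e, zero_smul]; exact B'.const 0
  · refine Finset.sum_eq_zero fun t _ => ?_
    rw [Pi.single_eq_of_ne (by rintro rfl; exact hv (hu t)), zero_smul]
  · simp only [al, Sum.elim_inr]
    rw [rf_pb, e1, rf_add, rf_pb, o1, (bs_qq d tl _).2]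
  · have : ∀ t, rf (tb (X.aM d l t θ)) = tb (X.aM d l t θ) := fun t => by
      rw [e2]
      conv_rhs => rw [← o2, ← rf_pb]
      funext b s y; simp [rf, rr]
    funext b s y
    simp only [a, rf, Sum.elim_inr, Finset.sum_apply, Pi.smul_apply]
    refine Finset.sum_congr rfl fun t _ => ?_
    conv_rhs => rw [← this t, ← rf_pb]
    rfl

omit h0 in
lemma drf {N : Net n} (hθ : AA d θ * (AA d θ)ᵀ = Mm M u * N.S * (Mm M u)ᵀ) (l : Fin k0) :
    X.G d M u θ (.inr l) = N.drift (X.al d M u θ (.inr l)) (X.a d M u θ (.inr l)) := by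
  have := dft_pb tl (S := N.S) (by simp [Net.S]) (W := Mm M u) (o := none) (o' := 0)
    (r := fun t => some (.inr t)) (u := u) rfl (fun _ => rfl) (tb (X.aL d l θ))
    fun t => (ut_aM d tl h l t).diff tl θ
  refine Eq.trans ?_ this.symm
  rw [← hθ, ← tb_ta d tl (θ := θ)]
  funext b s y
  simp only [G, g, pb, dl_tb, Pi.add_apply, Pi.mul_apply, Finset.sum_apply]
  simp only [tb, Pi.add_apply, Pi.mul_apply, Finset.sum_apply]

lemma bsG (fa : FactStmt) {β : ℝ} {ν : Measure ℝ} [IsProbabilityMeasure ν] {N : Net n}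
    (hN : N.Ok β ν) (hu : ∀ t, N.dr (u t))
    (hθ : AA d θ * (AA d θ)ᵀ = Mm M u * N.S * (Mm M u)ᵀ) :
    ∀ x, BS (X.G d M u θ x) ∧ rf (X.G d M u θ x) = -X.G d M u θ x := by
  have B := tl.bs (Rw m T)
  rintro (i | l)
  · have e : tb (X.g d (some (.inl i)) θ) =
        pb X.Rm (tb (X.C i θ.1)) + tb (ta d θ) * tb (qq d (.inl i) θ) := rfl
    unfold G
    rw [e, tb_ta d tl]
    refine ⟨(tl.bs _).pb _ (B.add (B.pb _ ((h.C i).1.2 θ.1 h0))
      (B.mul (B.sub B.sp (B.th0 _)) (bs_qq d tl _).1)), ?_⟩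
    rw [rf_pb, rf_add, rf_mul, rf_pb, rf_tb, (h.C i).2, (bs_qq d tl _).2]
    funext b s y
    have e3 : spin (!s) = -spin s := by cases s <;> simp [spin]
    simp only [pb, tb, rf, sp, th, Pi.add_apply, Pi.mul_apply, Pi.sub_apply, Pi.neg_apply, e3,
      ← neg_add b, tanh_neg]
    ring
  · rw [drf d tl h M u hθ]
    obtain ⟨f1, f2, f3⟩ := flw d tl h M u h0 hu (.inr l)
    exact ⟨((fa β ν n N hN).1 _ _ f1).1, P75.rf_dft 0 (tl.bs _) _ f2 f3 fun v => (f1.ba v).1⟩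

omit h h0 in
lemma pert (η : ℝ) (c : Fin k ⊕ Fin k0 → Fin d → ℝ) (A : Rw m T → Rw m T → ℝ) :
    X.G d M u (η, c, A) = fun x => X.G d M u (η, 0, A) x + ∑ i, c x i • pt 0 i := by
  have e : ∀ x, pb (Mm M u) (tb (ta d (η, c, A)) * tb (qq d x (η, c, A))) =
      ∑ i, c x i • pt (0 : Ix n) i := fun x => by
    rw [tb_ta d tl, tb_qq d tl]
    funext b s y
    simp only [pb, pt, sp, th, Pi.mul_apply, Pi.sub_apply, Finset.sum_apply, Pi.smul_apply,
      Pi.pow_apply, smul_eq_mul, Finset.mul_sum, row_ap (W := Mm M u) (r := none) rfl]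
    exact Finset.sum_congr rfl fun _ _ => by ring
  have z : ∀ x, qq d x ((η, 0, A) : JJ m k k0 d T) = 0 := fun x => by
    funext b s y; simp [qq, cc, Finset.sum_apply]
  funext x
  rw [← e]
  funext b s y
  rcases x with i | l
  · simp only [G, g, pb, tb, Pi.add_apply, Pi.mul_apply, z, mul_zero, add_zero]
  · have e1 : ∀ t, X.aM d l t (η, c, A) = X.aM d l t (η, 0, A) := fun _ => rfl
    have e2 : ta d (η, c, A) = ta d ((η, 0, A) : JJ m k k0 d T) := rfl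
    simp only [G, g, aL, pb, tb, Pi.add_apply, Pi.mul_apply, z, add_zero, Finset.sum_apply, AA,
      e1, e2]
    ring

omit tl h in
def row : Rw k (Fin k0) → Ix n ⊕ (Fin k ⊕ Fin k0)
  | none => .inl 0
  | some x => .inr x
omit tl h in
def rowh : Rw k (Fin k0) ⊕ Fin k0 → (Ix n ⊕ (Fin k ⊕ Fin k0)) ⊕ (Ix n ⊕ (Fin k ⊕ Fin k0))
  | .inl x => .inl (row x)
  | .inr l => .inr (.inr (.inr l))
omit tl h in
def M' {n' : ℕ} (E : Ix n ⊕ (Fin k ⊕ Fin k0) ≃ Ix n') : Matrix (Fin k) (Ix n') ℝ :=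
  fun i => Pi.single (E (.inr (.inl i))) 1
omit tl h in
def u' {n' : ℕ} (E : Ix n ⊕ (Fin k ⊕ Fin k0) ≃ Ix n') (l : Fin k0) : Ix n' := E (.inr (.inr l))

lemma app (fa : FactStmt) (ap : AppStmt) {β : ℝ} {ν : Measure ℝ} [IsProbabilityMeasure ν]
    {N : Net n} (hN : N.Ok β ν) (hu : ∀ t, N.dr (u t))
    (hθ : AA d θ * (AA d θ)ᵀ = Mm M u * N.S * (Mm M u)ᵀ) {n' : ℕ}
    {E : Ix n ⊕ (Fin k ⊕ Fin k0) ≃ Ix n'} (hE : Pos E)
    (pd : (gram β ν N.A 0 (Sum.elim N.f (X.G d M u θ))).PosDef) :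
    ∃ N' : Net n', N'.Ok β ν ∧ N.Ext N' (fun v => E (.inl v)) ∧ (∀ l, N'.dr (u' E l)) ∧
      (∀ x y, (Mm (M' E) (u' E) * N'.S * (Mm (M' E) (u' E))ᵀ) x y =
        β ^ 2 * CI ν (AA d) none (X.g d x) (X.g d y) θ) ∧
      (∀ x y, (Mm (M' E) (u' E) * N'.PD * (Mm (M' E) (u' E))ᵀ) x y =
        PF β ν (AA d) none (1 - tF none ^ 2) (fun θ => gs (X.g d x θ)) (fun p θ => dx p (X.g d x θ))
          (fun θ => gs (X.g d y θ)) (fun p θ => dx p (X.g d y θ))
          (Mm M u * N.PD * (Mm M u)ᵀ) θ) ∧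
      ∀ i j, (Mh (M' E) (u' E) * N'.P1 * (Mh (M' E) (u' E))ᵀ) i j =
        PF β ν (AA d) none 1 (X.ha d i) (X.he d i) (X.ha d j) (X.he d j)
          (Mh M u * N.P1 * (Mh M u)ᵀ) θ := by
  obtain ⟨N', o1, o2, o3, -, o4, o5, o6⟩ := ap.2 β ν n n' N _ E (X.G d M u θ) (X.al d M u θ)
    (X.a d M u θ) (fun x => x.isRight = true) hE hN (bsG d tl h M u h0 fa hN hu hθ)
    (flw d tl h M u h0 hu) (by rintro (i | l) hx; exacts [⟨rfl, rfl⟩, (hx rfl).elim])
    (by rintro (i | l) hx; exacts [by simp at hx, drf d tl h M u hθ l]) pd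
  have r1 : ∀ x, Mm (M' E) (u' E) x = Pi.single (E (row x)) 1 := by
    rintro (_ | i | l)
    · simp only [row, hE.zero]; rfl
    all_goals rfl
  have r2 : ∀ i, Mh (M' E) (u' E) i = Pi.single (Sum.map E E (rowh i)) 1 := by
    rintro (x | l)
    · simp only [Mh, r1, rowh, Sum.map_inl]; exact Sum.elim_single_zero _ _
    · exact Sum.elim_zero_single _ _
  have g1 : ∀ x, Sum.elim N.f (X.G d M u θ) (row x) = pb (Mm M u) (tb (X.g d x θ)) := by
    rintro (_ | x)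
    · exact hN.f0
    · rfl
  have g2 : ∀ x p, dx p (pb (Mm M u) (tb (X.g d x θ))) =
      ∑ y, Mm M u y p • pb (Mm M u) (tb (dx y (X.g d x θ))) := fun x p =>
    ((tl.dx ℝ _).pb _ p ((ut_g d tl h x).diff tl θ)).2
  have g3 : ∀ i, eal (Sum.elim N.f (X.G d M u θ)) (Sum.elim N.al (X.al d M u θ)) (rowh i) =
      pb (Mm M u) (tb (X.ha d i θ)) := by
    rintro (x | l)
    · simp only [rowh, eal, Sum.elim_inl, g1]; rfl
    · rfl
  have z : pb (Mm M u) (tb (0 : Fn (Rw m T))) = 0 := rfl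
  have g4 : ∀ i, ea (Sum.elim N.f (X.G d M u θ)) (Sum.elim N.a (X.a d M u θ)) (rowh i) =
      fun p => ∑ y, Mh M u y p • pb (Mm M u) (tb (X.he d i y θ)) := by
    rintro (x | l) <;> funext p <;> rcases p with p | p <;>
      simp only [rowh, ea, g1, g2, Fintype.sum_sum_type, Mh, he, z, a, Sum.elim_inl, Sum.elim_inr,
        Pi.zero_apply, zero_smul, smul_zero, Finset.sum_const_zero, add_zero, zero_add]
  have hD : N.D = pb (Mm M u) (tb ((1 - tF none ^ 2 : JJ m k k0 d T → Fn (Rw m T)) θ)) := by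
    change _ = pb (Mm M u) (1 - tb (tF none θ) ^ 2)
    rw [tb_tF tl]
    funext b s y
    simp only [Net.D, pb, th, Pi.sub_apply, Pi.pow_apply, Pi.one_apply,
      row_ap (W := Mm M u) (r := none) rfl]
  refine ⟨N', o1, o2, fun l => (o3 _).2 rfl, fun x y => ?_, fun x y => ?_, fun i j => ?_⟩
  · rw [sel_mul (r1 x) (r1 y), ← gram_pb tl none ν hθ rfl ((ut_g d tl h x).uc tl)
      ((ut_g d tl h y).uc tl), ← g1, ← g1]
    exact congrFun (congrFun o4 (row x)) (row y)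
  · rw [sel_mul (r1 x) (r1 y), o5, g1, g1, hD]
    simp_rw [g2]
    exact pair_pb tl none (cont_AA d) ν hθ rfl β
      (((ut_one tl).sub tl ((ut_tF tl none).pow tl 2)).uc tl)
      (((ut_g d tl h x).gs tl).uc tl) (((ut_g d tl h y).gs tl).uc tl)
      (fun p => ((ut_g d tl h x).dx tl p).uc tl) (fun p => ((ut_g d tl h y).dx tl p).uc tl) _ _ _
  · rw [sel_mul (r2 i) (r2 j), o6, g3, g3, g4, g4]
    exact pair_pb tl none (cont_AA d) ν hθ rfl β ((ut_one tl).uc tl) ((ut_ha d tl h i).uc tl)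
      ((ut_ha d tl h j).uc tl) (fun p => (ut_he d tl h i p).uc tl)
      (fun p => (ut_he d tl h j p).uc tl) _ _ _

end lvl

end Dat

/-! ### the limits -/

section lim
open Tw.Cal52

lemma dx_rep {m : ℕ} {G : Fn (Fin m)} {F : SV m} {b : ℝ}
    (h : ∀ s x, G b s x = F.1 s (WithLp.toLp 2 x)) (i : Fin m) (s : Bool) (x : Fin m → ℝ) :
    dx i G b s x = (Tw.dd i F).1 s (WithLp.toLp 2 x) := by
  have e : G b s = F.1 s ∘ (PiLp.continuousLinearEquiv 2 ℝ fun _ : Fin m => ℝ).symm :=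
    funext (h s)
  unfold dx
  rw [e, ContinuousLinearEquiv.comp_right_fderiv]
  rfl

lemma bil_int {m k : ℕ} {ν : Measure ℝ} {I : Type} (B : ℝ → SV m →ₗ[ℝ] SV m →ₗ[ℝ] ℝ)
    (hs : ∀ b F G, B b F G = B b G F) (h0 : ∀ b r F, B b (algebraMap ℝ _ r) F = 0)
    {f : Fin k → ℝ → SV m} (hi : ∀ i j, Integrable (fun b => B b (f i b) (f j b)) ν)
    {F : I → ℝ → SV m} {V : Matrix I (Fin k) ℝ} {β : ℝ}
    (h : ∀ x, ∀ᵐ b ∂ν, ∃ r, β • F x b = ∑ i, V x i • f i b + algebraMap ℝ _ r) (x y : I) :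
    β ^ 2 * ∫ b, B b (F x b) (F y b) ∂ν =
      (V * (of fun i j => ∫ b, B b (f i b) (f j b) ∂ν) * Vᵀ) x y := by
  have e : ∀ᵐ b ∂ν, β ^ 2 * B b (F x b) (F y b) =
      ∑ j, ∑ i, V x i * V y j * B b (f i b) (f j b) := by
    filter_upwards [h x, h y] with b ⟨r, hr⟩ ⟨r', hr'⟩
    have : β ^ 2 * B b (F x b) (F y b) = B b (β • F x b) (β • F y b) := by
      simp only [map_smul, LinearMap.smul_apply, smul_eq_mul]; ring
    rw [this, hr, hr']
    simp only [map_add, LinearMap.add_apply, h0, hs b _ (algebraMap ℝ _ r'), add_zero, map_sum,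
      map_smul, LinearMap.sum_apply, LinearMap.smul_apply, smul_eq_mul, Finset.mul_sum, mul_zero,
      Finset.sum_const_zero]
    exact Finset.sum_congr rfl fun _ _ => Finset.sum_congr rfl fun _ _ => by ring
  rw [← integral_const_mul, integral_congr_ae e, integral_finsetSum _ fun j _ =>
    integrable_finsetSum _ fun i _ => (hi i j).const_mul _]
  simp only [Matrix.mul_apply, transpose_apply, of_apply, Finset.sum_mul]
  refine Finset.sum_congr rfl fun j _ => ?_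
  rw [integral_finsetSum _ fun i _ => (hi i j).const_mul _]
  exact Finset.sum_congr rfl fun i _ => by rw [integral_const_mul]; ring

variable {β : ℝ} {ν : Measure ℝ} [IsProbabilityMeasure ν] {D : ℕ} {e e' : Tw.Ext}
  {f0 : Fin e'.b.m → ℝ → SV e.b.m} {f : Fin e'.bt.m → ℝ → SV e.bt.m}

variable (e f0 f) in
def Fx : Rw e'.bt.m (Fin e'.b.m) → ℝ → SV e.bt.m
  | none => fun _ => sS _
  | some (.inl i) => f i
  | some (.inr l) => fun b => Tw.gen e.bt b (Tw.pull e.ι (f0 l b))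

lemma Fx_ae (st : Step β ν D e e' f0 f) : ∀ x, ∀ᵐ b ∂ν, ∃ r,
    β • Fx e f0 f x b = ∑ i, Vm β e' id x i • f i b + algebraMap ℝ _ r := by
  rintro (_ | i | l)
  · filter_upwards [st.st, ae_all_iff.2 st.inc] with b h1 h2
    refine ⟨β * tanh b, ?_⟩
    have h3 := congrArg (Tw.pull e.ι) h1
    simp only [Tw.stS, map_smul, map_sub, map_sum, h2, AlgHom.commutes, p_s, smul_sub,
      Finset.smul_sum, smul_smul] at h3
    rw [Finset.sum_comm] at h3
    simp only [Fx, Vm, e'.hg, mulVec, dotProduct, Finset.sum_smul, mul_comm (e'.ι _ _)]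
    rw [← h3, map_mul, ← Algebra.smul_def]; abel
  · exact ae_of_all _ fun b => ⟨0, by simp [Fx, Vm, Pi.single_apply]⟩
  · filter_upwards [st.cl l] with b h1
    exact ⟨0, by simp only [Fx, Vm, h1, Finset.smul_sum, smul_smul, map_zero, add_zero, id]⟩

lemma Nb_Fx (fa : Tw.FamApi) (st : Step β ν D e e' f0 f) (x y) :
    β ^ 2 * Tw.Nb ν e.bt (Fx e f0 f x) (Fx e f0 f y) = (Vm β e' id * (Vm β e' id)ᵀ) x y := by
  have := bil_int (fun b => (imS e.bt b).N) (fun b => (ok e.bt b).sN) (N_alg e.bt)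
    (fun i j => (fa.N _ _ (st.c1 i).1 _ (st.c1 j).1).2.int ν) (Fx_ae st) x y
  rwa [show (of fun i j => ∫ b, (imS e.bt b).N (f i b) (f j b) ∂ν) = 1 from by
    ext i j; exact (st.on i j).trans (one_apply).symm, Matrix.mul_one] at this

lemma Eb_Fx (fa : Tw.FamApi) (st : Step β ν D e e' f0 f) (x y) :
    β ^ 2 * Tw.Eb ν e.bt (Fx e f0 f x) (Fx e f0 f y) =
      (Vm β e' id * e'.bt.A * (Vm β e' id)ᵀ) x y := by
  have := bil_int (fun b => (imS e.bt b).En) (fun b => (ok e.bt b).sE) (En_alg e.bt)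
    (fun i j => (fa.En _ _ (st.c1 i).1 _ (st.c1 j).1).2.int ν) (Fx_ae st) x y
  rwa [show (of fun i j => ∫ b, (imS e.bt b).En (f i b) (f j b) ∂ν) = e'.bt.A from by
    ext i j; exact st.en i j] at this

variable {T : Type} [Fintype T] [DecidableEq T] {τ : T → Fin e.b.m}

lemma dd_pull (hτ : Function.Injective τ) {F : SV e.b.m} (hF : ∀ i, i ∉ range τ → Tw.dd i F = 0)
    (j : Fin e.bt.m) :
    Tw.dd j (Tw.pull e.ι F) = ∑ t, e.ι j (τ t) • Tw.pull e.ι (Tw.dd (τ t) F) := by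
  rw [p_d]
  exact (Fintype.sum_of_injective τ hτ _ _ (fun i hi => by rw [hF i hi, map_zero, smul_zero])
    fun _ => rfl).symm

lemma gen_pull (hβ : β ≠ 0) (hτ : Function.Injective τ) {F : SV e.b.m}
    (hF : ∀ i, i ∉ range τ → Tw.dd i F = 0) (b : ℝ) :
    (sS _ - tS e.bt b) * gS (Tw.pull e.ι F) + ∑ t, ∑ i, Vm β e τ (some (.inr t)) i •
      (zS e.bt i * β⁻¹ • Tw.pull e.ι (Tw.dd (τ t) F) - Tw.dd i (β⁻¹ • Tw.pull e.ι (Tw.dd (τ t) F))) =
    Tw.gen e.bt b (Tw.pull e.ι F) := by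
  rw [gen_eq, rs_gS, ou_eq, Finset.sum_comm]
  congr 1
  refine Finset.sum_congr rfl fun i _ => ?_
  simp only [dd_pull hτ hF, Vm, Finset.mul_sum, map_sum, map_smul, mul_smul_comm, ← smul_sub,
    ← Finset.sum_sub_distrib, Finset.smul_sum, smul_smul, Matrix.mul_apply, Finset.sum_mul,
    Finset.sum_smul]
  rw [Finset.sum_comm]
  refine Finset.sum_congr rfl fun j _ => Finset.sum_congr rfl fun t _ => ?_
  congr 1; field_simp

lemma PF_lin {J L κ I I' I2 : Type} [TopologicalSpace J] [FirstCountableTopology J] [Fintype L]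
    [DecidableEq L] [Fintype κ] [Fintype I] [Fintype I'] [Fintype I2] (tl : Tl) (o : L)
    {A : J → Matrix L κ ℝ} (hA : Continuous A) {d al : J → Fn L} {a : I → J → Fn L}
    {al' : I2 → J → Fn L} {a' : I2 → I' → J → Fn L} (hd : UC d) (hal : UC al) (ha : ∀ i, UC (a i))
    (hal' : ∀ j, UC (al' j)) (ha' : ∀ j i, UC (a' j i)) (P : Matrix I I' ℝ) (θ : J) (c : I2 → ℝ) :
    ∑ j, PF β ν A o d al a (al' j) (a' j) P θ * c j =
      PF β ν A o d al a (∑ j, c j • al' j) (fun q => ∑ j, c j • a' j q) P θ := by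
  unfold PF
  simp only [Finset.mul_sum _ _ (al * d), Finset.mul_sum _ _ (a _), mul_smul_comm,
    II_lin tl o hA ν c fun j => (hal.mul tl hd).mul tl (hal' j),
    fun p q => II_lin tl o hA ν c fun j => (ha p).mul tl (ha' j q), Finset.sum_mul]
  simp_rw [Finset.sum_comm (t := (Finset.univ : Finset I2))]
  rw [← Finset.sum_add_distrib, Finset.mul_sum]
  refine Finset.sum_congr rfl fun j _ => ?_
  simp only [mul_assoc (c j), ← Finset.mul_sum]; ring

variable {C : Fin e'.bt.m → ℝ → Fn (Fin e.bt.m)} {H : Fin e'.b.m → ℝ → Fn (Fin e.b.m)}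
  (hβ : β ≠ 0) (d : ℕ) (A0 : Rw e.bt.m T → Rw e.bt.m T → ℝ)
  (hC : ∀ i b s x, C i 0 (tanh b) s x = (f i b).1 s (WithLp.toLp 2 x))
  (hH : ∀ l b s x, H l 0 (tanh b) s x = (f0 l b).1 s (WithLp.toLp 2 x))

variable (β) (e) (τ C H) in
abbrev XX : Dat e.bt.m e.b.m e'.bt.m e'.b.m T := ⟨β, e.ι, τ, C, H⟩
variable (e') in
abbrev TT : JJ e.bt.m e'.bt.m e'.b.m d T := (0, 0, A0)

include hβ in
lemma Rm_V (x : Fin e.bt.m → ℝ) : Dat.Rm (XX β e τ C H) *ᵥ (Vm β e τ *ᵥ x) = x := by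
  funext i
  change ∑ y, (if y = some (.inl i) then β⁻¹ else 0) * (Vm β e τ *ᵥ x) y = _
  simp only [ite_mul, zero_mul, Finset.sum_ite_eq', Finset.mem_univ, if_true]
  change β⁻¹ * (Pi.single i β ⬝ᵥ x) = _
  rw [single_dotProduct, ← mul_assoc, inv_mul_cancel₀ hβ, one_mul]

lemma qq0 (x) : Dat.qq d x (TT e' d A0) = 0 := by funext b s y; simp [Dat.qq, Dat.cc, Finset.sum_apply]

include hβ hH

lemma rp_aL (l b) : Rp (Vm β e τ) (Dat.aL (XX β e τ C H) d l (TT e' d A0) (tanh b)) (gS (Tw.pull e.ι (f0 l b))) :=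
  fun s x => by
    simp only [Dat.aL, Pi.add_apply, qq0, Pi.zero_apply, add_zero, pb, gs, ← mulVec_mulVec,
      Rm_V hβ, hH, gS_ap, pull_ap]
    rfl

lemma rp_aM (l t b) : Rp (Vm β e τ) (Dat.aM (XX β e τ C H) d l t (TT e' d A0) (tanh b))
    (β⁻¹ • Tw.pull e.ι (Tw.dd (τ t) (f0 l b))) := fun s x => by
  simp only [Dat.aM, Pi.smul_apply, Pi.mul_apply, pb, ← mulVec_mulVec, Rm_V hβ, rr, smul_ap,
    pull_ap, dx_rep (hH l b), smul_eq_mul]
  simp only [ne_eq, OfNat.ofNat_ne_zero, not_false_eq_true, zero_pow, zero_mul, add_zero, div_one,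
    mul_one]
  rfl

variable (tl : Tl) (hD : DictStmt) (hX : Dat.Ok (XX β e τ C H)) (hτ : Function.Injective τ)
  (hd : ∀ i, i ∉ range τ → ∀ l ξ, Tw.dd i (f0 l ξ) = 0)
  (hA : Dat.AA d (TT e' d A0) * (Dat.AA d (TT e' d A0))ᵀ = Vm β e τ * (Vm β e τ)ᵀ)
include hC tl hD hX hτ hd hA

lemma rp_g : ∀ x b, Rp (Vm β e τ) (Dat.g (XX β e τ C H) d x (TT e' d A0) (tanh b)) (Fx e f0 f x b) := by
  rintro (_ | i | l) b
  · exact rp_sp
  · intro s x
    simp only [Dat.g, Pi.add_apply, Pi.mul_apply, qq0, Pi.zero_apply, mul_zero, add_zero, pb,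
      Rm_V hβ, hC, Fx]
  · simp only [Fx, ← gen_pull hβ hτ (fun i hi => hd i hi l b) b, Dat.g, Pi.add_apply, Pi.mul_apply,
      Finset.sum_apply, hA]
    refine rp_add (rp_mul (rp_sub rp_sp ((hD _ e.bt (Vm β e τ) none rfl).2.2 b))
      (rp_aL hβ d A0 hH l b)) (rp_sum _ fun t _ => ?_)
    rw [← dl_tb]
    exact rp_dl hD (c := e.bt) rfl ((Dat.ut_aM d tl hX l t).diff tl _) (rp_aM hβ d A0 hH l t b) _

lemma null (st : Step β ν D e e' f0 f) {P : Matrix (Rw e.bt.m T ⊕ T) (Rw e.bt.m T ⊕ T) ℝ}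
    (hP : ∀ t, P *ᵥ nv e τ t = 0) (i) (l : Fin e'.b.m) :
    ∑ j, PF β ν (Dat.AA d) none 1 (Dat.ha (XX β e τ C H) d i) (Dat.he (XX β e τ C H) d i) (Dat.ha (XX β e τ C H) d j) (Dat.he (XX β e τ C H) d j) P (TT e' d A0) *
      nv e' id l j = 0 := by
  have ua := fun j => (Dat.ut_ha d tl hX j).uc tl
  have ue := fun j p => (Dat.ut_he d tl hX j p).uc tl
  have uM := fun t => (Dat.ut_aM d tl hX l t).uc tl
  have cA := Dat.cont_AA (m := e.bt.m) (k := e'.bt.m) (k0 := e'.b.m) (T := T) d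
  rw [PF_lin tl none cA ((ut_one tl).uc tl) (ua i) (ue i) ua ue]
  have e1 : II ν (Dat.AA d) none (Dat.ha (XX β e τ C H) d i * 1 * ∑ j, nv e' id l j • Dat.ha (XX β e τ C H) d j) (TT e' d A0) = 0 := by
    rw [II_congr hD (c := e.bt) rfl tl cA ν hA (G' := (0 : ℝ) • Dat.ha (XX β e τ C H) d i)
      (((ua i).mul tl ((ut_one tl).uc tl)).mul tl (UC.sum tl _ fun j _ => (ua j).smul tl _))
      ((ua i).smul tl _), II_smul tl _ cA, zero_mul]
    filter_upwards [st.inc l] with b hb s x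
    have h1 := fun k => rp_gs (rp_g hβ d A0 hC hH tl hD hX hτ hd hA (some (.inl k)) b) s x
    have h2 := rp_aL hβ d A0 hH l b (C := C) (τ := τ) s x
    rw [hb, gS_sum, sum_ap] at h2
    simp only [gS_smul, smul_ap, Fx] at h1 h2
    simp [Finset.sum_apply, Fintype.sum_sum_type, Fintype.sum_option, nv, Dat.ha, gs, h1, h2]
  have e2 : ∀ p q, II ν (Dat.AA d) none (Dat.he (XX β e τ C H) d i p * ∑ j, nv e' id l j • Dat.he (XX β e τ C H) d j q) (TT e' d A0) =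
      ∑ t, nv e τ t q * II ν (Dat.AA d) none (Dat.he (XX β e τ C H) d i p * Dat.aM (XX β e τ C H) d l t) (TT e' d A0) := fun p q => by
    rw [← II_lin tl _ cA ν _ fun t => (ue i p).mul tl (uM t)]
    refine II_congr hD (c := e.bt) rfl tl cA ν hA
      ((ue i p).mul tl (UC.sum tl _ fun j _ => (ue j q).smul tl _))
      (UC.sum tl _ fun t _ => ((ue i p).mul tl (uM t)).smul tl _) ?_
    filter_upwards [st.inc l] with b hb s x
    simp only [← mul_smul_comm, ← Finset.mul_sum, Pi.mul_apply]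
    congr 1
    rcases q with y | t
    · have h1 : ∀ k, dx y (Dat.g (XX β e τ C H) d (some (.inl k)) (TT e' d A0)) (tanh b) s (Vm β e τ *ᵥ x) =
          ∑ j, Dat.Rm (XX β e τ C H) j y * (Tw.dd j (f k b)).1 s (WithLp.toLp 2 x) := fun k => by
        have h3 : Dat.g (XX β e τ C H) d (some (.inl k)) (TT e' d A0) = pb (Dat.Rm (XX β e τ C H)) (C k 0) := by
          simp only [Dat.g, Pi.add_apply, Pi.mul_apply, qq0, mul_zero, add_zero]
        have h4 := ((tl.dx ℝ _).pb (Dat.Rm (XX β e τ C H)) y (UT.diff tl (hX.C k).1.1 0)).2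
        rw [h3]
        refine (congrFun (congrFun (congrFun h4 b) s) _).trans ?_
        simp only [Finset.sum_apply, Pi.smul_apply, pb, Rm_V hβ, smul_eq_mul,
          dx_rep (G := tb (C k 0)) (hC k b)]
      have h2 : ∀ j, ∑ k, e'.ι k l * (Tw.dd j (f k b)).1 s (WithLp.toLp 2 x) =
          ∑ t, e.ι j (τ t) * (Tw.pull e.ι (Tw.dd (τ t) (f0 l b))).1 s (WithLp.toLp 2 x) := fun j => by
        have := dd_pull hτ (fun i hi => hd i hi l b) j
        rw [hb, map_sum] at this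
        simpa only [sum_ap, map_smul, smul_ap] using
          congrArg (fun F : SV _ => F.1 s (WithLp.toLp 2 x)) this
      simp only [Finset.sum_apply, Fintype.sum_sum_type, Fintype.sum_option, nv, Dat.he, h1,
        Pi.smul_apply, smul_eq_mul, zero_mul, Pi.zero_apply, mul_zero, Finset.sum_const_zero,
        add_zero, zero_add, rp_aM hβ d A0 hH l _ b s x, smul_ap, id, Finset.mul_sum]
      rw [Finset.sum_comm]
      simp only [mul_left_comm (e'.ι _ _), ← Finset.mul_sum, h2]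
      rcases y with _ | j | t <;> simp [Dat.Rm, Finset.mul_sum, mul_left_comm]
    · simp [Finset.sum_apply, Fintype.sum_sum_type, nv, Dat.he, ite_apply]
  unfold PF
  simp only [e1, e2, Finset.sum_mul, zero_add]
  rw [Finset.sum_eq_zero fun p _ => ?_, mul_zero]
  rw [Finset.sum_comm]
  refine Finset.sum_eq_zero fun t _ => ?_
  have := congrFun (hP t) p
  simp only [mulVec, dotProduct, Pi.zero_apply] at this
  simp only [mul_comm (nv e τ t _), mul_assoc, ← Finset.mul_sum, this, mul_zero]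

end lim

end Fam

open Fam in
/-- **one level of an extended tower is simulated** -/
theorem stepGlue : StepGlue := by
  intro tl fa cut hD fc pe ap li β hβ ν _ n N D e e' f0 f T _ _ τ st hτ hd
    ⟨n', ι, M, u, P, Ns, h1, h2, h3, h4, h5⟩
  choose C c1 c2 c3 using fun i => cut e.bt (f i) (st.c1 i).1 (st.c1 i).2.1
  choose H k1 k2 k3 using fun l => cut e.b (f0 l) (fa.le _ (st.c0 l).1) (st.c0 l).2.1
  let X : Dat e.bt.m e.b.m e'.bt.m e'.b.m T := ⟨β, e.ι, τ, C, H⟩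
  have hX : X.Ok := ⟨fun i => ⟨c1 i, c2 i⟩, fun l => ⟨k1 l, k2 l⟩⟩
  let d := n' + 2 + Fintype.card (Fin e'.bt.m ⊕ Fin e'.b.m)
  obtain ⟨A, A0, a1, a2, a3⟩ := (tl.gc ℝ (Rw e.bt.m T) Unit none).2.2.2
    (fun j => Mm M u * (Ns j).S * (Mm M u)ᵀ) _
    (fun j => (h1 j).1.pd.posSemidef.mul_mul_conjTranspose_same (Mm M u)) h2
  obtain ⟨n'', E, hE⟩ := ap.1 n' (Fin e'.bt.m ⊕ Fin e'.b.m)
  have η0 : ∀ j : ℕ, (0 : ℝ) < 1 / (j + 1) := fun j => by positivity
  choose c b1 b2 using fun j : ℕ => pe β ν n' (Ns j) _ (X.G d M u (1 / (j + 1), 0, A j)) (h1 j).1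
    (fun x => (Dat.bsG d tl hX M u (θ := (1 / (j + 1), 0, A j)) (η0 j).ne' fc (h1 j).1 (h1 j).2.2 (a1 j) x).1) _ (η0 j)
  choose N' o1 o2 o3 o4 o5 o6 using fun j : ℕ => Dat.app d tl hX M u
    (θ := (1 / (j + 1), c j, A j)) (η0 j).ne' fc ap (h1 j).1 (h1 j).2.2 (a1 j) hE
    (by rw [Dat.pert d tl]; exact b2 j)
  have hθ : Tendsto (fun j : ℕ => ((1 / (j + 1), c j, A j) : JJ e.bt.m e'.bt.m e'.b.m d T)) atTop
      (𝓝 (0, 0, A0)) := tendsto_one_div_add_atTop_nhds_zero_nat.prodMk_nhds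
    ((squeeze_zero_norm b1 tendsto_one_div_add_atTop_nhds_zero_nat).prodMk_nhds a3)
  have cA := Dat.cont_AA (m := e.bt.m) (k := e'.bt.m) (k0 := e'.b.m) (T := T) d
  have ug := Dat.ut_g d tl hX
  have rg := rp_g hβ.ne' d A0 c3 k3 tl hD hX hτ hd a2
  refine ⟨n'', (fun v => E (.inl v)) ∘ ι, Dat.M' E, Dat.u' E, of fun i j =>
    PF β ν (Dat.AA d) none 1 (X.ha d i) (X.he d i) (X.ha d j) (X.he d j) P (0, 0, A0), N',
    fun j => ⟨o1 j, (li β ν _ _ N (Ns j) ι (h1 j).2.1).2.2.2.2.2 _ _ _ (o2 j), o3 j⟩,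
    tendsto_pi_nhds.2 fun x => tendsto_pi_nhds.2 fun y => ?_,
    tendsto_pi_nhds.2 fun x => tendsto_pi_nhds.2 fun y => ?_,
    tendsto_pi_nhds.2 fun x => tendsto_pi_nhds.2 fun y => ?_, fun l => funext fun i =>
      null hβ.ne' d A0 c3 k3 tl hD hX hτ hd a2 st h5 i l⟩
  · simp_rw [o4]
    rw [← Nb_Fx fa st, ← CI_rp hD (c := e.bt) (o := none) rfl tl ν (A := Dat.AA d) (θ := (0, 0, A0)) a2
      ((ug x).uc tl) ((ug y).uc tl) (rg x) (rg y)]
    exact (((CI_cont tl none cA ν ((ug x).uc tl) ((ug y).uc tl)).tendsto _).comp hθ).const_mul _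
  · simp_rw [o5]
    rw [← Eb_Fx fa st, ← PF_rp hD (c := e.bt) (o := none) rfl tl cA ν (θ := (0, 0, A0)) a2 β (ug x) (ug y)
      (rg x) (rg y)]
    exact PF_lim tl none cA ν β (((ut_one tl).sub tl ((ut_tF tl none).pow tl 2)).uc tl)
      (((ug x).gs tl).uc tl) (((ug y).gs tl).uc tl) (fun p => ((ug x).dx tl p).uc tl)
      (fun p => ((ug y).dx tl p).uc tl) hθ h3
  · simp_rw [o6]
    exact PF_lim tl none cA ν β ((ut_one tl).uc tl) ((Dat.ut_ha d tl hX x).uc tl)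
      ((Dat.ut_ha d tl hX y).uc tl) (fun p => (Dat.ut_he d tl hX x p).uc tl)
      (fun p => (Dat.ut_he d tl hX y p).uc tl) hθ h4

end Crest.Agent.T157.Nt

end
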