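import Crest.Agent.T157.NetDef_32
import Crest.Agent.T157.LcCal_52

/-!
# Row 157, block B/S3, section 7 (helper91): the top family, I. Families with a parameter
-/

set_option autoImplicit false
set_option linter.unusedSectionVars false

noncomputable section

namespace Crest.Agent.T157.Nt.Top91

open MeasureTheory Matrix Real Set Filter Topology
open Crest.ProbabilityR.SpinGlassDynamics (spin)
open Crest.Agent.T157.Tw (sech2)

variable {J J' K T : Type} [Fintype K] [DecidableEq K] [Fintype T] [DecidableEq T]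

/-- the data of the family -/
structure Dt (J K T : Type) where
  o : K
  τ : T → K
  Rm : Matrix T K ℝ
  c : ℝ
  a : ℝ
  η : J → ℝ
  A : J → Matrix K K ℝ
  m : J → ℝ
  H : Fj J T

namespace Dt

variable (d : Dt J K T)

def em (F : Fj J K) : J → ℝ := fun θ => mE (d.A θ) d.o (d.m θ) (F θ)
def S (x y : K) : J → ℝ := fun θ => (d.A θ * (d.A θ)ᵀ) x y
def tf : Fj J K := fun θ _ x => tm (d.m θ) (x d.o)
def wf : Fj J K := fun θ _ x => wm (d.m θ) (x d.o)
def p0 : Fj J K := sp + pb d.Rm d.H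
def ps : Fj J K := d.p0 - ∑ x, cb (d.em (dx x d.p0)) * co x
def r (t : T) : Fj J K := fun θ _ x => rr (d.η θ) (x (d.τ t))
def h (t : T) : Fj J K := d.c • pb d.Rm (dx t d.H)
def mt (t : T) : Fj J K :=
  cb (d.em (d.r t)) * (d.h t * d.r t) - cb (d.em (d.h t * d.r t)) * d.r t
def ρ : J → ℝ := d.em (d.wf * gs d.p0)
def q : J → ℝ := fun θ => d.ρ θ * (1 - d.m θ ^ 2)
def dv (u : K) (a : Fj J K) : Fj J K :=
  a * (co u - cb (d.S d.o u) * sp) - ∑ p, cb (d.S u p) * dx p a
def R : Fj J K := (sp - d.tf) * gs d.ps + ∑ t, d.dv (d.τ t) (d.mt t) - d.a • d.ps -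
  cb (fun θ => d.ρ θ + d.q θ * d.S d.o d.o θ - d.a) * sp + cb d.q * co d.o
def φ : K ⊕ T → Fj J K := Sum.elim (fun x => dx x d.ps) fun t => -d.mt t
def Q (PD : J → Matrix K K ℝ) (F : Fj J K) : J → ℝ := fun θ =>
  d.em ((1 - d.tf ^ 2) * gs F ^ 2) θ + ∑ x, ∑ y, d.em (dx x F * dx y F) θ * PD θ x y
def Vr (F : Fj J K) : J → ℝ := fun θ => d.em (F * F) θ - d.em F θ * d.em F θ
def En (P : J → Matrix (K ⊕ T) (K ⊕ T) ℝ) : J → ℝ := fun θ =>
  ∑ i, ∑ j, d.em (d.φ i * d.φ j) θ * P θ i j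

/-- continuity of the data -/
structure Ct [TopologicalSpace J] : Prop where
  η : Continuous d.η
  A : Continuous d.A
  m : Continuous d.m
  m1 : ∀ θ, |d.m θ| ≤ 1
  H : TS d.H

end Dt

lemma gs_ps (d : Dt J K T) : gs d.ps = gs d.p0 := by
  funext θ s x
  simp only [gs, Dt.ps, Pi.sub_apply, Finset.sum_apply, Pi.mul_apply, cb, co]
  ring

section ts
variable [TopologicalSpace J] [FirstCountableTopology J] (t : Tl) {d : Dt J K T} (hd : d.Ct)
include t

omit [FirstCountableTopology J] in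
lemma ts_one : TS (1 : Fj J K) := (t.ts J K).cb (c := fun _ => 1) continuous_const

omit [FirstCountableTopology J] in
lemma ts_neg {F : Fj J K} (hF : TS F) : TS (-F) := by
  rw [← neg_one_smul ℝ F]; exact (t.ts J K).smul _ hF

include hd

lemma c_em {F : Fj J K} (hF : C0 F) : Continuous (d.em F) :=
  (t.gc J K K d.o).1 d.A d.m F hd.A hd.m hF

lemma ts_em {F : Fj J K} (hF : TS F) : TS (cb (d.em F) : Fj J K) :=
  (t.ts J K).cb (c_em t hd ((t.ts J K).c0 hF))

omit t [FirstCountableTopology J] [DecidableEq K] in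
lemma c_S (x y : K) : Continuous (d.S x y) :=
  (hd.A.matrix_mul hd.A.matrix_transpose).matrix_elem x y

omit [FirstCountableTopology J] in
lemma ts_tf : TS d.tf := by
  have := (t.ts J K).tm hd.m hd.m1 (Pi.single d.o 1)
  simp only [single_dotProduct, one_mul] at this
  exact this

omit [FirstCountableTopology J] in
lemma ts_p0 : TS d.p0 := (t.ts J K).add (t.ts J K).sp ((t.ts J K).pb _ hd.H)

lemma ts_ps : TS d.ps := (t.ts J K).sub (ts_p0 t hd) ((t.ts J K).sum _ fun x _ =>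
  (t.ts J K).mul (ts_em t hd ((t.ts J K).dx x (ts_p0 t hd))) ((t.ts J K).co x))

omit [FirstCountableTopology J] in
lemma ts_r (u : T) : TS (d.r u) := (t.ts J K).rr hd.η _

omit [FirstCountableTopology J] in
lemma ts_h (u : T) : TS (d.h u) := (t.ts J K).smul _ ((t.ts J K).pb _ ((t.ts J T).dx u hd.H))

lemma ts_mt (u : T) : TS (d.mt u) :=
  have a := t.ts J K
  a.sub (a.mul (ts_em t hd (ts_r t hd u)) (a.mul (ts_h t hd u) (ts_r t hd u)))
    (a.mul (ts_em t hd (a.mul (ts_h t hd u) (ts_r t hd u))) (ts_r t hd u))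

lemma c_ρ : Continuous d.ρ :=
  have a := t.ts J K
  c_em t hd (a.c0mul (a.wm hd.m hd.m1 d.o) (a.c0 (a.gs (ts_p0 t hd))))

lemma c_q : Continuous d.q := (c_ρ t hd).mul (continuous_const.sub (hd.m.pow 2))

omit [FirstCountableTopology J] in
lemma ts_dv (u : K) {F : Fj J K} (hF : TS F) : TS (d.dv u F) :=
  have a := t.ts J K
  a.sub (a.mul hF (a.sub (a.co u) (a.mul (a.cb (c_S hd _ _)) a.sp)))
    (a.sum _ fun p _ => a.mul (a.cb (c_S hd _ _)) (a.dx p hF))

lemma ts_R : TS d.R :=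
  have a := t.ts J K
  a.add (a.sub (a.sub (a.add (a.mul (a.sub a.sp (ts_tf t hd)) (a.gs (ts_ps t hd)))
    (a.sum _ fun u _ => ts_dv t hd _ (ts_mt t hd u))) (a.smul _ (ts_ps t hd)))
    (a.mul (a.cb (((c_ρ t hd).add ((c_q t hd).mul (c_S hd _ _))).sub continuous_const)) a.sp))
    (a.mul (a.cb (c_q t hd)) (a.co _))

lemma ts_φ (i : K ⊕ T) : TS (d.φ i) := by
  cases i with
  | inl x => exact (t.ts J K).dx x (ts_ps t hd)
  | inr u => exact ts_neg t (ts_mt t hd u)

lemma c_Q {PD : J → Matrix K K ℝ} (hP : Continuous PD) {F : Fj J K} (hF : TS F) :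
    Continuous (d.Q PD F) :=
  have a := t.ts J K
  (c_em t hd (a.c0 (a.mul (a.sub (ts_one t) (a.pow 2 (ts_tf t hd))) (a.pow 2 (a.gs hF))))).add
    (continuous_finsetSum _ fun x _ => continuous_finsetSum _ fun y _ =>
      (c_em t hd (a.c0 (a.mul (a.dx x hF) (a.dx y hF)))).mul (hP.matrix_elem x y))

lemma c_Vr {F : Fj J K} (hF : TS F) : Continuous (d.Vr F) :=
  have a := t.ts J K
  (c_em t hd (a.c0 (a.mul hF hF))).sub ((c_em t hd (a.c0 hF)).mul (c_em t hd (a.c0 hF)))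

lemma c_En {P : J → Matrix (K ⊕ T) (K ⊕ T) ℝ} (hP : Continuous P) : Continuous (d.En P) :=
  have a := t.ts J K
  continuous_finsetSum _ fun i _ => continuous_finsetSum _ fun j _ =>
    (c_em t hd (a.c0 (a.mul (ts_φ t hd i) (ts_φ t hd j)))).mul (hP.matrix_elem i j)

/-! ### exact identities -/

omit [FirstCountableTopology J] in
lemma dx_p0 (x : K) : dx x d.p0 = ∑ u, d.Rm u x • pb d.Rm (dx u d.H) := by
  have a := t.dx J K
  have b := a.pb d.Rm x ((t.ts J T).df hd.H)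
  rw [Dt.p0, a.add x ((t.ts J K).df (t.ts J K).sp) b.1, a.sp, zero_add, b.2]

lemma dx_ps (x : K) : dx x d.ps = dx x d.p0 - cb (d.em (dx x d.p0)) := by
  have a := t.dx J K
  have b := t.ts J K
  have h : ∀ y, TS (cb (d.em (dx y d.p0)) * co y : Fj J K) := fun y =>
    b.mul (ts_em t hd (b.dx y (ts_p0 t hd))) (b.co y)
  rw [Dt.ps, a.sub x (b.df (ts_p0 t hd)) (b.df (b.sum _ fun y _ => h y)),
    a.sum x _ fun y _ => b.df (h y)]
  simp only [a.cbm, a.co, mul_ite, mul_one, mul_zero, Finset.sum_ite_eq, Finset.mem_univ, if_true]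

omit [FirstCountableTopology J] hd in
lemma em_cb (c : J → ℝ) (θ : J) : d.em (cb c) θ = c θ := (t.ex J K K).const _ _ _ _

lemma em_dx_ps (x : K) (θ : J) : d.em (dx x d.ps) θ = 0 := by
  have b := t.ts J K
  have h := b.dx x (ts_p0 t hd)
  rw [dx_ps t hd]
  refine ((t.ex J K K).sub _ _ _ θ (b.c0 h) (b.c0 (ts_em t hd h))).trans ?_
  exact sub_eq_zero.2 (em_cb t (d := d) (d.em (dx x d.p0)) θ).symm

lemma em_mt (u : T) (θ : J) : d.em (d.mt u) θ = 0 := by
  have a := t.ts J K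
  have e := t.ex J K K
  refine (e.sub _ _ _ θ (a.c0 (a.mul (ts_em t hd (ts_r t hd u)) (a.mul (ts_h t hd u) (ts_r t hd u))))
    (a.c0 (a.mul (ts_em t hd (a.mul (ts_h t hd u) (ts_r t hd u))) (ts_r t hd u)))).trans ?_
  rw [e.cbm, e.cbm]
  exact sub_eq_zero.2 (mul_comm _ _)

omit [FirstCountableTopology J] hd in
/-- linearity in the second factor -/
lemma em_lin {I : Type} [Fintype I] {F : Fj J K} {G : I → Fj J K} (hF : TS F) (hG : ∀ i, TS (G i))
    (w : I → ℝ) (θ : J) : d.em (F * ∑ i, w i • G i) θ = ∑ i, w i * d.em (F * G i) θ := by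
  have a := t.ts J K
  have e := t.ex J K K
  rw [Finset.mul_sum]
  refine (e.sum _ _ _ _ θ fun i _ => a.c0 (a.mul hF (a.smul _ (hG i)))).trans ?_
  refine Finset.sum_congr rfl fun i _ => ?_
  rw [mul_smul_comm]
  exact e.smul _ _ _ _ _ θ

end ts

/-! ### uniform closeness -/

/-- the point of `Im` attached to the static field -/
def ti (b : ℝ) : Im := ⟨tanh b, (neg_one_lt_tanh b).le, (tanh_lt_one b).le⟩

lemma unif (t : Tl) {Θ : Type} [TopologicalSpace Θ] [FirstCountableTopology Θ] {Φ : Θ × Im → ℝ}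
    (hΦ : Continuous Φ) (θ0 : Θ) {δ : ℝ} (hδ : 0 < δ) :
    ∀ᶠ θ in 𝓝 θ0, ∀ b, |Φ (θ, ti b) - Φ (θ0, ti b)| ≤ δ := by
  have e : ∀ b, projIcc (-1 : ℝ) 1 (by norm_num) (tanh b) = ti b := fun b => projIcc_of_mem _ _
  have h := ((t.gc Θ Unit Unit ()).2.1 (Measure.dirac 0) (fun θ m =>
    |Φ (θ, projIcc (-1) 1 (by norm_num) m) - Φ (θ0, projIcc (-1) 1 (by norm_num) m)|) (by
      simp only [projIcc_val]
      exact (hΦ.sub (hΦ.comp (continuous_const.prodMk continuous_snd))).abs)).2.2 θ0 0 δ hδ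
    fun b => by simp
  simpa only [e] using h

end Crest.Agent.T157.Nt.Top91

end
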