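import Crest.Agent.T157.NetTopA_91

/-!
# Row 157, block B/S3, section 7 (helper91): the top family, II. The value at the limit point
-/

set_option autoImplicit false
set_option linter.unusedSectionVars false

noncomputable section

namespace Crest.Agent.T157.Nt.Top91

open MeasureTheory Matrix Real Set Filter Topology
open Crest.ProbabilityR.SpinGlassDynamics (spin)
open Crest.Agent.T157.Tw (sech2 SV sS fl pull exS imS zS tS Irr cal)
open Crest.Agent.T157.Tw.Cal52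

variable {J K : Type} [Fintype K] [DecidableEq K]

/-- discrete derivative in the smooth algebra -/
def gS {m : ℕ} (G : SV m) : SV m := (1 / 2 : ℝ) • (sS m * (G - fl m G))

lemma rp_gs {m : ℕ} {V : Matrix K (Fin m) ℝ} {F : Fj J K} {θ : J} {G : SV m} (h : Rp V (F θ) G) :
    Rp V (gs F θ) (gS G) := fun s X => by
  simp only [gs, gS, h _ X, smul_ap, mul_ap, sub_ap, fl_ap, s_ap]
  cases s <;> simp only [sg_t, sg_f, Bool.not_true, Bool.not_false] <;> ring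

lemma ou_pull (e : Tw.Ext) (Ξ : SV e.b.m) : Tw.ouS e.bt (pull e.ι (sS _ + Ξ)) =
    ∑ u, ∑ k, (e.bt.A * e.ι) k u •
      (zS e.bt k * pull e.ι (Tw.dd u Ξ) - Tw.dd k (pull e.ι (Tw.dd u Ξ))) := by
  have h : ∀ j, Tw.dd j (pull e.ι (sS _ + Ξ)) = ∑ u, e.ι j u • pull e.ι (Tw.dd u Ξ) := fun j => by
    rw [cal.p_d]; simp only [map_add, ds, zero_add]
  rw [ou_eq, Finset.sum_comm (s := Finset.univ (α := Fin e.b.m))]
  refine Finset.sum_congr rfl fun k _ => ?_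
  simp only [h, mul_apply, Finset.sum_smul]
  rw [Finset.sum_comm]
  refine Finset.sum_congr rfl fun j _ => ?_
  rw [Finset.mul_sum, map_sum, ← Finset.sum_sub_distrib, Finset.smul_sum]
  refine Finset.sum_congr rfl fun u _ => ?_
  rw [map_smul, mul_smul_comm, ← smul_sub, smul_smul]

/-- the limit point -/
structure At (e : Tw.Ext) (d : Dt J K (Fin e.b.m)) (V : Matrix K (Fin e.bt.m) ℝ) (θ : J) (b : ℝ)
    (Ξ : SV e.b.m) : Prop where
  o : V d.o = e.bt.g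
  τ : ∀ u k, d.c * V (d.τ u) k = (e.bt.A * e.ι) k u
  Rm : d.Rm * V = e.ιᵀ
  η : d.η θ = 0
  A : d.A θ * (d.A θ)ᵀ = V * Vᵀ
  m : d.m θ = tanh b
  H : ∀ s x, d.H θ s x = Ξ.1 s (WithLp.toLp 2 x)
  irr : Irr e.b b Ξ

/-- `q = E[(1 - t²) ∇ψ]` -/
lemma q_eq [TopologicalSpace J] {T : Type} [Fintype T] [DecidableEq T] (t : Tl) (d : Dt J K T)
    {θ : J} {b : ℝ} (hm : d.m θ = tanh b) :
    d.q θ = d.em ((1 - d.tf ^ 2) * gs d.ps) θ ∧ d.q θ = d.ρ θ * sech2 b := by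
  have e : d.q θ = d.ρ θ * sech2 b := by rw [Dt.q, hm, sech2_eq]
  refine ⟨?_, e⟩
  rw [e, mul_comm, gs_ps, Dt.ρ, Dt.em, ← (t.ex J K K).smul, Dt.em]
  congr 1
  funext s x
  simp only [Pi.smul_apply, Pi.mul_apply, Pi.sub_apply, Pi.pow_apply, Pi.one_apply, smul_eq_mul,
    Dt.wf, Dt.tf, hm, (t.ts J K).tm_eq, ← (t.ts J K).wm_eq]
  ring

section lim
variable [TopologicalSpace J] [FirstCountableTopology J] (t : Tl) (hD : DictStmt) {e : Tw.Ext}
  {d : Dt J K (Fin e.b.m)} (hd : d.Ct) {V : Matrix K (Fin e.bt.m) ℝ} {θ : J} {b : ℝ}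
  {Ξ : SV e.b.m} (h : At e d V θ b Ξ)
include h

lemma rp_pb {F : Fj J (Fin e.b.m)} {G : SV e.b.m}
    (hF : ∀ s x, F θ s x = G.1 s (WithLp.toLp 2 x)) : Rp V (pb d.Rm F θ) (pull e.ι G) :=
  fun s X => by
    simp only [pb, mulVec_mulVec, h.Rm, hF, pull_ap]
    rfl

lemma dx_H (u : Fin e.b.m) (s : Bool) (x : Fin e.b.m → ℝ) :
    dx u d.H θ s x = (Tw.dd u Ξ).1 s (WithLp.toLp 2 x) := by
  have e1 : d.H θ s = Ξ.1 s ∘ (EuclideanSpace.equiv (Fin e.b.m) ℝ).symm := funext (h.H s)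
  rw [dx, e1, ContinuousLinearEquiv.comp_right_fderiv]
  rfl

lemma S_at (x y : K) : d.S x y θ = ∑ k, V x k * V y k := by
  rw [Dt.S, h.A]; rfl

lemma rp_p0 : Rp V (d.p0 θ) (pull e.ι (sS _ + Ξ)) := fun s X => by
  rw [map_add, add_ap, ← rp_pb h h.H s X]
  rfl

lemma rp_h (u : Fin e.b.m) : Rp V (d.h u θ) (d.c • pull e.ι (Tw.dd u Ξ)) := fun s X => by
  rw [smul_ap, ← rp_pb h (dx_H h u) s X]
  rfl

lemma r_one (u : Fin e.b.m) : d.r u θ = fun _ _ => 1 := by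
  funext s x; simp [Dt.r, rr, h.η]

include t hD

lemma em_rp {F : Fj J K} {G : SV e.bt.m} (hF : TS F) (hG : Rp V (F θ) G) :
    d.em F θ = exS e.bt b G := by
  rw [Dt.em, h.m]
  exact (hD K e.bt V d.o h.o).1 K _ b _ G h.A (fun s => ((t.ts J K).df hF θ s).continuous) hG

omit t in
lemma rp_tf : Rp V (d.tf θ) (tS e.bt b) := by
  have := (hD K e.bt V d.o h.o).2.2 b
  rw [← h.m] at this
  exact this

lemma rp_dx {F : Fj J K} {G : SV e.bt.m} (hF : TS F) (hG : Rp V (F θ) G) (k : Fin e.bt.m) :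
    Rp V ((∑ y, V y k • dx y F) θ) (Tw.dd k G) := fun s X => by
  rw [← (hD K e.bt V d.o h.o).2.1 _ G k ((t.ts J K).df hF θ) hG s X]
  simp only [Finset.sum_apply, Pi.smul_apply, smul_eq_mul, dx]

lemma rp_dv (u : K) {F : Fj J K} {G : SV e.bt.m} (hF : TS F) (hG : Rp V (F θ) G) :
    Rp V (d.dv u F θ) (∑ k, V u k • (zS e.bt k * G - Tw.dd k G)) := fun s X => by
  have h1 := fun k => rp_dx t hD h hF hG k s X
  simp only [Finset.sum_apply, Pi.smul_apply, smul_eq_mul] at h1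
  simp only [sum_ap, smul_ap, sub_ap, mul_ap, z_ap, ← h1, ← hG s X, Dt.dv, Pi.sub_apply,
    Pi.mul_apply, Finset.sum_apply, cb, co, sp, S_at h, h.o]
  rw [show (V *ᵥ X) u = ∑ k, V u k * X k from rfl, show spin s = Tw.sg s from rfl]
  simp only [mul_sub, Finset.sum_sub_distrib, Finset.mul_sum, Finset.sum_mul]
  rw [Finset.sum_comm, ← Finset.sum_sub_distrib]
  congr 1
  · exact Finset.sum_congr rfl fun k _ => by ring
  · exact Finset.sum_congr rfl fun k _ => Finset.sum_congr rfl fun y _ => by ring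

lemma Q_rp {PD : J → Matrix K K ℝ} (hP : PD θ = V * e.bt.A * Vᵀ) (hd : d.Ct) {F : Fj J K}
    {G : SV e.bt.m} (hF : TS F) (hG : Rp V (F θ) G) : d.Q PD F θ = (imS e.bt b).En G G := by
  have a := t.ts J K
  rw [Dt.Q, En_eq]
  congr 1
  · rw [em_rp t hD h (G := (1 - tS e.bt b ^ 2) * gS G ^ 2)
      (a.mul (a.sub (ts_one t) (a.pow 2 (ts_tf t hd))) (a.pow 2 (a.gs hF))) fun s X => by
        simp only [Pi.mul_apply, Pi.sub_apply, Pi.pow_apply, Pi.one_apply, mul_ap, sub_ap, sq_ap,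
          one_ap, rp_gs hG s X, rp_tf hD h s X]]
    refine eq_cond _ _ fun X => ?_
    simp only [mul_ap, sub_ap, sq_ap, one_ap, gS, smul_ap, fl_ap, s_ap, t_ap, rs_ap, sg_t, sg_f,
      Bool.not_true, Bool.not_false]
    ring
  · have k1 : ∀ k, TS (∑ y, V y k • dx y F) := fun k => a.sum _ fun y _ => a.smul _ (a.dx y hF)
    have k2 : ∀ k l, exS e.bt b (Tw.dd k G * Tw.dd l G) =
        ∑ y, V y l * ∑ x, V x k * d.em (dx y F * dx x F) θ := fun k l => by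
      rw [← em_rp t hD h (a.mul (k1 k) (k1 l)) fun s X => by
        rw [mul_ap, ← rp_dx t hD h hF hG k s X, ← rp_dx t hD h hF hG l s X]; rfl,
        em_lin t (k1 k) fun y => a.dx y hF]
      refine Finset.sum_congr rfl fun y _ => ?_
      rw [mul_comm _ (dx y F), em_lin t (a.dx y hF) fun y => a.dx y hF]
    simp only [k2, hP, mul_apply, transpose_apply, Finset.mul_sum, Finset.sum_mul]
    rw [Finset.sum_comm]
    conv_rhs => rw [Finset.sum_comm]; enter [2, l]; rw [Finset.sum_comm]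
    conv_rhs => rw [Finset.sum_comm]; enter [2, y]; enter [2, l]; rw [Finset.sum_comm]
    conv_rhs => enter [2, y]; rw [Finset.sum_comm]
    refine Finset.sum_congr rfl fun y _ => Finset.sum_congr rfl fun x _ =>
      Finset.sum_congr rfl fun l _ => Finset.sum_congr rfl fun k _ => ?_
    rw [mul_comm (dx x F)]
    ring

lemma Vr_rp {F : Fj J K} {G : SV e.bt.m} (hF : TS F) (hG : Rp V (F θ) G) :
    d.Vr F θ = (imS e.bt b).N G G := by
  rw [Dt.Vr, N_eq, em_rp t hD h hF hG, em_rp t hD h (G := G * G) ((t.ts J K).mul hF hF)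
    fun s X => by rw [mul_ap, ← hG s X]; rfl]

include hd

lemma em_pb (u : Fin e.b.m) : d.em (pb d.Rm (dx u d.H)) θ = 0 := by
  rw [em_rp t hD h ((t.ts J K).pb _ ((t.ts J _).dx u hd.H)) (rp_pb h (dx_H h u)), cal.p_ex,
    h.irr.2.1]

lemma em_dx_p0 (x : K) : d.em (dx x d.p0) θ = 0 := by
  have := em_lin t (d := d) (ts_one t) (fun u => (t.ts J K).pb d.Rm ((t.ts J _).dx u hd.H))
    (fun u => d.Rm u x) θ
  simp only [one_mul, em_pb t hD hd h, mul_zero, Finset.sum_const_zero] at this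
  rw [dx_p0 t hd, this]

lemma ps_eq : d.ps θ = d.p0 θ := by
  funext s x
  simp [Dt.ps, Finset.sum_apply, cb, em_dx_p0 t hD hd h]

lemma mt_eq (u : Fin e.b.m) : d.mt u θ = d.h u θ := by
  have e1 : d.em (d.r u) θ = 1 := by rw [Dt.em, r_one h, (t.ex J K K).const]
  have e2 : d.em (d.h u * d.r u) θ = 0 := by
    have : (d.h u * d.r u) θ = d.h u θ := by funext s x; simp [r_one h]
    rw [Dt.em, this, Dt.h, (t.ex J K K).smul]
    exact mul_eq_zero_of_right _ (em_pb t hD hd h u)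
  funext s x
  simp [Dt.mt, cb, e1, e2, r_one h]

lemma rp_ps : Rp V (d.ps θ) (pull e.ι (sS _ + Ξ)) := ps_eq t hD hd h ▸ rp_p0 h

lemma q_at : d.q θ = (imS e.b b).En (sS _) (sS _ + Ξ) := by
  have a := t.ts J K
  rw [(q_eq t d h.m).1, em_rp t hD h (G := Tw.psi e.bt b (pull e.ι (sS _ + Ξ)))
    (a.mul (a.sub (ts_one t) (a.pow 2 (ts_tf t hd))) (a.gs (ts_ps t hd))) fun s X => by
      simp only [Pi.mul_apply, Pi.sub_apply, Pi.pow_apply, Pi.one_apply,
        rp_gs (rp_ps t hD hd h) s X, rp_tf hD h s X, psi_ap, gS, smul_ap, mul_ap, sub_ap, fl_ap,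
        s_ap, t_ap]
      ring, cal.psi_ex, ← cal.p_En]
  rfl

lemma rp_R : Rp V (d.R θ) (e.R d.a b Ξ - algebraMap ℝ _ (d.ρ θ * tanh b)) := fun s X => by
  have h1 : ∀ u, d.dv (d.τ u) (d.mt u) θ s (V *ᵥ X) = (∑ k, (e.bt.A * e.ι) k u •
      (zS e.bt k * pull e.ι (Tw.dd u Ξ) - Tw.dd k (pull e.ι (Tw.dd u Ξ)))).1 s
        (WithLp.toLp 2 X) := fun u => by
    rw [rp_dv t hD h _ (ts_mt t hd u) (mt_eq t hD hd h u ▸ rp_h h u) s X]
    simp only [map_smul, mul_smul_comm, ← smul_sub, smul_smul, mul_comm _ d.c, h.τ]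
  have h2 := rp_gs (rp_ps t hD hd h) s X
  have h3 := rp_ps t hD hd h s X
  have h4 := rp_tf hD h s X
  have h5 := q_at t hD hd h
  have h6 := (q_eq t d h.m).2
  have h7 : sech2 b ≠ 0 := by unfold sech2; have := cosh_pos b; positivity
  have h8 : (∑ j, e.bt.g j • zS e.bt j).1 s (WithLp.toLp 2 X) =
      (V *ᵥ X) d.o - d.S d.o d.o θ * spin s := by
    simp only [sum_ap, smul_ap, z_ap, S_at h, h.o, mul_sub,
      Finset.sum_sub_distrib, Finset.sum_mul, mulVec, dotProduct, mul_assoc]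
    rfl
  have h9 : (pull e.ι Ξ).1 s (WithLp.toLp 2 X) =
      (pull e.ι (sS _ + Ξ)).1 s (WithLp.toLp 2 X) - spin s := by
    rw [map_add, add_ap]; exact (add_sub_cancel_left _ _).symm
  simp only [Dt.R, Pi.add_apply, Pi.sub_apply, Pi.mul_apply, Pi.smul_apply, Finset.sum_apply,
    h1, h2, h3, h4, ← sum_ap, ← ou_pull, Tw.Ext.R, gen_eq, sub_ap, add_ap, smul_ap, alg_ap, h8, h9,
    ← h5, rs_ap, gS, mul_ap, fl_ap, s_ap, t_ap, Tw.stS, cb, co, sp, smul_eq_mul, h6]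
  rw [show spin s = Tw.sg s from rfl]
  field_simp
  cases s <;> simp only [sg_t, sg_f] <;> ring

lemma QR_at {PD : J → Matrix K K ℝ} (hP : PD θ = V * e.bt.A * Vᵀ) :
    d.Q PD d.R θ + d.Vr d.R θ = Tw.Mf e.bt b 1 (e.R d.a b Ξ) ∧ 0 ≤ d.Q PD d.R θ ∧
      0 ≤ d.Vr d.R θ := by
  rw [Q_rp t hD h hP hd (ts_R t hd) (rp_R t hD hd h), Vr_rp t hD h (ts_R t hd) (rp_R t hD hd h)]
  refine ⟨?_, (ok _ _).pE _, (ok _ _).pN _⟩
  generalize e.R d.a b Ξ = G
  generalize d.ρ θ * tanh b = c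
  have e1 : Tw.rsS e.bt b (G - algebraMap ℝ _ c) = Tw.rsS e.bt b G := ext' fun s X => by
    simp only [rs_ap, sub_ap, alg_ap]; ring
  have e2 : ∀ k, Tw.dd k (G - algebraMap ℝ _ c) = Tw.dd k G := fun k => by
    rw [map_sub, Algebra.algebraMap_eq_smul_one, map_smul, done, smul_zero, sub_zero]
  rw [Tw.Mf, En_eq, En_eq, N_eq, N_eq, e1]
  simp only [e2]
  simp only [Algebra.algebraMap_eq_smul_one, mul_sub, sub_mul, mul_smul_comm, smul_mul_assoc,
    mul_one, one_mul, map_sub, map_smul, ex1, smul_eq_mul]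
  ring

lemma Qψ_at {PD : J → Matrix K K ℝ} (hP : PD θ = V * e.bt.A * Vᵀ) :
    d.Q PD d.ps θ ≤ 2 * sech2 b + 2 * Tw.Mf e.b b 1 Ξ := by
  rw [Q_rp t hD h hP hd (ts_ps t hd) (rp_ps t hD hd h), cal.p_En, Tw.Mf]
  have a1 := (ok e.b b).pE (sS _ - Ξ)
  have a2 := (ok e.b b).pN Ξ
  have a3 := Es e.b b
  simp only [map_add, map_sub, LinearMap.add_apply, LinearMap.sub_apply] at a1 ⊢
  linarith

lemma En_at {P : J → Matrix (K ⊕ Fin e.b.m) (K ⊕ Fin e.b.m) ℝ}
    (w : Fin e.b.m → K ⊕ Fin e.b.m → ℝ) (hw : ∀ u, P θ *ᵥ w u = 0)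
    (h1 : ∀ u x, d.c * w u (.inl x) = d.Rm u x)
    (h2 : ∀ u u', w u (.inr u') = if u' = u then -1 else 0) : d.En P θ = 0 := by
  have k : ∀ j, d.φ j θ = (∑ u, w u j • d.h u) θ := fun j => by
    cases j with
    | inl x =>
      funext s y
      simp only [Dt.φ, Sum.elim_inl, dx_ps t hd, Pi.sub_apply, cb, em_dx_p0 t hD hd h, sub_zero]
      simp only [dx_p0 t hd, Finset.sum_apply, Dt.h, smul_smul, mul_comm _ d.c, h1]
    | inr u =>
      simp only [h2, ite_smul, zero_smul, Finset.sum_ite_eq, Finset.mem_univ, if_true,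
        neg_one_smul, Dt.φ, Sum.elim_inr, Pi.neg_apply, mt_eq t hD hd h]
  have k2 : ∀ i j, d.em (d.φ i * d.φ j) θ = ∑ u, w u j * d.em (d.φ i * d.h u) θ := fun i j => by
    rw [← em_lin t (ts_φ t hd i) (ts_h t hd), Dt.em, Dt.em, Pi.mul_apply, Pi.mul_apply, k j]
  simp only [Dt.En, k2, Finset.sum_mul]
  refine Finset.sum_eq_zero fun i _ => ?_
  rw [Finset.sum_comm]
  refine Finset.sum_eq_zero fun u _ => ?_
  have := congrFun (hw u) i
  simp only [mulVec, dotProduct, Pi.zero_apply] at this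
  calc _ = d.em (d.φ i * d.h u) θ * ∑ j, P θ i j * w u j := by
        rw [Finset.mul_sum]; exact Finset.sum_congr rfl fun j _ => by ring
    _ = 0 := by rw [this, mul_zero]

end lim

end Crest.Agent.T157.Nt.Top91

end
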