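import Crest.Agent.T157.NetTopB_91

/-!
# Row 157, block B/S3, section 7 (helper91): the top family, III. Reading it back in a network
-/

set_option autoImplicit false
set_option linter.unusedSectionVars false

noncomputable section

namespace Crest.Agent.T157.Nt.Top91

open MeasureTheory Matrix Real Set Filter Topology
open Crest.ProbabilityR.SpinGlassDynamics (spin)
open Crest.Agent.T157.Tw (sech2)

variable {J K L T : Type} [Fintype K] [DecidableEq K] [Fintype L] [DecidableEq L] [Fintype T]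
  [DecidableEq T]

/-! ### reflection and read-out are ring maps -/

lemma rf_add (F G : Fn K) : rf (F + G) = rf F + rf G := rfl
lemma rf_sub (F G : Fn K) : rf (F - G) = rf F - rf G := rfl
lemma rf_mul (F G : Fn K) : rf (F * G) = rf F * rf G := rfl
lemma rf_smul (c : ℝ) (F : Fn K) : rf (c • F) = c • rf F := rfl
lemma rf_sum {I : Type} (s : Finset I) (F : I → Fn K) : rf (∑ i ∈ s, F i) = ∑ i ∈ s, rf (F i) := by
  funext b σ x; simp only [rf, Finset.sum_apply]
lemma rf_pb (M : Matrix K L ℝ) (F : Fn K) : rf (pb M F) = pb M (rf F) := by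
  funext b σ x; simp only [rf, pb, mulVec_neg]
lemma rf_sp : rf (sp : Fn K) = -sp := by
  funext b σ x; cases σ <;> simp [rf, sp, spin]
lemma rf_co (x : K) : rf (co x : Fn K) = -co x := rfl

lemma pb_add (M : Matrix K L ℝ) (F G : Fj J K) : pb M (F + G) = pb M F + pb M G := rfl
lemma pb_sub (M : Matrix K L ℝ) (F G : Fj J K) : pb M (F - G) = pb M F - pb M G := rfl
lemma pb_mul (M : Matrix K L ℝ) (F G : Fj J K) : pb M (F * G) = pb M F * pb M G := rfl
lemma pb_neg (M : Matrix K L ℝ) (F : Fj J K) : pb M (-F) = -pb M F := rfl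
lemma pb_smul (M : Matrix K L ℝ) (c : ℝ) (F : Fj J K) : pb M (c • F) = c • pb M F := rfl
lemma pb_cb (M : Matrix K L ℝ) (c : J → ℝ) : pb M (cb c : Fj J K) = cb c := rfl
lemma pb_sp (M : Matrix K L ℝ) : pb M (sp : Fj J K) = sp := rfl
lemma pb_gs (M : Matrix K L ℝ) (F : Fj J K) : pb M (gs F) = gs (pb M F) := rfl
lemma pb_sum (M : Matrix K L ℝ) {I : Type} (s : Finset I) (F : I → Fj J K) :
    pb M (∑ i ∈ s, F i) = ∑ i ∈ s, pb M (F i) := by
  funext b σ x; simp only [pb, Finset.sum_apply]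
lemma pb_co (M : Matrix K L ℝ) (x : K) : pb M (co x : Fj J K) = ∑ l, M x l • co l := by
  funext b σ y; simp only [pb, co, Finset.sum_apply, Pi.smul_apply, smul_eq_mul]; rfl
lemma row {M : Matrix K L ℝ} {x : K} {l : L} (h : M x = Pi.single l 1) (y : L → ℝ) :
    (M *ᵥ y) x = y l := by
  rw [mulVec, h, single_dotProduct, one_mul]
lemma pb_co' {M : Matrix K L ℝ} {x : K} {l : L} (h : M x = Pi.single l 1) :
    pb M (co x : Fj J K) = co l := by
  funext b σ y; exact row h y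
lemma pb_th {M : Matrix K L ℝ} {x : K} {l : L} (h : M x = Pi.single l 1) :
    pb M (th x) = th l := by
  funext b σ y; simp only [pb, th, row h y]

lemma quad {I I' : Type} [Fintype I] [Fintype I'] (W : Matrix I I' ℝ) (P : Matrix I' I' ℝ)
    (c : I → I → ℝ) : ∑ p, ∑ q, (∑ j, W j q * ∑ i, W i p * c j i) * P p q =
      ∑ i, ∑ j, c j i * (W * P * Wᵀ) i j := by
  simp only [mul_apply, transpose_apply, Finset.mul_sum, Finset.sum_mul]
  rw [Finset.sum_comm]
  conv_lhs => enter [2, q]; rw [Finset.sum_comm]; enter [2, j]; rw [Finset.sum_comm]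
  conv_lhs => rw [Finset.sum_comm]; enter [2, j]; rw [Finset.sum_comm]
  rw [Finset.sum_comm]
  exact Finset.sum_congr rfl fun i _ => Finset.sum_congr rfl fun j _ =>
    Finset.sum_congr rfl fun q _ => Finset.sum_congr rfl fun p _ => by ring

/-- the family at one value of the parameter, as a function of the static field -/
structure Re (d : Dt ℝ K T) (A : Matrix K K ℝ) (η : ℝ) : Prop where
  η0 : η ≠ 0
  η : d.η = fun _ => η
  A : d.A = fun _ => A
  m : d.m = tanh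
  bs : BS d.H
  od : rf d.H = -d.H

section re
variable (t : Tl) {d : Dt ℝ K T} {A : Matrix K K ℝ} {η : ℝ} (h : Re d A η)
include t h

lemma Re.ct : d.Ct where
  η := h.η ▸ continuous_const
  A := h.A ▸ continuous_const
  m := h.m ▸ Tw.contDiff_tanh'.continuous
  m1 := fun b => h.m ▸ (abs_tanh_lt_one b).le
  H := (t.bs T).ts h.bs

lemma em_eq (F : Fn K) : d.em F = Eb A d.o F := by
  funext b; rw [Dt.em, h.A, h.m, Eb, (t.ex ℝ K K).eq]

lemma tf_eq : d.tf = th d.o := by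
  funext b s x; rw [Dt.tf, h.m, (t.ts ℝ K).tm_eq]; rfl

omit t in
lemma dv_eq (u : K) (F : Fn K) : d.dv u F = dl (A * Aᵀ) d.o u F := by
  funext b s x
  simp only [Dt.dv, dl, Dt.S, h.A, cb, Pi.sub_apply, Pi.mul_apply, Finset.sum_apply, Pi.smul_apply,
    smul_eq_mul]

lemma em_rf {F : Fn K} (hF : rf F = F) (b : ℝ) : d.em F (-b) = d.em F b := by
  rw [Dt.em, Dt.em, h.A, h.m, tanh_neg, (t.ex ℝ K K).neg]
  conv_rhs => rw [← hF]
  rfl

lemma rf_em {F : Fn K} (hF : rf F = F) : rf (cb (d.em F) : Fn K) = cb (d.em F) := by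
  funext b s x; exact em_rf t h hF b

omit t in
lemma od_p0 : rf d.p0 = -d.p0 := by
  rw [Dt.p0, rf_add, rf_sp, rf_pb, h.od, pb_neg, neg_add]

omit h in
lemma ev_dx {F : Fn L} (hF : Df F) (ho : rf F = -F) (x : L) : rf (dx x F) = dx x F := by
  have := (t.bs L).rdx x hF
  rw [ho, ← neg_one_smul ℝ F, (t.dx ℝ L).smul, neg_one_smul, neg_inj] at this
  exact this.symm

lemma od_ps : rf d.ps = -d.ps := by
  have k := ev_dx t ((t.ts ℝ K).df (ts_p0 t (h.ct t))) (od_p0 h)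
  rw [Dt.ps, rf_sub, od_p0 h, rf_sum]
  simp only [rf_mul, fun x => rf_em t h (k x), rf_co, mul_neg, Finset.sum_neg_distrib]
  ring

omit t h in
lemma ev_r (hη : d.η = fun _ => η) (u : T) : rf (d.r u) = d.r u := by
  funext b s x; simp [rf, Dt.r, hη, rr]

lemma ev_mt (u : T) : rf (d.mt u) = d.mt u := by
  have k1 := ev_r h.η u
  have k2 : rf (d.h u * d.r u) = d.h u * d.r u := by
    rw [rf_mul, k1, Dt.h, rf_smul, rf_pb, ev_dx t ((t.bs T).df h.bs) h.od]
  rw [Dt.mt, rf_sub, rf_mul, rf_mul (cb _), rf_em t h k1, rf_em t h k2, k1, k2]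

lemma ev_ρ (b : ℝ) : d.ρ (-b) = d.ρ b := by
  refine em_rf t h ?_ b
  have k1 : rf d.wf = d.wf := by
    funext b s x; simp [rf, Dt.wf, h.m, wm]
  have k2 := (t.bs K).rgs d.p0
  rw [od_p0 h] at k2
  rw [rf_mul, k1, ← neg_inj.1 (show -gs d.p0 = -rf (gs d.p0) from k2 ▸ by
    funext b s x; simp only [gs, Pi.neg_apply]; ring)]

lemma bs_p0 : BS d.p0 := (t.bs K).add (t.bs K).sp ((t.bs K).pb _ h.bs)

lemma bs_r (u : T) : BS (d.r u) := by
  have := (t.bs K).rr η (d.τ u)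
  unfold Dt.r; rw [h.η]; exact this

lemma bs_y (u : T) : BS (d.r u * co (d.τ u)) := by
  have := (t.bs K).yy η h.η0 (d.τ u)
  unfold Dt.r; rw [h.η]; exact this

lemma bs_h (u : T) : BS (d.h u) := (t.bs K).smul _ ((t.bs K).pb _ ((t.bs T).dx u h.bs))

variable (hA : AvStmt)
include hA

lemma bs_em {F : Fn K} (hF : BS F) : BS (cb (d.em F) : Fn L) :=
  (t.bs L).cb (em_eq t h F ▸ (hA K K A d.o F hF).2.1)

lemma bs_mt (u : T) : BS (d.mt u) ∧ BS (d.mt u * co (d.τ u)) := by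
  have a := t.bs K
  have k1 := bs_em (L := K) t h hA (bs_r t h u)
  have k2 := a.mul (bs_h t h u) (bs_r t h u)
  have k3 := bs_em (L := K) t h hA k2
  refine ⟨a.sub (a.mul k1 k2) (a.mul k3 (bs_r t h u)), ?_⟩
  have := a.sub (a.mul k1 (a.mul (bs_h t h u) (bs_y t h u))) (a.mul k3 (bs_y t h u))
  convert this using 1
  rw [Dt.mt]; ring

lemma bs_ρ : BS (cb d.ρ : Fn L) := by
  have := (hA K K A d.o _ ((t.bs K).gs (bs_p0 t h))).2.2.1
  refine (t.bs L).cb (K := K) ?_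
  rw [Dt.ρ, em_eq t h]
  convert this using 3
  funext b s x
  simp only [Dt.wf, h.m, Pi.mul_apply]

end re

/-- multipliers, placed at the drift nodes -/
def mN {n : ℕ} (d : Dt ℝ K T) (M : Matrix K (Ix n) ℝ) (u : T → Ix n) (v : Ix n) : Fn (Ix n) :=
  ∑ x, if u x = v then pb M (d.mt x) else 0

section back
variable (t : Tl) {d : Dt ℝ K T} {A : Matrix K K ℝ} {η : ℝ} (h : Re d A η) {n : ℕ} {N : Net n}
  {M : Matrix K (Ix n) ℝ} {u : T → Ix n} (hS : A * Aᵀ = M * N.S * Mᵀ)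
  (h0 : M d.o = Pi.single 0 1) (hu : ∀ x, M (d.τ x) = Pi.single (u x) 1)
include t h hS h0

lemma E_pb {F : Fn K} (hF : TS F) (b : ℝ) : N.E (pb M F) b = d.em F b := by
  rw [Net.E, Eb, (t.ex ℝ (Ix n) (Ix n)).eq, Dt.em, h.A, h.m]
  exact (t.ex ℝ (Ix n) (Ix n)).pb N.A A M 0 d.o _ (F b) hS h0
    fun s => ((t.ts ℝ K).df hF b s).continuous.measurable

lemma E_quad {I I' : Type} [Fintype I] [Fintype I'] {Φ : I → Fn K} (hΦ : ∀ i, TS (Φ i))
    (W : Matrix I I' ℝ) (P : Matrix I' I' ℝ) {Ψ : I' → Fn (Ix n)}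
    (hΨ : ∀ p, Ψ p = ∑ i, W i p • pb M (Φ i)) (b : ℝ) :
    ∑ p, ∑ q, N.E (Ψ p * Ψ q) b * P p q =
      ∑ i, ∑ j, d.em (Φ i * Φ j) b * (W * P * Wᵀ) i j := by
  have a := t.ts ℝ K
  have k1 : ∀ p, TS (∑ i, W i p • Φ i) := fun p => a.sum _ fun i _ => a.smul _ (hΦ i)
  have k2 : ∀ p q, N.E (Ψ p * Ψ q) b = ∑ j, W j q * ∑ i, W i p * d.em (Φ j * Φ i) b :=
    fun p q => by
    have e : Ψ p * Ψ q = pb M ((∑ i, W i p • Φ i) * ∑ i, W i q • Φ i) := by
      simp only [hΨ, pb_mul, pb_sum, pb_smul]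
    rw [e, E_pb t h hS h0 (a.mul (k1 p) (k1 q)), em_lin t (k1 p) hΦ]
    refine Finset.sum_congr rfl fun j _ => ?_
    rw [mul_comm _ (Φ j), em_lin t (hΦ j) hΦ]
  simp only [k2, quad]
  exact Finset.sum_congr rfl fun i _ => Finset.sum_congr rfl fun j _ => by rw [mul_comm (Φ j)]

lemma Q_pb {F : Fn K} (hF : TS F) (b : ℝ) :
    N.Q (pb M F) b = d.Q (fun _ => M * N.PD * Mᵀ) F b := by
  have a := t.ts ℝ K
  rw [Net.Q, Dt.Q, E_quad t h hS h0 (fun x => a.dx x hF) M N.PD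
    fun p => ((t.dx ℝ (Ix n)).pb M p (a.df hF)).2,
    ← E_pb t h hS h0 (a.mul (a.sub (ts_one t) (a.pow 2 (ts_tf t (h.ct t)))) (a.pow 2 (a.gs hF))),
    tf_eq t h, Net.D, ← pb_th h0]
  rfl

lemma Cv_pb {F : Fn K} (hF : TS F) (b : ℝ) : Cv N.A 0 (pb M F) (pb M F) b = d.Vr F b := by
  rw [Dt.Vr, ← E_pb t h hS h0 hF, ← E_pb t h hS h0 ((t.ts ℝ K).mul hF hF)]
  rfl

omit t in
lemma S_eq (b : ℝ) : d.S d.o d.o b = N.S 0 0 := by
  rw [Dt.S, h.A, hS, mul_apply]
  simp only [transpose_apply, h0, mul_apply, Pi.single_apply, ite_mul, mul_ite, one_mul, mul_one,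
    zero_mul, mul_zero, Finset.sum_ite_eq', Finset.mem_univ, if_true]

include hu

lemma R_pb : N.R d.a (pb M d.ps) (mN d M u) d.ρ = pb M d.R := by
  have a := t.ts ℝ K
  have a' := t.dx ℝ (Ix n)
  have k : ∀ x, Df (pb M (d.mt x)) := fun x => (a'.pb M 0 (a.df (ts_mt t (h.ct t) x))).1
  have k1 : ∀ v, dl N.S 0 v (mN d M u v) =
      ∑ x, if u x = v then dl N.S 0 v (pb M (d.mt x)) else 0 := fun v => by
    rw [mN, ← Finset.sum_filter, ← Finset.sum_filter]
    simp only [dl, a'.sum _ _ fun x _ => k x, Finset.sum_mul, Finset.smul_sum,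
      Finset.sum_sub_distrib]
    rw [Finset.sum_comm]
  have k2 : ∀ x, dl N.S 0 (u x) (pb M (d.mt x)) = pb M (d.dv (d.τ x) (d.mt x)) := fun x => by
    rw [dv_eq h, hS]
    exact a'.dl M N.S 0 (u x) d.o (d.τ x) (by rw [Net.S, transpose_mul, transpose_transpose]) h0
      (hu x) (a.df (ts_mt t (h.ct t) x))
  have k3 : d.q = fun b => d.ρ b * sech2 b := funext fun b => (q_eq t d (congrFun h.m b)).2
  rw [Net.R, Net.drift, dft, Dt.R, k3]
  simp only [k1, S_eq h hS h0, pb_add, pb_sub, pb_mul, pb_smul, pb_sum, pb_cb, pb_sp, pb_gs,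
    pb_co' h0, tf_eq t h, pb_th h0]
  rw [Finset.sum_comm]
  simp only [Finset.sum_ite_eq, Finset.mem_univ, if_true, k2]

omit hS h0 in
lemma flw (hA : AvStmt) (hdr : ∀ x, N.dr (u x)) : N.Flw (gs (pb M d.ps)) (mN d M u) where
  bal := by
    rw [← pb_gs, gs_ps]
    exact (t.bs _).pb _ ((t.bs K).gs (bs_p0 t h))
  free := by funext b s x; simp [gs]
  ba := fun v => by
    have a := t.bs (Ix n)
    refine ⟨a.sum _ fun x _ => ?_, ?_⟩
    · split_ifs
      exacts [a.pb _ (bs_mt t h hA x).1, a.const 0]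
    · rw [mN, Finset.sum_mul]
      refine a.sum _ fun x _ => ?_
      split_ifs with hx
      · rw [← hx, ← pb_co' (hu x), ← pb_mul]; exact a.pb _ (bs_mt t h hA x).2
      · rw [zero_mul]; exact a.const 0
  nd := fun v hv => Finset.sum_eq_zero fun x _ => if_neg fun hx : u x = v => hv (hx ▸ hdr x)

omit hu in
lemma E_dx (v : Ix n) (b : ℝ) : N.E (dx v (pb M d.ps)) b = 0 := by
  have a := t.ts ℝ K
  have k := fun x => a.dx x (ts_ps t (h.ct t))
  have := em_lin t (d := d) (ts_one t) k (fun x => M x v) b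
  simp only [one_mul, em_dx_ps t (h.ct t), mul_zero, Finset.sum_const_zero] at this
  rw [((t.dx ℝ (Ix n)).pb M v (a.df (ts_ps t (h.ct t)))).2, ← this,
    ← E_pb t h hS h0 (a.sum _ fun x _ => a.smul _ (k x)), pb_sum]
  rfl

omit t h hS h0 hu in
lemma mN_eq (v : Ix n) : mN d M u v = ∑ x, (if u x = v then 1 else 0 : ℝ) • pb M (d.mt x) := by
  simp only [mN, ite_smul, one_smul, zero_smul]

omit hu in
lemma E_mN (v : Ix n) (b : ℝ) : N.E (mN d M u v) b = 0 := by
  have a := t.ts ℝ K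
  have k := ts_mt t (h.ct t)
  have := em_lin t (d := d) (ts_one t) k (fun x => if u x = v then 1 else 0) b
  simp only [one_mul, em_mt t (h.ct t), mul_zero, Finset.sum_const_zero] at this
  rw [← E_pb t h hS h0 (a.sum _ fun x _ => a.smul _ (k x)), pb_sum] at this
  rw [mN_eq]
  exact this

omit hu in
lemma hq_pb (b : ℝ) : d.ρ b * sech2 b = N.E (N.D * gs (pb M d.ps)) b := by
  have a := t.ts ℝ K
  have k := q_eq t d (congrFun h.m b)
  rw [← k.2, k.1, ← E_pb t h hS h0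
    (a.mul (a.sub (ts_one t) (a.pow 2 (ts_tf t (h.ct t)))) (a.gs (ts_ps t (h.ct t)))),
    tf_eq t h, Net.D, ← pb_th h0]
  rfl

omit hS h0 hu in
lemma lt_pb (hA : AvStmt) : LT (pb M d.ps : Fn (Ix n)) := by
  have a := t.bs (Ix n)
  refine ⟨pb M d.p0, fun l b => ∑ x, -M x l * d.em (dx x d.p0) b, a.pb _ (bs_p0 t h),
    fun l => ?_, ?_⟩
  · have := a.sum Finset.univ fun x _ => a.smul (-M x l)
      (bs_em (L := Ix n) t h hA ((t.bs K).dx x (bs_p0 t h)))
    convert this using 1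
    funext b s y
    simp only [cb, Finset.sum_apply, Pi.smul_apply, smul_eq_mul]
  · funext b s y
    simp only [Dt.ps, pb, cb, co, Pi.sub_apply, Pi.add_apply, Finset.sum_apply, Pi.mul_apply,
      mulVec, dotProduct, Finset.mul_sum, Finset.sum_mul]
    rw [Finset.sum_comm, sub_eq_add_neg, ← Finset.sum_neg_distrib]
    simp only [← Finset.sum_neg_distrib]
    congr 1
    exact Finset.sum_congr rfl fun l _ => Finset.sum_congr rfl fun x _ => by ring

/-- the centring of the gradient of the residual -/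
lemma c3_pb (hA : AvStmt) (hdr : ∀ x, N.dr (u x)) {β : ℝ} {ν : Measure ℝ} [IsProbabilityMeasure ν]
    (hF : FactStmt) (hN : N.Ok β ν) (v : Ix n) (b : ℝ) :
    N.E (dx v (N.R d.a (pb M d.ps) (mN d M u) d.ρ)) b = 0 := by
  obtain ⟨f1, -, -, f2⟩ := (hF β ν n N hN).1 _ _ (flw t h hu hA hdr)
  have a := t.ts ℝ (Ix n)
  have x := t.dx ℝ (Ix n)
  have e := t.ex ℝ (Ix n) (Ix n)
  have k1 := (t.bs _).ts f1
  have k2 : TS (pb M d.ps : Fn (Ix n)) := a.pb M (ts_ps t (h.ct t))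
  have k3 : d.q = fun b => d.ρ b * sech2 b := funext fun b => (q_eq t d (congrFun h.m b)).2
  have c1 : Continuous fun b => d.ρ b * sech2 b := k3 ▸ c_q t (h.ct t)
  have c2 : Continuous fun b => d.ρ b + d.ρ b * sech2 b * N.S 0 0 - d.a :=
    ((c_ρ t (h.ct t)).add (c1.mul continuous_const)).sub continuous_const
  have k4 := a.sub k1 (a.smul d.a k2)
  have k5 := a.mul (a.cb c2) a.sp
  have k6 : TS (if v = 0 then 1 else 0 : Fn (Ix n)) := by
    split_ifs
    exacts [ts_one t, a.cb (c := fun _ => 0) continuous_const]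
  have f3 := f2 v b
  have f4 := E_dx t h hS h0 v b
  rw [E_mN t h hS h0, ← hq_pb t h hS h0] at f3
  rw [Net.R, x.add v (a.df (a.sub k4 k5)) (a.df (a.mul (a.cb c1) (a.co 0))),
    x.sub v (a.df k4) (a.df k5), x.sub v (a.df k1) (a.df (a.smul _ k2)), x.smul, x.cbm, x.cbm,
    x.sp, x.co, mul_zero, sub_zero]
  rw [Net.E, Eb, e.eq] at f3 f4 ⊢
  rw [e.add _ _ _ b (a.c0 (a.sub (a.dx v k1) (a.smul _ (a.dx v k2)))) (a.c0 (a.mul (a.cb c1) k6)),
    e.sub _ _ _ b (a.c0 (a.dx v k1)) (a.c0 (a.smul _ (a.dx v k2))), e.smul, e.cbm, f3, f4]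
  split_ifs
  · rw [show (1 : Fn (Ix n)) b = fun _ _ => 1 from rfl, e.const]; ring
  · rw [show (0 : Fn (Ix n)) b = fun _ _ => 0 from rfl, e.const]; ring

end back

end Crest.Agent.T157.Nt.Top91

end
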