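import Crest.Agent.T157.NumT_27
import Crest.Agent.T157.OgDef_9

set_option autoImplicit false

/-!
Row 157, A2 (helper27): the table of scales of `Og.LH` for the tactic `num`.
`l = log n`, `s = -log t`, `f = -log ef`, `x = -log ε`, `η = log H`, `g = log log n`;
`cL, cC, cK, b, k0, b0, b2` are the logarithms of `L, C, K, B, K0, B0, B2`; `s0 = -log t0`.
-/

noncomputable section

namespace Crest.Agent.T157.Nm

open Set Real
open Crest.Agent.T157.O0 Crest.Agent.T157.Og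

/-- the logarithms -/
structure Lg where
  (l s f x η g cL cC cK b k0 b0 b2 s0 τ : ℝ)

/-- linear relations between the logarithms -/
structure OL (p : Pm) (a : Lg) : Prop where
  cL : 4 ≤ a.cL
  cC : 10 * a.cL + 20 ≤ a.cC
  cK : 10 * a.cC ≤ a.cK
  b : 10 * a.cK ≤ a.b
  s0 : 1000 * a.b ≤ a.s0
  s : a.s0 ≤ a.s
  b0 : 10 * a.s0 ≤ a.b0
  k0 : 10 * a.k0 ≤ a.b0
  k0' : 0 ≤ a.k0
  f : 1000 * a.b0 ≤ a.f
  b2 : 10 * a.f ≤ a.b2
  g : 100 * a.b2 ≤ a.g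
  gl : 100 * a.g ≤ p.cv * a.l
  τ1 : 2 / 3 * (a.f + a.cL) ≤ a.τ
  τ2 : a.τ ≤ 2 / 3 * (a.f + a.cL + 1)
  sl : a.s ≤ 2 / 3 * a.l - p.d * a.l
  x0 : 0 ≤ a.x
  xs : a.x ≤ p.cv * a.s
  xA : 100 * a.x ≤ p.A * a.x
  As : p.A * a.x ≤ p.k3 * a.s / 100
  η1 : a.η ≤ a.cL - 4 * a.x + a.l - 3 / 2 * a.s
  η2 : a.η ≤ a.l - a.f + 1
  l0 : p.cv * a.l ≤ p.k3 * a.l / 10000
  l2 : p.k3 * a.l ≤ p.k2 * a.l / 100
  l3 : p.k2 * a.l ≤ p.k4 * a.l / 100
  l4 : p.k4 * a.l ≤ p.d * a.l / 100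
  l5 : p.d * a.l ≤ p.ch * a.l / 100
  l6 : p.ch * a.l ≤ a.l / 1000
  s00 : 0 ≤ p.cv * a.s
  s1 : p.cv * a.s ≤ p.k3 * a.s / 10000
  s2 : p.k3 * a.s ≤ p.k2 * a.s / 100
  s3 : p.k2 * a.s ≤ p.k4 * a.s / 100
  s4 : p.k4 * a.s ≤ p.d * a.s / 100
  s5 : p.d * a.s ≤ p.ch * a.s / 100
  s6 : p.ch * a.s ≤ a.s / 1000
  m0 : p.cv * a.s ≤ p.cv * a.l
  m2 : p.k3 * a.s ≤ p.k3 * a.l
  m3 : p.k2 * a.s ≤ p.k2 * a.l
  m4 : p.k4 * a.s ≤ p.k4 * a.l
  m5 : p.d * a.s ≤ p.d * a.l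
  m6 : p.ch * a.s ≤ p.ch * a.l
  k34 : 0 ≤ p.k3 * (p.k4 * a.l)
  k34' : p.k3 * (p.k4 * a.l) ≤ p.k3 * a.l / 1000

/-- the atoms -/
structure OA (p : Pm) (t ε H : ℝ) (a : Lg) : Prop where
  en : Eb (p.n : ℝ) a.l
  et : Eb t (-a.s)
  ef : Eb p.ef (-a.f)
  ee : Eb ε (-a.x)
  eH : Eb H a.η
  lg : Eb (Og.lg p) a.g
  lg' : Eb (Real.log p.n) a.g
  eL : Eb p.L a.cL
  eC : Eb p.C a.cC
  eK : Eb p.K a.cK
  eB : Eb p.B a.b
  eK0 : Eb p.K0 a.k0
  eB0 : Eb p.B0 a.b0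
  eB2 : Eb p.B2 a.b2
  t0 : Eb p.t0 (-a.s0)
  t2 : Eb p.t2 (-a.τ)
  ts : Eb p.ts (p.k4 * a.l - a.l / 2)
  tss : Eb p.tss (-(p.ch * a.l))
  M : Eb (p.M t) (a.l - 3 / 2 * a.s)
  ueta : Ub p.eta (-a.cK)
  leta : Lb p.eta (-a.cK - 2)
  uro : Ub (ro p) a.l
  lro : Lb (ro p) (a.l - 1)
  k3 : 0 ≤ p.k3
  uexp : Ub (Real.exp p.B2) a.g

theorem Ub.two_pow {c : ℝ} (k : ℕ) (h0 : 0 ≤ c) (h : c ≤ 2 ^ k) : Ub c k :=
  ⟨h0, h.trans <| by
    rw [← mul_one (k : ℝ), exp_nat_mul]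
    exact pow_le_pow_left₀ two_pos.le (by linarith [add_one_le_exp (1 : ℝ)]) k⟩

theorem Lb.ten : Lb 10 2 := by
  have h := exp_one_lt_d9
  have h2 : exp 2 = exp 1 * exp 1 := by rw [← exp_add]; norm_num
  rw [Lb, h2]; nlinarith [exp_pos 1]

theorem Eb.le_of {f g a b : ℝ} (hf : Lb f a) (hg : Ub g b) (h : f ≤ g) : a ≤ b :=
  exp_le_exp.1 ((hf.of_le h).trans hg.2)

set_option maxHeartbeats 1000000 in
/-- **the table** -/
theorem lh_tab {p : Pm} {t ε H : ℝ} (h : LH p t ε H) : ∃ a : Lg, OL p a ∧ OA p t ε H a ∧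
    (a.l - 3 / 2 * a.s - p.A * a.x ≤ a.η ∨ a.l - a.f - 1 ≤ a.η) := by
  have o := h.ord
  have ok := o.ok
  have ⟨k30, k20, k40, d0, ch0, cv0, t00, f0⟩ : 0 < p.k3 ∧ 0 < p.k2 ∧ 0 < p.k4 ∧ 0 < p.d ∧ 0 < p.ch ∧
    0 < p.cv ∧ 0 < p.t0 ∧ 0 < p.ef := ⟨ok.k3.1, ok.k2.1, ok.k4.1, ok.d.1, ok.ch.1, ok.cv, ok.t0.1, ok.ef⟩
  have ⟨hL, hC, hK, hB, hK0, hB0, hB2⟩ := And.intro ok.L <| And.intro ok.C <| And.intro ok.K <|
    And.intro ok.B <| And.intro ok.K0 <| And.intro ok.B0 ok.B2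
  have ⟨c6, c5, c4, c3, c2⟩ := And.intro ok.ch.2 <| And.intro ok.d.2 <| And.intro ok.k4.2 <|
    And.intro ok.k2.2 ok.k3.2
  have A1 : (100 : ℝ) ≤ p.A := by exact_mod_cast o.A
  have l1 : 1 ≤ Real.log p.n := (one_le_pow₀ (by linarith)).trans o.n1
  have n1 : (1 : ℝ) < p.n := (log_pos_iff (Nat.cast_nonneg _)).1 (by linarith)
  have En : Eb (p.n : ℝ) (Real.log p.n) := Eb.log (by linarith)
  have Elo : Eb p.lo (p.d * Real.log p.n - 2 / 3 * Real.log p.n) := En.rpow.div En.rpow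
  have t0 : 0 < t := Elo.pos.trans_le h.lo
  have N : ∀ {y : ℝ}, 0 < y → Eb y (- -Real.log y) := fun hy => by rw [neg_neg]; exact Eb.log hy
  have Et := N t0
  have Ef := N f0
  have Ee := N h.e0
  have E0 := N t00
  have EL : Eb p.L _ := Eb.log (by linarith)
  have EC : Eb p.C _ := Eb.log (by linarith)
  have EK : Eb p.K _ := Eb.log (by linarith)
  have EB : Eb p.B _ := Eb.log (by linarith)
  have EK0 : Eb p.K0 _ := Eb.log (by linarith)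
  have EB0 : Eb p.B0 _ := Eb.log (by linarith)
  have EB2 : Eb p.B2 _ := Eb.log (by linarith)
  have Eg : Eb (Real.log p.n) _ := Eb.log (by linarith)
  have E2 : Eb p.t2 _ := N (by unfold Pm.t2; positivity)
  have EM : Eb (p.M t) (Real.log p.n - 3 / 2 * -Real.log t) := by
    have := En.mul (Et.rpow (y := 3 / 2))
    rwa [show ∀ l s : ℝ, l + 3 / 2 * -s = l - 3 / 2 * s from fun _ _ => by ring] at this
  have H0 : 0 < H := lt_of_lt_of_le (lt_min (mul_pos (pow_pos h.e0 _) EM.pos) (by positivity)) h.H0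
  have EH : Eb H _ := Eb.log H0
  generalize hl : Real.log p.n = l at En Elo EM
  generalize -Real.log t = s at *
  generalize -Real.log p.ef = f at *
  generalize -Real.log ε = x at *
  generalize -Real.log p.t0 = s0 at *
  generalize -Real.log p.t2 = τ at *
  generalize Real.log p.L = cL at *
  generalize Real.log p.C = cC at *
  generalize Real.log p.K = cK at *
  generalize Real.log p.B = b at *
  generalize Real.log p.K0 = k0 at *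
  generalize Real.log p.B0 = b0 at *
  generalize Real.log p.B2 = b2 at *
  generalize Real.log (Real.log p.n) = g at *
  generalize Real.log H = η at *
  have u2 : Ub 2 1 := by simpa using Ub.two_pow (c := 2) 1 (by norm_num) (by norm_num)
  have u4 : Ub 4 2 := by simpa using Ub.two_pow (c := 4) 2 (by norm_num) (by norm_num)
  have l2 : Lb 2 0 := Lb.of_one (by norm_num)
  have a1 : 4 ≤ cL := by
    have := Eb.le_of (Lb.ten.pow (k := 2)) EL.ub (by linarith); push_cast at this; linarith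
  have a2 := Eb.le_of ((Lb.ten.pow (k := 10)).mul EL.pow.lb) EC.ub o.C
  have a3 := (EC.pow.le_iff EK).1 o.K
  have a4 := (EK.pow.le_iff EB).1 o.B
  have a5 := ((E0.mul EB.pow).le_iff Eb.one).1 o.t0
  have a6 := (Et.le_iff E0).1 h.hi
  have a7 := (Eb.one.le_iff (EB0.mul E0.pow)).1 o.B0
  have a8 := (EK0.pow.le_iff EB0).1 o.K0
  have a9 := (Eb.one.le_iff EK0).1 hK0
  have b1 := ((Ef.mul EB0.pow).le_iff Eb.one).1 o.ef
  have b2' := (Eb.one.le_iff (EB2.mul Ef.pow)).1 o.B2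
  have b3 := (EB2.pow.le_iff Eg).1 o.n1
  have b4 := (Eg.pow.le_iff En.rpow).1 o.n3
  have b5 : Ub p.t2 (2 / 3 * (-f - (0 + cL))) := (Ef.ub.div (l2.mul EL.lb)).rpow (by norm_num)
  have b6 : Lb p.t2 (2 / 3 * (-f - (1 + cL))) :=
    (Ef.lb.div (u2.mul EL.ub) (by linarith)).rpow (by norm_num)
  have b7 := Eb.le_of E2.lb b5 le_rfl
  have b8 := Eb.le_of b6 E2.ub le_rfl
  have b9 := (Elo.le_iff Et).1 h.lo
  have d1 := (Ee.le_iff Eb.one).1 h.e1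
  have d2 := (Et.rpow.le_iff Ee).1 h.et
  have d3 := (EH.le_iff ((EL.mul Ee.pow).mul EM)).1 h.H1
  have d4 := Eb.le_of EH.lb ((u2.mul Ef.ub).mul En.ub) h.H2
  have d5 := Eb.le_of (((Ee.pow (k := p.A)).mul EM).lb.min ((Ef.mul En).lb.div u2 two_pos)) EH.ub h.H0
  push_cast at a2 a3 a4 a5 a7 a8 b1 b2' b3 b4 d3
  have s1 : 0 < s := by linarith
  have l0 : 0 < l := by linarith
  have sl' : s ≤ l := by linarith [mul_pos d0 l0]
  have m : ∀ {x y z : ℝ}, 0 ≤ z → x ≤ y / 100 → x * z ≤ y * z / 100 := fun hz h => by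
    linarith [mul_le_mul_of_nonneg_right h hz]
  have m' : ∀ {x : ℝ}, 0 < x → x * s ≤ x * l := fun h => mul_le_mul_of_nonneg_left sl' h.le
  have cv1 : p.cv ≤ p.k3 / 10000 := by nlinarith [ok.cv']
  have e1 := mul_le_mul_of_nonneg_left (show x ≤ p.cv * s by linarith) (show (0 : ℝ) ≤ p.A by linarith)
  have e2 := mul_le_mul_of_nonneg_right ok.cv' s1.le
  have e3 : p.k4 * l ≤ l / 1000 := by
    linarith [mul_le_mul_of_nonneg_right (show p.k4 ≤ 1 / 1000 by linarith) l0.le]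
  have n8 : (8 : ℝ) ≤ p.n := by
    have : Ub 8 3 := by simpa using Ub.two_pow (c := 8) 3 (by norm_num) (by norm_num)
    refine le_of this En.lb ?_
    nlinarith [mul_le_mul_of_nonneg_right (show p.cv ≤ 1 by linarith) l0.le]
  refine ⟨⟨l, s, f, x, η, g, cL, cC, cK, b, k0, b0, b2, s0, τ⟩, ⟨a1, by linarith, a3, a4, by linarith,
    by linarith, by linarith, a8, a9, by linarith, by linarith, b3, b4, by linarith, by linarith,
    by linarith, by linarith, by linarith,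
    mul_le_mul_of_nonneg_right A1 (by linarith), by linarith, by linarith, by linarith,
    by linarith [mul_le_mul_of_nonneg_right cv1 l0.le], m l0.le c2, m l0.le c3, m l0.le c4, m l0.le c5,
    by linarith [mul_le_mul_of_nonneg_right c6 l0.le], by positivity,
    by linarith [mul_le_mul_of_nonneg_right cv1 s1.le], m s1.le c2, m s1.le c3, m s1.le c4, m s1.le c5,
    by linarith [mul_le_mul_of_nonneg_right c6 s1.le], m' cv0, m' k30, m' k20, m' k40, m' d0, m' ch0,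
    by positivity, by linarith [mul_le_mul_of_nonneg_left e3 k30.le]⟩,
    ⟨En, Et, Ef, Ee, EH, Eg, Eg, EL, EC, EK, EB, EK0, EB0, EB2, E0, E2, ?_, ?_, EM, ?_, ?_, ?_, ?_,
      k30.le, Eg.ub.of_le (exp_pos _).le o.n2⟩, ?_⟩
  · have := En.rpow (y := p.k4 - 1 / 2)
    rwa [show (p.k4 - 1 / 2) * l = p.k4 * l - l / 2 by ring] at this
  · have := En.rpow (y := -p.ch)
    rwa [neg_mul] at this
  · unfold Pm.eta; num
  · unfold Pm.eta; num
  · exact Ub.sub (by linarith) (by norm_num) En.ub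
  · exact Lb.sub (by linarith) En.lb
  · rcases min_le_iff.1 d5 with d | d
    · left; linarith
    · right; linarith

variable {p : Pm} {t ε H : ℝ} {a : Lg}

namespace OA
variable (h : OA p t ε H a)
include h

theorem pos : 0 < t := h.et.pos
theorem tss_iff : p.tss ≤ t ↔ a.s ≤ p.ch * a.l := by rw [h.tss.le_iff h.et, neg_le_neg_iff]
theorem ts_iff : p.ts ≤ t ↔ a.s ≤ a.l / 2 - p.k4 * a.l := by
  rw [h.ts.le_iff h.et]; constructor <;> intro <;> linarith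
theorem t2_iff : p.t2 ≤ t ↔ a.s ≤ a.τ := by rw [h.t2.le_iff h.et, neg_le_neg_iff]
theorem lt_t2 (h2 : t < p.t2) : a.τ ≤ a.s := (not_le.1 (mt h.t2_iff.2 h2.not_ge)).le
theorem base (h2 : p.t0 / 2 ≤ t) : a.s ≤ a.s0 + 2 := by
  have := Eb.le_of (h.t0.lb.div (Ub.ofNat 2) two_pos) h.et.ub h2; linarith
theorem Bt_lo (h2 : t < p.t0 / 2) : Eb (p.Bt t) a.b := by rw [Pm.Bt, if_pos h2]; exact h.eB
theorem Bt_hi (h2 : p.t0 / 2 ≤ t) : Eb (p.Bt t) a.b0 := by rw [Pm.Bt, if_neg h2.not_gt]; exact h.eB0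
/-- `Bt` in both cases -/
theorem Bt (L : OL p a) : ∃ β, Eb (p.Bt t) β ∧ a.b ≤ β ∧ β ≤ a.b0 := by
  have : a.b ≤ a.b0 := by linarith [L.cL, L.cC, L.cK, L.b, L.s0, L.b0]
  rcases lt_or_ge t (p.t0 / 2) with h2 | h2
  exacts [⟨_, h.Bt_lo h2, le_rfl, this⟩, ⟨_, h.Bt_hi h2, this, le_rfl⟩]

/-- `M (max t t*)` -/
theorem Mx {μ : ℝ} (hm : Eb (max t p.ts) μ) : Eb (p.M (max t p.ts)) (a.l + 3 / 2 * μ) :=
  h.en.mul hm.rpow

/-- all three regimes at once: exponents `κ, α, μ` of `kk, al, max t t*` -/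
theorem regimes (L : OL p a) : ∃ κ α μ, Eb (p.kk t) κ ∧ Eb (p.al t) α ∧ Eb (max t p.ts) μ ∧
    ((p.tss ≤ t ∧ p.ts ≤ t ∧ a.s ≤ p.ch * a.l ∧ κ = 0 ∧ α = -(a.s / 3) ∧ μ = -a.s) ∨
     (t < p.tss ∧ p.ts ≤ t ∧ p.ch * a.l ≤ a.s ∧ a.s ≤ a.l / 2 - p.k4 * a.l ∧ κ = p.k2 * a.l ∧
        α = -(p.ch * a.l / 3) ∧ μ = -a.s) ∨
     (t < p.tss ∧ t < p.ts ∧ a.l / 2 - p.k4 * a.l ≤ a.s ∧
        κ = p.k2 * a.l + (1 + p.k3) * (p.k4 * a.l - a.l / 2 + a.s) ∧ α = -(p.ch * a.l / 3) ∧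
        μ = p.k4 * a.l - a.l / 2)) := by
  have c : p.ch * a.l ≤ a.l / 2 - p.k4 * a.l := by
    linarith [L.l0, L.l2, L.l3, L.l4, L.l5, L.l6, L.s00, L.m0]
  have e3 : ∀ y : ℝ, -(y / 3) = 1 / 3 * -y := fun y => by ring
  rcases le_or_gt p.tss t with h3 | h3
  · have b := h.tss_iff.1 h3
    have hs := h.ts_iff.2 (b.trans c)
    refine ⟨_, _, _, ?_, ?_, ?_, Or.inl ⟨h3, hs, b, rfl, rfl, rfl⟩⟩
    · rw [Pm.kk, if_pos h3]; exact Eb.one
    · rw [Pm.al, max_eq_left h3, e3]; exact h.et.rpow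
    · rw [max_eq_left hs]; exact h.et
  · have b := (not_le.1 (mt h.tss_iff.2 h3.not_ge)).le
    have al : Eb (p.al t) (-(p.ch * a.l / 3)) := by
      rw [Pm.al, max_eq_right h3.le, e3]; exact h.tss.rpow
    rcases le_or_gt p.ts t with hs | hs
    · refine ⟨_, _, _, ?_, al, ?_, Or.inr (Or.inl ⟨h3, hs, b, h.ts_iff.1 hs, rfl, rfl, rfl⟩)⟩
      · rw [Pm.kk, if_neg h3.not_ge, max_eq_left ((div_le_one h.pos).2 hs), one_rpow, mul_one]
        exact h.en.rpow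
      · rw [max_eq_left hs]; exact h.et
    · refine ⟨_, _, _, ?_, al, ?_, Or.inr (Or.inr
        ⟨h3, hs, (not_le.1 (mt h.ts_iff.2 hs.not_ge)).le, rfl, rfl, rfl⟩)⟩
      · rw [Pm.kk, if_neg h3.not_ge, max_eq_right ((one_le_div h.pos).2 hs.le), ← sub_neg_eq_add _ a.s]
        exact h.en.rpow.mul (h.ts.div h.et).rpow
      · rw [max_eq_right hs.le]; exact h.ts

/-- the loss rate -/
theorem th_lo (h2 : t < p.t2) : Ub (p.th t) (-a.cK) ∧ Lb (p.th t) (-a.cK - 10) := by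
  have := h.ueta; have := h.leta
  rw [Pm.th, if_pos h2]; constructor <;> num
theorem th_hi (h2 : p.t2 ≤ t) : Ub (p.th t) (-a.cK - a.τ) ∧ Lb (p.th t) (-a.cK - a.τ - 10) := by
  have := h.ueta; have := h.leta; have := h.t2
  rw [Pm.th, if_neg h2.not_gt]; constructor <;> num

end OA

/-- all facts of `OL` and `OA` as hypotheses -/
macro "nm_lh " L:term ", " h:term : tactic => `(tactic|
  (have ⟨_, _, _, _, _, _, _, _, _, _, _, _, _, _, _, _, _, _, _, _, _, _, _, _, _, _, _, _, _, _, _, _,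
     _, _, _, _, _, _, _, _, _, _, _⟩ := $L
   have ⟨_, _, _, _, _, _, _, _, _, _, _, _, _, _, _, _, _, _, _, _, _, _, _, _, _⟩ := $h))

end Crest.Agent.T157.Nm

end
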