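import Crest.Agent.T157.NumS_27

set_option autoImplicit false

/-!
Row 157, A2 (helper27): the regimes of `O0.Pm` in the words of `num`.
-/

noncomputable section

namespace Crest.Agent.T157.Nm

open Set Real
open Crest.Agent.T157.O0

variable {p : Pm} {t l s f u v w : ℝ}

namespace Lin
variable (L : Lin p l s f u v w) (ok : p.Ok)
include L ok

theorem s0 : 0 < s := (mul_pos_iff_of_pos_left ok.e1.1).1 (by linarith [L.u1, L.us])
theorem l0 : 0 < l := (mul_pos_iff_of_pos_left ok.e1.1).1 (by linarith [L.u1, L.uv, L.vw, L.wl])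
/-- the product that occurs in `kk` below `t*` -/
theorem k34 : 0 ≤ p.k3 * (p.k4 * l) ∧ p.k3 * (p.k4 * l) ≤ p.k3 * l / 1000 := by
  have h := L.l0 ok
  have h3 := ok.k3.1
  have h4 := ok.k4.1
  refine ⟨by positivity, ?_⟩
  have h5 : p.k4 * l ≤ l / 1000 := by linarith [L.l4, L.l5, L.l6, mul_pos h4 h]
  linarith [mul_le_mul_of_nonneg_left h5 h3.le]

end Lin

namespace At
variable (h : At p t l s f u v w)
include h

theorem pos : 0 < t := h.et.pos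
theorem tss_iff : p.tss ≤ t ↔ s ≤ p.ch * l := by rw [h.tss.le_iff h.et, neg_le_neg_iff]
theorem ts_iff : p.ts ≤ t ↔ s ≤ l / 2 - p.k4 * l := by
  rw [h.ts.le_iff h.et]; constructor <;> intro <;> linarith
theorem lt_t2 (h2 : t < p.t2) : 2 / 3 * f ≤ s := by
  have := exp_le_exp.1 ((h.et.lb.of_le h2.le).trans h.ut2.2); linarith
theorem t2_le (h2 : p.t2 ≤ t) : s ≤ 2 / 3 * f + u := by
  have := exp_le_exp.1 ((h.lt2.of_le h2).trans h.et.ub.2); linarith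
theorem base (h2 : p.t0 / 2 ≤ t) : s ≤ v + 2 := by
  have h1 := h.lt0.div (Ub.ofNat 2) two_pos
  have := exp_le_exp.1 ((h1.of_le h2).trans h.et.ub.2); linarith

theorem uBt (L : Lin p l s f u v w) : Ub (p.Bt t) v := by
  unfold Pm.Bt; split_ifs
  exacts [h.uB.mono L.uv, h.uB0]
theorem uBt' (h2 : t < p.t0 / 2) : Ub (p.Bt t) u := by rw [Pm.Bt, if_pos h2]; exact h.uB
theorem lBt : Lb (p.Bt t) 0 := by
  unfold Pm.Bt; split_ifs
  exacts [h.lB, h.lB0]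

/-- `t ≥ t**` -/
theorem R3 (h3 : p.tss ≤ t) (hs : p.ts ≤ t) : Eb (p.kk t) 0 ∧ Eb (p.al t) (-(s / 3)) ∧
    Eb (max t p.ts) (-s) := by
  refine ⟨by rw [Pm.kk, if_pos h3]; exact Eb.one, ?_, by rw [max_eq_left hs]; exact h.et⟩
  rw [Pm.al, max_eq_left h3, show -(s / 3) = 1 / 3 * -s by ring]; exact h.et.rpow

/-- `t* ≤ t < t**` -/
theorem R2 (h3 : t < p.tss) (hs : p.ts ≤ t) : Eb (p.kk t) (p.k2 * l) ∧ Eb (p.al t) (-(p.ch * l / 3)) ∧
    Eb (max t p.ts) (-s) := by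
  refine ⟨?_, ?_, by rw [max_eq_left hs]; exact h.et⟩
  · rw [Pm.kk, if_neg h3.not_ge, max_eq_left ((div_le_one h.pos).2 hs), one_rpow, mul_one]
    exact h.en.rpow
  · rw [Pm.al, max_eq_right h3.le, show -(p.ch * l / 3) = 1 / 3 * -(p.ch * l) by ring]; exact h.tss.rpow

/-- `t < t*` -/
theorem R1 (h3 : t < p.tss) (hs : t < p.ts) :
    Eb (p.kk t) (p.k2 * l + (1 + p.k3) * (p.k4 * l - l / 2 + s)) ∧ Eb (p.al t) (-(p.ch * l / 3)) ∧
    Eb (max t p.ts) (p.k4 * l - l / 2) := by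
  refine ⟨?_, ?_, by rw [max_eq_right hs.le]; exact h.ts⟩
  · rw [Pm.kk, if_neg h3.not_ge, max_eq_right ((one_le_div h.pos).2 hs.le),
      ← sub_neg_eq_add _ s]
    exact h.en.rpow.mul (h.ts.div h.et).rpow
  · rw [Pm.al, max_eq_right h3.le, show -(p.ch * l / 3) = 1 / 3 * -(p.ch * l) by ring]; exact h.tss.rpow

/-- all three regimes at once: exponents `κ, α, μ` of `kk, al, max t t*` -/
theorem regimes (L : Lin p l s f u v w) : ∃ κ α μ, Eb (p.kk t) κ ∧ Eb (p.al t) α ∧ Eb (max t p.ts) μ ∧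
    ((p.tss ≤ t ∧ p.ts ≤ t ∧ s ≤ p.ch * l ∧ κ = 0 ∧ α = -(s / 3) ∧ μ = -s) ∨
     (t < p.tss ∧ p.ts ≤ t ∧ p.ch * l ≤ s ∧ s ≤ l / 2 - p.k4 * l ∧ κ = p.k2 * l ∧
        α = -(p.ch * l / 3) ∧ μ = -s) ∨
     (t < p.tss ∧ t < p.ts ∧ l / 2 - p.k4 * l ≤ s ∧
        κ = p.k2 * l + (1 + p.k3) * (p.k4 * l - l / 2 + s) ∧ α = -(p.ch * l / 3) ∧
        μ = p.k4 * l - l / 2)) := by
  have c : p.ch * l ≤ l / 2 - p.k4 * l := by
    linarith [L.l1, L.l2, L.l3, L.l4, L.l5, L.l6, L.u1, L.uv, L.vw, L.wl]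
  rcases le_or_gt p.tss t with h3 | h3
  · have a := h.tss_iff.1 h3
    have hs := h.ts_iff.2 (a.trans c)
    obtain ⟨a1, a2, a3⟩ := h.R3 h3 hs
    exact ⟨_, _, _, a1, a2, a3, Or.inl ⟨h3, hs, a, rfl, rfl, rfl⟩⟩
  · have a := (not_le.1 (mt h.tss_iff.2 h3.not_ge)).le
    rcases le_or_gt p.ts t with hs | hs
    · obtain ⟨a1, a2, a3⟩ := h.R2 h3 hs
      exact ⟨_, _, _, a1, a2, a3, Or.inr (Or.inl ⟨h3, hs, a, h.ts_iff.1 hs, rfl, rfl, rfl⟩)⟩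
    · obtain ⟨a1, a2, a3⟩ := h.R1 h3 hs
      exact ⟨_, _, _, a1, a2, a3, Or.inr (Or.inr
        ⟨h3, hs, (not_le.1 (mt h.ts_iff.2 hs.not_ge)).le, rfl, rfl, rfl⟩)⟩

/-- a level `min (c M) (ef n (1 + t))` -/
theorem level (L : Lin p l s f u v w) (ok : p.Ok) {c a b : ℝ} (h1 : Ub c a) (h2 : Lb c b) :
    ∃ η, Eb (min (c * p.M t) (p.ef * p.n * (1 + t))) η ∧ η ≤ a + l - 3 / 2 * s ∧ η ≤ l - f + 1 ∧
      (b + l - 3 / 2 * s ≤ η ∨ l - f ≤ η) := by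
  have := h.en; have := h.et; have := h.ef; have := h.M
  have s0 := L.s0 ok
  have b1 : Lb (min (c * p.M t) (p.ef * p.n * (1 + t))) (min (b + l - 3 / 2 * s) (l - f)) :=
    Lb.min (by num) (by refine Lb.mono (Lb.mul (h.ef.mul h.en).lb (Lb.add_l h.pos.le Eb.one.lb)) ?_; linarith)
  have E := Eb.log b1.pos
  have b2 : Ub (min (c * p.M t) (p.ef * p.n * (1 + t))) (min (a + l - 3 / 2 * s) (l - f + 1)) :=
    Ub.min (by num) (by num)
  have b3 := exp_le_exp.1 (E.lb.trans b2.2)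
  exact ⟨_, E, b3.trans (min_le_left _ _), b3.trans (min_le_right _ _),
    min_le_iff.1 (exp_le_exp.1 (le_trans b1 E.ub.2))⟩

/-- the crude level -/
theorem Hc (L : Lin p l s f u v w) (ok : p.Ok) : ∃ η, Eb (p.Hc t) η ∧ η ≤ u + l - 3 / 2 * s ∧
    η ≤ l - f + 1 ∧ (t < p.t2 → l - 3 / 2 * s ≤ η) ∧ (p.t2 ≤ t → l - f - 3 / 2 * u ≤ η) := by
  obtain ⟨η, a1, a2, a3, a4⟩ := h.level L ok h.uL h.lL
  refine ⟨η, a1, a2, a3, fun h2 => ?_, fun h2 => ?_⟩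
  · have := h.lt_t2 h2
    rcases a4 with a | a <;> linarith
  · have := h.t2_le h2
    rcases a4 with a | a <;> linarith [L.u1]

/-- the sharp level, `x = -log e` -/
theorem Hs (L : Lin p l s f u v w) (ok : p.Ok) {e x : ℝ} (he : Eb e (-x)) (x0 : 0 ≤ p.A * x) :
    ∃ η, Eb (p.Hs e t) η ∧ η ≤ l - 3 / 2 * s - p.A * x ∧ η ≤ l - f + 1 ∧
    (t < p.t2 → l - 3 / 2 * s - p.A * x ≤ η) ∧ (p.t2 ≤ t → l - f - 3 / 2 * u - p.A * x ≤ η) := by
  obtain ⟨η, a1, a2, a3, a4⟩ := h.level L ok (he.pow (k := p.A)).ub (he.pow (k := p.A)).lb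
  refine ⟨η, a1, by linarith, a3, fun h2 => ?_, fun h2 => ?_⟩
  · have := h.lt_t2 h2
    rcases a4 with a | a <;> linarith
  · have := h.t2_le h2
    rcases a4 with a | a <;> linarith [L.u1]

theorem uth (L : Lin p l s f u v w) (f0 : 0 ≤ f) : Ub (p.th t) 0 := by
  have := h.ueta; have := h.ut2; have := L.u1
  unfold Pm.th; split_ifs <;> num
theorem lth (h2 : t < p.t2) : Lb (p.th t) (-u - 8) := by
  have := h.leta
  rw [Pm.th, if_pos h2]; num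
theorem lth' (L : Lin p l s f u v w) (f0 : 0 ≤ f) : Lb (p.th t) (-(2 / 3 * f) - 2 * u - 8) := by
  have := h.leta; have := h.lt2; have := L.u1
  unfold Pm.th; split_ifs <;> num

end At

/-- all facts of `Lin` and `At` as hypotheses -/
macro "nm_open " L:term ", " h:term : tactic => `(tactic|
  (have ⟨_, _, _, _, _, _, _, _, _, _, _, _, _, _, _, _, _, _, _, _, _, _, _, _, _, _, _, _⟩ := $L
   have ⟨_, _, _, _, _, _, _, _, _, _, _, _, _, _, _, _, _, _, _, _, _, _, _, _, _, _, _, _, _, _, _, _,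
     _, _, _, _, _, _, _, _, _, _, _, _, _⟩ := $h))

/-- a test: the centre condition `a1 / n`, `(H / n) k1 k2` small, in all regimes -/
example : ∀ᶠ p : Pm in FF, ∀ t ∈ Icc p.lo p.t0, t < p.t0 / 2 →
    10 ^ 7 * ((p.cq t).a1 / p.n + p.Hc t / p.n * ((p.cq t).k1 * (p.cq t).k2 + 1)) ≤ 1 := by
  filter_upwards [ev_sc 0 0 0] with p ⟨ok, H⟩ t ht h0
  obtain ⟨l, s, f, u, v, w, L, h, -⟩ := H t ht
  obtain ⟨κ, α, μ, _, _, _, hr⟩ := h.regimes L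
  obtain ⟨η, _, _, _, -⟩ := h.Hc L ok
  have := h.uBt' h0
  have := L.k34 ok
  nm_open L, h
  simp only [Pm.cq]
  rcases hr with ⟨-, -, _, rfl, rfl, rfl⟩ | ⟨-, -, _, _, rfl, rfl, rfl⟩ | ⟨-, -, _, rfl, rfl, rfl⟩ <;> num

end Crest.Agent.T157.Nm

end
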