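import Crest.Agent.T157.NumT_27
import Crest.Agent.T157.O0Def_21

set_option autoImplicit false

/-!
Row 157, A2 (helper27): the table of scales of `O0.Pm` for the tactic `num`.
`l = log n`, `s = -log t`, `f = -log ef`; `u, v, w` bound the constants chosen before `t0`, before
`ef`, before `n`.
-/

noncomputable section

namespace Crest.Agent.T157.Nm

open Filter Topology Set Real
open Crest.Agent.T157.O0

/-- linear facts about the exponents (no reference to `Ub`) -/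
structure Lin (p : Pm) (l s f u v w : ℝ) : Prop where
  u1 : 10 ^ 6 ≤ u
  uv : u ≤ v
  vw : v ≤ w
  us : 10 ^ 6 * u ≤ p.e1 * s
  vf : 10 ^ 6 * v ≤ p.e1 * f
  wl : 10 ^ 6 * w ≤ p.e1 * l
  fw : f ≤ w
  sl : s ≤ 2 / 3 * l - p.d * l
  l1 : p.e1 * l ≤ p.k3 * l / 100
  l2 : p.k3 * l ≤ p.k2 * l / 100
  l3 : p.k2 * l ≤ p.k4 * l / 100
  l4 : p.k4 * l ≤ p.d * l / 100
  l5 : p.d * l ≤ p.ch * l / 100
  l6 : p.ch * l ≤ l / 1000
  s1 : p.e1 * s ≤ p.k3 * s / 100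
  s2 : p.k3 * s ≤ p.k2 * s / 100
  s3 : p.k2 * s ≤ p.k4 * s / 100
  s4 : p.k4 * s ≤ p.d * s / 100
  s5 : p.d * s ≤ p.ch * s / 100
  s6 : p.ch * s ≤ s / 1000
  m1 : p.e1 * s ≤ p.e1 * l
  m2 : p.k3 * s ≤ p.k3 * l
  m3 : p.k2 * s ≤ p.k2 * l
  m4 : p.k4 * s ≤ p.k4 * l
  m5 : p.d * s ≤ p.d * l
  m6 : p.ch * s ≤ p.ch * l
  f1 : p.e1 * f ≤ p.k3 * f / 100
  f2 : p.k3 * f ≤ f / 1000

/-- the atoms -/
structure At (p : Pm) (t l s f u v w : ℝ) : Prop where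
  en : Eb (p.n : ℝ) l
  et : Eb t (-s)
  ef : Eb p.ef (-f)
  uL : Ub p.L u
  uT : Ub p.T u
  uC : Ub p.C u
  uK : Ub p.K u
  uA : Ub (p.A : ℝ) u
  uLp : Ub p.Lp u
  uB : Ub p.B u
  uK0 : Ub p.K0 v
  uB0 : Ub p.B0 v
  uB2 : Ub p.B2 w
  uCn : Ub p.Cn w
  lL : Lb p.L 0
  lT : Lb p.T 0
  lC : Lb p.C 0
  lK : Lb p.K 0
  lA : Lb (p.A : ℝ) 0
  lLp : Lb p.Lp 0
  lB : Lb p.B 0
  lK0 : Lb p.K0 0
  lB0 : Lb p.B0 0
  lB2 : Lb p.B2 0
  lCn : Lb p.Cn 0
  ue1 : Ub p.e1 0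
  le1 : Lb p.e1 (-u)
  le1A : Lb (p.e1 ^ p.A) (-u)
  uk3 : Ub p.k3 0
  lk3 : Lb p.k3 (-u)
  ucv : Ub p.cv 0
  lcv : Lb p.cv (-u)
  ueta : Ub p.eta 0
  leta : Lb p.eta (-u)
  ut0 : Ub p.t0 0
  lt0 : Lb p.t0 (-v)
  ulog : Ub (Real.log p.n) (p.e1 * l)
  llog : Lb (Real.log p.n) 0
  uls : Ub (-Real.log t) (p.e1 * s)
  ts : Eb p.ts (p.k4 * l - l / 2)
  tss : Eb p.tss (-(p.ch * l))
  lo : Eb p.lo (p.d * l - 2 / 3 * l)
  M : Eb (p.M t) (l - 3 / 2 * s)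
  ut2 : Ub p.t2 (-(2 / 3 * f))
  lt2 : Lb p.t2 (-(2 / 3 * f) - u)

/-- the constants chosen before `t0` -/
def cU (p : Pm) : ℝ := 10 ^ 6 + p.L + p.T + p.C + 4 * p.K + p.A + p.Lp + p.B + 1 / p.e1 +
  1 / p.e1 ^ p.A + 1 / p.cv + 4 / p.e1 ^ 2

theorem ev_neg_log (a c : ℝ) : ∀ᶠ x in 𝓝[>] (0 : ℝ), 0 < a → c ≤ a * -Real.log x := by
  by_cases h : 0 < a
  · filter_upwards [(tendsto_neg_atBot_atTop.comp tendsto_log_nhdsGT_zero).eventually_ge_atTop (c / a)]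
      with x hx _ using (div_le_iff₀' h).1 hx
  · exact Eventually.of_forall fun _ h' => absurd h' h

theorem ev_log_n (a c : ℝ) : ∀ᶠ n : ℕ in atTop, 0 < a → c ≤ a * Real.log n := by
  by_cases h : 0 < a
  · filter_upwards [(tendsto_log_atTop.comp tendsto_natCast_atTop_atTop).eventually_ge_atTop (c / a)]
      with x hx _ using (div_le_iff₀' h).1 hx
  · exact Eventually.of_forall fun _ h' => absurd h' h

theorem ub_slow {e x : ℝ} (he : 0 < e) (h : 4 / e ^ 2 ≤ x) : Ub x (e * x) := by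
  have h0 : 0 < x := lt_of_lt_of_le (by positivity) h
  refine ⟨h0.le, ?_⟩
  have h1 := add_one_le_exp (e * x / 2)
  have h2 : exp (e * x) = exp (e * x / 2) ^ 2 := by rw [← exp_nat_mul]; congr 1; push_cast; ring
  have h3 := pow_le_pow_left₀ (by positivity) h1 2
  rw [div_le_iff₀ (by positivity)] at h
  rw [h2]
  nlinarith [mul_pos he h0]

set_option maxHeartbeats 1000000 in
/-- **the table**; `c1, c2, c3` are further constants of the three generations -/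
theorem ev_sc (c1 c2 c3 : Pm → ℝ) : ∀ᶠ p in FF, p.Ok ∧ ∀ t ∈ Icc p.lo p.t0, ∃ l s f u v w : ℝ,
    Lin p l s f u v w ∧ At p t l s f u v w ∧ c1 p.ut0 ≤ u ∧ c2 p.uef ≤ v ∧
      c3 { p with n := 0 } ≤ w := by
  set U : Pm → ℝ := fun q => cU q + |c1 q| with hU
  set V : Pm → ℝ := fun q => U q.ut0 + q.K0 + q.B0 + 1 / q.t0 + |c2 q| with hV
  set W : Pm → ℝ := fun q => V q.uef + q.B2 + q.Cn - Real.log q.ef + |c3 { q with n := 0 }| with hW
  filter_upwards [ev_ok, ev_t0 fun q => ev_neg_log q.e1 (10 ^ 6 * U q),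
    ev_ef fun q => ev_neg_log q.e1 (10 ^ 6 * V q),
    ev_n (Q := fun q => 0 < q.e1 → 10 ^ 6 * W q ≤ q.e1 * Real.log q.n)
      fun q => ev_log_n q.e1 (10 ^ 6 * W q)] with p ok a1 a2 a3
  refine ⟨ok, fun t ht => ?_⟩
  have e0 := ok.e1.1
  have ⟨k30, k20, k40, d0, ch0, cv0, t00, f0⟩ : 0 < p.k3 ∧ 0 < p.k2 ∧ 0 < p.k4 ∧ 0 < p.d ∧ 0 < p.ch ∧
    0 < p.cv ∧ 0 < p.t0 ∧ 0 < p.ef := ⟨ok.k3.1, ok.k2.1, ok.k4.1, ok.d.1, ok.ch.1, ok.cv, ok.t0.1, ok.ef⟩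
  replace a1 : 10 ^ 6 * U p.ut0 ≤ p.e1 * -Real.log p.t0 := a1 e0
  replace a2 : 10 ^ 6 * V p.uef ≤ p.e1 * -Real.log p.ef := a2 e0
  replace a3 := a3 e0
  have A1 : (1 : ℝ) ≤ p.A := by exact_mod_cast ok.A
  have ⟨hL, hT, hC, hK, hLp, hB, hK0, hB0, hB0', hB2, hCn⟩ := And.intro ok.L <| And.intro ok.T <|
    And.intro ok.C <| And.intro ok.K <| And.intro ok.Lp <| And.intro ok.B <| And.intro ok.K0 <|
    And.intro ok.B0 <| And.intro ok.B0' <| And.intro ok.B2 ok.Cn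
  have eU : U p.ut0 = 10 ^ 6 + p.L + p.T + p.C + 4 * p.K + p.A + p.Lp + p.B + 1 / p.e1 +
    1 / p.e1 ^ p.A + 1 / p.cv + 4 / p.e1 ^ 2 + |c1 p.ut0| := rfl
  have eV : V p.uef = U p.ut0 + p.K0 + p.B0 + 1 / p.t0 + |c2 p.uef| := rfl
  have eW : W p = V p.uef + p.B2 + p.Cn - Real.log p.ef + |c3 { p with n := 0 }| := rfl
  generalize U p.ut0 = u at *
  generalize V p.uef = v at *
  generalize W p = w at *
  clear hU hV hW
  clear_value U V W
  have ⟨p1, p2, p3, p4, p5, p6, p7, p8⟩ : 0 < 1 / p.e1 ∧ 0 < 1 / p.e1 ^ p.A ∧ 0 < 1 / p.cv ∧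
      0 < 4 / p.e1 ^ 2 ∧ 0 < 1 / p.t0 ∧ 0 ≤ |c1 p.ut0| ∧ 0 ≤ |c2 p.uef| ∧ 0 ≤ |c3 { p with n := 0 }| := by
    refine ⟨?_, ?_, ?_, ?_, ?_, ?_, ?_, ?_⟩ <;> positivity
  have ⟨c6, c5, c4, c3', c2', c1'⟩ := And.intro ok.ch.2 <| And.intro ok.d.2 <| And.intro ok.k4.2 <|
    And.intro ok.k2.2 <| And.intro ok.k3.2 ok.e1.2
  have u1 : 10 ^ 6 ≤ u := by linarith
  have ef1 : p.ef ≤ 1 := ok.ef'.trans (pow_le_one₀ t00.le (by linarith [ok.t0.2]))
  have f1 : 0 ≤ -Real.log p.ef := neg_nonneg.2 (log_nonpos f0.le ef1)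
  have uv : u ≤ v := by linarith
  have vw : v ≤ w := by linarith
  have l0 : 0 < Real.log p.n := (mul_pos_iff_of_pos_left e0).1 (by linarith)
  have n1 : (1 : ℝ) < p.n := (log_pos_iff (Nat.cast_nonneg _)).1 l0
  have En : Eb (p.n : ℝ) (Real.log p.n) := Eb.log (by linarith)
  have Elo : Eb p.lo (p.d * Real.log p.n - 2 / 3 * Real.log p.n) := En.rpow.div En.rpow
  have t0 : 0 < t := Elo.pos.trans_le ht.1
  have Et : Eb t (- -Real.log t) := by rw [neg_neg]; exact Eb.log t0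
  have Ef : Eb p.ef (- -Real.log p.ef) := by rw [neg_neg]; exact Eb.log f0
  have sl := (Elo.le_iff Et).1 ht.1
  have s0 : -Real.log p.t0 ≤ -Real.log t := neg_le_neg (log_le_log t0 ht.2)
  have us := a1.trans (mul_le_mul_of_nonneg_left s0 e0.le)
  have e1 : p.e1 ≤ 1 := by linarith
  generalize hl : Real.log p.n = l at *
  generalize hs : -Real.log t = s at *
  generalize hf : -Real.log p.ef = f at *
  have s1 : 0 < s := (mul_pos_iff_of_pos_left e0).1 (by linarith)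
  have sl' : s ≤ l := by linarith [mul_pos d0 l0]
  have m : ∀ {x y z : ℝ}, 0 ≤ z → x ≤ y / 100 → x * z ≤ y * z / 100 := fun hz h => by
    linarith [mul_le_mul_of_nonneg_right h hz]
  have m' : ∀ {x : ℝ}, 0 < x → x * s ≤ x * l := fun h => mul_le_mul_of_nonneg_left sl' h.le
  have cv1 : p.cv ≤ 1 := by nlinarith [ok.cv']
  have eta : 1 / p.eta = 4 * p.K := by rw [Pm.eta, one_div_one_div]
  have eta0 : 0 < p.eta := by unfold Pm.eta; positivity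
  have uL : Ub p.L u := Ub.self (by linarith) (by linarith)
  have lL : Lb p.L 0 := Lb.of_one (by linarith)
  refine ⟨l, s, f, u, v, w, ⟨u1, uv, vw, us, a2, a3, by linarith, by linarith, m l0.le c1', m l0.le c2',
    m l0.le c3', m l0.le c4, m l0.le c5, by linarith [mul_le_mul_of_nonneg_right c6 l0.le],
    m s1.le c1', m s1.le c2', m s1.le c3', m s1.le c4, m s1.le c5,
    by linarith [mul_le_mul_of_nonneg_right c6 s1.le], m' e0, m' k30, m' k20, m' k40, m' d0, m' ch0,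
    m f1 c1', by linarith [mul_le_mul_of_nonneg_right (show p.k3 ≤ 1 / 1000 by linarith) f1]⟩,
    ⟨En, Et, Ef, uL, ?_, ?_, ?_, ?_, ?_, ?_, ?_, ?_, ?_, ?_, lL, ?_, ?_, ?_, ?_, ?_, ?_, ?_, ?_, ?_, ?_,
      Ub.of_one e0.le e1, Lb.self e0 (by linarith), Lb.self (by positivity) (by linarith),
      Ub.of_one k30.le (by linarith),
      Lb.self k30 ((one_div_le_one_div_of_le e0 (by linarith)).trans (by linarith)),
      Ub.of_one cv0.le cv1, Lb.self cv0 (by linarith),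
      Ub.of_one eta0.le (by rw [Pm.eta, div_le_one (by linarith)]; linarith),
      Lb.self eta0 (by linarith), Ub.of_one t00.le (by linarith [ok.t0.2]), Lb.self t00 (by linarith),
      ?_, ?_, ?_, ?_, ?_, Elo, ?_, ?_, ?_⟩,
    by linarith [le_abs_self (c1 p.ut0)], by linarith [le_abs_self (c2 p.uef)],
    by linarith [le_abs_self (c3 { p with n := 0 })]⟩
  iterate 10 exact Ub.self (by linarith) (by linarith)
  iterate 10 exact Lb.of_one (by linarith)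
  · rw [hl]; exact ub_slow e0 (by linarith [mul_le_mul_of_nonneg_right e1 l0.le])
  · rw [hl]; exact Lb.of_one (by linarith [mul_le_mul_of_nonneg_right e1 l0.le])
  · rw [hs]; exact ub_slow e0 (by linarith [mul_le_mul_of_nonneg_right e1 s1.le])
  · have := En.rpow (y := p.k4 - 1 / 2)
    rwa [show (p.k4 - 1 / 2) * l = p.k4 * l - l / 2 by ring] at this
  · have := En.rpow (y := -p.ch)
    rwa [neg_mul] at this
  · have := En.mul (Et.rpow (y := 3 / 2))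
    rwa [show l + 3 / 2 * -s = l - 3 / 2 * s by ring] at this
  · unfold Pm.t2; num
  · unfold Pm.t2; num

/-- the admissible errors -/
theorem At.er {p : Pm} {t l s f u v w e : ℝ} (ok : p.Ok) (L : Lin p l s f u v w)
    (h : At p t l s f u v w) (he : p.Er e t) : ∃ x, Eb e (-x) ∧ 0 ≤ x ∧ x ≤ p.A * x ∧
      p.A * x ≤ p.k3 * s / 100 ∧ p.A * x ≤ p.k3 * l / 100 := by
  have E : Eb e (- -Real.log e) := by rw [neg_neg]; exact Eb.log he.1
  have b1 := (h.et.rpow.le_iff E).1 he.2.2.1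
  have A1 : (1 : ℝ) ≤ p.A := by exact_mod_cast ok.A
  have x0 : 0 ≤ -Real.log e := neg_nonneg.2 (log_nonpos he.1.le (he.2.1.trans (by
    linarith [ok.e1.2, ok.k3.2, ok.k2.2, ok.k4.2, ok.d.2, ok.ch.2])))
  have s0 : 0 ≤ s := ((mul_pos_iff_of_pos_left ok.e1.1).1 (by linarith [L.u1, L.us])).le
  have b2 := mul_le_mul_of_nonneg_left (show -Real.log e ≤ p.cv * s by linarith) (zero_le_one.trans A1)
  have b3 := mul_le_mul_of_nonneg_right ok.cv' s0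
  exact ⟨_, E, x0, le_mul_of_one_le_left x0 A1, by linarith, by linarith [L.m2]⟩

end Crest.Agent.T157.Nm

end
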