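import Crest.Agent.T157.OgDef_9

set_option autoImplicit false
set_option linter.unusedSectionVars false

/-!
Row 157, A2 (helper9): tools for the numerical leaves of the orbit step.
-/

noncomputable section

namespace Crest.Agent.T157.Og

open Filter Topology Set
open Crest.Agent.T157.Oo Crest.Agent.T157.O6 Crest.Agent.T157.O0

theorem ev_lg (q : Pm) : ∀ᶠ n : ℕ in atTop, q.B2 ^ 100 ≤ Real.log n ∧ Real.exp q.B2 ≤ Real.log n ∧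
    (0 < q.cv → Real.log n ^ 100 ≤ (n : ℝ) ^ q.cv) := by
  have h := Real.tendsto_log_atTop.comp (tendsto_natCast_atTop_atTop (R := ℝ))
  refine (h.eventually_ge_atTop _).and ((h.eventually_ge_atTop _).and ?_)
  by_cases hc : 0 < q.cv
  · have h1 := (isLittleO_log_rpow_rpow_atTop (100 : ℝ) hc).bound one_pos
    filter_upwards [(tendsto_natCast_atTop_atTop (R := ℝ)).eventually h1] with n hn _
    rw [one_mul, Real.norm_eq_abs, Real.norm_eq_abs,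
      abs_of_nonneg (Real.rpow_nonneg (Nat.cast_nonneg n) _)] at hn
    refine le_trans ?_ ((le_abs_self _).trans hn)
    rw [show (100 : ℝ) = ((100 : ℕ) : ℝ) by norm_num, Real.rpow_natCast]
  · exact Eventually.of_forall fun _ h => absurd h hc

theorem ev_ord : ∀ᶠ p in FF, Ord p := by
  filter_upwards [ev_ok, ev_C fun q => ev_ge (10 ^ 10 * q.L ^ 10), ev_K fun q => ev_ge (q.C ^ 10),
    ev_A (Q := fun _ x => 100 ≤ x) fun _ => eventually_ge_atTop _,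
    ev_e1 fun q => ev_sm (1 / q.K ^ 10), ev_B fun q => ev_ge (q.K ^ 10),
    ev_t0 fun q => ev_sm (1 / q.B ^ 1000),
    ev_B0 fun q => (ev_ge (1 / q.t0 ^ 10)).and (ev_ge (q.K0 ^ 10)),
    ev_ef fun q => ev_sm (1 / q.B0 ^ 1000), ev_B2 fun q => ev_ge (1 / q.ef ^ 10),
    ev_n (Q := fun p => p.B2 ^ 100 ≤ Real.log p.n ∧ Real.exp p.B2 ≤ Real.log p.n ∧
      (0 < p.cv → Real.log p.n ^ 100 ≤ (p.n : ℝ) ^ p.cv)) fun q => ev_lg q]
    with p ok hC hK hA he hB ht hB0 hf hB2 hn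
  have K0 : 0 < p.K := by linarith [ok.K]
  have B0 : 0 < p.B := by linarith [ok.B]
  have B00 : 0 < p.B0 := by linarith [ok.B0]
  refine ⟨ok, hC, hK, hA, ?_, hB, ?_, ?_, hB0.2, ?_, ?_, hn.1, hn.2.1, hn.2.2 ok.cv⟩
  · exact (le_div_iff₀ (pow_pos K0 10)).1 (he.2 (one_div_pos.2 (pow_pos K0 10)))
  · exact (le_div_iff₀ (pow_pos B0 1000)).1 (ht.2 (one_div_pos.2 (pow_pos B0 1000)))
  · exact (div_le_iff₀ (pow_pos ok.t0.1 10)).1 hB0.1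
  · exact (le_div_iff₀ (pow_pos B00 1000)).1 (hf.2 (one_div_pos.2 (pow_pos B00 1000)))
  · exact (div_le_iff₀ (pow_pos ok.ef 10)).1 hB2

theorem le_pw {x : ℝ} (h : 1 ≤ x) {j : ℕ} (hj : j ≠ 0) : x ≤ x ^ j := le_self_pow₀ h hj

variable {p : Pm} {t ε H : ℝ}

namespace Ord

variable (h : Ord p)
include h

theorem L1 : 1 ≤ p.L := by linarith [h.ok.L]
theorem LC : p.L ^ 10 ≤ p.C := by nlinarith [h.C, one_le_pow₀ (n := 10) h.L1]
theorem Cb : 10 ^ 10 ≤ p.C := by nlinarith [h.C, one_le_pow₀ (n := 10) h.L1]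
theorem LC' : p.L ≤ p.C := (le_pw h.L1 (by norm_num)).trans h.LC
theorem CK : p.C ≤ p.K := (le_pw h.ok.C (by norm_num)).trans h.K
theorem KB : p.K ≤ p.B := h.ok.B
theorem B1 : 1 ≤ p.B := h.ok.K.trans h.KB
theorem Bb : 10 ^ 10 ≤ p.B := h.Cb.trans (h.CK.trans h.KB)
/-- `B ^ 10000 ≤ B0` -/
theorem BB0 : p.B ^ 10000 ≤ p.B0 := by
  have h1 : (p.t0 * p.B ^ 1000) ^ 10 ≤ 1 := pow_le_one₀ (mul_nonneg h.ok.t0.1.le
    (pow_nonneg (by linarith [h.B1]) _)) h.t0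
  rw [mul_pow, ← pow_mul] at h1
  exact le_of_mul_le_mul_left (h1.trans (h.B0.trans_eq (mul_comm _ _))) (pow_pos h.ok.t0.1 10)
theorem B01 : 1 ≤ p.B0 := h.B1.trans h.ok.B0
theorem B0b : 10 ^ 10 ≤ p.B0 := h.Bb.trans h.ok.B0
/-- `B0 ^ 10000 ≤ B2` -/
theorem B0B2 : p.B0 ^ 10000 ≤ p.B2 := by
  have h1 : (p.ef * p.B0 ^ 1000) ^ 10 ≤ 1 := pow_le_one₀ (mul_nonneg h.ok.ef.le
    (pow_nonneg (by linarith [h.B01]) _)) h.ef
  rw [mul_pow, ← pow_mul] at h1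
  exact le_of_mul_le_mul_left (h1.trans (h.B2.trans_eq (mul_comm _ _))) (pow_pos h.ok.ef 10)
theorem B21 : 1 ≤ p.B2 := h.B01.trans h.ok.B2
theorem B2b : 10 ^ 10 ≤ p.B2 := h.B0b.trans h.ok.B2
theorem ef1 : p.ef ≤ 1 := by nlinarith [h.ef, one_le_pow₀ (n := 1000) h.B01, h.ok.ef]
theorem efB2 : 1 ≤ p.B2 * p.ef := h.B2.trans (mul_le_mul_of_nonneg_left
  (pow_le_of_le_one h.ok.ef.le h.ef1 (by norm_num)) (by linarith [h.B21]))
theorem B2lg : p.B2 ≤ lg p := (le_pw h.B21 (by norm_num)).trans h.n1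
theorem lgb : 10 ^ 10 ≤ lg p := h.B2b.trans h.B2lg
theorem lg1 : 1 ≤ lg p := by linarith [h.lgb]
theorem N1 : 1 < (p.n : ℝ) := (Real.log_pos_iff (Nat.cast_nonneg _)).1 (by linarith [h.lg1, show lg p = Real.log p.n from rfl])
theorem N0 : 0 < (p.n : ℝ) := by linarith [h.N1]
theorem rp_le {x y : ℝ} (e : x ≤ y) : (p.n : ℝ) ^ x ≤ (p.n : ℝ) ^ y :=
  Real.rpow_le_rpow_of_exponent_le h.N1.le e
theorem rp_add (x y : ℝ) : (p.n : ℝ) ^ x * (p.n : ℝ) ^ y = (p.n : ℝ) ^ (x + y) :=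
  (Real.rpow_add h.N0 x y).symm
theorem rp_pos (x : ℝ) : 0 < (p.n : ℝ) ^ x := Real.rpow_pos_of_pos h.N0 x
theorem rp_rp (x y : ℝ) : ((p.n : ℝ) ^ x) ^ y = (p.n : ℝ) ^ (x * y) := (Real.rpow_mul h.N0.le x y).symm
theorem rp_pow (x : ℝ) (j : ℕ) : ((p.n : ℝ) ^ x) ^ j = (p.n : ℝ) ^ (x * j) := by
  rw [← h.rp_rp, Real.rpow_natCast]
theorem rp_one {x : ℝ} (e : 0 ≤ x) : 1 ≤ (p.n : ℝ) ^ x := Real.one_le_rpow h.N1.le e
theorem rp_N {x : ℝ} (e : x ≤ 1) : (p.n : ℝ) ^ x ≤ p.n := (h.rp_le e).trans_eq (Real.rpow_one _)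
theorem rp_inv (x : ℝ) : ((p.n : ℝ) ^ x)⁻¹ = (p.n : ℝ) ^ (-x) := (Real.rpow_neg h.N0.le x).symm
/-- powers of the logarithm -/
theorem lg_pow {j : ℕ} (hj : j ≤ 100) : lg p ^ j ≤ (p.n : ℝ) ^ p.cv :=
  (pow_le_pow_right₀ h.lg1 hj).trans h.n3
/-- every constant is below `log n` -/
theorem cst' {a : ℝ} (e : a ≤ p.B2 ^ 100) : a ≤ lg p := e.trans h.n1
/-- every constant is below `n ^ cv` -/
theorem cst {a : ℝ} (e : a ≤ p.B2 ^ 100) : a ≤ (p.n : ℝ) ^ p.cv :=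
  (h.cst' e).trans ((pow_one _).symm.trans_le (h.lg_pow (by norm_num)))
/-- `c * B0 ^ j ≤ B2` -/
theorem cB0 {c : ℝ} (hc : c ≤ 10 ^ 10) {j : ℕ} (hj : j ≤ 9999) : c * p.B0 ^ j ≤ p.B2 := by
  refine le_trans ?_ ((pow_le_pow_right₀ h.B01 (show j + 1 ≤ 10000 by omega)).trans h.B0B2)
  rw [pow_succ']
  exact mul_le_mul_of_nonneg_right (hc.trans h.B0b) (pow_nonneg (by linarith [h.B01]) _)
theorem cstB0 {c : ℝ} (hc : c ≤ 10 ^ 10) {j : ℕ} (hj : j ≤ 9999) : c * p.B0 ^ j ≤ (p.n : ℝ) ^ p.cv :=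
  h.cst ((h.cB0 hc hj).trans (le_pw h.B21 (by norm_num)))
/-- the exponents, linear form (for `linarith`) -/
theorem ex : 0 < p.cv ∧ 10000 * p.cv ≤ p.k3 ∧ 100 * p.k3 ≤ p.k2 ∧ 100 * p.k2 ≤ p.k4 ∧
    100 * p.k4 ≤ p.d ∧ 100 * p.d ≤ p.ch ∧ 1000 * p.ch ≤ 1 ∧ 100 * (p.A * p.cv) ≤ p.k3 := by
  have a : (100 : ℝ) ≤ p.A := by exact_mod_cast h.A
  have o := h.ok
  refine ⟨o.cv, ?_, ?_, ?_, ?_, ?_, ?_, ?_⟩ <;>
    nlinarith [o.cv, o.cv', o.k3.2, o.k2.2, o.k4.2, o.d.2, o.ch.2]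
theorem Nb : 10 ^ 100 ≤ (p.n : ℝ) := by
  obtain ⟨_, _, _, _, _, _, _, _⟩ := h.ex
  refine le_trans ?_ ((h.lg_pow (j := 10) (by norm_num)).trans (h.rp_N (by linarith)))
  exact le_trans (by norm_num) (pow_le_pow_left₀ (by norm_num) h.lgb 10)
theorem ro_ge : (p.n : ℝ) / 2 ≤ ro p := by unfold ro; linarith [h.Nb]
theorem ro_le : ro p ≤ p.n := by unfold ro; linarith
theorem ro_pos : 0 < ro p := by linarith [h.ro_ge, h.N0]
theorem t2_pos : 0 < p.t2 := Real.rpow_pos_of_pos (div_pos h.ok.ef (by linarith [h.L1])) _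
/-- `t2 ^ (3 / 2) = ef / (2 L)` -/
theorem t2_pow : p.t2 ^ (3 / 2 : ℝ) = p.ef / (2 * p.L) := by
  rw [Pm.t2, ← Real.rpow_mul (div_pos h.ok.ef (by linarith [h.L1])).le]; norm_num
theorem t2_le : p.t2 * p.B0 ^ 600 ≤ 1 := by
  have e0 := h.ok.ef
  have b0 : 0 < p.B0 := by linarith [h.B01]
  have h1 : p.ef / (2 * p.L) ≤ ((p.B0 ^ 600)⁻¹) ^ (3 / 2 : ℝ) := by
    rw [Real.inv_rpow (by positivity), ← Real.rpow_natCast, ← Real.rpow_mul b0.le]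
    rw [show ((600 : ℕ) : ℝ) * (3 / 2) = ((900 : ℕ) : ℝ) by norm_num, Real.rpow_natCast]
    refine (div_le_self e0.le (by linarith [h.L1])).trans ?_
    rw [← one_div, le_div_iff₀ (by positivity)]
    exact (mul_le_mul_of_nonneg_left (pow_le_pow_right₀ h.B01 (by norm_num)) e0.le).trans h.ef
  rw [← h.t2_pow, Real.rpow_le_rpow_iff h.t2_pos.le (by positivity) (by norm_num)] at h1
  rwa [← one_div, le_div_iff₀ (by positivity)] at h1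
theorem t2_ge : 1 ≤ p.t2 * p.B2 ^ 2 := by
  have h1 : p.ef / (2 * p.L) ≤ 1 := div_le_one_of_le₀ (by linarith [h.ef1, h.L1]) (by linarith [h.L1])
  have h2 : p.ef / (2 * p.L) ≤ p.t2 := by
    refine le_trans (le_of_eq (Real.rpow_one _).symm) (Real.rpow_le_rpow_of_exponent_ge
      (div_pos h.ok.ef (by linarith [h.L1])) h1 (by norm_num))
  rw [div_le_iff₀ (by linarith [h.L1])] at h2
  have h3 : 2 * p.L ≤ p.B2 := by
    have := h.cB0 (c := 2) (by norm_num) (j := 1) (by norm_num)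
    linarith [h.LC', h.CK, h.KB, h.ok.B0]
  have h4 := mul_le_mul_of_nonneg_left h3 h.t2_pos.le
  nlinarith [h.efB2, h.B21]
theorem t2_t0 : p.t2 ≤ p.t0 / 2 := by
  have h1 : p.t0 ^ 10 ≤ p.t0 := pow_le_of_le_one h.ok.t0.1.le (by linarith [h.ok.t0.2]) (by norm_num)
  have h2 : 2 * p.B0 ≤ p.B0 ^ 600 := le_trans (by nlinarith [h.B0b])
    (pow_le_pow_right₀ h.B01 (show 2 ≤ 600 by norm_num))
  have h3 := mul_le_mul_of_nonneg_left h2 h.t2_pos.le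
  have h4 := mul_le_mul_of_nonneg_left h1 (by linarith [h.B01] : 0 ≤ p.B0)
  have h5 : p.B0 * (2 * p.t2) ≤ p.B0 * p.t0 := by linarith [h.t2_le, h.B0]
  linarith [le_of_mul_le_mul_left h5 (by linarith [h.B01])]
theorem tss_t2 : p.tss ≤ p.t2 := by
  obtain ⟨_, _, _, _, _, _, _, _⟩ := h.ex
  have h1 : p.B2 ^ 2 ≤ (p.n : ℝ) ^ p.ch :=
    (h.cst (pow_le_pow_right₀ h.B21 (by norm_num))).trans (h.rp_le (by linarith))
  rw [Pm.tss, ← h.rp_inv, inv_le_iff_one_le_mul₀ (h.rp_pos _)]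
  exact h.t2_ge.trans (mul_le_mul_of_nonneg_left h1 h.t2_pos.le)
theorem ts_tss : p.ts ≤ p.tss := by
  obtain ⟨_, _, _, _, _, _, _, _⟩ := h.ex
  exact h.rp_le (by linarith)
theorem lo_eq : p.lo = (p.n : ℝ) ^ (p.d - 2 / 3) := (Real.rpow_sub h.N0 _ _).symm
theorem MM_le : MM (RR p) ≤ (p.n : ℝ) ^ 9 := by
  rw [MM, RR, mul_pow, ← mul_assoc, pow_succ' _ 8]
  exact mul_le_mul_of_nonneg_right (le_trans (by norm_num) h.Nb) (by positivity)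

theorem lh_c (ht : t ∈ Icc p.lo p.t0) : LH p t 1 (p.Hc t) := by
  have t0 : 0 < t := (h.lo_eq ▸ h.rp_pos _).trans_le ht.1
  have t1 : t ≤ 1 := by linarith [ht.2, h.ok.t0.2]
  have M0 : 0 ≤ p.M t := by unfold Pm.M; positivity
  have e0 := mul_pos h.ok.ef h.N0
  refine ⟨h, ht.1, ht.2, one_pos, le_rfl, Real.rpow_le_one t0.le t1 h.ok.cv.le,
    Real.rpow_le_one_of_one_le_of_nonpos h.N1.le (by linarith [h.ok.cv]),
    min_le_min (by rw [one_pow]; nlinarith [h.L1]) (by nlinarith), (min_le_left _ _).trans_eq (by ring),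
    (min_le_right _ _).trans (by nlinarith)⟩

theorem lh_s {e : ℝ} (ht : t ∈ Icc p.lo p.t0) (he : p.Er e t) : LH p t e (p.Hs e t) := by
  have t0 : 0 < t := (h.lo_eq ▸ h.rp_pos _).trans_le ht.1
  have t1 : t ≤ 1 := by linarith [ht.2, h.ok.t0.2]
  have M0 : 0 ≤ p.M t := by unfold Pm.M; positivity
  have e0 := mul_pos h.ok.ef h.N0
  obtain ⟨_, _, _, _, _, _, _, _⟩ := h.ex
  have e1 : e ≤ 1 := by linarith [he.2.1, h.ok.e1.2]
  refine ⟨h, ht.1, ht.2, he.1, e1, he.2.2.1, he.2.2.2, min_le_min le_rfl (by nlinarith),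
    (min_le_left _ _).trans (mul_le_mul_of_nonneg_right ?_ M0), (min_le_right _ _).trans (by nlinarith)⟩
  have := pow_le_pow_of_le_one he.1.le e1 (show 4 ≤ p.A by linarith [h.A])
  nlinarith [h.L1, pow_pos he.1 4]

end Ord

/-- `t ^ (-k3)` -/
def uu (p : Pm) (t : ℝ) : ℝ := (t ^ p.k3)⁻¹

namespace LH

variable (h : LH p t ε H)
include h

theorem t0 : 0 < t := (h.ord.lo_eq ▸ h.ord.rp_pos _).trans_le h.lo
theorem t1 : t ≤ 1 := by linarith [h.hi, h.ord.ok.t0.2]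
theorem tB : t * p.B ^ 1000 ≤ 1 :=
  (mul_le_mul_of_nonneg_right h.hi (pow_nonneg (by linarith [h.ord.B1]) _)).trans h.ord.t0
/-- `t ^ (1 / m) * B ^ j ≤ 1` -/
theorem tB' {a : ℝ} {j : ℕ} (e : (j : ℝ) ≤ 1000 * a) : t ^ a * p.B ^ j ≤ 1 := by
  have b0 : 0 < p.B := by linarith [h.ord.B1]
  have a0 : 0 ≤ a := by linarith [Nat.cast_nonneg (α := ℝ) j]
  have h1 := Real.rpow_le_one (mul_nonneg h.t0.le (pow_nonneg b0.le _)) h.tB a0
  rw [Real.mul_rpow h.t0.le (pow_nonneg b0.le _), ← Real.rpow_natCast, ← Real.rpow_mul b0.le] at h1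
  refine le_trans (mul_le_mul_of_nonneg_left ?_ (Real.rpow_nonneg h.t0.le _)) h1
  rw [← Real.rpow_natCast]
  exact Real.rpow_le_rpow_of_exponent_le h.ord.B1 (by simpa using e)
/-- below `t2` also `B0` is beaten -/
theorem tB0 (h2 : t < p.t2) {a : ℝ} {j : ℕ} (e : (j : ℝ) ≤ 600 * a) : t ^ a * p.B0 ^ j ≤ 1 := by
  have b0 : 0 < p.B0 := by linarith [h.ord.B01]
  have a0 : 0 ≤ a := by linarith [Nat.cast_nonneg (α := ℝ) j]
  have h1 := Real.rpow_le_one (mul_nonneg h.t0.le (pow_nonneg b0.le _))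
    ((mul_le_mul_of_nonneg_right h2.le (pow_nonneg b0.le _)).trans h.ord.t2_le) a0
  rw [Real.mul_rpow h.t0.le (pow_nonneg b0.le _), ← Real.rpow_natCast, ← Real.rpow_mul b0.le] at h1
  refine le_trans (mul_le_mul_of_nonneg_left ?_ (Real.rpow_nonneg h.t0.le _)) h1
  rw [← Real.rpow_natCast]
  exact Real.rpow_le_rpow_of_exponent_le h.ord.B01 (by simpa using e)
theorem sqrt_eq : √t = t ^ (1 / 2 : ℝ) := Real.sqrt_eq_rpow t
theorem M_eq : p.M t = p.n * (t * √t) := by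
  rw [Pm.M, h.sqrt_eq, show (3 / 2 : ℝ) = 1 + 1 / 2 by norm_num, Real.rpow_add h.t0, Real.rpow_one]
/-- **exponent form**: `t = n ^ (-τ)`, `kk = n ^ σ` -/
theorem ex : ∃ τ σ : ℝ, t = (p.n : ℝ) ^ (-τ) ∧ p.kk t = (p.n : ℝ) ^ σ ∧ 0 ≤ τ ∧ τ ≤ 2 / 3 - p.d ∧
    (p.tss ≤ t ↔ τ ≤ p.ch) ∧ (p.ts ≤ t ↔ τ ≤ 1 / 2 - p.k4) ∧ (τ ≤ p.ch → σ = 0) ∧
    (p.ch < τ → τ ≤ 1 / 2 - p.k4 → σ = p.k2) ∧
    (1 / 2 - p.k4 ≤ τ → σ = p.k2 + (p.k4 - 1 / 2 + τ) * (1 + p.k3)) := by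
  have o := h.ord
  obtain ⟨_, _, _, _, _, _, _, _⟩ := o.ex
  have e : t = (p.n : ℝ) ^ (-(-Real.logb p.n t)) := by
    rw [neg_neg, Real.rpow_logb o.N0 o.N1.ne' h.t0]
  set τ := -Real.logb p.n t
  have key : ∀ x : ℝ, (p.n : ℝ) ^ x ≤ t ↔ τ ≤ -x := fun x => by
    conv_lhs => rw [e]
    rw [Real.rpow_le_rpow_left_iff o.N1]; constructor <;> intro <;> linarith
  have k1 : p.tss ≤ t ↔ τ ≤ p.ch := by rw [Pm.tss, key, neg_neg]
  have k2 : p.ts ≤ t ↔ τ ≤ 1 / 2 - p.k4 := by rw [Pm.ts, key, neg_sub]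
  have k3 : 0 ≤ τ := by
    have := h.t1
    rw [e, ← Real.rpow_zero (p.n : ℝ), Real.rpow_le_rpow_left_iff o.N1] at this; linarith
  have k4 : τ ≤ 2 / 3 - p.d := by have := h.lo; rw [o.lo_eq, key] at this; linarith
  have k5 : p.ts / t = (p.n : ℝ) ^ (p.k4 - 1 / 2 + τ) := by
    conv_lhs => rw [e]
    rw [Pm.ts, ← Real.rpow_sub o.N0, sub_neg_eq_add]
  by_cases c1 : τ ≤ p.ch
  · refine ⟨τ, 0, e, by rw [Pm.kk, if_pos (k1.2 c1), Real.rpow_zero], k3, k4, k1, k2, fun _ => rfl,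
      fun c => absurd c1 (not_le.2 c), fun c => by linarith⟩
  by_cases c2 : τ ≤ 1 / 2 - p.k4
  · refine ⟨τ, p.k2, e, ?_, k3, k4, k1, k2, fun c => absurd c c1, fun _ _ => rfl, fun c => ?_⟩
    · rw [Pm.kk, if_neg (mt k1.1 c1), max_eq_left, Real.one_rpow, mul_one]
      rw [k5]; exact Real.rpow_le_one_of_one_le_of_nonpos o.N1.le (by linarith)
    · rw [show τ = 1 / 2 - p.k4 from le_antisymm c2 c]; ring
  · refine ⟨τ, _, e, ?_, k3, k4, k1, k2, fun c => absurd c c1, fun _ c => absurd c c2, fun _ => rfl⟩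
    rw [Pm.kk, if_neg (mt k1.1 c1), max_eq_right, k5, o.rp_rp, o.rp_add]
    rw [k5]; exact o.rp_one (by linarith)
/-- linear consequences: `0 ≤ σ ≤ 1/6 - d/2`, `σ - τ/2 ≤ -ch/3` below `t**` -/
theorem ex' : ∃ τ σ : ℝ, t = (p.n : ℝ) ^ (-τ) ∧ p.kk t = (p.n : ℝ) ^ σ ∧ 0 ≤ τ ∧ τ ≤ 2 / 3 - p.d ∧
    (p.tss ≤ t ↔ τ ≤ p.ch) ∧ (p.ts ≤ t ↔ τ ≤ 1 / 2 - p.k4) ∧ 0 ≤ σ ∧ σ ≤ 1 / 6 - p.d / 2 ∧
    p.k4 - 1 / 2 + τ ≤ σ ∧ (τ ≤ p.ch → σ = 0) ∧ (p.ch < τ → σ - τ / 2 ≤ -(p.ch / 3)) ∧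
    (p.ch < τ → τ ≤ 1 / 2 - p.k4 → σ = p.k2) := by
  obtain ⟨τ, σ, e1, e2, a1, a2, a3, a4, b1, b2, b3⟩ := h.ex
  obtain ⟨_, _, _, _, _, _, _, _⟩ := h.ord.ex
  refine ⟨τ, σ, e1, e2, a1, a2, a3, a4, ?_⟩
  by_cases c1 : τ ≤ p.ch
  · obtain rfl := b1 c1
    exact ⟨le_rfl, by linarith, by linarith, fun _ => rfl, fun c => absurd c1 (not_le.2 c), b2⟩
  by_cases c2 : τ ≤ 1 / 2 - p.k4
  · obtain rfl := b2 (not_le.1 c1) c2
    exact ⟨by linarith, by linarith, by linarith, b1, fun _ => by linarith, b2⟩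
  · have c3 := (not_le.1 c2).le
    have e := b3 c3
    have f1 : 0 ≤ (p.k4 - 1 / 2 + τ) * p.k3 := mul_nonneg (by linarith) (by linarith)
    have f2 : (p.k4 - 1 / 2 + τ) * p.k3 ≤ 1 * p.k3 := mul_le_mul_of_nonneg_right (by linarith) (by linarith)
    exact ⟨by linarith, by linarith, by linarith, b1, fun _ => by linarith, b2⟩
theorem kk1 : 1 ≤ p.kk t := by
  obtain ⟨τ, σ, -, e2, -, -, -, -, b, -⟩ := h.ex'
  exact e2 ▸ h.ord.rp_one b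
theorem kk_le : p.kk t ≤ (p.n : ℝ) ^ (1 / 6 - p.d / 2) := by
  obtain ⟨τ, σ, -, e2, -, -, -, -, -, b, -⟩ := h.ex'
  exact e2 ▸ h.ord.rp_le b
theorem kk_hi (e : p.tss ≤ t) : p.kk t = 1 := if_pos e
theorem kk_mid (e : p.ts ≤ t) (e' : t < p.tss) : p.kk t = (p.n : ℝ) ^ p.k2 := by
  rw [Pm.kk, if_neg (not_le.2 e'), max_eq_left (div_le_one_of_le₀ e h.t0.le), Real.one_rpow, mul_one]
theorem kk_sqrt (e : t < p.tss) : p.kk t * √t ≤ (p.n : ℝ) ^ (-(p.ch / 3)) := by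
  obtain ⟨τ, σ, e1, e2, -, -, a3, -, -, -, -, -, b, -⟩ := h.ex'
  rw [h.sqrt_eq, e2, e1, h.ord.rp_rp, h.ord.rp_add]
  exact h.ord.rp_le (by linarith [b (not_le.1 (mt a3.2 (not_le.2 e)))])
theorem inv_le : t⁻¹ ≤ (p.n : ℝ) ^ (2 / 3 - p.d) := by
  obtain ⟨τ, σ, e1, -, -, a, -⟩ := h.ex'
  rw [e1, h.ord.rp_inv, neg_neg]; exact h.ord.rp_le a
theorem inv_hi (e : p.tss ≤ t) : t⁻¹ ≤ (p.n : ℝ) ^ p.ch := by
  obtain ⟨τ, σ, e1, -, -, -, a, -⟩ := h.ex'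
  have := a.1 e
  rw [e1, h.ord.rp_inv, neg_neg]; exact h.ord.rp_le this
theorem max_le : max t p.ts ≤ p.kk t * t := by
  refine _root_.max_le (le_mul_of_one_le_left h.t0.le h.kk1) ?_
  obtain ⟨τ, σ, e1, e2, -, -, -, -, -, -, b, -⟩ := h.ex'
  rw [e2, e1, h.ord.rp_add]; exact h.ord.rp_le (by linarith)
theorem al0 : 0 < p.al t := Real.rpow_pos_of_pos (h.t0.trans_le (le_max_left _ _)) _
theorem al1 : p.al t ≤ 1 := Real.rpow_le_one (h.t0.le.trans (le_max_left _ _))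
  (_root_.max_le h.t1 (Real.rpow_le_one_of_one_le_of_nonpos h.ord.N1.le (by linarith [h.ord.ok.ch.1])))
  (by norm_num)
theorem al_lo (e : t < p.tss) : p.al t = (p.n : ℝ) ^ (-(p.ch / 3)) := by
  rw [Pm.al, max_eq_right e.le, Pm.tss, h.ord.rp_rp]; congr 1; ring
theorem al_hi (e : p.tss ≤ t) : p.al t = t ^ (1 / 3 : ℝ) := by rw [Pm.al, max_eq_left e]
theorem s1_le : p.s1 t ≤ 2 * p.kk t := by
  have h1 : max t p.ts / t ≤ p.kk t := (div_le_iff₀ h.t0).2 h.max_le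
  have h2 := mul_le_mul_of_nonneg_left h.al1 (by linarith [h.kk1] : 0 ≤ p.kk t)
  unfold Pm.s1; linarith
theorem s1_nn : 0 ≤ p.s1 t :=
  add_nonneg (div_nonneg (h.t0.le.trans (le_max_left _ _)) h.t0.le)
    (mul_nonneg (by linarith [h.kk1]) h.al0.le)
theorem uu1 : 1 ≤ uu p t := (one_le_inv₀ (Real.rpow_pos_of_pos h.t0 _)).2
  (Real.rpow_le_one h.t0.le h.t1 h.ord.ok.k3.1.le)
theorem uu_le : uu p t ≤ (p.n : ℝ) ^ p.k3 := by
  obtain ⟨τ, σ, e1, -, a, b, -⟩ := h.ex'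
  have := h.ord.ok.k3.1
  rw [uu, e1, h.ord.rp_rp, h.ord.rp_inv]
  exact h.ord.rp_le (by nlinarith [h.ord.ok.d.1])
theorem pow_k3 : t ^ (1 + p.k3) = t / uu p t := by
  rw [Real.rpow_add h.t0, Real.rpow_one, uu, div_inv_eq_mul]
theorem Bt1 : p.B ≤ p.Bt t := by unfold Pm.Bt; split_ifs; exacts [le_rfl, h.ord.ok.B0]
theorem Bt_le : p.Bt t ≤ p.B0 := by unfold Pm.Bt; split_ifs; exacts [h.ord.ok.B0, le_rfl]
theorem Bt_lo (e : t < p.t0 / 2) : p.Bt t = p.B := if_pos e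
theorem M_ge : (p.n : ℝ) ^ (3 * p.d / 2) ≤ p.M t := by
  obtain ⟨τ, σ, e1, -, a, b, -⟩ := h.ex'
  rw [Pm.M, e1, h.ord.rp_rp]
  nth_rewrite 2 [← Real.rpow_one (p.n : ℝ)]
  rw [h.ord.rp_add]; exact h.ord.rp_le (by linarith)
theorem eA : (p.n : ℝ) ^ (-(p.k3 / 100)) ≤ ε ^ p.A := by
  refine le_trans ?_ (pow_le_pow_left₀ (h.ord.rp_pos _).le h.en _)
  rw [h.ord.rp_pow]; exact h.ord.rp_le (by linarith [h.ord.ok.cv'])
theorem eA' : t ^ (1 / 1000 : ℝ) ≤ ε ^ p.A := by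
  obtain ⟨_, _, _, _, _, _, _, _⟩ := h.ord.ex
  refine le_trans ?_ (pow_le_pow_left₀ (Real.rpow_nonneg h.t0.le _) h.et _)
  rw [← Real.rpow_natCast, ← Real.rpow_mul h.t0.le]
  exact Real.rpow_le_rpow_of_exponent_ge h.t0 h.t1 (by linarith)
/-- below `t2` -/
theorem H_lo (e : t < p.t2) : ε ^ p.A * p.M t ≤ H := by
  refine le_trans (le_min le_rfl ?_) h.H0
  have h1 : t ^ (3 / 2 : ℝ) ≤ p.ef / (2 * p.L) :=
    h.ord.t2_pow ▸ Real.rpow_le_rpow h.t0.le e.le (by norm_num)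
  have h2 : p.ef / (2 * p.L) ≤ p.ef / 2 :=
    div_le_div_of_nonneg_left h.ord.ok.ef.le two_pos (by linarith [h.ord.L1])
  have h3 : p.M t ≤ p.n * (p.ef / 2) := mul_le_mul_of_nonneg_left (h1.trans h2) h.ord.N0.le
  have h4 : ε ^ p.A * p.M t ≤ 1 * p.M t := mul_le_mul_of_nonneg_right (pow_le_one₀ h.e0.le h.e1)
    ((h.ord.rp_pos _).le.trans h.M_ge)
  linarith
/-- above `t2` -/
theorem H_hi (e : p.t2 ≤ t) : p.n ≤ p.B2 ^ 4 * H := by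
  have o := h.ord
  have b := o.B21
  have h1 : 1 ≤ t * p.B2 ^ 2 := o.t2_ge.trans (mul_le_mul_of_nonneg_right e (by positivity))
  have h2 : t ^ 2 * p.n ≤ ε ^ p.A * p.M t := by
    have a1 : t ^ 2 ≤ t ^ (1 / 1000 : ℝ) * t ^ (3 / 2 : ℝ) := by
      rw [← Real.rpow_add h.t0, ← Real.rpow_natCast]
      exact Real.rpow_le_rpow_of_exponent_ge h.t0 h.t1 (by norm_num)
    have a2 := mul_le_mul_of_nonneg_right h.eA' (Real.rpow_nonneg h.t0.le (3 / 2))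
    unfold Pm.M; nlinarith [o.N0]
  have h3 : 1 ≤ t ^ 2 * p.B2 ^ 4 := by nlinarith
  have h4 : 2 ≤ p.B2 ^ 4 * p.ef := by
    have : 2 ≤ p.B2 ^ 3 := le_trans (by linarith [o.B2b]) (le_pw b (by norm_num))
    nlinarith [o.efB2]
  refine le_trans ?_ (mul_le_mul_of_nonneg_left h.H0 (by positivity))
  rw [mul_min_of_nonneg _ _ (by positivity)]
  exact le_min (by nlinarith [o.N0, mul_le_mul_of_nonneg_left h2 (show 0 ≤ p.B2 ^ 4 by positivity)])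
    (by nlinarith [o.N0])
theorem H_ge : (p.n : ℝ) ^ (5 * p.d / 4) ≤ H := by
  have o := h.ord
  obtain ⟨_, _, _, _, _, _, _, _⟩ := o.ex
  rcases lt_or_ge t p.t2 with e | e
  · refine le_trans ?_ ((mul_le_mul h.eA h.M_ge (o.rp_pos _).le (pow_pos h.e0 _).le).trans (h.H_lo e))
    rw [o.rp_add]; exact o.rp_le (by linarith)
  · have h1 : p.B2 ^ 4 ≤ (p.n : ℝ) ^ p.cv := o.cst (pow_le_pow_right₀ o.B21 (by norm_num))
    have h2 : p.B2 ^ 4 * (p.n : ℝ) ^ (5 * p.d / 4) ≤ p.n :=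
      (mul_le_mul_of_nonneg_right h1 (o.rp_pos _).le).trans (by rw [o.rp_add]; exact o.rp_N (by linarith))
    exact le_of_mul_le_mul_left (h2.trans (h.H_hi e)) (pow_pos (by linarith [o.B21]) 4)
theorem H_pos : 0 < H := (h.ord.rp_pos _).trans_le h.H_ge
theorem th_lo (e : t < p.t2) : p.th t = 1 / (32 * p.K) := by
  rw [Pm.th, if_pos e, Pm.eta, div_div]; congr 1; ring
theorem th_ge : 1 ≤ p.th t * p.B2 ^ 3 := by
  have o := h.ord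
  have K0 : 0 < p.K := by linarith [o.ok.K]
  have h1 : 32 * p.K ≤ p.B2 := by
    have := o.cB0 (c := 32) (by norm_num) (j := 1) (by norm_num)
    linarith [o.KB, o.ok.B0]
  have h2 : 1 ≤ p.eta / 8 * p.B2 := by
    rw [Pm.eta, div_div, div_mul_eq_mul_div, le_div_iff₀ (by positivity)]; linarith
  have h3 : 0 ≤ p.eta / 8 * p.B2 := by linarith
  unfold Pm.th
  split_ifs
  · nlinarith [one_le_pow₀ (n := 2) o.B21]
  · nlinarith [o.t2_ge]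
theorem th_pos : 0 < p.th t := pos_of_mul_pos_left (b := p.B2 ^ 3) (by linarith [h.th_ge])
  (pow_nonneg (by linarith [h.ord.B21]) _)
theorem th_le : p.th t ≤ 1 / 32 := by
  have o := h.ord
  have h1 : p.eta ≤ 1 / 4 := one_div_le_one_div_of_le (by norm_num) (by linarith [o.ok.K])
  have h0 : 0 ≤ p.eta := one_div_nonneg.2 (by linarith [o.ok.K])
  have h2 : p.t2 ≤ 1 := by linarith [o.t2_t0, o.ok.t0.2]
  unfold Pm.th
  split_ifs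
  · linarith
  · nlinarith [o.t2_pos]
/-- **the admissible loss is a power of `n`** -/
theorem thH : (p.n : ℝ) ^ p.d ≤ p.th t * H := by
  have o := h.ord
  obtain ⟨_, _, _, _, _, _, _, _⟩ := o.ex
  have h1 : p.B2 ^ 3 ≤ (p.n : ℝ) ^ (p.d / 4) :=
    (o.cst (pow_le_pow_right₀ o.B21 (by norm_num))).trans (o.rp_le (by linarith))
  have h2 : (p.n : ℝ) ^ p.d * p.B2 ^ 3 ≤ H := (mul_le_mul_of_nonneg_left h1 (o.rp_pos _).le).trans
    (by rw [o.rp_add]; exact (o.rp_le (by linarith)).trans h.H_ge)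
  have h3 := mul_le_mul_of_nonneg_left h2 h.th_pos.le
  nlinarith [h.th_ge, o.rp_pos p.d]
theorem lg_d {j : ℕ} (hj : j ≤ 100) : lg p ^ j ≤ (p.n : ℝ) ^ p.d := by
  obtain ⟨_, _, _, _, _, _, _, _⟩ := h.ord.ex
  exact (h.ord.lg_pow hj).trans (h.ord.rp_le (by linarith))
/-- **the key bound**: `B0` is paid by `H / n` -/
theorem hkey : H * (p.B0 ^ 50 * p.kk t * uu p t ^ 2) ≤ p.n * (ε ^ 2 * t) := by
  have o := h.ord
  obtain ⟨_, _, _, _, _, _, _, _⟩ := o.ex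
  have b0 : 0 < p.B0 := by linarith [o.B01]
  have hL : p.L ≤ p.B0 := o.LC'.trans (o.CK.trans (o.KB.trans o.ok.B0))
  have u2 : uu p t ^ 2 ≤ (t ^ (1 / 10 : ℝ))⁻¹ := by
    rw [uu, inv_pow, ← Real.rpow_natCast, ← Real.rpow_mul h.t0.le]
    exact inv_anti₀ (Real.rpow_pos_of_pos h.t0 _) (Real.rpow_le_rpow_of_exponent_ge h.t0 h.t1
      (by push_cast; linarith))
  have e4 : ε ^ 4 ≤ ε ^ 2 := pow_le_pow_of_le_one h.e0.le h.e1 (by norm_num)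
  have k0 : 0 < p.kk t := by linarith [h.kk1]
  have u0 : 0 < uu p t := by linarith [h.uu1]
  have A1 : p.L * √t * (p.B0 ^ 50 * p.kk t * uu p t ^ 2) ≤ 1 →
      H * (p.B0 ^ 50 * p.kk t * uu p t ^ 2) ≤ p.n * (ε ^ 2 * t) := fun c => by
    have a1 := mul_le_mul_of_nonneg_right h.H1 (show 0 ≤ p.B0 ^ 50 * p.kk t * uu p t ^ 2 by positivity)
    have a2 := mul_le_mul_of_nonneg_left c (show 0 ≤ p.n * (ε ^ 4 * t) from
      mul_nonneg o.N0.le (mul_nonneg (pow_pos h.e0 4).le h.t0.le))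
    have a3 := mul_le_mul_of_nonneg_left (mul_le_mul_of_nonneg_right e4 h.t0.le) o.N0.le
    rw [h.M_eq] at a1
    nlinarith
  rcases lt_or_ge t p.tss with c | c
  · refine A1 ?_
    have a1 : p.L * p.B0 ^ 50 ≤ (p.n : ℝ) ^ p.cv := le_trans (by
      rw [one_mul, pow_succ' _ 50]; exact mul_le_mul_of_nonneg_right hL (by positivity))
      (o.cstB0 (c := 1) (by norm_num) (j := 51) (by norm_num))
    have a2 := pow_le_pow_left₀ u0.le h.uu_le 2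
    calc _ = p.L * p.B0 ^ 50 * (p.kk t * √t) * uu p t ^ 2 := by ring
      _ ≤ (p.n : ℝ) ^ p.cv * (p.n : ℝ) ^ (-(p.ch / 3)) * ((p.n : ℝ) ^ p.k3) ^ 2 := by
        gcongr; exact h.kk_sqrt c
      _ ≤ 1 := by
        rw [o.rp_pow, o.rp_add, o.rp_add]
        exact Real.rpow_le_one_of_one_le_of_nonpos o.N1.le (by push_cast; linarith)
  rcases lt_or_ge t p.t2 with c2 | c2
  · refine A1 ?_
    have a1 := h.tB0 c2 (a := 2 / 5) (j := 51) (by norm_num)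
    have a2 : √t * (t ^ (1 / 10 : ℝ))⁻¹ = t ^ (2 / 5 : ℝ) := by
      rw [h.sqrt_eq, ← div_eq_mul_inv, ← Real.rpow_sub h.t0]; norm_num
    rw [h.kk_hi c]
    calc _ = p.L * p.B0 ^ 50 * (√t * uu p t ^ 2) := by ring
      _ ≤ p.B0 * p.B0 ^ 50 * (√t * (t ^ (1 / 10 : ℝ))⁻¹) := by gcongr
      _ ≤ 1 := by rw [a2, ← pow_succ', mul_comm]; exact a1
  · -- `2 ef B0 ^ 50 ≤ t ^ (6 / 5) ≤ ε ^ 2 t ^ (11 / 10)`
    have a1 : t ^ (1 / 10 : ℝ) ≤ ε ^ 2 := by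
      refine le_trans ?_ (pow_le_pow_left₀ (Real.rpow_nonneg h.t0.le _) h.et 2)
      rw [← Real.rpow_natCast, ← Real.rpow_mul h.t0.le]
      exact Real.rpow_le_rpow_of_exponent_ge h.t0 h.t1 (by push_cast; linarith)
    have a2 : p.ef = 2 * p.L * p.t2 ^ (3 / 2 : ℝ) := by
      rw [o.t2_pow, mul_div_cancel₀ _ (by linarith [o.L1])]
    have a3 : p.t2 ^ (3 / 10 : ℝ) * p.B0 ^ 180 ≤ 1 := by
      have b1 := Real.rpow_le_one (mul_nonneg o.t2_pos.le (pow_nonneg b0.le _)) o.t2_le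
        (show (0 : ℝ) ≤ 3 / 10 by norm_num)
      rwa [Real.mul_rpow o.t2_pos.le (pow_nonneg b0.le _), ← Real.rpow_natCast, ← Real.rpow_mul b0.le,
        show ((600 : ℕ) : ℝ) * (3 / 10) = ((180 : ℕ) : ℝ) by norm_num, Real.rpow_natCast] at b1
    have a4 : p.t2 ^ (3 / 2 : ℝ) ≤ p.t2 ^ (3 / 10 : ℝ) * (t * (t ^ (1 / 10 : ℝ) * t ^ (1 / 10 : ℝ))) := by
      have b1 : t * (t ^ (1 / 10 : ℝ) * t ^ (1 / 10 : ℝ)) = t ^ (6 / 5 : ℝ) := by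
        rw [← Real.rpow_add h.t0, ← Real.rpow_one_add' h.t0.le (by norm_num)]; norm_num
      rw [b1, show (3 / 2 : ℝ) = 3 / 10 + 6 / 5 by norm_num, Real.rpow_add o.t2_pos]
      exact mul_le_mul_of_nonneg_left (Real.rpow_le_rpow o.t2_pos.le c2 (by norm_num))
        (Real.rpow_nonneg o.t2_pos.le _)
    have a5 : 4 * p.L * p.B0 ^ 50 ≤ p.B0 ^ 180 := by
      refine le_trans ?_ (pow_le_pow_right₀ o.B01 (show 52 ≤ 180 by norm_num))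
      have : 4 * p.L ≤ p.B0 ^ 2 := by nlinarith [o.B0b, o.L1]
      calc _ ≤ p.B0 ^ 2 * p.B0 ^ 50 := by gcongr
        _ = _ := by ring
    have s0 := Real.rpow_pos_of_pos h.t0 (1 / 10 : ℝ)
    have s2 := Real.rpow_pos_of_pos o.t2_pos (3 / 10 : ℝ)
    have a6 : 4 * p.L * p.B0 ^ 50 * p.t2 ^ (3 / 10 : ℝ) ≤ 1 := by nlinarith
    have L0 : 0 < p.L := by linarith [o.L1]
    have t0 := h.t0
    have N0 := o.N0
    have ef0 := o.ok.ef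
    rw [h.kk_hi c, mul_one]
    calc _ ≤ 2 * p.ef * p.n * (p.B0 ^ 50 * (t ^ (1 / 10 : ℝ))⁻¹) := by gcongr; exact h.H2
      _ = p.n * (4 * p.L * p.B0 ^ 50 * p.t2 ^ (3 / 2 : ℝ) * (t ^ (1 / 10 : ℝ))⁻¹) := by rw [a2]; ring
      _ ≤ p.n * (4 * p.L * p.B0 ^ 50 * (p.t2 ^ (3 / 10 : ℝ) * (t * (t ^ (1 / 10 : ℝ) *
          t ^ (1 / 10 : ℝ)))) * (t ^ (1 / 10 : ℝ))⁻¹) := by gcongr
      _ = p.n * (4 * p.L * p.B0 ^ 50 * p.t2 ^ (3 / 10 : ℝ) * (t ^ (1 / 10 : ℝ) * t)) := by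
        field_simp
      _ ≤ p.n * (1 * (ε ^ 2 * t)) := by gcongr
      _ = _ := by rw [one_mul]

end LH

end Crest.Agent.T157.Og
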