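import Crest.Agent.T157.O4cB_42

set_option autoImplicit false
set_option linter.unusedSectionVars false

/-!
Row 157, A2 section 4 (helper4): the statement of the cube step of (M1).
-/

noncomputable section

namespace Crest.Agent.T157.O4c

open MeasureTheory Matrix Crest.Agent.Lib.OrthPoinc Real
open Crest.Agent.T157.Oc Crest.Agent.T157.E Crest.Agent.T157.Od Crest.Agent.T157.Oo
open Crest.Agent.T157.Mj Crest.Agent.T157.O4c.B42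

variable {n k : ℕ}

/-- truncation -/
def ph (o : Oo.Orb n k) (s : Cube n) : ℝ := if 4 * Z2 o s ≤ n then 1 else 0

/-- the terms produced by the cube -/
def Xi (o : Oo.Orb n k) (x f1 f2 : Vn n) (G : Mn n) (a : ℝ) (v : Vn n) (s : Cube n) (ξ : Vn n) : ℝ :=
  (v ⬝ᵥ ξ) * (Qm o *ᵥ Uv G o.p a v ξ ⬝ᵥ De o x f1 f2 s ξ) + Qm o *ᵥ Uv G o.p a v ξ ⬝ᵥ v -
    (Pm o *ᵥ ξ ⬝ᵥ v) * (Qm o *ᵥ Uv G o.p a v ξ ⬝ᵥ sv s) / R2 o s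

/-- **the cube step** -/
def CuStmt : Prop := ∃ K : ℝ, 1 ≤ K ∧ ∀ (n k : ℕ) (o : Oo.Orb n k) (μ : Measure (Mat k))
  [IsProbabilityMeasure μ] (x f1 f2 : Vn n) (G : Mn n) (χ X κ η C g T0 τ δ a L ka : ℝ)
  (Bd : Cube n → Vn n → ℝ), SOInv μ → Hx o x f1 f2 χ X κ η C → Hw o x f1 f2 G χ κ η C g T0 τ →
  K * C * η ≤ 1 → 0 < a → 0 ≤ L → (1 + o.p ⬝ᵥ G *ᵥ o.p / a) ^ 3 ≤ L ^ 2 * a → CF Bd →
  (∀ s ξ, 0 ≤ Bd s ξ) →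
  (∀ s ω, Sph o ω → ¬ Gd o x f1 f2 G X κ η T0 s (xp o s ω) → 1 ≤ Bd s (xp o s ω)) →
  pe o μ (fun s ω => Bd s (xp o s ω)) ≤ δ → 0 ≤ ka →
  (∀ u, pe o μ (fun s ω => (u ⬝ᵥ xp o s ω) ^ 2) ≤ ka * (u ⬝ᵥ G *ᵥ u)) →
  ∀ v, |pe o μ fun s ω => ph o s * Xi o x f1 f2 G a v s (xp o s ω)| ≤
    K * (((3 + o.p ⬝ᵥ G *ᵥ o.p / a) * C ^ 3 * η + L / g) * (1 + ka + n ^ 3 * δ) +
      (3 + o.p ⬝ᵥ G *ᵥ o.p / a) * C * n ^ 3 * δ) * (v ⬝ᵥ G *ᵥ v)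

def ClGlue : Prop := CuStmt → M1Core

end Crest.Agent.T157.O4c
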