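import Crest.Agent.T157.O4dDef_42

set_option autoImplicit false
set_option linter.unusedSectionVars false

/-!
Row 157, A2 section 4 (helper15): the facts on `x` used in the cube step of (M1).
-/

noncomputable section

namespace Crest.Agent.T157.O4c.B42

open MeasureTheory Matrix Crest.Agent.Lib.OrthPoinc Real
open Crest.Agent.T157.Oc Crest.Agent.T157.E Crest.Agent.T157.Od Crest.Agent.T157.Oo
open Crest.Agent.T157.Mj

namespace S15

theorem th_x (x : ℝ) : tanh x ^ 2 ≤ x ^ 2 := sq_le_sq.2 (abs_th x)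

theorem th_mx (x : ℝ) : tanh x ^ 2 ≤ mx x := le_min (th_x x) (tanh_sq_lt_one x).le

theorem th_lo {x : ℝ} (h : 1 ≤ |x|) : 1 ≤ 2 * tanh x ^ 2 := by
  have h1 : |x| ≤ |sinh x| := by rw [abs_sinh]; exact self_le_sinh_iff.2 (abs_nonneg x)
  have h2 : 1 ≤ sinh x ^ 2 := by rw [← sq_abs]; nlinarith
  rw [tanh_eq_sinh_div_cosh, div_pow, cosh_sq', ← mul_div_assoc, le_div_iff₀ (by positivity)]
  linarith

theorem amgm {a b m t κ : ℝ} (hκ : 0 < κ) (t0 : 0 ≤ t) (ht : t ≤ m) :
    |t * (a * b)| ≤ (a ^ 2 * m ^ 2 / κ + κ * b ^ 2) / 2 := by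
  rw [abs_mul, abs_of_nonneg t0, abs_mul, ← sq_abs a, ← sq_abs b, div_add' _ _ _ hκ.ne', div_div,
    le_div_iff₀ (by positivity)]
  nlinarith [sq_nonneg (|a| * m - κ * |b|), mul_le_mul_of_nonneg_right ht
    (by positivity : 0 ≤ |a| * |b| * κ)]

end S15

open S15

theorem sxStmt : SxStmt := fun n k o x f1 f2 χ X κ η C h hη => by
  obtain ⟨_, _, _, F⟩ := h.fr
  have k0 := h.k0
  have X0 := h.X0
  have e0 : 0 < η := k0.trans_le h.ke
  have C2 : 1 ≤ C ^ 2 := one_le_pow₀ h.C1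
  have e1 : η ≤ 1 / 1000 := by nlinarith
  have n1 : ∑ i, f1 i ^ 2 = 1 := by simpa only [dotProduct, sq] using h.n1
  have n2 : ∑ i, f2 i ^ 2 = 1 := by simpa only [dotProduct, sq] using h.n2
  have hD : ∀ b : Vn n, ∑ i, b i ^ 2 = 1 → |Dq x f1 b - f1 ⬝ᵥ b| ≤ κ := fun b hb => by
    rw [Dq, dotProduct, ← Finset.sum_sub_distrib]
    refine (Finset.abs_sum_le_sum_abs _ _).trans ((Finset.sum_le_sum fun i _ =>
      (le_of_eq ?_).trans (amgm (a := f1 i) (b := b i) k0 (sq_nonneg _) (th_mx (x i)))).trans ?_)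
    · rw [← abs_neg]; congr 1; ring
    · rw [← Finset.sum_div, Finset.sum_add_distrib, ← Finset.sum_div, ← Finset.mul_sum, hb]
      have : (∑ i, f1 i ^ 2 * mx (x i) ^ 2) / κ ≤ κ := by rw [div_le_iff₀ k0]; linarith [h.m6]
      linarith
  have hQ : ∀ i, Qm o i i = f1 i ^ 2 + f2 i ^ 2 := fun i => by
    simp only [h.hq, Matrix.add_apply, vecMulVec_apply, sq]
  have lo : ∀ i, |x i| ≤ 1 → |f1 i| ≤ η * κ := fun i hi => by
    rw [h.hx, abs_mul, abs_of_pos X0] at hi
    exact le_of_mul_le_mul_left ((hi.trans h.big).trans_eq (mul_comm _ _)) X0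
  have hi1 : ∀ i, 1 ≤ |x i| → mx (x i) = 1 := fun i hi =>
    min_eq_right (by rw [← sq_abs]; nlinarith)
  have hi2 : ∀ i, 1 ≤ |x i| → |f1 i| ≤ κ := fun i hi => by
    have := (Finset.single_le_sum (f := fun i => f1 i ^ 2 * mx (x i) ^ 2) (fun _ _ => by positivity)
      (Finset.mem_univ i)).trans h.m6
    rw [hi1 i hi, one_pow, mul_one] at this
    exact abs_le_of_sq_le_sq' this k0.le |> abs_le.2
  have se : √η ^ 2 = η := sq_sqrt e0.le
  have s0 : 0 < √η := sqrt_pos.2 e0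
  have hi3 : ∀ i, |f2 i| ≤ 2 * √η := fun i => by
    refine abs_le.2 (abs_le_of_sq_le_sq' ?_ (by positivity))
    rw [mul_pow, se]
    rcases le_total |x i| 1 with hi | hi
    · have h1 : |f2 i| ≤ C * η := le_of_mul_le_mul_left ((h.f2 i).trans
        ((mul_le_mul_of_nonneg_left (lo i hi) (by linarith [h.C1])).trans_eq (by ring))) k0
      have h2 := pow_le_pow_left₀ (abs_nonneg _) h1 2
      rw [sq_abs] at h2
      nlinarith
    · have := (Finset.single_le_sum (f := fun i => f2 i ^ 2 * tanh (x i) ^ 2)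
        (fun _ _ => by positivity) (Finset.mem_univ i)).trans h.m2
      nlinarith [mul_le_mul_of_nonneg_left (th_lo hi) (sq_nonneg (f2 i))]
  have d1 := abs_le.1 (hD f1 n1)
  have d2 := hD f2 n2
  rw [h.o12, sub_zero] at d2
  rw [h.n1] at d1
  have b1 : 1 ≤ (η * κ * X) ^ 2 := one_le_pow₀ h.big
  have b2 := mul_le_mul_of_nonneg_left h.Xn (by positivity : 0 ≤ η * κ)
  refine ⟨⟨by linarith [h.ke], ?_⟩, d2, ?_, ?_, ?_, ?_, ?_⟩
  · rw [← h.n1]
    exact Finset.sum_le_sum fun i _ =>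
      mul_le_of_le_one_left (mul_self_nonneg _) (by linarith [sq_nonneg (tanh (x i))])
  · calc _ ≤ ∑ i, (η * κ * (f1 i ^ 2 + f2 i ^ 2) + κ * (f1 i ^ 2 * mx (x i) ^ 2 +
          2 * (f2 i ^ 2 * tanh (x i) ^ 2))) := Finset.sum_le_sum fun i _ => by
          rw [hQ]
          rcases le_total |x i| 1 with hi | hi
          · exact le_add_of_le_of_nonneg (mul_le_mul_of_nonneg_right (lo i hi) (by positivity))
              (by positivity)
          · refine le_add_of_nonneg_of_le (by positivity)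
              (mul_le_mul (hi2 i hi) ?_ (by positivity) k0.le)
            rw [hi1 i hi]
            linarith [mul_le_mul_of_nonneg_left (th_lo hi) (sq_nonneg (f2 i))]
      _ ≤ _ := by
          simp only [Finset.sum_add_distrib, ← Finset.mul_sum, n1, n2]
          have : κ ^ 2 ≤ η := by nlinarith [h.ke]
          nlinarith [h.m6, h.m2, mul_pos e0 k0]
  · calc _ ≤ ∑ i, 2 * √η * (f1 i ^ 2 + f2 i ^ 2) := Finset.sum_le_sum fun i _ => by
          rw [hQ]; exact mul_le_mul_of_nonneg_right (hi3 i) (by positivity)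
      _ ≤ _ := by
          simp only [Finset.sum_add_distrib, ← Finset.mul_sum, n1, n2]
          linarith
  · calc _ ≤ ∑ i, X ^ 2 * f1 i ^ 2 := Finset.sum_le_sum fun i _ => by
          rw [F.hp, ← sq, ← mul_pow, ← h.hx]; exact th_x _
      _ = _ := by rw [← Finset.mul_sum, n1, mul_one]
  · nlinarith [mul_le_mul_of_nonneg_right h.big X0.le]
  · have b3 := mul_le_mul_of_nonneg_left b2 (by positivity : 0 ≤ η * κ)
    have b4 : η ^ 2 * (κ ^ 3 * n) ≤ κ ^ 3 * n :=
      mul_le_of_le_one_left (by positivity) (pow_le_one₀ e0.le (by linarith))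
    linarith

end Crest.Agent.T157.O4c.B42

end
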