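import Crest.Agent.T157.O4dC_42
import Crest.Agent.T157.O4dS_15
import Crest.Agent.T157.O4cCu_4

set_option autoImplicit false
set_option linter.unusedSectionVars false

/-!
Row 157, A2 section 4 (helper42): closing of (M1).
-/

noncomputable section

namespace Crest.Agent.T157.O4c.B42

open MeasureTheory Matrix Crest.Agent.Lib.OrthPoinc Real
open Crest.Agent.T157.Oc Crest.Agent.T157.E Crest.Agent.T157.Od Crest.Agent.T157.Oo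
open Crest.Agent.T157.Mj Crest.Agent.T157.M4

variable {n k : ℕ}

theorem boot {α : Type*} {e q : α → ℝ} (hq : ∀ u, 0 ≤ q u) {A ρ B : ℝ} (hA : 0 ≤ A) (hρ : 0 ≤ ρ)
    (hρ1 : ρ < 1) (hB : A + ρ * B ≤ B) (h0 : ∃ ka, 0 ≤ ka ∧ ∀ u, e u ≤ ka * q u)
    (h1 : ∀ ka, 0 ≤ ka → (∀ u, e u ≤ ka * q u) → ∀ u, e u ≤ (A + ρ * ka) * q u) (u : α) :
    e u ≤ B * q u := by
  set T : Set ℝ := {ka | 0 ≤ ka ∧ ∀ u, e u ≤ ka * q u}
  have hb : BddBelow T := ⟨0, fun _ h => h.1⟩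
  have a0 : 0 ≤ sInf T := le_csInf h0 fun _ h => h.1
  have a1 : ∀ u, e u ≤ sInf T * q u := fun u => by
    rcases (hq u).eq_or_lt with z | z
    · obtain ⟨ka, -, h⟩ := h0
      simpa [← z] using h u
    · exact (div_le_iff₀ z).1 (le_csInf h0 fun _ h => (div_le_iff₀ z).2 (h.2 u))
  have a2 : sInf T ≤ A + ρ * sInf T := csInf_le hb ⟨by positivity, h1 _ a0 a1⟩
  exact (a1 u).trans (mul_le_mul_of_nonneg_right
    (le_of_mul_le_mul_left (a := 1 - ρ) (by linarith) (by linarith)) (hq u))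

/-- the main terms -/
def Wv (o : Oo.Orb n k) (G : Mn n) (χ a : ℝ) (v ξ : Vn n) : ℝ :=
  th a (Sv G o.p ξ) * Sv G o.p ξ * (v ⬝ᵥ ξ) ^ 2 -
    (v ⬝ᵥ ξ) * (th a (Sv G o.p ξ) * uv G o.p v ξ) * (n * χ - G.trace) - v ⬝ᵥ Uv G o.p a v ξ

namespace Cx

variable {o : Oo.Orb n k} {x f1 f2 : Vn n} {G : Mn n} {χ X κ η C g T0 τ : ℝ}
  (h : Cx o x f1 f2 G χ X κ η C g T0 τ)
include h

theorem T0p : 0 < T0 := by
  have := h.hw.T1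
  by_contra h'; push Not at h'
  nlinarith [mul_nonneg_of_nonpos_of_nonpos h' (neg_nonpos.2 (sq_nonneg (η * g)))]
theorem g9 : g ≤ 9 := by
  have h1 := h.hw.co f1
  have h2 := (abs_le.1 (abs_dot_le zero_le_one (by norm_num) (u := f1) (by rw [h.hx.n1]; norm_num)
    (h.opH zero_le_one (y := f1) (by rw [h.hx.n1]; norm_num)))).2
  rw [h.hx.n1] at h1; linarith
theorem tr_le : |n * χ - G.trace| ≤ n + n * g⁻¹ := by
  obtain ⟨_, _, _, f⟩ := h.hx.fr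
  have e : ∀ i, G i i = Pi.single i 1 ⬝ᵥ G *ᵥ Pi.single i 1 := fun i => by simp
  have h1 : 0 ≤ G.trace := Finset.sum_nonneg fun i _ => (h.pg.nn _).trans_eq (e i).symm
  have h2 : G.trace ≤ n * g⁻¹ := (Finset.sum_le_sum (g := fun _ => g⁻¹) fun i _ =>
    (e i).trans_le ((h.pg.up _).trans_eq (by simp))).trans (by simp)
  have hn := h.n1
  rw [abs_le]; constructor <;> nlinarith [f.lo, f.hi]

variable {s : Cube n} {ω : Vn n} (hω : Mj.Sph o ω)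
include hω

theorem sp_xi (a : ℝ) (v : Vn n) : Sp o G a v s (xp o s ω) - Xi o x f1 f2 G a v s (xp o s ω) =
    Wv o G χ a v (xp o s ω) := by
  have h1 := h.PU (s := s) hω a v
  have h2 := h.xt_sq (s := s) hω
  have h3 : ∀ u w : Vn n, Qm o *ᵥ u ⬝ᵥ Qm o *ᵥ w = Qm o *ᵥ u ⬝ᵥ w := fun u w => by
    rw [dot_Q, Q_Q h.ok]
  rw [Sp, Xi, Wv, De, h1, dotProduct_sub, dotProduct_smul, h3, h3]
  generalize xp o s ω = ξ at h2
  have h4 : Pm o *ᵥ Uv G o.p a v ξ ⬝ᵥ A0 o *ᵥ ξ = Pm o *ᵥ Uv G o.p a v ξ ⬝ᵥ (A0 o + Bp x f1 f2) *ᵥ ξ := by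
    rw [add_mulVec, dotProduct_add, ← dot_P _ (Bp x f1 f2 *ᵥ ξ), h.PB, dotProduct_zero, add_zero]
  have h5 : ∀ w, Pm o *ᵥ Uv G o.p a v ξ ⬝ᵥ w = w ⬝ᵥ Uv G o.p a v ξ - Qm o *ᵥ Uv G o.p a v ξ ⬝ᵥ w :=
    fun w => by rw [Qm_vec, sub_dotProduct, dotProduct_comm w, sub_sub_cancel]
  have h6 : (A0 o + Bp x f1 f2) *ᵥ ξ ⬝ᵥ Uv G o.p a v ξ = th a (Sv G o.p ξ) * Sv G o.p ξ * (v ⬝ᵥ ξ) -
      th a (Sv G o.p ξ) * uv G o.p v ξ * (n * χ) := by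
    rw [dot_U, h.pg.sw, h.pg.sw ((A0 o + Bp x f1 f2) *ᵥ ξ), h.GH, dotProduct_comm ξ, dotProduct_comm ξ, h2]
  rw [h4, h5, h5 v, h6, smul_eq_mul]
  ring

theorem good4 (hg : Gd o x f1 f2 G X κ η T0 s (xp o s ω)) : 4 * Z2 o s ≤ n := by
  have e1 := h.e1; have k1 := h.k1; have e0 := h.e0; have k0 := h.hx.k0; have X0 := h.hx.X0
  have a1 : |f1 ⬝ᵥ xp o s ω| ≤ X / 2 := hg.z1.trans (by nlinarith)
  have a2 : |f2 ⬝ᵥ xp o s ω| ≤ X / 2 := hg.z2.trans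
    ((mul_le_mul_of_nonneg_right (show η * κ ≤ 1 / 2 by nlinarith) X0.le).trans_eq (by ring))
  have a3 : Qm o *ᵥ xp o s ω ⬝ᵥ Qm o *ᵥ xp o s ω ≤ X ^ 2 := by
    rw [h.Qvec, h.two]
    nlinarith [sq_le_sq' (abs_le.1 a1).1 (abs_le.1 a1).2, sq_le_sq' (abs_le.1 a2).1 (abs_le.1 a2).2]
  have a4 := add_le X0.le X0.le a3 h.hs.pX
  have a5 := h.Q_xt (s := s) hω
  rw [mulVec_add, Q_p h.ok] at a5
  rw [a5, ← Z2] at a4
  nlinarith [h.hx.Xn, h.n1]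

/-- the inequality on the good event -/
theorem pt_good {ε a : ℝ} (hε : 0 < ε) (ha : 0 < a) (ha2 : a ^ 2 = ε / 16 * T0 ^ 2)
    (hg : Gd o x f1 f2 G X κ η T0 s (xp o s ω)) (v : Vn n) :
    (1 - ε / 8) * (v ⬝ᵥ xp o s ω) ^ 2 ≤ Wv o G χ a v (xp o s ω) +
      (1 + 12 * C * τ ^ 2 / ε) * (v ⬝ᵥ G *ᵥ v) + (8 * T0)⁻¹ * (G *ᵥ v ⬝ᵥ xp o s ω) ^ 2 := by
  have hS : T0 ≤ Sv G o.p (xp o s ω) := hg.tt
  have hT := h.T0p
  have hx := (h.pg.xm o.p (xp o s ω)).1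
  have hu := h.pg.cs2 v (xp o s ω + o.p)
  rw [h.pg.nG_sq] at hx
  rw [h.pg.sw v, ← uv] at hu
  rw [Wv, dot_U, h.pg.sw v (xp o s ω + o.p + o.p)]
  have e1 : uv G o.p v (xp o s ω) = G *ᵥ v ⬝ᵥ xp o s ω + G *ᵥ v ⬝ᵥ o.p := dotProduct_add _ _ _
  have e2 : G *ᵥ v ⬝ᵥ (xp o s ω + o.p + o.p) = uv G o.p v (xp o s ω) + G *ᵥ v ⬝ᵥ o.p := dotProduct_add _ _ _
  have hN := h.pg.nn v
  have hp := h.hw.pG
  have hC := h.hx.C1
  have htr := h.hw.tr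
  have t1 := (thS ha (Sv G o.p (xp o s ω))).2
  rw [e2]
  generalize Sv G o.p (xp o s ω) = S at *
  generalize uv G o.p v (xp o s ω) = u at *
  generalize v ⬝ᵥ xp o s ω = f at *
  generalize v ⬝ᵥ G *ᵥ v = N at *
  generalize n * χ - G.trace = D at *
  have S0 : 0 < S := hT.trans_le hS
  have t0 : 0 ≤ th a S := by rw [th]; positivity
  have t2 : 1 - ε / 16 ≤ th a S * S := by
    rw [th, div_mul_eq_mul_div, le_div_iff₀ (by positivity)]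
    have : T0 ^ 2 ≤ S ^ 2 := by gcongr
    nlinarith [mul_le_mul_of_nonneg_left this hε.le, mul_nonneg hε.le (sq_nonneg a)]
  have t3 : th a S ≤ T0⁻¹ := by
    rw [inv_eq_one_div, le_div_iff₀ hT]; nlinarith [mul_le_mul_of_nonneg_left hS t0]
  rw [abs_of_pos S0] at hx
  have t4 : (th a S * u * D) ^ 2 ≤ 3 * C * τ ^ 2 * N := by
    have b1 : u ^ 2 ≤ N * (3 * C * S) := hu.trans (mul_le_mul_of_nonneg_left (by nlinarith) hN)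
    have b2 : th a S * T0 ≤ 1 := by nlinarith [mul_le_mul_of_nonneg_left hS t0]
    calc (th a S * u * D) ^ 2 = th a S ^ 2 * u ^ 2 * D ^ 2 := by ring
      _ ≤ th a S ^ 2 * (N * (3 * C * S)) * (τ ^ 2 * T0) := by gcongr
      _ = 3 * C * τ ^ 2 * N * ((th a S * S) * (th a S * T0)) := by ring
      _ ≤ 3 * C * τ ^ 2 * N * (1 * 1) := by gcongr
      _ = _ := by ring
  have t5 : f * (th a S * u) * D ≤ ε / 16 * f ^ 2 + 12 * C * τ ^ 2 / ε * N := by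
    have : 12 * C * τ ^ 2 / ε * N = 4 / ε * (3 * C * τ ^ 2 * N) := by ring
    have b : 4 / ε * (th a S * u * D) ^ 2 ≤ 4 / ε * (3 * C * τ ^ 2 * N) := by gcongr
    have c : 0 ≤ 4 / ε * (th a S * u * D - ε / 8 * f) ^ 2 := by positivity
    have d : 4 / ε * (th a S * u * D - ε / 8 * f) ^ 2 =
        4 / ε * (th a S * u * D) ^ 2 - f * (th a S * u) * D + ε / 16 * f ^ 2 := by field_simp; ring
    linarith
  have t6 : -(th a S * u * (u + G *ᵥ v ⬝ᵥ o.p)) ≤ (8 * T0)⁻¹ * (G *ᵥ v ⬝ᵥ xp o s ω) ^ 2 := by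
    have b : -(u * (u + G *ᵥ v ⬝ᵥ o.p)) ≤ 8⁻¹ * (G *ᵥ v ⬝ᵥ xp o s ω) ^ 2 := by
      rw [e1]; nlinarith [sq_nonneg (3 * (G *ᵥ v ⬝ᵥ xp o s ω) + 4 * (G *ᵥ v ⬝ᵥ o.p))]
    have c := mul_le_mul_of_nonneg_left b t0
    have d := mul_le_mul_of_nonneg_right t3 (sq_nonneg (G *ᵥ v ⬝ᵥ xp o s ω))
    rw [mul_inv]; nlinarith
  nlinarith [mul_le_mul_of_nonneg_right t2 (sq_nonneg f), mul_le_mul_of_nonneg_right t1 hN]

theorem f_sq (v : Vn n) : (v ⬝ᵥ xp o s ω) ^ 2 ≤ 36 * n * (v ⬝ᵥ G *ᵥ v) := by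
  refine (M4.cs _ _).trans ((mul_le_mul (h.v9 v) (h.xp_le hω) (dsq _) (sq_nonneg _)).trans_eq ?_)
  rw [mul_pow, mul_pow, h.pg.nG_sq, sq_sqrt (Nat.cast_nonneg n)]; ring

/-- the crude inequality -/
theorem pt_bad {a L : ℝ} (ha : 0 < a) (hL : 0 ≤ L) (hL2 : (1 + o.p ⬝ᵥ G *ᵥ o.p / a) ^ 3 ≤ L ^ 2 * a)
    (hl : L * g⁻¹ ≤ 1) (v : Vn n) :
    -((60 * n ^ 2 + 3 + o.p ⬝ᵥ G *ᵥ o.p / a) * (v ⬝ᵥ G *ᵥ v)) ≤ Wv o G χ a v (xp o s ω) := by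
  obtain ⟨m, m0, h1, -, h3, -⟩ := h.pg.pt ha hL hL2 (xp o s ω)
  have hv := nG_nn G v
  have hn := h.n1
  have g0 := h.hw.g0
  have a1 : |v ⬝ᵥ xp o s ω| ≤ 3 * nG G v * (2 * n) :=
    (abs_dot_le (by positivity) (by positivity) (h.v9 v) (h.xp_le hω)).trans (by
      gcongr; exact sqrt_le_self_iff.2 (Or.inr (by linarith)))
  have a2 : |th a (Sv G o.p (xp o s ω)) * uv G o.p v (xp o s ω)| ≤ L * nG G v := by
    have : |uv G o.p v (xp o s ω)| ≤ nG G v * m := (h.pg.cs' _ _).trans (by gcongr)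
    rw [abs_mul]
    nlinarith [mul_le_mul_of_nonneg_left this (abs_nonneg (th a (Sv G o.p (xp o s ω)))),
      mul_le_mul_of_nonneg_right h3 hv]
  have a3 : L ≤ 9 := by
    rw [← div_eq_mul_inv, div_le_one g0] at hl; exact hl.trans h.g9
  have a4 := (abs_le.1 (abs3 a1 a2 h.tr_le)).2
  have a5 := (abs_le.1 (u1 h.pg ha (p := o.p) v (xp o s ω) v)).2
  have a6 := mul_nonneg (thS ha (Sv G o.p (xp o s ω))).1 (sq_nonneg (v ⬝ᵥ xp o s ω))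
  have a7 : 3 * nG G v * (2 * n) * (L * nG G v) * (n + n * g⁻¹) =
      6 * n ^ 2 * nG G v ^ 2 * (L + L * g⁻¹) := by ring
  have a8 : 6 * n ^ 2 * nG G v ^ 2 * (L + L * g⁻¹) ≤ 6 * n ^ 2 * nG G v ^ 2 * 10 := by
    gcongr; linarith
  rw [Wv, ← h.pg.nG_sq v]
  linarith

end Cx

theorem nm1 {n δ : ℝ} (hn : 1000 ≤ n) (δ0 : 0 ≤ δ) : 100 * n ^ 2 * δ ≤ n ^ 3 * δ := by
  gcongr ?_ * _; nlinarith [sq_nonneg n]
theorem nm2 {g t η : ℝ} (g0 : 0 < g) (t0 : 0 < t) (e0 : 0 < η) (e1 : η ≤ 1 / 1000)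
    (h : 1 ≤ (η * g) ^ 2 * t ^ 2) : (8 * t ^ 2)⁻¹ * g⁻¹ ^ 2 ≤ η := by
  have : (8 * t ^ 2)⁻¹ * g⁻¹ ^ 2 = 1 / (8 * (g * t) ^ 2) := by field_simp
  rw [this, div_le_iff₀ (by positivity)]
  nlinarith [mul_nonneg (mul_nonneg e0.le (sq_nonneg (g * t))) (sub_nonneg.2 e1),
    mul_nonneg e0.le (sq_nonneg (g * t))]
theorem nm3 {e K y : ℝ} (e0 : 0 < e) (e1 : e ≤ 1) (K1 : 1 ≤ K) (hy : 0 ≤ y) :
    1 + e / 20 + 12 * y + e / 20 * (1 + e + 10 ^ 4 * K * y) ≤ (1 + e + 10 ^ 4 * K * y) * (1 - e / 8) := by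
  have a1 := mul_le_mul_of_nonneg_right K1 hy
  have a2 := mul_le_mul_of_nonneg_right e1 (mul_nonneg (by linarith : 0 ≤ K) hy)
  nlinarith
theorem nm4 {ι y : ℝ} (ι0 : 0 < ι) (ι1 : ι ≤ 1) (hy : y ≤ (ι ^ 2) ^ 2 / 10 ^ 4) : y / ι ≤ ι ^ 2 / 10 ^ 4 := by
  rw [div_le_iff₀ ι0]
  have : ι ^ 2 ≤ ι := by nlinarith
  nlinarith [mul_le_mul_of_nonneg_left this (sq_nonneg ι)]
theorem nm5 {l f a y : ℝ} (hl : 0 ≤ l) (h : y ≤ 1 * |f| * (25 * l * a)) : y ≤ 13 * l * (f ^ 2 + a ^ 2) := by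
  rw [← sq_abs f]
  nlinarith [mul_nonneg hl (sq_nonneg (|f| - a)), mul_nonneg hl (sq_nonneg |f|), mul_nonneg hl (sq_nonneg a)]

set_option maxHeartbeats 1000000 in
theorem clGlue : ClGlue := by
  rintro ⟨K, K1, hK⟩
  refine ⟨10 ^ 4 * K, ?_⟩
  intro n k o μ _ x f1 f2 G χ X κ η C g T0 τ ε δ Bd hμ hx hw e0 e1 hη hδ cB B0 hB hBδ
  have C1 := hx.C1
  have η0 : 0 < η := hx.k0.trans_le hx.ke
  have hε2 : ε ^ 2 ≤ ε := by nlinarith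
  have hC4 : C ^ 2 ≤ C ^ 4 := pow_le_pow_right₀ C1 (by norm_num)
  have hC2 : C ≤ C ^ 2 := le_self_pow₀ C1 (by norm_num)
  have hC1 : 1 ≤ C ^ 2 := C1.trans hC2
  have b1 : K * (C ^ 4 * η) ≤ ε ^ 2 / 10 ^ 4 := by rw [le_div_iff₀ (by norm_num)]; linarith
  have b1' : C ^ 4 * η ≤ ε ^ 2 / 10 ^ 4 := (le_mul_of_one_le_left (by positivity) K1).trans b1
  have b2 : C ^ 2 * η ≤ C ^ 4 * η := by gcongr
  have he : 1000 * C ^ 2 * η ≤ 1 := by linarith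
  have h : Cx o x f1 f2 G χ X κ η C g T0 τ := ⟨hx, hw, sxStmt _ _ _ _ _ _ _ _ _ _ _ hx he, he⟩
  have hn := h.n1
  have g0 := hw.g0
  have cBd : CF fun s ω => Bd s (xp o s ω) := fun s => (cB s).comp (cont_xp s)
  have δ0 : 0 ≤ δ := (pe_nonneg hμ h.ok cBd fun _ _ _ => B0 _ _).trans hBδ
  have b3 : K * (C ^ 2 * (n ^ 3 * δ)) ≤ ε ^ 2 / 10 ^ 4 := by rw [le_div_iff₀ (by norm_num)]; linarith
  have b3' : C ^ 2 * (n ^ 3 * δ) ≤ ε ^ 2 / 10 ^ 4 := (le_mul_of_one_le_left (by positivity) K1).trans b3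
  obtain ⟨ι, ι0, rfl⟩ : ∃ ι, 0 < ι ∧ ε = ι ^ 2 := ⟨_, sqrt_pos.2 e0, (sq_sqrt e0.le).symm⟩
  obtain ⟨t, t0, rfl⟩ : ∃ t, 0 < t ∧ T0 = t ^ 2 := ⟨_, sqrt_pos.2 h.T0p, (sq_sqrt h.T0p.le).symm⟩
  have ι1 : ι ≤ 1 := by nlinarith
  have ha : 0 < ι * t ^ 2 / 4 := by positivity
  set c := o.p ⬝ᵥ G *ᵥ o.p / (ι * t ^ 2 / 4) with hc
  have c0 : 0 ≤ c := div_nonneg (h.pg.nn _) ha.le
  have cι : 1 ≤ C / ι := (one_le_div ι0).2 (ι1.trans C1)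
  have c1 : c ≤ 4 * (C / ι) := by
    rw [hc, div_le_iff₀ ha]
    exact hw.pG.trans_eq (by field_simp)
  have hL : 0 ≤ 23 * C ^ 2 / (ι ^ 2 * t) := by positivity
  have hL2 : (1 + c) ^ 3 ≤ (23 * C ^ 2 / (ι ^ 2 * t)) ^ 2 * (ι * t ^ 2 / 4) := by
    refine (pow_le_pow_left₀ (by linarith) (by linarith : 1 + c ≤ 5 * (C / ι)) 3).trans ?_
    have : (23 * C ^ 2 / (ι ^ 2 * t)) ^ 2 * (ι * t ^ 2 / 4) = 529 / 4 * C * (C / ι) ^ 3 := by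
      field_simp; ring
    rw [this, mul_pow]; gcongr; linarith
  have gt : 1 ≤ η * g * t := le_of_sq (by positivity) (by rw [one_pow, mul_pow]; exact hw.T1)
  have l1 : K * (23 * C ^ 2 / (ι ^ 2 * t) * g⁻¹) ≤ 23 * ι ^ 2 / 10 ^ 4 := by
    have e : 23 * C ^ 2 / (ι ^ 2 * t) * g⁻¹ = 23 * C ^ 2 / ι ^ 2 / (g * t) := by field_simp
    have a1 : 23 * C ^ 2 / ι ^ 2 / (g * t) ≤ 23 * (C ^ 4 * η) / ι ^ 2 := by
      rw [div_le_iff₀ (by positivity)]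
      calc _ = 23 * C ^ 2 / ι ^ 2 * 1 := (mul_one _).symm
        _ ≤ 23 * C ^ 4 / ι ^ 2 * (η * g * t) := by gcongr
        _ = _ := by ring
    rw [e]
    calc _ ≤ K * (23 * (C ^ 4 * η) / ι ^ 2) := by gcongr
      _ = 23 * (K * (C ^ 4 * η)) / ι ^ 2 := by ring
      _ ≤ 23 * ((ι ^ 2) ^ 2 / 10 ^ 4) / ι ^ 2 := by gcongr
      _ = _ := by field_simp
  set L := 23 * C ^ 2 / (ι ^ 2 * t)
  have l2 : L * g⁻¹ ≤ 23 * ι ^ 2 / 10 ^ 4 := (le_mul_of_one_le_left (by positivity) K1).trans l1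
  have d1 := nm4 ι0 ι1 b1
  have d2 := nm4 ι0 ι1 b3
  have m1 : K * ((3 + c) * C ^ 3 * η) ≤ 7 * ι ^ 2 / 10 ^ 4 := by
    calc _ ≤ K * (7 * (C / ι) * C ^ 3 * η) := by gcongr; linarith
      _ = 7 * (K * (C ^ 4 * η) / ι) := by ring
      _ ≤ _ := by linarith
  have m2 : K * ((3 + c) * C * n ^ 3 * δ) ≤ 7 * ι ^ 2 / 10 ^ 4 := by
    calc _ ≤ K * (7 * (C / ι) * C * n ^ 3 * δ) := by gcongr; linarith
      _ = 7 * (K * (C ^ 2 * (n ^ 3 * δ)) / ι) := by ring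
      _ ≤ _ := by linarith
  have m3 : (n : ℝ) ^ 3 * δ ≤ ι ^ 2 / 10 ^ 4 :=
    ((le_mul_of_one_le_left (by positivity) hC1).trans b3').trans (by linarith)
  have m4 : (100 * n ^ 2 + 3 + c) * δ ≤ 8 * ι ^ 2 / 10 ^ 4 := by
    have a1 := nm1 hn δ0
    have a2 : (3 + c) * δ ≤ K * ((3 + c) * C * n ^ 3 * δ) := by
      have : 1 ≤ K * C * n ^ 3 := one_le_mul_of_one_le_of_one_le (one_le_mul_of_one_le_of_one_le K1 C1)
        (one_le_pow₀ (by linarith))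
      linarith [mul_le_mul_of_nonneg_right this (mul_nonneg (by linarith : 0 ≤ 3 + c) δ0)]
    linarith
  have m5 : (8 * t ^ 2)⁻¹ * g⁻¹ ^ 2 ≤ ι ^ 2 / 10 ^ 4 := by
    have a1 := nm2 g0 t0 η0 h.e1 hw.T1
    have a2 : η ≤ C ^ 2 * η := le_mul_of_one_le_left η0.le hC1
    linarith
  have hτ : 0 ≤ C * τ ^ 2 / ι ^ 2 := by positivity
  have hφ : ∀ s, ph o s = 0 ∨ 0 < R2 o s := fun s => by
    unfold ph; split_ifs with hs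
    · right; linarith [R2_add h.ok s]
    · left; rfl
  refine boot (e := fun v => pe o μ fun s ω => (v ⬝ᵥ xp o s ω) ^ 2) (q := fun v => v ⬝ᵥ G *ᵥ v) h.pg.nn
    (A := (1 + ι ^ 2 / 20 + 12 * (C * τ ^ 2 / ι ^ 2)) / (1 - ι ^ 2 / 8))
    (ρ := ι ^ 2 / 20 / (1 - ι ^ 2 / 8)) (div_nonneg (by positivity) (by linarith))
    (div_nonneg (by positivity) (by linarith)) ((div_lt_one (by linarith)).2 (by linarith)) ?_
    ⟨36 * n, by positivity, fun v => (pfP hμ h.ok).le_const (fun s => by fun_prop)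
      fun s ω hω => h.f_sq hω v⟩ fun ka ka0 hka v => ?_
  · rw [div_mul_eq_mul_div, ← add_div, div_le_iff₀ (by linarith)]
    have e : 10 ^ 4 * K * C * τ ^ 2 / ι ^ 2 = 10 ^ 4 * K * (C * τ ^ 2 / ι ^ 2) := by ring
    rw [e]; exact nm3 e0 e1 K1 hτ
  have hN := h.pg.nn v
  have q0 : K * C * η ≤ 1 := by
    linarith [mul_le_mul_of_nonneg_left (mul_le_mul_of_nonneg_right (hC2.trans hC4) η0.le)
      (by linarith : 0 ≤ K)]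
  have q1 := (abs_le.1 (hK n k o μ x f1 f2 G χ X κ η C g _ τ δ _ L ka Bd hμ hx hw q0 ha hL hL2 cB B0 hB
    hBδ ka0 hka v)).1
  have cS := cont_Sp (o := o) (G := G) ha v
  have cE := cont_Er (o := o) (G := G) ha v
  have cU := cont_Uv (G := G) ha o.p v
  have cX : ∀ s, Continuous (Xi o x f1 f2 G (ι * t ^ 2 / 4) v s) := fun s => by
    unfold Xi De; fun_prop
  have P := pfP hμ h.ok
  have q2 : pe o μ (fun s ω => ph o s * Sp o G (ι * t ^ 2 / 4) v s (xp o s ω)) ≤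
      13 * (L * g⁻¹) * (ka * (v ⬝ᵥ G *ᵥ v) + v ⬝ᵥ G *ᵥ v) := by
    rw [sp hμ h.ok ha hw.symm v hφ]
    refine (P.le_mul (G := fun s ω => (v ⬝ᵥ xp o s ω) ^ 2 + v ⬝ᵥ G *ᵥ v) (c := 13 * (L * g⁻¹))
      (fun s => by have := cE s; fun_prop) (fun s => by fun_prop) fun s ω hω => ?_).trans ?_
    · rcases hφ s with e | e
      · rw [e, zero_mul]; positivity
      · have a1 := er_le h.ok ha h.pg hL hL2 (trQ_le h.pg hx.hq hx.n1 hx.n2) v e hω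
        have a2 : |ph o s| ≤ 1 := by unfold ph; split_ifs <;> simp
        have a3 := (abs_le.1 (abs3 a2 (le_refl |v ⬝ᵥ xp o s ω|) a1)).2
        rw [← h.pg.nG_sq v]
        exact nm5 (by positivity) (by linarith)
    · rw [P.add (fun s => by fun_prop) (fun s => by fun_prop), P.one]
      gcongr; exact hka v
  have q3 : pe o μ (fun s ω => (G *ᵥ v ⬝ᵥ xp o s ω) ^ 2) ≤ ka * (g⁻¹ ^ 2 * (v ⬝ᵥ G *ᵥ v)) :=
    (hka _).trans (mul_le_mul_of_nonneg_left ((h.pg.up _).trans ((mul_le_mul_of_nonneg_left (h.pg.le v)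
      h.pg.pos.le).trans_eq (by ring))) ka0)
  have q4 : (1 - ι ^ 2 / 8) * pe o μ (fun s ω => (v ⬝ᵥ xp o s ω) ^ 2) ≤
      pe o μ (fun s ω => ph o s * Sp o G (ι * t ^ 2 / 4) v s (xp o s ω)) -
        pe o μ (fun s ω => ph o s * Xi o x f1 f2 G (ι * t ^ 2 / 4) v s (xp o s ω)) +
        (1 + 12 * C * τ ^ 2 / ι ^ 2) * (v ⬝ᵥ G *ᵥ v) +
        (8 * t ^ 2)⁻¹ * pe o μ (fun s ω => (G *ᵥ v ⬝ᵥ xp o s ω) ^ 2) +
        (100 * n ^ 2 + 3 + c) * (v ⬝ᵥ G *ᵥ v) * pe o μ fun s ω => Bd s (xp o s ω) := by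
    rw [← P.mul, ← P.mul, ← P.mul, ← P.one ((1 + 12 * C * τ ^ 2 / ι ^ 2) * (v ⬝ᵥ G *ᵥ v)),
      ← P.sub (fun s => by have := cS s; fun_prop) (fun s => by have := cX s; fun_prop),
      ← P.add (fun s => by have := cS s; have := cX s; fun_prop) (fun s => by fun_prop),
      ← P.add (fun s => by have := cS s; have := cX s; fun_prop) (fun s => by fun_prop),
      ← P.add (fun s => by have := cS s; have := cX s; fun_prop) (fun s => by have : Continuous (Bd s) := cB s; fun_prop)]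
    refine P.mono (fun s => by fun_prop)
      (fun s => by have := cS s; have := cX s; have : Continuous (Bd s) := cB s; fun_prop) fun s ω hω => ?_
    rw [← mul_sub, h.sp_xi hω]
    have z1 : 0 ≤ (100 * n ^ 2 + 3 + c) * (v ⬝ᵥ G *ᵥ v) := by positivity
    by_cases hg : Gd o x f1 f2 G X κ η (t ^ 2) s (xp o s ω)
    · rw [ph, if_pos (h.good4 hω hg), one_mul]
      linarith [h.pt_good hω e0 ha (by ring) hg v, mul_nonneg z1 (B0 s (xp o s ω))]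
    · have z2 := mul_le_mul_of_nonneg_left (hB s ω hω hg) z1
      have z3 := h.pt_bad (s := s) hω ha hL hL2 (by linarith) v
      have z4 := h.f_sq (s := s) hω v
      have z5 : 0 ≤ (1 + 12 * C * τ ^ 2 / ι ^ 2) * (v ⬝ᵥ G *ᵥ v) := by positivity
      have z6 : 0 ≤ (8 * t ^ 2)⁻¹ * (G *ᵥ v ⬝ᵥ xp o s ω) ^ 2 := by positivity
      have z7 : 36 * n * (v ⬝ᵥ G *ᵥ v) ≤ 40 * n ^ 2 * (v ⬝ᵥ G *ᵥ v) := by
        gcongr ?_ * _; linarith [mul_le_mul_of_nonneg_left hn (Nat.cast_nonneg (α := ℝ) n)]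
      have z8 : -((60 * n ^ 2 + 3 + c) * (v ⬝ᵥ G *ᵥ v)) ≤ ph o s * Wv o G χ (ι * t ^ 2 / 4) v (xp o s ω) := by
        unfold ph; split_ifs
        · rwa [one_mul]
        · rw [zero_mul, neg_nonpos]; positivity
      linarith [mul_nonneg e0.le (sq_nonneg (v ⬝ᵥ xp o s ω))]
  rw [div_mul_eq_mul_div, ← add_div, div_mul_eq_mul_div, le_div_iff₀' (by linarith)]
  refine q4.trans ?_
  rw [← hc, div_eq_mul_inv L] at q1
  have r1 : (100 * n ^ 2 + 3 + c) * (v ⬝ᵥ G *ᵥ v) * pe o μ (fun s ω => Bd s (xp o s ω)) ≤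
      8 * ι ^ 2 / 10 ^ 4 * (v ⬝ᵥ G *ᵥ v) := by
    calc _ ≤ (100 * n ^ 2 + 3 + c) * (v ⬝ᵥ G *ᵥ v) * δ := by gcongr
      _ = (100 * n ^ 2 + 3 + c) * δ * (v ⬝ᵥ G *ᵥ v) := by ring
      _ ≤ _ := by gcongr
  have r2 : (8 * t ^ 2)⁻¹ * pe o μ (fun s ω => (G *ᵥ v ⬝ᵥ xp o s ω) ^ 2) ≤
      ι ^ 2 / 10 ^ 4 * (ka * (v ⬝ᵥ G *ᵥ v)) := by
    calc _ ≤ (8 * t ^ 2)⁻¹ * (ka * (g⁻¹ ^ 2 * (v ⬝ᵥ G *ᵥ v))) := by gcongr
      _ = (8 * t ^ 2)⁻¹ * g⁻¹ ^ 2 * (ka * (v ⬝ᵥ G *ᵥ v)) := by ring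
      _ ≤ _ := by gcongr
  have r3 : 13 * (L * g⁻¹) * (ka * (v ⬝ᵥ G *ᵥ v) + v ⬝ᵥ G *ᵥ v) ≤
      13 * (23 * ι ^ 2 / 10 ^ 4) * (ka * (v ⬝ᵥ G *ᵥ v) + v ⬝ᵥ G *ᵥ v) := by gcongr
  have r4 : K * (((3 + c) * C ^ 3 * η + L * g⁻¹) * (1 + ka + n ^ 3 * δ) + (3 + c) * C * n ^ 3 * δ) *
      (v ⬝ᵥ G *ᵥ v) ≤ (30 * ι ^ 2 / 10 ^ 4 * (2 + ka) + 7 * ι ^ 2 / 10 ^ 4) * (v ⬝ᵥ G *ᵥ v) := by
    refine mul_le_mul_of_nonneg_right ?_ hN
    have a1 : K * ((3 + c) * C ^ 3 * η + L * g⁻¹) * (1 + ka + n ^ 3 * δ) ≤ 30 * ι ^ 2 / 10 ^ 4 * (2 + ka) :=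
      mul_le_mul (by linarith) (by linarith) (by positivity) (by positivity)
    linarith
  have w1 := mul_nonneg e0.le hN
  have w2 := mul_nonneg e0.le (mul_nonneg ka0 hN)
  have e : 12 * C * τ ^ 2 / ι ^ 2 = 12 * (C * τ ^ 2 / ι ^ 2) := by ring
  rw [e]
  linarith

end Crest.Agent.T157.O4c.B42

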