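import Crest.Agent.T157.O4cE_4
import Crest.Agent.T157.O4cCl_42

set_option autoImplicit false

/-!
Row 157, A2 section 4 (helper4): the core of (M1), unconditional.
-/

namespace Crest.Agent.T157.O4c

theorem m1Core : M1Core := B42.clGlue cuStmt

end Crest.Agent.T157.O4c
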