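import Crest.Agent.T157.OaE_48

set_option autoImplicit false
set_option linter.unusedSectionVars false

/-!
Row 157, A2 (helper48): the family of tests of `O0.Pack` and the second order bounds at `z = 2`.
-/

noncomputable section

namespace Crest.Agent.T157.Oa

open MeasureTheory Matrix Filter Topology Set
open Crest.Agent.T157.E Crest.Agent.T157.SL Crest.Agent.T157.Ks Crest.Agent.T157.Od
open Crest.Agent.T157.Oo

/-- the five kinds of tests -/
def mkC (p : O0.Pm) (t s : ℝ) : Tst p.n := ⟨s, Real.exp (-p.pr t), Gd (p.gc s)⟩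
def mkS (p : O0.Pm) (s : ℝ) : Tst p.n := ⟨s, 1, fun _ v => CB v sv ((1 + p.e1) / s)⟩
def mk0 (p : O0.Pm) (s : ℝ) : Tst p.n := ⟨s, 1, p.S0 s⟩
def mkP (p : O0.Pm) : Tst p.n := ⟨p.T, 1, fun _ v => Top.Poin v p.K0⟩
def mk2 (p : O0.Pm) (s : ℝ) : Tst p.n := ⟨s, 1, p.S2⟩

/-- the family contains a grid of mesh `n⁻²` on `[a, b]` -/
def Grid {n : ℕ} (I : Finset (Tst n)) (mk : ℝ → Tst n) (a b : ℝ) : Prop :=
  (∀ u ∈ Icc a b, ∃ s ∈ Icc u (u + 1 / (n : ℝ) ^ 2), s ≤ b ∧ mk s ∈ I) ∧ (a ≤ b → mk a ∈ I)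

/-- everything that is known about the family and the disorder -/
structure Fr (p : O0.Pm) (t : ℝ) (I : Finset (Tst p.n)) (W : Mn p.n) (ρ ε : ℝ) : Prop where
  N : Nm p t
  c : Ctx I ρ ε (36 * p.n)
  gc : Grid I (mkC p t) (t * (1 + p.eta)) p.t0
  gs : Grid I (mkS p) (p.Lp * t) p.t0
  g0 : Grid I (mk0 p) (max t (p.t0 / 2)) (p.T + 1)
  gP : mkP p ∈ I
  g2 : p.t2 ≤ t → Grid I (mk2 p) t p.t0
  sym : Wᵀ = W
  op : ∀ z ∈ Icc 2 (2 + p.L ^ 2 * t / 100), Op2 (Az z W) (6 ^ 2)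

/-- the bound of the crude tests on `‖A C A‖` -/
def KK (p : O0.Pm) (t : ℝ) : ℝ := if p.tss ≤ t then p.K else (p.n : ℝ) ^ p.k2
/-- the number of Riccati steps -/
def MM (p : O0.Pm) : ℕ := ⌈2 * p.B2⌉₊

theorem Az_sym {n : ℕ} {W : Mn n} (h : Wᵀ = W) (z : ℝ) : (Az z W)ᵀ = Az z W := by
  simp only [Az, transpose_sub, transpose_smul, transpose_one, h]

variable {p : O0.Pm} {t ρ ε s : ℝ} {I : Finset (Tst p.n)} {W : Mn p.n}

namespace Nm

variable (N : Nm p t)
include N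

theorem Rmu : 36 * (p.n : ℝ) * (1 / (p.n : ℝ) ^ 2) ≤ 1 / 4 := by
  have := N.n0
  rw [show 36 * (p.n : ℝ) * (1 / (p.n : ℝ) ^ 2) = 36 / p.n by field_simp, div_le_iff₀ this]
  linarith [N.n1']

theorem fac : 2 * (36 * (p.n : ℝ)) * (1 / (p.n : ℝ) ^ 2) + 1 / (36 * (p.n : ℝ)) ≤ 73 / p.n := by
  have := N.n0
  rw [show 2 * (36 * (p.n : ℝ)) * (1 / (p.n : ℝ) ^ 2) + 1 / (36 * (p.n : ℝ)) = (72 + 1 / 36) / p.n by
    field_simp; ring]
  gcongr; norm_num

theorem fac' : 1 + (2 * (36 * (p.n : ℝ)) * (1 / (p.n : ℝ) ^ 2) + 1 / (36 * (p.n : ℝ))) ≤ 2 := by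
  have : 73 / (p.n : ℝ) ≤ 1 := by rw [div_le_one N.n0]; linarith [N.n1']
  linarith [N.fac]

theorem Kt {u a : ℝ} (hu : t ≤ u) (ha : a ≤ XX p) : a / u ≤ 36 * p.n := by
  rw [div_le_iff₀ (N.t0.trans_le hu)]
  nlinarith [N.nX, N.n0, N.t0]

theorem KK1 : p.K ≤ KK p t := by
  unfold KK; split_ifs
  exacts [le_rfl, N.nK]

theorem KK2 : KK p t ≤ p.K * kk0 p t := by
  unfold KK kk0; split_ifs
  · rw [mul_one]
  · exact le_mul_of_one_le_left (by have := N.n0; positivity) N.ok.K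

theorem KK3 (h : t ≤ s) (h' : p.ts ≤ s) : (p.gc s).K2 ≤ KK p t := by
  simp only [O0.Pm.gc, h', if_true]
  split_ifs with h1
  · exact N.KK1
  · rw [KK, if_neg fun h2 => h1 (h2.trans h)]

theorem s1 : t ≤ t * (1 + p.eta) ∧ t * (1 + p.eta) ≤ 5 / 4 * t := by
  constructor <;> nlinarith [N.eta0, N.eta2, N.t0]

/-- the power of the ratio `s / t` -/
theorem pw {a b : ℝ} (s0 : 0 ≤ s) (hs : s ≤ 3 / 2 * max t p.ts) (a0 : 0 ≤ a) (a2 : a ≤ 2) (ab : a ≤ b) :
    (s / t) ^ a ≤ 4 * max 1 (p.ts / t) ^ b := by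
  have t0 := N.t0
  have e : max t p.ts = max 1 (p.ts / t) * t := by
    rw [max_mul_of_nonneg _ _ t0.le, one_mul, div_mul_cancel₀ _ t0.ne']
  have h1 := le_max_left 1 (p.ts / t)
  have h2 : s / t ≤ 2 * max 1 (p.ts / t) := by rw [div_le_iff₀ t0]; nlinarith
  refine (Real.rpow_le_rpow (by positivity) h2 a0).trans ?_
  rw [Real.mul_rpow (by norm_num) (by linarith)]
  refine mul_le_mul ?_ (Real.rpow_le_rpow_of_exponent_le h1 ab) (by positivity) (by norm_num)
  exact (Real.rpow_le_rpow_of_exponent_le (by norm_num) a2).trans (by norm_num)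

end Nm

namespace Fr

variable (F : Fr p t I W ρ ε)
include F

theorem D0 : Dv I W ρ 1 (max t (p.t0 / 2)) (p.T + 1) fun _ v => CB v sv (2 * p.K0) := by
  have N := F.N
  refine (gridD F.c N.Rmu (k := fun _ => p.K0) (fun _ _ => N.ok.K0) (fun _ _ => ?_) fun u hu => ?_).imp
    fun _ _ _ _ h => h.mono (by nlinarith [N.fac', N.ok.K0])
  · linarith [N.Xk, N.Xn, N.parts.2.1, N.K0, N.ok.K0]
  · obtain ⟨s, h1, -, h2⟩ := F.g0.1 u hu
    exact ⟨_, h2, h1, fun _ h => h.1⟩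

theorem Ds : Dv I W ρ 1 (p.Lp * t) p.t0 fun u v => CB v sv ((1 + 2 * p.e1) / u) := by
  have N := F.N
  have e0 := N.e0
  have e1 : p.e1 ≤ 1 := by linarith [N.k3, N.k3']
  have tu : ∀ u ∈ Icc (p.Lp * t) p.t0, t ≤ u := fun u hu => by nlinarith [hu.1, N.ok.Lp, N.t0]
  refine (gridD F.c N.Rmu (k := fun u => (1 + p.e1) / u) (fun u hu => ?_)
    (fun u hu => N.Kt (tu u hu) (by linarith [N.X1])) fun u hu => ?_).imp fun u hu _ _ h => h.mono ?_
  · rw [one_le_div (N.t0.trans_le (tu u hu))]; linarith [hu.2, N.ok.t0.2]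
  · obtain ⟨s, h1, -, h2⟩ := F.gs.1 u hu
    have := N.t0.trans_le (tu u hu)
    exact ⟨_, h2, h1, fun _ h => CB.mono h (div_le_div_of_nonneg_left (by linarith) this h1.1)⟩
  · rw [div_mul_eq_mul_div]
    refine div_le_div_of_nonneg_right ?_ (N.t0.le.trans (tu u hu))
    have : 73 / (p.n : ℝ) ≤ p.e1 / 2 := by rw [div_le_iff₀ N.n0]; linarith [N.ne]
    have := mul_le_mul_of_nonneg_left (N.fac.trans this) (show 0 ≤ 1 + p.e1 by linarith)
    nlinarith

theorem tC {m : ℕ} (hI : mkC p t s ∈ I) : Dv I W ρ (m + 1) s s fun _ v => Gd (p.gc s) W v :=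
  testD F.c hI

theorem DP : Dv I W ρ 1 p.T p.T fun _ v => Top.Poin v p.K0 := testD (m := 0) F.c F.gP

/-- the crude bound down to the present time -/
theorem D1 (h : t < p.t0 / 2) : Dv I W ρ (2 * MM p + 2) t p.t0 fun u v => CB v sv (3 * p.K / u) := by
  have N := F.N
  have t0 := N.t0; have K0 := N.K0; have K1 := N.ok.K; have tt := N.tt; have n0 := N.n0
  obtain ⟨a1, a2⟩ := N.s1
  have η0 := N.eta0; have η1 := N.eta1; have η2 := N.eta2
  set s := t * (1 + p.eta) with hs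
  have s0 : 0 < s := by linarith
  have hI := F.gc.2 (by linarith)
  have Ku : ∀ u, 0 < u → u ≤ 1 → 1 ≤ p.K / u := fun u h0 h1 => by rw [one_le_div h0]; linarith
  have R1 : 1 / (36 * (p.n : ℝ)) ≤ 1 := by rw [div_le_one (by positivity)]; linarith [N.n1']
  refine Dv.union (b := s) ?_ (((gridD F.c N.Rmu (k := fun u => p.K / u)
    (fun u hu => Ku u (by linarith [hu.1]) (by linarith [hu.2, N.ok.t0.2]))
    (fun u hu => N.Kt (a1.trans hu.1) (by linarith [N.XK])) fun u hu => ?_).imp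
      fun u hu _ _ h => h.mono ?_).depth F.c (by omega))
  rotate_left
  · obtain ⟨s, h1, -, h2⟩ := F.gc.1 u hu
    exact ⟨_, h2, h1, fun _ h => CB.mono h.g1 (div_le_div_of_nonneg_left K0.le (s0.trans_le hu.1) h1.1)⟩
  · have : 0 < p.K / u := div_pos K0 (s0.trans_le hu.1)
    rw [mul_div_assoc]; nlinarith [N.fac']
  have d1 : p.K / s * (t * p.eta) ≤ 1 / 4 := by
    rw [div_mul_eq_mul_div, div_le_iff₀ s0]; nlinarith
  have k0 := div_pos K0 s0
  rcases lt_or_ge t p.t2 with h2 | h2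
  · intro u hu v hv
    have u0 := t0.trans_le hu.1
    have d2 : s - u ≤ t * p.eta := by linarith [hu.1]
    have d3 : p.K / s * (s - u) ≤ 1 / 4 := (mul_le_mul_of_nonneg_left d2 k0.le).trans d1
    have L0 : 0 ≤ p.L := by linarith [N.ok.L]
    refine (capT (m := 2 * MM p + 1) F.c hI (k := p.K / s) (L := p.L / 10 * p.n * √s) k0.le
      (by positivity) (fun v _ h => ⟨h.g1, by simpa only [dotProduct, sq, O0.Pm.gc] using h.g6⟩) hv hu.2 d3
      (show s - u ≤ _ by nlinarith) ?_).mono ?_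
    · change Real.exp (_ * (s - u)) * Real.exp _ ≤ _
      rw [← Real.exp_add, O0.Pm.pr, if_pos h2, O0.Pm.M, rpow32 t0.le]
      refine exp_le_three ?_
      have b1 : √s ≤ 5 / 2 * √t := Real.sqrt_le_iff.2 ⟨by positivity, by
        rw [mul_pow, Real.sq_sqrt t0.le]; linarith⟩
      have b2 : p.L / 10 * p.n * √s * (s - u) ≤ p.L / 10 * p.n * (5 / 2 * √t) * (t * p.eta) := by
        gcongr; linarith [hu.2]
      linarith
    · change p.K / s / (1 - p.K / s * (s - u)) + _ ≤ _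
      have b1 : p.K / s / (1 - p.K / s * (s - u)) ≤ 2 * (p.K / s) := by
        rw [div_le_iff₀ (by linarith)]; nlinarith
      have b2 : p.K / s ≤ p.K / u := div_le_div_of_nonneg_left K0.le u0 hu.2
      have b3 := Ku u u0 (by linarith [hu.2])
      rw [mul_div_assoc]; linarith
  · have B1 : 1 ≤ p.B2 := by linarith [N.ok.B2, N.ok.B0', N.ok.K0]
    have hL : Dv I W ρ 1 t p.t0 fun _ v => CB v sv (2 * p.B2) :=
      (gridD F.c N.Rmu (k := fun _ => p.B2) (fun _ _ => B1) (fun _ _ => by linarith [N.nB2])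
        fun u hu => by
          obtain ⟨s, h1, -, h2⟩ := (F.g2 h2).1 u hu
          exact ⟨_, h2, h1, fun _ h => h.1⟩).imp fun _ _ _ _ h => h.mono (by nlinarith [N.fac'])
    have e : s - t * p.eta = t := by rw [hs]; ring
    have := ricD' F.c hL hI (k := p.K / s) (d := t * p.eta) (M := MM p) e.ge (show s ≤ _ by linarith)
      (fun _ h => h.g1) (R1.trans (Ku s s0 (by linarith))) (by
        rw [div_le_iff₀ s0]; nlinarith [N.hB2]) (by positivity) (by nlinarith [N.n1']) (by linarith)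
      (le_trans (by nlinarith [mul_le_mul tt η2 η0.le (by norm_num)]) (Nat.le_ceil _))
    change Dv I W ρ _ (s - t * p.eta) s _ at this
    rw [e, show 1 + 2 * MM p + 1 = 2 * MM p + 2 by ring] at this
    refine this.imp fun u hu _ _ h => h.mono ?_
    have b2 : p.K / s ≤ p.K / u := div_le_div_of_nonneg_left K0.le (t0.trans_le hu.1) hu.2
    rw [mul_div_assoc]; linarith

theorem bA {z : ℝ} (hz : z ∈ Icc 2 (2 + p.L ^ 2 * t / 100)) : Bd (fA (Az z W) sv) (36 * p.n) :=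
  F.c.bdA (F.op z hz) (by norm_num)

theorem two : (2 : ℝ) ∈ Icc 2 (2 + p.L ^ 2 * t / 100) :=
  ⟨le_rfl, le_add_of_nonneg_right (by have := F.N.t0; positivity)⟩

/-- a crude test above a threshold -/
theorem pick (h : t < p.t0 / 2) {a : ℝ} (ha : a ≤ 5 / 8 * p.t0) : ∃ s, t * (1 + p.eta) ≤ s ∧ a ≤ s ∧
    s ≤ max (5 / 4 * t) a + t / 1000 ∧ mkC p t s ∈ I := by
  have N := F.N
  obtain ⟨s, h1, -, h2⟩ := F.gc.1 (max (t * (1 + p.eta)) a) ⟨le_max_left _ _,
    max_le (by linarith [N.s1.2, N.t0]) (by linarith [N.ok.t0.1])⟩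
  exact ⟨s, (le_max_left _ _).trans h1.1, (le_max_right _ _).trans h1.1,
    by linarith [h1.2, N.mu', max_le_max_right a N.s1.2], h2⟩

/-- `‖A C A‖` at `z = 2` -/
theorem Dk (h : t < p.t0 / 2) (h1' : t * (1 + p.eta) ≤ s) (h2 : p.ts ≤ s) (h3 : s ≤ p.t0) (hI : mkC p t s ∈ I) :
    Dv I W ρ (2 * MM p + 3) t p.t0 fun u v =>
      CB v (fA (Az 2 W) sv) (cG p * KK p t * (1 + (s / u) ^ (1 + 2 * p.e1))) := by
  have N := F.N
  have t0 := N.t0; have K0 := N.K0; have K1 := N.ok.K; have n0 := N.n0; have e0 := N.e0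
  have k1 := N.KK1; have Lp := N.ok.Lp; have G4 := N.cG4
  have h1 := N.s1.1.trans h1'
  have s0 := t0.trans_le h1
  have D1 := F.D1 h
  have k0 : 0 < KK p t := by linarith
  have G0 : 0 < cG p := by linarith
  refine Dv.union (b := s) ?_ ?_
  · refine (cbL F.c (kap := fun r => (1 + 2 * p.e1) * r⁻¹ + 3 * p.K * p.Lp * t * r ^ (-2 : ℝ))
      ((continuousOn_const.mul (continuousOn_inv₀.mono fun r hr => (t0.trans_le hr.1).ne')).add
        (continuousOn_const.mul (cont_rpow t0))) (fun u hu => by have := t0.trans_le hu.1; positivity)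
      (fun u hu v hv => ?_) (F.bA F.two) (K := KK p t)
      ((F.tC hI).imp fun _ _ _ _ h => CB.mono h.g2 (N.KK3 h1 h2)) (by linarith)
      (by linarith [N.ok.t0.2, N.n1'])).imp fun u hu _ _ h => h.mono ?_
    · have u0 := t0.trans_le hu.1
      have a1 : 0 ≤ (1 + 2 * p.e1) * u⁻¹ := by positivity
      have a2 : 0 ≤ 3 * p.K * p.Lp * t * u ^ (-2 : ℝ) := by positivity
      rcases le_total u (p.Lp * t) with h4 | h4
      · refine (D1 u ⟨hu.1, hu.2.trans h3⟩ v hv).mono (le_add_of_nonneg_of_le a1 ?_)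
        rw [Real.rpow_neg u0.le, Real.rpow_two, ← div_eq_mul_inv, div_le_div_iff₀ u0 (by positivity)]
        nlinarith [mul_le_mul_of_nonneg_left h4 (mul_pos K0 u0).le]
      · exact (F.Ds u ⟨h4, hu.2.trans h3⟩ v (hv.depth F.c (by omega))).mono
          (le_add_of_le_of_nonneg (div_eq_mul_inv _ _).le a2)
    · have u0 := t0.trans_le hu.1
      have a1 := int_maj (θ := 1 + 2 * p.e1) (a := 3 * p.K * p.Lp) t0 hu.1 hu.2 (by positivity)
      have a2 : 1 / (36 * (p.n : ℝ)) ≤ 1 := by rw [div_le_one (by positivity)]; linarith [N.n1']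
      have a3 : 0 ≤ (s / u) ^ (1 + 2 * p.e1) := by positivity
      refine (mul_le_mul a1 (show _ ≤ 2 * KK p t by linarith) (by positivity) (by positivity)).trans ?_
      have a4 : 0 ≤ Real.exp (3 * p.K * p.Lp) * KK p t := by positivity
      unfold cG; nlinarith [mul_nonneg a3 a4]
  · refine (gridK F.c N.Rmu (F.bA F.two) (κ := 3 * p.K / t) (K := KK p t) (b' := p.t0) (by positivity)
      (N.Kt le_rfl (by linarith [N.XK])) (by linarith)
      ((D1.sub h1 le_rfl).imp fun u hu _ _ h => h.mono (by gcongr; linarith [hu.1])) fun u hu => ?_).imp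
        fun u hu _ _ h => h.mono ?_
    · obtain ⟨s', b1, b2, b3⟩ := F.gc.1 u ⟨h1'.trans hu.1, hu.2⟩
      have b4 := hu.1.trans b1.1
      exact ⟨_, b3, b1, b2, fun _ h => CB.mono h.g2 (N.KK3 (h1.trans b4) (h2.trans b4))⟩
    · have a3 : 0 ≤ (s / u) ^ (1 + 2 * p.e1) := by have := s0.trans_le hu.1; positivity
      nlinarith [mul_nonneg a3 (show 0 ≤ cG p * KK p t by positivity)]

/-- `tr C²` -/
theorem Dc (h : t < p.t0 / 2) :
    Dv I W ρ (2 * MM p + 3) t (3 / 4 * p.t0) fun u v => fr (covMat v sv) ≤ cC p * p.n / √u := by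
  intro u hu v hv
  have N := F.N
  have t0 := N.t0; have K0 := N.K0; have K1 := N.ok.K; have n0 := N.n0; have L := N.ok.L
  have η0 := N.eta0; have η1 := N.eta1; have η2 := N.eta2; have a0 := N.ok.t0
  have u0 := t0.trans_le hu.1
  have u1 : u ≤ 1 / 100 := by linarith [hu.2, a0.2]
  obtain ⟨s, h1, h2, hI⟩ := F.gc.1 (u * (1 + p.eta)) ⟨by gcongr; exact hu.1, by nlinarith [hu.2, a0.1]⟩
  have b1 : u * p.eta ≤ u / 4 := by nlinarith
  have μ1 := N.mu; have μ2 := N.mu'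
  have b2 : s ≤ 36 / 25 * u := by linarith [h1.2, hu.1]
  have b3 : 0 < u * p.eta := by positivity
  refine (c2T (m := 2 * MM p + 2) F.c hI (β := p.L / 10 * p.n * √s) (κ := 3 * p.K / u) (d := u * p.eta)
    (by positivity) (by positivity) (fun _ h => h.g6) hv b3 (show _ ≤ s - u by linarith [h1.1])
    (show s - u ≤ 1 by linarith) ?_ ((F.D1 h).ap F.c hv hu.1 (show u + (s - u) ≤ _ by linarith)
      fun r hr _ _ h => h.mono (by gcongr; exact hr.1))).trans ?_
  · change _ * (s - u) ≤ _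
    rw [div_mul_eq_mul_div, div_le_iff₀ u0]
    have : p.K * (s - u) ≤ p.K * (u * p.eta + 1 / (p.n : ℝ) ^ 2) := by gcongr; linarith [h1.2]
    nlinarith [hu.1]
  · set w := √u with hw
    have w0 : 0 < w := Real.sqrt_pos.2 u0
    have ww : w * w = u := Real.mul_self_sqrt u0.le
    have w1 : w ≤ 1 := Real.sqrt_le_one.2 (by linarith)
    have c1 : √s ≤ 6 / 5 * w := Real.sqrt_le_iff.2 ⟨by positivity, by nlinarith⟩
    have c2 : 100 ≤ p.n * w := by nlinarith [N.nt, mul_le_mul_of_nonneg_left hu.1 n0.le]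
    have e : u * p.eta = w * w / (4 * p.K) := by rw [ww, O0.Pm.eta]; ring
    have c3 : (p.L / 10 * p.n * √s + 1) / (u * p.eta) ≤ (p.L / 10 * p.n * (6 / 5 * w) + p.n * w / 100) /
      (u * p.eta) := by gcongr; linarith
    have e2 : (p.L / 10 * p.n * (6 / 5 * w) + p.n * w / 100) / (u * p.eta) =
      (12 / 25 * p.L + 1 / 25) * (p.K * (p.n / w)) := by rw [e]; field_simp; ring
    have c4 : 1 * 100 ≤ p.K * (p.n / w) := by
      gcongr; rw [le_div_iff₀ w0]; linarith [N.n1']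
    have e3 : cC p * p.n / w = 14 * p.L * (p.K * (p.n / w)) := by unfold cC; ring
    rw [e3]; nlinarith

set_option maxHeartbeats 800000 in
/-- `|A C - 1|²` at `z = 2` -/
theorem Da (h : t < p.t0 / 2) (h1' : t * (1 + p.eta) ≤ s) (h2 : p.ts ≤ s) (h3 : s ≤ 3 / 2 * max t p.ts)
    (h4 : s ≤ max (5 / 4 * t) p.ts + t / 1000) (hI : mkC p t s ∈ I) :
    Dv I W ρ (2 * MM p + 4) t s fun _ v => fr (Az 2 W * covMat v sv - 1) ≤ cA p * p.n * p.al t := by
  have N := F.N
  have t0 := N.t0; have K0 := N.K0; have K1 := N.ok.K; have n0 := N.n0; have e0 := N.e0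
  have k1 := N.KK1; have G4 := N.cG4; have C1 := N.cC1; have a0 := N.ok.t0
  have k0 : 0 < KK p t := by linarith
  have G0 : 0 < cG p := by linarith
  have C0 : 0 < cC p := by linarith
  have h1 := N.s1.1.trans h1'
  have s0 := t0.trans_le h1
  have m1 := le_max_left t p.tss
  have m2 := le_max_right t p.tss
  have m3 : max t p.tss ≤ p.t0 / 2 := max_le h.le (by linarith [N.tss, a0.1])
  have m4 : max (5 / 4 * t) p.ts ≤ 5 / 4 * max t p.tss := max_le (by linarith) (by linarith [N.ts])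
  have m5 : max s p.tss ≤ 5 / 4 * max t p.tss + t / 1000 := max_le (by linarith) (by linarith)
  obtain ⟨r, r1, r2, r3, hr⟩ : ∃ r, s ≤ r ∧ p.tss ≤ r ∧ r ≤ 3 / 2 * max t p.tss ∧ mkC p t r ∈ I := by
    obtain ⟨r, b1, -, b2⟩ := F.gc.1 (max s p.tss) ⟨h1'.trans (le_max_left _ _), by linarith⟩
    exact ⟨r, (le_max_left _ _).trans b1.1, (le_max_right _ _).trans b1.1,
      by linarith [b1.2, N.mu'], b2⟩
  have r0 := s0.trans_le r1
  set α := 3 * p.K * cG p * KK p t * cC p * p.n with hα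
  have α0 : 0 ≤ α := by positivity
  have key := t2G F.c (ψ := fA (Az 2 W) sv) (χ := sv) (α := α) (β := α * s ^ (1 + 2 * p.e1)) (a := 3 / 4)
    (b := 5 / 4 + p.e1) (al := p.n * r ^ (1 / 3 : ℝ)) (c0 := (1 : Mn p.n)) (s := r) (W := W)
    (m := 2 * MM p + 3) t0 α0 (by positivity) (by norm_num) (by linarith) (by linarith [a0.2])
    (fun u hu v hv => ?_) ((F.tC hr).imp fun _ _ _ _ h => by
      have := h.g3
      rwa [fr_AC (Az_sym F.sym 2), show (p.gc r).al = p.n * r ^ (1 / 3 : ℝ) from if_pos r2] at this)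
    (by positivity) (F.bA F.two) F.c.bd ((fr_one (n := p.n)).trans_le (by nlinarith [N.n1']))
  · refine (key.sub le_rfl r1).imp fun _ _ v _ h => ?_
    rw [fr_AC (Az_sym F.sym 2)]
    refine h.trans ?_
    have al0 := N.al0
    have b1 : r ^ (1 / 3 : ℝ) ≤ 2 * p.al t := by
      refine (Real.rpow_le_rpow r0.le (show r ≤ 2 * max t p.tss by linarith) (by norm_num)).trans ?_
      rw [Real.mul_rpow (by norm_num) (by linarith)]
      exact mul_le_mul_of_nonneg_right (Real.rpow_le_self_of_one_le (by norm_num) (by norm_num)) al0.le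
    have b2 : 1 ≤ p.n * p.al t := by nlinarith [N.nt, N.tsq, N.sqal]
    have e1 : (r ^ (1 - 3 / 4 : ℝ) / (1 - 3 / 4)) ^ 2 = 16 * √r := by
      rw [div_pow, ← Real.rpow_natCast, ← Real.rpow_mul r0.le, Real.sqrt_eq_rpow]; norm_num; ring
    have b3 : √r ≤ 2 * √(max t p.tss) := Real.sqrt_le_iff.2 ⟨by positivity, by
      rw [mul_pow, Real.sq_sqrt (by linarith)]; linarith⟩
    have b4 : KK p t * √r ≤ 2 * p.K * p.al t :=
      calc _ ≤ p.K * kk0 p t * (2 * √(max t p.tss)) :=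
            mul_le_mul N.KK2 b3 (by positivity) (k0.le.trans N.KK2)
        _ = 2 * p.K * (kk0 p t * √(max t p.tss)) := by ring
        _ ≤ _ := by gcongr; exact N.kk1
    have e2 : s ^ (1 + 2 * p.e1) * (t ^ (1 - (5 / 4 + p.e1))) ^ 2 = (s / t) ^ (1 + 2 * p.e1) * √t := by
      rw [Real.div_rpow s0.le t0.le, div_mul_eq_mul_div, mul_div_assoc, Real.sqrt_eq_rpow,
        ← Real.rpow_sub t0, ← Real.rpow_natCast, ← Real.rpow_mul t0.le]
      congr 2; push_cast; ring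
    have b5 : KK p t * ((s / t) ^ (1 + 2 * p.e1) * √t) ≤ 4 * p.K * p.al t :=
      calc _ ≤ p.K * kk0 p t * (4 * max 1 (p.ts / t) ^ (1 + p.k3) * √t) :=
            mul_le_mul N.KK2 (mul_le_mul_of_nonneg_right (N.pw s0.le h3 (by linarith)
              (by linarith [N.k3, N.k3']) (by linarith [N.k3])) N.sq0.le) (by positivity)
              (k0.le.trans N.KK2)
        _ = 4 * p.K * (p.kk t * √t) := by rw [N.kk_eq]; ring
        _ ≤ _ := by gcongr; exact N.kks
    have b6 : (t ^ (1 - (5 / 4 + p.e1)) / (5 / 4 + p.e1 - 1)) ^ 2 ≤ 16 * (t ^ (1 - (5 / 4 + p.e1))) ^ 2 := by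
      refine (pow_le_pow_left₀ (div_nonneg (by positivity) (by linarith)) (div_le_div_of_nonneg_left
        (by positivity) (by norm_num : (0 : ℝ) < 1 / 4) (by linarith)) 2).trans_eq (by ring)
    have b7 := mul_le_mul_of_nonneg_left b6 (show 0 ≤ α * s ^ (1 + 2 * p.e1) by positivity)
    have b8 := mul_le_mul_of_nonneg_left (add_le_add b4 b5)
      (show 0 ≤ 16 * (3 * p.K * cG p * cC p * p.n) by positivity)
    have e3 : α * s ^ (1 + 2 * p.e1) * (16 * (t ^ (1 - (5 / 4 + p.e1))) ^ 2) =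
        16 * (3 * p.K * cG p * cC p * p.n) * (KK p t * ((s / t) ^ (1 + 2 * p.e1) * √t)) := by
      rw [← e2, hα]; ring
    have b9 := mul_le_mul_of_nonneg_left b1 n0.le
    rw [e1, hα, cA]
    rw [e3] at b7
    linarith
  · have u0 := t0.trans_le hu.1
    have u1 : u ≤ 3 / 4 * p.t0 := by linarith [hu.2]
    have u2 : u ∈ Icc t p.t0 := ⟨hu.1, by linarith [a0.1]⟩
    have b1 := F.Dk h h1' h2 (by linarith [a0.1]) hI u u2 v hv
    have b2 := F.D1 h u u2 v (hv.depth F.c (by omega))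
    have b3 := F.Dc h u ⟨hu.1, u1⟩ v hv
    beta_reduce at b1 b2 b3 ⊢
    rw [fr_C] at b3
    refine (D2_zero_le hv.wt b1 (by positivity) b2).trans
      ((mul_le_mul_of_nonneg_left b3 (by positivity)).trans_eq ?_)
    have e1 : (u ^ (-(3 / 4) : ℝ)) ^ 2 = (u * √u)⁻¹ := by
      rw [← rpow32 u0.le, ← Real.rpow_neg u0.le, ← Real.rpow_natCast, ← Real.rpow_mul u0.le]; norm_num
    have e2 : (u ^ (-(5 / 4 + p.e1))) ^ 2 = (u * √u)⁻¹ / u ^ (1 + 2 * p.e1) := by
      rw [← rpow32 u0.le, ← Real.rpow_neg u0.le, ← Real.rpow_natCast, ← Real.rpow_mul u0.le,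
        ← Real.rpow_sub u0]
      congr 1; push_cast; ring
    rw [e1, e2, Real.div_rpow s0.le u0.le, hα]
    field_simp

set_option maxHeartbeats 800000 in
/-- `|A C A - A|²` at `z = 2` -/
theorem Db (h : t < p.t0 / 2) (h1' : t * (1 + p.eta) ≤ s) (h2 : p.ts ≤ s) (h3 : s ≤ 3 / 2 * max t p.ts)
    (h4 : s ≤ max (5 / 4 * t) p.ts + t / 1000) (hI : mkC p t s ∈ I) :
    Dv I W ρ (2 * MM p + 5) t s fun _ v =>
      fr (Az 2 W * covMat v sv * Az 2 W - Az 2 W) ≤ 2 * cB p * p.n * max t p.ts := by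
  have N := F.N
  have t0 := N.t0; have K0 := N.K0; have K1 := N.ok.K; have n0 := N.n0; have e0 := N.e0
  have k1 := N.KK1; have G4 := N.cG4; have A1 := N.cA1; have a0 := N.ok.t0; have al0 := N.al0
  have k0 : 0 < KK p t := by linarith
  have G0 : 0 < cG p := by linarith
  have A0 : 0 < cA p := by linarith
  have h1 := N.s1.1.trans h1'
  have s0 := t0.trans_le h1
  have m1 := le_max_left t p.ts
  have m3 : max t p.ts ≤ p.t0 / 2 := max_le h.le (by linarith [N.tss, N.ts, a0.1])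
  set a := cA p * p.n * p.al t with ha
  have a1 : 0 ≤ a := by positivity
  refine (t2G F.c (ψ := fA (Az 2 W) sv) (χ := fA (Az 2 W) sv) (α := 4 * a + 2 * p.n)
    (β := 24 * p.K * cG p * KK p t * a * s ^ (1 + 2 * p.e1)) (a := 0)
    (b := 1 + p.e1) (al := p.K * p.n * s) (c0 := Az 2 W) (s := s) (W := W)
    (m := 2 * MM p + 4) t0 (by positivity) (by positivity) (by norm_num) (by linarith)
    (by linarith [a0.2]) (fun u hu v hv => ?_) ((F.tC hI).imp fun _ _ _ _ h => by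
      have := h.g4
      rwa [fr_ACA (Az_sym F.sym 2), show (p.gc s).bb = p.K * p.n * s from if_pos h2] at this)
    (by positivity) (F.bA F.two) (F.bA F.two)
    ((fr_le_of_op2 (F.op 2 F.two)).trans (by nlinarith [N.n1']))).imp fun _ _ v _ h => ?_
  · have u0 := t0.trans_le hu.1
    have u2 : u ∈ Icc t p.t0 := ⟨hu.1, by linarith [hu.2, a0.1]⟩
    have b1 := F.Dk h h1' h2 (by linarith [a0.1]) hI u u2 v (hv.depth F.c (by omega))
    have b2 := F.D1 h u u2 v (hv.depth F.c (by omega))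
    have b3 := F.Da h h1' h2 h3 h4 hI u hu v hv
    beta_reduce at b1 b2 b3 ⊢
    rw [fr_AC (Az_sym F.sym 2)] at b3
    have b4 := (D2_one_le hv.wt b1 (by positivity) b2).trans
      (mul_le_mul_of_nonneg_left b3 (by positivity))
    have b5 : 1 ≤ (s / u) ^ (1 + 2 * p.e1) := Real.one_le_rpow ((one_le_div u0).2 hu.2) (by linarith)
    have e2 : s ^ (1 + 2 * p.e1) * (u ^ (-(1 + p.e1))) ^ 2 = (s / u) ^ (1 + 2 * p.e1) / u := by
      rw [Real.div_rpow s0.le u0.le, div_div, ← Real.rpow_add_one u0.ne', div_eq_mul_inv,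
        ← Real.rpow_neg u0.le, ← Real.rpow_natCast, ← Real.rpow_mul u0.le]
      congr 2; push_cast; ring
    have b6 : cG p * KK p t * (1 + (s / u) ^ (1 + 2 * p.e1)) * (3 * p.K / u) * a ≤
      cG p * KK p t * (2 * (s / u) ^ (1 + 2 * p.e1)) * (3 * p.K / u) * a := by gcongr; linarith
    have e3 : 24 * p.K * cG p * KK p t * a * s ^ (1 + 2 * p.e1) * (u ^ (-(1 + p.e1))) ^ 2 =
        4 * (cG p * KK p t * (2 * (s / u) ^ (1 + 2 * p.e1)) * (3 * p.K / u) * a) := by
      rw [mul_assoc _ (s ^ _), e2]; ring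
    rw [e3, neg_zero, Real.rpow_zero]
    linarith [d2_zero_le (v := v) (ψ := fA (Az 2 W) sv)]
  · rw [fr_ACA (Az_sym F.sym 2)]
    refine h.trans ?_
    have e2 : s ^ (1 + 2 * p.e1) * (t ^ (1 - (1 + p.e1))) ^ 2 = s * (s / t) ^ (2 * p.e1) := by
      rw [Real.div_rpow s0.le t0.le, Real.rpow_add s0, Real.rpow_one, div_eq_mul_inv,
        ← Real.rpow_neg t0.le, ← Real.rpow_natCast, ← Real.rpow_mul t0.le, mul_assoc]
      congr 3; push_cast; ring
    have b1 : KK p t * p.al t * (s / t) ^ (2 * p.e1) ≤ 4 * p.K :=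
      calc _ ≤ p.K * kk0 p t * p.al t * (4 * max 1 (p.ts / t) ^ (2 * p.e1)) := by
            have := N.kk01
            gcongr
            exacts [N.KK2, N.pw s0.le h3 (by linarith) (by linarith [N.k3, N.k3']) le_rfl]
        _ = 4 * p.K * (kk0 p t * p.al t * max 1 (p.ts / t) ^ (2 * p.e1)) := by ring
        _ ≤ 4 * p.K * 1 := by gcongr; exact N.kk3
        _ = _ := mul_one _
    have b2 : 24 * p.K * cG p * KK p t * a * s ^ (1 + 2 * p.e1) *
        (t ^ (1 - (1 + p.e1)) / (1 + p.e1 - 1)) ^ 2 ≤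
        144 * (cG p * p.K ^ 2 * cA p / p.e1 ^ 2) * (p.n * max t p.ts) :=
      calc _ = 24 * p.K * cG p * cA p / p.e1 ^ 2 * p.n * (KK p t * p.al t *
            (s ^ (1 + 2 * p.e1) * (t ^ (1 - (1 + p.e1))) ^ 2)) := by
            rw [ha, add_sub_cancel_left]; ring
        _ = 24 * p.K * cG p * cA p / p.e1 ^ 2 * p.n * (s * (KK p t * p.al t * (s / t) ^ (2 * p.e1))) := by
            rw [e2]; ring
        _ ≤ 24 * p.K * cG p * cA p / p.e1 ^ 2 * p.n * (3 / 2 * max t p.ts * (4 * p.K)) := by gcongr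
        _ = _ := by ring
    have b3 : 1 ≤ p.n * max t p.ts := by nlinarith [N.nt]
    have b4 : a ≤ cA p * p.n * 1 := by rw [ha]; gcongr; exact N.al1
    have b5 : (4 * a + 2 * p.n) * s ^ 2 ≤ (4 * (cA p * p.n) + 2 * p.n) * (3 / 2 * max t p.ts) := by
      gcongr
      · linarith
      · nlinarith [a0.2]
    have b6 : p.K * p.n * s ≤ p.K * p.n * (3 / 2 * max t p.ts) := by gcongr
    have b7 : 0 ≤ cA p * (p.n * max t p.ts) := by positivity
    have b8 : 0 ≤ p.K * (p.n * max t p.ts) := by positivity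
    rw [sub_zero, Real.rpow_one, div_one, ← N.cB1]
    linarith

end Fr

end Crest.Agent.T157.Oa
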