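import Crest.Agent.T157.OaN_48

set_option autoImplicit false

/-!
Row 157, A2 (helper54): the real inequalities behind `O0.Pack` hold (`Oa.NumStmt`).
-/

noncomputable section

namespace Crest.Agent.T157.Oa

open Filter Set Topology
open Crest.Agent.T157.O0

namespace Num54

lemma max_rpow {N : ℝ} (hN : 1 ≤ N) (a b : ℝ) : max (N ^ a) (N ^ b) = N ^ max a b :=
  ((Real.monotone_rpow_of_base_ge_one hN).map_max).symm

lemma ev_pow (C : ℝ) {a : ℝ} (ha : 0 < a) : ∀ᶠ n : ℕ in atTop, C ≤ (n : ℝ) ^ a :=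
  ((tendsto_rpow_atTop ha).comp tendsto_natCast_atTop_atTop).eventually_ge_atTop C

/-- the comparisons of powers -/
lemma pows (p : Pm) (h : p.Ok) (hn : (1 : ℝ) < p.n) {t : ℝ} (ht : t ∈ Icc p.lo p.t0) :
    (p.n : ℝ) ^ (1 / 3 : ℝ) ≤ p.n * t ∧ (p.n : ℝ) ^ (1 / 3 : ℝ) * p.kk t ≤ p.n ∧ 0 ≤ p.kk t ∧
    p.ts ≤ p.tss ∧ p.kk t * t ≤ 1 ∧ p.kk t * √t ≤ p.al t ∧ kk0 p t * √(max t p.tss) ≤ p.al t ∧
    kk0 p t * p.al t * max 1 (p.ts / t) ^ (2 * p.e1) ≤ 1 ∧ 1 ≤ p.M t := by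
  obtain ⟨c0, c1⟩ := h.ch
  obtain ⟨d0, d1⟩ := h.d
  obtain ⟨a0, a1⟩ := h.k4
  obtain ⟨b0, b1⟩ := h.k2
  obtain ⟨g0, g1⟩ := h.k3
  obtain ⟨e0, e1⟩ := h.e1
  have n0 : (0 : ℝ) < p.n := one_pos.trans hn
  have hlo : p.lo = (p.n : ℝ) ^ (p.d - 2 / 3) := (Real.rpow_sub n0 _ _).symm
  have t0 : 0 < t := (hlo ▸ Real.rpow_pos_of_pos n0 _).trans_le ht.1
  obtain ⟨x, rfl⟩ : ∃ x : ℝ, t = (p.n : ℝ) ^ x := ⟨_, (Real.rpow_logb n0 hn.ne' t0).symm⟩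
  unfold Pm.kk kk0 Pm.al Pm.M Pm.ts Pm.tss
  generalize (p.n : ℝ) = N at *
  have le : ∀ {a b : ℝ}, N ^ a ≤ N ^ b ↔ a ≤ b := Real.rpow_le_rpow_left_iff hn
  have x1 : p.d - 2 / 3 ≤ x := le.1 (hlo ▸ ht.1)
  have x2 : x ≤ 0 := le.1 (by rw [Real.rpow_zero]; linarith [ht.2, h.t0.2])
  have k1 : ∀ a : ℝ, N * N ^ a = N ^ (1 + a) := fun a => by rw [Real.rpow_add n0, Real.rpow_one]
  have k2 : ∀ a : ℝ, N ^ a ≤ N ↔ a ≤ 1 := fun a => by simpa using le (a := a) (b := 1)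
  have k3 : ∀ a : ℝ, N ^ a ≤ 1 ↔ a ≤ 0 := fun a => by simpa using le (a := a) (b := 0)
  have k4 : ∀ a : ℝ, 1 ≤ N ^ a ↔ 0 ≤ a := fun a => by simpa using le (a := 0) (b := a)
  have k5 : ∀ a : ℝ, max 1 (N ^ a) = N ^ max 0 a := fun a => by rw [← max_rpow hn.le, Real.rpow_zero]
  have k6 : ∀ a : ℝ, √(N ^ a) = N ^ (a * (1 / 2)) := fun a => by
    rw [Real.sqrt_eq_rpow, Real.rpow_mul n0.le]
  simp only [le, ← Real.rpow_sub n0, k5, max_rpow hn.le, ← Real.rpow_mul n0.le, k6, k1, k4]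
  have y0 := le_max_left 0 (p.k4 - 1 / 2 - x)
  have y1 : max 0 (p.k4 - 1 / 2 - x) ≤ 1 / 6 := max_le (by norm_num) (by linarith)
  have y2 : max 0 (p.k4 - 1 / 2 - x) + x ≤ max x (p.k4 - 1 / 2) := by
    rcases le_total 0 (p.k4 - 1 / 2 - x) with e | e
    · rw [max_eq_right e]; linarith [le_max_right x (p.k4 - 1 / 2)]
    · rw [max_eq_left e]; linarith [le_max_left x (p.k4 - 1 / 2)]
  split_ifs with hx
  · rw [max_eq_left hx, max_eq_left (by linarith : p.k4 - 1 / 2 - x ≤ 0)]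
    simp only [one_mul, mul_one, le, k2, k3, ← Real.rpow_add n0]
    refine ⟨?_, ?_, ?_, ?_, ?_, ?_, ?_, ?_, ?_⟩ <;> linarith
  · push Not at hx
    rw [max_eq_right hx.le]
    simp only [le, k2, k3, ← Real.rpow_add n0]
    have y3 : max x (p.k4 - 1 / 2) ≤ -p.ch := max_le hx.le (by linarith)
    have y4 : max 0 (p.k4 - 1 / 2 - x) + x / 2 ≤ -p.ch / 2 := by
      rcases le_total 0 (p.k4 - 1 / 2 - x) with e | e
      · rw [max_eq_right e]; linarith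
      · rw [max_eq_left e]; linarith
    generalize max 0 (p.k4 - 1 / 2 - x) = y at *
    have z1 := mul_le_mul_of_nonneg_right y1 g0.le
    have z2 := mul_le_mul_of_nonneg_right y1 e0.le
    refine ⟨?_, ?_, (Real.rpow_pos_of_pos n0 _).le, ?_, ?_, ?_, ?_, ?_, ?_⟩ <;> linarith

end Num54

open Num54

theorem numStmt : NumStmt := by
  have hn : ∀ᶠ p in FF, p.Ok → 10 ^ 12 * 36 ^ 16 ≤ (p.n : ℝ) ∧ XX p ≤ (p.n : ℝ) ^ (1 / 3 : ℝ) ∧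
      146 / p.e1 ≤ p.n ∧ p.B2 ≤ p.n ∧ p.K ≤ (p.n : ℝ) ^ p.k2 ∧ 4 / p.t0 ≤ (p.n : ℝ) ^ p.ch :=
    ev_n fun q => by
      by_cases h : 0 < q.k2 ∧ 0 < q.ch
      · filter_upwards [tendsto_natCast_atTop_atTop.eventually_ge_atTop (10 ^ 12 * 36 ^ 16 : ℝ),
          ev_pow (XX q) (a := 1 / 3) (by norm_num),
          tendsto_natCast_atTop_atTop.eventually_ge_atTop (146 / q.e1),
          tendsto_natCast_atTop_atTop.eventually_ge_atTop q.B2, ev_pow q.K h.1,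
          ev_pow (4 / q.t0) h.2] with n h1 h2 h3 h4 h5 h6 _ using ⟨h1, h2, h3, h4, h5, h6⟩
      · exact .of_forall fun n h' => absurd ⟨h'.k2.1, h'.ch.1⟩ h
  filter_upwards [ev_ok, hn, ev_B fun q => ev_ge (XB q), ev_t0 fun q => ev_sm (1 / q.L ^ 4),
    ev_K0 fun q => ev_ge (6 * q.K / q.t0), ev_B0 fun q => ev_ge (10 ^ 6 * XX q ^ 4),
    ev_B2 fun q => ev_ge (q.K / q.t2), ev_Cn fun q => ev_ge (21 * (2 * (⌈2 * q.B2⌉₊ : ℝ) + 12))]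
    with p h hn hB h0 hK0 hB0 hB2 hCn t ht
  obtain ⟨n1, n2, n3, n4, n5, n6⟩ := hn h
  have hn : (1 : ℝ) < p.n := lt_of_lt_of_le (by norm_num) n1
  have n0 : (0 : ℝ) < p.n := one_pos.trans hn
  have L0 : 0 < p.L := by linarith [h.L]
  obtain ⟨p1, p2, p3, p4, p5, p6, p7, p8, p9⟩ := pows p h hn ht
  refine ⟨h, hB, ?_, ?_, hB0, ?_, hCn, n1, n2.trans p1,
    (mul_le_mul_of_nonneg_right n2 p3).trans p2, ?_, n4, n5, p4, ?_, p5, p6, p7, p8, p9⟩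
  · have : p.t0 ≤ 1 / p.L ^ 4 := h0.2 (show 0 < 1 / p.L ^ 4 by positivity)
    rwa [le_div_iff₀' (pow_pos L0 4)] at this
  · exact (div_le_iff₀ h.t0.1).1 hK0
  · exact (div_le_iff₀ (Real.rpow_pos_of_pos (div_pos h.ef (by linarith)) _)).1 hB2
  · exact (div_le_iff₀' h.e1.1).1 n3
  · rw [Pm.tss, Real.rpow_neg n0.le, ← inv_div]
    exact inv_anti₀ (div_pos four_pos h.t0.1) n6

end Crest.Agent.T157.Oa
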