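import Crest.Agent.T157.OaF_48
import Crest.Agent.T157.OaH_48
import Crest.Agent.T157.OaNum_54

set_option autoImplicit false
set_option linter.unusedSectionVars false

/-!
Row 157, A2 (helper48): **section 1**, `O0.Pack`.
-/

noncomputable section

namespace Crest.Agent.T157.Oa

open MeasureTheory Matrix Filter Topology Set
open Crest.Agent.T157.E Crest.Agent.T157.SL Crest.Agent.T157.Ks Crest.Agent.T157.Od
open Crest.Agent.T157.Oo

variable {p : O0.Pm} {t ρ ε z : ℝ} {I : Finset (Tst p.n)} {W : Mn p.n} {v : Cube p.n → ℝ}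

namespace Fr

variable (F : Fr p t I W ρ ε)
include F

theorem pick' (h : t < p.t0 / 2) : ∃ s, t * (1 + p.eta) ≤ s ∧ p.ts ≤ s ∧ s ≤ 3 / 2 * max t p.ts ∧
    s ≤ max (5 / 4 * t) p.ts + t / 1000 ∧ s ≤ p.t0 ∧ mkC p t s ∈ I := by
  have N := F.N
  have a0 := N.ok.t0.1
  obtain ⟨s, h1, h2, h3, h4⟩ := F.pick h (a := p.ts) (by linarith [N.ts, N.tss])
  have m1 := le_max_left t p.ts
  have m2 := le_max_right t p.ts
  have m3 : max t p.ts ≤ p.t0 / 2 := max_le h.le (by linarith [N.tss, N.ts])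
  have m4 : max (5 / 4 * t) p.ts ≤ 5 / 4 * max t p.ts := max_le (by linarith) (by linarith [N.ts0])
  exact ⟨s, h1, h2, by linarith [N.t0], h3, by linarith [N.t0], h4⟩

/-- the global bound on `‖A C A‖` -/
theorem Dg (hz : z ∈ Icc 2 (2 + p.L ^ 2 * t / 100)) :
    Dv I W ρ (2 * MM p + 3) t (p.T + 1) fun _ v => CB v (fA (Az z W) sv) (XX p * p.kk t) := by
  intro u hu v hv
  have N := F.N
  have t0 := N.t0; have K0 := N.K0; have k1 := N.kk1'; have G4 := N.cG4; have hK0 := N.ok.K0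
  have u0 := t0.trans_le hu.1
  have X := mul_le_mul_of_nonneg_right N.Xk (show 0 ≤ p.kk t by linarith)
  have a1 : 0 ≤ cG p * p.K * p.kk t := by have : 0 ≤ cG p := by linarith
                                          positivity
  rcases lt_or_ge u (p.t0 / 2) with h | h
  · have h' := hu.1.trans_lt h
    obtain ⟨s, h1, h2, h3, -, h5, h6⟩ := F.pick' h'
    have u2 : u ∈ Icc t p.t0 := ⟨hu.1, by linarith [N.ok.t0.1]⟩
    have s0 : 0 ≤ s := t0.le.trans (N.s1.1.trans h1)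
    refine (cb_Az hv.wt hz (by positivity) (F.Dk h' h1 h2 h5 h6 u u2 v hv)
      (F.D1 h' u u2 v (hv.depth F.c (by omega)))).mono ?_
    have e0 := N.e0
    have b1 : (s / u) ^ (1 + 2 * p.e1) ≤ 4 * max 1 (p.ts / t) ^ (1 + p.k3) :=
      (Real.rpow_le_rpow (by positivity) (div_le_div_of_nonneg_left s0 t0 hu.1) (by linarith)).trans
        (N.pw s0 h3 (by linarith) (by linarith [N.k3, N.k3']) (by linarith [N.k3]))
    have b2 : 1 ≤ max 1 (p.ts / t) ^ (1 + p.k3) :=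
      Real.one_le_rpow (le_max_left _ _) (by linarith [N.k3])
    have b3 : cG p * KK p t * (1 + (s / u) ^ (1 + 2 * p.e1)) ≤
        cG p * (p.K * kk0 p t) * (5 * max 1 (p.ts / t) ^ (1 + p.k3)) :=
      mul_le_mul (mul_le_mul_of_nonneg_left N.KK2 (by linarith)) (by linarith) (by positivity)
        (mul_nonneg (by linarith) (mul_nonneg K0.le (by linarith [N.kk01])))
    have b4 : (p.L ^ 2 * t / 100) ^ 2 * (3 * p.K / u) ≤ 3 * p.K * p.kk t := by
      rw [← mul_div_assoc, div_le_iff₀ u0]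
      calc _ ≤ u * (3 * p.K) := by gcongr; exact N.ze.trans hu.1
        _ = 3 * p.K * 1 * u := by ring
        _ ≤ _ := by gcongr
    have e : cG p * (p.K * kk0 p t) * (5 * max 1 (p.ts / t) ^ (1 + p.k3)) = 5 * (cG p * p.K * p.kk t) := by
      rw [N.kk_eq]; ring
    have b5 : 0 ≤ p.K0 * p.kk t := by positivity
    linarith
  · refine (cb_fA (Az_sym F.sym z) (F.op z hz) (by linarith)
      (F.D0 u ⟨max_le hu.1 h, hu.2⟩ v (hv.depth F.c (by omega)))).mono ?_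
    have b1 : p.K0 * 1 ≤ p.K0 * p.kk t := by gcongr
    have b2 : 0 ≤ p.K * p.kk t := by positivity
    linarith

/-- from the second order bounds to the list -/
theorem apt {Y h κ : ℝ} (hz : z ∈ Icc 2 (2 + p.L ^ 2 * t / 100)) (Y0 : 0 ≤ Y) (YX : Y ≤ XX p)
    (YB : Y ≤ p.Bt t) (h1 : h ≤ 1) (hX : t ≤ XX p * h) (κ0 : 0 ≤ κ) (κh : κ * h ≤ 1)
    (hκ : κ ≤ p.Bt t / t)
    (hD : Dv I W ρ (2 * MM p + 5) t (t + 2 * h) fun _ => B2 (qq p t Y h κ) (Az z W))
    (hv : FG I W (ρ ^ (2 * MM p + 7)) t v) : APt ((p.cq t).ctr 0 0) v (Az z W) (meanV v sv) := by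
  obtain ⟨l1, l2, l3⟩ := longD (m := 2 * MM p + 3) F.N F.c (Az_sym F.sym z) (F.op z hz)
    (fun h => (F.D1 h).depth F.c (by omega)) (F.Ds.depth F.c (by omega)) (F.D0.depth F.c (by omega))
    (F.DP.depth F.c (by omega)) (F.Dg hz) (hv.depth F.c (by omega))
  exact apt_mono (qq_le F.N Y0 YX YB h1 hX hκ) (apt_short F.c (qq_ok F.N Y0 h1 hX κ0 κh)
    (Az_sym F.sym z) (F.op z hz) hD hv l1 l2 l3)

set_option maxHeartbeats 1000000 in
theorem main (h : t < p.t0 / 2) (hv : FG I W (ρ ^ (2 * MM p + 7)) t v) :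
    AQ (p.cq t) (p.L ^ 2 * t / 100) (p.Bt t * p.M (max t p.ts)) (p.Bt t * p.n * √t) W v := by
  have N := F.N
  have t0 := N.t0; have K0 := N.K0; have K1 := N.ok.K; have n0 := N.n0; have L := N.ok.L
  have η0 := N.eta0; have η1 := N.eta1; have η2 := N.eta2; have a0 := N.ok.t0; have tt := N.tt
  have hB : XB p ≤ p.Bt t := by rw [O0.Pm.Bt, if_pos h]; exact N.hB
  have X1 := N.XB1
  have sq0 := N.sq0
  have ss := Real.mul_self_sqrt t0.le
  have m1 := le_max_left t p.ts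
  obtain ⟨a1, a2⟩ := N.s1
  have hI := F.gc.2 (by linarith)
  have r := resT (m := 2 * MM p + 6) F.c (F.bA F.two) hI (α := p.K * p.M (max (t * (1 + p.eta)) p.ts))
    (β := p.L / 10 * p.n * √(t * (1 + p.eta))) (by
      have := N.ts0.le.trans (le_max_right (t * (1 + p.eta)) p.ts)
      unfold O0.Pm.M; positivity) (by positivity) (fun _ h => ⟨h.g5, h.g6⟩) hv a1
    (show t * (1 + p.eta) - t ≤ 1 by linarith)
  have b1 : √(t * (1 + p.eta)) ≤ 2 * √t := Real.sqrt_le_iff.2 ⟨by positivity, by nlinarith⟩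
  have b2 : p.L / 10 * p.n * √(t * (1 + p.eta)) ≤ p.L / 10 * p.n * (2 * √t) := by gcongr
  have b3 : 1 ≤ p.n * √t := by nlinarith [N.nt, N.tsq]
  refine ⟨fun z hz => ?_, r.1.trans ?_, r.2.trans ?_⟩
  · obtain ⟨s, h1, h2, h3, h4, h5, h6⟩ := F.pick' h
    have e : t + 2 * (t * p.eta / 2) = t * (1 + p.eta) := by ring
    refine F.apt (Y := XB p) (h := t * p.eta / 2) (κ := 3 * p.K / t) hz N.parts.1 N.XBX hB (by nlinarith)
      ?_ (by positivity) ?_ (div_le_div_of_nonneg_right (by linarith) t0.le) (fun u hu v hv => ?_) hv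
    · have := mul_le_mul_of_nonneg_right N.XK (mul_pos t0 η0).le
      nlinarith
    · rw [div_mul_eq_mul_div, div_le_one t0]; nlinarith
    rw [e] at hu
    have u0 := t0.trans_le hu.1
    have u1 : u ∈ Icc t s := ⟨hu.1, hu.2.trans h1⟩
    have c1 : CB v sv (3 * p.K / u) := F.D1 h u ⟨hu.1, u1.2.trans h5⟩ v (hv.depth F.c (by omega))
    have c2 : fr (covMat v sv) ≤ cC p * p.n / √t :=
      (F.Dc h u ⟨hu.1, by linarith [hu.2]⟩ v (hv.depth F.c (by omega))).trans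
        (div_le_div_of_nonneg_left (mul_nonneg (by linarith [N.cC1]) n0.le) sq0 (Real.sqrt_le_sqrt hu.1))
    have c3 := F.Da h h1 h2 h3 h4 h6 u u1 v (hv.depth F.c (by omega))
    have c4 := F.Db h h1 h2 h3 h4 h6 u u1 v hv
    have C0 : 0 ≤ cC p := by linarith [N.cC1]
    have A0 : 0 ≤ cA p := by linarith [N.cA1]
    have B0 : 0 ≤ cB p := by linarith [N.cB1, N.cB0]
    have ze := N.ze
    set ζ := p.L ^ 2 * t / 100
    have al0 := N.al0
    have d1 : ζ ^ 2 * (cC p * p.n / √t) ≤ cC p * (p.n * √t) :=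
      calc _ ≤ t * (cC p * p.n / √t) := by gcongr
        _ = _ := by field_simp; rw [Real.sq_sqrt t0.le, mul_comm]
    have d2 : cC p * (p.n * √t) ≤ cC p * (p.n * p.al t) := by gcongr; exact N.sqal
    have d3 : ζ ^ 2 * (cA p * p.n * p.al t) ≤ max t p.ts * (cA p * p.n * 1) := by
      gcongr
      exacts [ze.trans m1, N.al1]
    have d4 : ζ ^ 2 * p.n ≤ max t p.ts * p.n := by gcongr; exact ze.trans m1
    have d5 : ζ ^ 2 * (ζ ^ 2 * (cC p * p.n / √t)) ≤ max t p.ts * (cC p * (p.n * 1)) :=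
      mul_le_mul (ze.trans m1) (d1.trans (by gcongr; exact N.sq1)) (by positivity) (by linarith)
    have g1 : 0 ≤ p.n * p.al t := by positivity
    have g2 : 0 ≤ p.n * max t p.ts := mul_nonneg n0.le (by linarith)
    refine ⟨c1.mono (div_le_div_of_nonneg_left (by linarith) t0 hu.1),
      F.Dg hz u ⟨hu.1, by linarith [hu.2, N.ok.T]⟩ v (hv.depth F.c (by omega)),
      (a1_Az hz c3 c2).trans ?_, (b_Az F.sym hz c3 c2 c4).trans ?_, c2.trans ?_⟩
    · have := mul_le_mul_of_nonneg_right (show 2 * cA p + 2 * cC p ≤ XB p by unfold XB; linarith) g1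
      change _ ≤ XB p * p.n * p.al t
      linarith
    · have := mul_le_mul_of_nonneg_right
        (show 4 * cB p + 16 * cA p + 8 + 8 * cC p ≤ XB p by unfold XB; linarith) g2
      change _ ≤ XB p * p.n * max t p.ts
      linarith
    · change _ ≤ XB p * p.n / √t
      gcongr; unfold XB; linarith
  · have M1 : p.M t ≤ p.M (max t p.ts) := by unfold O0.Pm.M; gcongr
    have M2 : p.M (max (t * (1 + p.eta)) p.ts) ≤ 4 * p.M (max t p.ts) := by
      have c1 : max (t * (1 + p.eta)) p.ts ≤ 2 * max t p.ts :=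
        max_le (by linarith) (by linarith [le_max_right t p.ts])
      have c2 := Real.rpow_le_rpow (N.ts0.le.trans (le_max_right _ _)) c1 (show (0 : ℝ) ≤ 3 / 2 by norm_num)
      have c3 : (2 : ℝ) ^ (3 / 2 : ℝ) ≤ 4 :=
        (Real.rpow_le_rpow_of_exponent_le (by norm_num) (show (3 / 2 : ℝ) ≤ 2 by norm_num)).trans
          (by norm_num)
      rw [Real.mul_rpow (by norm_num) (by linarith)] at c2
      have c4 := c2.trans (mul_le_mul_of_nonneg_right c3 (Real.rpow_nonneg (by linarith) _))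
      unfold O0.Pm.M
      linarith [mul_le_mul_of_nonneg_left c4 n0.le]
    have M3 : (t * (1 + p.eta) - t) ^ 2 * (p.L / 10 * p.n * √(t * (1 + p.eta))) ≤ p.L * p.M t :=
      calc _ ≤ t * (p.L / 10 * p.n * (2 * √t)) := by
            gcongr; nlinarith [mul_pos t0 η0, mul_le_mul tt η2 η0.le (by norm_num)]
        _ = p.L * p.M t / 5 := by rw [O0.Pm.M, rpow32 t0.le]; ring
        _ ≤ _ := by nlinarith [N.M1]
    have M4 := N.M1.trans M1
    have M5 := mul_le_mul_of_nonneg_left M2 K0.le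
    have M6 := mul_le_mul_of_nonneg_left M1 (show 0 ≤ p.L by linarith)
    have M7 := mul_le_mul_of_nonneg_right (show 12 * p.K + 3 + 3 * p.L ≤ p.Bt t by linarith)
      (show 0 ≤ p.M (max t p.ts) by linarith)
    change 3 * (_ + 1 + (t * (1 + p.eta) - t) ^ 2 * _) ≤ _
    linarith
  · have := mul_le_mul_of_nonneg_right (show p.L / 5 + 1 ≤ p.Bt t by linarith)
      (show 0 ≤ p.n * √t by linarith)
    linarith

theorem base (h : p.t0 / 2 ≤ t) (hv : FG I W (ρ ^ (2 * MM p + 7)) t v) :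
    AQ (p.cq t) (p.L ^ 2 * t / 100) (p.Bt t * p.M (max t p.ts)) (p.Bt t * p.n * √t) W v ∧
      O0.Acc p.K0 W v := by
  have N := F.N
  have t0 := N.t0; have n0 := N.n0; have a0 := N.ok.t0; have tt := N.tt; have K1 := N.ok.K0
  have hB : XX p ≤ p.Bt t := by rw [O0.Pm.Bt, if_neg (not_lt.2 h)]; exact N.XB0
  have X1 := N.X1
  have sq0 := N.sq0
  have m1 := le_max_left t p.ts
  have e := max_eq_left h
  have X2 : 10 ^ 5 * p.K0 ^ 2 ≤ XX p * t ^ 2 := by
    have : XX p * p.t0 ^ 2 ≤ XX p * (2 * t) ^ 2 := by gcongr <;> linarith [a0.1]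
    nlinarith [N.XK0]
  have X3 : XX p * t ^ 2 ≤ XX p * t := by gcongr; nlinarith
  have K2 : p.K0 ≤ p.K0 ^ 2 := by nlinarith
  have hI : mk0 p t ∈ I := e ▸ F.g0.2 (by rw [e]; linarith [N.ok.T])
  have S : p.S0 t W v := testD (m := 2 * MM p + 6) F.c hI t ⟨le_rfl, le_rfl⟩ v hv
  refine ⟨⟨fun z hz => ?_, S.2.2.trans ?_, ?_⟩, S.2.1 N.t1⟩
  · have e2 : 2 * p.K0 * (1 / (4 * p.K0)) = 1 / 2 := by field_simp; ring
    have h0 : 0 < 1 / (4 * p.K0) := by positivity
    have h1 : 1 / (4 * p.K0) ≤ 1 / 4 := by nlinarith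
    refine F.apt (Y := XX p) (h := 1 / (4 * p.K0)) (κ := 2 * p.K0) hz (by linarith) le_rfl hB
      (by linarith) ?_ (by linarith) (by linarith) ?_ (fun u hu v hv => ?_) hv
    · rw [mul_one_div, le_div_iff₀ (by linarith)]; nlinarith
    · rw [le_div_iff₀ t0]; nlinarith
    have u1 : u ≤ p.T + 1 := by linarith [hu.2, N.ok.T]
    have c1 : CB v sv (2 * p.K0) := F.D0 u ⟨e.trans_le hu.1, u1⟩ v (hv.depth F.c (by omega))
    obtain ⟨c2, c3, c4⟩ := b2_crude hv.wt (Az_sym F.sym z) (F.op z hz) (by linarith) c1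
    have d1 := mul_le_mul_of_nonneg_right (X2.trans X3) n0.le
    have d2 : 0 ≤ p.K0 ^ 2 * p.n := by positivity
    refine ⟨c1, F.Dg hz u ⟨hu.1, u1⟩ v (hv.depth F.c (by omega)), c2.trans ?_, c3.trans ?_, c4.trans ?_⟩
    · have : XX p * p.n * t ≤ XX p * p.n * p.al t := by gcongr; exact N.tsq.trans N.sqal
      change _ ≤ XX p * p.n * p.al t
      linarith
    · have : XX p * p.n * t ≤ XX p * p.n * max t p.ts := by gcongr
      change _ ≤ XX p * p.n * max t p.ts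
      linarith
    · change _ ≤ XX p * p.n / √t
      refine le_trans ?_ (le_div_self (by positivity) sq0 N.sq1)
      have : XX p * p.n * t ≤ XX p * p.n * 1 := by gcongr; linarith
      linarith
  · have c1 : t ^ 2 ≤ max t p.ts ^ (3 / 2 : ℝ) := by
      refine le_trans ?_ (Real.rpow_le_rpow t0.le m1 (by norm_num))
      rw [rpow32 t0.le, sq]; gcongr; exact N.tsq
    calc p.K0 * p.n ≤ XX p * t ^ 2 * p.n := by gcongr; nlinarith
      _ = XX p * (p.n * t ^ 2) := by ring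
      _ ≤ _ := by unfold O0.Pm.M; gcongr; linarith
  · have c1 := Oo.bd_sv.meanV_le hv.wt
    have c2 : XX p * t * p.n ≤ p.Bt t * √t * p.n := by
      gcongr
      exacts [by linarith, N.tsq]
    have c3 : 1 * (p.n : ℝ) ≤ XX p * t * p.n := by gcongr; nlinarith
    simp only [dotProduct, ← sq]
    linarith

theorem ap {y : Vn p.n} (hv : FG I W (ρ ^ (2 * MM p + 7)) t (ising W y)) : (W, y) ∈ p.AP t := by
  refine ⟨(lt_or_ge t (p.t0 / 2)).elim (F.main · hv) fun h => (F.base h hv).1, fun h => ?_,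
    fun h => (F.base h hv).2⟩
  exact (testD (m := 2 * MM p + 6) F.c ((F.g2 h).2 F.N.t1) t ⟨le_rfl, le_rfl⟩ _ hv).2

end Fr

theorem Grid.mono {n : ℕ} {I I' : Finset (Tst n)} {mk : ℝ → Tst n} {a b : ℝ} (h : Grid I mk a b)
    (e : I ⊆ I') : Grid I' mk a b :=
  ⟨fun u hu => (h.1 u hu).imp fun _ h => ⟨h.1, h.2.1, e h.2.2⟩, fun hab => e (h.2 hab)⟩

theorem Nm.grid (N : Nm p t) (mk : ℝ → Tst p.n) {a b : ℝ} (ha : 0 ≤ a) (hb : b ≤ p.T + 1) :
    ∃ I : Finset (Tst p.n), (I.card : ℝ) ≤ (p.n : ℝ) ^ 4 / 5 ∧ (∀ τ ∈ I, ∃ s ∈ Icc a b, τ = mk s) ∧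
      Grid I mk a b := by
  have n0 := N.n0
  have n1 := N.n1'
  obtain ⟨I, h1, h2, h3⟩ := exists_grid mk a b (μ := 1 / (p.n : ℝ) ^ 2) (by positivity) (J := p.n ^ 3) (by
    rw [Nat.cast_pow, show (p.n : ℝ) ^ 3 * (1 / (p.n : ℝ) ^ 2) = p.n by field_simp]
    linarith [N.TcK, N.XcK, N.Xn, N.ok.T])
  refine ⟨I, ?_, h2, h3⟩
  have h4 : (I.card : ℝ) ≤ (p.n : ℝ) ^ 3 + 1 := by exact_mod_cast h1
  have h5 : 1 ≤ (p.n : ℝ) ^ 3 := one_le_pow₀ (by linarith)
  nlinarith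

/-- **section 1** -/
theorem pack_of (h : NumStmt) : O0.Pack := by
  refine h.mono fun p hp t ht => ?_
  classical
  have N0 := hp t ht
  have n0 : (0 : ℝ) < p.n := lt_of_lt_of_le (by norm_num) N0.n1
  have N : Nm p t := ⟨N0, lt_of_lt_of_le (by unfold O0.Pm.lo; positivity) ht.1, ht.2⟩
  have t0 := N.t0; have a0 := N.ok.t0; have T1 := N.ok.T; have n1 := N.n1'; have Lp := N.ok.Lp
  obtain ⟨I1, c1, m1, g1⟩ := N.grid (mkC p t) (a := t * (1 + p.eta)) (b := p.t0)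
    (t0.le.trans N.s1.1) (by linarith [a0.2])
  obtain ⟨I2, c2, m2, g2⟩ := N.grid (mkS p) (a := p.Lp * t) (b := p.t0) (by positivity)
    (by linarith [a0.2])
  obtain ⟨I3, c3, m3, g3⟩ := N.grid (mk0 p) (a := max t (p.t0 / 2)) (b := p.T + 1)
    (t0.le.trans (le_max_left _ _)) le_rfl
  obtain ⟨I4, c4, m4, g4⟩ : ∃ I : Finset (Tst p.n), (I.card : ℝ) ≤ (p.n : ℝ) ^ 4 / 5 ∧
      (∀ τ ∈ I, p.t2 ≤ t ∧ ∃ s ∈ Icc t p.t0, τ = mk2 p s) ∧ (p.t2 ≤ t → Grid I (mk2 p) t p.t0) := by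
    by_cases h2 : p.t2 ≤ t
    · obtain ⟨I, c, m, g⟩ := N.grid (mk2 p) (a := t) (b := p.t0) t0.le (by linarith [a0.2])
      exact ⟨I, c, fun τ hτ => ⟨h2, m τ hτ⟩, fun _ => g⟩
    · exact ⟨∅, by simp; positivity, by simp, fun h => absurd h h2⟩
  set I := insert (mkP p) (I1 ∪ (I2 ∪ (I3 ∪ I4))) with hI
  have card : (I.card : ℝ) ≤ (p.n : ℝ) ^ 4 := by
    have b1 : I.card ≤ I1.card + (I2.card + (I3.card + I4.card)) + 1 :=
      (Finset.card_insert_le _ _).trans (Nat.succ_le_succ ((Finset.card_union_le _ _).trans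
        (Nat.add_le_add_left ((Finset.card_union_le _ _).trans
          (Nat.add_le_add_left (Finset.card_union_le _ _) _)) _)))
    have b2 : (I.card : ℝ) ≤ I1.card + (I2.card + (I3.card + I4.card)) + 1 := by exact_mod_cast b1
    have b3 : (5 : ℝ) ^ 4 ≤ (p.n : ℝ) ^ 4 := by gcongr; linarith
    linarith
  have TA : ∀ τ ∈ I, p.TA t τ := fun τ hτ => by
    simp only [hI, Finset.mem_insert, Finset.mem_union] at hτ
    rcases hτ with rfl | h | h | h | h
    · exact Or.inr ⟨rfl, Or.inr (Or.inr (Or.inl ⟨rfl, rfl⟩))⟩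
    · obtain ⟨s, hs, rfl⟩ := m1 τ h
      exact Or.inl ⟨hs, rfl, rfl⟩
    · obtain ⟨s, hs, rfl⟩ := m2 τ h
      exact Or.inr ⟨rfl, Or.inl ⟨hs, rfl⟩⟩
    · obtain ⟨s, hs, rfl⟩ := m3 τ h
      exact Or.inr ⟨rfl, Or.inr (Or.inl ⟨hs, rfl⟩)⟩
    · obtain ⟨h2, s, hs, rfl⟩ := m4 τ h
      exact Or.inr ⟨rfl, Or.inr (Or.inr (Or.inr ⟨h2, hs, rfl⟩))⟩
  refine ⟨I, card, TA, fun W hW y hv => ?_⟩
  obtain ⟨a, ha, hb, -⟩ := hW
  set ε : ℝ := 1 / (10 ^ 12 * (36 * p.n) ^ 16) with hε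
  have ε0 : 0 < ε := by positivity
  have n4 : 1 ≤ (p.n : ℝ) ^ 4 := one_le_pow₀ (by linarith)
  have pr : 0 ≤ p.pr t := by
    have := N.eta0; have := N.ok.L; have := N.M1
    unfold O0.Pm.pr; split_ifs
    exacts [by positivity, le_rfl]
  have lam : ∀ τ ∈ I, 0 < τ.lam ∧ τ.lam ≤ 1 := fun τ hτ => by
    rcases TA τ hτ with h | h
    · rw [h.2.1]; exact ⟨Real.exp_pos _, Real.exp_le_one_iff.2 (by linarith)⟩
    · rw [h.1]; exact ⟨one_pos, le_rfl⟩
  have c : Ctx I (ε / (p.n : ℝ) ^ 4) ε (36 * p.n) := ⟨fun τ h => (lam τ h).1, fun τ h => (lam τ h).2,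
    by positivity, div_le_self ε0.le n4, by
      rw [← mul_div_assoc, div_le_iff₀ (by positivity), mul_comm]; gcongr,
    by linarith, le_rfl, by rw [hε]; field_simp; rfl⟩
  have op : ∀ z ∈ Icc 2 (2 + p.L ^ 2 * t / 100), Wᵀ = W ∧ Op2 (Az z W) (6 ^ 2) := fun z hz =>
    op2_Az ha fun i => by
      have b1 : p.L ^ 2 * t / 100 ≤ 1 := by
        by_contra h
        nlinarith [N.ze, N.tt, not_le.1 h]
      have b2 : p.e1 ^ p.A * min t p.t2 ≤ 1 * t :=
        (mul_le_mul_of_nonneg_left (min_le_left _ _) (pow_nonneg N.e0.le _)).trans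
          (mul_le_mul_of_nonneg_right (pow_le_one₀ N.e0.le (by linarith [N.k3, N.k3'])) t0.le)
      rw [abs_le]; constructor <;> linarith [hz.1, hz.2, (hb i).1, (hb i).2, N.tt]
  have F : Fr p t I W (ε / (p.n : ℝ) ^ 4) ε := ⟨N, c, g1.mono fun _ h => by simp [hI, h],
    g2.mono fun _ h => by simp [hI, h], g3.mono fun _ h => by simp [hI, h], Finset.mem_insert_self _ _,
    fun h => (g4 h).mono fun _ h => by simp [hI, h],
    (op 2 ⟨le_rfl, le_add_of_nonneg_right (by positivity)⟩).1, fun z hz => (op z hz).2⟩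
  refine F.ap (hv.le c.pos ?_)
  have b1 : (p.n : ℝ) ^ (-21 : ℝ) ≤ ε / (p.n : ℝ) ^ 4 := by
    rw [Real.rpow_neg n0.le, show (21 : ℝ) = (21 : ℕ) by norm_num, Real.rpow_natCast, hε, div_div,
      inv_eq_one_div]
    refine one_div_le_one_div_of_le (by positivity) ?_
    calc _ = 10 ^ 12 * 36 ^ 16 * (p.n : ℝ) ^ 20 := by ring
      _ ≤ p.n * (p.n : ℝ) ^ 20 := by gcongr; exact N.n1
      _ = _ := by ring
  refine le_trans ?_ (pow_le_pow_left₀ (by positivity) b1 _)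
  rw [← Real.rpow_natCast, ← Real.rpow_mul n0.le]
  refine Real.rpow_le_rpow_of_exponent_le (by linarith) ?_
  have := N.hCn
  unfold MM; push_cast; linarith

/-- **section 1**, unconditional -/
theorem pack : O0.Pack := pack_of numStmt

end Crest.Agent.T157.Oa

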