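import Crest.Agent.T157.OoB_9
import Crest.Agent.T157.O6Def_61

set_option autoImplicit false
set_option linter.unusedSectionVars false

/-!
Row 157, A2, section 5 (helper99): self-bounded concentration of a vector on `SO(k)` whose mean is
only known under a tilted law (`sb`), and the centre (`Orb.centre`).
-/

noncomputable section

namespace Crest.Agent.T157.O5

open MeasureTheory Matrix Crest.Agent.Lib.OrthPoinc Filter Topology Set
open Crest.Agent.T157.Oc Crest.Agent.T157.E Crest.Agent.T157.SL Crest.Agent.T157.Ks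
open Crest.Agent.T157.Od Crest.Agent.T157.Oo

variable {k : ℕ}

theorem sq_split {κ : Type*} [Fintype κ] (x y : κ → ℝ) :
    x ⬝ᵥ x ≤ 2 * ∑ i, (x i - y i) ^ 2 + 2 * (y ⬝ᵥ y) := by
  simp only [dotProduct, Finset.mul_sum, ← Finset.sum_add_distrib]
  exact Finset.sum_le_sum fun i _ => by nlinarith [sq_nonneg (x i - 2 * y i)]

theorem sq_sub_le {κ : Type*} [Fintype κ] (x y : κ → ℝ) :
    ∑ i, (x i - y i) ^ 2 ≤ 2 * (x ⬝ᵥ x) + 2 * (y ⬝ᵥ y) := by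
  simp only [dotProduct, Finset.mul_sum, ← Finset.sum_add_distrib]
  exact Finset.sum_le_sum fun i _ => by nlinarith [sq_nonneg (x i + y i)]

theorem dir_tot {κ L : Type*} [Fintype κ] [Fintype L] (D : L → κ → ℝ) (v : κ → ℝ) :
    ∑ a, (v ⬝ᵥ D a) ^ 2 ≤ (∑ i, ∑ a, D a i ^ 2) * (v ⬝ᵥ v) := by
  rw [Finset.sum_comm, Finset.sum_mul]
  refine Finset.sum_le_sum fun a _ => ?_
  have := Finset.sum_mul_sq_le_sq_mul_sq Finset.univ v (D a)
  simp only [dotProduct, ← sq]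
  linarith

/-- the failure probability of `sb` -/
def fl (H M A0 γ : ℝ) : ℝ := Real.exp (-H) + M / A0 * γ

/-- the squared radius of `sb` -/
def rad (k : ℕ) (ζ T0 A0 M M' H K η γ : ℝ) : ℝ :=
  7 * (ζ + (12 * (T0 + M * γ) + 600 * (H * A0)) / ((k : ℝ) - 2) + 4 * M' * (K * fl H M A0 γ + η))

set_option maxHeartbeats 1000000 in
/-- **SB**: self-bounded gradients on `G`, mean known under a law `ν ≤ K μ + η`. -/
theorem sb {κ : Type*} [Fintype κ] {μ ν : Measure (Mat k)} [IsProbabilityMeasure μ]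
    [IsProbabilityMeasure ν] (hμ : SOInv μ) (hn : 2 < k) (hν : ∀ᵐ U ∂ν, U ∈ SO k)
    {z : Mat k → κ → ℝ} {D : Fin k × Fin k → Mat k → κ → ℝ} (hz : RDV z D) {G : Set (Mat k)}
    (hGm : MeasurableSet G) {T0 T1 A0 A1 M M' H K η γ ζ : ℝ} (T00 : 0 ≤ T0) (T10 : 0 ≤ T1)
    (A00 : 0 < A0) (A10 : 0 ≤ A1) (M0 : 0 ≤ M) (M0' : 0 ≤ M') (H0 : 0 < H) (K0 : 0 ≤ K)
    (hT : ∀ U ∈ SO k, U ∈ G → ∑ i, ∑ a, D a U i ^ 2 ≤ T0 + T1 * (z U ⬝ᵥ z U))
    (hA : ∀ U ∈ SO k, U ∈ G → ∀ v, ∑ a, (v ⬝ᵥ D a U) ^ 2 ≤ (A0 + A1 * (z U ⬝ᵥ z U)) * (v ⬝ᵥ v))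
    (hM : ∀ U ∈ SO k, ∑ i, ∑ a, D a U i ^ 2 ≤ M) (hM' : ∀ U ∈ SO k, z U ⬝ᵥ z U ≤ M')
    (hγ : μ.real Gᶜ ≤ γ) (tr : ∀ T, ν.real T ≤ K * μ.real T + η) (hζ : EV ν z ⬝ᵥ EV ν z ≤ ζ)
    (s1 : 1000 * T1 ≤ (k : ℝ) - 2) (s2 : 40000 * (H * A1) ≤ (k : ℝ) - 2) :
    μ.real {U | rad k ζ T0 A0 M M' H K η γ < z U ⬝ᵥ z U} ≤ fl H M A0 γ ∧
      ∫ U, z U ⬝ᵥ z U ∂μ ≤ rad k ζ T0 A0 M M' H K η γ := by
  have hρ : (0 : ℝ) < (k : ℝ) - 2 := by
    have : (2 : ℝ) < k := by exact_mod_cast hn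
    linarith
  set ρ : ℝ := (k : ℝ) - 2 with hρe
  set x0 := EV μ z with hx0
  set s := x0 ⬝ᵥ x0 with hs
  have s0 : 0 ≤ s := dot_self_nonneg _
  have γ0 : 0 ≤ γ := measureReal_nonneg.trans hγ
  have cz : ContinuousOn (fun U => z U ⬝ᵥ z U) (SO k) := (hz.dot hz).c
  have cd : ContinuousOn (fun U => ∑ i, (z U i - x0 i) ^ 2) (SO k) :=
    continuousOn_finsetSum _ fun i _ => ((hz i).c.sub continuousOn_const).pow 2
  have ct : ContinuousOn (fun U => ∑ i, ∑ a, D a U i ^ 2) (SO k) :=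
    continuousOn_finsetSum _ fun i _ => (hz i).cD
  set V := ∫ U, ∑ i, (z U i - x0 i) ^ 2 ∂μ with hV
  set I := ∫ U, ∑ i, ∑ a, D a U i ^ 2 ∂μ with hI
  set Z := ∫ U, z U ⬝ᵥ z U ∂μ with hZ
  have Z0 : 0 ≤ Z := integral_nonneg fun U => dot_self_nonneg _
  have p1 : V ≤ ρ⁻¹ * I := by
    have i1 : ∀ i, Integrable (fun U => (z U i - ∫ V, z V i ∂μ) ^ 2) μ := fun i =>
      integrable_of hμ (((hz i).c.sub continuousOn_const).pow 2)
    have h2 := Finset.sum_le_sum fun i (_ : i ∈ Finset.univ) => (hz i).poincare hμ hn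
    rw [← Finset.mul_sum, ← integral_finsetSum _ fun i _ => integrable_of hμ (hz i).cD,
      ← integral_finsetSum _ fun i _ => i1 i] at h2
    exact h2
  have p2 : I ≤ T0 + M * γ + T1 * Z := by
    have h1 := int_le_good hμ (f := fun U => ∑ i, ∑ a, D a U i ^ 2 - T1 * (z U ⬝ᵥ z U)) (M := M)
      (ct.sub (continuousOn_const.mul cz)) hGm T00 (fun U hU h => by linarith [hT U hU h])
      fun U hU => by linarith [hM U hU, mul_nonneg T10 (dot_self_nonneg (z U))]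
    rw [integral_sub (integrable_of hμ ct) ((integrable_of hμ cz).const_mul _), integral_const_mul] at h1
    linarith [mul_le_mul_of_nonneg_left hγ M0]
  have p3 : Z ≤ 2 * V + 2 * s := by
    have h1 := integral_mono (μ := μ) (g := fun U => 2 * ∑ i, (z U i - x0 i) ^ 2 + 2 * s)
      (integrable_of hμ cz) (((integrable_of hμ cd).const_mul 2).add (integrable_const (2 * s)))
      fun U => sq_split (z U) x0
    rw [integral_add ((integrable_of hμ cd).const_mul 2) (integrable_const _), integral_const_mul,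
      integral_const, probReal_univ, one_smul] at h1
    exact h1
  have med0 : ∀ c : ℝ, 0 < c → 2 * (ρ⁻¹ * I) ≤ c ^ 2 →
      μ.real {U | c ^ 2 < ∑ i, (z U i - x0 i) ^ 2} ≤ 1 / 2 := fun c c0 h =>
    norm_med hμ hn (x := fun i U => z U i) (D := fun i a U => D a U i) hz c0 h
  have sM : s ≤ M' := by
    have h1 := ev_near hμ.mem (x := z) (fun i => (hz i).c) 0 le_rfl (M := M') fun U hU => by
      simpa only [Pi.zero_apply, sub_zero, dotProduct, sq] using hM' U hU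
    have h2 := mul_le_of_le_one_right M0' (measureReal_le_one (μ := μ)
      (s := {U | 0 < ∑ i, (z U i - (0 : κ → ℝ) i) ^ 2}))
    have h3 : s = ∑ i, (EV μ z i - (0 : κ → ℝ) i) ^ 2 := by
      simp only [Pi.zero_apply, sub_zero, hs, dotProduct, sq, hx0]
    rw [h3]
    exact h1.trans (by rw [zero_add]; exact h2)
  clear_value V I Z x0
  obtain ⟨τ, hτ⟩ : ∃ τ, τ = (T0 + M * γ) / ρ := ⟨_, rfl⟩
  obtain ⟨α, hα⟩ : ∃ α, α = H * A0 / ρ := ⟨_, rfl⟩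
  have τ0 : 0 ≤ τ := by rw [hτ]; positivity
  have α0 : 0 < α := by rw [hα]; positivity
  have p4 : ρ⁻¹ * I ≤ τ + Z / 1000 := by
    have h1 : ρ⁻¹ * (T1 * Z) ≤ Z / 1000 := by
      rw [inv_mul_le_iff₀ hρ]; nlinarith
    have h2 := mul_le_mul_of_nonneg_left p2 (inv_pos.2 hρ).le
    rw [mul_add, ← div_eq_inv_mul (T0 + M * γ)] at h2
    linarith
  obtain ⟨c, c0, hc⟩ : ∃ c : ℝ, 0 < c ∧ c ^ 2 = 4 * τ + s / 200 + α :=
    ⟨√_, Real.sqrt_pos.2 (by positivity), Real.sq_sqrt (by positivity)⟩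
  have med := med0 c c0 (by linarith)
  obtain ⟨A, hAe⟩ : ∃ A, A = 2 * (A0 + A1 * (2 * s + 4 * c ^ 2)) := ⟨_, rfl⟩
  have hA1 : 0 ≤ A1 * (2 * s + 4 * c ^ 2) := by positivity
  have hA0 : A0 ≤ A := by linarith
  have Apos : 0 < A := A00.trans_le hA0
  obtain ⟨y, y0, hy⟩ : ∃ y : ℝ, 0 < y ∧ y ^ 2 = 36 * H * A / ρ :=
    ⟨√_, Real.sqrt_pos.2 (by positivity), Real.sq_sqrt (by positivity)⟩
  have e1 : H * A1 / ρ ≤ 1 / 40000 := by rw [div_le_iff₀ hρ]; linarith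
  have e0 : 0 ≤ H * A1 / ρ := by positivity
  have r1 : (c + 2 * y) ^ 2 ≤ 2 * c ^ 2 + 8 * y ^ 2 := by nlinarith [sq_nonneg (c - 2 * y)]
  have y1 : A1 * y ^ 2 ≤ A / 1000 := by
    have : A1 * y ^ 2 = 36 * (H * A1 / ρ) * A := by rw [hy]; ring
    rw [this]
    nlinarith [mul_le_mul_of_nonneg_right e1 Apos.le]
  have y2 : y ^ 2 ≤ 72 * α + 72 / 40000 * (2 * s + 4 * c ^ 2) := by
    have : y ^ 2 = 72 * α + 72 * (H * A1 / ρ) * (2 * s + 4 * c ^ 2) := by rw [hy, hAe, hα]; ring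
    have h2 : 0 ≤ 2 * s + 4 * c ^ 2 := by positivity
    linarith [mul_le_mul_of_nonneg_right e1 h2]
  have hd := vec_hd hμ hn hz x0 hGm Apos M0 c0.le y0
    (fun U hU h h' v => (hA U hU h v).trans (mul_le_mul_of_nonneg_right (by
      have h1 := mul_le_mul_of_nonneg_left ((sq_split (z U) x0).trans
        (show _ ≤ 2 * s + 4 * c ^ 2 + 16 * y ^ 2 by linarith)) A10
      linarith) (dot_self_nonneg v)))
    (fun U hU v => (dir_tot _ v).trans (mul_le_mul_of_nonneg_right (hM U hU) (dot_self_nonneg v))) med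
  have e2 : ρ * y ^ 2 / (36 * A) = H := by rw [hy]; field_simp
  have hd' : μ.real {U | (c + 2 * y) ^ 2 ≤ ∑ i, (z U i - x0 i) ^ 2} ≤ fl H M A0 γ := by
    refine hd.trans ?_
    rw [e2, fl]
    gcongr
  have br := ev_near hν (x := z) (fun i => (hz i).c) x0 (sq_nonneg (c + 2 * y)) (M := 4 * M')
    fun U hU => by linarith [sq_sub_le (z U) x0, hM' U hU]
  have b1 : ν.real {U | (c + 2 * y) ^ 2 < ∑ i, (z U i - x0 i) ^ 2} ≤ K * fl H M A0 γ + η :=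
    (tr _).trans (add_le_add (mul_le_mul_of_nonneg_left (le_trans (real_mono_SO hμ fun U _ hU => by
      simp only [Set.mem_ofPred_eq] at hU ⊢
      exact hU.le) hd') K0) le_rfl)
  have b2 := mul_le_mul_of_nonneg_left b1 (show 0 ≤ 4 * M' by positivity)
  have b3 : 0 ≤ 4 * M' * (K * fl H M A0 γ + η) := le_trans (by positivity) b2
  have b4 := sq_split x0 (EV ν z)
  have b5 : ∑ i, (x0 i - EV ν z i) ^ 2 = ∑ i, (EV ν z i - x0 i) ^ 2 :=
    Finset.sum_congr rfl fun i _ => by ring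
  have ζ0 : 0 ≤ ζ := (dot_self_nonneg _).trans hζ
  have e3 : rad k ζ T0 A0 M M' H K η γ =
      7 * (ζ + (12 * τ + 600 * α) + 4 * M' * (K * fl H M A0 γ + η)) := by
    rw [rad, hτ, hα]; ring
  rw [e3]
  refine ⟨le_trans (measureReal_mono fun U hU => ?_) hd', by linarith⟩
  have h1 := sq_split (z U) x0
  simp only [Set.mem_ofPred_eq] at hU ⊢
  linarith

/-! ### the centre -/

variable {n : ℕ} {o : Orb n k} {μ : Measure (Mat k)} [IsProbabilityMeasure μ] {c : Cs}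
  {R η K δ ω H m1 m2 : ℝ}

/-- the squared radius of the centre step: a bound for `|δ|² + ω |A δ|²` -/
def R2 (k : ℕ) (c : Cs) (ω H m1 m2 : ℝ) : ℝ :=
  7 * (m1 + ω * m2 + (12 * (12 * c.s1' + 12 * (ω * c.s1) + 1) +
    600 * (H * (48 * (c.k1 * c.N) + 72 * (ω * (c.k2 * c.N)) + 1))) / ((k : ℝ) - 2) + 1)

/-- the smallness conditions of the centre step for the weight `ω` -/
structure Sm (k : ℕ) (c : Cs) (R ω H : ℝ) : Prop where
  ω0 : 0 < ω
  ωR : ω ≤ R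
  H0 : 0 < H
  t1 : 6000 * (c.a1 + ω * c.b) ≤ (k : ℝ) - 2
  t2 : 6000 * (c.c2 + ω * c.a1) ≤ ω * ((k : ℝ) - 2)
  u1 : 80000 * (H * (12 * (c.k1 * c.k2) + 4 + ω * (18 * c.k2 ^ 2 + 6 * c.a ^ 2))) ≤ (k : ℝ) - 2
  u2 : 80000 * (H * (12 * c.k1 ^ 2 + ω * (18 * (c.k1 * c.k2) + 6))) ≤ ω * ((k : ℝ) - 2)

theorem dot_elim (x y u v : Vn n) : Sum.elim x y ⬝ᵥ Sum.elim u v = x ⬝ᵥ u + y ⬝ᵥ v := by
  simp only [dotProduct, Fintype.sum_sum_type, Sum.elim_inl, Sum.elim_inr]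

/-- **the centre**: inputs are the `Pt_o`-means of `gᵀ δ` and `A δ` only -/
theorem centre (h : O6.Ctx o μ c R η K δ) (s : Sm k c R ω H)
    (sm : O6.MM R * (K * O6.fl R η H + δ) ≤ 1)
    (h1 : (EV (o.P μ) fun U => (o.g U)ᵀ *ᵥ o.d U) ⬝ᵥ (EV (o.P μ) fun U => (o.g U)ᵀ *ᵥ o.d U) ≤ m1)
    (h2 : (EV (o.P μ) fun U => o.A U *ᵥ o.d U) ⬝ᵥ (EV (o.P μ) fun U => o.A U *ᵥ o.d U) ≤ m2) :
    μ.real {U | R2 k c ω H m1 m2 < o.d U ⬝ᵥ o.d U + ω * (o.A U *ᵥ o.d U ⬝ᵥ o.A U *ᵥ o.d U)} ≤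
        O6.fl R η H ∧
      ∫ U, o.d U ⬝ᵥ o.d U + ω * (o.A U *ᵥ o.d U ⬝ᵥ o.A U *ᵥ o.d U) ∂μ ≤ R2 k c ω H m1 m2 := by
  have := Orb.P_prob h.inv h.ok
  have hρ : (0 : ℝ) < (k : ℝ) - 2 := by
    have : (2 : ℝ) < k := by exact_mod_cast h.ok.two
    linarith
  have ω0 := s.ω0
  have H0 := s.H0
  have R1 := h.R1
  have ωR := s.ωR
  obtain ⟨q, hq⟩ : ∃ q : ℝ, q * q = ω := ⟨√ω, Real.mul_self_sqrt ω0.le⟩
  have qd : ∀ v : Vn n, (q • v) ⬝ᵥ (q • v) = ω * (v ⬝ᵥ v) := fun v => by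
    rw [smul_dotProduct, dotProduct_smul, smul_eq_mul, smul_eq_mul, ← mul_assoc, hq]
  let z : Mat k → Fin n ⊕ Fin n → ℝ := fun U => Sum.elim ((o.g U)ᵀ *ᵥ o.d U) (q • (o.A U *ᵥ o.d U))
  let D : Fin k × Fin k → Mat k → Fin n ⊕ Fin n → ℝ := fun a U =>
    Sum.elim ((o.g U)ᵀ *ᵥ dDel (o.w U) sv o.p (o.A U) (o.th a U))
      (q • dAd (o.w U) sv o.p (o.A U) (o.th a U))
  have hz : RDV z D := fun i => by
    cases i with
    | inl i => exact rd_delx h.ok.iso h.ok.symm Orb.wt0 o.z i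
    | inr i => exact (rd_Ad h.ok.iso h.ok.symm Orb.wt0 o.z i).const_mul q
  have ez : ∀ U ∈ SO k, z U ⬝ᵥ z U =
      o.d U ⬝ᵥ o.d U + ω * (o.A U *ᵥ o.d U ⬝ᵥ o.A U *ᵥ o.d U) := fun U hU => by
    rw [dot_elim, qd, Op2.orth (by rw [transpose_transpose]; exact emb_orth h.ok.iso hU)]
  have tot : ∀ c' : Cs, c'.Nn → ∀ U ∈ o.G c', ∑ i, ∑ a, D a U i ^ 2 ≤ c'.gDel' + ω * c'.gAd :=
    fun c' hc U hU => by
      have b1 := Orb.gDelx' h.ok hc hU
      have b2 := mul_le_mul_of_nonneg_left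
        (hU.2.gAd hc (Orb.wt U) (Orb.A_symm h.ok U) (Orb.fam h.ok hU.1)) ω0.le
      rw [Fintype.sum_sum_type]
      refine add_le_add b1 (le_of_eq_of_le ?_ b2)
      simp only [D, Sum.elim_inr, Pi.smul_apply, smul_eq_mul, mul_pow, sq q, hq, Finset.mul_sum]
  have up : ∀ U ∈ o.G c, U ∈ o.G (c.ctr (o.d U ⬝ᵥ o.d U) (o.A U *ᵥ o.d U ⬝ᵥ o.A U *ᵥ o.d U)) :=
    fun U hU => ⟨hU.1, hU.2.ctr le_rfl le_rfl⟩
  have upn : ∀ U, (c.ctr (o.d U ⬝ᵥ o.d U) (o.A U *ᵥ o.d U ⬝ᵥ o.A U *ᵥ o.d U)).Nn :=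
    fun U => h.nn.ctr (dot_self_nonneg _) (dot_self_nonneg _)
  have n1 := h.nn.k1
  have n2 := h.nn.k2
  have n3 := h.nn.N
  have n4 := h.nn.s1
  have n5 := h.nn.s1'
  have η0 : 0 ≤ η := measureReal_nonneg.trans h.G
  have R2' : R ≤ R ^ 2 := by nlinarith
  have R8 : R ^ 4 ≤ R ^ 8 := pow_le_pow_right₀ R1 (by norm_num)
  have R4 : R ^ 2 ≤ R ^ 4 := pow_le_pow_right₀ R1 (by norm_num)
  have R3 : R ^ 3 ≤ R ^ 4 := pow_le_pow_right₀ R1 (by norm_num)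
  have M0 : 0 ≤ O6.MM R := by unfold O6.MM; positivity
  have A1 : 1 ≤ 48 * (c.k1 * c.N) + 72 * (ω * (c.k2 * c.N)) + 1 := by
    have : 0 ≤ 48 * (c.k1 * c.N) + 72 * (ω * (c.k2 * c.N)) := by positivity
    linarith
  obtain ⟨r1, r2⟩ := sb (ν := o.P μ) (T0 := 12 * c.s1' + 12 * (ω * c.s1)) (T1 := ((k : ℝ) - 2) / 1000)
    (A0 := 48 * (c.k1 * c.N) + 72 * (ω * (c.k2 * c.N)) + 1) (A1 := ((k : ℝ) - 2) / (40000 * H))
    (M := O6.MM R) (M' := O6.MM R / 4) (ζ := m1 + ω * m2) h.inv h.ok.two (Orb.P_mem h.inv) hz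
    (Orb.measurableSet_G (o := o) (c := c)) (by positivity) (by positivity) (by positivity)
    (by positivity) M0 (by positivity) H0 (zero_le_one.trans h.K1)
    (fun U hU hG => (tot _ (upn U) U (up U hG)).trans (by
      rw [ez U hU]
      have b1 := mul_le_mul_of_nonneg_right s.t1 (dot_self_nonneg (o.d U))
      have b2 := mul_le_mul_of_nonneg_right s.t2 (dot_self_nonneg (o.A U *ᵥ o.d U))
      simp only [Cs.gDel', Cs.gAd, Cs.ctr]
      linarith))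
    (fun U hU hG v => by
      have b1 := Orb.gDelxU h.ok (upn U) (up U hG) fun i => v (Sum.inl i)
      have b2 := (up U hG).2.gAdU (upn U) (Orb.wt U) (Orb.A_symm h.ok U) (Orb.fam h.ok hU)
        fun i => v (Sum.inr i)
      have e : v = Sum.elim (fun i => v (Sum.inl i)) fun i => v (Sum.inr i) := by
        ext i; cases i <;> rfl
      rw [ez U hU, e]
      generalize (fun i => v (Sum.inl i)) = v1 at *
      generalize (fun i => v (Sum.inr i)) = v2 at *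
      have b3 : ∑ a, (q * (v2 ⬝ᵥ dAd (o.w U) sv o.p (o.A U) (o.th a U))) ^ 2 ≤ _ :=
        le_of_eq_of_le (by simp only [mul_pow, sq q, hq, Finset.mul_sum])
          (mul_le_mul_of_nonneg_left b2 ω0.le)
      have b4 := sum_sq2_le _ _ b1 b3
      simp only [D, dot_elim, dotProduct_smul, smul_eq_mul]
      refine b4.trans ?_
      simp only [Cs.gDelU, Cs.gAdU, Cs.lam, Cs.ctr]
      have Y0 := dot_self_nonneg (o.d U)
      have X0 := dot_self_nonneg (o.A U *ᵥ o.d U)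
      have a0 := dot_self_nonneg v1
      have b0 := dot_self_nonneg v2
      generalize o.d U ⬝ᵥ o.d U = Y at *
      generalize o.A U *ᵥ o.d U ⬝ᵥ o.A U *ᵥ o.d U = X at *
      generalize v1 ⬝ᵥ v1 = a at *
      generalize v2 ⬝ᵥ v2 = b at *
      have u1 : 2 * (12 * (c.k1 * c.k2) + 4 + ω * (18 * c.k2 ^ 2 + 6 * c.a ^ 2)) ≤
          ((k : ℝ) - 2) / (40000 * H) := by
        rw [le_div_iff₀ (by positivity)]; linarith [s.u1]
      have u2 : 2 * (12 * c.k1 ^ 2 + ω * (18 * (c.k1 * c.k2) + 6)) ≤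
          ω * (((k : ℝ) - 2) / (40000 * H)) := by
        rw [← mul_div_assoc, le_div_iff₀ (by positivity)]; linarith [s.u2]
      generalize ((k : ℝ) - 2) / (40000 * H) = L at *
      have g1 : 0 ≤ 2 * (3 * (4 * c.N + 2 * (c.k2 * Y) + 2 * (X * c.k1)) * c.k1 + 2 * Y) := by positivity
      have g2 : 0 ≤ ω * (3 * (3 * (4 * c.N + 2 * (c.k2 * Y) + 2 * (X * c.k1)) * c.k2 + 2 * X +
          2 * (Y * c.a ^ 2))) := by positivity
      have g3 : 2 * (2 * (3 * (4 * c.N + 2 * (c.k2 * Y) + 2 * (X * c.k1)) * c.k1 + 2 * Y) +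
          ω * (3 * (3 * (4 * c.N + 2 * (c.k2 * Y) + 2 * (X * c.k1)) * c.k2 + 2 * X +
          2 * (Y * c.a ^ 2)))) ≤ 48 * (c.k1 * c.N) + 72 * (ω * (c.k2 * c.N)) + 1 + L * (Y + ω * X) := by
        linarith [mul_le_mul_of_nonneg_right u1 Y0, mul_le_mul_of_nonneg_right u2 X0]
      linarith [mul_le_mul_of_nonneg_right g3 (add_nonneg a0 b0), mul_nonneg g1 b0, mul_nonneg g2 a0])
    (fun U hU => (tot _ (crude_nn h.nn.a (by linarith)) U ⟨hU, h.cr U hU⟩).trans (by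
      simp only [Cs.gDel', Cs.gAd, crude, O6.MM]
      have b1 := mul_le_mul_of_nonneg_right ωR (show 0 ≤ R ^ 3 by positivity)
      have b2 : 0 ≤ R ^ 8 := by positivity
      linarith))
    (fun U hU => by
      have b1 : o.d U ⬝ᵥ o.d U ≤ 4 * R := (h.cr U hU).d0
      have b2 : o.A U *ᵥ o.d U ⬝ᵥ o.A U *ᵥ o.d U ≤ 4 * R := (h.cr U hU).e0
      have b3 := mul_le_mul ωR b2 (dot_self_nonneg _) (by linarith)
      have b4 : 0 ≤ R ^ 8 := by positivity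
      rw [ez U hU, O6.MM]
      linarith)
    h.G h.tr
    (by
      have e : EV (o.P μ) z = Sum.elim (EV (o.P μ) fun U => (o.g U)ᵀ *ᵥ o.d U)
          (q • EV (o.P μ) fun U => o.A U *ᵥ o.d U) := by
        ext i
        cases i with
        | inl i => rfl
        | inr i => exact integral_const_mul q _
      rw [e, dot_elim, qd]
      exact add_le_add h1 (mul_le_mul_of_nonneg_left h2 ω0.le))
    (by linarith) (by field_simp; exact le_rfl)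
  have f1 : fl H (O6.MM R) (48 * (c.k1 * c.N) + 72 * (ω * (c.k2 * c.N)) + 1) η ≤ O6.fl R η H :=
    add_le_add le_rfl (mul_le_mul_of_nonneg_right (div_le_self M0 A1) η0)
  have f2 : rad k (m1 + ω * m2) (12 * c.s1' + 12 * (ω * c.s1))
      (48 * (c.k1 * c.N) + 72 * (ω * (c.k2 * c.N)) + 1) (O6.MM R) (O6.MM R / 4) H K δ η ≤
      R2 k c ω H m1 m2 := by
    have b1 : O6.MM R * η ≤ 1 := le_trans (mul_le_mul_of_nonneg_left (by
      nlinarith [h.K1, h.δ0]) M0) h.sm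
    have b2 := mul_le_mul_of_nonneg_left (add_le_add (mul_le_mul_of_nonneg_left f1
      (zero_le_one.trans h.K1)) (le_refl δ)) M0
    unfold rad R2
    gcongr
    linarith
  refine ⟨le_trans (real_mono_SO h.inv fun U hU hU' => ?_) (r1.trans f1), le_trans (le_of_eq ?_)
    (r2.trans f2)⟩
  · simp only [Set.mem_ofPred_eq] at hU' ⊢
    rw [ez U hU]; exact f2.trans_lt hU'
  · refine integral_congr_ae ?_
    filter_upwards [h.inv.mem] with U hU using (ez U hU).symm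


section Out

variable (h : O6.Ctx o μ c R η K δ) (sm : O6.MM R * (K * O6.fl R η H + δ) ≤ 1)
  (h1 : (EV (o.P μ) fun U => (o.g U)ᵀ *ᵥ o.d U) ⬝ᵥ (EV (o.P μ) fun U => (o.g U)ᵀ *ᵥ o.d U) ≤ m1)
  (h2 : (EV (o.P μ) fun U => o.A U *ᵥ o.d U) ⬝ᵥ (EV (o.P μ) fun U => o.A U *ᵥ o.d U) ≤ m2)
include h sm h1 h2

/-- two weights: `ω` (small) for `δ`, `ω'` (large) for `A δ` -/
theorem centre_G2 {ω' D E : ℝ} (s : Sm k c R ω H) (s' : Sm k c R ω' H) (hD : R2 k c ω H m1 m2 ≤ D)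
    (hE : R2 k c ω' H m1 m2 ≤ ω' * E) :
    μ.real (o.G (c.ctr D E))ᶜ ≤ η + 2 * O6.fl R η H := by
  have a1 := (centre h s sm h1 h2).1
  have a2 := (centre h s' sm h1 h2).1
  have b : μ.real (o.G (c.ctr D E))ᶜ ≤ μ.real ((o.G c)ᶜ ∪
      ({U | R2 k c ω H m1 m2 < o.d U ⬝ᵥ o.d U + ω * (o.A U *ᵥ o.d U ⬝ᵥ o.A U *ᵥ o.d U)} ∪
        {U | R2 k c ω' H m1 m2 < o.d U ⬝ᵥ o.d U + ω' * (o.A U *ᵥ o.d U ⬝ᵥ o.A U *ᵥ o.d U)})) :=
    measureReal_mono fun U hU => by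
      by_contra hc
      simp only [Set.mem_union, Set.mem_compl_iff, Set.mem_ofPred_eq, not_or, not_not, not_lt] at hc
      have Y0 := dot_self_nonneg (o.d U)
      have X0 := mul_nonneg s.ω0.le (dot_self_nonneg (o.A U *ᵥ o.d U))
      exact hU ⟨hc.1.1, hc.1.2.ctr (by linarith [hc.2.1])
        (le_of_mul_le_mul_left (by linarith [hc.2.2]) s'.ω0)⟩
  linarith [h.G, b.trans ((measureReal_union_le _ _).trans
    (add_le_add le_rfl (measureReal_union_le _ _)))]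

/-- one weight -/
theorem centre_G {D E : ℝ} (s : Sm k c R ω H) (hD : R2 k c ω H m1 m2 ≤ D)
    (hE : R2 k c ω H m1 m2 ≤ ω * E) : μ.real (o.G (c.ctr D E))ᶜ ≤ η + O6.fl R η H := by
  have a1 := (centre h s sm h1 h2).1
  have b : μ.real (o.G (c.ctr D E))ᶜ ≤ μ.real ((o.G c)ᶜ ∪
      {U | R2 k c ω H m1 m2 < o.d U ⬝ᵥ o.d U + ω * (o.A U *ᵥ o.d U ⬝ᵥ o.A U *ᵥ o.d U)}) :=
    measureReal_mono fun U hU => by
      by_contra hc
      simp only [Set.mem_union, Set.mem_compl_iff, Set.mem_ofPred_eq, not_or, not_not, not_lt] at hc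
      have Y0 := dot_self_nonneg (o.d U)
      have X0 := mul_nonneg s.ω0.le (dot_self_nonneg (o.A U *ᵥ o.d U))
      exact hU ⟨hc.1.1, hc.1.2.ctr (by linarith [hc.2])
        (le_of_mul_le_mul_left (by linarith [hc.2]) s.ω0)⟩
  linarith [h.G, b.trans (measureReal_union_le _ _)]

end Out

end Crest.Agent.T157.O5
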