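import Crest.Agent.T157.OgA_9
import Crest.Agent.T157.NumO_27
import Crest.Agent.T157.O5A_99

set_option autoImplicit false
set_option linter.unusedSectionVars false

/-!
Row 157, A2 (helper56): section 5 with its numbers (`Og.CtrL`), from `O5.centre_G` with the weight
`ω = (B ^ 10 t kk)⁻¹`.
-/

noncomputable section

namespace Crest.Agent.T157.Og

open MeasureTheory Matrix Crest.Agent.Lib.OrthPoinc Filter Topology Set
open Crest.Agent.T157.Oc Crest.Agent.T157.E Crest.Agent.T157.SL Crest.Agent.T157.Ks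
open Crest.Agent.T157.Od Crest.Agent.T157.Oo Crest.Agent.T157.O6 Crest.Agent.T157.O0
open Crest.Agent.T157.Nm

namespace Ct56

/-- Jensen: (M1) bounds the mean of `gᵀ δ` -/
theorem mean_le {n k : ℕ} {o : Orb n k} {μ : Measure (Mat k)} [IsProbabilityMeasure μ]
    (hμ : SOInv μ) (h : o.Ok) {m : ℝ} (m0 : 0 ≤ m)
    (hm : ∀ v, v ⬝ᵥ (EM (o.P μ) fun U => (o.g U)ᵀ * sm2 (o.w U) sv o.p * o.g U) *ᵥ v ≤ m * (v ⬝ᵥ v)) :
    (EV (o.P μ) fun U => (o.g U)ᵀ *ᵥ o.d U) ⬝ᵥ (EV (o.P μ) fun U => (o.g U)ᵀ *ᵥ o.d U) ≤ m := by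
  have := Orb.P_prob hμ h
  have hν := Orb.P_mem (o := o) hμ
  have cx : Continuous fun U => (o.g U)ᵀ *ᵥ o.d U := Orb.c_g.matrix_transpose.matrix_mulVec Orb.c_d
  have cX : Continuous fun U => (o.g U)ᵀ * sm2 (o.w U) sv o.p * o.g U :=
    (Orb.c_g.matrix_transpose.mul (Orb.c_C.add (Orb.c_d.matrix_vecMulVec Orb.c_d))).mul Orb.c_g
  obtain ⟨y, hy⟩ : ∃ y, y = EV (o.P μ) fun U => (o.g U)ᵀ *ᵥ o.d U := ⟨_, rfl⟩
  have i1 : ∀ i, Integrable (fun U => y i * ((o.g U)ᵀ *ᵥ o.d U) i) (o.P μ) := fun i =>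
    (Oo.int_of hν ((continuous_apply i).comp cx).continuousOn).const_mul _
  have e1 : ∫ U, y ⬝ᵥ (o.g U)ᵀ *ᵥ o.d U ∂o.P μ = y ⬝ᵥ y := by
    simp only [dotProduct]
    rw [integral_finsetSum _ fun i _ => i1 i]
    simp only [integral_const_mul, hy, EV]
  have h1 := hm y
  rw [dot_EM hν fun i j => (cX.matrix_elem i j).continuousOn] at h1
  have j1 : Integrable (fun U => y ⬝ᵥ (o.g U)ᵀ *ᵥ o.d U) (o.P μ) := integrable_finsetSum _ fun i _ => i1 i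
  have h2 := integral_mono ((j1.const_mul (2 * (y ⬝ᵥ y))).sub (integrable_const ((y ⬝ᵥ y) ^ 2)))
    (Oo.int_of hν (continuous_const.dotProduct (cX.matrix_mulVec continuous_const)).continuousOn)
    (g := fun U => y ⬝ᵥ ((o.g U)ᵀ * sm2 (o.w U) sv o.p * o.g U) *ᵥ y) fun U => by
      have := (Orb.wt (o := o) U).covMat_quad_nonneg sv (o.g U *ᵥ y)
      simp only [Pi.sub_apply, ← mulVec_mulVec, dot_tp, sm2, add_mulVec, dotProduct_add, vecMulVec_mulVec,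
        dotProduct_smul, op_smul_eq_smul, smul_eq_mul]
      rw [dotProduct_comm (meanV _ _ - _)]
      nlinarith [sq_nonneg (y ⬝ᵥ y - o.g U *ᵥ y ⬝ᵥ o.d U)]
  simp only [Pi.sub_apply] at h2
  rw [integral_sub (j1.const_mul _) (integrable_const _), integral_const_mul, e1, integral_const,
    probReal_univ, one_smul] at h2
  rw [← hy]
  rcases (dot_self_nonneg y).eq_or_lt with h0 | h0
  · linarith
  · nlinarith

/-- the weight -/
def om (p : Pm) (t : ℝ) : ℝ := (p.B ^ 10 * t * p.kk t)⁻¹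

set_option maxHeartbeats 4000000 in
/-- the numbers -/
theorem nums {p : Pm} {t ε H : ℝ} (lh : LH p t ε H) (ht : t < p.t0 / 2) :
    om p t ≤ RR p ∧ 6000 * ((p.cq t).a1 + om p t * (p.cq t).b) ≤ ro p ∧
    6000 * ((p.cq t).c2 + om p t * (p.cq t).a1) ≤ om p t * ro p ∧
    80000 * (3 * H * (12 * ((p.cq t).k1 * (p.cq t).k2) + 4 + om p t * (18 * (p.cq t).k2 ^ 2 + 6 * 6 ^ 2))) ≤
      ro p ∧
    80000 * (3 * H * (12 * (p.cq t).k1 ^ 2 + om p t * (18 * ((p.cq t).k1 * (p.cq t).k2) + 6))) ≤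
      om p t * ro p ∧
    7 * (p.C / t + om p t * p.C + (12 * (12 * (p.cq t).s1' + 12 * (om p t * (p.cq t).s1) + 1) +
      600 * (3 * H * (48 * ((p.cq t).k1 * (p.cq t).N) + 72 * (om p t * ((p.cq t).k2 * (p.cq t).N)) + 1))) /
        ro p + 1) ≤ p.B0 ^ 4 / (p.B ^ 10 * t) := by
  obtain ⟨a, L, h, -⟩ := lh_tab lh
  obtain ⟨κ, α, μ, _, _, _, hr⟩ := h.regimes L
  have := h.Bt_lo ht
  nm_lh L, h
  clear lh
  simp only [om, RR, Pm.cq, Pm.s1]
  refine ⟨?_, ?_, ?_, ?_, ?_, ?_⟩ <;>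
    rcases hr with ⟨-, -, _, rfl, rfl, rfl⟩ | ⟨-, -, _, _, rfl, rfl, rfl⟩ | ⟨-, -, _, rfl, rfl, rfl⟩ <;> num

end Ct56

open Ct56

theorem ctrL : CtrL := by
  intro p t ε H η k o μ _ x h ht hμ f m1 m2 hG hη tr
  have o1 := h.ord
  have N0 := o1.N0
  have N1 := o1.N1
  have Nb := o1.Nb
  have H0 := h.H_pos
  have t0 := h.t0
  have k1 := h.kk1
  have B1 := o1.B1
  have η0 : 0 ≤ η := measureReal_nonneg.trans hG
  obtain ⟨d, e, hc⟩ : ∃ d e, c0 p t = (p.cq t).ctr d e := by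
    unfold c0 c1; split_ifs <;> exact ⟨_, _, rfl⟩
  set w := p.th t * H with hw
  set a := Real.exp (w / 8) with ha
  have ea : ∀ j : ℕ, Real.exp (j * (w / 8)) = a ^ j := fun j => Real.exp_nat_mul _ _
  have wH : 32 * w ≤ H := by nlinarith [h.th_le]
  have wd : (p.n : ℝ) ^ p.d ≤ w := h.thH
  have w0 : 0 < w := (o1.rp_pos _).trans_le wd
  have aN : (p.n : ℝ) ^ 20 ≤ a := by
    rw [← Real.exp_log N0, ← Real.exp_nat_mul]
    refine Real.exp_le_exp.2 ?_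
    have := h.lg_d (j := 2) (by norm_num)
    change ((20 : ℕ) : ℝ) * lg p ≤ _
    push_cast
    nlinarith [o1.lgb]
  have a0 : 0 < a := Real.exp_pos _
  have a1 : 1 ≤ a := Real.one_le_exp (by linarith)
  have x1 : ∀ y : ℝ, y ≤ -(w / 4) → Real.exp y * a ^ 2 ≤ 1 := fun y hy => by
    rw [← ea, ← Real.exp_add]; exact Real.exp_le_one_iff.2 (by push_cast; linarith)
  have e1 : η * a ^ 2 ≤ 1 := (mul_le_mul_of_nonneg_right hη (by positivity)).trans (x1 _ le_rfl)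
  have e2 := x1 (-(3 * H)) (by linarith)
  have M1 := o1.MM_le
  have M0 : 0 ≤ MM (RR p) := by unfold MM RR; positivity
  have n9 : 1 ≤ (p.n : ℝ) ^ 9 := one_le_pow₀ N1.le
  have E0 := Real.exp_pos (-(3 * H))
  have fl1 : fl (RR p) η (3 * H) ≤ (p.n : ℝ) ^ 9 * (Real.exp (-(3 * H)) + η) := by
    unfold fl; nlinarith [mul_le_mul_of_nonneg_right M1 η0]
  have s0 : ∀ y, 0 ≤ y → y ≤ (p.n : ℝ) ^ 9 * (Real.exp (-(3 * H)) + η) → MM (RR p) * (a * y + η) ≤ 1 := by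
    intro y y0 hy
    have b1 : η ≤ a * ((p.n : ℝ) ^ 9 * (Real.exp (-(3 * H)) + η)) :=
      le_trans (by nlinarith) (le_mul_of_one_le_left (by positivity) a1)
    have b2 : 4 * (p.n : ℝ) ^ 18 ≤ a := le_trans (by
      calc 4 * (p.n : ℝ) ^ 18 ≤ p.n * (p.n : ℝ) ^ 18 := by gcongr; linarith
        _ = (p.n : ℝ) ^ 19 := by ring
        _ ≤ _ := pow_le_pow_right₀ N1.le (by norm_num)) aN
    refine le_of_mul_le_mul_right (a := a) ?_ a0
    calc _ ≤ (p.n : ℝ) ^ 9 * (a * ((p.n : ℝ) ^ 9 * (Real.exp (-(3 * H)) + η)) +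
          a * ((p.n : ℝ) ^ 9 * (Real.exp (-(3 * H)) + η))) * a := by gcongr
      _ = 2 * (p.n : ℝ) ^ 18 * (Real.exp (-(3 * H)) * a ^ 2 + η * a ^ 2) := by ring
      _ ≤ 2 * (p.n : ℝ) ^ 18 * (1 + 1) := by gcongr
      _ ≤ _ := by linarith
  have X : Ctx o μ (c0 p t) (RR p) η a η := by
    refine ⟨f.pt.ok, hμ, h.c0_nn, ?_, ?_, ?_, fun U hU => ?_, f.p1, hG, a1, η0, tr,
      s0 η η0 (by nlinarith)⟩
    · unfold RR; linarith
    · unfold RR; linarith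
    · rw [hc]; show (6 : ℝ) ^ 2 ≤ RR p
      unfold RR; linarith
    · rw [hc]; exact (f.cr h hU).2
  obtain ⟨u1, u2, u3, u4, u5, u6⟩ := nums h ht
  rw [← f.ro] at u2 u3 u4 u5 u6
  have ω0 : 0 < om p t := by unfold om; positivity
  have C0 : 0 ≤ p.C := by linarith [o1.Cb]
  rw [hc] at X
  have := O5.centre_G (m2 := p.C) (D := p.B0 ^ 4 / t) (E := p.B0 ^ 4 * p.kk t) X
    (s0 _ (add_nonneg E0.le (mul_nonneg M0 η0)) fl1) (mean_le hμ f.pt.ok (by positivity) m1)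
    (by simpa only [M2, dotProduct, sq] using m2) ⟨ω0, u1, by positivity, u2, u3, u4, u5⟩
    (u6.trans (div_le_div_of_nonneg_left (by positivity) t0
      (le_mul_of_one_le_left t0.le (one_le_pow₀ B1))))
    (u6.trans_eq (by unfold om; field_simp))
  refine this.trans ?_
  have b3 : 2 * (p.n : ℝ) ^ 9 ≤ (p.n : ℝ) ^ 12 := by
    calc 2 * (p.n : ℝ) ^ 9 ≤ p.n * (p.n : ℝ) ^ 9 := by gcongr; linarith
      _ = (p.n : ℝ) ^ 10 := by ring
      _ ≤ _ := pow_le_pow_right₀ N1.le (by norm_num)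
  nlinarith [mul_le_mul_of_nonneg_right b3 (add_nonneg E0.le η0)]

end Crest.Agent.T157.Og

end
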