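import Crest.Agent.T157.OoDef_9

set_option autoImplicit false
set_option linter.unusedSectionVars false

/-!
Row 157, A2 (helper9): the a priori list on an orbit: crude version, measurability, all gradient sums
with the constants of `Cs`, (T2) and the bridge between Haar means and tilted means.
-/

noncomputable section

namespace Crest.Agent.T157.Oo

open MeasureTheory Matrix Crest.Agent.Lib.OrthPoinc Filter Topology Set
open Crest.Agent.T157.Oc Crest.Agent.T157.E Crest.Agent.T157.SL Crest.Agent.T157.Ks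
open Crest.Agent.T157.Od

variable {n k : ℕ}

/-! ### crude bounds -/

theorem T4_crude {Ω J L M I : Type*} [Fintype Ω] [Fintype J] [Fintype L] [Fintype M] [Fintype I]
    {w : Ω → ℝ} {ψ : Ω → J → ℝ} {χ : Ω → L → ℝ} {ρ : Ω → M → ℝ} {φ : Ω → I → ℝ} {R1 R2 R3 R4 : ℝ}
    (hw : Wt w) (h1 : Bd ψ R1) (h2 : Bd χ R2) (h3 : Bd ρ R3) (h4 : Bd φ R4) :
    T4 w ψ χ ρ φ ≤ 4096 * (R1 * R2 * R3 * R4) := by
  have r1 := h1.nonneg hw
  have r2 := h2.nonneg hw
  have r3 := h3.nonneg hw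
  have r4 := h4.nonneg hw
  have b0 := sum_mean_sq_le (J := J × L × M × I) hw fun q x =>
    (ψ x q.1 - mean w fun x => ψ x q.1) * (χ x q.2.1 - mean w fun x => χ x q.2.1) *
      (ρ x q.2.2.1 - mean w fun x => ρ x q.2.2.1) * (φ x q.2.2.2 - mean w fun x => φ x q.2.2.2)
  simp only [Fintype.sum_prod_type, mul_pow, ← Finset.mul_sum, ← Finset.sum_mul] at b0
  have b1 := b0.trans (hw.mean_le fun x => mul_le_mul (mul_le_mul (mul_le_mul (h1.center hw x)
    (h2.center hw x) (by positivity) (by positivity)) (h3.center hw x) (by positivity) (by positivity))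
    (h4.center hw x) (by positivity) (by positivity))
  have b2 := mul_le_mul (T2_crude hw h1 h2) (T2_crude hw h3 h4) (T2_nonneg _) (by positivity)
  have b3 := mul_le_mul (T2_crude hw h1 h3) (T2_crude hw h2 h4) (T2_nonneg _) (by positivity)
  have b4 := mul_le_mul (T2_crude hw h1 h4) (T2_crude hw h2 h3) (T2_nonneg _) (by positivity)
  have b5 : T4 w ψ χ ρ φ ≤ ∑ j, ∑ l, ∑ m, ∑ i, (4 * mean w (fun x => (ψ x j - mean w fun x => ψ x j) *
      (χ x l - mean w fun x => χ x l) * (ρ x m - mean w fun x => ρ x m) *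
        (φ x i - mean w fun x => φ x i)) ^ 2 +
      (4 * (cov w (fun x => ψ x j) (fun x => χ x l) ^ 2 * cov w (fun x => ρ x m) (fun x => φ x i) ^ 2) +
      (4 * (cov w (fun x => ψ x j) (fun x => ρ x m) ^ 2 * cov w (fun x => χ x l) (fun x => φ x i) ^ 2) +
      4 * (cov w (fun x => ψ x j) (fun x => φ x i) ^ 2 * cov w (fun x => χ x l) (fun x => ρ x m) ^ 2)))) := by
    refine Finset.sum_le_sum fun j _ => Finset.sum_le_sum fun l _ => Finset.sum_le_sum fun m _ =>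
      Finset.sum_le_sum fun i _ => ?_
    rw [cum4, ← mul_pow, ← mul_pow, ← mul_pow]
    generalize mean w _ = x0
    generalize cov w _ _ * cov w (fun x => ρ x m) _ = x1
    generalize cov w _ (fun x => ρ x m) * cov w _ _ = x2
    generalize cov w _ _ * cov w _ (fun x => ρ x m) = x3
    nlinarith [sq_nonneg (x0 + x1), sq_nonneg (x0 + x2), sq_nonneg (x0 + x3), sq_nonneg (x1 - x2),
      sq_nonneg (x1 - x3), sq_nonneg (x2 - x3)]
  have e1 : ∑ j, ∑ l, ∑ m, ∑ i, cov w (fun x => ψ x j) (fun x => χ x l) ^ 2 *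
      cov w (fun x => ρ x m) (fun x => φ x i) ^ 2 = T2 w ψ χ 0 * T2 w ρ φ 0 := by
    simp only [T2, Pi.zero_apply, sub_zero, ← Finset.mul_sum, ← Finset.sum_mul]
  have e2 : ∑ j, ∑ l, ∑ m, ∑ i, cov w (fun x => ψ x j) (fun x => ρ x m) ^ 2 *
      cov w (fun x => χ x l) (fun x => φ x i) ^ 2 = T2 w ψ ρ 0 * T2 w χ φ 0 := by
    simp only [T2, Pi.zero_apply, sub_zero, ← Finset.mul_sum, ← Finset.sum_mul]
  have e3 : ∑ j, ∑ l, ∑ m, ∑ i, cov w (fun x => ψ x j) (fun x => φ x i) ^ 2 *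
      cov w (fun x => χ x l) (fun x => ρ x m) ^ 2 = T2 w ψ φ 0 * T2 w χ ρ 0 := by
    simp only [T2, Pi.zero_apply, sub_zero, ← Finset.mul_sum, ← Finset.sum_mul]
  simp only [Finset.sum_add_distrib, ← Finset.mul_sum _ _ (4 : ℝ), e1, e2, e3] at b5
  linarith

theorem bd_sv : Bd (sv (n := n)) n := fun x => by
  have : ∀ j, sv x j ^ 2 = 1 := fun j => spin_sq _
  simp [this]

theorem bd_fA {A : Mn n} {a : ℝ} (h : Op2 A (a ^ 2)) : Bd (fA A sv) (a ^ 2 * n) := fun x => by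
  have h1 := h (sv x)
  have h2 := mul_le_mul_of_nonneg_left (bd_sv x) (sq_nonneg a)
  simp only [dotProduct, ← sq] at h1
  exact h1.trans h2

variable {c : Cs} {w : Cube n → ℝ} {A : Mn n} {p : Vn n}

theorem fr_AC (hA : Aᵀ = A) (B : Mn n) : fr (A * covMat w sv - B) = T2 w (fA A sv) sv B := by
  refine Finset.sum_congr rfl fun i _ => Finset.sum_congr rfl fun j _ => ?_
  have := covMat_quad w sv (Pi.single j 1) (A *ᵥ Pi.single i 1)
  rw [dotProduct_comm, ← symm_dot (covMat_transpose w sv), ← symm_dot hA, ← dot_fA hA, mulVec_mulVec]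
    at this
  simp only [single_dot, mulVec_single_one, col_apply] at this
  rw [Matrix.sub_apply, this, cov_comm]

theorem fr_ACA (hA : Aᵀ = A) (B : Mn n) :
    fr (A * covMat w sv * A - B) = T2 w (fA A sv) (fA A sv) B := by
  refine Finset.sum_congr rfl fun i _ => Finset.sum_congr rfl fun j _ => ?_
  have := covMat_quad w sv (A *ᵥ Pi.single i 1) (A *ᵥ Pi.single j 1)
  rw [← symm_dot hA, ← dot_fA hA, ← dot_fA hA, mulVec_mulVec, mulVec_mulVec] at this
  simp only [single_dot, mulVec_single_one, col_apply] at this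
  rw [Matrix.sub_apply, this, cov_comm]

theorem fr_one : fr (1 : Mn n) = n := by simp [fr, one_apply]

theorem crude_nn {a R : ℝ} (ha : 0 < a) (hR : 0 ≤ R) : (crude a R).Nn := by
  constructor <;> simp only [crude] <;> positivity

/-- the list holds everywhere with polynomial constants -/
theorem APt.crude (hw : Wt w) (hA : Aᵀ = A) {a R : ℝ} (ha : Op2 A (a ^ 2)) (R1 : 1 ≤ R) (hn : (n : ℝ) ≤ R)
    (han : a ^ 2 * n ≤ R) (hp : p ⬝ᵥ p ≤ n) : APt (crude a R) w A p := by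
  have b1 : Bd (sv (n := n)) R := bd_sv.mono hn
  have b2 : Bd (fA A sv) R := (bd_fA ha).mono han
  have hR : R ≤ R ^ 2 := by nlinarith
  have v4 : ∀ {f : Cube n → ℝ} {V : ℝ}, Bd (sg f) V → var w (fun x => (f x - mean w f) ^ 2) ≤ 16 * V ^ 2 :=
    fun hf => (hw.var_le_mean _ 0).trans (hw.mean_le fun x => by
      have := hf.center hw x
      simp only [Finset.univ_unique, Finset.sum_singleton] at this
      rw [sub_zero]
      exact (pow_le_pow_left₀ (sq_nonneg _) this 2).trans_eq (by ring))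
  have hm : meanV w sv ⬝ᵥ meanV w sv ≤ n := by simpa only [dotProduct, ← sq] using bd_sv.meanV_le hw
  have hd : (meanV w sv - p) ⬝ᵥ (meanV w sv - p) ≤ 4 * n := by linarith [dot_sub_le (meanV w sv) p]
  refine ⟨ha, b1.cb hw, b2.cb hw, ?_, ?_, (T2_crude hw b1 b1).trans_eq' ?_ |>.trans_eq (by
    simp only [Oo.crude]; ring), fun U => (var_qf_crude hw hw b2 b1).trans_eq (by simp only [Oo.crude]; ring),
    fun U => (var_qf_crude hw hw b2 b2).trans_eq (by simp only [Oo.crude]; ring),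
    (T3_crude hw b2 b2 b1).trans_eq (by simp only [Oo.crude]; ring),
    (T3_crude hw b2 b1 b1).trans_eq (by simp only [Oo.crude]; ring),
    (T4_crude hw b2 b2 b2 b1).trans_eq (by simp only [Oo.crude]; ring),
    (T4_crude hw b2 b1 b2 b1).trans_eq (by simp only [Oo.crude]; ring),
    fun v => (T4_crude hw b1 (b1.sg_dot v) b2 b1).trans_eq (by simp only [Oo.crude]; ring),
    fun v => (T3_crude hw b1 (b1.sg_dot v) b2).trans_eq (by simp only [Oo.crude]; ring),
    fun v => (T3_crude hw b1 (b1.sg_dot v) b1).trans_eq (by simp only [Oo.crude]; ring),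
    fun v => (T4_crude hw b2 (b2.sg_dot v) b2 b1).trans_eq (by simp only [Oo.crude]; ring),
    fun v => (T3_crude hw b2 (b2.sg_dot v) b2).trans_eq (by simp only [Oo.crude]; ring),
    fun v => (T3_crude hw b2 (b2.sg_dot v) b1).trans_eq (by simp only [Oo.crude]; ring),
    fun v => (v4 (b1.sg_dot v)).trans_eq (by simp only [Oo.crude]; ring),
    fun v => (v4 (b2.sg_dot v)).trans_eq (by simp only [Oo.crude]; ring), ?_, ?_⟩
  · have h1 := fr_sub_le (A * covMat w sv - 0) 1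
    rw [fr_AC hA, fr_one, sub_zero] at h1
    have h2 : T2 w (fA A sv) sv (0 : Mn n) ≤ _ := T2_crude hw b2 b1
    simp only [Oo.crude]; nlinarith
  · have h1 := fr_sub_le (A * covMat w sv * A - 0) A
    rw [fr_ACA hA, sub_zero] at h1
    have h2 : T2 w (fA A sv) (fA A sv) (0 : Mn n) ≤ _ := T2_crude hw b2 b2
    have h3 := ha.fr_left 1
    rw [Matrix.mul_one, fr_one] at h3
    simp only [Oo.crude]; nlinarith
  · simp only [T2, fr, Pi.zero_apply, sub_zero]; rfl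
  · simp only [Oo.crude]; linarith
  · have := (ha _).trans (mul_le_mul_of_nonneg_left hd (sq_nonneg a))
    simp only [Oo.crude]; linarith

theorem APt.ctr (h : APt c w A p) {d e : ℝ} (hd : (meanV w sv - p) ⬝ᵥ (meanV w sv - p) ≤ d)
    (he : A *ᵥ (meanV w sv - p) ⬝ᵥ A *ᵥ (meanV w sv - p) ≤ e) : APt (c.ctr d e) w A p :=
  { h with d0 := hd, e0 := he }

theorem Cs.Nn.ctr (h : c.Nn) {d e : ℝ} (hd : 0 ≤ d) (he : 0 ≤ e) : (c.ctr d e).Nn :=
  { h with d0 := hd, e0 := he }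

theorem Cs.Nn.lam (h : c.Nn) : 0 ≤ c.lam := by
  have := h.N; have := h.k1; have := h.k2; have := h.d0; have := h.e0
  unfold Cs.lam; positivity

/-! ### measurability -/

section Meas

variable {X Ω : Type*} [TopologicalSpace X] [Fintype Ω] {v f g l m : X → Ω → ℝ}

/-- continuity of a family of observables -/
abbrev Cn (f : X → Ω → ℝ) : Prop := ∀ s, Continuous fun x => f x s

variable (hv : Cn v) (h0 : ∀ x, Wt (v x))
include hv h0

theorem c_mean (hf : Cn f) : Continuous fun x => mean (v x) (f x) :=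
  continuous_finsetSum _ fun s _ => ((hv s).div (continuous_finsetSum _ fun s _ => hv s)
    fun x => (h0 x).pos.ne').mul (hf s)

theorem c_ctr (hf : Cn f) : Cn fun x s => f x s - mean (v x) (f x) := fun s => (hf s).sub (c_mean hv h0 hf)

theorem c_cov (hf : Cn f) (hg : Cn g) : Continuous fun x => cov (v x) (f x) (g x) :=
  c_mean hv h0 fun s => (c_ctr hv h0 hf s).mul (c_ctr hv h0 hg s)

theorem c_var (hf : Cn f) : Continuous fun x => var (v x) (f x) := by
  simpa only [var_eq_cov] using c_cov hv h0 hf hf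

theorem c_cum3 (hf : Cn f) (hg : Cn g) (hl : Cn l) : Continuous fun x => cum3 (v x) (f x) (g x) (l x) :=
  c_mean hv h0 fun s => ((c_ctr hv h0 hf s).mul (c_ctr hv h0 hg s)).mul (c_ctr hv h0 hl s)

theorem c_cum4 (hf : Cn f) (hg : Cn g) (hl : Cn l) (hm : Cn m) :
    Continuous fun x => cum4 (v x) (f x) (g x) (l x) (m x) :=
  (c_mean hv h0 fun s => (((c_ctr hv h0 hf s).mul (c_ctr hv h0 hg s)).mul (c_ctr hv h0 hl s)).mul
    (c_ctr hv h0 hm s)).sub ((((c_cov hv h0 hf hg).mul (c_cov hv h0 hl hm)).add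
      ((c_cov hv h0 hf hl).mul (c_cov hv h0 hg hm))).add ((c_cov hv h0 hf hm).mul (c_cov hv h0 hg hl)))

variable {J L M I : Type*} [Fintype J] [Fintype L] [Fintype M] [Fintype I] {ψ : X → Ω → J → ℝ}
  {χ : X → Ω → L → ℝ} {ρ : X → Ω → M → ℝ} {φ : X → Ω → I → ℝ}

theorem c_T3 (h1 : ∀ j, Cn fun x s => ψ x s j) (h2 : ∀ j, Cn fun x s => χ x s j)
    (h3 : ∀ j, Cn fun x s => ρ x s j) : Continuous fun x => T3 (v x) (ψ x) (χ x) (ρ x) :=
  continuous_finsetSum _ fun j _ => continuous_finsetSum _ fun l _ => continuous_finsetSum _ fun m _ =>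
    (c_cum3 hv h0 (h1 j) (h2 l) (h3 m)).pow 2

theorem c_T4 (h1 : ∀ j, Cn fun x s => ψ x s j) (h2 : ∀ j, Cn fun x s => χ x s j)
    (h3 : ∀ j, Cn fun x s => ρ x s j) (h4 : ∀ j, Cn fun x s => φ x s j) :
    Continuous fun x => T4 (v x) (ψ x) (χ x) (ρ x) (φ x) :=
  continuous_finsetSum _ fun j _ => continuous_finsetSum _ fun l _ => continuous_finsetSum _ fun m _ =>
    continuous_finsetSum _ fun i _ => (c_cum4 hv h0 (h1 j) (h2 l) (h3 m) (h4 i)).pow 2

theorem c_covMat (h1 : ∀ j, Cn fun x s => ψ x s j) : Continuous fun x => covMat (v x) (ψ x) :=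
  continuous_matrix fun i j => c_cov hv h0 (h1 i) (h1 j)

theorem c_meanV (h1 : ∀ j, Cn fun x s => ψ x s j) : Continuous fun x => meanV (v x) (ψ x) :=
  continuous_pi fun i => c_mean hv h0 (h1 i)

theorem c_NV (h1 : ∀ j, Cn fun x s => ψ x s j) (h2 : ∀ j, Cn fun x s => χ x s j) (U : Matrix J L ℝ) :
    Continuous fun x => NV (ψ x) (χ x) U (v x) :=
  c_var hv h0 fun s => ((continuous_pi fun j => h1 j s).sub (c_meanV hv h0 h1)).dotProduct
    (continuous_const.matrix_mulVec ((continuous_pi fun j => h2 j s).sub (c_meanV hv h0 h2)))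

end Meas

theorem c_fr {X : Type*} [TopologicalSpace X] {F : X → Mn n} (h : Continuous F) :
    Continuous fun x => fr (F x) := by unfold fr; fun_prop

theorem isClosed_APt {X : Type*} [TopologicalSpace X] {v : X → Cube n → ℝ} {B : X → Mn n} {q : X → Vn n}
    (hv : Cn v) (h0 : ∀ x, Wt (v x)) (hB : Continuous B) (hq : Continuous q) :
    IsClosed {x | APt c (v x) (B x) (q x)} := by
  refine isClosed_of_closure_subset fun x hx => ?_
  have key : ∀ {f : X → ℝ} {r : ℝ}, Continuous f → (∀ y, APt c (v y) (B y) (q y) → f y ≤ r) → f x ≤ r :=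
    fun hf h => closure_minimal (fun y hy => h y hy) (isClosed_le hf continuous_const) hx
  have s0 : ∀ j, Cn fun (_ : X) (s : Cube n) => sv s j := fun _ _ => continuous_const
  have s1 : ∀ j, Cn fun x (s : Cube n) => fA (B x) sv s j := fun j s =>
    (continuous_apply j).comp (hB.matrix_mulVec continuous_const)
  have s2 : ∀ u : Vn n, Cn fun (_ : X) (s : Cube n) => u ⬝ᵥ sv s := fun _ _ => continuous_const
  have s3 : ∀ u : Vn n, Cn fun x (s : Cube n) => u ⬝ᵥ fA (B x) sv s := fun u s =>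
    continuous_const.dotProduct (hB.matrix_mulVec continuous_const)
  have hC := c_covMat hv h0 s0
  have hd := (c_meanV hv h0 s0).sub hq
  exact ⟨fun u => key (by fun_prop) fun y h => h.a u,
    fun u => key (continuous_const.dotProduct (hC.matrix_mulVec continuous_const)) fun y h => h.k1 u,
    fun u => key (continuous_const.dotProduct ((c_covMat hv h0 s1).matrix_mulVec continuous_const))
      fun y h => h.k2 u,
    key (c_fr ((hB.mul hC).sub continuous_const)) fun y h => h.a1,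
    key (c_fr (((hB.mul hC).mul hB).sub hB)) fun y h => h.b, key (c_fr hC) fun y h => h.c2,
    fun U => key (c_NV hv h0 s1 s0 U) fun y h => h.N U, fun U => key (c_NV hv h0 s1 s1 U) fun y h => h.N' U,
    key (c_T3 hv h0 s1 s1 s0) fun y h => h.s1, key (c_T3 hv h0 s1 s0 s0) fun y h => h.s1',
    key (c_T4 hv h0 s1 s1 s1 s0) fun y h => h.s2, key (c_T4 hv h0 s1 s0 s1 s0) fun y h => h.s2',
    fun u => key (c_T4 hv h0 s0 (fun _ => s2 u) s1 s0) fun y h => h.t4 u,
    fun u => key (c_T3 hv h0 s0 (fun _ => s2 u) s1) fun y h => h.t3 u,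
    fun u => key (c_T3 hv h0 s0 (fun _ => s2 u) s0) fun y h => h.t3' u,
    fun u => key (c_T4 hv h0 s1 (fun _ => s3 u) s1 s0) fun y h => h.q4 u,
    fun u => key (c_T3 hv h0 s1 (fun _ => s3 u) s1) fun y h => h.q3 u,
    fun u => key (c_T3 hv h0 s1 (fun _ => s3 u) s0) fun y h => h.q3' u,
    fun u => key (c_var hv h0 fun s => (c_ctr hv h0 (s2 u) s).pow 2) fun y h => h.v4 u,
    fun u => key (c_var hv h0 fun s => (c_ctr hv h0 (s3 u) s).pow 2) fun y h => h.v4' u,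
    key (hd.dotProduct hd) fun y h => h.d0,
    key ((hB.matrix_mulVec hd).dotProduct (hB.matrix_mulVec hd)) fun y h => h.e0⟩

namespace Orb

variable {o : Orb n k}

theorem c_g : Continuous o.g := by
  have : Continuous fun U : Mat k => Matrix.of U := continuous_id
  unfold g emb; fun_prop

theorem c_Wu : Continuous o.Wu := (c_g.mul continuous_const).mul c_g.matrix_transpose

theorem c_A : Continuous o.A := continuous_const.sub c_Wu

theorem c_w : Cn o.w := fun _ => continuous_const.mul (Real.continuous_exp.comp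
  ((continuous_const.dotProduct (c_Wu.matrix_mulVec continuous_const)).div_const 2))

theorem c_C : Continuous o.C := c_covMat c_w wt fun _ _ => continuous_const

theorem c_d : Continuous o.d :=
  (c_meanV (ψ := fun _ => sv) (c_w (o := o)) wt fun _ _ => continuous_const).sub continuous_const

theorem isClosed_G : IsClosed (o.G c) :=
  isCompact_SO.isClosed.inter (isClosed_APt c_w wt c_A continuous_const)

theorem measurableSet_G : MeasurableSet (o.G c) := isClosed_G.measurableSet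

theorem op2_A (h : o.Ok) {a : ℝ} (ha : Op2 (o.z • (1 : Mn n) - o.W) a) {U : Mat k} (hU : U ∈ SO k) :
    Op2 (o.A U) a := fun v => by
  rw [A, AU_eq h.iso hU, ← mulVec_mulVec, ← mulVec_mulVec, Op2.orth (emb_orth' h.iso hU)]
  exact (ha _).trans_eq (by rw [Op2.orth (by rw [transpose_transpose]; exact emb_orth h.iso hU)])

/-- every point of the orbit is crudely good -/
theorem crude_all (h : o.Ok) {a R : ℝ} (ha : Op2 (o.z • (1 : Mn n) - o.W) (a ^ 2)) (R1 : 1 ≤ R)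
    (hn : (n : ℝ) ≤ R) (han : a ^ 2 * n ≤ R) (hp : o.p ⬝ᵥ o.p ≤ n) {U : Mat k} (hU : U ∈ SO k) :
    U ∈ o.G (crude a R) := ⟨hU, APt.crude (wt U) (A_symm h U) (op2_A h ha hU) R1 hn han hp⟩

end Orb

/-! ### gradient sums -/

namespace Cs

variable (c : Cs)

def gDel (n : ℕ) : ℝ := 3 * (4 * c.N * n + 2 * (c.a1 * c.d0) + 2 * (c.e0 * c.c2))
def gAd : ℝ := 3 * (4 * c.s1 + 2 * (c.b * c.d0) + 2 * (c.e0 * c.a1))
def gDelU : ℝ := 2 * (c.lam * c.k1 + 2 * c.d0)
def gAdU : ℝ := 3 * (c.lam * c.k2 + 2 * c.e0 + 2 * (c.d0 * c.a ^ 2))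
def gC : ℝ := c.lam * c.v4
def gACA : ℝ := 3 * (c.lam * c.v4' + 8 * (c.k2 * c.k2) + 8 * (c.k2 * c.k1 * c.a ^ 2))
def gPhi : ℝ := 3 * (4 * (c.b * c.a1) + 3 * (4 * c.s2 + 2 * (c.a ^ 2 * c.s1 * c.d0) + 2 * (c.e0 * c.s1)))
def gX1 : ℝ :=
  3 * (2 * (c.b * c.c2) + 2 * (c.a1 * c.a1) + 3 * (4 * c.s2' + 2 * (c.s1 * c.d0) + 2 * (c.e0 * c.s1')))
def gPhiU : ℝ := 2 * (c.lam * c.N' + 32 * (2 * (c.k2 * c.k2 + c.a ^ 2) + c.a ^ 2 * (c.k2 * c.k1)))
def gX1U : ℝ := 2 * (c.lam * c.N + 16 * (2 * (c.k2 * c.k1) + c.k1 * c.k1 * c.a ^ 2 + 1))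
def gCx : ℝ := 3 * (2 * (c.a1 * (c.k1 * c.k1)) + 2 * (2 * (c.k2 * c.k1 + 1) * c.c2) +
  3 * (4 * c.t4 + 2 * (c.t3 * c.d0) + 2 * (c.e0 * c.t3')))
def gPhiO : ℝ := 3 * (2 * (c.b * (2 * (c.k2 * c.k1 + 1))) + 2 * (2 * (c.k2 * c.k2 + c.a ^ 2) * c.a1) +
  3 * (4 * c.q4 + 2 * (c.q3 * c.d0) + 2 * (c.e0 * c.q3')))
/-- the squared gradient of `log Z` -/
def gZ : ℝ := 8 * c.a1 + 8 * (c.e0 * c.d0)

end Cs

namespace APt

variable {κ : Type*} [Fintype κ] {θ : κ → Mn n} (h : APt c w A p) (hc : c.Nn) (hw : Wt w) (hA : Aᵀ = A)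
  (hθ : Fam θ)
include h

theorem nb : NB w sv A c.N := fun θ _ => h.N θ

include hA in
theorem a1' : fr (covMat w sv * A - 1) ≤ c.a1 := by
  rw [← fr_transpose, transpose_sub, transpose_mul, hA, covMat_transpose, transpose_one]; exact h.a1

theorem s1A : T3 w (fA A sv) (fA A sv) (fA A sv) ≤ c.a ^ 2 * c.s1 :=
  (T3_lin (φ := sv) (A := A) (fun v => by
    have := h.a v
    simp only [dotProduct, ← sq] at this ⊢
    exact this) fun _ _ => rfl).trans
    (mul_le_mul_of_nonneg_left h.s1 (sq_nonneg _))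

include hc

theorem lam_le : Lam w sv p A c.N c.k1 c.k2 ≤ c.lam := by
  have := hc.k1; have := hc.k2
  unfold Lam Cs.lam
  gcongr
  exacts [h.d0, h.e0]

theorem rb_le {I J : Type*} [Fintype I] [Fintype J] {α : Cube n → I → ℝ} {β : Cube n → J → ℝ} {x y z : ℝ}
    (h4 : T4 w α β (fA A sv) sv ≤ x) (h3 : T3 w α β (fA A sv) ≤ y) (h3' : T3 w α β sv ≤ z) :
    RB w sv p A α β ≤ 3 * (4 * x + 2 * (y * c.d0) + 2 * (c.e0 * z)) := by
  have b1 := mul_le_mul h3 h.d0 (dot_self_nonneg _) (T3_nonneg.trans h3)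
  have b2 := mul_le_mul h.e0 h3' T3_nonneg hc.e0
  unfold RB; linarith

include hw hA hθ

theorem gDel : ∑ i, ∑ a, dDel w sv p A (θ a) i ^ 2 ≤ c.gDel n := by
  refine (hθ.dDel_total hw hA hc.N h.nb).trans ?_
  have b0 : (covMat w sv).trace ≤ n := by
    refine (Finset.sum_le_sum fun i _ => (?_ : _ ≤ (1 : ℝ))).trans (by simp)
    exact ((var_eq_cov w _).symm.trans_le (hw.var_le_mean _ 0)).trans
      (hw.mean_le fun x => by rw [sub_zero]; exact (spin_sq _).le)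
  have b1 := mul_le_mul h.a1 h.d0 (dot_self_nonneg _) hc.a1
  have b2 := mul_le_mul h.e0 h.c2 fr_nonneg hc.e0
  have b3 := mul_le_mul_of_nonneg_left b0 hc.N
  unfold Cs.gDel; linarith

theorem gAd : ∑ i, ∑ a, dAd w sv p A (θ a) i ^ 2 ≤ c.gAd := by
  refine (hθ.dAd_total hw hA).trans ?_
  have b1 := mul_le_mul h.b h.d0 (dot_self_nonneg _) hc.b
  have b2 := mul_le_mul h.e0 (h.a1' hA) fr_nonneg hc.e0
  unfold Cs.gAd; linarith [h.s1]

theorem gDelU (v : Vn n) : ∑ a, (v ⬝ᵥ dDel w sv p A (θ a)) ^ 2 ≤ c.gDelU * (v ⬝ᵥ v) := by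
  refine (hθ.dDel_dir hw hA hc.N h.nb hc.k1 h.k1 hc.k2 h.k2 v).trans
    (mul_le_mul_of_nonneg_right ?_ (dot_self_nonneg v))
  have b1 := mul_le_mul_of_nonneg_right (h.lam_le hc) hc.k1
  unfold Cs.gDelU; linarith [h.d0]

theorem gAdU (v : Vn n) : ∑ a, (v ⬝ᵥ dAd w sv p A (θ a)) ^ 2 ≤ c.gAdU * (v ⬝ᵥ v) := by
  refine (hθ.dAd_dir hw hA hc.N h.nb hc.k1 h.k1 hc.k2 h.k2 v).trans ?_
  have b1 := mul_le_mul_of_nonneg_right (mul_le_mul_of_nonneg_right (h.lam_le hc) hc.k2) (dot_self_nonneg v)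
  have b2 := mul_le_mul_of_nonneg_left h.e0 (dot_self_nonneg v)
  have b3 := mul_le_mul h.d0 (h.a v) (dot_self_nonneg _) hc.d0
  unfold Cs.gAdU; linarith

theorem gC (v : Vn n) (hv : v ⬝ᵥ v = 1) : ∑ a, (v ⬝ᵥ c3 w sv (hq A (θ a) p sv) *ᵥ v) ^ 2 ≤ c.gC := by
  refine (hθ.c3_dir hw hA hc.N h.nb hc.k1 h.k1 hc.k2 h.k2 v).trans
    (mul_le_mul (h.lam_le hc) ?_ (hw.var_nonneg _) hc.lam)
  simpa only [hv, one_pow, mul_one] using h.v4 v

theorem gACA (v : Vn n) (hv : v ⬝ᵥ v = 1) :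
    ∑ a, (v ⬝ᵥ (dPhi w sv p A (θ a) + (θ a * A - A * θ a)) *ᵥ v) ^ 2 ≤ c.gACA := by
  refine (hθ.dACA_dir hw hA hc.N h.nb hc.k1 h.k1 hc.k2 h.k2 v).trans ?_
  have b0 := h.v4' v
  have b2 := op2_ACA hw hA hc.k2 h.k2 v
  have b3 := mul_le_mul (op2_CA hw hA hc.k1 h.k1 h.k2 v) (h.a v) (dot_self_nonneg _)
    (mul_nonneg (mul_nonneg hc.k2 hc.k1) (dot_self_nonneg v))
  rw [hv] at b0 b2 b3 ⊢
  have b1 := mul_le_mul (h.lam_le hc) b0 (hw.var_nonneg _) hc.lam
  unfold Cs.gACA; linarith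

theorem gPhi : ∑ a, fr (dPhi w sv p A (θ a)) ≤ c.gPhi := by
  refine (hθ.dPhi_fr hw hA).trans ?_
  have b1 := mul_le_mul h.b (h.a1' hA) fr_nonneg hc.b
  have b2 := h.rb_le hc h.s2 h.s1A h.s1
  unfold Cs.gPhi; linarith

theorem gX1 : ∑ a, fr (dX1 w sv p A (θ a)) ≤ c.gX1 := by
  refine (hθ.dX1_fr hw hA).trans ?_
  have b1 := mul_le_mul h.b h.c2 fr_nonneg hc.b
  have b2 := mul_le_mul h.a1 (h.a1' hA) fr_nonneg hc.a1
  have b3 := h.rb_le hc h.s2' (T3_comm'.trans_le h.s1) h.s1'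
  unfold Cs.gX1; linarith

theorem gPhiU (V : Mn n) : ∑ a, ipF V (dPhi w sv p A (θ a)) ^ 2 ≤ c.gPhiU * fr V := by
  refine (hθ.dPhi_dir hw hA hc.N h.nb hc.k1 h.k1 hc.k2 h.k2 (sq_nonneg _) h.a V).trans ?_
  have b1 := mul_le_mul (h.lam_le hc) (h.N' V) (hw.var_nonneg _) hc.lam
  unfold Cs.gPhiU; linarith

theorem gX1U (V : Mn n) : ∑ a, ipF V (dX1 w sv p A (θ a)) ^ 2 ≤ c.gX1U * fr V := by
  refine (hθ.dX1_dir hw hA hc.N h.nb hc.k1 h.k1 hc.k2 h.k2 h.a V).trans ?_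
  have b1 := mul_le_mul (h.lam_le hc) (h.N V) (hw.var_nonneg _) hc.lam
  unfold Cs.gX1U; linarith

theorem gCx (v : Vn n) : ∑ a, dCx w sv p A (θ a) *ᵥ v ⬝ᵥ dCx w sv p A (θ a) *ᵥ v ≤ c.gCx * (v ⬝ᵥ v) := by
  refine (hθ.dCx_op hw hA v).trans ?_
  have := hc.k1; have := hc.k2; have := dot_self_nonneg v
  have b1 := mul_le_mul h.a1 (op2_C hw hc.k1 h.k1 v) (dot_self_nonneg _) hc.a1
  have b2 := mul_le_mul (((op2_AC hw h.k1 hc.k2 h.k2).sub Op2.one) v) h.c2 fr_nonneg (by positivity)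
  have b3 := h.rb_le hc (h.t4 v) (h.t3 v) (h.t3' v)
  unfold Cs.gCx; linarith

theorem gPhiO (v : Vn n) :
    ∑ a, dPhi w sv p A (θ a) *ᵥ v ⬝ᵥ dPhi w sv p A (θ a) *ᵥ v ≤ c.gPhiO * (v ⬝ᵥ v) := by
  refine (hθ.dPhi_op hw hA v).trans ?_
  have := hc.k1; have := hc.k2; have := dot_self_nonneg v
  have b1 := mul_le_mul h.b (((op2_CA hw hA hc.k1 h.k1 h.k2).sub Op2.one) v) (dot_self_nonneg _) hc.b
  have b2 := mul_le_mul (((op2_ACA hw hA hc.k2 h.k2).sub h.a) v) (h.a1' hA) fr_nonneg (by positivity)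
  have b3 := h.rb_le hc (h.q4 v) (h.q3 v) (h.q3' v)
  unfold Cs.gPhiO; linarith

end APt

/-! ### the orbit forms in the `x`-frame -/

namespace Orb

variable {o : Orb n k} {U : Mat k} (h : o.Ok) (hc : c.Nn) (hU : U ∈ o.G c)
include h hc hU

/-- for `vec_var`, `vec_med` with `rd_delx` -/
theorem gDelx : ∑ i, ∑ a, ((o.g U)ᵀ *ᵥ dDel (o.w U) sv o.p (o.A U) (o.th a U)) i ^ 2 ≤ c.gDel n := by
  refine le_of_eq_of_le ?_ (hU.2.gDel hc (wt U) (A_symm h U) (fam h hU.1))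
  rw [Finset.sum_comm, Finset.sum_comm (s := (Finset.univ : Finset (Fin n)))]
  refine Finset.sum_congr rfl fun a _ => ?_
  simpa only [dotProduct, ← sq] using Op2.orth (G := (o.g U)ᵀ)
    (by rw [transpose_transpose]; exact emb_orth h.iso hU.1) (dDel (o.w U) sv o.p (o.A U) (o.th a U))

/-- for `vec_hd` with `rd_delx` -/
theorem gDelxU (v : Vn n) :
    ∑ a, (v ⬝ᵥ (o.g U)ᵀ *ᵥ dDel (o.w U) sv o.p (o.A U) (o.th a U)) ^ 2 ≤ c.gDelU * (v ⬝ᵥ v) := by
  simp only [dot_tp]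
  exact (hU.2.gDelU hc (wt U) (A_symm h U) (fam h hU.1) _).trans_eq
    (by rw [Op2.orth (emb_orth' h.iso hU.1)])

/-- for `mm_op` with `rd_Cx` -/
theorem gCxx (v : Vn n) : ∑ a, ((o.g U)ᵀ * dCx (o.w U) sv o.p (o.A U) (o.th a U) * o.g U) *ᵥ v ⬝ᵥ
    ((o.g U)ᵀ * dCx (o.w U) sv o.p (o.A U) (o.th a U) * o.g U) *ᵥ v ≤ c.gCx * (v ⬝ᵥ v) := by
  simp only [op_conj (emb_orth h.iso hU.1)]
  exact (hU.2.gCx hc (wt U) (A_symm h U) (fam h hU.1) _).trans_eq
    (by rw [Op2.orth (emb_orth' h.iso hU.1)])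

/-- for `fr_var`, `fr_med` with `rd_X1` -/
theorem gX1x : ∑ a, fr (dX1 (o.w U) sv o.p (o.A U) (o.th a U) * o.g U) ≤ c.gX1 := by
  simp only [fr_orth_right (emb_orth h.iso hU.1)]
  exact hU.2.gX1 hc (wt U) (A_symm h U) (fam h hU.1)

/-- for `fr_hd` with `rd_X1` -/
theorem gX1xU (V : Mn n) :
    ∑ a, ipF V (dX1 (o.w U) sv o.p (o.A U) (o.th a U) * o.g U) ^ 2 ≤ c.gX1U * fr V := by
  simp only [ipF_mul_right]
  exact (hU.2.gX1U hc (wt U) (A_symm h U) (fam h hU.1) _).trans_eq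
    (by rw [fr_orth_right (by rw [transpose_transpose]; exact emb_orth' h.iso hU.1)])

end Orb

/-! ### (T2) and the bridge -/

section Bridge

variable {ν : Measure (Mat k)} [IsProbabilityMeasure ν] (hν : ∀ᵐ U ∂ν, U ∈ SO k)
include hν

theorem int_of {f : Mat k → ℝ} (hf : ContinuousOn f (SO k)) : Integrable f ν := by
  obtain ⟨K, hK⟩ := isCompact_SO.exists_bound_of_continuousOn hf
  refine Integrable.of_bound ?_ K (hν.mono hK)
  rw [← Measure.restrict_eq_self_of_ae_mem hν]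
  exact hf.aestronglyMeasurable isClosed_SO.measurableSet

/-- no measurability of the bad set is needed -/
theorem int_le_bad {f : Mat k → ℝ} (hf : ContinuousOn f (SO k)) {B M : ℝ} (B0 : 0 ≤ B) (T : Set (Mat k))
    (hG : ∀ U ∈ SO k, U ∉ T → f U ≤ B) (hM : ∀ U ∈ SO k, f U ≤ M) :
    ∫ U, f U ∂ν ≤ B + M * ν.real T := by
  have hm := measurableSet_toMeasurable ν T
  have h1 : ∫ U, f U ∂ν ≤ ∫ U, (B + (toMeasurable ν T).indicator (fun _ => M) U) ∂ν := by
    refine integral_mono_ae (int_of hν hf) ((integrable_const _).add ((integrable_const _).indicator hm)) ?_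
    filter_upwards [hν] with U hU
    by_cases h : U ∈ toMeasurable ν T
    · simpa [h] using (hM U hU).trans (le_add_of_nonneg_left B0)
    · simpa [h] using hG U hU fun h' => h (subset_toMeasurable ν T h')
  rw [integral_add (integrable_const _) ((integrable_const _).indicator hm),
    integral_indicator_const _ hm, measureReal_def ν (toMeasurable ν T), measure_toMeasurable] at h1
  simpa [mul_comm, measureReal_def] using h1

/-- **bridge**, vectors: concentration around `x0` under `ν` locates the `ν`-mean -/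
theorem ev_near {κ : Type*} [Fintype κ] {x : Mat k → κ → ℝ} (hx : ∀ i, ContinuousOn (fun U => x U i) (SO k))
    (x0 : κ → ℝ) {r M : ℝ} (r0 : 0 ≤ r) (hM : ∀ U ∈ SO k, ∑ i, (x U i - x0 i) ^ 2 ≤ M) :
    ∑ i, (EV ν x i - x0 i) ^ 2 ≤ r + M * ν.real {U | r < ∑ i, (x U i - x0 i) ^ 2} := by
  have hc : ∀ i, ContinuousOn (fun U => (x U i - x0 i) ^ 2) (SO k) := fun i =>
    ((hx i).sub continuousOn_const).pow 2
  refine le_trans ?_ (int_le_bad hν (continuousOn_finsetSum _ fun i _ => hc i) r0 _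
    (fun U _ h => not_lt.1 h) hM)
  rw [integral_finsetSum _ fun i _ => int_of hν (hc i)]
  refine Finset.sum_le_sum fun i _ => ?_
  have i1 := int_of hν (hx i)
  have h1 := integral_mono (μ := ν) (f := fun U => ((EV ν x i - x0 i) ^ 2 - 2 * (EV ν x i - x0 i) * EV ν x i) +
    2 * (EV ν x i - x0 i) * x U i) ((integrable_const _).add (i1.const_mul _)) (int_of hν (hc i))
    fun U => by simp only; nlinarith [sq_nonneg (x U i - EV ν x i)]
  rw [integral_add (integrable_const _) (i1.const_mul _), integral_const_mul, integral_const, probReal_univ,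
    one_smul] at h1
  change _ + _ * EV ν x i ≤ _ at h1
  linarith

/-- **bridge**, Frobenius norm -/
theorem em_near {F : Mat k → Mn n} (hF : ∀ i j, ContinuousOn (fun U => F U i j) (SO k)) (F0 : Mn n)
    {r M : ℝ} (r0 : 0 ≤ r) (hM : ∀ U ∈ SO k, fr (F U - F0) ≤ M) :
    fr (EM ν F - F0) ≤ r + M * ν.real {U | r < fr (F U - F0)} := by
  have := ev_near hν (x := fun U (i : Fin n × Fin n) => F U i.1 i.2) (fun i => hF i.1 i.2)
    (fun i => F0 i.1 i.2) r0 (M := M) fun U hU => by rw [Fintype.sum_prod_type]; exact hM U hU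
  simp only [Fintype.sum_prod_type] at this
  exact this

theorem dot_EM {F : Mat k → Mn n} (hF : ∀ i j, ContinuousOn (fun U => F U i j) (SO k)) (u v : Vn n) :
    u ⬝ᵥ EM ν F *ᵥ v = ∫ U, u ⬝ᵥ F U *ᵥ v ∂ν := by
  simp only [dotProduct, mulVec, EM, of_apply]
  rw [integral_finsetSum _ fun i _ => (integrable_finsetSum _ fun j _ =>
    (int_of hν (hF i j)).mul_const _).const_mul _]
  refine Finset.sum_congr rfl fun i _ => ?_
  rw [integral_const_mul, integral_finsetSum _ fun j _ => (int_of hν (hF i j)).mul_const _]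
  simp only [integral_mul_const]

/-- **bridge**, operator norm -/
theorem em_near_op {F : Mat k → Mn n} (hF : ∀ i j, ContinuousOn (fun U => F U i j) (SO k)) (F0 : Mn n)
    {s M : ℝ} (s0 : 0 ≤ s) (hM : ∀ U ∈ SO k, OpLe (F U - F0) M) :
    OpLe (EM ν F - F0) (s + M * ν.real {U | ¬ OpLe (F U - F0) s}) := fun u hu => by
  have hc : ContinuousOn (fun U => u ⬝ᵥ F U *ᵥ u) (SO k) := by
    simp only [dotProduct, mulVec]
    exact continuousOn_finsetSum _ fun i _ => continuousOn_const.mul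
      (continuousOn_finsetSum _ fun j _ => (hF i j).mul continuousOn_const)
  have hc' : ContinuousOn (fun U => u ⬝ᵥ F U *ᵥ u - u ⬝ᵥ F0 *ᵥ u) (SO k) := hc.sub continuousOn_const
  have h1 := int_le_bad hν (f := fun U => |u ⬝ᵥ F U *ᵥ u - u ⬝ᵥ F0 *ᵥ u|) hc'.abs s0
    {U | ¬ OpLe (F U - F0) s}
    (fun U _ h => by simpa only [sub_mulVec, dotProduct_sub] using not_not.1 h u hu)
    (fun U hU => by simpa only [sub_mulVec, dotProduct_sub] using hM U hU u hu)
  refine le_trans ?_ (abs_integral_le_integral_abs.trans h1)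
  rw [integral_sub (int_of hν hc) (integrable_const _), integral_const, probReal_univ, one_smul,
    sub_mulVec, dotProduct_sub, dot_EM hν hF]

end Bridge

namespace Orb

variable {o : Orb n k} {μ : Measure (Mat k)} [IsProbabilityMeasure μ] (hμ : SOInv μ) (h : o.Ok) (hc : c.Nn)
include hμ h hc

theorem t2 : T2H μ (o.u μ) (o.G c) √c.gZ (c.a * (c.k1 + c.d0)) :=
  t2H hμ h.iso h.symm wt0 o.z hc.a (add_nonneg hc.k1 hc.d0) (Real.sqrt_nonneg _) fun U _ hU =>
    ⟨hU.2.a, fun v => (sm2_le hU.2.k1 v).trans (mul_le_mul_of_nonneg_right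
      (add_le_add le_rfl hU.2.d0) (dot_self_nonneg v)), (fr_comm_sm2 (A_symm h U)).trans (by
        have b1 := mul_le_mul hU.2.e0 hU.2.d0 (dot_self_nonneg _) hc.e0
        have b2 := hU.2.a1
        have b3 : 0 ≤ c.gZ := by
          have := hc.a1; have := hc.e0; have := hc.d0
          unfold Cs.gZ; positivity
        rw [Real.sq_sqrt b3, Cs.gZ]; linarith)⟩

variable {r v v1 : ℝ} (hb : c.a * (c.k1 + c.d0) ≤ ((k : ℝ) - 2) / 128) (r0 : 0 ≤ r)
  (hv : 1 + (r * √c.gZ / 2 + c.a * (c.k1 + c.d0) * r ^ 2) ≤ v)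
  (hv1 : 1 + 48 * √c.gZ ^ 2 / ((k : ℝ) - 2) ≤ v1)
include hb r0 hv hv1

/-- **(T2)**: `Pt_o(T) ≤ e^v Hr(T) + …` -/
theorem P_le (T : Set (Mat k)) : (o.P μ).real T ≤ Real.exp v * μ.real T +
    (2 * Real.exp (v1 - ((k : ℝ) - 2) * r ^ 2 / 16) + 4 * Real.exp (4 - 2 * v1)) +
      (o.P μ).real (o.G c)ᶜ := by
  have := P_prob hμ h
  have h1 : (o.P μ).real T ≤ (o.P μ).real (T ∩ o.G c ∪ (o.G c)ᶜ) := measureReal_mono fun U hU =>
    (em (U ∈ o.G c)).imp (fun h => ⟨hU, h⟩) id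
  have h2 := measureReal_union_le (μ := o.P μ) (T ∩ o.G c) (o.G c)ᶜ
  have h3 := (t2 hμ h hc).tilt_le h.two hb r0 hv hv1 T
  rw [← P_real hμ h] at h3
  linarith

/-- **(T2)**: `Hr(T) ≤ e^v Pt_o(T) + …` when `Pt_o(Gᶜ) ≤ 1/2` -/
theorem le_P (h5 : 5 ≤ v1) (hG : (o.P μ).real (o.G c)ᶜ ≤ 1 / 2) (T : Set (Mat k)) :
    μ.real T ≤ Real.exp v * (o.P μ).real T + 10 * Real.exp (v1 - ((k : ℝ) - 2) * r ^ 2 / 16) := by
  have := P_prob hμ h
  have h1 := measureReal_add_measureReal_compl (μ := o.P μ) (measurableSet_G (o := o) (c := c))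
  rw [probReal_univ, P_real hμ h] at h1
  rw [P_real hμ h]
  exact (t2 hμ h hc).le_tilt h.two hb r0 hv hv1 h5 (by linarith) T

end Orb

end Crest.Agent.T157.Oo
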