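import Crest.Agent.T157.O6Def_61
import Crest.Agent.T157.OoA_9

set_option autoImplicit false

/-!
Row 157, A2, section 6 (helper73): change of the spectral parameter (`O6.ConvStmt`).
-/

noncomputable section

namespace Crest.Agent.T157.O6

open MeasureTheory Matrix Crest.Agent.Lib.OrthPoinc Filter Topology Set
open Crest.Agent.T157.Oc Crest.Agent.T157.E Crest.Agent.T157.SL Crest.Agent.T157.Ks
open Crest.Agent.T157.Od Crest.Agent.T157.Oo

namespace V73

variable {n : ℕ}

theorem fr_two (M N : Mn n) (ζ : ℝ) : fr (M - ζ • N) ≤ 2 * fr M + 2 * (ζ ^ 2 * fr N) := by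
  simp only [fr, Finset.mul_sum, ← Finset.sum_add_distrib]
  refine Finset.sum_le_sum fun i _ => Finset.sum_le_sum fun j _ => ?_
  simp only [Matrix.sub_apply, Matrix.smul_apply, smul_eq_mul]
  nlinarith [sq_nonneg (M i j + ζ * N i j)]

theorem fr_three (M N P : Mn n) : fr (M + N + P) ≤ 3 * (fr M + fr N + fr P) := by
  simp only [fr, Finset.mul_sum, ← Finset.sum_add_distrib]
  refine Finset.sum_le_sum fun i _ => Finset.sum_le_sum fun j _ => ?_
  simp only [Matrix.add_apply]
  nlinarith [sq_nonneg (M i j - N i j), sq_nonneg (M i j - P i j), sq_nonneg (N i j - P i j)]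

theorem fr_smul (c : ℝ) (M : Mn n) : fr (c • M) = c ^ 2 * fr M := by
  simp only [fr, Finset.mul_sum, Matrix.smul_apply, smul_eq_mul, mul_pow]

theorem dot_three (a b c : Vn n) (ζ : ℝ) :
    (a - b - ζ • c) ⬝ᵥ (a - b - ζ • c) ≤ 3 * (a ⬝ᵥ a + b ⬝ᵥ b + ζ ^ 2 * (c ⬝ᵥ c)) := by
  simp only [dotProduct, Finset.mul_sum, ← Finset.sum_add_distrib]
  refine Finset.sum_le_sum fun i _ => ?_
  simp only [Pi.sub_apply, Pi.smul_apply, smul_eq_mul]
  nlinarith [sq_nonneg (a i + b i), sq_nonneg (a i + ζ * c i), sq_nonneg (b i - ζ * c i)]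

theorem main : ConvStmt := by
  intro n w A p y ζ hw hA
  have hC := covMat_transpose w (sv : Cube n → Fin n → ℝ)
  refine ⟨fun k1 k2 c1 c2 => CB_iff.2 fun v => ?_, ?_, ?_, ?_, ?_, (fr_AC hA _).symm,
    (fr_ACA hA _).symm⟩
  · have e : (fun x : Cube n => v ⬝ᵥ fA (A - ζ • (1 : Mn n)) sv x) =
        fun x => v ⬝ᵥ fA A sv x + ((-ζ) • v) ⬝ᵥ sv x := by
      funext x
      simp only [fA, sub_mulVec, smul_mulVec, one_mulVec, dotProduct_sub, dotProduct_smul,
        smul_dotProduct, smul_eq_mul]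
      ring
    have h1 := var_add_le hw (fun x => v ⬝ᵥ fA A sv x) (fun x => ((-ζ) • v) ⬝ᵥ sv x) one_pos
    have h2 := c2.var_le v
    have h3 := c1.var_le ((-ζ) • v)
    have h4 : ((-ζ) • v) ⬝ᵥ ((-ζ) • v) = ζ ^ 2 * (v ⬝ᵥ v) := by
      simp only [smul_dotProduct, dotProduct_smul, smul_eq_mul]; ring
    rw [h4] at h3
    rw [e]
    simp only [inv_one] at h1
    linarith
  · have e : (A - ζ • (1 : Mn n)) * covMat w sv - 1 = (A * covMat w sv - 1) - ζ • covMat w sv := by
      rw [Matrix.sub_mul, Matrix.smul_mul, Matrix.one_mul]; abel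
    rw [e]
    exact fr_two _ _ _
  · generalize covMat w (sv : Cube n → Fin n → ℝ) = C at *
    have e : (A - ζ • (1 : Mn n)) * C * (A - ζ • (1 : Mn n)) - (A - ζ • (1 : Mn n)) =
        (A * C * A - A) + (-ζ) • ((A * C - 1) + (A * C - 1)ᵀ + 1) + (ζ ^ 2) • C := by
      simp only [transpose_sub, transpose_mul, transpose_one, hA, hC, Matrix.sub_mul,
        Matrix.mul_sub, Matrix.smul_mul, Matrix.mul_smul, Matrix.one_mul, Matrix.mul_one]
      module
    have h1 := fr_three (A * C - 1) (A * C - 1)ᵀ 1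
    rw [fr_transpose, fr_one] at h1
    have h2 := mul_le_mul_of_nonneg_left h1 (sq_nonneg ζ)
    rw [e]
    refine (fr_three _ _ _).trans ?_
    have h4 : (ζ ^ 2) ^ 2 = ζ ^ 4 := by ring
    rw [fr_smul, fr_smul, neg_sq, h4]
    linarith
  · have e : (A - ζ • (1 : Mn n)) *ᵥ meanV w sv - y =
        A *ᵥ (meanV w sv - p) - (y - A *ᵥ p) - ζ • meanV w sv := by
      rw [sub_mulVec, smul_mulVec, one_mulVec, mulVec_sub]; abel
    rw [e]
    exact dot_three _ _ _ _
  · generalize meanV w (sv : Cube n → Fin n → ℝ) = m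
    simp only [dotProduct, Finset.mul_sum, ← Finset.sum_add_distrib]
    refine Finset.sum_le_sum fun i _ => ?_
    simp only [Pi.sub_apply]
    nlinarith [sq_nonneg (m i - 2 * p i)]

end V73

theorem convStmt : ConvStmt := V73.main

end Crest.Agent.T157.O6

end
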