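import Crest.Agent.T157.OgT_9
import Crest.Agent.T157.O6v_73

set_option autoImplicit false
set_option linter.unusedSectionVars false

/-!
Row 157, A2 (helper61): `Og.convL : ConvL`, from the new bounds to `Good`.
-/

noncomputable section

namespace Crest.Agent.T157.Og

open MeasureTheory Matrix Crest.Agent.Lib.OrthPoinc Filter Topology Set
open Crest.Agent.T157.Oc Crest.Agent.T157.E Crest.Agent.T157.SL Crest.Agent.T157.Ks
open Crest.Agent.T157.Od Crest.Agent.T157.Oo Crest.Agent.T157.O6 Crest.Agent.T157.O0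

namespace Cv61

variable {n : ℕ}

/-- `‖C‖_F² ≤ κ n` -/
theorem fr_C_le {w : Cube n → ℝ} (hw : Wt w) {κ : ℝ} (κ0 : 0 ≤ κ) (h : CB w sv κ) :
    fr (covMat w sv) ≤ κ * n := by
  have h1 : ∀ j : Fin n, ∑ i, covMat w sv i j ^ 2 ≤ κ := fun j => by
    have h2 := Ba26.psd_sq (covMat_transpose w sv) (hw.covMat_quad_nonneg sv) h κ0 (Pi.single j 1)
    have h3 : Pi.single j 1 ⬝ᵥ covMat w sv *ᵥ Pi.single j 1 ≤ 1 := by
      rw [covMat_quad, ← var_eq_cov]
      refine (hw.var_le_mean _ 0).trans (hw.mean_le fun x => ?_)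
      have : sv x j ^ 2 = 1 := spin_sq _
      simp [this]
    have h4 : covMat w sv *ᵥ Pi.single j 1 ⬝ᵥ covMat w sv *ᵥ Pi.single j 1 =
        ∑ i, covMat w sv i j ^ 2 := by simp [dotProduct, sq]
    rw [h4] at h2
    exact h2.trans (mul_le_of_le_one_right κ0 h3)
  rw [fr, Finset.sum_comm]
  refine (Finset.sum_le_sum fun j _ => h1 j).trans (le_of_eq ?_)
  simp [mul_comm]

theorem op2_two {W : Mn n} (h : Op2 W 9) : Op2 ((2 : ℝ) • (1 : Mn n) - W) (5 ^ 2) := fun v => by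
  have h1 := h v
  have h2 := dot_self_nonneg ((3 : ℝ) • v + W *ᵥ v)
  simp only [sub_mulVec, smul_mulVec, one_mulVec, sub_dotProduct, dotProduct_sub, add_dotProduct,
    dotProduct_add, smul_dotProduct, dotProduct_smul, smul_eq_mul, dotProduct_comm (W *ᵥ v) v] at *
  linarith

theorem two_le_z {k : ℕ} {o : Orb n k} {x : Vn n} (h : Kp.At o x) : 2 ≤ o.z := by
  have hn : 0 < n := by have := h.dim; omega
  have h1 : 0 < Kp.chi x := by
    have : Nonempty (Fin n) := ⟨⟨0, hn⟩⟩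
    refine div_pos (Finset.sum_pos (fun i _ => ?_) Finset.univ_nonempty) (by exact_mod_cast hn)
    have := Real.tanh_sq_lt_one (x i)
    simp only [Tap.DD, Tap.th]; linarith
  rw [h.z, ← sub_nonneg, show Kp.chi x + 1 / Kp.chi x - 2 = (1 - Kp.chi x) ^ 2 / Kp.chi x by
    field_simp; ring]
  positivity

end Cv61

open Cv61 in
theorem convL : ConvL := by
  intro p t H k o x U h fx hU b1 b2 b3 b4
  have ho := fx.pt.ok
  have O := h.ord
  have t0 := h.t0
  have N0 := O.N0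
  have Cb := O.Cb
  have L1 := O.L1
  have B1 := O.B1
  have hw := Orb.wt (o := o) U
  have e : o.A U - (o.z - 2) • (1 : Mn p.n) = Oa.Az 2 (o.Wu U) := by
    rw [Orb.A, AU, sub_smul, Oa.Az]; abel
  obtain ⟨c2, c3, c4, c5, c6, -⟩ :=
    convStmt p.n (o.w U) (o.A U) o.p (o.y U) (o.z - 2) hw (Orb.A_symm ho U)
  rw [e] at c2 c3 c4 c5
  have ey : o.y U - o.A U *ᵥ o.p = -(o.z • o.p - o.h) := by
    simp only [Orb.y, Orb.A, AU, sub_mulVec, smul_mulVec, one_mulVec]; abel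
  rw [ey, neg_dotProduct, dotProduct_neg, neg_neg] at c5
  have cr : APt (crude 5 (25 * p.n)) (o.w U) (Oa.Az 2 (o.Wu U)) 0 := by
    refine APt.crude hw ?_ (fun v => ?_) (by linarith [O.N1]) (by linarith) (by norm_num) (by simp)
    · rw [← e, transpose_sub, Orb.A_symm ho U, transpose_smul, transpose_one]
    · exact Orb.op2_A (o := { o with z := 2 }) ⟨ho.iso, ho.symm, ho.ep, ho.eh, ho.two⟩
        (op2_two fx.W9) hU.1 v
  -- numbers
  have LC : p.L ^ 5 ≤ p.C := (pow_le_pow_right₀ L1 (by norm_num)).trans O.LC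
  have L4 : p.L ^ 4 ≤ p.C := (pow_le_pow_right₀ L1 (by norm_num)).trans O.LC
  have CB' : p.C ≤ p.B := O.CK.trans O.KB
  have C1 : 1 ≤ p.C := O.ok.C
  have K2 : 10 ^ 5 * p.C ≤ p.K :=
    le_trans (by nlinarith) ((pow_le_pow_right₀ C1 (by norm_num : 2 ≤ 10)).trans O.K)
  have tB : t * p.B ^ 3 ≤ 1 :=
    (mul_le_mul_of_nonneg_left (pow_le_pow_right₀ B1 (by norm_num)) t0.le).trans h.tB
  have ζ2 : (o.z - 2) ^ 2 ≤ p.B * t ^ 2 / 10 ^ 4 := by
    calc _ ≤ (p.L ^ 2 * t / 100) ^ 2 :=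
          pow_le_pow_left₀ (by linarith [two_le_z fx.pt]) (by linarith [fx.z]) 2
      _ = p.L ^ 4 * t ^ 2 / 10 ^ 4 := by ring
      _ ≤ _ := by gcongr; linarith
  have B2 : t * p.B ^ 2 ≤ 1 :=
    (mul_le_mul_of_nonneg_left (pow_le_pow_right₀ B1 (by norm_num)) t0.le).trans tB
  have ζk : (o.z - 2) ^ 2 * (2 * p.C / t) ≤ t * p.B ^ 2 / 5000 :=
    calc _ ≤ p.B * t ^ 2 / 10 ^ 4 * (2 * p.B / t) := by gcongr
      _ = _ := by field_simp; ring
  have fC : (o.z - 2) ^ 2 * fr (o.C U) ≤ t * p.B ^ 2 / 5000 * p.n :=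
    calc _ ≤ (o.z - 2) ^ 2 * (2 * p.C / t * p.n) :=
          mul_le_mul_of_nonneg_left (fr_C_le hw (by positivity) b1) (sq_nonneg _)
      _ ≤ _ := by rw [← mul_assoc]; gcongr
  have sq0 : 0 < √t := Real.sqrt_pos.2 t0
  have M0 : p.B0 ^ 4 ≤ p.M t := by
    obtain ⟨a1, a2, a3, a4, a5, -⟩ := O.ex
    refine le_trans ?_ h.M_ge
    exact (le_of_eq (one_mul _).symm).trans ((O.cstB0 (by norm_num) (by norm_num)).trans
      (O.rp_le (by linarith)))
  have g6 : meanV (o.w U) sv ⬝ᵥ meanV (o.w U) sv ≤ p.L / 10 * p.n * √t := by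
    have a1 : o.d U ⬝ᵥ o.d U ≤ p.B0 ^ 4 / t := hU.2.d0
    have a2 : p.B0 ^ 4 / t ≤ p.n * √t := by
      rw [div_le_iff₀ t0]; rw [h.M_eq] at M0; linarith
    have a3 : 100 * (p.n * √t) ≤ p.L * (p.n * √t) := by gcongr; exact O.ok.L
    have := fx.P
    have a4 : 0 ≤ p.n * √t := by positivity
    linarith
  refine Oa.Gd.congr (Oa.prob_orb ho U) ⟨b1.mono ?_, ?_, ?_, ?_, ?_, g6⟩
  · exact div_le_div_of_nonneg_right (by linarith) t0.le
  · simp only [Pm.gc]
    split_ifs with h1 h2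
    · exact (c2 _ _ b1 (b3 h1).1).mono (by linarith)
    · have := O.rp_one O.ok.k2.1.le
      exact (c2 _ _ b1 (b2 h2 (not_le.1 h1))).mono (by linarith)
    · exact cr.k2
  · simp only [Pm.gc]
    split_ifs with h1
    · have a1 : t * p.B ^ 2 ≤ t ^ (1 / 3 : ℝ) := by
        have a2 := h.tB' (a := 2 / 3) (j := 2) (by norm_num)
        have a3 : t = t ^ (1 / 3 : ℝ) * t ^ (2 / 3 : ℝ) := by
          rw [← Real.rpow_add t0]; norm_num
        calc _ = t ^ (1 / 3 : ℝ) * (t ^ (2 / 3 : ℝ) * p.B ^ 2) := by rw [← mul_assoc, ← a3]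
          _ ≤ _ := mul_le_of_le_one_right (by positivity) a2
      have a4 := mul_le_mul_of_nonneg_right a1 N0.le
      have a5 : 0 ≤ t * p.B ^ 2 * p.n := by positivity
      linarith [(b3 h1).2]
    · exact cr.a1
  · simp only [Pm.gc]
    split_ifs with h1
    · have a1 : fr (o.A U * o.C U - 1) ≤ p.B * p.n := by
        rcases le_or_gt p.tss t with h2 | h2
        · have a2 : t ^ (1 / 3 : ℝ) ≤ 1 := Real.rpow_le_one t0.le h.t1 (by norm_num)
          nlinarith [(b3 h2).2]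
        · have a2 : fr (o.A U * o.C U - 1) ≤ p.Bt t * p.n * p.al t := hU.2.a1
          rw [h.Bt_lo (h2.trans_le (O.tss_t2.trans O.t2_t0))] at a2
          exact a2.trans (mul_le_of_le_one_right (by positivity) h.al1)
      have a2 : (o.z - 2) ^ 2 * (2 * fr (o.A U * o.C U - 1) + p.n) ≤ p.n * t :=
        calc _ ≤ p.B * t ^ 2 / 10 ^ 4 * (3 * (p.B * p.n)) :=
              mul_le_mul ζ2 (by nlinarith) (by linarith [fr_nonneg (U := o.A U * o.C U - 1)])
                (by positivity)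
          _ = p.n * t * (3 * (t * p.B ^ 2) / 10 ^ 4) := by ring
          _ ≤ _ := mul_le_of_le_one_right (by positivity) (by linarith)
      have a3 : (o.z - 2) ^ 4 * fr (o.C U) ≤ p.n * t :=
        calc _ = (o.z - 2) ^ 2 * ((o.z - 2) ^ 2 * fr (o.C U)) := by ring
          _ ≤ p.B * t ^ 2 / 10 ^ 4 * (t * p.B ^ 2 / 5000 * p.n) :=
              mul_le_mul ζ2 fC (mul_nonneg (sq_nonneg _) fr_nonneg) (by positivity)
          _ = p.n * t * (t * p.B ^ 3 * t / (5 * 10 ^ 7)) := by ring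
          _ ≤ _ := mul_le_of_le_one_right (by positivity) (by nlinarith [h.t1])
      have a4 := b4 h1
      have a5 : 10 ^ 5 * p.C * (p.n * t) ≤ p.K * (p.n * t) := by gcongr
      have a6 : 1 * (p.n * t) ≤ p.C * (p.n * t) := by gcongr
      have a7 : 0 ≤ p.n * t := by positivity
      linarith
    · exact cr.b
  · rw [Oa.fld_congr (Oa.prob_orb ho U), Oa.fld_ising]
    have a1 : o.A U *ᵥ o.d U ⬝ᵥ o.A U *ᵥ o.d U ≤ p.B0 ^ 4 * p.kk t := hU.2.e0
    have a2 : p.M t ≤ p.M (max t p.ts) := by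
      unfold Pm.M; gcongr; exact le_max_left _ _
    have a3 : p.B0 ^ 4 * p.kk t ≤ p.M (max t p.ts) := by
      obtain ⟨b1, b2, b3, b4, b5, b6, b7, -⟩ := O.ex
      calc _ ≤ (p.n : ℝ) ^ p.cv * (p.n : ℝ) ^ (1 / 6 - p.d / 2) :=
            mul_le_mul ((le_of_eq (one_mul _).symm).trans (O.cstB0 (by norm_num) (by norm_num)))
              h.kk_le (by linarith [h.kk1]) (by positivity)
        _ ≤ (p.n : ℝ) ^ (1 : ℝ) * (p.n : ℝ) ^ ((p.k4 - 1 / 2) * (3 / 2)) := by
            rw [O.rp_add, O.rp_add]; exact O.rp_le (by linarith)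
        _ = p.M p.ts := by rw [Pm.M, Pm.ts, O.rp_rp, Real.rpow_one]
        _ ≤ _ := by
            have : 0 ≤ p.ts := (O.rp_pos _).le
            unfold Pm.M; gcongr; exact le_max_right _ _
    have a4 : (o.z - 2) ^ 2 * (meanV (o.w U) sv ⬝ᵥ meanV (o.w U) sv) ≤ p.M t :=
      calc _ ≤ p.B * t ^ 2 / 10 ^ 4 * (p.B / 10 * p.n * √t) :=
            mul_le_mul ζ2 (g6.trans (by gcongr; linarith [O.LC'])) (dot_self_nonneg _) (by positivity)
        _ = p.n * (t * √t) * (t * p.B ^ 2 / 10 ^ 5) := by ring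
        _ ≤ _ := by rw [h.M_eq]; exact mul_le_of_le_one_right (by positivity) (by linarith)
    have a5 := fx.Ψ
    have a6 : 0 ≤ p.M t := by rw [h.M_eq]; positivity
    have a7 : p.C * p.M t ≤ p.C * p.M (max t p.ts) := by gcongr
    have a8 : 10 ^ 5 * p.C * p.M (max t p.ts) ≤ p.K * p.M (max t p.ts) := by gcongr; linarith
    have a9 : 1 * p.M (max t p.ts) ≤ p.C * p.M (max t p.ts) := by gcongr; linarith
    simp only [Pm.gc]
    linarith

end Crest.Agent.T157.Og
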