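import Crest.Agent.T157.OgDef_9
import Crest.Agent.T157.O6v_73

set_option autoImplicit false
set_option linter.unusedSectionVars false

/-!
Row 157, A2 (helper89): the deterministic leaves `Og.ApL` and `Og.ConvL` of the orbit step.
-/

noncomputable section

namespace Crest.Agent.T157.Og

open MeasureTheory Matrix Crest.Agent.Lib.OrthPoinc Filter Topology Set
open Crest.Agent.T157.Oc Crest.Agent.T157.E Crest.Agent.T157.SL Crest.Agent.T157.Ks
open Crest.Agent.T157.Od Crest.Agent.T157.Oo Crest.Agent.T157.O6 Crest.Agent.T157.O0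
open Crest.Agent.T157.Oa (Gs Gd AQ fld Az)

namespace C89

/-- the numbers used below -/
structure Nm (p : Pm) (t : ℝ) : Prop where
  L : 100 ≤ p.L
  LC : p.L ^ 4 ≤ p.C
  C : 10 ^ 10 ≤ p.C
  K : p.C ^ 3 ≤ p.K
  KB : p.K ≤ p.B
  BB : p.B ≤ p.B0
  K0 : p.K0 ≤ p.B0
  tp : 0 < t
  t1 : t ≤ 1
  n1 : (1 : ℝ) ≤ p.n
  q : p.C ^ 3 * √t ≤ 1
  r : √t ≤ t ^ (1 / 3 : ℝ)
  M : p.M t = p.n * (t * √t)
  Mm : p.M t ≤ p.M (max t p.ts)
  B4 : p.B0 ^ 4 ≤ p.M t
  e0 : p.B0 ^ 4 * p.kk t ≤ p.M (max t p.ts)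
  kk : 1 ≤ p.kk t
  nk : 1 ≤ (p.n : ℝ) ^ p.k2
  t2 : p.t2 ≤ p.t0 / 2

variable {p : Pm} {t ε H : ℝ}

theorem M_mono (p : Pm) {s t : ℝ} (h0 : 0 ≤ s) (h : s ≤ t) : p.M s ≤ p.M t :=
  mul_le_mul_of_nonneg_left (Real.rpow_le_rpow h0 h (by norm_num)) (Nat.cast_nonneg _)

theorem M_rpow (p : Pm) (hn : (0 : ℝ) < p.n) (a : ℝ) :
    p.M ((p.n : ℝ) ^ a) = (p.n : ℝ) ^ (1 + a * (3 / 2)) := by
  rw [Pm.M, ← Real.rpow_mul hn.le, Real.rpow_add hn, Real.rpow_one]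

theorem nm (h : LH p t ε H) : Nm p t := by
  have o := h.ord
  have k := o.ok
  have L1 : (1 : ℝ) ≤ p.L := by linarith [k.L]
  have L10 : (1 : ℝ) ≤ p.L ^ 10 := one_le_pow₀ L1
  have C10 : (10 : ℝ) ^ 10 ≤ p.C := by linarith [o.C]
  have C1 := k.C
  have K3 : p.C ^ 3 ≤ p.K := (pow_le_pow_right₀ C1 (by norm_num)).trans o.K
  have B1 : 1 ≤ p.B := k.K.trans k.B
  have B01 : 1 ≤ p.B0 := B1.trans k.B0
  have B21 : 1 ≤ p.B2 := B01.trans k.B2
  have lg1 : 1 ≤ Real.log p.n := (one_le_pow₀ B21).trans o.n1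
  have n1 : (1 : ℝ) ≤ p.n := by
    by_contra hc
    linarith [Real.log_nonpos (Nat.cast_nonneg p.n) (not_le.1 hc).le]
  have n0 : (0 : ℝ) < p.n := by linarith
  have elo : p.lo = (p.n : ℝ) ^ (p.d - 2 / 3) := by rw [Pm.lo, Real.rpow_sub n0]
  have lo0 : 0 < p.lo := elo ▸ Real.rpow_pos_of_pos n0 _
  have tp : 0 < t := lo0.trans_le h.lo
  have t1 : t ≤ 1 := by linarith [h.hi, k.t0.2]
  have A1 : (1 : ℝ) ≤ p.A := by exact_mod_cast k.A
  have cv : p.cv ≤ p.k3 / 100 := le_trans (le_mul_of_one_le_left k.cv.le A1) k.cv'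
  have B4 : p.B0 ^ 4 ≤ (p.n : ℝ) ^ p.cv :=
    calc p.B0 ^ 4 ≤ p.B2 ^ 4 := pow_le_pow_left₀ (by linarith) k.B2 4
      _ ≤ p.B2 ^ 100 := pow_le_pow_right₀ B21 (by norm_num)
      _ ≤ Real.log p.n := o.n1
      _ ≤ Real.log p.n ^ 100 := le_self_pow₀ lg1 (by norm_num)
      _ ≤ _ := o.n3
  obtain ⟨a1, a2⟩ := k.ch
  obtain ⟨a3, a4⟩ := k.d
  obtain ⟨a5, a6⟩ := k.k4
  obtain ⟨a7, a8⟩ := k.k2
  obtain ⟨a9, a10⟩ := k.k3
  have nk : 1 ≤ (p.n : ℝ) ^ p.k2 := Real.one_le_rpow n1 a7.le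
  have kk5 : p.kk t ≤ (p.n : ℝ) ^ (1 / 5 : ℝ) := by
    unfold Pm.kk
    split_ifs
    · exact Real.one_le_rpow n1 (by norm_num)
    · have b1 : p.ts / t ≤ (p.n : ℝ) ^ (1 / 6 : ℝ) := by
        refine (div_le_div_of_nonneg_left (Real.rpow_nonneg n0.le _) lo0 h.lo).trans ?_
        rw [elo, ← Real.rpow_sub n0]
        exact Real.rpow_le_rpow_of_exponent_le n1 (by linarith)
      have b2 : max 1 (p.ts / t) ≤ (p.n : ℝ) ^ (1 / 6 : ℝ) :=
        max_le (Real.one_le_rpow n1 (by norm_num)) b1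
      refine (mul_le_mul_of_nonneg_left (Real.rpow_le_rpow (by positivity) b2 (by linarith))
        (by linarith)).trans ?_
      rw [← Real.rpow_mul n0.le, ← Real.rpow_add n0]
      exact Real.rpow_le_rpow_of_exponent_le n1 (by linarith)
  have kk1 : 1 ≤ p.kk t := by
    unfold Pm.kk
    split_ifs
    · exact le_rfl
    · exact one_le_mul_of_one_le_of_one_le nk (Real.one_le_rpow (le_max_left _ _) (by linarith))
  refine ⟨k.L, ?_, C10, K3, k.B, k.B0, k.B0', tp, t1, n1, ?_, ?_, ?_, M_mono p tp.le (le_max_left _ _),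
    ?_, ?_, kk1, nk, ?_⟩
  · have : p.L ^ 4 ≤ p.L ^ 10 := pow_le_pow_right₀ L1 (by norm_num)
    linarith [o.C]
  · have b1 : (p.C ^ 3) ^ 2 ≤ p.B ^ 1000 :=
      (pow_le_pow_left₀ (by positivity) (K3.trans k.B) 2).trans (pow_le_pow_right₀ B1 (by norm_num))
    have b2 : (p.C ^ 3 * √t) ^ 2 ≤ 1 := by
      rw [mul_pow, Real.sq_sqrt tp.le, mul_comm]
      exact (mul_le_mul h.hi b1 (by positivity) k.t0.1.le).trans o.t0
    exact (sq_le_one_iff₀ (by positivity)).1 b2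
  · rw [Real.sqrt_eq_rpow]
    exact Real.rpow_le_rpow_of_exponent_ge tp t1 (by norm_num)
  · rw [Pm.M, Real.sqrt_eq_rpow, show (3 / 2 : ℝ) = 1 + 1 / 2 by norm_num, Real.rpow_add tp,
      Real.rpow_one]
  · refine B4.trans (le_trans ?_ (M_mono p lo0.le h.lo))
    rw [elo, M_rpow p n0]
    exact Real.rpow_le_rpow_of_exponent_le n1 (by linarith)
  · refine (mul_le_mul B4 kk5 (by linarith) (by positivity)).trans
      (le_trans ?_ (M_mono p (Real.rpow_nonneg n0.le _) (le_max_right t p.ts)))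
    rw [M_rpow p n0, ← Real.rpow_add n0]
    exact Real.rpow_le_rpow_of_exponent_le n1 (by linarith)
  · have t0 := k.t0.1
    have b1 : p.ef / (2 * p.L) ≤ (p.t0 / 2) ^ (2 : ℝ) := by
      rw [Real.rpow_two, div_le_iff₀ (by linarith)]
      nlinarith [k.ef', k.L, sq_nonneg p.t0]
    refine (Real.rpow_le_rpow (div_nonneg k.ef.le (by linarith)) b1 (by norm_num)).trans ?_
    rw [← Real.rpow_mul (by linarith)]
    refine (Real.rpow_le_rpow_of_exponent_ge (z := 1) (by linarith) (by linarith [k.t0.2])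
      (by norm_num)).trans_eq (Real.rpow_one _)

variable {n k : ℕ}

theorem two_le {o : Orb n k} {x : Vn n} (h : Kp.At o x) : 2 ≤ o.z := by
  have hn : 0 < n := by have := h.dim; omega
  have : Nonempty (Fin n) := ⟨⟨0, hn⟩⟩
  have c0 : 0 < Kp.chi x := div_pos (Finset.sum_pos (fun i _ => sub_pos.2 (Real.tanh_sq_lt_one _))
    Finset.univ_nonempty) (by exact_mod_cast hn)
  rw [h.z, ← sub_nonneg, show Kp.chi x + 1 / Kp.chi x - 2 = (Kp.chi x - 1) ^ 2 / Kp.chi x by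
    field_simp; ring]
  positivity

/-- `|C|_F² ≤ κ n` -/
theorem fr_C {w : Cube n → ℝ} (hw : Wt w) {κ : ℝ} (k0 : 0 ≤ κ) (h : CB w sv κ) :
    fr (covMat w sv) ≤ κ * n := by
  rw [← sum_single_dot]
  refine (Finset.sum_le_sum fun i _ => (Ba26.psd_sq (covMat_transpose w sv) (hw.covMat_quad_nonneg _)
    h k0 _).trans (mul_le_mul_of_nonneg_left (c := 1) ?_ k0)).trans_eq (by simp [mul_comm])
  rw [covMat_quad, ← var_eq_cov]
  refine (hw.var_le_mean _ 0).trans (hw.mean_le fun s => ?_)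
  rw [single_dot, sub_zero]
  exact (spin_sq _).le

theorem op25 {W : Mn n} (h : Op2 W 9) : Op2 (Az 2 W) (5 ^ 2) := fun v => by
  have h1 := h v
  have h2 := dot_self_nonneg ((3 : ℝ) • v + W *ᵥ v)
  simp only [Az, sub_mulVec, smul_mulVec, one_mulVec, add_dotProduct, dotProduct_add, sub_dotProduct,
    dotProduct_sub, smul_dotProduct, dotProduct_smul, smul_eq_mul] at h2 ⊢
  linarith

end C89

open C89

/-- the a priori event gives the list `c0` -/
theorem apL : ApL := by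
  intro p t ε H k o x U hL hF hU hA
  obtain ⟨hq, h2, h0⟩ := hA
  have N := nm hL
  have hG := AQ.orb hF.pt.ok hU hq ⟨two_le hF.pt, hF.z⟩ hF.P hF.Ψ
  have acc : ∀ M, Acc M (o.Wu U) (ising (o.Wu U) (o.y U)) → o.d U ⬝ᵥ o.d U ≤ M := fun M h => by
    have := h x (by rw [Oa.fld_ising, Orb.y, hF.pt.h, hF.pt.p, Tap.Ymap, one_mul, Kp.chi]; abel)
    rwa [← Oa.meanV_congr (Oa.prob_orb hF.pt.ok U), ← hF.pt.p] at this
  have a36 : o.A U *ᵥ o.d U ⬝ᵥ o.A U *ᵥ o.d U ≤ 6 ^ 2 * (o.d U ⬝ᵥ o.d U) := hG.2.a _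
  have C1 : 1 ≤ p.C := by linarith [N.C]
  have CK : p.C ≤ p.K := (le_self_pow₀ C1 (by norm_num)).trans N.K
  unfold c0
  split_ifs with h1 h3
  · have eB : p.Bt t = p.B := if_pos (h1.trans_le N.t2)
    have d0 : o.d U ⬝ᵥ o.d U ≤ 2 * (p.Bt t * p.n * √t + p.L / 50 * p.n * √t) := hG.2.d0
    have e0 : o.A U *ᵥ o.d U ⬝ᵥ o.A U *ᵥ o.d U ≤ 4 * (p.Bt t * p.M (max t p.ts) +
      (p.L ^ 2 * t / 100) ^ 2 * (p.Bt t * p.n * √t)) + 2 * (p.C * p.M t) := hG.2.e0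
    rw [eB] at d0 e0
    have LB : p.L ≤ p.B := (le_self_pow₀ (by linarith [N.L]) (by norm_num)).trans
      (N.LC.trans (CK.trans N.KB))
    have nq : 0 ≤ p.n * √t := by positivity
    have M0 : 0 ≤ p.M t := by rw [N.M]; have := N.tp; positivity
    have B0 : 0 ≤ p.B := by linarith [N.L]
    have ct : p.L ^ 4 * t ≤ 1 := by
      have b1 : t ≤ √t := by
        rw [Real.le_sqrt N.tp.le N.tp.le]; nlinarith [N.tp, N.t1]
      exact (mul_le_mul (N.LC.trans (le_self_pow₀ C1 (by norm_num))) b1 N.tp.le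
        (by positivity)).trans N.q
    have b2 : (p.L ^ 2 * t / 100) ^ 2 * (p.B * p.n * √t) ≤ p.B * p.M t / 10000 := by
      rw [N.M]
      have := mul_le_mul_of_nonneg_right ct (show 0 ≤ p.B * (p.n * (t * √t)) by
        have := N.tp; positivity)
      linarith
    have b3 := mul_le_mul_of_nonneg_left N.Mm B0
    have b4 := mul_le_mul_of_nonneg_right (CK.trans N.KB) M0
    have b5 := mul_nonneg B0 M0
    refine ⟨hU, hG.2.ctr (d0.trans ?_) (e0.trans (by linarith))⟩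
    nlinarith [mul_le_mul_of_nonneg_right LB nq, mul_nonneg B0 nq]
  · have := acc _ (h2 (not_lt.1 h1))
    exact ⟨hU, hG.2.ctr this (by linarith)⟩
  · have d0 := acc _ (h0 (not_lt.1 h3))
    have B36 : 36 ≤ p.B0 := by linarith [N.C, N.KB, N.BB]
    have b1 : 36 * p.B0 ≤ p.B0 ^ 4 := by
      have : p.B0 ^ 2 ≤ p.B0 ^ 4 := pow_le_pow_right₀ (by linarith) (by norm_num)
      nlinarith
    have b2 : p.B0 ^ 4 ≤ p.B0 ^ 4 / t := le_div_self (by positivity) N.tp N.t1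
    have b3 : p.B0 ^ 4 ≤ p.B0 ^ 4 * p.kk t := le_mul_of_one_le_right (by positivity) N.kk
    exact ⟨hU, hG.2.ctr (d := p.B0 ^ 4 / t) (e := p.B0 ^ 4 * p.kk t) (by linarith [N.K0])
      (by linarith [N.K0])⟩

/-- from the new bounds to `Good` -/
theorem convL' : ConvL := by
  intro p t H k o x U hL hF hU h1 h2 h3 h4
  have N := nm hL
  have ho := hF.pt.ok
  have hw := Orb.wt (o := o) U
  obtain ⟨c2, c3, c4, c5, c6, -⟩ :=
    convStmt p.n (o.w U) (o.A U) o.p (o.y U) (o.z - 2) hw (Orb.A_symm ho U)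
  have eA : o.A U - (o.z - 2) • (1 : Mn p.n) = Az 2 (o.Wu U) := by
    simp only [Orb.A, AU, Az, sub_smul]; abel
  rw [eA] at c2 c3 c4 c5
  have tp := N.tp
  have n1 := N.n1
  have C10 := N.C
  have o' : Orb.Ok { o with z := 2 } := ⟨ho.iso, ho.symm, ho.ep, ho.eh, ho.two⟩
  have cr : APt (crude 5 (25 * p.n)) (o.w U) (Az 2 (o.Wu U)) 0 :=
    APt.crude hw (Orb.A_symm o' U) (Orb.op2_A o' (op25 hF.W9) hU.1) (by linarith) (by linarith)
      (by linarith) (by simp)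
  obtain ⟨q, hq⟩ : ∃ q, √t = q := ⟨_, rfl⟩
  have q0 : 0 < q := hq ▸ Real.sqrt_pos.2 tp
  have et : t = q * q := hq ▸ (Real.mul_self_sqrt tp.le).symm
  have q3 : p.C ^ 3 * q ≤ 1 := hq ▸ N.q
  have q2 : p.C ^ 2 * q ≤ 1 / 100 := by
    have : 100 * (p.C ^ 2 * q) ≤ p.C * (p.C ^ 2 * q) :=
      mul_le_mul_of_nonneg_right (by linarith) (by positivity)
    linarith
  have CC : 10 ^ 10 * p.C ≤ p.C ^ 2 := by nlinarith
  have C3 : 10 ^ 10 * p.C ^ 2 ≤ p.K := le_trans (by nlinarith) N.K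
  have q1 : p.C * q ≤ 1 / 100 := by nlinarith
  have q1' : q ≤ 1 := by nlinarith
  have ct : p.C ^ 2 * t ≤ 1 / 100 := by rw [et]; nlinarith
  generalize hζ : o.z - 2 = ζ at c2 c3 c4 c5
  have z2 : ζ ^ 2 ≤ p.C * t ^ 2 := by
    have b1 : ζ ^ 2 ≤ (p.L ^ 2 * t / 100) ^ 2 :=
      pow_le_pow_left₀ (by linarith [two_le hF.pt]) (by linarith [hF.z]) 2
    have b2 := mul_le_mul_of_nonneg_right N.LC (sq_nonneg t)
    have b3 : 0 ≤ p.L ^ 4 * t ^ 2 := by positivity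
    linarith
  have z1 : ζ ^ 2 ≤ 1 := z2.trans (by nlinarith [N.t1])
  have zk : ζ ^ 2 * (2 * p.C / t) ≤ 2 * (p.C ^ 2 * t) :=
    (mul_le_mul_of_nonneg_right z2 (by positivity)).trans_eq (by field_simp)
  have fC : fr (o.C U) ≤ 2 * p.C / t * p.n := fr_C hw (by positivity) h1
  have zC : ζ ^ 2 * fr (o.C U) ≤ 2 * (p.C ^ 2 * t) * p.n :=
    (mul_le_mul_of_nonneg_left fC (sq_nonneg _)).trans (by
      rw [← mul_assoc]; exact mul_le_mul_of_nonneg_right zk (by linarith))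
  have zn : ζ ^ 2 * p.n ≤ p.C * t ^ 2 * p.n := mul_le_mul_of_nonneg_right z2 (by linarith)
  change Gd (p.gc t) (o.Wu U) (ising (o.Wu U) (o.y U))
  refine Gd.congr (Oa.prob_orb ho U) ⟨h1.mono ?_, ?_, ?_, ?_, ?_, ?_⟩
  · exact div_le_div_of_nonneg_right (by linarith) tp.le
  · simp only [Pm.gc]
    split_ifs with a1 a2
    · exact (c2 _ _ h1 (h3 a1).1).mono (by linarith)
    · exact (c2 _ _ h1 (h2 a2 (not_le.1 a1))).mono (by linarith [N.nk])
    · exact cr.k2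
  · simp only [Pm.gc]
    split_ifs with a1
    · have b1 := mul_le_mul_of_nonneg_left (hq ▸ N.r) (show (0 : ℝ) ≤ p.n by linarith)
      have b2 := mul_le_mul_of_nonneg_right q2 (show 0 ≤ q * p.n by positivity)
      have b3 : p.C ^ 2 * t * p.n = p.C ^ 2 * q * (q * p.n) := by rw [et]; ring
      have b4 : 0 ≤ q * p.n := by positivity
      linarith [(h3 a1).2]
    · exact cr.a1
  · simp only [Pm.gc]
    split_ifs with a1
    · have b1 : fr (o.A U * o.C U) ≤ 6 ^ 2 * fr (o.C U) := Op2.fr_left hU.2.a _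
      have b2 := fr_sub_le (o.A U * o.C U) 1
      rw [fr_one] at b2
      have b3 : ζ ^ 2 * (2 * fr (o.A U * o.C U - 1) + p.n) ≤ ζ ^ 2 * (144 * fr (o.C U) + 5 * p.n) :=
        mul_le_mul_of_nonneg_left (by linarith) (sq_nonneg _)
      have b4 : ζ ^ 4 * fr (o.C U) ≤ ζ ^ 2 * fr (o.C U) :=
        mul_le_mul_of_nonneg_right (by nlinarith [sq_nonneg ζ]) fr_nonneg
      have nt : 0 ≤ p.n * t := by positivity
      have b5 : p.C * t ^ 2 * p.n ≤ p.C * (p.n * t) := by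
        have := mul_le_mul_of_nonneg_left N.t1 (show 0 ≤ p.C * (p.n * t) by positivity)
        linarith
      have b6 := mul_le_mul_of_nonneg_right CC nt
      have b7 := mul_le_mul_of_nonneg_right C3 nt
      have b8 : 0 ≤ p.C * (p.n * t) := by positivity
      linarith [h4 a1]
    · exact cr.b
  · have ef : fld (o.w U) = o.y U := (Oa.fld_congr (Oa.prob_orb ho U)).trans (Oa.fld_ising _ _)
    have ey : o.y U - o.A U *ᵥ o.p = -(o.z • o.p - o.h) := by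
      simp only [Orb.y, Orb.A, AU, sub_mulVec, smul_mulVec, one_mulVec]; abel
    rw [ey, neg_dotProduct, dotProduct_neg, neg_neg] at c5
    rw [ef]
    have e0 : o.A U *ᵥ o.d U ⬝ᵥ o.A U *ᵥ o.d U ≤ p.B0 ^ 4 * p.kk t := hU.2.e0
    have hm : meanV (o.w U) sv ⬝ᵥ meanV (o.w U) sv ≤ p.n := by
      simpa only [dotProduct, ← sq] using Oo.bd_sv.meanV_le hw
    have b1 := mul_le_mul_of_nonneg_left hm (sq_nonneg ζ)
    have M0 : 0 ≤ p.M t := by rw [N.M]; positivity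
    have b2 : p.C * t ^ 2 * p.n = p.C * q * p.M t := by rw [N.M, hq, et]; ring
    have b3 := mul_le_mul_of_nonneg_right q1 M0
    have b4 := mul_le_mul_of_nonneg_left N.Mm (show 0 ≤ p.C by linarith)
    have b5 := mul_le_mul_of_nonneg_right (show 3 * p.C + 6 ≤ p.K by linarith) (M0.trans N.Mm)
    change _ ≤ p.K * p.M (max t p.ts)
    linarith [N.e0, N.Mm, hF.Ψ]
  · have d0 : o.d U ⬝ᵥ o.d U ≤ p.B0 ^ 4 / t := hU.2.d0
    have b1 : p.B0 ^ 4 / t ≤ p.n * √t := by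
      rw [div_le_iff₀ tp]; linarith [N.B4, N.M]
    have b2 := mul_le_mul_of_nonneg_right N.L (show 0 ≤ p.n * √t by positivity)
    have b3 : 0 ≤ p.n * √t := by positivity
    change _ ≤ p.L / 10 * p.n * √t
    linarith [hF.P]

end Crest.Agent.T157.Og
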