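import Crest.Agent.T157.O6mC_17

set_option autoImplicit false
set_option linter.unusedSectionVars false

/-!
Row 157, A2 (helper26): the event `Ba26.Ev` from the weighted resolvent identity and (P), with
`C + l ≤ (12 / l0) Δ` and `|C|_F² ≤ 100 |A⁻¹|_F²`.
-/

noncomputable section

namespace Crest.Agent.T157.Ba26

open MeasureTheory Matrix Crest.Agent.Lib.OrthPoinc
open Crest.Agent.T157.Oc Crest.Agent.T157.E Crest.Agent.T157.SL Crest.Agent.T157.Ks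
open Crest.Agent.T157.Od Crest.Agent.T157.Oo Crest.Agent.T157.O6 Crest.Agent.T157.O6m

variable {n k : ℕ}

/-- `0 ≤ C ≤ c G` gives `|C|_F ≤ c |G|_F` -/
theorem fr_le_of_form {C G : Mn n} {c : ℝ} (hC : Cᵀ = C) (h0 : ∀ u, 0 ≤ u ⬝ᵥ C *ᵥ u)
    (h : ∀ u, u ⬝ᵥ C *ᵥ u ≤ c * (u ⬝ᵥ G *ᵥ u)) : fr C ≤ c ^ 2 * fr G := by
  have hp : C.PosSemidef := PosSemidef.of_dotProduct_mulVec_nonneg (by
    rw [IsHermitian, conjTranspose_eq_transpose_of_trivial, hC]) fun x => by simpa using h0 x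
  obtain ⟨m, v, hv⟩ := posSemidef_iff_eq_sum_vecMulVec.1 hp
  have key : ∀ X : Mn n, ∑ j, ∑ l, C j l * X j l = ∑ i, v i ⬝ᵥ X *ᵥ v i := fun X => by
    simp only [hv, Matrix.sum_apply, vecMulVec_apply, Finset.sum_mul, dotProduct, mulVec,
      Finset.mul_sum, Pi.star_apply, star_trivial]
    rw [Finset.sum_comm (γ := Fin m)]
    refine Finset.sum_congr rfl fun j _ => ?_
    rw [Finset.sum_comm]
    exact Finset.sum_congr rfl fun _ _ => Finset.sum_congr rfl fun _ _ => by ring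
  have h1 : fr C ≤ c * ∑ j, ∑ l, C j l * G j l := by
    rw [key, Finset.mul_sum]
    refine le_trans (le_of_eq ?_) (Finset.sum_le_sum fun i _ => h (v i))
    rw [← key]; simp only [fr, sq]
  have h2 : 2 * (c * ∑ j, ∑ l, C j l * G j l) ≤ fr C + c ^ 2 * fr G := by
    simp only [fr, Finset.mul_sum, ← Finset.sum_add_distrib]
    exact Finset.sum_le_sum fun j _ => Finset.sum_le_sum fun l _ => by
      nlinarith [sq_nonneg (C j l - c * G j l)]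
  linarith

/-- `C + l ≤ (12 / l0) Δ` -/
theorem Cl_le {w : Cube n → ℝ} {A B0 : Mn n} {p vt : Vn n} {l l0 s : ℝ} (hw : Wt w)
    (hp : ∀ i, |p i| ≤ 1) (hl : 0 < l) (s0 : 0 ≤ s)
    (hv : ∀ i, 0 ≤ vt i ∧ vt i ≤ 3 ∧ vt i * (1 - p i ^ 2) ≤ 1) (hP : Pos A B0 vt l0)
    (he : 9 * l + 3 * s ≤ l0 / 4) (l3 : l0 ≤ 3)
    (h : OpLe (Rt w A p l - (1 - Sq p l * B0 * Sq p l)) s) (u : Vn n) :
    u ⬝ᵥ Cl w l *ᵥ u ≤ 12 / l0 * qd (Dl p l) u := by
  have l0p : 0 < l0 := by linarith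
  have e : Sq p l * (Cl w l)⁻¹ * Sq p l * (Si p l * Cl w l * Si p l) = 1 := by
    rw [Matrix.mul_assoc, ← Matrix.mul_assoc (Sq p l) (Si p l * Cl w l),
      ← Matrix.mul_assoc (Sq p l) (Si p l), Sq_Si hp hl, Matrix.one_mul, ← Matrix.mul_assoc,
      Matrix.mul_assoc (Sq p l), J_Cl hw hl, Matrix.mul_one, Sq_Si hp hl]
  have h1 := inv_le e (show 0 < l0 / 12 by positivity) (fun x => ?_) (Sq p l *ᵥ u)
  · rw [Sq_dot hp hl, dot_mul3, Si_t, mulVec_mulVec, Si_Sq hp hl, one_mulVec, inv_div] at h1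
    exact h1
  · have h2 := (abs_le.1 (opLe_hom h x)).1
    have h3 := (hP (Sq p l *ᵥ x)).1
    have h4 : l0 / 12 * (x ⬝ᵥ x) ≤ l0 * qd (Dl p l) x + (1 - s) * (x ⬝ᵥ x) -
        Sq p l *ᵥ x ⬝ᵥ diagonal vt *ᵥ (Sq p l *ᵥ x) := by
      simp only [Sq, qd, dotProduct, mulVec_diagonal, Finset.mul_sum, ← Finset.sum_sub_distrib,
        ← Finset.sum_add_distrib]
      refine Finset.sum_le_sum fun i _ => ?_
      have d0 := Dl_pos hp hl i
      have e2 : √(Dl p l i) * x i * (vt i * (√(Dl p l i) * x i)) = vt i * Dl p l i * x i ^ 2 := by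
        linear_combination vt i * x i ^ 2 * Real.mul_self_sqrt d0.le
      obtain ⟨v0, v3, v1⟩ := hv i
      have key : l0 / 12 ≤ l0 * Dl p l i + (1 - s) - vt i * Dl p l i := by
        rcases le_total (Dl p l i) (1 / 6) with h3 | h3
        · nlinarith [mul_le_mul_of_nonneg_right v3 d0.le, mul_pos l0p d0]
        · have : vt i * Dl p l i = vt i * (1 - p i ^ 2) + vt i * l := by unfold Dl; ring
          nlinarith [mul_le_mul_of_nonneg_left h3 l0p.le, mul_le_mul_of_nonneg_right v3 hl.le]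
      rw [e2]
      nlinarith [mul_le_mul_of_nonneg_right key (sq_nonneg (x i))]
    rw [Sq_dot hp hl] at h3
    simp only [Rt, sub_mulVec, add_mulVec, dotProduct_sub, dotProduct_add, dot_mul3, Sq_t,
      one_mulVec] at h2 h3 ⊢
    linarith

/-- **the event of (BA)** from the resolvent identity and (P) -/
theorem ev_of {o : Orb n k} (ho : o.Ok) {U : Mat k} {e vt : Vn n} {G : Mn n} {l l0 s a g2 β χi : ℝ}
    (a0 : 0 ≤ a) (ha : Op2 (o.A U) (a ^ 2)) (A0 : ∀ v, 0 ≤ v ⬝ᵥ o.A U *ᵥ v) (hp : ∀ i, |o.p i| ≤ 1)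
    (hl : 0 < l) (s0 : 0 ≤ s) (hv : ∀ i, 0 ≤ vt i ∧ vt i ≤ 3 ∧ vt i * (1 - o.p i ^ 2) ≤ 1)
    (hP : Pos (o.A U) (χi • (1 : Mn n) + β • vecMulVec e e) vt l0) (he : 9 * l + 3 * s ≤ l0 / 4)
    (l3 : l0 ≤ 3) (hG : o.A U * G = 1) (hg : fr G ≤ g2)
    (h : OpLe (Rt (o.w U) (o.A U) o.p l -
      (1 - Sq o.p l * (χi • (1 : Mn n) + β • vecMulVec e e) * Sq o.p l)) s) :
    Ev o (Dl o.p l) e l β χi (l0 - (9 * l + 3 * s))⁻¹ (10 * a) (100 * g2) (12 / l0) (s ^ 2) U := by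
  have hA := Orb.A_symm ho U
  have Bs : (χi • (1 : Mn n) + β • vecMulVec e e)ᵀ = χi • (1 : Mn n) + β • vecMulVec e e := by
    simp only [transpose_add, transpose_smul, transpose_one, transpose_vecMulVec]
  have s1 : s ≤ 1 := by linarith
  have he' : 9 * l + 3 * s ≤ l0 / 2 := by linarith
  obtain ⟨e1, e2⟩ := mEndStmt n (o.w U) (o.A U) _ o.p vt l l0 a s (Orb.wt U) hA Bs a0 ha A0 hp hl s0 s1
    hv hP he' h
  have e3 := op_of_opLe (by
    simp only [transpose_sub, Rt_t hA, transpose_one, transpose_mul, Sq_t, Bs, Matrix.mul_assoc]) h s0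
  refine ⟨e1, e2, ?_, Cl_le (Orb.wt U) hp hl s0 hv hP he l3 h, e3⟩
  have := fr_le_of_form (C := o.C U) (G := G) (c := 10) (covMat_transpose _ _) (C_nonneg U) fun u => by
    have h1 := mEnd_form (Orb.wt U) hA A0 hp hl s0 s1 hv hP he' h (G *ᵥ u)
    rw [mulVec_mulVec, hG, one_mulVec, dotProduct_comm (G *ᵥ u)] at h1
    exact h1
  linarith

/-- the same on the orbit, from the base point `z - W` and its inverse `G0` -/
theorem ev_orb {o : Orb n k} (ho : o.Ok) {c : Cs} (hc : c.Nn) {U : Mat k} (hU : U ∈ o.G c)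
    {e vt : Vn n} {G0 : Mn n} {l l0 s g2 β χi : ℝ}
    (A0 : ∀ v, 0 ≤ v ⬝ᵥ (o.z • (1 : Mn n) - o.W) *ᵥ v) (hp : ∀ i, |o.p i| ≤ 1)
    (hl : 0 < l) (s0 : 0 ≤ s) (hv : ∀ i, 0 ≤ vt i ∧ vt i ≤ 3 ∧ vt i * (1 - o.p i ^ 2) ≤ 1)
    (hP : Pos (o.A U) (χi • (1 : Mn n) + β • vecMulVec e e) vt l0) (he : 9 * l + 3 * s ≤ l0 / 4)
    (l3 : l0 ≤ 3) (hG : (o.z • (1 : Mn n) - o.W) * G0 = 1) (hg : fr G0 ≤ g2)
    (h : OpLe (Rt (o.w U) (o.A U) o.p l -
      (1 - Sq o.p l * (χi • (1 : Mn n) + β • vecMulVec e e) * Sq o.p l)) s) :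
    Ev o (Dl o.p l) e l β χi (l0 - (9 * l + 3 * s))⁻¹ (10 * c.a) (100 * g2) (12 / l0) (s ^ 2) U := by
  have g1 := emb_orth ho.iso hU.1
  have g2 := emb_orth' ho.iso hU.1
  refine ev_of ho (G := emb o.E U * G0 * (emb o.E U)ᵀ) hc.a.le hU.2.a (fun v => ?_) hp hl s0 hv hP he l3
    ?_ ?_ h
  · rw [Orb.A, AU_eq ho.iso hU.1, dot_mul3]; exact A0 _
  · rw [Orb.A, AU_eq ho.iso hU.1]
    simp only [Matrix.mul_assoc]
    rw [← Matrix.mul_assoc (emb o.E U)ᵀ, g2, Matrix.one_mul, ← Matrix.mul_assoc _ G0, hG,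
      Matrix.one_mul, g1]
  · rw [fr_orth_right (by rw [transpose_transpose]; exact g2), fr_orth_left g2]; exact hg

end Crest.Agent.T157.Ba26
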