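import Crest.Agent.T157.OgDef_9
import Crest.Agent.T157.OgEv_26

set_option autoImplicit false
set_option linter.unusedSectionVars false

/-!
Row 157, A2 (helper15): (g3), (g4) above `t**`.
-/

noncomputable section

namespace Crest.Agent.T157.Og

open MeasureTheory Matrix Crest.Agent.Lib.OrthPoinc Filter Topology Set
open Crest.Agent.T157.Oc Crest.Agent.T157.E Crest.Agent.T157.SL Crest.Agent.T157.Ks
open Crest.Agent.T157.Od Crest.Agent.T157.Oo Crest.Agent.T157.O6 Crest.Agent.T157.O0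

namespace Hf15

theorem site {P q l w : ℝ} (P0 : 0 ≤ P) (q0 : 0 ≤ q) (l0 : 0 ≤ l) (hP : P ≤ w) (hq : q ≤ w)
    (hw : w ≤ 1 / 2) : ((1 - P + l)⁻¹ - (1 - q)⁻¹) ^ 2 ≤ 16 * (P + l + q) ^ 2 := by
  have h1 : 1 / 2 ≤ 1 - P + l := by linarith
  have h2 : 1 / 2 ≤ 1 - q := by linarith
  have h3 : 1 / 4 ≤ (1 - P + l) * (1 - q) := by nlinarith
  have h4 : (P - l - q) ^ 2 ≤ (P + l + q) ^ 2 := by nlinarith [mul_nonneg P0 l0, mul_nonneg P0 q0]
  rw [inv_sub_inv (by linarith) (by linarith), div_pow, div_le_iff₀ (by positivity),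
    show 1 - q - (1 - P + l) = P - l - q by ring]
  have h5 : 1 / 16 ≤ ((1 - P + l) * (1 - q)) ^ 2 := by nlinarith
  nlinarith [sq_nonneg (P + l + q)]

theorem three {P q l L C t : ℝ} (h1 : l ^ 2 ≤ t) (h2 : q ^ 2 ≤ L * t) (h3 : (1 + L) * t ≤ C * t) :
    16 * (P ^ 2 + l + q) ^ 2 ≤ 48 * P ^ 4 + 48 * (C * t) := by
  nlinarith [sq_nonneg (P ^ 2 - l), sq_nonneg (P ^ 2 - q), sq_nonneg (l - q)]

theorem crude_le {R : ℝ} (h : 1 ≤ R) : (crude 6 R).gX1U ≤ MM R ∧ (crude 6 R).gPhiU ≤ MM R := by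
  have h1 : 1 ≤ R ^ 8 := one_le_pow₀ h
  have h2 : R ^ 2 ≤ R ^ 8 := pow_le_pow_right₀ h (by norm_num)
  have h4 : R ^ 4 ≤ R ^ 8 := pow_le_pow_right₀ h (by norm_num)
  simp only [Cs.gX1U, Cs.gPhiU, Cs.lam, crude, MM]
  constructor <;> nlinarith

/-- the small numbers -/
theorem nums {p : Pm} (h : Ord p) {t : ℝ} (t0 : 0 < t) (ht : t ≤ p.t0) :
    p.L / 50 * √t ≤ t ^ (9 / 20 : ℝ) ∧ t ^ (9 / 20 : ℝ) ≤ 1 / 2 ∧ t ≤ t ^ (9 / 20 : ℝ) ∧
      t ≤ t ^ (1 / 3 : ℝ) ∧ 1 + p.L ^ 2 ≤ p.C := by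
  have hL := h.ok.L
  have t1 : t ≤ 1 := by linarith [h.ok.t0.2]
  have L1 : 1 ≤ p.L := by linarith
  have c1 : 1 + p.L ^ 2 ≤ p.C := by
    have : p.L ^ 2 ≤ p.L ^ 10 := pow_le_pow_right₀ L1 (by norm_num)
    nlinarith [h.C]
  have b1 : p.L ≤ p.B := by
    have := le_self_pow₀ h.ok.C (n := 10) (by norm_num)
    nlinarith [h.K, h.ok.B]
  have b2 : p.L ^ 20 * t ≤ 1 := by
    have : p.L ^ 20 ≤ p.B ^ 1000 :=
      (pow_le_pow_left₀ (by linarith) b1 20).trans (pow_le_pow_right₀ (by linarith) (by norm_num))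
    exact (mul_le_mul this ht t0.le (by positivity)).trans ((mul_comm _ _).trans_le h.t0)
  obtain ⟨u, u0, rfl⟩ : ∃ u : ℝ, 0 < u ∧ t = u ^ 20 := ⟨t ^ ((20 : ℕ) : ℝ)⁻¹, by positivity,
    (Real.rpow_inv_natCast_pow t0.le (by norm_num)).symm⟩
  have e1 : √(u ^ 20) = u ^ 10 := by
    rw [show u ^ 20 = (u ^ 10) ^ 2 by ring, Real.sqrt_sq (by positivity)]
  have e2 : (u ^ 20) ^ (9 / 20 : ℝ) = u ^ 9 := by
    rw [← Real.rpow_natCast, ← Real.rpow_mul u0.le, ← Real.rpow_natCast]; norm_num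
  have b3 : p.L * u ≤ 1 := by
    rw [← mul_pow] at b2
    exact (pow_le_one_iff_of_nonneg (by positivity) (by norm_num)).1 b2
  have u1 : u ≤ 1 / 2 := by nlinarith
  refine ⟨?_, ?_, Real.self_le_rpow_of_le_one t0.le t1 (by norm_num),
    Real.self_le_rpow_of_le_one t0.le t1 (by norm_num), c1⟩
  · rw [e1, e2]
    nlinarith [pow_pos u0 9]
  · rw [e2]
    exact (pow_le_of_le_one u0.le (by linarith) (by norm_num)).trans u1

end Hf15

open Hf15

theorem hiFGlue : HiFGlue := fun hH hF p t H η k o μ _ x vt X ht hv hS hm => by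
  obtain ⟨lh, fx, ctx, -⟩ := X
  have hn : (0 : ℝ) < p.n := by have := ctx.R1; unfold RR at this; linarith
  have t0 : 0 < t := (Real.rpow_pos_of_pos hn _).trans_le ht
  have C1 := lh.ord.ok.C
  have t1 : t ≤ 1 / 100 := lh.hi.trans lh.ord.ok.t0.2
  obtain ⟨n1, n2, n3, n4, n5⟩ := nums lh.ord t0 lh.hi
  obtain ⟨f1, f2, f3⟩ := hF p t H lh ht
  have e9 := (hH p t 1 H lh ht).2.2.2.2.2.2.2.2
  rw [one_mul, mul_comm 16, ← div_div] at e9
  have l0 : 0 < ll p := Real.rpow_pos_of_pos hn _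
  have s0 : 0 < sm p := Real.rpow_pos_of_pos hn _
  have τ0 : 0 < t / p.C := by positivity
  have τ1 : t / p.C ≤ t := div_le_self t0.le C1
  obtain ⟨T, hT, hT'⟩ := hS.T
  obtain ⟨G, hG, hG'⟩ := hS.tr
  set q : ℝ := o.p ⬝ᵥ o.p / p.n with hq
  have q0 : 0 ≤ q := div_nonneg (Ba26.dnn _) hn.le
  have q1 : q ≤ p.L / 50 * √t := by rw [hq, div_le_iff₀ hn]; linarith [fx.P]
  have hχ : Kp.chi x = 1 - q := by
    rw [hq, fx.pt.p]
    simp only [Kp.chi, Tap.avg, Tap.DD, Finset.sum_sub_distrib, dotProduct, sq]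
    simp; field_simp
  have sq : (√(p.n : ℝ))⁻¹ * (√(p.n : ℝ))⁻¹ = (p.n : ℝ)⁻¹ := by
    rw [← mul_inv, Real.mul_self_sqrt hn.le]
  have hB : Bz o x = (1 - q)⁻¹ • (1 : Mn p.n) +
      (2 : ℝ) • vecMulVec ((√(p.n : ℝ))⁻¹ • o.p) ((√(p.n : ℝ))⁻¹ • o.p) := by
    rw [Bz, hχ, smul_vecMulVec, vecMulVec_smul, smul_smul, smul_smul, mul_assoc, sq, div_eq_mul_inv]
  have hc0 : (crude 6 (RR p)).Nn := crude_nn (by norm_num) (by linarith [ctx.R1])
  have h0 : ∀ U ∈ SO k, U ∈ o.G (crude 6 (RR p)) := fun U hU => ⟨hU, ctx.cr U hU⟩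
  have hs := fun i hi => site (sq_nonneg (o.p i)) q0 l0.le (hT' i hi) (q1.trans n1) n2
  have g1 : 0 ≤ (c1 p t).gX1U := by
    have := ctx.nn.lam; have := ctx.nn.N; have := ctx.nn.k1; have := ctx.nn.k2
    unfold Cs.gX1U; positivity
  have g2 : 0 ≤ (c1 p t).gPhiU := by
    have := ctx.nn.lam; have := ctx.nn.N'; have := ctx.nn.k1; have := ctx.nn.k2
    unfold Cs.gPhiU; positivity
  have M0 : 0 ≤ MM (RR p) := by unfold MM; positivity
  have y2 : √(p.n * t / 64) ^ 2 = p.n * t / 64 := Real.sq_sqrt (by positivity)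
  have hk : (k : ℝ) - 2 = ro p := by
    rw [ro, ← fx.pt.dim]; push_cast; ring
  have key := Ba26.g34 (μ := μ) (De := Dl o.p (ll p)) (e := (√(p.n : ℝ))⁻¹ • o.p) (T := T)
    (χi := (1 - q)⁻¹) (B := (c1 p t).gX1U + (c1 p t).gPhiU + 1) (H := 3 * H) (y := √(p.n * t / 64))
    ctx.inv ctx.ok ctx.nn hc0 h0 (by positivity) (by norm_num) l0
    (fun i => O6m.Dl_pos ctx.p1 l0 i) (by positivity) ?_ (sq_nonneg _) hT
    (fun i hi => by have := hT' i hi; unfold Dl; linarith) (fun i hi => (hs i hi).trans ?_) ?_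
    (le_trans (real_mono_SO (B := {U | ¬ Em p.C t o x vt U}) ctx.inv fun U hU hx hE => hx ?_) hm)
    (by positivity) f1 (by positivity) f2
    (by linarith) (by linarith) (by linarith) M0 (crude_le ctx.R1).1 (crude_le ctx.R1).2
    (by positivity) (by rw [hk, y2]; exact f3)
  · have e : Real.exp (-(3 * H)) + MM (RR p) / ((c1 p t).gX1U + (c1 p t).gPhiU + 1) *
        μ.real (o.G (c1 p t))ᶜ ≤ fl (RR p) η (3 * H) :=
      add_le_add_right (mul_le_mul (div_le_self M0 (by linarith)) ctx.G measureReal_nonneg M0) _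
    rw [y2] at key
    have a1 := mul_le_mul_of_nonneg_left n4 hn.le
    have a2 := mul_le_mul_of_nonneg_right C1 (mul_pos hn t0).le
    refine ⟨(measureReal_mono fun U hU => ?_).trans (key.1.trans e),
      (measureReal_mono fun U hU => ?_).trans (key.2.trans e)⟩ <;>
    simp only [mem_ofPred_eq] at hU ⊢ <;> linarith [mul_pos hn t0]
  · rw [smul_dotProduct, dotProduct_smul, smul_eq_mul, smul_eq_mul, ← mul_assoc, sq, ← div_eq_inv_mul]
    linarith
  · have := hT' i hi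
    have h1 : o.p i ^ 2 + ll p + q ≤ 3 * t ^ (9 / 20 : ℝ) := by linarith
    have h2 := pow_le_pow_left₀ (by positivity) h1 2
    linarith
  · have h1 : ll p ^ 2 ≤ t :=
      (pow_le_of_le_one l0.le (by linarith) (by norm_num)).trans (by linarith)
    have h2 : q ^ 2 ≤ p.L ^ 2 * t := by
      have := pow_le_pow_left₀ q0 q1 2
      rw [mul_pow, Real.sq_sqrt t0.le] at this
      linarith [mul_nonneg (sq_nonneg p.L) t0.le]
    calc _ ≤ ∑ i, (48 * o.p i ^ 4 + 48 * (p.C * t)) := Finset.sum_le_sum fun i _ => by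
          have := mul_le_mul_of_nonneg_right n5 t0.le
          split_ifs with hi
          · positivity
          · exact (hs i hi).trans (three h1 h2 this)
      _ ≤ _ := by
          rw [Finset.sum_add_distrib, ← Finset.mul_sum, Finset.sum_const, Finset.card_univ,
            Fintype.card_fin, nsmul_eq_mul]
          linarith [hS.p4, mul_pos (mul_pos (one_pos.trans_le C1) hn) t0]
  · obtain ⟨hP, hO⟩ := hE
    rw [hB] at hP hO
    obtain ⟨a1, a2, a3, a4, a5⟩ := Ba26.ev_orb ctx.ok hc0 (h0 U hU) fx.psd ctx.p1 l0 s0.le hv hP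
      (by linarith) (by linarith) hG hG' hO
    refine ⟨a1.mono ?_, a2.mono (by norm_num [crude]), a3, ?_, a5⟩
    · rw [show 2 * p.C / t = (t / p.C / 2)⁻¹ by field_simp]
      exact inv_anti₀ (by positivity) (by linarith)
    · rwa [show 12 * p.C / t = 12 / (t / p.C) by field_simp]

end Crest.Agent.T157.Og

end
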