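import Crest.Agent.T157.O6mE_17
import Crest.Agent.T157.OgDef_9

set_option autoImplicit false
set_option linter.unusedSectionVars false

/-!
Row 157, A2 (helper17): (m2) above `t**` in the words of the orbit step (`Og.HiM`).
-/

noncomputable section

namespace Crest.Agent.T157.O6m

open MeasureTheory Matrix Crest.Agent.Lib.OrthPoinc
open Crest.Agent.T157.Oc Crest.Agent.T157.E Crest.Agent.T157.SL Crest.Agent.T157.Ks
open Crest.Agent.T157.Od Crest.Agent.T157.Oo Crest.Agent.T157.O6 Crest.Agent.T157.Ba26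

variable {n k : ℕ}

section Num

variable {u : ℝ} {a b : ℤ}

/-- the failure probability in powers of `u`, `n = u ^ N` -/
theorem pim_zq {r : ℕ} {B M η : ℝ} {N c d e f : ℤ} (hu : 10 ≤ u) (N1 : 1 ≤ N) (hn : (n : ℝ) = u ^ N)
    (hk : k + 2 = n) (B0 : 0 ≤ B) (M0 : 0 ≤ M) (η0 : 0 ≤ η)
    (hB : 8 * ((r : ℝ) + 1) ^ 2 * B ≤ u ^ a) (hM : 8 * ((r : ℝ) + 1) ^ 2 * M ≤ u ^ b) (hη : η ≤ u ^ c)
    (h1 : N + (a - N - 2 * d) * (r + 1 : ℕ) ≤ e) (h2 : N + (b - N - 2 * d) * (r + 1 : ℕ) + c ≤ e)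
    (h3 : e + 1 ≤ f) : pim n k r B M η (u ^ d) ≤ u ^ f := by
  have u1 : 1 ≤ u := by linarith
  have u0 : 0 < u := by linarith
  have hN : (10 : ℝ) ≤ n := by rw [hn]; exact hu.trans (by simpa using zp_le u1 N1)
  have hk' : (k : ℝ) - 2 = n - 4 := by rw [← hk]; push_cast; ring
  have k0 : 4 * ((k : ℝ) - 2)⁻¹ ≤ 8 * u ^ (-N) := by
    rw [hk', _root_.zpow_neg, ← hn, ← div_eq_mul_inv, ← div_eq_mul_inv,
      div_le_div_iff₀ (by linarith) (by linarith)]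
    linarith
  have k1 : 0 ≤ 4 * ((k : ℝ) - 2)⁻¹ := by
    rw [hk']; exact mul_nonneg (by norm_num) (inv_nonneg.2 (by linarith))
  have key : ∀ {Z : ℝ} {j : ℤ}, 0 ≤ Z → 8 * ((r : ℝ) + 1) ^ 2 * Z ≤ u ^ j →
      (4 * ((k : ℝ) - 2)⁻¹ * ((r : ℝ) + 1) ^ 2 * Z / (u ^ d) ^ 2) ^ (r + 1) ≤
        u ^ ((j - N - 2 * d) * (r + 1 : ℕ)) := fun {Z j} Z0 hZ => by
    refine zp_pow ?_ (by positivity) _
    rw [div_le_iff₀ (by positivity), ← _root_.zpow_natCast (u ^ d), ← _root_.zpow_mul, ← zpow_add₀ u0.ne']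
    have := zp_mul u1 (le_refl (u ^ (-N))) hZ (by positivity)
    refine le_trans ?_ (this.trans (zp_le u1 (by push_cast; linarith)))
    nlinarith [mul_le_mul_of_nonneg_right k0 (show 0 ≤ ((r : ℝ) + 1) ^ 2 * Z by positivity)]
  have e1 : pim n k r B M η (u ^ d) =
      n * (4 * ((k : ℝ) - 2)⁻¹ * ((r : ℝ) + 1) ^ 2 * B / (u ^ d) ^ 2) ^ (r + 1) +
        n * (4 * ((k : ℝ) - 2)⁻¹ * ((r : ℝ) + 1) ^ 2 * M / (u ^ d) ^ 2) ^ (r + 1) * η := by
    simp only [pim, div_pow, mul_pow _ B, mul_pow _ M, pow_mul]; ring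
  have b1 := (zp_mul u1 hn.le (key B0 hB) (by positivity)).trans (zp_le u1 h1)
  have b2 := (zp_mul u1 (zp_mul u1 hn.le (key M0 hM) (by positivity)) hη η0).trans (zp_le u1 h2)
  have b3 := zp_c u1 (c := 2) (by linarith) h3
  rw [e1]; linarith

theorem exp_neg_le' (j : ℕ) (j0 : 0 < j) (hu : 4 * (j : ℝ) ^ 2 ≤ u) : Real.exp (-u) ≤ u ^ (-(j : ℤ)) := by
  have j1 : (0 : ℝ) < j := by exact_mod_cast j0
  have u0 : 0 < u := lt_of_lt_of_le (by positivity) hu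
  have h1 : u ≤ (u / (2 * j)) ^ 2 := by
    rw [div_pow, le_div_iff₀ (by positivity)]; nlinarith
  have h2 : u / (2 * j) ≤ Real.exp (u / (2 * j)) := by linarith [Real.add_one_le_exp (u / (2 * j))]
  have h3 : u ^ j ≤ Real.exp u := by
    refine (pow_le_pow_left₀ u0.le (h1.trans (pow_le_pow_left₀ (by positivity) h2 2)) j).trans_eq ?_
    rw [← pow_mul, ← Real.exp_nat_mul]; congr 1; push_cast; field_simp
  rw [Real.exp_neg, _root_.zpow_neg, _root_.zpow_natCast]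
  exact inv_anti₀ (by positivity) h3

theorem zp_add {x y : ℝ} (hu : 2 ≤ u) {c : ℤ} (hx : x ≤ u ^ a) (hy : y ≤ u ^ b) (h1 : a + 1 ≤ c)
    (h2 : b + 1 ≤ c) : x + y ≤ u ^ c := by
  have u1 : 1 ≤ u := by linarith
  have b1 := hx.trans (zp_le u1 (show a ≤ c - 1 by linarith))
  have b2 := hy.trans (zp_le u1 (show b ≤ c - 1 by linarith))
  have b3 := zp_c u1 hu (show c - 1 + 1 ≤ c by linarith)
  linarith

theorem zp_div {x : ℝ} (hu : 0 < u) (hx : x ≤ u ^ a) : x / u ^ b ≤ u ^ (a - b) := by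
  rw [zpow_sub₀ hu.ne']; exact div_le_div_of_nonneg_right hx (by positivity)

theorem zp_sq (a : ℤ) : (u ^ a) ^ 2 = u ^ (a * 2) := by
  rw [_root_.zpow_mul]; norm_cast

end Num

/-- **(m2), `n = u ^ 1000`, `l = n ^ (-1/10)`, `e = n ^ (-1/5)`** -/
theorem m2e {o : Orb n k} {μ : Measure (Mat k)} [IsProbabilityMeasure μ] {c : Cs} {R η K δ : ℝ}
    {B0 : Mn n} {x : Vn n} {b m u : ℝ} (hu : 10 ^ 12 ≤ u) (hn : (n : ℝ) = u ^ (1000 : ℤ)) (hk : k + 2 = n)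
    (X : Ctx o μ c R η K δ) (hR : R ≤ 36 * n) (hK : K ≤ n) (η1 : η ≤ u ^ (-300000000 : ℤ))
    (δ1 : δ ≤ u ^ (-20000 : ℤ)) (ha : c.a ≤ 6) (k1 : c.k1 ≤ u ^ (2 : ℤ)) (gD1 : gD c ≤ u ^ (4 : ℤ))
    (gA1 : gA c ≤ u ^ (4 : ℤ)) (rC1 : rC c ≤ u ^ (4 : ℤ)) (d1 : c.d0 ≤ u ^ (2 : ℤ))
    (hγ : Real.exp (20 + c.k2 + 2 * m + 2 * b) ≤ u) (W3 : Op2 o.W 9)
    (px : ∀ i, o.p i = Real.tanh (x i)) (hb : ∀ i, |o.h i - x i - o.z * o.p i| + |o.z| ≤ b)
    (Bs : B0ᵀ = B0) (B3 : Op2 B0 9) (m0 : 0 ≤ m) (b0 : 0 ≤ b)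
    (m2 : ∀ i, |EV (o.P μ) (fun U => o.A U *ᵥ o.d U) i| ≤ m)
    (m4 : Op2 (Er4 o (o.P μ) B0) ((u ^ (-200 : ℤ)) ^ 2)) :
    μ.real {U | ¬ OpLe (Rt (o.w U) (o.A U) o.p (u ^ (-100 : ℤ)) -
      (1 - Sq o.p (u ^ (-100 : ℤ)) * B0 * Sq o.p (u ^ (-100 : ℤ)))) (u ^ (-10 : ℤ))} ≤ 1 / 4 := by
  have u1 : 1 ≤ u := by linarith
  have u2 : 2 ≤ u := by linarith
  have u0 : 0 < u := by linarith
  have hc := X.nn
  have zp : ∀ a : ℤ, 0 < u ^ a := fun a => zpow_pos u0 a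
  have η0 : 0 ≤ η := measureReal_nonneg.trans X.G
  have R0 : 0 ≤ R := by linarith [X.R1]
  have K0 : 0 ≤ K := by linarith [X.K1]
  have M0 : 0 ≤ MM R := by unfold MM; positivity
  have K1 : K ≤ u ^ (1000 : ℤ) := hn ▸ hK
  have one : ∀ {y : ℝ}, y ≤ u → y ≤ u ^ (1 : ℤ) := fun h => by simpa using h
  have cm : ∀ {y z : ℝ} {a : ℤ}, y ≤ u → z ≤ u ^ a → 0 ≤ z → y * z ≤ u ^ (1 + a) := fun h1 h2 h3 =>
    zp_mul u1 (one h1) h2 h3
  have M1 : MM R ≤ u ^ (8002 : ℤ) := by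
    have h1 : R ^ 8 ≤ (36 * (n : ℝ)) ^ 8 := pow_le_pow_left₀ R0 hR 8
    have h2 := cm (y := 10 ^ 10) (by linarith) (cm (y := 10 ^ 10) (by linarith)
      (zp_pow hn.le (Nat.cast_nonneg _) 8) (by positivity)) (by positivity)
    have h3 : 0 ≤ (n : ℝ) ^ 8 := by positivity
    rw [mul_pow] at h1
    refine le_trans ?_ (h2.trans (zp_le u1 (by norm_num)))
    rw [MM]; linarith
  have k2 : c.k2 ≤ u := by linarith [Real.add_one_le_exp (20 + c.k2 + 2 * m + 2 * b)]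
  have sm : ∀ {q : ℝ}, 0 ≤ q → q ≤ u ^ (-9200 : ℤ) → MM R * (K * q + δ) ≤ u ^ (-196 : ℤ) := fun {q} q0 hq =>
    (zp_mul u1 M1 (zp_add u2 (c := -8199) (zp_mul u1 K1 hq q0) δ1 (by norm_num) (by norm_num))
      (add_nonneg (mul_nonneg K0 q0) X.δ0)).trans (zp_le u1 (by norm_num))
  have gA0 : 0 ≤ gA c := by
    have := hc.lam; have := hc.k2; have := hc.e0; have := hc.d0
    unfold gA; positivity
  have gD0 : 0 ≤ gD c := mul_nonneg hc.lam hc.k1
  have fl1 : fl R η u ≤ u ^ (-9999 : ℤ) :=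
    zp_add u2 (exp_neg_le' 10000 (by norm_num) (by norm_num; linarith)) (zp_mul u1 M1 η1 η0)
      (by norm_num) (by norm_num)
  have fl0 : 0 ≤ fl R η u := by unfold fl; positivity
  have hk' : (k : ℝ) - 2 = n - 4 := by rw [← hk]; push_cast; ring
  have hN : u ≤ n := by rw [hn]; simpa using zp_le u1 (show (1 : ℤ) ≤ 1000 by norm_num)
  have le1 : ∀ a : ℤ, 0 ≤ a → 1 ≤ u ^ a := fun a h => by simpa using zp_le u1 h
  have lt1 : ∀ a : ℤ, a ≤ 0 → u ^ a ≤ 1 := fun a h => by simpa using zp_le u1 h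
  have rd : ∀ {T : ℝ}, 0 ≤ T → T ≤ u ^ (4 : ℤ) → 0 ≤ rad k T T u ∧ rad k T T u ≤ u ^ (-900 : ℤ) :=
    fun {T} T0 hT => by
    refine ⟨div_nonneg (by positivity) (by linarith), ?_⟩
    have h1 := le1 4 (by norm_num)
    have h2 : 4 * (T + 2) ≤ u ^ (1 + 4 : ℤ) :=
      le_trans (by linarith) (cm (y := 12) (by linarith) le_rfl (zp 4).le)
    have h3 : 288 * (T + 1) ≤ u ^ (1 + 4 : ℤ) :=
      le_trans (by linarith) (cm (y := 576) (by linarith) le_rfl (zp 4).le)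
    have h4 := zp_add u2 (c := 7) h2 (zp_mul u1 h3 (one le_rfl) u0.le) (by norm_num) (by norm_num)
    have h5 := zp_c u1 u2 (show (999 : ℤ) + 1 ≤ 1000 by norm_num)
    have h6 : u ^ (999 : ℤ) ≤ n - 4 := by linarith
    rw [rad, hk']
    exact (div_le_div_of_nonneg_left (by positivity) (zp _) h6).trans
      ((zp_div u0 h4).trans (zp_le u1 (by norm_num)))
  have sm' : MM R * (K * fl R η u + δ) ≤ u ^ (-900 : ℤ) :=
    (zp_mul u1 M1 (zp_add u2 (c := -8998) (zp_mul u1 K1 fl1 fl0) δ1 (by norm_num) (by norm_num))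
      (add_nonneg (mul_nonneg K0 fl0) X.δ0)).trans (zp_le u1 (by norm_num))
  have m5 : Op2 (ErC o (o.P μ) B0) ((u ^ (-199 : ℤ)) ^ 2) := by
    have h1 := (covGlue scStmt n k o μ c R η K δ u _ X u0.le sm').2 B0 _ B3 (zp _).le m4
    refine op_mono h1 (pow_le_pow_left₀ ?_ ?_ 2)
    · have := (rd gD0 gD1).1; have := (rd gA0 gA1).1; have := zp (-900); have := zp (-200); positivity
    · have h2 := zp_c u1 (c := 20) (a := -900) (b := -200) (by linarith) (by norm_num)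
      have h3 := zp_c u1 (c := 2) (a := -200) (b := -199) (by linarith) (by norm_num)
      linarith [(rd gD0 gD1).2, (rd gA0 gA1).2]
  have a2 : c.a ^ 2 ≤ 36 := by nlinarith [hc.a]
  have r0 := rC_nn hc
  have k10 := hc.k1
  have k20 := hc.k2
  have d0 := hc.d0
  have bT0 : 0 ≤ bT n c (u ^ (-100 : ℤ)) := by unfold bT; positivity
  have bR0 : 0 ≤ bR n c.a (rC c) (u ^ (-100 : ℤ)) (u ^ (-1 : ℤ)) := by unfold bR; positivity
  have bT1 : bT n c (u ^ (-100 : ℤ)) ≤ 39 * u ^ (1105 : ℤ) := by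
    have h1 := (zp_div (b := -100 * 2) u0 rC1).trans (zp_le u1 (show _ ≤ (1105 : ℤ) by norm_num))
    have h2 := (zp_div (b := -100 * 2) u0 d1).trans (zp_le u1 (show _ ≤ (1000 : ℤ) by norm_num))
    have h3 : 2 * (n : ℝ) + c.d0 / u ^ (-100 * 2 : ℤ) ≤ 3 * u ^ (1000 : ℤ) := by linarith
    have h4 := zp_mul u1 (zp_pow k1 k10 2) (one k2) k20
    have h5 := (zp_div (b := -100) u0 (zp_mul u1 h4 (le_refl (u ^ (1000 : ℤ))) (zp _).le)).trans
      (zp_le u1 (show _ ≤ (1105 : ℤ) by norm_num))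
    have h6 := div_le_div_of_nonneg_right (mul_le_mul_of_nonneg_left h3
      (show 0 ≤ c.k1 ^ 2 * c.k2 by positivity)) (zp (-100)).le
    rw [show c.k1 ^ 2 * c.k2 * (3 * u ^ (1000 : ℤ)) / u ^ (-100 : ℤ) =
      3 * (c.k1 ^ 2 * c.k2 * u ^ (1000 : ℤ) / u ^ (-100 : ℤ)) by ring] at h6
    rw [bT, zp_sq]; linarith
  have bR1 : bR n c.a (rC c) (u ^ (-100 : ℤ)) (u ^ (-1 : ℤ)) ≤ 2885 * u ^ (901 : ℤ) := by
    have h1 := (zp_div (b := (-100 + -1) * 2) u0 rC1).trans (zp_le u1 (show _ ≤ (901 : ℤ) by norm_num))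
    have h2 := (zp_div (b := -1) u0 (zp_mul u1 hn.le (le_refl (u ^ (-100 : ℤ))) (zp _).le)).trans
      (zp_le u1 (show _ ≤ (901 : ℤ) by norm_num))
    have h3 := mul_le_mul a2 h2 (by positivity) (by norm_num)
    rw [bR, ← zpow_add₀ u0.ne', zp_sq, mul_assoc (c.a ^ 2), mul_div_assoc]; linarith
  have u10 : (10 : ℝ) ≤ u := by linarith
  have pa := pim_zq (r := 36500) (d := 0) (e := -36300000) (f := -36299999) u10 (by norm_num) hn hk gA0 M0
    η0 (cm (by norm_num; linarith) gA1 gA0) (cm (by norm_num; linarith) M1 M0) η1 (by norm_num)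
    (by norm_num) (by norm_num)
  rw [_root_.zpow_zero] at pa
  have pa0 := Op27.pim_nn (n := n) (r := 36500) X.ok.two gA0 M0 η0 one_pos
  have pa' := zp_add u2 (c := -36299998) η1 pa (by norm_num) (by norm_num)
  have pb := pim_zq (r := 5100) (a := 1106) (d := 54) (e := -9202) (f := -9201) u10 (by norm_num) hn hk bT0
    M0 η0 (le_trans (by push_cast; linarith)
      (zp_c u1 (c := 8 * 5101 ^ 2 * 39) (a := 1105) (by linarith) (by norm_num)))
    (cm (by norm_num; linarith) M1 M0) η1 (by norm_num) (by norm_num) (by norm_num)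
  have pr := pim_zq (r := 5100) (a := 902) (d := -48) (e := -9202) (f := -9201) u10 (by norm_num) hn hk bR0
    M0 (add_nonneg η0 pa0) (le_trans (by push_cast; linarith)
      (zp_c u1 (c := 8 * 5101 ^ 2 * 2885) (a := 901) (by linarith) (by norm_num)))
    (cm (by norm_num; linarith) M1 M0) pa' (by norm_num) (by norm_num) (by norm_num)
  have H : MH2 o μ c R η K δ B0 x (u ^ (-100 : ℤ)) b m (u ^ (-1 : ℤ)) (u ^ (53 : ℤ)) (u ^ (55 : ℤ))
      (u ^ (-199 : ℤ)) (u ^ (-196 : ℤ)) (u ^ (-9200 : ℤ)) (u ^ (-48 : ℤ)) 1 (u ^ (54 : ℤ)) (u ^ (-19 : ℤ))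
      36500 5100 := by
    refine ⟨X, W3, px, hb, zp _, lt1 _ (by norm_num), ?_, Bs, B3, by decide, by decide,
      zp _, one_pos, zp _, (zp _).le, (zp _).le, (zp _).le, zp _, lt1 _ (by norm_num), m2, m5, ?_, ?_, ?_,
      ?_, sm (zp _).le le_rfl, lt1 _ (by norm_num), ?_⟩
    · rw [← _root_.zpow_neg]; exact (zp_le u1 (by norm_num)).trans (hn ▸ X.Rn)
    · rw [Real.exp_neg, _root_.zpow_neg_one]
      refine inv_anti₀ (Real.exp_pos _) (le_trans (le_of_eq ?_) hγ)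
      congr 1; ring
    · have h1 := (zp_mul u1 (one k2) k1 k10).trans (zp_le u1 (show _ ≤ (4 : ℤ) by norm_num))
      have h2 := (zp_pow k1 k10 2).trans (zp_le u1 (show _ ≤ (4 : ℤ) by norm_num))
      have h3 := le1 4 (by norm_num)
      have h4 := zp_c u1 (c := 63) (a := 4) (b := -100 + 53 * 2) (by linarith) (by norm_num)
      rw [zp_sq, ← zpow_add₀ u0.ne']; linarith
    · have h1 := (zp_div (b := -100) u0 (le_refl (u ^ (-199 : ℤ)))).trans
        (zp_le u1 (show _ ≤ (54 : ℤ) by norm_num))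
      have h2 := zp_le u1 (show (53 : ℤ) ≤ 54 by norm_num)
      have h3 := le1 54 (by norm_num)
      have h4 := zp_c u1 (c := 6) (a := 54) (b := 55) (by linarith) (by norm_num)
      linarith
    · have h1 := pa'.trans (zp_le u1 (show _ ≤ (-9201 : ℤ) by norm_num))
      have h3 := zp_c u1 (c := 3) (a := -9201) (b := -9200) (by linarith) (by norm_num)
      linarith
    · have h0 : 2 * u ^ (-48 : ℤ) + u ^ (-196 : ℤ) ≤ 3 * u ^ (-48 : ℤ) := by
        linarith [zp_le u1 (show (-196 : ℤ) ≤ -48 by norm_num)]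
      have h1 : u ^ (55 : ℤ) * (2 * u ^ (-48 : ℤ) + u ^ (-196 : ℤ)) ^ 2 ≤ 9 * u ^ (-41 : ℤ) := by
        refine (mul_le_mul_of_nonneg_left (pow_le_pow_left₀ (by positivity) h0 2) (zp _).le).trans_eq ?_
        rw [mul_pow, zp_sq, mul_left_comm, ← zpow_add₀ u0.ne']; norm_num
      have h2 : (u ^ (-199 : ℤ)) ^ 2 / (u ^ (-100 : ℤ)) ^ 2 ≤ u ^ (-41 : ℤ) := by
        rw [zp_sq, zp_sq]; exact (zp_div u0 le_rfl).trans (zp_le u1 (by norm_num))
      have h3 : u ^ (-100 : ℤ) * (37 + c.k2 + 2 * c.a ^ 2) ≤ u ^ (-41 : ℤ) :=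
        (zp_mul u1 le_rfl (zp_add u2 (c := 3) (zp_add u2 (c := 2) (one (by linarith)) (one k2) (by norm_num)
          (by norm_num)) (one (by linarith)) (by norm_num) (by norm_num)) (by positivity)).trans
          (zp_le u1 (by norm_num))
      have h5 := zp_le u1 (show (-196 : ℤ) ≤ -41 by norm_num)
      refine (mul_le_mul_of_nonneg_left (show _ ≤ 12 * u ^ (-41 : ℤ) by linarith) (by positivity)).trans ?_
      rw [zp_sq, show 12 / u ^ (-1 : ℤ) * (12 * u ^ (-41 : ℤ)) = 144 * (u ^ (-41 : ℤ) / u ^ (-1 : ℤ)) by ring,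
        ← zpow_sub₀ u0.ne']
      exact zp_c u1 (by linarith) (by norm_num)
  refine le_trans (measureReal_mono ?_) ((m2core H).trans ?_)
  · intro U hU hG
    refine hU fun v hv => (hG.2.2 v hv).trans ?_
    have h1 := zp_le u1 (show (-196 : ℤ) ≤ -19 by norm_num)
    have h2 := zp_le u1 (show (-48 : ℤ) ≤ -19 by norm_num)
    have h3 := zp_c u1 (c := 4) (a := -19) (b := -10) (by linarith) (by norm_num)
    linarith
  · have h3 := zp_c u1 (c := 4) (a := -9200) (b := 0) (by linarith) (by norm_num)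
    rw [_root_.zpow_zero] at h3; linarith

end Crest.Agent.T157.O6m

namespace Crest.Agent.T157.Og

open MeasureTheory Matrix Crest.Agent.Lib.OrthPoinc
open Crest.Agent.T157.Oc Crest.Agent.T157.E Crest.Agent.T157.SL Crest.Agent.T157.Ks
open Crest.Agent.T157.Od Crest.Agent.T157.Oo Crest.Agent.T157.O6 Crest.Agent.T157.O0
open Crest.Agent.T157.O6m Crest.Agent.T157.Ba26

theorem hiM : HiM := by
  intro p t ε H η κ k o μ _ x vt h ht hM2 hE hP
  have O := h.lh.ord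
  have ok := O.ok
  have at' := h.fx.pt
  set b := p.B0 with hb
  have L1 : 1 ≤ p.L ^ 10 := one_le_pow₀ (by linarith [ok.L])
  have LC : p.L ≤ p.C := by
    have : p.L ≤ p.L ^ 10 := le_self_pow₀ (by linarith [ok.L]) (by norm_num)
    linarith [O.C]
  have CB' : p.C ≤ p.B := ((le_self_pow₀ ok.C (by norm_num)).trans O.K).trans ok.B
  have Cb : p.C ≤ b := CB'.trans ok.B0
  have b10 : 10 ^ 10 ≤ b := by linarith [O.C]
  have b1 : 1 ≤ b := by linarith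
  have bl : b ^ 100 ≤ Real.log p.n := (pow_le_pow_left₀ (by linarith) ok.B2 100).trans O.n1
  have l10 : 10 ^ 10 ≤ Real.log p.n := b10.trans ((le_self_pow₀ b1 (by norm_num)).trans bl)
  have n1 : (1 : ℝ) < p.n := (Real.log_pos_iff (Nat.cast_nonneg _)).1 (by linarith)
  have n0 : (0 : ℝ) < p.n := by linarith
  set u := (p.n : ℝ) ^ (1 / 1000 : ℝ) with hu
  have zu : ∀ a : ℤ, u ^ a = (p.n : ℝ) ^ ((a : ℝ) / 1000) := fun a => by
    rw [hu, ← Real.rpow_intCast, ← Real.rpow_mul n0.le]; congr 1; ring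
  have cvd : p.cv ≤ p.d ∧ p.cv ≤ 1 / 1000 := by
    have hA : (1 : ℝ) ≤ p.A := by exact_mod_cast ok.A
    have := mul_le_mul_of_nonneg_right hA ok.cv.le
    constructor <;> linarith [ok.cv', ok.k3.2, ok.k2.2, ok.k4.2, ok.d.2, ok.ch.2, ok.k3.1, ok.k2.1,
      ok.k4.1, ok.d.1]
  have lu : Real.log p.n ^ 100 ≤ u := O.n3.trans (Real.rpow_le_rpow_of_exponent_le n1.le cvd.2)
  have lp : ∀ j : ℕ, j ≤ 100 → Real.log p.n ^ j ≤ Real.log p.n ^ 100 := fun j hj =>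
    pow_le_pow_right₀ (by linarith) hj
  have l2 : 10 ^ 10 * Real.log p.n ≤ Real.log p.n ^ 100 := le_trans (by nlinarith) (lp 2 (by norm_num))
  have u12 : 10 ^ 12 ≤ u := by linarith
  have u0 : 0 < u := by linarith
  have u1 : 1 ≤ u := by linarith
  have b7 : 300 * b ^ 6 ≤ u := by
    have h1 : 300 * b ^ 6 ≤ b * b ^ 6 := by gcongr; linarith
    have h2 : b ^ 7 ≤ b ^ 100 := pow_le_pow_right₀ b1 (by norm_num)
    linarith
  have t0 : 0 < t := (Real.rpow_pos_of_pos n0 _).trans_le ht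
  have t1 : t ≤ 1 := by linarith [h.lh.hi, ok.t0.2]
  have τ1 : 1 ≤ t⁻¹ := (one_le_inv₀ t0).2 t1
  have τu : t⁻¹ ≤ u := by
    rw [inv_le_comm₀ t0 u0, hu, ← Real.rpow_neg n0.le]
    exact (Real.rpow_le_rpow_of_exponent_le n1.le (by linarith [ok.ch.2])).trans ht
  have kk : p.kk t = 1 := if_pos ht
  have Bt : 0 ≤ p.Bt t ∧ p.Bt t ≤ b := by
    unfold Pm.Bt; split_ifs
    · exact ⟨by linarith [ok.C], ok.B0⟩
    · exact ⟨by linarith, le_rfl⟩
  have hN : (t ^ (1 + p.k3))⁻¹ ≤ t⁻¹ ^ 2 := by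
    rw [inv_pow, ← Real.rpow_two]
    exact inv_anti₀ (by positivity) (Real.rpow_le_rpow_of_exponent_ge t0 t1
      (by linarith [ok.k3.2, ok.k2.2, ok.k4.2, ok.d.2, ok.ch.2]))
  have e1 : (c1 p t).k1 = p.Bt t * t⁻¹ := div_eq_mul_inv _ _
  have e2 : (c1 p t).k2 = b := by simp only [c1, Cs.ctr, Pm.cq, kk, mul_one, hb]
  have e3 : (c1 p t).d0 = b ^ 4 * t⁻¹ := div_eq_mul_inv _ _
  have e4' : (c1 p t).e0 = b ^ 4 := by simp only [c1, Cs.ctr, kk, mul_one, hb]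
  have e5 : (c1 p t).N = b * (t ^ (1 + p.k3))⁻¹ := by
    simp only [c1, Cs.ctr, Pm.cq, kk, mul_one, hb, div_eq_mul_inv]
  have e6 : rC (c1 p t) = 12 * (b * t⁻¹ ^ 3) + 12 * (b ^ 5 * t⁻¹ ^ 3) := by
    simp only [rC, c1, Cs.ctr, Pm.cq, kk, mul_one, hb]; field_simp; ring
  have e7 : (c1 p t).a = 6 := rfl
  generalize t⁻¹ = τ at *
  have τ0 : 0 ≤ τ := by linarith
  have Bt1 := Bt.1
  have Bt2 := Bt.2
  have pb : ∀ i j : ℕ, i ≤ j → b ^ i ≤ b ^ j := fun i j h => pow_le_pow_right₀ b1 h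
  have k1 : (c1 p t).k1 ≤ b * τ := by rw [e1]; gcongr
  have τ2 : τ ≤ τ ^ 2 := le_self_pow₀ τ1 (by norm_num)
  have lam : (c1 p t).lam ≤ 24 * (b ^ 5 * τ ^ 2) := by
    have h1 : b * (t ^ (1 + p.k3))⁻¹ ≤ b ^ 5 * τ ^ 2 :=
      mul_le_mul (by simpa using pb 1 5 (by norm_num)) hN (by positivity) (by positivity)
    have h2 : b ^ 5 * τ ≤ b ^ 5 * τ ^ 2 := by gcongr
    have h3 : b ^ 4 * (c1 p t).k1 ≤ b ^ 4 * (b * τ) := by gcongr
    rw [Cs.lam, e2, e3, e4', e5]; linarith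
  have fin : ∀ {y : ℝ} (j : ℕ), y ≤ 300 * b ^ 6 * τ ^ j → y ≤ u ^ ((j : ℤ) + 1) := fun {y} j hy => by
    have : 300 * b ^ 6 * τ ^ j ≤ u * u ^ j := by gcongr
    rw [zpow_add₀ u0.ne', _root_.zpow_natCast, _root_.zpow_one]; linarith
  have q6 : ∀ i j : ℕ, i ≤ 6 → b ^ i * τ ^ j ≤ b ^ 6 * τ ^ j := fun i j h =>
    mul_le_mul_of_nonneg_right (pb i 6 h) (by positivity)
  have q0 : ∀ j : ℕ, 0 ≤ b ^ 6 * τ ^ j := fun j => by positivity
  have τ3 : τ ^ 2 ≤ τ ^ 3 := pow_le_pow_right₀ τ1 (by norm_num)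
  have hc := h.ctx.nn
  have chi : Kp.chi x = 1 - o.p ⬝ᵥ o.p / p.n := by
    simp only [Kp.chi, Tap.avg, Tap.DD, at'.p, dotProduct, Finset.sum_sub_distrib, sq]
    simp; field_simp
  have pp : o.p ⬝ᵥ o.p ≤ p.n / 50 := by
    have h1 : p.B ^ 2 ≤ p.B ^ 1000 := pow_le_pow_right₀ (by linarith [ok.C]) (by norm_num)
    have h2 : p.L ^ 2 ≤ p.B ^ 2 := pow_le_pow_left₀ (by linarith [ok.L]) (by linarith) 2
    have h3 : p.L ^ 2 * t ≤ 1 :=
      (mul_le_mul (h2.trans h1) h.lh.hi t0.le (pow_nonneg (by linarith [ok.C]) _)).trans (by linarith [O.t0])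
    have h4 : p.L * √t ≤ 1 := by
      refine (abs_le_of_sq_le_sq' ?_ zero_le_one).2
      rwa [mul_pow, Real.sq_sqrt t0.le, one_pow]
    nlinarith [h.fx.P]
  have χ1 : 49 / 50 ≤ Kp.chi x ∧ Kp.chi x ≤ 1 := by
    have h1 : o.p ⬝ᵥ o.p / p.n ≤ 1 / 50 := by rw [div_le_iff₀ n0]; linarith
    have h2 : 0 ≤ o.p ⬝ᵥ o.p / p.n := div_nonneg (dnn _) n0.le
    constructor <;> linarith
  have χ0 : 0 < Kp.chi x := by linarith [χ1.1]
  have χi : (Kp.chi x)⁻¹ ≤ 2 := by rw [inv_le_comm₀ χ0 two_pos]; linarith [χ1.1]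
  have χj : 0 < (Kp.chi x)⁻¹ := inv_pos.2 χ0
  have Bs : (Bz o x)ᵀ = Bz o x := by
    simp only [Bz, transpose_add, transpose_smul, transpose_one, transpose_vecMulVec]
  have Bq : ∀ v, v ⬝ᵥ Bz o x *ᵥ v = (Kp.chi x)⁻¹ * (v ⬝ᵥ v) + 2 / p.n * (o.p ⬝ᵥ v) ^ 2 := fun v => by
    simp only [Bz, add_mulVec, smul_mulVec, one_mulVec, dotProduct_add, dotProduct_smul, smul_eq_mul,
      Cov6.dot_vmv, dotProduct_comm v o.p, sq]
  have B3 : Op2 (Bz o x) 9 := op_mono (psd_op (μ := 3) Bs (fun v => by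
      rw [Bq]; have := dnn v; positivity) (fun v => by
      have h1 := (O6m.cs o.p v).trans (mul_le_mul_of_nonneg_right pp (dnn v))
      have h2 := mul_le_mul_of_nonneg_left h1 (show 0 ≤ 2 / (p.n : ℝ) by positivity)
      rw [show 2 / (p.n : ℝ) * (p.n / 50 * (v ⬝ᵥ v)) = 1 / 25 * (v ⬝ᵥ v) by field_simp; ring] at h2
      rw [Bq]; linarith [mul_le_mul_of_nonneg_right χi (dnn v), dnn v]) (by norm_num)) (by norm_num)
  have a := m2e (b := 6) (m := p.C) u12 (by rw [zu]; norm_num) at'.dim h.ctx le_rfl le_rfl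
    (h.ty.trans (by
      rw [zu, ty, Real.rpow_def_of_pos n0 (_ / _)]
      refine Real.exp_le_exp.2 ?_
      have := O.n3.trans (Real.rpow_le_rpow_of_exponent_le n1.le cvd.1)
      push_cast; linarith))
    (by rw [zu, dl, ← Real.rpow_natCast, ← Real.rpow_neg n0.le]; norm_num) e7.le
    (fin 1 (by linarith [q6 1 1 (by norm_num), q0 1]))
    (fin 3 (by
      have := mul_le_mul lam k1 hc.k1 (by positivity)
      rw [gD]; linarith [q0 3]))
    (fin 3 (by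
      have h1 := mul_le_mul_of_nonneg_right lam (show 0 ≤ b by linarith)
      have h2 : b ^ 6 * τ ^ 2 ≤ b ^ 6 * τ ^ 3 := by gcongr
      have h3 : b ^ 4 * τ ≤ b ^ 4 * τ ^ 3 := by gcongr; linarith
      have h4 : b ^ 4 * 1 ≤ b ^ 4 * τ := by gcongr
      rw [gA, e2, e3, e4', e7]; linarith [q6 4 3 (by norm_num), q0 3]))
    (fin 3 (by rw [e6]; linarith [q6 1 3 (by norm_num), q6 5 3 (by norm_num), q0 3]))
    (fin 1 (by rw [e3]; linarith [q6 4 1 (by norm_num), q0 1]))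
    (by
      have h1 : Real.exp (20 + (c1 p t).k2 + 2 * p.C + 2 * 6) ≤ Real.exp p.B2 ^ 4 := by
        rw [← Real.exp_nat_mul, e2]
        exact Real.exp_le_exp.2 (by push_cast; linarith [ok.B2])
      exact h1.trans ((pow_le_pow_left₀ (Real.exp_pos _).le O.n2 4).trans ((lp 4 (by norm_num)).trans lu)))
    h.fx.W9 (fun i => by rw [at'.p]; rfl)
    (fun i => by
      have h1 : o.h i - x i - o.z * o.p i = -((Kp.chi x)⁻¹ * o.p i) := by
        rw [at'.h, at'.z, at'.p]; simp only [Pi.add_apply, Pi.smul_apply, smul_eq_mul]; ring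
      have h2 := mul_le_mul χi (h.ctx.p1 i) (abs_nonneg _) zero_le_two
      rw [h1, abs_neg, abs_mul, abs_of_pos χj, at'.z, one_div, abs_of_pos (add_pos χ0 χj)]
      linarith [χ1.2])
    Bs B3 (by linarith [ok.C]) (by norm_num)
    (fun i => by
      have h1 := (Finset.single_le_sum (f := fun i => EV (o.P μ) (fun U => o.A U *ᵥ o.d U) i ^ 2)
        (fun j _ => sq_nonneg _) (Finset.mem_univ i)).trans hM2
      exact abs_le_of_sq_le_sq (h1.trans (by nlinarith [ok.C])) (by linarith [ok.C]))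
    (by rw [zu, show (((-200 : ℤ) : ℝ) / 1000) = -(1 / 5) by norm_num]; exact hE)
  have el : u ^ (-100 : ℤ) = ll p := by rw [zu, ll]; norm_num
  have es : u ^ (-10 : ℤ) = sm p := by rw [zu, sm]; norm_num
  rw [el, es] at a
  refine (real_or (fun U hU => ?_) hP a).trans (by norm_num)
  by_contra hn
  simp only [Set.mem_union, Set.mem_ofPred_eq, not_or, not_not] at hn
  exact hU ⟨hn.1, hn.2⟩

theorem hiMGlue : HiMGlue := fun _ _ _ _ => hiM

end Crest.Agent.T157.Og
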