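import Crest.Agent.T157.O6Def_61
import Crest.Agent.T157.O5B_26

set_option autoImplicit false
set_option linter.unusedSectionVars false

/-!
Row 157, A2, section 6 (helper17): the algebra of (m2); `MRdStmt`, `MGradStmt`, `MEndStmt`.
-/

noncomputable section

namespace Crest.Agent.T157.O6m

open MeasureTheory Matrix Crest.Agent.Lib.OrthPoinc
open Crest.Agent.T157.Oc Crest.Agent.T157.E Crest.Agent.T157.SL Crest.Agent.T157.Ks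
open Crest.Agent.T157.Od Crest.Agent.T157.Oo Crest.Agent.T157.O6 Crest.Agent.T157.Ba26

section Alg

variable {ι κ : Type*} [Fintype ι] [DecidableEq ι] [Fintype κ] {M N : Matrix ι ι ℝ} {a b m : ℝ}

theorem op_mono (h : Op2 M a) (e : a ≤ b) : Op2 M b := fun v =>
  (h v).trans (mul_le_mul_of_nonneg_right e (dnn v))

theorem op_tp (h : Op2 M a) (a0 : 0 ≤ a) : Op2 Mᵀ a := fun v => by
  have h1 := h (Mᵀ *ᵥ v)
  have e : Mᵀ *ᵥ v ⬝ᵥ Mᵀ *ᵥ v = v ⬝ᵥ M *ᵥ (Mᵀ *ᵥ v) := by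
    rw [dotProduct_mulVec v M, ← mulVec_transpose]
  have h2 := Finset.sum_mul_sq_le_sq_mul_sq Finset.univ v (M *ᵥ (Mᵀ *ᵥ v))
  have h3 : (v ⬝ᵥ M *ᵥ (Mᵀ *ᵥ v)) ^ 2 ≤ (v ⬝ᵥ v) * (M *ᵥ (Mᵀ *ᵥ v) ⬝ᵥ M *ᵥ (Mᵀ *ᵥ v)) := by
    simpa only [dotProduct, sq] using h2
  rw [← e] at h3
  rcases (dnn (Mᵀ *ᵥ v)).eq_or_lt with h5 | h5
  · rw [← h5]; exact mul_nonneg a0 (dnn v)
  · refine le_of_mul_le_mul_left ?_ h5
    nlinarith [mul_le_mul_of_nonneg_left h1 (dnn v)]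

theorem cs (x y : ι → ℝ) : (x ⬝ᵥ y) ^ 2 ≤ (x ⬝ᵥ x) * (y ⬝ᵥ y) := by
  simpa only [dotProduct, sq] using Finset.sum_mul_sq_le_sq_mul_sq Finset.univ x y

theorem abs_quad (h : Op2 M (a ^ 2)) (a0 : 0 ≤ a) (v : ι → ℝ) : |v ⬝ᵥ M *ᵥ v| ≤ a * (v ⬝ᵥ v) := by
  refine abs_le_of_sq_le_sq' ?_ (mul_nonneg a0 (dnn v)) |> abs_le.2
  nlinarith [cs v (M *ᵥ v), mul_le_mul_of_nonneg_left (h v) (dnn v)]

theorem quad_le (h : Op2 M (a ^ 2)) (a0 : 0 ≤ a) (v : ι → ℝ) : v ⬝ᵥ M *ᵥ v ≤ a * (v ⬝ᵥ v) :=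
  (le_abs_self _).trans (abs_quad h a0 v)

theorem opLe_of (h : Op2 M (a ^ 2)) (a0 : 0 ≤ a) : OpLe M a := fun u hu => by
  simpa only [hu, mul_one] using abs_quad h a0 u

/-- homogeneous form of `OpLe` -/
theorem opLe_hom (h : OpLe M a) (v : ι → ℝ) : |v ⬝ᵥ M *ᵥ v| ≤ a * (v ⬝ᵥ v) := by
  rcases (dnn v).eq_or_lt with h0 | h0
  · have : v = 0 := dotProduct_self_eq_zero.1 h0.symm
    simp [this]
  · have hs := Real.sqrt_pos.2 h0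
    have hq := Real.mul_self_sqrt h0.le
    have := h ((√(v ⬝ᵥ v))⁻¹ • v) (by
      simp only [smul_dotProduct, dotProduct_smul, smul_eq_mul]
      field_simp; nlinarith)
    simp only [mulVec_smul, smul_dotProduct, dotProduct_smul, smul_eq_mul, ← mul_assoc, ← mul_inv, hq,
      abs_mul, abs_inv, abs_of_pos h0] at this
    rwa [inv_mul_le_iff₀ h0, mul_comm] at this

/-- a symmetric matrix with a bounded form has a bounded norm -/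
theorem op_of_opLe (hM : Mᵀ = M) (h : OpLe M a) (a0 : 0 ≤ a) : Op2 M (a ^ 2) := fun v => by
  have key : ∀ x y : ι → ℝ, 2 * (x ⬝ᵥ M *ᵥ y) ≤ a * (x ⬝ᵥ x + y ⬝ᵥ y) := fun x y => by
    have h1 := (abs_le.1 (opLe_hom h (x + y))).2
    have h2 := (abs_le.1 (opLe_hom h (x - y))).1
    have h3 := symm_dot hM y x
    rw [dotProduct_comm (M *ᵥ y)] at h3
    have h4 := dotProduct_comm x y
    simp only [mulVec_add, mulVec_sub, add_dotProduct, dotProduct_add, sub_dotProduct,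
      dotProduct_sub] at h1 h2
    nlinarith
  rcases a0.eq_or_lt with h0 | h0
  · have := key (M *ᵥ v) v
    rw [← h0] at this ⊢; linarith
  · have := key (M *ᵥ v) (a • v)
    simp only [mulVec_smul, smul_dotProduct, dotProduct_smul, smul_eq_mul] at this
    refine le_of_mul_le_mul_left ?_ h0
    nlinarith

/-- AM-GM for a positive form -/
theorem psd_am (hM : Mᵀ = M) (h0 : ∀ u, 0 ≤ u ⬝ᵥ M *ᵥ u) (ha : 0 < a) (x y : ι → ℝ) :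
    x ⬝ᵥ M *ᵥ y ≤ (x ⬝ᵥ M *ᵥ x) / (2 * a) + a / 2 * (y ⬝ᵥ M *ᵥ y) := by
  have h1 := h0 (x - a • y)
  have h3 := symm_dot hM y x
  rw [dotProduct_comm (M *ᵥ y)] at h3
  simp only [mulVec_sub, mulVec_smul, sub_dotProduct, dotProduct_sub, smul_dotProduct, dotProduct_smul,
    smul_eq_mul, h3] at h1
  rw [div_add' _ _ _ (by positivity), le_div_iff₀ (by positivity)]
  nlinarith

/-- `m ≤ M` gives `M⁻¹ ≤ 1 / m` -/
theorem inv_le (e : M * N = 1) (hm : 0 < m) (h : ∀ y, m * (y ⬝ᵥ y) ≤ y ⬝ᵥ M *ᵥ y) (v : ι → ℝ) :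
    v ⬝ᵥ N *ᵥ v ≤ m⁻¹ * (v ⬝ᵥ v) := by
  have h1 := h (N *ᵥ v)
  rw [mulVec_mulVec, e, one_mulVec, dotProduct_comm (N *ᵥ v) v] at h1
  have h2 := dot_le_amgm hm v (N *ᵥ v)
  have : v ⬝ᵥ v / (2 * m) = m⁻¹ * (v ⬝ᵥ v) / 2 := by field_simp
  linarith

theorem det_pos_of (hM : Mᵀ = M) (hm : 0 < m) (h : ∀ y, m * (y ⬝ᵥ y) ≤ y ⬝ᵥ M *ᵥ y) : 0 < M.det := by
  refine (PosDef.of_dotProduct_mulVec_pos (by
    rw [IsHermitian, conjTranspose_eq_transpose_of_trivial, hM]) fun x hx => ?_).det_pos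
  have := (dnn x).lt_of_ne' fun e => hx (dotProduct_self_eq_zero.1 e)
  simpa using (mul_pos hm this).trans_le (h x)

theorem dot5_le (x1 x2 x3 x4 x5 : ι → ℝ) : (x1 + x2 + x3 + x4 + x5) ⬝ᵥ (x1 + x2 + x3 + x4 + x5) ≤
    5 * (x1 ⬝ᵥ x1 + x2 ⬝ᵥ x2 + x3 ⬝ᵥ x3 + x4 ⬝ᵥ x4 + x5 ⬝ᵥ x5) := by
  simp only [dotProduct, ← Finset.sum_add_distrib, Finset.mul_sum, Pi.add_apply]
  refine Finset.sum_le_sum fun i _ => ?_
  nlinarith [sq_nonneg (x1 i - x2 i), sq_nonneg (x1 i - x3 i), sq_nonneg (x1 i - x4 i),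
    sq_nonneg (x1 i - x5 i), sq_nonneg (x2 i - x3 i), sq_nonneg (x2 i - x4 i), sq_nonneg (x2 i - x5 i),
    sq_nonneg (x3 i - x4 i), sq_nonneg (x3 i - x5 i), sq_nonneg (x4 i - x5 i)]

theorem fam_mul {θ : κ → Matrix ι ι ℝ} (h : Fam θ) (M : Matrix ι ι ℝ) (y : ι → ℝ) :
    ∑ a, M *ᵥ (θ a *ᵥ y) ⬝ᵥ M *ᵥ (θ a *ᵥ y) ≤ 2 * (fr M * (y ⬝ᵥ y)) := by
  have e : ∀ a, M *ᵥ (θ a *ᵥ y) ⬝ᵥ M *ᵥ (θ a *ᵥ y) = ∑ i, (M i ⬝ᵥ θ a *ᵥ y) ^ 2 := fun a => by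
    simp only [sq]; rfl
  simp only [e]
  rw [Finset.sum_comm]
  refine (Finset.sum_le_sum fun i _ => h.dot (M i) y).trans (le_of_eq ?_)
  simp only [← Finset.mul_sum, ← Finset.sum_mul, fr, sq, dotProduct]

theorem fam_op {θ : κ → Matrix ι ι ℝ} (h : Fam θ) (hM : fr M ≤ a) (hN : Op2 N b) (v : ι → ℝ) :
    ∑ c, (M * θ c * N) *ᵥ v ⬝ᵥ (M * θ c * N) *ᵥ v ≤ 2 * (a * b) * (v ⬝ᵥ v) := by
  simp only [← mulVec_mulVec]
  refine (fam_mul h M _).trans ?_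
  nlinarith [mul_le_mul hM (hN v) (dnn _) (fr_nonneg.trans hM)]

variable {Ω : Type*} [Fintype Ω] {w : Ω → ℝ} {σ : Ω → ι → ℝ} {p : ι → ℝ} {A B : Matrix ι ι ℝ}

/-- the cumulant part of `D C` -/
def Rmm (w : Ω → ℝ) (σ : Ω → ι → ℝ) (p : ι → ℝ) (A B : Matrix ι ι ℝ) : Matrix ι ι ℝ :=
  c3 w σ (hq A B p σ) - covMat w σ * (A * B - B * A) * covMat w σ

theorem dot_Rmm (hw : Wt w) (hA : Aᵀ = A) (hB : Bᵀ = -B) (u v : ι → ℝ) :
    u ⬝ᵥ Rmm w σ p A B *ᵥ v = Rm w σ p A B (fun x => u ⬝ᵥ σ x) fun x => v ⬝ᵥ σ x := by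
  rw [Rmm, sub_mulVec, dotProduct_sub, dot_c3, cum3_hq hw, covV_fA, covV_fA, covV_lin, covV_lin,
    dot_mul3, covMat_transpose]
  have h1 := skew_dot hB (covMat w σ *ᵥ u) (A *ᵥ (covMat w σ *ᵥ v))
  simp only [sub_mulVec, ← mulVec_mulVec, dotProduct_sub, symm_dot hA (covMat w σ *ᵥ u)]
  linarith

theorem sum_Rmm {θ : κ → Matrix ι ι ℝ} (h : Fam θ) (hw : Wt w) (hA : Aᵀ = A) (v : ι → ℝ) :
    ∑ a, Rmm w σ p A (θ a) *ᵥ v ⬝ᵥ Rmm w σ p A (θ a) *ᵥ v ≤ RB w σ p A σ (sg fun x => v ⬝ᵥ σ x) := by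
  have h2 := h.Rm_le (w := w) (σ := σ) (p := p) (A := A) σ (sg fun x => v ⬝ᵥ σ x)
  simp only [Finset.univ_unique, Finset.sum_singleton] at h2
  simp only [dot_self_eq (_ *ᵥ v), dot_Rmm hw hA (h.skew _) _ v]
  rw [Finset.sum_comm]
  simpa only [single_dot] using h2

theorem sum_Rmm3 {θ : κ → Matrix ι ι ℝ} (h : Fam θ) (hw : Wt w) (hA : Aᵀ = A) {r : ℝ} (r0 : 0 ≤ r)
    (hr : ∀ v, RB w σ p A σ (sg fun x => v ⬝ᵥ σ x) ≤ r * (v ⬝ᵥ v)) (hM : Op2 M a) (a0 : 0 ≤ a)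
    (hN : Op2 N b) (v : ι → ℝ) :
    ∑ c, (M * Rmm w σ p A (θ c) * N) *ᵥ v ⬝ᵥ (M * Rmm w σ p A (θ c) * N) *ᵥ v ≤
      a * r * b * (v ⬝ᵥ v) := by
  simp only [← mulVec_mulVec]
  refine (Finset.sum_le_sum fun c _ => hM _).trans ?_
  rw [← Finset.mul_sum, mul_assoc, mul_assoc]
  exact mul_le_mul_of_nonneg_left (((sum_Rmm h hw hA _).trans (hr _)).trans
    (mul_le_mul_of_nonneg_left (hN v) r0)) a0

end Alg

variable {n : ℕ} {w : Cube n → ℝ} {p : Vn n} {l γ : ℝ}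

/-- `Δ^{-1/2}` -/
def Si (p : Vn n) (l : ℝ) : Mn n := diagonal fun i => (√(Dl p l i))⁻¹

theorem D_nn (hp : ∀ i, |p i| ≤ 1) (i : Fin n) : 0 ≤ 1 - p i ^ 2 := by
  have := (sq_le_one_iff_abs_le_one _).2 (hp i); linarith

theorem Dl_ge (hp : ∀ i, |p i| ≤ 1) (i : Fin n) : l ≤ Dl p l i := by
  have := D_nn hp i; unfold Dl; linarith

theorem Dl_le (hl : l ≤ 1) (i : Fin n) : Dl p l i ≤ 2 := by
  unfold Dl; nlinarith [sq_nonneg (p i)]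

theorem Sq_t : (Sq p l)ᵀ = Sq p l := diagonal_transpose _
theorem Si_t : (Si p l)ᵀ = Si p l := diagonal_transpose _
theorem Dm_t : (Dm p)ᵀ = Dm p := diagonal_transpose _

theorem Cl_t : (Cl w l)ᵀ = Cl w l := by
  rw [Cl, transpose_add, covMat_transpose, transpose_smul, transpose_one]

theorem Cl_quad (v : Vn n) : v ⬝ᵥ Cl w l *ᵥ v = v ⬝ᵥ covMat w sv *ᵥ v + l * (v ⬝ᵥ v) := by
  simp [Cl, add_mulVec, smul_mulVec]

theorem Cl_ge (hw : Wt w) (v : Vn n) : l * (v ⬝ᵥ v) ≤ v ⬝ᵥ Cl w l *ᵥ v := by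
  rw [Cl_quad]; linarith [hw.covMat_quad_nonneg sv v]

theorem Cl_det (hw : Wt w) (hl : 0 < l) : 0 < (Cl w l).det := det_pos_of Cl_t hl (Cl_ge hw)

theorem Cl_J (hw : Wt w) (hl : 0 < l) : Cl w l * (Cl w l)⁻¹ = 1 :=
  mul_nonsing_inv _ (isUnit_iff_ne_zero.2 (Cl_det hw hl).ne')

theorem J_Cl (hw : Wt w) (hl : 0 < l) : (Cl w l)⁻¹ * Cl w l = 1 :=
  nonsing_inv_mul _ (isUnit_iff_ne_zero.2 (Cl_det hw hl).ne')

theorem J_t : ((Cl w l)⁻¹)ᵀ = (Cl w l)⁻¹ := by rw [transpose_nonsing_inv, Cl_t]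

theorem Rt_t {A : Mn n} (hA : Aᵀ = A) : (Rt w A p l)ᵀ = Rt w A p l := by
  simp only [Rt, transpose_mul, transpose_sub, Sq_t, J_t, hA, Matrix.mul_assoc]

section

variable (hp : ∀ i, |p i| ≤ 1) (hl : 0 < l)
include hp hl

theorem Dl_pos (i : Fin n) : 0 < Dl p l i := hl.trans_le (Dl_ge hp i)

theorem Sq_Si : Sq p l * Si p l = 1 := by
  rw [Sq, Si, diagonal_mul_diagonal, ← diagonal_one]; congr 1; funext i
  exact mul_inv_cancel₀ (Real.sqrt_pos.2 (Dl_pos hp hl i)).ne'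

theorem Si_Sq : Si p l * Sq p l = 1 := mul_eq_one_comm.1 (Sq_Si hp hl)

theorem Sq_Sq : Sq p l * Sq p l = Dm p + l • (1 : Mn n) := by
  rw [Sq, Dm, diagonal_mul_diagonal, smul_one_eq_diagonal, diagonal_add]; congr 1; funext i
  exact Real.mul_self_sqrt (Dl_pos hp hl i).le

theorem Sq_dot (v : Vn n) : Sq p l *ᵥ v ⬝ᵥ Sq p l *ᵥ v = qd (Dl p l) v := by
  simp only [Sq, dotProduct, mulVec_diagonal, qd]
  refine Finset.sum_congr rfl fun i _ => ?_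
  have := Real.mul_self_sqrt (Dl_pos hp hl i).le
  linear_combination v i ^ 2 * this

theorem qd_Si (v : Vn n) : qd (Dl p l) (Si p l *ᵥ v) = v ⬝ᵥ v := by
  rw [← Sq_dot hp hl, mulVec_mulVec, Sq_Si hp hl, one_mulVec]

theorem op_Sq (h1 : l ≤ 1) : Op2 (Sq p l) 2 :=
  op_diag fun i => by rw [Real.sq_sqrt (Dl_pos hp hl i).le]; exact Dl_le h1 i

theorem op_Si : Op2 (Si p l) l⁻¹ := op_diag fun i => by
  rw [inv_pow, Real.sq_sqrt (Dl_pos hp hl i).le]; exact inv_anti₀ hl (Dl_ge hp i)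

theorem op_DSi : Op2 (Dm p * Si p l) 1 := by
  rw [Dm, Si, diagonal_mul_diagonal]
  refine op_diag fun i => ?_
  rw [mul_pow, inv_pow, Real.sq_sqrt (Dl_pos hp hl i).le, ← div_eq_mul_inv, div_le_one (Dl_pos hp hl i)]
  have := D_nn hp i
  unfold Dl; nlinarith [sq_nonneg (p i)]

/-- the crude sandwich constant -/
theorem low_crude (hw : Wt w) (h1 : l ≤ 1) (v : Vn n) : l / 2 * qd (Dl p l) v ≤ v ⬝ᵥ Cl w l *ᵥ v := by
  have := op_Sq hp hl h1 v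
  rw [Sq_dot hp hl] at this
  nlinarith [Cl_ge (l := l) hw v]

/-- `‖(C + l)⁻¹ Δ^{1/2}‖² ≤ 1 / (l γ)` for any inverse pair -/
theorem op_JS {M J : Mn n} (e : M * J = 1) (hγ : 0 < γ) (h0 : ∀ v, l * (v ⬝ᵥ v) ≤ v ⬝ᵥ M *ᵥ v)
    (h : ∀ v, γ * qd (Dl p l) v ≤ v ⬝ᵥ M *ᵥ v) (v : Vn n) :
    Sq p l *ᵥ v ⬝ᵥ J *ᵥ (Sq p l *ᵥ v) ≤ γ⁻¹ * (v ⬝ᵥ v) ∧
      l * (J *ᵥ (Sq p l *ᵥ v) ⬝ᵥ J *ᵥ (Sq p l *ᵥ v)) ≤ Sq p l *ᵥ v ⬝ᵥ J *ᵥ (Sq p l *ᵥ v) := by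
  have h1 := h (J *ᵥ (Sq p l *ᵥ v))
  have h2 := h0 (J *ᵥ (Sq p l *ᵥ v))
  rw [mulVec_mulVec _ M, e, one_mulVec, dotProduct_comm _ (Sq p l *ᵥ v)] at h1 h2
  refine ⟨?_, h2⟩
  rw [← Sq_dot hp hl] at h1
  have h3 := dot_le_amgm hγ v (Sq p l *ᵥ (J *ᵥ (Sq p l *ᵥ v)))
  rw [symm_dot Sq_t] at h3
  have : v ⬝ᵥ v / (2 * γ) = γ⁻¹ * (v ⬝ᵥ v) / 2 := by field_simp
  linarith

end

theorem mRdStmt : MRdStmt := fun n k o l ho hl => by
  have h1 : RDM (fun U => Cl (o.w U) l) fun a U => c3 (o.w U) sv (hq (o.A U) (o.th a U) o.p sv) :=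
    ((rd_C ho.iso ho.symm Orb.wt0 o.z).add (RDM.const (l • (1 : Mn n)))).congr (fun _ _ => rfl)
      fun _ _ _ => add_zero _
  have h2 := (h1.inv fun U _ => Cl_det (Orb.wt U) hl).sub (rd_AU (W := o.W) (z := o.z) ho.iso)
  exact (((RDM.const (Sq o.p l)).mul h2).mul (RDM.const (Sq o.p l))).congr (fun _ _ => rfl)
    fun a U _ => by simp only [Matrix.zero_mul, Matrix.mul_zero, zero_add, add_zero]; rfl

theorem mGradStmt : MGradStmt := fun n κ _ θ w A p l γ a r hθ hw hA ha hp hl h1 hγ r0 hlow hr v => by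
  set S := Sq p l with hS
  set J := (Cl w l)⁻¹ with hJ
  set C := covMat w sv with hC
  have oS : Op2 S 2 := op_Sq hp hl h1
  have oJS : Op2 (J * S) (l * γ)⁻¹ := fun u => by
    obtain ⟨b1, b2⟩ := op_JS hp hl (Cl_J hw hl) hγ (Cl_ge hw) hlow u
    rw [← mulVec_mulVec, mul_inv, mul_assoc, le_inv_mul_iff₀ hl]
    exact b2.trans b1
  have lγ : 0 ≤ (l * γ)⁻¹ := by positivity
  have oSJ : Op2 (S * J) (l * γ)⁻¹ := by
    have := op_tp oJS lγ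
    rwa [transpose_mul, Sq_t, J_t] at this
  have e1 : C * J = 1 - l • J := by
    have : (C + l • (1 : Mn n)) * J = 1 := Cl_J hw hl
    rw [Matrix.add_mul, smul_mul_assoc, Matrix.one_mul] at this
    exact eq_sub_of_add_eq this
  have e2 : J * C = 1 - l • J := by
    have : J * (C + l • (1 : Mn n)) = 1 := J_Cl hw hl
    rw [Matrix.mul_add, mul_smul_comm, Matrix.mul_one] at this
    exact eq_sub_of_add_eq this
  have oQ : Op2 (C * J) 1 := fun u => by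
    have e : Cl w l *ᵥ (J *ᵥ u) = u := by rw [mulVec_mulVec, Cl_J hw hl, one_mulVec]
    have h2 := hw.covMat_quad_nonneg sv (J *ᵥ u)
    rw [← mulVec_mulVec]
    conv_rhs => rw [← e]
    simp only [Cl, add_mulVec, smul_mulVec, one_mulVec, add_dotProduct, dotProduct_add, smul_dotProduct,
      dotProduct_smul, smul_eq_mul, dotProduct_comm (C *ᵥ (J *ᵥ u)) (J *ᵥ u), ← hC]
    nlinarith [mul_nonneg hl.le h2, mul_nonneg (mul_nonneg hl.le hl.le) (dnn (J *ᵥ u))]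
  have sm : ∀ {X : Mn n}, Op2 X (l * γ)⁻¹ → Op2 (l • X) (l / γ) := fun {X} h u => by
    have := mul_le_mul_of_nonneg_left (h u) (mul_nonneg hl.le hl.le)
    simp only [smul_mulVec, smul_dotProduct, dotProduct_smul, smul_eq_mul]
    refine le_trans (le_of_eq (by ring)) (this.trans (le_of_eq ?_))
    field_simp
  have oPS := sm oJS
  have oSP := sm oSJ
  have lg : 0 ≤ l / γ := by positivity
  have a2 := sq_nonneg a
  have card : (Fintype.card (Fin n) : ℝ) = n := by simp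
  have f : ∀ {X : Mn n} {b : ℝ}, Op2 X b → fr X ≤ n * b := fun h => card ▸ fr_le_card h
  have b1 := sum_Rmm3 hθ hw hA r0 hr oSJ lγ oJS v
  have b2 := fam_op hθ (f (op_mul oSP ha lg)) (op_mul oQ oS zero_le_one) v
  have b3 := fam_op hθ (f oSP) (op_mul ha (op_mul oQ oS zero_le_one) a2) v
  have b4 := fam_op hθ (f (op_mul oS ha zero_le_two)) oPS v
  have b5 := fam_op hθ (f oS) (op_mul ha oPS a2) v
  have e : ∀ b, dRt w A p l (θ b) *ᵥ v = -((S * J * Rmm w sv p A (θ b) * (J * S)) *ᵥ v) +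
      (l • (S * J) * A * θ b * (C * J * S)) *ᵥ v + -((l • (S * J) * θ b * (A * (C * J * S))) *ᵥ v) +
      (S * A * θ b * l • (J * S)) *ᵥ v + -((S * θ b * (A * l • (J * S))) *ᵥ v) := fun b => by
    simp only [← neg_mulVec, ← add_mulVec]
    congr 1
    have e3 : J * c3 w sv (hq A (θ b) p sv) * J =
        J * Rmm w sv p A (θ b) * J + (1 - l • J) * (A * θ b - θ b * A) * (C * J) := by
      rw [Rmm, ← e2, ← hC]; noncomm_ring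
    rw [dRt, ← hS, ← hJ, e3, e1]
    simp only [Matrix.mul_add, Matrix.add_mul, Matrix.mul_sub, Matrix.sub_mul, Matrix.mul_neg,
      Matrix.neg_mul, neg_add, Matrix.mul_assoc, smul_mul_assoc, mul_smul_comm, Matrix.one_mul,
      Matrix.mul_one, smul_sub]
    abel
  simp only [e]
  refine (Finset.sum_le_sum fun b _ => dot5_le _ _ _ _ _).trans ?_
  simp only [neg_dotProduct, dotProduct_neg, neg_neg, ← Finset.mul_sum, Finset.sum_add_distrib]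
  have e5 : bR n a r l γ * (v ⬝ᵥ v) = 5 * ((l * γ)⁻¹ * r * (l * γ)⁻¹ * (v ⬝ᵥ v) +
      2 * (n * (l / γ * a ^ 2) * (1 * 2)) * (v ⬝ᵥ v) + 2 * (n * (l / γ) * (a ^ 2 * (1 * 2))) * (v ⬝ᵥ v) +
      2 * (n * (2 * a ^ 2) * (l / γ)) * (v ⬝ᵥ v) + 2 * (n * 2 * (a ^ 2 * (l / γ))) * (v ⬝ᵥ v)) := by
    unfold bR; field_simp; ring
  rw [e5]; linarith

theorem covA (w : Cube n → ℝ) {A : Mn n} (hA : Aᵀ = A) (v : Vn n) :
    v ⬝ᵥ covMat w (fA A sv) *ᵥ v = A *ᵥ v ⬝ᵥ covMat w sv *ᵥ (A *ᵥ v) := by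
  rw [covMat_quad, covMat_quad, dot_fA hA]

/-- the lower bound of `(C + l)⁻¹` -/
theorem J_ge {A B0 : Mn n} {vt : Vn n} {s : ℝ} (hp : ∀ i, |p i| ≤ 1) (hl : 0 < l) (s0 : 0 ≤ s)
    (s1 : s ≤ 1) (hv : ∀ i, 0 ≤ vt i ∧ vt i ≤ 3 ∧ vt i * (1 - p i ^ 2) ≤ 1)
    (h : OpLe (Rt w A p l - (1 - Sq p l * B0 * Sq p l)) s) (y : Vn n) :
    y ⬝ᵥ (A + diagonal vt - B0) *ᵥ y - (9 * l + 3 * s) * (y ⬝ᵥ y) ≤ y ⬝ᵥ (Cl w l)⁻¹ *ᵥ y := by
  have h1 := (abs_le.1 (opLe_hom h (Si p l *ᵥ y))).1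
  have e : Sq p l *ᵥ (Si p l *ᵥ y) = y := by rw [mulVec_mulVec, Sq_Si hp hl, one_mulVec]
  simp only [Rt, sub_mulVec, dotProduct_sub, dot_mul3, Sq_t, e, one_mulVec] at h1
  have h2 : y ⬝ᵥ diagonal vt *ᵥ y - (9 * l + 3 * s) * (y ⬝ᵥ y) ≤
      (1 - s) * (Si p l *ᵥ y ⬝ᵥ Si p l *ᵥ y) := by
    simp only [Si, dotProduct, mulVec_diagonal, Finset.mul_sum, ← Finset.sum_sub_distrib]
    refine Finset.sum_le_sum fun i _ => ?_
    have d0 := Dl_pos hp hl i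
    have e2 : (√(Dl p l i))⁻¹ * y i * ((√(Dl p l i))⁻¹ * y i) = y i ^ 2 / Dl p l i := by
      have := Real.mul_self_sqrt d0.le
      have := Real.sqrt_pos.2 d0
      field_simp; nlinarith
    obtain ⟨v0, v3, v1⟩ := hv i
    have key : (vt i - (9 * l + 3 * s)) * Dl p l i ≤ 1 - s := by
      rcases le_total (Dl p l i) (1 / 3) with h3 | h3
      · nlinarith [mul_le_mul_of_nonneg_right (show vt i - (9 * l + 3 * s) ≤ 3 * (1 - s) by linarith) d0.le]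
      · have : vt i * Dl p l i = vt i * (1 - p i ^ 2) + vt i * l := by unfold Dl; ring
        nlinarith [mul_le_mul_of_nonneg_left h3 (show 0 ≤ 9 * l + 3 * s by linarith)]
    rw [e2, ← mul_div_assoc, le_div_iff₀ d0]
    nlinarith [mul_le_mul_of_nonneg_right key (sq_nonneg (y i))]
  simp only [sub_mulVec, add_mulVec, dotProduct_sub, dotProduct_add]
  linarith

theorem mEndStmt : MEndStmt := fun n w A B0 p vt l l0 a s hw hA _ a0 ha A0 hp hl s0 s1 hv hP he h => by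
  have hJ := J_ge hp hl s0 s1 hv h
  have hm : 0 < l0 - (9 * l + 3 * s) := by linarith
  have le : ∀ v, v ⬝ᵥ covMat w sv *ᵥ v ≤ v ⬝ᵥ Cl w l *ᵥ v := fun v => by
    rw [Cl_quad]; linarith [mul_nonneg hl.le (dnn v)]
  refine ⟨fun v => (le v).trans (inv_le (J_Cl hw hl) hm (fun y => ?_) v), fun v => ?_⟩
  · linarith [hJ y, (hP y).1]
  · rw [covA w hA]
    refine (le _).trans ?_
    have h1 := hJ (Cl w l *ᵥ (A *ᵥ v))
    have h2 := hP (Cl w l *ᵥ (A *ᵥ v))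
    have h3 := psd_am hA A0 (a := 1 / 10) (by norm_num) v (Cl w l *ᵥ (A *ᵥ v))
    rw [mulVec_mulVec _ (Cl w l)⁻¹, J_Cl hw hl, one_mulVec, dotProduct_comm _ (A *ᵥ v)] at h1
    rw [symm_dot hA, show (2 * (1 / 10) : ℝ) = 1 / 5 by norm_num, div_div_eq_mul_div, div_one] at h3
    have h4 := quad_le ha a0 v
    have h5 := mul_le_mul_of_nonneg_right he (dnn (Cl w l *ᵥ (A *ᵥ v)))
    linarith [h2.1, h2.2]

end Crest.Agent.T157.O6m
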