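import Crest.Agent.T157.O6Def_61
import Crest.Agent.T157.OoA_9

set_option autoImplicit false
set_option linter.unusedSectionVars false

/-! Row 157, A2, section 6 (W): from a Haar median to the level `H` (helper20). -/

noncomputable section

namespace Crest.Agent.T157.O6

open MeasureTheory Matrix Crest.Agent.Lib.OrthPoinc Filter Topology Set
open Crest.Agent.T157.Oc Crest.Agent.T157.E Crest.Agent.T157.SL Crest.Agent.T157.Ks
open Crest.Agent.T157.Od Crest.Agent.T157.Oo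

variable {n k : ℕ}

namespace W20

/-- for a positive matrix `OpLe` is the upper form bound -/
theorem opLe_iff {X : Mn n} (h0 : ∀ v, 0 ≤ v ⬝ᵥ X *ᵥ v) (c : ℝ) :
    OpLe X c ↔ ∀ v, v ⬝ᵥ X *ᵥ v ≤ c * (v ⬝ᵥ v) := by
  refine ⟨fun h v => ?_, fun h u hu => by
    rw [abs_of_nonneg (h0 u)]; simpa only [hu, mul_one] using h u⟩
  rcases (dot_self_nonneg v).eq_or_lt with hv | hv
  · rw [dotProduct_self_eq_zero.1 hv.symm]; simp
  · have hs : √(v ⬝ᵥ v) * √(v ⬝ᵥ v) = v ⬝ᵥ v := Real.mul_self_sqrt hv.le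
    have hp : 0 < √(v ⬝ᵥ v) := Real.sqrt_pos.2 hv
    have := (le_abs_self _).trans (h ((√(v ⬝ᵥ v))⁻¹ • v) (by
      rw [smul_dotProduct, dotProduct_smul, smul_eq_mul, smul_eq_mul, ← mul_assoc, ← mul_inv, hs,
        inv_mul_cancel₀ hv.ne']))
    rw [mulVec_smul, smul_dotProduct, dotProduct_smul, smul_eq_mul, smul_eq_mul, ← mul_assoc,
      ← mul_inv, hs, inv_mul_le_iff₀ hv] at this
    linarith

theorem cb_iff {w : Cube n → ℝ} (hw : Wt w) (c : ℝ) : CB w sv c ↔ OpLe (covMat w sv) c :=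
  (opLe_iff (Wt.covMat_quad_nonneg hw sv) c).symm

theorem quad_fA {w : Cube n → ℝ} {A : Mn n} (hA : Aᵀ = A) (v : Vn n) :
    v ⬝ᵥ (A * covMat w sv * A) *ᵥ v = v ⬝ᵥ covMat w (fA A sv) *ᵥ v := by
  rw [← mulVec_mulVec, ← mulVec_mulVec, symm_dot hA, covMat_quad, covMat_quad, dot_fA hA]

theorem cbA_iff {w : Cube n → ℝ} (hw : Wt w) {A : Mn n} (hA : Aᵀ = A) (c : ℝ) :
    CB w (fA A sv) c ↔ OpLe (A * covMat w sv * A) c := by
  rw [opLe_iff fun v => by rw [quad_fA hA]; exact Wt.covMat_quad_nonneg hw _ v]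
  simp only [quad_fA hA]; rfl

theorem core {μ : Measure (Mat k)} [IsProbabilityMeasure μ] (hμ : SOInv μ) (hk : 2 < k)
    {X : Mat k → Mn n} {D : Fin k × Fin k → Mat k → Mn n} (hX : RDM X D)
    (sX : ∀ U ∈ SO k, (X U)ᵀ = X U) {G : Set (Mat k)} (hGm : MeasurableSet G) {T M η m x κ H : ℝ}
    (hT : 0 ≤ T) (hM0 : 0 ≤ M) (hη : μ.real Gᶜ ≤ η) (hm : 0 < m) (hx : 0 < x) (hκ : 1 < κ)
    (hG : ∀ U ∈ G, ∀ v : Vn n, v ⬝ᵥ v = 1 → ∑ a, (v ⬝ᵥ D a U *ᵥ v) ^ 2 ≤ T)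
    (hM : ∀ U ∈ SO k, ∀ v : Vn n, v ⬝ᵥ v = 1 → ∑ a, (v ⬝ᵥ D a U *ᵥ v) ^ 2 ≤ M)
    (hH : 36 * κ ^ 2 * (T + 1) * H ≤ ((k : ℝ) - 2) * x ^ 2)
    (h : μ.real {U | ¬ OpLe (X U) m} ≤ 1 / 2) :
    μ.real {U | ¬ OpLe (X U) (κ * m + x)} ≤ Real.exp (-H) + M * η := by
  obtain ⟨N, hN⟩ := pow_unbounded_of_one_lt ((Fintype.card (Fin n) : ℝ) + 1) hκ
  have hr : (Fintype.card (Fin n) : ℝ) + 1 ≤ κ ^ (2 * N + 1 + 1) :=
    hN.le.trans (pow_le_pow_right₀ hκ.le (by omega))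
  refine (op_hd hμ hk hX sX (r := 2 * N + 1) ⟨N + 1, by ring⟩ (by linarith) hr hGm (A := T + 1)
    (by linarith) hM0 hm hx (fun U _ hU _ v hv => (hG U hU v hv).trans (by linarith)) hM h).trans
    (add_le_add (Real.exp_le_exp.2 (neg_le_neg ?_)) ?_)
  · rw [le_div_iff₀ (by positivity)]; linarith
  · exact mul_le_mul (div_le_self hM0 (by linarith)) hη measureReal_nonneg hM0

end W20

open W20 in
theorem wStmt : WStmt := by
  intro n k o μ _ c R η K δ m x κ H h hm hx hκ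
  have R1 := h.R1
  have hR0 : 0 ≤ R := by linarith
  have cn := crude_nn h.nn.a hR0
  have M0 : 0 ≤ MM R := by unfold MM; positivity
  have p2 : R ^ 2 ≤ R ^ 8 := pow_le_pow_right₀ R1 (by norm_num)
  have p3 : R ^ 3 ≤ R ^ 8 := pow_le_pow_right₀ R1 (by norm_num)
  have p4 : R ^ 4 ≤ R ^ 8 := pow_le_pow_right₀ R1 (by norm_num)
  constructor
  · intro hH hmed
    simp only [cb_iff (Orb.wt _)] at hmed ⊢
    refine core h.inv h.ok.two (rd_C h.ok.iso h.ok.symm Orb.wt0 o.z)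
      (fun U _ => covMat_transpose _ _) Orb.measurableSet_G (T := wC c)
      (mul_nonneg h.nn.lam h.nn.v4) M0 h.G hm hx hκ
      (fun U hU v hv => hU.2.gC h.nn (Orb.wt U) (Orb.A_symm h.ok U) (Orb.fam h.ok hU.1) v hv)
      (fun U hU v hv => ((h.cr U hU).gC cn (Orb.wt U) (Orb.A_symm h.ok U) (Orb.fam h.ok hU) v hv).trans
        ?_) hH hmed
    simp only [Cs.gC, Cs.lam, crude, MM]
    nlinarith [pow_nonneg hR0 8]
  · intro hH hmed
    simp only [cbA_iff (Orb.wt _) (Orb.A_symm h.ok _)] at hmed ⊢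
    have := h.nn.lam; have := h.nn.v4'; have := h.nn.k1; have := h.nn.k2
    refine core h.inv h.ok.two (rd_ACA h.ok.iso h.ok.symm Orb.wt0 o.z)
      (fun U _ => by
        rw [transpose_mul, transpose_mul, AU_symm h.ok.symm, covMat_transpose, Matrix.mul_assoc])
      Orb.measurableSet_G (T := wA c) (by unfold wA; positivity) M0 h.G hm hx hκ
      (fun U hU v hv => (hU.2.gACA h.nn (Orb.wt U) (Orb.A_symm h.ok U) (Orb.fam h.ok hU.1) v hv).trans_eq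
        (by rw [Cs.gACA, wA, sq c.k2]))
      (fun U hU v hv => ((h.cr U hU).gACA cn (Orb.wt U) (Orb.A_symm h.ok U) (Orb.fam h.ok hU) v hv).trans
        ?_) hH hmed
    simp only [Cs.gACA, Cs.lam, crude, MM]
    nlinarith [pow_nonneg hR0 8, mul_le_mul_of_nonneg_left h.Ra (mul_nonneg hR0 hR0)]

end Crest.Agent.T157.O6
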