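import Crest.Agent.T157.OgDef_9
import Crest.Agent.T157.O6mA_17
import Crest.Agent.T157.O6w_20

set_option autoImplicit false

/-!
Row 157, A2 (helper64): (g1), (g2) above `t**` from the event of (m2).
-/

noncomputable section

namespace Crest.Agent.T157.Og

open MeasureTheory Matrix Crest.Agent.Lib.OrthPoinc Filter Topology Set
open Crest.Agent.T157.Oc Crest.Agent.T157.E Crest.Agent.T157.SL Crest.Agent.T157.Ks
open Crest.Agent.T157.Od Crest.Agent.T157.Oo Crest.Agent.T157.O6 Crest.Agent.T157.O0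

namespace HiW64

variable {p : Pm} {t ε H : ℝ}

lemma n_gt (h : LH p t ε H) : (1 : ℝ) < p.n := by
  have h1 := (Real.exp_pos _).trans_le h.ord.n2
  by_contra hn
  exact absurd (Real.log_nonpos (Nat.cast_nonneg _) (not_lt.1 hn)) (not_le.2 h1)

lemma t_pos (h : LH p t ε H) : 0 < t :=
  have := n_gt h
  lt_of_lt_of_le (by unfold Pm.lo; positivity) h.lo

lemma ts_le (h : LH p t ε H) : p.ts ≤ p.tss := by
  have o := h.ord.ok
  refine Real.rpow_le_rpow_of_exponent_le (n_gt h).le ?_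
  linarith [o.ch.2, o.d.2, o.k4.2, o.ch.1]

lemma H_nn (h : LH p t ε H) : 0 ≤ H := by
  have := n_gt h
  have := t_pos h
  have := h.e0
  have := h.ord.ok.ef
  exact le_trans (le_min (by unfold Pm.M; positivity) (by positivity)) h.H0

lemma psd {n k : ℕ} {o : Orb n k} (ho : o.Ok) (h : ∀ v, 0 ≤ v ⬝ᵥ (o.z • (1 : Mn n) - o.W) *ᵥ v)
    {U : Mat k} (hU : U ∈ SO k) (v : Vn n) : 0 ≤ v ⬝ᵥ o.A U *ᵥ v := by
  rw [Orb.A, AU_eq ho.iso hU, ← mulVec_mulVec, ← mulVec_mulVec, dotProduct_mulVec, ← mulVec_transpose]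
  exact h _

end HiW64

open HiW64 in
theorem hiWGlue : HiWGlue := by
  intro nw nh p t ε H η κ k o μ _ x vt X ht k1 kC hv hE
  have L := X.lh
  have n1 := n_gt L
  have t0 := t_pos L
  have H0 := H_nn L
  have e0 := L.e0
  have e1 := L.e1
  have ho := X.ctx.ok
  obtain ⟨w1, w2⟩ := nw p t ε H L
  have w3 := w2 ((ts_le L).trans ht)
  have h9 := (nh p t ε H L ht).2.2.2.2.2.2.2.2
  have l0 : 0 < ll p := Real.rpow_pos_of_pos (by linarith) _
  have s0 : 0 ≤ sm p := Real.rpow_nonneg (by linarith) _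
  have s1 : sm p ≤ 1 := Real.rpow_le_one_of_one_le_of_nonpos n1.le (by norm_num)
  have κ0 : 0 < κ := by linarith
  have h10 : 9 * ll p + 3 * sm p ≤ ε / 16 * (t / κ) := h9.trans (by
    rw [div_mul_div_comm]; gcongr)
  have tk : 0 < t / κ := div_pos t0 κ0
  have key : ∀ U ∈ SO k, Em κ t o x vt U →
      CB (o.w U) sv (κ * (1 + ε / 8) / t) ∧ CB (o.w U) (fA (o.A U) sv) 60 := fun U hU hm => by
    obtain ⟨c1, c2⟩ := O6m.mEndStmt p.n (o.w U) (o.A U) (Bz o x) o.p vt (ll p) (t / κ) 6 (sm p)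
      (Orb.wt U) (Orb.A_symm ho U) (by simp [Bz, transpose_vecMulVec]) (by norm_num)
      (X.ctx.cr U hU).a (psd ho X.fx.psd hU) X.ctx.p1 l0 s0 s1 hv hm.pos (by nlinarith) hm.op
    refine ⟨c1.mono ?_, c2.mono (by norm_num)⟩
    have : (1 - ε / 16) * (t / κ) ≤ t / κ - (9 * ll p + 3 * sm p) := by linarith
    refine (inv_anti₀ (mul_pos (by linarith) tk) this).trans ?_
    rw [inv_le_iff_one_le_mul₀ (mul_pos (by linarith) tk)]
    have : κ * (1 + ε / 8) / t * ((1 - ε / 16) * (t / κ)) = (1 + ε / 8) * (1 - ε / 16) := by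
      field_simp
    rw [this]; nlinarith
  have hk : (k : ℝ) - 2 = ro p := by rw [ro, ← X.fx.pt.dim]; push_cast; ring
  have c := X.ctx.nn
  have wc : 0 ≤ (wC (c1 p t) + 1) * H := by
    have := c.lam; have := c.v4
    unfold wC; positivity
  have wa : 0 ≤ (wA (c1 p t) + 1) * H := by
    have := c.lam; have := c.v4'; have := c.k1; have := c.k2
    unfold wA; positivity
  constructor
  · refine le_trans (measureReal_mono fun U hU hc => hU (CB.mono hc ?_))
      ((wStmt _ _ o μ _ _ _ _ _ (κ * (1 + ε / 8) / t) (ε / (8 * t)) (1 + ε / 8) (3 * H) X.ctx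
        (by positivity) (by positivity) (by linarith)).1 ?_
        (le_trans (real_mono_SO X.ctx.inv fun U hU h hm => h (key U hU hm).1) hE))
    · have : (1 + ε / 8) * (κ * (1 + ε / 8) / t) + ε / (8 * t) =
          (κ * (1 + ε / 8) ^ 2 + ε / 8) / t := by field_simp
      rw [this]
      refine div_le_div_of_nonneg_right ?_ t0.le
      nlinarith [mul_nonneg κ0.le (mul_nonneg e0.le (sub_nonneg.2 e1))]
    · rw [hk]
      have : (1 + ε / 8) ^ 2 ≤ 4 := by nlinarith
      nlinarith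
  · refine le_trans (measureReal_mono fun U hU hc => hU (CB.mono hc (by norm_num)))
      ((wStmt _ _ o μ _ _ _ _ _ 60 (1 / 20) (3 / 2) (3 * H) X.ctx
        (by norm_num) (by norm_num) (by norm_num)).2 ?_
        (le_trans (real_mono_SO X.ctx.inv fun U hU h hm => h (key U hU hm).2) hE))
    rw [hk]
    rw [Pm.kk, if_pos ht] at w3
    nlinarith

end Crest.Agent.T157.Og
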