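import Crest.Agent.T157.O6Def_61
import Crest.Agent.T157.OoA_9

set_option autoImplicit false
set_option linter.unusedSectionVars false

/-!
Row 157, A2, section 6 (helper27): `OpStmt`, `M1Glue`, `M1Stmt`.
-/

noncomputable section

namespace Crest.Agent.T157.O6

open MeasureTheory Matrix Crest.Agent.Lib.OrthPoinc Filter Topology Set
open Crest.Agent.T157.Oc Crest.Agent.T157.E Crest.Agent.T157.SL Crest.Agent.T157.Ks
open Crest.Agent.T157.Od Crest.Agent.T157.Oo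

namespace Op27

variable {n k : ℕ}

theorem opLe_sub {X Y : Mn n} {a b : ℝ} (hX : OpLe X a) (hY : OpLe Y b) : OpLe (X - Y) (a + b) :=
  fun u hu => by
    rw [sub_mulVec, dotProduct_sub]
    exact (abs_sub _ _).trans (add_le_add (hX u hu) (hY u hu))

theorem opLe_EM {ν : Measure (Mat k)} [IsProbabilityMeasure ν] (hν : ∀ᵐ U ∂ν, U ∈ SO k)
    {X : Mat k → Mn n} (hX : ∀ i j, ContinuousOn (fun U => X U i j) (SO k)) {F : ℝ}
    (hF : ∀ U ∈ SO k, OpLe (X U) F) : OpLe (EM ν X) F := fun u hu => by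
  rw [dot_EM hν hX]
  have := norm_integral_le_of_norm_le_const (μ := ν) (f := fun U => u ⬝ᵥ X U *ᵥ u) (C := F)
    (hν.mono fun U hU => hF U hU u hu)
  simpa using this

/-- homogeneous form of `OpLe` -/
theorem opLe_form {X : Mn n} {a : ℝ} (h : OpLe X a) (v : Vn n) : |v ⬝ᵥ X *ᵥ v| ≤ a * (v ⬝ᵥ v) := by
  rcases (dot_self_nonneg v).eq_or_lt with h0 | h0
  · have : v = 0 := dotProduct_self_eq_zero.1 h0.symm
    simp [this]
  · have hs := Real.sqrt_pos.2 h0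
    have e := Real.mul_self_sqrt h0.le
    have h1 := h ((√(v ⬝ᵥ v))⁻¹ • v) (by
      rw [smul_dotProduct, dotProduct_smul, smul_eq_mul, smul_eq_mul]
      field_simp
      rw [sq, e])
    rw [mulVec_smul, smul_dotProduct, dotProduct_smul, smul_eq_mul, smul_eq_mul, ← mul_assoc, ← mul_inv,
      e, abs_mul, abs_of_pos (inv_pos.2 h0), inv_mul_le_iff₀ h0] at h1
    linarith

theorem opLe_of_op2 {X : Mn n} {a : ℝ} (ha : 0 ≤ a) (h : Op2 X (a ^ 2)) : OpLe X a := fun u hu => by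
  have h1 := h u
  have h2 := Finset.sum_mul_sq_le_sq_mul_sq Finset.univ u (X *ᵥ u)
  simp only [sq] at h2
  change (u ⬝ᵥ X *ᵥ u) * (u ⬝ᵥ X *ᵥ u) ≤ (u ⬝ᵥ u) * (X *ᵥ u ⬝ᵥ X *ᵥ u) at h2
  rw [hu] at h1 h2
  exact abs_le_of_sq_le_sq (by nlinarith) ha

theorem quad_fA {w : Cube n → ℝ} {A : Mn n} (hA : Aᵀ = A) (v : Vn n) :
    v ⬝ᵥ covMat w (fA A sv) *ᵥ v = v ⬝ᵥ (A * covMat w sv * A) *ᵥ v := by
  rw [covMat_quad, dot_fA hA, ← covMat_quad, ← mulVec_mulVec, ← mulVec_mulVec, symm_dot hA v]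

theorem crude_gCx {a R : ℝ} (R1 : 1 ≤ R) : (crude a R).gCx ≤ MM R := by
  have h2 : 1 ≤ R ^ 2 := one_le_pow₀ R1
  have h4 : R ^ 4 ≤ R ^ 8 := pow_le_pow_right₀ R1 (by norm_num)
  have h3 : R ^ 2 ≤ R ^ 4 := pow_le_pow_right₀ R1 (by norm_num)
  simp only [Cs.gCx, crude, MM]
  nlinarith

theorem crude_gPhiO {a R : ℝ} (R1 : 1 ≤ R) (ha : a ^ 2 ≤ R) : (crude a R).gPhiO ≤ MM R := by
  have h2 : 1 ≤ R ^ 2 := one_le_pow₀ R1
  have h4 : R ^ 4 ≤ R ^ 8 := pow_le_pow_right₀ R1 (by norm_num)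
  have h3 : R ^ 2 ≤ R ^ 4 := pow_le_pow_right₀ R1 (by norm_num)
  have h5 : R ^ 3 ≤ R ^ 4 := pow_le_pow_right₀ R1 (by norm_num)
  have h6 : a ^ 2 * R ^ 2 ≤ R * R ^ 2 := by gcongr
  simp only [Cs.gPhiO, crude, MM]
  nlinarith

theorem le_MM {R : ℝ} (R1 : 1 ≤ R) : 4 * R ≤ MM R := by
  have h4 : R ^ 1 ≤ R ^ 8 := pow_le_pow_right₀ R1 (by norm_num)
  simp only [MM]
  nlinarith

/-- comparison of the forms of two means -/
theorem form_EM_le {ν : Measure (Mat k)} [IsProbabilityMeasure ν] (hν : ∀ᵐ U ∂ν, U ∈ SO k)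
    {X Y : Mat k → Mn n} (hX : ∀ i j, ContinuousOn (fun U => X U i j) (SO k))
    (hY : ∀ i j, ContinuousOn (fun U => Y U i j) (SO k)) (v : Vn n)
    (h : ∀ U ∈ SO k, v ⬝ᵥ X U *ᵥ v ≤ v ⬝ᵥ Y U *ᵥ v) : v ⬝ᵥ EM ν X *ᵥ v ≤ v ⬝ᵥ EM ν Y *ᵥ v := by
  have hc : ∀ {Z : Mat k → Mn n}, (∀ i j, ContinuousOn (fun U => Z U i j) (SO k)) →
      ContinuousOn (fun U => v ⬝ᵥ Z U *ᵥ v) (SO k) := fun hZ => by
    simp only [dotProduct, mulVec]
    exact continuousOn_finsetSum _ fun i _ => continuousOn_const.mul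
      (continuousOn_finsetSum _ fun j _ => (hZ i j).mul continuousOn_const)
  rw [dot_EM hν hX, dot_EM hν hY]
  exact integral_mono_ae (Oo.int_of hν (hc hX)) (Oo.int_of hν (hc hY)) (hν.mono h)

theorem form_sm2 (w : Cube n → ℝ) (p v : Vn n) : v ⬝ᵥ covMat w sv *ᵥ v ≤ v ⬝ᵥ sm2 w sv p *ᵥ v := by
  rw [sm2, add_mulVec, dotProduct_add, vecMulVec_mulVec, dotProduct_smul, dotProduct_comm v (_ - p)]
  simp only [MulOpposite.smul_eq_mul_unop, MulOpposite.unop_op]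
  nlinarith [mul_self_nonneg ((meanV w sv - p) ⬝ᵥ v)]

theorem c_sq2 (o : Orb n k) : Continuous (sq2 o) :=
  Orb.c_C.add (continuous_pi fun i => continuous_pi fun j =>
    ((continuous_apply i).comp Orb.c_d).mul ((continuous_apply j).comp Orb.c_d))

theorem cOn {X : Mat k → Mn n} (h : Continuous X) (i j : Fin n) :
    ContinuousOn (fun U => X U i j) (SO k) := (h.matrix_elem i j).continuousOn

theorem pim_nn {n k r : ℕ} {B M η s : ℝ} (hk : 2 < k) (hB : 0 ≤ B) (hM : 0 ≤ M) (hη : 0 ≤ η)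
    (hs : 0 < s) : 0 ≤ pim n k r B M η s := by
  have : (0 : ℝ) < (k : ℝ) - 2 := by
    have : (2 : ℝ) < k := by exact_mod_cast hk
    linarith
  unfold pim; positivity

end Op27

open Op27

theorem opStmt : OpStmt := by
  intro n k μ ν _ _ X D G B M F η K δ s r hμ hk hν hX sX hG K0 tr B0 M0 hs hr h1 h2 h3
  obtain ⟨G', m', sub, e'⟩ := exists_good μ G
  have hρ0 : (0 : ℝ) < (k : ℝ) - 2 := by
    have : (2 : ℝ) < k := by exact_mod_cast hk
    linarith
  have a1 : μ.real {U | ¬ OpLe (X U - EM μ X) s} ≤ pim n k r B M η s := by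
    refine (mm_op hμ hk hX sX m' B0 hs (fun U hU h => h1 U hU (sub h)) h2 hr).trans ?_
    rw [pim, Fintype.card_fin, e']
    gcongr
  have hc : ∀ i j, ContinuousOn (fun U => X U i j) (SO k) := fun i j => (hX i j).c
  have a2 := opLe_EM hμ.mem hc h3
  have a3 := em_near_op hν hc (EM μ X) hs.le fun U hU => opLe_sub (h3 U hU) a2
  refine le_trans (real_mono_SO hμ fun U hU h => ?_) a1
  simp only [Set.mem_ofPred_eq] at h ⊢
  intro h'
  refine h fun u hu => ?_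
  have F0 : 0 ≤ F := (abs_nonneg _).trans (h3 U hU u hu)
  have a4 := opLe_sub h' a3 u hu
  rw [sub_sub_sub_cancel_right] at a4
  have a5 := (tr {U | ¬ OpLe (X U - EM μ X) s}).trans
    (add_le_add (mul_le_mul_of_nonneg_left a1 K0) le_rfl)
  have a6 := mul_le_mul_of_nonneg_left a5 (add_nonneg F0 F0)
  linarith

theorem m1Glue : M1Glue := by
  intro hOp n k o μ _ c R η K δ s m ε r h hs hr
  have := Orb.P_prob h.inv h.ok
  have hP := Orb.P_mem (o := o) h.inv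
  have R0 : 0 ≤ R := zero_le_one.trans h.R1
  have hcr := crude_nn h.nn.a R0
  have hM := le_MM h.R1
  have K0 : 0 ≤ K := zero_le_one.trans h.K1
  have η0 : 0 ≤ η := measureReal_nonneg.trans h.G
  have nn := h.nn
  constructor
  · intro hε hm
    have e : c.gCx = bC c := by simp only [Cs.gCx, bC, rC]; ring
    have B0 : 0 ≤ bC c := by
      have := nn.a1; have := nn.k1; have := nn.k2; have := nn.c2; have := nn.t4; have := nn.t3
      have := nn.d0; have := nn.e0; have := nn.t3'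
      unfold bC rC; positivity
    have rd := rd_Cx (p := o.p) (σ := sv) h.ok.iso h.ok.symm (Orb.wt0 (o := o)) o.z
    have q : ∀ U (Z : Mn n) v, v ⬝ᵥ ((o.g U)ᵀ * Z * o.g U) *ᵥ v = o.g U *ᵥ v ⬝ᵥ Z *ᵥ (o.g U *ᵥ v) :=
      fun U Z v => by rw [← mulVec_mulVec, ← mulVec_mulVec, dot_tp]
    have a1 := hOp n k μ (o.P μ) _ _ (o.G c) (bC c) (MM R) R η K δ s r h.inv h.ok.two hP rd
      (fun U _ => by simp only [transpose_mul, transpose_transpose, covMat_transpose, Matrix.mul_assoc])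
      h.G K0 h.tr B0 (by linarith) hs hr
      (fun U _ hU v => e ▸ Orb.gCxx h.ok h.nn hU v)
      (fun U hU v => (Orb.gCxx h.ok hcr ⟨hU, h.cr U hU⟩ v).trans
        (mul_le_mul_of_nonneg_right (crude_gCx h.R1) (dot_self_nonneg v)))
      (fun U hU u hu => by
        rw [q, abs_of_nonneg ((Orb.wt U).covMat_quad_nonneg _ _)]
        refine ((h.cr U hU).k1 _).trans ?_
        rw [Op2.orth (emb_orth' h.ok.iso hU), hu, mul_one]; rfl)
    refine le_trans (real_mono_SO h.inv fun U hU h0 => ?_) a1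
    simp only [Set.mem_ofPred_eq] at h0 ⊢
    intro h'
    refine h0 fun v => ?_
    have g1 := emb_orth h.ok.iso hU
    have b1 := (le_abs_self _).trans (opLe_form h' ((o.g U)ᵀ *ᵥ v))
    have b2 := form_EM_le hP (fun i j => (rd i j).c)
      (cOn ((Orb.c_g.matrix_transpose.mul (c_sq2 o)).mul Orb.c_g)) ((o.g U)ᵀ *ᵥ v)
      fun V _ => by
        change _ ⬝ᵥ ((o.g V)ᵀ * _ * o.g V) *ᵥ _ ≤ _ ⬝ᵥ ((o.g V)ᵀ * sq2 o V * o.g V) *ᵥ _
        rw [q, q]; exact form_sm2 _ _ _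
    have b3 := hm ((o.g U)ᵀ *ᵥ v)
    have b4 : (o.g U)ᵀ *ᵥ v ⬝ᵥ (o.g U)ᵀ *ᵥ v = v ⬝ᵥ v := Op2.orth (by rwa [transpose_transpose]) v
    rw [sub_mulVec, dotProduct_sub, q, mulVec_mulVec, g1, one_mulVec, b4] at b1
    rw [b4] at b3
    have p0 := pim_nn (n := n) (r := r) (M := MM R) h.ok.two B0 (by linarith) η0 hs
    have b5 : 2 * R * (K * pim n k r (bC c) (MM R) η s + δ) ≤ ε :=
      (mul_le_mul_of_nonneg_right (by linarith) (add_nonneg (mul_nonneg K0 p0) h.δ0)).trans hε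
    have b6 := mul_le_mul_of_nonneg_right b5 (dot_self_nonneg v)
    have b7 := b2.trans b3
    linarith
  · intro hε hm
    have e : c.gPhiO = bPhi c := by simp only [Cs.gPhiO, bPhi, rA]; ring
    have B0 : 0 ≤ bPhi c := by
      have := nn.a1; have := nn.k1; have := nn.k2; have := nn.b; have := nn.q4; have := nn.q3
      have := nn.d0; have := nn.e0; have := nn.q3'
      unfold bPhi rA; positivity
    have rd := rd_Phi (p := o.p) (σ := sv) h.ok.iso h.ok.symm (Orb.wt0 (o := o)) o.z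
    have aR : c.a ≤ R := by nlinarith [h.Ra, h.R1, sq_nonneg (c.a - 1)]
    have a1 := hOp n k μ (o.P μ) _ _ (o.G c) (bPhi c) (MM R) (R + c.a) η K δ s r h.inv h.ok.two hP rd
      (fun U _ => by
        simp only [transpose_sub, transpose_mul, covMat_transpose, Matrix.mul_assoc,
          AU_symm h.ok.symm])
      h.G K0 h.tr B0 (by linarith) hs hr
      (fun U _ hU v => e ▸ hU.2.gPhiO h.nn (Orb.wt U) (Orb.A_symm h.ok U) (Orb.fam h.ok hU.1) v)
      (fun U hU v => ((h.cr U hU).gPhiO hcr (Orb.wt U) (Orb.A_symm h.ok U) (Orb.fam h.ok hU) v).trans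
        (mul_le_mul_of_nonneg_right (crude_gPhiO h.R1 h.Ra) (dot_self_nonneg v)))
      (fun U hU => opLe_sub (opLe_of_op2 R0 (by
        rw [sq]; exact op2_ACA (Orb.wt U) (Orb.A_symm h.ok U) R0 (h.cr U hU).k2))
        (opLe_of_op2 nn.a.le (h.cr U hU).a))
    refine le_trans (real_mono_SO h.inv fun U hU h0 => ?_) a1
    simp only [Set.mem_ofPred_eq] at h0 ⊢
    intro h'
    refine h0 fun v => ?_
    have b1 := (le_abs_self _).trans (opLe_form h' v)
    have q : ∀ V (Z : Mn n), v ⬝ᵥ (o.A V * Z * o.A V - o.A V) *ᵥ v =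
        o.A V *ᵥ v ⬝ᵥ Z *ᵥ (o.A V *ᵥ v) - v ⬝ᵥ o.A V *ᵥ v := fun V Z => by
      rw [sub_mulVec, dotProduct_sub, ← mulVec_mulVec, ← mulVec_mulVec, symm_dot (Orb.A_symm h.ok V) v]
    have b2 := form_EM_le hP (fun i j => (rd i j).c)
      (cOn (((Orb.c_A.mul (c_sq2 o)).mul Orb.c_A).sub Orb.c_A)) v
      fun V _ => by
        change _ ⬝ᵥ (o.A V * _ * o.A V - o.A V) *ᵥ _ ≤ _ ⬝ᵥ (o.A V * sq2 o V * o.A V - o.A V) *ᵥ _
        rw [q, q]; exact sub_le_sub_right (form_sm2 _ _ _) _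
    have b3 := hm v
    have b4 := (le_abs_self _).trans (opLe_form (opLe_of_op2 nn.a.le (h.cr U hU).a) v)
    rw [sub_mulVec, dotProduct_sub, sub_mulVec, dotProduct_sub, ← quad_fA (Orb.A_symm h.ok U)] at b1
    have p0 := pim_nn (n := n) (r := r) (M := MM R) h.ok.two B0 (by linarith) η0 hs
    have b5 : 2 * (R + c.a) * (K * pim n k r (bPhi c) (MM R) η s + δ) ≤ 1 :=
      (mul_le_mul_of_nonneg_right (by linarith) (add_nonneg (mul_nonneg K0 p0) h.δ0)).trans hε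
    have b6 := mul_le_mul_of_nonneg_right b5 (dot_self_nonneg v)
    have b7 := b2.trans b3
    linarith

theorem m1Stmt : M1Stmt := m1Glue opStmt

end Crest.Agent.T157.O6
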