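import Crest.Agent.T157.O6Def_61
import Crest.Agent.T157.OoA_9

set_option autoImplicit false
set_option linter.unusedSectionVars false

/-! Row 157, A2, section 6 (helper61): `ScStmt`, `FGlue`, `G3Stmt`, `G4Stmt`. -/

noncomputable section

namespace Crest.Agent.T157.O6

open MeasureTheory Matrix Crest.Agent.Lib.OrthPoinc Filter Topology Set
open Crest.Agent.T157.Oc Crest.Agent.T157.E Crest.Agent.T157.SL Crest.Agent.T157.Ks
open Crest.Agent.T157.Od Crest.Agent.T157.Oo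

variable {n k : ℕ}

theorem sum_sub_le2 {κ : Type*} [Fintype κ] (a b c : κ → ℝ) :
    ∑ i, (a i - c i) ^ 2 ≤ 2 * ∑ i, (a i - b i) ^ 2 + 2 * ∑ i, (c i - b i) ^ 2 := by
  rw [Finset.mul_sum, Finset.mul_sum, ← Finset.sum_add_distrib]
  exact Finset.sum_le_sum fun i _ => by nlinarith [sq_nonneg (a i + c i - 2 * b i)]

theorem dir_le_tot {κ ι : Type*} [Fintype κ] [Fintype ι] (D : ι → κ → ℝ) (v : κ → ℝ) :
    ∑ a, (v ⬝ᵥ D a) ^ 2 ≤ (∑ i, ∑ a, D a i ^ 2) * (v ⬝ᵥ v) := by
  rw [Finset.sum_comm, Finset.sum_mul]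
  refine Finset.sum_le_sum fun a _ => ?_
  have := Finset.sum_mul_sq_le_sq_mul_sq Finset.univ v (D a)
  simpa only [dotProduct, ← sq, mul_comm] using this

section
variable {ν : Measure (Mat k)} [IsProbabilityMeasure ν] (hν : ∀ᵐ U ∂ν, U ∈ SO k)
  {κ : Type*} [Fintype κ] {x : Mat k → κ → ℝ} (hx : ∀ i, ContinuousOn (fun U => x U i) (SO k))
include hν hx

theorem c_sub_sq (x0 : κ → ℝ) : ContinuousOn (fun U => ∑ i, (x U i - x0 i) ^ 2) (SO k) :=
  continuousOn_finsetSum _ fun i _ => ((hx i).sub continuousOn_const).pow 2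

/-- the mean minimises the quadratic distance -/
theorem int_sub_EV_le (x0 : κ → ℝ) :
    ∫ U, ∑ i, (x U i - EV ν x i) ^ 2 ∂ν ≤ ∫ U, ∑ i, (x U i - x0 i) ^ 2 ∂ν := by
  have ii : ∀ (y : κ → ℝ) i, Integrable (fun U => (x U i - y i) ^ 2) ν := fun y i =>
    int_of hν (((hx i).sub continuousOn_const).pow 2)
  rw [integral_finsetSum _ fun i _ => ii _ i, integral_finsetSum _ fun i _ => ii _ i]
  refine Finset.sum_le_sum fun i _ => ?_
  have e : ∀ c : ℝ, ∫ U, (x U i - c) ^ 2 ∂ν = ∫ U, x U i ^ 2 ∂ν - 2 * c * EV ν x i + c ^ 2 := fun c => by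
    have i1 : Integrable (fun U => x U i) ν := int_of hν (hx i)
    have i2 : Integrable (fun U => x U i ^ 2) ν := int_of hν ((hx i).pow 2)
    have i3 : Integrable (fun U => x U i ^ 2 - 2 * c * x U i) ν := i2.sub (i1.const_mul _)
    have : (fun U => (x U i - c) ^ 2) = fun U => x U i ^ 2 - 2 * c * x U i + c ^ 2 := by
      funext U; ring
    rw [this, integral_add i3 (integrable_const _),
      integral_sub i2 (i1.const_mul _), integral_const_mul]
    simp [EV]
  rw [e, e]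
  nlinarith [sq_nonneg (x0 i - EV ν x i)]

theorem EV_sq_le {F : ℝ} (F0 : 0 ≤ F) (hF : ∀ U ∈ SO k, ∑ i, x U i ^ 2 ≤ F) :
    ∑ i, EV ν x i ^ 2 ≤ F := by
  have h := ev_near hν hx 0 F0 (M := 0 + F) fun U hU => by simpa using hF U hU
  have h2 : ν.real {U | F < ∑ i, (x U i - (0 : κ → ℝ) i) ^ 2} = 0 := by
    rw [measureReal_eq_zero_iff]
    refine measure_mono_null (fun U hU => ?_) (ae_iff.1 hν)
    intro hS
    have := hF U hS
    simp only [Pi.zero_apply, sub_zero, mem_ofPred_eq] at hU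
    linarith
  rw [h2] at h
  simpa using h

end

theorem scStmt : ScStmt := by
  intro k μ ν _ _ κ _ x D G T A M F η K δ H hμ hk hν hx hG K0 tr T0 A0 M0 Mη H0 hT hA hM hF
  obtain ⟨G', mG, sG, eG⟩ := exists_good μ G
  have ρ0 : 0 < (k : ℝ) - 2 := by
    have : (2 : ℝ) < k := by exact_mod_cast hk
    linarith
  have hc : ∀ i, ContinuousOn (fun U => x U i) (SO k) := fun i => (hx i).c
  have η0 : 0 ≤ η := measureReal_nonneg.trans hG
  have δ0 : 0 ≤ δ := by simpa using tr ∅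
  have F0 : 0 ≤ F := by
    obtain ⟨U, hU⟩ := hν.exists
    exact le_trans (by positivity) (hF U hU)
  have r0 : 0 ≤ rad k T A H := by unfold rad; positivity
  have π0 : 0 ≤ Real.exp (-H) + M * η := by positivity
  have hG' : M * μ.real G'ᶜ ≤ M * η := mul_le_mul_of_nonneg_left (eG ▸ hG) M0
  -- the Haar tail
  have key : μ.real {U | rad k T A H < ∑ i, (x U i - EV μ x i) ^ 2} ≤ Real.exp (-H) + M * η := by
    rcases H0.eq_or_lt with rfl | H1
    · refine measureReal_le_one.trans ?_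
      simp only [neg_zero, Real.exp_zero]
      nlinarith [mul_nonneg M0 η0]
    have c0 : 0 < √(2 * (T + 2) / ((k : ℝ) - 2)) := Real.sqrt_pos.2 (by positivity)
    have y0 : 0 < √(36 * (A + 1) * H / ((k : ℝ) - 2)) := Real.sqrt_pos.2 (by positivity)
    have c2 : √(2 * (T + 2) / ((k : ℝ) - 2)) ^ 2 = 2 * (T + 2) / ((k : ℝ) - 2) :=
      Real.sq_sqrt (by positivity)
    have y2 : √(36 * (A + 1) * H / ((k : ℝ) - 2)) ^ 2 = 36 * (A + 1) * H / ((k : ℝ) - 2) :=
      Real.sq_sqrt (by positivity)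
    have hm := vec_med hμ hk hx mG T0 (fun U hU h => hT U hU (sG h)) hM c0 (by
      rw [c2, div_eq_mul_inv]
      have := inv_pos.2 ρ0
      nlinarith)
    have hh := vec_hd hμ hk hx (EV μ x) mG (A := A + 1) (M := M) (by linarith) M0 c0.le y0
      (fun U hU h _ v => (hA U hU (sG h) v).trans (by nlinarith [dot_self_nonneg v]))
      (fun U hU v => (dir_le_tot (fun a => D a U) v).trans
        (mul_le_mul_of_nonneg_right (hM U hU) (dot_self_nonneg v))) hm
    refine (measureReal_mono fun U hU => ?_).trans (hh.trans (add_le_add (le_of_eq ?_) ?_))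
    · simp only [mem_ofPred_eq] at hU ⊢
      refine le_trans ?_ hU.le
      have e : rad k T A H = 2 * (2 * (T + 2) / ((k : ℝ) - 2)) + 8 * (36 * (A + 1) * H / ((k : ℝ) - 2)) := by
        unfold rad; ring
      rw [e]
      nlinarith [sq_nonneg (√(2 * (T + 2) / ((k : ℝ) - 2)) - 2 * √(36 * (A + 1) * H / ((k : ℝ) - 2)))]
    · rw [y2]
      congr 1
      field_simp
    · refine le_trans (mul_le_mul_of_nonneg_right (div_le_self M0 (by linarith)) measureReal_nonneg) hG'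
  have keyν : ν.real {U | rad k T A H < ∑ i, (x U i - EV μ x i) ^ 2} ≤
      K * (Real.exp (-H) + M * η) + δ := (tr _).trans (by gcongr)
  have b4 : ∀ U ∈ SO k, ∑ i, (x U i - EV μ x i) ^ 2 ≤ 4 * F := fun U hU => by
    have h1 := sum_sub_le2 (x U) 0 (EV μ x)
    have h2 := EV_sq_le hμ.mem hc F0 hF
    have h3 := hF U hU
    simp only [Pi.zero_apply, sub_zero] at h1
    linarith
  have b5 := mul_le_mul_of_nonneg_left keyν (by linarith : 0 ≤ 4 * F)
  constructor
  · refine le_trans (measureReal_mono fun U hU => ?_) key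
    have h1 := ev_near hν hc (EV μ x) r0 b4
    have h2 := sum_sub_le2 (x U) (EV μ x) (EV ν x)
    simp only [mem_ofPred_eq] at hU ⊢
    linarith
  · refine (int_sub_EV_le hν hc (EV μ x)).trans ((int_le_bad hν (c_sub_sq hν hc _) r0
      {U | rad k T A H < ∑ i, (x U i - EV μ x i) ^ 2} (fun U _ h => not_lt.1 h) b4).trans ?_)
    linarith

/-- (SC) for matrices -/
theorem scM {μ ν : Measure (Mat k)} [IsProbabilityMeasure μ] [IsProbabilityMeasure ν]
    {X : Mat k → Mn n} {D : Fin k × Fin k → Mat k → Mn n} {G : Set (Mat k)} {T A M F η K δ H : ℝ}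
    (hμ : SOInv μ) (hk : 2 < k) (hν : ∀ᵐ U ∂ν, U ∈ SO k) (hX : RDM X D) (hG : μ.real Gᶜ ≤ η)
    (K0 : 0 ≤ K) (tr : ∀ S, ν.real S ≤ K * μ.real S + δ) (T0 : 0 ≤ T) (A0 : 0 ≤ A) (M0 : 0 ≤ M)
    (Mη : M * η ≤ 1) (H0 : 0 ≤ H) (hT : ∀ U ∈ SO k, U ∈ G → ∑ a, fr (D a U) ≤ T)
    (hA : ∀ U ∈ SO k, U ∈ G → ∀ V : Mn n, ∑ a, ipF V (D a U) ^ 2 ≤ A * fr V)
    (hM : ∀ U ∈ SO k, ∑ a, fr (D a U) ≤ M) (hF : ∀ U ∈ SO k, fr (X U) ≤ F) :
    μ.real {U | 4 * rad k T A H + 8 * F * (K * (Real.exp (-H) + M * η) + δ) < fr (X U - EM ν X)} ≤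
      Real.exp (-H) + M * η := by
  have h := (scStmt k μ ν (Fin n × Fin n) _ _ G T A M F η K δ H hμ hk hν hX.vec hG K0 tr T0 A0 M0 Mη H0
    (fun U hU h => (sum_fr fun a => D a U).trans_le (hT U hU h)) (fun U hU h v => ?_)
    (fun U hU => (sum_fr fun a => D a U).trans_le (hM U hU))
    (fun U hU => (Fintype.sum_prod_type _).trans_le (hF U hU))).1
  · simp only [Fintype.sum_prod_type] at h
    exact h
  · have := hA U hU h (Matrix.of fun j l => v (j, l))
    simpa only [ipF, fr, dotProduct, Fintype.sum_prod_type, of_apply, sq] using this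

section
variable {ν : Measure (Mat k)} [IsProbabilityMeasure ν] (hν : ∀ᵐ U ∂ν, U ∈ SO k)
include hν

theorem EM_sub {X Y Z : Mat k → Mn n} (hX : Continuous X) (hY : Continuous Y)
    (e : ∀ U, Z U = X U - Y U) : EM ν Z = EM ν X - EM ν Y := by
  rw [show Z = fun U => X U - Y U from funext e]
  ext i j
  exact integral_sub (int_of hν (hX.matrix_elem i j).continuousOn)
    (int_of hν (hY.matrix_elem i j).continuousOn)

/-- `|E a bᵀ|_F² ≤ E|a|² E|b|²` -/
theorem fr_EM_vmv {a b : Mat k → Vn n} (ha : Continuous a) (hb : Continuous b) :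
    fr (EM ν fun U => vecMulVec (a U) (b U)) ≤ (∫ U, a U ⬝ᵥ a U ∂ν) * ∫ U, b U ⬝ᵥ b U ∂ν := by
  have ia : ∀ i, Integrable (fun U => a U i * a U i) ν := fun i =>
    int_of hν (((continuous_apply i).comp ha).mul ((continuous_apply i).comp ha)).continuousOn
  have ib : ∀ i, Integrable (fun U => b U i * b U i) ν := fun i =>
    int_of hν (((continuous_apply i).comp hb).mul ((continuous_apply i).comp hb)).continuousOn
  simp only [dotProduct]
  rw [integral_finsetSum _ fun i _ => ia i, integral_finsetSum _ fun i _ => ib i, Finset.sum_mul_sum]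
  refine Finset.sum_le_sum fun i _ => Finset.sum_le_sum fun j _ => ?_
  have iab : Integrable (fun U => a U i * b U j) ν :=
    int_of hν (((continuous_apply i).comp ha).mul ((continuous_apply j).comp hb)).continuousOn
  have q : ∀ t : ℝ, 0 ≤ (∫ U, a U i * a U i ∂ν) * (t * t) + (2 * ∫ U, a U i * b U j ∂ν) * t +
      ∫ U, b U j * b U j ∂ν := fun t => by
    have i1 : Integrable (fun U => a U i * a U i * (t * t) + 2 * (a U i * b U j) * t) ν :=
      ((ia i).mul_const _).add ((iab.const_mul _).mul_const _)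
    rw [← integral_const_mul, ← integral_mul_const, ← integral_mul_const,
      ← integral_add ((ia i).mul_const _) ((iab.const_mul _).mul_const _), ← integral_add i1 (ib j)]
    exact integral_nonneg fun U => by
      simp only [Pi.zero_apply]; nlinarith [sq_nonneg (a U i * t + b U j)]
  have := discrim_le_zero q
  simp only [EM, of_apply, vecMulVec_apply]
  rw [discrim] at this
  nlinarith

end

theorem MM_pos {R : ℝ} (h : 1 ≤ R) : 0 < MM R := by unfold MM; positivity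

theorem le_MM {R x : ℝ} (h : 1 ≤ R) (j : ℕ) (hj : j ≤ 8) (hx : x ≤ 10 ^ 7) : x * R ^ j ≤ MM R :=
  mul_le_mul hx (pow_le_pow_right₀ h hj) (by positivity) (by positivity)

namespace Ctx
variable {o : Orb n k} {μ : Measure (Mat k)} [IsProbabilityMeasure μ] {c : Cs} {R η K δ : ℝ}
  (h : Ctx o μ c R η K δ)
include h

theorem η0 : 0 ≤ η := measureReal_nonneg.trans h.G
theorem K0 : 0 ≤ K := zero_le_one.trans h.K1
theorem R0 : 0 ≤ R := zero_le_one.trans h.R1
theorem prob : IsProbabilityMeasure (o.P μ) := Orb.P_prob h.inv h.ok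
theorem mem : ∀ᵐ U ∂o.P μ, U ∈ SO k := Orb.P_mem h.inv
theorem cnn : (crude c.a R).Nn := crude_nn h.nn.a h.R0
theorem crG {U : Mat k} (hU : U ∈ SO k) : U ∈ o.G (crude c.a R) := ⟨hU, h.cr U hU⟩

theorem Mη : MM R * η ≤ 1 := le_trans (mul_le_mul_of_nonneg_left
  (by nlinarith [h.η0, h.K1, h.δ0]) (MM_pos h.R1).le) h.sm

theorem PG : MM R * (o.P μ).real (o.G c)ᶜ ≤ 1 := le_trans (mul_le_mul_of_nonneg_left
  ((h.tr _).trans (add_le_add (mul_le_mul_of_nonneg_left h.G h.K0) le_rfl)) (MM_pos h.R1).le) h.sm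

theorem RG : 4 * R * (o.P μ).real (o.G c)ᶜ ≤ 1 := le_trans (mul_le_mul_of_nonneg_right
  (by simpa using le_MM (x := 4) h.R1 1 (by norm_num) (by norm_num)) measureReal_nonneg) h.PG

theorem int_d : ∫ U, o.d U ⬝ᵥ o.d U ∂o.P μ ≤ c.d0 + 1 :=
  haveI := h.prob
  (int_le_bad h.mem (Orb.c_d.dotProduct Orb.c_d).continuousOn h.nn.d0 (o.G c)ᶜ
    (fun _ _ hU => (not_not.1 hU).2.d0) fun U hU => (h.cr U hU).d0).trans (add_le_add le_rfl h.RG)

theorem int_Ad : ∫ U, o.A U *ᵥ o.d U ⬝ᵥ o.A U *ᵥ o.d U ∂o.P μ ≤ c.e0 + 1 :=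
  haveI := h.prob
  (int_le_bad h.mem ((Orb.c_A.matrix_mulVec Orb.c_d).dotProduct
    (Orb.c_A.matrix_mulVec Orb.c_d)).continuousOn h.nn.e0 (o.G c)ᶜ
    (fun _ _ hU => (not_not.1 hU).2.e0) fun U hU => (h.cr U hU).e0).trans (add_le_add le_rfl h.RG)

end Ctx

theorem c_sq2 (o : Orb n k) : Continuous (sq2 o) :=
  Orb.c_C.add (Orb.c_d.matrix_vecMulVec Orb.c_d)

theorem c_Ad (o : Orb n k) : Continuous fun U => o.A U *ᵥ o.d U := Orb.c_A.matrix_mulVec Orb.c_d

theorem fr_split (X Y Z : Mn n) : fr X ≤ 2 * fr (X - (Y - Z)) + 4 * fr Y + 4 * fr Z := by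
  have h1 := fr_add_le (X - (Y - Z)) (Y - Z)
  have h2 := fr_sub_le Y Z
  rw [sub_add_cancel] at h1
  linarith

theorem g4Stmt : G4Stmt := by
  intro n k o μ _ c R η K δ H m h H0 sm hm
  have := h.prob
  have nn := h.nn
  have R1 := h.R1
  have l0 := nn.lam
  have a2 : c.a ^ 2 * R ^ 4 ≤ R ^ 5 := by
    rw [pow_succ' R 4]; exact mul_le_mul_of_nonneg_right h.Ra (by positivity)
  have T0 : 0 ≤ tPhi c := by
    have := nn.b; have := nn.a1; have := nn.s2; have := nn.s1; have := nn.d0; have := nn.e0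
    unfold tPhi rAA; positivity
  have A0 : 0 ≤ uPhi c := by
    have := nn.N'; have := nn.k1; have := nn.k2
    unfold uPhi; positivity
  have key := scM (T := tPhi c) (A := uPhi c) (M := MM R) (F := 34 * R ^ 2) h.inv h.ok.two h.mem
    (rd_Phi h.ok.iso h.ok.symm Orb.wt0 o.z) h.G h.K0 h.tr T0 A0 (MM_pos R1).le h.Mη H0
    (fun U hU hG => (hG.2.gPhi nn (Orb.wt U) (Orb.A_symm h.ok U) (Orb.fam h.ok hU)).trans_eq rfl)
    (fun U hU hG V => (hG.2.gPhiU nn (Orb.wt U) (Orb.A_symm h.ok U) (Orb.fam h.ok hU) V).trans_eq (by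
      unfold Cs.gPhiU uPhi; ring))
    (fun U hU => ((h.cr U hU).gPhi h.cnn (Orb.wt U) (Orb.A_symm h.ok U) (Orb.fam h.ok hU)).trans (by
      have h1 := le_MM (x := 200000) R1 5 (by norm_num) (by norm_num)
      have h2 : R ^ 4 ≤ R ^ 5 := pow_le_pow_right₀ R1 (by norm_num)
      have h3 : 0 ≤ R ^ 4 := by positivity
      simp only [Cs.gPhi, crude]
      nlinarith))
    fun U hU => (h.cr U hU).b
  refine le_trans (measureReal_mono fun U hU => ?_) key
  have e : EM (o.P μ) (fun U => o.A U * o.C U * o.A U - o.A U) =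
      EM (o.P μ) (fun U => o.A U * sq2 o U * o.A U - o.A U) -
        EM (o.P μ) fun U => vecMulVec (o.A U *ᵥ o.d U) (o.A U *ᵥ o.d U) := by
    refine EM_sub h.mem (((Orb.c_A.mul (c_sq2 o)).mul Orb.c_A).sub Orb.c_A)
      ((Orb.c_A.matrix_mulVec Orb.c_d).matrix_vecMulVec (Orb.c_A.matrix_mulVec Orb.c_d)) fun U => ?_
    rw [sq2, sm2, Matrix.mul_add, Matrix.add_mul, mul_vecMulVec, vecMulVec_mul, ← mulVec_transpose,
      Orb.A_symm h.ok U]
    abel
  have h1 := fr_EM_vmv h.mem (c_Ad o) (c_Ad o)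
  have h2 := mul_self_le_mul_self (integral_nonneg fun U => dot_self_nonneg _) h.int_Ad
  have h3 := fr_split (o.A U * o.C U * o.A U - o.A U)
    (EM (o.P μ) fun U => o.A U * sq2 o U * o.A U - o.A U)
    (EM (o.P μ) fun U => vecMulVec (o.A U *ᵥ o.d U) (o.A U *ᵥ o.d U))
  have h4 : 544 * R ^ 2 * (K * fl R η H + δ) ≤ 1 :=
    le_trans (mul_le_mul_of_nonneg_right (le_MM R1 2 (by norm_num) (by norm_num)) (by
      have := h.K0; have := h.δ0; have := h.η0; have := MM_pos R1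
      unfold fl; positivity)) sm
  rw [← e] at h3
  simp only [mem_ofPred_eq] at hU ⊢
  unfold fl at h4
  nlinarith

theorem g3Stmt : G3Stmt := by
  intro n k o μ _ c R η K δ H m h H0 sm hm
  have := h.prob
  have nn := h.nn
  have R1 := h.R1
  have l0 := nn.lam
  have T0 : 0 ≤ tX c := by
    have := nn.b; have := nn.c2; have := nn.s2'; have := nn.s1; have := nn.s1'; have := nn.d0
    have := nn.e0
    unfold tX rA1; positivity
  have A0 : 0 ≤ uX c := by
    have := nn.N; have := nn.k1; have := nn.k2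
    unfold uX; positivity
  have key := scM (T := tX c) (A := uX c) (M := MM R) (F := 34 * R ^ 2) h.inv h.ok.two h.mem
    (rd_X1 h.ok.iso h.ok.symm Orb.wt0 o.z) h.G h.K0 h.tr T0 A0 (MM_pos R1).le h.Mη H0
    (fun U _ hG => (Orb.gX1x h.ok nn hG).trans_eq (by unfold Cs.gX1 tX rA1; ring))
    (fun U _ hG V => (Orb.gX1xU h.ok nn hG V).trans_eq (by unfold Cs.gX1U uX; ring))
    (fun U hU => (Orb.gX1x h.ok h.cnn (h.crG hU)).trans (by
      have h1 := le_MM (x := 200000) R1 4 (by norm_num) (by norm_num)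
      have h3 : 0 ≤ R ^ 4 := by positivity
      simp only [Cs.gX1, crude]
      nlinarith))
    fun U hU => (fr_orth_right (emb_orth h.ok.iso hU) _).trans_le (h.cr U hU).a1
  refine le_trans (real_mono_SO h.inv fun U hS hU => ?_) key
  have cg : Continuous fun U => (o.g U)ᵀ *ᵥ o.d U := Orb.c_g.matrix_transpose.matrix_mulVec Orb.c_d
  have e : EM (o.P μ) (fun U => (o.A U * o.C U - 1) * o.g U) =
      EM (o.P μ) (fun U => (o.A U * sq2 o U - 1) * o.g U) -
        EM (o.P μ) fun U => vecMulVec (o.A U *ᵥ o.d U) ((o.g U)ᵀ *ᵥ o.d U) := by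
    refine EM_sub h.mem (((Orb.c_A.mul (c_sq2 o)).sub continuous_const).mul Orb.c_g)
      ((Orb.c_A.matrix_mulVec Orb.c_d).matrix_vecMulVec cg) fun U => ?_
    rw [sq2, sm2, Matrix.mul_add, mul_vecMulVec, mulVec_transpose, ← vecMulVec_mul, ← Matrix.sub_mul]
    congr 1
    abel
  have h1 := fr_EM_vmv h.mem (c_Ad o) cg
  have h5 : ∫ U, (o.g U)ᵀ *ᵥ o.d U ⬝ᵥ (o.g U)ᵀ *ᵥ o.d U ∂o.P μ = ∫ U, o.d U ⬝ᵥ o.d U ∂o.P μ :=
    integral_congr_ae (h.mem.mono fun U hU =>
      Op2.orth (by rw [transpose_transpose]; exact emb_orth h.ok.iso hU) _)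
  rw [h5] at h1
  have h2 := mul_le_mul h.int_Ad h.int_d (integral_nonneg fun U => dot_self_nonneg _)
    (by linarith [nn.e0])
  have h3 := fr_split ((o.A U * o.C U - 1) * o.g U)
    (EM (o.P μ) fun U => (o.A U * sq2 o U - 1) * o.g U)
    (EM (o.P μ) fun U => vecMulVec (o.A U *ᵥ o.d U) ((o.g U)ᵀ *ᵥ o.d U))
  rw [fr_orth_right (emb_orth h.ok.iso hS)] at h3
  have h4 : 544 * R ^ 2 * (K * fl R η H + δ) ≤ 1 :=
    le_trans (mul_le_mul_of_nonneg_right (le_MM R1 2 (by norm_num) (by norm_num)) (by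
      have := h.K0; have := h.δ0; have := h.η0; have := MM_pos R1
      unfold fl; positivity)) sm
  rw [← e] at h3
  simp only [mem_ofPred_eq] at hU ⊢
  unfold fl at h4
  nlinarith

theorem fGlue : FGlue := fun _ => ⟨g3Stmt, g4Stmt⟩

end Crest.Agent.T157.O6
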