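import Crest.Agent.T157.OgDef_9
import Crest.Agent.T157.O6o_27
import Crest.Agent.T157.O6s_61
import Crest.Agent.T157.O6w_20

set_option autoImplicit false
set_option linter.unusedSectionVars false

/-!
Row 157, A2 (helper5): the orbit step below `t**` (`LoL`, `MidL`).
-/

noncomputable section

namespace Crest.Agent.T157.Og

open MeasureTheory Matrix Crest.Agent.Lib.OrthPoinc Filter Topology Set Real
open Crest.Agent.T157.Oc Crest.Agent.T157.E Crest.Agent.T157.SL Crest.Agent.T157.Ks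
open Crest.Agent.T157.Od Crest.Agent.T157.Oo Crest.Agent.T157.O6 Crest.Agent.T157.O0

namespace Lo5

/-- the matrix moment bound with `q ≈ log n` -/
theorem pim_le {n k : ℕ} {B M η s l : ℝ} (hk : k + 2 = n) (hn : exp l = n) (hl : 10 ^ 12 ≤ l)
    (B0 : 0 ≤ B) (hB : B * l ^ 3 ≤ ((n : ℝ) - 4) * s ^ 2) (hs : 1 ≤ n * s ^ 2) (M0 : 0 ≤ M)
    (hM : M ≤ exp (9 * l)) (η0 : 0 ≤ η) (hη : η ≤ exp (-l ^ 3)) :
    ∃ r, Even r ∧ pim n k r B M η s ≤ 2 * exp (-(22 * l)) := by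
  obtain ⟨r, he, r1, r2⟩ : ∃ r : ℕ, Even r ∧ l ≤ r + 1 ∧ (r : ℝ) + 1 ≤ 2 * l :=
    ⟨2 * ⌈l / 2⌉₊, even_two_mul _, by push_cast; linarith [Nat.le_ceil (l / 2)], by
      push_cast; linarith [Nat.ceil_lt_add_one (show 0 ≤ l / 2 by linarith)]⟩
  refine ⟨r, he, ?_⟩
  have l0 : 0 < l := by linarith
  have n1 : 16 * l ^ 2 ≤ n := by
    have := Real.pow_div_factorial_le_exp l l0.le 3
    rw [hn] at this
    norm_num [Nat.factorial] at this
    nlinarith [sq_nonneg l]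
  have n5 : (5 : ℝ) ≤ n := by nlinarith
  have s0 : 0 < s ^ 2 := (sq_nonneg s).lt_of_ne fun h => by rw [← h] at hs; linarith
  have ek : (k : ℝ) - 2 = n - 4 := by rw [← hk]; push_cast; ring
  have ρ0 : (0 : ℝ) < n - 4 := by linarith
  set a := 4 * ((n : ℝ) - 4)⁻¹ * ((r : ℝ) + 1) ^ 2 / s ^ 2 with ha
  have a0 : 0 ≤ a := by positivity
  have e : pim n k r B M η s = n * (a * B) ^ (r + 1) + n * ((a * M) ^ (r + 1) * η) := by
    rw [pim, ek, pow_mul, ha]
    simp only [mul_pow, div_pow]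
    ring
  have q2 : ((r : ℝ) + 1) ^ 2 ≤ (2 * l) ^ 2 := by gcongr
  have a1 : a * (((n : ℝ) - 4) * s ^ 2) ≤ 16 * l ^ 2 := by
    rw [ha, div_mul_eq_mul_div, ← mul_assoc, mul_div_assoc, div_self s0.ne', mul_one, mul_right_comm,
      inv_mul_cancel_right₀ ρ0.ne']
    linarith
  have h1 : a * B ≤ exp (-24) := by
    have b1 : a * B * l ^ 3 ≤ 16 * l ^ 2 := by
      rw [mul_assoc]; exact (mul_le_mul_of_nonneg_left hB a0).trans a1
    have b2 : exp 24 ≤ (11 / 4) ^ 24 := by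
      rw [show (24 : ℝ) = (24 : ℕ) * 1 by norm_num, exp_nat_mul]
      exact pow_le_pow_left₀ (exp_pos _).le (by linarith [exp_one_lt_d9]) _
    rw [Real.exp_neg, ← one_div, le_div_iff₀ (exp_pos _)]
    have b3 : a * B * l ≤ 16 := le_of_mul_le_mul_right (by nlinarith) (pow_pos l0 2)
    exact (mul_le_mul_of_nonneg_left (show exp 24 ≤ l / 16 by linarith) (mul_nonneg a0 B0)).trans
      (by linarith)
  have h2 : a * M ≤ exp (11 * l) := by
    have b1 : a ≤ n * n := by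
      have : a * s ^ 2 ≤ n := by nlinarith [mul_nonneg a0 s0.le]
      nlinarith
    rw [show 11 * l = l + l + 9 * l by ring, exp_add, exp_add, hn]
    gcongr
  have h3 : (a * B) ^ (r + 1) ≤ exp (-(23 * l)) :=
    (pow_le_pow_left₀ (by positivity) h1 _).trans (by
      rw [← exp_nat_mul]; push_cast; exact exp_le_exp.2 (by linarith))
  have h4 : (a * M) ^ (r + 1) * η ≤ exp (-(23 * l)) :=
    (mul_le_mul (pow_le_pow_left₀ (by positivity) h2 _) hη η0 (by positivity)).trans (by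
      rw [← exp_nat_mul, ← exp_add]; push_cast
      exact exp_le_exp.2 (by nlinarith [mul_le_mul_of_nonneg_right r2 l0.le, sq_nonneg l]))
  have h5 : n * exp (-(23 * l)) = exp (-(22 * l)) := by rw [← hn, ← exp_add]; congr 1; ring
  rw [e]
  nlinarith [mul_le_mul_of_nonneg_left h3 (show (0 : ℝ) ≤ n by linarith),
    mul_le_mul_of_nonneg_left h4 (show (0 : ℝ) ≤ n by linarith)]

variable {p : Pm} {t ε H η : ℝ}

theorem C_le (h : Ord p) : 10 ^ 12 ≤ p.C ∧ p.C ≤ p.B2 := by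
  have o := h.ok
  have a1 : (100 : ℝ) ^ 10 ≤ p.L ^ 10 := pow_le_pow_left₀ (by norm_num) o.L _
  have a2 : p.C ≤ p.C ^ 10 := le_self_pow₀ o.C (by norm_num)
  exact ⟨by linarith [h.C], by linarith [h.K, o.B, o.B0, o.B2]⟩

theorem B2_le (h : Ord p) : p.B2 ≤ lg p :=
  (le_self_pow₀ (by linarith [(C_le h).1, (C_le h).2]) (by norm_num)).trans h.n1

theorem l_ge (h : Ord p) : 10 ^ 12 ≤ lg p := by linarith [(C_le h).1, (C_le h).2, B2_le h]

theorem n_gt (h : Ord p) : (1 : ℝ) < p.n := by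
  by_contra h1
  linarith [log_nonpos p.n.cast_nonneg (not_lt.1 h1), show 10 ^ 12 ≤ log p.n from l_ge h]

theorem exp_l (h : Ord p) : exp (lg p) = p.n := exp_log (by linarith [n_gt h])

theorem cv_le (h : Ord p) : p.A * p.cv ≤ p.k2 / 100 ∧ p.cv ≤ p.k2 ∧ p.k2 ≤ p.d ∧ p.d ≤ 1 / 10 := by
  have o := h.ok
  have a1 : (1 : ℝ) ≤ p.A := by exact_mod_cast o.A
  have := o.cv
  have := o.cv'
  have := le_mul_of_one_le_left o.cv.le a1
  refine ⟨?_, ?_, ?_, ?_⟩ <;> linarith [o.k3.1, o.k3.2, o.k2.2, o.k4.2, o.d.2, o.ch.2, o.k4.1, o.d.1]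

theorem pow_le (h : Ord p) {c : ℝ} (hc : p.cv ≤ c) : lg p ^ 100 ≤ (p.n : ℝ) ^ c :=
  h.n3.trans (rpow_le_rpow_of_exponent_le (n_gt h).le hc)

theorem l4 (h : Ord p) : 64 * lg p ^ 3 ≤ lg p ^ 100 := by
  have := l_ge h
  calc 64 * lg p ^ 3 ≤ lg p * lg p ^ 3 := by gcongr; linarith
    _ = lg p ^ 4 := by ring
    _ ≤ _ := pow_le_pow_right₀ (by linarith) (by norm_num)

theorem n_ge (h : Ord p) : lg p ^ 100 ≤ p.n := by
  simpa using pow_le h (c := 1) (by linarith [cv_le h])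

theorem ty_le (h : Ord p) : ty p ≤ exp (-lg p ^ 3) :=
  exp_le_exp.2 (by linarith [l4 h, pow_le h (c := p.d) (by linarith [cv_le h])])

theorem MM_le (h : Ord p) : MM (RR p) ≤ exp (9 * lg p) := by
  rw [show 9 * lg p = (9 : ℕ) * lg p by norm_num, exp_nat_mul, exp_l h, MM, RR, mul_pow, pow_succ' _ 8,
    ← mul_assoc]
  have := l_ge h
  have a : (10 ^ 12 : ℝ) ^ 3 ≤ lg p ^ 3 := by gcongr
  exact mul_le_mul_of_nonneg_right (by linarith [l4 h, n_ge h]) (by positivity)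

theorem MM_nn : 0 ≤ MM (RR p) := by unfold MM RR; positivity

theorem small (h : Ord p) {x : ℝ} (hx : x ≤ 2 * exp (-(22 * lg p))) :
    MM (RR p) * (p.n * x + dl p) ≤ 1 / p.n ∧ x ≤ 1 / 2 := by
  have n1 := n_gt h
  have e : ∀ j : ℕ, exp (-(j * lg p)) = ((p.n : ℝ) ^ j)⁻¹ := fun j => by
    rw [Real.exp_neg, exp_nat_mul, exp_l h]
  have n3 : (4 : ℝ) ≤ p.n := by
    have := l_ge h
    have a : (10 ^ 12 : ℝ) ^ 3 ≤ lg p ^ 3 := by gcongr
    linarith [l4 h, n_ge h]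
  have m := MM_le h
  rw [show 9 * lg p = (9 : ℕ) * lg p by norm_num, exp_nat_mul, exp_l h] at m
  rw [show 22 * lg p = (22 : ℕ) * lg p by norm_num, e] at hx
  have n0 : (0 : ℝ) < p.n := by linarith
  constructor
  · calc _ ≤ MM (RR p) * (p.n * (2 * ((p.n : ℝ) ^ 22)⁻¹) + dl p) :=
          mul_le_mul_of_nonneg_left (by gcongr) MM_nn
      _ ≤ (p.n : ℝ) ^ 9 * (p.n * (2 * ((p.n : ℝ) ^ 22)⁻¹) + ((p.n : ℝ) ^ 20)⁻¹) := by
          unfold dl; gcongr
      _ = (2 + p.n) / p.n ^ 11 / p.n := by field_simp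
      _ ≤ _ := by
          refine div_le_div_of_nonneg_right ((div_le_one (by positivity)).2 ?_) n0.le
          nlinarith [pow_le_pow_right₀ n1.le (show 2 ≤ 11 by norm_num)]
  · have : (4 : ℝ) ≤ p.n ^ 22 := n3.trans (le_self_pow₀ n1.le (by norm_num))
    linarith [inv_anti₀ (by norm_num) this]

theorem t_pos (h : LH p t ε H) : 0 < t := lt_of_lt_of_le (by
  have := n_gt h.ord; unfold Pm.lo; positivity) h.lo

theorem H_ge (h : LH p t ε H) : 22 * lg p ≤ H := by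
  have o := h.ord
  have n1 := n_gt o
  have n0 : (0 : ℝ) < p.n := by linarith
  have l1 := l_ge o
  have l3 : lg p ^ 2 ≤ lg p ^ 3 := pow_le_pow_right₀ (by linarith) (by norm_num)
  refine le_trans (le_min ?_ ?_) h.H0
  · have a1 : ((p.n : ℝ) ^ (-p.cv)) ^ p.A ≤ ε ^ p.A := pow_le_pow_left₀ (by positivity) h.en _
    have a2 : p.M p.lo ≤ p.M t := by
      have := h.lo
      unfold Pm.M; gcongr; unfold Pm.lo; positivity
    have a3 : p.M p.lo = (p.n : ℝ) ^ (3 / 2 * p.d) := by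
      rw [Pm.M, Pm.lo, ← rpow_sub n0, ← rpow_mul n0.le, ← rpow_one_add' n0.le]
      · congr 1; ring
      · nlinarith [o.ok.d.1]
    have a4 := mul_le_mul a1 (a3.ge.trans a2) (by positivity) (pow_nonneg h.e0.le _)
    rw [← rpow_mul_natCast n0.le, ← rpow_add n0] at a4
    have a5 := pow_le o (c := -p.cv * p.A + 3 / 2 * p.d) (by linarith [cv_le o, o.ok.d.1])
    nlinarith [l4 o]
  · have f0 := o.ok.ef
    have f1 : p.ef ≤ 1 := by nlinarith [o.ok.ef', o.ok.t0.1, o.ok.t0.2]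
    have a1 : 1 ≤ lg p * p.ef := o.B2.trans (mul_le_mul (B2_le o)
      (pow_le_of_le_one f0.le f1 (by norm_num)) (by positivity) (by linarith))
    have a2 := mul_le_mul_of_nonneg_left ((l4 o).trans (n_ge o)) f0.le
    nlinarith [mul_le_mul_of_nonneg_right a1 (sq_nonneg (lg p))]

theorem fl_le (h : LH p t ε H) (hη : η ≤ ty p) : fl (RR p) η (3 * H) ≤ 2 * exp (-(22 * lg p)) := by
  have o := h.ord
  have l1 := l_ge o
  have a1 : exp (-(3 * H)) ≤ exp (-(22 * lg p)) := exp_le_exp.2 (by linarith [H_ge h])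
  have a2 : MM (RR p) * η ≤ exp (-(22 * lg p)) :=
    (mul_le_mul_of_nonneg_left (hη.trans (ty_le o)) MM_nn).trans
      ((mul_le_mul_of_nonneg_right (MM_le o) (exp_pos _).le).trans (by
        rw [← exp_add]; exact exp_le_exp.2 (by nlinarith [sq_nonneg (lg p)])))
  rw [fl]; linarith

theorem e_ge (h : LH p t ε H) : 1 ≤ p.n * ε ^ 2 := by
  have n1 := n_gt h.ord
  have n0 : (0 : ℝ) < p.n := by linarith
  have a1 := pow_le_pow_left₀ (by positivity) h.en 2
  rw [← rpow_mul_natCast n0.le] at a1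
  refine le_trans ?_ (mul_le_mul_of_nonneg_left a1 n0.le)
  rw [← rpow_one_add' n0.le (by push_cast; linarith [cv_le h.ord])]
  exact one_le_rpow n1.le (by push_cast; linarith [cv_le h.ord])

theorem ro_eq {k : ℕ} (hk : k + 2 = p.n) : (k : ℝ) - 2 = ro p := by
  rw [ro, ← hk]; push_cast; ring

variable {c : Cs}

theorem rC_nn (h : c.Nn) : 0 ≤ rC c := by
  have := h.t4; have := h.t3; have := h.d0; have := h.e0; have := h.t3'; unfold rC; positivity
theorem rA_nn (h : c.Nn) : 0 ≤ rA c := by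
  have := h.q4; have := h.q3; have := h.d0; have := h.e0; have := h.q3'; unfold rA; positivity
theorem bC_nn (h : c.Nn) : 0 ≤ bC c := by
  have := rC_nn h; have := h.a1; have := h.k1; have := h.k2; have := h.c2; unfold bC; positivity
theorem bPhi_nn (h : c.Nn) : 0 ≤ bPhi c := by
  have := rA_nn h; have := h.a1; have := h.k1; have := h.k2; have := h.b; unfold bPhi; positivity
theorem wC_nn (h : c.Nn) : 0 ≤ wC c := mul_nonneg h.lam h.v4

end Lo5

open Lo5

theorem loL (hW : NW) (hM : NM) : LoL := fun p t ε H η κ k o μ _ x cx ht κ1 m1 => by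
  have h := cx.lh
  have t0 := t_pos h
  have t1 : t ≤ 1 / 100 := h.hi.trans h.ord.ok.t0.2
  have e0 := h.e0
  have e1 := h.e1
  have n1 := n_gt h.ord
  have H0 : 0 ≤ H := by linarith [H_ge h, l_ge h.ord]
  have hk := cx.fx.pt.dim
  have s1 : ε ≤ ε / (32 * t) := by rw [le_div_iff₀ (by positivity)]; nlinarith
  obtain ⟨r, hr, hp⟩ := pim_le hk (exp_l h.ord) (l_ge h.ord) (bC_nn cx.ctx.nn) (hM p t ε H h ht).1
    ((e_ge h).trans (by gcongr)) MM_nn (MM_le h.ord) (measureReal_nonneg.trans cx.ctx.G)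
    (cx.ty.trans (ty_le h.ord))
  obtain ⟨a1, a2⟩ := small h.ord hp
  have a3 : 1 / (p.n : ℝ) ≤ ε / (32 * t) := le_trans (by
    rw [div_le_iff₀ (by linarith)]; nlinarith [e_ge h, mul_nonneg e0.le (sub_nonneg.2 e1)]) s1
  have a4 := ((m1Stmt _ k o μ _ _ η _ _ _ (κ / t) _ r cx.ctx (by positivity) hr).1 (a1.trans a3)
    m1).trans a2
  have a5 := (wStmt _ k o μ _ _ η _ _ _ (ε / (8 * t)) (1 + ε / 8) (3 * H) cx.ctx (by positivity)
    (by positivity) (by linarith)).1 (by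
      rw [ro_eq hk]
      refine le_trans ?_ (hW p t ε H h).1
      have := mul_nonneg (add_nonneg (wC_nn cx.ctx.nn) zero_le_one) H0
      nlinarith [mul_le_mul_of_nonneg_right (show (1 + ε / 8) ^ 2 ≤ 4 by nlinarith) this]) a4
  refine le_trans (measureReal_mono fun U hU hc => hU (CB.mono hc ?_)) a5
  rw [le_div_iff₀ t0]
  field_simp
  nlinarith [mul_nonneg e0.le (sub_nonneg.2 κ1), mul_nonneg e0.le (sub_nonneg.2 e1)]

theorem midL (hW : NW) (hM : NM) : MidL := fun p t ε H η k o μ _ x cx hs ht m3 => by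
  have h := cx.lh
  have t0 := t_pos h
  have n1 := n_gt h.ord
  have l1 := l_ge h.ord
  have H0 : 0 ≤ H := by linarith [H_ge h]
  have hk := cx.fx.pt.dim
  have ek : p.kk t = (p.n : ℝ) ^ p.k2 := by
    rw [Pm.kk, if_neg ht.not_ge, max_eq_left ((div_le_one t0).2 hs), one_rpow, mul_one]
  have k1 : 40 * (7 + p.C) ≤ p.kk t := by
    have := pow_le h.ord (c := p.k2) (cv_le h.ord).2.1
    have := le_self_pow₀ (show 1 ≤ lg p by linarith) (show 3 ≠ 0 by norm_num)
    linarith [l4 h.ord, (C_le h.ord).2, B2_le h.ord]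
  have C1 := h.ord.ok.C
  obtain ⟨b1, b2⟩ := (hM p t ε H h ht).2 hs
  constructor
  · obtain ⟨r, hr, hp⟩ := pim_le hk (exp_l h.ord) l1 (bPhi_nn cx.ctx.nn) b1
      (one_le_mul_of_one_le_of_one_le n1.le (one_le_pow₀ (by linarith))) MM_nn (MM_le h.ord)
      (measureReal_nonneg.trans cx.ctx.G) (cx.ty.trans (ty_le h.ord))
    obtain ⟨a1, a2⟩ := small h.ord hp
    have a4 := ((m1Stmt _ k o μ _ _ η _ _ _ p.C 0 r cx.ctx (by linarith) hr).2
      (a1.trans ((div_le_one (by linarith)).2 n1.le)) m3.1).trans a2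
    have a6 : (c1 p t).a = 6 := rfl
    have a5 := (wStmt _ k o μ _ _ η _ _ _ (p.kk t / 20) 2 (3 * H) cx.ctx (by linarith)
      (by linarith) (by linarith)).2 (by
        rw [ro_eq hk]
        exact le_trans (le_of_eq (by ring)) ((hW p t ε H h).2 hs)) a4
    exact le_trans (measureReal_mono fun U hU hc => hU (CB.mono hc (by linarith))) a5
  · have a1 := g4Stmt _ k o μ _ _ η _ _ (3 * H) _ cx.ctx (by linarith)
      ((small h.ord (fl_le h cx.ty)).1.trans ((div_le_one (by linarith)).2 n1.le)) m3.2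
    refine le_trans (measureReal_mono fun U hU => ?_) a1
    refine lt_of_le_of_lt ?_ (mem_ofPred_eq ▸ hU :)
    rw [rad, ro_eq hk]
    nlinarith [mul_nonneg (show (0 : ℝ) ≤ p.n by linarith) t0.le]

theorem loGlue : LoGlue := fun hW hM => ⟨loL hW hM, midL hW hM⟩

end Crest.Agent.T157.Og
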