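import Crest.Agent.T157.OgDef_9

/-!
# Row 157, A2 (helper66): the numbers above `t**` (`Og.NH`, `Og.NF`)

A calculus of orders in the unit `v = n ^ (1 / 200000)`: `O v a x` is `0 ≤ x ≤ v ^ a`, `Lb v a x` is
`v ^ a ≤ x`; the tactic `ordo` computes the exponents.
-/

set_option autoImplicit false

noncomputable section

namespace Crest.Agent.T157.Og

open Crest.Agent.T157.Oo Crest.Agent.T157.O6 Crest.Agent.T157.O0
open Crest.Agent.T157.O6m (bT)

namespace N66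

/-- upper order -/
structure O (v : ℝ) (a : ℤ) (x : ℝ) : Prop where
  nn : 0 ≤ x
  le : x ≤ v ^ a
/-- lower order -/
structure Lb (v : ℝ) (a : ℤ) (x : ℝ) : Prop where
  le : v ^ a ≤ x
/-- the unit is large -/
structure Bg (v : ℝ) : Prop where
  le : 10 ^ 10 ≤ v

section cal
variable {v x y : ℝ} {a b : ℤ}

lemma Bg.one (h : Bg v) : 1 ≤ v := le_trans (by norm_num) h.le
lemma Bg.pos (h : Bg v) : 0 < v := one_pos.trans_le h.one
lemma Bg.mono (h : Bg v) (e : a ≤ b) : v ^ a ≤ v ^ b := zpow_le_zpow_right₀ h.one e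
lemma Lb.pos (h : Bg v) (k : Lb v a x) : 0 < x := (zpow_pos h.pos a).trans_le k.le

lemma O.mul (h : Bg v) (i : O v a x) (j : O v b y) : O v (a + b) (x * y) :=
  ⟨mul_nonneg i.nn j.nn, by
    rw [zpow_add₀ h.pos.ne']; exact mul_le_mul i.le j.le j.nn (zpow_pos h.pos a).le⟩
lemma O.add (h : Bg v) (i : O v a x) (j : O v b y) : O v (max a b + 1) (x + y) :=
  ⟨add_nonneg i.nn j.nn, by
    have h1 := i.le.trans (h.mono (le_max_left a b))
    have h2 := j.le.trans (h.mono (le_max_right a b))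
    have h3 := zpow_pos h.pos (max a b)
    rw [zpow_add_one₀ h.pos.ne']
    nlinarith [h.le]⟩
lemma O.pow (k : ℕ) (i : O v a x) : O v (a * k) (x ^ k) :=
  ⟨pow_nonneg i.nn k, by rw [zpow_mul, zpow_natCast]; exact pow_le_pow_left₀ i.nn i.le k⟩
lemma O.div (h : Bg v) (i : O v a x) (j : Lb v b y) : O v (a - b) (x / y) :=
  ⟨div_nonneg i.nn (j.pos h).le, by
    rw [zpow_sub₀ h.pos.ne']; exact div_le_div₀ (zpow_pos h.pos a).le i.le (zpow_pos h.pos b) j.le⟩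
lemma O.of (i : 0 ≤ x) (j : x ≤ v) : O v 1 x := ⟨i, by rwa [zpow_one]⟩
lemma O.num (h : Bg v) (i : 0 ≤ x) (j : x ≤ 10 ^ 10) : O v 1 x := .of i (j.trans h.le)
lemma Lb.mul (h : Bg v) (i : Lb v a x) (j : Lb v b y) : Lb v (a + b) (x * y) :=
  ⟨by rw [zpow_add₀ h.pos.ne']; exact mul_le_mul i.le j.le (zpow_pos h.pos b).le (i.pos h).le⟩
lemma Lb.pow (h : Bg v) (k : ℕ) (i : Lb v a x) : Lb v (a * k) (x ^ k) :=
  ⟨by rw [zpow_mul, zpow_natCast]; exact pow_le_pow_left₀ (zpow_pos h.pos a).le i.le k⟩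
lemma Lb.div (h : Bg v) (i : Lb v a x) (j : O v b y) (k : 0 < y) : Lb v (a - b) (x / y) :=
  ⟨by rw [zpow_sub₀ h.pos.ne']; exact div_le_div₀ (i.pos h).le i.le k j.le⟩
lemma Lb.num (i : 1 ≤ x) : Lb v 0 x := ⟨by rwa [zpow_zero]⟩
/-- comparison -/
lemma fin (h : Bg v) (i : O v a x) (j : Lb v b y) (e : a ≤ b) : x ≤ y :=
  i.le.trans ((h.mono e).trans j.le)
lemma O.mono (h : Bg v) (i : O v a x) (e : a ≤ b) : O v b x := ⟨i.nn, i.le.trans (h.mono e)⟩

end cal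

/-- computes upper and lower orders -/
macro "ordo" h:term : tactic => `(tactic| repeat' first
  | with_reducible assumption
  | with_reducible apply O.add $h
  | with_reducible apply O.mul $h
  | with_reducible apply O.div $h
  | with_reducible apply O.pow
  | with_reducible apply Lb.mul $h
  | with_reducible apply Lb.div $h
  | with_reducible apply Lb.pow $h
  | exact O.num $h (by norm_num) (by norm_num)
  | exact Lb.num (by norm_num)
  | positivity)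

/-- `x ≤ y` by orders -/
macro "ordle" h:term : tactic => `(tactic| (apply fin $h; ordo $h; rotate_left; ordo $h; omega))

/-- the unit -/
def vv (p : Pm) : ℝ := (p.n : ℝ) ^ (1 / 200000 : ℝ)

/-- the facts that are used -/
structure Fc (p : Pm) (t ε H : ℝ) : Prop where
  bg : Bg (vv p)
  n1 : 1 ≤ (p.n : ℝ)
  C : 10 ^ 10 ≤ p.C
  tC : t * p.C ^ 120 ≤ 1
  oC : O (vv p) 1 p.C
  oB0 : O (vv p) 1 p.B0
  oBt : O (vv p) 1 (p.Bt t)
  olg : O (vv p) 1 (lg p)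
  lgam : Lb (vv p) (-1) (gam p)
  lt : Lb (vv p) (-200) t
  t1 : t ≤ 1
  tk : Lb (vv p) (-400) (t ^ (1 + p.k3))
  lε : Lb (vv p) (-1) ε
  lro : Lb (vv p) 199999 (ro p)
  oH : O (vv p) 200001 H
  kk : p.kk t = 1

lemma vv_zpow (p : Pm) (a : ℤ) : vv p ^ a = (p.n : ℝ) ^ ((a : ℝ) / 200000) := by
  rw [vv, ← Real.rpow_intCast, ← Real.rpow_mul p.n.cast_nonneg]; congr 1; ring

lemma o_rpow (p : Pm) (a : ℤ) {r : ℝ} (h : r = a / 200000) : O (vv p) a ((p.n : ℝ) ^ r) :=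
  ⟨Real.rpow_nonneg p.n.cast_nonneg r, by rw [vv_zpow, h]⟩
lemma l_rpow (p : Pm) (a : ℤ) {r : ℝ} (h : r = a / 200000) : Lb (vv p) a ((p.n : ℝ) ^ r) :=
  ⟨by rw [vv_zpow, h]⟩
lemma n_eq (p : Pm) : vv p ^ (200000 : ℤ) = p.n := by rw [vv_zpow]; norm_num

lemma fc {p : Pm} {t ε H : ℝ} (h : LH p t ε H) (ht : p.tss ≤ t) : Fc p t ε H := by
  obtain ⟨⟨ok, hC, hK, hA, -, hB, ht0, -, -, hef, hB2, n1, n2, n3⟩, -, hi, e0, -, -, en, H0, -, H2⟩ := h
  have C10 : (10 : ℝ) ^ 10 ≤ p.C :=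
    le_trans (le_mul_of_one_le_right (by norm_num) (one_le_pow₀ (by linarith [ok.L]))) hC
  have sp : ∀ {x : ℝ} {k : ℕ}, 1 ≤ x → k ≠ 0 → x ≤ x ^ k := fun hx hk => le_self_pow₀ hx hk
  have CK : p.C ≤ p.K := (sp ok.C (by norm_num)).trans hK
  have CB : p.C ≤ p.B := CK.trans ok.B
  have B0 : p.C ≤ p.B0 := CB.trans ok.B0
  have B02 : p.B0 ≤ p.B2 := ok.B2
  have Bg' : p.B2 ≤ lg p := (sp (by linarith) (by norm_num)).trans n1
  have hn : (1 : ℝ) ≤ p.n := by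
    rcases Nat.eq_zero_or_pos p.n with e | e
    · rw [lg, e] at Bg'; simp at Bg'; linarith
    · exact_mod_cast e
  have cv : p.cv ≤ 1 / 200000 := by
    have : (100 : ℝ) ≤ p.A := by exact_mod_cast hA
    nlinarith [ok.cv, ok.cv', ok.k3.2, ok.k2.2, ok.k4.2, ok.d.2, ok.ch.2]
  have gv : lg p ≤ vv p :=
    (sp (by linarith) (by norm_num)).trans (n3.trans (Real.rpow_le_rpow_of_exponent_le hn cv))
  have bg : Bg (vv p) := ⟨by linarith⟩
  have t1 : t ≤ 1 := by linarith [ok.t0.2]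
  have tl : Lb (vv p) (-200) t := ⟨by
    rw [vv_zpow]
    exact (Real.rpow_le_rpow_of_exponent_le hn (by push_cast; linarith [ok.ch.2])).trans ht⟩
  have tp := tl.pos bg
  have ef1 : p.ef ≤ 1 := ok.ef'.trans (pow_le_one₀ ok.t0.1.le (by linarith [ok.t0.2]))
  have B2' : 2 * p.B0 ≤ p.B2 := by
    have h1 : 1 ≤ p.B2 * p.ef :=
      hB2.trans (mul_le_mul_of_nonneg_left (pow_le_of_le_one ok.ef.le ef1 (by norm_num)) (by linarith))
    have h2 : p.B0 ^ 2 ≤ p.B0 ^ 1000 := pow_le_pow_right₀ (by linarith) (by norm_num)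
    have h3 : 0 ≤ p.B0 ^ 1000 := pow_nonneg (by linarith) _
    have h4 := mul_le_mul_of_nonneg_left h1 h3
    have h5 := mul_le_mul_of_nonneg_left hef (show 0 ≤ p.B2 by linarith)
    nlinarith
  have nv : vv p ≤ p.n := by
    rw [← n_eq p]; simpa only [zpow_one] using bg.mono (show (1 : ℤ) ≤ 200000 by norm_num)
  have k3 : p.k3 ≤ 1 := by linarith [ok.k3.2, ok.k2.2, ok.k4.2, ok.d.2, ok.ch.2]
  refine ⟨bg, hn, C10, ?_, .of (by linarith) (by linarith), .of (by linarith) (by linarith), ?_,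
    .of (by linarith) gv, ⟨?_⟩, tl, t1, ⟨?_⟩, ⟨?_⟩, ⟨?_⟩, ⟨?_, ?_⟩, if_pos ht⟩
  · refine le_trans (mul_le_mul hi ?_ (pow_nonneg (by linarith) _) ok.t0.1.le) ht0
    exact (pow_le_pow_left₀ (by linarith) CB _).trans (pow_le_pow_right₀ (by linarith) (by norm_num))
  · rw [Pm.Bt]
    split_ifs <;> exact .of (by linarith) (by linarith [ok.B0])
  · rw [zpow_neg_one, Og.gam, Real.exp_neg]
    exact inv_anti₀ (Real.exp_pos _) ((Real.exp_le_exp.2 B2').trans (n2.trans gv))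
  · refine (tl.pow bg 2).le.trans ?_
    rw [← Real.rpow_natCast]
    exact Real.rpow_le_rpow_of_exponent_ge tp t1 (by push_cast; linarith)
  · rw [vv_zpow]
    exact (Real.rpow_le_rpow_of_exponent_le hn (by push_cast; linarith)).trans en
  · rw [show (199999 : ℤ) = 200000 - 1 by norm_num, zpow_sub_one₀ bg.pos.ne', n_eq, Og.ro,
      ← div_eq_mul_inv, div_le_iff₀ bg.pos]
    nlinarith [bg.le]
  · refine le_trans (le_min ?_ ?_) H0
    · rw [Pm.M]; positivity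
    · have := ok.ef; positivity
  · rw [show (200001 : ℤ) = 200000 + 1 by norm_num, zpow_add_one₀ bg.pos.ne', n_eq]
    nlinarith [bg.le]

end N66

open N66

/-- **task 868** -/
theorem nH : NH := fun p t ε H h ht => by
  obtain ⟨bg, -, C, -, oC, oB0, oBt, olg, gam, lt, -, tk, lε, ro, -, kk⟩ := fc h ht
  have n0 : O (vv p) 200000 p.n := ⟨p.n.cast_nonneg, (n_eq p).ge⟩
  have n1 : Lb (vv p) 200000 p.n := ⟨(n_eq p).le⟩
  have l0 : O (vv p) (-20000) (ll p) := o_rpow p _ (by norm_num)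
  have l1 : Lb (vv p) (-20000) (ll p) := l_rpow p _ (by norm_num)
  have e0 : O (vv p) (-40000) (e4 p) := o_rpow p _ (by norm_num)
  have e1 : Lb (vv p) (-40000) (e4 p) := l_rpow p _ (by norm_num)
  have s0 : O (vv p) (-2000) (sm p) := o_rpow p _ (by norm_num)
  have s1 : Lb (vv p) (-2000) (sm p) := l_rpow p _ (by norm_num)
  have a1 := l_rpow p 20000 (r := 1 / 10) (by norm_num)
  have b0 := o_rpow p 11000 (r := 11 / 200) (by norm_num)
  have b1 := l_rpow p 11000 (r := 11 / 200) (by norm_num)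
  have c0 := o_rpow p (-9000) (r := -(9 / 200)) (by norm_num)
  have c1' := l_rpow p (-9000) (r := -(9 / 200)) (by norm_num)
  have d0 := o_rpow p 12000 (r := 3 / 50) (by norm_num)
  have d1 := l_rpow p 12000 (r := 3 / 50) (by norm_num)
  have f0 := o_rpow p (-2500) (r := -(1 / 80)) (by norm_num)
  have f1 := l_rpow p (-2500) (r := -(1 / 80)) (by norm_num)
  have C0 : 0 < p.C := by linarith
  simp only [gD, gA, bT, bR, rC, Cs.lam, c1, Cs.ctr, Pm.cq, kk]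
  refine ⟨?_, ?_, ?_, ?_, ?_, ?_, ?_, ?_, ?_⟩ <;> ordle bg

/-- **task 868** -/
theorem nF : NF := fun p t H h ht => by
  obtain ⟨bg, hn, C, tC, oC, oB0, oBt, -, -, lt, t1, tk, -, ro, oH, kk⟩ := fc h ht
  have tp := lt.pos bg
  have n0 : O (vv p) 200000 p.n := ⟨p.n.cast_nonneg, (n_eq p).ge⟩
  have n1 : Lb (vv p) 200000 p.n := ⟨(n_eq p).le⟩
  have l0 : O (vv p) (-20000) (ll p) := o_rpow p _ (by norm_num)
  have s0 : O (vv p) (-2000) (sm p) := o_rpow p _ (by norm_num)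
  have lC : Lb (vv p) 0 p.C := .num (by linarith)
  have ov : O (vv p) 0 (t ^ (9 / 20 : ℝ)) :=
    ⟨by positivity, by rw [zpow_zero]; exact Real.rpow_le_one tp.le t1 (by norm_num)⟩
  have l3 : Lb (vv p) (-200) (t ^ (1 / 3 : ℝ)) :=
    ⟨lt.le.trans (Real.self_le_rpow_of_le_one tp.le t1 (by norm_num))⟩
  obtain ⟨τ, hτ, rfl⟩ : ∃ τ : ℝ, 0 < τ ∧ t = τ ^ 60 :=
    ⟨t ^ ((60 : ℕ) : ℝ)⁻¹, by positivity, (Real.rpow_inv_natCast_pow tp.le (by norm_num)).symm⟩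
  have rp : ∀ (r : ℝ) (k : ℕ), 60 * r = k → (τ ^ 60) ^ r = τ ^ k := fun r k e => by
    rw [← Real.rpow_natCast, ← Real.rpow_mul hτ.le, ← Real.rpow_natCast τ k, ← e]; norm_num
  have τ1 : τ ≤ 1 := (pow_le_one_iff_of_nonneg hτ.le (by norm_num)).1 t1
  have τC : τ * p.C ^ 2 ≤ 1 := (pow_le_one_iff_of_nonneg (by positivity) (n := 60) (by norm_num)).1
    (by rw [mul_pow, ← pow_mul p.C]; exact tC)
  have τC' : p.C * τ ≤ 1 / 10 ^ 10 := by
    rw [le_div_iff₀ (by norm_num)]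
    nlinarith [mul_le_mul_of_nonneg_left C (show 0 ≤ p.C * τ by positivity)]
  have pw : ∀ k : ℕ, k ≠ 0 → p.C * τ ^ k ≤ 1 / 10 ^ 10 := fun k hk =>
    (mul_le_mul_of_nonneg_left (pow_le_of_le_one hτ.le τ1 hk) oC.nn).trans τC'
  have hM : p.M (τ ^ 60) = p.n * τ ^ 90 := by rw [Pm.M, rp _ 90 (by norm_num)]
  have hs : √(τ ^ 60) = τ ^ 30 := by rw [Real.sqrt_eq_rpow, rp _ 30 (by norm_num)]
  have a1 : ∀ n m l β k1 k2 a c2 Γ s2 v : ℝ, Ba26.alB n m l β k1 k2 a c2 Γ s2 v =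
      2 * m * (k1 * k2 + 1) + 8 * v ^ 2 * c2 + Ba26.alB n 0 l β k1 k2 a 0 Γ s2 v := by
    intros; unfold Ba26.alB; ring
  have a2 : ∀ n m l β k1 k2 a c2 Γ s2 v v2 : ℝ, Ba26.bB n m l β k1 k2 a c2 Γ s2 v v2 =
      4 * m * (k2 * k2 + a ^ 2) + 16 * v2 + 32 * v ^ 4 * c2 +
        Ba26.bB n 0 l β k1 k2 a 0 Γ s2 v 0 := by
    intros; unfold Ba26.bB; ring
  refine ⟨?_, ?_, ?_⟩
  · rw [a1, ← add_halves (_ / 16 : ℝ)]
    refine add_le_add ?_ (by unfold Ba26.alB Ba26.φ; ordle bg)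
    rw [hM, hs, rp _ 27 (by norm_num), rp _ 20 (by norm_num)]
    have e : 2 * (p.n * τ ^ 90) * (2 * p.C / τ ^ 60 * 60 + 1) +
        8 * (12 * τ ^ 27) ^ 2 * (100 * (p.C * p.n / τ ^ 30)) =
        p.n * τ ^ 20 * (240 * (p.C * τ ^ 10) + 2 * τ ^ 70 + 115200 * (p.C * τ ^ 4)) := by
      field_simp; ring
    have : τ ^ 70 ≤ p.C * τ ^ 70 := le_mul_of_one_le_left (by positivity) (by linarith)
    rw [e, div_div, div_eq_mul_one_div]
    exact mul_le_mul_of_nonneg_left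
      (by linarith [pw 10 (by norm_num), pw 70 (by norm_num), pw 4 (by norm_num)]) (by positivity)
  · rw [a2, show 2000 * p.C * p.n * τ ^ 60 = p.n * τ ^ 60 * (1999 * p.C) + p.C * p.n * τ ^ 60 by ring]
    refine add_le_add ?_ (by unfold Ba26.bB Ba26.φ; ordle bg)
    rw [hM, hs, rp _ 27 (by norm_num)]
    have e : 4 * (p.n * τ ^ 90) * (60 * 60 + 6 ^ 2) + 16 * (100 * p.C * p.n * τ ^ 60) +
        32 * (12 * τ ^ 27) ^ 4 * (100 * (p.C * p.n / τ ^ 30)) =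
        p.n * τ ^ 60 * (14544 * τ ^ 30 + 1600 * p.C + 66355200 * (p.C * τ ^ 18)) := by
      field_simp; ring
    rw [e]
    exact mul_le_mul_of_nonneg_left
      (by linarith [pw 18 (by norm_num), pow_le_one₀ (n := 30) hτ.le τ1]) (by positivity)
  · simp only [Cs.gX1U, Cs.gPhiU, Cs.lam, c1, Cs.ctr, Pm.cq, kk]
    generalize τ ^ 60 = t at *
    ordle bg

end Crest.Agent.T157.Og

end
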