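import Crest.Agent.T157.NumO_27

set_option autoImplicit false

/-!
Row 157, A2 (helper27): the numbers of (T2).
-/

noncomputable section

namespace Crest.Agent.T157.Og

open Set Real
open Crest.Agent.T157.O0 Crest.Agent.T157.Nm Crest.Agent.T157.Oo

set_option maxHeartbeats 4000000 in
theorem nT2 : NT2 := by
  intro p t ε H lh
  obtain ⟨a, L, h, -⟩ := lh_tab lh
  obtain ⟨κ, α, μ, _, _, _, hr⟩ := h.regimes L
  obtain ⟨β, _, _, _⟩ := h.Bt L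
  nm_lh L, h
  simp only [T2N, c1, Cs.ctr, Cs.gZ, Pm.cq]
  rcases hr with ⟨-, -, _, rfl, rfl, rfl⟩ | ⟨-, -, _, _, rfl, rfl, rfl⟩ | ⟨-, -, _, rfl, rfl, rfl⟩ <;>
    constructor <;> num

set_option maxHeartbeats 4000000 in
theorem nT1 : NT1 := by
  intro p t ε H lh
  obtain ⟨a, L, h, hη⟩ := lh_tab lh
  obtain ⟨κ, α, μ, _, _, hμ, hr⟩ := h.regimes L
  have := h.Mx hμ
  unfold c0
  split_ifs with h2 h0
  · have h1 := h.lt_t2 h2
    have := h.Bt_lo (not_le.1 fun h0 => by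
      linarith [h.base h0, L.τ1, L.f, L.b0, L.s0, L.b, L.cK, L.cC, L.cL] : t < p.t0 / 2)
    obtain ⟨_, _⟩ := h.th_lo h2
    nm_lh L, h
    have : a.l - 3 / 2 * a.s - p.A * a.x - 1 ≤ a.η := by rcases hη with _ | _ <;> linarith
    simp only [T2N, Cs.ctr, Cs.gZ, Pm.cq]
    rcases hr with ⟨-, -, _, rfl, rfl, rfl⟩ | ⟨-, -, _, _, rfl, rfl, rfl⟩ | ⟨-, -, _, rfl, rfl, rfl⟩ <;>
    constructor <;> num
  · have := h.Bt_lo h0
    have := h.t2_iff.1 (not_lt.1 h2)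
    obtain ⟨_, _⟩ := h.th_hi (not_lt.1 h2)
    nm_lh L, h
    simp only [T2N, Cs.ctr, Cs.gZ, Pm.cq]
    rcases hη with _ | _ <;>
    rcases hr with ⟨-, -, _, rfl, rfl, rfl⟩ | ⟨-, -, _, _, rfl, rfl, rfl⟩ | ⟨-, -, _, rfl, rfl, rfl⟩ <;>
    constructor <;> num
  · have := h.Bt_hi (not_lt.1 h0)
    have := h.t2_iff.1 (not_lt.1 h2)
    obtain ⟨_, _⟩ := h.th_hi (not_lt.1 h2)
    nm_lh L, h
    simp only [T2N, c1, Cs.ctr, Cs.gZ, Pm.cq]
    rcases hη with _ | _ <;>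
    rcases hr with ⟨-, -, _, rfl, rfl, rfl⟩ | ⟨-, -, _, _, rfl, rfl, rfl⟩ | ⟨-, -, _, rfl, rfl, rfl⟩ <;>
    constructor <;> num

end Crest.Agent.T157.Og

end
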