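import Crest.Agent.T157.OgDef_9
import Crest.Agent.T157.NumT_27

set_option autoImplicit false

/-!
Row 157, A2 (helper11): the numbers of (W), (m1), (F) (`Og.NW`, `Og.NM`).
-/

noncomputable section

namespace Crest.Agent.T157.Og

open Real Set
open Crest.Agent.T157.Oo Crest.Agent.T157.O6 Crest.Agent.T157.O0 Crest.Agent.T157.Nm

namespace NW11

/-- the atoms -/
structure At (p : Pm) (t ε H l s x b η : ℝ) : Prop where
  en : Eb (p.n : ℝ) l
  et : Eb t (-s)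
  ee : Eb ε (-x)
  eb : Eb p.B0 b
  eh : Eb H η
  ub : Ub (p.Bt t) b
  ro : Lb (ro p) (l - 1)
  lg : Ub (lg p) (p.cv * l)

/-- the linear relations between the exponents -/
structure Lin (p : Pm) (l s x b η : ℝ) : Prop where
  b1 : 10 ^ 6 ≤ b
  b2 : 10 ^ 4 * b ≤ p.cv * l
  x0 : 0 ≤ x
  x1 : x ≤ p.cv * l
  h1 : η ≤ b - 4 * x + l - 3 / 2 * s
  h2 : η ≤ l - 1000 * b + 2
  s0 : 0 ≤ s
  sl : s ≤ 2 / 3 * l
  l1 : p.cv * l ≤ p.k3 * l / 100
  l2 : p.k3 * l ≤ p.k2 * l / 100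
  l3 : p.k2 * l ≤ p.k4 * l / 100
  l4 : p.k4 * l ≤ p.ch * l / 100
  l5 : p.ch * l ≤ l / 1000
  s1 : 0 ≤ p.k3 * s
  s2 : p.k3 * s ≤ s / 1000
  s3 : p.k3 * s ≤ p.k3 * l
  k1 : p.k3 * (p.k4 * l) ≤ p.k3 * l / 1000

lemma lb_pow {f a : ℝ} (k : ℕ) (hk : k ≠ 0) (h0 : 0 < f) (h : Lb (f ^ k) (k * a)) : Lb f a := by
  rw [Lb, exp_nat_mul] at h
  exact (pow_le_pow_iff_left₀ (exp_pos a).le h0.le hk).1 h

theorem sc {p : Pm} {t ε H : ℝ} (h : LH p t ε H) :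
    ∃ l s x b η, At p t ε H l s x b η ∧ Lin p l s x b η := by
  have o := h.ord
  have ok := o.ok
  have ⟨k30, k20, k40, d0, ch0, cv0, t00, f0⟩ : 0 < p.k3 ∧ 0 < p.k2 ∧ 0 < p.k4 ∧ 0 < p.d ∧
    0 < p.ch ∧ 0 < p.cv ∧ 0 < p.t0 ∧ 0 < p.ef :=
    ⟨ok.k3.1, ok.k2.1, ok.k4.1, ok.d.1, ok.ch.1, ok.cv, ok.t0.1, ok.ef⟩
  have ⟨c6, c5, c4, c3, c2⟩ := And.intro ok.ch.2 <| And.intro ok.d.2 <| And.intro ok.k4.2 <|
    And.intro ok.k2.2 ok.k3.2
  have ⟨hL, hC, hK, hB, hB0, hB2⟩ := And.intro ok.L <| And.intro ok.C <| And.intro ok.K <|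
    And.intro ok.B <| And.intro ok.B0 ok.B2
  have A1 : (1 : ℝ) ≤ p.A := by exact_mod_cast ok.A
  have cv1 : p.cv ≤ p.k3 / 100 := (le_mul_of_one_le_left cv0.le A1).trans ok.cv'
  have LK : p.L ≤ p.K := by
    have h1 : p.L ≤ p.L ^ 10 := le_self_pow₀ (by linarith) (by norm_num)
    have h2 : p.C ≤ p.C ^ 10 := le_self_pow₀ hC (by norm_num)
    linarith [o.C, o.K]
  have EL : Eb p.L (log p.L) := Eb.log (by linarith)
  have EC : Eb p.C (log p.C) := Eb.log (by linarith)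
  have EK : Eb p.K (log p.K) := Eb.log (by linarith)
  have EB : Eb p.B (log p.B) := Eb.log (by linarith)
  have EB0 : Eb p.B0 (log p.B0) := Eb.log (by linarith)
  have EB2 : Eb p.B2 (log p.B2) := Eb.log (by linarith)
  have Et0 : Eb p.t0 (log p.t0) := Eb.log t00
  have Ef : Eb p.ef (log p.ef) := Eb.log f0
  have a0 : 1 ≤ log p.C := by
    rw [le_log_iff_exp_le (by linarith)]
    have h1 : 1 ≤ p.L ^ 10 := one_le_pow₀ (by linarith)
    linarith [exp_one_lt_d9, o.C]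
  have a1 := (EC.pow.le_iff EK).1 o.K
  have a2 := (EK.pow.le_iff EB).1 o.B
  have a3 := ((Et0.mul EB.pow).le_iff Eb.one).1 o.t0
  have a4 := (Eb.one.le_iff (EB0.mul Et0.pow)).1 o.B0
  have a5 := ((Ef.mul EB0.pow).le_iff Eb.one).1 o.ef
  have a6 := (Eb.one.le_iff (EB2.mul Ef.pow)).1 o.B2
  have l1 : 1 ≤ log p.n := le_trans (one_le_pow₀ (by linarith)) o.n1
  have n1 : (1 : ℝ) < p.n := (log_pos_iff (Nat.cast_nonneg _)).1 (by linarith)
  have En : Eb (p.n : ℝ) (log p.n) := Eb.log (by linarith)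
  have El : Eb (log p.n) (log (log p.n)) := Eb.log (by linarith)
  have a7 := (EB2.pow.le_iff El).1 o.n1
  have a8 := (El.pow.le_iff En.rpow).1 o.n3
  have a9 := (EL.le_iff EB0).1 (by linarith)
  have Elo : Eb p.lo (p.d * log p.n - 2 / 3 * log p.n) := En.rpow.div En.rpow
  have t0 : 0 < t := Elo.pos.trans_le h.lo
  have Et : Eb t (- -log t) := by rw [neg_neg]; exact Eb.log t0
  have Ee : Eb ε (- -log ε) := by rw [neg_neg]; exact Eb.log h.e0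
  have EM : Eb (p.M t) (log p.n + 3 / 2 * - -log t) := En.mul Et.rpow
  have H0 : 0 < H := lt_of_lt_of_le (lt_min (mul_pos (pow_pos h.e0 _) EM.pos) (by positivity)) h.H0
  have EH := Eb.log H0
  have b1 := (Elo.le_iff Et).1 h.lo
  have b2 := (Et.le_iff Et0).1 h.hi
  have b3 := (Ee.le_iff Eb.one).1 h.e1
  have b4 := (En.rpow.le_iff Ee).1 h.en
  have b5 := (EH.le_iff ((EL.mul Ee.pow).mul EM)).1 h.H1
  have b6 := exp_le_exp.1 (EH.lb.trans (h.H2.trans (((Ub.ofNat 2).mul Ef.ub).mul En.ub).2))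
  have n8 : (8 : ℝ) ≤ p.n := by
    have := log_le_sub_one_of_pos (show (0 : ℝ) < p.n by linarith)
    have h1 : p.B2 ≤ p.B2 ^ 100 := le_self_pow₀ (by linarith) (by norm_num)
    linarith [o.n1]
  push_cast at a1 a2 a3 a4 a5 a6 a7 a8 b5
  refine ⟨log p.n, -log t, -log ε, log p.B0, log H, ⟨En, Et, Ee, EB0, EH, ?_,
    Lb.sub (by linarith) En.lb, El.ub.mono (by linarith)⟩, ?_⟩
  · unfold Pm.Bt; split_ifs
    exacts [EB0.ub.of_le (by linarith) hB0, EB0.ub]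
  generalize log p.n = l at *
  generalize -log t = s at *
  have l0 : 0 ≤ l := by linarith
  have s0 : 0 ≤ s := by linarith
  have dl := mul_nonneg d0.le l0
  have m : ∀ {x y z : ℝ}, 0 ≤ z → x ≤ y / 100 → x * z ≤ y * z / 100 := fun hz h => by
    linarith [mul_le_mul_of_nonneg_right h hz]
  have q1 : p.k4 * l ≤ l / 1000 := by
    linarith [mul_le_mul_of_nonneg_right (show p.k4 ≤ 1 / 1000 by linarith) l0]
  exact ⟨by linarith, by linarith, by linarith, by linarith, by linarith, by linarith, s0,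
    by linarith, m l0 cv1, m l0 c2, m l0 c3, m l0 (by linarith),
    by linarith [mul_le_mul_of_nonneg_right c6 l0], by positivity,
    by linarith [mul_le_mul_of_nonneg_right (show p.k3 ≤ 1 / 1000 by linarith) s0],
    mul_le_mul_of_nonneg_left (by linarith) k30.le,
    by linarith [mul_le_mul_of_nonneg_left q1 k30.le]⟩

/-- the three regimes: exponents `κ, α, μ` of `kk, al, max t t*` -/
theorem At.regimes {p : Pm} {t ε H l s x b η : ℝ} (h : At p t ε H l s x b η)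
    (L : Lin p l s x b η) : ∃ κ α μ, Eb (p.kk t) κ ∧ Eb (p.al t) α ∧ Eb (max t p.ts) μ ∧
    ((p.tss ≤ t ∧ κ = 0 ∧ α = 1 / 3 * -s ∧ μ = -s) ∨
     (t < p.tss ∧ p.ts ≤ t ∧ p.ch * l ≤ s ∧ s ≤ l / 2 - p.k4 * l ∧ κ = p.k2 * l ∧
        α = 1 / 3 * (-p.ch * l) ∧ μ = -s) ∨
     (t < p.ts ∧ l / 2 - p.k4 * l ≤ s ∧
        κ = p.k2 * l + (1 + p.k3) * ((p.k4 - 1 / 2) * l - -s) ∧ α = 1 / 3 * (-p.ch * l) ∧
        μ = (p.k4 - 1 / 2) * l)) := by
  have E1 : Eb p.ts ((p.k4 - 1 / 2) * l) := h.en.rpow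
  have E2 : Eb p.tss (-p.ch * l) := h.en.rpow
  have t0 := h.et.pos
  rcases le_or_gt p.tss t with h3 | h3
  · have a := (E2.le_iff h.et).1 h3
    have hs : p.ts ≤ t := (E1.le_iff h.et).2 (by
      linarith [L.l1, L.l2, L.l3, L.l4, L.l5, L.b1, L.b2])
    refine ⟨_, _, _, ?_, ?_, ?_, Or.inl ⟨h3, rfl, rfl, rfl⟩⟩
    · rw [Pm.kk, if_pos h3]; exact Eb.one
    · rw [Pm.al, max_eq_left h3]; exact h.et.rpow
    · rw [max_eq_left hs]; exact h.et
  · have a := (h.et.lt_iff E2).1 h3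
    have e : Eb (p.al t) (1 / 3 * (-p.ch * l)) := by rw [Pm.al, max_eq_right h3.le]; exact E2.rpow
    rcases le_or_gt p.ts t with hs | hs
    · have a' := (E1.le_iff h.et).1 hs
      refine ⟨_, _, _, ?_, e, ?_, Or.inr (Or.inl ⟨h3, hs, by linarith, by linarith, rfl, rfl, rfl⟩)⟩
      · rw [Pm.kk, if_neg h3.not_ge, max_eq_left ((div_le_one t0).2 hs), one_rpow, mul_one]
        exact h.en.rpow
      · rw [max_eq_left hs]; exact h.et
    · have a' := (h.et.lt_iff E1).1 hs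
      refine ⟨_, _, _, ?_, e, ?_, Or.inr (Or.inr ⟨hs, by linarith, rfl, rfl, rfl⟩)⟩
      · rw [Pm.kk, if_neg h3.not_ge, max_eq_right ((one_le_div t0).2 hs.le)]
        exact h.en.rpow.mul (E1.div h.et).rpow
      · rw [max_eq_right hs.le]; exact E1

end NW11

open NW11

set_option maxHeartbeats 1000000 in
theorem nW : NW := by
  intro p t ε H h
  obtain ⟨l, s, x, b, η, a, L⟩ := sc h
  obtain ⟨κ, α, μ, _, _, _, hr⟩ := a.regimes L
  obtain ⟨_, _, _, _, _, _, _, _⟩ := a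
  obtain ⟨_, _, _, _, _, _, _, _, _, _, _, _, _, _, _, _, _⟩ := L
  clear h
  simp only [wC, wA, c1, Cs.ctr, Cs.lam, Pm.cq]
  refine ⟨?_, fun hs => ?_⟩
  · rcases hr with ⟨-, rfl, rfl, rfl⟩ | ⟨-, -, _, _, rfl, rfl, rfl⟩ | ⟨-, _, rfl, rfl, rfl⟩ <;> num
  · rcases hr with ⟨-, rfl, rfl, rfl⟩ | ⟨-, -, _, _, rfl, rfl, rfl⟩ | ⟨h, -⟩
    · num
    · num
    · exact absurd hs h.not_ge

set_option maxHeartbeats 1000000 in
theorem nM : NM := by
  intro p t ε H h h3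
  obtain ⟨l, s, x, b, η, a, L⟩ := sc h
  obtain ⟨κ, α, μ, _, _, _, hr⟩ := a.regimes L
  obtain ⟨_, _, _, _, _, _, _, _⟩ := a
  obtain ⟨_, _, _, _, _, _, _, _, _, _, _, _, _, _, _, _, _⟩ := L
  clear h
  simp only [bC, bPhi, tPhi, uPhi, rC, rA, rAA, c1, Cs.ctr, Cs.lam, Pm.cq, Pm.s1]
  refine ⟨?_, fun hs => ?_⟩
  · rcases hr with ⟨h, -⟩ | ⟨-, -, _, _, rfl, rfl, rfl⟩ | ⟨-, _, rfl, rfl, rfl⟩
    · exact absurd h h3.not_ge
    · num
    · num
  · rcases hr with ⟨h, -⟩ | ⟨-, -, _, _, rfl, rfl, rfl⟩ | ⟨h, -⟩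
    · exact absurd h h3.not_ge
    · constructor <;> num
    · exact absurd hs h.not_ge

end Crest.Agent.T157.Og

end
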