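import Crest.Agent.T157.OgA_9
import Crest.Agent.T157.OgNT_27
import Crest.Agent.T157.OgNW_11
import Crest.Agent.T157.OgNH_66
import Crest.Agent.T157.OgCv_89
import Crest.Agent.T157.OgCv_61
import Crest.Agent.T157.OgCt_56
import Crest.Agent.T157.OgLo_5
import Crest.Agent.T157.OgHiM_17
import Crest.Agent.T157.OgHiW_64
import Crest.Agent.T157.OgHf_15

set_option autoImplicit false

/-!
Row 157, A2 (helper9): the orbit step from the inputs of sections 2, 3 and 4.
-/

noncomputable section

namespace Crest.Agent.T157.Og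

open Crest.Agent.T157.O0

theorem orb_all (β : Base) : (InC β → T1C β → OrbC β) ∧ (InS β → T1S β → OrbS β) :=
  ogGlue nT1 nT2 apL ctrL (loL nW nM) (midL nW nM) hiM (hiWGlue nW nH) (hiFGlue nH nF) convL β

/-- **the crude orbit step** -/
theorem orbC_of {β : Base} (h : InC β) (h1 : T1C β) : OrbC β := (orb_all β).1 h h1

/-- **the sharp orbit step** -/
theorem orbS_of {β : Base} (h : InS β) (h1 : T1S β) : OrbS β := (orb_all β).2 h h1

end Crest.Agent.T157.Og
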