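import Crest.Agent.T157.OiDef_19
import Crest.Agent.T157.KbBack_10

/-!
# Row 157, part A2 (helper10): `Oi.BackL`
-/

set_option autoImplicit false

noncomputable section

namespace Crest.Agent.T157.Kb

open MeasureTheory Matrix Set Filter
open Crest.Agent.T157.E Crest.Agent.T157.Cond Crest.Agent.T157.Tap
open Crest.Agent.T157.Qe (Le bv)
open Crest.Agent.T157.TapPl
open Bk10

variable {n : ℕ} {L T η H t : ℝ} {x : V n} {W : Mx n}

/-! ### the projection of the spins -/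

namespace Bk10

lemma bessel {f g w : V n} (hf : f ⬝ᵥ f ≤ 1) (hg : g ⬝ᵥ g ≤ 1) (h : f ⬝ᵥ g = 0) :
    (f ⬝ᵥ w) ^ 2 + (g ⬝ᵥ w) ^ 2 ≤ w ⬝ᵥ w := by
  have := dot_self_nonneg (w - (f ⬝ᵥ w) • f - (g ⬝ᵥ w) • g)
  simp only [sub_dotProduct, dotProduct_sub, smul_dotProduct, dotProduct_smul, smul_eq_mul,
    dotProduct_comm w f, dotProduct_comm w g, dotProduct_comm g f, h] at this
  nlinarith [mul_le_mul_of_nonneg_left hf (sq_nonneg (f ⬝ᵥ w)),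
    mul_le_mul_of_nonneg_left hg (sq_nonneg (g ⬝ᵥ w))]

lemma unitv_le (u : V n) : unitv u ⬝ᵥ unitv u ≤ 1 := by
  by_cases h : u = 0
  · simp [h, unitv]
  · exact (unitv_dot h).le

lemma bv_eq (e c : V n) : bv e c = c - (e ⬝ᵥ c) • e := by
  simp only [bv, Qe.R1, sub_mulVec, one_mulVec, vecMulVec_mulVec, op_smul_eq_smul]

/-- the frames `(x / |x|, f2)` and `(e, u2)` -/
lemma frame {x : V n} (he : ee x ⬝ᵥ ee x = 1) (hx : x ≠ 0) (v : V n) :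
    (unitv x ⬝ᵥ v) ^ 2 + (f2 x ⬝ᵥ v) ^ 2 ≤ (ee x ⬝ᵥ v) ^ 2 + (u2 x ⬝ᵥ bv (ee x) v) ^ 2 := by
  have hu : u2 x ⬝ᵥ u2 x ≤ 1 := unitv_le _
  have o1 : ∀ {e : V n}, e ⬝ᵥ e = 1 → ∀ c, e ⬝ᵥ unitv (bv e c) = 0 := fun he c => by
    rw [unitv, dotProduct_smul, bv_eq, dotProduct_sub, dotProduct_smul, he]; simp
  have heu : ee x ⬝ᵥ u2 x = 0 := o1 he x
  have hue : u2 x ⬝ᵥ ee x = 0 := by rw [dotProduct_comm, heu]
  have h1 : u2 x ⬝ᵥ bv (ee x) v = u2 x ⬝ᵥ v := by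
    rw [bv_eq, dotProduct_sub, dotProduct_smul, hue]; simp
  obtain ⟨w, hw⟩ : ∃ w, w = (ee x ⬝ᵥ v) • ee x + (u2 x ⬝ᵥ v) • u2 x := ⟨_, rfl⟩
  have h2 : ee x ⬝ᵥ w = ee x ⬝ᵥ v := by
    rw [hw, dotProduct_add, dotProduct_smul, dotProduct_smul, he, heu]; simp
  have h3 : bv (ee x) x ⬝ᵥ w = bv (ee x) x ⬝ᵥ v := by
    by_cases h0 : bv (ee x) x = 0
    · simp [h0]
    · have : u2 x ⬝ᵥ w = u2 x ⬝ᵥ v := by
        rw [hw, dotProduct_add, dotProduct_smul, dotProduct_smul, hue,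
          show u2 x ⬝ᵥ u2 x = 1 from unitv_dot h0]; simp
      rw [← len_smul_unitv (bv (ee x) x), smul_dotProduct, smul_dotProduct]
      exact congrArg _ this
  have h4 : th x ⬝ᵥ w = th x ⬝ᵥ v := by
    rw [← len_smul_unitv (th x), smul_dotProduct, smul_dotProduct]
    exact congrArg _ h2
  have h5 : unitv x ⬝ᵥ w = unitv x ⬝ᵥ v := by
    rw [bv_eq, sub_dotProduct, sub_dotProduct, smul_dotProduct, smul_dotProduct, h2] at h3
    rw [unitv, smul_dotProduct, smul_dotProduct, sub_left_inj.1 h3]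
  have h6 : f2 x ⬝ᵥ w = f2 x ⬝ᵥ v := by
    rw [f2, unitv.eq_1 (bv _ _), smul_dotProduct, smul_dotProduct, bv_eq, sub_dotProduct,
      sub_dotProduct, smul_dotProduct, smul_dotProduct, h4, h5]
  rw [h1, ← h5, ← h6]
  refine (bessel (unitv_le _) (unitv_le _) (o1 (unitv_dot hx) _)).trans ?_
  rw [hw]
  simp only [add_dotProduct, dotProduct_add, smul_dotProduct, dotProduct_smul, smul_eq_mul, he, heu,
    hue]
  nlinarith [mul_le_mul_of_nonneg_left hu (sq_nonneg (u2 x ⬝ᵥ v))]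

end Bk10

/-- **`|Π s|²`** -/
theorem G1.zs {s : Cube n} (h : G1 L T η H t (gz s (x, W)).1 (gz s (x, W)).2) (ht : 0 < t)
    (hT : 1 ≤ T) (hη : η ^ 30 ≤ 1 / 100) (hq : 50000 * T ^ 2 * aS x ≤ 1) :
    (unitv x ⬝ᵥ sv s) ^ 2 + (f2 x ⬝ᵥ sv s) ^ 2 ≤ 2 * T ^ 2 * n * aS x := by
  have hσ := Pl.isSign_sv s
  have e1 := h.es
  have q0 := h.back.toXb.q0 ht
  have hn : 0 < n := Nat.pos_of_ne_zero fun h0 => by subst h0; simp [aS, avg] at q0
  have T2 : 1 ≤ T ^ 2 := one_le_pow₀ hT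
  have a := aS_sign hσ x
  obtain ⟨-, k2, k3, -⟩ := Ha11.xs (x := sv s * x) hn ht hT hη (a ▸ q0) (by rw [a]; nlinarith)
    h.co h.xm
  have k4 := frame (x := sv s * x) h.col.unit (fun h0 => by simp [h0] at k2) 1
  have d : ∀ u : V n, (sv s * u) ⬝ᵥ 1 = u ⬝ᵥ sv s := fun u => by
    simp [dotProduct, mul_comm]
  rw [f2_sign hσ, show unitv (sv s * x) = sv s * unitv x by
    rw [← dg_mv, unitv_conj (dg_orth hσ), dg_mv], d, d] at k4
  rw [a] at k3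
  change _ ≤ _ + (u2 _ ⬝ᵥ tau _) ^ 2 at k4
  rw [ee_sign hσ, d] at k4
  have n0 : (0 : ℝ) ≤ n * aS x := by positivity
  have q1 : 50000 * aS x ≤ T ^ 2 := by nlinarith
  nlinarith [mul_le_mul_of_nonneg_right q1 n0]

end Crest.Agent.T157.Kb

namespace Crest.Agent.T157.Oi

open Matrix Filter Set
open Crest.Agent.T157.Tap Crest.Agent.T157.O0

/-- **gauge back** -/
theorem backL : BackL := by
  filter_upwards [ev_ok, ev_t0 fun q => ev_sm (1 / ((50000 * q.T ^ 2) ^ 2 * q.T)),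
    ev_n (Q := fun p => 1 ≤ p.n) fun _ => eventually_ge_atTop 1]
    with p ok h0 hn t ht h H h1 h2 x W s g
  have b := g.back
  have hT := ok.T
  have t0 : 0 < t := lt_of_lt_of_le (by unfold Pm.lo; positivity) ht.1
  have q0 := b.toXb.q0 t0
  have e1 : h ≤ 1 / 100 := by
    linarith [ok.e1.2, ok.k3.2, ok.k2.2, ok.k4.2, ok.d.2, ok.ch.2]
  have e2 : h ^ 30 ≤ 1 / 100 := (pow_le_of_le_one h1.le (by linarith) (by norm_num)).trans e1
  have e3 : h ^ 27 ≤ 1 := pow_le_one₀ h1.le (by linarith)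
  have h0 : p.t0 ≤ 1 / ((50000 * p.T ^ 2) ^ 2 * p.T) :=
    h0.2 (by show 0 < 1 / ((50000 * p.T ^ 2) ^ 2 * p.T); positivity)
  have hq : 50000 * p.T ^ 2 * aS x ≤ 1 := by
    refine (abs_le_of_sq_le_sq' ?_ zero_le_one).2
    rw [le_div_iff₀ (by positivity)] at h0
    calc _ = (50000 * p.T ^ 2) ^ 2 * aS x ^ 2 := by ring
      _ ≤ (50000 * p.T ^ 2) ^ 2 * (p.T * p.t0) := by
        gcongr
        exact b.q2.trans (mul_le_mul_of_nonneg_left ht.2 (by linarith))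
      _ ≤ _ := by linarith
  have a0 := (div_nonneg q0.le (by linarith)).trans b.s1
  exact ⟨⟨b.q1, b.qu, ⟨q0, b.r4, b.p4, b.p6, b.e8⟩, b.c2⟩, ⟨b.ha, b.tr, b.s2, by
    linarith [(abs_le.1 b.s3).2, mul_le_mul_of_nonneg_right e3 a0, b.s2]⟩, ⟨b.pos, b.p5⟩,
    g.zs t0 hT e2 hq⟩

end Crest.Agent.T157.Oi

end
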