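import Crest.Agent.T157.O4TD_59

/-!
# Row 157, A2 section 4 (helper59): a continuous majorant of the bad event of `O4c.M1Core`
-/

set_option autoImplicit false
set_option linter.unusedSectionVars false

noncomputable section

namespace Crest.Agent.T157.O4T

open Matrix Finset MeasureTheory Real
open Crest.Agent.Lib.OrthPoinc Crest.Agent.T157.Oc Crest.Agent.T157.E Crest.Agent.T157.Od
open Crest.Agent.T157.Oo Crest.Agent.T157.Mj Crest.Agent.T157.Dq Crest.Agent.T157.Qs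
open Crest.Agent.T157.O4c Crest.Agent.T157.O4c.W31

variable {n k : ℕ} {o : Oo.Orb n k} {μ : Measure (Mat k)} [IsProbabilityMeasure μ]
  {x f1 f2 : Vn n} {b : Fin k → ℝ} {X χ γ B E M m D g η' a : ℝ} {J : ℕ}

lemma abs_le_of_exp {θ u y : ℝ} (θ0 : 0 < θ) (y0 : 0 ≤ y) (h : exp (θ * (u ^ 2 - y ^ 2)) < 1) :
    |u| ≤ y := by
  rw [exp_lt_one_iff] at h
  exact abs_le.2 (abs_le_of_sq_le_sq' (by nlinarith) y0)

/-- restriction of the dual form to the rotated subspace -/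
lemma res_le {S : Mn n} (cS : Cv S g) {R : Mn k} (cR : Cv R g) (e : o.Eᵀ * S * o.E = R)
    (ξ : Vn n) : o.Eᵀ *ᵥ ξ ⬝ᵥ R⁻¹ *ᵥ (o.Eᵀ *ᵥ ξ) ≤ ξ ⬝ᵥ S⁻¹ *ᵥ ξ := by
  have h1 := cS.dual ξ (o.E *ᵥ (R⁻¹ *ᵥ (o.Eᵀ *ᵥ ξ)))
  rw [quad_E, e, cR.GG, dotProduct_comm ξ (o.E *ᵥ _), dot_E, dotProduct_comm (R⁻¹ *ᵥ _)] at h1
  rcases (cR.nn' (o.Eᵀ *ᵥ ξ)).eq_or_lt with h0 | h0
  · rw [← h0]; exact cS.nn' ξ
  · exact le_of_mul_le_mul_right (by nlinarith) h0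

/-- **the bad event** -/
theorem Tl.bd (h : Tl o x f1 f2 b X χ γ B E M m D J) (H : Ha o x f1 f2 η' a g) (hμ : SOInv μ)
    {ν C a11 θ y η κ T0 P δ0 : ℝ} (v0 : 0 < ν) (e1 : η' + ν ≤ 1 / 4)
    (sm : 192 * (η' + ν) * B ^ 4 * M ≤ g * (n * γ)) (hC : 4 + 2 * Dq x f1 f2 ^ 2 / g ≤ C)
    (ha : f1 ⬝ᵥ A0 o *ᵥ f1 ≤ a11) (θ0 : 0 < θ) (hθ : θ * (19 * g + 2 * a11) ≤ ν * g)
    (hy : 8 * n * θ ≤ y) (hy' : 4 * B * (y + 1) ≤ η * κ * n) (η0 : 0 ≤ η) (κ0 : 0 ≤ κ) (T00 : 0 < T0)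
    (hT : 16 * T0 ≤ ∑ i, (b i)⁻¹ ^ 2) (P1 : P ≤ ν * g * (η * X) ^ 2 / 2)
    (P2 : 48 * (1 + C) ^ 2 * P ≤ ν * (η * κ * X) ^ 2) (P3 : 18 * P ≤ ν * g ^ 2 * T0)
    (P4 : 2 * P ≤ θ * y)
    (hδ : pe o μ (fun s _ => if Z2 o s ≤ B ^ 2 * (n * γ) then 0 else 1) ≤ δ0) :
    ∃ Bd : Cube n → Vn n → ℝ, CF Bd ∧ (∀ s ξ, 0 ≤ Bd s ξ) ∧ (∀ s ω, Mj.Sph o ω →
      ¬ Gd o x f1 f2 (MM o x f1 f2)⁻¹ X κ η T0 s (xp o s ω) → 1 ≤ Bd s (xp o s ω)) ∧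
      pe o μ (fun s ω => Bd s (xp o s ω)) ≤ δ0 + 8 * (Pf n γ B E M m D J * exp (-P)) := by
  have g0 := H.g0
  have X0 := h.X0
  have c : Co o f2 γ B M g η' ν := ⟨g0, fun y => le_trans (add_le_add (mul_le_mul_of_nonneg_right
    H.g_le (dnn y)) le_rfl) (H.A_ge y), H.e0, v0, e1, sm⟩
  have cA := H.cvA
  have cM := H.cvM
  have cB : Cv (o.Eᵀ * A0 o * o.E) g := ⟨h.dg.symm, g0, fun y => by
    rw [← quad_E, ← EE h.ok]; exact c.g_le _⟩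
  have C4 : 4 ≤ C := le_trans (le_add_of_nonneg_right (by positivity)) hC
  set G := (MM o x f1 f2)⁻¹ with hG
  set S := o.Eᵀ * A0 o * o.E with hS
  set Λ := B ^ 2 * (n * γ) with hΛ
  have pG := cM.nn' o.p
  set Pp := o.p ⬝ᵥ G *ᵥ o.p + T0 with hPp
  have Pp0 : 0 < Pp := by linarith
  set t := ν / (12 * (1 + C) ^ 2) with ht
  have t0 : 0 < t := by positivity
  have f1le : ∀ y, g * (f1 ⬝ᵥ y) ^ 2 ≤ y ⬝ᵥ A0 o *ᵥ y := fun y => by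
    have := dcs f1 y
    rw [h.n1, one_mul] at this
    exact (mul_le_mul_of_nonneg_left this g0.le).trans (c.g_le y)
  have Mle : ∀ y, y ⬝ᵥ MM o x f1 f2 *ᵥ y ≤ (1 + C) * (y ⬝ᵥ A0 o *ᵥ y) := fun y => by
    have a1 : (bb x f1 f2 ⬝ᵥ y) ^ 2 ≤ 2 * (f2 ⬝ᵥ y) ^ 2 + 2 * Dq x f1 f2 ^ 2 * (f1 ⬝ᵥ y) ^ 2 := by
      rw [bb, sub_dotProduct, smul_dotProduct, smul_eq_mul]
      linarith [sq_nonneg (f2 ⬝ᵥ y + Dq x f1 f2 * (f1 ⬝ᵥ y))]
    have a2 := mul_le_mul_of_nonneg_left (f1le y) (show 0 ≤ 2 * Dq x f1 f2 ^ 2 / g by positivity)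
    rw [← mul_assoc, div_mul_cancel₀ _ g0.ne'] at a2
    rw [MM_form]
    linarith [mul_le_mul_of_nonneg_right hC (cA.nn y), c.f2_le y, sq_nonneg (f2 ⬝ᵥ y), cA.nn y]
  have tl : ∀ {u v : ℝ}, u ≤ 6 * (1 + C) ^ 2 * v → 2 * t * u ≤ ν * v := fun {u v} huv =>
    (mul_le_mul_of_nonneg_left huv (by positivity)).trans_eq (by rw [ht]; field_simp; ring)
  have lM : ∀ {f : Vn n}, f ⬝ᵥ f = 1 → ∀ y, 2 * t * (MM o x f1 f2 *ᵥ f ⬝ᵥ y) ^ 2 ≤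
      ν * (y ⬝ᵥ A0 o *ᵥ y) := fun {f} hf y => tl (by
    have a1 := form_le h.op f
    rw [← symm_dot cM.symm]
    refine (cM.cs f y).trans ((mul_le_mul ((Mle f).trans (mul_le_mul_of_nonneg_left a1 (by linarith)))
      (Mle y) (cM.nn y) (by rw [hf]; linarith)).trans_eq ?_)
    rw [hf]; ring)
  have T1 := h.tail_lin c hμ (l := f1) (θ := ν * g / 2) (by positivity) (fun y => by
    linarith [mul_le_mul_of_nonneg_left (f1le y) v0.le]) (η * X)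
  have T2 := h.tail_lin c hμ (l := f2) t0.le (fun y => tl (by
    nlinarith [c.f2_le y, mul_le_mul_of_nonneg_right (one_le_pow₀ (n := 2)
      (show 1 ≤ 1 + C by linarith)) (cA.nn y), cA.nn y])) (η * κ * X / 2)
  have T3 := h.tail_lin c hμ t0.le (lM h.n1) (η * κ * X / 2)
  have T4 := h.tail_lin c hμ t0.le (lM h.n2) (η * κ * X / 2)
  have T5 := h.tail_lin c hμ (l := G *ᵥ o.p) (θ := ν * g ^ 2 / (2 * Pp)) (by positivity) (fun y => by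
    have a1 := cM.dual (G *ᵥ y) (G *ᵥ o.p)
    have a0 := cM.dual o.p (G *ᵥ y)
    rw [cM.GG] at a0
    have a2 : g ^ 2 * (y ⬝ᵥ G *ᵥ y) ≤ y ⬝ᵥ A0 o *ᵥ y := by
      linarith [mul_le_mul_of_nonneg_left (cM.G_le y) g0.le, c.g_le y]
    have a3 := a0.trans (mul_le_mul_of_nonneg_right (show _ ≤ Pp by linarith) (cM.nn' y))
    rw [← symm_dot cM.symm', show 2 * (ν * g ^ 2 / (2 * Pp)) = ν * g ^ 2 / Pp by field_simp,
      div_mul_eq_mul_div, div_le_iff₀ Pp0]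
    linarith [mul_le_mul_of_nonneg_left a3 (show 0 ≤ ν * g ^ 2 by positivity),
      mul_le_mul_of_nonneg_left a2 (show 0 ≤ ν * Pp by positivity)]) (Pp / 3)
  have T6 := h.tail_c c hμ (θ := θ) ha (by rwa [abs_of_pos θ0]) (θ * y)
  have T7 := h.tail_c c hμ (θ := -θ) ha (by rwa [abs_neg, abs_of_pos θ0]) (θ * y)
  have T8 := h.tail_inv c hμ T0
  set F : Fin 8 → Vn n → ℝ := ![fun ξ => ν * g / 2 * ((f1 ⬝ᵥ ξ) ^ 2 - (η * X) ^ 2),
    fun ξ => t * ((f2 ⬝ᵥ ξ) ^ 2 - (η * κ * X / 2) ^ 2),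
    fun ξ => t * ((MM o x f1 f2 *ᵥ f1 ⬝ᵥ ξ) ^ 2 - (η * κ * X / 2) ^ 2),
    fun ξ => t * ((MM o x f1 f2 *ᵥ f2 ⬝ᵥ ξ) ^ 2 - (η * κ * X / 2) ^ 2),
    fun ξ => ν * g ^ 2 / (2 * Pp) * ((G *ᵥ o.p ⬝ᵥ ξ) ^ 2 - (Pp / 3) ^ 2),
    fun ξ => θ * (A0 o *ᵥ ξ ⬝ᵥ Pm o *ᵥ ξ - k) - θ * y,
    fun ξ => -θ * (A0 o *ᵥ ξ ⬝ᵥ Pm o *ᵥ ξ - k) - θ * y,
    fun ξ => g ^ 2 * (T0 - o.Eᵀ *ᵥ ξ ⬝ᵥ S⁻¹ *ᵥ (o.Eᵀ *ᵥ ξ) / 2)] with hF
  have cF : ∀ j, Continuous (F j) := fun j => by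
    fin_cases j <;> simp only [hF, Fin.zero_eta, Fin.mk_one, Fin.reduceFinMk, Matrix.cons_val] <;> fun_prop
  have N0 : (256 : ℝ) ≤ n := by exact_mod_cast h.big
  have kn : (k : ℝ) + 2 = n := by exact_mod_cast h.dim
  have Pf0 : 0 ≤ Pf n γ B E M m D J := by unfold Pf; positivity
  have cI : ∀ j, CF fun s ω => if Z2 o s ≤ Λ then exp (F j (xp o s ω)) else 0 := fun j s => by
    have := cF j
    by_cases hs : Z2 o s ≤ Λ <;> simp only [hs, if_true, if_false] <;> fun_prop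
  have TT : ∀ j, pe o μ (fun s ω => if Z2 o s ≤ Λ then exp (F j (xp o s ω)) else 0) ≤
      Pf n γ B E M m D J * exp (-P) := fun j => by
    have W : ∀ {u v : ℝ}, u ≤ Pf n γ B E M m D J * exp v → v ≤ -P → u ≤ Pf n γ B E M m D J * exp (-P) :=
      fun h1 h2 => h1.trans (mul_le_mul_of_nonneg_left (exp_le_exp.2 h2) Pf0)
    have p2 : -(t * (η * κ * X / 2) ^ 2) ≤ -P := by
      rw [neg_le_neg_iff, ht, div_mul_eq_mul_div, le_div_iff₀ (by positivity)]; linarith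
    have p6 : 4 * k * θ ^ 2 - θ * y ≤ -P := by
      linarith [mul_le_mul_of_nonneg_left hy θ0.le, mul_le_mul_of_nonneg_right
        (show (k : ℝ) ≤ n by linarith) (sq_nonneg θ)]
    fin_cases j
    · exact W T1 (by linarith)
    · exact W T2 p2
    · exact W T3 p2
    · exact W T4 p2
    · refine W T5 ?_
      rw [show ν * g ^ 2 / (2 * Pp) * (Pp / 3) ^ 2 = ν * g ^ 2 * Pp / 18 by field_simp; ring]
      linarith [mul_nonneg (show 0 ≤ ν * g ^ 2 by positivity) pG]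
    · exact W T6 p6
    · exact W T7 (by rwa [neg_sq])
    · refine W T8 ?_
      have := mul_le_mul_of_nonneg_right (show ν ≤ 1 by linarith [H.e0])
        (show 0 ≤ g ^ 2 * T0 by positivity)
      linarith [mul_le_mul_of_nonneg_left hT (sq_nonneg g), show 0 ≤ g ^ 2 * T0 by positivity]
  refine ⟨fun s ξ => (if Z2 o s ≤ Λ then 0 else 1) + ∑ j, if Z2 o s ≤ Λ then exp (F j ξ) else 0,
    fun s => ?_, fun s ξ => add_nonneg (by split_ifs <;> norm_num) (sum_nonneg fun j _ => by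
      split_ifs <;> positivity), fun s ω hω hb => ?_, ?_⟩
  · by_cases hs : Z2 o s ≤ Λ <;> simp only [hs, if_true, if_false] <;> fun_prop
  · by_cases hs : Z2 o s ≤ Λ <;> simp only [hs, if_true, if_false, zero_add, sum_const_zero,
      add_zero, le_refl]
    by_contra hn
    have L : ∀ j, exp (F j (xp o s ω)) < 1 := fun j => (single_le_sum (f := fun j =>
      exp (F j (xp o s ω))) (fun _ _ => (exp_pos _).le) (mem_univ j)).trans_lt (not_le.1 hn)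
    have y0 : 0 ≤ η * κ * X / 2 := by positivity
    have z1 := abs_le_of_exp (by positivity) (by positivity) (L 0)
    have z2 := abs_le_of_exp t0 y0 (L 1)
    have z3 := abs_le_of_exp t0 y0 (L 2)
    have z4 := abs_le_of_exp t0 y0 (L 3)
    have z5 := abs_le_of_exp (by positivity) (by positivity) (L 4)
    have z6 : θ * (_ - k) - θ * y < 0 := exp_lt_one_iff.1 (L 5)
    have z7 : -θ * (_ - k) - θ * y < 0 := exp_lt_one_iff.1 (L 6)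
    have z8 : g ^ 2 * (T0 - _ / 2) < 0 := exp_lt_one_iff.1 (L 7)
    set ξ := xp o s ω
    have R1 : n / 2 ≤ R2 o s := by
      linarith [R2_add h.ok s, mul_le_mul_of_nonneg_left h.be (by linarith : (0 : ℝ) ≤ n)]
    have R0 : 0 < R2 o s := by linarith
    have B0 : 0 < B := by linarith [h.B1]
    have ka : |cc o s ξ - (k - 1) / R2 o s| * B ≤ η * κ / 2 := by
      have a1 : |A0 o *ᵥ ξ ⬝ᵥ Pm o *ᵥ ξ - (k - 1)| ≤ y + 1 := abs_le.2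
        ⟨by nlinarith only [z7, θ0], by nlinarith only [z6, θ0]⟩
      rw [cc, ← sub_div, abs_div, abs_of_pos R0, div_mul_eq_mul_div, div_le_iff₀ R0]
      linarith [mul_le_mul_of_nonneg_right a1 B0.le,
        mul_le_mul_of_nonneg_left R1 (mul_nonneg η0 κ0)]
    have de : ∀ {f : Vn n}, Qm o *ᵥ f = f → (f ⬝ᵥ sv s) ^ 2 ≤ Z2 o s →
        |MM o x f1 f2 *ᵥ f ⬝ᵥ ξ| ≤ η * κ * X / 2 → |f ⬝ᵥ De o x f1 f2 s ξ| ≤ η * κ * X :=
      fun {f} hf h1 h2 => by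
      have a1 : |f ⬝ᵥ sv s| ≤ B * X := abs_le.2 (abs_le_of_sq_le_sq' (by
        rw [mul_pow, h.fm.rr h.xh]; exact h1.trans hs) (by positivity))
      rw [De, dotProduct_sub, dotProduct_smul, dot_Q, dot_Q, hf, symm_dot cM.symm, smul_eq_mul]
      refine (abs_sub _ _).trans ?_
      rw [abs_mul]
      linarith [mul_le_mul_of_nonneg_left a1 (abs_nonneg (cc o s ξ - (k - 1) / R2 o s)),
        mul_le_mul_of_nonneg_right ka X0.le]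
    have eZ := h.QQ (sv s)
    rw [← Z2] at eZ
    refine hb ⟨z1, by linarith, de h.Q1 (by linarith [sq_nonneg (f2 ⬝ᵥ sv s)]) z3,
      de h.Q2 (by linarith [sq_nonneg (f1 ⬝ᵥ sv s)]) z4, ?_⟩
    have e0 : ∀ {f : Vn n}, Qm o *ᵥ f = f → o.Eᵀ *ᵥ f = 0 := fun {f} hf => hf ▸ Et_Q h.ok f
    have a1 := res_le (o := o) cM cB (by
      simp only [MM, Bp, Matrix.mul_add, Matrix.mul_sub,
        mul_vecMulVec, mulVec_sub, mulVec_smul, e0 h.Q1, e0 h.Q2, smul_zero, sub_self,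
        zero_vecMulVec, add_zero, hS]) ξ
    have a2 := neg_of_mul_neg_right z8 (sq_nonneg g)
    have a3 : o.p ⬝ᵥ G *ᵥ ξ = G *ᵥ o.p ⬝ᵥ ξ := symm_dot cM.symm' _ _
    simp only [mulVec_add, add_dotProduct, dotProduct_add, a3, dotProduct_comm ξ (G *ᵥ o.p)]
    linarith [(abs_le.1 z5).1]
  · rw [pe_add hμ (fun _ => continuous_const) fun s => continuous_finsetSum _ fun j _ => cI j s,
      pe_sum hμ _ cI]
    refine add_le_add hδ ((sum_le_card_nsmul _ _ _ fun j _ => TT j).trans_eq ?_)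
    simp

end Crest.Agent.T157.O4T

end
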