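import Crest.Agent.T157.MjB_84
import Crest.Agent.T157.KbTay_31

/-!
# Row 157, A2 section 4 (helper59): large deviations of two linear statistics on the cube

* `nml` : a grid of product tilts;
* `cube_low`, `cube_up` : the cube factor against the spherical factor.
-/

set_option autoImplicit false

noncomputable section

namespace Crest.Agent.T157.O4T

open Matrix Finset Real
open Crest.ProbabilityR.SpinGlassDynamics (spin)
open Crest.Agent.T157.E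

variable {n : ℕ}

def lc (x : ℝ) : ℝ := log (cosh x)
def LC (θ : Fin n → ℝ) : ℝ := ∑ i, lc (θ i)

lemma hd_lc (x : ℝ) : HasDerivAt lc (tanh x) x := by
  have h := (hasDerivAt_cosh x).log (cosh_pos x).ne'
  rwa [← tanh_eq_sinh_div_cosh] at h

lemma lc_lip (a d : ℝ) : |lc (a + d) - lc a| ≤ |d| := by
  simpa using Kb.Tay.mvt (f := fun d => lc (a + d) - lc a) (g := fun d => tanh (a + d)) (c := 1)
    (fun y => ((hd_lc (a + y)).comp_const_add a y).sub_const _) (by simp) 0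
    (fun y => by simpa using (abs_tanh_lt_one _).le) d

lemma lc_two (a d : ℝ) : lc (a + d) ≤ lc a + d * tanh a + d ^ 2 / 2 := by
  have := Kb.Tay.mvt (f := fun d => lc (a + d) - lc a - d * tanh a)
    (g := fun d => tanh (a + d) - tanh a) (c := 1 / 2)
    (fun y => ((((hd_lc (a + y)).comp_const_add a y).sub_const _).sub
      ((hasDerivAt_id' y).mul_const _)).congr_deriv (by simp)) (by simp) 1
    (fun y => (Mj.th_lip a y).trans_eq (by norm_num)) d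
  rw [sq_abs] at this
  linarith [(abs_le.1 this).2]

lemma LC_two (θ f : Fin n → ℝ) (c : ℝ) :
    LC (θ + c • f) ≤ LC θ + c * (f ⬝ᵥ fun i => tanh (θ i)) + c ^ 2 * (f ⬝ᵥ f) / 2 := by
  simp only [LC, dotProduct, mul_sum, sum_div, ← sum_add_distrib]
  refine sum_le_sum fun i _ => (lc_two _ _).trans_eq ?_
  simp only [Pi.smul_apply, smul_eq_mul]; ring

lemma sum_exp (θ : Fin n → ℝ) : ∑ s : Cube n, exp (θ ⬝ᵥ sv s) = 2 ^ n * exp (LC θ) := by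
  have e : ∑ x : Cube n, exp (θ ⬝ᵥ sv x) = ∏ i, ∑ b : Bool, exp (θ i * spin b) := by
    rw [Finset.prod_univ_sum, Fintype.piFinset_univ]
    exact sum_congr rfl fun x _ => by rw [dotProduct, exp_sum]; rfl
  have e2 : ∀ i, ∑ b : Bool, exp (θ i * spin b) = 2 * exp (lc (θ i)) := fun i => by
    rw [lc, exp_log (cosh_pos _), cosh_eq]
    simp only [Fintype.sum_bool, spin, if_true, Bool.false_eq_true, if_false, mul_one, mul_neg]
    ring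
  simp only [e, e2, LC, exp_sum, prod_mul_distrib, prod_const, card_univ, Fintype.card_fin]

lemma abs_sv (s : Cube n) (i : Fin n) : |sv s i| = 1 := by
  have := Mj.sv_sq i s
  rw [← sq, ← sq_abs] at this
  nlinarith [abs_nonneg (sv s i)]

lemma floor_near {a : ℝ} {N B : ℕ} (N0 : 0 < N) (h : |a| ≤ B) :
    ⌊a * N⌋ ∈ Icc (-(N * B : ℤ)) (N * B) ∧ |a - ⌊a * N⌋ / N| ≤ 1 / N := by
  have N0' : (0 : ℝ) < N := by exact_mod_cast N0
  obtain ⟨h1, h2⟩ := abs_le.1 h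
  have h3 := Int.floor_le (a * N)
  have h4 := Int.lt_floor_add_one (a * N)
  refine ⟨mem_Icc.2 ⟨Int.le_floor.2 (by push_cast; nlinarith), ?_⟩, ?_⟩
  · have : ((⌊a * N⌋ : ℤ) : ℝ) ≤ ((N * B : ℤ) : ℝ) := by push_cast; nlinarith
    exact_mod_cast this
  · rw [show a - ⌊a * N⌋ / N = (a * N - ⌊a * N⌋) / N by field_simp, abs_div, abs_of_pos N0']
    exact div_le_div_of_nonneg_right (abs_le.2 ⟨by linarith, by linarith⟩) N0'.le

/-- **a grid of tilts** -/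
theorem nml (n0 : 0 < n) {u v : Fin n → ℝ} (hu : ∀ i, |u i| ≤ 1) (hv : ∀ i, |v i| ≤ 1)
    (T : Finset (Cube n)) {F : Cube n → ℝ} {H : ℝ} {B : ℕ} (h : ∀ s ∈ T, ∃ a c : ℝ, |a| ≤ B ∧
      |c| ≤ B ∧ F s + LC (a • u + c • v) ≤ H + (a • u + c • v) ⬝ᵥ sv s) :
    ∑ s ∈ T, exp (F s) ≤ (8 * n * B + 1) ^ 2 * (2 ^ n * exp (H + 1)) := by
  have n0' : (0 : ℝ) < n := by exact_mod_cast n0
  set I := Icc (-((4 * n : ℕ) * B : ℤ)) ((4 * n : ℕ) * B) with hI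
  set θ : ℤ × ℤ → Fin n → ℝ := fun j => ((j.1 : ℝ) / (4 * n : ℕ)) • u + ((j.2 : ℝ) / (4 * n : ℕ)) • v
  have h1 : ∀ s ∈ T, exp (F s) ≤ ∑ j ∈ I ×ˢ I, exp (H + 1 - LC (θ j)) * exp (θ j ⬝ᵥ sv s) :=
    fun s hs => by
    obtain ⟨a, c, ha, hc, H1⟩ := h s hs
    obtain ⟨a1, a2⟩ := floor_near (N := 4 * n) (by omega) ha
    obtain ⟨c1, c2⟩ := floor_near (N := 4 * n) (by omega) hc
    refine le_trans ?_ (single_le_sum (f := fun j => exp (H + 1 - LC (θ j)) * exp (θ j ⬝ᵥ sv s))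
      (fun _ _ => by positivity) (mk_mem_product a1 c1))
    rw [← exp_add]
    refine exp_le_exp.2 ?_
    set t := θ (⌊a * (4 * n : ℕ)⌋, ⌊c * (4 * n : ℕ)⌋) with ht
    have h2 : ∑ i, ((a • u + c • v) i * sv s i + lc (t i)) ≤
        ∑ i, (t i * sv s i + lc ((a • u + c • v) i) + 1 / n) := sum_le_sum fun i _ => by
      have h3 : |(a • u + c • v) i - t i| ≤ 1 / (2 * n) := by
        have e : (a • u + c • v) i - t i = (a - ⌊a * (4 * n : ℕ)⌋ / (4 * n : ℕ)) * u i +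
            (c - ⌊c * (4 * n : ℕ)⌋ / (4 * n : ℕ)) * v i := by
          simp only [ht, θ, Pi.add_apply, Pi.smul_apply, smul_eq_mul]; ring
        rw [e]
        refine (abs_add_le _ _).trans ?_
        rw [abs_mul, abs_mul]
        refine (add_le_add (mul_le_mul a2 (hu i) (abs_nonneg _) (by positivity))
          (mul_le_mul c2 (hv i) (abs_nonneg _) (by positivity))).trans_eq ?_
        push_cast; field_simp; ring
      have h4 := lc_lip (t i) ((a • u + c • v) i - t i)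
      rw [add_sub_cancel] at h4
      have h5 : ((a • u + c • v) i - t i) * sv s i ≤ 1 / (2 * n) :=
        (le_abs_self _).trans (by rw [abs_mul, abs_sv, mul_one]; exact h3)
      have h6 : 1 / (n : ℝ) = 1 / (2 * n) + 1 / (2 * n) := by field_simp; ring
      linarith [(abs_le.1 (h4.trans h3)).1]
    simp only [sum_add_distrib, sum_const, card_univ, Fintype.card_fin, nsmul_eq_mul,
      mul_one_div_cancel n0'.ne'] at h2
    simp only [LC, dotProduct] at H1 ⊢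
    linarith
  refine (sum_le_sum h1).trans ((sum_le_sum_of_subset_of_nonneg (subset_univ T) fun _ _ _ =>
    sum_nonneg fun _ _ => by positivity).trans_eq ?_)
  rw [sum_comm]
  have h7 : ∀ j, ∑ s : Cube n, exp (H + 1 - LC (θ j)) * exp (θ j ⬝ᵥ sv s) = 2 ^ n * exp (H + 1) :=
    fun j => by rw [← mul_sum, sum_exp, mul_left_comm, ← exp_add, sub_add_cancel]
  have h8 : (I.card : ℝ) = 8 * n * B + 1 := by
    have : (I.card : ℤ) = 8 * n * B + 1 := by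
      rw [hI, Int.card_Icc, Int.toNat_of_nonneg (by push_cast; nlinarith [Int.natCast_nonneg (n * B)])]
      push_cast; ring
    exact_mod_cast this
  simp only [h7, sum_const, card_product, nsmul_eq_mul, Nat.cast_mul, h8, sq]

/-- the product law charges a neighbourhood of its mean -/
theorem cube_low {x p u v : Fin n → ℝ} (hp : ∀ i, p i = tanh (x i)) (hu : u ⬝ᵥ u ≤ 1)
    (hv : v ⬝ᵥ v ≤ 1) : 2 ^ n * exp (LC x) ≤
      2 * ∑ s with |u ⬝ᵥ (sv s - p)| ≤ 4 ∧ |v ⬝ᵥ (sv s - p)| ≤ 4, exp (x ⬝ᵥ sv s) := by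
  have ep : (fun i => tanh (x i)) = p := funext fun i => (hp i).symm
  have h1 : ∀ (c : ℝ) (f : Fin n → ℝ), c ^ 2 = 1 → f ⬝ᵥ f ≤ 1 → ∑ s : Cube n,
      exp (x ⬝ᵥ sv s) * exp (c * (f ⬝ᵥ (sv s - p)) - 4) ≤ 2 ^ n * exp (LC x) / 8 :=
    fun c f hc hf => by
    have e : ∀ s : Cube n, exp (x ⬝ᵥ sv s) * exp (c * (f ⬝ᵥ (sv s - p)) - 4) =
        exp ((x + c • f) ⬝ᵥ sv s) * exp (-(c * (f ⬝ᵥ p)) - 4) := fun s => by
      rw [← exp_add, ← exp_add, add_dotProduct, smul_dotProduct, dotProduct_sub, smul_eq_mul]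
      congr 1; ring
    have h2 := LC_two x f c
    rw [ep, hc] at h2
    have h3 : 8 ≤ exp 3 := by
      have := pow_le_pow_left₀ (by norm_num) (add_one_le_exp 1) 3
      rw [← exp_nat_mul] at this
      norm_num at this ⊢; exact this
    simp only [e, ← sum_mul, sum_exp]
    rw [mul_assoc, ← exp_add, mul_div_assoc]
    refine mul_le_mul_of_nonneg_left ?_ (by positivity)
    rw [le_div_iff₀ (by norm_num)]
    refine (mul_le_mul_of_nonneg_left h3 (exp_pos _).le).trans ?_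
    rw [← exp_add]
    exact exp_le_exp.2 (by linarith)
  have h4 := add_le_add (add_le_add (h1 1 u (by norm_num) hu) (h1 (-1) u (by norm_num) hu))
    (add_le_add (h1 1 v (by norm_num) hv) (h1 (-1) v (by norm_num) hv))
  simp only [← sum_add_distrib, ← mul_add] at h4
  have h5 := sum_filter_add_sum_filter_not univ
    (fun s : Cube n => |u ⬝ᵥ (sv s - p)| ≤ 4 ∧ |v ⬝ᵥ (sv s - p)| ≤ 4) fun s => exp (x ⬝ᵥ sv s)
  rw [sum_exp] at h5
  have h6 : ∀ y : ℝ, 4 < |y| → 1 ≤ exp (1 * y - 4) + exp (-1 * y - 4) := fun y hy => by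
    rcases abs_choice y with h | h <;> rw [h] at hy
    · linarith [add_one_le_exp (1 * y - 4), exp_pos (-1 * y - 4)]
    · linarith [add_one_le_exp (-1 * y - 4), exp_pos (1 * y - 4)]
  have h7 : ∑ s with ¬(|u ⬝ᵥ (sv s - p)| ≤ 4 ∧ |v ⬝ᵥ (sv s - p)| ≤ 4), exp (x ⬝ᵥ sv s) ≤ _ :=
    ((sum_le_sum fun s hs => le_mul_of_one_le_right (exp_pos _).le ?_).trans
      (sum_le_sum_of_subset_of_nonneg (subset_univ _) fun _ _ _ => by positivity)).trans h4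
  · linarith
  · rcases not_and_or.1 (mem_filter.1 hs).2 with h | h
    · exact (h6 _ (not_le.1 h)).trans (le_add_of_nonneg_right (by positivity))
    · exact (h6 _ (not_le.1 h)).trans (le_add_of_nonneg_left (by positivity))

/-! ### the real inequalities -/

lemma log3 {Y : ℝ} (h0 : 0 ≤ Y) (h : Y ≤ 1 / 2) :
    |Y + Y ^ 2 / 2 + Y ^ 3 / 3 + log (1 - Y)| ≤ 2 * Y ^ 4 := by
  have := abs_log_sub_add_sum_range_le (x := Y) (by rw [abs_of_nonneg h0]; linarith) 3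
  simp only [sum_range_succ, sum_range_zero, abs_of_nonneg h0] at this
  norm_num at this
  refine this.trans ?_
  rw [div_le_iff₀ (by linarith)]
  nlinarith [pow_nonneg h0 4]

lemma pw_le {Y : ℝ} (h0 : 0 ≤ Y) (h : Y ≤ 1) (j i : ℕ) (hi : j ≤ i := by norm_num) :
    0 ≤ Y ^ i ∧ Y ^ i ≤ Y ^ j := ⟨pow_nonneg h0 _, pow_le_pow_of_le_one h0 h hi⟩

lemma core_a {Y L : ℝ} (h0 : 0 ≤ Y) (h : Y ≤ 1 / 2) (hL : L = Y * (1 + Y + Y ^ 2) ^ 2) :
    L / 2 - L ^ 2 / 4 + L ^ 3 / 3 - Y * (1 + Y + Y ^ 2) - log (1 - Y) / 2 ≤ 227 * Y ^ 4 := by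
  have := @pw_le _ h0 (by linarith) 4
  subst hL
  linarith [(abs_le.1 (log3 h0 h)).1, this 4, this 5, this 6, this 7, this 8, this 9, this 10, this 11,
    this 12, this 13, this 14, this 15]

lemma core_c {γ σ : ℝ} (h0 : 0 ≤ γ) (h : γ ≤ 1 / 2) (hσ : σ ^ 2 ≤ 1) :
    γ * σ - (γ / 2 - γ ^ 2 / 4 + γ ^ 3 / 3) + log (1 - γ * σ ^ 2) / 2 ≤ 2400 * γ ^ 4 := by
  have w1 : γ * σ ^ 2 ≤ γ := mul_le_of_le_one_right h0 hσ
  have w0 : 0 ≤ γ * σ ^ 2 := by positivity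
  have h1 := (abs_le.1 (log3 w0 (w1.trans h))).2
  have h2 := pow_le_pow_left₀ w0 w1 4
  have p3 := @pw_le _ h0 (by linarith) 3
  have p4 := @pw_le _ h0 (by linarith) 4
  set s := 1 - γ + 2 * γ ^ 2 with hs
  have h3 : |s + γ * s ^ 3 + γ ^ 2 * s ^ 5 - 1| ≤ 1000 * γ ^ 3 := by
    rw [hs, abs_le]
    constructor <;> linarith [p3 3, p3 4, p3 5, p3 6, p3 7, p3 8, p3 9, p3 10, p3 11, p3 12]
  have h4 : γ * s - (γ / 2 - γ ^ 2 / 4 + γ ^ 3 / 3) ≤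
      γ * s ^ 2 / 2 + γ ^ 2 * s ^ 4 / 4 + γ ^ 3 * s ^ 6 / 6 + 306 * γ ^ 4 := by
    rw [hs]
    linarith [p4 4, p4 5, p4 6, p4 7, p4 8, p4 9, p4 10, p4 11, p4 12, p4 13, p4 14, p4 15]
  have h5 : |σ - s| ≤ 2 := by
    have := abs_le.1 ((sq_le_one_iff_abs_le_one σ).1 hσ)
    exact abs_le.2 ⟨by nlinarith, by nlinarith⟩
  have h6 := mul_le_mul_of_nonneg_left (abs_le.1 ((abs_mul _ _).trans_le
    (mul_le_mul h3 h5 (abs_nonneg _) (by positivity)))).1 h0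
  have h7 : 0 ≤ γ * (σ - s) ^ 2 := by positivity
  have h8 : 0 ≤ γ ^ 2 * ((σ - s) ^ 2 * ((σ + s) ^ 2 + 2 * s ^ 2)) := by positivity
  have h9 : 0 ≤ γ ^ 3 * ((σ - s) ^ 2 * ((σ ^ 2 + σ * s) ^ 2 + 2 * (σ * s + s ^ 2) ^ 2 + 3 * s ^ 4)) := by
    positivity
  clear_value s
  linarith [p4 4]

lemma core_e {τ m p η β κ M D : ℝ} (η0 : 0 ≤ η) (η1 : η ≤ 1 / 4) (β1 : β ≤ 1 / 16) (κ0 : 0 ≤ κ)
    (κ1 : κ ≤ 2 * β) (hm : m ^ 2 ≤ M) (hp : p ^ 2 ≤ M) (hD : (m - p) ^ 2 ≤ D) :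
    τ ^ 2 / 2 * (1 + 2 * β) - p ^ 2 / 2 - p * (τ - p) * (1 + κ) - (1 - η) * (τ - p) ^ 2 / 2 -
      (τ - m) ^ 2 / 2 ≤ η * D + 11 * β * M := by
  have β0 : 0 ≤ β := by linarith
  have h0 : (τ - p) ^ 2 ≤ 2 * (τ - m) ^ 2 + 2 * D := by nlinarith [sq_nonneg (τ - m - (m - p))]
  have h1 : (τ - p) ^ 2 ≤ 2 * (τ - m) ^ 2 + 8 * M := by
    nlinarith [sq_nonneg (τ - m - (m - p)), sq_nonneg (m + p)]
  have h2 : τ ^ 2 ≤ 2 * (τ - m) ^ 2 + 2 * M := by nlinarith [sq_nonneg (τ - m - m)]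
  have h3 : -(p * (τ - p)) * κ ≤ (M + (τ - p) ^ 2) / 2 * (2 * β) :=
    mul_le_mul (by nlinarith [sq_nonneg (p + (τ - p))]) κ1 κ0 (by nlinarith [sq_nonneg (τ - p)])
  linarith [mul_le_mul_of_nonneg_left h0 η0, mul_le_mul_of_nonneg_left h1 β0,
    mul_le_mul_of_nonneg_left h2 β0, mul_le_mul_of_nonneg_right η1 (sq_nonneg (τ - m)),
    mul_le_mul_of_nonneg_right β1 (sq_nonneg (τ - m))]

lemma log_diff {a b : ℝ} (ha : 0 < a) (hb : 0 < b) : log a - log b ≤ (a - b) / b := by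
  rw [← log_div ha.ne' hb.ne', sub_div, div_self hb.ne']
  exact log_le_sub_one_of_pos (by positivity)

/-- the statistics of `x` that are used -/
structure XH (x : Fin n → ℝ) (γ B E M : ℝ) : Prop where
  xx : x ⬝ᵥ x = n * γ
  up : ∀ b : ℝ, |b| ≤ 2 * B →
    LC (b • x) ≤ n * (b ^ 2 * γ / 2 - (b ^ 2 * γ) ^ 2 / 4 + (b ^ 2 * γ) ^ 3 / 3) + E
  lo : n * (γ / 2 - γ ^ 2 / 4 + γ ^ 3 / 3) - E ≤ LC x
  xp : |(1 - ((fun i => tanh (x i)) ⬝ᵥ fun i => tanh (x i)) / n) * (x ⬝ᵥ x) -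
    x ⬝ᵥ fun i => tanh (x i)| ≤ E
  m6 : ∑ i, min (x i ^ 6) (x i ^ 2) ≤ M

lemma th_sq {b K : ℝ} (hb : |b| ≤ K) (K1 : 1 ≤ K) (x : ℝ) :
    (tanh (b * x) - b * x) ^ 2 ≤ K ^ 6 * min (x ^ 6) (x ^ 2) := by
  have h1 := Kb.Tay.r_sq (b * x)
  have h2 := sq_le_sq.2 (Kb.Tay.t1' (b * x))
  have h3 : b ^ 6 ≤ K ^ 6 := by
    rw [← Even.pow_abs (by decide)]; exact pow_le_pow_left₀ (abs_nonneg _) hb 6
  have h4 : b ^ 2 ≤ K ^ 6 := by
    rw [← sq_abs]; exact (pow_le_pow_left₀ (abs_nonneg _) hb 2).trans (pow_le_pow_right₀ K1 (by norm_num))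
  rw [mul_pow] at h1 h2
  have h5 : 0 ≤ x ^ 6 := by positivity
  have h6 : 0 ≤ b ^ 6 := by positivity
  rw [mul_min_of_nonneg _ _ (by positivity)]
  exact le_min (by nlinarith [mul_le_mul_of_nonneg_right h3 h5, mul_nonneg h6 h5])
    (by nlinarith [mul_le_mul_of_nonneg_right h4 (sq_nonneg x)])

lemma th_df {b K : ℝ} (hb : |b| ≤ K) (K1 : 1 ≤ K) (x : ℝ) :
    (tanh (b * x) - b * x - (tanh x - x)) ^ 2 ≤ (b - 1) ^ 2 * K ^ 4 * min (x ^ 6) (x ^ 2) := by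
  have hd : ∀ y, HasDerivAt (fun b => tanh (b * x) - b * x) (-(tanh (y * x) ^ 2 * x)) y := fun y =>
    ((HasDerivAt.comp (h := fun b => b * x) y (Mj.hd_tanh (y * x)) (hasDerivAt_mul_const x)).sub
      (hasDerivAt_mul_const x)).congr_deriv (by ring)
  have h := (convex_Icc (-K) K).norm_image_sub_le_of_norm_hasDerivWithin_le
    (f := fun b => tanh (b * x) - b * x) (f' := fun b => -(tanh (b * x) ^ 2 * x))
    (C := K ^ 2 * min (x ^ 2) 1 * |x|) (fun y _ => (hd y).hasDerivWithinAt)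
    (fun y hy => by
      rw [norm_neg, Real.norm_eq_abs, abs_mul, abs_of_nonneg (sq_nonneg _),
        mul_min_of_nonneg _ _ (sq_nonneg K)]
      refine mul_le_mul_of_nonneg_right (le_min ((Kb.Tay.sq_le _).trans ?_) ?_) (abs_nonneg _)
      · rw [mul_pow]; exact mul_le_mul_of_nonneg_right (sq_le_sq' hy.1 hy.2) (sq_nonneg _)
      · nlinarith [tanh_sq_lt_one (y * x)])
    (x := 1) (y := b) ⟨by linarith, K1⟩ (abs_le.1 hb)
  simp only [one_mul, Real.norm_eq_abs] at h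
  have h2 := pow_le_pow_left₀ (abs_nonneg _) h 2
  rw [sq_abs] at h2
  refine h2.trans_eq ?_
  simp only [mul_pow, sq_abs]
  rcases le_total (x ^ 2) 1 with h1 | h1
  · rw [min_eq_left h1, min_eq_left (by nlinarith [sq_nonneg x, mul_nonneg (sq_nonneg x) (sq_nonneg x)])]
    ring
  · rw [min_eq_right h1, min_eq_right (by nlinarith [one_le_pow₀ (n := 2) h1])]; ring

lemma cs_one {f : Fin n → ℝ} (hf : f ⬝ᵥ f = 1) (u : Fin n → ℝ) : (f ⬝ᵥ u) ^ 2 ≤ ∑ i, u i ^ 2 := by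
  have := sum_mul_sq_le_sq_mul_sq univ f u
  rwa [show ∑ i, f i ^ 2 = 1 by simpa only [dotProduct, sq] using hf, one_mul] at this

lemma abs_le_one {f : Fin n → ℝ} (hf : f ⬝ᵥ f = 1) (i : Fin n) : |f i| ≤ 1 :=
  abs_le_one_iff_mul_self_le_one.2 (hf ▸ single_le_sum (f := fun i => f i * f i)
    (fun _ _ => mul_self_nonneg _) (mem_univ i))

/-- the frame -/
structure Fm (x p f1 f2 : Fin n → ℝ) (ρ χ : ℝ) : Prop where
  hp : ∀ i, p i = tanh (x i)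
  hχ : n * χ = n - p ⬝ᵥ p
  hx : x = ρ • f1
  r0 : 0 < ρ
  e11 : f1 ⬝ᵥ f1 = 1
  e22 : f2 ⬝ᵥ f2 = 1
  e12 : f1 ⬝ᵥ f2 = 0
  pe : p = (f1 ⬝ᵥ p) • f1 + (f2 ⬝ᵥ p) • f2

variable {x p f1 f2 : Fin n → ℝ} {ρ χ γ B E M η : ℝ}

lemma Fm.pdot (h : Fm x p f1 f2 ρ χ) (v : Fin n → ℝ) :
    p ⬝ᵥ v = f1 ⬝ᵥ p * (f1 ⬝ᵥ v) + f2 ⬝ᵥ p * (f2 ⬝ᵥ v) := by
  nth_rewrite 1 [h.pe]
  simp only [add_dotProduct, smul_dotProduct, smul_eq_mul]

lemma Fm.rr (h : Fm x p f1 f2 ρ χ) (hx : XH x γ B E M) : ρ ^ 2 = n * γ := by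
  rw [← hx.xx, h.hx, smul_dotProduct, dotProduct_smul, h.e11]; simp [sq]

lemma Fm.pp (h : Fm x p f1 f2 ρ χ) (hx : XH x γ B E M) : p ⬝ᵥ p ≤ n * γ :=
  le_of_le_of_eq (sum_le_sum fun i _ => by rw [h.hp, ← sq, ← sq]; exact Kb.Tay.sq_le _) hx.xx

lemma Fm.m2 (h : Fm x p f1 f2 ρ χ) (hx : XH x γ B E M) (B1 : 1 ≤ B) {b : ℝ} (hb : |b| ≤ 2 * B) :
    (f2 ⬝ᵥ fun i => tanh ((b • x) i)) ^ 2 ≤ (2 * B) ^ 6 * M := by
  have e : (f2 ⬝ᵥ fun i => tanh ((b • x) i)) = f2 ⬝ᵥ ((fun i => tanh ((b • x) i)) - b • x) := by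
    rw [dotProduct_sub, dotProduct_smul b, h.hx, dotProduct_smul, dotProduct_comm f2 f1, h.e12]; simp
  rw [e]
  refine (cs_one h.e22 _).trans ((sum_le_sum fun i _ => th_sq hb (by linarith) (x i)).trans ?_)
  rw [← mul_sum]
  exact mul_le_mul_of_nonneg_left hx.m6 (by positivity)

lemma Fm.md (h : Fm x p f1 f2 ρ χ) (hx : XH x γ B E M) (B1 : 1 ≤ B) {b : ℝ} (hb : |b| ≤ 2 * B) :
    ((f2 ⬝ᵥ fun i => tanh ((b • x) i)) - f2 ⬝ᵥ p) ^ 2 ≤ (b - 1) ^ 2 * (2 * B) ^ 4 * M := by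
  have e0 : f2 ⬝ᵥ x = 0 := by rw [h.hx, dotProduct_smul, dotProduct_comm f2 f1, h.e12]; simp
  have e : (f2 ⬝ᵥ fun i => tanh ((b • x) i)) - f2 ⬝ᵥ p =
      f2 ⬝ᵥ ((fun i => tanh ((b • x) i)) - b • x - (p - x)) := by
    simp only [dotProduct_sub, dotProduct_smul b, e0]; simp
  rw [e]
  refine (cs_one h.e22 _).trans ((sum_le_sum fun i _ => ?_).trans ((mul_sum _ _ _).symm.trans_le
    (mul_le_mul_of_nonneg_left hx.m6 (by positivity))))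
  simpa only [Pi.sub_apply, h.hp, Pi.smul_apply, smul_eq_mul] using th_df hb (by linarith) (x i)

lemma Fm.s1 (h : Fm x p f1 f2 ρ χ) (hx : XH x γ B E M) : (f1 ⬝ᵥ p - ρ) ^ 2 ≤ M := by
  have e : f1 ⬝ᵥ p - ρ = f1 ⬝ᵥ (p - x) := by
    rw [dotProduct_sub, h.hx, dotProduct_smul, h.e11]; simp
  rw [e]
  refine (cs_one h.e11 _).trans ((sum_le_sum fun i _ => ?_).trans hx.m6)
  simpa only [Pi.sub_apply, h.hp, one_mul, one_pow] using th_sq (b := 1) (K := 1) (by simp) le_rfl (x i)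

/-- the loss -/
def Et (n : ℕ) (γ B E M : ℝ) : ℝ :=
  6 * B * E + 2700 * n * (B ^ 2 * γ) ^ 4 + 12 * (B ^ 2 * γ) * ((2 * B) ^ 6 * M)

set_option maxHeartbeats 800000 in
/-- **cube against sphere** -/
theorem cube_up (n0 : 0 < n) (h : Fm x p f1 f2 ρ χ) (hx : XH x γ B E M) (B1 : 1 ≤ B)
    (hβ : B ^ 2 * γ ≤ 1 / 16) (hM : M ≤ B ^ 2 * γ * (n * γ)) (η0 : 0 ≤ η) (η1 : η ≤ 1 / 4) {a1 : ℝ}
    (ha1 : 96 * η * B ^ 4 * M ≤ a1 * (n * γ)) (T : Finset (Cube n))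
    (hT : ∀ s ∈ T, (f1 ⬝ᵥ sv s) ^ 2 + (f2 ⬝ᵥ sv s) ^ 2 ≤ B ^ 2 * (n * γ)) :
    ∑ s ∈ T, exp (x ⬝ᵥ sv s - p ⬝ᵥ sv s / χ -
      n * log (1 - ((f1 ⬝ᵥ sv s) ^ 2 + (f2 ⬝ᵥ sv s) ^ 2) / n) / 2 -
      (a1 * (f1 ⬝ᵥ sv s - f1 ⬝ᵥ p) ^ 2 + (1 - η) * (f2 ⬝ᵥ sv s - f2 ⬝ᵥ p) ^ 2) / 2) ≤
      (8 * n * (2 * n : ℕ) + 1) ^ 2 *
      (2 ^ n * exp (LC x - p ⬝ᵥ p / χ - n * log χ / 2 + Et n γ B E M + 1)) := by
  have N0 : (0 : ℝ) < n := by exact_mod_cast n0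
  have N1 : (1 : ℝ) ≤ n := by exact_mod_cast n0
  have r0 := h.r0
  have rr := h.rr hx
  have γ0 : 0 < γ := (mul_pos_iff_of_pos_left N0).1 (rr ▸ pow_pos r0 2)
  have γβ : γ ≤ B ^ 2 * γ := le_mul_of_one_le_left γ0.le (one_le_pow₀ B1)
  have pp := h.pp hx
  have ep : (fun i => tanh (x i)) = p := funext fun i => (h.hp i).symm
  have hχ := h.hχ
  have χ1 : 1 - γ ≤ χ := le_of_mul_le_mul_left (by linarith) N0
  have χ0 : 0 < χ := by linarith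
  have p2 := h.m2 hx B1 (b := 1) (by rw [abs_one]; linarith)
  have xp := hx.xp
  have s1 := h.s1 hx
  have M0 : 0 ≤ M := (sq_nonneg _).trans s1
  rw [one_smul, ep] at p2
  rw [ep, hx.xx, ← rr, h.hx, smul_dotProduct, smul_eq_mul,
    show 1 - p ⬝ᵥ p / n = χ by field_simp; linarith] at xp
  have E0 : 0 ≤ E := (abs_nonneg _).trans xp
  rw [h.pdot p] at pp hχ ⊢
  refine nml n0 (abs_le_one h.e11) (abs_le_one h.e22) T fun s hs => ?_
  have hZ := hT s hs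
  rw [h.pdot (sv s)]
  obtain ⟨σ, hσ⟩ : ∃ σ, f1 ⬝ᵥ p = ρ * σ := ⟨f1 ⬝ᵥ p / ρ, by field_simp⟩
  obtain ⟨a, ha⟩ : ∃ a, f1 ⬝ᵥ sv s = ρ * a := ⟨f1 ⬝ᵥ sv s / ρ, by field_simp⟩
  have xs : x ⬝ᵥ sv s = n * γ * a := by
    rw [h.hx, smul_dotProduct, ha, smul_eq_mul, ← rr]; ring
  set τ := f2 ⬝ᵥ sv s with hτ
  set q := f2 ⬝ᵥ p
  rw [ha, mul_pow, rr] at hZ
  rw [hσ] at pp hχ xp s1
  have a2 : a ^ 2 ≤ B ^ 2 := le_of_mul_le_mul_left (by linarith only [hZ, sq_nonneg τ]) (mul_pos N0 γ0)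
  have aB : |a| ≤ B := abs_le_of_sq_le_sq' a2 (by linarith) |> abs_le.2
  have σ2 : σ ^ 2 ≤ 1 := le_of_mul_le_mul_left (by linarith only [pp, mul_self_nonneg q, congrArg (· * σ ^ 2) rr]) (mul_pos N0 γ0)
  set Y := a ^ 2 * γ with hY
  have Y0 : 0 ≤ Y := by positivity
  have Y1 : Y ≤ B ^ 2 * γ := mul_le_mul_of_nonneg_right a2 γ0.le
  set b := a * (1 + Y + Y ^ 2) with hb
  have b1 : |b| ≤ 2 * B := by
    rw [hb, abs_mul, mul_comm 2]
    exact mul_le_mul aB (abs_le.2 ⟨by nlinarith only [Y0], by nlinarith only [Y0, Y1.trans hβ]⟩)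
      (abs_nonneg _) (by linarith)
  have m2 := h.m2 hx B1 b1
  have md := h.md hx B1 b1
  have s2 : (σ - 1) ^ 2 ≤ B ^ 2 * γ := le_of_mul_le_mul_left (by
    rw [← rr] at hM ⊢; linarith) (mul_pos N0 γ0)
  have s3 : (a * (Y + Y ^ 2)) ^ 2 ≤ B ^ 2 * (4 * (B ^ 2 * γ) * (1 / 16)) := by
    rw [mul_pow]
    refine mul_le_mul a2 ((pow_le_pow_left₀ (by positivity) (show _ ≤ 2 * Y by nlinarith only [Y0, Y1.trans hβ]) 2).trans ?_)
      (sq_nonneg _) (sq_nonneg _)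
    linarith [mul_le_mul Y1 (Y1.trans hβ) Y0 (by positivity)]
  have s4 : (b - 1) ^ 2 ≤ 3 * (a - σ) ^ 2 + 15 / 4 * (B ^ 2 * (B ^ 2 * γ)) := by
    have := Od.sq3_le (a - σ) (σ - 1) (a * (Y + Y ^ 2))
    have := mul_le_mul_of_nonneg_right (one_le_pow₀ (n := 2) B1) (γ0.le.trans γβ)
    rw [show b - 1 = a - σ + (σ - 1) + a * (Y + Y ^ 2) by rw [hb]; ring]
    linarith
  have s5 := mul_le_mul_of_nonneg_right s4 (show 0 ≤ η * ((2 * B) ^ 4 * M) by positivity)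
  have s6 := mul_le_mul_of_nonneg_right ha1 (sq_nonneg (a - σ))
  have s7 := mul_le_mul_of_nonneg_right η1 (show 0 ≤ B ^ 2 * (B ^ 2 * γ) * ((2 * B) ^ 4 * M) by positivity)
  have s8 : 0 ≤ B ^ 2 * (B ^ 2 * γ) * ((2 * B) ^ 4 * M) := by positivity
  have e3 : a1 * (ρ * a - ρ * σ) ^ 2 = a1 * (n * γ) * (a - σ) ^ 2 := by rw [← rr]; ring
  have l2 := LC_two (b • x) f2 (τ - f2 ⬝ᵥ fun i => tanh ((b • x) i))
  have eb : (b * ρ) • f1 = b • x := by rw [h.hx, smul_smul]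
  refine ⟨b * ρ, τ - f2 ⬝ᵥ fun i => tanh ((b • x) i), ?_, ?_, ?_⟩
  · refine abs_le_of_sq_le_sq' ?_ (by positivity) |> abs_le.2
    have := pow_le_pow_left₀ (abs_nonneg _) b1 2
    rw [sq_abs] at this
    rw [mul_pow, rr]; push_cast
    nlinarith only [mul_le_mul_of_nonneg_right this (mul_pos N0 γ0).le, N1,
      mul_le_mul_of_nonneg_left hβ N0.le]
  · rw [hτ, ← dotProduct_sub]
    refine (abs_sum_le_sum_abs _ _).trans ((sum_le_card_nsmul _ _ 2 fun i _ => ?_).trans (by simp [mul_comm]))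
    rw [abs_mul]
    refine (mul_le_of_le_one_left (abs_nonneg _) (abs_le_one h.e22 i)).trans ((abs_sub _ _).trans ?_)
    linarith [abs_sv s i, abs_tanh_lt_one ((b • x) i)]
  rw [eb, add_dotProduct, smul_dotProduct, smul_dotProduct, xs, ← hτ, ha, hσ, mul_pow, rr]
  rw [h.e22] at l2
  generalize (f2 ⬝ᵥ fun i => tanh ((b • x) i)) = m at *
  have ka := mul_le_mul_of_nonneg_left (core_a Y0 (by linarith) (L := b ^ 2 * γ)
    (by rw [hb, hY]; ring)) N0.le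
  have kc := mul_le_mul_of_nonneg_left (core_c γ0.le (by linarith) σ2) N0.le
  have Z1 : (n * γ * a ^ 2 + τ ^ 2) / n ≤ B ^ 2 * γ := by rw [div_le_iff₀ N0]; linarith
  have kb : n * log (1 - Y) - n * log (1 - (n * γ * a ^ 2 + τ ^ 2) / n) ≤
      τ ^ 2 * (1 + 2 * (B ^ 2 * γ)) := by
    rw [← mul_sub]
    refine (mul_le_mul_of_nonneg_left (log_diff (by linarith) (by linarith)) N0.le).trans ?_
    rw [← mul_div_assoc, div_le_iff₀ (by linarith), show n * (1 - Y - (1 - (n * γ * a ^ 2 + τ ^ 2) / n))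
      = τ ^ 2 by rw [hY]; field_simp; ring, mul_assoc]
    exact le_mul_of_one_le_right (sq_nonneg _) (by nlinarith only [Z1, hβ, γ0, γβ])
  have W1 : γ * σ ^ 2 ≤ γ := mul_le_of_le_one_right γ0.le σ2
  have kd : n * log χ - n * log (1 - γ * σ ^ 2) ≤ -q ^ 2 := by
    rw [← mul_sub]
    refine (mul_le_mul_of_nonneg_left (log_diff χ0 (by linarith)) N0.le).trans ?_
    rw [← mul_div_assoc, div_le_iff₀ (by linarith), show n * (χ - (1 - γ * σ ^ 2)) = -q ^ 2 by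
      linear_combination hχ - σ ^ 2 * rr]
    linarith only [mul_nonneg (sq_nonneg q) (mul_nonneg γ0.le (sq_nonneg σ))]
  have ic : χ⁻¹ ≤ 1 + 2 * γ := by rw [inv_le_iff_one_le_mul₀ χ0]; nlinarith only [χ1, γ0, γβ.trans hβ]
  have ic' : 1 ≤ χ⁻¹ := by
    rw [one_le_inv₀ χ0]
    exact le_of_mul_le_mul_left (by linarith only [hχ, mul_self_nonneg (ρ * σ), mul_self_nonneg q]) N0
  have ke := core_e (τ := τ) (κ := χ⁻¹ - 1) η0 η1 hβ (by linarith) (by linarith) m2 p2 md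
  have kf : (χ * ρ ^ 2 - ρ * (ρ * σ)) * ((a - σ) * χ⁻¹) ≤ E * (2 * B * 2) := by
    refine (le_abs_self _).trans ((abs_mul _ _).trans_le (mul_le_mul xp ?_ (abs_nonneg _) E0))
    rw [abs_mul]
    refine mul_le_mul ((abs_sub _ _).trans ?_) (by rw [abs_of_pos (by positivity)]; linarith)
      (abs_nonneg _) (by linarith)
    linarith [(sq_le_one_iff_abs_le_one σ).1 σ2]
  have kg := mul_le_mul_of_nonneg_left (pow_le_pow_left₀ Y0 Y1 4) N0.le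
  have kh := mul_le_mul_of_nonneg_left (pow_le_pow_left₀ γ0.le γβ 4) N0.le
  have ki : 0 ≤ n * (B ^ 2 * γ) ^ 4 := by positivity
  have kj := mul_le_mul_of_nonneg_right B1 E0
  have e1 : b * (n * γ * a) = n * (Y * (1 + Y + Y ^ 2)) := by rw [hb, hY]; ring
  have e2 : (χ * ρ ^ 2 - ρ * (ρ * σ)) * ((a - σ) * χ⁻¹) =
      n * γ * a - n * γ * σ - (ρ * σ * (ρ * a) - ρ * σ * (ρ * σ)) * χ⁻¹ := by
    rw [← rr]; field_simp
  simp only [Et, smul_eq_mul, div_eq_mul_inv _ χ]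
  linarith only [hx.up b b1, hx.lo, l2, ka, kb, kc, kd, ke, kf, kg, kh, ki, kj, e1, e2, e3, s5, s6, s7,
    s8, E0]

end Crest.Agent.T157.O4T

end
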