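import Crest.Agent.T157.O4x_12
import Crest.Agent.T157.O4TB_59

/-!
# Row 157, A2 section 4 (helper12): `O4T.XH` from the moments of `x`
-/

set_option autoImplicit false

noncomputable section

namespace Crest.Agent.T157.O4c.X12

open Matrix Real
open Crest.Agent.T157.Tap Crest.Agent.T157.Kb Crest.Agent.T157.Kb.Xd75
open Crest.Agent.T157.O4T (lc LC XH hd_lc lc_two)

variable {n : ℕ}

lemma lc8 (y : ℝ) : |lc y - y ^ 2 / 2 + y ^ 4 / 12 - y ^ 6 / 45| ≤ y ^ 8 / 56 := by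
  have := Tay.mvt (f := fun y => lc y - y ^ 2 / 2 + y ^ 4 / 12 - y ^ 6 / 45)
    (g := fun y => -(y - tanh y - y ^ 3 / 3 + 2 * y ^ 5 / 15)) (c := 1 / 56)
    (fun y => ((((hd_lc y).sub ((hasDerivAt_pow 2 y).div_const 2)).add
      ((hasDerivAt_pow 4 y).div_const 12)).sub ((hasDerivAt_pow 6 y).div_const 45)).congr_deriv
        (by simp; ring)) (by simp [lc]) 7
    (fun y => by rw [abs_neg]; exact (Tay.t7 y).trans_eq (by push_cast; ring)) y
  rw [Even.pow_abs (by decide)] at this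
  linarith

lemma lc_pw (x : ℝ) {b K : ℝ} (hb : |b| ≤ K) (K1 : 1 ≤ K) :
    |lc (b * x) - (b ^ 2 / 2 * x ^ 2 - b ^ 4 / 12 * tanh x ^ 4 +
      (b ^ 6 / 45 - b ^ 4 / 9) * tanh x ^ 6)| ≤ K ^ 8 * Mx8 x := by
  have hk : ∀ j ≤ 4, b ^ (2 * j) ≤ K ^ 8 := fun j hj => by
    rw [← Even.pow_abs (even_two_mul j)]
    exact (pow_le_pow_left₀ (abs_nonneg _) hb _).trans (pow_le_pow_right₀ K1 (by omega))
  have b2 : b ^ 2 ≤ K ^ 8 := hk 1 (by norm_num)
  have b4 : b ^ 4 ≤ K ^ 8 := hk 2 (by norm_num)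
  have b6 : b ^ 6 ≤ K ^ 8 := hk 3 (by norm_num)
  have b8 : b ^ 8 ≤ K ^ 8 := hk 4 (by norm_num)
  have c4 : 0 ≤ b ^ 4 := by positivity
  have c6 : 0 ≤ b ^ 6 := by positivity
  rcases le_total |x| 1 with h | h
  · rw [M8_of_le h]
    have x8 : 0 ≤ x ^ 8 := by positivity
    have a := abs_le.1 (lc8 (b * x))
    have p4 := abs_le.1 (Tay.p4 x)
    have p6 := abs_le.1 (Tay.p6 x)
    rw [abs_le]
    constructor <;> linarith [a.1, a.2, mul_le_mul_of_nonneg_left p4.1 c4,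
      mul_le_mul_of_nonneg_left p4.2 c4, mul_le_mul_of_nonneg_left p6.1 c4,
      mul_le_mul_of_nonneg_left p6.2 c4, mul_le_mul_of_nonneg_left p6.1 c6,
      mul_le_mul_of_nonneg_left p6.2 c6, mul_le_mul_of_nonneg_right b4 x8,
      mul_le_mul_of_nonneg_right b6 x8, mul_le_mul_of_nonneg_right b8 x8,
      mul_nonneg c4 x8]
  · rw [M8_of_ge h]
    have a1 : 0 ≤ lc (b * x) := log_nonneg (one_le_cosh _)
    have a2 : lc (b * x) ≤ (b * x) ^ 2 / 2 := by simpa [lc] using lc_two 0 (b * x)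
    have t1 := tanh_sq_lt_one x
    have t2 := Tay.sq_le x
    have t0 := sq_nonneg (tanh x)
    have q4 : tanh x ^ 4 ≤ x ^ 2 := by nlinarith
    have q6 : tanh x ^ 6 ≤ x ^ 2 := by
      nlinarith [mul_le_mul_of_nonneg_left t1.le (sq_nonneg (tanh x ^ 2))]
    have r4 : 0 ≤ tanh x ^ 4 := by positivity
    have r6 : 0 ≤ tanh x ^ 6 := by positivity
    have K8 : 0 ≤ K ^ 8 := by positivity
    rw [abs_le]
    constructor <;> linarith [mul_le_mul b4 q4 r4 K8, mul_le_mul b4 q6 r6 K8,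
      mul_le_mul b6 q6 r6 K8, mul_le_mul_of_nonneg_right b2 (sq_nonneg x), mul_nonneg c4 r4,
      mul_nonneg c4 r6, mul_nonneg c6 r6, mul_nonneg K8 (sq_nonneg x)]

lemma pr_pw (x : ℝ) :
    |tanh x * (x - tanh x) - (1 / 3 * tanh x ^ 4 + 1 / 5 * tanh x ^ 6)| ≤ Mx8 x := by
  have key : ∀ j ≤ 6, |gx x - tanh x ^ 5 / 5| ≤ |x| ^ j * |x| := fun j hj => by
    refine mvt0 (f := fun u => gx u - tanh u ^ 5 / 5) (f' := fun u => tanh u ^ 6) (fun u => ?_)
      (by simp [gx]) fun u hu => ?_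
    · refine ((((hasDerivAt_id' u).sub (Kb.hasDerivAt_tanh u)).sub
        (((Kb.hasDerivAt_tanh u).pow 3).div_const 3)).sub
        (((Kb.hasDerivAt_tanh u).pow 5).div_const 5)).congr_deriv ?_
      simp; ring
    · rw [abs_pow]
      exact (pow_le_pow_of_le_one (abs_nonneg _) (abs_tanh_lt_one u).le hj).trans
        (pow_le_pow_left₀ (abs_nonneg _) ((Tay.t1 u).trans hu) j)
  rw [show tanh x * (x - tanh x) - (1 / 3 * tanh x ^ 4 + 1 / 5 * tanh x ^ 6) =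
    tanh x * (gx x - tanh x ^ 5 / 5) by rw [gx]; ring, abs_mul]
  refine le_min ((mul_le_mul (Tay.t1 x) (key 6 le_rfl) (abs_nonneg _) (abs_nonneg _)).trans_eq ?_)
    ((mul_le_mul (Tay.t1 x) (key 0 (by norm_num)) (abs_nonneg _) (abs_nonneg _)).trans_eq ?_)
  · rw [← Even.pow_abs (show Even 8 by decide)]; ring
  · rw [← sq_abs x]; ring

lemma m62_le (x : ℝ) : min (x ^ 6) (x ^ 2) ≤ tanh x ^ 6 + 2 * Mx8 x := by
  rcases le_total |x| 1 with h | h
  · rw [M8_of_le h]; linarith [min_le_left (x ^ 6) (x ^ 2), (abs_le.1 (Tay.p6 x)).1]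
  · rw [M8_of_ge h]
    linarith [min_le_right (x ^ 6) (x ^ 2), sq_nonneg x, show 0 ≤ tanh x ^ 6 by positivity]

namespace Mo
variable {e : ℝ} {x : V n} (h : Mo e x)
include h

/-- `R4` to third order -/
lemma r4' : |R4 x - aS x ^ 2 - aS x ^ 3 / 3| ≤ 2 * (e * aS x ^ 3) := by
  have a := abs_le.1 (avg_near fun i => pr_pw (x i))
  rw [avg_add, avg_mul, avg_mul] at a
  have b := abs_le.1 h.p4
  have c := abs_le.1 h.p6
  have d := h.e8
  have d0 := mul_nonneg h.e0 (pow_pos h.q0 3).le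
  simp only [th, Mx8] at a b c
  simp only [R4, th]
  rw [abs_le]
  constructor <;> linarith [a.1, a.2, b.1, b.2, c.1, c.2]

lemma lc_near (he : e ≤ 1 / 100) (hq : aS x ≤ 1 / 100) {b K : ℝ} (hb : |b| ≤ K) (K1 : 1 ≤ K) :
    |avg (fun i => lc (b * x i)) - (b ^ 2 * v2 x / 2 - (b ^ 2 * v2 x) ^ 2 / 4 +
      (b ^ 2 * v2 x) ^ 3 / 3)| ≤ 9 * K ^ 8 * ((e + aS x) * aS x ^ 3) := by
  have a := abs_le.1 (avg_near fun i => lc_pw (x i) hb K1)
  rw [avg_add, avg_sub, avg_mul, avg_mul, avg_mul, avg_mul] at a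
  have p4 := abs_le.1 h.p4
  have p6 := abs_le.1 h.p6
  have r4 := abs_le.1 h.r4
  have K8 : 0 ≤ K ^ 8 := by positivity
  have e8 := mul_le_mul_of_nonneg_left (show avg (fun i => Mx8 (x i)) ≤ _ from h.e8) K8
  obtain ⟨z1, z2, z3, -⟩ := h.sizes he hq
  replace z3 := abs_le.1 z3
  have hv := v2_eq x
  have q0 := h.q0
  have e0 := h.e0
  simp only [th] at p4 p6
  rw [show (avg fun i => x i ^ 2) = v2 x from rfl] at a
  generalize aS x = q at *
  generalize v2 x = v at *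
  have q2 := pow_pos q0 2
  have q3 := pow_pos q0 3
  have q4 := pow_pos q0 4
  have d0 := mul_nonneg e0 q3.le
  have w1 : v - q ≤ 3 * q ^ 2 := by
    linarith [mul_le_mul_of_nonneg_right he q2.le, mul_le_mul_of_nonneg_right hq q2.le]
  have w2 : (v - q) ^ 2 ≤ (3 * q ^ 2) ^ 2 := pow_le_pow_left₀ (by linarith) w1 2
  have u1 := mul_le_mul_of_nonneg_left (show v - q - 2 * q ^ 2 ≤ 2 * e * q ^ 2 + 2 * q ^ 3 by
    linarith) q0.le
  have u2 := mul_le_mul_of_nonneg_left (show -(2 * e * q ^ 2 + 2 * q ^ 3) ≤ v - q - 2 * q ^ 2 by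
    linarith) q0.le
  have v2' : v ^ 2 ≤ (11 / 10 * q) ^ 2 := pow_le_pow_left₀ (by linarith) z2 2
  have w3 := mul_le_mul w1 (show v ^ 2 + v * q + q ^ 2 ≤ 4 * q ^ 2 by
    linarith [mul_le_mul_of_nonneg_right z2 q0.le]) (by nlinarith) (by positivity)
  have w4 : q ^ 3 ≤ v ^ 3 := pow_le_pow_left₀ q0.le z1 3
  have hk : ∀ j ≤ 4, b ^ (2 * j) ≤ K ^ 8 := fun j hj => by
    rw [← Even.pow_abs (even_two_mul j)]
    exact (pow_le_pow_left₀ (abs_nonneg _) hb _).trans (pow_le_pow_right₀ K1 (by omega))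
  have key : ∀ {c y : ℝ}, 0 ≤ c → c ≤ K ^ 8 → |y| ≤ 4 * ((e + q) * q ^ 3) →
      |c * y| ≤ K ^ 8 * (4 * ((e + q) * q ^ 3)) := fun h0 h1 h2 => by
    rw [abs_mul, abs_of_nonneg h0]; exact mul_le_mul h1 h2 (abs_nonneg _) K8
  have k4 := abs_le.1 (key (c := b ^ 4) (y := (avg fun i => tanh (x i) ^ 4) / 12 +
    (avg fun i => tanh (x i) ^ 6) / 9 - v ^ 2 / 4) (by positivity) (hk 2 (by norm_num))
    (abs_le.2 ⟨by linarith, by linarith [sq_nonneg (v - q)]⟩))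
  have k6 := abs_le.1 (key (c := b ^ 6) (y := (avg fun i => tanh (x i) ^ 6) / 45 - v ^ 3 / 3)
    (by positivity) (hk 3 (by norm_num)) (abs_le.2 ⟨by linarith, by linarith⟩))
  have k8 := mul_nonneg K8 q4.le
  rw [abs_le]
  constructor <;> linarith [a.1, a.2, k4.1, k4.2, k6.1, k6.2]

/-- **the statistics of the tail estimate** -/
theorem xh (hn : 0 < n) (he : e ≤ 1 / 100) (hq : aS x ≤ 1 / 100) {B : ℝ} (hB : 1 ≤ B) :
    XH x (v2 x) B (2304 * B ^ 8 * (e + aS x) * (n * aS x ^ 3)) (18 * (n * aS x ^ 3)) := by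
  have n0 : (0 : ℝ) < n := by exact_mod_cast hn
  have q0 := h.q0
  have e0 := h.e0
  have q3 := pow_pos q0 3
  have key : ∀ b : ℝ, |b| ≤ 2 * B → |LC (b • x) - n * (b ^ 2 * v2 x / 2 - (b ^ 2 * v2 x) ^ 2 / 4 +
      (b ^ 2 * v2 x) ^ 3 / 3)| ≤ 2304 * B ^ 8 * (e + aS x) * (n * aS x ^ 3) := fun b hb => by
    rw [LC, sum_eq hn, ← mul_sub, abs_mul, abs_of_pos n0]
    exact (mul_le_mul_of_nonneg_left (h.lc_near he hq hb (by linarith)) n0.le).trans_eq (by ring)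
  refine ⟨xx_eq hn x, fun b hb => by linarith [(abs_le.1 (key b hb)).2], ?_, ?_, ?_⟩
  · have := (abs_le.1 (key 1 (by rw [abs_one]; linarith))).1
    simp only [one_smul, one_pow, one_mul] at this
    linarith
  · have e1 : (1 - (th x ⬝ᵥ th x) / n) * (x ⬝ᵥ x) - x ⬝ᵥ th x =
        n * ((1 - aS x) * v2 x - (aS x + R4 x)) := by
      rw [pp_eq hn, xx_eq hn, xp_eq hn]; field_simp
    refine (congrArg abs e1).trans_le ?_
    rw [abs_mul, abs_of_pos n0]
    have a := abs_le.1 h.r4'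
    have b := abs_le.1 h.s2
    have c := abs_le.1 h.r4
    have d := abs_le.1 (h.sizes he hq).2.2.1
    have f : |(1 - aS x) * v2 x - (aS x + R4 x)| ≤ 7 * ((e + aS x) * aS x ^ 3) := by
      rw [v2_eq, abs_le]
      constructor <;> linarith [mul_le_mul_of_nonneg_left c.1 q0.le, mul_nonneg e0 q3.le,
        mul_le_mul_of_nonneg_left c.2 q0.le, mul_le_mul_of_nonneg_left d.1 q0.le,
        mul_le_mul_of_nonneg_left d.2 q0.le, pow_pos q0 4]
    have g : 0 ≤ n * ((e + aS x) * aS x ^ 3) := by positivity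
    linarith [mul_le_mul_of_nonneg_left f n0.le,
      mul_le_mul_of_nonneg_right (one_le_pow₀ hB : 1 ≤ B ^ 8) g]
  · have a := avg_mono fun i => m62_le (x i)
    rw [avg_add, avg_mul] at a
    have b := (abs_le.1 h.p6).2
    have c : avg (fun i => Mx8 (x i)) ≤ _ := h.e8
    simp only [th] at b
    rw [sum_eq hn, mul_left_comm]
    exact mul_le_mul_of_nonneg_left (by linarith [mul_le_mul_of_nonneg_right he q3.le]) n0.le

end Mo

end Crest.Agent.T157.O4c.X12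

end
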