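import Crest.Agent.T157.OiDef_19
import Crest.Agent.T157.O4Bd_59
import Crest.Agent.T157.O4xH_12
import Crest.Agent.T157.MjG_84
import Crest.Agent.T157.NumZ_27
import Crest.Agent.T157.O0Wb_31

set_option autoImplicit false

/-!
Row 157, A2 (helper64): the tails of the bad event of `O4c.M1Core` in the words of the top.
-/

noncomputable section

namespace Crest.Agent.T157.Oi

open MeasureTheory Matrix Crest.Agent.Lib.OrthPoinc Filter Set Real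
open Crest.Agent.T157.E Crest.Agent.T157.Cond Crest.Agent.T157.Tap
open Crest.Agent.T157.Oc Crest.Agent.T157.Od Crest.Agent.T157.Oo Crest.Agent.T157.O0
open Crest.Agent.T157.Mj Crest.Agent.T157.Nm Crest.Agent.T157.O4T
open Crest.Agent.T157.O4c.W31 (Cv)
open Crest.Agent.T157.O4c.X12 (v2)
open Crest.Agent.T157.Dq (Dg)
open Crest.Agent.T157.Qe (zz)
open Crest.Agent.T157.Kb (f2)

namespace Bd64

variable {n k : ℕ}

lemma tr_inv {S : Mn k} {b : Vn k} (h : Dg S b) (hb : ∀ i, 0 < b i) : S⁻¹.trace = ∑ i, (b i)⁻¹ :=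
  Qe.dg_trace (Wb.dg_inv h fun i => (hb i).ne').1

/-- difference quotient for the compressed resolvent -/
lemma tr2_low {o : Oo.Orb n k} (h : o.Ok) (dim : k + 2 = n) {g δ : ℝ} (hc : Cv (A0 o) g) {b : Vn k}
    (dg : Dg (M4.Bm o) b) (hb : ∀ i, 0 < b i) (δ0 : 0 ≤ δ) :
    (A0 o)⁻¹.trace - 2 / g - ((o.z + δ) • (1 : Mn n) - o.W)⁻¹.trace ≤ δ * ∑ i, (b i)⁻¹ ^ 2 := by
  set o' : Oo.Orb n k := { o with z := o.z + δ } with ho'
  have h' : o'.Ok := ⟨h.iso, h.symm, h.ep, h.eh, h.two⟩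
  have e1 : A0 o' = A0 o + δ • (1 : Mn n) := by simp only [A0, ho', add_smul]; abel
  have c' : Cv (A0 o') g := ⟨A0_symm h', hc.g0, fun y => by
    rw [e1, add_mulVec, dotProduct_add, smul_mulVec, one_mulVec, dotProduct_smul, smul_eq_mul]
    linarith [hc.co y, mul_nonneg δ0 (dot_self_nonneg y)]⟩
  have e2 : M4.Bm o' = (1 : ℝ) • M4.Bm o + δ • (1 : Mn k) := by
    rw [M4.Bm, e1, Matrix.mul_add, Matrix.add_mul, Matrix.mul_smul, Matrix.smul_mul, Matrix.mul_one,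
      h'.iso, one_smul]
    rfl
  have t1 := (tr_schur h hc.symm (fun _ => rfl) hc dim).2
  have t2 := (tr_schur h' c'.symm (fun _ => rfl) c' dim).1
  rw [e2, tr_inv (Qe.dg_affine dg 1 δ) fun i => by linarith [hb i]] at t2
  rw [tr_inv dg hb, ← le_div_iff₀' hc.g0] at t1
  have t3 : ∑ i, (b i)⁻¹ - ∑ i, (1 * b i + δ)⁻¹ ≤ δ * ∑ i, (b i)⁻¹ ^ 2 := by
    rw [← Finset.sum_sub_distrib, Finset.mul_sum]
    refine Finset.sum_le_sum fun i _ => ?_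
    have := hb i
    rw [one_mul, inv_sub_inv this.ne' (by positivity), add_sub_cancel_left, inv_pow, ← div_eq_mul_inv]
    exact div_le_div_of_nonneg_left δ0 (by positivity) (by nlinarith)
  change _ - _ - (A0 o')⁻¹.trace ≤ _
  linarith

/-- the numbers -/
structure Nu (p : Pm) (t e h H q : ℝ) : Prop where
  ok : p.Ok
  t0 : 0 < t
  t1 : t ≤ 1
  e1 : e ≤ 1
  h0 : 0 < h
  T : 1000 ≤ p.T
  q1 : 100 * q ≤ 1
  h1 : 100 * h ^ 30 ≤ 1
  be : 16 * ((2 * p.T) ^ 2 * (2 * q)) ≤ 1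
  mb : 18 * (p.n * q ^ 3) ≤ (2 * p.T) ^ 2 * q * (p.n * q)
  big : (256 : ℝ) ≤ p.n
  bm : 2 * (100 * p.T ^ 2 / √(p.n / q)) ≤ q ^ 2 / 2
  D : √(p.T * H) / q ^ 2 + 4 / q ^ 2 + 16 * √(p.n * q) + 32 ≤ p.T ^ 2 * √(p.n / q)
  J : 48 * (p.n : ℝ) ≤ 100 * p.T ^ 2 / √(p.n / q) * p.n ^ 2
  v : 4 * (h + (p.T ^ 5)⁻¹) ≤ 1
  sm : 192 * (h + (p.T ^ 5)⁻¹) * (2 * p.T) ^ 4 * (18 * (p.n * q ^ 3)) ≤ q ^ 2 / 2 * (p.n * q)
  y : 8 * p.n * ((p.T ^ 5)⁻¹ * q ^ 2 / 100) ≤ h ^ 2 * q * p.n / 16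
  y' : 16 ≤ h ^ 2 * q * p.n
  w1 : 8 * e ^ p.A * t ≤ q ^ 2
  w2 : 10 ^ 4 * ((e ^ p.A) ^ 2 * (8 * q ^ 2)) ≤ q ^ 2
  w3 : 10 ^ 4 * ((e ^ p.A) ^ 2 * t) ≤ q ^ 2
  w4 : 100 ≤ p.n * q ^ 3
  P1 : h ^ 4 * p.n * q ^ 3 / p.T ^ 8 ≤ (p.T ^ 5)⁻¹ * (q ^ 2 / 2) * (h ^ 4 * (p.n * q)) / 2
  P2 : 48 * (1 + p.T ^ 2) ^ 2 * (h ^ 4 * p.n * q ^ 3 / p.T ^ 8) ≤
    (p.T ^ 5)⁻¹ * ((h ^ 2 * (p.T * q)) ^ 2 * (p.n * q))
  P3 : 18 * (h ^ 4 * p.n * q ^ 3 / p.T ^ 8) ≤ (p.T ^ 5)⁻¹ * (q ^ 2 / 2) ^ 2 * (1 / 100 * p.n / q)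
  P4 : 2 * (h ^ 4 * p.n * q ^ 3 / p.T ^ 8) ≤ (p.T ^ 5)⁻¹ * q ^ 2 / 100 * (h ^ 2 * q * p.n / 16)
  f1 : 10 * log p.n + 1 ≤ 5 * H
  f2 : 16 * 10 ^ 8 * ((p.n : ℝ) ^ 2 + 1) ≤ p.n ^ 3
  f3 : 6 * (2 * p.T) * (2304 * (2 * p.T) ^ 8 * (h ^ 30 + q) * (p.n * q ^ 3)) +
    2700 * p.n * ((2 * p.T) ^ 2 * (2 * q)) ^ 4 +
    12 * ((2 * p.T) ^ 2 * (2 * q)) * ((2 * (2 * p.T)) ^ 6 * (18 * (p.n * q ^ 3))) +
    (50 * p.T ^ 4 + 1 + 101 + 18 * log p.n) ≤ h ^ 4 * p.n * q ^ 3 / p.T ^ 8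

set_option maxHeartbeats 4000000 in
lemma nu : ∀ᶠ p in FF, ∀ t e h H q : ℝ, p.lo ≤ t → t ≤ p.t0 → p.Er e t → e ^ 2 ≤ h → h ≤ e →
    (p.n : ℝ) ^ p.d ≤ H → H ≤ p.L * p.M t → 0 ≤ q → t ≤ p.T * q ^ 2 → q ^ 2 ≤ (p.L / 50) ^ 2 * t →
    Nu p t e h H q := by
  filter_upwards [cz_tab 0] with p ⟨o, _, Z⟩ t e h H q lo hi er h0 h1 H0 H1 q0 q1 q2
  obtain ⟨H', a, y, r, θ, cT, lh, L, A, Z⟩ := Z t e h H q lo hi er h0 h1 H0 H1 q0 q1 q2
  refine ⟨o.ok, A.et.pos, hi.trans (o.ok.t0.2.trans (by norm_num)), lh.e1, Z.eh.pos, ?_, ?_, ?_, ?_,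
    ?_, ?_, ?_, ?_, ?_, ?_, ?_, ?_, ?_, ?_, ?_, ?_, ?_, ?_, ?_, ?_, ?_, ?_, ?_, ?_⟩ <;>
  nm_cz L, A, Z <;> num

variable {p : Pm} {t e h H : ℝ} {o : Oo.Orb p.n k} {x : Vn p.n}

/-- the trace of the square of the compressed resolvent -/
lemma tr2 {g : ℝ} (N : Nu p t e h H (aS x)) (e0 : 0 < e) (q0 : 0 < aS x) (ho : o.Ok)
    (dim : k + 2 = p.n) (hz : o.z = zz (1 - aS x)) (hW : o.W ∈ p.Wt e t) (hc : Cv (A0 o) g)
    (hg : aS x ^ 2 / 2 ≤ g) {b : Vn k} (dg : Dg (M4.Bm o) b) (hb : ∀ i, 0 < b i) :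
    16 * T0 x ≤ ∑ i, (b i)⁻¹ ^ 2 := by
  have q1 := N.q1
  have w1 := N.w1
  have w2 := N.w2
  have w3 := N.w3
  have w4 := N.w4
  set q := aS x with hq
  have eA : 0 ≤ e ^ p.A := by positivity
  have er : ∀ s, s ≤ 8 * q ^ 2 → Wb.er1 p.n (min t p.t2) (e ^ p.A) p.k3 s ≤ 1 / 100 * p.n * q :=
    fun s hs => Wb.er1_le eA (by norm_num) q0.le
      (by nlinarith [mul_le_mul_of_nonneg_left hs (sq_nonneg (e ^ p.A))])
      (by nlinarith [mul_le_mul_of_nonneg_left (min_le_left t p.t2) (sq_nonneg (e ^ p.A))])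
  have r1 := (Wb.Wt_res N.ok e0 N.e1 N.t0 hW (g := 1 - q) ⟨by linarith, by linarith⟩
    (by nlinarith)).2.2.2.1.trans (er _ ((Wb.zz_le_sq two_pos (by linarith)).trans (by nlinarith)))
  have r2 := (Wb.Wt_res N.ok e0 N.e1 N.t0 hW (g := 1 - 2 * q) ⟨by linarith, by linarith⟩
    (by nlinarith)).2.2.2.1.trans (er _ ((Wb.zz_le_sq two_pos (by linarith)).trans (by nlinarith)))
  have d0 : 0 ≤ zz (1 - 2 * q) - zz (1 - q) :=
    sub_nonneg.2 (Wb.zz_anti (by linarith) (by linarith) (by linarith))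
  have d1 : zz (1 - 2 * q) - zz (1 - q) ≤ 4 * q ^ 2 := by
    rw [Wb.zz_diff (by linarith) (by linarith), div_le_iff₀ (mul_pos (by linarith) (by linarith))]
    nlinarith [mul_nonneg (sq_nonneg q) (show 0 ≤ 1 - 10 * q by linarith), pow_pos q0 4]
  have h1 := tr2_low ho dim hc dg hb d0
  rw [hz, add_sub_cancel, A0, hz] at h1
  have h2 : 2 / g ≤ 4 / q ^ 2 := by
    rw [div_le_div_iff₀ hc.g0 (by positivity)]; linarith
  have h3 : 4 / q ^ 2 ≤ 4 / 100 * p.n * q := by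
    rw [div_le_iff₀ (by positivity)]; linarith
  have h4 := mul_le_mul_of_nonneg_right d1
    (Finset.sum_nonneg (s := Finset.univ) fun i _ => sq_nonneg (b i)⁻¹)
  have a1 := (abs_le.1 r1).1
  have a2 := (abs_le.1 r2).2
  simp only [Oa.Az] at a1 a2
  have n0 : (0 : ℝ) ≤ p.n * q := by positivity
  rw [T0, ← hq, mul_div_assoc', div_le_iff₀ q0]
  refine le_of_mul_le_mul_left ?_ (show 0 < 4 * q by positivity)
  nlinarith

end Bd64

set_option maxHeartbeats 2000000 in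
open Bd64 in
theorem bdL : BdL := by
  filter_upwards [nu] with p nu t e h H k o μ _ x c xd wd
  have q0 := c.nx.mo.q0
  have N := nu t e h H (aS x) c.lo c.hi c.er c.h0 c.h1 c.H0 c.H1 q0.le c.nx.q1 c.nx.q2
  have hx := xd.hx
  have ho := hx.ok
  obtain ⟨e2, fr, -⟩ := xd.fr
  have T1 := N.T
  have q1 := N.q1
  have nb := N.big
  have n0 : 0 < p.n := by exact_mod_cast (show (0 : ℝ) < p.n by linarith)
  obtain ⟨v1, v2', -⟩ := c.nx.mo.sizes (by linarith [N.h1]) (by linarith)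
  have γ0 : 0 ≤ v2 x := by linarith
  have g2 := wd.g2
  have cA := wd.ha.cvA
  have g0 := cA.g0
  have hz : o.z = zz (1 - aS x) := by rw [fr.hz, zz, one_div]
  have zs : zz (1 - aS x) - 2 = aS x ^ 2 / (1 - aS x) := by
    rw [Wb.zz_sub (by linarith), sub_sub_cancel]
  have z1 : aS x ^ 2 ≤ zz (1 - aS x) - 2 := by simpa using Wb.sq_le_zz (g := 1 - aS x) (by linarith) (by linarith)
  have z2 := Wb.zz_le_sq (g := 1 - aS x) two_pos (by linarith)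
  have op : Op2 (A0 o) 36 := (Wb.Wt_op2 N.ok c.er.1 N.e1 N.t0 N.t1 c.W).2 o.z
    (by rw [hz]; constructor <;> nlinarith)
  have cB := cvB ho cA.symm (fun _ => rfl) cA
  have hB : (M4.Bm o).IsHermitian := by
    rw [IsHermitian, conjTranspose_eq_transpose_of_trivial]; exact cB.symm
  have dg := Dq.dg_herm hB
  set b := hB.eigenvalues
  have gb : ∀ i, gq p.T h x ≤ b i := Qe.ge_dg dg fun y => by
    rw [smul_mulVec, one_mulVec, dotProduct_smul]; exact cB.co y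
  have b0 : ∀ i, 0 < b i := fun i => cA.g0.trans_le (gb i)
  have hT := tr2 N c.er.1 q0 ho hx.dim hz c.W cA g2 dg b0
  have pp : o.p ⬝ᵥ o.p = p.n * aS x := by linarith [hx.chi]
  have XX : len x ^ 2 = p.n * v2 x := by rw [len_sq, O4c.X12.xx_eq n0]
  have nq : (p.n : ℝ) * aS x ≤ p.n * v2 x := mul_le_mul_of_nonneg_left v1 (by linarith)
  set w := √(p.n / aS x) with hw
  have w0 : 0 < w := sqrt_pos.2 (by positivity)
  have w2 : w ^ 2 = p.n / aS x := sq_sqrt (by positivity)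
  have mD : 100 * p.T ^ 2 / w * (p.T ^ 2 * w) = 100 * p.T ^ 4 := by field_simp
  have T4 : 1 ≤ p.T ^ 4 := one_le_pow₀ (by linarith)
  have g1 : gq p.T h x ≤ aS x ^ 2 := mul_le_of_le_one_left (sq_nonneg _)
    (by nlinarith [mul_pos (show 0 < p.T by linarith) N.h0])
  have tl : Tl o x (unitv x) (f2 x) b (len x) (1 - aS x) (v2 x) (2 * p.T)
      (2304 * (2 * p.T) ^ 8 * (h ^ 30 + aS x) * (p.n * aS x ^ 3)) (18 * (p.n * aS x ^ 3))
      (100 * p.T ^ 2 / w) (p.T ^ 2 * w) (p.n ^ 2) := by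
    refine ⟨ho, hx.dim, fr.hp, fr.hh, fr.hz, hx.chi, hx.hq, hx.n1, hx.n2, hx.o12, hx.hx, hx.X0,
      c.nx.mo.xh n0 (by linarith [N.h1]) (by linarith) (by linarith), by linarith, ?_,
      N.mb.trans (by gcongr), by exact_mod_cast nb, op, dg, by positivity,
      fun i => N.bm.trans (g2.trans (gb i)), le_trans ?_ N.D, ?_, by exact_mod_cast N.J⟩
    · linarith [N.be, mul_le_mul_of_nonneg_left (show v2 x ≤ 2 * aS x by linarith)
        (sq_nonneg (2 * p.T))]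
    · obtain ⟨t1, t2⟩ := tr_schur ho cA.symm (fun _ => rfl) cA hx.dim
      rw [tr_inv dg b0] at t1 t2
      have t3 := c.nw.tr
      rw [Kb.TR, ← hz, ← mul_pow] at t3
      have t4 := abs_le_sqrt t3
      rw [abs_mul, abs_of_nonneg (show 0 ≤ o.z - 2 by nlinarith)] at t4
      have t5 : |(A0 o)⁻¹.trace - p.n * (1 - aS x)| ≤ √(p.T * H) / aS x ^ 2 := by
        rw [le_div_iff₀ (by positivity)]
        exact (mul_le_mul_of_nonneg_left (hz ▸ z1) (abs_nonneg _)).trans t4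
      have t6 : (A0 o)⁻¹.trace - ∑ i, (b i)⁻¹ ≤ 4 / aS x ^ 2 := by
        rw [le_div_iff₀ (by positivity)]; nlinarith
      rw [pp]
      have := abs_le.1 t5
      have : |p.n * (1 - aS x) - ∑ i, (b i)⁻¹| ≤ √(p.T * H) / aS x ^ 2 + 4 / aS x ^ 2 :=
        abs_le.2 ⟨by linarith, by linarith⟩
      linarith
    · have : (100 * p.T ^ 2 / w) ^ 2 * (16 * T0 x) = 1600 * p.T ^ 4 := by
        rw [div_pow, w2, T0]; field_simp; norm_num
      rw [mul_assoc, mD]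
      linarith [mul_le_mul_of_nonneg_left hT (sq_nonneg (100 * p.T ^ 2 / w))]
  have ν0 : 0 < (p.T ^ 5)⁻¹ := by positivity
  have h0 := N.h0
  have hδ : pe o μ (fun s _ => if Z2 o s ≤ (2 * p.T) ^ 2 * (p.n * v2 x) then 0 else 1) ≤
      exp (-(5 * H)) := by
    refine le_trans (pe_mono c.inv ho (fun _ => continuous_const) (fun _ => continuous_const)
      fun s _ _ => ?_) ((an_polar c.inv ho (F := fun s _ =>
        if 2 * p.T ^ 2 * p.n * aS x < zq x s then 1 else 0) fun _ => continuous_const).ge.trans c.zs)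
    have : Z2 o s = zq x s := tl.QQ _
    split_ifs with h1 h2 h2 <;> try norm_num
    nlinarith [mul_le_mul_of_nonneg_left nq (sq_nonneg p.T), mul_nonneg (sq_nonneg p.T)
      (mul_nonneg (Nat.cast_nonneg p.n) q0.le)]
  obtain ⟨Bd, c1, c2, c3, c4⟩ := tl.bd wd.ha c.inv (ν := (p.T ^ 5)⁻¹) (C := p.T ^ 2) (a11 := 6)
    (θ := (p.T ^ 5)⁻¹ * aS x ^ 2 / 100) (y := h ^ 2 * aS x * p.n / 16) (η := h ^ 2)
    (κ := p.T * aS x) (T0 := T0 x) (P := h ^ 4 * p.n * aS x ^ 3 / p.T ^ 8) ν0 (by linarith [N.v])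
    (N.sm.trans (mul_le_mul g2 nq (by positivity) cA.g0.le)) (by
      have : 2 * O4c.Dq x (unitv x) (f2 x) ^ 2 / gq p.T h x ≤ 4 * p.T := by
        rw [div_le_iff₀ cA.g0]; nlinarith [xd.dq]
      nlinarith) (by simpa only [hx.n1, mul_one] using form_le op (unitv x)) (by positivity) (by
      have : aS x ^ 2 / 100 * (19 * gq p.T h x + 2 * 6) ≤ gq p.T h x := by
        have : gq p.T h x ≤ 1 := g1.trans (pow_le_one₀ q0.le (by linarith))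
        linarith [mul_le_mul_of_nonneg_left this (sq_nonneg (aS x))]
      linarith [mul_le_mul_of_nonneg_left this ν0.le]) N.y (by
      linarith [mul_le_mul_of_nonneg_left N.y' (show 0 ≤ p.T / 2 by linarith)]) (by positivity)
    (by positivity) (by unfold T0; positivity) hT (N.P1.trans (by
      rw [mul_pow, XX, ← pow_mul]; gcongr)) (N.P2.trans (by
      rw [mul_pow _ (len x), XX]; gcongr)) (N.P3.trans (by unfold T0; gcongr)) N.P4 hδ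
  refine ⟨Bd, c1, c2, c3, c4.trans ?_⟩
  have en : ∀ j : ℕ, exp (-(j * log p.n)) = ((p.n : ℝ) ^ j)⁻¹ := fun j => by
    rw [Real.exp_neg, Real.exp_nat_mul, exp_log (by linarith)]
  have s1 : exp (-(5 * H)) ≤ ((p.n : ℝ) ^ 10)⁻¹ / 2 := by
    have h1 : exp (-(5 * H)) ≤ exp (-((10 : ℕ) * log p.n)) * exp (-1) := by
      rw [← exp_add, exp_le_exp]; push_cast; linarith [N.f1]
    have h2 : exp (-1) ≤ 1 / 2 := by
      rw [Real.exp_neg, inv_le_comm₀ (exp_pos 1) (by norm_num)]; linarith [add_one_le_exp (1 : ℝ)]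
    rw [en] at h1
    linarith [mul_le_mul_of_nonneg_left h2 (show 0 ≤ ((p.n : ℝ) ^ 10)⁻¹ by positivity)]
  have s2 : exp (Et p.n (v2 x) (2 * p.T) (2304 * (2 * p.T) ^ 8 * (h ^ 30 + aS x) * (p.n * aS x ^ 3))
      (18 * (p.n * aS x ^ 3)) + 100 * p.T ^ 2 / w * (p.T ^ 2 * w + 2) / 2 + 101) *
      exp (-(h ^ 4 * p.n * aS x ^ 3 / p.T ^ 8)) ≤ ((p.n : ℝ) ^ 18)⁻¹ := by
    rw [← exp_add, ← en, exp_le_exp, mul_add (_ / w), mD, Et]
    have γ2 : v2 x ≤ 2 * aS x := by linarith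
    have a1 : 2700 * p.n * ((2 * p.T) ^ 2 * v2 x) ^ 4 ≤
      2700 * p.n * ((2 * p.T) ^ 2 * (2 * aS x)) ^ 4 := by gcongr
    have a2 : 12 * ((2 * p.T) ^ 2 * v2 x) * ((2 * (2 * p.T)) ^ 6 * (18 * (p.n * aS x ^ 3))) ≤
      12 * ((2 * p.T) ^ 2 * (2 * aS x)) * ((2 * (2 * p.T)) ^ 6 * (18 * (p.n * aS x ^ 3))) := by
      gcongr
    push_cast
    linarith [N.f3, N.bm, pow_le_one₀ (n := 2) q0.le (show aS x ≤ 1 by linarith)]
  rw [Pf, mul_assoc]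
  have s3 := mul_le_mul_of_nonneg_left s2
    (show 0 ≤ 10 ^ 8 * (p.n : ℝ) ^ 5 * ((p.n ^ 2 : ℕ) + 1) by positivity)
  have s4 : 10 ^ 8 * (p.n : ℝ) ^ 5 * ((p.n ^ 2 : ℕ) + 1) * ((p.n : ℝ) ^ 18)⁻¹ ≤
      ((p.n : ℝ) ^ 10)⁻¹ / 16 := by
    push_cast
    rw [← div_eq_mul_inv, inv_eq_one_div, div_div, div_le_div_iff₀ (by positivity) (by positivity)]
    linarith [mul_le_mul_of_nonneg_left N.f2 (show 0 ≤ (p.n : ℝ) ^ 15 by positivity)]
  linarith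

end Crest.Agent.T157.Oi
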