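import Crest.Agent.T157.OiDef_19

set_option autoImplicit false
set_option linter.unusedSectionVars false

/-!
Row 157, A2 (helper19's text, compiled by helper61): `Oi.fmGlue`.
-/

noncomputable section

namespace Crest.Agent.T157.Oi

open MeasureTheory Matrix Crest.Agent.Lib.OrthPoinc Filter Set
open Crest.Agent.T157.E Crest.Agent.T157.Cond Crest.Agent.T157.Tap
open Crest.Agent.T157.Oc Crest.Agent.T157.Od Crest.Agent.T157.Oo Crest.Agent.T157.O0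
open Crest.Agent.T157.Kb (f2 ee HA TR)
open Crest.Agent.T157.Kp (At anE)

variable {n k : ℕ}

theorem Fm61.M_pos {p : Pm} {t : ℝ} (n0 : 0 < p.n) (ht : p.lo ≤ t) : 0 < t ∧ 0 < p.M t := by
  have : 0 < p.lo := by unfold Pm.lo; positivity
  have t0 : 0 < t := by linarith
  exact ⟨t0, by unfold Pm.M; positivity⟩

theorem fmGlue : FmGlue := by
  rintro ⟨K, hK⟩ hX hW hB
  filter_upwards [hX, hW, hB, ev_ok,
    ev_T (Q := fun q y => K ≤ y ∧ q.L ≤ y ∧ 2 ≤ y) fun q =>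
      (ev_ge K).and ((ev_ge q.L).and (ev_ge 2)),
    ev_A (Q := fun _ y => 3 ≤ y) fun _ => eventually_ge_atTop 3,
    ev_e1 fun q => ev_sm (1 / (10 ^ 4 * q.T ^ 17)),
    ev_n (Q := fun p => 10 ^ 4 * p.T ^ 9 ≤ (p.n : ℝ)) fun q =>
      tendsto_natCast_atTop_atTop.eventually (ev_ge (10 ^ 4 * q.T ^ 9))]
    with p hX hW hB ok hT hA he hn t e h H k o μ _ x c
  obtain ⟨TK, TL, T2⟩ : K ≤ p.T ∧ p.L ≤ p.T ∧ 2 ≤ p.T := hT
  have hA : 3 ≤ p.A := hA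
  have T1 : 1 ≤ p.T := by linarith
  have he : p.e1 ≤ 1 / (10 ^ 4 * p.T ^ 17) := he.2 (by change 0 < 1 / (10 ^ 4 * p.T ^ 17); positivity)
  have xd := hX t e h H k o μ x c
  have wd := hW t e h H k o μ x c xd
  obtain ⟨Bd, b1, b2, b3, b4⟩ := hB t e h H k o μ x c xd wd
  obtain ⟨e0, e1, -, en⟩ := c.er
  have T9 : 1 ≤ p.T ^ 9 := one_le_pow₀ T1
  have T17 : 1 ≤ p.T ^ 17 := one_le_pow₀ T1
  have N1 : (1 : ℝ) ≤ p.n := by linarith
  have n0 : 0 < p.n := by exact_mod_cast (by linarith : (0 : ℝ) < p.n)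
  obtain ⟨t0, M0⟩ := Fm61.M_pos n0 c.lo
  have H0 : 0 < H := lt_of_lt_of_le (by positivity) c.H0
  have hp : 0 < h := lt_of_lt_of_le (by positivity) c.h0
  have eT : 10 ^ 4 * p.T ^ 17 * e ≤ 1 := by
    have := e1.trans he
    rwa [le_div_iff₀ (by positivity), mul_comm] at this
  have e1' : e ≤ 1 := by nlinarith
  have ne : 1 ≤ p.n * e := by
    have a1 : (1 : ℝ) ≤ p.A := by exact_mod_cast ok.A
    have a2 : p.cv ≤ 1 := by
      nlinarith [ok.cv', ok.cv, ok.k3.2, ok.k2.2, ok.k4.2, ok.d.2, ok.ch.2]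
    have a3 : (p.n : ℝ) ^ (-1 : ℝ) ≤ e :=
      (Real.rpow_le_rpow_of_exponent_le N1 (by linarith)).trans en
    rw [Real.rpow_neg_one, inv_le_iff_one_le_mul₀' (by linarith)] at a3
    exact a3
  have G0 : ∀ v, 0 ≤ v ⬝ᵥ Gq o x *ᵥ v := wd.ha.cvM.nn'
  have key : ∀ ε a : ℝ, e / 100 ≤ ε → ε ≤ 1 → p.T ^ 17 * h ^ 2 ≤ ε ^ 2 →
      1 + ε + p.T ^ 9 * (H / p.M t) / ε ≤ a → Fm o μ x a := fun ε a l1 l2 l3 l4 v => by
    have ε0 : 0 < ε := by linarith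
    refine (hK _ _ o μ x _ _ _ _ _ _ _ _ _ _ _ ε _ Bd c.inv xd.hx wd.hw ε0 l2 ?_ ?_ b1 b2 b3 b4
      v).trans (mul_le_mul_of_nonneg_right (le_trans ?_ l4) (G0 v))
    · refine le_trans ?_ l3
      calc K * (p.T ^ 4) ^ 4 * h ^ 2 ≤ p.T * (p.T ^ 4) ^ 4 * h ^ 2 := by gcongr
        _ = _ := by ring
    · have a1 : 1 ≤ (p.n * e) ^ 2 := one_le_pow₀ ne
      have a2 : (p.n : ℝ) ^ 3 ≤ p.n ^ 7 := pow_le_pow_right₀ N1 (by norm_num)
      have a3 : (p.n : ℝ) ≤ p.n ^ 1 := by simp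
      calc K * (p.T ^ 4) ^ 2 * p.n ^ 3 * ((p.n : ℝ) ^ 10)⁻¹
          ≤ p.T * (p.T ^ 4) ^ 2 * p.n ^ 3 * ((p.n : ℝ) ^ 10)⁻¹ := by gcongr
        _ = 10 ^ 4 * p.T ^ 9 / (10 ^ 4 * p.n ^ 7) := by field_simp
        _ ≤ p.n * (p.n * e) ^ 2 / (10 ^ 4 * p.n ^ 3) := by
            exact div_le_div₀ (by positivity) (hn.trans (le_mul_of_one_le_right (by linarith) a1))
              (by positivity) (by gcongr)
        _ = (e / 100) ^ 2 := by field_simp; norm_num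
        _ ≤ ε ^ 2 := by gcongr
    · rw [Real.sq_sqrt (by positivity)]
      have : K * p.T ^ 4 * (p.T ^ 4 * H / p.M t) ≤ p.T ^ 9 * (H / p.M t) := by
        calc _ ≤ p.T * p.T ^ 4 * (p.T ^ 4 * H / p.M t) := by gcongr
          _ = _ := by ring
      gcongr
  refine ⟨key 1 _ (by linarith) le_rfl ?_ ?_, fun l1 l2 => key (e / 100) _ le_rfl (by linarith) ?_ ?_⟩
  · have a1 : h ^ 2 ≤ e := by nlinarith [c.h1]
    nlinarith [mul_le_mul_of_nonneg_left a1 (by positivity : 0 ≤ p.T ^ 17)]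
  · have a1 : H / p.M t ≤ p.T := by
      rw [div_le_iff₀ M0]; exact c.H1.trans (by gcongr)
    have a2 : p.T ^ 9 * (H / p.M t) ≤ p.T ^ 10 := by
      calc _ ≤ p.T ^ 9 * p.T := by gcongr
        _ = _ := by ring
    have a3 : 2 ≤ p.T ^ 10 := T2.trans (le_self_pow₀ T1 (by norm_num))
    nlinarith [mul_le_mul_of_nonneg_right T2 (by positivity : 0 ≤ p.T ^ 10)]
  · have a1 : h ^ 2 ≤ (e ^ 2) ^ 2 := by gcongr
    have a2 : 10 ^ 4 * p.T ^ 17 * e * e ≤ 1 := mul_le_one₀ eT e0.le e1'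
    nlinarith [mul_le_mul_of_nonneg_left a1 (by positivity : 0 ≤ p.T ^ 17),
      mul_le_mul_of_nonneg_right a2 (sq_nonneg e)]
  · have a1 : H / p.M t ≤ e ^ 3 := by
      rw [div_le_iff₀ M0]
      exact l2.trans (mul_le_mul_of_nonneg_right (pow_le_pow_of_le_one e0.le e1' hA) M0.le)
    have a2 : p.T ^ 9 ≤ p.T ^ 17 := pow_le_pow_right₀ T1 (by norm_num)
    have a3 : p.T ^ 9 * (H / p.M t) ≤ p.T ^ 17 * e ^ 3 := by gcongr
    have a4 : p.T ^ 9 * (H / p.M t) / (e / 100) ≤ e / 100 := by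
      rw [div_le_iff₀ (by positivity)]
      nlinarith [mul_le_mul_of_nonneg_right eT (sq_nonneg e)]
    linarith

end Crest.Agent.T157.Oi

end
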