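import Crest.Agent.T157.OgIn_31
import Crest.Agent.T157.OgT_9
import Crest.Agent.T157.KbB_24

/-!
# Row 157, A2 (helper31): `fx`, `pos`, `st` of `InC`, `InS` on `Kb.base`
-/

set_option autoImplicit false

noncomputable section

namespace Crest.Agent.T157.Og.I31

open MeasureTheory Matrix Set Filter Crest.Agent.Lib.OrthPoinc
open Crest.Agent.T157.E Crest.Agent.T157.Tap Crest.Agent.T157.O0 Crest.Agent.T157.Oo
open Crest.Agent.T157.Kp (At Sl P5 anE chi)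
open Crest.Agent.T157.Kb (Co XM R4 AT G1 Sh gz lam MeasG base)
open Crest.Agent.T157.Oc (SO emb_orth)
open Crest.Agent.T157.TapPl
open Crest.Agent.T157.Qe (Le)

variable {n k : ℕ}

/-! ### the gauge for matrices -/

theorem form_cj (s : Cube n) (M : Mx n) (v : V n) :
    (sv s * v) ⬝ᵥ cj (sv s) M *ᵥ (sv s * v) = v ⬝ᵥ M *ᵥ v := by
  rw [cj_mulVec (Pl.isSign_sv s), dot_sign (Pl.isSign_sv s)]

theorem AT_gz (s : Cube n) (S : Finset (Fin n)) (x : V n) (W : Mx n) :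
    AT S (sv s * x) (cj (sv s) W) = cj (sv s) (AT S x W) := by
  have h1 : ∀ i, Real.cosh ((sv s * x) i) ^ 2 = Real.cosh (x i) ^ 2 := fun i =>
    congrFun (even_gz s x (f := fun u => Real.cosh u ^ 2) (by simp)) i
  have h2 : ∀ d : V n, cj (sv s) (diagonal d) = diagonal d := fun d => by
    rw [cj, diagonal_mul_diagonal, diagonal_mul_diagonal]
    congr 1; funext i
    linear_combination d i * TapPl.sign_mul_self (Pl.isSign_sv s) i
  simp only [AT, h1, aS_gz, th_gz, cj_sub, cj_add, cj_smul, cj_one (Pl.isSign_sv s), cj_vecMulVec, h2]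

theorem pos_gz {s : Cube n} {S : Finset (Fin n)} {x : V n} {W : Mx n} {c : ℝ}
    (h : Tap.Pos c (AT S (sv s * x) (cj (sv s) W))) : Tap.Pos c (AT S x W) := fun v => by
  have := h (sv s * v)
  rwa [AT_gz, form_cj, dot_sign (Pl.isSign_sv s)] at this

theorem p5_gz {s : Cube n} {S : Finset (Fin n)} {x : V n} {W : Mx n}
    (h : P5 S (sv s * x) (cj (sv s) W)) : P5 S x W := fun v => by
  have := h (sv s * v)
  rwa [AT_gz, form_cj, aS_gz, ← cj_one (Pl.isSign_sv s), ← cj_smul, ← cj_sub, ← cj_smul, form_cj] at this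

theorem pos_mono {M : Mx n} {c c' : ℝ} (h : Tap.Pos c M) (e : c' ≤ c) : Tap.Pos c' M := fun v =>
  (mul_le_mul_of_nonneg_right e (Eig.dot_self_nonneg v)).trans (h v)

/-- the gauge-free part of `G1` used here -/
structure Gy (L T η t : ℝ) (x : V n) (W : Mx n) : Prop where
  gx : Gx T (L / 50) (η ^ 30) t x
  c2 : ((Sl (lam T t) x).card : ℝ) ≤ η ^ 30 * aS x ^ 3 * n
  pos : Tap.Pos ((1 - 2 * η ^ 3) * aS x ^ 2) (AT (Sl (lam T t) x) x W)
  p5 : P5 (Sl (lam T t) x) x W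

theorem gy_of {L T η H t : ℝ} {x : V n} {W : Mx n} {s : Cube n}
    (h : G1 L T η H t (gz s (x, W)).1 (gz s (x, W)).2) : Gy L T η t x W := by
  have h2 := h.c2
  have h3 := h.pos
  have h4 := h.p5
  simp only [gz, Sl_gz, aS_gz] at h2 h3 h4
  exact ⟨Gx.of_gauge h.co h.xm h.qu, h2, pos_gz h3, p5_gz h4⟩

theorem sh_of {ε t : ℝ} {x : V n} {W : Mx n} {s : Cube n} (h : Sh ε t (gz s (x, W)).1) :
    |aS x ^ 2 - t| ≤ ε * t := by
  have := h.1
  simpa only [gz, aS_gz] using this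

theorem meas_c (m : MeasG) (p : Pm) (t : ℝ) (s : Cube p.n) :
    MeasurableSet {z : V p.n × Mx p.n | base.c p t z.1 z.2 s} :=
  (Kb.Ga98.meas_gz s ((m p.n p.T 0 p.e1 0 0 0 t).2.2.2.2.2.2.2.2.2 p.L (p.Hc t))).compl

theorem meas_s (m : MeasG) (p : Pm) (e t : ℝ) (s : Cube p.n) :
    MeasurableSet {z : V p.n × Mx p.n | base.s p e t z.1 z.2 s} :=
  (Kb.Ga98.meas_gz s (((m p.n p.T 0 (e ^ 2) 0 0 0 t).2.2.2.2.2.2.2.2.2 p.L (p.Hs e t)).inter
    (measurable_fst (m p.n p.T ((e ^ 2) ^ 3) 0 0 0 0 t).2.1))).compl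

/-! ### numbers -/

variable {p : Pm} {o : Orb p.n k} {x : V p.n} {t e η ε H : ℝ}

theorem lam_q (h : LH p t ε H) (hT : p.T ≤ p.C) (g : Gx p.T (p.L / 50) η t x) :
    lam p.T t * aS x ≤ t ^ (9 / 20 : ℝ) ∧ t ^ (9 / 20 : ℝ) ≤ 2 / 3 := by
  have t0 := h.t0
  have o := h.ord
  have L0 := o.ok.L
  have T0 := o.ok.T
  have h1 : Real.log (1 / t) ≤ 40 * t ^ (-(1 / 40) : ℝ) := by
    have := Real.log_le_rpow_div (x := 1 / t) (ε := 1 / 40) (by positivity) (by norm_num)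
    rw [one_div t, Real.inv_rpow t0.le, ← Real.rpow_neg t0.le] at this
    rw [one_div t]; linarith
  have h2 := g.q_le (by linarith) t0.le
  have h3 := h.tB' (a := 1 / 40) (j := 2) (by norm_num)
  have h4 : p.T * p.L ≤ p.B ^ 2 := by
    rw [sq]
    exact mul_le_mul (hT.trans (o.CK.trans o.KB)) (o.LC'.trans (o.CK.trans o.KB)) (by linarith)
      (by linarith [o.B1])
  have e1 : t ^ (-(1 / 40) : ℝ) * √t = t ^ (1 / 40 : ℝ) * t ^ (9 / 20 : ℝ) := by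
    rw [Real.sqrt_eq_rpow, ← Real.rpow_add t0, ← Real.rpow_add t0]; norm_num
  have a0 := Real.rpow_pos_of_pos t0 (1 / 40)
  have a1 := Real.rpow_pos_of_pos t0 (9 / 20)
  constructor
  · calc lam p.T t * aS x ≤ p.T * (40 * t ^ (-(1 / 40) : ℝ)) * (p.L / 50 * √t) :=
          mul_le_mul (mul_le_mul_of_nonneg_left h1 (by linarith)) h2 (aS_nn x) (by positivity)
      _ = 4 / 5 * (t ^ (1 / 40 : ℝ) * (p.T * p.L)) * t ^ (9 / 20 : ℝ) := by
          linear_combination (4 / 5 * p.T * p.L) * e1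
      _ ≤ _ := mul_le_of_le_one_left a1.le (by nlinarith [mul_le_mul_of_nonneg_left h4 a0.le])
  · have h5 := h.tB' (a := 9 / 20) (j := 1) (by norm_num)
    nlinarith [o.Bb]

theorem cnt_le (h : LH p t ε H) (η0 : 0 ≤ η) (η1 : η ≤ p.e1) {W : Mx p.n}
    (g : Gy p.L p.T η t x W) : ((Sl (lam p.T t) x).card : ℝ) ≤ p.M t := by
  have o := h.ord
  have h1 := q3_le o h.t0 g.gx
  have h2 : η ^ 30 ≤ p.e1 :=
    (pow_le_of_le_one η0 (by linarith [o.ok.e1_1]) (by norm_num)).trans η1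
  have h3 : p.e1 * (p.L / 50) ^ 3 ≤ 1 := by
    nlinarith [mul_le_mul_of_nonneg_left (Ord.L2 o).2.1 o.ok.e1.1.le, Ord.Ce o,
      mul_pos o.ok.e1.1 (show 0 < p.C by linarith [o.ok.C])]
  have M0 := Pm.M_nn (p := p) h.t0.le
  calc ((Sl (lam p.T t) x).card : ℝ) ≤ η ^ 30 * (p.n * aS x ^ 3) := g.c2.trans_eq (by ring)
    _ ≤ p.e1 * ((p.L / 50) ^ 3 * p.M t) :=
        mul_le_mul h2 h1 (by have := aS_nn x; positivity) o.ok.e1.1.le
    _ ≤ _ := by rw [← mul_assoc]; exact mul_le_of_le_one_left M0 h3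

/-- the common core -/
theorem det {μ : Measure (Mat k)} [IsProbabilityMeasure μ] (h : LH p t ε H) (hT : p.T ≤ p.C)
    (e0 : 0 < e) (e1 : e ≤ p.e1) (η0 : 0 ≤ η) (η1 : η ≤ p.e1) (hμ : SOInv μ) (hx : At o x)
    (hW : o.W ∈ p.Wt e t) {B : Bad p.n}
    (mB : ∀ s, MeasurableSet {z : V p.n × Mx p.n | B z.1 z.2 s}) {l0 : ℝ} {X : Prop}
    (hB : ∀ W s, ¬ B x W s → Gy p.L p.T η t x W ∧ l0 ≤ (1 - 2 * η ^ 3) * aS x ^ 2 ∧ X)
    (ha : anE o μ x B ≤ Real.exp (-(5 * H))) :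
    Fx t o x ∧ (∃ vt, Vt o vt ∧
      (o.P μ).real {U | ¬ O6.Pos (o.A U) (Bz o x) vt l0} ≤ Real.exp (-H)) ∧ St t o ∧
      Gx p.T (p.L / 50) (η ^ 30) t x ∧ X := by
  have H0 := h.H_pos
  have hlt : anE o μ x B < 1 := ha.trans_lt (Real.exp_lt_one_iff.2 (by linarith))
  obtain ⟨W, g, -, hX⟩ : ∃ W, Gy p.L p.T η t x W ∧ l0 ≤ (1 - 2 * η ^ 3) * aS x ^ 2 ∧ X :=
    Kp.of_anE_lt hμ hx.ok mB hlt fun hn U _ s => by_contra fun hb => hn ⟨_, hB _ s hb⟩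
  have ε1 : η ^ 30 ≤ 1 / 10 :=
    (pow_le_of_le_one η0 (by linarith [h.ord.ok.e1_1]) (by norm_num)).trans
      (by linarith [h.ord.ok.e1_1])
  obtain ⟨l1, l2⟩ := lam_q h hT g.gx
  refine ⟨fx_of h.ord h.t0 h.hi e0 e1 hT ε1 hx hW g.gx, pos_of hμ hx hW mB (l1.trans l2)
    (fun W _ hn s => by_contra fun hb => hn ?_) (ha.trans (Real.exp_le_exp.2 (by linarith))),
    st_of h.ord h.t0 h.hi e0 e1 hT ε1 hx hW g.gx l1 (cnt_le h η0 η1 g), g.gx, hX⟩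
  obtain ⟨g', h1, -⟩ := hB W s hb
  exact ⟨pos_mono g'.pos h1, g'.p5⟩

theorem ev_TC : ∀ᶠ p in FF, 2 * p.T ≤ p.C := by
  filter_upwards [ev_C fun q => ev_ge (2 * q.T)] with p h using h

/-- **crude**: `fx`, `pos`, `st` -/
theorem detC (m : MeasG) : ∀ᶠ p in FF, ∀ t ∈ Icc p.lo p.t0,
    ∀ (x : Vn p.n) (k : ℕ) (μ : Measure (Mat k)) [IsProbabilityMeasure μ] (o : Orb p.n k), SOInv μ →
      At o x → o.W ∈ p.Wt p.e1 t → anE o μ x (base.c p t) ≤ Real.exp (-(5 * p.Hc t)) →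
      Fx t o x ∧ (∃ vt, Vt o vt ∧ (o.P μ).real {U | ¬ O6.Pos (o.A U) (Bz o x) vt (t / p.C)} ≤
        Real.exp (-p.Hc t)) ∧ St t o ∧ Gx p.T (p.L / 50) (p.e1 ^ 30) t x := by
  filter_upwards [ev_ord, ev_TC] with p o hT t ht x k μ _ o' hμ hx hW ha
  have h := o.lh_c ht
  have T0 := o.ok.T
  have e0 := o.ok.e1.1
  refine (fun H : _ ∧ _ ∧ _ ∧ _ ∧ True => ⟨H.1, H.2.1, H.2.2.1, H.2.2.2.1⟩) (det (l0 := t / p.C) h
    (by linarith) e0 le_rfl e0.le le_rfl hμ hx hW (meas_c m p t) (fun W s hb => ?_) ha)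
  have g := gy_of (not_not.1 hb)
  refine ⟨g, ?_, trivial⟩
  have h1 : p.e1 ^ 3 ≤ 1 / 4 :=
    (pow_le_of_le_one e0.le (by linarith [o.ok.e1_1]) (by norm_num)).trans (by linarith [o.ok.e1_1])
  rw [div_le_iff₀ (by linarith)]
  nlinarith [g.gx.q1, mul_le_mul_of_nonneg_right hT (sq_nonneg (aS x)),
    mul_le_mul_of_nonneg_right h1 (show 0 ≤ aS x ^ 2 * p.C by have := o.ok.C; positivity)]

/-- **sharp**: `fx`, `pos` -/
theorem detS (m : MeasG) : ∀ᶠ p in FF, ∀ t ∈ Icc p.lo p.t0, ∀ e, p.Er e t →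
    ∀ (x : Vn p.n) (k : ℕ) (μ : Measure (Mat k)) [IsProbabilityMeasure μ] (o : Orb p.n k), SOInv μ →
      At o x → o.W ∈ p.Wt e t → anE o μ x (base.s p e t) ≤ Real.exp (-(5 * p.Hs e t)) →
      Fx t o x ∧ (∃ vt, Vt o vt ∧ (o.P μ).real {U | ¬ O6.Pos (o.A U) (Bz o x) vt (t / (1 + e / 4))} ≤
        Real.exp (-p.Hs e t)) ∧ St t o ∧ Gx p.T (p.L / 50) ((e ^ 2) ^ 30) t x ∧
        |aS x ^ 2 - t| ≤ (e ^ 2) ^ 3 * t := by
  filter_upwards [ev_ord, ev_TC] with p o hT t ht e he x k μ _ o' hμ hx hW ha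
  have h := o.lh_s ht he
  have T0 := o.ok.T
  have e0 := he.1
  have e1 : e ≤ 1 / 1000 := he.2.1.trans o.ok.e1_1
  refine det h (by linarith) e0 he.2.1 (sq_nonneg e) (le_trans (by nlinarith) he.2.1) hμ hx
    hW (meas_s m p e t) (fun W s hb => ?_) ha
  obtain ⟨g1, g2⟩ := not_not.1 hb
  have g3 := sh_of g2
  refine ⟨gy_of g1, ?_, g3⟩
  have h1 : (e ^ 2) ^ 3 ≤ e / 100 := by
    have : e ^ 2 ≤ e / 100 := by nlinarith
    exact (pow_le_of_le_one (sq_nonneg e) (by linarith) (by norm_num)).trans this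
  have h2 : (1 - e / 100) * t ≤ aS x ^ 2 := by
    nlinarith [(abs_le.1 g3).1, mul_le_mul_of_nonneg_right h1 h.t0.le]
  have h3 : (1 - e / 50) * ((1 - e / 100) * t) ≤ (1 - 2 * (e ^ 2) ^ 3) * aS x ^ 2 :=
    mul_le_mul (by linarith) h2 (mul_nonneg (by linarith) h.t0.le) (by linarith)
  refine le_trans ?_ h3
  rw [div_le_iff₀ (by linarith)]
  have h4 : 1 ≤ (1 - e / 50) * (1 - e / 100) * (1 + e / 4) := by nlinarith
  nlinarith [mul_le_mul_of_nonneg_right h4 h.t0.le]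

end Crest.Agent.T157.Og.I31

end
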