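import Crest.Agent.T157.OiDef_19
import Crest.Agent.T157.OgInB_31
import Crest.Agent.T157.NumZ_27

/-!
# Row 157, A2 (helper31): the leaves `FxL`, `PosL`, `WdL`
-/

set_option autoImplicit false

noncomputable section

namespace Crest.Agent.T157.Oi

open MeasureTheory Matrix Set Filter Crest.Agent.Lib.OrthPoinc
open Crest.Agent.T157.E Crest.Agent.T157.Tap Crest.Agent.T157.O0 Crest.Agent.T157.Oo
open Crest.Agent.T157.Og Crest.Agent.T157.Og.I31 Crest.Agent.T157.Nm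
open Crest.Agent.T157.Kp (Sl)
open Crest.Agent.T157.Kb (lam ee f2)

namespace F31

variable {p : Pm} {k : ℕ} {t e h H : ℝ} {o : Orb p.n k} {μ : Measure (Mat k)} {x : Vn p.n}

theorem gx (c : Cz p t e h H o μ x) : Gx p.T (p.L / 50) (h ^ 30) t x :=
  ⟨c.nx.q1, c.nx.q2, c.nx.mo.r4, c.nx.mo.p4, c.nx.mo.p6, c.nx.mo.e8⟩

theorem h0 (c : Cz p t e h H o μ x) : 0 < h := (pow_pos c.er.1 2).trans_le c.h0

theorem h30 (r : Ord p) (c : Cz p t e h H o μ x) : h ^ 30 ≤ p.e1 :=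
  (pow_le_of_le_one (h0 c).le (by linarith [c.h1, c.er.2.1, r.ok.e1_1]) (by norm_num)).trans
    (c.h1.trans c.er.2.1)

theorem cnt (r : Ord p) (c : Cz p t e h H o μ x) : ((Sl (lam p.T t) x).card : ℝ) ≤ p.M t := by
  have t0 := (r.lh_c ⟨c.lo, c.hi⟩).t0
  have h1 := q3_le r t0 (gx c)
  have h3 : p.e1 * (p.L / 50) ^ 3 ≤ 1 := by
    nlinarith [mul_le_mul_of_nonneg_left (Ord.L2 r).2.1 r.ok.e1.1.le, Ord.Ce r,
      mul_pos r.ok.e1.1 (show 0 < p.C by linarith [r.ok.C])]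
  calc ((Sl (lam p.T t) x).card : ℝ) ≤ h ^ 30 * (p.n * aS x ^ 3) := c.nx.cnt.trans_eq (by ring)
    _ ≤ p.e1 * ((p.L / 50) ^ 3 * p.M t) :=
        mul_le_mul (h30 r c) h1 (by have := aS_nn x; positivity) r.ok.e1.1.le
    _ ≤ _ := by rw [← mul_assoc]; exact mul_le_of_le_one_left (Pm.M_nn t0.le) h3

/-- the numbers of `WdL` -/
theorem nums : ∀ᶠ p in FF, ∀ (t e h H : ℝ) (k : ℕ) (o : Orb p.n k) (μ : Measure (Mat k))
    (x : Vn p.n), Cz p t e h H o μ x → 6 * (p.T * h) ≤ 1 ∧ 200 * p.T ^ 2 ≤ p.T ^ 4 ∧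
      4 * p.T * aS x ≤ 1 ∧ 400 ≤ (h ^ 2) ^ 2 * (p.n * aS x ^ 3) ∧
      100 * (2 * (p.T * H) + 8) ≤ p.T ^ 4 * H / p.M t * (p.n * aS x ^ 3) := by
  filter_upwards [cz_tab 0] with p ⟨_, _, Z⟩ t e h H k o μ x c
  obtain ⟨H', a, y, r, θ, cT, -, L, A, Z⟩ := Z t e h H (aS x) c.lo c.hi c.er c.h0 c.h1 c.H0 c.H1
    (aS_nn x) c.nx.q1 c.nx.q2
  generalize aS x = q at *
  nm_cz L, A, Z
  refine ⟨?_, ?_, ?_, ?_, ?_⟩ <;> num

end F31

open F31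

theorem fxL : FxL := by
  filter_upwards [ev_ord, ev_TC] with p r hT t e h H k o μ _ x c
  have l := r.lh_c ⟨c.lo, c.hi⟩
  have hT' : p.T ≤ p.C := by linarith [r.ok.T]
  have ε1 : h ^ 30 ≤ 1 / 10 := (h30 r c).trans (by linarith [r.ok.e1_1])
  exact ⟨fx_of r l.t0 c.hi c.er.1 c.er.2.1 hT' ε1 c.pt c.W (gx c),
    st_of r l.t0 c.hi c.er.1 c.er.2.1 hT' ε1 c.pt c.W (gx c) (lam_q l hT' (gx c)).1 (cnt r c)⟩

theorem posL : PosL := by
  filter_upwards [ev_ord, ev_TC] with p r hT t e h H k o μ _ x c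
  obtain ⟨l1, l2⟩ := lam_q (r.lh_c ⟨c.lo, c.hi⟩) (by linarith [r.ok.T]) (gx c)
  exact ⟨vtS (Sl (lam p.T t) x) x, fun i => by rw [c.pt.p]; exact vtS_ok (l1.trans l2) i,
    fun U _ l hl np => pos_pt c.pt (pos_mono np.1 hl) np.2⟩

theorem wdL : WdL := by
  filter_upwards [ev_ord, nums] with p r N t e h H k o μ _ x c d
  obtain ⟨n1, n2, n3, n4, n5⟩ := N t e h H k o μ x c
  have t0 := (r.lh_c ⟨c.lo, c.hi⟩).t0
  have T1 := r.ok.T
  have q0 := c.nx.mo.q0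
  have q1 := q_small r c.hi (gx c)
  have a0 := h0 c
  have a1 : h ≤ 1 / 4 := by linarith [c.h1, c.er.2.1, r.ok.e1_1]
  have a2 : h ^ 3 ≤ p.T * h :=
    (pow_le_of_le_one a0.le (by linarith) (by norm_num)).trans (le_mul_of_one_le_left a0.le T1)
  have T2 : p.T ≤ p.T ^ 2 := le_self_pow₀ T1 (by norm_num)
  have H0 : 0 ≤ H := (Real.rpow_nonneg p.n.cast_nonneg _).trans c.H0
  have g2 : aS x ^ 2 / 2 ≤ gq p.T h x := by
    rw [gq]; nlinarith [mul_le_mul_of_nonneg_right n1 (sq_nonneg (aS x))]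
  have tr := c.nw.tr
  rw [Kb.TR, ← at_zz c.pt] at tr
  obtain ⟨ha, hw⟩ := O4c.W31.hw_q (x := x) (g := gq p.T h x) (C0 := p.T) (c0 := 1 / 100)
    (C := p.T ^ 4) (η := h ^ 2) (τ := √(p.T ^ 4 * H / p.M t)) c.pt.ok d.hx.n1 q0 (by linarith)
    (at_z c.pt) (at_pp c.pt) c.nw.ha a0.le a1 d.dq g2
    (mul_le_mul_of_nonneg_right (by linarith) (sq_nonneg _)) tr (by linarith) (by linarith)
    (by linarith) (by norm_num) (by linarith) (by
      rw [Real.sq_sqrt (div_nonneg (by positivity) (Pm.M_nn t0.le))]; linarith)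
  obtain ⟨e2, fr, -⟩ := d.fr
  have ae := (O4c.W31.Ae_le fr.e11 (ha.cvA.nn _) c.nw.c1 c.nw.c2
    (ζ := 2 * aS x ^ 2) (by linarith [(at_z2 c.pt (by linarith)).2])).2
  refine ⟨ha, hw, g2, ae.trans ?_⟩
  have b1 : p.T * aS x + 2 * aS x ^ 2 ≤ 2 * (p.T * aS x) := by nlinarith
  have b2 := pow_le_pow_left₀ (by positivity) b1 2
  nlinarith [mul_le_mul_of_nonneg_left n3 (show 0 ≤ p.T * aS x by positivity)]

end Crest.Agent.T157.Oi

end
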