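import Crest.Agent.T157.OiDef_19
import Crest.Agent.T157.OgIn_31
import Crest.Agent.T157.OtY_41

set_option autoImplicit false
set_option linter.unusedSectionVars false

/-!
Row 157, A2 (helper19, compiled by helper5): the assembly `InGlue` of `OiDef_19`.
-/

noncomputable section

namespace Crest.Agent.T157.Oi

open MeasureTheory Matrix Crest.Agent.Lib.OrthPoinc Filter Set
open Crest.Agent.T157.E Crest.Agent.T157.Cond Crest.Agent.T157.Tap
open Crest.Agent.T157.Oc Crest.Agent.T157.Od Crest.Agent.T157.Oo Crest.Agent.T157.O0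
open Crest.Agent.T157.Kb (f2 ee HA TR)
open Crest.Agent.T157.Kp (At anE)
open Crest.Agent.T157.O4c.W31 (ha_conj tr_conj col_conj bv_conj vmv_vec)

variable {n k : ℕ}

namespace G5

/-- an event of the spins contained in the bad set has annealed mass at most `anE` -/
theorem an_le_anE {o : Orb n k} {μ : Measure (Mat k)} [IsProbabilityMeasure μ] {x : V n}
    {B : V n → Mx n → Cube n → Prop} (hμ : SOInv μ) (h : o.Ok)
    (mB : ∀ s, MeasurableSet {z : V n × Mx n | B z.1 z.2 s}) {S : Cube n → Prop} [DecidablePred S]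
    (hS : ∀ U ∈ SO k, ∀ s, S s → B x (o.Wu U) s) :
    o.an μ (fun s _ => if S s then 1 else 0) ≤ anE o μ x B := by
  classical
  have := Orb.P_prob hμ h
  have m1 : ∀ s, MeasurableSet {U : Mat k | B x (o.Wu U) s} := fun s =>
    (by fun_prop : Measurable fun U : Mat k => (x, o.Wu U)) (mB s)
  have m3 : ∀ s, Measurable fun U => o.w U s := fun s => by
    simp only [Orb.w_ph41]
    exact (Orb.cont_ph41 s).measurable.comp (by fun_prop)
  have hp : ∀ U s, 0 ≤ prob (o.w U) s := fun U s =>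
    div_nonneg (Orb.w_pos U s).le (Finset.sum_nonneg fun s _ => (Orb.w_pos U s).le)
  have h1 : ∀ U, ∑ s, prob (o.w U) s = 1 := fun U => by
    simp only [prob, ← Finset.sum_div]
    exact div_self (Orb.wt (o := o) U).pos.ne'
  have h0 : ∀ U, 0 ≤ mean (o.w U) fun s => if B x (o.Wu U) s then 1 else 0 := fun U =>
    Finset.sum_nonneg fun s _ => mul_nonneg (hp U s) (by dsimp only; split_ifs <;> norm_num)
  have i1 : Integrable (fun U => mean (o.w U) fun s => if B x (o.Wu U) s then 1 else 0) (o.P μ) := by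
    refine Integrable.of_bound (Measurable.aestronglyMeasurable ?_) 1 (ae_of_all _ fun U => ?_)
    · exact Finset.measurable_sum _ fun s _ => ((m3 s).div (Finset.measurable_sum _ fun s _ => m3 s)).mul
        (Measurable.ite (m1 s) measurable_const measurable_const)
    · rw [Real.norm_of_nonneg (h0 U)]
      exact (Finset.sum_le_sum fun s _ => mul_le_of_le_one_right (hp U s)
        (by split_ifs <;> norm_num)).trans (h1 U).le
  refine integral_mono_of_nonneg (ae_of_all _ fun U => Finset.sum_nonneg fun s _ =>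
    mul_nonneg (hp U s) (by dsimp only; split_ifs <;> norm_num)) i1
    ((Orb.P_mem (o := o) hμ).mono fun U hU => Finset.sum_le_sum fun s _ =>
      mul_le_mul_of_nonneg_left ?_ (hp U s))
  by_cases hs : S s
  · simp only [if_pos hs, if_pos (hS U hU s hs), le_refl]
  · simp only [if_neg hs]; split_ifs <;> norm_num

theorem Et_unit {o : Orb n k} {u : V n} (h : o.Eᵀ *ᵥ u = 0) : o.Eᵀ *ᵥ unitv u = 0 := by
  rw [unitv, mulVec_smul, h, smul_zero]

theorem Et_th {o : Orb n k} {x : V n} (h : At o x) : o.Eᵀ *ᵥ th x = 0 := h.p ▸ h.ok.ep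

theorem Et_f2 {o : Orb n k} {x : V n} (h : At o x) : o.Eᵀ *ᵥ f2 x = 0 := by
  refine Et_unit ?_
  rw [Qe.bv, Qe.R1, sub_mulVec, one_mulVec, vmv_vec, mulVec_sub, mulVec_smul, Et_th h,
    Et_unit h.ex, smul_zero, sub_zero]

variable {p : Pm} {o : Orb p.n k} {x : V p.n} {t e h H : ℝ}

theorem nw_back (hx : At o x) (q0 : 0 < aS x) {U : Mat k} (hU : U ∈ SO k)
    (g : Nw p h H x (o.Wu U)) : Nw p h H x o.W := by
  have e1 : o.Eᵀ *ᵥ ee x = 0 := Et_unit (Et_th hx)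
  refine ⟨(ha_conj hx.ok hU (Et_f2 hx)).1 g.ha, ?_, ?_, ?_⟩
  · have := g.tr
    rwa [TR, tr_conj hx.ok hU] at this
  · exact (col_conj hx.ok hU e1).1 ▸ g.c1
  · exact bv_conj hx.ok hU e1 (Kb.Gn11.ee_unit q0) ▸ g.c2

/-- the context from the annealed bound -/
theorem mk_cz {μ : Measure (Mat k)} [IsProbabilityMeasure μ] {B : Bad p.n}
    (mB : ∀ s, MeasurableSet {z : V p.n × Mx p.n | B z.1 z.2 s})
    (hB : ∀ W s, ¬ B x W s → Nb p t h H x W s) (ht : t ∈ Icc p.lo p.t0) (er : p.Er e t)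
    (h0 : e ^ 2 ≤ h) (h1 : h ≤ e) (n0 : 0 < p.n) (H0 : (p.n : ℝ) ^ p.d ≤ H) (H1 : H ≤ p.L * p.M t)
    (hμ : SOInv μ) (hx : At o x) (hW : o.W ∈ p.Wt e t)
    (ha : anE o μ x B ≤ Real.exp (-(5 * H))) : Cz p t e h H o μ x := by
  have Hp : 0 < H := lt_of_lt_of_le (by positivity) H0
  have lt : anE o μ x B < 1 := ha.trans_lt (Real.exp_lt_one_iff.2 (by linarith))
  have nx : Nx p t h x := Kp.of_anE_lt hμ hx.ok mB lt fun hn U _ s =>
    by_contra fun hb => hn (hB _ s hb).nx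
  refine ⟨ht.1, ht.2, er, h0, h1, H0, H1, hμ, hx, hW, nx,
    Kp.of_anE_lt hμ hx.ok mB lt fun hn U hU s =>
      by_contra fun hb => hn (nw_back hx nx.mo.q0 hU (hB _ s hb).nw),
    (an_le_anE hμ hx.ok mB fun U _ s hs => by_contra fun hb => ?_).trans ha⟩
  exact absurd (hB _ s hb).zs (not_le.2 hs)

theorem M1_mono {μ : Measure (Mat k)} {a b : ℝ} (hab : a ≤ b) (g : Og.M1 o μ a) : Og.M1 o μ b :=
  fun v => (g v).trans (mul_le_mul_of_nonneg_right hab (O4c.W31.dnn v))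

theorem M_pos (n0 : 0 < p.n) (ht : p.lo ≤ t) : 0 < t ∧ 0 < p.M t := by
  have : 0 < p.lo := by unfold Pm.lo; positivity
  have t0 : 0 < t := by linarith
  exact ⟨t0, by unfold Pm.M; positivity⟩

end G5

open G5 in
theorem inGlue : InGlue := by
  intro hM hB hF hP hX hW hFm h1 h23 h4
  have evn : ∀ᶠ p in FF, 0 < p.cv → 0 < p.e1 → 0 < p.n ∧ (p.n : ℝ) ^ (-p.cv) ≤ p.e1 := by
    refine ev_n (Q := fun p => 0 < p.cv → 0 < p.e1 → 0 < p.n ∧ (p.n : ℝ) ^ (-p.cv) ≤ p.e1)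
      fun q => ?_
    by_cases hq : 0 < q.cv ∧ 0 < q.e1
    · filter_upwards [eventually_gt_atTop 0, ((tendsto_rpow_neg_atTop hq.1).comp
        tendsto_natCast_atTop_atTop).eventually (eventually_le_nhds hq.2)] with m a b _ _
      exact ⟨a, b⟩
    · exact Eventually.of_forall fun _ a b => absurd ⟨a, b⟩ hq
  have ev : ∀ᶠ p in FF, (2 * p.T ^ 12 ≤ p.C ∧ 2 ≤ p.C) ∧ 1000 * p.T * p.e1 ≤ 1 ∧
      (0 < p.n ∧ (p.n : ℝ) ^ (-p.cv) ≤ p.e1) := by
    filter_upwards [ev_ok, ev_C (Q := fun q y => 2 * q.T ^ 12 ≤ y ∧ 2 ≤ y) fun q =>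
      (ev_ge _).and (ev_ge 2), ev_e1 fun q => ev_sm (1 / (1000 * q.T)), evn]
      with p ok a b c
    have T1 := ok.T
    have b : p.e1 ≤ 1 / (1000 * p.T) := b.2 (by change 0 < 1 / (1000 * p.T); positivity)
    rw [le_div_iff₀ (by positivity), mul_comm] at b
    exact ⟨a, b, c ok.cv ok.e1.1⟩
  have mG : ∀ (p : Pm) (h H t : ℝ) (s : Cube p.n), MeasurableSet {z : V p.n × Mx p.n |
      Kb.G1 p.L p.T h H t (Kb.gz s (z.1, z.2)).1 (Kb.gz s (z.1, z.2)).2} := fun p h H t s =>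
    Kb.Ga98.meas_gz s ((hM p.n p.T 0 h 0 0 0 t).2.2.2.2.2.2.2.2.2 p.L H)
  have mS : ∀ (p : Pm) (ε t : ℝ) (s : Cube p.n), MeasurableSet {z : V p.n × Mx p.n |
      Kb.Sh ε t (Kb.gz s (z.1, z.2)).1} := fun p ε t s =>
    (Kb.Ga98.meas_gz s).fst (hM p.n 0 ε 0 0 0 0 t).2.1
  constructor
  · filter_upwards [hB, hF, hP, hX, hW, hFm, h1, h23, h4, ev, ev_ok, lev_ge]
      with p hB hF hP hX hW hFm h1 h23 h4 ⟨⟨C1, C2⟩, eT, n0, ne⟩ ok lv t ht x k μ _ o hμ hx hWt ha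
    obtain ⟨t0, M0⟩ := M_pos n0 ht.1
    have e0 := ok.e1.1
    have T1 := ok.T
    have e1 : p.e1 ≤ 1 / 1000 := by nlinarith
    have mB : ∀ s, MeasurableSet {z : V p.n × Mx p.n | Kb.base.c p t z.1 z.2 s} := fun s =>
      (mG p p.e1 (p.Hc t) t s).compl
    have nb : ∀ W s, ¬ Kb.base.c p t x W s → Nb p t p.e1 (p.Hc t) x W s := fun W s g =>
      hB t ht _ _ e0 le_rfl x W s (not_not.1 g)
    have c : Cz p t p.e1 p.e1 (p.Hc t) o μ x := mk_cz mB nb ht
      ⟨e0, le_rfl, (Real.rpow_le_rpow t0.le ht.2 ok.cv.le).trans ok.t0', ne⟩ (by nlinarith) le_rfl n0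
      (lv t ht.1).1 (min_le_left _ _) hμ hx hWt ha
    have xd := hX _ _ _ _ _ o μ x c
    have wd := hW _ _ _ _ _ o μ x c xd
    have fm := (hFm _ _ _ _ _ o μ x c).1
    have q0 := c.nx.mo.q0
    have q1 := c.nx.q1
    have m1 : Og.M1 o μ (p.C / t) := by
      refine M1_mono ?_ (h1 _ _ _ _ _ o μ x c xd wd _ (by positivity) fm)
      have g2 := wd.g2
      rw [div_le_div_iff₀ (lt_of_lt_of_le (by positivity) g2) t0]
      calc p.T ^ 11 * t ≤ p.T ^ 11 * (p.T * aS x ^ 2) := by gcongr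
        _ = 2 * p.T ^ 12 * (aS x ^ 2 / 2) := by ring
        _ ≤ _ := by gcongr
    obtain ⟨vt, v1, v2⟩ := hP _ _ _ _ _ o μ x c
    have H0 : 0 < p.Hc t := lt_of_lt_of_le (by positivity) c.H0
    refine ⟨⟨(hF _ _ _ _ _ o μ x c).1, fun _ => m1, fun _ => m1, (h23 _ _ _ _ _ o μ x c xd wd fm).1,
      h4 _ _ _ _ _ o μ x c xd wd, fun _ => ⟨vt, v1, ?_⟩⟩,
      fun a _ => (h23 _ _ _ _ _ o μ x c xd wd fm).2 a, fun _ => (hF _ _ _ _ _ o μ x c).2⟩
    refine le_trans (Kp.P_le_anE (x := x) hμ hx.ok mB fun U hU hn s => by_contra fun hb =>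
      (mem_ofPred_eq ▸ hn : ¬ _) (v2 U hU _ ?_ (nb _ s hb).np))
      (ha.trans (Real.exp_le_exp.2 (by linarith)))
    have a1 : p.e1 ^ 3 ≤ 1 / 4 := (pow_le_of_le_one e0.le (by linarith) (by norm_num)).trans
      (by linarith)
    have a2 : p.T ≤ p.T ^ 12 := le_self_pow₀ T1 (by norm_num)
    rw [div_le_iff₀ (by linarith)]
    have a3 : 0 ≤ (1 - 2 * p.e1 ^ 3) * aS x ^ 2 := mul_nonneg (by linarith) (sq_nonneg _)
    calc t ≤ 1 / 2 * aS x ^ 2 * (2 * p.T) := by linarith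
      _ ≤ _ := by gcongr <;> linarith
  · filter_upwards [hB, hF, hP, hX, hW, hFm, h1, h23, h4, ev, ev_ok, lev_ge]
      with p hB hF hP hX hW hFm h1 h23 h4 ⟨⟨C1, C2⟩, eT, n0, ne⟩ ok lv t ht e er x k μ _ o hμ hx hWt ha
    obtain ⟨t0, M0⟩ := M_pos n0 ht.1
    have e0 := er.1
    have T1 := ok.T
    have eT' : 1000 * p.T * e ≤ 1 := le_trans (by have := er.2.1; gcongr) eT
    have e1 : e ≤ 1 / 1000 := by nlinarith
    have e2 : e ^ 2 ≤ e / 1000 := by nlinarith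
    have mB : ∀ s, MeasurableSet {z : V p.n × Mx p.n | Kb.base.s p e t z.1 z.2 s} := fun s =>
      ((mG p (e ^ 2) (p.Hs e t) t s).inter (mS p ((e ^ 2) ^ 3) t s)).compl
    have nb : ∀ W s, ¬ Kb.base.s p e t x W s → Nb p t (e ^ 2) (p.Hs e t) x W s := fun W s g =>
      hB t ht _ _ (by positivity) (by linarith [er.2.1]) x W s (not_not.1 g).1
    have eA : e ^ p.A ≤ 1 := pow_le_one₀ e0.le (by linarith)
    have c : Cz p t e (e ^ 2) (p.Hs e t) o μ x := mk_cz mB nb ht er le_rfl (by linarith) n0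
      ((lv t ht.1).2 e er) ((min_le_left _ _).trans (by gcongr; linarith [ok.L])) hμ hx hWt ha
    have H0 : 0 < p.Hs e t := lt_of_lt_of_le (by positivity) c.H0
    have sh : |aS x ^ 2 - t| ≤ (e ^ 2) ^ 3 * t :=
      Kp.of_anE_lt hμ hx.ok mB (ha.trans_lt (Real.exp_lt_one_iff.2 (by linarith))) fun hn U _ s g =>
        hn (Og.I31.aS_gz s x ▸ g.2.1)
    have e6 : (e ^ 2) ^ 3 ≤ e / 1000 :=
      (pow_le_of_le_one (by positivity) (by linarith) (by norm_num)).trans e2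
    have sq : (1 - e / 1000) * t ≤ aS x ^ 2 := by nlinarith [(abs_le.1 sh).1]
    have xd := hX _ _ _ _ _ o μ x c
    have wd := hW _ _ _ _ _ o μ x c xd
    have fm := hFm _ _ _ _ _ o μ x c
    have q0 := c.nx.mo.q0
    have m1 : Og.M1 o μ ((1 + e / 4) / t) := by
      refine M1_mono ?_ (h1 _ _ _ _ _ o μ x c xd wd _ (by positivity)
        (fm.2 le_rfl (min_le_left _ _)))
      rw [div_le_div_iff₀ (lt_of_lt_of_le (by positivity) wd.g2) t0, gq]
      have a1 : 1 - e / 100 ≤ 1 - 3 * p.T * e ^ 2 := by nlinarith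
      calc (1 + e / 50) * t ≤ (1 + e / 4) * ((1 - e / 100) * (1 - e / 1000)) * t := by
            gcongr; nlinarith
        _ = (1 + e / 4) * ((1 - e / 100) * ((1 - e / 1000) * t)) := by ring
        _ ≤ _ := by
            have : 0 ≤ (1 - e / 1000) * t := mul_nonneg (by linarith) t0.le
            gcongr
            linarith
    obtain ⟨vt, v1, v2⟩ := hP _ _ _ _ _ o μ x c
    refine ⟨(hF _ _ _ _ _ o μ x c).1, fun _ => m1, fun _ => M1_mono (by gcongr; linarith) m1,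
      (h23 _ _ _ _ _ o μ x c xd wd fm.1).1, h4 _ _ _ _ _ o μ x c xd wd, fun _ => ⟨vt, v1, ?_⟩⟩
    refine le_trans (Kp.P_le_anE (x := x) hμ hx.ok mB fun U hU hn s => by_contra fun hb =>
      (mem_ofPred_eq ▸ hn : ¬ _) (v2 U hU _ ?_ (nb _ s hb).np))
      (ha.trans (Real.exp_le_exp.2 (by linarith)))
    rw [div_le_iff₀ (by linarith)]
    have : 0 ≤ (1 - e / 1000) * t := mul_nonneg (by linarith) t0.le
    calc t ≤ (1 - e / 500) * (1 - e / 1000) * (1 + e / 4) * t :=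
          le_mul_of_one_le_left t0.le (by nlinarith)
      _ = (1 - e / 500) * ((1 - e / 1000) * t) * (1 + e / 4) := by ring
      _ ≤ _ := by gcongr <;> linarith

end Crest.Agent.T157.Oi

end
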