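import Crest.Agent.T157.OgT_9

set_option autoImplicit false
set_option linter.unusedSectionVars false

/-!
Row 157, A2 (helper9): the assembly of the orbit step (`OgGlue`).
-/

noncomputable section

namespace Crest.Agent.T157.Og

open MeasureTheory Matrix Crest.Agent.Lib.OrthPoinc Filter Topology Set
open Crest.Agent.T157.Oc Crest.Agent.T157.E Crest.Agent.T157.SL Crest.Agent.T157.Ks
open Crest.Agent.T157.Od Crest.Agent.T157.Oo Crest.Agent.T157.O6 Crest.Agent.T157.O0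

/-- (T2) from its numbers -/
theorem t2_of {n k : ℕ} {o : Orb n k} {μ : Measure (Mat k)} [IsProbabilityMeasure μ] {c : Cs}
    {H v : ℝ} (hμ : SOInv μ) (h : o.Ok) (hc : c.Nn) (H0 : 0 ≤ H) (hN : T2N ((k : ℝ) - 2) c H v) :
    (∀ T, (o.P μ).real T ≤ Real.exp v * μ.real T + Real.exp (-H) + (o.P μ).real (o.G c)ᶜ) ∧
    ((o.P μ).real (o.G c)ᶜ ≤ 1 / 2 → ∀ T, μ.real T ≤ Real.exp v * (o.P μ).real T + Real.exp (-H)) := by
  have r0 : (0 : ℝ) < (k : ℝ) - 2 := by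
    have : (2 : ℝ) < k := by exact_mod_cast h.two
    linarith
  have g0 : 0 ≤ c.gZ := by
    have := hc.a1; have := hc.e0; have := hc.d0
    unfold Cs.gZ; positivity
  obtain ⟨h1, h2⟩ := hN
  set ρ := (k : ℝ) - 2
  set S := 2 * H + 8 + 48 * (c.gZ / ρ) with hS
  have X0 : 0 ≤ c.gZ / ρ := div_nonneg g0 r0.le
  have S0 : 0 ≤ S := by positivity
  have e1 : √(16 * S / ρ) ^ 2 = 16 * S / ρ := Real.sq_sqrt (by positivity)
  have e2 : √(16 * S / ρ) * √c.gZ / 2 = 2 * √(S * (c.gZ / ρ)) := by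
    rw [← Real.sqrt_mul (by positivity), show 16 * S / ρ * c.gZ = 4 ^ 2 * (S * (c.gZ / ρ)) by ring,
      Real.sqrt_mul (by positivity), Real.sqrt_sq (by norm_num)]
    ring
  have hv : 1 + (√(16 * S / ρ) * √c.gZ / 2 + c.a * (c.k1 + c.d0) * √(16 * S / ρ) ^ 2) ≤ v := by
    rw [e1, e2]
    refine le_trans (le_of_eq ?_) h2
    ring
  have hv1 : 1 + 48 * √c.gZ ^ 2 / ρ ≤ H + 5 + 48 * (c.gZ / ρ) := by
    rw [Real.sq_sqrt g0, mul_div_assoc]; linarith
  have e3 : H + 5 + 48 * (c.gZ / ρ) - ρ * √(16 * S / ρ) ^ 2 / 16 = -H + -3 := by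
    rw [e1, hS]; field_simp; ring
  have x3 : Real.exp (-3) ≤ 1 / 10 := by
    rw [Real.exp_neg, ← one_div]
    refine one_div_le_one_div_of_le (by norm_num) ?_
    have := Real.sum_le_exp_of_nonneg (x := 3) (by norm_num) 4
    norm_num [Finset.sum_range_succ, Nat.factorial] at this
    linarith
  have x4 : Real.exp (4 - 2 * (H + 5 + 48 * (c.gZ / ρ))) ≤ Real.exp (-H + -3) :=
    Real.exp_le_exp.2 (by linarith)
  have x5 := mul_le_mul_of_nonneg_left x3 (Real.exp_pos (-H)).le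
  rw [← Real.exp_add] at x5
  have x6 := Real.exp_pos (-H + -3)
  refine ⟨fun T => ?_, fun hG T => ?_⟩
  · have := Orb.P_le hμ h hc h1 (Real.sqrt_nonneg _) hv hv1 T
    rw [e3] at this
    linarith
  · have := Orb.le_P hμ h hc h1 (Real.sqrt_nonneg _) hv hv1 (by linarith) hG T
    rw [e3] at this
    linarith

variable {p : Pm} {t ε H : ℝ} {k : ℕ} {o : Orb p.n k} {x : Vn p.n}

theorem LH.cq_nn (h : LH p t ε H) {d e : ℝ} (d0 : 0 ≤ d) (e0 : 0 ≤ e) : ((p.cq t).ctr d e).Nn := by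
  have := h.t0; have := h.al0; have := h.s1_nn
  have : 0 < p.kk t := by linarith [h.kk1]
  have : 0 < p.B0 := by linarith [h.ord.B01]
  have : 0 < p.Bt t := by linarith [h.Bt1, h.ord.B1]
  have : 0 < max t p.ts := h.t0.trans_le (le_max_left _ _)
  constructor <;> simp only [Cs.ctr, Pm.cq] <;> positivity

theorem LH.c1_nn (h : LH p t ε H) : (c1 p t).Nn := by
  have := h.t0
  have : 0 < p.kk t := by linarith [h.kk1]
  exact h.cq_nn (by positivity) (by positivity)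

theorem LH.c0_nn (h : LH p t ε H) : (c0 p t).Nn := by
  have : 0 < p.B := by linarith [h.ord.B1]
  have : 0 < p.B2 := by linarith [h.ord.B21]
  have : 0 < max t p.ts := h.t0.trans_le (le_max_left _ _)
  unfold c0 Pm.M
  split_ifs
  exacts [h.cq_nn (by positivity) (by positivity), h.cq_nn (by positivity) (by positivity), h.c1_nn]

theorem Fx.ro (f : Fx t o x) : (k : ℝ) - 2 = ro p := by
  rw [Og.ro, ← f.pt.dim]; push_cast; ring

theorem Fx.p1 (f : Fx t o x) (i : Fin p.n) : |o.p i| ≤ 1 := by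
  rw [f.pt.p]; exact abs_le.2 ⟨(Real.neg_one_lt_tanh _).le, (Real.tanh_lt_one _).le⟩

theorem Fx.pn (f : Fx t o x) : o.p ⬝ᵥ o.p ≤ p.n := by
  refine (Finset.sum_le_sum (g := fun _ => (1 : ℝ)) fun i _ => ?_).trans (by simp)
  nlinarith [abs_le.1 (f.p1 i)]

theorem Fx.chi0 (f : Fx t o x) : 0 < Kp.chi x := by
  have hn : 0 < p.n := by have := f.pt.dim; omega
  have : Nonempty (Fin p.n) := ⟨⟨0, hn⟩⟩
  refine div_pos (Finset.sum_pos (fun i _ => ?_) Finset.univ_nonempty) (by exact_mod_cast hn)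
  have := Real.neg_one_lt_tanh (x i); have := Real.tanh_lt_one (x i)
  simp only [Tap.DD, Tap.th]; nlinarith

theorem Fx.z2 (f : Fx t o x) : 2 ≤ o.z := by
  have h := f.chi0
  rw [f.pt.z, ← sub_le_iff_le_add', le_div_iff₀ h]; nlinarith [sq_nonneg (Kp.chi x - 1)]

theorem LH.zeta (h : LH p t ε H) : p.L ^ 2 * t / 100 ≤ 1 := by
  have o := h.ord
  have h1 : p.L ^ 2 ≤ p.B ^ 1000 := (pow_le_pow_left₀ (by linarith [o.L1])
    (o.LC'.trans (o.CK.trans o.KB)) 2).trans (pow_le_pow_right₀ o.B1 (by norm_num))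
  nlinarith [h.tB, mul_le_mul_of_nonneg_right h1 h.t0.le]

theorem Fx.A36 (f : Fx t o x) (h : LH p t ε H) : Op2 (o.z • (1 : Mn p.n) - o.W) (6 ^ 2) := fun v => by
  have h1 : Op2 (o.z • (1 : Mn p.n)) 9 := fun v => by
    rw [smul_mulVec, one_mulVec, smul_dotProduct, dotProduct_smul, smul_eq_mul, smul_eq_mul, ← mul_assoc]
    exact mul_le_mul_of_nonneg_right (by nlinarith [f.z, f.z2, h.zeta]) (dot_self_nonneg v)
  exact (h1.sub f.W9 v).trans_eq (by norm_num)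

theorem Fx.cr (f : Fx t o x) (h : LH p t ε H) {U : Mat k} (hU : U ∈ SO k) :
    U ∈ o.G (crude 6 (RR p)) := by
  have := h.ord.N1
  refine Orb.crude_all f.pt.ok (f.A36 h) ?_ ?_ ?_ f.pn hU <;> unfold RR <;> linarith

variable {μ : Measure (Mat k)} [IsProbabilityMeasure μ]

theorem ctx_of (h : LH p t ε H) (hμ : SOInv μ) (f : Fx t o x) (n2 : NT2) {η : ℝ}
    (hG : μ.real (o.G (c1 p t))ᶜ ≤ η) (hη : η ≤ ((p.n : ℝ) ^ 21)⁻¹)
    (hP : (o.P μ).real (o.G (c1 p t))ᶜ ≤ ((p.n : ℝ) ^ 21)⁻¹) :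
    Ctx o μ (c1 p t) (RR p) η p.n (dl p) := by
  have o1 := h.ord
  have N1 := o1.N1
  have N0 := o1.N0
  have Nb := o1.Nb
  have e1 : Real.exp (lg p) = p.n := Real.exp_log N0
  have e2 : Real.exp (-(21 * lg p)) = ((p.n : ℝ) ^ 21)⁻¹ := by
    rw [Real.exp_neg, show (21 : ℝ) = ((21 : ℕ) : ℝ) by norm_num, Real.exp_nat_mul, e1]
  have e3 : 2 * ((p.n : ℝ) ^ 21)⁻¹ ≤ dl p := by
    rw [dl, pow_succ _ 20, mul_inv, mul_comm, mul_assoc]
    exact mul_le_of_le_one_right (by positivity) (by rw [inv_mul_le_one₀ N0]; linarith)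
  have e4 : (p.n : ℝ) * ((p.n : ℝ) ^ 21)⁻¹ = dl p := by rw [dl]; field_simp
  have T := (t2_of hμ f.pt.ok h.c1_nn (by linarith [o1.lg1]) (f.ro ▸ n2 p t ε H h)).1
  refine ⟨f.pt.ok, hμ, h.c1_nn, ?_, ?_, ?_, fun U hU => (f.cr h hU).2, f.p1, hG, N1.le,
    by unfold dl; positivity, fun S => ?_, ?_⟩
  · unfold RR; linarith
  · unfold RR; linarith
  · show (6 : ℝ) ^ 2 ≤ RR p
    unfold RR; linarith
  · have := T S
    rw [e1, e2] at this
    linarith
  · have a1 : (p.n : ℝ) * η + dl p ≤ 2 * dl p := by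
      linarith [mul_le_mul_of_nonneg_left hη N0.le]
    have a2 : (p.n : ℝ) ^ 9 * (2 * dl p) ≤ 1 := by
      rw [dl, mul_left_comm, ← div_eq_mul_inv, ← mul_div_assoc, div_le_one (by positivity)]
      calc 2 * (p.n : ℝ) ^ 9 ≤ p.n * (p.n : ℝ) ^ 9 := by gcongr; linarith
        _ = (p.n : ℝ) ^ 10 := by ring
        _ ≤ _ := pow_le_pow_right₀ N1.le (by norm_num)
    have a3 : 0 ≤ (p.n : ℝ) * η + dl p :=
      add_nonneg (mul_nonneg N0.le (measureReal_nonneg.trans hG)) (by unfold dl; positivity)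
    exact (mul_le_mul o1.MM_le a1 a3 (by positivity)).trans a2

/-- pure arithmetic of the final step -/
theorem fin_arith {N a π e E P X η0 η1 m : ℝ} (N2 : 100 ≤ N) (ha : N ^ 40 ≤ a) (π0 : 0 ≤ π)
    (e0 : 0 ≤ e) (he : e * a ^ 2 ≤ E) (h0 : η0 = a * π + e) (h1 : η1 = N ^ 12 * (e + η0))
    (hm : m ≤ N ^ 9) (hX : X ≤ η1 + 4 * (e + m * η1)) (hP : P ≤ a * X + e + π) :
    P ≤ a ^ 4 * π + E := by
  have N1 : 1 ≤ N := by linarith
  have a1 : N ≤ a := (le_pw N1 (by norm_num)).trans ha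
  have a0 : 0 ≤ a := by linarith
  have η0' : 0 ≤ η1 := by rw [h1, h0]; positivity
  have n9 : 1 ≤ N ^ 9 := one_le_pow₀ N1
  have n21 : 20 * N ^ 21 ≤ a := le_trans (by
    calc 20 * N ^ 21 ≤ N * N ^ 21 := by gcongr; linarith
      _ = N ^ 22 := by ring
      _ ≤ _ := pow_le_pow_right₀ N1 (by norm_num)) ha
  have n21' : 1 ≤ N ^ 21 := one_le_pow₀ N1
  have b1 : X ≤ 5 * N ^ 9 * η1 + 4 * e := by nlinarith [mul_le_mul_of_nonneg_right hm η0']
  have b2 : 5 * N ^ 9 * η1 = 5 * N ^ 21 * (a * π) + 10 * N ^ 21 * e := by rw [h1, h0]; ring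
  have b3 : 5 * N ^ 21 * (a * π) ≤ a / 4 * (a * π) := by gcongr; linarith
  have b4 : 10 * N ^ 21 * e + 4 * e ≤ 3 * a / 4 * e := by nlinarith
  have b5 : a * X ≤ a * (a / 4 * (a * π) + 3 * a / 4 * e) := by gcongr; linarith
  have b6 : a * (a / 4 * (a * π)) + π ≤ a ^ 4 * π := by
    have : a * (a / 4 * a) + 1 ≤ a ^ 4 := by nlinarith [pow_le_pow_right₀ (by linarith : 1 ≤ a) (show 3 ≤ 4 by norm_num), one_le_pow₀ (n := 4) (by linarith : 1 ≤ a)]
    nlinarith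
  have b7 : a * (3 * a / 4 * e) + e ≤ e * a ^ 2 := by
    have : 4 ≤ a ^ 2 := by nlinarith
    nlinarith
  nlinarith

/-- **the common part of the two statements** -/
theorem core (n1 : NT1) (n2 : NT2) (ap : ApL) (ct : CtrL) (hm : HiM) (h : LH p t ε H)
    (hμ : SOInv μ) {κ : ℝ} (I : In1 t κ H o μ x) {Gd : Set (Tap.Mx p.n × Tap.V p.n)}
    (hs : ∀ η, Cx t ε H η o μ x →
      (p.tss ≤ t → ∃ vt, Vt o vt ∧ μ.real {U | ¬ Em κ t o x vt U} ≤ 1 / 2) →
      μ.real {U | (o.Wu U, o.y U) ∉ Gd} ≤ η + 4 * fl (RR p) η (3 * H)) :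
    Kp.Gout o μ Gd (p.AP t) (Real.exp (p.th t * H / 2)) (Real.exp (-(2 * H))) := by
  have o1 := h.ord
  have f := I.fx
  have ok := f.pt.ok
  have := Orb.P_prob hμ ok
  have N0 := o1.N0
  have Nb := o1.Nb
  have H0 := h.H_pos
  unfold Kp.Gout
  set π := (o.P μ).real {U | (o.Wu U, o.y U) ∉ p.AP t}
  set w := p.th t * H with hw
  set a := Real.exp (w / 8) with ha
  have ea : ∀ j : ℕ, Real.exp (j * (w / 8)) = a ^ j := fun j => Real.exp_nat_mul _ _
  have a4 : Real.exp (w / 2) = a ^ 4 := by rw [← ea]; congr 1; push_cast; ring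
  have wH : 32 * w ≤ H := by nlinarith [h.th_le]
  have wd : (p.n : ℝ) ^ p.d ≤ w := h.thH
  have w0 : 0 < w := (o1.rp_pos _).trans_le wd
  have aN : (p.n : ℝ) ^ 40 ≤ a := by
    rw [← Real.exp_log N0, ← Real.exp_nat_mul]
    refine Real.exp_le_exp.2 ?_
    have := h.lg_d (j := 2) (by norm_num)
    change ((40 : ℕ) : ℝ) * lg p ≤ _
    push_cast
    nlinarith [o1.lgb]
  have a1 : (p.n : ℝ) ≤ a := (le_pw o1.N1.le (by norm_num)).trans aN
  have a0 : 0 < a := Real.exp_pos _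
  have π0 : 0 ≤ π := measureReal_nonneg
  rw [a4]
  rcases le_or_gt 1 (a ^ 4 * π) with c | c
  · linarith [measureReal_le_one (μ := o.P μ) (s := {U | (o.Wu U, o.y U) ∉ Gd}), Real.exp_pos (-(2 * H))]
  set e := Real.exp (-(3 * H))
  have e0 : 0 < e := Real.exp_pos _
  have x1 : ∀ (j : ℕ) (y z : ℝ), j * (w / 8) + y ≤ z → Real.exp y * a ^ j ≤ Real.exp z := fun j y z hh => by
    rw [← ea, ← Real.exp_add]; exact Real.exp_le_exp.2 (by linarith)
  have he : e * a ^ 4 ≤ 1 := (x1 4 _ 0 (by push_cast; linarith)).trans_eq Real.exp_zero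
  have hπ : (o.P μ).real (o.G (c0 p t))ᶜ ≤ π := by
    refine ENNReal.toReal_mono (measure_ne_top _ _) (measure_mono_ae ?_)
    filter_upwards [Orb.P_mem (o := o) hμ] with U hU hG hA using hG (ap p t ε H k o x U h f hU hA)
  have a3 : 1 ≤ a := by linarith
  have a2 : a * 100 ≤ a ^ 2 := by nlinarith
  have a24 : a ^ 2 * 100 ≤ a ^ 3 := by nlinarith
  have a34 : a ^ 3 * 100 ≤ a ^ 4 := by nlinarith [pow_pos a0 3]
  obtain ⟨T1, T2⟩ := t2_of hμ ok h.c0_nn (by linarith) (f.ro ▸ n1 p t ε H h)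
  replace T2 := T2 (hπ.trans (by nlinarith))
  set η0 := a * π + e with h0
  have b0 : η0 * a ^ 3 ≤ 2 := by rw [h0]; nlinarith
  have η00 : 0 < η0 := by positivity
  have G0 : μ.real (o.G (c0 p t))ᶜ ≤ η0 :=
    (T2 _).trans (add_le_add (mul_le_mul_of_nonneg_left hπ a0.le) le_rfl)
  have P0 : ∀ T, (o.P μ).real T ≤ a * μ.real T + η0 := fun T => (T1 T).trans (by nlinarith)
  set η1 := (p.n : ℝ) ^ 12 * (e + η0) with h1
  have n12 : 1 ≤ (p.n : ℝ) ^ 12 := one_le_pow₀ o1.N1.le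
  have G1 : μ.real (o.G (c1 p t))ᶜ ≤ η1 := by
    rcases lt_or_ge t (p.t0 / 2) with c2 | c2
    · refine ct p t ε H η0 k o μ x h c2 hμ f (I.m1' c2) I.m2 G0 ?_ P0
      have : Real.exp (-(w / 4)) * a ^ 2 = 1 := by
        rw [← ea, ← Real.exp_add, ← Real.exp_zero]; congr 1; push_cast; ring
      refine le_of_mul_le_mul_right (a := a ^ 2) ?_ (by positivity)
      rw [this]; nlinarith
    · have : c0 p t = c1 p t := by
        rw [c0, if_neg (not_lt.2 (o1.t2_t0.trans c2)), if_neg (not_lt.2 c2)]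
      rw [← this]; nlinarith
  have n33 : 100 * ((p.n : ℝ) ^ 12 * (p.n : ℝ) ^ 21) ≤ a := le_trans (by
    calc _ ≤ p.n * ((p.n : ℝ) ^ 12 * (p.n : ℝ) ^ 21) := by gcongr; linarith
      _ = (p.n : ℝ) ^ 34 := by ring
      _ ≤ _ := pow_le_pow_right₀ o1.N1.le (by norm_num)) aN
  have n21 : 1 ≤ (p.n : ℝ) ^ 21 := one_le_pow₀ o1.N1.le
  have b1 : (e + η0) * a ^ 3 ≤ 3 := by nlinarith
  have η10 : 0 < η1 := by positivity
  have b2 : 10 * (η1 * a ^ 2 * (p.n : ℝ) ^ 21) ≤ 1 := by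
    refine le_of_mul_le_mul_right (a := a) ?_ a0
    calc _ = 10 * ((p.n : ℝ) ^ 12 * (p.n : ℝ) ^ 21) * ((e + η0) * a ^ 3) := by rw [h1]; ring
      _ ≤ 10 * ((p.n : ℝ) ^ 12 * (p.n : ℝ) ^ 21) * 3 := by gcongr
      _ ≤ _ := by linarith
  have b3 : η0 ≤ η1 := by nlinarith
  have b4 : ∀ y, y ≤ 2 * a * η1 → y ≤ ((p.n : ℝ) ^ 21)⁻¹ := fun y hy => by
    refine hy.trans ?_
    rw [← one_div, le_div_iff₀ (by positivity)]
    have : η1 * a * (p.n : ℝ) ^ 21 ≤ η1 * a ^ 2 * (p.n : ℝ) ^ 21 := by gcongr; linarith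
    linarith
  have P1 : (o.P μ).real (o.G (c1 p t))ᶜ ≤ ((p.n : ℝ) ^ 21)⁻¹ := b4 _ ((P0 _).trans (by
    nlinarith [mul_le_mul_of_nonneg_left G1 a0.le]))
  have X := ctx_of h hμ f n2 G1 (b4 _ (by nlinarith)) P1
  have cx : Cx t ε H η1 o μ x := by
    refine ⟨h, f, X, ?_⟩
    have : 1 ≤ ty p * a ^ 1 := by
      rw [← ea, ty, ← Real.exp_add]; exact Real.one_le_exp (by push_cast; linarith)
    refine le_of_mul_le_mul_right (a := a ^ 1) (le_trans ?_ this) (by positivity)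
    have : η1 * a ^ 1 * 1 ≤ η1 * a ^ 2 * (p.n : ℝ) ^ 21 := by gcongr; norm_num
    linarith
  have S := hs η1 cx fun c3 => by
    obtain ⟨vt, v1, v2⟩ := I.pos c3
    refine ⟨vt, v1, hm p t ε H η1 κ k o μ x vt cx c3 I.m2 (I.m4 c3 (P1.trans ?_)) ((T2 _).trans ?_)⟩
    · exact inv_anti₀ (by positivity) (pow_le_pow_right₀ o1.N1.le (by norm_num))
    · have y1 := (x1 3 (-H) 0 (by push_cast; linarith)).trans_eq Real.exp_zero
      have y2 := mul_le_mul_of_nonneg_left v2 a0.le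
      have y3 : a * Real.exp (-H) * 8 ≤ Real.exp (-H) * a ^ 3 := by nlinarith [Real.exp_pos (-H)]
      have y4 : e * 8 ≤ e * a ^ 4 := by gcongr; linarith
      change a * _ + e ≤ _
      linarith
  exact fin_arith (by linarith) aN π0 e0.le (x1 2 _ _ (by push_cast; linarith)) h0 h1 o1.MM_le S
    ((T1 _).trans (by linarith))

theorem real_or5 {S G A B C D : Set (Mat k)} {η y : ℝ} (hμ : SOInv μ) (hG : μ.real G ≤ η)
    (hA : μ.real A ≤ y) (hB : μ.real B ≤ y) (hC : μ.real C ≤ y) (hD : μ.real D ≤ y)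
    (h : ∀ U ∈ SO k, U ∉ G → U ∉ A → U ∉ B → U ∉ C → U ∉ D → U ∉ S) : μ.real S ≤ η + 4 * y := by
  have h1 : μ.real S ≤ μ.real (G ∪ (A ∪ (B ∪ (C ∪ D)))) := real_mono_SO hμ fun U hU hS => by
    by_contra hn
    simp only [mem_union, not_or] at hn
    exact h U hU hn.1 hn.2.1 hn.2.2.1 hn.2.2.2.1 hn.2.2.2.2 hS
  linarith [measureReal_union_le (μ := μ) G (A ∪ (B ∪ (C ∪ D))),
    measureReal_union_le (μ := μ) A (B ∪ (C ∪ D)), measureReal_union_le (μ := μ) B (C ∪ D),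
    measureReal_union_le (μ := μ) C D]

theorem ogGlue : OgGlue := fun n1 n2 ap ct lo mid hm hw hf cv β => by
  refine ⟨fun hI hT => ?_, fun hI hT => ?_⟩
  · filter_upwards [ev_ord, hI, hT] with p o1 hI hT t ht x k μ _ o hμ hx hW hB
    obtain ⟨I, J⟩ := hI t ht x k μ o hμ hx hW hB
    have h := o1.lh_c ht
    refine ⟨hT t ht x k μ o hμ hx hW hB, core n1 n2 ap ct hm h hμ I fun η cx hE => ?_⟩
    have y0 : μ.real (∅ : Set (Mat k)) ≤ fl (RR p) η (3 * p.Hc t) := by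
      rw [measureReal_empty]
      exact add_nonneg (Real.exp_pos _).le (mul_nonneg (by unfold MM RR; positivity)
        (measureReal_nonneg.trans cx.ctx.G))
    have k1 : p.C * (1 + 1 / 2) / t ≤ 2 * p.C / t :=
      div_le_div_of_nonneg_right (by linarith [o1.ok.C]) h.t0.le
    rcases lt_or_ge t p.tss with c | c
    · have a1 := lo p t 1 _ η p.C k o μ x cx c o1.ok.C (I.m1 c)
      rcases lt_or_ge t p.ts with c' | c'
      · refine real_or5 hμ cx.ctx.G a1 y0 y0 y0 fun U _ g b1 _ _ _ hn => hn ?_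
        exact cv p t _ k o x U h I.fx (not_not.1 g) ((not_not.1 b1).mono k1)
          (fun d => absurd c' (not_lt.2 d)) (fun d => absurd c (not_lt.2 d))
          fun d => absurd c' (not_lt.2 d)
      · obtain ⟨a2, a3⟩ := mid p t 1 _ η k o μ x cx c' c (J.m3 c' c)
        refine real_or5 hμ cx.ctx.G a1 a2 a3 y0 fun U _ g b1 b2 b3 _ hn => hn ?_
        refine cv p t _ k o x U h I.fx (not_not.1 g) ((not_not.1 b1).mono k1)
          (fun _ _ => not_not.1 b2) (fun d => absurd c (not_lt.2 d))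
          fun _ => (not_lt.1 b3).trans ?_
        have := mul_pos (mul_pos (by linarith [o1.ok.C] : 0 < p.C) o1.N0) h.t0
        linarith
    · obtain ⟨vt, v1, v2⟩ := hE c
      obtain ⟨a1, a2⟩ := hw p t 1 _ η p.C k o μ x vt cx c o1.ok.C le_rfl v1 v2
      obtain ⟨a3, a4⟩ := hf p t _ η k o μ x vt cx c v1 (J.st c) v2
      refine real_or5 hμ cx.ctx.G a1 a2 a3 a4 fun U _ g b1 b2 b3 b4 hn => hn ?_
      exact cv p t _ k o x U h I.fx (not_not.1 g) ((not_not.1 b1).mono k1)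
        (fun _ d => absurd c (not_le.2 d)) (fun _ => ⟨not_not.1 b2, not_lt.1 b3⟩) fun _ => not_lt.1 b4
  · filter_upwards [ev_ord, hI, hT] with p o1 hI hT t ht e he x k μ _ o hμ hx hW hB
    have I := hI t ht e he x k μ o hμ hx hW hB
    have h := o1.lh_s ht he
    refine ⟨hT t ht e he x k μ o hμ hx hW hB, core n1 n2 ap ct hm h hμ I fun η cx hE => ?_⟩
    have y0 : μ.real (∅ : Set (Mat k)) ≤ fl (RR p) η (3 * p.Hs e t) := by
      rw [measureReal_empty]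
      exact add_nonneg (Real.exp_pos _).le (mul_nonneg (by unfold MM RR; positivity)
        (measureReal_nonneg.trans cx.ctx.G))
    have κ1 : 1 ≤ 1 + e / 4 := by linarith [h.e0]
    have a1 : μ.real {U | ¬ CB (o.w U) sv ((1 + e / 4) * (1 + e / 2) / t)} ≤
        fl (RR p) η (3 * p.Hs e t) := by
      rcases lt_or_ge t p.tss with c | c
      · exact lo p t e _ η _ k o μ x cx c κ1 (I.m1 c)
      · obtain ⟨vt, v1, v2⟩ := hE c
        exact (hw p t e _ η _ k o μ x vt cx c κ1 (by linarith [h.e1, o1.Cb]) v1 v2).1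
    refine real_or5 hμ cx.ctx.G a1 y0 y0 y0 fun U _ _ b1 _ _ _ hn => hn ?_
    exact Oa.CB_congr (Oa.prob_orb I.fx.pt.ok U) ((not_not.1 b1).mono
      (div_le_div_of_nonneg_right (by nlinarith [h.e0, h.e1]) h.t0.le))

end Crest.Agent.T157.Og
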