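import Crest.Agent.T157.OoDef_9
import Crest.Agent.T157.OrbB_59

set_option autoImplicit false
set_option linter.unusedSectionVars false

/-!
Row 157, A2 section 4 (helper53): integration by parts on the sphere `ξ = Uᵀ σ`, `U ∈ SO(k)`, and
the law of `c = ξ·(Bξ + b)/|ξ|²` under the weight `exp(-ξ·Bξ/2 - b·ξ)`.
-/

noncomputable section

namespace Crest.Agent.T157.M4

open MeasureTheory Matrix Crest.Agent.Lib.OrthPoinc Filter Topology Set
open Crest.Agent.T157.Oc Crest.Agent.T157.Od Crest.Agent.T157.Orb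

variable {k : ℕ}

/-- the velocity of `ξ` along the rotation `a` -/
def et (a : Fin k × Fin k) (x : Fin k → ℝ) : Fin k → ℝ := (th0 a)ᵀ *ᵥ x

theorem dot_et (a : Fin k × Fin k) (u x : Fin k → ℝ) :
    u ⬝ᵥ et a x = u a.2 * x a.1 - u a.1 * x a.2 := by
  rw [et, th0, transpose_sub, transpose_single, transpose_single, sub_mulVec, dotProduct_sub,
    single_mulVec, single_mulVec]
  simp [dotProduct, Function.update_apply]

theorem sum_et (u x v y : Fin k → ℝ) : ∑ a, (u ⬝ᵥ et a x) * (v ⬝ᵥ et a y) =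
    2 * ((u ⬝ᵥ v) * (x ⬝ᵥ y) - (u ⬝ᵥ y) * (v ⬝ᵥ x)) := by
  have h1 : ∑ i, ∑ j, u j * v j * (x i * y i) = (u ⬝ᵥ v) * (x ⬝ᵥ y) := by
    rw [Finset.sum_comm, dotProduct, dotProduct, Finset.sum_mul_sum]
  have h2 : ∑ i, ∑ j, u i * v i * (x j * y j) = (u ⬝ᵥ v) * (x ⬝ᵥ y) := by
    rw [dotProduct, dotProduct, Finset.sum_mul_sum]
  have h3 : ∑ i, ∑ j, u j * y j * (v i * x i) = (u ⬝ᵥ y) * (v ⬝ᵥ x) := by
    rw [Finset.sum_comm, dotProduct, dotProduct, Finset.sum_mul_sum]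
  have h4 : ∑ i, ∑ j, u i * y i * (v j * x j) = (u ⬝ᵥ y) * (v ⬝ᵥ x) := by
    rw [dotProduct, dotProduct, Finset.sum_mul_sum]
  have h5 : ∑ a, (u ⬝ᵥ et a x) * (v ⬝ᵥ et a y) = ∑ i, ∑ j, u j * v j * (x i * y i) +
      ∑ i, ∑ j, u i * v i * (x j * y j) - ∑ i, ∑ j, u j * y j * (v i * x i) -
      ∑ i, ∑ j, u i * y i * (v j * x j) := by
    simp only [dot_et, Fintype.sum_prod_type, ← Finset.sum_add_distrib, ← Finset.sum_sub_distrib]
    exact Finset.sum_congr rfl fun i _ => Finset.sum_congr rfl fun j _ => by ring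
  rw [h5, h1, h2, h3, h4]; ring

theorem sum_et_M (M : Matrix (Fin k) (Fin k) ℝ) (x : Fin k → ℝ) :
    ∑ a, (M *ᵥ et a x) ⬝ᵥ et a x = 2 * ((x ⬝ᵥ x) * M.trace - x ⬝ᵥ M *ᵥ x) := by
  have h1 : ∀ a, (M *ᵥ et a x) ⬝ᵥ et a x =
      ∑ l, (M l ⬝ᵥ et a x) * (Pi.single l 1 ⬝ᵥ et a x) := fun a => by
    simp only [single_dotProduct, one_mul]; rfl
  simp only [h1]
  rw [Finset.sum_comm]
  simp only [sum_et]
  simp only [dotProduct_single, single_dotProduct, mul_one, one_mul, ← Finset.mul_sum,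
    Finset.sum_sub_distrib, ← Finset.sum_mul]
  rw [mul_comm (x ⬝ᵥ x), dotProduct_comm x (M *ᵥ x)]
  rfl

theorem sum_et_et (V x : Fin k → ℝ) :
    ∑ a, V ⬝ᵥ et a (et a x) = -2 * (((k : ℝ) - 1) * (V ⬝ᵥ x)) := by
  have h1 : ∀ a, V ⬝ᵥ et a (et a x) =
      -∑ l, (Pi.single l 1 ⬝ᵥ et a V) * (Pi.single l 1 ⬝ᵥ et a x) := fun a => by
    rw [et.eq_1 a (et a x), skew_dot (by rw [transpose_transpose, th0_transpose, neg_neg]),
      dotProduct_comm]
    simp only [single_dotProduct, one_mul]; rfl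
  simp only [h1, Finset.sum_neg_distrib]
  rw [Finset.sum_comm]
  simp only [sum_et]
  simp only [single_dotProduct, one_mul, ← Finset.mul_sum,
    Finset.sum_sub_distrib, Pi.single_eq_same, Finset.sum_const, Finset.card_univ, Fintype.card_fin,
    nsmul_eq_mul]
  have : ∑ l, x l * V l = V ⬝ᵥ x := dotProduct_comm x V
  rw [this]; ring

theorem rdv_xi (σ : Fin k → ℝ) : RDV (xi σ) fun a U => et a (xi σ U) :=
  ((RDM.transpose (F := fun U => Matrix.of U) (D := fun a U => Matrix.of U * th0 a)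
    RD.entry).mulVec (RDV.const σ)).congr (fun _ _ => rfl) fun a U _ => by
      rw [mulVec_zero, add_zero, transpose_mul, ← mulVec_mulVec]; rfl

@[fun_prop] theorem continuous_xi (σ : Fin k → ℝ) : Continuous (xi σ) := by
  refine continuous_pi fun a => ?_
  simp only [xi, mulVec, dotProduct, transpose_apply, of_apply]
  fun_prop

/-- `F` is a `C¹` function of `ξ = Uᵀ σ` with gradient `G` -/
def SG (σ : Fin k → ℝ) (F : Mat k → ℝ) (G : Mat k → Fin k → ℝ) : Prop :=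
  RD F fun a U => G U ⬝ᵥ et a (xi σ U)

section SG

variable {σ : Fin k → ℝ} {F F' : Mat k → ℝ} {G G' : Mat k → Fin k → ℝ}

theorem SG.congr (h : SG σ F G) (h1 : ∀ U, F U = F' U) (h2 : ∀ U, G U = G' U) : SG σ F' G' :=
  RD.congr h (fun U _ => h1 U) fun a U _ => by rw [h2]

theorem SG.const (c : ℝ) : SG σ (fun _ => c) fun _ => 0 :=
  (RD.const c).congr (fun _ _ => rfl) fun _ _ _ => (zero_dotProduct _).symm

theorem SG.add (h : SG σ F G) (h' : SG σ F' G') :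
    SG σ (fun U => F U + F' U) fun U => G U + G' U :=
  (RD.add h h').congr (fun _ _ => rfl) fun _ _ _ => (add_dotProduct _ _ _).symm

theorem SG.mul (h : SG σ F G) (h' : SG σ F' G') :
    SG σ (fun U => F U * F' U) fun U => F' U • G U + F U • G' U :=
  (RD.mul h h').congr (fun _ _ => rfl) fun _ _ _ => by
    simp only [add_dotProduct, smul_dotProduct, smul_eq_mul]; ring

theorem SG.exp (h : SG σ F G) :
    SG σ (fun U => Real.exp (F U)) fun U => Real.exp (F U) • G U :=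
  (RD.exp h).congr (fun _ _ => rfl) fun _ _ _ => by simp only [smul_dotProduct, smul_eq_mul]

theorem SG.lin (w : Fin k → ℝ) : SG σ (fun U => w ⬝ᵥ xi σ U) fun _ => w :=
  ((RDV.const w).dot (rdv_xi σ)).congr (fun _ _ => rfl) fun _ _ _ => by simp

theorem SG.quad {M : Matrix (Fin k) (Fin k) ℝ} (hM : Mᵀ = M) :
    SG σ (fun U => xi σ U ⬝ᵥ M *ᵥ xi σ U) fun U => (2 : ℝ) • M *ᵥ xi σ U :=
  ((rdv_xi σ).dot ((RDM.const M).mulVec (rdv_xi σ))).congr (fun _ _ => rfl) fun a U _ => by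
    rw [zero_mulVec, zero_add, symm_dot hM (xi σ U), dotProduct_comm (et a _), smul_dotProduct,
      smul_eq_mul, two_mul]

variable {μ : Measure (Mat k)} [IsProbabilityMeasure μ]

/-- **integration by parts on the sphere** for the field `V = M ξ + w` -/
theorem SG.ibp (hμ : SOInv μ) (h : SG σ F G) (M : Matrix (Fin k) (Fin k) ℝ) (w : Fin k → ℝ) :
    ∫ U, ((σ ⬝ᵥ σ * M.trace - xi σ U ⬝ᵥ M *ᵥ xi σ U -
        ((k : ℝ) - 1) * ((M *ᵥ xi σ U + w) ⬝ᵥ xi σ U)) * F U +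
      (σ ⬝ᵥ σ * ((M *ᵥ xi σ U + w) ⬝ᵥ G U) -
        ((M *ᵥ xi σ U + w) ⬝ᵥ xi σ U) * (G U ⬝ᵥ xi σ U))) ∂μ = 0 := by
  have hV := ((RDM.const M).mulVec (rdv_xi σ)).add (RDV.const w)
  have h1 : ∀ a, R1 a (fun U => ((M *ᵥ xi σ U + w) ⬝ᵥ et a (xi σ U)) * F U) fun U =>
      ((M *ᵥ et a (xi σ U)) ⬝ᵥ et a (xi σ U) + (M *ᵥ xi σ U + w) ⬝ᵥ et a (et a (xi σ U))) * F U +
        ((M *ᵥ xi σ U + w) ⬝ᵥ et a (xi σ U)) * (G U ⬝ᵥ et a (xi σ U)) := fun a =>
    (((hV.dot ((RDM.const (th0 a)ᵀ).mulVec (rdv_xi σ))).mul h).r a).congr (fun _ _ => rfl)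
      fun U _ => by simp only [zero_mulVec, zero_add, add_zero]; rfl
  have h2 := Finset.sum_eq_zero (s := Finset.univ) fun a _ => (h1 a).integral_eq_zero hμ
  rw [← integral_finsetSum _ fun a _ => integrable_of hμ (h1 a).c'] at h2
  refine (mul_eq_zero.1 (?_ : (2 : ℝ) * _ = 0)).resolve_left two_ne_zero
  rw [← integral_const_mul, ← h2]
  refine integral_congr_ae ((ae_SO hμ).mono fun U hU => ?_)
  simp only [Finset.sum_add_distrib, ← Finset.sum_mul, sum_et, sum_et_M, sum_et_et, dot_xi σ hU]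
  ring

end SG

end Crest.Agent.T157.M4
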