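import Crest.Agent.T157.MjB_84
import Crest.Agent.T157.O4mA_53

set_option autoImplicit false
set_option linter.unusedSectionVars false

/-!
Row 157, A2 section 4 (helper4): the words of the core of (M1).
`f1 = x / |x|`, `f2` the unit vector of `ran Π` orthogonal to `x`, `κ = C q`, `X = |x|`.
-/

noncomputable section

namespace Crest.Agent.T157.O4c

open MeasureTheory Matrix Crest.Agent.Lib.OrthPoinc Real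
open Crest.Agent.T157.Oc Crest.Agent.T157.E Crest.Agent.T157.Od Crest.Agent.T157.Oo
open Crest.Agent.T157.Mj

variable {n k : ℕ}

def mx (u : ℝ) : ℝ := min (u ^ 2) 1
/-- entries of `Π D Π` -/
def Dq (x a b : Vn n) : ℝ := ∑ i, (1 - tanh (x i) ^ 2) * (a i * b i)
/-- `B' = b b' - f2 f2'`, `b = f2 - β f1`, `β = f1 · D f2` -/
def Bp (x f1 f2 : Vn n) : Mn n :=
  vecMulVec (f2 - Dq x f1 f2 • f1) (f2 - Dq x f1 f2 • f1) - vecMulVec f2 f2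

/-- hypotheses on `x` -/
structure Hx (o : Oo.Orb n k) (x f1 f2 : Vn n) (χ X κ η C : ℝ) : Prop where
  ok : o.Ok
  fr : ∃ r0 e1 e2, Fr o x χ r0 e1 e2
  dim : k + 2 = n
  hq : Qm o = vecMulVec f1 f1 + vecMulVec f2 f2
  n1 : f1 ⬝ᵥ f1 = 1
  n2 : f2 ⬝ᵥ f2 = 1
  o12 : f1 ⬝ᵥ f2 = 0
  hx : ∀ i, x i = X * f1 i
  chi : n * χ = n - o.p ⬝ᵥ o.p
  X0 : 0 < X
  k0 : 0 < κ
  ke : κ ≤ η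
  C1 : 1 ≤ C
  Xn : X ^ 2 ≤ κ * n
  big : 1 ≤ η * κ * X
  m6 : ∑ i, f1 i ^ 2 * mx (x i) ^ 2 ≤ κ ^ 2
  m2 : ∑ i, f2 i ^ 2 * tanh (x i) ^ 2 ≤ η
  f2 : ∀ i, κ * |f2 i| ≤ C * |f1 i|
  xp : ∀ y, |y - f1 ⬝ᵥ o.p| ≤ η * X →
    |∑ i, f1 i * tanh ((X + (y / (χ + ((f1 ⬝ᵥ o.p) ^ 2 - y ^ 2) / n) - f1 ⬝ᵥ o.p / χ)) * f1 i) - y| ≤
      η * κ ^ 2 * |y - f1 ⬝ᵥ o.p|

/-- hypotheses on `W`; `G = (A + B')⁻¹` -/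
structure Hw (o : Oo.Orb n k) (x f1 f2 : Vn n) (G : Mn n) (χ κ η C g T0 τ : ℝ) : Prop where
  symm : Gᵀ = G
  inv : (A0 o + Bp x f1 f2) * G = 1
  g0 : 0 < g
  co : ∀ y, g * (y ⬝ᵥ y) ≤ y ⬝ᵥ (A0 o + Bp x f1 f2) *ᵥ y
  G2 : f2 ⬝ᵥ G *ᵥ f2 ≤ C
  kg : κ ^ 2 ≤ C * g
  pG : o.p ⬝ᵥ G *ᵥ o.p ≤ C * T0
  T1 : 1 ≤ (η * g) ^ 2 * T0
  tr : (n * χ - G.trace) ^ 2 ≤ τ ^ 2 * T0

/-- `Δ = (c - (k-1)/R²) ζ - Π (A + B') ξ̂` -/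
def De (o : Oo.Orb n k) (x f1 f2 : Vn n) (s : Cube n) (ξ : Vn n) : Vn n :=
  (cc o s ξ - (k - 1) / R2 o s) • (Qm o *ᵥ sv s) - Qm o *ᵥ ((A0 o + Bp x f1 f2) *ᵥ ξ)

/-- the good event, `ξ = ξ̂` -/
structure Gd (o : Oo.Orb n k) (x f1 f2 : Vn n) (G : Mn n) (X κ η T0 : ℝ) (s : Cube n) (ξ : Vn n) :
    Prop where
  z1 : |f1 ⬝ᵥ ξ| ≤ η * X
  z2 : |f2 ⬝ᵥ ξ| ≤ η * κ * X
  d1 : |f1 ⬝ᵥ De o x f1 f2 s ξ| ≤ η * κ * X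
  d2 : |f2 ⬝ᵥ De o x f1 f2 s ξ| ≤ η * κ * X
  tt : T0 ≤ (ξ + o.p) ⬝ᵥ G *ᵥ (ξ + o.p + o.p)

/-- **the core of (M1)**: `E ξ̂ ξ̂' ≤ (1 + ε + K C τ² / ε) (A + B')⁻¹` -/
def M1Core : Prop := ∃ K : ℝ, ∀ (n k : ℕ) (o : Oo.Orb n k) (μ : Measure (Mat k))
  [IsProbabilityMeasure μ] (x f1 f2 : Vn n) (G : Mn n) (χ X κ η C g T0 τ ε δ : ℝ)
  (Bd : Cube n → Vn n → ℝ), SOInv μ → Hx o x f1 f2 χ X κ η C → Hw o x f1 f2 G χ κ η C g T0 τ →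
  0 < ε → ε ≤ 1 → K * C ^ 4 * η ≤ ε ^ 2 → K * C ^ 2 * n ^ 3 * δ ≤ ε ^ 2 → CF Bd → (∀ s ξ, 0 ≤ Bd s ξ) →
  (∀ s ω, Sph o ω → ¬ Gd o x f1 f2 G X κ η T0 s (xp o s ω) → 1 ≤ Bd s (xp o s ω)) →
  pe o μ (fun s ω => Bd s (xp o s ω)) ≤ δ →
  ∀ v, pe o μ (fun s ω => (v ⬝ᵥ xp o s ω) ^ 2) ≤ (1 + ε + K * C * τ ^ 2 / ε) * (v ⬝ᵥ G *ᵥ v)

end Crest.Agent.T157.O4c
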