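import Crest.Agent.T157.O4xA_12
import Crest.Agent.T157.O4cDef_4
import Crest.Agent.T157.KpDef_12

/-!
# Row 157, A2 section 4 (helper12): `O4c.Hx` from the moments of `x`
-/

set_option autoImplicit false

noncomputable section

namespace Crest.Agent.T157.O4c.X12

open Matrix Real
open Crest.Agent.T157.E Crest.Agent.T157.Tap Crest.Agent.T157.Od Crest.Agent.T157.Oo
open Crest.Agent.T157.Mj Crest.Agent.T157.Kb Crest.Agent.T157.Kb.Xd75

variable {n k : ℕ}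

/-! ### frames -/

theorem Qm_eq {o : Oo.Orb n k} (h : o.Ok) (hk : k + 2 = n) {a b : Vn n} (ha : o.Eᵀ *ᵥ a = 0)
    (hb : o.Eᵀ *ᵥ b = 0) (aa : a ⬝ᵥ a = 1) (bb : b ⬝ᵥ b = 1) (ab : a ⬝ᵥ b = 0) :
    Qm o = vecMulVec a a + vecMulVec b b := by
  have Qv : ∀ {v : Vn n}, o.Eᵀ *ᵥ v = 0 → Qm o *ᵥ v = v ∧ v ᵥ* Qm o = v := fun {v} hv => by
    have : Qm o *ᵥ v = v := by rw [Qm_vec, Pm_vec, hv, mulVec_zero, sub_zero]
    exact ⟨this, by rw [← mulVec_transpose, Qm_symm, this]⟩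
  have QQ : Qm o * Qm o = Qm o := by
    have : o.E * o.Eᵀ * (o.E * o.Eᵀ) = o.E * o.Eᵀ := by
      rw [Matrix.mul_assoc, ← Matrix.mul_assoc o.Eᵀ, h.iso, Matrix.one_mul]
    simp [Qm, mul_sub, sub_mul, this]
  have ba : b ⬝ᵥ a = 0 := by rw [dotProduct_comm, ab]
  rw [← sub_eq_zero, ← trace_conjTranspose_mul_self_eq_zero_iff,
    conjTranspose_eq_transpose_of_trivial, transpose_sub, transpose_add, Qm_symm,
    transpose_vecMulVec, transpose_vecMulVec]
  have vv : ∀ u v w : Vn n, vecMulVec u v *ᵥ w = (v ⬝ᵥ w) • u := fun u v w => by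
    ext i; simp [mulVec, dotProduct, vecMulVec_apply, Finset.mul_sum, mul_comm, mul_left_comm]
  simp only [mul_sub, sub_mul, add_mul, QQ, mul_vecMulVec, vecMulVec_mul, (Qv ha).1,
    (Qv ha).2, (Qv hb).1, (Qv hb).2, aa, bb, ab, ba, trace_sub, trace_add, mul_add,
    vv, trace_vecMulVec, one_smul, zero_smul, add_zero, zero_add, sub_self,
    zero_dotProduct]
  rw [Qm, trace_sub, trace_mul_comm, h.iso, trace_one, trace_one, Fintype.card_fin,
    Fintype.card_fin]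
  have : (n : ℝ) = k + 2 := by exact_mod_cast hk.symm
  linarith

theorem gs {a b : Vn n} {β : ℝ} (ha : 0 < a ⬝ᵥ a) (hβ : β * (a ⬝ᵥ a) = a ⬝ᵥ b)
    (hd : 0 < b ⬝ᵥ b - β * (a ⬝ᵥ b)) : ∃ r > (0 : ℝ), ∃ c > (0 : ℝ), r ^ 2 = a ⬝ᵥ a ∧
      c ^ 2 * (b ⬝ᵥ b - β * (a ⬝ᵥ b)) = 1 ∧ (r⁻¹ • a) ⬝ᵥ (r⁻¹ • a) = 1 ∧
      (c • (b - β • a)) ⬝ᵥ (c • (b - β • a)) = 1 ∧ (r⁻¹ • a) ⬝ᵥ (c • (b - β • a)) = 0 := by
  have r0 := sqrt_pos.2 ha
  have c0 := sqrt_pos.2 (inv_pos.2 hd)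
  have r2 := sq_sqrt ha.le
  have c2 : √(b ⬝ᵥ b - β * (a ⬝ᵥ b))⁻¹ ^ 2 * (b ⬝ᵥ b - β * (a ⬝ᵥ b)) = 1 := by
    rw [sq_sqrt (inv_pos.2 hd).le, inv_mul_cancel₀ hd.ne']
  refine ⟨_, r0, _, c0, r2, c2, ?_, ?_, ?_⟩
  · rw [smul_dotProduct, dotProduct_smul, smul_eq_mul, smul_eq_mul]
    generalize √(a ⬝ᵥ a) = r at *
    rw [← r2]; field_simp
  · simp only [smul_dotProduct, dotProduct_smul, sub_dotProduct, dotProduct_sub, smul_eq_mul,
      dotProduct_comm b a]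
    linear_combination c2 + √(b ⬝ᵥ b - β * (a ⬝ᵥ b))⁻¹ ^ 2 * β * hβ
  · simp only [smul_dotProduct, dotProduct_smul, dotProduct_sub, smul_eq_mul]
    rw [← hβ]; ring

/-! ### the moments -/

/-- the gauge invariant moments of `x` -/
structure Mo (e : ℝ) (x : V n) : Prop where
  q0 : 0 < aS x
  r4 : |R4 x - aS x ^ 2| ≤ e * aS x ^ 2
  p4 : |avg (fun i => th x i ^ 4) - 3 * aS x ^ 2 + 8 * aS x ^ 3| ≤ e * aS x ^ 3
  p6 : |avg (fun i => th x i ^ 6) - 15 * aS x ^ 3| ≤ e * aS x ^ 3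
  e8 : avg (fun i => min (x i ^ 8) (x i ^ 2)) ≤ e * aS x ^ 3

theorem Mo.of {K e t : ℝ} {x : V n} (ht : 0 < t) (h : Co K e t x) (h' : XM e x) : Mo e x :=
  ⟨(aS_nonneg _).lt_of_ne' fun h0 => by have := h.q1; rw [h0] at this; linarith,
    h.r4, h'.p4, h'.p6, h'.e8⟩

theorem Mo.mono {e e' : ℝ} {x : V n} (h : Mo e x) (he : e ≤ e') : Mo e' x :=
  have q := h.q0
  ⟨q, h.r4.trans (by gcongr), h.p4.trans (by gcongr), h.p6.trans (by gcongr),
    h.e8.trans (by gcongr)⟩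

theorem Mo.gauge {e : ℝ} {x : V n} (s : Cube n) (h : Mo e (sv s * x)) : Mo e x := by
  have key : ∀ F : ℝ → ℝ, (∀ y, F (-y) = F y) →
      avg (fun i => F ((sv s * x) i)) = avg fun i => F (x i) := fun F hF => by
    congr 1; funext i
    rw [Pi.mul_apply, sv]
    rcases mul_self_eq_one_iff.1 (spin_mul_self (s i)) with h | h <;> simp [h, hF]
  have a := key (fun y => tanh y ^ 2) fun y => by rw [tanh_neg]; ring
  have b := key (fun y => tanh y * (y - tanh y)) fun y => by rw [tanh_neg]; ring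
  have c := key (fun y => tanh y ^ 4) fun y => by rw [tanh_neg]; ring
  have d := key (fun y => tanh y ^ 6) fun y => by rw [tanh_neg]; ring
  have f := key (fun y => min (y ^ 8) (y ^ 2)) fun y => by ring_nf
  obtain ⟨h0, h1, h2, h3, h4⟩ := h
  simp only [aS, R4, th] at *
  rw [a] at h0 h1 h2 h3 h4
  rw [b] at h1
  rw [c] at h2
  rw [d] at h3
  rw [f] at h4
  exact ⟨h0, h1, h2, h3, h4⟩

/-- `avg (x - p)²` -/
def S2 (x : V n) : ℝ := avg fun i => (x i - tanh (x i)) ^ 2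
/-- `avg x²` -/
def v2 (x : V n) : ℝ := avg fun i => x i ^ 2

lemma v2_eq (x : V n) : v2 x = aS x + 2 * R4 x + S2 x := by
  rw [v2, aS, R4, S2, ← avg_mul, ← avg_add, ← avg_add]
  congr 1; funext i; rw [th]; ring

lemma xx_eq (hn : 0 < n) (x : V n) : x ⬝ᵥ x = n * v2 x := by
  rw [dot_eq hn, v2]; simp only [sq]
lemma pp_eq (hn : 0 < n) (x : V n) : th x ⬝ᵥ th x = n * aS x := by
  rw [dot_eq hn, aS]; simp only [sq]
lemma xp_eq (hn : 0 < n) (x : V n) : x ⬝ᵥ th x = n * (aS x + R4 x) := by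
  rw [dot_eq hn, aS, R4, ← avg_add]
  congr 2; funext i; ring

namespace Mo
variable {e : ℝ} {x : V n} (h : Mo e x)
include h

lemma e0 : 0 ≤ e := nonneg_of_mul_nonneg_left ((abs_nonneg _).trans h.r4) (pow_pos h.q0 2)

lemma s2 : |S2 x - 5 / 3 * aS x ^ 3| ≤ 3 * (e * aS x ^ 3) := by
  have a := avg_near fun i => r_near (x i)
  rw [avg_mul, avg_mul] at a
  have b := abs_le.1 h.p6
  have c := h.e8
  have d := mul_nonneg h.e0 (pow_pos h.q0 3).le
  simp only [th, Mx8] at a b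
  rw [S2, abs_le] at *
  constructor <;> linarith [a.1, a.2, b.1, b.2]

/-- sizes of `v = avg x²` and of the Gram determinant -/
lemma sizes (he : e ≤ 1 / 100) (hq : aS x ≤ 1 / 100) : aS x ≤ v2 x ∧ v2 x ≤ 11 / 10 * aS x ∧
    |S2 x| ≤ 2 * aS x ^ 3 ∧ 0 ≤ R4 x + S2 x ∧ R4 x + S2 x ≤ 2 * aS x ^ 2 ∧
    6 / 10 * aS x ^ 4 ≤ v2 x * aS x - (aS x + R4 x) ^ 2 ∧
    v2 x * aS x - (aS x + R4 x) ^ 2 ≤ 3 / 4 * aS x ^ 4 := by
  have a := abs_le.1 h.s2
  have b := abs_le.1 h.r4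
  have q0 := h.q0
  rw [v2_eq]
  generalize aS x = q at *
  have q2 := pow_pos q0 2
  have q3 := pow_pos q0 3
  have c2 := mul_le_mul_of_nonneg_right he q2.le
  have c3 := mul_le_mul_of_nonneg_right he q3.le
  have d2 := mul_le_mul_of_nonneg_right hq q0.le
  have d3 := mul_le_mul_of_nonneg_right hq q2.le
  have r1 : R4 x ^ 2 ≤ (101 / 100 * q ^ 2) ^ 2 := sq_le_sq' (by linarith) (by linarith)
  have r2 : (99 / 100 * q ^ 2) ^ 2 ≤ R4 x ^ 2 := pow_le_pow_left₀ (by positivity) (by linarith) 2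
  have s1 := mul_le_mul_of_nonneg_left (show S2 x ≤ 170 / 100 * q ^ 3 by linarith) q0.le
  have s2 := mul_le_mul_of_nonneg_left (show 163 / 100 * q ^ 3 ≤ S2 x by linarith) q0.le
  have q4 := pow_pos q0 4
  refine ⟨by linarith, by linarith, abs_le.2 ⟨by linarith, by linarith⟩, by linarith,
    by linarith, by linarith, by linarith⟩

end Mo

/-- **the hypotheses on `x` of the core of (M1)** -/
theorem hx : ∃ C0 ≥ (1 : ℝ), ∀ (n k : ℕ) (o : Oo.Orb n k) (x : V n) (e η : ℝ), Kp.At o x →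
    Op2 o.W 9 → Mo e x → C0 * (e + aS x) ≤ η → C0 * η ≤ 1 → 1 ≤ η ^ 2 * (n * aS x ^ 3) →
    ∃ X > (0 : ℝ), ∃ c > (0 : ℝ), ∃ β : ℝ, X ^ 2 = x ⬝ᵥ x ∧ β * (x ⬝ᵥ x) = x ⬝ᵥ th x ∧
      1 ≤ c ^ 2 * (n * aS x ^ 3) ∧ c ^ 2 * (n * aS x ^ 3) ≤ 2 ∧
      Hx o x (X⁻¹ • x) (c • (th x - β • x)) (Kp.chi x) X (C0 * aS x) η (6 * C0) := by
  obtain ⟨C, C1, hC⟩ := scal
  refine ⟨C + 300, by linarith, fun n k o x e η a hW h h1 h2 h3 => ?_⟩
  have n4 : 4 ≤ n := by have := a.ok.two; have := a.dim; omega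
  have n0 : 0 < n := by omega
  have n0' : (0 : ℝ) < n := by exact_mod_cast n0
  have q0 := h.q0
  have e0 := h.e0
  have Ce := mul_nonneg (show 0 ≤ C by linarith) e0
  have Cq := mul_nonneg (show 0 ≤ C by linarith) q0.le
  have η0 : 0 < η := by linarith
  have Cη := mul_nonneg (show 0 ≤ C by linarith) η0.le
  obtain ⟨z1, z2, z3, z4, z5, z6, z7⟩ := h.sizes (by linarith) (by linarith)
  have hχ : Kp.chi x = 1 - aS x := by
    rw [Kp.chi, aS, ← avg_const n0 1, ← avg_sub]; rfl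
  have xx := xx_eq n0 x
  have pp := pp_eq n0 x
  have xp := xp_eq n0 x
  have v0 : 0 < v2 x := by linarith
  have q2 := pow_pos q0 2
  have q3 := pow_pos q0 3
  have q4 := pow_pos q0 4
  obtain ⟨β, hβ⟩ : ∃ β, β * v2 x = aS x + R4 x := ⟨_, div_mul_cancel₀ _ v0.ne'⟩
  have hβ' : β * (x ⬝ᵥ x) = x ⬝ᵥ th x := by rw [xx, xp, ← hβ]; ring
  obtain ⟨D, hD⟩ : ∃ D, D = aS x - β * (aS x + R4 x) := ⟨_, rfl⟩
  have D1 : D * v2 x = v2 x * aS x - (aS x + R4 x) ^ 2 := by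
    rw [hD]; linear_combination (-(aS x + R4 x)) * hβ
  have D2 : aS x ^ 3 / 2 ≤ D := le_of_mul_le_mul_right (by
    linarith [mul_le_mul_of_nonneg_left z2 q3.le]) v0
  have D3 : D ≤ aS x ^ 3 := le_of_mul_le_mul_right (by
    linarith [mul_le_mul_of_nonneg_left z1 q3.le]) v0
  have D4 : th x ⬝ᵥ th x - β * (x ⬝ᵥ th x) = n * D := by rw [pp, xp, hD]; ring
  obtain ⟨X, X0, c, c0, X2, c2, f11, f22, f12⟩ := gs (a := x) (b := th x) (by rw [xx]; positivity)
    hβ' (by rw [D4]; exact mul_pos n0' (by linarith))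
  rw [D4] at c2
  have cn : 0 ≤ c ^ 2 * n := by positivity
  have c3 : c ^ 2 * (n * aS x ^ 3) ≤ 2 := by linarith [mul_le_mul_of_nonneg_left D2 cn]
  have ep : o.Eᵀ *ᵥ th x = 0 := a.p ▸ a.ok.ep
  have g0 : 0 ≤ 1 - β := nonneg_of_mul_nonneg_left (b := v2 x) (by linarith [v2_eq x]) v0
  have g1 : 1 - β ≤ 2 * aS x := le_of_mul_le_mul_right (by
    linarith [v2_eq x, mul_le_mul_of_nonneg_left z1 q0.le]) v0
  have p4 := (abs_le.1 h.p4).2
  have p6 := (abs_le.1 h.p6).2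
  have e8 : avg (fun i => Mx8 (x i)) ≤ e * aS x ^ 3 := h.e8
  have eq3 := mul_le_mul_of_nonneg_right (show e ≤ 1 by linarith) q3.le
  simp only [th] at p4 p6
  rw [xx] at X2
  refine ⟨X, X0, c, c0, β, by rw [xx, X2], hβ', by linarith [mul_le_mul_of_nonneg_left D3 cn], c3,
    a.ok, ?_, a.dim, Qm_eq a.ok a.dim (by rw [mulVec_smul, a.ex, smul_zero])
      (by rw [mulVec_smul, mulVec_sub, mulVec_smul, a.ex, ep]; simp) f11 f22 f12, f11, f22, f12,
    fun i => by simp [X0.ne'], by rw [a.p, pp, hχ]; ring, X0, by positivity, by linarith,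
    by linarith, ?_, ?_, ?_, ?_, fun i => ?_, fun y hy => ?_⟩
  · obtain ⟨γ, hγ⟩ : ∃ γ, γ * aS x = aS x + R4 x := ⟨_, div_mul_cancel₀ _ q0.ne'⟩
    obtain ⟨r, r0, d, -, r2, -, g11, g22, g12⟩ := gs (a := th x) (b := x) (β := γ)
      (by rw [pp]; positivity) (by rw [pp, dotProduct_comm, xp, ← hγ]; ring) (by
        rw [xx, dotProduct_comm, xp, show n * v2 x - γ * (n * (aS x + R4 x)) =
          n * (v2 x - γ * (aS x + R4 x)) by ring]
        refine mul_pos n0' ((mul_pos_iff_of_pos_right q0).1 ?_)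
        have : (v2 x - γ * (aS x + R4 x)) * aS x = v2 x * aS x - (aS x + R4 x) ^ 2 := by
          linear_combination (-(aS x + R4 x)) * hγ
        linarith)
    refine ⟨r, _, _, fun i => by rw [a.p]; rfl, by rw [a.h, a.p], by rw [a.z, one_div],
      by linarith, by linarith, hW, Qm_eq a.ok a.dim (by rw [mulVec_smul, ep, smul_zero])
        (by rw [mulVec_smul, mulVec_sub, mulVec_smul, a.ex, ep]; simp) g11 g22 g12, g11, g22, g12,
      by rw [a.p, smul_smul, mul_inv_cancel₀ r0.ne', one_smul], n4, ?_⟩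
    rw [r2, pp]
    linarith [mul_le_mul_of_nonneg_left (show aS x ≤ 1 / 4 by linarith) n0'.le]
  · rw [X2, mul_comm]
    exact mul_le_mul_of_nonneg_right (by linarith) n0'.le
  · refine abs_le_of_sq_le_sq' ?_ (by positivity) |>.2
    rw [mul_pow, mul_pow, X2, one_pow]
    refine h3.trans ?_
    rw [mul_assoc, show n * aS x ^ 3 = aS x ^ 2 * (n * aS x) by ring]
    gcongr
    linarith
  · have b := avg_mono fun i => m6_le (x i)
    rw [avg_add, avg_mul] at b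
    have : ∑ i, (X⁻¹ • x) i ^ 2 * mx (x i) ^ 2 =
        (avg fun i => x i ^ 2 * min (x i ^ 2) 1 ^ 2) / v2 x := by
      rw [eq_div_iff v0.ne', ← mul_right_inj' n0'.ne', ← sum_eq n0, mul_left_comm, ← X2,
        Finset.sum_mul]
      refine Finset.sum_congr rfl fun i _ => ?_
      simp only [Pi.smul_apply, smul_eq_mul, mx]; field_simp
    rw [this, div_le_iff₀ v0]
    have d : 300 ^ 2 * aS x ^ 2 * aS x ≤ ((C + 300) * aS x) ^ 2 * v2 x := by
      rw [mul_pow]; gcongr; linarith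
    linarith
  · have b := avg_mono fun i => m2_le (x i) (1 - β)
    rw [avg_add, avg_mul, avg_mul] at b
    have : ∑ i, (c • (th x - β • x)) i ^ 2 * tanh (x i) ^ 2 = c ^ 2 * n *
        avg fun i => (tanh (x i) - (1 - (1 - β)) * x i) ^ 2 * tanh (x i) ^ 2 := by
      rw [mul_assoc, ← sum_eq n0, Finset.mul_sum]
      refine Finset.sum_congr rfl fun i _ => ?_
      simp only [Pi.smul_apply, Pi.sub_apply, smul_eq_mul, th]; ring
    have g2 : (1 - β) ^ 2 ≤ (2 * aS x) ^ 2 := pow_le_pow_left₀ g0 g1 2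
    have d1 := mul_le_mul g2 (show avg (fun i => tanh (x i) ^ 4) ≤ 3 * aS x ^ 2 by linarith)
      (avg_nn fun i => by positivity) (by positivity)
    have d2 := mul_le_mul (show 4 * (1 - β) ^ 2 + 2 ≤ 3 by
      linarith [mul_le_mul_of_nonneg_left (show aS x ≤ 1 / 100 by linarith) q0.le]) e8
      (avg_nn fun i => Mx8_nn _) (by norm_num)
    have d3 : 0 ≤ e * aS x ^ 3 := by positivity
    have d4 := mul_le_mul_of_nonneg_left (show (avg fun i => (tanh (x i) - (1 - (1 - β)) * x i) ^ 2 *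
      tanh (x i) ^ 2) ≤ 48 * (e + aS x) * aS x ^ 3 by linarith) cn
    rw [this]
    linarith [mul_le_mul_of_nonneg_left c3 (show 0 ≤ 48 * (e + aS x) by positivity)]
  · have b : |tanh (x i) - β * x i| ≤ 2 * |x i| := by
      refine (abs_sub _ _).trans ?_
      rw [abs_mul, abs_of_nonneg (show 0 ≤ β by linarith)]
      linarith [Tay.t1 (x i), mul_le_mul_of_nonneg_right (show β ≤ 1 by linarith) (abs_nonneg (x i))]
    have d : aS x * c * X ≤ 3 := by
      refine abs_le_of_sq_le_sq' ?_ (by positivity) |>.2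
      rw [mul_pow, mul_pow, X2]
      linarith [mul_le_mul_of_nonneg_left z2 (mul_nonneg cn q2.le)]
    simp only [Pi.smul_apply, Pi.sub_apply, smul_eq_mul, th, abs_mul, abs_of_pos c0,
      abs_of_pos (inv_pos.2 X0)]
    have d' : aS x * c ≤ 3 * X⁻¹ := by rwa [← div_eq_mul_inv, le_div_iff₀ X0]
    calc _ = (C + 300) * (aS x * c * |tanh (x i) - β * x i|) := by ring
      _ ≤ (C + 300) * (3 * X⁻¹ * (2 * |x i|)) := by gcongr
      _ = _ := by ring
  · have p1 : (X⁻¹ • x) ⬝ᵥ o.p = β * X := by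
      rw [a.p, smul_dotProduct, ← hβ', xx, ← X2, smul_eq_mul]; field_simp
    rw [p1] at hy ⊢
    obtain ⟨δ, rfl⟩ : ∃ δ, y = (β + δ) * X := ⟨y / X - β, by field_simp; ring⟩
    rw [show (β + δ) * X - β * X = δ * X by ring, abs_mul, abs_of_pos X0] at hy ⊢
    replace hy := le_of_mul_le_mul_right hy X0
    have h' := h.mono (show e ≤ η by linarith)
    obtain ⟨L, hL⟩ : ∃ L, L = (β + δ) / (1 - aS x + (β ^ 2 - (β + δ) ^ 2) * v2 x) -
      β / (1 - aS x) := ⟨_, rfl⟩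
    obtain ⟨l1, l2⟩ := hC η _ δ _ _ _ _ _ β L q0 (by linarith) (by linarith) (by linarith) hy h'.r4
      z3 h'.p4 h'.p6 (v2_eq x) hβ hL
    have b := avg_near fun i => dil (x i) (L := L) (by linarith)
    simp only [avg_add, avg_sub, avg_mul] at b
    have m1 : avg (fun i => x i * tanh (x i)) = aS x + R4 x := by
      rw [← mul_right_inj' n0'.ne', ← xp, dot_eq n0]; rfl
    have : ∑ i, (X⁻¹ • x) i * tanh ((X + ((β + δ) * X / (Kp.chi x + ((β * X) ^ 2 -
        ((β + δ) * X) ^ 2) / n) - β * X / Kp.chi x)) * (X⁻¹ • x) i) - (β + δ) * X =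
        n / X * (avg (fun i => x i * tanh ((1 + L) * x i)) - (β + δ) * v2 x) := by
      have u1 : ((β * X) ^ 2 - ((β + δ) * X) ^ 2) / n = (β ^ 2 - (β + δ) ^ 2) * v2 x := by
        rw [mul_pow, mul_pow, X2]; field_simp
      have u2 : n / X * ((β + δ) * v2 x) = (β + δ) * X := by
        rw [div_mul_eq_mul_div, div_eq_iff X0.ne']; linear_combination (-(β + δ)) * X2
      rw [u1, hχ, mul_sub, u2, div_mul_eq_mul_div, ← sum_eq n0, Finset.sum_div]
      congr 1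
      refine Finset.sum_congr rfl fun i _ => ?_
      simp only [Pi.smul_apply, smul_eq_mul]
      rw [div_eq_inv_mul _ X, mul_assoc, hL]
      congr 3
      field_simp
    rw [this, abs_mul, abs_of_pos (div_pos n0' X0), div_mul_eq_mul_div, div_le_iff₀ X0]
    have δ0 := abs_nonneg δ
    have w1 : L ^ 2 ≤ 4 * η * |δ| := by
      rw [← sq_abs]
      linarith [pow_le_pow_left₀ (abs_nonneg _) l1 2, mul_le_mul_of_nonneg_right hy δ0]
    have w2 := mul_le_mul w1 (show avg (fun i => tanh (x i) ^ 6) ≤ 16 * aS x ^ 3 by linarith)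
      (avg_nn fun i => by positivity) (by positivity)
    have w3 := mul_le_mul l1 (show avg (fun i => Mx8 (x i)) ≤ η * aS x ^ 3 from h'.e8)
      (avg_nn fun i => Mx8_nn _) (by positivity)
    have w4 : |avg (fun i => x i * tanh ((1 + L) * x i)) - (β + δ) * v2 x| ≤
        (C + 252) * (η * aS x ^ 3 * |δ|) := by
      rw [m1] at b
      simp only [th] at l2
      rw [abs_le] at b l2 ⊢
      unfold v2 at *
      constructor <;> linarith [b.1, b.2, l2.1, l2.2]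
    calc _ ≤ n * ((C + 252) * (η * aS x ^ 3 * |δ|)) := by gcongr
      _ = (C + 252) * (η * aS x ^ 2 * |δ|) * (n * aS x) := by ring
      _ ≤ (C + 300) ^ 2 * (η * aS x ^ 2 * |δ|) * (n * v2 x) :=
        mul_le_mul (mul_le_mul_of_nonneg_right (by linarith [sq_nonneg C]) (by positivity))
          (mul_le_mul_of_nonneg_left z1 n0'.le) (by positivity) (by positivity)
      _ = _ := by rw [← X2]; ring

end Crest.Agent.T157.O4c.X12

end
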