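import Crest.Agent.T157.OgDef_9
import Crest.Agent.T157.O4Hw_31
import Crest.Agent.T157.O4x_12
import Crest.Agent.T157.MjE_84
import Crest.Agent.T157.KbB_24

set_option autoImplicit false
set_option linter.unusedSectionVars false

/-!
Row 157, A2 (helper19): the seam between section 2 (`Kb.base`) and the orbit step (`Og.InC`, `Og.InS`).
`Nb`: what holds off the base event (no gauge).  `Cz`: the context on one orbit.  Leaves `…L`.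
`e` is the error of the statement, `h ∈ [e², e]` the precision of `G1` (crude `h = e = e1`, sharp
`h = e²`).  Scales: `q = aS x`, `κ = T q`, `η = h²`, `C = T⁴`, `g = (1 - 3 T h) q²`,
`T0 = n / (100 q)`, `τ² = T⁴ H / M`, `δ = n⁻¹⁰`, `Λ = 5 T² n q`.
-/

noncomputable section

namespace Crest.Agent.T157.Oi

open MeasureTheory Matrix Crest.Agent.Lib.OrthPoinc Filter Set
open Crest.Agent.T157.E Crest.Agent.T157.Cond Crest.Agent.T157.Tap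
open Crest.Agent.T157.Oc Crest.Agent.T157.Od Crest.Agent.T157.Oo Crest.Agent.T157.O0
open Crest.Agent.T157.Mj (pe xp Sph CF Fr)
open Crest.Agent.T157.Kb (f2 ee HA TR AT lam)
open Crest.Agent.T157.Kp (Sl P5)
open Crest.Agent.T157.Qe (bv)

variable {n k : ℕ}

/-- `|Π s|²` -/
def zq (x : Vn n) (s : Cube n) : ℝ := (unitv x ⬝ᵥ sv s) ^ 2 + (f2 x ⬝ᵥ sv s) ^ 2

/-- facts on `x` (even in every coordinate) -/
structure Nx (p : Pm) (t h : ℝ) (x : Vn p.n) : Prop where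
  q1 : t ≤ p.T * aS x ^ 2
  q2 : aS x ^ 2 ≤ (p.L / 50) ^ 2 * t
  mo : O4c.X12.Mo (h ^ 30) x
  cnt : ((Sl (lam p.T t) x).card : ℝ) ≤ h ^ 30 * aS x ^ 3 * p.n

/-- facts on `(x, W)` that are constant along the orbit: (HA), (TR), the column -/
structure Nw (p : Pm) (h H : ℝ) (x : Vn p.n) (W : Mn p.n) : Prop where
  ha : HA (h ^ 3) h x W
  tr : TR (p.T * H) x W
  c1 : 2 - ee x ⬝ᵥ W *ᵥ ee x ≤ p.T * aS x
  c2 : bv (ee x) (W *ᵥ ee x) ⬝ᵥ bv (ee x) (W *ᵥ ee x) ≤ 2 * p.T * aS x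

/-- positivity of the Hessian -/
def Np (p : Pm) (t h : ℝ) (x : Vn p.n) (W : Mn p.n) : Prop :=
  Pos ((1 - 2 * h ^ 3) * aS x ^ 2) (AT (Sl (lam p.T t) x) x W) ∧ P5 (Sl (lam p.T t) x) x W

/-- everything that holds off the base event -/
structure Nb (p : Pm) (t h H : ℝ) (x : Vn p.n) (W : Mn p.n) (s : Cube p.n) : Prop where
  nx : Nx p t h x
  nw : Nw p h H x W
  np : Np p t h x W
  zs : zq x s ≤ 2 * p.T ^ 2 * p.n * aS x

/-- **gauge back** -/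
def BackL : Prop := ∀ᶠ p in FF, ∀ t ∈ Icc p.lo p.t0, ∀ h H : ℝ, 0 < h → h ≤ p.e1 →
  ∀ (x : Vn p.n) (W : Mn p.n) (s : Cube p.n),
    Kb.G1 p.L p.T h H t (Kb.gz s (x, W)).1 (Kb.gz s (x, W)).2 → Nb p t h H x W s

/-- the context on one orbit -/
structure Cz (p : Pm) (t e h H : ℝ) (o : Orb p.n k) (μ : Measure (Mat k)) (x : Vn p.n) : Prop where
  lo : p.lo ≤ t
  hi : t ≤ p.t0
  er : p.Er e t
  h0 : e ^ 2 ≤ h
  h1 : h ≤ e
  H0 : (p.n : ℝ) ^ p.d ≤ H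
  H1 : H ≤ p.L * p.M t
  inv : SOInv μ
  pt : Kp.At o x
  W : o.W ∈ p.Wt e t
  nx : Nx p t h x
  nw : Nw p h H x o.W
  zs : o.an μ (fun s _ => if 2 * p.T ^ 2 * p.n * aS x < zq x s then 1 else 0) ≤
    Real.exp (-(5 * H))

/-- a statement on all contexts -/
def All (Q : ∀ (p : Pm) (_t _e _h _H : ℝ) (k : ℕ) (_o : Orb p.n k) (_μ : Measure (Mat k))
    (_x : Vn p.n), Prop) : Prop :=
  ∀ᶠ p in FF, ∀ (t e h H : ℝ) (k : ℕ) (o : Orb p.n k) (μ : Measure (Mat k))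
    [IsProbabilityMeasure μ] (x : Vn p.n), Cz p t e h H o μ x → Q p t e h H k o μ x

/-- the gap -/
def gq (T h : ℝ) (x : Vn n) : ℝ := (1 - 3 * T * h) * aS x ^ 2
/-- `G = (A + B')⁻¹` -/
def Gq (o : Orb n k) (x : Vn n) : Mn n := (O4c.W31.MM o x (unitv x) (f2 x))⁻¹
/-- `T0` -/
def T0 (x : Vn n) : ℝ := 1 / 100 * n / aS x

/-- the data on `x` -/
structure XD (p : Pm) (h : ℝ) (o : Orb p.n k) (x : Vn p.n) : Prop where
  hx : O4c.Hx o x (unitv x) (f2 x) (1 - aS x) (len x) (p.T * aS x) (h ^ 2) (p.T ^ 4)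
  dq : O4c.Dq x (unitv x) (f2 x) ^ 2 ≤ p.T * aS x ^ 2
  fr : ∃ e2, Fr o x (1 - aS x) (len (th x)) (ee x) e2 ∧ (unitv x ⬝ᵥ e2) ^ 2 ≤ p.T * aS x ^ 2
  e6 : ∑ i, ee x i ^ 6 ≤ 16 / (p.n : ℝ) ^ 2
  v4 : ∑ i, (1 - o.p i ^ 2 - (1 - aS x)) ^ 2 ≤ 4 * p.n * aS x ^ 2

/-- the data on `W` -/
structure WD (p : Pm) (t h H : ℝ) (o : Orb p.n k) (x : Vn p.n) : Prop where
  ha : O4c.W31.Ha o x (unitv x) (f2 x) h (2 + h ^ 3 * aS x ^ 2) (gq p.T h x)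
  hw : O4c.Hw o x (unitv x) (f2 x) (Gq o x) (1 - aS x) (p.T * aS x) (h ^ 2) (p.T ^ 4) (gq p.T h x)
    (T0 x) (√(p.T ^ 4 * H / p.M t))
  g2 : aS x ^ 2 / 2 ≤ gq p.T h x
  ae : Mj.A0 o *ᵥ ee x ⬝ᵥ Mj.A0 o *ᵥ ee x ≤ 3 * p.T * aS x

/-- the form bound `E ξ̂ ξ̂' ≤ a G` -/
def Fm (o : Orb n k) (μ : Measure (Mat k)) (x : Vn n) (a : ℝ) : Prop :=
  ∀ v, pe o μ (fun s ω => (v ⬝ᵥ xp o s ω) ^ 2) ≤ a * (v ⬝ᵥ Gq o x *ᵥ v)

/-! ### leaves -/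

/-- deterministic facts -/
def FxL : Prop := All fun p t _ _ _ _ o _ x => Og.Fx t o x ∧ Og.St t o
/-- `O6.Pos` from the events of section 2 -/
def PosL : Prop := All fun p t _ h _ _ o _ x => ∃ vt, Og.Vt o vt ∧ ∀ U ∈ SO _, ∀ l,
  l ≤ (1 - 2 * h ^ 3) * aS x ^ 2 → Np p t h x (o.Wu U) → O6.Pos (o.A U) (Og.Bz o x) vt l
def XdL : Prop := All fun p _ _ h _ _ o _ x => XD p h o x
def WdL : Prop := All fun p t _ h H _ o _ x => XD p h o x → WD p t h H o x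
/-- the tails -/
def BdL : Prop := All fun p t _ h H _ o μ x => XD p h o x → WD p t h H o x →
  ∃ Bd : Cube p.n → Vn p.n → ℝ, CF Bd ∧ (∀ s ξ, 0 ≤ Bd s ξ) ∧
    (∀ s ω, Sph o ω → ¬ O4c.Gd o x (unitv x) (f2 x) (Gq o x) (len x) (p.T * aS x) (h ^ 2) (T0 x) s
      (xp o s ω) → 1 ≤ Bd s (xp o s ω)) ∧
    pe o μ (fun s ω => Bd s (xp o s ω)) ≤ ((p.n : ℝ) ^ 10)⁻¹
/-- the form bound, crude and sharp -/
def FmL : Prop := All fun p t e h H _ o μ x => Fm o μ x (p.T ^ 11) ∧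
  (h ≤ e ^ 2 → H ≤ e ^ p.A * p.M t → Fm o μ x (1 + e / 50))
/-- (M1) from the form bound -/
def M1L : Prop := All fun p t _ h H _ o μ x => XD p h o x → WD p t h H o x →
  ∀ a, 0 ≤ a → Fm o μ x a → Og.M1 o μ (a / gq p.T h x)
/-- (M2), (M3) from the form bound -/
def M23L : Prop := All fun p t _ h H _ o μ x => XD p h o x → WD p t h H o x →
  Fm o μ x (p.T ^ 11) → Og.M2 o μ p.C ∧ (p.ts ≤ t → Og.M3 t o μ)
/-- (M4) -/
def M4L : Prop := All fun p t _ h H _ o μ x => XD p h o x → WD p t h H o x → p.tss ≤ t →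
  (o.P μ).real (o.G (Og.c1 p t))ᶜ ≤ Og.dl p →
  Op2 (O6.Er4 o (o.P μ) (Og.Bz o x)) (Og.e4 p ^ 2)

def FmGlue : Prop := O4c.M1Core → XdL → WdL → BdL → FmL
/-- the assembly -/
def InGlue : Prop := Kb.MeasG → BackL → FxL → PosL → XdL → WdL → FmL → M1L → M23L → M4L →
  Og.InC Kb.base ∧ Og.InS Kb.base

end Crest.Agent.T157.Oi

end
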