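import Crest.Agent.T157.O4n_53
import Crest.Agent.T157.OgIn_31
import Crest.Agent.T157.OgA_9
import Crest.Agent.T157.OiDef_19

set_option autoImplicit false
set_option linter.unusedSectionVars false

/-!
Row 157, A2 (helper53): (M4) in the words of `Pm`.
-/

noncomputable section

namespace Crest.Agent.T157.M4

open MeasureTheory Matrix Crest.Agent.Lib.OrthPoinc Set
open Crest.Agent.T157.Oc Crest.Agent.T157.E Crest.Agent.T157.Od Crest.Agent.T157.Oo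
open Crest.Agent.T157.O0 Crest.Agent.T157.Og Crest.Agent.T157.O0.Wb
open Crest.Agent.T157.Qe (zz)
open Crest.Agent.T157.Oa (Az)
open Crest.Agent.T157.Tap (aS)

/-- the two traces from the spectral event, mesh `m` -/
theorem tr12 {n : ℕ} {t e κ q m E : ℝ} {W : Mn n} (h : Cw.WW t e κ W) (e0 : 0 < e) (e1 : e ≤ 1)
    (t0 : 0 < t) (q0 : 0 < q) (q1 : q ≤ 1 / 2) (h8 : 8 * e * t ≤ q ^ 2) (m0 : 0 < m) (mq : 2 * m ≤ q)
    (hE : (n : ℝ) ^ κ * (2 * √n / q) ≤ E) : ∃ G : Mn n, Az (zz (1 - q)) W * G = 1 ∧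
      |n * (1 - q) - G.trace| ≤ E ∧
      |(1 - (1 - q) ^ 2) * (G * G).trace - n * (1 - q) ^ 2| ≤ 23 * m * n / q + 2 * E / m := by
  obtain ⟨a, h1, h2⟩ := ww_iff.1 h
  have h0 : 0 < e * t := by positivity
  have n0 := Nat.cast_nonneg (α := ℝ) n
  have E0 : 0 ≤ E := le_trans (by positivity) hE
  have hz : ∀ g, 0 < g → g ≤ 1 - q + m → q ^ 2 / 4 ≤ zz g - 2 := fun g g0 g1 =>
    le_trans (by nlinarith) (sq_le_zz g0 (by linarith))
  have er : ∀ g, 0 < g → g ≤ 1 - q + m → er1 n t e κ (zz g - 2) ≤ E := fun g g0 g1 => by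
    refine ((min_le_right _ _).trans (min_le_left _ _)).trans (le_trans
      (mul_le_mul_of_nonneg_left (Real.sqrt_le_iff.2 ⟨by positivity, ?_⟩) (by positivity)) hE)
    rw [div_pow, mul_pow, Real.sq_sqrt n0]
    refine (div_le_div_of_nonneg_left n0 (by positivity) (hz g g0 g1)).trans_eq (by field_simp; ring)
  have c1 : 2 * e * t ≤ zz (1 - q) - 2 := by linarith [hz (1 - q) (by linarith) (by linarith)]
  obtain ⟨r1, -, -, r4, -, r6⟩ := res h1 (h2.lt h0 c1)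
  have u0 := h2.tr2_le e0 e1 t0 (g := 1 - q) ⟨by linarith, by linarith⟩ (by rwa [sub_sub_cancel])
  obtain ⟨u1, u2⟩ := h2.tr2 h0 (g₁ := 1 - q - m) (g := 1 - q) (g₂ := 1 - q + m) (by linarith)
    (by linarith) (by linarith) (by linarith) (by linarith [hz (1 - q + m) (by linarith) le_rfl])
  refine ⟨_, r1, ?_, ?_⟩
  · rw [r4, abs_sub_comm]
    exact (h2.tr _ ⟨by linarith, by linarith⟩ c1).trans (er _ (by linarith) (by linarith))
  rw [r6]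
  set T := ∑ i, ((zz (1 - q) - a i) ^ 2)⁻¹
  have T0 : 0 ≤ T := Finset.sum_nonneg fun _ _ => by positivity
  have e2 := er (1 - q) (by linarith) (by linarith)
  have e3 := er (1 - q - m) (by linarith) (by linarith)
  have e4 := er (1 - q + m) (by linarith) le_rfl
  rw [sub_sub_cancel] at u0 u1
  rw [add_sub_cancel_left] at u2
  rw [div_mul_eq_mul_div, div_le_iff₀ (by nlinarith)] at u1
  rw [div_mul_eq_mul_div, le_div_iff₀ (by nlinarith)] at u2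
  set r := 2 * E / m with hr
  have r0 : 0 ≤ r := by positivity
  have f1 := (div_le_div_of_nonneg_right (add_le_add e2 e3) m0.le).trans_eq
    (show (E + E) / m = r by rw [hr]; ring)
  have f2 := (div_le_div_of_nonneg_right (add_le_add e2 e4) m0.le).trans_eq
    (show (E + E) / m = r by rw [hr]; ring)
  have g1 : (1 - q) * (1 - q - m) ≤ 1 := by nlinarith
  have g2 : (1 - q) * (1 - q + m) ≤ 1 := by nlinarith
  have f3 := (mul_le_mul_of_nonneg_left f1 (show 0 ≤ (1 - q) * (1 - q - m) by nlinarith)).trans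
    (mul_le_of_le_one_left r0 g1)
  have f4 := (mul_le_mul_of_nonneg_left f2 (show 0 ≤ (1 - q) * (1 - q + m) by nlinarith)).trans
    (mul_le_of_le_one_left r0 g2)
  have f5 : m * T + m * n ≤ 23 * m * n / q := by
    have h3 : (n : ℝ) ≤ n / q := le_div_self n0 q0 (by linarith)
    calc m * T + m * n ≤ m * (22 * n / q) + m * (n / q) := by gcongr
      _ = _ := by ring
  have f6 : 0 ≤ q * (m * T) := by positivity
  have f7 : 0 ≤ q * (m * n) := by positivity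
  rw [abs_le]
  constructor <;> linarith

/-- the numbers: `n = y ^ 20`, every constant is below `w`, `w ^ 50 ≤ y` -/
theorem num4 {w y : ℝ} (w1 : 10 ^ 40 ≤ w) (wy : w ^ 50 ≤ y) :
    2 * (y ^ 5)⁻¹ * w ≤ 1 ∧ w ^ 3 * y ^ 10 + 24 * (w ^ 3) ^ 2 ≤ w ^ 4 * y ^ 10 ∧
    1296 * (23 * (y ^ 5)⁻¹ * y ^ 20 * w + 2 * (w ^ 3 * y ^ 10) / (y ^ 5)⁻¹ + 48 * (w ^ 3) ^ 3) ≤
      w ^ 4 / y ^ 5 * y ^ 20 ∧
    10 ^ 31 * ((w ^ 5) ^ 2 * (w ^ 3) ^ 8 * (w ^ 4) ^ 6 * w ^ 4) / y ^ 10 + 3 * (w ^ 4 / y ^ 5) * w ^ 2 ≤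
      (y ^ 4)⁻¹ := by
  have w0 : 1 ≤ w := by linarith
  have pw : ∀ j ≤ 50, w ^ j ≤ y := fun j hj => (pow_le_pow_right₀ w0 hj).trans wy
  have y1 : 1 ≤ y := by simpa using pw 0 (by norm_num)
  have py : ∀ j ≠ 0, y ≤ y ^ j := fun j hj => le_self_pow₀ y1 hj
  have cw : ∀ (c : ℝ) (j i : ℕ), j + 1 = i → c ≤ 10 ^ 40 → c * w ^ j ≤ w ^ i := fun c j i e hc => by
    rw [← e, pow_succ']; exact mul_le_mul_of_nonneg_right (hc.trans w1) (by positivity)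
  refine ⟨?_, ?_, ?_, ?_⟩
  · rw [mul_right_comm, mul_inv_le_iff₀ (by positivity), one_mul]
    have := cw 2 1 2 rfl (by norm_num)
    linarith [pw 2 (by norm_num), py 5 (by norm_num)]
  · have h1 := mul_le_mul_of_nonneg_right (cw 2 3 4 rfl (by norm_num)) (by positivity : 0 ≤ y ^ 10)
    have h2 := ((cw 24 6 7 rfl (by norm_num)).trans (pw _ (by norm_num))).trans (py 10 (by norm_num))
    have h3 : y ^ 10 ≤ w ^ 3 * y ^ 10 := le_mul_of_one_le_left (by positivity) (one_le_pow₀ w0)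
    linarith
  · have e : 1296 * (23 * (y ^ 5)⁻¹ * y ^ 20 * w + 2 * (w ^ 3 * y ^ 10) / (y ^ 5)⁻¹ + 48 * (w ^ 3) ^ 3) =
      1296 * (23 * w * y ^ 15 + 2 * w ^ 3 * y ^ 15 + 48 * w ^ 9) := by field_simp
    have e' : w ^ 4 / y ^ 5 * y ^ 20 = w ^ 4 * y ^ 15 := by field_simp
    rw [e, e']
    have h1 := mul_le_mul_of_nonneg_right (cw (10 ^ 6) 3 4 rfl (by norm_num)) (by positivity : 0 ≤ y ^ 15)
    have h2 := mul_le_mul_of_nonneg_right (le_self_pow₀ w0 (n := 3) (by norm_num))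
      (by positivity : 0 ≤ y ^ 15)
    have h3 := (pw 9 (by norm_num)).trans (py 15 (by norm_num))
    have h4 : y ^ 15 ≤ w ^ 3 * y ^ 15 := le_mul_of_one_le_left (by positivity) (one_le_pow₀ w0)
    have h5 : 0 ≤ w ^ 3 * y ^ 15 := by positivity
    linarith
  · have h1 : 2 * 10 ^ 31 * w ^ 62 ≤ y ^ 6 := ((cw _ 62 63 rfl (by norm_num)).trans
      ((pow_le_pow_right₀ w0 (by norm_num : 63 ≤ 50 * 6)).trans_eq (pow_mul _ _ _))).trans
        (pow_le_pow_left₀ (by positivity) wy 6)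
    have h2 := (cw 6 6 7 rfl (by norm_num)).trans (pw _ (by norm_num))
    have h3 := mul_le_mul_of_nonneg_right h2 (by positivity : 0 ≤ y ^ 5)
    have e : 10 ^ 31 * ((w ^ 5) ^ 2 * (w ^ 3) ^ 8 * (w ^ 4) ^ 6 * w ^ 4) / y ^ 10 +
      3 * (w ^ 4 / y ^ 5) * w ^ 2 = (10 ^ 31 * w ^ 62 + 3 * w ^ 6 * y ^ 5) / y ^ 10 := by field_simp
    rw [e, div_le_iff₀ (by positivity), show (y ^ 4)⁻¹ * y ^ 10 = y ^ 6 by field_simp]
    linarith

/-- **(M4)** above `t**` -/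
theorem m4P {p : Pm} {k : ℕ} {o : Orb p.n k} {μ : Measure (Mat k)} [IsProbabilityMeasure μ]
    {x f1 f2 : Vn p.n} {t e X η : ℝ} (od : Ord p) (TC : p.T ≤ p.C) (ht : t ∈ Icc p.lo p.t0)
    (hs : p.tss ≤ t) (e0 : 0 < e) (e1 : e ≤ p.e1) (hμ : SOInv μ) (pt : Kp.At o x)
    (hW : o.W ∈ p.Wt e t) (q1 : t ≤ p.T * aS x ^ 2) (η1 : η ≤ 1 / 2)
    (hx : O4c.Hx o x f1 f2 (1 - aS x) X (p.T * aS x) η (p.T ^ 4))
    (hG : (o.P μ).real (o.G (c1 p t))ᶜ ≤ dl p) :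
    Op2 (O6.Er4 o (o.P μ) (Bz o x)) (e4 p ^ 2) := by
  have lh := od.lh_c ht
  have t0 := lh.t0
  have T1 := od.ok.T
  have N0 := od.N0
  have Nb := od.Nb
  obtain ⟨x1, x2, x3, x4, x5, x6, x7, -⟩ := od.ex
  set q := aS x with hq
  set w := (p.n : ℝ) ^ p.ch with hw
  set y := (p.n : ℝ) ^ (1 / 20 : ℝ) with hy
  have y0 : 0 < y := od.rp_pos _
  have yp : ∀ j : ℕ, y ^ j = (p.n : ℝ) ^ (j / 20 : ℝ) := fun j => by
    rw [hy, od.rp_pow]; congr 1; ring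
  have y20 : y ^ 20 = p.n := by rw [yp]; norm_num
  have y10 : √(p.n : ℝ) = y ^ 10 := by rw [yp, Real.sqrt_eq_rpow]; norm_num
  have y4 : e4 p = (y ^ 4)⁻¹ := by rw [yp, od.rp_inv, e4]; norm_num
  have wy : w ^ 50 ≤ y := by rw [hw, od.rp_pow]; exact od.rp_le (by push_cast; linarith)
  have cv : (p.n : ℝ) ^ p.cv ≤ w := od.rp_le (by linarith)
  have w1 : 10 ^ 40 ≤ w := le_trans (le_trans (by norm_num) (pow_le_pow_left₀ (by norm_num) od.lgb 4))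
    ((od.lg_pow (by norm_num)).trans cv)
  have B8 : 100 * p.B0 ^ 8 ≤ w := (od.cstB0 (by norm_num) (by norm_num)).trans cv
  have B1 := od.B01
  have Bp : ∀ j ≤ 8, p.B0 ^ j ≤ p.B0 ^ 8 := fun j hj => pow_le_pow_right₀ B1 hj
  have Tw : p.T ≤ w := by
    have := TC.trans (od.CK.trans (od.KB.trans od.ok.B0))
    have := Bp 1 (by norm_num)
    nlinarith [one_le_pow₀ (n := 8) B1]
  have tw : t⁻¹ ≤ w := lh.inv_hi hs
  have w0 : 1 ≤ w := by linarith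
  have q0 : 0 < q := pos_of_mul_pos_right hx.k0 (by linarith)
  have q2 : q ≤ 1 / 2 := by nlinarith [hx.ke]
  have qw : 1 ≤ q * w := by
    have h1 : 1 ≤ t * w := by rwa [inv_le_iff_one_le_mul₀' t0] at tw
    have h2 : t * w ≤ (q * w) ^ 2 := by
      calc t * w ≤ w * q ^ 2 * w := by gcongr; exact q1.trans (by gcongr)
        _ = _ := by ring
    exact (one_le_sq_iff₀ (by positivity)).1 (h1.trans h2)
  have qi : q⁻¹ ≤ w := by rwa [inv_le_iff_one_le_mul₀' q0]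
  have ee : e ≤ 1 := by linarith [od.ok.e1_1]
  obtain ⟨a0, a1⟩ := Wt_et od.ok e0 t0
  have h8 : 8 * e ^ p.A * min t p.t2 ≤ q ^ 2 := by
    have h1 : e ^ p.A ≤ p.e1 := (pow_A_le od.ok e0 ee).trans e1
    have h2 : e ^ p.A * t ≤ p.e1 * (p.C * q ^ 2) :=
      mul_le_mul h1 (q1.trans (by gcongr)) t0.le od.ok.e1.1.le
    nlinarith [mul_le_mul_of_nonneg_right (I31.Ord.Ce od) (sq_nonneg q), sq_nonneg q]
  obtain ⟨n1, n2, n3, n4⟩ := num4 w1 wy
  obtain ⟨G, r1, r2, r3⟩ := tr12 hW (pow_pos e0 _) (pow_le_one₀ e0.le ee) (lt_min t0 od.t2_pos) q0 q2 h8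
    (m := (y ^ 5)⁻¹) (E := w ^ 3 * y ^ 10) (by positivity)
    (le_of_mul_le_mul_right (n1.trans qw) (by linarith)) (by
      have h1 : (p.n : ℝ) ^ p.k3 ≤ w := od.rp_le (by linarith)
      rw [y10, div_eq_mul_inv]
      calc _ ≤ w * (w * y ^ 10 * w) := by gcongr; linarith
        _ = _ := by ring)
  have hz := I31.at_zz pt
  have nn := lh.c1_nn
  have kk := lh.kk_hi hs
  have key := m4Z (μ := μ) (A := w ^ 5) (g := w ^ 3) (Λ := w ^ 4) (M := w) (G := G)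
    (τ2 := 23 * (y ^ 5)⁻¹ * y ^ 20 * w + 2 * (w ^ 3 * y ^ 10) / (y ^ 5)⁻¹) (ε := w ^ 4 / y ^ 5) hx
    (by exact_mod_cast (show (6 : ℝ) ≤ p.n by linarith)) (one_le_pow₀ w0) ?_
    (by rw [Mj.A0, hz]; exact r1) (one_le_pow₀ w0) (fun v => ?_) r2 (r3.trans ?_) (one_le_pow₀ w0)
    (y10 ▸ n2) (n3.trans_eq (by rw [y20])) hμ nn ?_ w0 ?_ ?_
  · rw [Bz, Kp.W41.chi_eq (I31.at_n pt), y4]
    rw [y10] at key
    exact O6m.op_mono key (pow_le_pow_left₀ (by positivity) n4 2)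
  · have h1 : p.n * q ≤ X ^ 2 := by
      rw [← I31.at_pp pt, ← mul_one (X ^ 2), ← hx.n1, pt.p, dotProduct, dotProduct, Finset.mul_sum]
      refine Finset.sum_le_sum fun i _ => ?_
      have h2 := sq_le_of_abs (tanh_small (x i)).1
      rw [sq_abs] at h2
      calc _ = Real.tanh (x i) ^ 2 := (sq _).symm
        _ ≤ x i ^ 2 := h2
        _ = _ := by rw [hx.hx i]; ring
    have h2 : (p.T * q) ^ 2 ≤ (p.T ^ 4) ^ 2 :=
      pow_le_pow_left₀ hx.k0.le (by linarith [hx.ke, hx.C1]) 2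
    have h3 : 2 * p.T ^ 6 ≤ w ^ 10 * q ^ 3 :=
      calc 2 * p.T ^ 6 ≤ w * w ^ 6 * 1 := by rw [mul_one]; gcongr; linarith
        _ ≤ w * w ^ 6 * (q * w) ^ 3 := by gcongr; exact one_le_pow₀ qw
        _ = _ := by ring
    calc (p.n : ℝ) * ((p.T * q) ^ 2 + (p.T ^ 4) ^ 2) ≤ p.n * (p.T ^ 2 * (2 * p.T ^ 6)) := by
          gcongr; linarith
      _ ≤ p.n * (p.T ^ 2 * (w ^ 10 * q ^ 3)) := by gcongr
      _ = (w ^ 5 * (p.T * q)) ^ 2 * (p.n * q) := by ring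
      _ ≤ (w ^ 5 * (p.T * q)) ^ 2 * X ^ 2 := by gcongr
      _ = _ := by ring
  · have h1 := (ww_form hW o.z v).1
    have h2 := (I31.at_z2 pt q2).1
    have h3 : q ^ 2 / 2 * (v ⬝ᵥ v) ≤ v ⬝ᵥ Mj.A0 o *ᵥ v :=
      (mul_le_mul_of_nonneg_right (by linarith) (dsq v)).trans h1
    have h4 : 1 ≤ w ^ 3 * (q ^ 2 / 2) := by nlinarith [one_le_pow₀ (n := 2) qw]
    nlinarith [mul_le_mul_of_nonneg_left h3 (by positivity : 0 ≤ w ^ 3),
      mul_le_mul_of_nonneg_right h4 (dsq v)]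
  · rw [y20, div_eq_mul_inv _ q]; gcongr
  · refine (mul_le_mul_of_nonneg_left hG (by positivity)).trans ?_
    rw [Og.dl, mul_inv_le_iff₀ (by positivity), one_mul, show 20 = 18 + 2 from rfl, pow_add]
    exact mul_le_mul_of_nonneg_right (le_trans (by linarith) (le_self_pow₀ od.N1.le (by norm_num)))
      (by positivity)
  · have h1 : p.Bt t ^ 2 ≤ p.B0 ^ 8 :=
      (pow_le_pow_left₀ (by linarith [lh.Bt1, od.B1]) lh.Bt_le 2).trans (Bp 2 (by norm_num))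
    have h2 : t⁻¹ ^ 2 ≤ w ^ 2 := by gcongr
    have h3 := Bp 1 (by norm_num)
    have h4 : (p.B0 + p.Bt t ^ 2 + p.B0 ^ 8) * t⁻¹ ^ 2 ≤ 3 * p.B0 ^ 8 * w ^ 2 := by gcongr; linarith
    have h5 : 100 * p.B0 ^ 8 * w ^ 2 ≤ w * w ^ 2 := by gcongr
    have h6 : 1 ≤ p.B0 ^ 8 * w ^ 2 := one_le_mul_of_one_le_of_one_le (one_le_pow₀ B1) (one_le_pow₀ w0)
    have h7 : w ^ 3 ≤ w ^ 4 := pow_le_pow_right₀ w0 (by norm_num)
    simp only [c1, Cs.ctr, Pm.cq, div_eq_mul_inv, ← inv_pow]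
    linarith
  · have h1 : (t ^ p.k3)⁻¹ ≤ w := lh.uu_le.trans (od.rp_le (by linarith))
    have h2 := Bp 2 (by norm_num)
    have h3 := Bp 1 (by norm_num)
    have h4 : p.B0 * (t ^ p.k3)⁻¹ ≤ p.B0 ^ 8 * w := by gcongr; linarith
    have h5 : p.B0 ^ 8 ≤ p.B0 ^ 8 * w := le_mul_of_one_le_right (by positivity) w0
    have h6 : 100 * p.B0 ^ 8 * w ≤ w * w := by gcongr
    have h7 : w ^ 2 ≤ w ^ 4 := pow_le_pow_right₀ w0 (by norm_num)
    have h8 : 1 ≤ p.B0 ^ 8 := one_le_pow₀ B1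
    simp only [c1, Cs.ctr, Pm.cq, div_eq_mul_inv, kk, one_pow, mul_one]
    linarith

theorem _root_.Crest.Agent.T157.Oi.m4L : Oi.M4L := by
  filter_upwards [ev_ord, ev_C fun q => ev_ge q.T] with p od TC t e h H k o μ _ x c xd _ hs hG
  have h0 : 0 ≤ h := (sq_nonneg e).trans c.h0
  have h1 : h ≤ 1 / 2 := by linarith [c.h1, c.er.2.1, od.ok.e1_1]
  exact m4P od TC ⟨c.lo, c.hi⟩ hs c.er.1 c.er.2.1 c.inv c.pt c.W c.nx.q1 (by nlinarith) xd.hx hG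

end Crest.Agent.T157.M4
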