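import Crest.Agent.T157.OiDef_19
import Crest.Agent.T157.MjG_84
import Crest.Agent.T157.NumR_27

set_option autoImplicit false
set_option linter.unusedSectionVars false

/-!
Row 157, A2 (helper84): the leaves `M1L` and `M23L`.
-/

noncomputable section

namespace Crest.Agent.T157.Oi

open MeasureTheory Matrix Crest.Agent.Lib.OrthPoinc Filter Set
open Crest.Agent.T157.E Crest.Agent.T157.Cond Crest.Agent.T157.Tap
open Crest.Agent.T157.Oc Crest.Agent.T157.Od Crest.Agent.T157.Oo Crest.Agent.T157.O0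
open Crest.Agent.T157.Mj Crest.Agent.T157.Nm
open Crest.Agent.T157.Kb (f2 ee)

theorem m1L : M1L := Eventually.of_forall fun p t e h H k o μ _ x c X W a a0 F v => by
  have hc := (W.hw.cv X.hx.ok).1.G_le v
  refine (M1_dot c.inv X.hx.ok v).le.trans ((F v).trans ?_)
  rw [div_mul_eq_mul_div, le_div_iff₀ W.hw.g0, mul_assoc, mul_comm _ (gq _ _ _)]
  exact mul_le_mul_of_nonneg_left hc a0

/-- the constant of (M2), (M3) -/
def K84 (L T : ℝ) : ℝ := 10 ^ 11 * (800 * T ^ 4) * ((1 + T ^ 4 * L) * (T ^ 4) ^ 2 * T ^ 11)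

theorem num84 : ∀ᶠ p : O0.Pm in FF, p.Ok ∧ 700 * K84 p.L p.T ≤ p.C ∧ 10 ^ 5 * (3 * (p.L / 50) ^ 2 + 1) ≤ p.C ∧
    ∀ t : ℝ, p.lo ≤ t → t ≤ p.t0 → 0 < t ∧ 400 * p.T ^ 4 * ((p.L / 50) ^ 2 * t) ≤ 1 ∧
      2 * p.T ≤ t * p.n ∧ (p.n : ℝ) ^ 2 ≤ Real.exp (5 * (p.n : ℝ) ^ p.d) ∧
      (p.ts ≤ t → 8 * K84 p.L p.T ^ 2 * p.T ≤ p.n * t ^ 2) := by
  filter_upwards [ev_sc 0 0 0, ev_C fun q => ev_ge (700 * K84 q.L q.T),
    ev_C fun q => ev_ge (10 ^ 5 * (3 * (q.L / 50) ^ 2 + 1))] with p ⟨ok, H⟩ c1 c2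
  refine ⟨ok, c1, c2, fun t lo hi => ?_⟩
  obtain ⟨l, s, f, u, v, w, L, h, -⟩ := H t ⟨lo, hi⟩
  have d0 := ok.d.1
  have hs := h.ts_iff.1
  have t0 := h.pos
  have n0 := h.en.pos
  nm_open L, h
  refine ⟨t0, by num, by num, ?_, fun h1 => ?_⟩
  · rw [← Real.exp_log n0, ← Real.exp_nat_mul, Real.exp_log n0]
    exact Real.exp_le_exp.2 (by push_cast; num)
  · have := hs h1
    unfold K84; num

theorem m23L : M23L := by
  filter_upwards [num84] with p ⟨ok, C1, C2, N⟩ t e h H k o μ _ x c X W F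
  obtain ⟨t0, n1, n2, n3, n4⟩ := N t c.lo c.hi
  obtain ⟨e2, f, fe⟩ := X.fr
  have hx := X.hx
  have T1 := ok.T
  have L1 := ok.L
  have q0 := c.nx.mo.q0
  have q1 := c.nx.q1
  have q2 := c.nx.q2
  have g2 := W.g2
  have h0 : 0 ≤ h := (sq_nonneg e).trans c.h0
  have h1 : h ≤ 1 := by
    linarith [c.h1, c.er.2.1, ok.e1.2, ok.k3.2, ok.k2.2, ok.k4.2, ok.d.2, ok.ch.2]
  have n0 : 0 < p.n := by have := f.n4; omega
  have n0' : (0 : ℝ) < p.n := by exact_mod_cast n0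
  have pp : o.p ⬝ᵥ o.p = p.n * aS x := by rw [c.pt.p, O4c.X12.pp_eq n0]
  have pr := f.p_sq hx.ok
  have T2 : 1 ≤ p.T ^ 2 := one_le_pow₀ T1
  have T4 : 1 ≤ p.T ^ 4 := one_le_pow₀ T1
  have g1 : gq p.T h x ≤ aS x ^ 2 :=
    mul_le_of_le_one_left (sq_nonneg _) (by linarith [mul_nonneg (zero_le_one.trans T1) h0])
  have a1 : 20 * p.T ^ 2 * aS x ≤ 1 := abs_le_of_sq_le_sq' (by
    nlinarith [mul_le_mul_of_nonneg_left q2 (by positivity : 0 ≤ 400 * p.T ^ 4)]) zero_le_one |>.2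
  have a2 : aS x ≤ 1 / 20 := by nlinarith
  have a3 : 2 ≤ aS x ^ 2 * p.n := le_of_mul_le_mul_left (a := p.T) (by
    nlinarith [mul_le_mul_of_nonneg_right q1 n0'.le]) (by linarith)
  have a4 : 40 ≤ p.n * aS x := by nlinarith [mul_pos n0' q0]
  have a5 : (800 : ℝ) ≤ p.n := by nlinarith
  have nq := mul_pos n0' q0
  have M0 : 0 < p.M t := mul_pos n0' (Real.rpow_pos_of_pos t0 _)
  have H0 : 0 ≤ H := (Real.rpow_nonneg n0'.le _).trans c.H0
  have Qf : ∀ v, Qm o *ᵥ v ⬝ᵥ Qm o *ᵥ v = (unitv x ⬝ᵥ v) ^ 2 + (f2 x ⬝ᵥ v) ^ 2 := fun v => by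
    rw [dot_Q, Q_Q hx.ok, hx.hq, add_mulVec, Orb.vv_mulVec, Orb.vv_mulVec, add_dotProduct,
      smul_dotProduct, smul_dotProduct]; simp [sq]
  have G : Gl o μ x (unitv x) (f2 x) (Gq o x) (1 - aS x) (len x) (p.T * aS x) (h ^ 2) (p.T ^ 4)
      (gq p.T h x) (T0 x) (√(p.T ^ 4 * H / p.M t)) (p.T ^ 11) (5 * p.T ^ 2 * (p.n * aS x))
      (16 / (p.n : ℝ) ^ 2) (Real.exp (-(5 * H))) (800 * p.T ^ 4) (p.T ^ 4 * p.L) (K84 p.L p.T) := by
    refine ⟨c.inv, hx, W.hw, ?_, W.ha.cvA.nn, by nlinarith, by nlinarith, one_le_pow₀ T1, F,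
      pp ▸ nq, by rw [pp]; nlinarith, by nlinarith, ?_, ?_, ?_, ?_, ?_, by linarith, ?_,
      by positivity, ?_, le_rfl⟩
    · have := hx.dim
      have : 800 ≤ p.n := by exact_mod_cast a5
      omega
    · rw [pr, f.pe1, mulVec_smul, smul_dotProduct, dotProduct_smul, smul_eq_mul, smul_eq_mul]
      have := mul_le_mul_of_nonneg_left (W.ae.trans (show _ ≤ 5 * p.T ^ 2 * aS x by nlinarith))
        (by positivity : 0 ≤ len (th x) ^ 2 * p.n)
      linarith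
    · have e : ∑ i, o.p i ^ 6 = (∑ i, ee x i ^ 6) * (len (th x) ^ 2) ^ 3 := by
        rw [Finset.sum_mul]
        exact Finset.sum_congr rfl fun i _ => by rw [f.pe1, Pi.smul_apply, smul_eq_mul]; ring
      rw [pr, e]
      exact mul_le_mul_of_nonneg_right X.e6 (by positivity)
    · have b1 := f.Qsq hx.ok (unitv x)
      have b2 := Qf (ee x)
      rw [Qf, hx.n1, dotProduct_comm (f2 x), hx.o12, dotProduct_comm (ee x), dotProduct_comm e2] at b1
      rw [f.Q1 hx.ok, f.e11] at b2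
      rw [pr, f.pe1, dotProduct_smul, smul_eq_mul, mul_pow, mul_comm]
      refine mul_le_mul_of_nonneg_right ?_ (sq_nonneg _)
      have b3 : p.T ≤ p.T ^ 4 * p.T ^ 2 := by nlinarith
      nlinarith [mul_le_mul_of_nonneg_right b3 (sq_nonneg (aS x))]
    · refine (an_polar c.inv hx.ok (F := fun s _ => tb o _ s) fun s => by fun_prop).ge.trans
        (((pfA c.inv hx.ok).mono (fun s => by fun_prop) (fun s => by fun_prop) fun s _ _ => ?_).trans c.zs)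
      rw [tb, Z2, Qf, zq]
      split_ifs with b1 b2 <;> first | (exfalso; nlinarith) | norm_num
    · rw [Real.exp_neg, mul_inv_le_iff₀ (Real.exp_pos _), one_mul]
      exact n3.trans (Real.exp_le_exp.2 (by linarith [c.H0]))
    · rw [show 16 / (p.n : ℝ) ^ 2 * (5 * p.T ^ 2 * (p.n * aS x)) ^ 2 = 800 * p.T ^ 4 * (aS x ^ 2 / 2) by
        field_simp; ring]
      exact mul_le_mul_of_nonneg_left g2 (by positivity)
    · rw [Real.sq_sqrt (by positivity), mul_assoc, mul_div_assoc]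
      refine mul_le_mul (mul_le_mul_of_nonneg_left ((div_le_iff₀ M0).2 c.H1) (by positivity)) ?_
        (mul_nonneg (by unfold T0; positivity) W.hw.g0.le) (by positivity)
      rw [T0, div_mul_eq_mul_div, div_le_iff₀ q0]
      nlinarith [mul_le_mul_of_nonneg_left g1 n0'.le]
  have K0 : 0 ≤ K84 p.L p.T := by unfold K84; positivity
  refine ⟨G.M2.trans C1, fun hs => ⟨fun v => (G.M3op v).trans
    (mul_le_mul_of_nonneg_right (by linarith) (dot_self_nonneg v)), G.M3F.trans ?_⟩⟩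
  have b1 : ∑ i, o.p i ^ 4 ≤ p.n * (3 * ((p.L / 50) ^ 2 * t)) := by
    have := (abs_le.1 c.nx.mo.p4).2
    rw [c.pt.p, Kb.Xd75.sum_eq n0]
    refine mul_le_mul_of_nonneg_left ?_ n0'.le
    linarith [mul_le_mul_of_nonneg_right (pow_le_one₀ (n := 30) h0 h1) (pow_pos q0 3).le, pow_pos q0 3]
  have b2 : 4 * K84 p.L p.T ^ 2 / gq p.T h x ≤ p.n * t := by
    rw [div_le_iff₀ W.hw.g0]
    refine le_of_mul_le_mul_right (a := 2 * p.T) ?_ (by linarith)
    have := mul_le_mul_of_nonneg_left (q1.trans (mul_le_mul_of_nonneg_left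
      (show aS x ^ 2 ≤ 2 * gq p.T h x by linarith) (by linarith))) (mul_pos n0' t0).le
    linarith [n4 hs]
  linarith [mul_le_mul_of_nonneg_right C2 (mul_pos n0' t0).le]

end Crest.Agent.T157.Oi

end
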