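import Crest.Agent.T157.O0I_21
import Crest.Agent.T157.O0JW_21
import Crest.Agent.T157.O0S4_5
import Crest.Agent.T157.Kp_12
import Crest.Agent.T157.OaP_48
import Crest.Agent.T157.KbAll_5
import Crest.Agent.T157.KbMg_67
import Crest.Agent.T157.KbCol_11
import Crest.Agent.T157.KbTrG_44
import Crest.Agent.T157.KbTop_14
import Crest.Agent.T157.KbBack_10
import Crest.Agent.T157.OgAll_9
import Crest.Agent.T157.OiG_5
import Crest.Agent.T157.OiBack_10
import Crest.Agent.T157.OiFx_31
import Crest.Agent.T157.OiXd_15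
import Crest.Agent.T157.OiBd_64
import Crest.Agent.T157.OiFm_61
import Crest.Agent.T157.OiM_84
import Crest.Agent.T157.OiM4_53
import Crest.Agent.T157.O4cAll_4

/-!
# Row 157, block A2: the joint planted theorem from its leaves (helper21)
-/

set_option autoImplicit false

namespace Crest.Agent.T157.O0

theorem in_base : Og.InC Kb.base ∧ Og.InS Kb.base :=
  Oi.inGlue Kb.measG Oi.backL Oi.fxL Oi.posL Oi.xdL Oi.wdL
    (Oi.fmGlue O4c.m1Core Oi.xdL Oi.wdL Oi.bdL) Oi.m1L Oi.m23L Oi.m4L

theorem orbC_base : OrbC Kb.base := Og.orbC_of in_base.1 Kb.t1C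

theorem orbS_base : OrbS Kb.base := Og.orbS_of in_base.2 Kb.t1S

/-- the joint planted theorem from the first-moment bound of the good event -/
theorem thm_of_base (hb : Kb.BaseGlue) : Thm :=
  have h := Kb.topGlue Kb.measG
    (hb Kb.measG (Kb.colStmt Kb.measG Kb.margStmt Kb.All.all Kb.xdStmt) Kb.trPt)
  indGlue wStmt gmStmt Kp.stepStmt Oa.pack startStmt Kb.base h.1 h.2 orbC_base orbS_base

theorem jw4 : JW4 := fun T _ hs => S5.jw4 hs T

end Crest.Agent.T157.O0
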