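import Crest.Agent.T157.St0B_5
import Crest.Agent.T157.KsF_5

/-!
# Row 157, A2: inheritance of future events under the joint planted law (helper31)
-/

set_option autoImplicit false
set_option linter.unusedSectionVars false

noncomputable section

namespace Crest.Agent.T157.O0.X31

open MeasureTheory ProbabilityTheory Matrix Filter Set Topology
open Crest.Agent.T157.E Crest.Agent.T157.Eig Crest.Agent.T157.Cond Crest.Agent.T157.Tap
open Crest.Agent.T157.SL Crest.Agent.T157.Ks Crest.Agent.T157.Ks.St0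
open scoped ENNReal

section
variable {Ω ι : Type*} [Fintype Ω] [Fintype ι] [DecidableEq ι] {φ : Ω → ι → ℝ} {w : Ω → ℝ}
  {s τ δ : ℝ}

theorem law_congr {v : Ω → ℝ} (h : prob v = prob w) (s : ℝ) : law φ v s = law φ w s := by
  simp only [law, h]

/-- Markov's inequality for the conditional probability of a future set of fields -/
theorem law_inh (hw : Wt w) (hs : 0 ≤ s) (hτ : 0 ≤ τ) {B : Set (ι → ℝ)} (hB : MeasurableSet B)
    (h0 : 0 < δ) : (law φ w s).real {y | δ < (law φ (post φ w s y) τ).real {z | y + z ∈ B}} ≤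
      (law φ w (s + τ)).real B / δ := by
  have m : MG fun y => pr φ w (s + τ) B s y := by simpa using mg_pr (φ := φ) (τ := s + τ) hw hB s 0
  have mA : MeasurableSet {y | δ < pr φ w (s + τ) B s y} := measurableSet_lt measurable_const m.meas
  have := isProb_law (φ := φ) (s := s) hw
  refine (measureReal_mono (s₂ := {y | δ < pr φ w (s + τ) B s y}) fun y hy => ?_).trans ?_
  · have hq := hw.post φ s y
    have hB' : MeasurableSet {z | y + z ∈ B} := hB.preimage (by fun_prop)
    refine (show δ < (law φ (post φ w s y) τ).real {z | y + z ∈ B} from hy).trans_eq ?_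
    rw [← ex_ind hq hB', pr, add_sub_cancel_left]; rfl
  · rw [← ex_ind hw mA, le_div_iff₀' h0, ← ex_const_mul]
    have e := pr_markov (φ := φ) (r := 0) hw hB hs (by linarith : 0 + s ≤ s + τ) 0
    simp only [post_zero, zero_add, pr_zero hw hB] at e
    refine (ex_mono (H := fun p => pr φ w (s + τ) B s p.2) hw
      (((MG.const 1).indicator mA).const_mul _) m fun y => ?_).trans e.le
    by_cases hy : δ < pr φ w (s + τ) B s y
    · simpa [hy] using hy.le
    · simpa [hy] using pr_nonneg hw s y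

end

variable {n : ℕ} {t τ δ : ℝ}

theorem post_ising (W : Mx n) (y z : V n) (τ : ℝ) :
    post sv (ising W y) τ z = fun x => ising W (y + z) x * Real.exp (-(τ / 2 * n)) := by
  funext x
  rw [post, sv_dot_self, ← tilt_ising, tilt, mul_assoc, ← Real.exp_add, sub_eq_add_neg]

theorem prob_post_ising (W : Mx n) (y z : V n) (τ : ℝ) :
    prob (post sv (ising W y) τ z) = prob (ising W (y + z)) := by
  rw [prob_post_sv, tilt_ising]

theorem law_post_ising (W : Mx n) (y z : V n) (τ s : ℝ) :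
    law sv (post sv (ising W y) τ z) s = law sv (ising W (y + z)) s :=
  law_congr (prob_post_ising W y z τ) s

/-- the conditional probability of a future event is jointly measurable -/
theorem meas_fut {A : Set (Mx n × V n)} (hA : MeasurableSet A) (τ : ℝ) :
    Measurable fun z : Mx n × V n => law sv (ising z.1 z.2) τ {y | (z.1, z.2 + y) ∈ A} := by
  have mi : ∀ σ : Cube n, Measurable fun z : Mx n × V n => ising z.1 z.2 σ := fun σ =>
    Pl.measurable_ising measurable_fst measurable_snd σ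
  simp only [law, Measure.coe_finsetSum, Finset.sum_apply, Measure.smul_apply, smul_eq_mul]
  refine Finset.measurable_sum _ fun σ _ => Measurable.fun_mul
    ((mi σ).div (Finset.measurable_sum _ fun x _ => mi x)).ennreal_ofReal ?_
  have := SL.isProb_path (τ • sv σ) √τ
  exact measurable_measure_prodMk_left
    (s := {q : (Mx n × V n) × V n | (q.1.1, q.1.2 + q.2) ∈ A}) (hA.preimage (by fun_prop))

/-- **inheritance, joint form**: any set `A` -/
theorem JP_inherit (ht : 0 ≤ t) (hτ : 0 ≤ τ) (h0 : 0 < δ) (A : Set (Mx n × V n)) :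
    JP t n {z | δ < (law sv (ising z.1 z.2) τ).real {y | (z.1, z.2 + y) ∈ A}} ≤
      JP (t + τ) n A / ENNReal.ofReal δ := by
  set B := toMeasurable (JP (t + τ) n) A with hB
  have mB : MeasurableSet B := measurableSet_toMeasurable _ _
  have mS : MeasurableSet {z : Mx n × V n |
      δ < (law sv (ising z.1 z.2) τ).real {y | (z.1, z.2 + y) ∈ B}} :=
    measurableSet_lt measurable_const (meas_fut mB τ).ennreal_toReal
  refine (measure_mono (t := {z : Mx n × V n |
      δ < (law sv (ising z.1 z.2) τ).real {y | (z.1, z.2 + y) ∈ B}}) fun z hz => ?_).trans ?_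
  · have := isProb_law (φ := sv) (s := τ) (Pl.wt_ising z.1 z.2)
    exact (show δ < (law sv (ising z.1 z.2) τ).real {y | (z.1, z.2 + y) ∈ A} from hz).trans_le
      (measureReal_mono (s₁ := {y | (z.1, z.2 + y) ∈ A}) (s₂ := {y | (z.1, z.2 + y) ∈ B})
        fun y hy => subset_toMeasurable _ A hy)
  rw [← measure_toMeasurable A, ← hB, JP_apply mS, JP_apply mB, div_eq_mul_inv,
    ← lintegral_mul_const _ (meas_law mB)]
  refine lintegral_mono fun W => ?_
  have hw := Pl.wt_ising W (0 : V n)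
  have := isProb_law (φ := sv) (s := t) hw
  have := isProb_law (φ := sv) (s := t + τ) hw
  have h := law_inh (φ := sv) hw ht hτ (B := {y | (W, y) ∈ B}) (measurable_prodMk_left mB) h0
  simp only [law_post_ising, zero_add, mem_ofPred_eq] at h
  rw [← ofReal_measureReal, ← ofReal_measureReal (μ := law sv (ising W 0) (t + τ)), ← div_eq_mul_inv,
    ← ENNReal.ofReal_div_of_pos h0]
  exact ENNReal.ofReal_le_ofReal h

/-- **inheritance for `Fut`**: `Q` is the future event, `P W` a consequence for the weights -/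
theorem JP_fut (ht : 0 ≤ t) (hτ : 0 ≤ τ) (h0 : 0 < δ) {E : Mx n → Prop} {Q : Mx n → V n → Prop}
    {P : Mx n → (Cube n → ℝ) → Prop}
    (h : ∀ W y z, E W → Q W (y + z) → P W (post sv (ising W y) τ z)) :
    JP t n {z | E z.1 ∧ ¬ Fut sv τ δ (P z.1) (ising z.1 z.2)} ≤
      JP (t + τ) n {z | E z.1 ∧ ¬ Q z.1 z.2} / ENNReal.ofReal δ := by
  refine le_trans (measure_mono fun z hz => ?_) (JP_inherit ht hτ h0 _)
  have := isProb_law (φ := sv) (s := τ) (Pl.wt_ising z.1 z.2)
  exact (not_le.1 hz.2).trans_le (measureReal_mono fun y hy => ⟨hz.1, fun hq => hy (h _ _ _ hz.1 hq)⟩)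

/-- the same when `P W` only depends on the law -/
theorem JP_fut' (ht : 0 ≤ t) (hτ : 0 ≤ τ) (h0 : 0 < δ) {E : Mx n → Prop}
    {P : Mx n → (Cube n → ℝ) → Prop} (h : ∀ W v w, prob v = prob w → P W v → P W w) :
    JP t n {z | E z.1 ∧ ¬ Fut sv τ δ (P z.1) (ising z.1 z.2)} ≤
      JP (t + τ) n {z | E z.1 ∧ ¬ P z.1 (ising z.1 z.2)} / ENNReal.ofReal δ :=
  JP_fut ht hτ h0 (Q := fun W y => P W (ising W y)) fun W y z _ hq =>
    h W _ _ (prob_post_ising W y z τ).symm hq

/-- real levels -/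
theorem JP_fut_le (ht : 0 ≤ t) (hτ : 0 ≤ τ) (h0 : 0 < δ) {E : Mx n → Prop} {Q : Mx n → V n → Prop}
    {P : Mx n → (Cube n → ℝ) → Prop}
    (h : ∀ W y z, E W → Q W (y + z) → P W (post sv (ising W y) τ z)) {p : ℝ}
    (hp : JP (t + τ) n {z | E z.1 ∧ ¬ Q z.1 z.2} ≤ ENNReal.ofReal p) :
    JP t n {z | E z.1 ∧ ¬ Fut sv τ δ (P z.1) (ising z.1 z.2)} ≤ ENNReal.ofReal (p / δ) := by
  rw [ENNReal.ofReal_div_of_pos h0]
  exact (JP_fut ht hτ h0 h).trans (ENNReal.div_le_div_right hp _)

/-- **a finite family of future times** -/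
theorem JP_fut_all {K : Type*} (S : Finset K) (ht : 0 ≤ t) {τ δ p : K → ℝ} (hτ : ∀ k ∈ S, 0 ≤ τ k)
    (h0 : ∀ k ∈ S, 0 < δ k) (p0 : ∀ k ∈ S, 0 ≤ p k) {E : Mx n → Prop} {Q : K → Mx n → V n → Prop}
    {P : K → Mx n → (Cube n → ℝ) → Prop}
    (h : ∀ k ∈ S, ∀ W y z, E W → Q k W (y + z) → P k W (post sv (ising W y) (τ k) z))
    (hp : ∀ k ∈ S, JP (t + τ k) n {z | E z.1 ∧ ¬ Q k z.1 z.2} ≤ ENNReal.ofReal (p k)) :
    JP t n {z | E z.1 ∧ ¬ ∀ k ∈ S, Fut sv (τ k) (δ k) (P k z.1) (ising z.1 z.2)} ≤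
      ENNReal.ofReal (∑ k ∈ S, p k / δ k) := by
  rw [ENNReal.ofReal_sum_of_nonneg fun k hk => div_nonneg (p0 k hk) (h0 k hk).le]
  refine le_trans (measure_mono (t := ⋃ k ∈ S,
    {z : Mx n × V n | E z.1 ∧ ¬ Fut sv (τ k) (δ k) (P k z.1) (ising z.1 z.2)}) fun z hz => ?_)
    ((measure_biUnion_finset_le _ _).trans (Finset.sum_le_sum fun k hk =>
      JP_fut_le ht (hτ k hk) (h0 k hk) (h k hk) (hp k hk)))
  obtain ⟨h1, h2⟩ := hz
  push Not at h2
  obtain ⟨k, hk, h3⟩ := h2
  exact mem_biUnion hk ⟨h1, h3⟩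

end Crest.Agent.T157.O0.X31

end
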