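import Crest.Agent.T157.QsB_98
import Crest.Agent.T157.Orb_59
import Crest.Agent.R166.Gauss_286

/-!
# Row 157, A2 section 4 (helper59): two-sided bounds of spherical integrals on an orbit

* `shell_low` : a weighted chi-square variable hits a short interval near its mean;
* `sph_low`, `sph_up` : `∫ exp (-(v + E U'a)·M (v + E U'a) / 2) dU` up to polynomial factors.
-/

set_option autoImplicit false
set_option linter.unusedSectionVars false

noncomputable section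

namespace Crest.Agent.T157.O4T

open Matrix Finset MeasureTheory
open scoped ENNReal
open Crest.Agent.Lib.OrthPoinc Crest.Agent.T157.Oc Crest.Agent.T157.Orb
open Crest.Agent.T157.E Crest.Agent.T157.Cond Crest.Agent.T157.Dq Crest.Agent.T157.Qs
open Crest.Agent.T157.Conc (ex ex_add ex_mono ex_zero ex_ne_top)

variable {ι : Type*} [Fintype ι] [DecidableEq ι]

lemma prod_ex {b : ι → ℝ} (hb : ∀ i, 0 < b i) :
    ENNReal.ofReal (∏ i, (√(b i))⁻¹) = ex (-(∑ i, Real.log (b i)) / 2) := by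
  rw [ex, neg_div, sum_div, ← sum_neg_distrib, Real.exp_sum]
  congr 1
  refine prod_congr rfl fun i _ => ?_
  rw [Real.exp_neg, Real.exp_half, Real.exp_log (hb i)]

lemma cv_ind {B : Matrix ι ι ℝ} {b : ι → ℝ} (hB : Dg B b) (hb : ∀ i, 0 < b i) {S : Set ℝ}
    (hS : MeasurableSet S) :
    ∫⁻ x, ex ((x ⬝ᵥ x - x ⬝ᵥ B *ᵥ x) / 2) * S.indicator 1 (x ⬝ᵥ x) ∂gv ι =
      ex (-(∑ i, Real.log (b i)) / 2) * gv ι {g | Rq b g ∈ S} := by
  rw [gauss_cv hB hb (measurable_one.indicator hS), prod_ex hb]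
  congr 1
  exact lintegral_indicator_one (measurable_Rq b hS)

lemma log_le {u : ℝ} (h : |u| ≤ 1 / 2) : Real.log (1 + u) ≤ u - u ^ 2 / 5 := by
  obtain ⟨h1, h2⟩ := abs_le.1 h
  have p : 0 < 1 + u / 2 - u ^ 2 / 10 := by nlinarith
  have h3 : 1 + u ≤ (1 + u / 2 - u ^ 2 / 10) ^ 2 := by
    nlinarith [mul_nonneg (sq_nonneg u) (sub_nonneg.2 h2), sq_nonneg (u ^ 2)]
  have h4 := Real.log_le_log (by linarith) h3
  have h5 := Real.log_le_sub_one_of_pos p
  rw [Real.log_pow] at h4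
  push_cast at h4
  linarith

/-- comparison of two tilts -/
lemma tilt {b : ι → ℝ} {m D : ℝ} (hb : ∀ i, 0 < b i) (hm : ∀ i, 2 * |m| ≤ b i) {S : Set ℝ}
    (hS : MeasurableSet S) (hD : ∀ y ∈ S, m * (∑ i, (b i)⁻¹ - y) ≤ D) :
    gv ι {g | Rq (fun i => b i + m) g ∈ S} ≤
      ex (D / 2 - m ^ 2 * (∑ i, (b i)⁻¹ ^ 2) / 10) * gv ι {g | Rq b g ∈ S} := by
  have hb' : ∀ i, 0 < b i + m := fun i => by
    have := hm i; have := neg_abs_le m; have := hb i; linarith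
  have h1 := cv_ind (dg_diagonal _) hb' hS
  have h2 := cv_ind (dg_diagonal _) hb hS
  have h3 : ∫⁻ x, ex ((x ⬝ᵥ x - x ⬝ᵥ diagonal (fun i => b i + m) *ᵥ x) / 2) *
      S.indicator 1 (x ⬝ᵥ x) ∂gv ι ≤ ex ((D - m * ∑ i, (b i)⁻¹) / 2) *
      ∫⁻ x, ex ((x ⬝ᵥ x - x ⬝ᵥ diagonal b *ᵥ x) / 2) * S.indicator 1 (x ⬝ᵥ x) ∂gv ι := by
    rw [← lintegral_const_mul' _ _ (ex_ne_top _)]
    refine lintegral_mono fun x => ?_
    by_cases hx : x ⬝ᵥ x ∈ S
    · rw [← mul_assoc, ← ex_add]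
      refine mul_le_mul_left (ex_mono ?_) _
      have e : x ⬝ᵥ diagonal (fun i => b i + m) *ᵥ x = x ⬝ᵥ diagonal b *ᵥ x + m * (x ⬝ᵥ x) := by
        simp only [dotProduct, mulVec_diagonal, mul_sum, ← sum_add_distrib]
        exact sum_congr rfl fun i _ => by ring
      have := hD _ hx
      rw [e]; linarith
    · simp [hx]
  rw [h1, h2] at h3
  have h4 := mul_le_mul_right h3 (ex ((∑ i, Real.log (b i + m)) / 2))
  rw [← mul_assoc, ← ex_add, neg_div, add_neg_cancel, ex_zero, one_mul, ← mul_assoc, ← mul_assoc,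
    ← ex_add, ← ex_add] at h4
  refine h4.trans (mul_le_mul_left (ex_mono ?_) _)
  have h5 : ∑ i, Real.log (b i + m) ≤
      ∑ i, (Real.log (b i) + m * (b i)⁻¹ - m ^ 2 * (b i)⁻¹ ^ 2 / 5) := sum_le_sum fun i _ => by
    have := hb i
    have e : b i + m = b i * (1 + m * (b i)⁻¹) := by field_simp
    have h6 : |m * (b i)⁻¹| ≤ 1 / 2 := by
      rw [abs_mul, abs_inv, abs_of_pos this, mul_inv_le_iff₀ this]; linarith [hm i]
    have := log_le h6
    rw [e, Real.log_mul (hb i).ne' (by linarith [(abs_le.1 h6).1])]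
    nlinarith
  simp only [sum_sub_distrib, sum_add_distrib, ← mul_sum, ← sum_div] at h5
  linarith

lemma exists_cross {Y : ℕ → ℝ} {r h : ℝ} (hh : 0 ≤ h) {J : ℕ} (h0 : r ≤ Y 0) (hJ : Y J ≤ r)
    (hs : ∀ j < J, Y j ≤ Y (j + 1) + h) : ∃ j ≤ J, Y j ∈ Set.Icc r (r + h) := by
  induction J with
  | zero => exact ⟨0, le_rfl, h0, by linarith⟩
  | succ J ih =>
    rcases le_total (Y J) r with H | H
    · obtain ⟨j, hj, h⟩ := ih H fun j hj => hs j (by omega)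
      exact ⟨j, by omega, h⟩
    · exact ⟨J, by omega, H, by linarith [hs J (by omega)]⟩

lemma ex_two : ex (-2) ≤ 4⁻¹ := (ex_mono (by norm_num)).trans ex_quarter

/-- **the shell is hit** -/
theorem shell_low {b : ι → ℝ} {m D r h : ℝ} (m0 : 0 < m) (hm : ∀ i, 2 * m ≤ b i) (h0 : 0 < h)
    (hV : 5 * m * D + 20 ≤ m ^ 2 * ∑ i, (b i)⁻¹ ^ 2) (hD : |r - ∑ i, (b i)⁻¹| ≤ D) {J : ℕ}
    (J0 : 0 < J) (hJ : 24 * Fintype.card ι ≤ m * h * J) (h1 : 1 ≤ Fintype.card ι) :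
    1 ≤ 4 * (J + 1) * ex (m * (D + h) / 2) * gv ι {g | Rq b g ∈ Set.Icc r (r + h)} := by
  have hb : ∀ i, 0 < b i := fun i => by linarith [hm i]
  have J0' : (0 : ℝ) < J := by exact_mod_cast J0
  obtain ⟨d1, d2⟩ := abs_le.1 hD
  set μ : ℕ → ℝ := fun j => -m + 2 * m * j / J with hμ
  have hμ1 : ∀ j ≤ J, |μ j| ≤ m := fun j hj => by
    have : (j : ℝ) ≤ J := by exact_mod_cast hj
    have h2 : 2 * m * j / J ≤ 2 * m := by rw [div_le_iff₀ J0']; nlinarith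
    have h3 : 0 ≤ 2 * m * j / J := by positivity
    exact abs_le.2 ⟨by simp only [hμ]; linarith, by simp only [hμ]; linarith⟩
  have t1 : gv ι {g | Rq (fun i => b i + μ 0) g ∈ Set.Iic r} ≤ 4⁻¹ := by
    refine (tilt hb (D := m * D) (fun i => by linarith [hμ1 0 J0.le, hm i]) measurableSet_Iic
      fun y hy => ?_).trans ((mul_le_mul' (ex_mono ?_) prob_le_one).trans (by simpa using ex_two))
    · have : y ≤ r := hy
      simp only [hμ, Nat.cast_zero, mul_zero, zero_div, add_zero]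
      nlinarith
    · simp only [hμ, Nat.cast_zero, mul_zero, zero_div, add_zero, neg_sq]
      linarith
  have eJ : μ J = m := by simp only [hμ]; field_simp; ring
  have t2 : gv ι {g | Rq (fun i => b i + μ J) g ∈ Set.Ici r} ≤ 4⁻¹ := by
    refine (tilt hb (D := m * D) (fun i => by linarith [hμ1 J le_rfl, hm i]) measurableSet_Ici
      fun y hy => ?_).trans ((mul_le_mul' (ex_mono ?_) prob_le_one).trans (by simpa using ex_two))
    · have : r ≤ y := hy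
      rw [eJ]; nlinarith
    · rw [eJ]; linarith
  have t3 : gv ι {g | 12 * (Fintype.card ι : ℝ) < g ⬝ᵥ g} ≤ 4⁻¹ := by
    refine (chi_tail IsProj.one (m := Fintype.card ι) (by simp) (t := 2⁻¹) (by norm_num)
      (-3 * Fintype.card ι) fun g hg => ?_).trans ((ex_mono ?_).trans ex_quarter)
    · simp only [Set.mem_ofPred_eq, one_mulVec] at hg ⊢; linarith
    · have := Real.log_two_lt_d9
      have m1 : (1 : ℝ) ≤ Fintype.card ι := by exact_mod_cast h1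
      rw [Real.log_inv]
      nlinarith
  have t4 : ∀ j ∈ range (J + 1), gv ι {g | Rq (fun i => b i + μ j) g ∈ Set.Icc r (r + h)} ≤
      ex (m * (D + h) / 2) * gv ι {g | Rq b g ∈ Set.Icc r (r + h)} := fun j hj => by
    have hj' := hμ1 j (Nat.lt_succ_iff.1 (mem_range.1 hj))
    refine (tilt hb (D := m * (D + h)) (fun i => by linarith [hm i]) measurableSet_Icc
      fun y hy => ?_).trans (mul_le_mul_left (ex_mono ?_) _)
    · refine (le_abs_self _).trans ?_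
      rw [abs_mul]
      exact mul_le_mul hj' (abs_le.2 ⟨by linarith [hy.2], by linarith [hy.1]⟩) (abs_nonneg _) m0.le
    · have : 0 ≤ μ j ^ 2 * (∑ i, (b i)⁻¹ ^ 2) / 10 := by positivity
      linarith
  have cov : (Set.univ : Set (ι → ℝ)) ⊆ ({g | Rq (fun i => b i + μ 0) g ∈ Set.Iic r} ∪
      {g | Rq (fun i => b i + μ J) g ∈ Set.Ici r} ∪ {g | 12 * (Fintype.card ι : ℝ) < g ⬝ᵥ g}) ∪
      ⋃ j ∈ range (J + 1), {g | Rq (fun i => b i + μ j) g ∈ Set.Icc r (r + h)} := fun g _ => by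
    by_contra hn
    simp only [Set.mem_union, Set.mem_ofPred_eq, Set.mem_Iic, Set.mem_Ici, not_or, not_le, not_lt,
      Set.mem_iUnion, not_exists, mem_range] at hn
    obtain ⟨⟨⟨a1, a2⟩, a3⟩, a4⟩ := hn
    obtain ⟨j, hj, H⟩ := exists_cross (Y := fun j => Rq (fun i => b i + μ j) g) h0.le a1.le a2.le
      fun j hj => by
        have k1 := abs_le.1 (hμ1 j hj.le)
        have k2 := abs_le.1 (hμ1 (j + 1) hj)
        have e : μ (j + 1) = μ j + 2 * m / J := by simp only [hμ]; push_cast; ring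
        have k3 : Rq (fun i => b i + μ j) g ≤ ∑ i, (g i ^ 2 / (b i + μ (j + 1)) +
            2 / (m * J) * (g i * g i)) := sum_le_sum fun i _ => by
          have p1 : m ≤ b i + μ j := by linarith [hm i]
          have p2 : m ≤ b i + μ (j + 1) := by linarith [hm i]
          have p3 : g i ^ 2 / (b i + μ j) = g i ^ 2 / (b i + μ (j + 1)) +
              2 * m / J / ((b i + μ j) * (b i + μ (j + 1))) * (g i * g i) := by
            have := m0.trans_le p1; have := m0.trans_le p2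
            rw [show 2 * m / J = b i + μ (j + 1) - (b i + μ j) by rw [e]; ring]
            field_simp; ring
          rw [p3]
          refine add_le_add le_rfl (mul_le_mul_of_nonneg_right ?_ (mul_self_nonneg _))
          calc _ ≤ 2 * m / J / (m * m) := div_le_div_of_nonneg_left (by positivity)
                (by positivity) (mul_le_mul p1 p2 m0.le (m0.le.trans p1))
            _ = _ := by field_simp
        rw [sum_add_distrib, ← mul_sum] at k3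
        refine k3.trans (add_le_add le_rfl ?_)
        rw [div_mul_eq_mul_div, div_le_iff₀ (by positivity)]
        have : ∑ i, g i * g i ≤ 12 * (Fintype.card ι : ℝ) := a3
        nlinarith
    exact a4 j (by omega) H
  have h5 : (1 : ℝ≥0∞) ≤ 4⁻¹ + 4⁻¹ + 4⁻¹ +
      (J + 1) * (ex (m * (D + h) / 2) * gv ι {g | Rq b g ∈ Set.Icc r (r + h)}) := by
    refine (measure_univ (μ := gv ι)).ge.trans <| (measure_mono cov).trans ((measure_union_le _ _).trans (add_le_add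
      ((measure_union_le _ _).trans (add_le_add ((measure_union_le _ _).trans (add_le_add t1 t2)) t3))
      ((measure_biUnion_finset_le _ _).trans ((sum_le_card_nsmul _ _ _ t4).trans ?_))))
    rw [card_range, nsmul_eq_mul]; push_cast; rfl
  have h6 : (1 : ℝ≥0∞) = 4⁻¹ + 4⁻¹ + 4⁻¹ + 4⁻¹ := by
    rw [← ENNReal.mul_inv_cancel (a := 4) (by simp) (by simp)]; ring
  replace h5 := (ENNReal.add_le_add_iff_left (by simp)).1 (h6.ge.trans h5)
  calc (1 : ℝ≥0∞) = 4 * 4⁻¹ := (ENNReal.mul_inv_cancel (by simp) (by simp)).symm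
    _ ≤ _ := mul_le_mul_right h5 _
    _ = _ := by simp only [mul_assoc]

variable {k : ℕ} {μ : Measure (Mat k)} [IsProbabilityMeasure μ]

@[fun_prop] lemma _root_.Measurable.t157o4_xi {α : Type*} [MeasurableSpace α] {a : α → Fin k → ℝ}
    {U : α → Mat k} (ha : Measurable a) (hU : Measurable U) : Measurable fun x => xi (a x) (U x) := by
  refine measurable_pi_lambda _ fun i => ?_
  simp only [xi, mulVec, dotProduct, transpose_apply, of_apply]
  fun_prop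

lemma lint_xi (hμ : SOInv μ) (hk : 2 ≤ k) {F : (Fin k → ℝ) → ℝ≥0∞} (hF : Measurable F)
    {a a' : Fin k → ℝ} (h : a ⬝ᵥ a = a' ⬝ᵥ a') :
    ∫⁻ U, F (xi a U) ∂μ = ∫⁻ U, F (xi a' U) ∂μ := by
  have hij : (⟨0, by omega⟩ : Fin k) ≠ ⟨1, by omega⟩ := by simp
  have hV := (rho_R2 hij a' a).1
  rw [← lint_left hμ hV (F := fun U => F (xi a U)) (by fun_prop)]
  simp only [xi_mm, xi_eq_of hV (rho_mulVec _ _ h.symm)]

lemma xi_smul (c : ℝ) (a : Fin k → ℝ) (U : Mat k) : xi (c • a) U = c • xi a U := mulVec_smul _ _ _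

/-- the spherical integral without centre -/
theorem sph_low0 (hμ : SOInv μ) (hk : 2 ≤ k) {B : Matrix (Fin k) (Fin k) ℝ} {b : Fin k → ℝ}
    (hB : Dg B b) (hb : ∀ i, 0 < b i) {a : Fin k → ℝ} (h0 : 0 < a ⬝ᵥ a) {ρ : ℝ} (hρ : 0 < ρ) :
    ex (-(∑ i, Real.log (b i)) / 2) * gv (Fin k) {g | Rq b g ∈ Set.Icc (a ⬝ᵥ a) ρ} ≤
      (∫⁻ U, ex (-(xi a U ⬝ᵥ B *ᵥ xi a U) / 2) ∂μ) * ex (k / 2 - k * Real.log (k / ρ) / 2) := by
  have k0 : (0 : ℝ) < k := by exact_mod_cast (by omega : 0 < k)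
  have hpsd : ∀ y, 0 ≤ y ⬝ᵥ B *ᵥ y := fun y => by
    obtain ⟨O, -, rfl⟩ := hB
    rw [← mulVec_mulVec, ← mulVec_mulVec, dotProduct_mulVec, ← mulVec_transpose]
    exact sum_nonneg fun i _ => by
      rw [mulVec_diagonal]; nlinarith [mul_nonneg (hb i).le (mul_self_nonneg ((Oᵀ *ᵥ y) i))]
  set I := Set.Icc (a ⬝ᵥ a) ρ with hI
  have mI : Measurable (I.indicator (1 : ℝ → ℝ≥0∞)) := measurable_one.indicator measurableSet_Icc
  set G : (Fin k → ℝ) → ℝ≥0∞ := fun x => ex ((x ⬝ᵥ x - x ⬝ᵥ B *ᵥ x) / 2) * I.indicator 1 (x ⬝ᵥ x)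
    with hG
  have mG : Measurable G := by fun_prop
  have h1 : ∫⁻ x, G x ∂gv (Fin k) = ∫⁻ U, ∫⁻ x, G (xi x U) ∂gv (Fin k) ∂μ := by
    refine (lint_const hμ fun U hU => ?_).symm
    have hmp : MeasurePreserving (fun x => (Matrix.of U)ᵀ *ᵥ x) (gv (Fin k)) (gv (Fin k)) :=
      ⟨R166.Gauss286.measurable_mulVec _, R166.Gauss286.gv_map_mulVec _ (tp_mul hU)⟩
    exact hmp.lintegral_comp mG
  have hB1 : PD ((k / ρ) • (1 : Matrix (Fin k) (Fin k) ℝ)) := ⟨by simp, fun x hx => by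
    rw [smul_mulVec, one_mulVec, dotProduct_smul, smul_eq_mul]
    exact mul_pos (by positivity) (lt_of_le_of_ne (dot_self_nonneg x)
      fun h => hx (dotProduct_self_eq_zero.1 h.symm))⟩
  have h2 := gauss_det hB1
  rw [det_smul, det_one, mul_one, Real.log_pow, Fintype.card_fin] at h2
  rw [← cv_ind hB hb measurableSet_Icc, h1, lintegral_lintegral_swap (by fun_prop), sub_eq_add_neg,
    ← neg_div, ex_add, ← h2, ← lintegral_const_mul' _ _ (ex_ne_top _),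
    ← lintegral_const_mul _ (by fun_prop)]
  refine lintegral_mono fun x => ?_
  by_cases hx : x ⬝ᵥ x ∈ I
  swap
  · rw [lint_const hμ (c := 0) fun U hU => by simp [hG, dot_xi x hU, hx]]
    exact zero_le
  have x0 : 0 < x ⬝ᵥ x := h0.trans_le hx.1
  set c := √(a ⬝ᵥ a / (x ⬝ᵥ x)) with hc
  have c2 : c * c = a ⬝ᵥ a / (x ⬝ᵥ x) := Real.mul_self_sqrt (by positivity)
  have c1 : c * c ≤ 1 := by rw [c2, div_le_one x0]; exact hx.1
  rw [lint_xi hμ hk (F := fun y => ex (-(y ⬝ᵥ B *ᵥ y) / 2)) (a' := c • x) (by fun_prop) (by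
    rw [smul_dotProduct, dotProduct_smul, smul_eq_mul, smul_eq_mul, ← mul_assoc, c2,
      div_mul_cancel₀ _ x0.ne']), ← lintegral_mul_const' _ _ (ENNReal.mul_ne_top (ex_ne_top _)
      (ex_ne_top _))]
  refine lintegral_mono_ae ((ae_SO hμ).mono fun U hU => ?_)
  simp only [hG, dot_xi x hU, Set.indicator_of_mem hx, Pi.one_apply, mul_one, ← ex_add, xi_smul,
    mulVec_smul, smul_dotProduct, dotProduct_smul, smul_eq_mul, smul_mulVec, one_mulVec]
  refine ex_mono ?_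
  have h3 : k / ρ * (x ⬝ᵥ x) ≤ k := by
    rw [div_mul_eq_mul_div, div_le_iff₀ hρ]; exact mul_le_mul_of_nonneg_left hx.2 k0.le
  nlinarith [mul_le_mul_of_nonneg_right c1 (hpsd (xi x U))]

variable {E : Matrix ι (Fin k) ℝ}

/-- the spherical integral -/
def Sph (μ : Measure (Mat k)) (E : Matrix ι (Fin k) ℝ) (M : Matrix ι ι ℝ) (v : ι → ℝ)
    (a : Fin k → ℝ) : ℝ≥0∞ :=
  ∫⁻ U, ex (-((v + E *ᵥ xi a U) ⬝ᵥ M *ᵥ (v + E *ᵥ xi a U)) / 2) ∂μ

lemma quad_E (M : Matrix ι ι ℝ) (y : Fin k → ℝ) :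
    E *ᵥ y ⬝ᵥ M *ᵥ (E *ᵥ y) = y ⬝ᵥ (Eᵀ * M * E) *ᵥ y := by
  rw [← mulVec_mulVec, ← mulVec_mulVec, dotProduct_mulVec y, vecMul_transpose]

/-- **lower bound** -/
theorem sph_low (hμ : SOInv μ) (hk : 2 ≤ k) {M : Matrix ι ι ℝ} {b : Fin k → ℝ}
    (hB : Dg (Eᵀ * M * E) b) (v : ι → ℝ) {a : Fin k → ℝ} (h0 : 0 < a ⬝ᵥ a) {m D : ℝ} (m0 : 0 < m)
    (hm : ∀ i, 2 * m ≤ b i) (hV : 5 * m * D + 20 ≤ m ^ 2 * ∑ i, (b i)⁻¹ ^ 2)
    (hD : |a ⬝ᵥ a - ∑ i, (b i)⁻¹| ≤ D) {J : ℕ} (J0 : 0 < J)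
    (hJ : 24 * (k : ℝ) ^ 2 ≤ m * (a ⬝ᵥ a) * J) :
    ex (-(v ⬝ᵥ M *ᵥ v) / 2 - (∑ i, Real.log (b i)) / 2 - (k + 1) / 2 +
      k * Real.log (k / (a ⬝ᵥ a)) / 2 - m * (D + a ⬝ᵥ a / k) / 2) ≤ 4 * (J + 1) * Sph μ E M v a := by
  have k0 : (0 : ℝ) < k := by exact_mod_cast (by omega : 0 < k)
  have hb : ∀ i, 0 < b i := fun i => by linarith [hm i]
  set r := a ⬝ᵥ a with hr
  have h1 := shell_low (r := r) (h := r / k) m0 hm (by positivity) hV hD J0 (by
    rw [Fintype.card_fin, mul_div_assoc', div_mul_eq_mul_div, le_div_iff₀ k0]; linarith)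
    (by rw [Fintype.card_fin]; omega)
  have h2 := sph_low0 hμ hk hB hb h0 (ρ := r + r / k) (by positivity)
  have h3 : ex (-(v ⬝ᵥ M *ᵥ v) / 2) * ∫⁻ U, ex (-(xi a U ⬝ᵥ (Eᵀ * M * E) *ᵥ xi a U) / 2) ∂μ ≤
      Sph μ E M v a := by
    have e := lint_xi hμ hk (F := fun y => ex (-((v + E *ᵥ y) ⬝ᵥ M *ᵥ (v + E *ᵥ y)) / 2))
      (a := a) (a' := (-1 : ℝ) • a) (by fun_prop) (by simp)
    refine (ENNReal.mul_le_mul_iff_right (a := 2) (by norm_num) (by norm_num)).1 ?_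
    rw [two_mul (Sph _ _ _ _ _), Sph]
    nth_rewrite 2 [e]
    rw [← lintegral_add_left (by fun_prop), ← lintegral_const_mul' _ _ (ex_ne_top _),
      ← lintegral_const_mul' _ _ (by norm_num)]
    refine lintegral_mono fun U => le_trans (le_of_eq ?_) (ex_mid _ _)
    rw [← ex_add, ← quad_E]
    simp only [xi_smul, mulVec_smul, mulVec_add, add_dotProduct, dotProduct_add, smul_dotProduct,
      dotProduct_smul, smul_eq_mul]
    congr 2; ring
  have h4 : Real.log (k / r) - 1 / k ≤ Real.log (k / (r + r / k)) := by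
    have := Real.log_le_sub_one_of_pos (show 0 < 1 + 1 / (k : ℝ) by positivity)
    rw [show k / (r + r / k) = k / r / (1 + 1 / k) by field_simp,
      Real.log_div (x := k / r) (by positivity) (by positivity)]
    linarith
  have h5 := mul_le_mul_of_nonneg_left h4 k0.le
  rw [mul_sub, mul_one_div_cancel k0.ne'] at h5
  calc _ ≤ ex (-(v ⬝ᵥ M *ᵥ v) / 2 - (∑ i, Real.log (b i)) / 2 - (k + 1) / 2 +
        k * Real.log (k / r) / 2 - m * (D + r / k) / 2) * (4 * (J + 1) * ex (m * (D + r / k) / 2) *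
        gv (Fin k) {g | Rq b g ∈ Set.Icc r (r + r / k)}) := le_mul_of_one_le_right' h1
    _ = 4 * (J + 1) * (ex (-(v ⬝ᵥ M *ᵥ v) / 2 - (k + 1) / 2 + k * Real.log (k / r) / 2) *
        (ex (-(∑ i, Real.log (b i)) / 2) * gv (Fin k) {g | Rq b g ∈ Set.Icc r (r + r / k)})) := by
        rw [← mul_assoc (ex _) (ex _), ← ex_add, mul_assoc (4 * _), mul_left_comm,
          ← mul_assoc (ex _) (ex _), ← ex_add]
        congr 3; ring
    _ ≤ 4 * (J + 1) * (ex (-(v ⬝ᵥ M *ᵥ v) / 2) *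
        ∫⁻ U, ex (-(xi a U ⬝ᵥ (Eᵀ * M * E) *ᵥ xi a U) / 2) ∂μ) := by
        refine mul_le_mul_right ((mul_le_mul_right h2 _).trans ?_) _
        rw [mul_comm (∫⁻ _, _ ∂μ), ← mul_assoc, ← ex_add]
        exact mul_le_mul_left (ex_mono (by linarith)) _
    _ ≤ _ := mul_le_mul_right h3 _

/-- **upper bound** -/
theorem sph_up (hμ : SOInv μ) (hk : 2 ≤ k) {M : Matrix ι ι ℝ} (hM : Mᵀ = M)
    (hB : PD (Eᵀ * M * E)) {K κ : ℝ} (K0 : 0 ≤ K)
    (hK : ∀ y, y ⬝ᵥ (Eᵀ * M * E) *ᵥ y ≤ K * (y ⬝ᵥ y)) {v : ι → ℝ}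
    (hκ : ∀ y, κ ≤ (v + E *ᵥ y) ⬝ᵥ M *ᵥ (v + E *ᵥ y)) {a : Fin k → ℝ} (h0 : 0 < a ⬝ᵥ a)
    {N : ℕ} (N1 : 1 ≤ N) (hN : 600 * (a ⬝ᵥ a) * K ≤ N) :
    Sph μ E M v a ≤ 2 * N * ex (1 - k / 2 + k * Real.log (k / (a ⬝ᵥ a)) / 2 - κ / 2 -
      Real.log (Eᵀ * M * E).det / 2) := by
  set B := Eᵀ * M * E with hBd
  have q : ∀ (s : ℝ) (y : Fin k → ℝ), (v + E *ᵥ (s • y)) ⬝ᵥ M *ᵥ (v + E *ᵥ (s • y)) =
      v ⬝ᵥ M *ᵥ v + 2 * s * (Eᵀ *ᵥ (M *ᵥ v) ⬝ᵥ y) + s * s * (y ⬝ᵥ B *ᵥ y) := fun s y => by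
    have e1 : v ⬝ᵥ M *ᵥ (E *ᵥ y) = Eᵀ *ᵥ (M *ᵥ v) ⬝ᵥ y := by
      rw [dot_symm hM, dotProduct_mulVec, mulVec_transpose]
    have e2 : E *ᵥ y ⬝ᵥ M *ᵥ v = Eᵀ *ᵥ (M *ᵥ v) ⬝ᵥ y := by
      rw [dotProduct_comm, dotProduct_mulVec, mulVec_transpose]
    simp only [mulVec_smul, mulVec_add, add_dotProduct, dotProduct_add, smul_dotProduct,
      dotProduct_smul, smul_eq_mul, e1, e2, quad_E, ← hBd]
    ring
  have mF : Measurable fun y : Fin k → ℝ => ex (-((v + E *ᵥ y) ⬝ᵥ M *ᵥ (v + E *ᵥ y)) / 2) := by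
    fun_prop
  have h := shell (ι := Fin k) IsProj.one (m := k) (by simp) (by omega) (Sph μ E M v)
    (Sph μ E M v a) (ex (-κ / 2 - Real.log B.det / 2)) (K := K) (z := 0) h0 (by linarith)
    (fun w _ hw => ?_) (fun α α0 => ?_) N1 (by rwa [add_zero])
  · refine h.trans (le_of_eq ?_)
    rw [mul_assoc, ← ex_add]
    congr 2; ring
  · set c := √(w ⬝ᵥ w / (a ⬝ᵥ a)) with hc
    have c1 : 1 ≤ c := Real.le_sqrt_of_sq_le (by rw [one_pow, one_le_div h0]; exact hw)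
    have c2 : c * c * (a ⬝ᵥ a) = w ⬝ᵥ w := by
      rw [hc, Real.mul_self_sqrt (div_nonneg (h0.le.trans hw) h0.le), div_mul_cancel₀ _ h0.ne']
    have d : ∀ s : ℝ, (s • a) ⬝ᵥ (s • a) = s * s * (a ⬝ᵥ a) := fun s => by
      rw [smul_dotProduct, dotProduct_smul, smul_eq_mul, smul_eq_mul, mul_assoc]
    have e0 := lint_xi hμ hk mF (a := a) (a' := (1 : ℝ) • a) (by rw [d]; ring)
    have e1 := lint_xi hμ hk mF (a := a) (a' := (-1 : ℝ) • a) (by rw [d]; ring)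
    have e2 := lint_xi hμ hk mF (a := w) (a' := c • a) (by rw [d, c2])
    have e3 := lint_xi hμ hk mF (a := w) (a' := (-c) • a) (by rw [d, ← c2]; ring)
    refine (ENNReal.mul_le_mul_iff_right (a := 2) (by norm_num) (by norm_num)).1 ?_
    rw [mul_left_comm, two_mul, two_mul, Sph, Sph]
    nth_rewrite 2 [e1, e3]
    rw [e0, e2, ← lintegral_add_left (by fun_prop), ← lintegral_add_left (by fun_prop),
      ← lintegral_const_mul' _ _ (ex_ne_top _)]
    refine lintegral_mono_ae ((ae_SO hμ).mono fun U hU => ?_)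
    simp only [xi_smul, q]
    have := @ex_cosh (-(v ⬝ᵥ M *ᵥ v + xi a U ⬝ᵥ B *ᵥ xi a U) / 2)
      (-(v ⬝ᵥ M *ᵥ v + c * c * (xi a U ⬝ᵥ B *ᵥ xi a U)) / 2) (-(Eᵀ *ᵥ (M *ᵥ v) ⬝ᵥ xi a U)) c
      (K * (w ⬝ᵥ w - a ⬝ᵥ a) / 2) c1 (by
        have := hK (xi a U)
        rw [dot_xi a hU] at this
        rw [← c2]
        nlinarith [mul_le_mul_of_nonneg_left this (show 0 ≤ c * c - 1 by nlinarith)])
    convert this using 3 <;> ring
  · set s := (√α)⁻¹ with hs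
    have ss : s * s = α⁻¹ := by rw [hs, ← mul_inv, Real.mul_self_sqrt α0.le]
    simp only [one_mulVec, Sph, zero_mul, zero_div, sub_zero]
    simp_rw [← lintegral_mul_const' _ _ (ex_ne_top _)]
    rw [lintegral_lintegral_swap (by fun_prop)]
    refine (lintegral_mono_ae ((ae_SO hμ).mono fun U hU => ?_)).trans (by
      rw [lintegral_const, measure_univ, mul_one])
    have hmp : MeasurePreserving (fun x => (Matrix.of U)ᵀ *ᵥ x) (gv (Fin k)) (gv (Fin k)) :=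
      ⟨R166.Gauss286.measurable_mulVec _, R166.Gauss286.gv_map_mulVec _ (tp_mul hU)⟩
    have hB' : PD (α⁻¹ • B) := ⟨by rw [transpose_smul, hB.symm], fun x hx => by
      rw [smul_mulVec, dotProduct_smul, smul_eq_mul]; exact mul_pos (inv_pos.2 α0) (hB.pos x hx)⟩
    have h2 := gauss_quad_le hB' (b := (-s) • Eᵀ *ᵥ (M *ᵥ v)) (κ := v ⬝ᵥ M *ᵥ v - κ) fun x => by
      have := hκ (s • x)
      rw [q, ss] at this
      rw [smul_mulVec, dotProduct_smul, smul_dotProduct, smul_eq_mul, smul_eq_mul]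
      linarith
    rw [det_smul, Fintype.card_fin, Real.log_mul (by positivity) hB.det_pos.ne', Real.log_pow,
      Real.log_inv, ← hmp.lintegral_comp (by fun_prop)] at h2
    have h5 := mul_le_mul_right h2 (ex (-(v ⬝ᵥ M *ᵥ v) / 2))
    rw [← lintegral_const_mul' _ _ (ex_ne_top _), ← ex_add] at h5
    rw [← ex_add]
    refine le_trans (le_of_eq (lintegral_congr fun g => ?_)) (h5.trans (le_of_eq ?_))
    · have e := dot_xi g hU
      rw [← ex_add, ← ex_add, xi_smul, q, ss, ← e, smul_mulVec, dotProduct_smul, smul_dotProduct,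
        smul_eq_mul, smul_eq_mul, xi]
      congr 1; ring
    · congr 1; ring

end Crest.Agent.T157.O4T

end
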