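import Crest.Agent.T157.O4T_59
import Crest.Agent.T157.O4Hw_31

/-!
# Row 157, A2 section 4 (helper59): the three tails (linear, `c`, resolvent form)
-/

set_option autoImplicit false
set_option linter.unusedSectionVars false

noncomputable section

namespace Crest.Agent.T157.O4T

open Matrix Finset MeasureTheory Real
open Crest.Agent.Lib.OrthPoinc Crest.Agent.T157.Oc Crest.Agent.T157.E Crest.Agent.T157.Od
open Crest.Agent.T157.Oo Crest.Agent.T157.Mj Crest.Agent.T157.Dq Crest.Agent.T157.Qs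
open Crest.Agent.T157.O4c.W31 (Cv dnn dcs vmv_form vmv_vec)

variable {n k : ℕ}

lemma le_of_sq_le_sq' {a b : ℝ} (h : a ^ 2 ≤ b ^ 2) (hb : 0 ≤ b) : a ≤ b := (abs_le_of_sq_le_sq' h hb).2

/-! ### determinants -/

lemma cv_pd {S : Mn k} {g : ℝ} (h : Cv S g) : PD S := ⟨h.symm, fun y hy =>
  (mul_pos h.g0 ((dnn y).lt_of_ne' fun e => hy (dotProduct_self_eq_zero.1 e))).trans_le (h.co y)⟩

lemma ld_one {S : Mn k} {g c : ℝ} {l : Vn k} (h : Cv (S - c • vecMulVec l l) g)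
    (hS : 0 < S.det) (hl : ∀ y, 2 * c * (l ⬝ᵥ y) ^ 2 ≤ y ⬝ᵥ S *ᵥ y) :
    log S.det - log (S - c • vecMulVec l l).det ≤ 1 := by
  have h1 := h.G_of (b := l) (c := c) fun y => by
    rw [sub_mulVec, dotProduct_sub, smul_mulVec, dotProduct_smul, vmv_form, smul_eq_mul]
    linarith [hl y]
  have h2 := (cv_pd h).det_pos
  set S' := S - c • vecMulVec l l with hS'
  have e : S = S' * (1 + replicateCol Unit (c • S'⁻¹ *ᵥ l) * replicateRow Unit l) := by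
    rw [← vecMulVec_eq, Matrix.mul_add, Matrix.mul_one, mul_vecMulVec, mulVec_smul, h.MG,
      smul_vecMulVec, hS', sub_add_cancel]
  have e2 : S.det = S'.det * (1 + c * (l ⬝ᵥ S'⁻¹ *ᵥ l)) := by
    nth_rewrite 1 [e]
    rw [det_mul, det_one_add_replicateCol_mul_replicateRow, dotProduct_smul, smul_eq_mul]
  refine (log_diff hS h2).trans ?_
  rw [div_le_one h2, e2]
  linarith [mul_le_mul_of_nonneg_left h1 h2.le]

lemma ld_smul {S : Mn k} (hS : 0 < S.det) {θ : ℝ} (h : |θ| ≤ 1 / 4) :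
    log S.det - log ((1 - 2 * θ) • S).det ≤ 2 * (k * θ + 4 * k * θ ^ 2) := by
  obtain ⟨h1, h2⟩ := abs_le.1 h
  have h3 : 0 < 1 - 2 * θ := by linarith
  have h4 : -(2 * θ + 8 * θ ^ 2) ≤ log (1 - 2 * θ) := by
    refine le_trans ?_ (one_sub_inv_le_log_of_pos h3)
    rw [le_sub_comm, inv_le_iff_one_le_mul₀ h3]
    nlinarith [mul_nonneg (sq_nonneg θ) (show 0 ≤ 1 - 4 * θ by linarith)]
  rw [det_smul, log_mul (pow_pos h3 _).ne' hS.ne', log_pow, Fintype.card_fin]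
  linarith [mul_le_mul_of_nonneg_left h4 (Nat.cast_nonneg (α := ℝ) k)]

lemma dg_add_inv {S : Mn k} {b : Vn k} (h : Dg S b) (hb : ∀ i, b i ≠ 0) (l : ℝ) :
    Dg (S + l • S⁻¹) fun i => b i + l * (b i)⁻¹ := by
  obtain ⟨O, hO, rfl⟩ := h
  have e : diagonal b * diagonal (fun i => (b i)⁻¹) = 1 := by
    simp only [diagonal_mul_diagonal, mul_inv_cancel₀ (hb _), diagonal_one]
  refine ⟨O, hO, ?_⟩
  rw [O4c.W31.conj_inv hO, Matrix.inv_eq_right_inv e, ← Matrix.smul_mul, ← Matrix.mul_smul,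
    ← Matrix.add_mul, ← Matrix.mul_add, ← diagonal_smul, diagonal_add]
  rfl

lemma ld_inv {S : Mn k} {b : Vn k} (h : Dg S b) {g : ℝ} (g0 : 0 < g) (hb : ∀ i, g ≤ b i) :
    log S.det - log (S + g ^ 2 • S⁻¹).det ≤ -(g ^ 2 * (∑ i, (b i)⁻¹ ^ 2) / 2) := by
  have b0 : ∀ i, 0 < b i := fun i => g0.trans_le (hb i)
  rw [h.det, (dg_add_inv h (fun i => (b0 i).ne') _).det, log_prod fun i _ => (b0 i).ne',
    log_prod fun i _ => by have := b0 i; positivity, ← sum_sub_distrib, mul_sum, sum_div,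
    ← sum_neg_distrib]
  refine sum_le_sum fun i _ => ?_
  have := b0 i
  refine (log_diff this (by positivity)).trans ?_
  have h1 : g ^ 2 * (b i)⁻¹ ^ 2 ≤ 1 := by
    rw [← mul_pow]; exact pow_le_one₀ (by positivity) (by rw [mul_inv_le_iff₀ this, one_mul]; exact hb i)
  have e : g ^ 2 * (b i)⁻¹ = g ^ 2 * (b i)⁻¹ ^ 2 * b i := by field_simp
  rw [div_le_iff₀ (by positivity), e]
  have h2 : 0 ≤ g ^ 2 * (b i)⁻¹ ^ 2 := by positivity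
  generalize g ^ 2 * (b i)⁻¹ ^ 2 = u at *
  nlinarith [mul_nonneg (mul_nonneg h2 this.le) (sub_nonneg.2 h1)]

/-! ### the tails -/

/-- the coercivity of `A` and the size `ν` of the perturbation -/
structure Co (o : Oo.Orb n k) (f2 : Vn n) (γ B M g η' ν : ℝ) : Prop where
  g0 : 0 < g
  ge : ∀ y, g * (y ⬝ᵥ y) + (1 - η') * (f2 ⬝ᵥ y) ^ 2 ≤ y ⬝ᵥ A0 o *ᵥ y
  e0 : 0 ≤ η'
  v0 : 0 < ν
  e1 : η' + ν ≤ 1 / 4
  sm : 192 * (η' + ν) * B ^ 4 * M ≤ g * (n * γ)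

/-- the prefactor -/
def Pf (n : ℕ) (γ B E M m D : ℝ) (J : ℕ) : ℝ :=
  10 ^ 8 * n ^ 5 * (J + 1) * exp (Et n γ B E M + m * (D + 2) / 2 + 101)

variable {o : Oo.Orb n k} {μ : Measure (Mat k)} [IsProbabilityMeasure μ]
  {x f1 f2 : Vn n} {b : Fin k → ℝ} {X χ γ B E M m D g η' ν : ℝ} {J : ℕ}

lemma EE (h : o.Ok) (y : Vn k) : o.E *ᵥ y ⬝ᵥ o.E *ᵥ y = y ⬝ᵥ y := by rw [dot_E, Et_E h]

lemma form_le {S : Mn n} (h : Op2 S 36) (v : Vn n) : v ⬝ᵥ S *ᵥ v ≤ 6 * (v ⬝ᵥ v) := by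
  have e1 := h v
  have e2 := dnn ((6 : ℝ) • v - S *ᵥ v)
  simp only [sub_dotProduct, dotProduct_sub, smul_dotProduct, dotProduct_smul, smul_eq_mul,
    dotProduct_comm (S *ᵥ v) v] at e2
  linarith

lemma Co.g_le (c : Co o f2 γ B M g η' ν) (y : Vn n) : g * (y ⬝ᵥ y) ≤ y ⬝ᵥ A0 o *ᵥ y := by
  nlinarith [c.ge y, c.e1, c.v0, sq_nonneg (f2 ⬝ᵥ y)]
lemma Co.f2_le (c : Co o f2 γ B M g η' ν) (y : Vn n) : 3 * (f2 ⬝ᵥ y) ^ 2 ≤ 4 * (y ⬝ᵥ A0 o *ᵥ y) := by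
  nlinarith [c.ge y, c.e1, c.v0, sq_nonneg (f2 ⬝ᵥ y), mul_nonneg c.g0.le (dnn y)]
lemma Co.cv (c : Co o f2 γ B M g η' ν) (h : o.Ok) : Cv (A0 o) g := ⟨A0_symm h, c.g0, c.g_le⟩

lemma Co.cvQ (c : Co o f2 γ B M g η' ν) (h : o.Ok) {Q : Mn n} (hQ : Qᵀ = Q)
    (h1 : ∀ y, y ⬝ᵥ Q *ᵥ y ≤ ν * (y ⬝ᵥ A0 o *ᵥ y)) : Cv (o.Eᵀ * (A0 o - Q) * o.E) (g / 2) :=
  ⟨by simp only [transpose_mul, transpose_transpose, transpose_sub, hQ, A0_symm h, Matrix.mul_assoc],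
    half_pos c.g0, fun y => by
    rw [← quad_E, sub_mulVec, dotProduct_sub, ← EE h]
    have := c.g_le (o.E *ᵥ y)
    nlinarith [h1 (o.E *ᵥ y), c.e0, c.e1, mul_nonneg c.g0.le (dnn (o.E *ᵥ y))]⟩

namespace Tl

variable (h : Tl o x f1 f2 b X χ γ B E M m D J) (c : Co o f2 γ B M g η' ν) (hμ : SOInv μ)
include h

lemma det_pos : 0 < (o.Eᵀ * A0 o * o.E).det :=
  h.dg.det ▸ prod_pos fun i _ => by linarith [h.bm i, h.m0]

include c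

lemma g_le_b (i : Fin k) : g ≤ b i := Qe.ge_dg h.dg (fun y => by
  rw [← quad_E, smul_mulVec, one_mulVec, dotProduct_smul, ← EE h.ok]; exact c.g_le _) i

include hμ

/-- the tail lemma for `-6 ≤ Q ≤ ν A` -/
theorem tail' {Q : Mn n} (hQ : Qᵀ = Q) (h1 : ∀ y, y ⬝ᵥ Q *ᵥ y ≤ ν * (y ⬝ᵥ A0 o *ᵥ y))
    (h2 : ∀ y, -(6 * (y ⬝ᵥ y)) ≤ y ⬝ᵥ Q *ᵥ y) {L : ℝ}
    (hL : log (o.Eᵀ * A0 o * o.E).det - log (o.Eᵀ * (A0 o - Q) * o.E).det ≤ 2 * (L + 1))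
    {F : Cube n → Vn n → ℝ} {y : ℝ} (hF : ∀ s ω, Mj.Sph o ω →
      F s ω = xp o s ω ⬝ᵥ Q *ᵥ xp o s ω / 2 - y) :
    pe o μ (fun s ω => if Z2 o s ≤ B ^ 2 * (n * γ) then exp (F s ω) else 0) ≤
      Pf n γ B E M m D J * exp (L - y) := by
  have v0 := c.v0
  have h3 := h.tail hμ hQ (η := η' + ν) (a1 := g / 2) (K := 12) (N := 7200 * n)
    (by linarith [c.e0]) c.e1 (by linarith [c.sm]) (fun y => by
      have a1 := dcs f1 y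
      rw [h.n1, one_mul] at a1
      rw [sub_mulVec, dotProduct_sub]
      have a2 := mul_le_mul_of_nonneg_left (c.ge y) (show 0 ≤ 1 - ν by linarith [c.e0, c.e1])
      nlinarith [h1 y, mul_le_mul_of_nonneg_left a1 c.g0.le, mul_nonneg (mul_nonneg c.e0 v0.le)
        (sq_nonneg (f2 ⬝ᵥ y)), mul_nonneg (mul_nonneg c.g0.le (dnn y))
        (show 0 ≤ 1 / 2 - ν by linarith [c.e0, c.e1])]) (cv_pd (c.cvQ h.ok hQ h1)) (by norm_num)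
    (fun y => by
      rw [← quad_E, sub_mulVec, dotProduct_sub, ← EE h.ok]
      linarith [h2 (o.E *ᵥ y), form_le h.op (o.E *ᵥ y)]) (by have := h.big; omega)
    (by push_cast; linarith)
  rw [pe_congr hμ h.ok (G := fun s ω => exp (-y) * if Z2 o s ≤ B ^ 2 * (n * γ) then
    exp (xp o s ω ⬝ᵥ Q *ᵥ xp o s ω / 2) else 0) fun s ω hω => by
      rw [hF s ω hω, mul_ite, ← exp_add, mul_zero, neg_add_eq_sub], pe_mul]
  refine (mul_le_mul_of_nonneg_left h3 (exp_pos _).le).trans ?_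
  rw [Pf, mul_left_comm, ← exp_add, mul_assoc (_ * _ * _) (exp _), ← exp_add]
  refine mul_le_mul (by push_cast; nlinarith [show (0 : ℝ) ≤ n ^ 5 * (J + 1) by positivity])
    (exp_le_exp.2 (by linarith)) (exp_pos _).le (by positivity)

/-- **linear functionals** -/
theorem tail_lin {l : Vn n} {θ : ℝ} (θ0 : 0 ≤ θ)
    (hl : ∀ y, 2 * θ * (l ⬝ᵥ y) ^ 2 ≤ ν * (y ⬝ᵥ A0 o *ᵥ y)) (y : ℝ) :
    pe o μ (fun s ω => if Z2 o s ≤ B ^ 2 * (n * γ) then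
      exp (θ * ((l ⬝ᵥ xp o s ω) ^ 2 - y ^ 2)) else 0) ≤ Pf n γ B E M m D J * exp (-(θ * y ^ 2)) := by
  have q : ∀ y, y ⬝ᵥ ((2 * θ) • vecMulVec l l) *ᵥ y = 2 * θ * (l ⬝ᵥ y) ^ 2 := fun y => by
    rw [smul_mulVec, dotProduct_smul, vmv_form, smul_eq_mul]
  have hQ : ((2 * θ) • vecMulVec l l)ᵀ = (2 * θ) • vecMulVec l l := by
    rw [transpose_smul, transpose_vecMulVec]
  have h1 := c.cvQ h.ok hQ fun y => (q y).trans_le (hl y)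
  have e : o.Eᵀ * (A0 o - (2 * θ) • vecMulVec l l) * o.E =
      o.Eᵀ * A0 o * o.E - (2 * θ) • vecMulVec (o.Eᵀ *ᵥ l) (o.Eᵀ *ᵥ l) := by
    rw [Matrix.mul_sub, Matrix.sub_mul, Matrix.mul_smul, Matrix.smul_mul, mul_vecMulVec,
      vecMulVec_mul, ← mulVec_transpose]
  rw [← zero_sub]
  refine h.tail' c hμ hQ (fun y => (q y).trans_le (hl y)) (fun y => ?_) ?_ fun s ω _ => by
    rw [q]; ring
  · rw [q]; nlinarith [dnn y, mul_nonneg θ0 (sq_nonneg (l ⬝ᵥ y))]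
  · rw [e] at h1 ⊢
    refine (ld_one h1 h.det_pos fun y => ?_).trans (by norm_num)
    rw [← quad_E, dotProduct_comm, ← dot_E, dotProduct_comm]
    have := (c.cv h.ok).nn (o.E *ᵥ y)
    nlinarith [hl (o.E *ᵥ y), c.e0, c.e1]

/-- **the statistic `c`**, both signs -/
theorem tail_c {θ a : ℝ} (ha : f1 ⬝ᵥ A0 o *ᵥ f1 ≤ a) (hθ : |θ| * (19 * g + 2 * a) ≤ ν * g) (y : ℝ) :
    pe o μ (fun s ω => if Z2 o s ≤ B ^ 2 * (n * γ) then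
      exp (θ * (A0 o *ᵥ xp o s ω ⬝ᵥ Pm o *ᵥ xp o s ω - k) - y) else 0) ≤
      Pf n γ B E M m D J * exp (4 * k * θ ^ 2 - y) := by
  have cA := c.cv h.ok
  have g0 := c.g0
  have a0 : 0 ≤ a := (cA.nn f1).trans ha
  have q : ∀ y, y ⬝ᵥ (θ • (Pm o * A0 o + A0 o * Pm o)) *ᵥ y = 2 * θ * (A0 o *ᵥ y ⬝ᵥ Pm o *ᵥ y) :=
    fun y => by
    rw [smul_mulVec, dotProduct_smul, add_mulVec, dotProduct_add, ← mulVec_mulVec, ← mulVec_mulVec,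
      dot_P, symm_dot cA.symm y, dotProduct_comm (Pm o *ᵥ y), smul_eq_mul]
    ring
  have θ1 : |θ| * 19 ≤ ν := le_of_mul_le_mul_right (by nlinarith [mul_nonneg (abs_nonneg θ) a0]) g0
  have q1 : ∀ y, |2 * θ * (A0 o *ᵥ y ⬝ᵥ Pm o *ᵥ y)| ≤ ν * (y ⬝ᵥ A0 o *ᵥ y) := fun y => by
    have e1 : A0 o *ᵥ y ⬝ᵥ Pm o *ᵥ y = y ⬝ᵥ A0 o *ᵥ y - y ⬝ᵥ A0 o *ᵥ (Qm o *ᵥ y) := by
      rw [Qm_vec, mulVec_sub, dotProduct_sub, symm_dot cA.symm y (Pm o *ᵥ y)]; ring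
    have e2 : ∀ u v : Vn n, 2 * |u ⬝ᵥ A0 o *ᵥ v| ≤ u ⬝ᵥ A0 o *ᵥ u + v ⬝ᵥ A0 o *ᵥ v := fun u v =>
      le_of_sq_le_sq' (by
        rw [mul_pow, sq_abs]
        linarith [cA.cs u v, sq_nonneg (u ⬝ᵥ A0 o *ᵥ u - v ⬝ᵥ A0 o *ᵥ v)]) (add_nonneg (cA.nn u) (cA.nn v))
    have e3 := e2 ((f1 ⬝ᵥ y) • f1) ((f2 ⬝ᵥ y) • f2)
    have e4 : Qm o *ᵥ y ⬝ᵥ A0 o *ᵥ (Qm o *ᵥ y) ≤ 2 * ((f1 ⬝ᵥ y) ^ 2 * a) + 12 * (f2 ⬝ᵥ y) ^ 2 := by
      have b1 := le_abs_self (((f1 ⬝ᵥ y) • f1) ⬝ᵥ A0 o *ᵥ ((f2 ⬝ᵥ y) • f2))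
      have b2 := form_le h.op f2
      have b3 : f2 ⬝ᵥ A0 o *ᵥ f1 = f1 ⬝ᵥ A0 o *ᵥ f2 := by rw [symm_dot cA.symm, dotProduct_comm]
      rw [h.n2] at b2
      simp only [h.Qv, mulVec_add, mulVec_smul, add_dotProduct, dotProduct_add, smul_dotProduct,
        dotProduct_smul, smul_eq_mul, b3] at b1 e3 ⊢
      nlinarith [mul_le_mul_of_nonneg_left ha (sq_nonneg (f1 ⬝ᵥ y)),
        mul_le_mul_of_nonneg_left b2 (sq_nonneg (f2 ⬝ᵥ y))]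
    have e5 := dcs f1 y
    rw [h.n1, one_mul] at e5
    have e6 : g * (f1 ⬝ᵥ y) ^ 2 ≤ y ⬝ᵥ A0 o *ᵥ y := (mul_le_mul_of_nonneg_left e5 g0.le).trans (c.g_le y)
    have e7 : g * (2 * |A0 o *ᵥ y ⬝ᵥ Pm o *ᵥ y|) ≤ (19 * g + 2 * a) * (y ⬝ᵥ A0 o *ᵥ y) := by
      have b1 : 2 * |A0 o *ᵥ y ⬝ᵥ Pm o *ᵥ y| ≤
          19 * (y ⬝ᵥ A0 o *ᵥ y) + 2 * ((f1 ⬝ᵥ y) ^ 2 * a) := by
        have := abs_sub (y ⬝ᵥ A0 o *ᵥ y) (y ⬝ᵥ A0 o *ᵥ (Qm o *ᵥ y))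
        rw [abs_of_nonneg (cA.nn y), ← e1] at this
        linarith [e2 y (Qm o *ᵥ y), c.f2_le y]
      nlinarith [mul_le_mul_of_nonneg_left b1 g0.le, mul_le_mul_of_nonneg_left e6 a0]
    rw [abs_mul, abs_mul, abs_two]
    refine le_of_mul_le_mul_left ?_ g0
    linarith [mul_le_mul_of_nonneg_left e7 (abs_nonneg θ), mul_le_mul_of_nonneg_right hθ (cA.nn y)]
  have e : o.Eᵀ * (A0 o - θ • (Pm o * A0 o + A0 o * Pm o)) * o.E =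
      (1 - 2 * θ) • (o.Eᵀ * A0 o * o.E) := by
    have e1 : o.Eᵀ * (Pm o * A0 o) = o.Eᵀ * A0 o := by
      rw [Pm, ← Matrix.mul_assoc, ← Matrix.mul_assoc, h.ok.iso, Matrix.one_mul]
    have e2 : o.Eᵀ * (A0 o * Pm o) * o.E = o.Eᵀ * A0 o * o.E := by
      simp only [Pm, Matrix.mul_assoc, h.ok.iso, Matrix.mul_one]
    rw [Matrix.mul_sub, Matrix.sub_mul, Matrix.mul_smul, Matrix.smul_mul, Matrix.mul_add,
      Matrix.add_mul, e1, e2, ← two_smul ℝ, smul_smul, sub_smul, one_smul, mul_comm θ]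
  rw [show 4 * k * θ ^ 2 - y = k * θ + 4 * k * θ ^ 2 - (θ * k + y) by ring]
  refine h.tail' c hμ (Q := θ • (Pm o * A0 o + A0 o * Pm o)) ?_
    (fun y => (q y).trans_le (abs_le.1 (q1 y)).2) (fun y => ?_) ?_ fun s ω _ => by rw [q]; ring
  · rw [transpose_smul, transpose_add, transpose_mul, transpose_mul, Pm_symm, cA.symm, add_comm]
  · rw [q]
    nlinarith [(abs_le.1 (q1 y)).1, form_le h.op y, cA.nn y, c.e0, c.e1]
  · rw [e]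
    linarith [ld_smul h.det_pos (θ := θ) (by linarith [c.e0, c.e1, abs_nonneg θ])]

/-- **the resolvent form is large** -/
theorem tail_inv (y : ℝ) :
    pe o μ (fun s ω => if Z2 o s ≤ B ^ 2 * (n * γ) then exp (g ^ 2 * (y - o.Eᵀ *ᵥ xp o s ω ⬝ᵥ
      (o.Eᵀ * A0 o * o.E)⁻¹ *ᵥ (o.Eᵀ *ᵥ xp o s ω) / 2)) else 0) ≤
      Pf n γ B E M m D J * exp (g ^ 2 * (y - (∑ i, (b i)⁻¹ ^ 2) / 4)) := by
  have g0 := c.g0
  have cB : Cv (o.Eᵀ * A0 o * o.E) g := ⟨h.dg.symm, g0, fun y => by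
    rw [← quad_E, ← EE h.ok]; exact c.g_le _⟩
  have g6 : g ≤ 6 := by simpa only [h.n1, mul_one] using (c.g_le f1).trans (form_le h.op f1)
  set S := o.Eᵀ * A0 o * o.E with hS
  have q : ∀ y, y ⬝ᵥ (-(g ^ 2 • (o.E * S⁻¹ * o.Eᵀ))) *ᵥ y =
      -(g ^ 2 * (o.Eᵀ *ᵥ y ⬝ᵥ S⁻¹ *ᵥ (o.Eᵀ *ᵥ y))) := fun y => by
    rw [neg_mulVec, dotProduct_neg, smul_mulVec, dotProduct_smul, quad_E, transpose_transpose,
      smul_eq_mul]
  have e : o.Eᵀ * (A0 o - -(g ^ 2 • (o.E * S⁻¹ * o.Eᵀ))) * o.E = S + g ^ 2 • S⁻¹ := by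
    rw [sub_neg_eq_add, Matrix.mul_add, Matrix.add_mul, Matrix.mul_smul, Matrix.smul_mul]
    simp only [Matrix.mul_assoc, h.ok.iso, Matrix.mul_one]
    rw [← Matrix.mul_assoc o.Eᵀ o.E, h.ok.iso, Matrix.one_mul, hS, Matrix.mul_assoc]
  rw [show g ^ 2 * (y - (∑ i, (b i)⁻¹ ^ 2) / 4) =
    -(g ^ 2 * (∑ i, (b i)⁻¹ ^ 2) / 4) - -(g ^ 2 * y) by ring]
  refine h.tail' c hμ (Q := -(g ^ 2 • (o.E * S⁻¹ * o.Eᵀ))) ?_ (fun y => ?_) (fun y => ?_) ?_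
    fun s ω _ => by rw [q]; ring
  · simp only [transpose_neg, transpose_smul, transpose_mul, transpose_transpose, cB.symm',
      Matrix.mul_assoc]
  · rw [q]
    linarith [mul_nonneg (sq_nonneg g) (cB.nn' (o.Eᵀ *ᵥ y)), mul_nonneg c.v0.le ((c.cv h.ok).nn y)]
  · have a1 := cB.G_le (o.Eᵀ *ᵥ y)
    have a2 := pyth h.ok y
    rw [Et_dot] at a1
    rw [dot_P, P_P h.ok] at a2
    rw [q]
    nlinarith [mul_le_mul_of_nonneg_left a1 g0.le, dnn (Qm o *ᵥ y), dnn y,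
      mul_le_mul_of_nonneg_right g6 (dnn y)]
  · rw [e]
    linarith [ld_inv h.dg g0 (h.g_le_b c)]

end Tl

end Crest.Agent.T157.O4T

end
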