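import Crest.Agent.T157.O4TA_59
import Crest.Agent.T157.O4TB_59

/-!
# Row 157, A2 section 4 (helper59): the tail lemma (M0)

Exponential moments of quadratic forms of `ξ̂` under the joint law of one orbit.
-/

set_option autoImplicit false
set_option linter.unusedSectionVars false

noncomputable section

namespace Crest.Agent.T157.O4T

open Matrix Finset MeasureTheory Real
open scoped ENNReal
open Crest.Agent.Lib.OrthPoinc Crest.Agent.T157.Oc Crest.Agent.T157.E Crest.Agent.T157.Od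
open Crest.Agent.T157.Oo Crest.Agent.T157.Mj Crest.Agent.T157.Dq Crest.Agent.T157.Qs
open Crest.Agent.T157.Conc (ex)

variable {n k : ℕ}

/-- the hypotheses of the tail lemma; `b` are the eigenvalues of `Eᵀ A E` -/
structure Tl (o : Oo.Orb n k) (x f1 f2 : Vn n) (b : Fin k → ℝ) (X χ γ B E M m D : ℝ) (J : ℕ) :
    Prop where
  ok : o.Ok
  dim : k + 2 = n
  hp : ∀ i, o.p i = tanh (x i)
  hh : o.h = x + χ • o.p
  hz : o.z = χ + χ⁻¹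
  chi : n * χ = n - o.p ⬝ᵥ o.p
  hq : Qm o = vecMulVec f1 f1 + vecMulVec f2 f2
  n1 : f1 ⬝ᵥ f1 = 1
  n2 : f2 ⬝ᵥ f2 = 1
  o12 : f1 ⬝ᵥ f2 = 0
  hx : ∀ i, x i = X * f1 i
  X0 : 0 < X
  xh : XH x γ B E M
  B1 : 1 ≤ B
  be : B ^ 2 * γ ≤ 1 / 16
  mb : M ≤ B ^ 2 * γ * (n * γ)
  big : 256 ≤ n
  op : Op2 (A0 o) 36
  dg : Dg (o.Eᵀ * A0 o * o.E) b
  m0 : 0 < m
  bm : ∀ i, 2 * m ≤ b i
  t1 : |n * χ - ∑ i, (b i)⁻¹| + 16 * √(o.p ⬝ᵥ o.p) + 32 ≤ D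
  t2 : 5 * m * D + 20 ≤ m ^ 2 * ∑ i, (b i)⁻¹ ^ 2
  hJ : 48 * (n : ℝ) ≤ m * J

variable {o : Oo.Orb n k} {μ : Measure (Mat k)} [IsProbabilityMeasure μ]
  {x f1 f2 : Vn n} {b : Fin k → ℝ} {X χ γ B E M m D : ℝ} {J : ℕ}

/-- the spherical integral at `s` -/
def II (o : Oo.Orb n k) (μ : Measure (Mat k)) (S : Mn n) (s : Cube n) : ℝ :=
  ∫ U, exp (-(xp o s (om o U) ⬝ᵥ S *ᵥ xp o s (om o U)) / 2) ∂μ

lemma II_nonneg (S : Mn n) (s : Cube n) : 0 ≤ II o μ S s :=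
  integral_nonneg fun _ => (exp_pos _).le

lemma II_eq (hμ : SOInv μ) (S : Mn n) (s : Cube n) :
    O4T.Sph μ o.E S (Qm o *ᵥ sh o s) (√(R2 o s) • e0 k) = ENNReal.ofReal (II o μ S s) := by
  rw [II, ofReal_integral_eq_lintegral_ofReal (intg hμ (by fun_prop))
    (ae_of_all _ fun _ => (exp_pos _).le), O4T.Sph]
  simp only [xp, om, xi_smul, mulVec_smul, ex]

lemma aa_eq (h : o.Ok) (s : Cube n) : (√(R2 o s) • e0 k) ⬝ᵥ (√(R2 o s) • e0 k) = R2 o s := by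
  rw [smul_dotProduct, dotProduct_smul, e0_dot h, smul_eq_mul, smul_eq_mul, mul_one,
    Real.mul_self_sqrt (R2_nonneg s)]

namespace Tl

variable (h : Tl o x f1 f2 b X χ γ B E M m D J)
include h

lemma Qv (v : Vn n) : Qm o *ᵥ v = (f1 ⬝ᵥ v) • f1 + (f2 ⬝ᵥ v) • f2 := by
  rw [h.hq, add_mulVec, vecMulVec_mulVec, vecMulVec_mulVec, op_smul_eq_smul, op_smul_eq_smul]

lemma QQ (v : Vn n) : Qm o *ᵥ v ⬝ᵥ Qm o *ᵥ v = (f1 ⬝ᵥ v) ^ 2 + (f2 ⬝ᵥ v) ^ 2 := by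
  simp only [h.Qv, add_dotProduct, dotProduct_add, smul_dotProduct, dotProduct_smul, h.n1, h.n2,
    h.o12, dotProduct_comm f2 f1, smul_eq_mul]
  ring

lemma fm : Fm x o.p f1 f2 X χ :=
  ⟨h.hp, h.chi, funext h.hx, h.X0, h.n1, h.n2, h.o12, by rw [← h.Qv, Q_p h.ok]⟩

lemma Q1 : Qm o *ᵥ f1 = f1 := by simp [h.Qv, h.n1, dotProduct_comm f2 f1, h.o12]
lemma Q2 : Qm o *ᵥ f2 = f2 := by simp [h.Qv, h.n2, h.o12]

lemma R2_div (s : Cube n) : R2 o s / n = 1 - ((f1 ⬝ᵥ sv s) ^ 2 + (f2 ⬝ᵥ sv s) ^ 2) / n := by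
  have N0 : (0 : ℝ) < n := by exact_mod_cast (by have := h.big; omega : 0 < n)
  rw [← h.QQ, ← Z2, eq_sub_iff_add_eq, ← add_div, R2_add h.ok, div_self N0.ne']

/-- factorisation of the weight -/
lemma wx_eq (s : Cube n) {ω : Vn n} (hω : Mj.Sph o ω) (Q : Mn n) :
    wx o s (xp o s ω) * exp (xp o s ω ⬝ᵥ Q *ᵥ xp o s ω / 2) =
      exp (o.z * (n + o.p ⬝ᵥ o.p) / 2 + (x ⬝ᵥ sv s - o.p ⬝ᵥ sv s / χ)) *
        exp (-(xp o s ω ⬝ᵥ (A0 o - Q) *ᵥ xp o s ω) / 2) := by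
  have e : xp o s ω ⬝ᵥ xp o s ω = n - 2 * (o.p ⬝ᵥ sv s) + o.p ⬝ᵥ o.p := by
    have e1 := pyth h.ok (sh o s)
    have e2 := R2_eq (o := o) s
    rw [P_sh h.ok, dot_P, P_P h.ok, ← e2] at e1
    rw [pyth h.ok (xp o s ω), P_xp h.ok hω, Q_xp h.ok hω, smul_dotProduct, dotProduct_smul, hω.one,
      smul_eq_mul, smul_eq_mul, mul_one, Real.mul_self_sqrt (R2_nonneg s), ← e1, sh,
      sub_dotProduct, dotProduct_sub, dotProduct_sub, sv_dot_self, dotProduct_comm (sv s)]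
    ring
  rw [wx, ← exp_add, ← exp_add, A0, sub_mulVec, sub_mulVec, dotProduct_sub, dotProduct_sub,
    smul_mulVec, one_mulVec, dotProduct_smul, e, h.hh, h.hz, add_dotProduct, smul_dotProduct]
  simp only [smul_eq_mul]
  congr 1; ring

lemma II_low (hμ : SOInv μ) {s : Cube n} (h1 : |f1 ⬝ᵥ (sv s - o.p)| ≤ 4)
    (h2 : |f2 ⬝ᵥ (sv s - o.p)| ≤ 4) :
    exp (x ⬝ᵥ sv s) * exp (-(o.p ⬝ᵥ o.p / χ) - n * log χ / 2 - 98 - (∑ i, log (b i)) / 2 - k / 2 +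
      k * log (k / n) / 2 - m * (D + 2) / 2) ≤
      4 * (J + 1) * (exp (x ⬝ᵥ sv s - o.p ⬝ᵥ sv s / χ) * II o μ (A0 o) s) := by
  have hk := h.ok.two
  have N : (256 : ℝ) ≤ n := by exact_mod_cast h.big
  have kn : (k : ℝ) + 2 = n := by exact_mod_cast h.dim
  have m0 := h.m0
  have pp := h.fm.pp h.xh
  have γ0 : 0 ≤ γ := nonneg_of_mul_nonneg_right ((Cond.dot_self_nonneg _).trans pp) (by linarith)
  have γβ : γ ≤ 1 / 16 := (le_mul_of_one_le_left γ0 (one_le_pow₀ h.B1)).trans h.be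
  have hχ := h.chi
  have χ0 : 0 < χ := (mul_pos_iff_of_pos_left (by linarith : (0 : ℝ) < n)).1 (by nlinarith)
  have eR := R2_add h.ok s
  have ps := h.fm.pdot (sv s)
  have p0 := h.fm.pdot o.p
  rw [Z2, h.QQ] at eR
  rw [dotProduct_sub] at h1 h2
  have vv := h.QQ (sh o s)
  rw [sh, dotProduct_sub, dotProduct_sub, ← sh] at vv
  have q1 : |f1 ⬝ᵥ o.p| ≤ √(o.p ⬝ᵥ o.p) :=
    abs_le_sqrt (by linarith [mul_self_nonneg (f2 ⬝ᵥ o.p)])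
  have q2 : |f2 ⬝ᵥ o.p| ≤ √(o.p ⬝ᵥ o.p) :=
    abs_le_sqrt (by linarith [mul_self_nonneg (f1 ⬝ᵥ o.p)])
  generalize f1 ⬝ᵥ sv s = y at *
  generalize f2 ⬝ᵥ sv s = τ at *
  generalize f1 ⬝ᵥ o.p = p1 at *
  generalize f2 ⬝ᵥ o.p = p2 at *
  have d1 : (y - p1) ^ 2 ≤ 4 ^ 2 := sq_le_sq.2 (by rwa [abs_of_pos (by norm_num : (0 : ℝ) < 4)])
  have d2 : (τ - p2) ^ 2 ≤ 4 ^ 2 := sq_le_sq.2 (by rwa [abs_of_pos (by norm_num : (0 : ℝ) < 4)])
  have R1 : n / 2 ≤ R2 o s := by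
    nlinarith only [eR, d1, d2, pp, p0, N, mul_le_mul_of_nonneg_left γβ (by linarith : (0 : ℝ) ≤ n),
      sq_nonneg (y - p1 - p1), sq_nonneg (τ - p2 - p2)]
  have R0 : 0 < R2 o s := by linarith
  have Rn : R2 o s ≤ n := by linarith [sq_nonneg y, sq_nonneg τ]
  have c1 := abs_le.1 ((abs_mul _ _).trans_le (mul_le_mul q1 h1 (abs_nonneg _) (sqrt_nonneg _)))
  have c2 := abs_le.1 ((abs_mul _ _).trans_le (mul_le_mul q2 h2 (abs_nonneg _) (sqrt_nonneg _)))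
  have J0 : 0 < J := by
    rcases J with _ | J
    · have := h.hJ; simp only [Nat.cast_zero, mul_zero] at this; linarith
    · omega
  have h3 := sph_low hμ hk.le h.dg (Qm o *ᵥ sh o s) (a := √(R2 o s) • e0 k) (D := D)
    (by rwa [aa_eq h.ok]) m0 h.bm h.t2 (by
      rw [aa_eq h.ok]
      have := h.t1
      exact abs_le.2 ⟨by linarith [neg_abs_le (n * χ - ∑ i, (b i)⁻¹)], by
        linarith [le_abs_self (n * χ - ∑ i, (b i)⁻¹), sq_nonneg (y - p1), sq_nonneg (τ - p2)]⟩) J0 (by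
      rw [aa_eq h.ok]
      have := mul_le_mul h.hJ R1 (by linarith) (by positivity)
      have : (k : ℝ) ^ 2 ≤ n ^ 2 := pow_le_pow_left₀ (by positivity) (by linarith) 2
      linarith)
  rw [II_eq hμ, aa_eq h.ok, ex, show (4 * (J + 1) : ℝ≥0∞) = ENNReal.ofReal (4 * (J + 1)) by
    rw [ENNReal.ofReal_mul (by norm_num), ENNReal.ofReal_add (by positivity) zero_le_one]; simp,
    ← ENNReal.ofReal_mul (by positivity), ENNReal.ofReal_le_ofReal_iff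
      (mul_nonneg (by positivity) (II_nonneg _ _))] at h3
  rw [mul_left_comm]
  refine le_trans ?_ (mul_le_mul_of_nonneg_left h3 (exp_pos _).le)
  rw [← exp_add, ← exp_add]
  refine exp_le_exp.2 ?_
  have a1 : Qm o *ᵥ sh o s ⬝ᵥ A0 o *ᵥ (Qm o *ᵥ sh o s) ≤ 192 := by
    have e1 := h.op (Qm o *ᵥ sh o s)
    have e2 := Cond.dot_self_nonneg ((6 : ℝ) • Qm o *ᵥ sh o s - A0 o *ᵥ (Qm o *ᵥ sh o s))
    simp only [sub_dotProduct, dotProduct_sub, smul_dotProduct, dotProduct_smul, smul_eq_mul,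
      dotProduct_comm (A0 o *ᵥ _) (Qm o *ᵥ sh o s)] at e2
    linarith
  have k0 : (0 : ℝ) < k := by linarith
  have a2 : m * (R2 o s / k) ≤ m * 2 :=
    mul_le_mul_of_nonneg_left (by rw [div_le_iff₀ k0]; linarith) m0.le
  have a3 : log (k / R2 o s) = log (k / n) - log (R2 o s / n) := by
    rw [← log_div (by positivity) (by positivity)]; congr 1; field_simp
  have a4 : -1 ≤ log (R2 o s / n) := le_trans (by
    rw [inv_div, le_sub_comm, div_le_iff₀ R0]; linarith) (one_sub_inv_le_log_of_pos (by positivity))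
  have a5 : n * (log (R2 o s / n) - log χ) ≤ 2 * ((o.p ⬝ᵥ o.p - o.p ⬝ᵥ sv s) / χ) := by
    refine (mul_le_mul_of_nonneg_left (log_diff (by positivity) χ0) (by linarith)).trans ?_
    rw [← mul_div_assoc, ← mul_div_assoc, mul_sub, mul_div_cancel₀ _ (by positivity)]
    exact div_le_div_of_nonneg_right (by linarith [sq_nonneg (y - p1), sq_nonneg (τ - p2)]) χ0.le
  rw [sub_div] at a5
  rw [a3]
  have a6 : k * log (R2 o s / n) = n * log (R2 o s / n) - 2 * log (R2 o s / n) := by rw [← kn]; ring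
  linarith

variable {Q : Mn n} {η a1 K : ℝ} {N : ℕ}

lemma II_up (hμ : SOInv μ) (hQ : Qᵀ = Q)
    (hA : ∀ y, a1 * (f1 ⬝ᵥ y) ^ 2 + (1 - η) * (f2 ⬝ᵥ y) ^ 2 ≤ y ⬝ᵥ (A0 o - Q) *ᵥ y)
    (hP : PD (o.Eᵀ * (A0 o - Q) * o.E)) (K0 : 0 ≤ K)
    (hK : ∀ y, y ⬝ᵥ (o.Eᵀ * (A0 o - Q) * o.E) *ᵥ y ≤ K * (y ⬝ᵥ y)) (N1 : 1 ≤ N)
    (hN : 600 * n * K ≤ N) {s : Cube n} (hs : Z2 o s ≤ B ^ 2 * (n * γ)) :
    II o μ (A0 o - Q) s ≤ 2 * N * exp (1 - k / 2 + k * log (k / n) / 2 -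
      log (o.Eᵀ * (A0 o - Q) * o.E).det / 2) *
      exp (-(n * log (1 - ((f1 ⬝ᵥ sv s) ^ 2 + (f2 ⬝ᵥ sv s) ^ 2) / n) / 2) -
      (a1 * (f1 ⬝ᵥ sv s - f1 ⬝ᵥ o.p) ^ 2 + (1 - η) * (f2 ⬝ᵥ sv s - f2 ⬝ᵥ o.p) ^ 2) / 2) := by
  have hk := h.ok.two
  have N0 : (256 : ℝ) ≤ n := by exact_mod_cast h.big
  have kn : (k : ℝ) + 2 = n := by exact_mod_cast h.dim
  have eR := R2_add h.ok s
  have R0 : 0 < R2 o s := by nlinarith [h.be]
  have Rn : R2 o s ≤ n := by linarith [Z2_nonneg (o := o) s]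
  have e : ∀ {f : Vn n}, Qm o *ᵥ f = f → ∀ y, f ⬝ᵥ (Qm o *ᵥ sh o s + o.E *ᵥ y) =
      f ⬝ᵥ sv s - f ⬝ᵥ o.p := fun {f} hf y => by
    rw [← hf, ← dot_Q, mulVec_add, Q_Q h.ok, Q_E h.ok, add_zero, dot_Q, hf, sh, dotProduct_sub]
  have h3 := sph_up hμ hk.le (E := o.E) (M := A0 o - Q) (by rw [transpose_sub, hQ, A0_symm h.ok]) hP
    K0 hK (v := Qm o *ᵥ sh o s) (a := √(R2 o s) • e0 k)
    (κ := a1 * (f1 ⬝ᵥ sv s - f1 ⬝ᵥ o.p) ^ 2 + (1 - η) * (f2 ⬝ᵥ sv s - f2 ⬝ᵥ o.p) ^ 2)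
    (fun y => by rw [← e h.Q1 y, ← e h.Q2 y]; exact hA _) (by rwa [aa_eq h.ok]) N1 (by
      rw [aa_eq h.ok]; nlinarith [mul_le_mul_of_nonneg_right Rn K0])
  rw [II_eq hμ, aa_eq h.ok, ex, show (2 * N : ℝ≥0∞) = ENNReal.ofReal (2 * N) by
    rw [ENNReal.ofReal_mul (by norm_num)]; simp, ← ENNReal.ofReal_mul (by positivity),
    ENNReal.ofReal_le_ofReal_iff (by positivity)] at h3
  refine h3.trans ?_
  rw [mul_assoc (2 * N : ℝ), ← exp_add, ← h.R2_div]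
  refine mul_le_mul_of_nonneg_left (exp_le_exp.2 ?_) (by positivity)
  have k0 : (0 : ℝ) < k := by linarith
  have a3 : log (k / R2 o s) = log (k / n) - log (R2 o s / n) := by
    rw [← log_div (by positivity) (by positivity)]; congr 1; field_simp
  have a4 : log (R2 o s / n) ≤ 0 := log_nonpos (by positivity) ((div_le_one (by linarith)).2 Rn)
  have a6 : k * log (R2 o s / n) = n * log (R2 o s / n) - 2 * log (R2 o s / n) := by rw [← kn]; ring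
  rw [a3]
  linarith

/-- **the tail lemma** -/
theorem tail (hμ : SOInv μ) (hQ : Qᵀ = Q) (η0 : 0 ≤ η) (η1 : η ≤ 1 / 4)
    (ha : 96 * η * B ^ 4 * M ≤ a1 * (n * γ))
    (hA : ∀ y, a1 * (f1 ⬝ᵥ y) ^ 2 + (1 - η) * (f2 ⬝ᵥ y) ^ 2 ≤ y ⬝ᵥ (A0 o - Q) *ᵥ y)
    (hP : PD (o.Eᵀ * (A0 o - Q) * o.E)) (K0 : 0 ≤ K)
    (hK : ∀ y, y ⬝ᵥ (o.Eᵀ * (A0 o - Q) * o.E) *ᵥ y ≤ K * (y ⬝ᵥ y)) (N1 : 1 ≤ N)
    (hN : 600 * n * K ≤ N) :
    pe o μ (fun s ω => if Z2 o s ≤ B ^ 2 * (n * γ) then exp (xp o s ω ⬝ᵥ Q *ᵥ xp o s ω / 2) else 0) ≤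
      10 ^ 4 * n ^ 4 * (J + 1) * N * exp (Et n γ B E M + m * (D + 2) / 2 + 100 +
        (log (o.Eᵀ * A0 o * o.E).det - log (o.Eᵀ * (A0 o - Q) * o.E).det) / 2) := by
  have N0 : (256 : ℝ) ≤ n := by exact_mod_cast h.big
  have hb : ∀ i, 0 < b i := fun i => by linarith [h.bm i, h.m0]
  set c0 := o.z * (n + o.p ⬝ᵥ o.p) / 2
  have e1 : ∀ (Q : Mn n) s, ∫ U, wx o s (xp o s (om o U)) *
      exp (xp o s (om o U) ⬝ᵥ Q *ᵥ xp o s (om o U) / 2) ∂μ =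
      exp c0 * (exp (x ⬝ᵥ sv s - o.p ⬝ᵥ sv s / χ) * II o μ (A0 o - Q) s) := fun Q s => by
    rw [← mul_assoc, ← exp_add, II, ← integral_const_mul]
    exact integral_congr_ae ((Orb.ae_SO hμ).mono fun U hU => h.wx_eq s (sph_om h.ok hU) Q)
  have e2 := e1 0
  simp only [zero_mulVec, dotProduct_zero, zero_div, exp_zero, mul_one, sub_zero] at e2
  rw [pe, div_le_iff₀ (Zp_pos hμ), integral_finsetSum _ fun s _ => intg hμ (by split_ifs <;> fun_prop),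
    integral_finsetSum _ fun s _ => intg hμ (by fun_prop)]
  have e3 : ∀ s, ∫ U, wx o s (xp o s (om o U)) * (if Z2 o s ≤ B ^ 2 * (n * γ) then
      exp (xp o s (om o U) ⬝ᵥ Q *ᵥ xp o s (om o U) / 2) else 0) ∂μ = if Z2 o s ≤ B ^ 2 * (n * γ) then
      exp c0 * (exp (x ⬝ᵥ sv s - o.p ⬝ᵥ sv s / χ) * II o μ (A0 o - Q) s) else 0 := fun s => by
    split_ifs
    · exact e1 Q s
    · simp
  simp only [e2, e3, ← sum_filter, ← mul_sum]
  rw [mul_left_comm _ (exp c0)]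
  refine mul_le_mul_of_nonneg_left ?_ (exp_pos _).le
  have u1 := cube_up (by have := h.big; omega) h.fm h.xh h.B1 h.be h.mb η0 η1 ha
    {s | Z2 o s ≤ B ^ 2 * (n * γ)} fun s hs => by rw [← h.QQ]; exact (mem_filter.1 hs).2
  have u2 := cube_low h.hp h.n1.le h.n2.le
  have u3 := sum_le_sum fun s (hs : s ∈ ({s | |f1 ⬝ᵥ (sv s - o.p)| ≤ 4 ∧ |f2 ⬝ᵥ (sv s - o.p)| ≤ 4} :
    Finset (Cube n))) => h.II_low hμ (mem_filter.1 hs).2.1 (mem_filter.1 hs).2.2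
  rw [← sum_mul, ← mul_sum] at u3
  replace u3 := (mul_le_mul_of_nonneg_right ((div_le_iff₀' two_pos).2 u2) (exp_pos _).le).trans
    (u3.trans (mul_le_mul_of_nonneg_left (sum_le_sum_of_subset_of_nonneg (subset_univ _)
      fun s _ _ => mul_nonneg (exp_pos _).le (II_nonneg _ _)) (by positivity)))
  refine (sum_le_sum fun s hs => mul_le_mul_of_nonneg_left (h.II_up hμ hQ hA hP K0 hK N1 hN
    (mem_filter.1 hs).2) (exp_pos _).le).trans ?_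
  simp only [mul_left_comm (exp (x ⬝ᵥ _ - _)), ← exp_add, ← mul_sum, ← add_sub_assoc,
    ← sub_eq_add_neg]
  refine (mul_le_mul_of_nonneg_left u1 (by positivity)).trans ?_
  refine le_trans ?_ (mul_le_mul_of_nonneg_left ((div_le_iff₀' (by positivity)).2 u3) (by positivity))
  have u4 : (8 * n * (2 * n : ℕ) + 1 : ℝ) ^ 2 ≤ 625 * n ^ 4 := by
    push_cast
    nlinarith [pow_le_pow_left₀ (by positivity) (show (8 * n * (2 * n) + 1 : ℝ) ≤ 25 * n ^ 2 by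
      nlinarith) 2]
  rw [h.dg.det, log_prod fun i _ => (hb i).ne']
  generalize (8 * n * (2 * n : ℕ) + 1 : ℝ) ^ 2 = G at *
  have e4 : ∀ a b c d e : ℝ, a + b = c + (d + e) → 2 * N * exp a * (G * (2 ^ n * exp b)) ≤
      10 ^ 4 * n ^ 4 * (J + 1) * N * exp c * (2 ^ n * exp d / 2 * exp e / (4 * (J + 1))) :=
    fun a b c d e H => by
    have : exp a * exp b = exp c * (exp d * exp e) := by rw [← exp_add, ← exp_add, ← exp_add, H]
    calc _ = G * (2 * N * 2 ^ n * (exp a * exp b)) := by ring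
      _ ≤ 625 * n ^ 4 * (2 * N * 2 ^ n * (exp a * exp b)) :=
        mul_le_mul_of_nonneg_right u4 (by positivity)
      _ = _ := by rw [this]; field_simp; ring
  exact e4 _ _ _ _ _ (by ring)

end Tl

end Crest.Agent.T157.O4T

end
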