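import Crest.Agent.T157.O4cDef_4

set_option autoImplicit false
set_option linter.unusedSectionVars false

/-!
Row 157, A2 section 4 (helper4): real analysis at one site, scalar estimates.
-/

noncomputable section

namespace Crest.Agent.T157.O4c

open Matrix Real Set
open Crest.Agent.T157.Oo Crest.Agent.T157.Mj

theorem am {a b A B : ℝ} (ha : |a| ≤ A) (hb : |b| ≤ B) : |a * b| ≤ A * B := by
  rw [abs_mul]; exact mul_le_mul ha hb (abs_nonneg _) ((abs_nonneg _).trans ha)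
theorem ad {a b A B : ℝ} (ha : |a| ≤ A) (hb : |b| ≤ B) : |a + b| ≤ A + B :=
  (abs_add_le _ _).trans (add_le_add ha hb)
theorem asb {a b A B : ℝ} (ha : |a| ≤ A) (hb : |b| ≤ B) : |a - b| ≤ A + B :=
  (abs_sub _ _).trans (add_le_add ha hb)
theorem ai {a c : ℝ} (hc : 0 < c) (h : c ≤ a) : |a⁻¹| ≤ c⁻¹ := by
  rw [abs_of_pos (inv_pos.2 (hc.trans_le h))]; exact inv_anti₀ hc h

theorem mx_nonneg (u : ℝ) : 0 ≤ mx u := le_min (sq_nonneg u) zero_le_one
theorem mx_le (u : ℝ) : mx u ≤ 1 := min_le_right _ _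
theorem th_sq_le (u : ℝ) : tanh u ^ 2 ≤ mx u :=
  le_min (sq_le_sq.2 (abs_th u)) (tanh_sq_lt_one u).le
theorem D_nonneg (u : ℝ) : 0 ≤ 1 - tanh u ^ 2 := sub_nonneg.2 (tanh_sq_lt_one u).le
theorem D_abs (u : ℝ) : |1 - tanh u ^ 2| ≤ 1 := by
  rw [abs_of_nonneg (D_nonneg u)]; nlinarith [sq_nonneg (tanh u)]

theorem sech_le (u : ℝ) : 2 * |u| * (1 - tanh u ^ 2) ≤ 1 := by
  have h1 : (1 - tanh u ^ 2) * cosh u ^ 2 = 1 := by
    have := (cosh_pos u).ne'
    rw [tanh_eq_sinh_div_cosh]; field_simp; exact cosh_sq_sub_sinh_sq u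
  have h2 : u ^ 2 ≤ sinh u ^ 2 := by
    rw [sq_le_sq, abs_sinh]; exact self_le_sinh_iff.2 (abs_nonneg u)
  have h3 : 2 * |u| ≤ cosh u ^ 2 := by
    rw [cosh_sq]; nlinarith [sq_nonneg (|u| - 1), sq_abs u]
  nlinarith [mul_le_mul_of_nonneg_right h3 (D_nonneg u)]

theorem th_sub (u : ℝ) : |tanh u - u| ≤ |u| * mx u := by
  rcases le_total (u ^ 2) 1 with h | h
  · rw [mx, min_eq_left h, ← sq_abs]
    nlinarith [th_cube u, pow_nonneg (abs_nonneg u) 3]
  · rw [mx, min_eq_right h, mul_one]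
    have h0 := abs_le.1 (abs_th u)
    rcases le_total 0 u with h1 | h1
    · have : 0 ≤ tanh u := by
        rw [tanh_eq_sinh_div_cosh]; exact div_nonneg (sinh_nonneg_iff.2 h1) (cosh_pos u).le
      rw [abs_of_nonneg h1] at h0 ⊢
      exact abs_le.2 ⟨by linarith, by linarith⟩
    · have : tanh u ≤ 0 := by
        rw [tanh_eq_sinh_div_cosh]
        exact div_nonpos_of_nonpos_of_nonneg (sinh_nonpos_iff.2 h1) (cosh_pos u).le
      rw [abs_of_nonpos h1] at h0 ⊢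
      exact abs_le.2 ⟨by linarith, by linarith⟩

theorem mvt {f f' : ℝ → ℝ} {x r c y y' : ℝ} (hd : ∀ u, HasDerivAt f (f' u) u)
    (hb : ∀ u, |u - x| ≤ r → |f' u| ≤ c) (hy : |y - x| ≤ r) (hy' : |y' - x| ≤ r) :
    |f y - f y'| ≤ c * |y - y'| := by
  have := (convex_closedBall x r).norm_image_sub_le_of_norm_hasDerivWithin_le (C := c) (f := f)
    (fun u _ => (hd u).hasDerivWithinAt) (fun u hu => hb u (by simpa [Real.dist_eq] using hu))
    (x := y') (y := y) (by simpa [Real.dist_eq] using hy') (by simpa [Real.dist_eq] using hy)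
  simpa using this

section Site

variable {x y y' δ : ℝ} (hδ : δ ≤ 1 / 2) (hy : |y - x| ≤ δ * |x|) (hy' : |y' - x| ≤ δ * |x|)
include hδ hy

include hy' in
theorem s3 : |x| * |tanh y - tanh y'| ≤ |y - y'| := by
  have := mvt (f := fun u => |x| * tanh u) (c := 1) (fun u => (hd_tanh u).const_mul |x|)
    (fun u hu => ?_) hy hy'
  · rwa [← mul_sub, abs_mul, abs_abs, one_mul] at this
  · have h1 : |x| ≤ 2 * |u| := by
      have := abs_sub_abs_le_abs_sub x u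
      rw [abs_sub_comm] at this
      nlinarith [abs_nonneg x]
    rw [abs_mul, abs_abs, abs_of_nonneg (D_nonneg u)]
    exact (mul_le_mul_of_nonneg_right h1 (D_nonneg u)).trans (sech_le u)

theorem s1 (h0 : 0 ≤ δ) : |tanh x ^ 2 - tanh y ^ 2| ≤ 3 * δ * mx x := by
  have e : tanh x ^ 2 - tanh y ^ 2 = -((tanh y - tanh x) * (tanh y + tanh x)) := by ring
  rw [e, abs_neg, mx, mul_min_of_nonneg _ _ (by positivity)]
  have h1 : |tanh y - tanh x| ≤ δ * |x| := by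
    have := th_lip x (y - x); rw [add_sub_cancel] at this; exact this.trans hy
  refine le_min ?_ ?_
  · have h2 : |y| ≤ 3 / 2 * |x| := by
      have := abs_sub_abs_le_abs_sub y x
      nlinarith [abs_nonneg x]
    refine (am h1 (ad ((abs_th y).trans h2) (abs_th x))).trans ?_
    rw [← sq_abs x]; nlinarith [mul_nonneg h0 (sq_nonneg |x|)]
  · have h2 : |tanh y - tanh x| ≤ δ := by
      rcases (abs_nonneg x).eq_or_lt with h | h
      · rw [← h, mul_zero] at h1; exact h1.trans h0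
      · have := (s3 hδ hy (y' := x) (by rw [sub_self, abs_zero]; positivity)).trans hy
        rw [mul_comm δ] at this
        exact le_of_mul_le_mul_left this h
    refine (am h2 (ad (abs_tanh_lt_one y).le (abs_tanh_lt_one x).le)).trans (by linarith)

include hy' in
theorem s2 (h0 : 0 ≤ δ) :
    |tanh y - tanh y' - (1 - tanh x ^ 2) * (y - y')| ≤ 3 * δ * mx x * |y - y'| := by
  have := mvt (f := fun u => tanh u - (1 - tanh x ^ 2) * u) (f' := fun u => tanh x ^ 2 - tanh u ^ 2)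
    (fun u => ((hd_tanh u).fun_sub ((hasDerivAt_id' u).const_mul _)).congr_deriv (by ring))
    (fun u hu => s1 hδ hu h0) hy hy'
  refine le_trans (le_of_eq ?_) this
  congr 1; ring

end Site

/-- the scalar estimates behind `λ̃` -/
theorem scal {n κ η X p1 p2 a b χ u0 kk : ℝ} (X0 : 0 < X) (k0 : 0 < κ) (ke : κ ≤ η)
    (e1 : 1000 * η ≤ 1) (Xn : X ^ 2 ≤ κ * n) (big : 1 ≤ η * κ * X) (h1 : |p1| ≤ X) (h2 : |p2| ≤ κ * X)
    (ha : |a| ≤ η * X) (hb : |b| ≤ η * κ * X) (hχ : n * χ = n - (p1 ^ 2 + p2 ^ 2))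
    (hu : u0 = (p1 + a) / (χ + (p1 ^ 2 - (p1 + a) ^ 2) / n) - p1 / χ)
    (hk : kk = (n - 3) / (n - ((p1 + a) ^ 2 + (p2 + b) ^ 2))) :
    |u0 - a| ≤ 10 * κ * |a| ∧ |kk * (p1 + a) - p1 / χ - u0| ≤ 20 * η * κ * (|b| + 1) ∧
      |kk * (p2 + b) - p2 / χ - b| ≤ 20 * η * (κ * |a| + |b| + 1) := by
  have η0 : 0 < η := k0.trans_le ke
  have n0 : 0 < n := by
    by_contra h
    nlinarith [mul_nonneg k0.le (neg_nonneg.2 (not_lt.1 h)), sq_pos_of_pos X0]
  obtain ⟨w, hw⟩ : ∃ w, X ^ 2 = w * n := ⟨X ^ 2 / n, by field_simp⟩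
  have w0 : 0 < w := by
    by_contra h
    nlinarith [mul_nonneg n0.le (neg_nonneg.2 (not_lt.1 h)), sq_pos_of_pos X0]
  have wk : w ≤ κ := le_of_mul_le_mul_right (hw ▸ Xn) n0
  have κX : κ * X ≤ X / 1000 := by nlinarith
  have z1 : |p1 + a| ≤ 2 * X := (ad h1 ha).trans (by nlinarith)
  have z2 : |p2 + b| ≤ 2 * (κ * X) := (ad h2 hb).trans (by nlinarith [mul_pos k0 X0])
  have sq' : ∀ {u U : ℝ}, |u| ≤ U → u ^ 2 ≤ U ^ 2 := fun h => by
    rw [← sq_abs]; exact pow_le_pow_left₀ (abs_nonneg _) h 2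
  have q1 := sq' h1
  have q2 : p2 ^ 2 ≤ X ^ 2 := sq' (h2.trans (by linarith))
  have q3 : (p1 + a) ^ 2 ≤ 4 * X ^ 2 := by linarith [sq' z1, show (2 * X) ^ 2 = 4 * X ^ 2 by ring]
  have q4 : (p2 + b) ^ 2 ≤ X ^ 2 := sq' (z2.trans (by linarith))
  have wn : X ^ 2 ≤ n / 1000 := by nlinarith
  obtain ⟨R, hR⟩ : ∃ R, R = n - ((p1 + a) ^ 2 + (p2 + b) ^ 2) := ⟨_, rfl⟩
  obtain ⟨v, hv⟩ : ∃ v, v = χ + (p1 ^ 2 - (p1 + a) ^ 2) / n := ⟨_, rfl⟩
  have hv' : n * v = n - p2 ^ 2 - (p1 + a) ^ 2 := by rw [hv, mul_add, hχ]; field_simp; ring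
  have c1 : 9 / 10 ≤ χ := le_of_mul_le_mul_left (by linarith) n0
  have c1' : χ ≤ 1 := le_of_mul_le_mul_left (by nlinarith [sq_nonneg p1, sq_nonneg p2]) n0
  have c2 : 9 / 10 ≤ v := le_of_mul_le_mul_left (by linarith) n0
  have c3 : 9 / 10 * n ≤ R := by linarith
  have iχ : |χ⁻¹| ≤ 10 / 9 := (ai (by norm_num) c1).trans_eq (by norm_num)
  have iv : |v⁻¹| ≤ 10 / 9 := (ai (by norm_num) c2).trans_eq (by norm_num)
  have iR : |R⁻¹| ≤ 10 / 9 * n⁻¹ := (ai (by positivity) c3).trans_eq (by field_simp)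
  have hn' : X * X * n⁻¹ = w := by field_simp; linarith
  have i1 : X * n⁻¹ ≤ η * κ * κ := by
    have : X * n⁻¹ * 1 ≤ X * n⁻¹ * (η * κ * X) := mul_le_mul_of_nonneg_left big (by positivity)
    nlinarith [mul_le_mul_of_nonneg_left wk (mul_pos η0 k0).le]
  have i2 : n⁻¹ ≤ κ := by
    have h3 : 1 ≤ X := by nlinarith [mul_pos η0 k0]
    have : 1 * n⁻¹ ≤ X * n⁻¹ := mul_le_mul_of_nonneg_right h3 (by positivity)
    nlinarith [mul_pos η0 k0]
  rw [← hR] at hk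
  rw [← hv] at hu
  have χ0 : χ ≠ 0 := by linarith
  have v0 : v ≠ 0 := by linarith
  have R0 : R ≠ 0 := by nlinarith
  refine ⟨?_, ?_, ?_⟩
  · have e : u0 - a = (χ * ((p2 ^ 2 + (p1 + a) ^ 2) * n⁻¹) + p1 * (p1 + a + p1) * n⁻¹) * v⁻¹ * χ⁻¹ * a := by
      have e1 : χ = v + (p1 + a + p1) * a * n⁻¹ := by rw [hv]; field_simp; ring
      have e2 : (p2 ^ 2 + (p1 + a) ^ 2) * n⁻¹ = 1 - v := by field_simp; linarith
      rw [hu, e2]; field_simp
      have e3 : n * χ = n * v + (p1 + a + p1) * a := by rw [e1]; field_simp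
      linear_combination p1 * e3
    have b1 : |(p2 ^ 2 + (p1 + a) ^ 2) * n⁻¹| ≤ 5 * w := by
      rw [abs_of_nonneg (by positivity), ← hn']
      nlinarith [mul_le_mul_of_nonneg_right (by linarith : p2 ^ 2 + (p1 + a) ^ 2 ≤ 5 * X ^ 2)
        (inv_pos.2 n0).le]
    have b2 : |p1 * (p1 + a + p1) * n⁻¹| ≤ 3 * w :=
      (am (am h1 (ad z1 h1)) (abs_of_pos (inv_pos.2 n0)).le).trans_eq (by rw [← hn']; ring)
    have b3 : |χ| ≤ 1 := abs_le.2 ⟨by linarith, c1'⟩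
    rw [e]
    refine (am (am (am (ad (am b3 b1) b2) iv) iχ) le_rfl).trans ?_
    exact mul_le_mul_of_nonneg_right (by linarith) (abs_nonneg a)
  · have e : kk * (p1 + a) - p1 / χ - u0 =
        (p1 + a) * R⁻¹ * ((p2 + b + p2) * b * v⁻¹ - 3) := by
      rw [hu, hk]; field_simp
      linear_combination (p1 + a) * χ * (hv' - hR)
    rw [e]
    refine (am (am z1 iR) (asb (am (am (ad z2 h2) le_rfl) iv) (le_of_eq (abs_of_pos three_pos)))).trans ?_
    have : 2 * X * (10 / 9 * n⁻¹) * ((2 * (κ * X) + κ * X) * |b| * (10 / 9) + 3) =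
        200 / 27 * κ * w * |b| + 20 / 3 * (X * n⁻¹) := by rw [← hn']; ring
    rw [this]
    have b1 : κ * w * |b| ≤ κ * η * |b| := by gcongr; exact wk.trans ke
    have b2 : η * κ * κ ≤ η * κ := by nlinarith [mul_pos η0 k0]
    nlinarith [mul_nonneg (mul_pos η0 k0).le (abs_nonneg b), mul_pos η0 k0]
  · have e : kk * (p2 + b) - p2 / χ - b = (((p1 + a) ^ 2 + (p2 + b) ^ 2) - 3) * R⁻¹ * b +
        p2 * R⁻¹ * (((p1 + a + p1) * a + (p2 + b + p2) * b) * χ⁻¹ - 3) := by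
      rw [hk]; field_simp
      linear_combination (-(b * χ) - p2) * hR + p2 * hχ
    have b1 : |(p1 + a) ^ 2 + (p2 + b) ^ 2| ≤ 5 * (X * X) := by
      rw [abs_of_nonneg (by positivity)]; nlinarith
    rw [e]
    refine (ad (am (am (asb b1 (le_of_eq (abs_of_pos three_pos))) iR) le_rfl) (am (am h2 iR)
      (asb (am (ad (am (ad z1 h1) le_rfl) (am (ad z2 h2) le_rfl)) iχ)
        (le_of_eq (abs_of_pos three_pos))))).trans ?_
    have : (5 * (X * X) + 3) * (10 / 9 * n⁻¹) * |b| + κ * X * (10 / 9 * n⁻¹) *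
        (((2 * X + X) * |a| + (2 * (κ * X) + κ * X) * |b|) * (10 / 9) + 3) =
        50 / 9 * (w * |b|) + 10 / 3 * (n⁻¹ * |b|) + 100 / 27 * (w * (κ * |a|)) +
          100 / 27 * (κ * κ * w * |b|) + 10 / 3 * (κ * (X * n⁻¹)) := by rw [← hn']; ring
    rw [this]
    have wη := wk.trans ke
    have b2 : w * |b| ≤ η * |b| := by gcongr
    have b3 : n⁻¹ * |b| ≤ η * |b| := by gcongr; exact i2.trans ke
    have b4 : w * (κ * |a|) ≤ η * (κ * |a|) := by gcongr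
    have b5 : κ * κ * w * |b| ≤ 1 * 1 * η * |b| := by gcongr <;> linarith
    have b6 : κ * (X * n⁻¹) ≤ 1 * (η * 1 * 1) := by
      refine mul_le_mul (by linarith) (i1.trans ?_) (by positivity) zero_le_one
      gcongr <;> linarith
    nlinarith [mul_nonneg η0.le (abs_nonneg b), mul_nonneg η0.le (mul_nonneg k0.le (abs_nonneg a))]

end Crest.Agent.T157.O4c
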