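import Crest.Agent.T157.O4cA_4

set_option autoImplicit false
set_option linter.unusedSectionVars false

/-!
Row 157, A2 section 4 (helper4): the residual of the cube identity.
-/

noncomputable section

namespace Crest.Agent.T157.O4c

open Matrix Real Set
open Crest.Agent.T157.Oo Crest.Agent.T157.Mj Crest.Agent.T157.E

variable {n k : ℕ}

/-- weighted overlap -/
def Wt (x a b : Vn n) : ℝ := ∑ i, |a i| * |b i| * mx (x i)

theorem Wt_nonneg (x a b : Vn n) : 0 ≤ Wt x a b :=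
  Finset.sum_nonneg fun i _ => by have := mx_nonneg (x i); positivity

theorem Wt_comm (x a b : Vn n) : Wt x a b = Wt x b a := by simp only [Wt, mul_comm (|a _|)]
theorem Dq_comm (x a b : Vn n) : Dq x a b = Dq x b a := by simp only [Dq, mul_comm (a _)]

theorem Wt_add (x a a' b : Vn n) (α β : ℝ) :
    Wt x (α • a + β • a') b ≤ |α| * Wt x a b + |β| * Wt x a' b := by
  simp only [Wt, Finset.mul_sum, ← Finset.sum_add_distrib]
  refine Finset.sum_le_sum fun i _ => ?_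
  have h1 : |(α • a + β • a') i| ≤ |α| * |a i| + |β| * |a' i| := ad (abs_mul _ _).le (abs_mul _ _).le
  have := mul_le_mul_of_nonneg_right h1 (mul_nonneg (abs_nonneg (b i)) (mx_nonneg (x i)))
  linarith

theorem Dq_add (x a a' b : Vn n) (α β : ℝ) :
    Dq x (α • a + β • a') b = α * Dq x a b + β * Dq x a' b := by
  simp only [Dq, Finset.mul_sum, ← Finset.sum_add_distrib]
  exact Finset.sum_congr rfl fun i _ => by simp only [Pi.add_apply, Pi.smul_apply, smul_eq_mul]; ring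

theorem Dq_sub (x a b : Vn n) : |Dq x a b - a ⬝ᵥ b| ≤ Wt x a b := by
  rw [Dq, dotProduct, ← Finset.sum_sub_distrib]
  refine (Finset.abs_sum_le_sum_abs _ _).trans (Finset.sum_le_sum fun i _ => ?_)
  rw [show (1 - tanh (x i) ^ 2) * (a i * b i) - a i * b i = -(a i * b i * tanh (x i) ^ 2) by ring, abs_neg]
  exact am (abs_mul _ _).le ((abs_of_nonneg (sq_nonneg _)).trans_le (th_sq_le _))

theorem lin {x c y y' f1 f2 : Vn n} {δ u1 u2 : ℝ} (h0 : 0 ≤ δ) (hδ : δ ≤ 1 / 2)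
    (hy : ∀ i, |y i - x i| ≤ δ * |x i|) (hy' : ∀ i, |y' i - x i| ≤ δ * |x i|)
    (e : ∀ i, y i - y' i = u1 * f1 i + u2 * f2 i) :
    |∑ i, c i * tanh (y i) - ∑ i, c i * tanh (y' i) - (u1 * Dq x c f1 + u2 * Dq x c f2)| ≤
      3 * δ * (|u1| * Wt x c f1 + |u2| * Wt x c f2) := by
  simp only [Dq, Wt, Finset.mul_sum, ← Finset.sum_add_distrib, ← Finset.sum_sub_distrib]
  refine (Finset.abs_sum_le_sum_abs _ _).trans (Finset.sum_le_sum fun i _ => ?_)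
  have h1 := s2 hδ (hy i) (hy' i) h0
  rw [e i] at h1
  have h2 : |u1 * f1 i + u2 * f2 i| ≤ |u1| * |f1 i| + |u2| * |f2 i| := ad (abs_mul _ _).le (abs_mul _ _).le
  have h3 := am (le_refl |c i|) (h1.trans (mul_le_mul_of_nonneg_left h2
    (by have := mx_nonneg (x i); positivity)))
  exact le_trans (le_of_eq (by congr 1; ring)) (h3.trans_eq (by ring))

theorem lin2 {x c y f1 f2 : Vn n} {δ : ℝ} (u1 u2 : ℝ) (h0 : 0 ≤ δ) (hδ : δ ≤ 1 / 2)
    (hy : ∀ i, |y i - x i| ≤ δ * |x i|) :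
    |∑ i, c i * (1 - tanh (y i) ^ 2) * (u1 * f1 i + u2 * f2 i) - (u1 * Dq x c f1 + u2 * Dq x c f2)| ≤
      3 * δ * (|u1| * Wt x c f1 + |u2| * Wt x c f2) := by
  simp only [Dq, Wt, Finset.mul_sum, ← Finset.sum_add_distrib, ← Finset.sum_sub_distrib]
  refine (Finset.abs_sum_le_sum_abs _ _).trans (Finset.sum_le_sum fun i _ => ?_)
  have h2 : |u1 * f1 i + u2 * f2 i| ≤ |u1| * |f1 i| + |u2| * |f2 i| := ad (abs_mul _ _).le (abs_mul _ _).le
  have h3 := am (am (le_refl |c i|) (s1 hδ (hy i) h0)) h2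
  exact le_trans (le_of_eq (by congr 1; ring)) (h3.trans_eq (by ring))

/-- a vector of the basis dual to `f1, f2` for the form `D` -/
structure Du (x f1 f2 : Vn n) (κ η : ℝ) (f c : Vn n) (i1 i2 α β σ : ℝ) : Prop where
  hf : f = i1 • f1 + i2 • f2
  hc : c = α • f1 + β • f2
  d1 : α * Dq x f1 f1 + β * Dq x f1 f2 = i1
  d2 : α * Dq x f1 f2 + β * Dq x f2 f2 = i2
  a : |α| ≤ 2
  b : |β| ≤ 2 * σ
  ks : κ ≤ σ
  s1 : σ ≤ 1
  key : |i2 - Dq x f1 f2 * i1 - β| ≤ 4 * η * σ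
  j1 : |i1| ≤ 1
  j2 : |i2| ≤ σ

namespace Hx

variable {o : Oo.Orb n k} {x f1 f2 : Vn n} {χ X κ η C : ℝ} (H : Hx o x f1 f2 χ X κ η C)
include H

theorem e0 : 0 < η := H.k0.trans_le H.ke

theorem W1 {b : Vn n} (hb : b ⬝ᵥ b = 1) : Wt x f1 b ≤ κ := by
  refine abs_le_of_sq_le_sq' ?_ H.k0.le |>.2
  have := Finset.sum_mul_sq_le_sq_mul_sq Finset.univ (fun i => |f1 i| * mx (x i)) fun i => |b i|
  simp only [mul_pow, sq_abs, ← dot_self_eq_sq, hb, mul_one] at this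
  refine le_trans (le_of_eq ?_) (this.trans H.m6)
  congr 1
  exact Finset.sum_congr rfl fun i _ => by ring

theorem W2 : Wt x f2 f2 ≤ 1 := by
  rw [← H.n2, dotProduct]
  refine Finset.sum_le_sum fun i _ => ?_
  rw [abs_mul_abs_self]
  exact mul_le_of_le_one_right (mul_self_nonneg _) (mx_le _)

theorem be_le : |Dq x f1 f2| ≤ κ := by
  have := (Dq_sub x f1 f2).trans (H.W1 H.n2)
  rwa [H.o12, sub_zero] at this

theorem D11 : |Dq x f1 f1 - 1| ≤ κ := H.n1 ▸ (Dq_sub x f1 f1).trans (H.W1 H.n1)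

theorem D22 : |Dq x f2 f2 - 1| ≤ η := by
  have : Dq x f2 f2 - 1 = -∑ i, f2 i ^ 2 * tanh (x i) ^ 2 := by
    rw [← H.n2, Dq, dotProduct, ← Finset.sum_sub_distrib, ← Finset.sum_neg_distrib]
    exact Finset.sum_congr rfl fun i _ => by ring
  rw [this, abs_neg, abs_of_nonneg (Finset.sum_nonneg fun i _ => by positivity)]
  exact H.m2

theorem f1_le (i : Fin n) : |f1 i| ≤ η * κ * |x i| := by
  rw [H.hx, abs_mul, abs_of_pos H.X0, ← mul_assoc]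
  exact le_mul_of_one_le_left (abs_nonneg _) H.big

theorem f2_le (i : Fin n) : |f2 i| ≤ C * η * |x i| := by
  refine le_of_mul_le_mul_left ((H.f2 i).trans ?_) H.k0
  exact (mul_le_mul_of_nonneg_left (H.f1_le i) (by linarith [H.C1])).trans_eq (by ring)

theorem hp (i : Fin n) : o.p i = tanh (x i) := by obtain ⟨_, _, _, f⟩ := H.fr; exact f.hp i

theorem Qvec (v : Vn n) : Qm o *ᵥ v = (f1 ⬝ᵥ v) • f1 + (f2 ⬝ᵥ v) • f2 := by
  rw [H.hq, add_mulVec, Orb.vv_mulVec, Orb.vv_mulVec]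

theorem Qii (i : Fin n) : Qm o i i = f1 i ^ 2 + f2 i ^ 2 := by
  simp only [H.hq, Matrix.add_apply, vecMulVec_apply, sq]

theorem Qsq (v : Vn n) : Qm o *ᵥ v ⬝ᵥ Qm o *ᵥ v = (f1 ⬝ᵥ v) ^ 2 + (f2 ⬝ᵥ v) ^ 2 := by
  rw [dot_Q, Q_Q H.ok, H.Qvec, add_dotProduct, smul_dotProduct, smul_dotProduct]; simp [sq]

theorem p_sq : o.p ⬝ᵥ o.p = (f1 ⬝ᵥ o.p) ^ 2 + (f2 ⬝ᵥ o.p) ^ 2 := by rw [← H.Qsq, Q_p H.ok]

theorem x_eq : x = X • f1 := funext H.hx

theorem p1_le : |f1 ⬝ᵥ o.p| ≤ X := by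
  refine abs_le_of_sq_le_sq ?_ H.X0.le
  have h1 : o.p ⬝ᵥ o.p ≤ x ⬝ᵥ x := by
    rw [dot_self_eq_sq, dot_self_eq_sq]
    exact Finset.sum_le_sum fun i _ => by rw [H.hp]; exact sq_le_sq.2 (abs_th _)
  rw [H.x_eq, smul_dotProduct, dotProduct_smul, H.n1, H.p_sq] at h1
  simp only [smul_eq_mul] at h1
  nlinarith [sq_nonneg (f2 ⬝ᵥ o.p)]

theorem p2_le : |f2 ⬝ᵥ o.p| ≤ κ * X := by
  refine abs_le_of_sq_le_sq ?_ (mul_pos H.k0 H.X0).le
  have h1 : f2 ⬝ᵥ o.p = f2 ⬝ᵥ (o.p - x) := by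
    rw [dotProduct_sub, H.x_eq, dotProduct_smul, dotProduct_comm f2 f1, H.o12]; simp
  have h2 : (o.p - x) ⬝ᵥ (o.p - x) ≤ X ^ 2 * ∑ i, f1 i ^ 2 * mx (x i) ^ 2 := by
    rw [dot_self_eq_sq, Finset.mul_sum]
    refine Finset.sum_le_sum fun i _ => ?_
    have := pow_le_pow_left₀ (abs_nonneg _) (th_sub (x i)) 2
    rw [sq_abs, mul_pow, sq_abs, ← H.hp] at this
    refine this.trans_eq ?_
    rw [← mul_assoc, ← mul_pow X, ← H.hx]
  have h3 := dot_sq_le f2 (o.p - x)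
  rw [H.n2, one_mul] at h3
  rw [h1, mul_pow, mul_comm]
  exact h3.trans (h2.trans (mul_le_mul_of_nonneg_left H.m6 (sq_nonneg X)))

theorem exists_du (sm : 1000 * η ≤ 1) : (∃ c α β, Du x f1 f2 κ η f1 c 1 0 α β κ) ∧
    ∃ c α β, Du x f1 f2 κ η f2 c 0 1 α β 1 := by
  have h1 := abs_le.1 H.D11
  have h2 := abs_le.1 H.D22
  have h3 := H.be_le
  have k0 := H.k0
  have ke := H.ke
  have h4 : Dq x f1 f2 ^ 2 ≤ η := by
    have := pow_le_pow_left₀ (abs_nonneg _) h3 2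
    rw [sq_abs] at this; nlinarith
  obtain ⟨d, hd⟩ : ∃ d, d = Dq x f1 f1 * Dq x f2 f2 - Dq x f1 f2 ^ 2 := ⟨_, rfl⟩
  have h5 : |d - 1| ≤ 7 / 2 * η := by
    have : d - 1 = (Dq x f1 f1 - 1) * (Dq x f2 f2 - 1) + (Dq x f1 f1 - 1) + (Dq x f2 f2 - 1) -
      Dq x f1 f2 ^ 2 := by rw [hd]; ring
    rw [this]
    refine (asb (ad (ad (am H.D11 H.D22) H.D11) H.D22) ((abs_of_nonneg (sq_nonneg _)).trans_le h4)).trans ?_
    nlinarith
  have h6 := abs_le.1 h5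
  have h7 : |d⁻¹| ≤ 100 / 99 := (ai (c := 99 / 100) (by norm_num) (by linarith)).trans_eq (by norm_num)
  have d0 : d ≠ 0 := by linarith
  have a1 : |Dq x f1 f1| ≤ 3 / 2 := abs_le.2 ⟨by linarith, by linarith⟩
  have a2 : |Dq x f2 f2| ≤ 3 / 2 := abs_le.2 ⟨by linarith, by linarith⟩
  have a3 : |-(Dq x f1 f2 * d⁻¹)| ≤ 2 * κ := by rw [abs_neg]; exact (am h3 h7).trans (by linarith)
  refine ⟨⟨_, Dq x f2 f2 * d⁻¹, -(Dq x f1 f2 * d⁻¹), by simp, rfl, ?_, by ring,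
    (am a2 h7).trans (by norm_num), a3, le_rfl, by linarith, ?_, by simp, by simpa using k0.le⟩,
    ⟨_, -(Dq x f1 f2 * d⁻¹), Dq x f1 f1 * d⁻¹, by simp, rfl, by ring, ?_, a3.trans (by linarith),
    (am a1 h7).trans (by norm_num), by linarith, le_rfl, ?_, by simp, by simp⟩⟩
  · field_simp; rw [hd]; ring
  · have : 0 - Dq x f1 f2 * 1 - -(Dq x f1 f2 * d⁻¹) = -(Dq x f1 f2 * ((d - 1) * d⁻¹)) := by
      field_simp; ring
    rw [this, abs_neg]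
    exact (am h3 (am h5 h7)).trans (by nlinarith [mul_pos H.e0 k0])
  · field_simp; rw [hd]; ring
  · have : 1 - Dq x f1 f2 * 0 - Dq x f1 f1 * d⁻¹ =
        (Dq x f1 f1 * (Dq x f2 f2 - 1) - Dq x f1 f2 ^ 2) * d⁻¹ := by field_simp; rw [hd]; ring
    rw [this]
    exact (am (asb (am a1 H.D22) ((abs_of_nonneg (sq_nonneg _)).trans_le h4)) h7).trans (by linarith)

variable {f c : Vn n} {i1 i2 α β σ : ℝ} (D : Du x f1 f2 κ η f c i1 i2 α β σ)
include D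

theorem s0 : 0 < σ := H.k0.trans_le D.ks

theorem Wc1 : Wt x c f1 ≤ 4 * κ := by
  have h1 := Wt_add x f1 f2 f1 α β
  rw [← D.hc, Wt_comm x f2] at h1
  have h2 := mul_le_mul D.a (H.W1 H.n1) (Wt_nonneg _ _ _) two_pos.le
  have h3 := mul_le_mul (D.b.trans (by linarith [D.s1] : 2 * σ ≤ 2)) (H.W1 H.n2) (Wt_nonneg _ _ _) two_pos.le
  linarith

theorem Wc2 : Wt x c f2 ≤ 4 * σ := by
  have h1 := Wt_add x f1 f2 f2 α β
  rw [← D.hc] at h1
  have h2 := mul_le_mul D.a (H.W1 H.n2) (Wt_nonneg _ _ _) two_pos.le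
  have h3 := mul_le_mul D.b H.W2 (Wt_nonneg _ _ _) (by linarith [H.s0 D])
  linarith [D.ks]

theorem Dc1 : Dq x c f1 = i1 := by rw [D.hc, Dq_add, Dq_comm x f2, D.d1]
theorem Dc2 : Dq x c f2 = i2 := by rw [D.hc, Dq_add, D.d2]

theorem c_le (i : Fin n) : |c i| ≤ 4 * C * η * σ * |x i| := by
  have h1 := ad (am D.a (H.f1_le i)) (am D.b (H.f2_le i))
  rw [show α * f1 i + β * f2 i = c i by rw [D.hc]; rfl] at h1
  have h2 : η * κ * |x i| ≤ C * η * σ * |x i| := by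
    have := H.e0; have := H.s0 D
    calc η * κ * |x i| ≤ η * σ * |x i| := by gcongr; exact D.ks
      _ = 1 * η * σ * |x i| := by ring
      _ ≤ _ := by gcongr; exact H.C1
  linarith

theorem c_sq : c ⬝ᵥ c ≤ 8 := by
  have h1 := pow_le_pow_left₀ (abs_nonneg _) D.a 2
  have h2 := pow_le_pow_left₀ (abs_nonneg _) (D.b.trans (by linarith [D.s1] : 2 * σ ≤ 2)) 2
  rw [sq_abs] at h1 h2
  simp only [D.hc, add_dotProduct, dotProduct_add, smul_dotProduct, dotProduct_smul, smul_eq_mul,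
    H.n1, H.n2, H.o12, dotProduct_comm f2 f1]
  nlinarith

/-- **(R)** -/
theorem res (sm : 1000 * C * η ≤ 1) {a b d1 d2 kk L1 L2 : ℝ} {y : Vn n} (ha : |a| ≤ η * X)
    (hb : |b| ≤ η * κ * X) (hd1 : |d1| ≤ η * κ * X) (hd2 : |d2| ≤ η * κ * X)
    (hk : kk = (n - 3) / (n - ((f1 ⬝ᵥ o.p + a) ^ 2 + (f2 ⬝ᵥ o.p + b) ^ 2)))
    (h1 : L1 = kk * (f1 ⬝ᵥ o.p + a) - f1 ⬝ᵥ o.p / χ + Dq x f1 f2 * (Dq x f1 f2 * a - b) + d1)
    (h2 : L2 = kk * (f2 ⬝ᵥ o.p + b) - f2 ⬝ᵥ o.p / χ - Dq x f1 f2 * a + d2)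
    (hy : ∀ i, |y i - x i - (L1 * f1 i + L2 * f2 i)| ≤ 52 * Qm o i i) :
    (∀ i, |y i - x i| ≤ 110 * C * η * |x i|) ∧
    |α * (f1 ⬝ᵥ o.p + a) + β * (f2 ⬝ᵥ o.p + b) - ∑ i, c i * tanh (y i) + (i1 * d1 + i2 * d2)| ≤
      8000 * C * η * σ * (κ * |a| + |b| + |d1| + |d2| + 1) := by
  have k0 := H.k0; have ke := H.ke; have e0 := H.e0; have C1 := H.C1; have X0 := H.X0
  have s0 := H.s0 D; have ks := D.ks; have big := H.big; have be := H.be_le
  have sm' : 1000 * η ≤ 1 := by nlinarith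
  obtain ⟨u, hu⟩ : ∃ u, u = (f1 ⬝ᵥ o.p + a) / (χ + ((f1 ⬝ᵥ o.p) ^ 2 - (f1 ⬝ᵥ o.p + a) ^ 2) / n) -
    f1 ⬝ᵥ o.p / χ := ⟨_, rfl⟩
  obtain ⟨t1, t2, t3⟩ := scal X0 k0 ke sm' H.Xn big H.p1_le H.p2_le ha hb (H.p_sq ▸ H.chi) hu hk
  have xp := H.xp (f1 ⬝ᵥ o.p + a) (by rwa [add_sub_cancel_left])
  rw [← hu, add_sub_cancel_left] at xp
  obtain ⟨A, hA⟩ : ∃ A, A = κ * |a| := ⟨_, rfl⟩
  have A0 : 0 ≤ A := by rw [hA]; positivity
  have AX : A ≤ η * κ * X := by rw [hA]; nlinarith [mul_le_mul_of_nonneg_left ha k0.le]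
  have b0 := abs_nonneg b; have d10 := abs_nonneg d1; have d20 := abs_nonneg d2
  have u1 : |u| ≤ 101 / 100 * |a| := by
    have := ad t1 (le_refl |a|); rw [sub_add_cancel] at this; nlinarith [abs_nonneg a]
  have u2 : |Dq x f1 f2 * u| ≤ 101 / 100 * A := (am be u1).trans_eq (by rw [hA]; ring)
  have u3 : |Dq x f1 f2 * (u - a)| ≤ 10 * η * A := (am be t1).trans (by
    rw [hA]; nlinarith [mul_le_mul_of_nonneg_right ke (mul_nonneg k0.le (abs_nonneg a))])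
  have g1 : |b - Dq x f1 f2 * u| ≤ |b| + 101 / 100 * A := asb le_rfl u2
  obtain ⟨r1, hr1⟩ : ∃ r, r = kk * (f1 ⬝ᵥ o.p + a) - f1 ⬝ᵥ o.p / χ - u -
    Dq x f1 f2 * (Dq x f1 f2 * (u - a)) := ⟨_, rfl⟩
  obtain ⟨r2, hr2⟩ : ∃ r, r = kk * (f2 ⬝ᵥ o.p + b) - f2 ⬝ᵥ o.p / χ - b + Dq x f1 f2 * (u - a) := ⟨_, rfl⟩
  have g2 : |r1| ≤ 20 * η * κ * (A + |b| + 1) := by
    rw [hr1]; refine (asb t2 (am be u3)).trans ?_
    nlinarith [mul_nonneg (mul_pos e0 k0).le A0]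
  have g3 : |r2| ≤ 30 * η * (A + |b| + 1) := by
    rw [hr2]; refine (ad t3 u3).trans ?_
    rw [← hA]; nlinarith [mul_nonneg e0.le b0]
  have l1 : L1 - u = -(Dq x f1 f2 * (b - Dq x f1 f2 * u)) + r1 + d1 := by rw [h1, hr1]; ring
  have l2 : L2 = b - Dq x f1 f2 * u + r2 + d2 := by rw [h2, hr2]; ring
  have ek : η * κ ≤ 1 / 1000 * (1 / 1000) := mul_le_mul (by linarith) (by linarith) k0.le (by norm_num)
  have m1 : |L1 - u| ≤ (A + |b| + 1) / 10 + |d1| := by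
    rw [l1]; refine (ad (ad ((abs_neg _).trans_le (am be g1)) g2) le_rfl).trans ?_
    nlinarith
  have m2 : |L2| ≤ 21 / 20 * (A + |b|) + 1 / 20 + |d2| := by
    rw [l2]; refine (ad (ad g1 g3) le_rfl).trans ?_
    nlinarith
  have kX : η * κ * X ≤ η * X / 1000 := by nlinarith [mul_pos e0 X0]
  have m3 : |L1| ≤ 2 * η * X := by
    have := ad m1 u1; rw [sub_add_cancel] at this; linarith
  have m4 : |L2| ≤ 4 * η * X * κ := by linarith
  have xi : ∀ i, X * |f1 i| = |x i| := fun i => by rw [H.hx, abs_mul, abs_of_pos X0]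
  have Ce : ∀ i, η * |x i| ≤ C * η * |x i| := fun i => by
    nlinarith [mul_nonneg e0.le (abs_nonneg (x i))]
  have n1 : ∀ i, |L1 * f1 i + L2 * f2 i| ≤ 6 * C * η * |x i| := fun i => by
    refine (ad (am m3 le_rfl) (am m4 le_rfl)).trans ?_
    have := mul_le_mul_of_nonneg_left (H.f2 i) (by positivity : 0 ≤ 4 * η * X)
    have h3 := Ce i
    rw [← xi i] at h3 ⊢; linarith
  have n2 : ∀ i, Qm o i i ≤ 2 * C * η * |x i| := fun i => by
    have q1 := Qii_le H.ok i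
    rw [H.Qii, ← sq_abs, ← sq_abs (f2 i)] at q1 ⊢
    have a1 := H.f1_le i; have a2 := H.f2_le i
    have a3 : η * κ * |x i| ≤ η * |x i| := by
      nlinarith [mul_nonneg e0.le (abs_nonneg (x i))]
    have a4 : |f1 i| ≤ 1 := by nlinarith [sq_nonneg |f2 i|, abs_nonneg (f1 i)]
    have a5 : |f2 i| ≤ 1 := by nlinarith [sq_nonneg |f1 i|, abs_nonneg (f2 i)]
    nlinarith [Ce i, abs_nonneg (f1 i), abs_nonneg (f2 i)]
  have y1 : ∀ i, |y i - x i| ≤ 110 * C * η * |x i| := fun i => by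
    have := ad (hy i) (n1 i); rw [sub_add_cancel] at this; linarith [n2 i]
  refine ⟨y1, ?_⟩
  have δ0 : 0 ≤ 110 * C * η := by positivity
  have δ1 : 110 * C * η ≤ 1 / 2 := by linarith
  have y2 : ∀ i, |x i + (L1 * f1 i + L2 * f2 i) - x i| ≤ 110 * C * η * |x i| := fun i => by
    rw [add_sub_cancel_left]; nlinarith [n1 i, mul_nonneg (mul_nonneg (zero_le_one.trans C1) e0.le) (abs_nonneg (x i))]
  have y3 : ∀ i, |(X + u) * f1 i - x i| ≤ 110 * C * η * |x i| := fun i => by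
    rw [add_mul, ← H.hx, add_sub_cancel_left]
    refine (am (u1.trans (by linarith : _ ≤ 2 * η * X)) le_rfl).trans ?_
    have h3 := Ce i
    rw [← xi i] at h3 ⊢
    nlinarith [mul_nonneg (mul_nonneg (zero_le_one.trans C1) e0.le) (mul_nonneg X0.le (abs_nonneg (f1 i)))]
  have y4 : ∀ i, |x i - x i| ≤ 110 * C * η * |x i| := fun i => by rw [sub_self, abs_zero]; positivity
  have S1 : |∑ i, c i * tanh (y i) - ∑ i, c i * tanh (x i + (L1 * f1 i + L2 * f2 i))| ≤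
      416 * C * η * σ := by
    obtain ⟨_, _, _, F⟩ := H.fr
    rw [← Finset.sum_sub_distrib]
    refine (Finset.abs_sum_le_sum_abs _ _).trans ((Finset.sum_le_sum
      (g := fun i => 208 * C * η * σ * Qm o i i) fun i _ => ?_).trans_eq ?_)
    · have a1 := (s3 δ1 (y1 i) (y2 i)).trans ((le_of_eq (by congr 1; ring)).trans (hy i))
      rw [← mul_sub]
      refine (am (H.c_le D i) le_rfl).trans ?_
      have := mul_le_mul_of_nonneg_left a1 (by positivity : 0 ≤ 4 * C * η * σ)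
      linarith
    · rw [← Finset.mul_sum, F.trQ H.ok]; ring
  have S2 := lin (c := c) (y := fun i => x i + (L1 * f1 i + L2 * f2 i)) (y' := fun i => (X + u) * f1 i)
    (f1 := f1) (f2 := f2) (u1 := L1 - u) (u2 := L2) δ0 δ1 y2 y3 fun i => by rw [H.hx]; ring
  have S3 := lin (c := f2) (y := fun i => (X + u) * f1 i) (y' := x) (f1 := f1) (f2 := f2)
    (u1 := u) (u2 := 0) δ0 δ1 y3 y4 fun i => by rw [H.hx]; ring
  have p2 : ∑ i, f2 i * tanh (x i) = f2 ⬝ᵥ o.p := Finset.sum_congr rfl fun i _ => by rw [H.hp]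
  have S4 : ∑ i, c i * tanh ((X + u) * f1 i) =
      α * ∑ i, f1 i * tanh ((X + u) * f1 i) + β * ∑ i, f2 i * tanh ((X + u) * f1 i) := by
    simp only [D.hc, Finset.mul_sum, ← Finset.sum_add_distrib]
    exact Finset.sum_congr rfl fun i _ => by simp only [Pi.add_apply, Pi.smul_apply, smul_eq_mul]; ring
  rw [H.Dc1 D, H.Dc2 D, S4] at S2
  rw [p2, abs_zero, zero_mul, zero_mul, add_zero, add_zero, Dq_comm, Wt_comm] at S3
  generalize ∑ i, c i * tanh (y i) = Y at *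
  generalize ∑ i, c i * tanh (x i + (L1 * f1 i + L2 * f2 i)) = Y' at *
  generalize ∑ i, f1 i * tanh ((X + u) * f1 i) = K1 at *
  generalize ∑ i, f2 i * tanh ((X + u) * f1 i) = K2 at *
  have e : α * (f1 ⬝ᵥ o.p + a) + β * (f2 ⬝ᵥ o.p + b) - Y + (i1 * d1 + i2 * d2) =
      -((Y - Y') + (Y' - (α * K1 + β * K2) - ((L1 - u) * i1 + L2 * i2)) + α * (K1 - (f1 ⬝ᵥ o.p + a)) +
        β * (K2 - f2 ⬝ᵥ o.p - u * Dq x f1 f2) +
        ((i2 - Dq x f1 f2 * i1 - β) * (b - Dq x f1 f2 * u) + i1 * r1 + i2 * r2)) := by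
    rw [l1, l2]; ring
  obtain ⟨Z, hZ⟩ : ∃ Z, Z = A + |b| + |d1| + |d2| + 1 := ⟨_, rfl⟩
  have T2 : |L1 - u| * Wt x c f1 + |L2| * Wt x c f2 ≤ 2 * Z * (4 * σ) + 2 * Z * (4 * σ) :=
    add_le_add (mul_le_mul (by linarith) ((H.Wc1 D).trans (by linarith)) (Wt_nonneg _ _ _) (by linarith))
      (mul_le_mul (by linarith) (H.Wc2 D) (Wt_nonneg _ _ _) (by linarith))
  have T3 : |u| * Wt x f1 f2 ≤ 2 * Z :=
    (mul_le_mul u1 (H.W1 H.n2) (Wt_nonneg _ _ _) (by positivity)).trans (by linarith)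
  have T4 : η * κ ^ 2 * |a| ≤ η * σ * Z := by
    calc η * κ ^ 2 * |a| = η * κ * A := by rw [hA]; ring
      _ ≤ _ := by gcongr; linarith
  have T5 : 20 * η * κ * (A + |b| + 1) ≤ 20 * η * σ * Z := by gcongr; linarith
  have T6 : 30 * η * (A + |b| + 1) ≤ 30 * η * Z := by gcongr; linarith
  rw [e, abs_neg, ← hA, ← hZ]
  refine (ad (ad (ad (ad S1 (S2.trans (mul_le_mul_of_nonneg_left T2 (by linarith)))) (am D.a (xp.trans T4)))
    (am D.b (S3.trans (mul_le_mul_of_nonneg_left T3 (by linarith)))))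
    (ad (ad (am D.key (g1.trans (by linarith : _ ≤ 2 * Z))) (am D.j1 (g2.trans T5)))
      (am D.j2 (g3.trans T6)))).trans ?_
  have Z1 : 1 ≤ Z := by linarith
  have v1 : C * η * σ ≤ C * η * σ * Z := le_mul_of_one_le_right (by positivity) Z1
  have v2 : η * σ * Z ≤ C * η * σ * Z := by
    calc η * σ * Z = 1 * η * σ * Z := by ring
      _ ≤ _ := by gcongr
  linarith [mul_pos (mul_pos e0 s0) (zero_lt_one.trans_le Z1)]

end Hx

end Crest.Agent.T157.O4c
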