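import Crest.Agent.T157.O4mA_53

set_option autoImplicit false
set_option linter.unusedSectionVars false

/-!
Row 157, A2 section 4 (helper53): the law of `c` on one sphere: fourth moment and mean of
`κ = (ξ·Bξ + b·ξ - k)/|ξ|²` under the weight `exp(-ξ·Bξ/2 - b·ξ)`.
-/

noncomputable section

namespace Crest.Agent.T157.M4

open MeasureTheory Matrix Crest.Agent.Lib.OrthPoinc Filter Topology Set
open Crest.Agent.T157.Oc Crest.Agent.T157.Od Crest.Agent.T157.Orb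

variable {k : ℕ}

theorem dsq {ι : Type*} [Fintype ι] (u : ι → ℝ) : 0 ≤ u ⬝ᵥ u :=
  Finset.sum_nonneg fun _ _ => mul_self_nonneg _

theorem cs {ι : Type*} [Fintype ι] (u v : ι → ℝ) : (u ⬝ᵥ v) ^ 2 ≤ (u ⬝ᵥ u) * (v ⬝ᵥ v) := by
  simpa only [dotProduct, sq] using Finset.sum_mul_sq_le_sq_mul_sq Finset.univ u v

theorem abs_dot_le {ι : Type*} [Fintype ι] {u v : ι → ℝ} {x y : ℝ} (hx : 0 ≤ x) (hy : 0 ≤ y)
    (hu : u ⬝ᵥ u ≤ x ^ 2) (hv : v ⬝ᵥ v ≤ y ^ 2) : |u ⬝ᵥ v| ≤ x * y := by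
  refine abs_le_of_sq_le_sq ((cs u v).trans ?_) (mul_nonneg hx hy)
  rw [mul_pow]
  exact mul_le_mul hu hv (dsq v) (sq_nonneg x)

theorem op2_le {ι : Type*} [Fintype ι] [DecidableEq ι] {M : Matrix ι ι ℝ} {a x : ℝ}
    (h : Op2 M (a ^ 2)) {u : ι → ℝ} (hu : u ⬝ᵥ u ≤ x ^ 2) : M *ᵥ u ⬝ᵥ M *ᵥ u ≤ (a * x) ^ 2 := by
  rw [mul_pow]
  exact (h u).trans (mul_le_mul_of_nonneg_left hu (sq_nonneg a))

/-- the weight on the sphere -/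
def ew (B : Matrix (Fin k) (Fin k) ℝ) (b x : Fin k → ℝ) : ℝ :=
  Real.exp (-(x ⬝ᵥ B *ᵥ x / 2 + b ⬝ᵥ x))

/-- `κ = c - k/R²` -/
def ka (B : Matrix (Fin k) (Fin k) ℝ) (b : Fin k → ℝ) (R2 : ℝ) (x : Fin k → ℝ) : ℝ :=
  (x ⬝ᵥ B *ᵥ x + b ⬝ᵥ x - k) / R2

theorem ew_pos (B : Matrix (Fin k) (Fin k) ℝ) (b x : Fin k → ℝ) : 0 < ew B b x := Real.exp_pos _

@[fun_prop] theorem continuous_ew (B : Matrix (Fin k) (Fin k) ℝ) (b : Fin k → ℝ) :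
    Continuous (ew B b) := by unfold ew; fun_prop

@[fun_prop] theorem continuous_ka (B : Matrix (Fin k) (Fin k) ℝ) (b : Fin k → ℝ) (R2 : ℝ) :
    Continuous (ka B b R2) := by unfold ka; fun_prop

variable {μ : Measure (Mat k)} [IsProbabilityMeasure μ] {B Gr : Matrix (Fin k) (Fin k) ℝ}
  {b σ : Fin k → ℝ} {Q g L S : ℝ}

theorem sg_ew (hB : Bᵀ = B) :
    SG σ (fun U => ew B b (xi σ U)) fun U => (-ew B b (xi σ U)) • (B *ᵥ xi σ U + b) :=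
  (((SG.const (-1 / 2)).mul (SG.quad hB)).add ((SG.const (-1)).mul (SG.lin b))).exp.congr
    (fun U => by rw [ew]; congr 1; ring) fun U => by
      have : ew B b (xi σ U) = Real.exp (-1 / 2 * (xi σ U ⬝ᵥ B *ᵥ xi σ U) + -1 * (b ⬝ᵥ xi σ U)) := by
        rw [ew]; congr 1; ring
      rw [this]; ext i; simp; ring

theorem sg_ka (hB : Bᵀ = B) (R2 : ℝ) :
    SG σ (fun U => ka B b R2 (xi σ U)) fun U => R2⁻¹ • ((2 : ℝ) • B *ᵥ xi σ U + b) :=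
  ((SG.const R2⁻¹).mul (((SG.quad hB).add (SG.lin b)).add (SG.const (-k)))).congr
    (fun U => by rw [ka]; ring) fun U => by simp

/-- the integrand of the weighted identity -/
def Ig (B : Matrix (Fin k) (Fin k) ℝ) (b : Fin k → ℝ) (R2 : ℝ) (M : Matrix (Fin k) (Fin k) ℝ)
    (w x : Fin k → ℝ) (κ f : ℝ) (G : Fin k → ℝ) : ℝ :=
  (κ * ((M *ᵥ x + w) ⬝ᵥ x) + w ⬝ᵥ x / R2 + M.trace - (M *ᵥ x + w) ⬝ᵥ (B *ᵥ x + b)) * f +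
    ((M *ᵥ x + w) ⬝ᵥ G - ((M *ᵥ x + w) ⬝ᵥ x) * (G ⬝ᵥ x) / R2)

/-- the weighted identity -/
theorem ibp_w (hμ : SOInv μ) (hB : Bᵀ = B) (h0 : σ ⬝ᵥ σ ≠ 0) {F : Mat k → ℝ} {G : Mat k → Fin k → ℝ}
    (h : SG σ F G) (M : Matrix (Fin k) (Fin k) ℝ) (w : Fin k → ℝ) :
    ∫ U, Ig B b (σ ⬝ᵥ σ) M w (xi σ U) (ka B b (σ ⬝ᵥ σ) (xi σ U)) (F U) (G U) *
        ew B b (xi σ U) ∂μ = 0 := by
  have h1 := (h.mul (sg_ew (b := b) hB)).ibp hμ M w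
  refine (mul_eq_zero.1 (?_ : σ ⬝ᵥ σ * _ = 0)).resolve_left h0
  rw [← integral_const_mul, ← h1]
  refine integral_congr_ae (ae_of_all _ fun U => ?_)
  simp only [ka, Ig]
  generalize xi σ U = x
  have e1 : x ⬝ᵥ M *ᵥ x = (M *ᵥ x + w) ⬝ᵥ x - w ⬝ᵥ x := by
    rw [add_dotProduct, dotProduct_comm x]; ring
  have e2 : x ⬝ᵥ B *ᵥ x = (B *ᵥ x + b) ⬝ᵥ x - b ⬝ᵥ x := by
    rw [add_dotProduct, dotProduct_comm x]; ring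
  rw [e1, e2]
  generalize M *ᵥ x + w = V
  generalize B *ᵥ x + b = y
  simp only [dotProduct_add, add_dotProduct, dotProduct_smul, smul_dotProduct, smul_eq_mul]
  field_simp
  ring

theorem int_le3 (hμ : SOInv μ) {f f1 f2 f3 : Mat k → ℝ} (hf : Continuous f) (h1 : Continuous f1)
    (h2 : Continuous f2) (h3 : Continuous f3) {c1 c2 c3 : ℝ}
    (h : ∀ U ∈ SO k, f U ≤ c1 * f1 U + c2 * f2 U + c3 * f3 U) :
    ∫ U, f U ∂μ ≤ c1 * ∫ U, f1 U ∂μ + c2 * ∫ U, f2 U ∂μ + c3 * ∫ U, f3 U ∂μ := by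
  have i1 := (integrable_of hμ h1.continuousOn).const_mul c1
  have i2 := (integrable_of hμ h2.continuousOn).const_mul c2
  have i3 := (integrable_of hμ h3.continuousOn).const_mul c3
  have i12 : Integrable (fun U => c1 * f1 U + c2 * f2 U) μ := i1.add i2
  rw [← integral_const_mul, ← integral_const_mul, ← integral_const_mul, ← integral_add i1 i2,
    ← integral_add i12 i3]
  exact integral_mono_ae (integrable_of hμ hf.continuousOn) (i12.add i3) ((ae_SO hμ).mono h)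

/-- the data of one sphere -/
structure Sph (B Gr : Matrix (Fin k) (Fin k) ℝ) (b σ : Fin k → ℝ) (Q g L S : ℝ) : Prop where
  symm : Bᵀ = B
  symmG : Grᵀ = Gr
  inv : B * Gr = 1
  hB : Op2 B (Q ^ 2)
  hG : Op2 Gr (g ^ 2)
  co : ∀ v, v ⬝ᵥ v ≤ Q * (v ⬝ᵥ Gr *ᵥ v)
  Q1 : 1 ≤ Q
  g1 : 1 ≤ g
  L1 : 1 ≤ L
  S0 : 0 < S
  r1 : 1 ≤ σ ⬝ᵥ σ
  rS : σ ⬝ᵥ σ ≤ S ^ 2
  rQ : S ^ 2 ≤ Q * (σ ⬝ᵥ σ)
  bL : b ⬝ᵥ b ≤ L ^ 2
  tr : |σ ⬝ᵥ σ - Gr.trace| ≤ L * S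

theorem sc1 {S κ t u j m : ℝ} (hS : 0 < S) (ht : S ^ 2 ≤ t) (hu : |u| ≤ 2 * m * S)
    (hj : |j| ≤ 6 * m ^ 2) :
    (S * κ) ^ 4 ≤ 2 * S ^ 2 * (t * κ ^ 4 - u * κ ^ 3 + 3 * κ ^ 2 * j) + 904 * m ^ 4 := by
  have h1 : S ^ 2 * (S ^ 2 * κ ^ 4) ≤ S ^ 2 * (t * κ ^ 4) := by gcongr
  have h2 : u ^ 2 ≤ (2 * m * S) ^ 2 := by
    rw [← sq_abs]; exact pow_le_pow_left₀ (abs_nonneg _) hu 2
  have h3 : u ^ 2 * κ ^ 2 ≤ (2 * m * S) ^ 2 * κ ^ 2 := by gcongr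
  have h4 : S ^ 2 * κ ^ 2 * (-(6 * m ^ 2)) ≤ S ^ 2 * κ ^ 2 * j :=
    mul_le_mul_of_nonneg_left (abs_le.1 hj).1 (by positivity)
  nlinarith [sq_nonneg (S ^ 2 * κ ^ 2 / 2 - 2 * u * κ), sq_nonneg (S ^ 2 * κ ^ 2 / 2 - 16 * m ^ 2),
    sq_nonneg (S ^ 2 * κ ^ 2 - 36 * m ^ 2)]

namespace Sph

variable (h : Sph B Gr b σ Q g L S)
include h

theorem L_le : L ^ 2 ≤ (g * L * Q ^ 2) ^ 2 := by
  have hQ := h.Q1; have hg := h.g1; have hL := h.L1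
  refine pow_le_pow_left₀ (by linarith) ?_ 2
  calc L = 1 * L * 1 := by ring
    _ ≤ g * L * Q ^ 2 := by gcongr; exact one_le_pow₀ hQ

theorem BG (v : Fin k → ℝ) : B *ᵥ (Gr *ᵥ v) = v := by rw [mulVec_mulVec, h.inv, one_mulVec]

theorem GB (x v : Fin k → ℝ) : Gr *ᵥ v ⬝ᵥ B *ᵥ x = v ⬝ᵥ x := by
  rw [symm_dot h.symm, h.BG]

theorem pt1 {x : Fin k → ℝ} (hx : x ⬝ᵥ x = σ ⬝ᵥ σ) (κ : ℝ) : (S * κ) ^ 4 ≤ 2 * S ^ 2 * Q ^ 2 *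
    Ig B b (σ ⬝ᵥ σ) Gr 0 x κ (κ ^ 3) ((3 * κ ^ 2) • (σ ⬝ᵥ σ)⁻¹ • ((2 : ℝ) • B *ᵥ x + b)) +
      904 * (g * L * Q ^ 2) ^ 4 := by
  have hQ := h.Q1; have hg := h.g1; have hL := h.L1; have hS := h.S0; have hr := h.r1
  obtain ⟨R, hR0, hR⟩ : ∃ R : ℝ, 0 < R ∧ σ ⬝ᵥ σ = R ^ 2 :=
    ⟨√(σ ⬝ᵥ σ), Real.sqrt_pos.2 (by linarith), (Real.sq_sqrt (by linarith)).symm⟩
  have hxR : x ⬝ᵥ x ≤ R ^ 2 := by rw [hx, hR]
  have hR1 : 1 ≤ R := by rw [hR] at hr; nlinarith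
  have hRS : R ≤ S := by
    have := h.rS; rw [hR] at this; exact (abs_le_of_sq_le_sq this hS.le |> abs_le.1).2
  have a1 : |Gr *ᵥ x ⬝ᵥ b| ≤ g * R * L :=
    abs_dot_le (by positivity) (by positivity) (op2_le h.hG hxR) h.bL
  have a2 : |Gr *ᵥ x ⬝ᵥ x| ≤ g * R * R := abs_dot_le (by positivity) hR0.le (op2_le h.hG hxR) hxR
  have a3 : |B *ᵥ x ⬝ᵥ x| ≤ Q * R * R := abs_dot_le (by positivity) hR0.le (op2_le h.hB hxR) hxR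
  have a4 : |b ⬝ᵥ x| ≤ L * R := abs_dot_le (by positivity) hR0.le h.bL hxR
  have a5 := h.co x
  have a6 := h.rQ
  have a7 := h.tr
  rw [dotProduct_comm x (Gr *ᵥ x), hx] at a5
  simp only [Ig, add_zero, zero_dotProduct, zero_div, dotProduct_add, add_dotProduct, dotProduct_smul,
    smul_dotProduct, smul_eq_mul, h.GB, hx]
  rw [hR] at a5 a6 a7 ⊢
  generalize Gr *ᵥ x ⬝ᵥ b = β at *
  generalize Gr *ᵥ x ⬝ᵥ x = τ at *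
  generalize B *ᵥ x ⬝ᵥ x = α at *
  generalize b ⬝ᵥ x = γ at *
  generalize Gr.trace = T at *
  have b1 : S ^ 2 ≤ Q ^ 2 * τ := by nlinarith
  have b2 : |Q ^ 2 * (R ^ 2 - T + β)| ≤ 2 * (g * L * Q ^ 2) * S := by
    rw [abs_mul, abs_of_nonneg (sq_nonneg Q)]
    have c1 : g * R * L ≤ g * S * L := by gcongr
    have c2 : L * S ≤ g * (L * S) := le_mul_of_one_le_left (by positivity) hg
    have c3 : |R ^ 2 - T + β| ≤ 2 * g * L * S := (abs_add_le _ _).trans (by linarith)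
    exact (mul_le_mul_of_nonneg_left c3 (sq_nonneg Q)).trans (le_of_eq (by ring))
  have b3 : |(R ^ 2)⁻¹ * (2 * R ^ 2 + β) - τ * ((R ^ 2)⁻¹ * (2 * α + γ)) / R ^ 2| ≤ 6 * (g * L * Q) := by
    have c1 : |2 * α + γ| ≤ 2 * (Q * R * R) + L * R := (abs_add_le _ _).trans (by
      rw [abs_mul, abs_two]; linarith)
    have c2 : |τ * (2 * α + γ)| ≤ g * R * R * (2 * (Q * R * R) + L * R) := by
      rw [abs_mul]; exact mul_le_mul a2 c1 (abs_nonneg _) (by positivity)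
    have c3 : (R ^ 2)⁻¹ * (2 * R ^ 2 + β) - τ * ((R ^ 2)⁻¹ * (2 * α + γ)) / R ^ 2 =
        (2 * R ^ 4 + R ^ 2 * β - τ * (2 * α + γ)) / R ^ 4 := by field_simp
    have c4 : |R ^ 2 * β| ≤ R ^ 2 * (g * R * L) := by
      rw [abs_mul, abs_of_nonneg (sq_nonneg R)]; gcongr
    have c5 : g * L * R ^ 3 ≤ g * L * Q * R ^ 4 := by
      have : R ^ 3 ≤ Q * R ^ 4 := by
        calc R ^ 3 = 1 * (R ^ 3 * 1) := by ring
          _ ≤ Q * (R ^ 3 * R) := by gcongr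
          _ = _ := by ring
      exact (mul_le_mul_of_nonneg_left this (by positivity)).trans (le_of_eq (by ring))
    have c6 : g * Q * R ^ 4 ≤ g * L * Q * R ^ 4 := by
      calc g * Q * R ^ 4 = g * 1 * Q * R ^ 4 := by ring
        _ ≤ _ := by gcongr
    have c7 : R ^ 4 ≤ g * L * Q * R ^ 4 :=
      le_mul_of_one_le_left (by positivity) (one_le_mul_of_one_le_of_one_le
        (one_le_mul_of_one_le_of_one_le hg hL) hQ)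
    rw [c3, abs_div, abs_of_pos (pow_pos hR0 4), div_le_iff₀ (pow_pos hR0 4), abs_le]
    have := abs_le.1 c2
    have := abs_le.1 c4
    have : 0 < R ^ 4 := by positivity
    constructor <;> nlinarith
  have b4 : |Q ^ 2 * ((R ^ 2)⁻¹ * (2 * R ^ 2 + β) - τ * ((R ^ 2)⁻¹ * (2 * α + γ)) / R ^ 2)| ≤
      6 * (g * L * Q ^ 2) ^ 2 := by
    rw [abs_mul, abs_of_nonneg (sq_nonneg Q)]
    refine (mul_le_mul_of_nonneg_left b3 (sq_nonneg Q)).trans ?_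
    calc Q ^ 2 * (6 * (g * L * Q)) = 6 * (g * L * Q ^ 3) * 1 := by ring
      _ ≤ 6 * (g * L * Q ^ 3) * (g * L * Q) := by
          gcongr
          exact one_le_mul_of_one_le_of_one_le (one_le_mul_of_one_le_of_one_le hg hL) hQ
      _ = _ := by ring
  refine (sc1 (κ := κ) hS b1 b2 b4).trans (le_of_eq ?_)
  ring

theorem GGB (x v : Fin k → ℝ) : (Gr * Gr) *ᵥ v ⬝ᵥ B *ᵥ x = Gr *ᵥ x ⬝ᵥ v := by
  rw [← mulVec_mulVec, h.GB, ← symm_dot h.symmG, dotProduct_comm]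

theorem pt2 {x : Fin k → ℝ} (hx : x ⬝ᵥ x = σ ⬝ᵥ σ) (κ : ℝ) :
    (x ⬝ᵥ Gr *ᵥ x - (Gr * Gr).trace) ^ 2 ≤ -2 *
    Ig B b (σ ⬝ᵥ σ) (Gr * Gr) 0 x κ (x ⬝ᵥ Gr *ᵥ x - (Gr * Gr).trace) ((2 : ℝ) • Gr *ᵥ x) +
      2 * g ^ 4 * S ^ 2 * (S * κ) ^ 2 +
      6 * g ^ 4 * S ^ 2 * L ^ 2 := by
  have hQ := h.Q1; have hg := h.g1; have hL := h.L1; have hS := h.S0; have hr := h.r1
  have hxS : x ⬝ᵥ x ≤ S ^ 2 := hx ▸ h.rS
  have a0 := op2_le h.hG hxS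
  have a0' := op2_le h.hG a0
  have a1 : |Gr *ᵥ (Gr *ᵥ x) ⬝ᵥ b| ≤ g * (g * S) * L :=
    abs_dot_le (by positivity) (by positivity) a0' h.bL
  have a2 : |Gr *ᵥ (Gr *ᵥ x) ⬝ᵥ Gr *ᵥ x| ≤ g * (g * S) * (g * S) :=
    abs_dot_le (by positivity) (by positivity) a0' a0
  have a3 : Gr *ᵥ (Gr *ᵥ x) ⬝ᵥ x = Gr *ᵥ x ⬝ᵥ Gr *ᵥ x := (symm_dot h.symmG _ _).symm
  have a4 := dsq (Gr *ᵥ x)
  have a5 : 0 ≤ Gr *ᵥ x ⬝ᵥ x := by
    have := h.co x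
    rw [dotProduct_comm x (Gr *ᵥ x), hx] at this
    by_contra hh
    nlinarith [mul_nonneg (by linarith : (0 : ℝ) ≤ Q) (neg_nonneg.2 (not_le.1 hh).le)]
  simp only [Ig, add_zero, zero_dotProduct, zero_div, dotProduct_add, dotProduct_smul,
    smul_dotProduct, smul_eq_mul, h.GGB, dotProduct_comm x (Gr *ᵥ x)]
  simp only [← mulVec_mulVec, a3]
  generalize Gr *ᵥ (Gr *ᵥ x) ⬝ᵥ b = β at *
  generalize Gr *ᵥ (Gr *ᵥ x) ⬝ᵥ Gr *ᵥ x = γ at *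
  generalize Gr *ᵥ x ⬝ᵥ Gr *ᵥ x = τ2 at *
  generalize Gr *ᵥ x ⬝ᵥ x = τ at *
  generalize (Gr * Gr).trace = T at *
  have b1 : 0 ≤ τ2 * (2 * τ) / (σ ⬝ᵥ σ) := by positivity
  have b2 : β ^ 2 ≤ (g * (g * S) * L) ^ 2 := by
    rw [← sq_abs]; exact pow_le_pow_left₀ (abs_nonneg _) a1 2
  have b3 : τ2 ^ 2 * κ ^ 2 ≤ ((g * S) ^ 2) ^ 2 * κ ^ 2 := by gcongr
  have b4 : g * (g * S) * (g * S) ≤ g ^ 4 * S ^ 2 * L ^ 2 := by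
    calc g * (g * S) * (g * S) = g ^ 3 * S ^ 2 * 1 := by ring
      _ ≤ g ^ 3 * S ^ 2 * (g * L ^ 2) := by
          gcongr
          exact one_le_mul_of_one_le_of_one_le hg (one_le_pow₀ hL)
      _ = _ := by ring
  have b5 := (abs_le.1 a2).2
  nlinarith [sq_nonneg (τ - T - (κ * τ2 - β)), sq_nonneg (κ * τ2 + β)]

theorem pt3 {x : Fin k → ℝ} (hx : x ⬝ᵥ x = σ ⬝ᵥ σ) (κ : ℝ) :
    |(Gr * Gr).trace * κ - (σ ⬝ᵥ σ - Gr.trace) -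
      Ig B b (σ ⬝ᵥ σ) Gr (-((Gr * Gr) *ᵥ b)) x κ 1 0| ≤ g ^ 2 * (S * κ) ^ 2 +
      (2 * g ^ 2 * S ^ 2)⁻¹ * (x ⬝ᵥ Gr *ᵥ x - (Gr * Gr).trace) ^ 2 + 3 * g ^ 2 * L ^ 2 := by
  have hQ := h.Q1; have hg := h.g1; have hL := h.L1; have hS := h.S0; have hr := h.r1
  have a0 := op2_le h.hG h.bL
  have a0' := op2_le h.hG a0
  have a1 : |Gr *ᵥ (Gr *ᵥ b) ⬝ᵥ x| ≤ g * (g * L) * S :=
    abs_dot_le (by positivity) (by positivity) a0' (hx ▸ h.rS)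
  have a2 : |Gr *ᵥ (Gr *ᵥ b) ⬝ᵥ x / (σ ⬝ᵥ σ)| ≤ g * (g * L) := by
    refine abs_le_of_sq_le_sq ?_ (by positivity)
    rw [div_pow, div_le_iff₀ (by positivity)]
    refine (cs _ _).trans ?_
    rw [hx]
    exact mul_le_mul a0' (by nlinarith) (by positivity) (by positivity)
  have a3 : Gr *ᵥ (Gr *ᵥ b) ⬝ᵥ b = Gr *ᵥ b ⬝ᵥ Gr *ᵥ b := (symm_dot h.symmG _ _).symm
  have a4 := dsq (Gr *ᵥ b)
  simp only [Ig, dotProduct_zero, zero_dotProduct, dotProduct_add, add_dotProduct, neg_dotProduct,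
    h.GGB, h.GB, dotProduct_comm x (Gr *ᵥ x), hx, neg_div]
  simp only [← mulVec_mulVec, a3]
  generalize Gr *ᵥ (Gr *ᵥ b) ⬝ᵥ x / (σ ⬝ᵥ σ) = β' at *
  generalize Gr *ᵥ (Gr *ᵥ b) ⬝ᵥ x = β at *
  generalize Gr *ᵥ b ⬝ᵥ Gr *ᵥ b = γ at *
  generalize Gr *ᵥ x ⬝ᵥ x = τ at *
  generalize (Gr * Gr).trace = T at *
  have b1 : |κ * (τ - T)| ≤ g ^ 2 * (S * κ) ^ 2 / 2 + (2 * g ^ 2 * S ^ 2)⁻¹ * (τ - T) ^ 2 := by
    have e : (2 * g ^ 2 * S ^ 2)⁻¹ * (τ - T) ^ 2 = ((τ - T) / (g * S)) ^ 2 / 2 := by field_simp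
    have e2 : κ * (τ - T) = g * S * κ * ((τ - T) / (g * S)) := by field_simp
    rw [e, e2, abs_le]
    generalize (τ - T) / (g * S) = y
    constructor <;> nlinarith [sq_nonneg (g * S * κ + y), sq_nonneg (g * S * κ - y)]
  have b2 : |κ * β| ≤ g ^ 2 * (S * κ) ^ 2 / 2 + g ^ 2 * L ^ 2 / 2 := by
    rw [abs_mul]
    refine (mul_le_mul_of_nonneg_left a1 (abs_nonneg _)).trans ?_
    have : (S * κ) ^ 2 = (S * |κ|) ^ 2 := by rw [mul_pow, mul_pow, sq_abs]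
    rw [this]
    nlinarith [mul_nonneg (sq_nonneg g) (sq_nonneg (S * |κ| - L))]
  have b3 : g * (g * L) ≤ g ^ 2 * L ^ 2 := by
    calc g * (g * L) = g ^ 2 * L * 1 := by ring
      _ ≤ g ^ 2 * L * L := by gcongr
      _ = _ := by ring
  obtain ⟨c1, c2⟩ := abs_le.1 b1
  obtain ⟨c3, c4⟩ := abs_le.1 b2
  obtain ⟨c5, c6⟩ := abs_le.1 a2
  have : 0 ≤ g ^ 2 * L ^ 2 := by positivity
  rw [mul_pow] at a0
  rw [mul_zero, zero_div, abs_le]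
  generalize (2 * g ^ 2 * S ^ 2)⁻¹ * (τ - T) ^ 2 = Y at *
  constructor <;> linarith

/-- fourth moment of `κ` -/
theorem k4 (hμ : SOInv μ) : ∫ U, (S * ka B b (σ ⬝ᵥ σ) (xi σ U)) ^ 4 * ew B b (xi σ U) ∂μ ≤
    1024 * (g * L * Q ^ 2) ^ 4 * ∫ U, ew B b (xi σ U) ∂μ := by
  have h0 : σ ⬝ᵥ σ ≠ 0 := by linarith [h.r1]
  have h1 := sg_ka (σ := σ) (b := b) h.symm (σ ⬝ᵥ σ)
  have h2 : SG σ (fun U => ka B b (σ ⬝ᵥ σ) (xi σ U) ^ 3) fun U =>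
      (3 * ka B b (σ ⬝ᵥ σ) (xi σ U) ^ 2) • (σ ⬝ᵥ σ)⁻¹ • ((2 : ℝ) • B *ᵥ xi σ U + b) :=
    (h1.mul (h1.mul h1)).congr (fun U => by ring) fun U => by
      generalize (σ ⬝ᵥ σ)⁻¹ • ((2 : ℝ) • B *ᵥ xi σ U + b) = v
      ext i; simp; ring
  have h3 := ibp_w (b := b) hμ h.symm h0 h2 Gr 0
  have h4 := int_le3 hμ (f := fun U => (S * ka B b (σ ⬝ᵥ σ) (xi σ U)) ^ 4 * ew B b (xi σ U))
    (by fun_prop) (f1 := fun U => Ig B b (σ ⬝ᵥ σ) Gr 0 (xi σ U) (ka B b (σ ⬝ᵥ σ) (xi σ U))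
      (ka B b (σ ⬝ᵥ σ) (xi σ U) ^ 3) ((3 * ka B b (σ ⬝ᵥ σ) (xi σ U) ^ 2) • (σ ⬝ᵥ σ)⁻¹ •
        ((2 : ℝ) • B *ᵥ xi σ U + b)) * ew B b (xi σ U)) (by unfold Ig; fun_prop)
    (f2 := fun U => ew B b (xi σ U)) (by fun_prop)
    (f3 := fun U => ew B b (xi σ U)) (by fun_prop) (c1 := 2 * S ^ 2 * Q ^ 2)
    (c2 := 904 * (g * L * Q ^ 2) ^ 4) (c3 := 120 * (g * L * Q ^ 2) ^ 4) fun U hU => by
      have a := mul_le_mul_of_nonneg_right (h.pt1 (dot_xi σ hU) (ka B b (σ ⬝ᵥ σ) (xi σ U)))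
        (ew_pos B b (xi σ U)).le
      have : 0 ≤ 120 * (g * L * Q ^ 2) ^ 4 * ew B b (xi σ U) := by
        have := ew_pos B b (xi σ U); positivity
      rw [add_mul, mul_assoc (2 * S ^ 2 * Q ^ 2)] at a
      exact a.trans (le_add_of_nonneg_right this)
  rw [h3] at h4
  linarith

theorem k2 (hμ : SOInv μ) : ∫ U, (S * ka B b (σ ⬝ᵥ σ) (xi σ U)) ^ 2 * ew B b (xi σ U) ∂μ ≤
    32 * (g * L * Q ^ 2) ^ 2 * ∫ U, ew B b (xi σ U) ∂μ := by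
  have hm : 0 < g * L * Q ^ 2 := by
    have := h.Q1; have := h.g1; have := h.L1; positivity
  have h1 := h.k4 hμ
  generalize g * L * Q ^ 2 = m at *
  have h4 := int_le3 hμ (f := fun U => (S * ka B b (σ ⬝ᵥ σ) (xi σ U)) ^ 2 * ew B b (xi σ U))
    (by fun_prop) (f1 := fun U => (S * ka B b (σ ⬝ᵥ σ) (xi σ U)) ^ 4 * ew B b (xi σ U))
    (by fun_prop) (f2 := fun U => ew B b (xi σ U)) (by fun_prop)
    (f3 := fun U => ew B b (xi σ U)) (by fun_prop) (c1 := (64 * m ^ 2)⁻¹)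
    (c2 := 16 * m ^ 2) (c3 := 0) fun U hU => by
      have a := ew_pos B b (xi σ U)
      generalize S * ka B b (σ ⬝ᵥ σ) (xi σ U) = y
      have e : y ^ 2 ≤ (64 * m ^ 2)⁻¹ * y ^ 4 + 16 * m ^ 2 := by
        have e1 : (64 * m ^ 2)⁻¹ * y ^ 4 = (y ^ 2 / (8 * m)) ^ 2 := by field_simp; ring
        have e2 : y ^ 2 = 8 * m * (y ^ 2 / (8 * m)) := by field_simp
        rw [e1]
        nlinarith [sq_nonneg (y ^ 2 / (8 * m) - 4 * m)]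
      nlinarith [mul_le_mul_of_nonneg_right e a.le]
  have h5 := mul_le_mul_of_nonneg_left h1 (by positivity : 0 ≤ (64 * m ^ 2)⁻¹)
  have e : (64 * m ^ 2)⁻¹ * (1024 * m ^ 4 * ∫ U, ew B b (xi σ U) ∂μ) =
      16 * m ^ 2 * ∫ U, ew B b (xi σ U) ∂μ := by field_simp; ring
  linarith

theorem y2 (hμ : SOInv μ) :
    ∫ U, (xi σ U ⬝ᵥ Gr *ᵥ xi σ U - (Gr * Gr).trace) ^ 2 * ew B b (xi σ U) ∂μ ≤
      70 * g ^ 4 * S ^ 2 * (g * L * Q ^ 2) ^ 2 * ∫ U, ew B b (xi σ U) ∂μ := by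
  have h0 : σ ⬝ᵥ σ ≠ 0 := by linarith [h.r1]
  have h2 : SG σ (fun U => xi σ U ⬝ᵥ Gr *ᵥ xi σ U - (Gr * Gr).trace) fun U =>
      (2 : ℝ) • Gr *ᵥ xi σ U :=
    ((SG.quad h.symmG).add (SG.const (-(Gr * Gr).trace))).congr (fun U => by ring) fun U => add_zero _
  have h3 := ibp_w (b := b) hμ h.symm h0 h2 (Gr * Gr) 0
  have h4 := int_le3 hμ
    (f := fun U => (xi σ U ⬝ᵥ Gr *ᵥ xi σ U - (Gr * Gr).trace) ^ 2 * ew B b (xi σ U))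
    (by fun_prop) (f1 := fun U => Ig B b (σ ⬝ᵥ σ) (Gr * Gr) 0 (xi σ U) (ka B b (σ ⬝ᵥ σ) (xi σ U))
      (xi σ U ⬝ᵥ Gr *ᵥ xi σ U - (Gr * Gr).trace) ((2 : ℝ) • Gr *ᵥ xi σ U) * ew B b (xi σ U))
    (by unfold Ig; fun_prop)
    (f2 := fun U => (S * ka B b (σ ⬝ᵥ σ) (xi σ U)) ^ 2 * ew B b (xi σ U)) (by fun_prop)
    (f3 := fun U => ew B b (xi σ U)) (by fun_prop) (c1 := -2)
    (c2 := 2 * g ^ 4 * S ^ 2) (c3 := 6 * g ^ 4 * S ^ 2 * L ^ 2) fun U hU => by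
      have a := mul_le_mul_of_nonneg_right (h.pt2 (dot_xi σ hU) (ka B b (σ ⬝ᵥ σ) (xi σ U)))
        (ew_pos B b (xi σ U)).le
      rwa [add_mul, add_mul, mul_assoc (-2 : ℝ), mul_assoc (2 * g ^ 4 * S ^ 2)] at a
  rw [h3] at h4
  have h5 := mul_le_mul_of_nonneg_left (h.k2 hμ) (by positivity : 0 ≤ 2 * g ^ 4 * S ^ 2)
  have h6 : 0 ≤ ∫ U, ew B b (xi σ U) ∂μ := integral_nonneg fun U => (ew_pos _ _ _).le
  have h7 : L ^ 2 ≤ (g * L * Q ^ 2) ^ 2 := h.L_le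
  have h8 : g ^ 4 * S ^ 2 * L ^ 2 * ∫ U, ew B b (xi σ U) ∂μ ≤
      g ^ 4 * S ^ 2 * (g * L * Q ^ 2) ^ 2 * ∫ U, ew B b (xi σ U) ∂μ := by gcongr
  linarith

/-- the mean of `κ` -/
theorem k1 (hμ : SOInv μ) :
    |(Gr * Gr).trace * ∫ U, ka B b (σ ⬝ᵥ σ) (xi σ U) * ew B b (xi σ U) ∂μ -
      (σ ⬝ᵥ σ - Gr.trace) * ∫ U, ew B b (xi σ U) ∂μ| ≤
      70 * g ^ 2 * (g * L * Q ^ 2) ^ 2 * ∫ U, ew B b (xi σ U) ∂μ := by
  have h0 : σ ⬝ᵥ σ ≠ 0 := by linarith [h.r1]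
  have hg := h.g1; have hS := h.S0
  have h3 := ibp_w (b := b) hμ h.symm h0 (SG.const 1) Gr (-((Gr * Gr) *ᵥ b))
  have i1 : Integrable (fun U => (Gr * Gr).trace * (ka B b (σ ⬝ᵥ σ) (xi σ U) * ew B b (xi σ U))) μ :=
    integrable_of hμ (Continuous.continuousOn (by fun_prop))
  have i2 : Integrable (fun U => (σ ⬝ᵥ σ - Gr.trace) * ew B b (xi σ U)) μ :=
    integrable_of hμ (Continuous.continuousOn (by fun_prop))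
  have i12 : Integrable (fun U => (Gr * Gr).trace * (ka B b (σ ⬝ᵥ σ) (xi σ U) * ew B b (xi σ U)) -
    (σ ⬝ᵥ σ - Gr.trace) * ew B b (xi σ U)) μ := i1.sub i2
  rw [← integral_const_mul, ← integral_const_mul, ← integral_sub i1 i2, ← sub_zero (∫ U, _ - _ ∂μ),
    ← h3, ← integral_sub i12 (integrable_of hμ (Continuous.continuousOn (by unfold Ig; fun_prop)))]
  refine abs_integral_le_integral_abs.trans ((int_le3 hμ (by unfold Ig; fun_prop)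
    (f1 := fun U => (S * ka B b (σ ⬝ᵥ σ) (xi σ U)) ^ 2 * ew B b (xi σ U)) (by fun_prop)
    (f2 := fun U => (xi σ U ⬝ᵥ Gr *ᵥ xi σ U - (Gr * Gr).trace) ^ 2 * ew B b (xi σ U)) (by fun_prop)
    (f3 := fun U => ew B b (xi σ U)) (by fun_prop) (c1 := g ^ 2) (c2 := (2 * g ^ 2 * S ^ 2)⁻¹)
    (c3 := 3 * g ^ 2 * L ^ 2) fun U hU => ?_).trans ?_)
  · have a := mul_le_mul_of_nonneg_right (h.pt3 (dot_xi σ hU) (ka B b (σ ⬝ᵥ σ) (xi σ U)))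
      (ew_pos B b (xi σ U)).le
    rw [add_mul, add_mul, mul_assoc (g ^ 2), mul_assoc (2 * g ^ 2 * S ^ 2)⁻¹] at a
    refine le_trans (le_of_eq ?_) a
    rw [← mul_assoc, ← sub_mul, ← sub_mul, abs_mul, abs_of_pos (ew_pos B b (xi σ U))]
  · have h5 := mul_le_mul_of_nonneg_left (h.k2 hμ) (by positivity : 0 ≤ g ^ 2)
    have h6 := mul_le_mul_of_nonneg_left (h.y2 hμ) (by positivity : 0 ≤ (2 * g ^ 2 * S ^ 2)⁻¹)
    have h7 : 0 ≤ ∫ U, ew B b (xi σ U) ∂μ := integral_nonneg fun U => (ew_pos _ _ _).le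
    have h8 : g ^ 2 * L ^ 2 * ∫ U, ew B b (xi σ U) ∂μ ≤
      g ^ 2 * (g * L * Q ^ 2) ^ 2 * ∫ U, ew B b (xi σ U) ∂μ :=
      mul_le_mul_of_nonneg_right (mul_le_mul_of_nonneg_left h.L_le (sq_nonneg g)) h7
    have e : (2 * g ^ 2 * S ^ 2)⁻¹ * (70 * g ^ 4 * S ^ 2 * (g * L * Q ^ 2) ^ 2 *
        ∫ U, ew B b (xi σ U) ∂μ) = 35 * g ^ 2 * (g * L * Q ^ 2) ^ 2 * ∫ U, ew B b (xi σ U) ∂μ := by
      field_simp; ring
    linarith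

end Sph

end Crest.Agent.T157.M4
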