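import Crest.Agent.T157.O4cDef_4
import Crest.Agent.T157.O4mB_53

set_option autoImplicit false
set_option linter.unusedSectionVars false

/-!
Row 157, A2 section 4 (helper42): the tangent field of (M1), its bounds, and the sphere step.
-/

noncomputable section

namespace Crest.Agent.T157.O4c.B42

open MeasureTheory Matrix Crest.Agent.Lib.OrthPoinc Real
open Crest.Agent.T157.Oc Crest.Agent.T157.E Crest.Agent.T157.Od Crest.Agent.T157.Oo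
open Crest.Agent.T157.Mj Crest.Agent.T157.M4

variable {n k : ℕ}

/-! ### words -/

def Yv (G : Mn n) (p ξ : Vn n) : Vn n := G *ᵥ (ξ + p + p)
def Sv (G : Mn n) (p ξ : Vn n) : ℝ := (ξ + p) ⬝ᵥ G *ᵥ (ξ + p + p)
def th (a S : ℝ) : ℝ := S / (S ^ 2 + a ^ 2)
def th1 (a S : ℝ) : ℝ := (a ^ 2 - S ^ 2) / (S ^ 2 + a ^ 2) ^ 2
def ph1 (a S : ℝ) : ℝ := 2 * S * a ^ 2 / (S ^ 2 + a ^ 2) ^ 2
/-- `G v · (ξ + p)` -/
def uv (G : Mn n) (p v ξ : Vn n) : ℝ := G *ᵥ v ⬝ᵥ (ξ + p)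
/-- the tangent field -/
def Uv (G : Mn n) (p : Vn n) (a : ℝ) (v ξ : Vn n) : Vn n :=
  th a (Sv G p ξ) • (Sv G p ξ • G *ᵥ v - uv G p v ξ • Yv G p ξ)
/-- the `G`-norm -/
def nG (G : Mn n) (u : Vn n) : ℝ := √(u ⬝ᵥ G *ᵥ u)
/-- the gradient of `Sv` -/
def dS (G : Mn n) (p ξ : Vn n) : Vn n := G *ᵥ (ξ + p + p) + G *ᵥ (ξ + p)

/-- `0 ≤ G ≤ γ` -/
structure PG (G : Mn n) (γ : ℝ) : Prop where
  symm : Gᵀ = G
  pos : 0 < γ
  le : ∀ u, G *ᵥ u ⬝ᵥ G *ᵥ u ≤ γ * (u ⬝ᵥ G *ᵥ u)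

theorem PG.of_hw {o : Oo.Orb n k} {x f1 f2 : Vn n} {G : Mn n} {χ κ η C g T0 τ : ℝ}
    (h : Hw o x f1 f2 G χ κ η C g T0 τ) : PG G g⁻¹ := by
  refine ⟨h.symm, inv_pos.2 h.g0, fun u => ?_⟩
  have h1 := h.co (G *ᵥ u)
  rw [mulVec_mulVec, h.inv, one_mulVec, dotProduct_comm _ u] at h1
  rwa [← div_eq_inv_mul, le_div_iff₀' h.g0]

/-! ### scalar bounds -/

theorem hd_th {a : ℝ} (ha : 0 < a) (S : ℝ) : HasDerivAt (th a) (th1 a S) S := by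
  have h0 : S ^ 2 + a ^ 2 ≠ 0 := by positivity
  have h := (hasDerivAt_id' S).div (((hasDerivAt_id' S).pow 2).add_const (a ^ 2)) h0
  refine (h.congr_deriv ?_).congr_of_eventuallyEq (Filter.Eventually.of_forall fun _ => rfl)
  simp only [th1, Pi.pow_apply]
  field_simp
  ring

theorem hd_ph {a : ℝ} (ha : 0 < a) (S : ℝ) : HasDerivAt (fun S => th a S * S) (ph1 a S) S := by
  have h0 : S ^ 2 + a ^ 2 ≠ 0 := by positivity
  refine ((hd_th ha S).mul (hasDerivAt_id' S)).congr_deriv ?_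
  simp only [th1, th, ph1]
  field_simp
  ring

theorem cont_th {a : ℝ} (ha : 0 < a) : Continuous (th a) := by
  unfold th; exact continuous_id.div (by fun_prop) fun S => by positivity
theorem cont_th1 {a : ℝ} (ha : 0 < a) : Continuous (th1 a) := by
  unfold th1; exact Continuous.div (by fun_prop) (by fun_prop) fun S => by positivity
theorem cont_ph1 {a : ℝ} (ha : 0 < a) : Continuous (ph1 a) := by
  unfold ph1; exact Continuous.div (by fun_prop) (by fun_prop) fun S => by positivity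

theorem thS {a : ℝ} (ha : 0 < a) (S : ℝ) : 0 ≤ th a S * S ∧ th a S * S ≤ 1 := by
  have h0 : 0 < S ^ 2 + a ^ 2 := by positivity
  rw [th, div_mul_eq_mul_div, ← sq]
  exact ⟨by positivity, (div_le_one h0).2 (by nlinarith)⟩

theorem le_of_sq {x L : ℝ} (hL : 0 ≤ L) (h : x ^ 2 ≤ L ^ 2) : x ≤ L :=
  (le_abs_self x).trans (abs_le_of_sq_le_sq h hL)

/-- all scalar bounds, `m = 2 |S| + P` -/
theorem sc {a S P L μ : ℝ} (ha : 0 < a) (hP : 0 ≤ P) (hL : 0 ≤ L) (hL2 : (1 + P / a) ^ 3 ≤ L ^ 2 * a)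
    (hμ : 0 ≤ μ) (hm : μ ^ 2 = 2 * |S| + P) :
    |th a S| * μ ≤ L ∧ |ph1 a S| * μ ≤ 2 * L ∧ |th1 a S| * μ ^ 3 ≤ 3 * L ∧
      |th a S| * μ ^ 2 ≤ 2 + P / a := by
  obtain ⟨r, rfl⟩ : ∃ r, S = a * r := ⟨S / a, by field_simp⟩
  obtain ⟨c, rfl⟩ : ∃ c, P = a * c := ⟨P / a, by field_simp⟩
  have hc : 0 ≤ c := nonneg_of_mul_nonneg_right hP ha |> fun h => by
    by_contra h'; push Not at h'; nlinarith
  rw [mul_div_cancel_left₀ _ ha.ne'] at hL2 ⊢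
  obtain ⟨ρ, hρ, e⟩ : ∃ ρ, 0 ≤ ρ ∧ |r| = ρ := ⟨_, abs_nonneg r, rfl⟩
  have e2 : r ^ 2 = ρ ^ 2 := by rw [← e, sq_abs]
  rw [abs_mul, abs_of_pos ha, e] at hm
  have hD : 0 < 1 + ρ ^ 2 := by positivity
  have t0 : |th a (a * r)| = ρ / (a * (1 + ρ ^ 2)) := by
    rw [th, abs_div, abs_mul, abs_of_pos ha, e, mul_pow, e2, abs_of_pos (by positivity)]
    field_simp; ring
  have t1 : |ph1 a (a * r)| = 2 * ρ / (a * (1 + ρ ^ 2) ^ 2) := by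
    rw [ph1, abs_div, abs_mul, abs_mul, abs_mul, abs_of_pos ha, e, mul_pow, e2,
      abs_of_pos (a := (a ^ 2 * ρ ^ 2 + a ^ 2) ^ 2) (by positivity), abs_of_pos (sq_pos_of_pos ha), abs_two]
    field_simp; ring
  have t2 : |th1 a (a * r)| ≤ 1 / (a ^ 2 * (1 + ρ ^ 2)) := by
    rw [th1, abs_div, mul_pow, e2, abs_of_pos (a := (a ^ 2 * ρ ^ 2 + a ^ 2) ^ 2) (by positivity),
      div_le_div_iff₀ (by positivity) (by positivity)]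
    have : |a ^ 2 - a ^ 2 * ρ ^ 2| ≤ a ^ 2 * (1 + ρ ^ 2) :=
      abs_le.2 ⟨by nlinarith [sq_nonneg a, sq_nonneg (a * ρ)], by nlinarith [sq_nonneg (a * ρ)]⟩
    calc _ ≤ a ^ 2 * (1 + ρ ^ 2) * (a ^ 2 * (1 + ρ ^ 2)) := by gcongr
      _ = _ := by ring
  have h13 : 1 + c ≤ (1 + c) ^ 3 := le_self_pow₀ (by linarith) (by norm_num)
  have hA : ρ ^ 2 * (2 * ρ + c) ≤ (1 + c) * (1 + ρ ^ 2) ^ 2 := by
    nlinarith [sq_nonneg (ρ ^ 2 - ρ), sq_nonneg ρ, mul_nonneg hc (sq_nonneg (ρ ^ 2)),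
      mul_nonneg hc (sq_nonneg ρ)]
  have b0 : ρ / (a * (1 + ρ ^ 2)) * μ ≤ L := by
    refine le_of_sq hL ?_
    rw [mul_pow, hm, div_pow, div_mul_eq_mul_div, div_le_iff₀ (by positivity)]
    calc ρ ^ 2 * (2 * (a * ρ) + a * c) = a * (ρ ^ 2 * (2 * ρ + c)) := by ring
      _ ≤ a * ((L ^ 2 * a) * (1 + ρ ^ 2) ^ 2) :=
        mul_le_mul_of_nonneg_left (hA.trans (mul_le_mul_of_nonneg_right (h13.trans hL2) (by positivity))) ha.le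
      _ = _ := by ring
  refine ⟨t0 ▸ b0, ?_, ?_, ?_⟩
  · rw [t1]
    have : 2 * ρ / (a * (1 + ρ ^ 2) ^ 2) ≤ 2 * (ρ / (a * (1 + ρ ^ 2))) := by
      rw [mul_div_assoc]; gcongr; nlinarith [sq_nonneg ρ]
    nlinarith [mul_le_mul_of_nonneg_right this hμ]
  · refine (mul_le_mul_of_nonneg_right t2 (by positivity)).trans (le_of_sq (by positivity) ?_)
    have h1 : 2 * ρ + c ≤ (1 + c) * (1 + 2 * ρ) := by nlinarith [mul_nonneg hc hρ]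
    have h2 : (1 + 2 * ρ) ^ 3 ≤ 9 * (1 + ρ ^ 2) ^ 2 := by
      nlinarith [sq_nonneg (ρ ^ 2 - ρ), sq_nonneg (ρ - 1), sq_nonneg (3 * ρ ^ 2 - 2 * ρ), sq_nonneg ρ,
        sq_nonneg (2 * ρ - 1)]
    have h3 : (2 * ρ + c) ^ 3 ≤ L ^ 2 * a * (9 * (1 + ρ ^ 2) ^ 2) :=
      (pow_le_pow_left₀ (by positivity) h1 3).trans (by rw [mul_pow]; gcongr)
    rw [mul_pow, ← pow_mul, show 3 * 2 = 2 * 3 from rfl, pow_mul, hm, div_pow, div_mul_eq_mul_div,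
      div_le_iff₀ (by positivity)]
    calc 1 ^ 2 * (2 * (a * ρ) + a * c) ^ 3 = a ^ 3 * (2 * ρ + c) ^ 3 := by ring
      _ ≤ a ^ 3 * (L ^ 2 * a * (9 * (1 + ρ ^ 2) ^ 2)) := by gcongr
      _ = _ := by ring
  · rw [t0, hm, div_mul_eq_mul_div, div_le_iff₀ (by positivity)]
    have : ρ * (2 * ρ + c) ≤ (2 + c) * (1 + ρ ^ 2) := by
      nlinarith [mul_nonneg hc (sq_nonneg (ρ - 1)), mul_nonneg hc hρ]
    nlinarith [mul_le_mul_of_nonneg_left this ha.le]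

/-! ### the `G`-norm -/

theorem nG_nn (G : Mn n) (u : Vn n) : 0 ≤ nG G u := sqrt_nonneg _

namespace PG

variable {G : Mn n} {γ : ℝ} (h : PG G γ)
include h

theorem nn (u : Vn n) : 0 ≤ u ⬝ᵥ G *ᵥ u :=
  nonneg_of_mul_nonneg_right ((dsq _).trans (h.le u)) h.pos |> fun _ =>
    (mul_nonneg_iff_of_pos_left h.pos).1 ((dsq _).trans (h.le u))
theorem nG_sq (u : Vn n) : nG G u ^ 2 = u ⬝ᵥ G *ᵥ u := sq_sqrt (h.nn u)
theorem sw (u v : Vn n) : u ⬝ᵥ G *ᵥ v = G *ᵥ u ⬝ᵥ v := symm_dot h.symm u v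
theorem cs2 (u v : Vn n) : (u ⬝ᵥ G *ᵥ v) ^ 2 ≤ (u ⬝ᵥ G *ᵥ u) * (v ⬝ᵥ G *ᵥ v) := by
  have h1 : ∀ t : ℝ, 0 ≤ u ⬝ᵥ G *ᵥ u * (t * t) + 2 * (u ⬝ᵥ G *ᵥ v) * t + v ⬝ᵥ G *ᵥ v := fun t => by
    have := h.nn (t • u + v)
    simp only [mulVec_add, mulVec_smul, add_dotProduct, dotProduct_add, smul_dotProduct,
      dotProduct_smul, smul_eq_mul] at this
    rw [h.sw v u, dotProduct_comm (G *ᵥ v) u] at this
    linarith
  have := discrim_le_zero h1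
  rw [discrim] at this
  linarith
theorem cs (u v : Vn n) : |u ⬝ᵥ G *ᵥ v| ≤ nG G u * nG G v :=
  abs_le_of_sq_le_sq (by rw [mul_pow, h.nG_sq, h.nG_sq]; exact h.cs2 u v)
    (mul_nonneg (nG_nn _ _) (nG_nn _ _))
theorem cs' (u v : Vn n) : |G *ᵥ u ⬝ᵥ v| ≤ nG G u * nG G v := h.sw u v ▸ h.cs u v
theorem up (u : Vn n) : u ⬝ᵥ G *ᵥ u ≤ γ * (u ⬝ᵥ u) := by
  have h1 := M4.cs u (G *ᵥ u)
  have h2 := mul_le_mul_of_nonneg_left (h.le u) (dsq u)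
  rcases (h.nn u).eq_or_lt with e | e
  · rw [← e]; exact mul_nonneg h.pos.le (dsq u)
  · exact le_of_mul_le_mul_right (by nlinarith) e
theorem eu (u : Vn n) : G *ᵥ u ⬝ᵥ G *ᵥ u ≤ (√γ * nG G u) ^ 2 := by
  rw [mul_pow, sq_sqrt h.pos.le, h.nG_sq]; exact h.le u

theorem xm (p ξ : Vn n) : nG G (ξ + p) ^ 2 ≤ 2 * |Sv G p ξ| + p ⬝ᵥ G *ᵥ p ∧
    nG G (ξ + p + p) ^ 2 ≤ 2 * |Sv G p ξ| + p ⬝ᵥ G *ᵥ p := by
  rw [h.nG_sq, h.nG_sq]
  have h1 := h.nn (ξ + p + p)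
  have h2 := h.nn (ξ + p)
  have h3 := le_abs_self (Sv G p ξ)
  have e := h.sw p ξ
  rw [dotProduct_comm _ ξ] at e
  simp only [Sv, mulVec_add, add_dotProduct, dotProduct_add, e] at h1 h2 h3 ⊢
  constructor <;> linarith

/-- the scalar bounds at a point -/
theorem pt {a L : ℝ} (ha : 0 < a) (hL : 0 ≤ L) {p : Vn n}
    (hL2 : (1 + p ⬝ᵥ G *ᵥ p / a) ^ 3 ≤ L ^ 2 * a) (ξ : Vn n) : ∃ μ, 0 ≤ μ ∧ nG G (ξ + p) ≤ μ ∧
    nG G (ξ + p + p) ≤ μ ∧ |th a (Sv G p ξ)| * μ ≤ L ∧ |ph1 a (Sv G p ξ)| * μ ≤ 2 * L ∧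
    |th1 a (Sv G p ξ)| * μ ^ 3 ≤ 3 * L ∧ |th a (Sv G p ξ)| * μ ^ 2 ≤ 2 + p ⬝ᵥ G *ᵥ p / a := by
  have h0 : 0 ≤ 2 * |Sv G p ξ| + p ⬝ᵥ G *ᵥ p := add_nonneg (by positivity) (h.nn p)
  exact ⟨√_, sqrt_nonneg _, le_sqrt_of_sq_le (h.xm p ξ).1, le_sqrt_of_sq_le (h.xm p ξ).2,
    sc ha (h.nn p) hL hL2 (sqrt_nonneg _) (sq_sqrt h0)⟩

end PG

/-! ### the field -/

/-- **(u0)** -/
theorem u0 (G : Mn n) (p : Vn n) (a : ℝ) (v ξ : Vn n) : Uv G p a v ξ ⬝ᵥ (ξ + p) = 0 := by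
  simp only [Uv, smul_dotProduct, sub_dotProduct, smul_eq_mul, uv, Yv, Sv,
    dotProduct_comm (G *ᵥ (ξ + p + p))]
  ring

theorem dot_U (G : Mn n) (p : Vn n) (a : ℝ) (v ξ z : Vn n) : z ⬝ᵥ Uv G p a v ξ =
    th a (Sv G p ξ) * Sv G p ξ * (z ⬝ᵥ G *ᵥ v) -
      th a (Sv G p ξ) * uv G p v ξ * (z ⬝ᵥ G *ᵥ (ξ + p + p)) := by
  simp only [Uv, dotProduct_smul, dotProduct_sub, smul_eq_mul, Yv]; ring

theorem abs3 {x y z X Y Z : ℝ} (hx : |x| ≤ X) (hy : |y| ≤ Y) (hz : |z| ≤ Z) :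
    |x * y * z| ≤ X * Y * Z := by
  rw [abs_mul, abs_mul]
  have := (abs_nonneg _).trans hx; have := (abs_nonneg _).trans hy
  gcongr

section
variable {G : Mn n} {γ a L : ℝ} {p : Vn n} (h : PG G γ) (ha : 0 < a)
include h ha

/-- **(u1)** -/
theorem u1 (v ξ z : Vn n) :
    |z ⬝ᵥ Uv G p a v ξ| ≤ (3 + p ⬝ᵥ G *ᵥ p / a) * (nG G v * nG G z) := by
  have hc := div_nonneg (h.nn p) ha.le
  obtain ⟨μ, h0, h1, h2, -, -, -, h6⟩ := h.pt ha (sqrt_nonneg ((1 + p ⬝ᵥ G *ᵥ p / a) ^ 3 / a)) (p := p)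
    (by rw [sq_sqrt (by positivity), div_mul_cancel₀ _ ha.ne']) ξ
  have hv := nG_nn G v; have hz := nG_nn G z
  have b1 : |th a (Sv G p ξ) * Sv G p ξ * (z ⬝ᵥ G *ᵥ v)| ≤ 1 * (nG G z * nG G v) := by
    rw [abs_mul, abs_of_nonneg (thS ha _).1]
    exact mul_le_mul (thS ha _).2 (h.cs z v) (abs_nonneg _) zero_le_one
  have b2 := abs3 (le_refl |th a (Sv G p ξ)|) ((h.cs' v (ξ + p)).trans (mul_le_mul_of_nonneg_left h1 hv))
    ((h.cs z (ξ + p + p)).trans (mul_le_mul_of_nonneg_left h2 hz))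
  rw [dot_U]
  refine (abs_sub _ _).trans ?_
  unfold uv
  nlinarith [mul_le_mul_of_nonneg_right h6 (mul_nonneg hv hz)]

theorem hd_S (ξ d : Vn n) (t : ℝ) :
    HasDerivAt (fun t : ℝ => Sv G p (ξ + t • d)) (dS G p (ξ + t • d) ⬝ᵥ d) t := by
  have e : ∀ t : ℝ, Sv G p (ξ + t • d) = Sv G p ξ + t * (dS G p ξ ⬝ᵥ d) + t ^ 2 * (d ⬝ᵥ G *ᵥ d) := fun t => by
    have e1 := h.sw ξ d
    have e2 := h.sw p d
    simp only [Sv, dS, mulVec_add, mulVec_smul, add_dotProduct, dotProduct_add, smul_dotProduct,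
      dotProduct_smul, smul_eq_mul, e1, e2, dotProduct_comm d (G *ᵥ ξ), dotProduct_comm d (G *ᵥ p)]
    ring
  simp only [e]
  refine ((((hasDerivAt_id' t).mul_const _).const_add _).add
    (((hasDerivAt_id' t).pow 2).mul_const _)).congr_deriv ?_
  simp only [dS, mulVec_add, mulVec_smul, add_dotProduct, smul_dotProduct, smul_eq_mul,
    dotProduct_comm d (G *ᵥ d)]
  norm_num
  ring

variable (hL : 0 ≤ L) (hL2 : (1 + p ⬝ᵥ G *ᵥ p / a) ^ 3 ≤ L ^ 2 * a)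
include hL hL2

/-- **(u2)** -/
theorem u2 (v ξ ξ' z : Vn n) :
    |z ⬝ᵥ (Uv G p a v ξ' - Uv G p a v ξ)| ≤ 12 * L * (nG G v * nG G z * nG G (ξ' - ξ)) := by
  obtain ⟨d, rfl⟩ : ∃ d, ξ' = ξ + d := ⟨ξ' - ξ, by abel⟩
  rw [add_sub_cancel_left]
  have lin : ∀ (w c : Vn n) (t : ℝ), HasDerivAt (fun t : ℝ => w ⬝ᵥ (ξ + t • d + c)) (w ⬝ᵥ d) t := fun w c t => by
    simp only [dotProduct_add, dotProduct_smul, smul_eq_mul]
    simpa using (((hasDerivAt_id' t).mul_const (w ⬝ᵥ d)).const_add (w ⬝ᵥ ξ)).add_const (w ⬝ᵥ c)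
  have hd : ∀ t : ℝ, HasDerivAt (fun t : ℝ => z ⬝ᵥ Uv G p a v (ξ + t • d)) _ t := fun t => by
    have e : ∀ y : Vn n, z ⬝ᵥ G *ᵥ (y + p + p) = G *ᵥ z ⬝ᵥ (y + (p + p)) := fun y => by
      rw [h.sw, add_assoc]
    simp only [dot_U, uv, e]
    exact ((((hd_ph ha _).comp t (hd_S h ha ξ d t)).mul_const (z ⬝ᵥ G *ᵥ v)).sub
      ((((hd_th ha _).comp t (hd_S h ha ξ d t)).mul (lin (G *ᵥ v) p t)).mul (lin (G *ᵥ z) (p + p) t)))
  have hv := nG_nn G v; have hz := nG_nn G z; have hd0 := nG_nn G d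
  have key := norm_image_sub_le_of_norm_deriv_le_segment_01' (C := 12 * L * (nG G v * nG G z * nG G d))
    (fun t _ => (hd t).hasDerivWithinAt) fun t _ => ?_
  · simpa only [one_smul, zero_smul, add_zero, Real.norm_eq_abs, dotProduct_sub] using key
  · simp only [Function.comp, Real.norm_eq_abs, Pi.mul_apply]
    generalize ξ + t • d = y
    obtain ⟨μ, h0, h1, h2, h3, h4, h5, -⟩ := h.pt ha hL hL2 y
    have a1 : |dS G p y ⬝ᵥ d| ≤ 2 * μ * nG G d := by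
      rw [dS, add_dotProduct]
      refine (abs_add_le _ _).trans ?_
      nlinarith [h.cs' (y + p + p) d, h.cs' (y + p) d, mul_le_mul_of_nonneg_right h1 hd0,
        mul_le_mul_of_nonneg_right h2 hd0]
    have a2 : |G *ᵥ v ⬝ᵥ (y + p)| ≤ nG G v * μ := (h.cs' _ _).trans (by gcongr)
    have a3 : |G *ᵥ z ⬝ᵥ (y + (p + p))| ≤ nG G z * μ := by
      rw [← add_assoc]; exact (h.cs' _ _).trans (by gcongr)
    have b1 := abs3 (le_refl |ph1 a (Sv G p y)|) a1 (h.cs z v)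
    have b2 := abs3 ((abs_mul (th1 a (Sv G p y)) _).trans_le
      (mul_le_mul_of_nonneg_left a1 (abs_nonneg _))) a2 a3
    have b3 := abs3 (le_refl |th a (Sv G p y)|) (h.cs' v d) a3
    have b4 := abs3 (le_refl |th a (Sv G p y)|) a2 (h.cs' z d)
    have hN : 0 ≤ nG G v * nG G z * nG G d := by positivity
    have c3 := mul_le_mul_of_nonneg_right h3 hN
    have c4 := mul_le_mul_of_nonneg_right h4 hN
    have c5 := mul_le_mul_of_nonneg_right h5 hN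
    rw [abs_le] at b1 b2 b3 b4 ⊢
    constructor <;> linarith [b1.1, b1.2, b2.1, b2.2, b3.1, b3.2, b4.1, b4.2]

end

/-! ### integration by parts on the sphere in the polar model -/

/-- `F` is a `C¹` function on `ℝⁿ` with gradient `D`, seen along the orbit -/
structure NG (o : Oo.Orb n k) (F : Vn n → ℝ) (D : Vn n → Vn n) : Prop where
  cF : Continuous F
  cD : Continuous D
  sg : ∀ (z : Vn n) (σ : Fin k → ℝ), SG σ (fun U => F (z + o.E *ᵥ Orb.xi σ U))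
    fun U => o.Eᵀ *ᵥ D (z + o.E *ᵥ Orb.xi σ U)

namespace NG

variable {o : Oo.Orb n k} {F F' : Vn n → ℝ} {D D' : Vn n → Vn n}

theorem congr (h : NG o F D) (h1 : ∀ ξ, F ξ = F' ξ) (h2 : ∀ ξ, D ξ = D' ξ) : NG o F' D' := by
  rw [← funext h1, ← funext h2]; exact h
theorem const (c : ℝ) : NG o (fun _ => c) fun _ => 0 :=
  ⟨continuous_const, continuous_const, fun _ _ => (SG.const c).congr (fun _ => rfl) fun _ => by simp⟩
theorem add (h : NG o F D) (h' : NG o F' D') : NG o (fun ξ => F ξ + F' ξ) fun ξ => D ξ + D' ξ :=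
  ⟨h.cF.add h'.cF, h.cD.add h'.cD, fun z σ => ((h.sg z σ).add (h'.sg z σ)).congr (fun _ => rfl)
    fun _ => (mulVec_add _ _ _).symm⟩
theorem mul (h : NG o F D) (h' : NG o F' D') :
    NG o (fun ξ => F ξ * F' ξ) fun ξ => F' ξ • D ξ + F ξ • D' ξ :=
  ⟨h.cF.mul h'.cF, (h'.cF.smul h.cD).add (h.cF.smul h'.cD), fun z σ =>
    ((h.sg z σ).mul (h'.sg z σ)).congr (fun _ => rfl) fun _ => by simp only [mulVec_add, mulVec_smul]⟩
theorem lin (w c : Vn n) : NG o (fun ξ => w ⬝ᵥ (ξ + c)) fun _ => w :=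
  ⟨by fun_prop, continuous_const, fun z σ => ((SG.const (w ⬝ᵥ (z + c))).add (SG.lin (o.Eᵀ *ᵥ w))).congr
    (fun U => by
      simp only [dotProduct_add, dotProduct_comm w (o.E *ᵥ _), dot_E, dotProduct_comm (o.Eᵀ *ᵥ w)]; ring)
    fun _ => zero_add _⟩
theorem comp (h : NG o F D) {φ φ' : ℝ → ℝ} (hφ : ∀ x, HasDerivAt φ (φ' x) x) (hφ' : Continuous φ') :
    NG o (fun ξ => φ (F ξ)) fun ξ => φ' (F ξ) • D ξ :=
  ⟨(continuous_iff_continuousAt.2 fun x => (hφ x).continuousAt).comp h.cF, (hφ'.comp h.cF).smul h.cD,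
    fun z σ => (RD.comp (h.sg z σ) (S := Set.univ) (fun _ _ => trivial) (fun x _ => hφ x)
      hφ'.continuousOn).congr (fun _ _ => rfl) fun _ _ _ => by
        simp only [mulVec_smul, smul_dotProduct, smul_eq_mul]⟩
theorem quad {M : Mn n} (hM : Mᵀ = M) : NG o (fun ξ => ξ ⬝ᵥ M *ᵥ ξ) fun ξ => (2 : ℝ) • M *ᵥ ξ := by
  refine ⟨by fun_prop, by fun_prop, fun z σ => ?_⟩
  have hB : (o.Eᵀ * M * o.E)ᵀ = o.Eᵀ * M * o.E := by
    rw [transpose_mul, transpose_mul, transpose_transpose, hM, Matrix.mul_assoc]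
  refine (((SG.const (z ⬝ᵥ M *ᵥ z)).add (SG.lin ((2 : ℝ) • o.Eᵀ *ᵥ (M *ᵥ z)))).add (SG.quad hB)).congr
    (fun U => ?_) fun U => ?_
  · generalize Orb.xi σ U = x
    rw [← mulVec_mulVec, ← mulVec_mulVec, ← dot_E, smul_dotProduct, dotProduct_comm (o.Eᵀ *ᵥ _), ← dot_E]
    simp only [mulVec_add, add_dotProduct, dotProduct_add, symm_dot hM z (o.E *ᵥ x),
      dotProduct_comm (M *ᵥ z), smul_eq_mul]
    ring
  · simp only [mulVec_add, mulVec_smul, zero_add, smul_add, mulVec_mulVec, Matrix.mul_assoc]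

end NG

/-- the integrand of the sphere identity for the field `P (M ξ + w)` -/
def In (o : Oo.Orb n k) (M : Mn n) (w : Vn n) (F : Vn n → ℝ) (D : Vn n → Vn n) (s : Cube n)
    (ξ : Vn n) : ℝ :=
  ((cc o s ξ - (k - 1) / R2 o s) * ((M *ᵥ ξ + w) ⬝ᵥ Pm o *ᵥ ξ) -
      Pm o *ᵥ ξ ⬝ᵥ M *ᵥ (Pm o *ᵥ ξ) / R2 o s + (Pm o * M).trace -
      Pm o *ᵥ (M *ᵥ ξ + w) ⬝ᵥ A0 o *ᵥ ξ) * F ξ +
    (Pm o *ᵥ (M *ᵥ ξ + w) ⬝ᵥ D ξ - ((M *ᵥ ξ + w) ⬝ᵥ Pm o *ᵥ ξ) * (D ξ ⬝ᵥ Pm o *ᵥ ξ) / R2 o s)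

variable {o : Oo.Orb n k} {μ : Measure (Mat k)} [IsProbabilityMeasure μ] (hμ : SOInv μ) (h : o.Ok)
  {F : Vn n → ℝ} {D : Vn n → Vn n}

theorem cont_In (hF : NG o F D) (M : Mn n) (w : Vn n) (s : Cube n) : Continuous (In o M w F D s) := by
  have := hF.cF; have := hF.cD
  unfold In; fun_prop

include hμ h

theorem sph0 (hF : NG o F D) (M : Mn n) (w : Vn n) {s : Cube n} (hs : 0 < R2 o s) :
    ∫ U, wx o s (xp o s (om o U)) * In o M w F D s (xp o s (om o U)) ∂μ = 0 := by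
  have hw : NG o (wx o s) fun ξ => wx o s ξ • o.W *ᵥ ξ :=
    (((NG.const (o.h ⬝ᵥ sv s)).add ((NG.const (1 / 2)).mul (NG.quad h.symm))).comp
      Real.hasDerivAt_exp Real.continuous_exp).congr (fun ξ => by rw [wx]; congr 1; ring) fun ξ => by
        rw [wx, div_eq_inv_mul (ξ ⬝ᵥ o.W *ᵥ ξ)]; simp [smul_smul]
  have h1 := ((hF.mul hw).sg (Qm o *ᵥ sh o s) (√(R2 o s) • e0 k)).ibp hμ (o.Eᵀ * M * o.E)
    (o.Eᵀ *ᵥ (M *ᵥ (Qm o *ᵥ sh o s) + w))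
  have h0 : (√(R2 o s) • e0 k) ⬝ᵥ (√(R2 o s) • e0 k) = R2 o s := by
    rw [smul_dotProduct, dotProduct_smul, e0_dot h, smul_eq_mul, smul_eq_mul, mul_one,
      Real.mul_self_sqrt (R2_nonneg s)]
  refine (mul_eq_zero.1 (?_ : R2 o s * _ = 0)).resolve_left hs.ne'
  rw [← integral_const_mul, ← h1]
  refine integral_congr_ae ((Orb.ae_SO hμ).mono fun U hU => ?_)
  have h2 : xp o s (om o U) = Qm o *ᵥ sh o s + o.E *ᵥ Orb.xi (√(R2 o s) • e0 k) U := by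
    simp only [xp, om, Orb.xi, mulVec_smul]
  have h3 : Orb.xi (√(R2 o s) • e0 k) U ⬝ᵥ Orb.xi (√(R2 o s) • e0 k) U = R2 o s := by
    rw [Orb.dot_xi _ hU, h0]
  simp only [h0]
  rw [← h2]
  generalize Orb.xi (√(R2 o s) • e0 k) U = x at h2 h3
  have hP : Pm o *ᵥ xp o s (om o U) = o.E *ᵥ x := by rw [h2, mulVec_add, P_Q h, zero_add, P_E h]
  have hE : o.Eᵀ *ᵥ xp o s (om o U) = x := by rw [h2, mulVec_add, Et_Q h, zero_add, Et_E h]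
  have hV : (o.Eᵀ * M * o.E) *ᵥ x + o.Eᵀ *ᵥ (M *ᵥ (Qm o *ᵥ sh o s) + w) =
      o.Eᵀ *ᵥ (M *ᵥ xp o s (om o U) + w) := by
    rw [h2, ← mulVec_mulVec, ← mulVec_mulVec]; simp only [mulVec_add]; abel
  have hW : o.W *ᵥ xp o s (om o U) = o.z • xp o s (om o U) - A0 o *ᵥ xp o s (om o U) := by
    rw [A0, sub_mulVec, smul_mulVec, one_mulVec, sub_sub_cancel]
  have hT : (o.Eᵀ * M * o.E).trace = (Pm o * M).trace := by
    rw [trace_mul_comm, ← Matrix.mul_assoc, Pm]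
  have hM : x ⬝ᵥ (o.Eᵀ * M * o.E) *ᵥ x = o.E *ᵥ x ⬝ᵥ M *ᵥ (o.E *ᵥ x) := by
    rw [dot_E, mulVec_mulVec, mulVec_mulVec]
  have hx : ∀ y : Vn n, o.Eᵀ *ᵥ y ⬝ᵥ x = y ⬝ᵥ o.E *ᵥ x := fun y => by
    rw [dotProduct_comm y, dot_E, dotProduct_comm]
  rw [hV, hT, hM, hW, In, cc, hP]
  generalize xp o s (om o U) = ξ at hE hP
  generalize M *ᵥ ξ + w = V
  have h4 : Pm o *ᵥ V ⬝ᵥ ξ = V ⬝ᵥ o.E *ᵥ x := by rw [← dot_P, hP]
  have h5 : ξ ⬝ᵥ o.E *ᵥ x = R2 o s := by rw [← hx, hE, h3]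
  simp only [Et_dot, hx, dotProduct_add, add_dotProduct, dotProduct_smul, smul_dotProduct,
    dotProduct_sub, sub_dotProduct, smul_eq_mul, h4, h5]
  field_simp
  ring

/-- **the sphere identity in the polar model** -/
theorem sph (hF : NG o F D) (M : Mn n) (w : Vn n) {φ : Cube n → ℝ} (hφ : ∀ s, φ s = 0 ∨ 0 < R2 o s) :
    pe o μ (fun s ω => φ s * In o M w F D s (xp o s ω)) = 0 := by
  rw [pe, integral_finsetSum _ fun s _ => intg hμ (by have := cont_In hF M w s; fun_prop),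
    Finset.sum_eq_zero, zero_div]
  intro s _
  rcases hφ s with e | e
  · simp [e]
  · simp only [mul_left_comm _ (φ s)]
    rw [integral_const_mul, sph0 hμ h hF M w e, mul_zero]

/-! ### the sphere step -/

omit hμ h in
theorem ng_S {G : Mn n} (hG : Gᵀ = G) (p : Vn n) : NG o (Sv G p) (dS G p) :=
  (((NG.quad hG).add (NG.lin ((3 : ℝ) • G *ᵥ p) 0)).add (NG.const (2 * (p ⬝ᵥ G *ᵥ p)))).congr
    (fun ξ => by
      simp only [Sv, mulVec_add, add_dotProduct, dotProduct_add, add_zero, smul_dotProduct, smul_eq_mul,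
        symm_dot hG p ξ, dotProduct_comm ξ (G *ᵥ p)]
      ring) fun ξ => by
      simp only [dS, mulVec_add, add_zero]; ext i; simp; ring

/-- the main terms of the sphere step -/
def Sp (o : Oo.Orb n k) (G : Mn n) (a : ℝ) (v : Vn n) (s : Cube n) (ξ : Vn n) : ℝ :=
  (v ⬝ᵥ ξ) * (Pm o *ᵥ Uv G o.p a v ξ ⬝ᵥ A0 o *ᵥ ξ) -
    (v ⬝ᵥ ξ) * ((cc o s ξ - (k - 1) / R2 o s) * (Pm o *ᵥ Uv G o.p a v ξ ⬝ᵥ ξ)) -
    Pm o *ᵥ Uv G o.p a v ξ ⬝ᵥ v + (v ⬝ᵥ ξ) * (th a (Sv G o.p ξ) * uv G o.p v ξ * G.trace) +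
    (Pm o *ᵥ ξ ⬝ᵥ v) * (Pm o *ᵥ Uv G o.p a v ξ ⬝ᵥ ξ) / R2 o s

/-- the error of the sphere step -/
def Er (o : Oo.Orb n k) (G : Mn n) (a : ℝ) (v : Vn n) (s : Cube n) (ξ : Vn n) : ℝ :=
  th a (Sv G o.p ξ) * uv G o.p v ξ * (Pm o *ᵥ ξ ⬝ᵥ G *ᵥ (Pm o *ᵥ ξ) / R2 o s) +
    th a (Sv G o.p ξ) * uv G o.p v ξ * (Qm o * G).trace +
    ph1 a (Sv G o.p ξ) * (Pm o *ᵥ (G *ᵥ v) ⬝ᵥ dS G o.p ξ) -
    th1 a (Sv G o.p ξ) * uv G o.p v ξ * (Pm o *ᵥ Yv G o.p ξ ⬝ᵥ dS G o.p ξ) -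
    th a (Sv G o.p ξ) * (Pm o *ᵥ Yv G o.p ξ ⬝ᵥ G *ᵥ v) -
    ph1 a (Sv G o.p ξ) * ((G *ᵥ v ⬝ᵥ Pm o *ᵥ ξ) * (dS G o.p ξ ⬝ᵥ Pm o *ᵥ ξ) / R2 o s) +
    th1 a (Sv G o.p ξ) * uv G o.p v ξ * ((Yv G o.p ξ ⬝ᵥ Pm o *ᵥ ξ) * (dS G o.p ξ ⬝ᵥ Pm o *ᵥ ξ) / R2 o s) +
    th a (Sv G o.p ξ) * ((Yv G o.p ξ ⬝ᵥ Pm o *ᵥ ξ) * (G *ᵥ v ⬝ᵥ Pm o *ᵥ ξ) / R2 o s)

section
variable {G : Mn n} {γ a L : ℝ} (ha : 0 < a)
include ha

omit hμ h in
theorem cont_Uv (p v : Vn n) : Continuous (Uv G p a v) := by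
  have := cont_th ha
  unfold Uv uv Yv Sv; fun_prop
omit hμ h in
theorem cont_Sp (v : Vn n) (s : Cube n) : Continuous (Sp o G a v s) := by
  have := cont_th ha; have := cont_Uv (G := G) ha o.p v
  unfold Sp uv Sv; fun_prop
omit hμ h in
theorem cont_Er (v : Vn n) (s : Cube n) : Continuous (Er o G a v s) := by
  have := cont_th ha; have := cont_th1 ha; have := cont_ph1 ha
  unfold Er uv Yv dS Sv; fun_prop

/-- **(sp)** -/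
theorem sp (hG : Gᵀ = G) (v : Vn n) {φ : Cube n → ℝ} (hφ : ∀ s, φ s = 0 ∨ 0 < R2 o s) :
    pe o μ (fun s ω => φ s * Sp o G a v s (xp o s ω)) =
      pe o μ fun s ω => φ s * ((v ⬝ᵥ xp o s ω) * Er o G a v s (xp o s ω)) := by
  have n1 := (NG.lin (o := o) v 0).mul ((ng_S hG o.p).comp (hd_ph ha) (cont_ph1 ha))
  have n2 := (NG.lin (o := o) v 0).mul (((ng_S hG o.p).comp (hd_th ha) (cont_th1 ha)).mul
    (NG.lin (G *ᵥ v) o.p))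
  have e1 := sph hμ h n1 0 (G *ᵥ v) hφ
  have e2 := sph hμ h n2 G (G *ᵥ (o.p + o.p)) hφ
  have c1 := cont_In n1 0 (G *ᵥ v)
  have c2 := cont_In n2 G (G *ᵥ (o.p + o.p))
  have c3 := cont_Er (o := o) (G := G) ha v
  rw [← add_zero (pe o μ fun s ω => φ s * ((v ⬝ᵥ xp o s ω) * Er o G a v s (xp o s ω))), ← sub_self (0 : ℝ)]
  nth_rewrite 1 [← e2]
  rw [← e1, ← pe_sub hμ (fun s => by have := c2 s; fun_prop) (fun s => by have := c1 s; fun_prop),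
    ← pe_add hμ (fun s => by have := c3 s; fun_prop) (fun s => by have := c1 s; have := c2 s; fun_prop)]
  refine pe_congr hμ h fun s ω _ => ?_
  generalize xp o s ω = ξ
  have hY : G *ᵥ ξ + G *ᵥ (o.p + o.p) = Yv G o.p ξ := by rw [Yv, add_assoc, mulVec_add G ξ]
  have hT : (Pm o * G).trace = G.trace - (Qm o * G).trace := by
    rw [Qm, Pm, Matrix.sub_mul, Matrix.one_mul, trace_sub, sub_sub_cancel]
  simp only [Sp, Er, In, hY, hT, Uv, uv, zero_mulVec, zero_add, add_zero, Matrix.mul_zero, trace_zero,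
    dotProduct_zero, mulVec_smul, mulVec_sub, smul_dotProduct, sub_dotProduct, dotProduct_add,
    add_dotProduct, dotProduct_smul, smul_eq_mul, ← dot_P (G *ᵥ v) ξ, ← dot_P (Yv G o.p ξ) ξ,
    dotProduct_comm (Pm o *ᵥ ξ) v]
  ring

omit hμ in
/-- **the error of the sphere step** -/
theorem er_le (hG : PG G γ) (hL : 0 ≤ L) (hL2 : (1 + o.p ⬝ᵥ G *ᵥ o.p / a) ^ 3 ≤ L ^ 2 * a)
    (hQ : |(Qm o * G).trace| ≤ 2 * γ) (v : Vn n) {s : Cube n} (hs : 0 < R2 o s) {ω : Vn n}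
    (hω : Sph o ω) : |Er o G a v s (xp o s ω)| ≤ 25 * γ * L * nG G v := by
  have hη : Pm o *ᵥ xp o s ω ⬝ᵥ Pm o *ᵥ xp o s ω = √(R2 o s) ^ 2 := by
    rw [P_xp h hω, smul_dotProduct, dotProduct_smul, hω.one, smul_eq_mul, smul_eq_mul, mul_one, sq]
  rw [Er]
  generalize xp o s ω = ξ at hη
  obtain ⟨m, h0, h1, h2, h3, h4, h5, -⟩ := hG.pt ha hL hL2 ξ
  have hv := nG_nn G v
  have hg := hG.pos
  obtain ⟨r, hr, rfl⟩ : ∃ r, 0 < r ∧ γ = r ^ 2 := ⟨√γ, sqrt_pos.2 hg, (sq_sqrt hg.le).symm⟩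
  have eu : ∀ u b, nG G u ≤ b → G *ᵥ u ⬝ᵥ G *ᵥ u ≤ (r * b) ^ 2 := fun u b hb =>
    (hG.eu u).trans (by rw [sqrt_sq hr.le]; have := nG_nn G u; gcongr)
  have w1 := eu v _ le_rfl
  have w2 : Yv G o.p ξ ⬝ᵥ Yv G o.p ξ ≤ (r * m) ^ 2 := eu _ _ h2
  have w3 : dS G o.p ξ ⬝ᵥ dS G o.p ξ ≤ (r * m + r * m) ^ 2 := by
    have := (abs_le.1 (abs_dot_le (by positivity) (by positivity) (eu _ _ h2) (eu _ _ h1))).2
    have := eu _ _ h2; have := eu _ _ h1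
    rw [dS, add_dotProduct, dotProduct_add, dotProduct_add, dotProduct_comm (G *ᵥ (ξ + o.p))]
    linarith
  have hR := sqrt_pos.2 hs
  have pp : ∀ {u w : Vn n} {x y : ℝ}, 0 ≤ x → 0 ≤ y → u ⬝ᵥ u ≤ x ^ 2 → w ⬝ᵥ w ≤ y ^ 2 →
      |Pm o *ᵥ u ⬝ᵥ w| ≤ x * y := fun hx hy hu hw => abs_dot_le hx hy ((P_le h _).trans hu) hw
  have rr : ∀ {u w : Vn n} {x y : ℝ}, 0 ≤ x → 0 ≤ y → u ⬝ᵥ u ≤ x ^ 2 → w ⬝ᵥ w ≤ y ^ 2 →
      |(u ⬝ᵥ Pm o *ᵥ ξ) * (w ⬝ᵥ Pm o *ᵥ ξ) / R2 o s| ≤ x * y := fun {u w x y} hx hy hu hw => by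
    rw [abs_div, abs_of_pos hs, div_le_iff₀ hs, abs_mul]
    calc _ ≤ x * √(R2 o s) * (y * √(R2 o s)) := mul_le_mul (abs_dot_le hx hR.le hu hη.le)
          (abs_dot_le hy hR.le hw hη.le) (abs_nonneg _) (by positivity)
      _ = x * y * √(R2 o s) ^ 2 := by ring
      _ = _ := by rw [sq_sqrt hs.le]
  have hu : |uv G o.p v ξ| ≤ nG G v * m := (hG.cs' _ _).trans (by gcongr)
  have q0 : |Pm o *ᵥ ξ ⬝ᵥ G *ᵥ (Pm o *ᵥ ξ) / R2 o s| ≤ r ^ 2 := by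
    rw [abs_div, abs_of_pos hs, div_le_iff₀ hs, abs_of_nonneg (hG.nn _)]
    exact (hG.up _).trans (by rw [hη, sq_sqrt hs.le])
  have ab2 : ∀ {x y Y : ℝ}, |y| ≤ Y → |x * y| ≤ |x| * Y := fun hy =>
    (abs_mul _ _).trans_le (mul_le_mul_of_nonneg_left hy (abs_nonneg _))
  have b1 := abs_le.1 (abs3 (le_refl |th a (Sv G o.p ξ)|) hu q0)
  have b2 := abs_le.1 (abs3 (le_refl |th a (Sv G o.p ξ)|) hu hQ)
  have b3 := abs_le.1 (ab2 (x := ph1 a (Sv G o.p ξ)) (pp (by positivity) (by positivity) w1 w3))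
  have b4 := abs_le.1 (abs3 (le_refl |th1 a (Sv G o.p ξ)|) hu (pp (by positivity) (by positivity) w2 w3))
  have b5 := abs_le.1 (ab2 (x := th a (Sv G o.p ξ)) (pp (by positivity) (by positivity) w2 w1))
  have b6 := abs_le.1 (ab2 (x := ph1 a (Sv G o.p ξ)) (rr (by positivity) (by positivity) w1 w3))
  have b7 := abs_le.1 (abs3 (le_refl |th1 a (Sv G o.p ξ)|) hu (rr (by positivity) (by positivity) w2 w3))
  have b8 := abs_le.1 (ab2 (x := th a (Sv G o.p ξ)) (rr (by positivity) (by positivity) w2 w1))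
  have hN : 0 ≤ r ^ 2 * nG G v := by positivity
  have c3 := mul_le_mul_of_nonneg_right h3 hN
  have c4 := mul_le_mul_of_nonneg_right h4 hN
  have c5 := mul_le_mul_of_nonneg_right h5 hN
  rw [abs_le]
  constructor <;> linarith [b1.1, b1.2, b2.1, b2.2, b3.1, b3.2, b4.1, b4.2, b5.1, b5.2, b6.1, b6.2,
    b7.1, b7.2, b8.1, b8.2]

end

omit hμ h in
theorem trQ_le {G : Mn n} {γ : ℝ} (hG : PG G γ) {f1 f2 : Vn n}
    (hq : Qm o = vecMulVec f1 f1 + vecMulVec f2 f2) (h1 : f1 ⬝ᵥ f1 = 1) (h2 : f2 ⬝ᵥ f2 = 1) :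
    |(Qm o * G).trace| ≤ 2 * γ := by
  have e : ∀ f : Vn n, (vecMulVec f f * G).trace = f ⬝ᵥ G *ᵥ f := fun f => by
    rw [trace_mul_comm, mul_vecMulVec, trace_vecMulVec, dotProduct_comm]
  have a1 := hG.up f1; have a2 := hG.up f2; have a3 := hG.nn f1; have a4 := hG.nn f2
  rw [h1] at a1; rw [h2] at a2
  rw [hq, Matrix.add_mul, trace_add, e, e, abs_of_nonneg (by linarith)]
  linarith

end Crest.Agent.T157.O4c.B42
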