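import Crest.Agent.T157.O4cB_4
import Crest.Agent.T157.O4cCu_4

set_option autoImplicit false
set_option linter.unusedSectionVars false

/-!
Row 157, A2 section 4 (helper4): the cube step, pointwise part.
-/

noncomputable section

namespace Crest.Agent.T157.O4c

open MeasureTheory Matrix Crest.Agent.Lib.OrthPoinc Real
open Crest.Agent.T157.Oc Crest.Agent.T157.E Crest.Agent.T157.Od Crest.Agent.T157.Oo
open Crest.Agent.T157.Mj Crest.Agent.T157.O4c.B42 Crest.Agent.T157.SL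

variable {n k : ℕ} {o : Oo.Orb n k}

/-- the integrand of Stein's identity in the direction `c` -/
def Ps (o : Oo.Orb n k) (c : Vn n) (F : Cube n → Vn n → ℝ) (s : Cube n) (ω : Vn n) : ℝ :=
  ∑ i, c i * ((sv s i - Ti o s ω i) * F s ω - (1 - Ti o s ω i ^ 2) * dI i F s ω)

theorem pe_Ps (μ : Measure (Mat k)) (c : Vn n) (F : Cube n → Vn n → ℝ) : pe o μ (Ps o c F) = 0 := by
  have : ∀ ω, ∑ s, wx o s (Mj.xp o s ω) * Ps o c F s ω = 0 := fun ω => by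
    simp only [Ps, Finset.mul_sum]
    rw [Finset.sum_comm]
    refine Finset.sum_eq_zero fun i _ => ?_
    simp only [mul_left_comm _ (c i), ← Finset.mul_sum, stein0, mul_zero]
  simp only [pe, this, integral_zero, zero_div]

theorem cf_Ps (c : Vn n) {F : Cube n → Vn n → ℝ} (hF : CF F) : CF (Ps o c F) := fun s => by
  have := hF s
  have := fun i => hF.dI i s
  unfold Ps; fun_prop

theorem abs_sv (s : Cube n) (i : Fin n) : |sv s i| = 1 := by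
  rw [← sq_eq_sq₀ (abs_nonneg _) zero_le_one, sq_abs, sq, sv_sq]; simp

theorem abs_dI {F : Cube n → Vn n → ℝ} {s : Cube n} {ω : Vn n} {i : Fin n} {B : ℝ}
    (h : |F s ω - F (fl i s) ω| ≤ 2 * B) : |dI i F s ω| ≤ B := by
  rw [Mj.dI, abs_div, abs_mul, abs_sv, abs_two]; linarith

theorem Ps_crude {c : Vn n} (hc : ∀ i, |c i| ≤ 3) {F : Cube n → Vn n → ℝ} {ω : Vn n} {B : ℝ}
    (hB : ∀ s, |F s ω| ≤ B) (s : Cube n) : |Ps o c F s ω| ≤ 9 * n * B := by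
  refine (Finset.abs_sum_le_sum_abs _ _).trans ((Finset.sum_le_sum (g := fun _ => 9 * B)
    fun i _ => ?_).trans_eq (by simp; ring))
  refine (am (hc i) (asb (am (asb (abs_sv s i).le (abs_tanh_lt_one _).le) (hB s)) (am (D_abs _)
    (abs_dI (B := B) ((asb (hB _) (hB _)).trans_eq (by ring)))))).trans_eq (by ring)

theorem adot {u v : Vn n} {x y : ℝ} (hx : 0 ≤ x) (hy : 0 ≤ y) (hu : u ⬝ᵥ u ≤ x ^ 2)
    (hv : v ⬝ᵥ v ≤ y ^ 2) : |u ⬝ᵥ v| ≤ x * y := M4.abs_dot_le hx hy hu hv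

theorem xp_crude (h : o.Ok) (hp : o.p ⬝ᵥ o.p ≤ n) {ω : Vn n} (hω : Sph o ω) (s : Cube n) :
    Mj.xp o s ω ⬝ᵥ Mj.xp o s ω ≤ 4 * n := by
  have := dot_sub_le (Qm o *ᵥ sv s) o.p
  rw [← Z2] at this
  rw [xp_sq hω, Qsh h]
  linarith [R2_add h s, R2_nonneg (o := o) s]

namespace Hx

variable {x f1 f2 : Vn n} {χ X κ η C : ℝ} (H : Hx o x f1 f2 χ X κ η C)
include H

theorem Q1 : Qm o *ᵥ f1 = f1 := by rw [H.Qvec, H.n1, dotProduct_comm, H.o12]; simp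
theorem Q2 : Qm o *ᵥ f2 = f2 := by rw [H.Qvec, H.n2, H.o12]; simp
theorem Qdot (u v : Vn n) : Qm o *ᵥ u ⬝ᵥ v = (f1 ⬝ᵥ u) * (f1 ⬝ᵥ v) + (f2 ⬝ᵥ u) * (f2 ⬝ᵥ v) := by
  rw [H.Qvec, add_dotProduct, smul_dotProduct, smul_dotProduct]; rfl
theorem Qi (u : Vn n) (i : Fin n) : (Qm o *ᵥ u) i = (f1 ⬝ᵥ u) * f1 i + (f2 ⬝ᵥ u) * f2 i := by
  rw [H.Qvec]; rfl
theorem B1 (y : Vn n) : f1 ⬝ᵥ Bp x f1 f2 *ᵥ y = Dq x f1 f2 * (Dq x f1 f2 * (f1 ⬝ᵥ y) - f2 ⬝ᵥ y) := by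
  simp only [Bp, sub_mulVec, Orb.vv_mulVec, dotProduct_sub, sub_dotProduct, dotProduct_smul,
    smul_dotProduct, smul_eq_mul, H.n1, H.o12]
  ring
theorem B2 (y : Vn n) : f2 ⬝ᵥ Bp x f1 f2 *ᵥ y = -(Dq x f1 f2 * (f1 ⬝ᵥ y)) := by
  simp only [Bp, sub_mulVec, Orb.vv_mulVec, dotProduct_sub, sub_dotProduct, dotProduct_smul,
    smul_dotProduct, smul_eq_mul, H.n2, H.o12, dotProduct_comm f2 f1]
  ring
theorem opA : Op2 (A0 o) 36 := by obtain ⟨_, _, _, F⟩ := H.fr; exact F.opA H.ok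
theorem trQ : ∑ i, Qm o i i = 2 := by obtain ⟨_, _, _, F⟩ := H.fr; exact F.trQ H.ok
theorem p_le : o.p ⬝ᵥ o.p ≤ n := by
  obtain ⟨_, _, _, F⟩ := H.fr
  rw [F.p_sq H.ok]; nlinarith [F.pn, sq_nonneg ‹ℝ›]
theorem zeta {f : Vn n} (hf : Qm o *ᵥ f = f) {ω : Vn n} (hω : Sph o ω) (s : Cube n) :
    f ⬝ᵥ sv s = f ⬝ᵥ o.p + f ⬝ᵥ Mj.xp o s ω := by
  have : f ⬝ᵥ Mj.xp o s ω = f ⬝ᵥ sh o s := by rw [← hf, ← dot_Q, Q_xp H.ok hω, dot_Q]
  rw [this, sh, dotProduct_sub]; ring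
theorem De_eq {f : Vn n} (hf : Qm o *ᵥ f = f) (s : Cube n) (ξ : Vn n) : f ⬝ᵥ De o x f1 f2 s ξ =
    (cc o s ξ - (k - 1) / R2 o s) * (f ⬝ᵥ sv s) - (f ⬝ᵥ A0 o *ᵥ ξ + f ⬝ᵥ Bp x f1 f2 *ᵥ ξ) := by
  rw [De, dotProduct_sub, dotProduct_smul, dot_Q, dot_Q, hf, add_mulVec, dotProduct_add, smul_eq_mul]
theorem Gv_dot {f : Vn n} (hf : Qm o *ᵥ f = f) (s : Cube n) (ξ : Vn n) : f ⬝ᵥ Gv o χ s ξ =
    (k - 1) / R2 o s * (f ⬝ᵥ sv s) - f ⬝ᵥ o.p / χ + f ⬝ᵥ Bp x f1 f2 *ᵥ ξ + f ⬝ᵥ De o x f1 f2 s ξ := by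
  rw [H.De_eq hf, Gv, dotProduct_sub, dotProduct_sub, dotProduct_smul, dotProduct_smul, dot_Q, dot_Q, hf]
  simp only [smul_eq_mul]; ring

variable (sm : 1000 * C * η ≤ 1)
include sm

theorem sm1 : 1000 * η ≤ 1 := by nlinarith [H.C1, H.e0]
theorem kn : 1 ≤ (η * κ) ^ 2 * n := by
  have h1 := pow_le_pow_left₀ zero_le_one H.big 2
  have h2 : X ^ 2 ≤ n := H.Xn.trans (mul_le_of_le_one_left (Nat.cast_nonneg n) (by linarith [H.ke, H.sm1 sm]))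
  rw [one_pow, mul_pow] at h1
  exact h1.trans (mul_le_mul_of_nonneg_left h2 (sq_nonneg _))
theorem kn' : 1 ≤ κ ^ 2 * n := by
  refine (H.kn sm).trans (mul_le_mul_of_nonneg_right ?_ (Nat.cast_nonneg n))
  exact pow_le_pow_left₀ (mul_pos H.e0 H.k0).le (mul_le_of_le_one_left H.k0.le (by linarith [H.sm1 sm])) 2
theorem n_ge : (1000 : ℝ) ≤ n := by
  have h1 : κ ^ 2 ≤ 1 / 1000 := by nlinarith [H.k0, H.ke, H.sm1 sm]
  nlinarith [H.kn' sm, mul_le_mul_of_nonneg_right h1 (Nat.cast_nonneg (α := ℝ) n)]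

theorem M_le {f : Vn n} (hf : f = f1 ∨ f = f2) {y : Vn n} {r : ℝ} (hr : 0 ≤ r) (hy : y ⬝ᵥ y ≤ r ^ 2) :
    |f ⬝ᵥ A0 o *ᵥ y + f ⬝ᵥ Bp x f1 f2 *ᵥ y| ≤ 7 * r := by
  have y1 := adot zero_le_one hr (H.n1.trans (one_pow 2).symm).le hy
  have y2 := adot zero_le_one hr (H.n2.trans (one_pow 2).symm).le hy
  have hA : A0 o *ᵥ y ⬝ᵥ A0 o *ᵥ y ≤ (6 * r) ^ 2 := by nlinarith [H.opA y]
  have be : |Dq x f1 f2| ≤ 1 / 2 := H.be_le.trans (by linarith [H.ke, H.sm1 sm])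
  rcases hf with rfl | rfl
  · rw [H.B1]
    exact (ad (adot zero_le_one (by linarith) (H.n1.trans (one_pow 2).symm).le hA)
      (am be (asb (am be y1) y2))).trans (by linarith)
  · rw [H.B2]
    exact (ad (adot zero_le_one (by linarith) (H.n2.trans (one_pow 2).symm).le hA)
      ((abs_neg _).trans_le (am be y1))).trans (by linarith)

theorem M_form (y : Vn n) : y ⬝ᵥ (A0 o + Bp x f1 f2) *ᵥ y ≤ 9 * (y ⬝ᵥ y) := by
  have h0 := dot_self_nonneg y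
  have h1 : |y ⬝ᵥ A0 o *ᵥ y| ≤ 6 * (y ⬝ᵥ y) := abs_le_of_sq_le_sq ((dot_sq_le _ _).trans (by
    nlinarith [mul_le_mul_of_nonneg_left (H.opA y) h0])) (by linarith)
  have h2 := Q_le H.ok y
  have be := abs_le.1 (H.be_le.trans (by linarith [H.ke, H.sm1 sm] : κ ≤ 1 / 2))
  rw [H.Qsq] at h2
  have h3 : y ⬝ᵥ Bp x f1 f2 *ᵥ y = (f2 ⬝ᵥ y - Dq x f1 f2 * (f1 ⬝ᵥ y)) ^ 2 - (f2 ⬝ᵥ y) ^ 2 := by
    simp only [Bp, sub_mulVec, Orb.vv_mulVec, sub_dotProduct, smul_dotProduct, smul_eq_mul,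
      dotProduct_comm y]
    ring
  have h4 : (Dq x f1 f2 * (f1 ⬝ᵥ y)) ^ 2 ≤ (f1 ⬝ᵥ y) ^ 2 := by
    rw [mul_pow]; exact mul_le_of_le_one_left (sq_nonneg _) (by nlinarith)
  rw [add_mulVec, dotProduct_add, h3]
  nlinarith [le_abs_self (y ⬝ᵥ A0 o *ᵥ y), sq_nonneg (f2 ⬝ᵥ y + Dq x f1 f2 * (f1 ⬝ᵥ y))]

section T

variable {s : Cube n} (hs : 4 * Z2 o s ≤ n) {ω : Vn n} (hω : Sph o ω) {f : Vn n}
  (hf : f = f1 ∨ f = f2)
include hs

omit sm in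
theorem R_ge : 3 * (n : ℝ) ≤ 4 * R2 o s := by linarith [R2_add H.ok s]

omit sm in
theorem kk_le : |((k : ℝ) - 1) / R2 o s| ≤ 2 := by
  have h1 := H.R_ge hs
  have h2 : (k : ℝ) + 2 = n := by exact_mod_cast H.dim
  have h3 : (2 : ℝ) < k := by exact_mod_cast H.ok.two
  rw [abs_of_nonneg (div_nonneg (by linarith) (R2_nonneg s)), div_le_iff₀ (by linarith)]
  linarith

include hf

omit sm hs in
theorem Qf : Qm o *ᵥ f = f := by rcases hf with rfl | rfl; exacts [H.Q1, H.Q2]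
omit sm hs in
theorem f_sq : f ⬝ᵥ f ≤ 1 ^ 2 := by rcases hf with rfl | rfl; exacts [by rw [H.n1, one_pow], by rw [H.n2, one_pow]]

omit sm in
theorem z_sq : (f ⬝ᵥ sv s) ^ 2 ≤ n / 4 := by
  have := H.Qsq (sv s)
  rw [← Z2] at this
  rcases hf with e | e <;> rw [e] <;> nlinarith [sq_nonneg (f1 ⬝ᵥ sv s), sq_nonneg (f2 ⬝ᵥ sv s)]

include hω

omit sm hf in
theorem c_le' : |cc o s (Mj.xp o s ω)| ≤ 10 := by
  obtain ⟨_, _, _, F⟩ := H.fr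
  exact abs_le_of_sq_le_sq ((F.cp_sq H.ok hs hω).trans (by norm_num)) (by norm_num)

theorem De_le : |f ⬝ᵥ De o x f1 f2 s (Mj.xp o s ω)| ≤ 30 * n := by
  have n1 := H.n_ge sm
  have h1 : |f ⬝ᵥ sv s| ≤ n := abs_le_of_sq_le_sq ((H.z_sq hs hf).trans (by nlinarith)) (by linarith)
  have h2 := H.M_le sm hf (r := 2 * n) (by linarith) ((xp_crude H.ok H.p_le hω s).trans (by nlinarith))
  rw [H.De_eq (H.Qf hf)]
  exact (asb (am (asb (H.c_le' hs hω) (H.kk_le hs)) h1) h2).trans (by linarith)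

theorem dDe (i : Fin n) (hs' : 4 * Z2 o (fl i s) ≤ n) {a : ℝ} (a0 : 0 ≤ a) (ha : Qm o i i = a ^ 2) :
    |f ⬝ᵥ De o x f1 f2 s (Mj.xp o s ω) - f ⬝ᵥ De o x f1 f2 (fl i s) (Mj.xp o (fl i s) ω)| ≤ 2 * (57 * a) := by
  obtain ⟨_, _, _, F⟩ := H.fr
  have n1 := H.n_ge sm
  have h1 := H.M_le sm hf (r := 8 * a) (by linarith) ((F.dxp H.ok hs hω i).trans (by rw [ha]; nlinarith))
  have h2 : |f ⬝ᵥ sv s - f ⬝ᵥ sv (fl i s)| ≤ 2 * a := by
    have : |f i| ≤ a := abs_le_of_sq_le_sq (by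
      rw [← ha, H.Qii]; rcases hf with e | e <;> rw [e] <;> nlinarith [sq_nonneg (f1 i), sq_nonneg (f2 i)]) a0
    rw [sv_fl, dotProduct_sub, sub_sub_cancel, dotProduct_smul, dotProduct_comm, single_dot, smul_eq_mul]
    exact (am (am abs_two.le (abs_sv s i).le) this).trans_eq (by ring)
  have z' := H.z_sq hs' hf
  have h3 : |(cc o s (Mj.xp o s ω) - cc o (fl i s) (Mj.xp o (fl i s) ω)) * (f ⬝ᵥ sv (fl i s))| ≤ 29 * a := by
    refine abs_le_of_sq_le_sq ?_ (by linarith)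
    have := F.dc H.ok hs hω i hs'
    rw [ha] at this
    rw [mul_pow]
    nlinarith [mul_le_mul_of_nonneg_left z' (sq_nonneg (cp o s ω - cp o (fl i s) ω)), sq_nonneg a]
  have r1 := H.R_ge hs
  have r2 := H.R_ge hs'
  have h4 : |(((k : ℝ) - 1) / R2 o s - (k - 1) / R2 o (fl i s)) * (f ⬝ᵥ sv (fl i s))| ≤ 4 * a := by
    obtain ⟨m, m0, hm⟩ : ∃ m : ℝ, 0 ≤ m ∧ m ^ 2 = n / 4 := ⟨√(n / 4), sqrt_nonneg _, sq_sqrt (by linarith)⟩
    have m1 : 1 ≤ m := by nlinarith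
    have b1 : |f ⬝ᵥ sv (fl i s)| ≤ m := abs_le_of_sq_le_sq (hm ▸ z') m0
    have b2 : |(Qm o *ᵥ sv s) i| ≤ a * m := abs_le_of_sq_le_sq ((Qi_sq H.ok i _).trans (by
      rw [← Z2, ha, mul_pow, hm]; exact mul_le_mul_of_nonneg_left (by linarith) (sq_nonneg a))) (by positivity)
    have b3 : |Qm o i i| ≤ a * m := by
      have := Qii_le H.ok i
      rw [ha] at this ⊢
      rw [abs_of_nonneg (sq_nonneg a)]; nlinarith
    have b4 : |(k : ℝ) - 1| ≤ n := by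
      have h2 : (k : ℝ) + 2 = n := by exact_mod_cast H.dim
      exact abs_le.2 ⟨by linarith, by linarith⟩
    have e : (((k : ℝ) - 1) / R2 o s - (k - 1) / R2 o (fl i s)) = (k - 1) *
        (4 * sv s i * (Qm o *ᵥ sv s) i - 4 * Qm o i i) * (R2 o s)⁻¹ * (R2 o (fl i s))⁻¹ := by
      have : R2 o s ≠ 0 := by linarith
      have : R2 o (fl i s) ≠ 0 := by linarith
      rw [show 4 * sv s i * (Qm o *ᵥ sv s) i - 4 * Qm o i i = R2 o (fl i s) - R2 o s by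
        linarith [R2_add H.ok s, R2_add H.ok (fl i s), Z2_fl H.ok i s]]
      field_simp
    have four : |(4 : ℝ)| ≤ 4 := by norm_num
    rw [e]
    refine (am (am (am (am b4 (asb (am (am four (abs_sv s i).le) b2) (am four b3)))
      (ai (c := 3 * m ^ 2) (by positivity) (by linarith))) (ai (c := 3 * m ^ 2) (by positivity)
        (by linarith))) b1).trans ?_
    rw [show (n : ℝ) = 4 * m ^ 2 by linarith]
    field_simp
    nlinarith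
  rw [H.De_eq (H.Qf hf), H.De_eq (H.Qf hf)]
  simp only [mulVec_sub, dotProduct_sub] at h1
  refine le_trans (le_of_eq ?_) ((asb (asb (ad (am (asb (H.c_le' hs hω) (H.kk_le hs)) h2) h3) h4) h1).trans
    (by linarith))
  congr 1; ring

/-- the linear functional `N` -/
def NN (o : Oo.Orb n k) (v f : Vn n) (s : Cube n) (ξ : Vn n) : ℝ :=
  f ⬝ᵥ v - (Pm o *ᵥ ξ ⬝ᵥ v) * (f ⬝ᵥ sv s) / R2 o s

theorem NN_le {v : Vn n} {V : ℝ} (V0 : 0 ≤ V) (hv : v ⬝ᵥ v ≤ V ^ 2) :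
    |NN o v f s (Mj.xp o s ω)| ≤ 2 * V := by
  have n1 := H.n_ge sm
  have r1 := H.R_ge hs
  have R0 : 0 < R2 o s := by linarith
  have h1 : |f ⬝ᵥ sv s| ≤ √(R2 o s) := abs_le_sqrt (by linarith [H.z_sq hs hf])
  have h2 := adot zero_le_one V0 (hω.one.trans (one_pow 2).symm).le hv
  rw [NN, P_xp H.ok hω, smul_dotProduct, smul_eq_mul, div_eq_mul_inv]
  refine (asb (adot zero_le_one V0 (H.f_sq hf) hv) (am (am (am (abs_of_nonneg (sqrt_nonneg _)).le h2) h1)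
    (abs_of_pos (inv_pos.2 R0)).le)).trans_eq ?_
  have := Real.mul_self_sqrt R0.le
  field_simp
  linear_combination V * this

omit hf in
theorem dI_f {v : Vn n} {V : ℝ} (V0 : 0 ≤ V) (hv : v ⬝ᵥ v ≤ V ^ 2) (i : Fin n) :
    |dI i (fun s ω => v ⬝ᵥ Mj.xp o s ω) s ω - (NN o v f1 s (Mj.xp o s ω) * f1 i + NN o v f2 s (Mj.xp o s ω) * f2 i)| ≤
      14 * η * κ * V * Qm o i i := by
  obtain ⟨_, _, _, F⟩ := H.fr
  have n1 := H.n_ge sm
  have r1 := H.R_ge hs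
  have R0 : 0 < R2 o s := by linarith
  have hd := F.dR H.ok hs i
  have a := Real.mul_self_sqrt R0.le
  have a' := Real.mul_self_sqrt (R2_nonneg (o := o) (fl i s))
  have hR := Real.sqrt_pos.2 R0
  have hσ := sv_sq i s
  have e3 : R2 o (fl i s) - R2 o s = 4 * sv s i * (Qm o *ᵥ sv s) i - 4 * Qm o i i := by
    linarith [R2_add H.ok s, R2_add H.ok (fl i s), Z2_fl H.ok i s]
  have h2 := adot zero_le_one V0 (hω.one.trans (one_pow 2).symm).le hv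
  have h3 : |(√(R2 o s))⁻¹| ≤ 2 * η * κ := by
    have k0 := H.k0; have e0 := H.e0
    rw [abs_of_pos (inv_pos.2 hR), inv_le_iff_one_le_mul₀ hR]
    refine (abs_le_of_sq_le_sq' ?_ (by positivity)).2
    rw [mul_pow, sq_sqrt R0.le]
    nlinarith [H.kn sm, mul_le_mul_of_nonneg_left r1 (sq_nonneg (η * κ)), sq_nonneg (η * κ)]
  have q0 := Qii_nonneg H.ok i
  have h4 : |4 * Qm o i i + (√(R2 o (fl i s)) - √(R2 o s)) ^ 2| ≤ 26 * Qm o i i := by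
    rw [abs_of_nonneg (by positivity)]; linarith
  have h5 := mul_nonneg (mul_nonneg (mul_pos H.e0 H.k0).le V0) q0
  have h6 : |(4 : ℝ)⁻¹| ≤ 1 / 4 := by norm_num [abs_of_pos]
  refine le_trans (le_of_eq ?_) ((am (am (am (am (abs_sv s i).le h4) h3) h2) h6).trans (by linarith))
  congr 1
  rw [H.Qi] at e3
  simp only [Mj.dI, NN, xp_fl H.ok i s, P_xp H.ok hω, dotProduct_add, dotProduct_sub, dotProduct_smul,
    smul_dotProduct, smul_eq_mul, dotProduct_comm v (uq o i), uq_dot, H.Qi, dotProduct_comm v ω]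
  generalize √(R2 o (fl i s)) = R' at *
  generalize √(R2 o s) = R at *
  rw [← a] at e3 ⊢
  rw [← a'] at e3
  field_simp
  linear_combination (-2 * (ω ⬝ᵥ v) * sv s i) * e3 + (8 * R * ((f1 ⬝ᵥ v) * f1 i + (f2 ⬝ᵥ v) * f2 i) -
    8 * (ω ⬝ᵥ v) * ((f1 ⬝ᵥ sv s) * f1 i + (f2 ⬝ᵥ sv s) * f2 i)) * hσ

end T

end Hx

end Crest.Agent.T157.O4c
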