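import Crest.Agent.T157.O4cC_4

set_option autoImplicit false
set_option linter.unusedSectionVars false

/-!
Row 157, A2 section 4 (helper4): the cube step on the good event.
-/

noncomputable section

namespace Crest.Agent.T157.O4c

open MeasureTheory Matrix Crest.Agent.Lib.OrthPoinc Real
open Crest.Agent.T157.Oc Crest.Agent.T157.E Crest.Agent.T157.Od Crest.Agent.T157.Oo
open Crest.Agent.T157.Mj Crest.Agent.T157.O4c.B42 Crest.Agent.T157.SL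

variable {n k : ℕ} {o : Oo.Orb n k}

/-- the size of a point -/
def Zz (o : Oo.Orb n k) (x f1 f2 : Vn n) (κ : ℝ) (s : Cube n) (ξ : Vn n) : ℝ :=
  κ * |f1 ⬝ᵥ ξ| + |f2 ⬝ᵥ ξ| + |f1 ⬝ᵥ De o x f1 f2 s ξ| + |f2 ⬝ᵥ De o x f1 f2 s ξ| + 1

theorem ph_one {s : Cube n} (hs : 4 * Z2 o s ≤ n) : ph o s = 1 := if_pos hs

theorem dI_mul (i : Fin n) (F U : Cube n → Vn n → ℝ) (s : Cube n) (ω : Vn n) :
    Mj.dI i (fun s ω => F s ω * U s ω) s ω = U s ω * Mj.dI i F s ω + F (fl i s) ω * Mj.dI i U s ω := by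
  simp only [Mj.dI]; ring

namespace Hx

variable {x f1 f2 : Vn n} {χ X κ η C : ℝ} (H : Hx o x f1 f2 χ X κ η C)
  {f c : Vn n} {i1 i2 α β σ : ℝ}
include H

theorem sum_c (D : Du x f1 f2 κ η f c i1 i2 α β σ) {t d : Vn n} {B l : ℝ} (B0 : 0 ≤ B) (l0 : 0 ≤ l)
    (ht : ∀ i, |t i| ≤ B) (hd : ∀ i a, 0 ≤ a → Qm o i i = a ^ 2 → |d i| ≤ l * a) :
    |∑ i, c i * (t i * d i)| ≤ 4 * (B * l) := by
  have h1 : (fun i => t i * d i) ⬝ᵥ (fun i => t i * d i) ≤ (B * l) ^ 2 * 2 := by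
    rw [← H.trQ, Finset.mul_sum]
    refine Finset.sum_le_sum fun i _ => ?_
    have q := Qii_nonneg H.ok i
    have := pow_le_pow_left₀ (abs_nonneg _) (am (ht i) (hd i _ (sqrt_nonneg _) (sq_sqrt q).symm)) 2
    rw [sq_abs, ← mul_assoc, mul_pow (B * l), sq_sqrt q, sq] at this
    exact this
  refine abs_le_of_sq_le_sq ((dot_sq_le c fun i => t i * d i).trans ?_) (by positivity)
  nlinarith [mul_le_mul (H.c_sq D) h1 (dot_self_nonneg _) (by norm_num)]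

theorem c3 (D : Du x f1 f2 κ η f c i1 i2 α β σ) (i : Fin n) : |c i| ≤ 3 := by
  refine abs_le_of_sq_le_sq ?_ (by norm_num)
  have := H.c_sq D
  rw [dot_self_eq_sq] at this
  linarith [Finset.single_le_sum (f := fun i => c i ^ 2) (fun i _ => sq_nonneg _) (Finset.mem_univ i)]

variable (sm : 1000 * C * η ≤ 1) {G : Mn n} {T0 : ℝ} {s : Cube n} {ω : Vn n} (hω : Sph o ω)
  (gd : Gd o x f1 f2 G X κ η T0 s (Mj.xp o s ω))
include sm hω gd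

theorem gd_z : 4 * Z2 o s ≤ n ∧ ∀ i, 4 * Z2 o (fl i s) ≤ n := by
  have e := H.Qsq (sv s)
  rw [← Z2, H.zeta H.Q1 hω, H.zeta H.Q2 hω] at e
  have e1 := H.sm1 sm
  have X0 := H.X0
  have e0 := H.e0
  have k0 := H.k0
  have k1 := H.ke
  have n1 := H.n_ge sm
  have h1 := pow_le_pow_left₀ (abs_nonneg _) ((ad H.p1_le gd.z1).trans (by nlinarith : _ ≤ 2 * X)) 2
  have h2 := pow_le_pow_left₀ (abs_nonneg _) ((ad H.p2_le gd.z2).trans (by
    nlinarith [mul_pos k0 X0] : _ ≤ X)) 2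
  rw [sq_abs] at h1 h2
  have h3 : 200 * Z2 o s ≤ n := by nlinarith [H.Xn]
  exact ⟨by linarith [Z2_nonneg (o := o) s], fun i => by linarith [Z2_fl_le H.ok i s]⟩

variable (D : Du x f1 f2 κ η f c i1 i2 α β σ)
include D

theorem gd_res : (∀ i, |bi o s ω i - x i| ≤ 110 * C * η * |x i|) ∧
    |c ⬝ᵥ sv s - ∑ i, c i * Ti o s ω i + f ⬝ᵥ De o x f1 f2 s (Mj.xp o s ω)| ≤
      8000 * C * η * σ * Zz o x f1 f2 κ s (Mj.xp o s ω) := by
  obtain ⟨_, _, _, F⟩ := H.fr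
  have hs := (H.gd_z sm hω gd).1
  have e := H.Qsq (sv s)
  rw [← Z2, H.zeta H.Q1 hω, H.zeta H.Q2 hω] at e
  have h2 : (k : ℝ) + 2 = n := by exact_mod_cast H.dim
  have QG : Qm o *ᵥ Gv o χ s (Mj.xp o s ω) = Gv o χ s (Mj.xp o s ω) := by
    simp only [Gv, mulVec_sub, mulVec_smul, Q_Q H.ok, Q_p H.ok]
  have := H.res D sm gd.z1 gd.z2 gd.d1 gd.d2 (kk := (k - 1) / R2 o s) (y := bi o s ω)
    (L1 := f1 ⬝ᵥ Gv o χ s (Mj.xp o s ω)) (L2 := f2 ⬝ᵥ Gv o χ s (Mj.xp o s ω))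
    (by congr 1 <;> linarith [R2_add H.ok s]) (by rw [H.Gv_dot H.Q1, H.zeta H.Q1 hω, H.B1])
    (by rw [H.Gv_dot H.Q2, H.zeta H.Q2 hω, H.B2]; ring)
    (fun i => by have := F.field H.ok hs hω i; rwa [← QG, H.Qi] at this)
  refine ⟨this.1, le_trans (le_of_eq ?_) this.2⟩
  have e1 : c ⬝ᵥ sv s = α * (f1 ⬝ᵥ o.p + f1 ⬝ᵥ Mj.xp o s ω) + β * (f2 ⬝ᵥ o.p + f2 ⬝ᵥ Mj.xp o s ω) := by
    rw [D.hc, add_dotProduct, smul_dotProduct, smul_dotProduct, H.zeta H.Q1 hω, H.zeta H.Q2 hω]; rfl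
  rw [e1, D.hf, add_dotProduct, smul_dotProduct, smul_dotProduct]; rfl

theorem Ps_gd (F : Cube n → Vn n → ℝ) : |Ps o c F s ω + F s ω * (f ⬝ᵥ De o x f1 f2 s (Mj.xp o s ω)) +
    ∑ i, c i * ((1 - Ti o s ω i ^ 2) * Mj.dI i F s ω)| ≤
      8000 * C * η * σ * Zz o x f1 f2 κ s (Mj.xp o s ω) * |F s ω| := by
  refine le_trans (le_of_eq ?_) (am (H.gd_res sm hω gd D).2 (le_refl |F s ω|))
  have : Ps o c F s ω = (c ⬝ᵥ sv s - ∑ i, c i * Ti o s ω i) * F s ω -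
      ∑ i, c i * ((1 - Ti o s ω i ^ 2) * Mj.dI i F s ω) := by
    simp only [Ps, dotProduct, Finset.sum_mul, ← Finset.sum_sub_distrib]
    exact Finset.sum_congr rfl fun i _ => by ring
  rw [this]; congr 1; ring

theorem main {v : Vn n} {V : ℝ} (V0 : 0 ≤ V) (hv : v ⬝ᵥ v ≤ V ^ 2) {U : Cube n → Vn n → ℝ} {l : ℝ}
    (l0 : 0 ≤ l) (hU : ∀ i a, 0 ≤ a → Qm o i i = a ^ 2 → |U s ω - U (fl i s) ω| ≤ 2 * (l * a)) :
    |Ps o c (fun s ω => (v ⬝ᵥ Mj.xp o s ω) * U s ω) s ω + U s ω * ((v ⬝ᵥ Mj.xp o s ω) *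
      (f ⬝ᵥ De o x f1 f2 s (Mj.xp o s ω)) + NN o v f s (Mj.xp o s ω))| ≤
    |U s ω| * σ * (C * η * (8000 * Zz o x f1 f2 κ s (Mj.xp o s ω) * |v ⬝ᵥ Mj.xp o s ω| + 5400 * V)) +
      4 * ((|v ⬝ᵥ Mj.xp o s ω| + 8 * V) * l) := by
  obtain ⟨_, _, _, F⟩ := H.fr
  have hs := (H.gd_z sm hω gd).1
  have e0 := H.e0
  have k0 := H.k0
  have C1 := H.C1
  have s0 := H.s0 D
  have A := H.Ps_gd sm hω gd D fun s ω => (v ⬝ᵥ Mj.xp o s ω) * U s ω
  have B := lin2 (c := c) (f1 := f1) (f2 := f2) (NN o v f1 s (Mj.xp o s ω)) (NN o v f2 s (Mj.xp o s ω))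
    (by positivity) (by linarith) (H.gd_res sm hω gd D).1
  rw [H.Dc1 D, H.Dc2 D] at B
  replace B := B.trans (mul_le_mul_of_nonneg_left (add_le_add
    (mul_le_mul (H.NN_le sm hs hω (.inl rfl) V0 hv) ((H.Wc1 D).trans (by linarith [D.ks] : _ ≤ 4 * σ))
      (Wt_nonneg _ _ _) (by linarith))
    (mul_le_mul (H.NN_le sm hs hω (.inr rfl) V0 hv) (H.Wc2 D) (Wt_nonneg _ _ _) (by linarith)))
    (by positivity))
  have E := H.sum_c D (t := fun i => 1 - Ti o s ω i ^ 2) (d := fun i => Mj.dI i (fun s ω => v ⬝ᵥ Mj.xp o s ω) s ω -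
    (NN o v f1 s (Mj.xp o s ω) * f1 i + NN o v f2 s (Mj.xp o s ω) * f2 i)) (l := 14 * (C * η * σ * V))
    zero_le_one (by positivity) (fun i => D_abs _) fun i a a0 ha => (H.dI_f sm hs hω V0 hv i).trans (by
      have := Qii_le H.ok i
      rw [ha] at this ⊢
      calc 14 * η * κ * V * a ^ 2 = 14 * (1 * η * κ * V) * (a * a) := by ring
        _ ≤ 14 * (C * η * σ * V) * (1 * a) := by gcongr; exacts [D.ks, by nlinarith]
        _ = _ := by ring)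
  have Fq := H.sum_c D (t := fun i => (1 - Ti o s ω i ^ 2) * (v ⬝ᵥ Mj.xp o (fl i s) ω))
    (d := fun i => Mj.dI i U s ω) (B := |v ⬝ᵥ Mj.xp o s ω| + 8 * V) (by positivity) l0 (fun i => by
      have := adot V0 (by norm_num : (0 : ℝ) ≤ 8) hv ((F.dxp H.ok hs hω i).trans (by
        linarith [Qii_le H.ok i]))
      rw [dotProduct_sub] at this
      refine (am (D_abs _) ?_).trans_eq (one_mul _)
      have h := asb (le_refl |v ⬝ᵥ Mj.xp o s ω|) this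
      rwa [sub_sub_cancel, mul_comm] at h) fun i a a0 ha => abs_dI (hU i a a0 ha)
  have eN : NN o v f s (Mj.xp o s ω) = NN o v f1 s (Mj.xp o s ω) * i1 + NN o v f2 s (Mj.xp o s ω) * i2 := by
    rw [D.hf]; simp only [NN, add_dotProduct, smul_dotProduct, smul_eq_mul]; ring
  refine le_trans (le_of_eq ?_) ((asb (asb (asb A (am (le_refl |U s ω|) E)) (am (le_refl |U s ω|) B))
    Fq).trans ?_)
  · congr 1
    rw [eN]
    have : ∑ i, c i * ((1 - Ti o s ω i ^ 2) * Mj.dI i (fun s ω => (v ⬝ᵥ Mj.xp o s ω) * U s ω) s ω) =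
        U s ω * ∑ i, c i * ((1 - Ti o s ω i ^ 2) * (Mj.dI i (fun s ω => v ⬝ᵥ Mj.xp o s ω) s ω -
          (NN o v f1 s (Mj.xp o s ω) * f1 i + NN o v f2 s (Mj.xp o s ω) * f2 i))) +
        U s ω * ∑ i, c i * (1 - tanh (bi o s ω i) ^ 2) *
          (NN o v f1 s (Mj.xp o s ω) * f1 i + NN o v f2 s (Mj.xp o s ω) * f2 i) +
        ∑ i, c i * ((1 - Ti o s ω i ^ 2) * (v ⬝ᵥ Mj.xp o (fl i s) ω) * Mj.dI i U s ω) := by
      simp only [Finset.mul_sum, ← Finset.sum_add_distrib]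
      exact Finset.sum_congr rfl fun i _ => by rw [dI_mul, Ti]; ring
    rw [this]; ring
  · rw [abs_mul]
    nlinarith [mul_nonneg (abs_nonneg (U s ω)) (by positivity : 0 ≤ C * η * σ * V)]

theorem de_gd (hf : f = f1 ∨ f = f2) :
    |Ps o c (fun s ω => ph o s * (f ⬝ᵥ De o x f1 f2 s (Mj.xp o s ω))) s ω +
      (f ⬝ᵥ De o x f1 f2 s (Mj.xp o s ω)) ^ 2| ≤
    8000 * C * η * (Zz o x f1 f2 κ s (Mj.xp o s ω) * |f ⬝ᵥ De o x f1 f2 s (Mj.xp o s ω)|) + 228 := by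
  obtain ⟨hs, hs'⟩ := H.gd_z sm hω gd
  have A := H.Ps_gd sm hω gd D fun s ω => ph o s * (f ⬝ᵥ De o x f1 f2 s (Mj.xp o s ω))
  have E := H.sum_c D (t := fun i => 1 - Ti o s ω i ^ 2) (d := fun i => Mj.dI i
    (fun s ω => ph o s * (f ⬝ᵥ De o x f1 f2 s (Mj.xp o s ω))) s ω) (l := 57) zero_le_one (by norm_num)
    (fun i => D_abs _) fun i a a0 ha => abs_dI (by
      simp only [ph_one hs, ph_one (hs' i), one_mul]; exact H.dDe sm hs hω hf i (hs' i) a0 ha)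
  simp only [ph_one hs, one_mul] at A
  refine le_trans (le_of_eq (by congr 1; ring)) ((asb A E).trans ?_)
  have e0 := H.e0
  have k0 := H.k0
  have C1 := H.C1
  have : 0 ≤ C * η * (Zz o x f1 f2 κ s (Mj.xp o s ω) * |f ⬝ᵥ De o x f1 f2 s (Mj.xp o s ω)|) := by
    unfold Zz; positivity
  nlinarith [mul_le_mul_of_nonneg_left D.s1 this]

end Hx

end Crest.Agent.T157.O4c
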