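import Crest.Agent.T157.O4cD_4
import Crest.Agent.T157.MjC_84

set_option autoImplicit false
set_option linter.unusedSectionVars false

/-!
Row 157, A2 section 4 (helper4): the cube step of (M1).
-/

noncomputable section

namespace Crest.Agent.T157.O4c

open MeasureTheory Matrix Crest.Agent.Lib.OrthPoinc Real
open Crest.Agent.T157.Oc Crest.Agent.T157.E Crest.Agent.T157.Od Crest.Agent.T157.Oo
open Crest.Agent.T157.Mj Crest.Agent.T157.O4c.B42 Crest.Agent.T157.SL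

variable {n k : ℕ} {o : Oo.Orb n k}

@[fun_prop] theorem cont_De (x f1 f2 : Vn n) (s : Cube n) : Continuous (De o x f1 f2 s) := by
  unfold De; fun_prop

def Fd (o : Oo.Orb n k) (x f1 f2 f : Vn n) (s : Cube n) (ω : Vn n) : ℝ :=
  ph o s * (f ⬝ᵥ De o x f1 f2 s (Mj.xp o s ω))
def Zq (o : Oo.Orb n k) (x f1 f2 : Vn n) (κ : ℝ) (s : Cube n) (ω : Vn n) : ℝ :=
  κ ^ 2 * (f1 ⬝ᵥ Mj.xp o s ω) ^ 2 + (f2 ⬝ᵥ Mj.xp o s ω) ^ 2 + (Fd o x f1 f2 f1 s ω ^ 2 + Fd o x f1 f2 f2 s ω ^ 2) + 1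

@[fun_prop] theorem cont_Fd (x f1 f2 f : Vn n) (s : Cube n) : Continuous (Fd o x f1 f2 f s) := by
  unfold Fd; fun_prop
@[fun_prop] theorem cont_Zq (x f1 f2 : Vn n) (κ : ℝ) (s : Cube n) : Continuous (Zq o x f1 f2 κ s) := by
  unfold Zq; fun_prop

theorem nG_le {G : Mn n} {γ : ℝ} (h : PG G γ) {u : Vn n} {y : ℝ} (hy : 0 ≤ y) (hu : u ⬝ᵥ u ≤ y ^ 2) :
    nG G u ≤ √γ * y := by
  refine le_of_sq (by positivity) ?_
  rw [h.nG_sq, mul_pow, sq_sqrt h.pos.le]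
  exact (h.up u).trans (mul_le_mul_of_nonneg_left hu h.pos.le)

theorem sc_de {A B x y P1 P2 e : ℝ} (A0 : 0 ≤ A) (B0 : 0 ≤ B) (e1 : e ≤ 1 / 10)
    (h1 : |P1 + x ^ 2| ≤ e * ((A + B + |x| + |y| + 1) * |x|) + 228)
    (h2 : |P2 + y ^ 2| ≤ e * ((A + B + |x| + |y| + 1) * |y|) + 228) :
    x ^ 2 + y ^ 2 ≤ -2 * P1 + -2 * P2 + (A ^ 2 + B ^ 2 + 913) := by
  have a1 := mul_le_mul_of_nonneg_right e1 (by positivity : 0 ≤ (A + B + |x| + |y| + 1) * |x|)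
  have a2 := mul_le_mul_of_nonneg_right e1 (by positivity : 0 ≤ (A + B + |x| + |y| + 1) * |y|)
  have a3 := (abs_le.1 h1).2
  have a4 := (abs_le.1 h2).2
  rw [← sq_abs x, ← sq_abs y] at *
  nlinarith [sq_nonneg (A - |x|), sq_nonneg (A - |y|), sq_nonneg (B - |x|), sq_nonneg (B - |y|),
    sq_nonneg (|x| - 1), sq_nonneg (|y| - 1), sq_nonneg (|x| - |y|)]

theorem sc_main {u c e Z Y w ν l : ℝ} (c0 : 0 ≤ c) (e0 : 0 ≤ e) (l0 : 0 ≤ l) (ν0 : 0 ≤ ν) (Z0 : 0 ≤ Z)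
    (hu : u ≤ c * ν) (hZ : Z ^ 2 ≤ 5 * Y) (Y1 : 1 ≤ Y) :
    u * (e * (8000 * Z * |w| + 5400 * (3 * ν))) + 4 * ((|w| + 8 * (3 * ν)) * (48 * (l * ν))) ≤
      40000 * (c * e) * (w ^ 2 + ν ^ 2 * Y) + 4800 * l * (w ^ 2 + ν ^ 2) := by
  have a1 := mul_le_mul_of_nonneg_right hu (by positivity : 0 ≤ e * (8000 * Z * |w| + 5400 * (3 * ν)))
  have a2 : ν * (8000 * Z * |w| + 5400 * (3 * ν)) ≤ 40000 * (w ^ 2 + ν ^ 2 * Y) := by
    rw [← sq_abs w]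
    nlinarith [sq_nonneg (ν * Z - |w|), mul_le_mul_of_nonneg_left hZ (sq_nonneg ν),
      mul_le_mul_of_nonneg_left Y1 (sq_nonneg ν), sq_nonneg |w|, sq_nonneg ν]
  have a3 : 192 * ((|w| + 24 * ν) * ν) ≤ 4800 * (w ^ 2 + ν ^ 2) := by
    rw [← sq_abs w]; nlinarith [sq_nonneg (ν - |w|), sq_nonneg |w|, sq_nonneg ν]
  nlinarith [mul_le_mul_of_nonneg_left a2 (mul_nonneg c0 e0), mul_le_mul_of_nonneg_left a3 l0]

namespace Hx

variable {x f1 f2 : Vn n} {G : Mn n} {χ X κ η C g T0 τ : ℝ} (H : Hx o x f1 f2 χ X κ η C)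
  (W : Hw o x f1 f2 G χ κ η C g T0 τ) (sm : 80000 * C * η ≤ 1)
include H sm

theorem sm0 : 1000 * C * η ≤ 1 := by nlinarith [mul_pos (zero_lt_one.trans_le H.C1) H.e0]

theorem Fd_le {f : Vn n} (hf : f = f1 ∨ f = f2) {ω : Vn n} (hω : Sph o ω) (s : Cube n) :
    |Fd o x f1 f2 f s ω| ≤ 30 * n := by
  unfold Fd ph
  split_ifs with hs
  · rw [one_mul]; exact H.De_le (H.sm0 sm) hs hω hf
  · rw [zero_mul, abs_zero]; positivity

include W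

theorem v9 (v : Vn n) : v ⬝ᵥ v ≤ (3 * nG G v) ^ 2 := by
  have pg := PG.of_hw W
  have h1 := pg.cs2 v ((A0 o + Bp x f1 f2) *ᵥ v)
  rw [mulVec_mulVec, mul_eq_one_comm.1 W.inv, one_mulVec, dotProduct_comm (_ *ᵥ v) v] at h1
  have h2 := H.M_form (H.sm0 sm) v
  rw [mul_pow, pg.nG_sq]
  rcases (dot_self_nonneg v).eq_or_lt with e | e
  · rw [← e]; exact mul_nonneg (by norm_num) (pg.nn v)
  · exact le_of_mul_le_mul_right (by nlinarith [mul_le_mul_of_nonneg_left h2 (pg.nn v)]) e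

theorem kG : κ ^ 2 * (f1 ⬝ᵥ G *ᵥ f1) ≤ C := by
  have h1 := (PG.of_hw W).up f1
  rw [H.n1, mul_one] at h1
  refine (mul_le_mul_of_nonneg_left h1 (sq_nonneg κ)).trans ?_
  rw [← div_eq_mul_inv, div_le_iff₀ W.g0]; exact W.kg

theorem nG_crude {f : Vn n} (hf : f = f1 ∨ f = f2) : nG G f ≤ C * n := by
  have C1 := H.C1
  have n1 := H.n_ge (H.sm0 sm)
  have pg := PG.of_hw W
  have a : (1 : ℝ) ≤ C * n := by nlinarith
  refine le_of_sq (by linarith) (le_trans ?_ (by nlinarith : C * n ≤ (C * n) ^ 2))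
  rw [pg.nG_sq]
  rcases hf with e | e <;> rw [e]
  · nlinarith [mul_le_mul_of_nonneg_left (H.kn' (H.sm0 sm)) (pg.nn f1),
      mul_le_mul_of_nonneg_right (H.kG W sm) (Nat.cast_nonneg (α := ℝ) n)]
  · nlinarith [W.G2]

variable {Bd : Cube n → Vn n → ℝ} (B0 : ∀ s ξ, 0 ≤ Bd s ξ)
  (B1 : ∀ s ω, Sph o ω → ¬ Gd o x f1 f2 G X κ η T0 s (Mj.xp o s ω) → 1 ≤ Bd s (Mj.xp o s ω))
  {c1 c2 : Vn n} {α1 β1 α2 β2 : ℝ} (D1 : Du x f1 f2 κ η f1 c1 1 0 α1 β1 κ)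
  (D2 : Du x f1 f2 κ η f2 c2 0 1 α2 β2 1)
include B0 B1 D1 D2

theorem pw_de (s : Cube n) {ω : Vn n} (hω : Sph o ω) : Fd o x f1 f2 f1 s ω ^ 2 + Fd o x f1 f2 f2 s ω ^ 2 ≤
    -2 * Ps o c1 (Fd o x f1 f2 f1) s ω + -2 * Ps o c2 (Fd o x f1 f2 f2) s ω +
      (κ ^ 2 * (f1 ⬝ᵥ Mj.xp o s ω) ^ 2 + (f2 ⬝ᵥ Mj.xp o s ω) ^ 2 + 913 + 3000 * n ^ 3 * Bd s (Mj.xp o s ω)) := by
  have s0 := H.sm0 sm
  have n1 := H.n_ge s0
  have := B0 s (Mj.xp o s ω)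
  by_cases gd : Gd o x f1 f2 G X κ η T0 s (Mj.xp o s ω)
  · have h := sc_de (mul_nonneg H.k0.le (abs_nonneg _)) (abs_nonneg _) (by linarith)
      (H.de_gd s0 hω gd D1 (.inl rfl)) (H.de_gd s0 hω gd D2 (.inr rfl))
    rw [mul_pow, sq_abs, sq_abs] at h
    simp only [Fd, ph_one (H.gd_z s0 hω gd).1, one_mul]
    exact h.trans (add_le_add le_rfl (le_add_of_nonneg_right (by positivity)))
  · have a1 := H.Fd_le sm (.inl rfl) hω
    have a2 := H.Fd_le sm (.inr rfl) hω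
    have b1 := (abs_le.1 (Ps_crude (o := o) (H.c3 D1) a1 s)).2
    have b2 := (abs_le.1 (Ps_crude (o := o) (H.c3 D2) a2 s)).2
    have a3 := pow_le_pow_left₀ (abs_nonneg _) (a1 s) 2
    have a4 := pow_le_pow_left₀ (abs_nonneg _) (a2 s) 2
    rw [sq_abs] at a3 a4
    have a5 := mul_le_mul_of_nonneg_left (B1 s ω hω gd) (by positivity : (0 : ℝ) ≤ 3000 * n ^ 3)
    have : 0 ≤ κ ^ 2 * (f1 ⬝ᵥ Mj.xp o s ω) ^ 2 + (f2 ⬝ᵥ Mj.xp o s ω) ^ 2 := by positivity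
    nlinarith [mul_le_mul_of_nonneg_left (by linarith : (1 : ℝ) ≤ n) (sq_nonneg (n : ℝ))]

variable {a L : ℝ} (ha : 0 < a) (hL : 0 ≤ L) (hL2 : (1 + o.p ⬝ᵥ G *ᵥ o.p / a) ^ 3 ≤ L ^ 2 * a) (v : Vn n)
include ha hL hL2

theorem pw (s : Cube n) {ω : Vn n} (hω : Sph o ω) :
    |ph o s * Xi o x f1 f2 G a v s (Mj.xp o s ω) +
      Ps o c1 (fun s ω => (v ⬝ᵥ Mj.xp o s ω) * (f1 ⬝ᵥ Uv G o.p a v (Mj.xp o s ω))) s ω +
      Ps o c2 (fun s ω => (v ⬝ᵥ Mj.xp o s ω) * (f2 ⬝ᵥ Uv G o.p a v (Mj.xp o s ω))) s ω| ≤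
    (80000 * ((3 + o.p ⬝ᵥ G *ᵥ o.p / a) * C ^ 2 * η) + 9600 * (L / g)) * (v ⬝ᵥ Mj.xp o s ω) ^ 2 +
      80000 * ((3 + o.p ⬝ᵥ G *ᵥ o.p / a) * C ^ 2 * η) * (v ⬝ᵥ G *ᵥ v) * Zq o x f1 f2 κ s ω +
      9600 * (L / g) * (v ⬝ᵥ G *ᵥ v) +
      500 * ((3 + o.p ⬝ᵥ G *ᵥ o.p / a) * C * n ^ 3) * (v ⬝ᵥ G *ᵥ v) * Bd s (Mj.xp o s ω) := by
  obtain ⟨_, _, _, F⟩ := H.fr
  have pg := PG.of_hw W
  have s0 := H.sm0 sm
  have n1 := H.n_ge s0
  have C1 := H.C1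
  have e0 := H.e0
  have k0 := H.k0
  have g0 := W.g0
  have b0 := B0 s (Mj.xp o s ω)
  have c0 : 0 ≤ 3 + o.p ⬝ᵥ G *ᵥ o.p / a := by have := div_nonneg (pg.nn o.p) ha.le; linarith
  have ν0 := nG_nn G v
  have hv := H.v9 W sm v
  have Y1 : 1 ≤ Zq o x f1 f2 κ s ω := le_add_of_nonneg_left (by positivity)
  have eX : Xi o x f1 f2 G a v s (Mj.xp o s ω) = (f1 ⬝ᵥ Uv G o.p a v (Mj.xp o s ω)) * ((v ⬝ᵥ Mj.xp o s ω) *
      (f1 ⬝ᵥ De o x f1 f2 s (Mj.xp o s ω)) + NN o v f1 s (Mj.xp o s ω)) + (f2 ⬝ᵥ Uv G o.p a v (Mj.xp o s ω)) *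
      ((v ⬝ᵥ Mj.xp o s ω) * (f2 ⬝ᵥ De o x f1 f2 s (Mj.xp o s ω)) + NN o v f2 s (Mj.xp o s ω)) := by
    simp only [Xi, H.Qdot, NN]; ring
  rw [← pg.nG_sq v]
  generalize hc : 3 + o.p ⬝ᵥ G *ᵥ o.p / a = cp at *
  by_cases gd : Gd o x f1 f2 G X κ η T0 s (Mj.xp o s ω)
  · have hs := (H.gd_z s0 hω gd).1
    have hU : ∀ f, (f = f1 ∨ f = f2) → ∀ i b, 0 ≤ b → Qm o i i = b ^ 2 →
        |f ⬝ᵥ Uv G o.p a v (Mj.xp o s ω) - f ⬝ᵥ Uv G o.p a v (Mj.xp o (fl i s) ω)| ≤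
          2 * (48 * (L / g * nG G v) * b) := fun f hf i b b0 hb => by
      rw [← dotProduct_sub]
      refine (u2 pg ha hL hL2 v _ _ f).trans ((mul_le_mul_of_nonneg_left (mul_le_mul
        (mul_le_mul_of_nonneg_left (nG_le pg zero_le_one (H.f_sq hf)) ν0) (nG_le pg (y := 8 * b) (by linarith)
          ((F.dxp H.ok hs hω i).trans (by rw [hb]; nlinarith))) (nG_nn _ _) (by positivity))
            (by positivity)).trans_eq ?_)
      linear_combination 96 * L * nG G v * b * Real.mul_self_sqrt (inv_pos.2 g0).le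
    have hZ : Zz o x f1 f2 κ s (Mj.xp o s ω) ^ 2 ≤ 5 * Zq o x f1 f2 κ s ω := by
      simp only [Zz, Zq, Fd, ph_one hs, one_mul]
      rw [← sq_abs (f1 ⬝ᵥ Mj.xp o s ω), ← sq_abs (f2 ⬝ᵥ Mj.xp o s ω), ← sq_abs (f1 ⬝ᵥ De o x f1 f2 s _),
        ← sq_abs (f2 ⬝ᵥ De o x f1 f2 s _), ← mul_pow]
      generalize κ * |f1 ⬝ᵥ Mj.xp o s ω| = p
      generalize |f2 ⬝ᵥ Mj.xp o s ω| = q
      generalize |f1 ⬝ᵥ De o x f1 f2 s _| = r
      generalize |f2 ⬝ᵥ De o x f1 f2 s _| = t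
      nlinarith [sq_nonneg (p - q), sq_nonneg (p - r), sq_nonneg (p - t), sq_nonneg (p - 1), sq_nonneg (q - r),
        sq_nonneg (q - t), sq_nonneg (q - 1), sq_nonneg (r - t), sq_nonneg (r - 1), sq_nonneg (t - 1)]
    have uσ : ∀ f σ, 0 ≤ σ → σ ^ 2 * (f ⬝ᵥ G *ᵥ f) ≤ C → |f ⬝ᵥ Uv G o.p a v (Mj.xp o s ω)| * σ ≤ cp * C * nG G v :=
      fun f σ σ0 h => by
        have a1 : σ * nG G f ≤ C := le_of_sq (by linarith) (by rw [mul_pow, pg.nG_sq]; nlinarith)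
        have a2 := mul_le_mul_of_nonneg_right (hc ▸ u1 pg ha v (Mj.xp o s ω) f) σ0
        nlinarith [mul_le_mul_of_nonneg_left a1 (mul_nonneg c0 ν0)]
    have sc := fun u hu => sc_main (u := u) (c := cp * C) (e := C * η) (l := L / g) (w := v ⬝ᵥ Mj.xp o s ω)
      (by positivity) (by positivity) (by positivity) ν0 (by unfold Zz; positivity) hu hZ Y1
    have m1 := (H.main s0 hω gd D1 (by linarith) hv (U := fun s ω => f1 ⬝ᵥ Uv G o.p a v (Mj.xp o s ω))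
      (by positivity) (hU f1 (.inl rfl))).trans (sc _ (uσ f1 κ k0.le (H.kG W sm)))
    have m2 := (H.main s0 hω gd D2 (by linarith) hv (U := fun s ω => f2 ⬝ᵥ Uv G o.p a v (Mj.xp o s ω))
      (by positivity) (hU f2 (.inr rfl))).trans (sc _ (uσ f2 1 zero_le_one (by linarith [W.G2])))
    rw [ph_one hs, one_mul, eX]
    refine le_trans (le_of_eq (by congr 1; ring)) ((ad m1 m2).trans ?_)
    have : 0 ≤ 500 * (cp * C * n ^ 3) * nG G v ^ 2 * Bd s (Mj.xp o s ω) := by positivity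
    linarith
  · have w1 : ∀ s, |v ⬝ᵥ Mj.xp o s ω| ≤ 3 * nG G v * (2 * n) := fun s =>
      adot (by linarith) (by linarith) hv ((xp_crude H.ok H.p_le hω s).trans (by nlinarith))
    have u1' : ∀ f, (f = f1 ∨ f = f2) → ∀ s, |f ⬝ᵥ Uv G o.p a v (Mj.xp o s ω)| ≤ cp * (nG G v * (C * n)) :=
      fun f hf s => (hc ▸ u1 pg ha v (Mj.xp o s ω) f).trans (by gcongr; exact H.nG_crude W sm hf)
    have b1 := Ps_crude (o := o) (H.c3 D1) (F := fun s ω => (v ⬝ᵥ Mj.xp o s ω) * (f1 ⬝ᵥ Uv G o.p a v (Mj.xp o s ω)))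
      (fun s => am (w1 s) (u1' f1 (.inl rfl) s)) s
    have b2 := Ps_crude (o := o) (H.c3 D2) (F := fun s ω => (v ⬝ᵥ Mj.xp o s ω) * (f2 ⬝ᵥ Uv G o.p a v (Mj.xp o s ω)))
      (fun s => am (w1 s) (u1' f2 (.inr rfl) s)) s
    have b3 : |ph o s * Xi o x f1 f2 G a v s (Mj.xp o s ω)| ≤ 372 * (cp * C * n ^ 3 * nG G v ^ 2) := by
      unfold ph
      split_ifs with hs
      · have t := fun f hf => am (u1' f hf s) (ad (am (w1 s) (H.De_le s0 hs hω hf))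
          (H.NN_le s0 hs hω hf (by linarith) hv))
        rw [one_mul, eX]
        refine (ad (t f1 (.inl rfl)) (t f2 (.inr rfl))).trans ?_
        nlinarith [mul_le_mul_of_nonneg_left (by nlinarith : (1 : ℝ) ≤ n ^ 2)
          (by positivity : 0 ≤ cp * C * n * nG G v ^ 2)]
      · rw [zero_mul, abs_zero]; positivity
    have a5 := mul_le_mul_of_nonneg_left (B1 s ω hω gd)
      (by positivity : (0 : ℝ) ≤ 500 * (cp * C * n ^ 3) * nG G v ^ 2)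
    refine (ad (ad b3 b1) b2).trans (le_trans ?_ (le_add_of_nonneg_left (by positivity)))
    have : 0 ≤ cp * C * n ^ 3 * nG G v ^ 2 := by positivity
    linarith

end Hx

/-- **the cube step** -/
theorem cuStmt : CuStmt := by
  refine ⟨300000000, by norm_num, fun n k o μ _ x f1 f2 G χ X κ η C g T0 τ δ a L ka Bd hμ H W hK ha hL hL2 cB B0 B1
    hδ ka0 hka v => ?_⟩
  have C1 := H.C1
  have e0 := H.e0
  have g0 := W.g0
  have sm : 80000 * C * η ≤ 1 := by nlinarith [mul_pos (zero_lt_one.trans_le C1) e0]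
  obtain ⟨⟨c1, α1, β1, D1⟩, c2, α2, β2, D2⟩ := H.exists_du (H.sm1 (H.sm0 sm))
  have pg := PG.of_hw W
  have cU := cont_Uv (G := G) ha o.p v
  have cB' : ∀ s, Continuous (Bd s) := cB
  have P := pfP hμ H.ok
  have δ0 : 0 ≤ δ := (P.nonneg (fun s => by fun_prop) fun s ω _ => B0 s _).trans hδ
  have p1 := cf_Ps (o := o) c1 (cont_Fd (o := o) x f1 f2 f1)
  have p2 := cf_Ps (o := o) c2 (cont_Fd (o := o) x f1 f2 f2)
  have q1 := cf_Ps (o := o) c1 (F := fun s ω => (v ⬝ᵥ xp o s ω) * (f1 ⬝ᵥ Uv G o.p a v (xp o s ω))) fun s => by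
    fun_prop
  have q2 := cf_Ps (o := o) c2 (F := fun s ω => (v ⬝ᵥ xp o s ω) * (f2 ⬝ᵥ Uv G o.p a v (xp o s ω))) fun s => by
    fun_prop
  have cX : ∀ s, Continuous fun ω => ph o s * Xi o x f1 f2 G a v s (xp o s ω) := fun s => by
    unfold Xi; fun_prop
  unfold CF at p1 p2 q1 q2
  have k1 := (mul_le_mul_of_nonneg_left (hka f1) (sq_nonneg κ)).trans (by
    nlinarith [mul_le_mul_of_nonneg_left (H.kG W sm) ka0] : _ ≤ C * ka)
  have k2 := (hka f2).trans (by nlinarith [mul_le_mul_of_nonneg_left W.G2 ka0] : _ ≤ C * ka)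
  have hD := P.mono (fun s => by fun_prop) (fun s => by fun_prop) fun s ω hω => H.pw_de W sm B0 B1 D1 D2 s hω
  have hZ : pe o μ (Zq o x f1 f2 κ) ≤ 3000 * C * (1 + ka + n ^ 3 * δ) := by
    unfold Zq
    repeat rw [P.add (fun s => by fun_prop) fun s => by fun_prop] at hD
    repeat rw [P.add (fun s => by fun_prop) fun s => by fun_prop]
    simp only [P.mul, P.one, pe_Ps] at hD ⊢
    have : 0 ≤ (n : ℝ) ^ 3 * δ := by positivity
    nlinarith [mul_le_mul_of_nonneg_left hδ (by positivity : (0 : ℝ) ≤ n ^ 3), mul_nonneg (sub_nonneg.2 C1) this,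
      mul_nonneg (zero_le_one.trans C1) ka0]
  have h := pe_abs_le hμ H.ok (fun s => by fun_prop) (fun s => by fun_prop)
    fun s ω hω => H.pw W sm B0 B1 D1 D2 ha hL hL2 v s hω
  repeat rw [P.add (fun s => by fun_prop) fun s => by fun_prop] at h
  simp only [P.mul, P.one, pe_Ps, add_zero] at h
  have c0 : 0 ≤ 3 + o.p ⬝ᵥ G *ᵥ o.p / a := by have := div_nonneg (pg.nn o.p) ha.le; linarith
  have γ0 := pg.nn v
  have hw := hka v
  generalize 3 + o.p ⬝ᵥ G *ᵥ o.p / a = cp at *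
  generalize v ⬝ᵥ G *ᵥ v = γ at *
  have l0 : 0 ≤ L / g := by positivity
  generalize L / g = l at *
  refine h.trans ((add_le_add (add_le_add (add_le_add (mul_le_mul_of_nonneg_left hw (by positivity))
    (mul_le_mul_of_nonneg_left hZ (by positivity))) le_rfl) (mul_le_mul_of_nonneg_left hδ (by positivity))).trans ?_)
  have a1 : 0 ≤ cp * C ^ 2 * η * γ * ka := by positivity
  have a2 := mul_le_mul_of_nonneg_left C1 a1
  have : 0 ≤ cp * C ^ 3 * η * γ := by positivity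
  have : 0 ≤ cp * C ^ 3 * η * γ * (n ^ 3 * δ) := by positivity
  have : 0 ≤ l * γ := by positivity
  have : 0 ≤ l * γ * ka := by positivity
  have : 0 ≤ l * γ * (n ^ 3 * δ) := by positivity
  have : 0 ≤ cp * C * n ^ 3 * δ * γ := by positivity
  linarith

end Crest.Agent.T157.O4c
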