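import Crest.Agent.T157.O4dDef_42

set_option autoImplicit false
set_option linter.unusedSectionVars false

/-!
Row 157, A2 section 4 (helper42): deterministic bounds for the cube step of (M1).
-/

noncomputable section

namespace Crest.Agent.T157.O4c.B42

open MeasureTheory Matrix Crest.Agent.Lib.OrthPoinc Real
open Crest.Agent.T157.Oc Crest.Agent.T157.E Crest.Agent.T157.Od Crest.Agent.T157.Oo
open Crest.Agent.T157.Mj Crest.Agent.T157.M4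

variable {n k : ℕ}

/-- row `i` of `Jv` -/
def zi (x f1 f2 : Vn n) (i : Fin n) : Vn n :=
  ((f1 i - Dq x f1 f2 * f2 i) / Dq x f1 f1) • f1 + f2 i • f2
/-- `c - (k - 1) / R²` -/
def kp (o : Oo.Orb n k) (s : Cube n) (ξ : Vn n) : ℝ := cc o s ξ - (k - 1) / R2 o s

theorem J_apply (x f1 f2 u : Vn n) (i : Fin n) : Jv x f1 f2 u i = zi x f1 f2 i ⬝ᵥ u := by
  simp only [Jv, zi, Pi.add_apply, Pi.smul_apply, Pi.sub_apply, add_dotProduct, smul_dotProduct, smul_eq_mul]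
  ring
theorem Nk_nn {κ : ℝ} (hκ : 0 ≤ κ) (f1 f2 u : Vn n) : 0 ≤ Nk κ f1 f2 u := by unfold Nk; positivity
theorem coord_le {u : Vn n} {B : ℝ} (hB : 0 ≤ B) (h : u ⬝ᵥ u ≤ B ^ 2) (i : Fin n) : |u i| ≤ B := by
  refine abs_le_of_sq_le_sq (le_trans ?_ h) hB
  rw [dot_self_eq_sq]
  exact Finset.single_le_sum (f := fun j => u j ^ 2) (fun _ _ => sq_nonneg _) (Finset.mem_univ i)
theorem add_le {u v : Vn n} {a b : ℝ} (ha : 0 ≤ a) (hb : 0 ≤ b) (hu : u ⬝ᵥ u ≤ a ^ 2)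
    (hv : v ⬝ᵥ v ≤ b ^ 2) : (u + v) ⬝ᵥ (u + v) ≤ (a + b) ^ 2 := by
  have := (abs_le.1 (abs_dot_le ha hb hu hv)).2
  simp only [add_dotProduct, dotProduct_add, dotProduct_comm v u]
  linarith
theorem sub_le {u v : Vn n} {a b : ℝ} (ha : 0 ≤ a) (hb : 0 ≤ b) (hu : u ⬝ᵥ u ≤ a ^ 2)
    (hv : v ⬝ᵥ v ≤ b ^ 2) : (u - v) ⬝ᵥ (u - v) ≤ (a + b) ^ 2 := by
  rw [sub_eq_add_neg]; exact add_le ha hb hu (by simpa using hv)
theorem sm_le {u : Vn n} {c a b : ℝ} (hc : |c| ≤ b) (hu : u ⬝ᵥ u ≤ a ^ 2) :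
    (c • u) ⬝ᵥ (c • u) ≤ (b * a) ^ 2 := by
  rw [smul_dotProduct, dotProduct_smul, smul_eq_mul, smul_eq_mul, ← mul_assoc, ← sq, mul_pow]
  exact mul_le_mul (sq_le_sq' (abs_le.1 hc).1 (abs_le.1 hc).2) hu (dsq _) (sq_nonneg _)
theorem one_sub_T (o : Oo.Orb n k) (s : Cube n) (ω : Vn n) (i : Fin n) : |1 - Ti o s ω i ^ 2| ≤ 1 := by
  have := tanh_sq_lt_one (bi o s ω i)
  rw [Ti, abs_le]; constructor <;> nlinarith [sq_nonneg (tanh (bi o s ω i))]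
theorem abs_sv (s : Cube n) (i : Fin n) : |sv s i| = 1 := by
  have := sv_sq i s
  rw [← sq, ← sq_abs] at this
  nlinarith [abs_nonneg (sv s i)]
theorem abs_dI (i : Fin n) (F : Cube n → Vn n → ℝ) (s : Cube n) (ω : Vn n) :
    |dI i F s ω| = |F s ω - F (fl i s) ω| / 2 := by
  rw [Mj.dI, abs_div, abs_mul, abs_sv, one_mul, abs_two]

/-- the standing hypotheses -/
structure Cx (o : Oo.Orb n k) (x f1 f2 : Vn n) (G : Mn n) (χ X κ η C g T0 τ : ℝ) : Prop where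
  hx : Hx o x f1 f2 χ X κ η C
  hw : Hw o x f1 f2 G χ κ η C g T0 τ
  hs : Sx o x f1 f2 X κ η
  he : 1000 * C ^ 2 * η ≤ 1

namespace Cx

variable {o : Oo.Orb n k} {x f1 f2 : Vn n} {G : Mn n} {χ X κ η C g T0 τ : ℝ}
  (h : Cx o x f1 f2 G χ X κ η C g T0 τ)
include h

theorem ok : o.Ok := h.hx.ok
theorem pg : PG G g⁻¹ := PG.of_hw h.hw
theorem e0 : 0 < η := h.hx.k0.trans_le h.hx.ke
theorem e1 : η ≤ 1 / 1000 := by
  have := h.he; have := h.e0; have := one_le_pow₀ (n := 2) h.hx.C1; nlinarith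
theorem k1 : κ ≤ 1 / 1000 := h.hx.ke.trans h.e1
theorem n1 : (1000 : ℝ) ≤ n := by
  have h1 := h.hs.kn; have := h.k1; have := h.hx.k0
  have h2 : κ ^ 3 ≤ 1 / 1000 := (pow_le_of_le_one (by linarith) (by linarith) (by norm_num)).trans h.k1
  nlinarith [mul_le_mul_of_nonneg_right h2 (Nat.cast_nonneg (α := ℝ) n)]
theorem X1 : 1 ≤ X := by
  have h1 := h.hx.big; have := h.hx.X0; have := h.e1; have := h.k1; have := h.e0; have := h.hx.k0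
  have : η * κ ≤ 1 := by nlinarith
  nlinarith
theorem Qii (i : Fin n) : Qm o i i = f1 i ^ 2 + f2 i ^ 2 := by
  rw [h.hx.hq]; simp [vecMulVec_apply, sq]
theorem trQ : ∑ i, Qm o i i = 2 := by
  obtain ⟨_, _, _, f⟩ := h.hx.fr; exact f.trQ h.ok
theorem Qvec (v : Vn n) : Qm o *ᵥ v = (f1 ⬝ᵥ v) • f1 + (f2 ⬝ᵥ v) • f2 := by
  rw [h.hx.hq, add_mulVec, vecMulVec_mulVec, vecMulVec_mulVec]
  ext i; simp [mul_comm]
theorem two (a b : ℝ) : (a • f1 + b • f2) ⬝ᵥ (a • f1 + b • f2) = a ^ 2 + b ^ 2 := by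
  simp only [add_dotProduct, dotProduct_add, smul_dotProduct, dotProduct_smul, smul_eq_mul, h.hx.n1,
    h.hx.n2, h.hx.o12, dotProduct_comm f2 f1]
  ring
theorem Qdot (u v : Vn n) : u ⬝ᵥ Qm o *ᵥ v = (f1 ⬝ᵥ u) * (f1 ⬝ᵥ v) + (f2 ⬝ᵥ u) * (f2 ⬝ᵥ v) := by
  rw [h.Qvec, dotProduct_add, dotProduct_smul, dotProduct_smul, dotProduct_comm u, dotProduct_comm u]
  simp only [smul_eq_mul]; ring
theorem Bvec (y : Vn n) : Bp x f1 f2 *ᵥ y = (-(Dq x f1 f2 * (f2 ⬝ᵥ y - Dq x f1 f2 * (f1 ⬝ᵥ y)))) • f1 +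
    (-(Dq x f1 f2 * (f1 ⬝ᵥ y))) • f2 := by
  rw [Bp, sub_mulVec, vecMulVec_mulVec, vecMulVec_mulVec, sub_dotProduct, smul_dotProduct]
  ext i; simp; ring
theorem PB (y : Vn n) : Pm o *ᵥ (Bp x f1 f2 *ᵥ y) = 0 := by
  have q : ∀ a b : ℝ, Qm o *ᵥ (a • f1 + b • f2) = a • f1 + b • f2 := fun a b => by
    rw [h.Qvec]
    simp only [dotProduct_add, dotProduct_smul, smul_eq_mul, h.hx.n1, h.hx.n2, h.hx.o12,
      dotProduct_comm f2 f1, mul_one, mul_zero, add_zero, zero_add]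
  rw [h.Bvec, ← q, P_Q h.ok]
theorem f1le {y : Vn n} {b : ℝ} (hb : 0 ≤ b) (hy : y ⬝ᵥ y ≤ b ^ 2) : |f1 ⬝ᵥ y| ≤ b ∧ |f2 ⬝ᵥ y| ≤ b := by
  have a1 := abs_dot_le zero_le_one hb (u := f1) (by rw [h.hx.n1]; norm_num) hy
  have a2 := abs_dot_le zero_le_one hb (u := f2) (by rw [h.hx.n2]; norm_num) hy
  rw [one_mul] at a1 a2; exact ⟨a1, a2⟩
theorem opA {y : Vn n} {b : ℝ} (hy : y ⬝ᵥ y ≤ b ^ 2) : A0 o *ᵥ y ⬝ᵥ A0 o *ᵥ y ≤ (6 * b) ^ 2 := by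
  obtain ⟨_, _, _, f⟩ := h.hx.fr
  have := f.opA h.ok y; nlinarith
theorem opH {y : Vn n} {b : ℝ} (hb : 0 ≤ b) (hy : y ⬝ᵥ y ≤ b ^ 2) :
    (A0 o + Bp x f1 f2) *ᵥ y ⬝ᵥ (A0 o + Bp x f1 f2) *ᵥ y ≤ (9 * b) ^ 2 := by
  obtain ⟨a1, a2⟩ := h.f1le hb hy
  have hβ : |Dq x f1 f2| ≤ 1 := h.hs.be.trans (by linarith [h.k1])
  have a3 : |Dq x f1 f2 * (f1 ⬝ᵥ y)| ≤ b := by rw [abs_mul]; nlinarith [abs_nonneg (f1 ⬝ᵥ y)]
  have a4 : |Dq x f1 f2 * (f2 ⬝ᵥ y - Dq x f1 f2 * (f1 ⬝ᵥ y))| ≤ 2 * b := by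
    have := abs_sub (f2 ⬝ᵥ y) (Dq x f1 f2 * (f1 ⬝ᵥ y))
    rw [abs_mul]; nlinarith [abs_nonneg (f2 ⬝ᵥ y - Dq x f1 f2 * (f1 ⬝ᵥ y))]
  have hB : Bp x f1 f2 *ᵥ y ⬝ᵥ Bp x f1 f2 *ᵥ y ≤ (3 * b) ^ 2 := by
    rw [h.Bvec, h.two, neg_sq, neg_sq]
    nlinarith [sq_le_sq' (abs_le.1 a3).1 (abs_le.1 a3).2, sq_le_sq' (abs_le.1 a4).1 (abs_le.1 a4).2]
  rw [add_mulVec]
  exact (add_le (by positivity) (by positivity) (h.opA hy) hB).trans_eq (by ring)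
theorem GH (y : Vn n) : G *ᵥ ((A0 o + Bp x f1 f2) *ᵥ y) = y := by
  rw [mulVec_mulVec, mul_eq_one_comm.1 h.hw.inv, one_mulVec]
theorem v9 (v : Vn n) : v ⬝ᵥ v ≤ (3 * nG G v) ^ 2 := by
  have h1 := h.pg.cs2 v ((A0 o + Bp x f1 f2) *ᵥ v)
  have h0 := sqrt_nonneg (v ⬝ᵥ v)
  have h2 := (abs_le.1 (abs_dot_le (by positivity) h0 (h.opH h0 (sq_sqrt (dsq v)).ge)
    (sq_sqrt (dsq v)).ge)).2
  rw [h.GH] at h1
  rw [mul_assoc, mul_self_sqrt (dsq v)] at h2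
  rw [mul_pow, h.pg.nG_sq]
  rcases (dsq v).eq_or_lt with e | e
  · rw [← e]; exact mul_nonneg (by norm_num) (h.pg.nn v)
  · exact le_of_mul_le_mul_right (by nlinarith [mul_le_mul_of_nonneg_left h2 (h.pg.nn v)]) e
theorem zi_sq (i : Fin n) : zi x f1 f2 i ⬝ᵥ zi x f1 f2 i ≤ 9 * Qm o i i := by
  have hβ : |Dq x f1 f2| ≤ 1 := h.hs.be.trans (by linarith [h.k1])
  have h1 := h.hs.d1.1
  have h2 : (Dq x f1 f2 * f2 i) ^ 2 ≤ f2 i ^ 2 := by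
    rw [mul_pow]; exact mul_le_of_le_one_left (sq_nonneg _) ((sq_le_one_iff_abs_le_one _).2 hβ)
  have h3 : ((f1 i - Dq x f1 f2 * f2 i) / Dq x f1 f1) ^ 2 ≤ 8 * (f1 i ^ 2 + f2 i ^ 2) := by
    rw [div_pow, div_le_iff₀ (by positivity)]
    have : 1 / 4 ≤ Dq x f1 f1 ^ 2 := by nlinarith
    nlinarith [sq_nonneg (f1 i + Dq x f1 f2 * f2 i),
      mul_le_mul_of_nonneg_left this (add_nonneg (sq_nonneg (f1 i)) (sq_nonneg (f2 i)))]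
  rw [zi, h.two, h.Qii]; nlinarith [sq_nonneg (f1 i)]
theorem J_sq {u : Vn n} {b : ℝ} (hu : u ⬝ᵥ u ≤ b ^ 2) : Jv x f1 f2 u ⬝ᵥ Jv x f1 f2 u ≤ (5 * b) ^ 2 := by
  rw [dot_self_eq_sq]
  refine (Finset.sum_le_sum (g := fun i => Qm o i i * (9 * b ^ 2)) fun i _ => ?_).trans ?_
  · rw [J_apply]
    exact (M4.cs _ _).trans ((mul_le_mul (h.zi_sq i) hu (dsq _)
      ((dsq _).trans (h.zi_sq i))).trans_eq (by ring))
  · rw [← Finset.sum_mul, h.trQ]; nlinarith [sq_nonneg b]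
theorem J_k (u : Vn n) : Jv x f1 f2 u ⬝ᵥ Jv x f1 f2 u ≤ (4 * Nk κ f1 f2 u / κ) ^ 2 := by
  have hk := h.hx.k0; have := h.k1
  have h1 := h.hs.d1.1
  have a1 : |f1 ⬝ᵥ u / Dq x f1 f1| ≤ 2 * |f1 ⬝ᵥ u| := by
    rw [abs_div, abs_of_pos (a := Dq x f1 f1) (by linarith), div_le_iff₀ (by linarith)]
    nlinarith [abs_nonneg (f1 ⬝ᵥ u)]
  have a2 : (f1 - Dq x f1 f2 • f2) ⬝ᵥ (f1 - Dq x f1 f2 • f2) ≤ (1 + 1 * 1) ^ 2 :=
    sub_le zero_le_one (by norm_num) (by rw [h.hx.n1]; norm_num)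
      (sm_le (h.hs.be.trans (by linarith)) (by rw [h.hx.n2]; norm_num))
  refine (add_le (by positivity) (by positivity) (sm_le a1 a2)
    (sm_le (a := 1) le_rfl (by rw [h.hx.n2]; norm_num))).trans (pow_le_pow_left₀ (by positivity) ?_ 2)
  rw [le_div_iff₀ hk, Nk]
  nlinarith [abs_nonneg (f1 ⬝ᵥ u), abs_nonneg (f2 ⬝ᵥ u)]
theorem Q_k (u : Vn n) : Qm o *ᵥ u ⬝ᵥ Qm o *ᵥ u ≤ (Nk κ f1 f2 u / κ) ^ 2 := by
  have hk := h.hx.k0; have := h.k1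
  rw [h.Qvec]
  refine (add_le (by positivity) (by positivity) (sm_le (a := 1) le_rfl (by rw [h.hx.n1]; norm_num))
    (sm_le (a := 1) le_rfl (by rw [h.hx.n2]; norm_num))).trans (pow_le_pow_left₀ (by positivity) ?_ 2)
  rw [le_div_iff₀ hk, Nk]
  nlinarith [abs_nonneg (f1 ⬝ᵥ u), abs_nonneg (f2 ⬝ᵥ u)]
theorem pabs (i : Fin n) : |o.p i| ≤ 1 := by
  obtain ⟨_, _, _, f⟩ := h.hx.fr
  rw [f.hp]; exact (abs_tanh_lt_one _).le
theorem sq_n {u : Vn n} {b : ℝ} (hu : ∀ i, |u i| ≤ b) : u ⬝ᵥ u ≤ (b * √n) ^ 2 := by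
  rw [dot_self_eq_sq, mul_pow, sq_sqrt (Nat.cast_nonneg n)]
  refine (Finset.sum_le_sum (g := fun _ => b ^ 2) fun i _ =>
    sq_le_sq' (abs_le.1 (hu i)).1 (abs_le.1 (hu i)).2).trans (by simp [mul_comm])
theorem sh_abs (s : Cube n) (i : Fin n) : |sh o s i| ≤ 2 := by
  have := abs_sub (sv s i) (o.p i)
  rw [abs_sv] at this
  exact this.trans (by linarith [h.pabs i])

variable {s : Cube n} {ω : Vn n} (hω : Mj.Sph o ω)
include hω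

theorem xp_le : xp o s ω ⬝ᵥ xp o s ω ≤ (2 * √n) ^ 2 := by
  have h1 := pyth h.ok (sh o s)
  rw [P_sh h.ok, dot_P, P_P h.ok, ← R2_eq] at h1
  rw [xp_sq hω, add_comm, ← h1]
  exact h.sq_n (h.sh_abs s)
theorem Q_xt : Qm o *ᵥ (xp o s ω + o.p) = Qm o *ᵥ sv s := by
  rw [mulVec_add, Q_xp h.ok hω, Qsh h.ok, Q_p h.ok, sub_add_cancel]
theorem xt_sq : (xp o s ω + o.p + o.p) ⬝ᵥ xp o s ω = n * χ := by
  have h1 := pyth h.ok (xp o s ω + o.p)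
  rw [h.Q_xt hω, mulVec_add, P_p h.ok, add_zero, P_xp h.ok hω, smul_dotProduct, dotProduct_smul, hω.one,
    smul_eq_mul, smul_eq_mul, mul_one, mul_self_sqrt (R2_nonneg s), ← Z2, R2_add h.ok] at h1
  rw [h.hx.chi, ← h1]
  simp only [add_dotProduct, dotProduct_add, dotProduct_comm o.p (xp o s ω)]; ring
theorem PU (a : ℝ) (v : Vn n) : Pm o *ᵥ Uv G o.p a v (xp o s ω) ⬝ᵥ xp o s ω =
    -(Qm o *ᵥ Uv G o.p a v (xp o s ω) ⬝ᵥ Qm o *ᵥ sv s) := by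
  have h1 := u0 G o.p a v (xp o s ω)
  rw [← Pm_add_Qm (o := o) (xp o s ω + o.p), dotProduct_add, h.Q_xt hω, mulVec_add, P_p h.ok, add_zero,
    dot_P] at h1
  rw [← dot_Q, Q_Q h.ok]; linarith
theorem vP {v : Vn n} {ν : ℝ} (hν : 0 ≤ ν) (hv : v ⬝ᵥ v ≤ ν ^ 2) :
    κ * |Pm o *ᵥ xp o s ω ⬝ᵥ v| ≤ |v ⬝ᵥ xp o s ω| + ν * Nk κ f1 f2 (xp o s ω) := by
  have hk := h.hx.k0; have := h.k1
  have h1 := abs_dot_le hν (div_nonneg (Nk_nn hk.le _ _ _) hk.le) hv (h.Q_k (xp o s ω))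
  rw [← mul_div_assoc, le_div_iff₀ hk] at h1
  have h2 : Pm o *ᵥ xp o s ω ⬝ᵥ v = v ⬝ᵥ xp o s ω - v ⬝ᵥ Qm o *ᵥ xp o s ω := by
    rw [Qm_vec, dotProduct_sub, sub_sub_cancel, dotProduct_comm]
  have h3 := abs_sub (v ⬝ᵥ xp o s ω) (v ⬝ᵥ Qm o *ᵥ xp o s ω)
  rw [h2]
  nlinarith [abs_nonneg (v ⬝ᵥ xp o s ω), mul_le_mul_of_nonneg_left h3 hk.le]

/-- crude bound of the Stein integrand -/
theorem cu_le {V : Cube n → Vn n → Vn n} {B : ℝ} (hB : 0 ≤ B) (hV : ∀ s, V s ω ⬝ᵥ V s ω ≤ B ^ 2) :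
    |Cu o V s ω| ≤ 5 * n * B := by
  have hn := h.n1
  have h1 := abs_dot_le hB (by positivity) (hV s) (h.sq_n (u := Ti o s ω - o.p - sh o s) (b := 4) fun i => by
    have := abs_sub (Ti o s ω i - o.p i) (sh o s i); have := abs_sub (Ti o s ω i) (o.p i)
    have : |Ti o s ω i| ≤ 1 := (abs_tanh_lt_one _).le
    simp only [Pi.sub_apply]; linarith [h.pabs i, h.sh_abs s i])
  have h2 : |∑ i, (1 - Ti o s ω i ^ 2) * dI i (fun s ω => V s ω i) s ω| ≤ ∑ _i : Fin n, B :=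
    (Finset.abs_sum_le_sum_abs _ _).trans (Finset.sum_le_sum fun i _ => by
      rw [abs_mul, abs_dI]
      have := abs_sub (V s ω i) (V (fl i s) ω i)
      have := coord_le hB (hV s) i; have := coord_le hB (hV (fl i s)) i
      exact (mul_le_mul (one_sub_T o s ω i) (by linarith) (by positivity) zero_le_one).trans_eq (one_mul B))
  have h3 : √(n : ℝ) ≤ n := sqrt_le_self_iff.2 (Or.inr (by linarith))
  rw [Finset.sum_const, Finset.card_univ, Fintype.card_fin, nsmul_eq_mul] at h2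
  refine (abs_add_le _ _).trans ?_
  nlinarith [mul_le_mul_of_nonneg_left h3 hB]

section
variable (hs : 4 * Z2 o s ≤ n)
include hs

theorem R2g : 3 * (n : ℝ) ≤ 4 * R2 o s ∧ 0 < R2 o s := by
  have := R2_add h.ok s; have := h.n1; constructor <;> linarith
theorem kp_le : |kp o s (xp o s ω)| ≤ 12 := by
  obtain ⟨_, _, _, f⟩ := h.hx.fr
  have h1 : |cp o s ω| ≤ 10 := abs_le_of_sq_le_sq ((f.cp_sq h.ok hs hω).trans (by norm_num)) (by norm_num)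
  have h2 := h.R2g hω hs
  have h3 : (k : ℝ) + 2 = n := by exact_mod_cast h.hx.dim
  have h4 : |((k : ℝ) - 1) / R2 o s| ≤ 2 := by
    have := h.n1
    rw [abs_div, abs_of_pos h2.2, div_le_iff₀ h2.2, abs_of_pos (by linarith)]; linarith
  exact (abs_sub _ _).trans (by linarith)
theorem zeta_le : Qm o *ᵥ sv s ⬝ᵥ Qm o *ᵥ sv s ≤ (√n / 2) ^ 2 := by
  rw [div_pow, sq_sqrt (Nat.cast_nonneg n), ← Z2]; linarith
theorem De_le : De o x f1 f2 s (xp o s ω) ⬝ᵥ De o x f1 f2 s (xp o s ω) ≤ (24 * √n) ^ 2 :=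
  (sub_le (by positivity) (by positivity) (sm_le (h.kp_le hω hs) (h.zeta_le hω hs))
    ((Q_le h.ok _).trans (h.opH (by positivity) (h.xp_le hω)))).trans_eq (by ring)
theorem dxp (i : Fin n) : (xp o s ω - xp o (fl i s) ω) ⬝ᵥ (xp o s ω - xp o (fl i s) ω) ≤
    (8 * √(Qm o i i)) ^ 2 := by
  obtain ⟨_, _, _, f⟩ := h.hx.fr
  have := Qii_nonneg h.ok i
  rw [mul_pow, sq_sqrt this]; linarith [f.dxp h.ok hs hω i]

theorem dDe (i : Fin n) (hs' : 4 * Z2 o (fl i s) ≤ n) :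
    (De o x f1 f2 s (xp o s ω) - De o x f1 f2 (fl i s) (xp o (fl i s) ω)) ⬝ᵥ
      (De o x f1 f2 s (xp o s ω) - De o x f1 f2 (fl i s) (xp o (fl i s) ω)) ≤ (130 * √(Qm o i i)) ^ 2 := by
  obtain ⟨_, _, _, f⟩ := h.hx.fr
  have hq := Qii_nonneg h.ok i
  have hn := h.n1
  obtain ⟨q, q0, hq2⟩ : ∃ q, 0 ≤ q ∧ Qm o i i = q ^ 2 := ⟨_, sqrt_nonneg _, (sq_sqrt hq).symm⟩
  obtain ⟨m, m0, hm⟩ : ∃ m, 0 < m ∧ (n : ℝ) = m ^ 2 := ⟨_, sqrt_pos.2 (by linarith), (sq_sqrt (by linarith)).symm⟩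
  have m1 : 31 ≤ m := by nlinarith
  have q1 : q ≤ 1 := by have := Qii_le h.ok i; nlinarith
  have r1 := h.R2g hω hs; have r2 := h.R2g hω hs'
  have z1 := h.zeta_le hω hs; have z2 := h.zeta_le hω hs'
  have dx := h.dxp hω hs i
  have c1 := f.dc h.ok hs hω i hs'
  have c2 := Qi_sq h.ok i (sv s)
  have c3 := Z2_fl h.ok i s
  have c4 := R2_add h.ok s; have c5 := R2_add h.ok (fl i s)
  have hk : (k : ℝ) + 2 = n := by exact_mod_cast h.hx.dim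
  rw [hm, sqrt_sq m0.le] at z1 z2
  rw [hq2, sqrt_sq q0] at dx ⊢
  have a1 : |cp o s ω - cp o (fl i s) ω| ≤ 57 * q / m := abs_le_of_sq_le_sq (by
    rw [div_pow, le_div_iff₀ (by positivity), ← hm, mul_pow, ← hq2]; linarith) (by positivity)
  have a2 : |(Qm o *ᵥ sv s) i| ≤ q * (m / 2) := abs_le_of_sq_le_sq (by
    rw [mul_pow, ← hq2]; exact c2.trans (by gcongr)) (by positivity)
  have a3 : |R2 o (fl i s) - R2 o s| ≤ 3 * q * m := by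
    have e : R2 o (fl i s) - R2 o s = 4 * (sv s i * (Qm o *ᵥ sv s) i) - 4 * q ^ 2 := by
      rw [← hq2]; linarith
    have := abs_sub (4 * (sv s i * (Qm o *ᵥ sv s) i)) (4 * q ^ 2)
    rw [abs_mul, abs_mul, abs_sv, abs_of_nonneg (a := 4 * q ^ 2) (by positivity)] at this
    rw [e]; norm_num at this; nlinarith
  have a4 : |((k : ℝ) - 1) / R2 o s - (k - 1) / R2 o (fl i s)| ≤ 6 * q / m := by
    rw [div_sub_div _ _ r1.2.ne' r2.2.ne', abs_div, abs_of_pos (mul_pos r1.2 r2.2),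
      div_le_div_iff₀ (mul_pos r1.2 r2.2) m0, mul_comm (R2 o s) ((k : ℝ) - 1), ← mul_sub, abs_mul,
      abs_of_pos (a := (k : ℝ) - 1) (by linarith)]
    have b1 : ((k : ℝ) - 1) * |R2 o (fl i s) - R2 o s| ≤ m ^ 2 * (3 * q * m) :=
      mul_le_mul (by linarith) a3 (abs_nonneg _) (by positivity)
    have b2 : 3 / 4 * m ^ 2 * (3 / 4 * m ^ 2) ≤ R2 o s * R2 o (fl i s) :=
      mul_le_mul (by linarith) (by linarith) (by positivity) r1.2.le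
    nlinarith [mul_le_mul_of_nonneg_right b1 m0.le, mul_le_mul_of_nonneg_left b2 q0,
      mul_nonneg q0 (pow_nonneg m0.le 4)]
  have a5 : |kp o s (xp o s ω) - kp o (fl i s) (xp o (fl i s) ω)| ≤ 63 * q / m := by
    have := abs_sub (cp o s ω - cp o (fl i s) ω) (((k : ℝ) - 1) / R2 o s - (k - 1) / R2 o (fl i s))
    have e : 63 * q / m = 57 * q / m + 6 * q / m := by ring
    rw [kp, kp, e]
    exact (le_of_eq (by congr 1; ring)).trans (this.trans (add_le_add a1 a4))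
  have e : De o x f1 f2 s (xp o s ω) - De o x f1 f2 (fl i s) (xp o (fl i s) ω) =
      (kp o s (xp o s ω) - kp o (fl i s) (xp o (fl i s) ω)) • Qm o *ᵥ sv (fl i s) +
        kp o s (xp o s ω) • (2 * sv s i) • uq o i -
        Qm o *ᵥ ((A0 o + Bp x f1 f2) *ᵥ (xp o s ω - xp o (fl i s) ω)) := by
    simp only [De, kp, Q_fl, mulVec_sub]; module
  have a6 : |2 * sv s i| ≤ 2 := by rw [abs_mul, abs_sv]; norm_num
  rw [e]
  refine (sub_le (by positivity) (by positivity) (add_le (by positivity) (by positivity) (sm_le a5 z2)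
    (sm_le (h.kp_le hω hs) (sm_le (a := q) a6 (by rw [uq_sq h.ok, hq2]))))
    ((Q_le h.ok _).trans (h.opH (by positivity) dx))).trans (pow_le_pow_left₀ (by positivity) ?_ 2)
  have : 63 * q / m * (m / 2) = 63 * q / 2 := by field_simp
  rw [this]; linarith

end

end Cx

end Crest.Agent.T157.O4c.B42
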