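import Crest.Agent.T157.O4cB_42
import Crest.Agent.T157.MjC_84

set_option autoImplicit false
set_option linter.unusedSectionVars false

/-!
Row 157, A2 section 4 (helper42): the cube step of (M1), words and leaves.
-/

noncomputable section

namespace Crest.Agent.T157.O4c.B42

open MeasureTheory Matrix Crest.Agent.Lib.OrthPoinc Real
open Crest.Agent.T157.Oc Crest.Agent.T157.E Crest.Agent.T157.Od Crest.Agent.T157.Oo
open Crest.Agent.T157.Mj Crest.Agent.T157.M4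

variable {n k : ℕ}

/-- an approximate inverse of `Π D Π` -/
def Jv (x f1 f2 u : Vn n) : Vn n :=
  (f1 ⬝ᵥ u / Dq x f1 f1) • (f1 - Dq x f1 f2 • f2) + (f2 ⬝ᵥ u) • f2
/-- the weighted norm of a test vector -/
def Nk (κ : ℝ) (f1 f2 u : Vn n) : ℝ := κ * |f1 ⬝ᵥ u| + |f2 ⬝ᵥ u|
/-- indicator of `4 |Π s|² ≤ n` -/
def ph4 (o : Oo.Orb n k) (s : Cube n) : ℝ := if 4 * Z2 o s ≤ n then 1 else 0
/-- the integrand of the Stein identity for the field `V` -/
def Cu (o : Oo.Orb n k) (V : Cube n → Vn n → Vn n) (s : Cube n) (ω : Vn n) : ℝ :=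
  V s ω ⬝ᵥ (Ti o s ω - o.p - sh o s) + ∑ i, (1 - Ti o s ω i ^ 2) * dI i (fun s ω => V s ω i) s ω

/-- **(S)** facts on `x` -/
structure Sx (o : Oo.Orb n k) (x f1 f2 : Vn n) (X κ η : ℝ) : Prop where
  d1 : 1 / 2 ≤ Dq x f1 f1 ∧ Dq x f1 f1 ≤ 1
  be : |Dq x f1 f2| ≤ κ
  s1 : ∑ i, |f1 i| * Qm o i i ≤ 10 * η * κ
  s2 : ∑ i, |f2 i| * Qm o i i ≤ 10 * √η
  pX : o.p ⬝ᵥ o.p ≤ X ^ 2
  Xn : X ≤ η * κ ^ 2 * n
  kn : 1 ≤ κ ^ 3 * n

def SxStmt : Prop := ∀ (n k : ℕ) (o : Oo.Orb n k) (x f1 f2 : Vn n) (χ X κ η C : ℝ),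
  Hx o x f1 f2 χ X κ η C → 1000 * C ^ 2 * η ≤ 1 → Sx o x f1 f2 X κ η

/-- **(R)** the residual and the weights `1 - T²` on the good event -/
def ResStmt : Prop := ∃ K : ℝ, ∀ (n k : ℕ) (o : Oo.Orb n k) (x f1 f2 : Vn n) (G : Mn n)
  (χ X κ η C T0 : ℝ) (s : Cube n) (ω : Vn n), Hx o x f1 f2 χ X κ η C → 1000 * C ^ 2 * η ≤ 1 →
  Mj.Sph o ω → Gd o x f1 f2 G X κ η T0 s (xp o s ω) → ∀ u,
  |Jv x f1 f2 u ⬝ᵥ (Ti o s ω - o.p - sh o s) - u ⬝ᵥ De o x f1 f2 s (xp o s ω)| ≤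
    K * √η * Nk κ f1 f2 u * (|f1 ⬝ᵥ De o x f1 f2 s (xp o s ω)| + |f2 ⬝ᵥ De o x f1 f2 s (xp o s ω)| +
      Nk κ f1 f2 (xp o s ω) + 1) ∧
  ∀ w, |∑ i, (1 - Ti o s ω i ^ 2) * (Jv x f1 f2 u i * (Qm o *ᵥ w) i) - u ⬝ᵥ Qm o *ᵥ w| ≤
    K * √η * Nk κ f1 f2 u * √(w ⬝ᵥ w)

theorem cont_Ti (o : Oo.Orb n k) (s : Cube n) : Continuous (Ti o s) := by
  refine continuous_pi fun i => ?_
  have : Continuous tanh := continuous_iff_continuousAt.2 fun x => (hd_tanh x).continuousAt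
  unfold Ti bi lw; fun_prop

theorem cont_Cu (o : Oo.Orb n k) {V : Cube n → Vn n → Vn n} (hV : ∀ s, Continuous (V s)) (s : Cube n) :
    Continuous (Cu o V s) := by
  have := cont_Ti o s; have := hV s; have := fun i => hV (fl i s)
  unfold Cu Mj.dI; fun_prop

/-- Stein on the cube for a vector field -/
theorem cu_zero {o : Oo.Orb n k} {μ : Measure (Mat k)} [IsProbabilityMeasure μ] (hμ : SOInv μ)
    (h : o.Ok) {V : Cube n → Vn n → Vn n} (hV : ∀ s, Continuous (V s)) : pe o μ (Cu o V) = 0 := by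
  have hc : ∀ i, CF fun s ω => V s ω i := fun i s => by have := hV s; fun_prop
  have hT := cont_Ti o
  have e : pe o μ (Cu o V) = ∑ i, pe o μ fun s ω => ((Ti o s ω i - o.p i) * V s ω i +
      (1 - Ti o s ω i ^ 2) * dI i (fun s ω => V s ω i) s ω) - sh o s i * V s ω i := by
    rw [← pe_sum hμ _ fun i s => by have := hT s; have := hc i s; have := (hc i).dI i s; fun_prop]
    refine pe_congr hμ h fun s ω _ => ?_
    rw [Cu, dotProduct, ← Finset.sum_add_distrib]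
    exact Finset.sum_congr rfl fun i _ => by simp only [Pi.sub_apply]; ring
  rw [e]
  refine Finset.sum_eq_zero fun i _ => ?_
  rw [pe_sub hμ (fun s => by have := hT s; have := hc i s; have := (hc i).dI i s; fun_prop)
    (fun s => by have := hc i s; fun_prop), pe_add hμ (fun s => by have := hT s; have := hc i s; fun_prop)
    (fun s => by have := hT s; have := (hc i).dI i s; fun_prop), stein hμ (hc i), sub_self]

end Crest.Agent.T157.O4c.B42
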