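import Crest.Agent.T157.O4mB_53
import Crest.Agent.T157.MjA_84

set_option autoImplicit false
set_option linter.unusedSectionVars false

/-!
Row 157, A2 section 4 (helper53): Stein identity on the cube at a fixed direction, the exact
cavity field and the residual.
-/

noncomputable section

namespace Crest.Agent.T157.M4

open MeasureTheory Matrix Crest.Agent.Lib.OrthPoinc Filter Topology Set Real
open Crest.Agent.T157.Oc Crest.Agent.T157.E Crest.Agent.T157.SL Crest.Agent.T157.Ks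
open Crest.Agent.T157.Od Crest.Agent.T157.Oo Crest.Agent.T157.Mj
open Crest.ProbabilityR.SpinGlassDynamics

/-! ### real analysis -/

theorem hd_tanh (x : ℝ) : HasDerivAt tanh (1 - tanh x ^ 2) x := by
  have hc := (cosh_pos x).ne'
  have h := (hasDerivAt_sinh x).div (hasDerivAt_cosh x) hc
  have e : tanh = fun y => sinh y / cosh y := funext tanh_eq_sinh_div_cosh
  rw [e]
  refine h.congr_deriv ?_
  field_simp

@[fun_prop] theorem cont_tanh : Continuous tanh :=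
  continuous_iff_continuousAt.2 fun x => (hd_tanh x).continuousAt

theorem sech_eq (x : ℝ) : 1 - tanh x ^ 2 = 1 / cosh x ^ 2 := by
  have := (cosh_pos x).ne'
  rw [tanh_eq_sinh_div_cosh]; field_simp; exact cosh_sq_sub_sinh_sq x

theorem tanh_small (b : ℝ) : |tanh b| ≤ |b| ∧ |tanh b - b| ≤ b ^ 2 := by
  have key : ∀ b : ℝ, 0 < b → 0 ≤ tanh b ∧ tanh b ≤ b := fun b hb => by
    obtain ⟨ξ, -, h2⟩ := exists_hasDerivAt_eq_slope tanh (fun x => 1 - tanh x ^ 2) hb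
      cont_tanh.continuousOn fun x _ => hd_tanh x
    rw [tanh_zero, sub_zero, sub_zero, eq_div_iff hb.ne'] at h2
    have := tanh_sq_lt_one ξ
    constructor <;> nlinarith [sq_nonneg (tanh ξ)]
  have key2 : ∀ b : ℝ, 0 < b → |tanh b| ≤ |b| ∧ |tanh b - b| ≤ b ^ 2 := fun b hb => by
    obtain ⟨ξ, h1, h2⟩ := exists_hasDerivAt_eq_slope tanh (fun x => 1 - tanh x ^ 2) hb
      cont_tanh.continuousOn fun x _ => hd_tanh x
    rw [tanh_zero, sub_zero, sub_zero, eq_div_iff hb.ne'] at h2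
    have h3 := key b hb
    have h4 := key ξ h1.1
    have h5 := (abs_lt.1 (abs_tanh_lt_one ξ)).2
    have h6 : tanh ξ ^ 2 ≤ b := by nlinarith [h1.2]
    rw [abs_of_nonneg h3.1, abs_of_pos hb, abs_of_nonpos (by linarith)]
    exact ⟨h3.2, by nlinarith⟩
  rcases lt_trichotomy b 0 with h | rfl | h
  · have := key2 (-b) (by linarith)
    rw [tanh_neg, abs_neg, abs_neg, neg_sub_neg, abs_sub_comm, neg_sq] at this
    exact this
  · simp
  · exact key2 b h

theorem exp_abs_le (x : ℝ) : exp |x| ≤ 2 * cosh x := by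
  rw [← cosh_abs, cosh_eq]; linarith [exp_pos (-|x|)]

theorem cosh_le_exp (x : ℝ) : cosh x ≤ exp |x| := by
  rw [← cosh_abs, cosh_eq]
  linarith [exp_le_exp.2 (by linarith [abs_nonneg x] : -|x| ≤ |x|)]

theorem sech_w (x : ℝ) : (1 - tanh x ^ 2) * (1 + |x|) ^ 2 ≤ 4 := by
  rw [sech_eq, one_div_mul_eq_div, div_le_iff₀ (pow_pos (cosh_pos x) 2)]
  have h : 1 + |x| ≤ 2 * cosh x := by linarith [exp_abs_le x, add_one_le_exp |x|]
  have := pow_le_pow_left₀ (by positivity) h 2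
  linarith

/-- second order Taylor bound that keeps a factor `sech` -/
theorem tanh_res {x b : ℝ} (h : |b| ≤ (1 + |x|) / 2) :
    (tanh (x + b) - tanh x - (1 - tanh x ^ 2) * b) ^ 2 ≤ 119 * (1 - tanh x ^ 2) * b ^ 4 := by
  have c1 := cosh_pos x
  have c2 := cosh_pos b
  have c3 := cosh_pos (x + b)
  have e : tanh (x + b) - tanh x - (1 - tanh x ^ 2) * b =
      (tanh b - b - tanh x * tanh b * b) * (cosh b / cosh (x + b)) / cosh x := by
    have h1 := cosh_sq_sub_sinh_sq x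
    rw [sech_eq]
    simp only [tanh_eq_sinh_div_cosh]
    field_simp
    rw [sinh_add, cosh_add]
    linear_combination (cosh x * sinh b) * h1
  have h1 : |tanh b - b - tanh x * tanh b * b| ≤ 2 * b ^ 2 := by
    have h2 : |tanh x * tanh b * b| ≤ 1 * |b| * |b| := by
      rw [abs_mul, abs_mul]
      exact mul_le_mul_of_nonneg_right (mul_le_mul (abs_tanh_lt_one x).le (tanh_small b).1
        (abs_nonneg _) zero_le_one) (abs_nonneg _)
    rw [one_mul, abs_mul_abs_self] at h2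
    exact (abs_sub _ _).trans (by nlinarith [(tanh_small b).2])
  have h2 : cosh b / cosh (x + b) ≤ 2 * exp 1 := by
    rw [div_le_iff₀ c3]
    have h3 : |b| ≤ 1 + |x + b| := by
      have := abs_sub (x + b) b
      rw [add_sub_cancel_right] at this
      linarith
    have h4 := exp_le_exp.2 h3
    rw [exp_add] at h4
    have h5 := mul_le_mul_of_nonneg_left (exp_abs_le (x + b)) (exp_pos 1).le
    linarith [cosh_le_exp b]
  have h3 : (tanh b - b - tanh x * tanh b * b) ^ 2 ≤ (2 * b ^ 2) ^ 2 := by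
    rw [← sq_abs]; exact pow_le_pow_left₀ (abs_nonneg _) h1 2
  have h4 : (cosh b / cosh (x + b)) ^ 2 ≤ (2 * 2.7182818286) ^ 2 :=
    pow_le_pow_left₀ (by positivity) (h2.trans (by linarith [exp_one_lt_d9])) 2
  rw [e, div_pow, mul_pow, sech_eq, div_le_iff₀ (by positivity)]
  refine (mul_le_mul h3 h4 (by positivity) (by positivity)).trans ?_
  have : 119 * (1 / cosh x ^ 2) * b ^ 4 * cosh x ^ 2 = 119 * b ^ 4 := by field_simp
  rw [this]
  nlinarith [pow_nonneg (sq_nonneg b) 2]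

/-! ### Stein identity -/

variable {n k : ℕ}

/-- flip of one spin -/
def fp (i : Fin n) (s : Cube n) : Cube n := Function.update s i (!s i)

theorem fp_fp (i : Fin n) (s : Cube n) : fp i (fp i s) = s := by simp [fp]

theorem sv_sq (s : Cube n) (i : Fin n) : sv s i * sv s i = 1 := by
  rw [sv]; cases s i <;> simp [spin]

theorem sv_fp (i : Fin n) (s : Cube n) : sv (fp i s) = sv s - (2 * sv s i) • Pi.single i 1 := by
  funext j
  by_cases h : j = i
  · subst h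
    simp only [sv, fp, Function.update_self, Pi.sub_apply, Pi.smul_apply, Pi.single_eq_same]
    cases s j <;> simp [spin] <;> norm_num
  · simp [sv, fp, h]

theorem sv_fp_self (i : Fin n) (s : Cube n) : sv (fp i s) i = -sv s i := by
  rw [sv_fp]; simp; ring

/-- the cavity field -/
def cav (l : Cube n → ℝ) (i : Fin n) (s : Cube n) : ℝ := sv s i * (l s - l (fp i s)) / 2

theorem cav_fp (l : Cube n → ℝ) (i : Fin n) (s : Cube n) : cav l i (fp i s) = cav l i s := by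
  rw [cav, cav, fp_fp, sv_fp_self]; ring

theorem orth (l : Cube n → ℝ) (i : Fin n) {F : Cube n → ℝ} (hF : ∀ s, F (fp i s) = F s) :
    ∑ s, exp (l s) * (F s * (sv s i - tanh (cav l i s))) = 0 := by
  have h := Equiv.sum_comp (Function.Involutive.toPerm (fp i) (fp_fp i))
    fun s => exp (l s) * (F s * (sv s i - tanh (cav l i s)))
  have e : ∀ s, exp (l (fp i s)) * (F (fp i s) * (sv (fp i s) i - tanh (cav l i (fp i s)))) =
      -(exp (l s) * (F s * (sv s i - tanh (cav l i s)))) := fun s => by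
    have e1 : l (fp i s) = l s + -(2 * (cav l i s * sv s i)) := by
      rw [cav]; linear_combination (l s - l (fp i s)) * sv_sq s i
    rw [hF, cav_fp, sv_fp_self, e1, exp_add]
    generalize cav l i s = y
    have e2 : exp (-(2 * (y * sv s i))) * (-sv s i - tanh y) = -(sv s i - tanh y) := by
      have c := (cosh_pos y).ne'
      have p := (exp_pos y).ne'
      rw [tanh_eq_sinh_div_cosh, sv]
      cases s i <;> simp only [spin, if_true, Bool.false_eq_true, if_false, mul_one, mul_neg,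
        neg_neg, two_mul, Real.exp_neg, exp_add] <;> field_simp <;>
        rw [sinh_eq, cosh_eq, Real.exp_neg] <;>
        field_simp <;> ring
    linear_combination exp (l s) * F s * e2
  have h2 := (Finset.sum_congr rfl fun s (_ : s ∈ Finset.univ) => e s).symm.trans h
  rw [Finset.sum_neg_distrib] at h2
  linarith

/-- Stein identity for affine test functions -/
theorem stein (l : Cube n → ℝ) (p u v : Vn n) (m : ℝ) :
    ∑ s, exp (l s) * ((v ⬝ᵥ (sv s - p)) * (u ⬝ᵥ (sv s - p) - m)) =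
      ∑ s, exp (l s) * ∑ i, v i * ((tanh (cav l i s) - p i) * (u ⬝ᵥ (sv s - p) - m) +
        u i * (1 - tanh (cav l i s) ^ 2)) := by
  have h := fun i => orth l i (F := fun s => u ⬝ᵥ (sv s - p) - m - u i * sv s i - u i * tanh (cav l i s))
    fun s => by
      rw [cav_fp, sv_fp_self, sv_fp, sub_right_comm (sv s), dotProduct_sub u (sv s - p),
        dotProduct_smul, dotProduct_single, smul_eq_mul]
      ring
  rw [← sub_eq_zero, ← Finset.sum_sub_distrib, ← Finset.sum_eq_zero (s := Finset.univ)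
    fun i _ => (congrArg (v i * ·) (h i)).trans (mul_zero _)]
  simp only [Finset.mul_sum]
  rw [Finset.sum_comm]
  refine Finset.sum_congr rfl fun s _ => ?_
  rw [dotProduct.eq_1 v, Finset.sum_mul, Finset.mul_sum, ← Finset.sum_sub_distrib]
  refine Finset.sum_congr rfl fun i _ => ?_
  rw [Pi.sub_apply]
  linear_combination (exp (l s) * v i * u i) * sv_sq s i

/-! ### the cavity field at a fixed direction -/

variable (o : Oo.Orb n k) (χ : ℝ)

/-- the log-weight in polar form -/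
def lw (ω : Vn n) (s : Cube n) : ℝ := o.h ⬝ᵥ sv s + xp o s ω ⬝ᵥ o.W *ᵥ xp o s ω / 2
/-- `Π (s - p)` -/
def zh (s : Cube n) : Vn n := Qm o *ᵥ sh o s
/-- `Π A ξ` -/
def yq (s : Cube n) (ω : Vn n) : Vn n := Qm o *ᵥ (A0 o *ᵥ xp o s ω)
/-- indicator of `R² ≥ n χ / 2` -/
def ind (s : Cube n) : ℝ := if n * χ ≤ 2 * R2 o s then 1 else 0
/-- `c - 1/χ`, truncated -/
def kp (s : Cube n) (ω : Vn n) : ℝ := ind o χ s * (cc o s (xp o s ω) - χ⁻¹)
/-- the gradient of the tilt -/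
def gm (s : Cube n) (ω : Vn n) : Vn n :=
  -yq o s ω + kp o χ s ω • (Qm o *ᵥ sv s) + χ⁻¹ • zh o s
/-- conditional mean of the spin -/
def Tn (s : Cube n) (ω : Vn n) (i : Fin n) : ℝ := tanh (cav (lw o ω) i s)
/-- the residual -/
def rs (s : Cube n) (ω : Vn n) : Vn n := fun i =>
  Tn o s ω i - o.p i - (1 - o.p i ^ 2) * gm o χ s ω i

/-- deterministic hypotheses on the orbit -/
structure Hy (x : Vn n) (χ Q A S : ℝ) : Prop where
  ok : o.Ok
  px : ∀ i, o.p i = tanh (x i)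
  hh : o.h = x + χ • o.p
  hz : o.z = χ + χ⁻¹
  nχ : n * χ = n - o.p ⬝ᵥ o.p
  χQ : 2 ≤ χ * Q
  Q1 : 1 ≤ Q
  A1 : 1 ≤ A
  S0 : 0 < S
  SS : S ^ 2 = n
  nk : (n : ℝ) ≤ k + 2
  hA : Op2 (A0 o) (Q ^ 2)
  Qii : ∀ i, S ^ 2 * Qm o i i ≤ (A * (1 + |x i|)) ^ 2

variable {o χ} {x : Vn n} {Q A S : ℝ}

theorem sv_dot (s : Cube n) : sv s ⬝ᵥ sv s = n := by simp [dotProduct, sv_sq]

theorem QQ_dot (h : o.Ok) (u v : Vn n) : Qm o *ᵥ u ⬝ᵥ Qm o *ᵥ v = Qm o *ᵥ u ⬝ᵥ v := by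
  rw [dot_Q, Q_Q h]

theorem Q_le (h : o.Ok) (u : Vn n) : Qm o *ᵥ u ⬝ᵥ Qm o *ᵥ u ≤ u ⬝ᵥ u := by
  have h1 := dsq (u - Qm o *ᵥ u)
  rw [sub_dotProduct, dotProduct_sub, dotProduct_sub, dotProduct_comm u (Qm o *ᵥ u),
    ← QQ_dot h u u] at h1
  linarith

theorem R2_Q (s : Cube n) : R2 o s = n - Qm o *ᵥ sv s ⬝ᵥ sv s := by
  rw [R2_eq, Qm_vec, sub_dotProduct, sv_dot]; ring

theorem zt_eq (h : o.Ok) (s : Cube n) : Qm o *ᵥ sv s = zh o s + o.p := by
  rw [zh, sh, mulVec_sub, Q_p h, sub_add_cancel]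

theorem xp_dot (h : o.Ok) {ω : Vn n} (hω : Mj.Sph o ω) (s : Cube n) :
    xp o s ω ⬝ᵥ xp o s ω = sh o s ⬝ᵥ sh o s := by
  have h1 : Qm o *ᵥ sh o s ⬝ᵥ ω = 0 := by rw [← dot_Q, hω.q, dotProduct_zero]
  have h2 : R2 o s = Pm o *ᵥ sh o s ⬝ᵥ sh o s := by rw [← Et_dot, Et_sh h, R2]
  rw [xp]
  simp only [add_dotProduct, dotProduct_add, smul_dotProduct, dotProduct_smul, smul_eq_mul, h1,
    dotProduct_comm ω, hω.one, QQ_dot h]
  rw [mul_one, zero_add, Real.mul_self_sqrt (R2_nonneg s), h2, Qm_vec, sub_dotProduct]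
  ring

theorem Q_single (i : Fin n) (v : Vn n) : Qm o *ᵥ Pi.single i 1 ⬝ᵥ v = (Qm o *ᵥ v) i := by
  rw [← dot_Q, single_dotProduct, one_mul]

theorem Q_diag (i : Fin n) : (Qm o *ᵥ Pi.single i 1) i = Qm o i i := by simp

theorem Qe_dot (h : o.Ok) (i : Fin n) :
    Qm o *ᵥ Pi.single i 1 ⬝ᵥ Qm o *ᵥ Pi.single i 1 = Qm o i i := by
  rw [QQ_dot h, Q_single, Q_diag]

theorem Qii_mem (h : o.Ok) (i : Fin n) : 0 ≤ Qm o i i ∧ Qm o i i ≤ 1 := by
  rw [← Qe_dot h]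
  exact ⟨dsq _, by simpa using Q_le h (Pi.single i 1)⟩

theorem Q_comp (h : o.Ok) (v : Vn n) (i : Fin n) :
    (Qm o *ᵥ v) i ^ 2 ≤ Qm o i i * (Qm o *ᵥ v ⬝ᵥ Qm o *ᵥ v) := by
  rw [← Q_single, ← QQ_dot h, ← Qe_dot h]; exact cs _ _

theorem sum_Qii (h : o.Ok) : ∑ i, Qm o i i = n - k := by
  have : (Qm o).trace = n - k := by
    rw [Qm, trace_sub, trace_mul_comm, h.iso]; simp
  exact this

namespace Hy

variable (h : Hy o x χ Q A S)
include h

theorem χ0 : 0 < χ := by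
  by_contra hh
  nlinarith [h.χQ, h.Q1]

theorem p1 (i : Fin n) : o.p i ^ 2 ≤ 1 := by rw [h.px]; exact (tanh_sq_lt_one _).le

theorem pp : o.p ⬝ᵥ o.p ≤ S ^ 2 := by
  have := h.nχ; have := h.χ0; rw [h.SS]; nlinarith [Nat.cast_nonneg (α := ℝ) n]

theorem sh_le (s : Cube n) : sh o s ⬝ᵥ sh o s ≤ (2 * S) ^ 2 := by
  have h1 := dsq (sv s + o.p)
  have h2 := h.pp
  rw [mul_pow, h.SS] at *
  simp only [sh, add_dotProduct, dotProduct_add, sub_dotProduct, dotProduct_sub, sv_dot] at *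
  linarith

theorem lw_eq {ω : Vn n} (hω : Mj.Sph o ω) (s : Cube n) : lw o ω s = (x - χ⁻¹ • o.p) ⬝ᵥ sv s +
    o.z * (n + o.p ⬝ᵥ o.p) / 2 - xp o s ω ⬝ᵥ A0 o *ᵥ xp o s ω / 2 := by
  have h1 := xp_dot h.ok hω s
  rw [lw, A0, sub_mulVec, smul_mulVec, one_mulVec, dotProduct_sub, dotProduct_smul, h1, h.hh, h.hz]
  simp only [sh, add_dotProduct, sub_dotProduct, dotProduct_sub, smul_dotProduct, smul_eq_mul,
    sv_dot, dotProduct_comm (sv s) o.p]
  ring

theorem RG {s : Cube n} (hs : n * χ ≤ 2 * R2 o s) : S ^ 2 ≤ Q * R2 o s := by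
  have := h.χQ; have := h.Q1
  rw [h.SS]
  nlinarith [Nat.cast_nonneg (α := ℝ) n]

/-- the cavity field to first order -/
theorem cav_res {ω : Vn n} (hω : Mj.Sph o ω) {s : Cube n} (hs : n * χ ≤ 2 * R2 o s) (i : Fin n) :
    |cav (lw o ω) i s - (x i + gm o χ s ω i)| ≤ 51 * Q ^ 3 * Qm o i i := by
  have hQ := h.Q1; have hS := h.S0; have hRG := h.RG hs
  have hq := Qii_mem h.ok i
  have hR2 : 0 < R2 o s := by
    by_contra hh
    nlinarith [mul_nonneg (by linarith : (0 : ℝ) ≤ Q) (neg_nonneg.2 (not_lt.1 hh)), sq_pos_of_pos hS]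
  obtain ⟨R, hRd⟩ : ∃ R, R = √(R2 o s) := ⟨_, rfl⟩
  obtain ⟨R', hRd'⟩ : ∃ R, R = √(R2 o (fp i s)) := ⟨_, rfl⟩
  have hR : 0 < R := hRd ▸ Real.sqrt_pos.2 hR2
  have hR' : 0 ≤ R' := hRd' ▸ Real.sqrt_nonneg _
  have eR : R ^ 2 = R2 o s := hRd ▸ Real.sq_sqrt hR2.le
  have eR' : R' ^ 2 = R2 o (fp i s) := hRd' ▸ Real.sq_sqrt (R2_nonneg _)
  have hσ := sv_sq s i
  have e1 : R ^ 2 - R' ^ 2 = 4 * Qm o i i - 4 * (sv s i * (Qm o *ᵥ sv s) i) := by
    rw [eR, eR', R2_Q, R2_Q, sv_fp]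
    simp only [mulVec_sub, mulVec_smul, sub_dotProduct, dotProduct_sub, smul_dotProduct,
      dotProduct_smul, smul_eq_mul, Q_single, dotProduct_single, Q_diag, mul_one, Pi.sub_apply,
      Pi.smul_apply]
    linear_combination (4 * Qm o i i) * hσ
  obtain ⟨δ, hδ⟩ : ∃ δ : Vn n, δ = (2 * sv s i) • (Qm o *ᵥ Pi.single i 1) + (R - R') • ω := ⟨_, rfl⟩
  have e2 : xp o (fp i s) ω = xp o s ω - δ := by
    rw [xp, xp, ← hRd, ← hRd', hδ, sh, sh, sv_fp, sub_right_comm (sv s), mulVec_sub (Qm o) (sv s - o.p),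
      mulVec_smul, sub_smul]
    abel
  have e3 : δ ⬝ᵥ δ = 4 * Qm o i i + (R - R') ^ 2 := by
    have h1 : Qm o *ᵥ Pi.single i 1 ⬝ᵥ ω = 0 := by rw [← dot_Q, hω.q, dotProduct_zero]
    simp only [hδ, add_dotProduct, dotProduct_add, smul_dotProduct, dotProduct_smul, smul_eq_mul, h1,
      dotProduct_comm ω, hω.one, Qe_dot h.ok]
    linear_combination (4 * Qm o i i) * hσ
  have e4 : cc o s (xp o s ω) * R = ω ⬝ᵥ A0 o *ᵥ xp o s ω := by
    rw [cc, P_xp h.ok hω, ← hRd, ← eR, dotProduct_smul, smul_eq_mul, dotProduct_comm]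
    field_simp
  have e5 : δ ⬝ᵥ A0 o *ᵥ xp o s ω = 2 * sv s i * yq o s ω i + (R - R') * (cc o s (xp o s ω) * R) := by
    rw [e4, hδ, add_dotProduct, smul_dotProduct, smul_dotProduct, Q_single, yq, smul_eq_mul, smul_eq_mul]
  have e6 : cav (lw o ω) i s - (x i + gm o χ s ω i) = sv s i * (δ ⬝ᵥ A0 o *ᵥ δ / 4 -
      cc o s (xp o s ω) * Qm o i i - cc o s (xp o s ω) * (R - R') ^ 2 / 4) := by
    have e7 : (Qm o *ᵥ sv s) i = zh o s i + o.p i := congrFun (zt_eq h.ok s) i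
    rw [cav, h.lw_eq hω, h.lw_eq hω, e2, sv_fp]
    simp only [gm, kp, ind, if_pos hs, mulVec_sub, sub_dotProduct, dotProduct_sub, dotProduct_smul,
      dotProduct_single, smul_eq_mul, symm_dot (A0_symm h.ok) (xp o s ω) δ,
      dotProduct_comm (A0 o *ᵥ xp o s ω) δ, e5, Pi.add_apply, Pi.neg_apply, Pi.smul_apply,
      Pi.sub_apply, smul_dotProduct]
    rw [e7] at e1 ⊢
    linear_combination (x i - χ⁻¹ * o.p i - yq o s ω i + cc o s (xp o s ω) * (zh o s i + o.p i)) * hσ -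
      (sv s i * cc o s (xp o s ω) / 4) * e1
  have b1 : |cc o s (xp o s ω)| ≤ 2 * Q ^ 2 := by
    have c1 : |ω ⬝ᵥ A0 o *ᵥ xp o s ω| ≤ 1 * (Q * (2 * S)) :=
      abs_dot_le zero_le_one (by positivity) (by rw [hω.one]; norm_num)
        (op2_le h.hA (by rw [xp_dot h.ok hω]; exact h.sh_le s))
    have c2 : S ≤ Q * R := by
      refine abs_le_of_sq_le_sq' ?_ (by positivity) |>.2
      rw [mul_pow, eR]
      nlinarith [mul_nonneg (mul_nonneg (by linarith : (0 : ℝ) ≤ Q) (by linarith : (0 : ℝ) ≤ Q - 1)) hR2.le]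
    rw [← e4, abs_mul, abs_of_pos hR] at c1
    refine le_of_mul_le_mul_right (c1.trans ?_) hR
    nlinarith
  have b2 : (R - R') ^ 2 ≤ 64 * Q * Qm o i i := by
    have c1 : (Qm o *ᵥ sv s) i ^ 2 ≤ Qm o i i * S ^ 2 :=
      (Q_comp h.ok _ i).trans (mul_le_mul_of_nonneg_left
        ((Q_le h.ok _).trans (by rw [sv_dot, h.SS])) hq.1)
    have c2 : 1 ≤ S ^ 2 := by
      rw [h.SS]; exact_mod_cast Fin.pos i
    have c3 : Qm o i i ^ 2 ≤ Qm o i i * S ^ 2 := by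
      rw [sq]; exact mul_le_mul_of_nonneg_left (hq.2.trans c2) hq.1
    have c4 : (R ^ 2 - R' ^ 2) ^ 2 ≤ 64 * (Qm o i i * S ^ 2) := by
      rw [e1]
      have : (sv s i * (Qm o *ᵥ sv s) i) ^ 2 = (Qm o *ᵥ sv s) i ^ 2 := by
        rw [mul_pow, sq (sv s i), hσ, one_mul]
      nlinarith [sq_nonneg (Qm o i i + sv s i * (Qm o *ᵥ sv s) i)]
    have c5 : (R - R') ^ 2 * R ^ 2 ≤ (R ^ 2 - R' ^ 2) ^ 2 := by
      rw [show (R ^ 2 - R' ^ 2) ^ 2 = (R - R') ^ 2 * (R + R') ^ 2 by ring]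
      gcongr; linarith
    have c6 : Qm o i i * S ^ 2 ≤ Qm o i i * (Q * R ^ 2) := by rw [eR]; gcongr; exact hq.1
    refine le_of_mul_le_mul_right (c5.trans (c4.trans ?_)) (pow_pos hR 2)
    linarith
  have b3 : |δ ⬝ᵥ A0 o *ᵥ δ| ≤ Q * (δ ⬝ᵥ δ) := by
    refine abs_le_of_sq_le_sq ((cs _ _).trans ?_) (mul_nonneg (by linarith) (dsq δ))
    refine (mul_le_mul_of_nonneg_left (h.hA δ) (dsq δ)).trans (le_of_eq (by ring))
  have b4 : |sv s i| = 1 := by
    rw [← sq_eq_sq₀ (abs_nonneg _) zero_le_one, sq_abs, sq, hσ, one_pow]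
  rw [e6, abs_mul, b4, one_mul]
  rw [e3] at b3
  have b5 : |cc o s (xp o s ω) * Qm o i i| ≤ 2 * Q ^ 2 * Qm o i i := by
    rw [abs_mul, abs_of_nonneg hq.1]; exact mul_le_mul_of_nonneg_right b1 hq.1
  have b6 : |cc o s (xp o s ω) * (R - R') ^ 2| ≤ 2 * Q ^ 2 * (64 * Q * Qm o i i) := by
    rw [abs_mul, abs_of_nonneg (sq_nonneg (R - R'))]
    exact mul_le_mul b1 b2 (sq_nonneg _) (by positivity)
  have b7 : Q * (R - R') ^ 2 ≤ Q * (64 * Q * Qm o i i) := by gcongr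
  have b8 : Q * Qm o i i ≤ Q ^ 2 * Qm o i i := mul_le_mul_of_nonneg_right (by nlinarith) hq.1
  have b9 : Q ^ 2 * Qm o i i ≤ Q ^ 3 * Qm o i i := mul_le_mul_of_nonneg_right (by nlinarith) hq.1
  obtain ⟨c1, c2⟩ := abs_le.1 b3
  obtain ⟨c3, c4⟩ := abs_le.1 b5
  obtain ⟨c5, c6⟩ := abs_le.1 b6
  rw [abs_le]
  constructor <;> linarith

end Hy

end Crest.Agent.T157.M4
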