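import Crest.Agent.T157.O4mC_53

set_option autoImplicit false
set_option linter.unusedSectionVars false

/-!
Row 157, A2 section 4 (helper53): pointwise bounds for (M4).
-/

noncomputable section

namespace Crest.Agent.T157.M4

open MeasureTheory Matrix Crest.Agent.Lib.OrthPoinc Filter Topology Set Real
open Crest.Agent.T157.Oc Crest.Agent.T157.E Crest.Agent.T157.SL Crest.Agent.T157.Ks
open Crest.Agent.T157.Od Crest.Agent.T157.Oo Crest.Agent.T157.Mj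

variable {n k : ℕ} {o : Oo.Orb n k} {χ : ℝ} {x : Vn n} {Q A S : ℝ}

theorem abs_le_of_sq {a b : ℝ} (hb : 0 ≤ b) (h : a ^ 2 ≤ b ^ 2) : |a| ≤ b := abs_le_of_sq_le_sq h hb

theorem sq_le_of_abs {a b : ℝ} (h : |a| ≤ b) : a ^ 2 ≤ b ^ 2 := by
  rw [← sq_abs]; exact pow_le_pow_left₀ (abs_nonneg _) h 2

theorem Q_gm (h : o.Ok) (s : Cube n) (ω : Vn n) : Qm o *ᵥ gm o χ s ω = gm o χ s ω := by
  simp only [gm, yq, zh, mulVec_add, mulVec_neg, mulVec_smul, Q_Q h]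

/-- `D v` -/
def Dv (p v : Vn n) : Vn n := fun i => (1 - p i ^ 2) * v i

/-- the right-hand side of the Stein identity -/
def St (o : Oo.Orb n k) (u v : Vn n) (φ : ℝ) (s : Cube n) (ω : Vn n) : ℝ :=
  ∑ i, v i * ((Tn o s ω i - o.p i) * φ + u i * (1 - Tn o s ω i ^ 2))

namespace Hy

variable (h : Hy o x χ Q A S)
include h

theorem DQ (i : Fin n) : S ^ 2 * ((1 - o.p i ^ 2) * Qm o i i) ≤ 4 * A ^ 2 := by
  have h1 := mul_le_mul_of_nonneg_left (h.Qii i) (sub_nonneg.2 (h.p1 i))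
  have h2 := mul_le_mul_of_nonneg_left (sech_w (x i)) (sq_nonneg A)
  rw [← h.px] at h2
  rw [mul_pow] at h1
  linarith

theorem gm_comp {s : Cube n} {ω : Vn n} {Γ : ℝ} (hΓ : gm o χ s ω ⬝ᵥ gm o χ s ω ≤ Γ ^ 2) (i : Fin n) :
    gm o χ s ω i ^ 2 ≤ Qm o i i * Γ ^ 2 := by
  have := Q_comp h.ok (gm o χ s ω) i
  rw [Q_gm h.ok] at this
  exact this.trans (mul_le_mul_of_nonneg_left hΓ (Qii_mem h.ok i).1)

theorem rs_le {ω : Vn n} (hω : Mj.Sph o ω) {s : Cube n} {Γ0 Γ : ℝ} (h0 : 0 ≤ Γ0)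
    (hΓ : gm o χ s ω ⬝ᵥ gm o χ s ω ≤ Γ0 ^ 2) (h1 : Γ0 + 51 * Q ^ 3 ≤ Γ)
    (h2 : ¬ n * χ ≤ 2 * R2 o s → S ≤ 2 * A * Γ) :
    S ^ 2 * (rs o χ s ω ⬝ᵥ rs o χ s ω) ≤ (44 * A ^ 2 * Γ ^ 2) ^ 2 := by
  have hA := h.A1; have hS := h.S0
  have hQ3 : 1 ≤ Q ^ 3 := one_le_pow₀ h.Q1
  have hΓ1 : 1 ≤ Γ := by linarith
  have hA2 : A ^ 2 ≤ A ^ 4 := pow_le_pow_right₀ hA (by norm_num)
  have hA3 : A ^ 2 * Γ ^ 4 ≤ A ^ 4 * Γ ^ 4 := by gcongr
  have hA4 : 0 ≤ A ^ 4 * Γ ^ 4 := by positivity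
  by_cases hc : S ≤ 2 * A * Γ
  · have a1 : rs o χ s ω ⬝ᵥ rs o χ s ω ≤ ∑ i, (8 + 2 * (gm o χ s ω i * gm o χ s ω i)) := by
      refine Finset.sum_le_sum fun i _ => ?_
      have b1 := abs_lt.1 (abs_tanh_lt_one (cav (lw o ω) i s))
      have b2 := abs_lt.1 (abs_tanh_lt_one (x i))
      rw [← h.px] at b2
      have b3 : (Tn o s ω i - o.p i) ^ 2 ≤ 2 ^ 2 :=
        sq_le_of_abs (abs_le.2 ⟨by rw [Tn]; linarith, by rw [Tn]; linarith⟩)
      have b4 : ((1 - o.p i ^ 2) * gm o χ s ω i) ^ 2 ≤ gm o χ s ω i ^ 2 := by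
        rw [mul_pow]
        exact mul_le_of_le_one_left (sq_nonneg _)
          (pow_le_one₀ (sub_nonneg.2 (h.p1 i)) (sub_le_self _ (sq_nonneg _)))
      rw [rs]
      nlinarith [sq_nonneg (Tn o s ω i - o.p i + (1 - o.p i ^ 2) * gm o χ s ω i)]
    rw [Finset.sum_add_distrib, ← Finset.mul_sum, Finset.sum_const, Finset.card_univ,
      Fintype.card_fin, nsmul_eq_mul, ← h.SS] at a1
    have a2 : Γ0 ^ 2 ≤ Γ ^ 2 := pow_le_pow_left₀ h0 (by linarith) 2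
    have a3 : S ^ 2 ≤ (2 * A * Γ) ^ 2 := pow_le_pow_left₀ hS.le hc 2
    have a4 : rs o χ s ω ⬝ᵥ rs o χ s ω ≤ (2 * A * Γ) ^ 2 * 8 + 2 * Γ ^ 2 := by
      have : ∑ i, gm o χ s ω i * gm o χ s ω i ≤ Γ ^ 2 := hΓ.trans a2
      linarith
    refine (mul_le_mul a3 a4 (dsq _) (sq_nonneg _)).trans ?_
    linarith
  · have hs : n * χ ≤ 2 * R2 o s := by_contra fun hh => hc (h2 hh)
    have a1 : S ^ 2 * (rs o χ s ω ⬝ᵥ rs o χ s ω) ≤ ∑ i, 960 * (A ^ 2 * Γ ^ 4) * Qm o i i := by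
      rw [dotProduct, Finset.mul_sum]
      refine Finset.sum_le_sum fun i _ => ?_
      have hq := Qii_mem h.ok i
      have hD := sub_nonneg.2 (h.p1 i)
      have hD1 : 1 - o.p i ^ 2 ≤ 1 := sub_le_self _ (sq_nonneg _)
      obtain ⟨q, hq0, hqq⟩ : ∃ q : ℝ, 0 ≤ q ∧ Qm o i i = q ^ 2 :=
        ⟨√(Qm o i i), Real.sqrt_nonneg _, (Real.sq_sqrt hq.1).symm⟩
      have b0 := h.cav_res hω hs i
      have b1 := h.gm_comp hΓ i
      have b2 := h.Qii i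
      have b3 := h.DQ i
      rw [hqq] at hq b0 b1 b2 b3 ⊢
      have hq1 : q ≤ 1 := (abs_le.1 (abs_le_of_sq zero_le_one (by simpa using hq.2))).2
      have b4 : |gm o χ s ω i| ≤ q * Γ0 := abs_le_of_sq (by positivity) (by rwa [mul_pow])
      have b5 : S * q ≤ A * (1 + |x i|) :=
        (abs_le.1 (abs_le_of_sq (by positivity) (by rwa [mul_pow]))).2
      obtain ⟨b, hb⟩ : ∃ b, b = cav (lw o ω) i s - x i := ⟨_, rfl⟩
      have e1 : cav (lw o ω) i s = x i + b := by rw [hb]; ring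
      have b6 : |b - gm o χ s ω i| ≤ 51 * Q ^ 3 * q ^ 2 := by
        rw [hb, sub_sub]; exact b0
      have b7 : |b| ≤ q * Γ := by
        have c1 := abs_add_le (b - gm o χ s ω i) (gm o χ s ω i)
        have c2 : 51 * Q ^ 3 * q ^ 2 ≤ 51 * Q ^ 3 * q := by
          refine mul_le_mul_of_nonneg_left ?_ (by positivity)
          rw [sq]; exact mul_le_of_le_one_left hq0 hq1
        have c3 := mul_le_mul_of_nonneg_left h1 hq0
        rw [sub_add_cancel] at c1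
        linarith
      have b8 : |b| ≤ (1 + |x i|) / 2 := by
        have c1 : S * (q * Γ) ≤ A * (1 + |x i|) * Γ := by
          rw [← mul_assoc]; gcongr
        have c2 : (1 + |x i|) * (2 * A * Γ) ≤ (1 + |x i|) * S :=
          mul_le_mul_of_nonneg_left (not_le.1 hc).le (by positivity)
        refine b7.trans (le_of_mul_le_mul_left ?_ hS)
        linarith
      have b9 := tanh_res b8
      rw [← h.px] at b9
      have c1 : b ^ 4 ≤ (q * Γ) ^ 4 := by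
        rw [← Even.pow_abs (by decide) b]; exact pow_le_pow_left₀ (abs_nonneg _) b7 4
      have c2 : |b - gm o χ s ω i| ≤ Γ ^ 2 * q ^ 2 :=
        b6.trans (mul_le_mul_of_nonneg_right (by nlinarith) (sq_nonneg q))
      have c3 : ((1 - o.p i ^ 2) * (b - gm o χ s ω i)) ^ 2 ≤ (1 - o.p i ^ 2) * (q * Γ) ^ 4 := by
        rw [mul_pow]
        refine mul_le_mul (by rw [sq]; exact mul_le_of_le_one_left hD hD1)
          ((sq_le_of_abs c2).trans (le_of_eq (by ring))) (sq_nonneg _) hD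
      have c4 : (1 - o.p i ^ 2) * b ^ 4 ≤ (1 - o.p i ^ 2) * (q * Γ) ^ 4 := by gcongr
      have c5 : rs o χ s ω i * rs o χ s ω i ≤ 240 * ((1 - o.p i ^ 2) * (q * Γ) ^ 4) := by
        rw [rs, Tn, e1]
        nlinarith [sq_nonneg (tanh (x i + b) - o.p i - (1 - o.p i ^ 2) * b -
          (1 - o.p i ^ 2) * (b - gm o χ s ω i))]
      have c6 := mul_le_mul_of_nonneg_left b3 (by positivity : 0 ≤ 240 * q ^ 2 * Γ ^ 4)
      refine (mul_le_mul_of_nonneg_left c5 (sq_nonneg S)).trans ?_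
      linarith
    rw [← Finset.mul_sum, sum_Qii h.ok] at a1
    have a2 : 960 * (A ^ 2 * Γ ^ 4) * ((n : ℝ) - k) ≤ 960 * (A ^ 2 * Γ ^ 4) * 2 :=
      mul_le_mul_of_nonneg_left (by linarith [h.nk]) (by positivity)
    linarith

theorem St_le {ω : Vn n} (hω : Mj.Sph o ω) {s : Cube n} {Γ0 Γ : ℝ} (h0 : 0 ≤ Γ0)
    (hΓ : gm o χ s ω ⬝ᵥ gm o χ s ω ≤ Γ0 ^ 2) (h1 : Γ0 + 51 * Q ^ 3 ≤ Γ)
    (h2 : ¬ n * χ ≤ 2 * R2 o s → S ≤ 2 * A * Γ) {u v : Vn n} (hu : u ⬝ᵥ u ≤ 1) (hv : v ⬝ᵥ v ≤ 1)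
    (φ : ℝ) : S * |Dv o.p v ⬝ᵥ u + (Dv o.p v ⬝ᵥ gm o χ s ω) * φ - St o u v φ s ω| ≤
      44 * A ^ 2 * Γ ^ 2 * |φ| + 92 * A ^ 2 * Γ ^ 2 := by
  have hA := h.A1; have hS := h.S0
  have hQ3 : 1 ≤ Q ^ 3 := one_le_pow₀ h.Q1
  have hΓ1 : 1 ≤ Γ := by linarith
  have hr := h.rs_le hω h0 hΓ h1 h2
  have e : Dv o.p v ⬝ᵥ u + (Dv o.p v ⬝ᵥ gm o χ s ω) * φ - St o u v φ s ω =
      ∑ i, v i * u i * (Tn o s ω i ^ 2 - o.p i ^ 2) - (v ⬝ᵥ rs o χ s ω) * φ := by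
    simp only [St, dotProduct, Dv, rs, Finset.sum_mul, ← Finset.sum_add_distrib,
      ← Finset.sum_sub_distrib]
    exact Finset.sum_congr rfl fun i _ => by ring
  have a1 : |v ⬝ᵥ S • rs o χ s ω| ≤ 1 * (44 * A ^ 2 * Γ ^ 2) :=
    abs_dot_le zero_le_one (by positivity) (by rwa [one_pow])
      (by rwa [smul_dotProduct, dotProduct_smul, smul_eq_mul, smul_eq_mul, ← mul_assoc, ← sq])
  rw [dotProduct_smul, smul_eq_mul, abs_mul, abs_of_pos hS, one_mul] at a1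
  have a2 : ∀ i, S * |Tn o s ω i ^ 2 - o.p i ^ 2| ≤ 92 * A ^ 2 * Γ ^ 2 := fun i => by
    have hD := sub_nonneg.2 (h.p1 i)
    have hD1 : 1 - o.p i ^ 2 ≤ 1 := sub_le_self _ (sq_nonneg _)
    have b1 : |S * rs o χ s ω i| ≤ 44 * A ^ 2 * Γ ^ 2 := by
      refine abs_le_of_sq (by positivity) (le_trans ?_ hr)
      rw [mul_pow, sq (rs o χ s ω i)]
      exact mul_le_mul_of_nonneg_left (Finset.single_le_sum
        (f := fun j => rs o χ s ω j * rs o χ s ω j) (fun _ _ => mul_self_nonneg _)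
        (Finset.mem_univ i)) (sq_nonneg S)
    have b2 : |S * ((1 - o.p i ^ 2) * gm o χ s ω i)| ≤ 2 * A * Γ := by
      refine abs_le_of_sq (by positivity) ?_
      have c1 : Γ0 ^ 2 ≤ Γ ^ 2 := pow_le_pow_left₀ h0 (by linarith) 2
      have c2 := (h.gm_comp hΓ i).trans (mul_le_mul_of_nonneg_left c1 (Qii_mem h.ok i).1)
      have c3 : ((1 - o.p i ^ 2) * gm o χ s ω i) ^ 2 ≤ (1 - o.p i ^ 2) * (Qm o i i * Γ ^ 2) := by
        rw [mul_pow]
        exact mul_le_mul (by rw [sq]; exact mul_le_of_le_one_left hD hD1) c2 (sq_nonneg _) hD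
      have c4 := mul_le_mul_of_nonneg_left c3 (sq_nonneg S)
      have c5 := mul_le_mul_of_nonneg_left (h.DQ i) (sq_nonneg Γ)
      rw [mul_pow]
      linarith
    have b3 : |Tn o s ω i + o.p i| ≤ 2 := by
      have c1 := abs_tanh_lt_one (cav (lw o ω) i s)
      have c2 := abs_tanh_lt_one (x i)
      rw [← h.px] at c2
      exact (abs_add_le _ _).trans (by rw [Tn]; linarith)
    have b4 : |S * (Tn o s ω i - o.p i)| ≤ 44 * A ^ 2 * Γ ^ 2 + 2 * A * Γ := by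
      rw [show S * (Tn o s ω i - o.p i) = S * rs o χ s ω i + S * ((1 - o.p i ^ 2) * gm o χ s ω i) by
        rw [rs]; ring]
      exact (abs_add_le _ _).trans (add_le_add b1 b2)
    have b5 : A * Γ ≤ A ^ 2 * Γ ^ 2 := by
      rw [← mul_pow, sq]
      exact le_mul_of_one_le_left (by positivity) (one_le_mul_of_one_le_of_one_le hA hΓ1)
    rw [← abs_of_pos hS, ← abs_mul, show S * (Tn o s ω i ^ 2 - o.p i ^ 2) =
      (Tn o s ω i + o.p i) * (S * (Tn o s ω i - o.p i)) by ring, abs_mul]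
    refine (mul_le_mul b3 b4 (abs_nonneg _) zero_le_two).trans ?_
    linarith
  have a3 : S * |∑ i, v i * u i * (Tn o s ω i ^ 2 - o.p i ^ 2)| ≤ 92 * A ^ 2 * Γ ^ 2 := by
    refine (mul_le_mul_of_nonneg_left (Finset.abs_sum_le_sum_abs _ _) hS.le).trans ?_
    rw [Finset.mul_sum]
    refine (Finset.sum_le_sum (g := fun i => (v i * v i + u i * u i) / 2 * (92 * A ^ 2 * Γ ^ 2))
      fun i _ => ?_).trans ?_
    · rw [abs_mul, mul_left_comm]
      refine mul_le_mul (abs_le.2 ⟨?_, ?_⟩) (a2 i) (by positivity)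
        (by nlinarith [mul_self_nonneg (v i), mul_self_nonneg (u i)])
      · nlinarith [sq_nonneg (v i + u i)]
      · nlinarith [sq_nonneg (v i - u i)]
    · rw [← Finset.sum_mul, ← Finset.sum_div, Finset.sum_add_distrib]
      refine mul_le_of_le_one_left (by positivity) ?_
      have : v ⬝ᵥ v + u ⬝ᵥ u ≤ 2 := by linarith
      rw [dotProduct, dotProduct] at this
      linarith
  rw [e]
  refine (mul_le_mul_of_nonneg_left (abs_sub _ _) hS.le).trans ?_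
  rw [mul_add, abs_mul, ← mul_assoc]
  have := mul_le_mul_of_nonneg_right a1 (abs_nonneg φ)
  linarith

end Hy

end Crest.Agent.T157.M4
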