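import Crest.Agent.T157.O4mD_53

set_option autoImplicit false
set_option linter.unusedSectionVars false

/-!
Row 157, A2 section 4 (helper53): pointwise bounds for (M4), second part, and the link with the
sphere.
-/

noncomputable section

namespace Crest.Agent.T157.M4

open MeasureTheory Matrix Crest.Agent.Lib.OrthPoinc Filter Topology Set Real
open Crest.Agent.T157.Oc Crest.Agent.T157.E Crest.Agent.T157.SL Crest.Agent.T157.Ks
open Crest.Agent.T157.Od Crest.Agent.T157.Oo Crest.Agent.T157.Mj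

variable {n k : ℕ}

theorem tri {u v : Vn n} {a b : ℝ} (ha : 0 ≤ a) (hb : 0 ≤ b) (hu : u ⬝ᵥ u ≤ a ^ 2)
    (hv : v ⬝ᵥ v ≤ b ^ 2) : (u + v) ⬝ᵥ (u + v) ≤ (a + b) ^ 2 := by
  have := (abs_le.1 (abs_dot_le ha hb hu hv)).2
  simp only [add_dotProduct, dotProduct_add, dotProduct_comm v u]
  linarith

theorem smul_le {u : Vn n} {c a : ℝ} (hu : u ⬝ᵥ u ≤ a ^ 2) : (c • u) ⬝ᵥ (c • u) ≤ (|c| * a) ^ 2 := by
  rw [smul_dotProduct, dotProduct_smul, smul_eq_mul, smul_eq_mul, ← mul_assoc, ← sq, mul_pow, sq_abs]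
  exact mul_le_mul_of_nonneg_left hu (sq_nonneg c)

variable (o : Oo.Orb n k) (χ : ℝ)

def zn (s : Cube n) : ℝ := √(zh o s ⬝ᵥ zh o s)
def yn (s : Cube n) (ω : Vn n) : ℝ := √(yq o s ω ⬝ᵥ yq o s ω)
/-- `c - k/R²`, truncated -/
def k0 (s : Cube n) (ω : Vn n) : ℝ := ind o χ s * (cc o s (xp o s ω) - k / R2 o s)
/-- the compression of `A` -/
def Bm : Matrix (Fin k) (Fin k) ℝ := o.Eᵀ * A0 o * o.E
/-- the exact coefficient of `p pᵀ` -/
def bs (n : ℕ) (χ T2 : ℝ) : ℝ := 2 * (1 / (n * χ ^ 2) - 1 / T2)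
def Ps (T1 T2 : ℝ) (s : Cube n) : ℝ := ind o χ s * ((R2 o s - T1) / T2 + (k / R2 o s - χ⁻¹)) -
  bs n χ T2 * (o.p ⬝ᵥ zh o s) - (n * χ - T1) / T2
def bad (v : Vn n) (s : Cube n) (ω : Vn n) : ℝ :=
  (1 - ind o χ s) * ((cc o s (xp o s ω) - χ⁻¹) * (Pm o *ᵥ v ⬝ᵥ sv s))

/-- all deterministic hypotheses of (M4) -/
structure Hz (x : Vn n) (Gr : Matrix (Fin k) (Fin k) ℝ) (χ Q A S g Λ : ℝ) : Prop
    extends Hy o x χ Q A S where
  k4 : 4 ≤ k
  Qn : Q ≤ S ^ 2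
  symmG : Grᵀ = Gr
  inv : Bm o * Gr = 1
  hG : Op2 Gr (g ^ 2)
  co : ∀ v, v ⬝ᵥ v ≤ Q * (v ⬝ᵥ Gr *ᵥ v)
  g1 : 1 ≤ g
  L1 : 1 ≤ Λ
  tr : |n * χ - Gr.trace| ≤ Λ * S

variable {o χ} {x : Vn n} {Gr : Matrix (Fin k) (Fin k) ℝ} {Q A S g Λ : ℝ}

theorem zn_nn (s : Cube n) : 0 ≤ zn o s := Real.sqrt_nonneg _
theorem yn_nn (s : Cube n) (ω : Vn n) : 0 ≤ yn o s ω := Real.sqrt_nonneg _
theorem zn_sq (s : Cube n) : zn o s ^ 2 = zh o s ⬝ᵥ zh o s := Real.sq_sqrt (dsq _)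
theorem yn_sq (s : Cube n) (ω : Vn n) : yn o s ω ^ 2 = yq o s ω ⬝ᵥ yq o s ω := Real.sq_sqrt (dsq _)

namespace Hy

variable (h : Hy o x χ Q A S)
include h

theorem zn_le (s : Cube n) : zn o s ≤ 2 * S :=
  (abs_le.1 (abs_le_of_sq (by linarith [h.S0]) ((zn_sq s).trans_le ((Q_le h.ok _).trans (h.sh_le s))))).2

theorem pz_le (s : Cube n) : |o.p ⬝ᵥ zh o s| ≤ S * zn o s :=
  abs_dot_le h.S0.le (zn_nn s) h.pp (zn_sq s).ge

theorem R2_w (s : Cube n) : R2 o s = n * χ - (2 * (o.p ⬝ᵥ zh o s) + zn o s ^ 2) := by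
  rw [R2_Q, ← QQ_dot h.ok, zt_eq h.ok, h.nχ, zn_sq]
  simp only [add_dotProduct, dotProduct_add, dotProduct_comm (zh o s) o.p]
  ring

theorem w_le (s : Cube n) : |2 * (o.p ⬝ᵥ zh o s) + zn o s ^ 2| ≤ 4 * (S * zn o s) := by
  have h1 := abs_le.1 (h.pz_le s)
  have h2 := mul_le_mul_of_nonneg_right (h.zn_le s) (zn_nn (o := o) s)
  rw [abs_le]
  constructor <;> nlinarith [sq_nonneg (zn o s)]

theorem nχQ : 2 * S ^ 2 ≤ Q * (n * χ) := by
  have := mul_le_mul_of_nonneg_left h.χQ (Nat.cast_nonneg (α := ℝ) n)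
  rw [h.SS]; linarith

theorem notG {s : Cube n} (hs : ¬ n * χ ≤ 2 * R2 o s) : S ≤ 4 * Q * zn o s := by
  have h1 := (abs_le.1 (h.w_le s)).2
  have h2 : n * χ ≤ 8 * (S * zn o s) := by rw [h.R2_w] at hs; linarith
  have h3 := mul_le_mul_of_nonneg_left h2 (by linarith [h.Q1] : 0 ≤ Q)
  refine le_of_mul_le_mul_left ?_ h.S0
  linarith [h.nχQ]

theorem χ1 (hn : 0 < (n : ℝ)) : χ ≤ 1 := by
  refine le_of_mul_le_mul_left ?_ hn
  linarith [h.nχ, dsq o.p]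

theorem kn : (k : ℝ) ≤ n := by
  have := sum_Qii h.ok
  have h2 : 0 ≤ ∑ i, Qm o i i := Finset.sum_nonneg fun i _ => (Qii_mem h.ok i).1
  linarith

theorem n0 : 0 < (n : ℝ) := h.SS ▸ pow_pos h.S0 2

theorem S1 : 1 ≤ S := by
  have h1 : (1 : ℝ) ≤ n := by exact_mod_cast Nat.cast_pos.1 h.n0
  rw [← h.SS] at h1
  exact (abs_le.1 (abs_le_of_sq h.S0.le (by rwa [one_pow]))).2

theorem kχ : |(k : ℝ) * χ - n * χ| ≤ 2 := by
  have := h.χ0; have := h.χ1 h.n0; have := h.kn; have := h.nk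
  rw [abs_le]; constructor <;> nlinarith

theorem Rχ {s : Cube n} (hs : n * χ ≤ 2 * R2 o s) : 0 < R2 o s ∧ 2 * S ^ 2 ≤ Q ^ 2 * (R2 o s * χ) := by
  have h1 := h.RG hs
  have h2 : 0 < R2 o s := by linarith [mul_pos h.n0 h.χ0]
  refine ⟨h2, ?_⟩
  have := mul_le_mul h1 h.χQ zero_le_two (by linarith [pow_pos h.S0 2])
  linarith

theorem χi : |χ⁻¹| ≤ Q / 2 := by
  rw [abs_of_pos (inv_pos.2 h.χ0), inv_le_iff_one_le_mul₀ h.χ0]; linarith [h.χQ]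

theorem kp_le (s : Cube n) (ω : Vn n) :
    S * |kp o χ s ω| ≤ |S * k0 o χ s ω| + Q ^ 2 * (1 + 2 * zn o s) := by
  have hz := zn_nn (o := o) s
  have hS := h.S0
  rw [kp, k0, ind]
  split_ifs with hs
  · obtain ⟨h1, h2⟩ := h.Rχ hs
    have hχ := h.χ0
    have e : S * (k / R2 o s - χ⁻¹) = S * (k * χ - R2 o s) / (R2 o s * χ) := by field_simp
    have h3 : |S * (k / R2 o s - χ⁻¹)| ≤ Q ^ 2 * (1 + 2 * zn o s) := by
      rw [e, abs_div, abs_of_pos (mul_pos h1 hχ), div_le_iff₀ (mul_pos h1 hχ), abs_mul, abs_of_pos hS]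
      have c1 : |k * χ - R2 o s| ≤ 2 + 4 * (S * zn o s) := by
        rw [h.R2_w, ← sub_add]; exact (abs_add_le _ _).trans (add_le_add h.kχ (h.w_le s))
      have c2 := mul_le_mul_of_nonneg_left c1 hS.le
      have c3 := mul_le_mul_of_nonneg_right h2 (by positivity : 0 ≤ 1 + 2 * zn o s)
      have c4 : S ≤ S ^ 2 := by rw [sq]; exact le_mul_of_one_le_left hS.le h.S1
      linarith
    rw [← abs_of_pos hS, ← abs_mul, abs_of_pos hS, show S * (1 * (cc o s (xp o s ω) - χ⁻¹)) =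
      S * (1 * (cc o s (xp o s ω) - k / R2 o s)) + S * (k / R2 o s - χ⁻¹) by ring]
    exact (abs_add_le _ _).trans (add_le_add le_rfl h3)
  · simp only [zero_mul, abs_zero, mul_zero, zero_add]; positivity

theorem gm_le (s : Cube n) (ω : Vn n) : gm o χ s ω ⬝ᵥ gm o χ s ω ≤
    (yn o s ω + |kp o χ s ω| * S + |χ⁻¹| * zn o s) ^ 2 := by
  have := h.S0; have := yn_nn (o := o) s ω; have := zn_nn (o := o) s
  refine tri (by positivity) (by positivity) (tri (by positivity) (by positivity) ?_ (smul_le ?_))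
    (smul_le (zn_sq s).ge)
  · rw [neg_dotProduct_neg, yn_sq]
  · exact (Q_le h.ok _).trans (by rw [sv_dot, h.SS])

theorem bad_le {ω : Vn n} (hω : Mj.Sph o ω) (s : Cube n) {v : Vn n} (hv : v ⬝ᵥ v ≤ 1) :
    S * |bad o χ v s ω| ≤ 48 * Q ^ 3 * zn o s ^ 2 := by
  have hS := h.S0; have hQ := h.Q1
  rw [bad, ind]
  split_ifs with hs
  · simp only [sub_self, zero_mul, abs_zero, mul_zero]; positivity
  have a1 : (Pm o *ᵥ v ⬝ᵥ sv s) ^ 2 ≤ R2 o s := by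
    have e : Pm o *ᵥ sv s ⬝ᵥ Pm o *ᵥ sv s = R2 o s := by rw [dot_P, P_P h.ok, R2_eq]
    rw [← dot_P, ← e]
    exact (cs _ _).trans (mul_le_of_le_one_left (dsq _) hv)
  have a2 : R2 o s ≤ S ^ 2 := by
    rw [R2_Q, ← QQ_dot h.ok, h.SS]; linarith [dsq (Qm o *ᵥ sv s)]
  have a3 : |χ⁻¹ * (Pm o *ᵥ v ⬝ᵥ sv s)| ≤ Q / 2 * S := by
    rw [abs_mul]
    exact mul_le_mul h.χi (abs_le_of_sq hS.le (a1.trans a2)) (abs_nonneg _) (by positivity)
  have a4 : |cc o s (xp o s ω) * (Pm o *ᵥ v ⬝ᵥ sv s)| ≤ Q * (2 * S) := by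
    refine abs_le_of_sq (by positivity) ?_
    rcases (R2_nonneg (o := o) s).eq_or_lt with h0 | h0
    · rw [cc, ← h0, div_zero, zero_mul, zero_pow two_ne_zero]; positivity
    have e : Pm o *ᵥ xp o s ω ⬝ᵥ Pm o *ᵥ xp o s ω = R2 o s := by
      rw [P_xp h.ok hω, smul_dotProduct, dotProduct_smul, hω.one, smul_eq_mul, smul_eq_mul, mul_one,
        Real.mul_self_sqrt h0.le]
    have c1 := cs (A0 o *ᵥ xp o s ω) (Pm o *ᵥ xp o s ω)
    have c2 := op2_le h.hA ((xp_dot h.ok hω s).trans_le (h.sh_le s))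
    rw [e] at c1
    rw [cc, mul_pow, div_pow, div_mul_eq_mul_div, div_le_iff₀ (pow_pos h0 2)]
    refine (mul_le_mul (c1.trans (mul_le_mul_of_nonneg_right c2 h0.le)) a1 (sq_nonneg _)
      (by positivity)).trans (le_of_eq (by ring))
  have a5 : S ^ 2 ≤ (4 * Q * zn o s) ^ 2 := pow_le_pow_left₀ hS.le (h.notG hs) 2
  have a6 := mul_le_mul_of_nonneg_left a5 (by linarith : 0 ≤ Q)
  have a7 := mul_le_mul_of_nonneg_left ((abs_sub _ _).trans (add_le_add a4 a3)) hS.le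
  rw [sub_zero, one_mul, sub_mul]
  have : 0 ≤ Q * S ^ 2 := by positivity
  linarith

end Hy

namespace Hz

variable (h : Hz o x Gr χ Q A S g Λ)
include h

theorem T2_ge : S ^ 2 ≤ 2 * Q ^ 2 * (Gr * Gr).trace := by
  have h1 : ∀ i, 1 ≤ Q ^ 2 * (Gr * Gr) i i := fun i => by
    have a1 := h.co (Pi.single i 1)
    have a2 := cs (Pi.single i 1) (Gr *ᵥ Pi.single i 1)
    have a3 : Gr *ᵥ Pi.single i 1 ⬝ᵥ Gr *ᵥ Pi.single i 1 = (Gr * Gr) i i := by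
      rw [← symm_dot h.symmG, mulVec_mulVec]; simp
    have a4 : (Pi.single i 1 : Fin k → ℝ) ⬝ᵥ Pi.single i 1 = 1 := by simp
    rw [a4] at a1 a2
    rw [a3, one_mul] at a2
    have a5 := pow_le_pow_left₀ zero_le_one a1 2
    rw [one_pow, mul_pow] at a5
    exact a5.trans (mul_le_mul_of_nonneg_left a2 (sq_nonneg Q))
  have h2 := Finset.sum_le_sum fun i (_ : i ∈ Finset.univ) => h1 i
  rw [← Finset.mul_sum, Finset.sum_const, Finset.card_univ, Fintype.card_fin, nsmul_eq_mul,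
    mul_one] at h2
  have h3 : (4 : ℝ) ≤ k := by exact_mod_cast h.k4
  have h4 : (Gr * Gr).trace = ∑ i, (Gr * Gr) i i := rfl
  rw [h4, h.SS]
  linarith [h.nk]

theorem T2_pos : 0 < (Gr * Gr).trace := by
  have := h.T2_ge.trans_lt' (pow_pos h.S0 2)
  exact (pos_iff_pos_of_mul_pos this).1 (by have := h.Q1; positivity)

theorem T2i : S ^ 2 * ((Gr * Gr).trace)⁻¹ ≤ 2 * Q ^ 2 := by
  rw [← div_eq_mul_inv, div_le_iff₀ h.T2_pos]; exact h.T2_ge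

theorem Ps_le (s : Cube n) :
    S ^ 2 * |Ps o χ Gr.trace (Gr * Gr).trace s| ≤ 28 * Λ * Q ^ 3 * (1 + zn o s) ^ 2 := by
  have hz := zn_nn (o := o) s
  have hS := h.S0; have hQ := h.Q1; have hL := h.L1; have hχ := h.χ0; have hn := h.n0
  have hT := h.T2_pos
  have hTi := h.T2i
  have hp := h.pz_le s
  have hQ3 : Q ^ 2 ≤ Q ^ 3 := pow_le_pow_right₀ hQ (by norm_num)
  have hL3 : Q ^ 3 ≤ Λ * Q ^ 3 := le_mul_of_one_le_left (by positivity) hL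
  rw [← abs_of_pos (pow_pos hS 2), ← abs_mul, Ps, ind, bs]
  split_ifs with hs
  · obtain ⟨h1, h2⟩ := h.Rχ hs
    have hR := h.R2_w s
    have hw := h.w_le s
    have hk := h.kχ
    have hN := h.nχQ
    generalize o.p ⬝ᵥ zh o s = pz at *
    generalize zn o s = z at *
    generalize R2 o s = R at *
    generalize (Gr * Gr).trace = T at *
    have e : S ^ 2 * (1 * ((R - Gr.trace) / T + (k / R - χ⁻¹)) - 2 * (1 / (n * χ ^ 2) - 1 / T) * pz -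
        (n * χ - Gr.trace) / T) = -(S ^ 2 * T⁻¹ * z ^ 2) + S ^ 2 / (R * χ) * (k * χ - n * χ + z ^ 2) +
          S ^ 2 / (R * χ) * (2 * pz * (2 * pz + z ^ 2) / (n * χ)) := by
      have e1 : 2 * pz + z ^ 2 = n * χ - R := by linarith
      have e2 : z ^ 2 = n * χ - R - 2 * pz := by linarith
      rw [e1, e2]
      field_simp
      ring
    have a1 : S ^ 2 / (R * χ) ≤ Q ^ 2 / 2 := by rw [div_le_iff₀ (mul_pos h1 hχ)]; linarith
    have a0 : 0 ≤ S ^ 2 / (R * χ) := by positivity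
    have a2 : |S ^ 2 / (R * χ) * (k * χ - n * χ + z ^ 2)| ≤ Q ^ 2 / 2 * (2 + z ^ 2) := by
      rw [abs_mul, abs_of_nonneg a0]
      exact mul_le_mul a1 ((abs_add_le _ _).trans (by rw [abs_of_nonneg (sq_nonneg z)]; linarith))
        (abs_nonneg _) (by positivity)
    have a3 : |2 * pz * (2 * pz + z ^ 2) / (n * χ)| ≤ 4 * Q * z ^ 2 := by
      rw [abs_div, abs_of_pos (mul_pos hn hχ), div_le_iff₀ (mul_pos hn hχ), abs_mul, abs_mul, abs_two]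
      have c1 := mul_le_mul (mul_le_mul_of_nonneg_left hp zero_le_two) hw (abs_nonneg _) (by positivity)
      have c2 := mul_le_mul_of_nonneg_left hN (sq_nonneg z)
      linarith
    have a4 : |S ^ 2 / (R * χ) * (2 * pz * (2 * pz + z ^ 2) / (n * χ))| ≤ Q ^ 2 / 2 * (4 * Q * z ^ 2) := by
      rw [abs_mul, abs_of_nonneg a0]
      exact mul_le_mul a1 a3 (abs_nonneg _) (by positivity)
    have a5 : S ^ 2 * T⁻¹ * z ^ 2 ≤ 2 * Q ^ 2 * z ^ 2 := by gcongr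
    have a6 : 0 ≤ S ^ 2 * T⁻¹ * z ^ 2 := by positivity
    have a7 : Q ^ 2 * z ^ 2 ≤ Λ * Q ^ 3 * z ^ 2 := by gcongr; linarith
    have a8 : Q ^ 3 * z ^ 2 ≤ Λ * Q ^ 3 * z ^ 2 := by gcongr
    have a9 : 0 ≤ Λ * Q ^ 3 * z := by positivity
    have a10 : 0 ≤ Q ^ 2 * z ^ 2 := by positivity
    have a11 : 0 ≤ Q ^ 2 := by positivity
    obtain ⟨c1, c2⟩ := abs_le.1 a2
    obtain ⟨c3, c4⟩ := abs_le.1 a4
    rw [e, abs_le]
    constructor <;> linarith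
  · have hG := h.notG hs
    have htr := h.tr
    have hχi := h.χi
    generalize o.p ⬝ᵥ zh o s = pz at *
    generalize zn o s = z at *
    generalize (Gr * Gr).trace = T at *
    have e : S ^ 2 * (0 * ((R2 o s - Gr.trace) / T + (k / R2 o s - χ⁻¹)) -
        2 * (1 / (n * χ ^ 2) - 1 / T) * pz - (n * χ - Gr.trace) / T) =
        -(2 * (χ⁻¹ ^ 2 - S ^ 2 * T⁻¹) * pz) - S ^ 2 * T⁻¹ * (n * χ - Gr.trace) := by
      rw [h.SS]; field_simp; ring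
    have a0 : 0 ≤ S ^ 2 * T⁻¹ := by positivity
    have a1 : |χ⁻¹ ^ 2 - S ^ 2 * T⁻¹| ≤ 2 * Q ^ 2 := by
      have := sq_le_of_abs hχi
      rw [abs_le]; constructor <;> nlinarith [sq_nonneg χ⁻¹]
    have a2 : |pz| ≤ 4 * Q * z * z := hp.trans (mul_le_mul_of_nonneg_right hG hz)
    have a3 : |2 * (χ⁻¹ ^ 2 - S ^ 2 * T⁻¹) * pz| ≤ 2 * (2 * Q ^ 2) * (4 * Q * z * z) := by
      rw [abs_mul, abs_mul, abs_two]
      exact mul_le_mul (mul_le_mul_of_nonneg_left a1 zero_le_two) a2 (abs_nonneg _) (by positivity)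
    have a4 : |S ^ 2 * T⁻¹ * (n * χ - Gr.trace)| ≤ 2 * Q ^ 2 * (Λ * (4 * Q * z)) := by
      rw [abs_mul, abs_of_nonneg a0]
      exact mul_le_mul hTi (htr.trans (by gcongr)) (abs_nonneg _) (by positivity)
    have a8 : Q ^ 3 * z ^ 2 ≤ Λ * Q ^ 3 * z ^ 2 := by gcongr
    have a9 : 0 ≤ Λ * Q ^ 3 * z := by positivity
    have a10 : 0 ≤ Q ^ 3 * z ^ 2 := by positivity
    have a11 : 0 ≤ Λ * Q ^ 3 := by positivity
    obtain ⟨c1, c2⟩ := abs_le.1 a3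
    obtain ⟨c3, c4⟩ := abs_le.1 a4
    rw [e, abs_le]
    constructor <;> linarith

end Hz

end Crest.Agent.T157.M4
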