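import Crest.Agent.T157.O4mF_53
import Crest.Agent.T157.OoA_9
import Crest.Agent.T157.O6Def_61

set_option autoImplicit false
set_option linter.unusedSectionVars false

/-!
Row 157, A2 section 4 (helper53): **(M4)**.
-/

noncomputable section

namespace Crest.Agent.T157.M4

open MeasureTheory Matrix Crest.Agent.Lib.OrthPoinc Filter Topology Set Real
open Crest.Agent.T157.Oc Crest.Agent.T157.E Crest.Agent.T157.SL Crest.Agent.T157.Ks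
open Crest.Agent.T157.Od Crest.Agent.T157.Oo Crest.Agent.T157.Mj

variable {n k : ℕ} {o : Oo.Orb n k} {χ : ℝ} {x : Vn n} {Gr : Matrix (Fin k) (Fin k) ℝ}
  {Q A S g Λ M : ℝ} {μ : Measure (Mat k)} [IsProbabilityMeasure μ]

theorem an_s (hμ : SOInv μ) (h : o.Ok) (f : Cube n → ℝ) :
    o.an μ (fun s _ => f s) = pe o μ fun s _ => f s :=
  an_polar hμ h (F := fun s _ => f s) fun _ => continuous_const

/-- the conditional mean of `A_U ŝ` given `(s, ξ)` -/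
theorem an_yv (hμ : SOInv μ) (h : o.Ok) (hk : 4 ≤ k) (v : Vn n) (φ : Cube n → ℝ) :
    o.an μ (fun s U => (v ⬝ᵥ yv o s U) * φ s) =
      pe o μ fun s ω => (v ⬝ᵥ yq o s ω + cc o s (xp o s ω) * (Pm o *ᵥ v ⬝ᵥ sv s)) * φ s := by
  refine Eq.trans ?_ (an_polar hμ h (F := fun s ξ =>
    (v ⬝ᵥ Qm o *ᵥ (A0 o *ᵥ ξ) + cc o s ξ * (Pm o *ᵥ v ⬝ᵥ sv s)) * φ s) fun s => by fun_prop)
  refine an_congr hμ h (fun s => by fun_prop) (fun s => by fun_prop) fun s => ?_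
  have h1 := coset hμ h hk s (a := fun ξ => (wx o s ξ * φ s) • (A0 o *ᵥ ξ)) (by fun_prop) v
  have e1 : ∫ U, o.w U s * ((v ⬝ᵥ yv o s U) * φ s) ∂μ =
      ∫ U, (wx o s (xh o s U) * ((v ⬝ᵥ Qm o *ᵥ (A0 o *ᵥ xh o s U)) * φ s) +
        Pm o *ᵥ v ⬝ᵥ o.g U *ᵥ ((wx o s (xh o s U) * φ s) • (A0 o *ᵥ xh o s U))) ∂μ := by
    refine integral_congr_ae ((Orb.ae_SO hμ).mono fun U hU => ?_)
    simp only
    rw [w_xh, yv_eq h hU, mulVec_smul, dotProduct_smul, dot_Q, ← Q_dot_g h U]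
    nth_rewrite 1 [← Pm_add_Qm (o := o) v]
    rw [add_dotProduct, smul_eq_mul]; ring
  rw [e1, integral_add (intg hμ (by fun_prop)) (intg hμ (by fun_prop)), h1,
    ← integral_add (intg hμ (by fun_prop)) (intg hμ (by fun_prop))]
  refine integral_congr_ae (ae_of_all _ fun U => ?_)
  simp only [w_xh, cc, smul_dotProduct, smul_eq_mul]
  ring

theorem dot_EV {ν : Measure (Mat k)} [IsProbabilityMeasure ν] (hν : ∀ᵐ U ∂ν, U ∈ SO k)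
    {y : Mat k → Vn n} (hy : Continuous y) (a : Vn n) : a ⬝ᵥ EV ν y = ∫ U, a ⬝ᵥ y U ∂ν := by
  simp only [dotProduct, EV]
  rw [integral_finsetSum _ (f := fun i U => a i * y U i) fun i _ =>
    int_of hν (by fun_prop : Continuous _).continuousOn]
  simp only [integral_const_mul]

/-- centred second moments as annealed means -/
theorem an_cov (hμ : SOInv μ) (h : o.Ok) {B : Mat k → Mn n} (hB : Continuous B) (a u : Vn n) :
    a ⬝ᵥ (EM (o.P μ) (fun U => B U * O6.sq2 o U) -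
      vecMulVec (EV (o.P μ) fun U => B U *ᵥ o.d U) (EV (o.P μ) o.d)) *ᵥ u =
    o.an μ fun s U => (a ⬝ᵥ B U *ᵥ sh o s) * (u ⬝ᵥ sh o s - u ⬝ᵥ EV (o.P μ) o.d) := by
  have := Oo.Orb.P_prob hμ h
  have hν := Oo.Orb.P_mem (o := o) hμ
  have c1 : Continuous o.d := Oo.Orb.c_d
  have c2 : Continuous (O6.sq2 o) := Oo.Orb.c_C.add (c1.matrix_vecMulVec c1)
  have c3 : Continuous fun U => B U * O6.sq2 o U := hB.mul c2
  have c4 : Continuous fun U => B U *ᵥ o.d U := hB.matrix_mulVec c1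
  have e1 := dot_EV hν c4 a
  rw [sub_mulVec, dotProduct_sub, dot_EM hν (fun i j => (by fun_prop : Continuous _).continuousOn),
    Orb.vv_mulVec, dotProduct_smul, smul_eq_mul, e1, ← integral_const_mul,
    ← integral_sub (int_of hν (by fun_prop : Continuous _).continuousOn)
      (int_of hν (by fun_prop : Continuous _).continuousOn), Oo.Orb.an]
  refine integral_congr_ae (ae_of_all _ fun U => ?_)
  have hw := Oo.Orb.wt (o := o) U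
  simp only [mul_sub, mean_sub, mean_mul_const, dotProduct_mulVec a, sh, mean_dot2 hw,
    ← mulVec_mulVec]
  rw [dotProduct_comm u (EV _ _), mul_comm]
  simp only [dotProduct_sub, mean_sub, hw.mean_const, meanV_dot]

theorem an_mean (hμ : SOInv μ) (h : o.Ok) (u : Vn n) :
    pe o μ (fun s _ => u ⬝ᵥ sh o s) = u ⬝ᵥ EV (o.P μ) o.d := by
  have := Oo.Orb.P_prob hμ h
  have hν := Oo.Orb.P_mem (o := o) hμ
  rw [← an_s hμ h, Oo.Orb.an, dot_EV hν Oo.Orb.c_d]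
  refine integral_congr_ae (ae_of_all _ fun U => ?_)
  have hw := Oo.Orb.wt (o := o) U
  change _ = u ⬝ᵥ o.d U
  simp only [sh, dotProduct_sub, mean_sub, hw.mean_const, meanV_dot]

theorem op2_of_bil {X : Mn n} {e : ℝ} (h : ∀ u v : Vn n, u ⬝ᵥ u ≤ 1 → v ⬝ᵥ v ≤ 1 → |v ⬝ᵥ X *ᵥ u| ≤ e) :
    Op2 X (e ^ 2) := fun u => by
  have unit : ∀ w : Vn n, ∃ w' : Vn n, w' ⬝ᵥ w' ≤ 1 ∧ w = √(w ⬝ᵥ w) • w' := fun w => by
    rcases (dsq w).eq_or_lt with h0 | h0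
    · exact ⟨0, by simp, by rw [dotProduct_self_eq_zero.1 h0.symm]; simp⟩
    · have := Real.sqrt_pos.2 h0
      refine ⟨(√(w ⬝ᵥ w))⁻¹ • w, le_of_eq ?_, by rw [smul_smul, mul_inv_cancel₀ this.ne', one_smul]⟩
      rw [smul_dotProduct, dotProduct_smul, smul_eq_mul, smul_eq_mul, ← mul_assoc, ← mul_inv,
        Real.mul_self_sqrt h0.le, inv_mul_cancel₀ h0.ne']
  obtain ⟨u', hu, eu⟩ := unit u
  obtain ⟨v', hv, ev⟩ := unit (X *ᵥ u)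
  have h1 := sq_le_of_abs (h u' v' hu hv)
  have h2 : X *ᵥ u ⬝ᵥ X *ᵥ u = √(X *ᵥ u ⬝ᵥ X *ᵥ u) * (√(u ⬝ᵥ u) * (v' ⬝ᵥ X *ᵥ u')) := by
    calc _ = (√(X *ᵥ u ⬝ᵥ X *ᵥ u) • v') ⬝ᵥ X *ᵥ (√(u ⬝ᵥ u) • u') := by rw [← ev, ← eu]
      _ = _ := by rw [mulVec_smul, smul_dotProduct, dotProduct_smul, smul_eq_mul, smul_eq_mul]
  have h3 := Real.sq_sqrt (dsq (X *ᵥ u))
  have h4 := Real.sq_sqrt (dsq u)
  rcases (dsq (X *ᵥ u)).eq_or_lt with h0 | h0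
  · rw [← h0]; exact mul_nonneg (sq_nonneg e) (dsq u)
  refine le_of_mul_le_mul_left ?_ h0
  calc _ = (X *ᵥ u ⬝ᵥ X *ᵥ u) ^ 2 := (sq _).symm
    _ = (X *ᵥ u ⬝ᵥ X *ᵥ u) * ((u ⬝ᵥ u) * (v' ⬝ᵥ X *ᵥ u') ^ 2) := by
        nth_rewrite 1 [h2]; rw [mul_pow, mul_pow, h3, h4]
    _ ≤ _ := by
        rw [mul_comm (e ^ 2)]
        exact mul_le_mul_of_nonneg_left (mul_le_mul_of_nonneg_left h1 (dsq u)) h0.le

theorem pow4_le (a b : ℝ) : (a + b) ^ 4 ≤ 8 * (a ^ 4 + b ^ 4) := by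
  nlinarith [sq_nonneg (a - b), sq_nonneg (a + b), sq_nonneg (a ^ 2 - b ^ 2),
    mul_nonneg (sq_nonneg (a - b)) (sq_nonneg (a + b)), sq_nonneg ((a - b) ^ 2)]

theorem pow6_le {a b c d e f : ℝ} (ha : 0 ≤ a) (hb : 0 ≤ b) (hc : 0 ≤ c) (hd : 0 ≤ d) (he : 0 ≤ e)
    (hf : 0 ≤ f) : (a + b + c + d + e + f) ^ 4 ≤ 216 * (a ^ 4 + b ^ 4 + c ^ 4 + d ^ 4 + e ^ 4 + f ^ 4) := by
  have := pow_sum_le_card_mul_sum_pow (s := Finset.univ) (f := ![a, b, c, d, e, f])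
    (fun i _ => by fin_cases i <;> simpa) 3
  simp only [Fin.sum_univ_succ, Finset.card_univ, Fintype.card_fin] at this
  simp at this
  linarith

/-- the moment hypotheses of (M4) -/
structure Mo (o : Oo.Orb n k) (μ : Measure (Mat k)) (M : ℝ) : Prop where
  M1 : 1 ≤ M
  mz : o.an μ (fun s _ => (Qm o *ᵥ sh o s ⬝ᵥ Qm o *ᵥ sh o s) ^ 2) ≤ M ^ 4
  my : o.an μ (fun s U => (Qm o *ᵥ yv o s U ⬝ᵥ Qm o *ᵥ yv o s U) ^ 2) ≤ M ^ 4
  mv : ∀ v, o.an μ (fun s _ => (v ⬝ᵥ sh o s) ^ 4) ≤ M ^ 4 * (v ⬝ᵥ v) ^ 2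

theorem Mo.zn (hμ : SOInv μ) (h : o.Ok) (m : Mo o μ M) : pe o μ (fun s _ => zn o s ^ 4) ≤ M ^ 4 := by
  refine le_trans (le_of_eq ?_) m.mz
  rw [an_s hμ h]
  exact pe_congr hμ h fun s _ _ => by rw [← zh, ← zn_sq]; ring

theorem Mo.yn (hμ : SOInv μ) (h : o.Ok) (m : Mo o μ M) : pe o μ (fun s ω => yn o s ω ^ 4) ≤ M ^ 4 := by
  refine le_trans (le_of_eq ?_) m.my
  have h1 := an_polar hμ h (F := fun _ ξ => (Qm o *ᵥ (A0 o *ᵥ ξ) ⬝ᵥ Qm o *ᵥ (A0 o *ᵥ ξ)) ^ 2)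
    fun s => by fun_prop
  refine ((pe_congr hμ h fun s ω _ => ?_).trans h1.symm).trans
    (an_congr hμ h (fun s => by fun_prop) (fun s => by fun_prop) fun s => ?_)
  · rw [← yq, ← yn_sq]; ring
  · refine integral_congr_ae ((Orb.ae_SO hμ).mono fun U hU => ?_)
    have : Qm o *ᵥ yv o s U = Qm o *ᵥ (A0 o *ᵥ xh o s U) := funext fun i => by
      rw [← Q_single, ← Q_single, yv_eq h hU, Q_dot_g h]
    simp only [this]

theorem Mo.lin (hμ : SOInv μ) (h : o.Ok) (m : Mo o μ M) {v : Vn n} (hv : v ⬝ᵥ v ≤ 1) :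
    pe o μ (fun s _ => (v ⬝ᵥ sh o s) ^ 4) ≤ M ^ 4 := by
  rw [← an_s hμ h]
  exact (m.mv v).trans (mul_le_of_le_one_right (by positivity) (pow_le_one₀ (dsq v) hv))

theorem Mo.cen (hμ : SOInv μ) (h : o.Ok) (m : Mo o μ M) {u : Vn n} (hu : u ⬝ᵥ u ≤ 1) :
    pe o μ (fun s _ => (u ⬝ᵥ sh o s - u ⬝ᵥ EV (o.P μ) o.d) ^ 4) ≤ 16 * M ^ 4 := by
  have h1 := m.lin hμ h hu
  have h2 := an_mean hμ h u
  generalize u ⬝ᵥ EV (o.P μ) o.d = c at *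
  have cf : ∀ f : Cube n → ℝ, CF fun s (_ : Vn n) => f s := fun _ _ => continuous_const
  have h3 := pe_mono hμ h (cf fun s => 4 * c ^ 3 * (u ⬝ᵥ sh o s) + -(3 * c ^ 4))
    (cf fun s => (u ⬝ᵥ sh o s) ^ 4) fun s _ _ => by
      nlinarith [mul_nonneg (sq_nonneg (u ⬝ᵥ sh o s - c)) (sq_nonneg (u ⬝ᵥ sh o s + c)),
        mul_nonneg (sq_nonneg (u ⬝ᵥ sh o s - c)) (sq_nonneg c)]
  rw [pe_add hμ (cf _) (cf _), pe_mul, pe_const hμ, h2] at h3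
  have h4 := pe_mono hμ h (cf fun s => (u ⬝ᵥ sh o s - c) ^ 4)
    (cf fun s => 8 * (u ⬝ᵥ sh o s) ^ 4 + 8 * c ^ 4) fun s _ _ => by
      have := pow4_le (u ⬝ᵥ sh o s) (-c)
      rw [← sub_eq_add_neg, Even.neg_pow (by decide)] at this
      linarith
  rw [pe_add hμ (cf _) (cf _), pe_mul, pe_const hμ] at h4
  linarith

theorem Dv_le (h : Hy o x χ Q A S) {v : Vn n} (hv : v ⬝ᵥ v ≤ 1) : Dv o.p v ⬝ᵥ Dv o.p v ≤ 1 := by
  refine le_trans (Finset.sum_le_sum fun i _ => ?_) hv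
  have := h.p1 i
  rw [Dv, mul_mul_mul_comm]
  exact mul_le_of_le_one_left (mul_self_nonneg _)
    (mul_le_one₀ (sub_le_self _ (sq_nonneg _)) (by linarith) (sub_le_self _ (sq_nonneg _)))

theorem dot_Dm (p v w : Vn n) : v ⬝ᵥ O6.Dm p *ᵥ w = Dv p v ⬝ᵥ w := by
  simp only [dotProduct, O6.Dm, mulVec_diagonal, Dv]
  exact Finset.sum_congr rfl fun i _ => by ring

/-- fourth moment of the size function -/
theorem Hz.theta (h : Hz o x Gr χ Q A S g Λ) (hμ : SOInv μ) (m : Mo o μ M) {u v : Vn n}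
    (hu : u ⬝ᵥ u ≤ 1) (hv : v ⬝ᵥ v ≤ 1) :
    pe o μ (fun s ω => (1 + zn o s + yn o s ω + |S * k0 o χ s ω| +
      |u ⬝ᵥ sh o s - u ⬝ᵥ EV (o.P μ) o.d| + |v ⬝ᵥ sh o s|) ^ 4) ≤ 10 ^ 9 * (g * Λ * Q ^ 3 * M) ^ 4 := by
  have hQ := h.Q1; have hL := h.L1; have hg := h.g1
  have hM : 1 ≤ M ^ 4 := one_le_pow₀ m.M1
  have h1 := m.zn hμ h.ok
  have h2 := m.yn hμ h.ok
  have h3 := h.K4 hμ
  have h4 := m.cen hμ h.ok hu
  have h5 := m.lin hμ h.ok hv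
  have h6 := pe_mono hμ h.ok (F := fun s _ => 1024 * (g * (Λ + 4 * Q * zn o s) * Q ^ 2) ^ 4)
    (G := fun s _ => 2097152 * (g * Λ * Q ^ 3) ^ 4 * (1 + zn o s ^ 4)) (fun s => by fun_prop)
    (fun s => by fun_prop) fun s _ _ => by
      have hz := zn_nn (o := o) s
      have a1 : Λ + 4 * Q * zn o s ≤ 4 * Q * Λ * (1 + zn o s) := by
        have : Λ ≤ Q * Λ := le_mul_of_one_le_left (by linarith) hQ
        have : Q * zn o s ≤ Q * zn o s * Λ := le_mul_of_one_le_right (by positivity) hL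
        linarith
      have a2 := pow4_le 1 (zn o s)
      calc _ ≤ 1024 * (g * (4 * Q * Λ * (1 + zn o s)) * Q ^ 2) ^ 4 := by gcongr
        _ = 262144 * (g * Λ * Q ^ 3) ^ 4 * (1 + zn o s) ^ 4 := by ring
        _ ≤ 262144 * (g * Λ * Q ^ 3) ^ 4 * (8 * (1 ^ 4 + zn o s ^ 4)) := by gcongr
        _ = _ := by ring
  rw [pe_mul (2097152 * _), pe_add hμ (fun s => by fun_prop) (fun s => by fun_prop),
    pe_const hμ] at h6
  refine (pe_mono hμ h.ok (G := fun s ω => 216 * (1 + zn o s ^ 4 + yn o s ω ^ 4 + (S * k0 o χ s ω) ^ 4 +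
    (u ⬝ᵥ sh o s - u ⬝ᵥ EV (o.P μ) o.d) ^ 4 + (v ⬝ᵥ sh o s) ^ 4)) (fun s => by fun_prop)
    (fun s => by fun_prop) fun s ω _ => ?_).trans ?_
  · have := pow6_le zero_le_one (zn_nn (o := o) s) (yn_nn (o := o) s ω) (abs_nonneg (S * k0 o χ s ω))
      (abs_nonneg (u ⬝ᵥ sh o s - u ⬝ᵥ EV (o.P μ) o.d)) (abs_nonneg (v ⬝ᵥ sh o s))
    simpa only [Even.pow_abs (by decide : Even 4), one_pow] using this
  rw [pe_mul, pe_add hμ (fun s => by fun_prop) (fun s => by fun_prop),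
    pe_add hμ (fun s => by fun_prop) (fun s => by fun_prop),
    pe_add hμ (fun s => by fun_prop) (fun s => by fun_prop),
    pe_add hμ (fun s => by fun_prop) (fun s => by fun_prop),
    pe_add hμ (fun s => by fun_prop) (fun s => by fun_prop), pe_const hμ, mul_pow (g * Λ * Q ^ 3)]
  have a1 : 1 ≤ (g * Λ * Q ^ 3) ^ 4 := one_le_pow₀ (one_le_mul_of_one_le_of_one_le
    (one_le_mul_of_one_le_of_one_le hg hL) (one_le_pow₀ hQ))
  generalize (g * Λ * Q ^ 3) ^ 4 = K at *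
  have a2 : K * (1 + pe o μ fun s _ => zn o s ^ 4) ≤ K * (2 * M ^ 4) := by gcongr; linarith
  have a3 : M ^ 4 ≤ K * M ^ 4 := le_mul_of_one_le_left (by positivity) a1
  linarith

/-- **(M4)**, bilinear form -/
theorem m4_bil (h : Hz o x Gr χ Q A S g Λ) (hμ : SOInv μ) (m : Mo o μ M) {β ε : ℝ}
    (hβ : |β - bs n χ (Gr * Gr).trace| * n ≤ ε) {u v : Vn n} (hu : u ⬝ᵥ u ≤ 1) (hv : v ⬝ᵥ v ≤ 1) :
    |v ⬝ᵥ O6.Er4 o (o.P μ) (χ⁻¹ • (1 : Mn n) + β • vecMulVec o.p o.p) *ᵥ u| ≤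
      10 ^ 15 * (A ^ 2 * g ^ 8 * Λ ^ 6 * Q ^ 20 * M ^ 4) / S + 3 * ε * M ^ 2 := by
  have hQ := h.Q1; have hL := h.L1; have hg := h.g1; have hS := h.S0; have hA := h.A1
  have hM := m.M1
  have hT := h.T2_pos
  have hDv := Dv_le h.toHy hv
  have hθ := h.theta hμ m hu hDv
  have hm := an_mean hμ h.ok u
  have hc := m.cen hμ h.ok hu
  have c1 := an_cov hμ h.ok (B := o.A) cont_A (Dv o.p v) u
  have c2 := fun a => an_cov hμ h.ok (B := fun _ => 1) continuous_const a u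
  simp only [Matrix.one_mul, one_mulVec] at c2
  have c3 := an_yv hμ h.ok h.k4 (Dv o.p v) fun s => u ⬝ᵥ sh o s - u ⬝ᵥ EV (o.P μ) o.d
  have e0 : ∀ w, v ⬝ᵥ (1 - O6.Dm o.p * (χ⁻¹ • (1 : Mn n) + β • vecMulVec o.p o.p)) *ᵥ w =
      v ⬝ᵥ w - (χ⁻¹ * (Dv o.p v ⬝ᵥ w) + β * (Dv o.p v ⬝ᵥ o.p) * (o.p ⬝ᵥ w)) := fun w => by
    rw [sub_mulVec, one_mulVec, ← mulVec_mulVec, dotProduct_sub, dot_Dm, add_mulVec, smul_mulVec,
      smul_mulVec, one_mulVec, Orb.vv_mulVec, dotProduct_add, dotProduct_smul, dotProduct_smul,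
      dotProduct_smul]
    simp only [smul_eq_mul]; ring
  rw [O6.Er4, sub_mulVec, sub_mulVec, dotProduct_sub, dotProduct_sub, ← mulVec_mulVec,
    ← mulVec_mulVec, dot_Dm, dot_Dm, e0, c1, c2, c2, c2]
  erw [c3]
  rw [an_s hμ h.ok, an_s hμ h.ok, an_s hμ h.ok, pe_stein]
  have k1 := h.K1 hμ fun s => u ⬝ᵥ sh o s - u ⬝ᵥ EV (o.P μ) o.d
  generalize u ⬝ᵥ EV (o.P μ) o.d = c at *
  obtain ⟨φ, hφ⟩ : ∃ φ : Cube n → ℝ, ∀ s, u ⬝ᵥ sh o s - c = φ s := ⟨_, fun _ => rfl⟩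
  have h0 : pe o μ (fun s _ => φ s) = 0 := by
    simp only [← hφ]
    rw [pe_sub hμ (fun s => by fun_prop) (fun s => by fun_prop), hm, pe_const hμ, sub_self]
  simp only [hφ] at *
  obtain ⟨Z, hZ⟩ : ∃ Z : Cube n → Vn n → ℝ, Z = fun s ω =>
      Dv o.p v ⬝ᵥ u + (Dv o.p v ⬝ᵥ gm o χ s ω) * φ s - St o u v (φ s) s ω -
      kp o χ s ω * (Dv o.p v ⬝ᵥ sh o s) * φ s - bad o χ (Dv o.p v) s ω * φ s -
      (Dv o.p v ⬝ᵥ o.p) * (Ps o χ Gr.trace (Gr * Gr).trace s * φ s) := ⟨_, rfl⟩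
  have cZ : CF Z := fun s => by rw [hZ]; fun_prop
  have e1 : Dv o.p v ⬝ᵥ u - pe o μ (fun s ω => (Dv o.p v ⬝ᵥ yq o s ω +
        cc o s (xp o s ω) * (Pm o *ᵥ Dv o.p v ⬝ᵥ sv s)) * φ s) -
      (pe o μ (fun s ω => St o u v (φ s) s ω) - (χ⁻¹ * pe o μ (fun s _ => (Dv o.p v ⬝ᵥ sh o s) * φ s) +
        β * (Dv o.p v ⬝ᵥ o.p) * pe o μ fun s _ => (o.p ⬝ᵥ sh o s) * φ s)) =
      pe o μ Z - (Dv o.p v ⬝ᵥ o.p) * ((Gr * Gr).trace)⁻¹ * pe o μ (fun s ω =>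
        ((Gr * Gr).trace * k0 o χ s ω - ind o χ s * (R2 o s - Gr.trace)) * φ s) -
      (Dv o.p v ⬝ᵥ o.p) * ((n * χ - Gr.trace) / (Gr * Gr).trace) * pe o μ (fun s _ => φ s) +
      (β - bs n χ (Gr * Gr).trace) * (Dv o.p v ⬝ᵥ o.p) * pe o μ fun s _ => (o.p ⬝ᵥ sh o s) * φ s := by
    rw [← pe_const (o := o) hμ (Dv o.p v ⬝ᵥ u)]
    simp only [← pe_mul]
    rw [← pe_sub hμ (fun s => by fun_prop) (fun s => by fun_prop),
      ← pe_add hμ (fun s => by fun_prop) (fun s => by fun_prop),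
      ← pe_sub hμ (fun s => by fun_prop) (fun s => by fun_prop),
      ← pe_sub hμ (fun s => by fun_prop) (fun s => by fun_prop),
      ← pe_sub hμ cZ (fun s => by fun_prop),
      ← pe_sub hμ (fun s => by have := cZ s; fun_prop) (fun s => by fun_prop),
      ← pe_add hμ (fun s => by have := cZ s; fun_prop) (fun s => by fun_prop)]
    refine pe_congr hμ h.ok fun s ω _ => ?_
    have a1 : o.p ⬝ᵥ zh o s = o.p ⬝ᵥ sh o s := by rw [zh, dot_Q, Q_p h.ok]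
    have a2 : Dv o.p v ⬝ᵥ Qm o *ᵥ sv s = Dv o.p v ⬝ᵥ sh o s + Dv o.p v ⬝ᵥ o.p -
        Pm o *ᵥ Dv o.p v ⬝ᵥ sv s := by
      rw [Qm_vec, dotProduct_sub, dot_P, sh, dotProduct_sub]; ring
    have a3 : Dv o.p v ⬝ᵥ zh o s = Dv o.p v ⬝ᵥ sh o s - Pm o *ᵥ Dv o.p v ⬝ᵥ sv s := by
      rw [zh, Qm_vec, dotProduct_sub, P_sh h.ok, dot_P]
    simp only [hZ, gm, dotProduct_add, dotProduct_neg, dotProduct_smul, smul_eq_mul, a1, a2, a3, kp,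
      k0, bad, Ps]
    field_simp
    ring
  rw [e1, h0, mul_zero, sub_zero]
  have p1 : |Dv o.p v ⬝ᵥ o.p| ≤ 1 * S := abs_dot_le zero_le_one hS.le (by rwa [one_pow]) h.pp
  rw [one_mul] at p1
  obtain ⟨θ, hθd⟩ : ∃ θ : Cube n → Vn n → ℝ, ∀ s ω, 1 + zn o s + yn o s ω + |S * k0 o χ s ω| +
      |φ s| + |Dv o.p v ⬝ᵥ sh o s| = θ s ω := ⟨_, fun _ _ => rfl⟩
  have cθ : CF θ := fun s => by rw [← funext (hθd s)]; fun_prop
  have θ1 : ∀ s ω, 1 + zn o s ≤ θ s ω ∧ |φ s| ≤ θ s ω := fun s ω => by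
    have := zn_nn (o := o) s; have := yn_nn (o := o) s ω
    have := abs_nonneg (S * k0 o χ s ω); have := abs_nonneg (φ s)
    have := abs_nonneg (Dv o.p v ⬝ᵥ sh o s)
    rw [← hθd]; constructor <;> linarith
  have θ2 : ∀ s ω, θ s ω ^ 3 ≤ θ s ω ^ 4 := fun s ω =>
    pow_le_pow_right₀ (by linarith [(θ1 s ω).1, zn_nn (o := o) s]) (by norm_num)
  simp only [hθd] at hθ
  have b1 : S * |pe o μ Z| ≤ 427000 * (A ^ 2 * Λ * Q ^ 6) * pe o μ fun s ω => θ s ω ^ 4 := by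
    rw [← abs_of_pos hS, ← abs_mul, ← pe_mul, ← pe_mul]
    refine pe_abs_le hμ h.ok (fun s => by have := cZ s; fun_prop) (fun s => by have := cθ s; fun_prop)
      fun s ω hω => ?_
    rw [abs_mul, abs_of_pos hS, hZ]
    exact (h.Z_le hω s hu hv (hθd s ω).symm).trans
      (mul_le_mul_of_nonneg_left (θ2 s ω) (by positivity))
  have b2 := k1.trans (pe_mono hμ h.ok (G := fun s ω => 1120 * (g ^ 4 * Λ ^ 2 * Q ^ 6) * θ s ω ^ 4)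
    (fun s => by fun_prop) (fun s => by have := cθ s; fun_prop) fun s ω _ => by
      have hz := zn_nn (o := o) s
      have a1 : Λ + 4 * Q * zn o s ≤ 4 * Q * Λ * θ s ω := by
        have : Λ ≤ Q * Λ := le_mul_of_one_le_left (by linarith) hQ
        have : Q * zn o s ≤ Q * zn o s * Λ := le_mul_of_one_le_right (by positivity) hL
        have := mul_le_mul_of_nonneg_left (θ1 s ω).1 (by positivity : 0 ≤ 4 * Q * Λ)
        linarith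
      calc _ ≤ 70 * g ^ 2 * (g * (4 * Q * Λ * θ s ω) * Q ^ 2) ^ 2 * θ s ω := by
            gcongr; exact (θ1 s ω).2
        _ = 1120 * (g ^ 4 * Λ ^ 2 * Q ^ 6) * θ s ω ^ 3 := by ring
        _ ≤ _ := mul_le_mul_of_nonneg_left (θ2 s ω) (by positivity))
  rw [pe_mul] at b2
  have b3 : |pe o μ fun s _ => (o.p ⬝ᵥ sh o s) * φ s| ≤ S * (3 * M ^ 2) := by
    have a0 : (S⁻¹ • o.p) ⬝ᵥ (S⁻¹ • o.p) ≤ 1 := (smul_le h.pp).trans_eq (by
      rw [abs_of_pos (inv_pos.2 hS), inv_mul_cancel₀ hS.ne', one_pow])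
    have a1 := m.lin hμ h.ok a0
    refine (pe_abs_le hμ h.ok (G := fun s _ => S * ((4 * M ^ 2)⁻¹ * ((S⁻¹ • o.p) ⬝ᵥ sh o s) ^ 4 +
      (16 * M ^ 2)⁻¹ * φ s ^ 4 + 5 / 4 * M ^ 2)) (fun s => by fun_prop) (fun s => by fun_prop)
      fun s _ _ => ?_).trans ?_
    · have e : o.p ⬝ᵥ sh o s = S * ((S⁻¹ • o.p) ⬝ᵥ sh o s) := by
        rw [smul_dotProduct, smul_eq_mul, mul_inv_cancel_left₀ hS.ne']
      rw [e, mul_assoc, abs_mul, abs_of_pos hS]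
      refine mul_le_mul_of_nonneg_left ?_ hS.le
      generalize (S⁻¹ • o.p) ⬝ᵥ sh o s = a
      generalize φ s = b
      have e1 : (4 * M ^ 2)⁻¹ * a ^ 4 = (a ^ 2 / (2 * M)) ^ 2 := by field_simp; ring
      have e2 : (16 * M ^ 2)⁻¹ * b ^ 4 = (b ^ 2 / (4 * M)) ^ 2 := by field_simp; ring
      have e3 : a ^ 2 = 2 * M * (a ^ 2 / (2 * M)) := by field_simp
      have e4 : b ^ 2 = 4 * M * (b ^ 2 / (4 * M)) := by field_simp
      rw [e1, e2, abs_le]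
      constructor <;> nlinarith [sq_nonneg (a ^ 2 / (2 * M) - M / 2), sq_nonneg (b ^ 2 / (4 * M) - M),
        sq_nonneg (a + b), sq_nonneg (a - b)]
    · rw [pe_mul, pe_add hμ (fun s => by fun_prop) (fun s => by fun_prop),
        pe_add hμ (fun s => by fun_prop) (fun s => by fun_prop), pe_mul, pe_mul, pe_const hμ]
      refine mul_le_mul_of_nonneg_left ?_ hS.le
      have c1 := mul_le_mul_of_nonneg_left a1 (by positivity : 0 ≤ (4 * M ^ 2)⁻¹)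
      have c2 := mul_le_mul_of_nonneg_left hc (by positivity : 0 ≤ (16 * M ^ 2)⁻¹)
      have e1 : (4 * M ^ 2)⁻¹ * M ^ 4 = M ^ 2 / 4 := by field_simp
      have e2 : (16 * M ^ 2)⁻¹ * (16 * M ^ 4) = M ^ 2 := by field_simp
      linarith [sq_nonneg M]
  have b4 : |(β - bs n χ (Gr * Gr).trace) * (Dv o.p v ⬝ᵥ o.p) *
      pe o μ fun s _ => (o.p ⬝ᵥ sh o s) * φ s| ≤ 3 * ε * M ^ 2 := by
    rw [abs_mul, abs_mul]
    calc _ ≤ |β - bs n χ (Gr * Gr).trace| * S * (S * (3 * M ^ 2)) := by gcongr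
      _ = |β - bs n χ (Gr * Gr).trace| * n * (3 * M ^ 2) := by rw [← h.SS]; ring
      _ ≤ ε * (3 * M ^ 2) := by gcongr
      _ = _ := by ring
  refine (abs_add_le _ _).trans (add_le_add ?_ b4)
  rw [le_div_iff₀ hS, mul_comm]
  refine (mul_le_mul_of_nonneg_left (abs_sub _ _) hS.le).trans ?_
  rw [mul_add, abs_mul, abs_mul, abs_of_pos (inv_pos.2 hT)]
  generalize (pe o μ fun s ω => θ s ω ^ 4) = Θ at *
  have Y0 := abs_nonneg (pe o μ fun s ω => ((Gr * Gr).trace * k0 o χ s ω -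
    ind o χ s * (R2 o s - Gr.trace)) * φ s)
  generalize |pe o μ fun s ω => ((Gr * Gr).trace * k0 o χ s ω -
    ind o χ s * (R2 o s - Gr.trace)) * φ s| = Y at *
  have Θ0 : 0 ≤ Θ := nonneg_of_mul_nonneg_right (Y0.trans b2) (by positivity)
  obtain ⟨K, hK⟩ : ∃ K, K = A ^ 2 * g ^ 4 * Λ ^ 2 * Q ^ 8 := ⟨_, rfl⟩
  have d1 : A ^ 2 * Λ * Q ^ 6 * Θ ≤ K * Θ := by
    refine mul_le_mul_of_nonneg_right ?_ Θ0
    calc _ = A ^ 2 * 1 * Λ ^ 1 * Q ^ 6 := by ring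
      _ ≤ A ^ 2 * g ^ 4 * Λ ^ 2 * Q ^ 8 := by
          gcongr
          · exact one_le_pow₀ hg
          · norm_num
          · norm_num
      _ = K := hK.symm
  have d2 : S * (|Dv o.p v ⬝ᵥ o.p| * ((Gr * Gr).trace)⁻¹ * Y) ≤ 2240 * (K * Θ) := by
    calc _ ≤ S * (S * ((Gr * Gr).trace)⁻¹ * Y) := by gcongr
      _ = S ^ 2 * ((Gr * Gr).trace)⁻¹ * Y := by ring
      _ ≤ 2 * Q ^ 2 * (1120 * (g ^ 4 * Λ ^ 2 * Q ^ 6) * Θ) := mul_le_mul h.T2i b2 Y0 (by positivity)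
      _ = 2240 * (1 * g ^ 4 * Λ ^ 2 * Q ^ 8 * Θ) := by ring
      _ ≤ 2240 * (A ^ 2 * g ^ 4 * Λ ^ 2 * Q ^ 8 * Θ) := by gcongr; exact one_le_pow₀ hA
      _ = _ := by rw [hK]
  have d3 : K * Θ ≤ K * (10 ^ 9 * (g * Λ * Q ^ 3 * M) ^ 4) :=
    mul_le_mul_of_nonneg_left hθ (by rw [hK]; positivity)
  have d4 : K * (10 ^ 9 * (g * Λ * Q ^ 3 * M) ^ 4) =
      10 ^ 9 * (A ^ 2 * g ^ 8 * Λ ^ 6 * Q ^ 20 * M ^ 4) := by rw [hK]; ring
  have d5 : 0 ≤ A ^ 2 * g ^ 8 * Λ ^ 6 * Q ^ 20 * M ^ 4 := by positivity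
  linarith

/-- **(M4)** -/
theorem m4 (h : Hz o x Gr χ Q A S g Λ) (hμ : SOInv μ) (m : Mo o μ M) {β ε : ℝ}
    (hβ : |β - bs n χ (Gr * Gr).trace| * n ≤ ε) :
    Op2 (O6.Er4 o (o.P μ) (χ⁻¹ • (1 : Mn n) + β • vecMulVec o.p o.p))
      ((10 ^ 15 * (A ^ 2 * g ^ 8 * Λ ^ 6 * Q ^ 20 * M ^ 4) / S + 3 * ε * M ^ 2) ^ 2) :=
  op2_of_bil fun _ _ hu hv => m4_bil h hμ m hβ hu hv

end Crest.Agent.T157.M4
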