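import Crest.Agent.T157.O4m_53
import Crest.Agent.T157.O4cDef_4
import Crest.Agent.T157.O6s_61
import Crest.Agent.T157.O6mA_17

set_option autoImplicit false
set_option linter.unusedSectionVars false

/-!
Row 157, A2 section 4 (helper53): (M4) in the words of the orbit (`O4c.Hx`, `O6.Ctx`, traces of
`(z - W)⁻¹`).
-/

noncomputable section

namespace Crest.Agent.T157.M4

open MeasureTheory Matrix Crest.Agent.Lib.OrthPoinc Filter Topology Set Real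
open Crest.Agent.T157.Oc Crest.Agent.T157.E Crest.Agent.T157.SL Crest.Agent.T157.Ks
open Crest.Agent.T157.Od Crest.Agent.T157.Oo Crest.Agent.T157.Mj

variable {n k : ℕ} {o : Oo.Orb n k} {χ : ℝ} {x : Vn n} {Q A S g Λ M : ℝ}

/-! ### the inverse of the compression -/

theorem op2_inv {ι : Type*} [Fintype ι] [DecidableEq ι] {B G : Matrix ι ι ℝ} (e : B * G = 1)
    (g0 : 0 ≤ g) (co : ∀ v, v ⬝ᵥ v ≤ g * (v ⬝ᵥ B *ᵥ v)) : Op2 G (g ^ 2) := fun v => by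
  have h1 := co (G *ᵥ v)
  rw [mulVec_mulVec, e, one_mulVec] at h1
  have h2 := cs (G *ᵥ v) v
  have h3 := dsq (G *ᵥ v)
  rcases h3.eq_or_lt with h0 | h0
  · rw [← h0]; exact mul_nonneg (sq_nonneg _) (dsq v)
  · refine le_of_mul_le_mul_left ?_ h0
    have h4 := pow_le_pow_left₀ h3 h1 2
    nlinarith [mul_le_mul_of_nonneg_left h2 (sq_nonneg g)]

theorem Bm_symm (h : o.Ok) : (Bm o)ᵀ = Bm o := by
  simp only [Bm, transpose_mul, transpose_transpose, A0_symm h, Matrix.mul_assoc]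

theorem Bm_quad (u : Fin k → ℝ) : u ⬝ᵥ Bm o *ᵥ u = o.E *ᵥ u ⬝ᵥ A0 o *ᵥ (o.E *ᵥ u) := by
  rw [Bm_vec, dot_E]

theorem exists_Gr (h : o.Ok) (g0 : 0 < g) (Q0 : 0 < Q) (hA : Op2 (A0 o) (Q ^ 2))
    (co : ∀ v, v ⬝ᵥ v ≤ g * (v ⬝ᵥ A0 o *ᵥ v)) : ∃ Gr : Matrix (Fin k) (Fin k) ℝ, Grᵀ = Gr ∧
      Bm o * Gr = 1 ∧ Op2 Gr (g ^ 2) ∧ ∀ v, v ⬝ᵥ v ≤ Q * (v ⬝ᵥ Gr *ᵥ v) := by
  have c1 : ∀ u, u ⬝ᵥ u ≤ g * (u ⬝ᵥ Bm o *ᵥ u) := fun u => by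
    rw [Bm_quad, ← E_dot h]; exact co _
  have hd := O6m.det_pos_of (Bm_symm h) (inv_pos.2 g0) fun u => by
    rw [inv_mul_le_iff₀ g0]; exact c1 u
  have e : Bm o * (Bm o)⁻¹ = 1 := mul_nonsing_inv _ (isUnit_iff_ne_zero.2 hd.ne')
  refine ⟨(Bm o)⁻¹, by rw [transpose_nonsing_inv, Bm_symm h], e, op2_inv e g0.le c1, fun v => ?_⟩
  have h1 := O6m.psd_am (Bm_symm h) (fun u => nonneg_of_mul_nonneg_right ((dsq u).trans (c1 u)) g0)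
    (inv_pos.2 Q0) ((Bm o)⁻¹ *ᵥ v) v
  have h2 : v ⬝ᵥ Bm o *ᵥ v ≤ Q * (v ⬝ᵥ v) := by
    rw [Bm_quad, ← E_dot h]; exact O6m.quad_le hA Q0.le _
  rw [symm_dot (Bm_symm h), mulVec_mulVec, e, one_mulVec, dotProduct_comm ((Bm o)⁻¹ *ᵥ v) v] at h1
  have h3 : Q⁻¹ / 2 * (v ⬝ᵥ Bm o *ᵥ v) ≤ v ⬝ᵥ v / 2 :=
    (mul_le_mul_of_nonneg_left h2 (by positivity)).trans_eq (by field_simp)
  have h4 : v ⬝ᵥ (Bm o)⁻¹ *ᵥ v / (2 * Q⁻¹) = Q * (v ⬝ᵥ (Bm o)⁻¹ *ᵥ v) / 2 := by field_simp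
  linarith

/-! ### traces -/

theorem tr_Q (h : o.Ok) (nk : (n : ℝ) ≤ k + 2) {X : Mn n} {c : ℝ} (c0 : 0 ≤ c) (hX : Op2 X (c ^ 2)) :
    |(Qm o * X).trace| ≤ 2 * c := by
  have QQ : Qm o * Qm o = Qm o := ext_of_mulVec_single fun i => by rw [← mulVec_mulVec, Q_Q h]
  have e : (Qm o * X).trace = ∑ i, Qm o *ᵥ Pi.single i 1 ⬝ᵥ X *ᵥ (Qm o *ᵥ Pi.single i 1) := by
    rw [← QQ, Matrix.mul_assoc, trace_mul_comm, QQ]
    refine Finset.sum_congr rfl fun i _ => ?_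
    rw [Q_single, mulVec_mulVec, mulVec_mulVec]; simp
  rw [e]
  refine (Finset.abs_sum_le_sum_abs _ _).trans ((Finset.sum_le_sum fun i _ =>
    (O6m.abs_quad hX c0 _).trans_eq (by rw [Qe_dot h])).trans ?_)
  rw [← Finset.mul_sum, sum_Qii h]
  nlinarith

theorem tr_cmp (h : o.Ok) (nk : (n : ℝ) ≤ k + 2) {G : Mn n} {Gr : Matrix (Fin k) (Fin k) ℝ}
    (g1 : 1 ≤ g) (Q1 : 1 ≤ Q) (hA : Op2 (A0 o) (Q ^ 2)) (e : A0 o * G = 1) (hG : Op2 G (g ^ 2))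
    (er : Bm o * Gr = 1) (hr : Op2 Gr (g ^ 2)) : |G.trace - Gr.trace| ≤ 4 * Q * g ^ 2 ∧
      |(G * G).trace - (Gr * Gr).trace| ≤ 8 * Q * g ^ 3 := by
  set Y : Mn n := o.E * Gr * o.Eᵀ with hY
  have g0 : 0 ≤ g := by linarith
  have Q0 : 0 ≤ Q := by linarith
  have e' : G * A0 o = 1 := mul_eq_one_comm.1 e
  have er' : Gr * (o.Eᵀ * A0 o * o.E) = 1 := mul_eq_one_comm.1 er
  have oY : Op2 Y (g ^ 2) := fun v => by
    rw [hY, ← mulVec_mulVec, ← mulVec_mulVec, E_dot h]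
    exact (hr _).trans (mul_le_mul_of_nonneg_left (Et_le h v) (sq_nonneg _))
  have x1 : (1 - Y * A0 o) * o.E = 0 := by
    have : Y * A0 o * o.E = o.E * (Gr * (o.Eᵀ * A0 o * o.E)) := by simp only [hY, Matrix.mul_assoc]
    rw [Matrix.sub_mul, this, er', Matrix.mul_one, Matrix.one_mul, sub_self]
  have x2 : G - Y = (1 - Y * A0 o) * Qm o * G := by
    rw [Qm, Matrix.mul_sub, ← Matrix.mul_assoc, x1, Matrix.zero_mul, sub_zero, Matrix.mul_one,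
      Matrix.sub_mul, Matrix.one_mul, Matrix.mul_assoc Y, e, Matrix.mul_one]
  have o1 : ∀ v, (1 - Y * A0 o) *ᵥ v ⬝ᵥ (1 - Y * A0 o) *ᵥ v ≤ (2 * g * Q * √(v ⬝ᵥ v)) ^ 2 := fun v => by
    have hv : v ⬝ᵥ v ≤ √(v ⬝ᵥ v) ^ 2 := (Real.sq_sqrt (dsq v)).ge
    have s0 := Real.sqrt_nonneg (v ⬝ᵥ v)
    have h2 := op2_le oY (op2_le hA hv)
    have h3 := tri (b := g * (Q * √(v ⬝ᵥ v))) s0 (by positivity) hv (v := -(Y *ᵥ (A0 o *ᵥ v)))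
      (by rw [neg_dotProduct_neg]; exact h2)
    rw [sub_mulVec, one_mulVec, ← mulVec_mulVec, sub_eq_add_neg]
    refine h3.trans (pow_le_pow_left₀ (by positivity) ?_ 2)
    have : 1 ≤ g * Q := one_le_mul_of_one_le_of_one_le g1 Q1
    nlinarith
  have tY : Y.trace = Gr.trace := by rw [hY, trace_mul_comm, ← Matrix.mul_assoc, h.iso, Matrix.one_mul]
  have YY : (Y * Y).trace = (Gr * Gr).trace := by
    have : Y * Y = o.E * (Gr * Gr) * o.Eᵀ := by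
      calc Y * Y = o.E * Gr * (o.Eᵀ * o.E) * Gr * o.Eᵀ := by simp only [hY, Matrix.mul_assoc]
        _ = _ := by rw [h.iso, Matrix.mul_one, Matrix.mul_assoc o.E]
    rw [this, trace_mul_comm, ← Matrix.mul_assoc, h.iso, Matrix.one_mul]
  constructor
  · rw [← tY, ← trace_sub, x2, Matrix.mul_assoc, trace_mul_comm, Matrix.mul_assoc]
    refine (tr_Q h nk (c := g * (2 * g * Q)) (by positivity) fun v => ?_).trans_eq (by ring)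
    rw [← mulVec_mulVec]
    refine (op2_le hG (o1 v)).trans_eq ?_
    rw [mul_pow g, mul_pow _ √_, Real.sq_sqrt (dsq v)]; ring
  · have x3 : (G * G).trace - (Y * Y).trace = ((G - Y) * (G + Y)).trace := by
      rw [Matrix.sub_mul, Matrix.mul_add, Matrix.mul_add, trace_sub, trace_add, trace_add,
        trace_mul_comm G Y]; ring
    rw [← YY, x3, x2, Matrix.mul_assoc, Matrix.mul_assoc, trace_mul_comm, Matrix.mul_assoc]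
    refine (tr_Q h nk (c := g * (2 * g * (2 * g * Q))) (by positivity) fun v => ?_).trans_eq (by ring)
    rw [← mulVec_mulVec, ← mulVec_mulVec, add_mulVec]
    have s0 := Real.sqrt_nonneg (v ⬝ᵥ v)
    refine (op2_le hG (tri (by positivity) (by positivity) (op2_le hG (o1 v))
      (op2_le oY (o1 v)))).trans_eq ?_
    linear_combination (16 * g ^ 6 * Q ^ 2) * Real.sq_sqrt (dsq v)

/-- **(M4)** with the traces of `G = (z - W)⁻¹`; `β` is exact, `β n` is close to `2` -/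
theorem m4x {μ : Measure (Mat k)} [IsProbabilityMeasure μ] (h : Hy o x χ Q A S) (k4 : 4 ≤ k)
    (Qn : Q ≤ S ^ 2) {G : Mn n} (e : A0 o * G = 1) (g1 : 1 ≤ g)
    (co : ∀ v, v ⬝ᵥ v ≤ g * (v ⬝ᵥ A0 o *ᵥ v)) {τ1 τ2 : ℝ} (t1 : |n * χ - G.trace| ≤ τ1)
    (t2 : |(1 - χ ^ 2) * (G * G).trace - n * χ ^ 2| ≤ τ2) (L1 : 1 ≤ Λ)
    (hΛ : τ1 + 4 * Q * g ^ 2 ≤ Λ * S) (hμ : SOInv μ) (m : Mo o μ M) :
    ∃ β : ℝ, |β * n - 2| * n ≤ Q ^ 4 * (τ2 + 8 * Q * g ^ 3) ∧ ∀ β' ε : ℝ, |β' - β| * n ≤ ε →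
      Op2 (O6.Er4 o (o.P μ) (χ⁻¹ • (1 : Mn n) + β' • vecMulVec o.p o.p))
        ((10 ^ 15 * (A ^ 2 * g ^ 8 * Λ ^ 6 * Q ^ 20 * M ^ 4) / S + 3 * ε * M ^ 2) ^ 2) := by
  have Q1 := h.Q1
  obtain ⟨Gr, r1, r2, r3, r4⟩ := exists_Gr h.ok (by linarith) (by linarith) h.hA co
  obtain ⟨c1, c2⟩ := tr_cmp h.ok h.nk g1 Q1 h.hA e (op2_inv e (by linarith) co) r2 r3
  have hz : Hz o x Gr χ Q A S g Λ := { h with
    k4 := k4, Qn := Qn, symmG := r1, inv := r2, hG := r3, co := r4, g1 := g1, L1 := L1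
    tr := ((abs_sub_le _ G.trace _).trans (add_le_add t1 c1)).trans hΛ }
  refine ⟨bs n χ (Gr * Gr).trace, ?_, fun β' ε hβ => m4 hz hμ m hβ⟩
  have n0 := hz.n0
  have χ0 := h.χ0
  have χ1 := hz.χ1 n0
  have T0 := hz.T2_pos
  have Ti := hz.T2i
  set T := (Gr * Gr).trace
  have e1 : (bs n χ T * n - 2) * n =
      2 * χ⁻¹ ^ 2 * (S ^ 2 * T⁻¹) * ((1 - χ ^ 2) * T - n * χ ^ 2) := by
    rw [h.SS, bs]; field_simp; ring
  have e2 : |(1 - χ ^ 2) * T - n * χ ^ 2| ≤ τ2 + 8 * Q * g ^ 3 := by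
    have : (1 - χ ^ 2) * T - n * χ ^ 2 =
      ((1 - χ ^ 2) * (G * G).trace - n * χ ^ 2) - (1 - χ ^ 2) * ((G * G).trace - T) := by ring
    rw [this]
    refine (abs_sub _ _).trans (add_le_add t2 ?_)
    have a1 : |1 - χ ^ 2| ≤ 1 := abs_le.2 ⟨by nlinarith, by nlinarith⟩
    rw [abs_mul]
    exact (mul_le_mul a1 c2 (abs_nonneg _) zero_le_one).trans_eq (one_mul _)
  have e3 : χ⁻¹ ^ 2 ≤ (Q / 2) ^ 2 := sq_le_of_abs hz.χi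
  rw [← abs_of_pos n0, ← abs_mul, abs_of_pos n0, e1, abs_mul, abs_of_nonneg (by positivity)]
  refine mul_le_mul ?_ e2 (abs_nonneg _) (by positivity)
  exact (mul_le_mul (mul_le_mul_of_nonneg_left e3 zero_le_two) Ti (by positivity)
    (by positivity)).trans_eq (by ring)

theorem B0_symm (a β : ℝ) (p : Vn n) :
    (a • (1 : Mn n) + β • vecMulVec p p)ᵀ = a • (1 : Mn n) + β • vecMulVec p p := by
  simp only [transpose_add, transpose_smul, transpose_one, transpose_vecMulVec]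

theorem B0_op {a β : ℝ} {p : Vn n} (ha : |a| ≤ 2) (hβ : |β| * (p ⬝ᵥ p) ≤ 1) :
    Op2 (a • (1 : Mn n) + β • vecMulVec p p) 9 := by
  refine (show (3 : ℝ) ^ 2 = 9 by norm_num) ▸ op2_of_bil fun u v hu hv => ?_
  have h1 : |v ⬝ᵥ u| ≤ 1 * 1 := abs_dot_le zero_le_one zero_le_one (by simpa) (by simpa)
  have hp : p ⬝ᵥ p ≤ √(p ⬝ᵥ p) ^ 2 := (Real.sq_sqrt (dsq p)).ge
  have h2 := abs_dot_le zero_le_one (Real.sqrt_nonneg _) (by simpa : v ⬝ᵥ v ≤ 1 ^ 2) hp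
  have h3 := abs_dot_le (Real.sqrt_nonneg _) zero_le_one hp (by simpa : u ⬝ᵥ u ≤ 1 ^ 2)
  have h4 := mul_le_mul h2 h3 (abs_nonneg _) (by positivity)
  rw [one_mul, mul_one, Real.mul_self_sqrt (dsq p)] at h4
  rw [add_mulVec, smul_mulVec, smul_mulVec, one_mulVec, vecMulVec_mulVec, dotProduct_add,
    dotProduct_smul, dotProduct_smul, op_smul_eq_smul, dotProduct_smul]
  simp only [smul_eq_mul]
  refine (abs_add_le _ _).trans ?_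
  rw [abs_mul, abs_mul, abs_mul, mul_comm |p ⬝ᵥ u|]
  nlinarith [mul_le_mul ha h1 (abs_nonneg _) zero_le_two,
    mul_le_mul_of_nonneg_left h4 (abs_nonneg β)]

/-! ### the moments -/

theorem mom4 {w : Cube n → ℝ} (hw : Wt w) {ψ : Cube n → Vn n} {c v : Vn n} {v4 κ d : ℝ}
    (h4 : var w (fun s => (v ⬝ᵥ ψ s - mean w fun s => v ⬝ᵥ ψ s) ^ 2) ≤ v4 * (v ⬝ᵥ v) ^ 2)
    (hκ : CB w ψ κ) (hd : (meanV w ψ - c) ⬝ᵥ (meanV w ψ - c) ≤ d) :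
    mean w (fun s => (v ⬝ᵥ (ψ s - c)) ^ 4) ≤ 8 * (v4 + κ ^ 2 + d ^ 2) * (v ⬝ᵥ v) ^ 2 := by
  set m := mean w fun s => v ⬝ᵥ ψ s with hm
  have h1 := mean_sq_eq hw fun s => (v ⬝ᵥ ψ s - m) ^ 2
  have h2 : mean w (fun s => (v ⬝ᵥ ψ s - m) ^ 2) ≤ κ * (v ⬝ᵥ v) := by
    have := hκ v
    rwa [covMat_quad, ← var_eq_cov] at this
  have h3 := pow_le_pow_left₀ (hw.mean_nonneg fun s => sq_nonneg _) h2 2
  have h5 : (m - v ⬝ᵥ c) ^ 2 ≤ v ⬝ᵥ v * d := by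
    rw [hm, ← meanV_dot, ← dotProduct_sub]
    exact (cs _ _).trans (mul_le_mul_of_nonneg_left hd (dsq v))
  have h6 := pow_le_pow_left₀ (sq_nonneg _) h5 2
  have h7 : mean w (fun s => (v ⬝ᵥ (ψ s - c)) ^ 4) ≤
      mean w fun s => 8 * ((v ⬝ᵥ ψ s - m) ^ 2) ^ 2 + 8 * ((m - v ⬝ᵥ c) ^ 2) ^ 2 :=
    hw.mean_mono fun s => by
      have := pow4_le (v ⬝ᵥ ψ s - m) (m - v ⬝ᵥ c)
      rw [sub_add_sub_cancel] at this
      rw [dotProduct_sub]; linarith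
  rw [mean_add, mean_const_mul, hw.mean_const, h1] at h7
  linarith

theorem Qf_sq {f1 f2 : Vn n} (h : o.Ok) (hq : Qm o = vecMulVec f1 f1 + vecMulVec f2 f2) (y : Vn n) :
    (Qm o *ᵥ y ⬝ᵥ Qm o *ᵥ y) ^ 2 ≤ 2 * (f1 ⬝ᵥ y) ^ 4 + 2 * (f2 ⬝ᵥ y) ^ 4 := by
  rw [QQ_dot h, hq, add_mulVec, vecMulVec_mulVec, vecMulVec_mulVec, add_dotProduct, op_smul_eq_smul,
    op_smul_eq_smul, smul_dotProduct, smul_dotProduct, smul_eq_mul, smul_eq_mul]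
  nlinarith [sq_nonneg ((f1 ⬝ᵥ y) ^ 2 - (f2 ⬝ᵥ y) ^ 2)]

theorem c_an {f : Cube n → Mat k → ℝ} (hf : ∀ s, Continuous (f s)) :
    Continuous fun U => mean (o.w U) fun s => f s U :=
  c_mean (v := o.w) (f := fun U s => f s U) Orb.c_w Orb.wt hf

/-- what the moments need from the a priori list -/
structure Cy (o : Oo.Orb n k) (μ : Measure (Mat k)) (c : Cs) (R : ℝ) : Prop where
  ok : o.Ok
  inv : SOInv μ
  nn : c.Nn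
  cr : ∃ a, ∀ U ∈ SO k, U ∈ o.G (crude a R)
  PG : 10 ^ 4 * R ^ 2 * (o.P μ).real (o.G c)ᶜ ≤ 1

theorem Cy.of_ctx {μ : Measure (Mat k)} [IsProbabilityMeasure μ] {c : Cs} {R η K δ : ℝ}
    (h : O6.Ctx o μ c R η K δ) : Cy o μ c R :=
  ⟨h.ok, h.inv, h.nn, ⟨_, fun _ => h.crG⟩, (mul_le_mul_of_nonneg_right
    (O6.le_MM (x := 10 ^ 4) h.R1 2 (by norm_num) (by norm_num)) measureReal_nonneg).trans h.PG⟩

section
variable {μ : Measure (Mat k)} [IsProbabilityMeasure μ] {c : Cs} {R : ℝ} (h : Cy o μ c R)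
include h

theorem ctx_int {f : Mat k → ℝ} (hf : Continuous f) {B b : ℝ} (B0 : 0 ≤ B) (b0 : 0 ≤ b)
    (h1 : ∀ U ∈ o.G c, f U ≤ B * b) (h2 : ∀ a, ∀ U ∈ o.G (crude a R), f U ≤ 10 ^ 4 * R ^ 2 * b) :
    ∫ U, f U ∂o.P μ ≤ (B + 1) * b := by
  have := Orb.P_prob h.inv h.ok
  obtain ⟨a, ha⟩ := h.cr
  refine (int_le_bad (Orb.P_mem h.inv) hf.continuousOn (mul_nonneg B0 b0) (o.G c)ᶜ
    (fun U _ hU => h1 U (not_not.1 hU)) fun U hU => h2 a U (ha U hU)).trans ?_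
  nlinarith [mul_le_mul_of_nonneg_left h.PG b0]

theorem ctx_s (v : Vn n) : o.an μ (fun s _ => (v ⬝ᵥ sh o s) ^ 4) ≤
    (8 * (c.v4 + c.k1 ^ 2 + c.d0 ^ 2) + 1) * (v ⬝ᵥ v) ^ 2 := by
  have := h.nn.v4
  have key : ∀ {c' : Cs} {U : Mat k}, U ∈ o.G c' → mean (o.w U) (fun s => (v ⬝ᵥ sh o s) ^ 4) ≤
      8 * (c'.v4 + c'.k1 ^ 2 + c'.d0 ^ 2) * (v ⬝ᵥ v) ^ 2 := fun {c' U} hU =>
    mom4 (c := o.p) (Orb.wt U) (hU.2.v4 v) hU.2.k1 hU.2.d0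
  refine ctx_int h (c_an (f := fun s _ => (v ⬝ᵥ sh o s) ^ 4) fun s => continuous_const)
    (by positivity) (sq_nonneg _)
    (fun U hU => key hU) fun a U hU => (key hU).trans (mul_le_mul_of_nonneg_right ?_ (sq_nonneg _))
  simp only [crude]; nlinarith [sq_nonneg R]

theorem ctx_y (v : Vn n) : o.an μ (fun s U => (v ⬝ᵥ yv o s U) ^ 4) ≤
    (8 * (c.v4' + c.k2 ^ 2 + c.e0 ^ 2) + 1) * (v ⬝ᵥ v) ^ 2 := by
  have := h.nn.v4'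
  have key : ∀ {c' : Cs} {U : Mat k}, U ∈ o.G c' → mean (o.w U) (fun s => (v ⬝ᵥ yv o s U) ^ 4) ≤
      8 * (c'.v4' + c'.k2 ^ 2 + c'.e0 ^ 2) * (v ⬝ᵥ v) ^ 2 := fun {c' U} hU => by
    simpa only [yv, sh, mulVec_sub] using mom4 (c := o.A U *ᵥ o.p) (Orb.wt U) (hU.2.v4' v) hU.2.k2
      (by rw [meanV_fA, ← mulVec_sub]; exact hU.2.e0)
  refine ctx_int h (c_an (f := fun s U => (v ⬝ᵥ yv o s U) ^ 4) fun s => by fun_prop)
    (by positivity) (sq_nonneg _)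
    (fun U hU => key hU) fun a U hU => (key hU).trans (mul_le_mul_of_nonneg_right ?_ (sq_nonneg _))
  simp only [crude]; nlinarith [sq_nonneg R]

theorem ctx_Q {f1 f2 : Vn n} (hq : Qm o = vecMulVec f1 f1 + vecMulVec f2 f2) (n1 : f1 ⬝ᵥ f1 = 1)
    (n2 : f2 ⬝ᵥ f2 = 1) {y : Cube n → Mat k → Vn n} (hy : ∀ s, Continuous (y s)) {B : ℝ}
    (hB : ∀ v, o.an μ (fun s U => (v ⬝ᵥ y s U) ^ 4) ≤ B * (v ⬝ᵥ v) ^ 2) :
    o.an μ (fun s U => (Qm o *ᵥ y s U ⬝ᵥ Qm o *ᵥ y s U) ^ 2) ≤ 4 * B := by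
  have := Orb.P_prob h.inv h.ok
  have hm := Orb.P_mem (o := o) h.inv
  have ci : ∀ v : Vn n, Integrable (fun U => mean (o.w U) fun s => (v ⬝ᵥ y s U) ^ 4) (o.P μ) := fun v =>
    O6.int_of hm (c_an (f := fun s U => (v ⬝ᵥ y s U) ^ 4) fun s => by
      have := hy s; fun_prop).continuousOn
  have h1 := hB f1
  have h2 := hB f2
  rw [n1] at h1
  rw [n2] at h2
  refine (integral_mono (O6.int_of hm (c_an (f := fun s U => (Qm o *ᵥ y s U ⬝ᵥ Qm o *ᵥ y s U) ^ 2)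
    fun s => by have := hy s; fun_prop).continuousOn) (((ci f1).const_mul 2).add ((ci f2).const_mul 2))
      fun U => ((Orb.wt U).mean_mono fun s => Qf_sq h.ok hq (y s U)).trans_eq ?_).trans ?_
  · rw [mean_add, mean_const_mul, mean_const_mul]; rfl
  · simp only [Pi.add_apply]
    rw [integral_add ((ci f1).const_mul 2) ((ci f2).const_mul 2), integral_const_mul,
      integral_const_mul]
    unfold Oo.Orb.an at h1 h2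
    linarith

/-- the moments of (M4) from the a priori list -/
theorem Mo.of_ctx {f1 f2 : Vn n} (hq : Qm o = vecMulVec f1 f1 + vecMulVec f2 f2) (n1 : f1 ⬝ᵥ f1 = 1)
    (n2 : f2 ⬝ᵥ f2 = 1) (M1 : 1 ≤ M) (hs : 32 * (c.v4 + c.k1 ^ 2 + c.d0 ^ 2) + 4 ≤ M ^ 4)
    (hy : 32 * (c.v4' + c.k2 ^ 2 + c.e0 ^ 2) + 4 ≤ M ^ 4) : Mo o μ M where
  M1 := M1
  mz := (ctx_Q h hq n1 n2 (y := fun s _ => sh o s) (fun _ => continuous_const) (ctx_s h)).trans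
    (by linarith)
  my := (ctx_Q h hq n1 n2 (fun s => cont_yv s) (ctx_y h)).trans (by linarith)
  mv := fun v => (ctx_s h v).trans (mul_le_mul_of_nonneg_right (by
    have := h.nn.v4
    nlinarith [sq_nonneg c.k1, sq_nonneg c.d0]) (sq_nonneg _))

end

/-! ### the frame -/

theorem hy_of_hx {f1 f2 : Vn n} {X κ η C : ℝ} (h : O4c.Hx o x f1 f2 χ X κ η C) (A1 : 1 ≤ A)
    (hA : n * (κ ^ 2 + C ^ 2) ≤ (A * κ * X) ^ 2) : Hy o x χ 6 A √n := by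
  obtain ⟨r0, e1, e2, f⟩ := h.fr
  have n4 : (4 : ℝ) ≤ n := by exact_mod_cast f.n4
  have SS : √(n : ℝ) ^ 2 = n := Real.sq_sqrt (by linarith)
  refine ⟨h.ok, f.hp, f.hh, f.hz, h.chi, by linarith [f.lo], by norm_num, A1,
    Real.sqrt_pos.2 (by linarith), SS, by rw [← h.dim]; push_cast; rfl,
    by rw [show (6 : ℝ) ^ 2 = 36 by norm_num]; exact f.opA h.ok, fun i => ?_⟩
  have k0 := h.k0
  have h1 : (κ * |f2 i|) ^ 2 ≤ (C * |f1 i|) ^ 2 := pow_le_pow_left₀ (by positivity) (h.f2 i) 2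
  rw [mul_pow, mul_pow, sq_abs, sq_abs] at h1
  have h2 : x i ^ 2 ≤ (1 + |x i|) ^ 2 := by nlinarith [abs_nonneg (x i), sq_abs (x i)]
  rw [SS, h.hq, Matrix.add_apply, vecMulVec_apply, vecMulVec_apply, mul_pow]
  refine le_trans (le_of_mul_le_mul_left ?_ (pow_pos k0 2)) (mul_le_mul_of_nonneg_left h2 (sq_nonneg A))
  rw [h.hx i]
  nlinarith [mul_le_mul_of_nonneg_left h1 (by linarith : (0 : ℝ) ≤ n),
    mul_le_mul_of_nonneg_right hA (sq_nonneg (f1 i))]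

theorem pp_of_hx {f1 f2 : Vn n} {X κ η C : ℝ} (h : O4c.Hx o x f1 f2 χ X κ η C) :
    4 * (o.p ⬝ᵥ o.p) ≤ n := by
  obtain ⟨r0, e1, e2, f⟩ := h.fr
  rw [f.pe1, smul_dotProduct, dotProduct_smul, f.e11, smul_eq_mul, smul_eq_mul]; linarith [f.pn]

section
variable {μ : Measure (Mat k)} [IsProbabilityMeasure μ] {f1 f2 : Vn n} {X κ η C : ℝ}
  (h : O4c.Hx o x f1 f2 χ X κ η C) (n6 : 6 ≤ n) (A1 : 1 ≤ A)
  (hA : n * (κ ^ 2 + C ^ 2) ≤ (A * κ * X) ^ 2) {G : Mn n} (e : A0 o * G = 1) (g1 : 1 ≤ g)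
  (co : ∀ v, v ⬝ᵥ v ≤ g * (v ⬝ᵥ A0 o *ᵥ v)) {τ1 τ2 ε : ℝ} (t1 : |n * χ - G.trace| ≤ τ1)
  (t2 : |(1 - χ ^ 2) * (G * G).trace - n * χ ^ 2| ≤ τ2) (L1 : 1 ≤ Λ)
  (hΛ : τ1 + 24 * g ^ 2 ≤ Λ * √n) (hε : 1296 * (τ2 + 48 * g ^ 3) ≤ ε * n)
include h n6 A1 hA e g1 co t1 t2 L1 hΛ hε

theorem m4Y {c : Cs} {R : ℝ} (hc : Cy o μ c R) (M1 : 1 ≤ M)
    (hs : 32 * (c.v4 + c.k1 ^ 2 + c.d0 ^ 2) + 4 ≤ M ^ 4)
    (hy : 32 * (c.v4' + c.k2 ^ 2 + c.e0 ^ 2) + 4 ≤ M ^ 4) :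
    ∃ β : ℝ, |β * n - 2| ≤ ε ∧ ∀ β' ε' : ℝ, |β' - β| * n ≤ ε' →
      Op2 (O6.Er4 o (o.P μ) (χ⁻¹ • (1 : Mn n) + β' • vecMulVec o.p o.p))
        ((10 ^ 31 * (A ^ 2 * g ^ 8 * Λ ^ 6 * M ^ 4) / √n + 3 * ε' * M ^ 2) ^ 2) := by
  have hy' := hy_of_hx h A1 hA
  have n6' : (6 : ℝ) ≤ n := by exact_mod_cast n6
  have dim := h.dim
  obtain ⟨β, b1, b2⟩ := m4x hy' (by omega) (by rw [hy'.SS]; exact n6') e g1 co t1 t2 L1
    (by linarith) hc.inv (Mo.of_ctx hc h.hq h.n1 h.n2 M1 hs hy)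
  refine ⟨β, le_of_mul_le_mul_right (by linarith) (by linarith : (0 : ℝ) < n), fun β' ε' hβ => ?_⟩
  have e0 : 0 ≤ ε' := le_trans (by positivity) hβ
  refine O6m.op_mono (b2 β' ε' hβ) (pow_le_pow_left₀ (by positivity) (add_le_add
    (div_le_div_of_nonneg_right ?_ (Real.sqrt_nonneg _)) le_rfl) 2)
  have : 0 ≤ A ^ 2 * g ^ 8 * Λ ^ 6 * M ^ 4 := by positivity
  linarith

/-- **(M4) in the words of the orbit**, exact `β`: the inputs `B3`, `m4` of `O6.M2H` -/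
theorem m4H (ε1 : ε ≤ 1) {c : Cs} {R η' K δ : ℝ} (hc : O6.Ctx o μ c R η' K δ) (M1 : 1 ≤ M)
    (hs : 32 * (c.v4 + c.k1 ^ 2 + c.d0 ^ 2) + 4 ≤ M ^ 4)
    (hy : 32 * (c.v4' + c.k2 ^ 2 + c.e0 ^ 2) + 4 ≤ M ^ 4) :
    ∃ β : ℝ, |β * n - 2| ≤ ε ∧ Op2 (χ⁻¹ • (1 : Mn n) + β • vecMulVec o.p o.p) 9 ∧
      Op2 (O6.Er4 o (o.P μ) (χ⁻¹ • (1 : Mn n) + β • vecMulVec o.p o.p))
        ((10 ^ 31 * (A ^ 2 * g ^ 8 * Λ ^ 6 * M ^ 4) / √n) ^ 2) := by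
  obtain ⟨β, b1, b2⟩ := m4Y h n6 A1 hA e g1 co t1 t2 L1 hΛ hε (Cy.of_ctx hc) M1 hs hy
  have pp := pp_of_hx h
  obtain ⟨r0, e1, e2, f⟩ := h.fr
  refine ⟨β, b1, B0_op ?_ ?_, by simpa only [mul_zero, zero_mul, add_zero] using b2 β 0 (by simp)⟩
  · have := f.inv_le h.ok
    rw [abs_of_pos this.1]; exact this.2
  · have b4 : |β| * n ≤ 3 := by
      have := abs_add_le (β * n - 2) 2
      rw [sub_add_cancel, abs_mul, abs_of_nonneg (Nat.cast_nonneg (α := ℝ) n), abs_two] at this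
      linarith
    nlinarith [mul_le_mul_of_nonneg_left pp (abs_nonneg β)]

/-- **(M4)** with `β = 2 / n` -/
theorem m4Z (hμ : SOInv μ) {c : Cs} (nn : c.Nn) (hG : 10 ^ 8 * (n : ℝ) ^ 2 * (o.P μ).real (o.G c)ᶜ ≤ 1)
    (M1 : 1 ≤ M) (hs : 32 * (c.v4 + c.k1 ^ 2 + c.d0 ^ 2) + 4 ≤ M ^ 4)
    (hy : 32 * (c.v4' + c.k2 ^ 2 + c.e0 ^ 2) + 4 ≤ M ^ 4) :
    Op2 (O6.Er4 o (o.P μ) (χ⁻¹ • (1 : Mn n) + (2 / (n : ℝ)) • vecMulVec o.p o.p))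
      ((10 ^ 31 * (A ^ 2 * g ^ 8 * Λ ^ 6 * M ^ 4) / √n + 3 * ε * M ^ 2) ^ 2) := by
  have n6' : (6 : ℝ) ≤ n := by exact_mod_cast n6
  have pp := pp_of_hx h
  have hc : Cy o μ c (36 * n) := ⟨h.ok, hμ, nn, ⟨6, fun U hU => Orb.crude_all h.ok
    (hy_of_hx h A1 hA).hA (by linarith) (by linarith) (by linarith) (by linarith) hU⟩, by
      nlinarith [mul_nonneg (sq_nonneg (n : ℝ)) (measureReal_nonneg (μ := o.P μ) (s := (o.G c)ᶜ))]⟩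
  obtain ⟨β, b1, b2⟩ := m4Y h n6 A1 hA e g1 co t1 t2 L1 hΛ hε hc M1 hs hy
  refine b2 _ ε ?_
  rw [← abs_of_nonneg (Nat.cast_nonneg (α := ℝ) n), ← abs_mul, abs_of_nonneg (Nat.cast_nonneg (α := ℝ) n),
    sub_mul, div_mul_cancel₀ _ (by linarith), abs_sub_comm]
  exact b1

end

end Crest.Agent.T157.M4
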