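import Crest.Agent.T157.KbXdA_75
import Crest.Agent.T157.KbTay_31

/-!
# Row 157, A2 section 4 (helper12): scalar and pointwise facts for `O4c.Hx`
-/

set_option autoImplicit false

noncomputable section

namespace Crest.Agent.T157.O4c.X12

open Filter Real Set
open Crest.Agent.T157.Kb Crest.Agent.T157.Kb.Xd75

/-! ### pointwise -/

lemma M8_of_le {x : ℝ} (h : |x| ≤ 1) : Mx8 x = x ^ 8 := by
  refine min_eq_left ?_
  have : x ^ 2 ≤ 1 := by rw [← sq_abs]; exact pow_le_one₀ (abs_nonneg _) h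
  calc x ^ 8 = (x ^ 2) ^ 4 := by ring
    _ ≤ x ^ 2 := pow_le_of_le_one (sq_nonneg _) this (by norm_num)

lemma M8_of_ge {x : ℝ} (h : 1 ≤ |x|) : Mx8 x = x ^ 2 := by
  refine min_eq_right ?_
  have : 1 ≤ x ^ 2 := by rw [← sq_abs]; exact one_le_pow₀ h
  calc x ^ 2 ≤ (x ^ 2) ^ 4 := le_self_pow₀ this (by norm_num)
    _ = x ^ 8 := by ring

lemma der_le (x : ℝ) {m l : ℝ} (hl : l ≤ 1 / 2) (hm : |m - 1| ≤ l) :
    |-(x ^ 2 * tanh (m * x) ^ 2) + m ^ 2 * tanh x ^ 4 + 2 / 3 * tanh x ^ 6| ≤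
      3 * l * tanh x ^ 6 + 30 * Mx8 x := by
  have l0 : 0 ≤ l := (abs_nonneg _).trans hm
  obtain ⟨m1, m2⟩ := abs_le.1 hm
  have p6 : 0 ≤ tanh x ^ 6 := by positivity
  have lp := mul_nonneg l0 p6
  have q2 : m ^ 2 ≤ 9 / 4 := by nlinarith
  rcases le_total |x| 1 with h | h
  · rw [M8_of_le h]
    have x8 : 0 ≤ x ^ 8 := by positivity
    have x6 : 0 ≤ x ^ 6 := by positivity
    have a := mul_le_mul_of_nonneg_left (Tay.p2 (m * x)) (sq_nonneg x)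
    rw [← abs_of_nonneg (sq_nonneg x), ← abs_mul, abs_of_nonneg (sq_nonneg x)] at a
    have b := mul_le_mul_of_nonneg_left (Tay.p4 x) (sq_nonneg m)
    rw [← abs_of_nonneg (sq_nonneg m), ← abs_mul, abs_of_nonneg (sq_nonneg m)] at b
    have c := abs_le.1 (Tay.p6 x)
    have q6 : m ^ 6 ≤ 12 := by
      have := pow_le_pow_left₀ (sq_nonneg m) q2 3
      rw [← pow_mul] at this; linarith
    have q4 : (m ^ 2 - 1) ^ 2 ≤ 4 * l := by
      have : (m - 1) ^ 2 ≤ l ^ 2 := sq_le_sq' m1 m2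
      have h2 : (m + 1) ^ 2 ≤ 25 / 4 := by nlinarith
      nlinarith [mul_le_mul this h2 (sq_nonneg _) (sq_nonneg _)]
    have d1 := mul_le_mul_of_nonneg_right q6 x8
    have d2 := mul_le_mul_of_nonneg_right q2 x8
    have d3 := mul_le_mul_of_nonneg_right q4 x6
    have d4 := mul_nonneg (sq_nonneg (m ^ 2 - 1)) x6
    have d5 := mul_le_mul_of_nonneg_left c.1 l0
    have d6 := mul_le_mul_of_nonneg_right hl x8
    rw [abs_le] at a b ⊢
    constructor <;> linarith [a.1, a.2, b.1, b.2, c.1, c.2]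
  · rw [M8_of_ge h]
    have t1 := tanh_sq_lt_one x
    have t2 := Tay.sq_le x
    have t0 := sq_nonneg (tanh x)
    have a1 := mul_le_mul_of_nonneg_left (tanh_sq_lt_one (m * x)).le (sq_nonneg x)
    have a0 := mul_nonneg (sq_nonneg x) (sq_nonneg (tanh (m * x)))
    have b1 : tanh x ^ 4 ≤ x ^ 2 := by nlinarith
    have b2 : tanh x ^ 6 ≤ x ^ 2 := by nlinarith [mul_le_mul_of_nonneg_left t1.le (sq_nonneg (tanh x ^ 2))]
    have b0 : 0 ≤ m ^ 2 * tanh x ^ 4 := by positivity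
    have b3 := mul_le_mul q2 b1 (by positivity) (by norm_num)
    rw [abs_le]
    constructor <;> linarith [sq_nonneg x]

/-- the dilation `x ↦ (1 + L) x` -/
lemma dil (x : ℝ) {L : ℝ} (hL : |L| ≤ 1 / 2) :
    |x * tanh ((1 + L) * x) - (x * tanh x + L * x ^ 2 - ((1 + L) ^ 3 - 1) / 3 * tanh x ^ 4 -
      2 / 3 * L * tanh x ^ 6)| ≤ 3 * L ^ 2 * tanh x ^ 6 + 30 * |L| * Mx8 x := by
  have := mvt0 (f := fun u => x * tanh ((1 + u) * x) - (x * tanh x + u * x ^ 2 -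
      ((1 + u) ^ 3 - 1) / 3 * tanh x ^ 4 - 2 / 3 * u * tanh x ^ 6))
    (f' := fun u => -(x ^ 2 * tanh ((1 + u) * x) ^ 2) + (1 + u) ^ 2 * tanh x ^ 4 +
      2 / 3 * tanh x ^ 6) (fun u => ?_) (by simp) (x := L)
    fun u hu => der_le x hL (by simpa using hu)
  · refine this.trans_eq ?_
    rw [← sq_abs L]; ring
  · have h1 : HasDerivAt (fun u : ℝ => 1 + u) 1 u := (hasDerivAt_id' u).const_add 1
    refine ((((Kb.hasDerivAt_tanh _).comp u (h1.mul_const x)).const_mul x).sub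
      (((((hasDerivAt_id' u).mul_const _).const_add _).sub
        ((((h1.pow 3).sub_const 1).div_const 3).mul_const _)).sub
        (((hasDerivAt_id' u).const_mul _).mul_const _))).congr_deriv ?_
    simp; ring

lemma r_near (x : ℝ) : |(x - tanh x) ^ 2 - 1 / 9 * tanh x ^ 6| ≤ 2 * Mx8 x := by
  have a := gx_sq x
  have b := p3_gx x
  rw [← abs_pow, ← abs_mul, abs_le] at b
  rw [show x - tanh x = tanh x ^ 3 / 3 + gx x by rw [gx]; ring, abs_le]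
  constructor <;> nlinarith [sq_nonneg (gx x), b.1, b.2, Mx8_nn x]

lemma rp_le (x : ℝ) : (x - tanh x) ^ 2 * tanh x ^ 2 ≤ Mx8 x := by
  have a : (x - tanh x) ^ 2 ≤ x ^ 2 := sq_le_sq.2 (Tay.t1' x)
  refine le_min ?_ ((mul_le_mul a (tanh_sq_lt_one x).le (sq_nonneg _) (sq_nonneg _)).trans_eq
    (mul_one _))
  have := mul_le_mul (Tay.r_sq x) (Tay.sq_le x) (sq_nonneg _) (by positivity)
  linarith [show 0 ≤ x ^ 8 by positivity]

lemma m6_le (x : ℝ) : x ^ 2 * min (x ^ 2) 1 ^ 2 ≤ tanh x ^ 6 + 2 * Mx8 x := by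
  have p6 : 0 ≤ tanh x ^ 6 := by positivity
  have m0 : 0 ≤ min (x ^ 2) 1 := le_min (sq_nonneg _) zero_le_one
  rcases le_total |x| 1 with h | h
  · rw [M8_of_le h]
    have := mul_le_mul_of_nonneg_left (pow_le_pow_left₀ m0 (min_le_left (x ^ 2) 1) 2) (sq_nonneg x)
    linarith [(abs_le.1 (Tay.p6 x)).1]
  · rw [M8_of_ge h]
    have := mul_le_mul_of_nonneg_left (pow_le_pow_left₀ m0 (min_le_right (x ^ 2) 1) 2) (sq_nonneg x)
    linarith [sq_nonneg x]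

lemma m2_le (x g : ℝ) : (tanh x - (1 - g) * x) ^ 2 * tanh x ^ 2 ≤
    4 * g ^ 2 * tanh x ^ 4 + (4 * g ^ 2 + 2) * Mx8 x := by
  have a := rp_le x
  have b := mul_le_mul_of_nonneg_left a (sq_nonneg g)
  nlinarith [mul_nonneg (sq_nonneg (g * x + (x - tanh x))) (sq_nonneg (tanh x)),
    mul_nonneg (sq_nonneg (g * (x - 2 * tanh x))) (sq_nonneg (tanh x))]

/-! ### the scalar cancellation -/

/-- normalised data -/
structure SI where
  (η q δ r s p4 p6 : ℝ)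
  hq : 0 < q
  qη : q ≤ η
  η1 : η ≤ 1 / 100
  hδ : |δ| ≤ η
  hr : |r - 1| ≤ η
  hs : |s| ≤ 2
  h4 : |p4 - -8| ≤ η
  h6 : |p6 - 15| ≤ η

namespace SI
variable (i : SI)

def c : ℝ := 2 * i.r + i.q * i.s
def w : ℝ := (1 + i.q * i.c)⁻¹
def u : ℝ := i.δ * (2 + i.δ)
def m : ℝ := 3 + i.δ + i.u
def h : ℝ := (2 + i.δ) * i.c - 2 * (i.c - i.r) * i.w * (1 + i.q * i.c)
def X : ℝ := 1 - i.q * (1 + i.u) - i.δ * i.q ^ 2 * i.h
def D : ℝ := ((1 - i.q) * i.X)⁻¹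
def k : ℝ := 1 + i.u - i.δ * i.h * (1 - i.q)
def th : ℝ := (i.δ * i.r + 2 * i.q * ((i.r ^ 2 - i.s) * i.w) - (5 - i.m * (2 + i.u) + i.k) -
  i.q * (i.m * i.k - 5 * (2 + i.u)) - 5 * i.q ^ 2 * i.k) * i.D
def L1 : ℝ := i.m + 5 * i.q + i.q * i.th
def La : ℝ := 1 + i.q * i.L1
def Z : ℝ := 5 + i.th + i.c * i.L1 - i.m * i.p4 / 3 - (i.m * i.L1 +
  i.δ * (i.L1 * (3 + i.δ * (i.La + 1))) * i.La) * (1 + i.q * i.p4 / 3) - 2 / 3 * i.La * i.p6

lemma e0 : 0 ≤ i.η := i.hq.le.trans i.qη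
lemma c_bd : 0 ≤ i.c ∧ i.c ≤ 3 := by
  have := abs_le.1 i.hr
  have := abs_le.1 i.hs
  have := i.hq
  have := i.qη
  have := i.η1
  unfold c; constructor <;> nlinarith
lemma w_pos : 0 < 1 + i.q * i.c := by have := mul_nonneg i.hq.le i.c_bd.1; linarith
lemma w_mul : i.w * (1 + i.q * i.c) = 1 := inv_mul_cancel₀ i.w_pos.ne'
lemma w_bd : |i.w| ≤ 1 := by
  rw [w, abs_of_pos (inv_pos.2 i.w_pos)]
  exact inv_le_one_of_one_le₀ (by have := mul_nonneg i.hq.le i.c_bd.1; linarith)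
lemma X_ge : 1 / 2 ≤ i.X := by
  have hδ := abs_le.1 (i.hδ.trans i.η1)
  have hr := abs_le.1 (i.hr.trans i.η1)
  have hc := i.c_bd
  have q0 := i.hq
  have q1 := i.qη.trans i.η1
  have a : |i.h| ≤ 20 := by
    rw [h, mul_assoc, i.w_mul, abs_le]; constructor <;> nlinarith
  have b : |i.δ * i.h| ≤ 1 := by
    rw [abs_mul]; nlinarith [abs_nonneg i.δ, abs_nonneg i.h, i.hδ.trans i.η1]
  have b' := (abs_le.1 b).2
  have c : i.u ≤ 1 := by unfold u; nlinarith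
  unfold X; nlinarith [mul_le_mul_of_nonneg_left b' (sq_nonneg i.q)]
lemma D_pos : 1 / 4 ≤ (1 - i.q) * i.X := by nlinarith [i.X_ge, i.qη.trans i.η1]
lemma D_bd : |i.D| ≤ 4 := by
  rw [D, abs_of_pos (inv_pos.2 (by linarith [i.D_pos]))]
  exact inv_le_of_inv_le₀ (by norm_num) (by linarith [i.D_pos])

end SI

lemma cst (a : ℝ) : Ap SI.η (fun _ => a) fun _ => a := Ap.const SI.e0 a
lemma sm {f : SI → ℝ} (a : ℝ) (h : ∀ i, |f i - a| ≤ i.η) : Ap SI.η f fun _ => a :=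
  Ap.sm (C := 1) a (fun i => by simpa using h i) fun i => ⟨i.e0, by linarith [i.η1]⟩

lemma z_small : ∃ C ≥ (1 : ℝ), ∀ i : SI, |i.Z| ≤ C * i.η ∧ |i.La - 1| ≤ C * i.η := by
  have q : Ap SI.η SI.q fun _ => 0 := sm 0 fun i => by simpa [abs_of_pos i.hq] using i.qη
  have d : Ap SI.η SI.δ fun _ => 0 := sm 0 fun i => by simpa using i.hδ
  have r : Ap SI.η SI.r fun _ => 1 := sm 1 SI.hr
  have p4 : Ap SI.η SI.p4 fun _ => -8 := sm _ SI.h4
  have p6 : Ap SI.η SI.p6 fun _ => 15 := sm _ SI.h6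
  have s : Ap SI.η SI.s SI.s := Ap.bd SI.hs SI.e0
  have w : Ap SI.η SI.w SI.w := Ap.bd SI.w_bd SI.e0
  have D : Ap SI.η SI.D SI.D := Ap.bd SI.D_bd SI.e0
  have c : Ap SI.η SI.c fun _ => 2 :=
    (((cst 2).mul r).add (q.mul s)).congr (fun _ => rfl) fun _ => by ring
  have u : Ap SI.η SI.u fun _ => 0 := (d.mul ((cst 2).add d)).congr (fun _ => rfl) fun _ => by ring
  have m : Ap SI.η SI.m fun _ => 3 := (((cst 3).add d).add u).congr (fun _ => rfl) fun _ => by ring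
  have h := (((cst 2).add d).mul c).sub ((((cst 2).mul (c.sub r)).mul w).mul ((cst 1).add (q.mul c)))
  have k : Ap SI.η SI.k fun _ => 1 := (((cst 1).add u).sub ((d.mul h).mul ((cst 1).sub q))).congr
    (fun _ => rfl) fun _ => by ring
  have u2 := (cst 2).add u
  have th : Ap SI.η SI.th fun _ => 0 := ((((((d.mul r).add (((cst 2).mul q).mul
    ((r.sq.sub s).mul w))).sub (((cst 5).sub (m.mul u2)).add k)).sub (q.mul ((m.mul k).sub
    ((cst 5).mul u2)))).sub (((cst 5).mul q.sq).mul k)).mul D).congr (fun _ => rfl) fun _ => by ring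
  have L1 : Ap SI.η SI.L1 fun _ => 3 :=
    ((m.add ((cst 5).mul q)).add (q.mul th)).congr (fun _ => rfl) fun _ => by ring
  have La : Ap SI.η SI.La fun _ => 1 := ((cst 1).add (q.mul L1)).congr (fun _ => rfl) fun _ => by ring
  have Z : Ap SI.η SI.Z fun _ => 0 := (((((((cst 5).add th).add (c.mul L1)).sub ((m.mul p4).mul
    (cst (1 / 3)))).sub (((m.mul L1).add ((d.mul (L1.mul ((cst 3).add (d.mul (La.add (cst 1)))))).mul
    La)).mul ((cst 1).add ((q.mul p4).mul (cst (1 / 3))))))).sub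
    (((cst (2 / 3)).mul La).mul p6)).congr (fun i => by rw [SI.Z]; ring) fun _ => by ring
  obtain ⟨C, h1, h2, h3⟩ := ((eventually_ge_atTop 1).and ((Z.ev SI.e0).and
    ((La.sub (cst 1)).ev SI.e0))).exists
  exact ⟨C, h1, fun i => ⟨by simpa using (h2 i).2, by simpa using (h3 i).2⟩⟩

lemma scal : ∃ C ≥ (1 : ℝ), ∀ η q δ R S P4 P6 v ρ L : ℝ, 0 < q → q ≤ η → η ≤ 1 / 100 →
    C * η ≤ 1 → |δ| ≤ η → |R - q ^ 2| ≤ η * q ^ 2 → |S| ≤ 2 * q ^ 3 →
    |P4 - 3 * q ^ 2 + 8 * q ^ 3| ≤ η * q ^ 3 → |P6 - 15 * q ^ 3| ≤ η * q ^ 3 →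
    v = q + 2 * R + S → ρ * v = q + R →
    L = (ρ + δ) / (1 - q + (ρ ^ 2 - (ρ + δ) ^ 2) * v) - ρ / (1 - q) → |L| ≤ 2 * |δ| ∧
      |(L - δ) * v - ((1 + L) ^ 3 - 1) / 3 * P4 - 2 / 3 * L * P6| ≤ C * η * q ^ 3 * |δ| := by
  obtain ⟨C, C1, hC⟩ := z_small
  refine ⟨C, C1, fun η q δ R S P4 P6 v ρ L q0 qη η1 Cη hδ hR hS h4 h6 hv hρ hL => ?_⟩
  have q2 : 0 < q ^ 2 := by positivity
  have q3 : 0 < q ^ 3 := by positivity
  obtain ⟨r, rfl⟩ : ∃ r, R = r * q ^ 2 := ⟨R / q ^ 2, by field_simp⟩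
  obtain ⟨s, rfl⟩ : ∃ s, S = s * q ^ 3 := ⟨S / q ^ 3, by field_simp⟩
  obtain ⟨p4, rfl⟩ : ∃ p, P4 = 3 * q ^ 2 + p * q ^ 3 := ⟨(P4 - 3 * q ^ 2) / q ^ 3, by field_simp; ring⟩
  obtain ⟨p6, rfl⟩ : ∃ p, P6 = p * q ^ 3 := ⟨P6 / q ^ 3, by field_simp⟩
  have key : ∀ {a b y : ℝ}, 0 < y → |a * y| ≤ b * y → |a| ≤ b := fun hy h => by
    rw [abs_mul, abs_of_pos hy] at h; exact le_of_mul_le_mul_right h hy
  let i : SI := ⟨η, q, δ, r, s, p4, p6, q0, qη, η1, hδ, key q2 (by convert hR using 2; ring),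
    key q3 hS, key q3 (by convert h4 using 2; ring), key q3 (by convert h6 using 2; ring)⟩
  obtain ⟨hZ, hA⟩ := hC i
  have w1 : i.w * (1 + q * i.c) = 1 := i.w_mul
  have e1 : v = q * (1 + q * i.c) := by rw [hv, SI.c]; ring
  have e2 : ρ = (1 + q * r) * i.w := by
    have : q * (ρ * (1 + q * i.c)) = q * (1 + q * r) := by rw [e1] at hρ; linarith
    rw [← mul_left_cancel₀ q0.ne' this, mul_assoc, mul_comm _ i.w, w1, mul_one]
  have e3 : 1 - q + (ρ ^ 2 - (ρ + δ) ^ 2) * v = i.X := by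
    have : i.h = 2 * r + δ * i.c := by
      rw [SI.h, mul_assoc, i.w_mul]; ring
    rw [SI.X, this, SI.u]
    linear_combination (-2 * δ) * hρ - δ ^ 2 * e1
  have e4 : ρ * (ρ * v) = q + q ^ 3 * ((r ^ 2 - s) * i.w) := by
    rw [hρ, e2]
    have : i.c = 2 * r + q * s := rfl
    linear_combination q * w1 - q ^ 2 * i.w * this
  have X0 : i.X ≠ 0 := by linarith [i.X_ge]
  have χ0 : 1 - q ≠ 0 := by linarith
  have D1 : i.D * ((1 - q) * i.X) = 1 := inv_mul_cancel₀ (mul_ne_zero χ0 X0)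
  have e5 : (1 - q) * i.X = 1 - q * (2 + i.u) + q ^ 2 * i.k := by rw [SI.X, SI.k]; ring
  have e6 : i.La * ((1 - q) * i.X) = 1 - q + 2 * (ρ * (ρ * v)) + δ * (ρ * v) := by
    have a : i.La * ((1 - q) * i.X) = (1 + q * (i.m + 5 * q)) * ((1 - q) * i.X) + q ^ 2 * (δ * r +
        2 * q * ((r ^ 2 - s) * i.w) - (5 - i.m * (2 + i.u) + i.k) - q * (i.m * i.k - 5 * (2 + i.u)) -
        5 * q ^ 2 * i.k) * (i.D * ((1 - q) * i.X)) := by
      rw [SI.La, SI.L1, SI.th]; ring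
    rw [a, D1, e4, hρ, e5, SI.m]; ring
  have e7 : L = δ * i.La := by
    rw [hL, e3, div_sub_div _ _ X0 χ0, div_eq_iff (mul_ne_zero X0 χ0)]
    linear_combination (-δ) * e6 + ρ * e3
  have e8 : (L - δ) * v - ((1 + L) ^ 3 - 1) / 3 * (3 * q ^ 2 + p4 * q ^ 3) -
      2 / 3 * L * (p6 * q ^ 3) = i.Z * q ^ 3 * δ := by
    rw [e7, e1, SI.Z]
    have a : i.L1 = i.m + 5 * q + q * i.th := rfl
    have b : i.m = 3 + δ + δ * (2 + δ) := rfl
    have c : i.La = 1 + q * i.L1 := rfl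
    simp only [show i.q = q from rfl, show i.δ = δ from rfl, show i.p4 = p4 from rfl,
      show i.p6 = p6 from rfl]
    rw [c, a, b]; ring
  refine ⟨?_, ?_⟩
  · rw [e7, abs_mul, mul_comm]
    refine mul_le_mul_of_nonneg_right ?_ (abs_nonneg _)
    have := abs_le.1 (hA.trans Cη)
    exact abs_le.2 ⟨by linarith, by linarith⟩
  · rw [e8, abs_mul, abs_mul, abs_of_pos q3]
    exact mul_le_mul_of_nonneg_right (mul_le_mul_of_nonneg_right hZ q3.le) (abs_nonneg _)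

end Crest.Agent.T157.O4c.X12

end
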