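import Crest.Agent.T157.O4x_12
import Crest.Agent.T157.KbHa_11

/-!
# Row 157, A2 section 4 (helper12): `Hx` in the words of `Kb`, sizes of the frames
-/

set_option autoImplicit false

noncomputable section

namespace Crest.Agent.T157.O4c.X12

open Matrix Real
open Crest.Agent.T157.E Crest.Agent.T157.Cond Crest.Agent.T157.Tap Crest.Agent.T157.Od
open Crest.Agent.T157.Oo Crest.Agent.T157.Mj Crest.Agent.T157.Kb Crest.Agent.T157.Kb.Xd75

variable {n k : ℕ}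

/-- `Hx` with `X = |x|`, `f1 = x / |x|`, `f2 = Kb.f2 x` -/
theorem hx' : ∃ C0 ≥ (1 : ℝ), ∀ (n k : ℕ) (o : Oo.Orb n k) (x : V n) (e η : ℝ), Kp.At o x →
    Op2 o.W 9 → Mo e x → C0 * (e + aS x) ≤ η → C0 * η ≤ 1 → 1 ≤ η ^ 2 * (n * aS x ^ 3) →
    Hx o x (unitv x) (Kb.f2 x) (Kp.chi x) (len x) (C0 * aS x) η (6 * C0) := by
  obtain ⟨C0, h0, h⟩ := hx
  refine ⟨C0, h0, fun n k o x e η a hW m h1 h2 h3 => ?_⟩
  obtain ⟨X, X0, c, c0, β, X2, hβ, -, -, H⟩ := h n k o x e η a hW m h1 h2 h3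
  have e1 : len x = X := by rw [len, ← X2, sqrt_sq X0.le]
  have e2 : Qe.bv (unitv x) (th x) = th x - β • x := by
    rw [Qe.bv, Qe.R1, sub_mulVec, one_mulVec, unitv, e1]
    congr 1
    ext i
    have : (vecMulVec (X⁻¹ • x) (X⁻¹ • x) *ᵥ th x) i = X⁻¹ * x i * (X⁻¹ * (x ⬝ᵥ th x)) := by
      simp [mulVec, dotProduct, vecMulVec_apply, Finset.mul_sum, mul_assoc]
    rw [this, ← hβ, ← X2, Pi.smul_apply, smul_eq_mul]; field_simp
  have e3 : len (th x - β • x) = c⁻¹ := by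
    have := H.n2
    rw [smul_dotProduct, dotProduct_smul, smul_eq_mul, smul_eq_mul] at this
    rw [len, sqrt_eq_iff_mul_self_eq_of_pos (inv_pos.2 c0)]
    field_simp
    linarith
  rwa [Kb.f2, e2, unitv, unitv, e1, e3, inv_inv]

theorem dq_le {o : Oo.Orb n k} {x f1 f2 : Vn n} {χ X κ η C : ℝ} (h : Hx o x f1 f2 χ X κ η C) :
    Dq x f1 f2 ^ 2 ≤ κ ^ 2 := by
  have e : Dq x f1 f2 = -∑ i, tanh (x i) ^ 2 * f1 i * f2 i := by
    have := h.o12
    simp only [Dq, sub_mul, one_mul, Finset.sum_sub_distrib, mul_assoc, dotProduct] at this ⊢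
    rw [this, zero_sub]
  have n2 : ∑ i, f2 i ^ 2 = 1 := by simpa [dotProduct, sq] using h.n2
  rw [e, neg_sq]
  refine (Finset.sum_mul_sq_le_sq_mul_sq _ _ _).trans ?_
  rw [n2, mul_one]
  refine (Finset.sum_le_sum fun i _ => ?_).trans h.m6
  rw [mul_pow, mul_comm]
  exact mul_le_mul_of_nonneg_left (pow_le_pow_left₀ (sq_nonneg _)
    (le_min (Tay.sq_le _) (tanh_sq_lt_one _).le) 2) (sq_nonneg _)

/-- a larger scale -/
theorem hx_scale {o : Oo.Orb n k} {x f1 f2 : Vn n} {χ X κ η C r C' : ℝ}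
    (h : Hx o x f1 f2 χ X κ η C) (hr : 1 ≤ r) (h1 : r * κ ≤ η) (h2 : r * C ≤ C') :
    Hx o x f1 f2 χ X (r * κ) η C' := by
  have k0 := h.k0
  have a : κ ≤ r * κ := le_mul_of_one_le_left k0.le hr
  have η0 : 0 ≤ η := k0.le.trans h.ke
  have b : κ ^ 2 ≤ (r * κ) ^ 2 := pow_le_pow_left₀ k0.le a 2
  have C1 := h.C1
  have X0 := h.X0
  refine ⟨h.ok, h.fr, h.dim, h.hq, h.n1, h.n2, h.o12, h.hx, h.chi, X0, k0.trans_le a, h1,
    by nlinarith, h.Xn.trans (by gcongr), h.big.trans (by gcongr), h.m6.trans b, h.m2,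
    fun i => ?_, fun y hy => (h.xp y hy).trans (by gcongr)⟩
  calc _ = r * (κ * |f2 i|) := by ring
    _ ≤ r * (C * |f1 i|) := mul_le_mul_of_nonneg_left (h.f2 i) (by linarith)
    _ = r * C * |f1 i| := by ring
    _ ≤ _ := by gcongr

/-- `Hx` at any scale `T q`, `T ≥ C0` -/
theorem hxT : ∃ C0 ≥ (1 : ℝ), ∀ (n k : ℕ) (o : Oo.Orb n k) (x : V n) (e η T C : ℝ), Kp.At o x →
    Op2 o.W 9 → Mo e x → C0 ≤ T → 6 * T ≤ C → T * (e + aS x) ≤ η → T * η ≤ 1 →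
    1 ≤ η ^ 2 * (n * aS x ^ 3) →
    Hx o x (unitv x) (Kb.f2 x) (1 - aS x) (len x) (T * aS x) η C ∧
      Dq x (unitv x) (Kb.f2 x) ^ 2 ≤ C0 ^ 2 * aS x ^ 2 := by
  obtain ⟨C0, h0, h⟩ := hx'
  refine ⟨C0, h0, fun n k o x e η T C a hW m hT hC h1 h2 h3 => ?_⟩
  have q0 := m.q0
  have e0 := m.e0
  have c0 : 0 < C0 := by linarith
  have η0 : 0 ≤ η := le_trans (by have : 0 ≤ T := by linarith
                                  positivity) h1
  have H := h n k o x e η a hW m (le_trans (by gcongr) h1) (le_trans (by gcongr) h2) h3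
  have n0 : 0 < n := by have := a.dim; omega
  rw [show Kp.chi x = 1 - aS x by rw [Kp.chi, aS, ← avg_const n0 1, ← avg_sub]; rfl] at H
  have e1 : T / C0 * (C0 * aS x) = T * aS x := by field_simp
  refine ⟨e1 ▸ hx_scale H ((one_le_div c0).2 hT) (by
    rw [e1]; linarith [mul_nonneg (show 0 ≤ T by linarith) e0]) (by
    rw [show T / C0 * (6 * C0) = 6 * T by field_simp]; exact hC), mul_pow C0 _ 2 ▸ dq_le H⟩

/-- sizes of any frame `(e1, e2)` of `Fr` -/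
theorem fr_sizes {o : Oo.Orb n k} {x e1 e2 : Vn n} {χ r0 e : ℝ} (a : Kp.At o x)
    (f : Fr o x χ r0 e1 e2) (m : Mo e x) (he : e ≤ 1 / 100) (hq : aS x ≤ 1 / 100) :
    r0 ^ 2 = n * aS x ∧ ∑ i, e1 i ^ 6 ≤ 16 / (n : ℝ) ^ 2 ∧ (e2 ⬝ᵥ unitv x) ^ 2 ≤ aS x ^ 2 ∧
      vecMulVec e1 e1 = vecMulVec (ee x) (ee x) := by
  have n0 : 0 < n := by have := f.n4; omega
  have n0' : (0 : ℝ) < n := by exact_mod_cast n0
  have q0 := m.q0
  have hp : th x = r0 • e1 := a.p ▸ f.pe1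
  have r2 : r0 ^ 2 = n * aS x := by
    rw [← pp_eq n0, hp, smul_dotProduct, dotProduct_smul, f.e11]; simp [sq]
  have nq : 0 < n * aS x := by positivity
  obtain ⟨z1, -, -, -, -, -, z7⟩ := m.sizes he hq
  have v0 : 0 < n * v2 x := mul_pos n0' (by linarith)
  refine ⟨r2, ?_, ?_, ?_⟩
  · have p6 := (abs_le.1 m.p6).2
    have : (∑ i, e1 i ^ 6) * (n * aS x) ^ 3 = n * avg fun i => th x i ^ 6 := by
      rw [← sum_eq n0, ← r2, Finset.sum_mul, hp]
      exact Finset.sum_congr rfl fun i _ => by simp only [Pi.smul_apply, smul_eq_mul]; ring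
    refine le_of_mul_le_mul_right ?_ (pow_pos nq 3)
    rw [this, show 16 / (n : ℝ) ^ 2 * (n * aS x) ^ 3 = n * (16 * aS x ^ 3) by field_simp]
    exact mul_le_mul_of_nonneg_left (by
      linarith [mul_le_mul_of_nonneg_right he (pow_pos q0 3).le, pow_pos q0 3]) n0'.le
  · have Qx : Qm o *ᵥ x = x := by rw [Qm_vec, Pm_vec, a.ex, mulVec_zero, sub_zero]
    have h1 := Fr.Qsq a.ok f x
    have h2 := xp_eq n0 x
    rw [Qx, xx_eq n0] at h1
    rw [hp, dotProduct_smul, smul_eq_mul, dotProduct_comm] at h2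
    have h3 : (e2 ⬝ᵥ x) ^ 2 * (n * aS x) = n ^ 2 * (v2 x * aS x - (aS x + R4 x) ^ 2) := by
      linear_combination (-(n * aS x)) * h1 + (e1 ⬝ᵥ x) ^ 2 * r2 -
        (r0 * (e1 ⬝ᵥ x) + n * (aS x + R4 x)) * h2
    rw [unitv, dotProduct_smul, smul_eq_mul, mul_pow, inv_pow, len, xx_eq n0, sq_sqrt v0.le,
      inv_mul_le_iff₀ v0]
    refine le_of_mul_le_mul_right ?_ nq
    rw [h3, show n * v2 x * aS x ^ 2 * (n * aS x) = n ^ 2 * (v2 x * aS x ^ 3) by ring]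
    exact mul_le_mul_of_nonneg_left (by
      linarith [mul_le_mul_of_nonneg_right z1 (pow_pos q0 3).le, pow_pos q0 4]) (sq_nonneg _)
  · have l2 : len (th x) ^ 2 = r0 ^ 2 := by rw [len, pp_eq n0, sq_sqrt nq.le, r2]
    have l0 : len (th x) ≠ 0 := fun h => by rw [h, r2] at l2; linarith
    ext i j
    have : ∀ i, ee x i = (len (th x))⁻¹ * (r0 * e1 i) := fun i => by
      rw [ee, unitv, Pi.smul_apply, smul_eq_mul]
      congr 1
      rw [hp]; rfl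
    rw [vecMulVec_apply, vecMulVec_apply, this, this]
    field_simp
    rw [l2]

end Crest.Agent.T157.O4c.X12

end
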