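import Crest.Agent.T157.O5A_99

set_option autoImplicit false
set_option linter.unusedSectionVars false

/-!
Row 157, A2, section 5 (helper99): the mean of `gᵀ δ` from the form version of (M1).
-/

noncomputable section

namespace Crest.Agent.T157.O5

open MeasureTheory Matrix Crest.Agent.Lib.OrthPoinc Filter Topology Set
open Crest.Agent.T157.Oc Crest.Agent.T157.E Crest.Agent.T157.SL Crest.Agent.T157.Ks
open Crest.Agent.T157.Od Crest.Agent.T157.Oo

variable {n k : ℕ}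

/-- Jensen: a form bound on a mean matrix above `x xᵀ` bounds the mean vector -/
theorem ev_of_form {ν : Measure (Mat k)} [IsProbabilityMeasure ν] (hν : ∀ᵐ U ∂ν, U ∈ SO k)
    {x : Mat k → Vn n} {F : Mat k → Mn n} (cx : Continuous x) (cF : Continuous F)
    (hF : ∀ U v, (v ⬝ᵥ x U) ^ 2 ≤ v ⬝ᵥ F U *ᵥ v) {m : ℝ} (m0 : 0 ≤ m)
    (hm : ∀ v, v ⬝ᵥ EM ν F *ᵥ v ≤ m * (v ⬝ᵥ v)) : EV ν x ⬝ᵥ EV ν x ≤ m := by
  obtain ⟨v, hv⟩ : ∃ v, v = EV ν x := ⟨_, rfl⟩
  have i1 : Integrable (fun U => v ⬝ᵥ x U) ν :=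
    int_of hν (continuous_const.dotProduct cx).continuousOn
  have e1 : ∫ U, v ⬝ᵥ x U ∂ν = v ⬝ᵥ v := by
    have i2 : ∀ i, Integrable (fun U => v i * x U i) ν := fun i =>
      (int_of hν ((continuous_apply i).comp cx).continuousOn).const_mul _
    refine (integral_finsetSum _ fun i _ => i2 i).trans (Finset.sum_congr rfl fun i _ => ?_)
    rw [integral_const_mul]
    exact congrArg _ (congrFun hv i).symm
  have h3 := hm v
  rw [dot_EM hν fun i j => (cF.matrix_elem i j).continuousOn] at h3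
  have h4 := integral_mono (μ := ν) (f := fun U => 2 * (v ⬝ᵥ v) * (v ⬝ᵥ x U) - (v ⬝ᵥ v) ^ 2)
    (g := fun U => v ⬝ᵥ F U *ᵥ v) ((i1.const_mul _).sub (integrable_const _))
    (int_of hν (continuous_const.dotProduct (cF.matrix_mulVec continuous_const)).continuousOn)
    fun U => le_trans (by nlinarith [sq_nonneg (v ⬝ᵥ x U - v ⬝ᵥ v)]) (hF U v)
  rw [integral_sub (i1.const_mul _) (integrable_const _), integral_const_mul, e1, integral_const,
    probReal_univ, one_smul] at h4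
  rw [← hv]
  have h5 := h4.trans h3
  generalize v ⬝ᵥ v = a at h5
  by_contra hc
  nlinarith

/-- (M1) in form version gives the mean of `gᵀ δ`: `|E gᵀδ|² ≤ m` -/
theorem m1_of_form {o : Orb n k} {μ : Measure (Mat k)} [IsProbabilityMeasure μ] (hμ : SOInv μ)
    (h : o.Ok) {m : ℝ} (m0 : 0 ≤ m)
    (hm : ∀ v, v ⬝ᵥ (EM (o.P μ) fun U => (o.g U)ᵀ * O6.sq2 o U * o.g U) *ᵥ v ≤ m * (v ⬝ᵥ v)) :
    (EV (o.P μ) fun U => (o.g U)ᵀ *ᵥ o.d U) ⬝ᵥ (EV (o.P μ) fun U => (o.g U)ᵀ *ᵥ o.d U) ≤ m := by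
  have := Orb.P_prob hμ h
  have c2 : Continuous (O6.sq2 o) := Orb.c_C.add (Orb.c_d.matrix_vecMulVec Orb.c_d)
  refine ev_of_form (Orb.P_mem hμ) (Orb.c_g.matrix_transpose.matrix_mulVec Orb.c_d)
    ((Orb.c_g.matrix_transpose.matrix_mul c2).matrix_mul Orb.c_g) (fun U v => ?_) m0 hm
  have a1 := (Orb.wt (o := o) U).covMat_quad_nonneg sv (o.g U *ᵥ v)
  rw [← mulVec_mulVec, ← mulVec_mulVec, dot_tp, dot_tp, O6.sq2, sm2, add_mulVec, dotProduct_add,
    vecMulVec_mulVec, dotProduct_smul, dotProduct_comm (meanV _ _ - _), sq]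
  simp only [MulOpposite.smul_eq_mul_unop, MulOpposite.unop_op]
  exact le_add_of_nonneg_left a1

end Crest.Agent.T157.O5
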