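import Crest.Agent.T157.OoA_9
import Crest.Agent.T157.GlueB_34

/-!
Row 157, A2, section 6 (helper56): the weighted lower bound of the covariance of an Ising weight
(Hubbard-Stratonovich: a mixture of product measures).
-/

set_option autoImplicit false

noncomputable section

namespace Crest.Agent.T157.O6c

open MeasureTheory Set Real Matrix
open Crest.ProbabilityR.SpinGlassDynamics
open Crest.Agent.T157.E Crest.Agent.T157.SL Crest.Agent.T157.Ks Crest.Agent.T157.Od
open Crest.Agent.T157.Oo Crest.Agent.Lib.OrthPoinc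
open Crest.Agent.T157.Eig (opn)

variable {n : ℕ}

theorem sech_nonneg (x : ℝ) : 0 ≤ 1 - tanh x ^ 2 := sub_nonneg.2 (tanh_sq_lt_one x).le

theorem sech_ge (a b : ℝ) : exp (-(2 * |b - a|)) * (1 - tanh b ^ 2) ≤ 1 - tanh a ^ 2 := by
  have e : ∀ x : ℝ, 1 - tanh x ^ 2 = 1 / cosh x ^ 2 := fun x => by
    have := (cosh_pos x).ne'
    rw [tanh_eq_sinh_div_cosh]; field_simp; exact cosh_sq_sub_sinh_sq x
  have h : cosh a ≤ exp |b - a| * cosh b := by
    rw [cosh_eq, cosh_eq, ← mul_div_assoc, mul_add, ← exp_add, ← exp_add]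
    have h1 := le_abs_self (b - a)
    have h2 := neg_abs_le (b - a)
    gcongr <;> linarith
  rw [exp_neg, inv_mul_le_iff₀ (exp_pos _), e, e, mul_one_div,
    div_le_div_iff₀ (pow_pos (cosh_pos b) 2) (pow_pos (cosh_pos a) 2), one_mul,
    two_mul, exp_add, ← sq, ← mul_pow]
  exact pow_le_pow_left₀ (cosh_pos a).le h 2

/-- tangent line form -/
theorem sech_lin (a b c u : ℝ) (h : |b - a| ≤ u) :
    exp (-(2 * c)) * (1 - tanh b ^ 2) * (1 + 2 * c - 2 * u) ≤ 1 - tanh a ^ 2 := by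
  refine le_trans ?_ (sech_ge a b)
  rw [mul_right_comm]
  refine mul_le_mul_of_nonneg_right ?_ (sech_nonneg b)
  rw [show -(2 * |b - a|) = -(2 * c) + (2 * c - 2 * |b - a|) by ring, exp_add]
  exact mul_le_mul_of_nonneg_left (by linarith [add_one_le_exp (2 * c - 2 * |b - a|)])
    (exp_pos _).le

/-- flip of one spin -/
def fl (i : Fin n) (s : Cube n) : Cube n := Function.update s i (!s i)

theorem fl_fl (i : Fin n) (s : Cube n) : fl i (fl i s) = s := by simp [fl]

theorem sv_fl (i j : Fin n) (s : Cube n) : sv (fl i s) j = if j = i then -sv s j else sv s j := by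
  by_cases h : j = i
  · subst h; simp [sv, fl, spin_not]
  · simp [sv, fl, h]

/-- the centred spin is orthogonal to the functions of the other spins -/
theorem prod_orth (y : Vn n) (i : Fin n) {F : Cube n → ℝ} (hF : ∀ s, F (fl i s) = F s) :
    mean (ising 0 y) (fun s => F s * (sv s i - tanh (y i))) = 0 := by
  rw [mean_eq_div, div_eq_zero_iff]
  left
  have h := Equiv.sum_comp (Function.Involutive.toPerm (fl i) (fl_fl i))
    fun s => ising 0 y s * (F s * (sv s i - tanh (y i)))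
  have e : ∀ s, ising 0 y (fl i s) * (F (fl i s) * (sv (fl i s) i - tanh (y i))) =
      -(ising 0 y s * (F s * (sv s i - tanh (y i)))) := fun s => by
    have e1 : y ⬝ᵥ sv (fl i s) = y ⬝ᵥ sv s - 2 * (y i * sv s i) := by
      have : ∀ j, y j * sv (fl i s) j = y j * sv s j - if j = i then 2 * (y j * sv s j) else 0 :=
        fun j => by rw [sv_fl]; split_ifs <;> ring
      simp [dotProduct, this]
    have e2 : exp (-(2 * (y i * sv s i))) * (-sv s i - tanh (y i)) = -(sv s i - tanh (y i)) := by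
      have c := (cosh_pos (y i)).ne'
      have p := (exp_pos (y i)).ne'
      rw [tanh_eq_sinh_div_cosh, sv]
      cases s i <;> simp only [spin, if_true, Bool.false_eq_true, if_false, mul_one, mul_neg,
        neg_neg, two_mul, Real.exp_neg, exp_add] <;> field_simp <;>
        rw [sinh_eq, cosh_eq, Real.exp_neg] <;>
        field_simp <;> ring
    rw [hF, sv_fl, if_pos rfl]
    simp only [ising, zero_mulVec, dotProduct_zero, mul_zero, zero_add, e1, sub_eq_add_neg (y ⬝ᵥ _),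
      exp_add]
    linear_combination exp (y ⬝ᵥ sv s) * F s * e2
  have h2 := (Finset.sum_congr rfl fun s (_ : s ∈ Finset.univ) => e s).symm.trans h
  rw [Finset.sum_neg_distrib] at h2
  linarith

theorem var_prod (y v : Vn n) :
    var (ising 0 y) (fun s => v ⬝ᵥ sv s) = ∑ i, v i ^ 2 * (1 - tanh (y i) ^ 2) := by
  have hw := Glue.wt_ising (0 : Mn n) y
  have e0 : ∀ i, mean (ising 0 y) (fun s => sv s i) = tanh (y i) := fun i => by
    have := prod_orth y i (F := fun _ => 1) fun _ => rfl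
    simp only [one_mul, mean_sub, hw.mean_const] at this
    linarith
  have e1 : ∀ i j, cov (ising 0 y) (fun s => sv s j) (fun s => sv s i) =
      if j = i then 1 - tanh (y i) ^ 2 else 0 := fun i j => by
    rw [hw.cov_eq', e0]
    split_ifs with h
    · subst h
      simp only [mul_sub, sv, spin_mul_self, mean_sub, hw.mean_const, mean_mul_const]
      rw [show mean (ising 0 y) (fun s => spin (s j)) = _ from e0 j, sq]
    · exact prod_orth y i fun s => by rw [sv_fl, if_neg h]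
  rw [var_eq_cov]
  nth_rewrite 2 [show (fun s : Cube n => v ⬝ᵥ sv s) = fun s => ∑ i, v i * sv s i from rfl]
  rw [cov_sum]
  refine Finset.sum_congr rfl fun i _ => ?_
  rw [cov_const_mul, cov_comm, show (fun s : Cube n => v ⬝ᵥ sv s) = fun s => ∑ i, v i * sv s i
    from rfl, cov_sum]
  simp only [cov_const_mul, e1, mul_ite, mul_zero, Finset.sum_ite_eq, Finset.mem_univ, if_true]
  ring

/-- **(CR)**: `C ≥ e^{-(4a+1)} diag E (1 - tanh² ((W s + y)_i))` -/
theorem cr0 {W : Mn n} (hW : Wᵀ = W) {a : ℝ} (ha : opn W ≤ a) (y v : Vn n) :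
    exp (-(4 * a + 1)) * ∑ i, v i ^ 2 * mean (ising W y) (fun s => 1 - tanh ((W *ᵥ sv s + y) i) ^ 2) ≤
      var (ising W y) fun s => v ⬝ᵥ sv s := by
  obtain ⟨Q, hQ, hQQ⟩ := Glue.exists_root hW ha
  have a0 : 0 ≤ a := (Eig.opn_nonneg W).trans ha
  have hw := Glue.wt_ising W y
  refine le_trans ?_ (ex_var_le (φ := fun s => Q *ᵥ sv s) hw zero_le_one _)
  set κ : Cube n → Fin n → ℝ := fun s i =>
    v i ^ 2 * (exp (-(2 * (2 * a + 1 / 2))) * (1 - tanh ((W *ᵥ sv s + y) i) ^ 2)) with hκ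
  have κ0 : ∀ s i, 0 ≤ κ s i := fun s i =>
    mul_nonneg (sq_nonneg _) (mul_nonneg (exp_pos _).le (sech_nonneg _))
  have i2 : ∀ i, Integrable (fun z : Vn n => (Q i ⬝ᵥ z) ^ 2) (Gs (Fin n)) := fun i => by
    simpa only [sq] using ((mg_dot (Q i)).mul (mg_dot (Q i))).int
  have i3 : ∀ s i, Integrable (fun z : Vn n => κ s i * (1 + 2 * a - (Q i ⬝ᵥ z) ^ 2)) (Gs (Fin n)) :=
    fun s i => ((integrable_const _).sub (i2 i)).const_mul _
  have q : ∀ i, Q i ⬝ᵥ Q i ≤ 2 * a := fun i => by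
    have := Glue.Q_sq_le hQ hQQ ha (Pi.single i 1)
    rw [mulVec_single_one, show Q.col i = Q i from funext fun j => congrFun (congrFun hQ i) j] at this
    simpa using this
  rw [ex, slE_eq_mean, Finset.mul_sum]
  simp only [← mean_const_mul, ← mean_sum]
  refine hw.mean_mono fun s => le_trans ?_ (integral_mono
    (integrable_finsetSum Finset.univ fun i _ => i3 s i)
    (SInt.of_mg (φ := fun s => Q *ᵥ sv s) (s := 1) (fun _ => (eg_var hw _).mg (mem_univ 1)) s)
    fun z => ?_)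
  · rw [integral_finsetSum _ fun i _ => i3 s i]
    refine Finset.sum_le_sum fun i _ => ?_
    rw [integral_const_mul, integral_sub (integrable_const _) (i2 i), int_dot_sq, integral_const,
      probReal_univ, one_smul]
    refine le_of_eq_of_le (b := κ s i * 1) ?_ (mul_le_mul_of_nonneg_left (by linarith [q i]) (κ0 s i))
    rw [hκ, show 2 * (2 * a + 1 / 2) = 4 * a + 1 by ring]; ring
  · have e := Glue.prob_post_hs hQ hQQ y (Q *ᵥ sv s + z) 1
    rw [sub_self, zero_smul] at e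
    simp only [pw, one_smul, sqrt_one, GoeT.var_congr_prob e, var_prod]
    refine Finset.sum_le_sum fun i _ => ?_
    rw [hκ, mul_assoc]
    refine mul_le_mul_of_nonneg_left (le_of_eq_of_le (by ring) (sech_lin _ ((W *ᵥ sv s + y) i)
      (2 * a + 1 / 2) (a + ((Q i ⬝ᵥ z) ^ 2 + 1) / 2) ?_)) (sq_nonneg _)
    have e1 : (W *ᵥ sv s + y) i - (y + Q *ᵥ (Q *ᵥ sv s + z)) i = -(a * sv s i + Q i ⬝ᵥ z) := by
      rw [mulVec_add, mulVec_mulVec, hQQ, add_mulVec, smul_mulVec, one_mulVec]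
      simp only [Pi.add_apply, Pi.smul_apply, smul_eq_mul]
      change _ = -(a * sv s i + (Q *ᵥ z) i)
      ring
    rw [e1, abs_neg]
    refine (abs_add_le _ _).trans (add_le_add ?_ ?_)
    · rw [abs_mul, sv, abs_spin, mul_one, abs_of_nonneg a0]
    · nlinarith [sq_nonneg (|Q i ⬝ᵥ z| - 1), sq_abs (Q i ⬝ᵥ z)]

/-- Jensen against a fixed field -/
theorem mean_sech {w : Cube n → ℝ} (hw : Wt w) (F : Cube n → ℝ) (x : ℝ) {c : ℝ}
    (h : mean w (fun s => |F s - x|) ≤ c) :
    exp (-(2 * c)) * (1 - tanh x ^ 2) ≤ mean w fun s => 1 - tanh (F s) ^ 2 := by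
  refine le_trans ?_ (hw.mean_mono fun s => sech_lin (F s) x c |F s - x| (abs_sub_comm _ _).le)
  rw [mean_const_mul, mean_sub, hw.mean_const, mean_const_mul]
  exact le_mul_of_one_le_right (mul_nonneg (exp_pos _).le (sech_nonneg x)) (by linarith)

/-- **(CR)** against a fixed field `x` -/
theorem cr {W : Mn n} (hW : Wᵀ = W) {a c : ℝ} (ha : opn W ≤ a) (y x v : Vn n)
    (h : ∀ i, mean (ising W y) (fun s => |(W *ᵥ sv s + y) i - x i|) ≤ c) :
    exp (-(4 * a + 1 + 2 * c)) * ∑ i, (1 - tanh (x i) ^ 2) * v i ^ 2 ≤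
      v ⬝ᵥ covMat (ising W y) sv *ᵥ v := by
  rw [covMat_quad, ← var_eq_cov]
  refine le_trans ?_ (cr0 hW ha y v)
  rw [neg_add _ (2 * c), exp_add, mul_assoc, Finset.mul_sum]
  refine mul_le_mul_of_nonneg_left (Finset.sum_le_sum fun i _ => ?_) (exp_pos _).le
  rw [← mul_assoc, mul_comm]
  exact mul_le_mul_of_nonneg_left (mean_sech (Glue.wt_ising W y) _ _ (h i)) (sq_nonneg _)

/-- `E |f - x| ≤ |E f - x| + √(Var f)` -/
theorem mean_abs_le {Ω : Type*} [Fintype Ω] {w : Ω → ℝ} (hw : Wt w) (f : Ω → ℝ) {K : ℝ}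
    (hK : var w f ≤ K) : mean w (fun s => |f s|) ≤ |mean w f| + (K + 1) / 2 := by
  refine (hw.mean_mono (g := fun s => |mean w f| + ((f s - mean w f) ^ 2 + 1) / 2) fun s => ?_).trans ?_
  · have := abs_add_le (mean w f) (f s - mean w f)
    rw [add_sub_cancel] at this
    nlinarith [sq_nonneg (|f s - mean w f| - 1), sq_abs (f s - mean w f)]
  · rw [mean_add, hw.mean_const, mean_div_const, mean_add, hw.mean_const]
    change _ + (var w f + 1) / 2 ≤ _
    linarith

/-- **(CR) on an orbit**: `C ≥ c diag (1 - tanh² x)` -/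
theorem cr_orb {k : ℕ} {o : Orb n k} (h : o.Ok) {U : Mat k} {a k2 e b : ℝ} {x : Vn n} (a0 : 0 ≤ a)
    (ha : Op2 (o.Wu U) (a ^ 2)) (hk : CB (o.w U) (fA (o.A U) sv) k2)
    (he : ∀ i, |(o.A U *ᵥ o.d U) i| ≤ e) (hb : ∀ i, |o.h i - x i - o.z * o.p i| + |o.z| ≤ b) (v : Vn n) :
    exp (-(4 * a + 2 + k2 + 2 * e + 2 * b)) * ∑ i, (1 - tanh (x i) ^ 2) * v i ^ 2 ≤
      v ⬝ᵥ o.C U *ᵥ v := by
  have hw := Orb.wt (o := o) U
  have ep : prob (o.w U) = prob (ising (o.Wu U) (o.y U)) := by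
    rw [show o.w U = fun s => ising (o.Wu U) (o.y U) s * exp (o.p ⬝ᵥ o.Wu U *ᵥ o.p / 2) from
      funext fun s => (Orb.w_eq h U s).trans (mul_comm _ _)]
    exact prob_smul _ (exp_pos _).ne'
  rw [Orb.C, GoeT.covMat_congr_prob ep,
    show 4 * a + 2 + k2 + 2 * e + 2 * b = 4 * a + 1 + 2 * (e + (k2 + 1) / 2 + b) by ring]
  refine cr (WU_symm h.symm U) (Eig.opn_le_of_sq a0 ha) _ _ _ fun i => ?_
  rw [← GoeT.mean_congr_prob ep]
  have e1 : ∀ s, |(o.Wu U *ᵥ sv s + o.y U) i - x i| ≤ |(o.A U *ᵥ (sv s - o.p)) i| + b := fun s => by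
    have : (o.Wu U *ᵥ sv s + o.y U) i - x i =
        -(o.A U *ᵥ (sv s - o.p)) i + ((o.h i - x i - o.z * o.p i) + o.z * sv s i) := by
      simp only [Orb.y, Orb.A, AU, Orb.Wu, sub_mulVec, mulVec_sub, smul_mulVec, one_mulVec,
        Pi.add_apply, Pi.sub_apply, Pi.smul_apply, smul_eq_mul]
      ring
    rw [this]
    refine (abs_add_le _ _).trans (add_le_add (abs_neg _).le ((abs_add_le _ _).trans ?_))
    rw [abs_mul, sv, abs_spin, mul_one]; exact hb i
  refine (hw.mean_mono e1).trans ?_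
  rw [mean_add, hw.mean_const]
  refine add_le_add ((mean_abs_le hw _ (K := k2) ?_).trans (add_le_add (le_of_eq_of_le ?_ (he i))
    le_rfl)) le_rfl
  · have := hk.var_le (Pi.single i 1)
    simp only [single_one_dotProduct, Pi.single_eq_same, mul_one] at this
    refine le_of_eq_of_le ?_ this
    simp only [mulVec_sub, Pi.sub_apply, var, mean_sub, hw.mean_const, sub_sub_sub_cancel_right]
  · congr 1
    simp only [Orb.d, mulVec_sub, Pi.sub_apply, mean_sub, hw.mean_const]
    congr 1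
    simp only [mulVec, dotProduct, mean_sum, mean_const_mul, meanV]

end Crest.Agent.T157.O6c

end
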