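import Crest.Agent.T157.O6mDef_17
import Crest.Agent.T157.O6o_27

set_option autoImplicit false
set_option linter.unusedSectionVars false

/-!
Row 157, A2, section 6 (helper17): the mean of `Rt` (`MMeanStmt`).
-/

noncomputable section

namespace Crest.Agent.T157.O6m

open MeasureTheory Matrix Crest.Agent.Lib.OrthPoinc
open Crest.Agent.T157.Oc Crest.Agent.T157.E Crest.Agent.T157.SL Crest.Agent.T157.Ks
open Crest.Agent.T157.Od Crest.Agent.T157.Oo Crest.Agent.T157.O6 Crest.Agent.T157.Ba26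

variable {n k : ℕ} {w : Cube n → ℝ} {p : Vn n} {l γ : ℝ}

/-- the affine expression which is averaged -/
def Φ (T B0 : Mn n) (p : Vn n) (l : ℝ) (X1 X2 : Mn n) : Mn n :=
  T * Si p l * (X1 + l • (1 : Mn n)) - Si p l * (Dm p - Dm p * X2 - (1 - Dm p * B0) * X1) -
    l • (Si p l * B0 * (X1 + l • (1 : Mn n)))

theorem dot_mul (P X : Mn n) (u y : Vn n) : u ⬝ᵥ (P * X) *ᵥ y = Pᵀ *ᵥ u ⬝ᵥ X *ᵥ y := by
  rw [← mulVec_mulVec, dotProduct_mulVec u P, ← mulVec_transpose]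

theorem Φ_aff (T B0 : Mn n) (u y : Vn n) : ∃ (x1 x2 : Vn n) (α : ℝ), ∀ X1 X2 : Mn n,
    u ⬝ᵥ Φ T B0 p l X1 X2 *ᵥ y = x1 ⬝ᵥ X1 *ᵥ y + x2 ⬝ᵥ X2 *ᵥ y + α := by
  refine ⟨(T * Si p l + Si p l * (1 - Dm p * B0) - l • (Si p l * B0))ᵀ *ᵥ u, (Si p l * Dm p)ᵀ *ᵥ u,
    u ⬝ᵥ (l • (T * Si p l) - Si p l * Dm p - l • l • (Si p l * B0)) *ᵥ y, fun X1 X2 => ?_⟩
  rw [← dot_mul, ← dot_mul, ← dotProduct_add, ← dotProduct_add, ← add_mulVec, ← add_mulVec, Φ]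
  congr 2
  simp only [Matrix.mul_add, Matrix.add_mul, Matrix.mul_sub, Matrix.sub_mul, Matrix.mul_assoc,
    smul_mul_assoc, mul_smul_comm, Matrix.one_mul, Matrix.mul_one, smul_add]
  abel

theorem Φ_pt (hw : Wt w) (hp : ∀ i, |p i| ≤ 1) (hl : 0 < l) (A B0 Rb : Mn n) :
    Φ (Rb - (1 - Sq p l * B0 * Sq p l)) B0 p l (covMat w sv) (A * covMat w sv) =
      -((Rt w A p l - Rb) * Si p l * Cl w l) - l • (Si p l * A * covMat w sv) - l • (Sq p l * A) +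
        l • (Si p l * Dm p * B0) := by
  have e0 : ∀ X : Mn n, Sq p l * (Si p l * X) = X := fun X => by
    rw [← Matrix.mul_assoc, Sq_Si hp hl, Matrix.one_mul]
  have e1 : (Rt w A p l - (1 - Sq p l * B0 * Sq p l)) * Si p l * Cl w l =
      Sq p l - Sq p l * A * Cl w l - Si p l * Cl w l + Sq p l * B0 * Cl w l := by
    simp only [Rt, Matrix.mul_sub, Matrix.sub_mul, Matrix.mul_assoc, e0, J_Cl hw hl, Matrix.one_mul,
      Matrix.mul_one]
    abel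
  have e2 : Sq p l = Si p l * (Dm p + l • (1 : Mn n)) := by
    rw [← Sq_Sq hp hl, ← Matrix.mul_assoc, Si_Sq hp hl, Matrix.one_mul]
  have e3 : Rb - (1 - Sq p l * B0 * Sq p l) =
      -(Rt w A p l - Rb) + (Rt w A p l - (1 - Sq p l * B0 * Sq p l)) := by abel
  rw [Φ, e3, Matrix.add_mul, Matrix.add_mul]
  change _ + _ * Si p l * Cl w l - _ - _ = _
  rw [e1]
  generalize Rt w A p l - Rb = Y
  rw [e2, Cl]
  simp only [Matrix.mul_add, Matrix.add_mul, Matrix.mul_sub, Matrix.sub_mul, Matrix.mul_assoc,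
    smul_mul_assoc, mul_smul_comm, Matrix.one_mul, Matrix.mul_one, smul_add, Matrix.neg_mul]
  module

theorem am_l (hl : 0 < l) {t b X : ℝ} (ht : 0 < t) {x y : Vn n} (hx : x ⬝ᵥ x ≤ l * b)
    (hy : l * (y ⬝ᵥ y) ≤ X) : x ⬝ᵥ y ≤ b / (2 * t) + t / 2 * X := by
  have h1 := dot_le_amgm (mul_pos ht hl) x y
  have h2 : x ⬝ᵥ x / (2 * (t * l)) ≤ b / (2 * t) := by
    rw [div_le_div_iff₀ (by positivity) (by positivity)]; nlinarith
  nlinarith

theorem pt_le (hw : Wt w) (hp : ∀ i, |p i| ≤ 1) (hl : 0 < l) (h1 : l ≤ 1) {A B0 Rb : Mn n}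
    {a Γ k2 s t : ℝ} (hA : Aᵀ = A) (hB : B0ᵀ = B0) (hR : Rbᵀ = Rb) (ha : Op2 A (a ^ 2)) (hB9 : Op2 B0 9)
    (Γ0 : 0 ≤ Γ) (k0 : 0 ≤ k2) (ht : 0 < t) (hY : Op2 (Rt w A p l - Rb) s)
    (hΓ : ∀ v, v ⬝ᵥ Cl w l *ᵥ v ≤ Γ * qd (Dl p l) v) (hk : CB w (fA A sv) k2) {u : Vn n}
    (hu : u ⬝ᵥ u = 1) (y : Vn n) :
    u ⬝ᵥ Φ (Rb - (1 - Sq p l * B0 * Sq p l)) B0 p l (covMat w sv) (A * covMat w sv) *ᵥ y -
      2 * t * (y ⬝ᵥ Cl w l *ᵥ y) ≤ (Γ * s + l * k2 + 2 * (l * a ^ 2) + 9 * l) / (2 * t) := by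
  have Yt : (Rt w A p l - Rb)ᵀ = Rt w A p l - Rb := by rw [transpose_sub, Rt_t hA, hR]
  rw [Φ_pt hw hp hl]
  generalize Rt w A p l - Rb = Y at *
  have hX := Cl_ge (l := l) hw y
  have C0 := hw.covMat_quad_nonneg sv
  have b1 := psd_am Cl_t (fun v => (mul_nonneg hl.le (dnn v)).trans (Cl_ge hw v)) ht
    (-(Si p l *ᵥ (Y *ᵥ u))) y
  have b2 := psd_am (covMat_transpose w sv) C0 ht (-(l • A *ᵥ (Si p l *ᵥ u))) y
  have b3 := am_l hl ht (x := -(l • A *ᵥ (Sq p l *ᵥ u))) (b := 2 * (l * a ^ 2)) (by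
    have := mul_le_mul_of_nonneg_left ((ha _).trans (mul_le_mul_of_nonneg_left (op_Sq hp hl h1 u)
      (sq_nonneg a))) (mul_nonneg hl.le hl.le)
    simp only [neg_dotProduct, dotProduct_neg, neg_neg, smul_dotProduct, dotProduct_smul, smul_eq_mul]
    rw [hu] at this; linarith) hX
  have b4 := am_l hl ht (x := l • B0 *ᵥ ((Dm p * Si p l) *ᵥ u)) (b := 9 * l) (by
    have := mul_le_mul_of_nonneg_left ((hB9 _).trans (mul_le_mul_of_nonneg_left (op_DSi hp hl u)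
      (by norm_num))) (mul_nonneg hl.le hl.le)
    simp only [smul_dotProduct, dotProduct_smul, smul_eq_mul]
    rw [hu] at this; linarith) hX
  have c1 : Si p l *ᵥ (Y *ᵥ u) ⬝ᵥ Cl w l *ᵥ (Si p l *ᵥ (Y *ᵥ u)) ≤ Γ * s := by
    refine (hΓ _).trans (mul_le_mul_of_nonneg_left ?_ Γ0)
    rw [qd_Si hp hl]; simpa only [hu, mul_one] using hY u
  have c2 : l * (l * (A *ᵥ (Si p l *ᵥ u) ⬝ᵥ covMat w sv *ᵥ (A *ᵥ (Si p l *ᵥ u)))) ≤ l * k2 := by
    refine mul_le_mul_of_nonneg_left ?_ hl.le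
    rw [← covA w hA]
    have := mul_le_mul_of_nonneg_left ((hk _).trans (mul_le_mul_of_nonneg_left (op_Si hp hl u) k0)) hl.le
    refine this.trans (le_of_eq ?_)
    rw [hu]; field_simp
  have c3 : y ⬝ᵥ covMat w sv *ᵥ y ≤ y ⬝ᵥ Cl w l *ᵥ y := by
    rw [Cl_quad]; linarith [mul_nonneg hl.le (dnn y)]
  simp only [neg_dotProduct, dotProduct_neg, neg_neg, smul_dotProduct, dotProduct_smul, smul_eq_mul,
    mulVec_neg, mulVec_smul, mul_neg] at b1 b2 b3 b4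
  simp only [add_mulVec, sub_mulVec, neg_mulVec, smul_mulVec, dotProduct_add, dotProduct_sub,
    dotProduct_neg, dotProduct_smul, smul_eq_mul]
  have e1 : u ⬝ᵥ (Y * Si p l * Cl w l) *ᵥ y = Si p l *ᵥ (Y *ᵥ u) ⬝ᵥ Cl w l *ᵥ y := by
    rw [dot_mul, transpose_mul, Si_t, Yt, ← mulVec_mulVec]
  have e2 : u ⬝ᵥ (Si p l * A * covMat w sv) *ᵥ y = A *ᵥ (Si p l *ᵥ u) ⬝ᵥ covMat w sv *ᵥ y := by
    rw [dot_mul, transpose_mul, Si_t, hA, ← mulVec_mulVec]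
  have e3 : u ⬝ᵥ (Sq p l * A) *ᵥ y = A *ᵥ (Sq p l *ᵥ u) ⬝ᵥ y := by
    rw [dot_mul, Sq_t, symm_dot hA]
  have e4 : u ⬝ᵥ (Si p l * Dm p * B0) *ᵥ y = B0 *ᵥ ((Dm p * Si p l) *ᵥ u) ⬝ᵥ y := by
    rw [dot_mul, transpose_mul, Si_t, Dm_t, symm_dot hB]
  rw [e1, e2, e3, e4]
  have d1 := div_le_div_of_nonneg_right c1 (show 0 ≤ 2 * t by positivity)
  have d2 := div_le_div_of_nonneg_right c2 (show 0 ≤ 2 * t by positivity)
  have d3 := mul_le_mul_of_nonneg_left c3 (show 0 ≤ t / 2 by positivity)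
  simp only [add_div]
  linarith

theorem EM_t {ν : Measure (Mat k)} (hν : ∀ᵐ U ∂ν, U ∈ SO k) {X : Mat k → Mn n}
    (h : ∀ U ∈ SO k, (X U)ᵀ = X U) : (EM ν X)ᵀ = EM ν X := by
  ext i j
  exact integral_congr_ae (hν.mono fun U hU => congrFun (congrFun (h U hU) i) j)

theorem Rt_crude (hw : Wt w) (hp : ∀ i, |p i| ≤ 1) (hl : 0 < l) (h1 : l ≤ 1) {A : Mn n} {a R : ℝ}
    (a0 : 0 ≤ a) (ha : Op2 A (a ^ 2)) (aR : a ≤ R) (lR : l⁻¹ ≤ R) : OpLe (Rt w A p l) (4 * R) := by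
  intro u hu
  obtain ⟨b1, b2⟩ := op_JS hp hl (Cl_J hw hl) (half_pos hl) (Cl_ge hw) (low_crude hp hl hw h1) u
  have b3 := abs_le.1 (abs_quad ha a0 (Sq p l *ᵥ u))
  have b4 := mul_le_mul_of_nonneg_left (op_Sq hp hl h1 u) a0
  have b5 := mul_nonneg hl.le (dnn ((Cl w l)⁻¹ *ᵥ (Sq p l *ᵥ u)))
  have e : (l / 2)⁻¹ = 2 * l⁻¹ := by field_simp
  rw [hu, e] at b1
  rw [hu] at b4
  rw [Rt, dot_mul3, Sq_t, sub_mulVec, dotProduct_sub, abs_le]
  constructor <;> linarith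

theorem Cl_crude (hp : ∀ i, |p i| ≤ 1) (hl : 0 < l) (h1 : l ≤ 1) {R : ℝ} (R1 : 1 ≤ R) (lR : l⁻¹ ≤ R)
    (hc : CB w sv R) (v : Vn n) : v ⬝ᵥ Cl w l *ᵥ v ≤ 2 * R ^ 2 * qd (Dl p l) v := by
  have b1 := op_Si hp hl (Sq p l *ᵥ v)
  rw [mulVec_mulVec, Si_Sq hp hl, one_mulVec, Sq_dot hp hl] at b1
  have q0 : 0 ≤ qd (Dl p l) v := by rw [← Sq_dot hp hl]; exact dnn _
  have b2 := b1.trans (mul_le_mul_of_nonneg_right lR q0)
  rw [Cl_quad]
  nlinarith [hc v, mul_le_mul_of_nonneg_right (h1.trans R1) (dnn v),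
    mul_le_mul_of_nonneg_left b2 (show 0 ≤ R by linarith)]

theorem mMeanStmt : MMeanStmt := by
  intro n k o ν _ G B0 a R l γ Γ k2 s e ε s1 ho hν a0 R1 aR hcr hp hl h1 lR γ0 γ1 Γ0 k0 s0 hB hB9 hε ε1
    hG hE s10 hs
  set Rb := EM ν fun V => Rt (o.w V) (o.A V) o.p l with hRb
  set T := Rb - (1 - Sq o.p l * B0 * Sq o.p l) with hT
  have Rbt : Rbᵀ = Rb := EM_t hν fun U _ => Rt_t (Orb.A_symm ho U)
  have aR' : a ≤ R := by nlinarith
  have cR : ∀ U ∈ SO k, OpLe (Rt (o.w U) (o.A U) o.p l) (4 * R) := fun U hU =>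
    Rt_crude (Orb.wt U) hp hl h1 a0.le (hcr U hU).a aR' lR
  have cRb : OpLe Rb (4 * R) := Op27.opLe_EM hν (fun i j => (mRdStmt n k o l ho hl i j).c) cR
  have cC := Op27.cOn (Orb.c_C (o := o))
  have kAC : Continuous fun U => o.A U * o.C U := Orb.c_A.mul Orb.c_C
  have cAC := Op27.cOn kAC
  have cd : ∀ {X : Mat k → Mn n}, Continuous X → ∀ x y : Vn n, Continuous fun U => x ⬝ᵥ X U *ᵥ y :=
    fun h x y => continuous_const.dotProduct (h.matrix_mulVec continuous_const)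
  have β0 : 0 ≤ ν.real Gᶜ := measureReal_nonneg
  have R8 : R ^ 4 ≤ R ^ 8 := pow_le_pow_right₀ R1 (by norm_num)
  have R4 : R ≤ R ^ 4 := le_self_pow₀ R1 (by norm_num)
  have β1 : ν.real Gᶜ ≤ 1 / 2 := by unfold MM at hε; nlinarith
  set M := EM ν o.C + l • (1 : Mn n) with hM
  have Mq : ∀ v, v ⬝ᵥ M *ᵥ v = ∫ U, v ⬝ᵥ Cl (o.w U) l *ᵥ v ∂ν := fun v => by
    simp only [Cl_quad]
    rw [integral_add (Oo.int_of hν (cd Orb.c_C v v).continuousOn) (integrable_const _), ← dot_EM hν cC]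
    simp [hM, add_mulVec, smul_mulVec]
  have cCl : ∀ v : Vn n, Continuous fun U => v ⬝ᵥ Cl (o.w U) l *ᵥ v := fun v =>
    cd (Orb.c_C.add continuous_const) v v
  have M0 : ∀ v, l * (v ⬝ᵥ v) ≤ v ⬝ᵥ M *ᵥ v := fun v => by
    have := integral_mono (μ := ν) (integrable_const (l * (v ⬝ᵥ v))) (Oo.int_of hν (cCl v).continuousOn)
      fun U => Cl_ge (Orb.wt U) v
    rw [Mq]; simpa using this
  have M1 : ∀ v, γ / 2 * qd (Dl o.p l) v ≤ v ⬝ᵥ M *ᵥ v := fun v => by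
    have q0 : 0 ≤ γ * qd (Dl o.p l) v := by rw [← Sq_dot hp hl]; exact mul_nonneg γ0.le (dnn _)
    have := int_le_bad hν (f := fun U => γ * qd (Dl o.p l) v - v ⬝ᵥ Cl (o.w U) l *ᵥ v)
      (continuous_const.sub (cCl v)).continuousOn le_rfl Gᶜ (M := γ * qd (Dl o.p l) v)
      (fun U hU h => sub_nonpos.2 ((hG U hU (not_not.1 h)).2.1 v).1)
      (fun U _ => by linarith [Cl_ge (l := l) (Orb.wt (o := o) U) v, mul_nonneg hl.le (dnn v)])
    rw [integral_sub (integrable_const _) (Oo.int_of hν (cCl v).continuousOn), ← Mq] at this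
    simp only [integral_const, probReal_univ, one_smul] at this
    nlinarith [mul_le_mul_of_nonneg_left β1 q0]
  have Mt : Mᵀ = M := by
    rw [hM, transpose_add, EM_t hν fun U _ => covMat_transpose _ _, transpose_smul, transpose_one]
  have MJ : M * M⁻¹ = 1 := mul_nonsing_inv _ (isUnit_iff_ne_zero.2 (det_pos_of Mt hl M0).ne')
  have Q0 : 0 < e ^ 2 / l ^ 2 + l * (37 + k2 + 2 * a ^ 2) + Γ * s ^ 2 + ε := by
    have : 0 ≤ ε := le_trans (by unfold MM; positivity) hε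
    positivity
  have s1p : 0 < s1 := s10.lt_of_ne fun h => by
    rw [← h] at hs
    have := mul_pos (div_pos (by norm_num : (0 : ℝ) < 12) γ0) Q0
    linarith
  have key : ∀ u v : Vn n, u ⬝ᵥ u = 1 → v ⬝ᵥ v = 1 → u ⬝ᵥ T *ᵥ v ≤ s1 := fun u v hu hv => by
    obtain ⟨X1, X2⟩ := op_JS hp hl MJ (half_pos γ0) M0 M1 v
    set y := M⁻¹ *ᵥ (Sq o.p l *ᵥ v) with hy
    have My : M *ᵥ y = Sq o.p l *ᵥ v := by rw [hy, mulVec_mulVec, MJ, one_mulVec]
    have ht : 0 < γ * s1 / 12 := by positivity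
    set t := γ * s1 / 12 with htd
    obtain ⟨x1, x2, α, hα⟩ := Φ_aff (p := o.p) (l := l) T B0 u y
    have hf := int_le_bad hν (f := fun U => u ⬝ᵥ Φ T B0 o.p l (o.C U) (o.A U * o.C U) *ᵥ y -
        2 * t * (y ⬝ᵥ Cl (o.w U) l *ᵥ y)) (B := (Γ * s ^ 2 + l * k2 + 2 * (l * a ^ 2) + 9 * l) / (2 * t))
      (M := MM R / (2 * t)) (by
        simp only [hα]
        exact ((((cd Orb.c_C x1 y).add (cd kAC x2 y)).add continuous_const).sub
          (continuous_const.mul (cCl y))).continuousOn) (by positivity) Gᶜ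
      (fun U hU h => by
        obtain ⟨g1, g2, g3⟩ := hG U hU (not_not.1 h)
        exact pt_le (Orb.wt U) hp hl h1 (Orb.A_symm ho U) hB Rbt (hcr U hU).a hB9 Γ0 k0 ht
          (op_of_opLe (by rw [transpose_sub, Rt_t (Orb.A_symm ho U), Rbt]) g1 s0) (fun v => (g2 v).2)
          g3 hu y)
      (fun U hU => by
        refine (pt_le (Orb.wt U) hp hl h1 (Orb.A_symm ho U) hB Rbt (hcr U hU).a hB9 (by positivity)
          (show 0 ≤ R by linarith) ht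
          (op_of_opLe (by rw [transpose_sub, Rt_t (Orb.A_symm ho U), Rbt])
            (Op27.opLe_sub (cR U hU) cRb) (by linarith)) (Cl_crude hp hl h1 R1 lR (hcr U hU).k1)
          (hcr U hU).k2 hu y).trans (div_le_div_of_nonneg_right ?_ (by positivity))
        have q1 := mul_le_mul_of_nonneg_right h1 (show 0 ≤ R by linarith)
        have q2 := mul_le_mul_of_nonneg_right h1 (sq_nonneg a)
        have q3 : 2 * R ^ 2 * (4 * R + 4 * R) ^ 2 = 128 * R ^ 4 := by ring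
        change 2 * R ^ 2 * (4 * R + 4 * R) ^ 2 + l * R + 2 * (l * a ^ 2) + 9 * l ≤ 10 ^ 7 * R ^ 8
        linarith)
    have i1 := Oo.int_of hν (cd (Orb.c_C (o := o)) x1 y).continuousOn
    have i2 := Oo.int_of hν (cd kAC x2 y).continuousOn
    simp only [hα] at hf
    have i3 : Integrable (fun U => x1 ⬝ᵥ o.C U *ᵥ y + x2 ⬝ᵥ (o.A U * o.C U) *ᵥ y) ν := i1.add i2
    have i4 : Integrable (fun U => x1 ⬝ᵥ o.C U *ᵥ y + x2 ⬝ᵥ (o.A U * o.C U) *ᵥ y + α) ν :=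
      i3.add (integrable_const _)
    rw [integral_sub i4 ((Oo.int_of hν (cCl y).continuousOn).const_mul _),
      integral_add i3 (integrable_const _), integral_add i1 i2, integral_const_mul, ← Mq, ← dot_EM hν cC, ← dot_EM hν cAC] at hf
    simp only [integral_const, probReal_univ, one_smul] at hf
    rw [← hα, Φ, ← hM, My, dotProduct_comm y] at hf
    change u ⬝ᵥ (_ - Si o.p l * ErC o ν B0 - _) *ᵥ y - _ ≤ _ at hf
    have e1 : (T * Si o.p l * M) *ᵥ y = T *ᵥ v := by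
      rw [← mulVec_mulVec, My, mulVec_mulVec, Matrix.mul_assoc, Si_Sq hp hl, Matrix.mul_one]
    have e2 : u ⬝ᵥ (Si o.p l * ErC o ν B0) *ᵥ y = (ErC o ν B0)ᵀ *ᵥ (Si o.p l *ᵥ u) ⬝ᵥ y := by
      rw [dot_mul, Si_t, dotProduct_mulVec, ← mulVec_transpose]
    have e3 : u ⬝ᵥ (Si o.p l * B0 * M) *ᵥ y = B0 *ᵥ (Si o.p l *ᵥ u) ⬝ᵥ Sq o.p l *ᵥ v := by
      rw [dot_mul, My, transpose_mul, Si_t, hB, ← mulVec_mulVec]
    simp only [sub_mulVec, smul_mulVec, dotProduct_sub, dotProduct_smul, smul_eq_mul, e1, e2, e3] at hf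
    have oSi := op_Si hp hl u
    rw [hu, mul_one] at oSi
    have b1 := am_l hl ht (x := (ErC o ν B0)ᵀ *ᵥ (Si o.p l *ᵥ u)) (b := e ^ 2 / l ^ 2)
      (((op_tp hE (sq_nonneg e) _).trans (mul_le_mul_of_nonneg_left oSi (sq_nonneg e))).trans
        (le_of_eq (by field_simp))) X2
    have b2 := am_l (l := γ⁻¹) (inv_pos.2 γ0) (x := Sq o.p l *ᵥ v) (y := l • B0 *ᵥ (Si o.p l *ᵥ u))
      (b := 2 * γ) (X := 9 * l / γ) (show 0 < γ / t * γ by positivity) (by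
        have := op_Sq hp hl h1 v
        rw [hv] at this
        exact this.trans (le_of_eq (by field_simp))) (by
        have := mul_le_mul_of_nonneg_left ((hB9 _).trans (mul_le_mul_of_nonneg_left oSi (by norm_num)))
          (mul_nonneg hl.le hl.le)
        simp only [smul_dotProduct, dotProduct_smul, smul_eq_mul, ← mul_assoc]
        rw [mul_assoc, mul_assoc, ← mul_assoc l, inv_mul_eq_div]
        exact div_le_div_of_nonneg_right (this.trans (le_of_eq (by field_simp))) γ0.le)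
    rw [dotProduct_smul, smul_eq_mul, dotProduct_comm] at b2
    have e4 : 2 * γ / (2 * (γ / t * γ)) = s1 / 12 := by rw [htd]; field_simp
    have e5 : γ / t * γ / 2 * (9 * l / γ) ≤ 9 * l / (2 * t) := by
      rw [show γ / t * γ / 2 * (9 * l / γ) = γ * (9 * l / (2 * t)) by field_simp]
      exact mul_le_of_le_one_left (by positivity) γ1
    have e6 : t * (Sq o.p l *ᵥ v ⬝ᵥ y) ≤ s1 / 6 := by
      refine (mul_le_mul_of_nonneg_left X1 ht.le).trans (le_of_eq ?_)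
      rw [hv, htd]; field_simp; norm_num
    have e7 : (e ^ 2 / l ^ 2 + l * (37 + k2 + 2 * a ^ 2) + Γ * s ^ 2 + ε) / (2 * t) ≤ s1 / 2 := by
      rw [div_le_iff₀ (by positivity), htd]
      rw [div_mul_eq_mul_div, div_le_iff₀ γ0] at hs
      nlinarith
    have e8 : MM R / (2 * t) * ν.real Gᶜ ≤ ε / (2 * t) := by
      rw [div_mul_eq_mul_div]; exact div_le_div_of_nonneg_right hε (by positivity)
    have e9 : 0 ≤ l / (2 * t) := by positivity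
    have e10 : (e ^ 2 / l ^ 2 + l * (37 + k2 + 2 * a ^ 2) + Γ * s ^ 2 + ε) / (2 * t) =
        e ^ 2 / l ^ 2 / (2 * t) + (Γ * s ^ 2 + l * k2 + 2 * (l * a ^ 2) + 9 * l) / (2 * t) +
          9 * l / (2 * t) + ε / (2 * t) + 19 * (l / (2 * t)) := by ring
    linarith
  intro u hu
  have h2 := key (-u) u (by simpa using hu) hu
  rw [neg_dotProduct] at h2
  exact abs_le.2 ⟨by linarith, key u u hu hu⟩

end Crest.Agent.T157.O6m
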