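import Crest.Agent.T157.O6mB_17
import Crest.Agent.T157.O6c_56
import Crest.Agent.T157.O5D_26

set_option autoImplicit false
set_option linter.unusedSectionVars false

/-!
Row 157, A2, section 6 (helper17): assembly of (m2) from (w1), (w2).
-/

noncomputable section

namespace Crest.Agent.T157.O6m

open MeasureTheory Matrix Crest.Agent.Lib.OrthPoinc
open Crest.Agent.T157.Oc Crest.Agent.T157.E Crest.Agent.T157.SL Crest.Agent.T157.Ks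
open Crest.Agent.T157.Od Crest.Agent.T157.Oo Crest.Agent.T157.O6 Crest.Agent.T157.Ba26

variable {n k : ℕ}

theorem real_or {μ : Measure (Mat k)} [IsProbabilityMeasure μ] {S S1 S2 : Set (Mat k)} {a b : ℝ}
    (h : S ⊆ S1 ∪ S2) (h1 : μ.real S1 ≤ a) (h2 : μ.real S2 ≤ b) : μ.real S ≤ a + b :=
  (measureReal_mono h).trans ((measureReal_union_le _ _).trans (add_le_add h1 h2))

theorem rb_C {c : Cs} {w : Cube n → ℝ} {A : Mn n} {p : Vn n} (h : APt c w A p) (hc : c.Nn) (v : Vn n) :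
    RB w sv p A sv (sg fun s => v ⬝ᵥ sv s) ≤ rC c * (v ⬝ᵥ v) :=
  (h.rb_le hc (h.t4 v) (h.t3 v) (h.t3' v)).trans (le_of_eq (by unfold rC; ring))

theorem rC_nn {c : Cs} (hc : c.Nn) : 0 ≤ rC c := by
  have := hc.t4; have := hc.t3; have := hc.t3'; have := hc.d0; have := hc.e0
  unfold rC; positivity

theorem crude_bR {a R l : ℝ} (R1 : 1 ≤ R) (hn : (n : ℝ) ≤ R) (ha : a ^ 2 ≤ R) (hl : 0 < l)
    (lR : l⁻¹ ≤ R) : bR n a (rC (crude a R)) l (l / 2) ≤ MM R := by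
  have e : bR n a (rC (crude a R)) l (l / 2) = 160 * (a ^ 2 * n) + 1044480 * R ^ 4 * l⁻¹ ^ 4 := by
    simp only [bR, rC, crude]; field_simp; ring
  have h1 : a ^ 2 * n ≤ R * R := mul_le_mul ha hn (Nat.cast_nonneg _) (by linarith)
  have h2 : l⁻¹ ^ 4 ≤ R ^ 4 := pow_le_pow_left₀ (by positivity) lR 4
  have h3 : R ^ 2 ≤ R ^ 8 := pow_le_pow_right₀ R1 (by norm_num)
  have h4 := mul_le_mul_of_nonneg_left h2 (show 0 ≤ R ^ 4 by positivity)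
  rw [e, MM]; nlinarith

theorem op2_Wu {o : Orb n k} (h : o.Ok) {a : ℝ} (ha : Op2 o.W a) {U : Mat k} (hU : U ∈ SO k) :
    Op2 (o.Wu U) a := fun v => by
  simp only [Orb.Wu, WU, ← mulVec_mulVec]
  rw [Op2.orth (emb_orth' h.iso hU)]
  refine (ha _).trans (le_of_eq ?_)
  rw [Op2.orth (by rw [transpose_transpose]; exact emb_orth h.iso hU)]

theorem m2aGlue (w1 : W1Stmt) (w2 : W2Stmt) : M2aStmt := by
  intro n k o μ _ c R η K δ B0 x l b m γ g Γ e ε π s sa sb s1 r h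
  have X := h.ctx
  have ho := X.ok
  have hc := X.nn
  have := Orb.P_prob X.inv ho
  have hν := Orb.P_mem (o := o) X.inv
  have η0 : 0 ≤ η := measureReal_nonneg.trans X.G
  have R0 : 0 ≤ R := by linarith [X.R1]
  have M0 : 0 ≤ MM R := by unfold MM; positivity
  have K0 : 0 ≤ K := by linarith [X.K1]
  have gA0 : 0 ≤ gA c := by
    have := hc.lam; have := hc.k2; have := hc.e0; have := hc.d0
    unfold gA; positivity
  have bT0 : 0 ≤ bT n c l := by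
    have := rC_nn hc; have := hc.k2; have := hc.d0; have := h.lp
    unfold bT; positivity
  have bR0 : 0 ≤ bR n c.a (rC c) l γ := by
    have := rC_nn hc; have := h.lp; have := h.γ0
    unfold bR; positivity
  have p1 := Op27.pim_nn (n := n) (r := r) ho.two gA0 M0 η0 h.sa0
  have p2 := Op27.pim_nn (n := n) (r := r) ho.two bT0 M0 η0 h.sb0
  have p3 := Op27.pim_nn (n := n) (r := r) ho.two bR0 M0 (add_nonneg η0 p1) h.s0
  have hπ := h.hπ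
  have sm : ∀ q, q ≤ π → MM R * (K * q + δ) ≤ ε := fun q hq =>
    (mul_le_mul_of_nonneg_left (by linarith [mul_le_mul_of_nonneg_left hq K0]) M0).trans h.small
  have a1 := w1 n k o μ c R η K δ sa m r X h.sa0 h.ev ((sm _ (by linarith)).trans h.ε1) h.m2
  have a2 := w2 n k o μ c R η K δ l sb e g B0 r X h.lp h.l1 h.lR h.sb0 h.ev h.B3 h.e0 h.m4 h.g0 h.hg
    ((sm _ (by linarith)).trans h.ε1)
  set G1 : Set (Mat k) := {U | U ∈ o.G c ∧ ∀ v, γ * qd (Dl o.p l) v ≤ v ⬝ᵥ Cl (o.w U) l *ᵥ v} with hG1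
  have b1 : μ.real G1ᶜ ≤ η + pim n k r (gA c) (MM R) η sa := by
    refine real_or (fun U hU => ?_) X.G a1
    by_contra hn
    simp only [Set.mem_union, Set.mem_compl_iff, Set.mem_ofPred_eq, not_or, not_not] at hn
    refine hU ⟨hn.1, fun v => ?_⟩
    have c1 := O6c.cr_orb ho (a := 3) (by norm_num) (op2_Wu ho (op_mono h.W3 (by norm_num)) hn.1.1)
      hn.1.2.k2 hn.2 h.hb v
    have c2 : qd (Dl o.p l) v = ∑ i, (1 - Real.tanh (x i) ^ 2) * v i ^ 2 + l * (v ⬝ᵥ v) := by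
      simp only [qd, Dl, h.px, dotProduct, Finset.mul_sum, ← Finset.sum_add_distrib]
      exact Finset.sum_congr rfl fun i _ => by ring
    have c3 : 0 ≤ ∑ i, (1 - Real.tanh (x i) ^ 2) * v i ^ 2 := Finset.sum_nonneg fun i _ =>
      mul_nonneg (h.px i ▸ D_nn X.p1 i) (sq_nonneg _)
    have c4 := mul_le_mul_of_nonneg_right h.hγ c3
    have c5 := mul_le_mul_of_nonneg_right h.γ1 (mul_nonneg h.lp.le (dnn v))
    rw [show (4 * 3 + 2 : ℝ) = 14 by norm_num] at c1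
    rw [c2, Cl_quad]; linarith
  have aR : c.a ≤ R := by nlinarith [X.Ra, X.R1, hc.a]
  have a3 := opStmt n k μ (o.P μ) _ _ G1 (bR n c.a (rC c) l γ) (MM R) (4 * R) _ K δ s r X.inv ho.two hν
    (mRdStmt n k o l ho h.lp) (fun U _ => Rt_t (Orb.A_symm ho U)) b1 K0 X.tr bR0 M0 h.s0 h.ev
    (fun U hU hG => mGradStmt n _ _ _ _ _ l γ c.a (rC c) (Orb.fam ho hU) (Orb.wt U) (Orb.A_symm ho U)
      hG.1.2.a X.p1 h.lp h.l1 h.γ0 (rC_nn hc) hG.2 (rb_C hG.1.2 hc))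
    (fun U hU v => (mGradStmt n _ _ _ _ _ l (l / 2) c.a (rC (crude c.a R)) (Orb.fam ho hU) (Orb.wt U)
      (Orb.A_symm ho U) (X.cr U hU).a X.p1 h.lp h.l1 (half_pos h.lp) (rC_nn (crude_nn hc.a R0))
      (low_crude X.p1 h.lp (Orb.wt U) h.l1) (rb_C (X.cr U hU) (crude_nn hc.a R0)) v).trans
      (mul_le_mul_of_nonneg_right (crude_bR X.R1 X.Rn X.Ra h.lp h.lR) (dnn v)))
    (fun U hU => Rt_crude (Orb.wt U) X.p1 h.lp h.l1 hc.a.le (X.cr U hU).a aR h.lR)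
  set Rb := EM (o.P μ) fun U => Rt (o.w U) (o.A U) o.p l with hRb
  set G3 : Set (Mat k) := {U | U ∈ o.G c ∧ Sand (o.w U) o.p l γ Γ ∧
    OpLe (Rt (o.w U) (o.A U) o.p l - Rb) (2 * s + ε)} with hG3
  have b3 : μ.real G3ᶜ ≤ π := by
    refine le_trans (real_or (fun U hU => ?_) (real_or subset_rfl b1 a2) a3) hπ
    by_contra hn
    simp only [Set.mem_union, Set.mem_compl_iff, Set.mem_ofPred_eq, not_or, not_not] at hn
    obtain ⟨⟨n1, n2⟩, n3⟩ := hn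
    refine hU ⟨n1.1, fun v => ⟨n1.2 v, (n2 v).trans (mul_le_mul_of_nonneg_right h.hΓ ?_)⟩,
      fun u hu => (n3 u hu).trans ?_⟩
    · rw [← Sq_dot X.p1 h.lp]; exact dnn _
    · have q1 := sm (pim n k r (bR n c.a (rC c) l γ) (MM R) (η + pim n k r (gA c) (MM R) η sa) s)
        (by linarith)
      have q2 : 2 * (4 * R) ≤ MM R := by
        have : R ≤ R ^ 8 := le_self_pow₀ X.R1 (by norm_num)
        unfold MM; linarith
      linarith [mul_le_mul_of_nonneg_right q2 (add_nonneg (mul_nonneg K0 p3) X.δ0)]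
  have ε0 : 0 ≤ ε := le_trans (mul_nonneg M0 (by simpa using X.δ0)) (sm 0 (by linarith))
  have Γ0 : 0 ≤ Γ := le_trans (by have := h.g0; have := h.e0; have := h.lp; have := h.sb0; positivity) h.hΓ
  have a4 := mMeanStmt n k o (o.P μ) G3 B0 c.a R l γ Γ c.k2 (2 * s + ε) e ε s1 ho hν hc.a X.R1 X.Ra X.cr
    X.p1 h.lp h.l1 h.lR h.γ0 h.γ1 Γ0 hc.k2 (by linarith [h.s0]) h.Bs h.B3
    ((mul_le_mul_of_nonneg_left ((X.tr _).trans (by linarith [mul_le_mul_of_nonneg_left b3 K0])) M0).trans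
      h.small) h.ε1 (fun U _ hU => ⟨hU.2.2, hU.2.1, hU.1.2.k2⟩) h.m4 h.s10 h.mean
  refine le_trans (measureReal_mono ?_) b3
  intro U hU hG
  refine hU ⟨hG.1, hG.2.1, fun u hu => ?_⟩
  have q1 := abs_le.1 (hG.2.2 u hu)
  have q2 := abs_le.1 (a4 u hu)
  simp only [sub_mulVec, dotProduct_sub] at q1 q2 ⊢
  rw [abs_le]; constructor <;> linarith [q1.1, q1.2, q2.1, q2.2]

/-- the form bound behind (g2) -/
theorem mEnd_form {w : Cube n → ℝ} {A B0 : Mn n} {p vt : Vn n} {l l0 s : ℝ} (hw : Wt w) (hA : Aᵀ = A)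
    (A0 : ∀ v, 0 ≤ v ⬝ᵥ A *ᵥ v) (hp : ∀ i, |p i| ≤ 1) (hl : 0 < l) (s0 : 0 ≤ s) (s1 : s ≤ 1)
    (hv : ∀ i, 0 ≤ vt i ∧ vt i ≤ 3 ∧ vt i * (1 - p i ^ 2) ≤ 1) (hP : Pos A B0 vt l0)
    (he : 9 * l + 3 * s ≤ l0 / 2) (h : OpLe (Rt w A p l - (1 - Sq p l * B0 * Sq p l)) s) (v : Vn n) :
    A *ᵥ v ⬝ᵥ covMat w sv *ᵥ (A *ᵥ v) ≤ 10 * (v ⬝ᵥ A *ᵥ v) := by
  have h0 := Cl_quad (w := w) (l := l) (A *ᵥ v)
  have h1 := J_ge hp hl s0 s1 hv h (Cl w l *ᵥ (A *ᵥ v))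
  have h2 := hP (Cl w l *ᵥ (A *ᵥ v))
  have h3 := psd_am hA A0 (a := 1 / 10) (by norm_num) v (Cl w l *ᵥ (A *ᵥ v))
  rw [mulVec_mulVec _ (Cl w l)⁻¹, J_Cl hw hl, one_mulVec, dotProduct_comm _ (A *ᵥ v)] at h1
  rw [symm_dot hA, show (2 * (1 / 10) : ℝ) = 1 / 5 by norm_num, div_div_eq_mul_div, div_one] at h3
  have h5 := mul_le_mul_of_nonneg_right he (dnn (Cl w l *ᵥ (A *ᵥ v)))
  linarith [h2.1, h2.2, mul_nonneg hl.le (dnn (A *ᵥ v))]

/-- the event of (m2) -/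
structure EvM (o : Orb n k) (c : Cs) (B0 : Mn n) (l k1 γ Γ s : ℝ) (U : Mat k) : Prop where
  G : U ∈ o.G c
  c1 : CB (o.w U) sv k1
  c2 : CB (o.w U) (fA (o.A U) sv) (10 * c.a)
  form : ∀ v, o.A U *ᵥ v ⬝ᵥ o.C U *ᵥ (o.A U *ᵥ v) ≤ 10 * (v ⬝ᵥ o.A U *ᵥ v)
  sand : Sand (o.w U) o.p l γ Γ
  op : Op2 (Rt (o.w U) (o.A U) o.p l - (1 - Sq o.p l * B0 * Sq o.p l)) (s ^ 2)

/-- the event of (BA) -/
theorem EvM.ev {o : Orb n k} {c : Cs} {e : Vn n} {l k1 γ Γ s β χi c2 : ℝ} {U : Mat k}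
    (h : EvM o c (χi • (1 : Mn n) + β • vecMulVec e e) l k1 γ Γ s U) (hc : fr (o.C U) ≤ c2) :
    Ba26.Ev o (Dl o.p l) e l β χi k1 (10 * c.a) c2 Γ (s ^ 2) U :=
  ⟨h.c1, h.c2, hc, fun u => (h.sand u).2, h.op⟩

/-- **(m2)** with the event `EvM` -/
def M2cStmt : Prop :=
  ∀ (n k : ℕ) (o : Orb n k) (μ : Measure (Mat k)) [IsProbabilityMeasure μ] (c : Cs) (R η K δ : ℝ)
    (B0 : Mn n) (x vt : Vn n) (l b m γ g Γ e ε π s sa sb s1 l0 q : ℝ) (r : ℕ),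
    MH o μ c R η K δ B0 x l b m γ g Γ e ε π s sa sb s1 r →
    (∀ v, 0 ≤ v ⬝ᵥ (o.z • (1 : Mn n) - o.W) *ᵥ v) → l0 ≤ 6 →
    (∀ i, 0 ≤ vt i ∧ vt i ≤ 3 ∧ vt i * (1 - o.p i ^ 2) ≤ 1) →
    9 * l + 3 * (2 * s + ε + s1) ≤ l0 / 2 → μ.real {U | ¬ Pos (o.A U) B0 vt l0} ≤ q →
    μ.real {U | ¬ EvM o c B0 l (l0 - (9 * l + 3 * (2 * s + ε + s1)))⁻¹ γ Γ (2 * s + ε + s1) U} ≤ π + q

theorem m2cGlue (ha : M2aStmt) : M2cStmt := by
  intro n k o μ _ c R η K δ B0 x vt l b m γ g Γ e ε π s sa sb s1 l0 q r h A0 l6 hv he hP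
  have X := h.ctx
  have ho := X.ok
  refine real_or (fun U hU => ?_) (ha n k o μ c R η K δ B0 x l b m γ g Γ e ε π s sa sb s1 r h) hP
  by_contra hn
  simp only [Set.mem_union, Set.mem_ofPred_eq, not_or, not_not] at hn
  obtain ⟨⟨n1, n2, n3⟩, n4⟩ := hn
  have s0 : 0 ≤ 2 * s + ε + s1 := by
    by_contra h0
    have hk : k ≤ n := by
      have := rank_mul_le_left o.Eᵀ o.E
      rw [ho.iso, rank_one] at this
      simpa using this.trans (rank_le_width _)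
    have i : Fin n := ⟨0, by have := ho.two; omega⟩
    exact h0 ((abs_nonneg _).trans (n3 (Pi.single i 1) (by simp)))
  have A1 : ∀ v, 0 ≤ v ⬝ᵥ o.A U *ᵥ v := fun v => by
    rw [Orb.A, AU_eq ho.iso n1.1, dot_mul3]; exact A0 _
  have s1' : 2 * s + ε + s1 ≤ 1 := by linarith [h.lp]
  obtain ⟨e1, e2⟩ := mEndStmt n (o.w U) (o.A U) B0 o.p vt l l0 c.a _ (Orb.wt U) (Orb.A_symm ho U) h.Bs
    X.nn.a.le n1.2.a A1 X.p1 h.lp s0 s1' hv n4 he n3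
  refine hU ⟨n1, e1, e2, mEnd_form (Orb.wt U) (Orb.A_symm ho U) A1 X.p1 h.lp s0 s1' hv n4 he n3, n2,
    op_of_opLe ?_ n3 s0⟩
  simp only [transpose_sub, Rt_t (Orb.A_symm ho U), transpose_one, transpose_mul, Sq_t, h.Bs,
    Matrix.mul_assoc]

theorem m2bGlue (ha : M2aStmt) : M2bStmt := by
  intro n k o μ _ c R η K δ B0 x vt l b m γ g Γ e ε π s sa sb s1 l0 q r h A0 l6 hv he hP
  refine le_trans (measureReal_mono ?_)
    (m2cGlue ha n k o μ c R η K δ B0 x vt l b m γ g Γ e ε π s sa sb s1 l0 q r h A0 l6 hv he hP)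
  intro U hU hE
  exact hU ⟨hE.G, hE.c1, hE.c2, hE.sand, hE.op⟩

end Crest.Agent.T157.O6m
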