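import Crest.Agent.T157.O6mC_17

set_option autoImplicit false
set_option linter.unusedSectionVars false

/-!
Row 157, A2, section 6 (helper17): (w1), (w2) and (m2) without hypotheses.
-/

noncomputable section

namespace Crest.Agent.T157.O6m

open MeasureTheory Matrix Crest.Agent.Lib.OrthPoinc
open Crest.Agent.T157.Oc Crest.Agent.T157.E Crest.Agent.T157.SL Crest.Agent.T157.Ks
open Crest.Agent.T157.Od Crest.Agent.T157.Oo Crest.Agent.T157.O6 Crest.Agent.T157.Ba26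

variable {n k : ℕ}

theorem rd_diag {x : Mat k → Vn n} {D : Fin k × Fin k → Mat k → Vn n} (h : RDV x D) :
    RDM (fun U => diagonal (x U)) fun a U => diagonal (D a U) := fun i j => by
  by_cases e : i = j
  · subst e; simpa only [diagonal_apply_eq] using h i
  · simpa only [diagonal_apply_ne _ e] using RD.const (n := k) 0

theorem sum_diag {κ : Type*} [Fintype κ] {D : κ → Vn n} {B : ℝ}
    (h : ∀ v, ∑ a, (v ⬝ᵥ D a) ^ 2 ≤ B * (v ⬝ᵥ v)) (v : Vn n) :
    ∑ a, diagonal (D a) *ᵥ v ⬝ᵥ diagonal (D a) *ᵥ v ≤ B * (v ⬝ᵥ v) := by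
  simp only [dotProduct, mulVec_diagonal, Finset.mul_sum]
  rw [Finset.sum_comm]
  refine Finset.sum_le_sum fun i _ => ?_
  have := h (Pi.single i 1)
  simp only [single_dot, Pi.single_eq_same, mul_one] at this
  have e : ∑ a, D a i * v i * (D a i * v i) = (∑ a, D a i ^ 2) * (v i * v i) := by
    rw [Finset.sum_mul]; exact Finset.sum_congr rfl fun a _ => by ring
  rw [e]; exact mul_le_mul_of_nonneg_right this (mul_self_nonneg _)

theorem MM8 {R : ℝ} (R1 : 1 ≤ R) (j : ℕ) (hj : j ≤ 8) : 10 ^ 7 * R ^ j ≤ MM R :=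
  mul_le_mul_of_nonneg_left (pow_le_pow_right₀ R1 hj) (by norm_num)

theorem w1Stmt_17 : W1Stmt := by
  intro n k o μ _ c R η K δ s m r X hs hr sm hm
  have ho := X.ok
  have hc := X.nn
  have := Orb.P_prob X.inv ho
  have R1 := X.R1
  have R0 : 0 ≤ R := by linarith
  have M0 : 0 ≤ MM R := by unfold MM; positivity
  have K0 : 0 ≤ K := by linarith [X.K1]
  have η0 : 0 ≤ η := measureReal_nonneg.trans X.G
  have gA0 : 0 ≤ gA c := by
    have := hc.lam; have := hc.k2; have := hc.e0; have := hc.d0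
    unfold gA; positivity
  have cr : (crude c.a R).gAdU ≤ MM R := by
    have h1 := MM8 R1 3 (by norm_num)
    have h2 : R ^ 2 ≤ R ^ 3 := pow_le_pow_right₀ R1 (by norm_num)
    have h3 := mul_le_mul_of_nonneg_left X.Ra R0
    simp only [Cs.gAdU, Cs.lam, crude]
    nlinarith
  have a := opStmt n k μ (o.P μ) _ _ (o.G c) (gA c) (MM R) (2 * R) η K δ s r X.inv ho.two
    (Orb.P_mem X.inv) (rd_diag (rd_Ad (p := o.p) (σ := sv) ho.iso ho.symm Orb.wt0 o.z))
    (fun U _ => diagonal_transpose _) X.G K0 X.tr gA0 M0 hs hr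
    (fun U hU hG => sum_diag (hG.2.gAdU hc (Orb.wt U) (Orb.A_symm ho U) (Orb.fam ho hU)))
    (fun U hU => sum_diag fun v => ((X.cr U hU).gAdU (crude_nn hc.a R0) (Orb.wt U) (Orb.A_symm ho U)
      (Orb.fam ho hU) v).trans (mul_le_mul_of_nonneg_right cr (dnn v)))
    (fun U hU => opLe_of (op_diag fun i => by
      have h1 := (X.cr U hU).e0
      have h2 := Finset.single_le_sum (f := fun j => (o.A U *ᵥ o.d U) j * (o.A U *ᵥ o.d U) j)
        (fun j _ => mul_self_nonneg _) (Finset.mem_univ i)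
      have h3 : (o.A U *ᵥ o.d U) i ^ 2 ≤ 4 * R := by rw [sq]; exact h2.trans h1
      exact h3.trans (by nlinarith)) (by linarith))
  refine le_trans (measureReal_mono ?_) a
  intro U hU h
  refine hU fun i => ?_
  have h1 := h (Pi.single i 1) (by simp)
  simp only [single_dot, mulVec_single_one, col_apply, Matrix.sub_apply, EM, of_apply,
    diagonal_apply_eq] at h1
  have h2 := abs_le.1 (hm i)
  have p0 := Op27.pim_nn (n := n) (r := r) ho.two gA0 M0 η0 hs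
  have h3 := mul_le_mul_of_nonneg_right (Op27.le_MM R1) (add_nonneg (mul_nonneg K0 p0) X.δ0)
  have h4 := abs_le.1 h1
  unfold EV at h2
  rw [abs_le]; constructor <;> linarith [h4.1, h4.2, h2.1, h2.2]

variable {w : Cube n → ℝ} {p : Vn n} {l : ℝ}

theorem C_diag (hw : Wt w) (i : Fin n) : var w (fun s => sv s i) = 1 - meanV w sv i ^ 2 := by
  have h := mean_sq_eq hw fun s => sv s i
  have e : (fun s : Cube n => sv s i ^ 2) = fun _ => 1 := funext fun s => spin_sq _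
  rw [e, hw.mean_const] at h
  unfold meanV; linarith

theorem tau_le (hw : Wt w) (hp : ∀ i, |p i| ≤ 1) (hl : 0 < l) :
    ∑ i, (Dl p l i)⁻¹ * var w (fun s => sv s i) ≤
      2 * n + (meanV w sv - p) ⬝ᵥ (meanV w sv - p) / l ^ 2 := by
  have e : 2 * (n : ℝ) = ∑ _i : Fin n, (2 : ℝ) := by simp [mul_comm]
  rw [e, dotProduct, Finset.sum_div, ← Finset.sum_add_distrib]
  refine Finset.sum_le_sum fun i _ => ?_
  have v0 := hw.var_nonneg fun s => sv s i
  rw [C_diag hw] at v0 ⊢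
  rw [inv_mul_le_iff₀ (Dl_pos hp hl i), Pi.sub_apply]
  have h1 := Dl_ge (l := l) hp i
  have h2 := D_nn hp i
  have m1 := abs_le.1 ((sq_le_one_iff_abs_le_one (meanV w sv i)).1 (by linarith))
  have p1 := abs_le.1 (hp i)
  set m := meanV w sv i
  have h3 : l * ((m - p i) * (m - p i) / l ^ 2) ≤ Dl p l i * ((m - p i) * (m - p i) / l ^ 2) :=
    mul_le_mul_of_nonneg_right h1 (div_nonneg (mul_self_nonneg _) (sq_nonneg _))
  have h4 : (p i - m) * (p i + m) ≤ l + l * ((m - p i) * (m - p i) / l ^ 2) := by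
    have : l * ((m - p i) * (m - p i) / l ^ 2) = (m - p i) ^ 2 / l := by field_simp
    rw [this, add_div' _ _ _ hl.ne', le_div_iff₀ hl]
    have h5 : (p i + m) ^ 2 ≤ 4 := by nlinarith
    nlinarith [sq_nonneg ((p i - m) - l * (p i + m) / 2), mul_le_mul_of_nonneg_left h5 (sq_nonneg l)]
  have h6 : Dl p l i = 1 - p i ^ 2 + l := rfl
  nlinarith

theorem fr_Si (hp : ∀ i, |p i| ≤ 1) (hl : 0 < l) {M : Mn n} {f : Vn n} {a : ℝ}
    (h : ∀ i, M *ᵥ Pi.single i 1 ⬝ᵥ M *ᵥ Pi.single i 1 ≤ a * f i) :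
    fr (Si p l * Mᵀ) ≤ a * ∑ i, (Dl p l i)⁻¹ * f i := by
  rw [fr, Finset.mul_sum]
  refine Finset.sum_le_sum fun i _ => ?_
  have h1 := mul_le_mul_of_nonneg_left (h i) (inv_pos.2 (Dl_pos hp hl i)).le
  refine le_trans (le_of_eq ?_) (h1.trans (le_of_eq (by ring)))
  simp only [Si, diagonal_mul, transpose_apply, mulVec_single_one, dotProduct, col_apply, Finset.mul_sum,
    mul_pow, inv_pow, Real.sq_sqrt (Dl_pos hp hl i).le, sq (M _ _)]

theorem dot3_le (x1 x2 x3 : Vn n) :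
    (x1 + x2 + x3) ⬝ᵥ (x1 + x2 + x3) ≤ 3 * (x1 ⬝ᵥ x1 + x2 ⬝ᵥ x2 + x3 ⬝ᵥ x3) := by
  simp only [dotProduct, ← Finset.sum_add_distrib, Finset.mul_sum, Pi.add_apply]
  refine Finset.sum_le_sum fun i _ => ?_
  nlinarith [sq_nonneg (x1 i - x2 i), sq_nonneg (x1 i - x3 i), sq_nonneg (x2 i - x3 i)]

theorem grad_T {κ : Type*} [Fintype κ] {θ : κ → Mn n} {c : Cs} {A : Mn n} (h : APt c w A p) (hc : c.Nn)
    (hw : Wt w) (hA : Aᵀ = A) (hθ : Fam θ) (hp : ∀ i, |p i| ≤ 1) (hl : 0 < l) (v : Vn n) :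
    ∑ a, (Si p l * c3 w sv (hq A (θ a) p sv) * Si p l) *ᵥ v ⬝ᵥ
      (Si p l * c3 w sv (hq A (θ a) p sv) * Si p l) *ᵥ v ≤ bT n c l * (v ⬝ᵥ v) := by
  have oS := op_Si hp hl
  have l0 : 0 ≤ l⁻¹ := by positivity
  have k1 := hc.k1
  have k2 := hc.k2
  have hτ := (tau_le hw hp hl).trans (add_le_add_right (div_le_div_of_nonneg_right h.d0 (sq_nonneg l)) _)
  have es : ∀ i : Fin n, (fun s : Cube n => (Pi.single i 1 : Vn n) ⬝ᵥ sv s) = fun s => sv s i :=
    fun i => funext fun s => single_dot i _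
  have f1 : fr (Si p l * covMat w sv * A) ≤ c.k2 * (2 * n + c.d0 / l ^ 2) := by
    have := fr_Si hp hl (M := A * covMat w sv) (f := fun i => var w fun s => sv s i) (a := c.k2) fun i => by
      rw [← mulVec_mulVec, ← covV_lin, ← covV_fA, es]; exact h.k2.covV_le hw k2 _
    rw [transpose_mul, hA, covMat_transpose, ← Matrix.mul_assoc] at this
    exact this.trans (mul_le_mul_of_nonneg_left hτ k2)
  have f2 : fr (Si p l * covMat w sv) ≤ c.k1 * (2 * n + c.d0 / l ^ 2) := by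
    have := fr_Si hp hl (M := covMat w sv) (f := fun i => var w fun s => sv s i) (a := c.k1) fun i => by
      rw [← covV_lin, es]; exact h.k1.covV_le hw k1 _
    rw [covMat_transpose] at this
    exact this.trans (mul_le_mul_of_nonneg_left hτ k1)
  have b1 := sum_Rmm3 hθ hw hA (rC_nn hc) (rb_C h hc) oS l0 oS v
  have b2 := fam_op hθ f1 (op_mul (op2_C hw k1 h.k1) oS (by positivity)) v
  have b3 := fam_op hθ f2 (op_mul (op2_AC hw h.k1 k2 h.k2) oS (by positivity)) v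
  have e : ∀ a, (Si p l * c3 w sv (hq A (θ a) p sv) * Si p l) *ᵥ v =
      (Si p l * Rmm w sv p A (θ a) * Si p l) *ᵥ v +
        (Si p l * covMat w sv * A * θ a * (covMat w sv * Si p l)) *ᵥ v +
        -((Si p l * covMat w sv * θ a * (A * covMat w sv * Si p l)) *ᵥ v) := fun a => by
    simp only [← neg_mulVec, ← add_mulVec]
    congr 1
    rw [Rmm]; noncomm_ring
  simp only [e]
  refine (Finset.sum_le_sum fun a _ => dot3_le _ _ _).trans ?_
  simp only [neg_dotProduct, dotProduct_neg, neg_neg, ← Finset.mul_sum, Finset.sum_add_distrib]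
  have e5 : bT n c l * (v ⬝ᵥ v) = 3 * (l⁻¹ * rC c * l⁻¹ * (v ⬝ᵥ v) +
      2 * (c.k2 * (2 * n + c.d0 / l ^ 2) * (c.k1 * c.k1 * l⁻¹)) * (v ⬝ᵥ v) +
      2 * (c.k1 * (2 * n + c.d0 / l ^ 2) * (c.k2 * c.k1 * l⁻¹)) * (v ⬝ᵥ v)) := by
    unfold bT; field_simp; ring
  rw [e5]; linarith

theorem crude_bT {a R : ℝ} (R1 : 1 ≤ R) (hn : (n : ℝ) ≤ R) (hl : 0 < l) (lR : l⁻¹ ≤ R) :
    bT n (crude a R) l ≤ MM R := by
  have e : bT n (crude a R) l =
      156672 * (R ^ 4 * l⁻¹ ^ 2) + 24 * (R ^ 3 * (n * l⁻¹)) + 48 * (R ^ 4 * l⁻¹ ^ 3) := by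
    simp only [bT, rC, crude]; field_simp; ring
  have l0 : 0 ≤ l⁻¹ := by positivity
  have h1 : R ^ 4 * l⁻¹ ^ 2 ≤ R ^ 4 * R ^ 2 := by gcongr
  have h2 : R ^ 3 * (n * l⁻¹) ≤ R ^ 3 * (R * R) := by gcongr
  have h3 : R ^ 4 * l⁻¹ ^ 3 ≤ R ^ 4 * R ^ 3 := by gcongr
  have h4 : R ^ 6 ≤ R ^ 8 := pow_le_pow_right₀ R1 (by norm_num)
  have h5 : R ^ 5 ≤ R ^ 8 := pow_le_pow_right₀ R1 (by norm_num)
  have h6 : R ^ 7 ≤ R ^ 8 := pow_le_pow_right₀ R1 (by norm_num)
  have h7 : 0 ≤ R ^ 8 := by positivity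
  rw [e, MM]; nlinarith

/-- Jensen for operator norms, with a bad set -/
theorem op_EM {ν : Measure (Mat k)} [IsProbabilityMeasure ν] (hν : ∀ᵐ U ∂ν, U ∈ SO k) {F : Mat k → Mn n}
    (hF : Continuous F) {a M : ℝ} (a0 : 0 ≤ a) (G : Set (Mat k)) (hG : ∀ U ∈ SO k, U ∈ G → Op2 (F U) a)
    (hM : ∀ U ∈ SO k, Op2 (F U) M) : Op2 (EM ν F) (a + M * ν.real Gᶜ) := fun v => by
  have c1 : Continuous fun U => F U *ᵥ v := hF.matrix_mulVec continuous_const
  have h1 := int_le_bad hν (c1.dotProduct c1).continuousOn (mul_nonneg a0 (dnn v)) Gᶜ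
    (fun U hU h => hG U hU (not_not.1 h) v) fun U hU => hM U hU v
  have i1 := Oo.int_of hν (c1.dotProduct c1).continuousOn
  have h2 := integral_mono (μ := ν) (f := fun U => EM ν F *ᵥ v ⬝ᵥ F U *ᵥ v)
    (g := fun U => EM ν F *ᵥ v ⬝ᵥ EM ν F *ᵥ v / (2 * 1) + 1 / 2 * (F U *ᵥ v ⬝ᵥ F U *ᵥ v))
    (Oo.int_of hν (continuous_const.dotProduct c1).continuousOn)
    ((integrable_const _).add (i1.const_mul _)) fun U => dot_le_amgm one_pos _ _
  rw [← dot_EM hν (Op27.cOn hF), integral_add (integrable_const _) (i1.const_mul _),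
    integral_const_mul] at h2
  simp only [integral_const, probReal_univ, one_smul, mul_one] at h2
  linarith

theorem w2Stmt : W2Stmt := by
  intro n k o μ _ c R η K δ l s e g B0 r X hl h1 lR hs hr B3 e0 hE g0 hg sm
  have ho := X.ok
  have hc := X.nn
  have hp := X.p1
  have := Orb.P_prob X.inv ho
  have hν := Orb.P_mem (o := o) X.inv
  have R1 := X.R1
  have R0 : 0 ≤ R := by linarith
  have M0 : 0 ≤ MM R := by unfold MM; positivity
  have K0 : 0 ≤ K := by linarith [X.K1]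
  have η0 : 0 ≤ η := measureReal_nonneg.trans X.G
  have k1 := hc.k1
  have k2 := hc.k2
  have bT0 : 0 ≤ bT n c l := by
    have := rC_nn hc; have := hc.d0
    unfold bT; positivity
  have q : ∀ (U : Mat k) (v : Vn n), v ⬝ᵥ (Si o.p l * Cl (o.w U) l * Si o.p l) *ᵥ v =
      Si o.p l *ᵥ v ⬝ᵥ Cl (o.w U) l *ᵥ (Si o.p l *ᵥ v) := fun U v => by rw [dot_mul3, Si_t]
  have rd1 : RDM (fun U => Cl (o.w U) l) fun a U => c3 (o.w U) sv (hq (o.A U) (o.th a U) o.p sv) :=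
    ((rd_C ho.iso ho.symm Orb.wt0 o.z).add (RDM.const (l • (1 : Mn n)))).congr (fun _ _ => rfl)
      fun _ _ _ => add_zero _
  have rd2 : RDM (fun U => Si o.p l * Cl (o.w U) l * Si o.p l) fun a U =>
      Si o.p l * c3 (o.w U) sv (hq (o.A U) (o.th a U) o.p sv) * Si o.p l :=
    (((RDM.const (Si o.p l)).mul rd1).mul (RDM.const (Si o.p l))).congr (fun _ _ => rfl)
      fun a U _ => by simp only [Matrix.zero_mul, Matrix.mul_zero, zero_add, add_zero]
  have a := opStmt n k μ (o.P μ) _ _ (o.G c) (bT n c l) (MM R) (2 * R ^ 2) η K δ s r X.inv ho.two hν rd2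
    (fun U _ => by simp only [transpose_mul, Si_t, Cl_t, Matrix.mul_assoc]) X.G K0 X.tr bT0 M0 hs hr
    (fun U hU hG => grad_T hG.2 hc (Orb.wt U) (Orb.A_symm ho U) (Orb.fam ho hU) hp hl)
    (fun U hU v => (grad_T (X.cr U hU) (crude_nn hc.a R0) (Orb.wt U) (Orb.A_symm ho U) (Orb.fam ho hU)
      hp hl v).trans (mul_le_mul_of_nonneg_right (crude_bT R1 X.Rn hl lR) (dnn v)))
    (fun U hU u hu => by
      have b1 := Cl_crude hp hl h1 R1 lR (X.cr U hU).k1 (Si o.p l *ᵥ u)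
      rw [qd_Si hp hl, hu, mul_one] at b1
      rw [q, abs_of_nonneg ((mul_nonneg hl.le (dnn _)).trans (Cl_ge (Orb.wt U) _))]
      exact b1)
  have β : R * R * (o.P μ).real (o.G c)ᶜ ≤ 1 := by
    have b1 := (X.tr (o.G c)ᶜ).trans (add_le_add_left (mul_le_mul_of_nonneg_left X.G K0) δ)
    have b2 : R * R ≤ MM R := by nlinarith [MM8 R1 2 (by norm_num)]
    exact (mul_le_mul b2 b1 measureReal_nonneg M0).trans X.sm
  have o1 := op_mono (op_EM hν Orb.c_C (mul_nonneg k1 k1) (o.G c)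
    (fun U _ hG => op2_C (Orb.wt U) k1 hG.2.k1) fun U hU => op2_C (Orb.wt U) R0 (X.cr U hU).k1)
    (add_le_add_right β _)
  have o2 := op_mono (op_EM hν (F := fun U => o.A U * o.C U) (Orb.c_A.mul Orb.c_C) (mul_nonneg k2 k1)
    (o.G c) (fun U _ hG => op2_AC (Orb.wt U) hG.2.k1 k2 hG.2.k2)
    fun U hU => op2_AC (Orb.wt U) (X.cr U hU).k1 R0 (X.cr U hU).k2) (add_le_add_right β _)
  have mean : ∀ u : Vn n, u ⬝ᵥ u = 1 →
      u ⬝ᵥ (EM (o.P μ) fun U => Si o.p l * Cl (o.w U) l * Si o.p l) *ᵥ u ≤ g + e / l + 1 := fun u hu => by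
    have oS := op_Si hp hl u
    rw [hu, mul_one] at oS
    rw [dot_EM hν fun i j => (rd2 i j).c]
    simp only [q, Cl_quad]
    rw [integral_add (Oo.int_of hν (continuous_const.dotProduct
      (Orb.c_C.matrix_mulVec continuous_const)).continuousOn) (integrable_const _),
      ← dot_EM hν (Op27.cOn Orb.c_C)]
    simp only [integral_const, probReal_univ, one_smul]
    set y := Si o.p l *ᵥ u with hy
    have e1 : EM (o.P μ) o.C = Dm o.p * (1 + -EM (o.P μ) (fun U => o.A U * o.C U) + B0 * EM (o.P μ) o.C) -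
        ErC o (o.P μ) B0 := by rw [ErC]; noncomm_ring
    have b0 : l * (y ⬝ᵥ y) ≤ 1 := by
      rw [← le_inv_mul_iff₀ hl, mul_one]; exact oS
    have b1 := (abs_le.1 (abs_quad hE e0 y)).1
    have b2 : e * (y ⬝ᵥ y) ≤ e / l := mul_le_mul_of_nonneg_left oS e0
    have b3 := dot3_le y (-(EM (o.P μ) (fun U => o.A U * o.C U) *ᵥ y)) (B0 *ᵥ (EM (o.P μ) o.C *ᵥ y))
    have b4 := (B3 _).trans (mul_le_mul_of_nonneg_left (o1 y) (by norm_num))
    have b5 := o2 y
    have b6 := op_DSi hp hl u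
    rw [hu, mul_one, ← mulVec_mulVec, ← hy] at b6
    simp only [neg_dotProduct, dotProduct_neg, neg_neg] at b3
    have b7 := cs (Dm o.p *ᵥ y) (y + -(EM (o.P μ) (fun U => o.A U * o.C U) *ᵥ y) +
      B0 *ᵥ (EM (o.P μ) o.C *ᵥ y))
    have b8 : 3 * (11 + c.k2 * c.k1 + 9 * c.k1 ^ 2) * (y ⬝ᵥ y) ≤ g ^ 2 := by
      nlinarith [mul_le_mul_of_nonneg_right hg (dnn y), mul_le_mul_of_nonneg_left b0 (sq_nonneg g)]
    have b9 := (abs_le_of_sq_le_sq' ((b7.trans (mul_le_of_le_one_left (dnn _) b6)).trans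
      (show _ ≤ g ^ 2 by nlinarith)) g0).2
    have e2 : y ⬝ᵥ EM (o.P μ) o.C *ᵥ y = Dm o.p *ᵥ y ⬝ᵥ (y + -(EM (o.P μ) (fun U => o.A U * o.C U) *ᵥ y) +
        B0 *ᵥ (EM (o.P μ) o.C *ᵥ y)) - y ⬝ᵥ ErC o (o.P μ) B0 *ᵥ y := by
      conv_lhs => rw [e1]
      simp only [sub_mulVec, dotProduct_sub, ← mulVec_mulVec, symm_dot Dm_t, add_mulVec, neg_mulVec,
        one_mulVec]
    linarith
  refine le_trans (measureReal_mono ?_) a
  intro U hU h
  refine hU fun v => ?_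
  have p0 := Op27.pim_nn (n := n) (r := r) ho.two bT0 M0 η0 hs
  have b2 : 2 * (2 * R ^ 2) ≤ MM R := by nlinarith [MM8 R1 2 (by norm_num)]
  have h3 := mul_le_mul_of_nonneg_right b2 (add_nonneg (mul_nonneg K0 p0) X.δ0)
  have key : OpLe (Si o.p l * Cl (o.w U) l * Si o.p l) (g + e / l + 2 * s + 2) := fun u hu => by
    have h4 := (abs_le.1 (h u hu)).2
    rw [sub_mulVec, dotProduct_sub] at h4
    rw [abs_of_nonneg (by rw [q]; exact (mul_nonneg hl.le (dnn _)).trans (Cl_ge (Orb.wt U) _))]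
    linarith [mean u hu]
  have := (abs_le.1 (opLe_hom key (Sq o.p l *ᵥ v))).2
  rwa [q, mulVec_mulVec, Si_Sq hp hl, one_mulVec, Sq_dot hp hl] at this

theorem m2aStmt : M2aStmt := m2aGlue w1Stmt_17 w2Stmt
theorem m2bStmt : M2bStmt := m2bGlue m2aStmt
theorem m2cStmt : M2cStmt := m2cGlue m2aStmt

end Crest.Agent.T157.O6m
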