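import Crest.Agent.T157.O6Def_61
import Crest.Agent.T157.OoA_9

set_option autoImplicit false
set_option linter.unusedSectionVars false

/-!
Row 157, A2, section 6 (helper6): the fluctuations of the centre in the cube frame (`CovGlue`).
-/

noncomputable section

namespace Crest.Agent.T157.O6.Cov6

open MeasureTheory Matrix Crest.Agent.Lib.OrthPoinc Filter Topology Set
open Crest.Agent.T157.Oc Crest.Agent.T157.E Crest.Agent.T157.SL Crest.Agent.T157.Ks
open Crest.Agent.T157.Od Crest.Agent.T157.Oo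

variable {n k : ℕ}

/-- the additive form of an operator bound -/
def Bl (M : Mn n) (a : ℝ) : Prop := ∀ u w, 2 * (u ⬝ᵥ M *ᵥ w) ≤ a * (u ⬝ᵥ u + w ⬝ᵥ w)

variable {M N : Mn n} {a b : ℝ}

lemma Bl.add (h : Bl M a) (h' : Bl N b) : Bl (M + N) (a + b) := fun u w => by
  rw [add_mulVec, dotProduct_add]; linarith [h u w, h' u w]

lemma Bl.neg (h : Bl M a) : Bl (-M) a := fun u w => by
  have := h (-u) w
  rwa [neg_dotProduct, neg_dotProduct, dotProduct_neg, neg_neg, ← dotProduct_neg, ← neg_mulVec] at this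

lemma Bl.mono (h : Bl M a) (hab : a ≤ b) : Bl M b := fun u w =>
  (h u w).trans (mul_le_mul_of_nonneg_right hab (add_nonneg (dot_self_nonneg _) (dot_self_nonneg _)))

lemma cs (u w : Vn n) : (u ⬝ᵥ w) ^ 2 ≤ (u ⬝ᵥ u) * (w ⬝ᵥ w) := by
  simpa only [dotProduct, sq] using Finset.sum_mul_sq_le_sq_mul_sq Finset.univ u w

lemma bl_of (h : Op2 M (a ^ 2)) (ha : 0 ≤ a) : Bl M a := fun u w => by
  have h1 := (cs u (M *ᵥ w)).trans (mul_le_mul_of_nonneg_left (h w) (dot_self_nonneg u))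
  have := dot_self_nonneg u
  have := dot_self_nonneg w
  refine le_of_sq_le_sq' (by positivity) ?_
  nlinarith [mul_nonneg (sq_nonneg a) (sq_nonneg (u ⬝ᵥ u - w ⬝ᵥ w))]
where le_of_sq_le_sq' {x y : ℝ} (hy : 0 ≤ y) (h : x ^ 2 ≤ y ^ 2) : x ≤ y := (abs_le_of_sq_le_sq' h hy).2

lemma Bl.op2 (h : Bl M a) (ha : 0 ≤ a) : Op2 M (a ^ 2) := fun w => by
  have h0 := dot_self_nonneg (M *ᵥ w)
  rcases ha.eq_or_lt with rfl | ha
  · have := h (M *ᵥ w) w
    linarith
  · have := h (M *ᵥ w) (a • w)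
    simp only [mulVec_smul, dotProduct_smul, smul_dotProduct, smul_eq_mul] at this
    refine le_of_mul_le_mul_left ?_ ha
    linarith

lemma op2_mul (h : Op2 M a) (h' : Op2 N b) (ha : 0 ≤ a) : Op2 (M * N) (a * b) := fun w => by
  rw [← mulVec_mulVec, mul_assoc]
  exact (h _).trans (mul_le_mul_of_nonneg_left (h' w) ha)

lemma Bl.mul_left (h : Bl N b) (hb : 0 ≤ b) (hM : Op2 M (a ^ 2)) (ha : 0 ≤ a) : Bl (M * N) (a * b) :=
  bl_of (by rw [mul_pow]; exact op2_mul hM (h.op2 hb) (sq_nonneg a)) (mul_nonneg ha hb)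

lemma op2_Dm {p : Vn n} (hp : ∀ i, |p i| ≤ 1) : Op2 (Dm p) (1 ^ 2) := fun v => by
  simp only [Dm, dotProduct, mulVec_diagonal, Finset.mul_sum]
  refine Finset.sum_le_sum fun i _ => ?_
  have h1 : p i ^ 2 ≤ 1 := (sq_le_one_iff_abs_le_one _).2 (hp i)
  have h2 : (1 - p i ^ 2) ^ 2 ≤ 1 := by nlinarith [sq_nonneg (p i)]
  nlinarith [mul_le_mul_of_nonneg_right h2 (sq_nonneg (v i))]

section cov

variable {ν : Measure (Mat k)} [IsProbabilityMeasure ν] (hν : ∀ᵐ U ∂ν, U ∈ SO k)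
  {x y : Mat k → Vn n} (hx : ∀ i, ContinuousOn (fun U => x U i) (SO k))
  (hy : ∀ i, ContinuousOn (fun U => y U i) (SO k))

/-- the variance of `u·x` -/
def Vr (ν : Measure (Mat k)) (x : Mat k → Vn n) (u : Vn n) : ℝ :=
  ∫ U, (u ⬝ᵥ x U - ∫ V, u ⬝ᵥ x V ∂ν) ^ 2 ∂ν

/-- the covariance matrix -/
def Cv (ν : Measure (Mat k)) (x y : Mat k → Vn n) : Mn n :=
  EM ν (fun U => vecMulVec (x U) (y U)) - vecMulVec (EV ν x) (EV ν y)

include hx in
lemma c_dot (u : Vn n) : ContinuousOn (fun U => u ⬝ᵥ x U) (SO k) :=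
  continuousOn_finsetSum _ fun i _ => continuousOn_const.mul (hx i)

include hν hx in
lemma dot_EV (u : Vn n) : u ⬝ᵥ EV ν x = ∫ U, u ⬝ᵥ x U ∂ν := by
  simp only [dotProduct, EV]
  rw [integral_finsetSum _ fun i _ => (int_of hν (hx i)).const_mul _]
  simp only [integral_const_mul]

lemma dot_vmv (u w x y : Vn n) : u ⬝ᵥ vecMulVec x y *ᵥ w = (u ⬝ᵥ x) * (w ⬝ᵥ y) := by
  rw [vecMulVec_mulVec, dotProduct_comm w]
  simp [mul_comm]

include hν hx hy in
lemma dot_Cv (u w : Vn n) : 2 * (u ⬝ᵥ Cv ν x y *ᵥ w) ≤ Vr ν x u + Vr ν y w := by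
  have cf := c_dot hx u
  have cg := c_dot hy w
  rw [Cv, sub_mulVec, dotProduct_sub, dot_EM hν (F := fun U => vecMulVec (x U) (y U))
    fun i j => (hx i).mul (hy j), dot_vmv, dot_EV hν hx, dot_EV hν hy, Vr, Vr]
  simp only [dot_vmv]
  set α := ∫ U, u ⬝ᵥ x U ∂ν with hα
  set β := ∫ U, w ⬝ᵥ y U ∂ν with hβ
  have i1 := (int_of hν cf).const_mul (2 * β)
  have i2 := (int_of hν cg).const_mul (2 * α)
  have i3 : Integrable (fun U => 2 * ((u ⬝ᵥ x U) * (w ⬝ᵥ y U))) ν := (int_of hν (cf.mul cg)).const_mul 2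
  have i4 : Integrable (fun U => (u ⬝ᵥ x U - α) ^ 2) ν := int_of hν ((cf.sub continuousOn_const).pow 2)
  have i5 : Integrable (fun U => (w ⬝ᵥ y U - β) ^ 2) ν := int_of hν ((cg.sub continuousOn_const).pow 2)
  have i6 : Integrable (fun U => 2 * β * (u ⬝ᵥ x U) + 2 * α * (w ⬝ᵥ y U)) ν := i1.add i2
  have i7 : Integrable (fun U => 2 * ((u ⬝ᵥ x U) * (w ⬝ᵥ y U)) -
      (2 * β * (u ⬝ᵥ x U) + 2 * α * (w ⬝ᵥ y U))) ν := i3.sub i6
  have h := integral_mono (μ := ν) (f := fun U => 2 * ((u ⬝ᵥ x U) * (w ⬝ᵥ y U)) -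
      (2 * β * (u ⬝ᵥ x U) + 2 * α * (w ⬝ᵥ y U)) + 2 * α * β)
    (g := fun U => (u ⬝ᵥ x U - α) ^ 2 + (w ⬝ᵥ y U - β) ^ 2) (i7.add (integrable_const _))
    (i4.add i5) fun U => by
      simp only
      nlinarith [sq_nonneg ((u ⬝ᵥ x U - α) - (w ⬝ᵥ y U - β))]
  rw [integral_add i7 (integrable_const _), integral_sub i3 i6, integral_add i1 i2, integral_add i4 i5,
    integral_const_mul, integral_const_mul, integral_const_mul, integral_const, probReal_univ,
    one_smul, ← hα, ← hβ] at h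
  linarith

lemma Vr_scale {V : ℝ} (h : ∀ u, u ⬝ᵥ u = 1 → Vr ν x u ≤ V) (u : Vn n) : Vr ν x u ≤ V * (u ⬝ᵥ u) := by
  rcases (dot_self_nonneg u).eq_or_lt with h0 | h0
  · obtain rfl := dotProduct_self_eq_zero.1 h0.symm
    simp [Vr]
  have s0 := Real.sqrt_pos.2 h0
  have s2 := Real.mul_self_sqrt h0.le
  set s := √(u ⬝ᵥ u)
  have h1 := h (s⁻¹ • u) (by
    rw [smul_dotProduct, dotProduct_smul, ← s2, smul_eq_mul, smul_eq_mul]; field_simp)
  simp only [Vr, smul_dotProduct, smul_eq_mul, integral_const_mul, ← mul_sub, mul_pow] at h1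
  rw [inv_pow, inv_mul_le_iff₀ (by positivity), sq, s2, mul_comm] at h1
  exact h1

end cov

variable {o : Orb n k} {μ : Measure (Mat k)} [IsProbabilityMeasure μ] {c : Cs} {R η K δ H ε : ℝ}

lemma MM_ge (hR : 1 ≤ R) : 768 * R ^ 3 ≤ MM R := by
  have := pow_le_pow_right₀ hR (show 3 ≤ 8 by norm_num)
  have : 0 ≤ R ^ 8 := by positivity
  unfold MM; linarith

/-- one direction of a vector on the orbit -/
lemma dir (hS : ScStmt) (h : Ctx o μ c R η K δ) (H0 : 0 ≤ H) (hε : MM R * (K * fl R η H + δ) ≤ ε)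
    {X : Mat k → Vn n} {D : Fin k × Fin k → Mat k → Vn n} (hX : RDV X D) {T : ℝ} (T0 : 0 ≤ T)
    (hG : ∀ U ∈ o.G c, ∀ u, ∑ a, (u ⬝ᵥ D a U) ^ 2 ≤ T * (u ⬝ᵥ u))
    (hM : ∀ U ∈ SO k, ∀ u, ∑ a, (u ⬝ᵥ D a U) ^ 2 ≤ 768 * R ^ 3 * (u ⬝ᵥ u))
    (hF : ∀ U ∈ SO k, X U ⬝ᵥ X U ≤ 4 * R) (u : Vn n) (hu : u ⬝ᵥ u = 1) :
    μ.real {U | 4 * rad k T T H + ε < (u ⬝ᵥ X U - ∫ V, u ⬝ᵥ X V ∂o.P μ) ^ 2} ≤ fl R η H ∧
      Vr (o.P μ) X u ≤ rad k T T H + ε := by
  have := Orb.P_prob h.inv h.ok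
  have R1 := h.R1
  have M0 : 0 ≤ MM R := by unfold MM; positivity
  have η0 : 0 ≤ η := measureReal_nonneg.trans h.G
  have K1 := h.K1
  have δ0 := h.δ0
  have f0 : 0 ≤ K * fl R η H + δ := by unfold fl; positivity
  have e1 : 8 * (4 * R) * (K * fl R η H + δ) ≤ ε := by
    refine le_trans (mul_le_mul_of_nonneg_right ?_ f0) hε
    have := pow_le_pow_right₀ R1 (show 1 ≤ 3 by norm_num)
    linarith [MM_ge R1]
  have key := hS k μ (o.P μ) Unit (fun U _ => u ⬝ᵥ X U) (fun a U _ => u ⬝ᵥ D a U) (o.G c) T T (MM R)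
    (4 * R) η K δ H h.inv h.ok.two (Orb.P_mem h.inv)
    (fun _ => ((RDV.const u).dot hX).congr (fun _ _ => rfl) fun _ _ _ => by simp) h.G (by linarith)
    h.tr T0 T0 M0 (le_trans (mul_le_mul_of_nonneg_left (by nlinarith) M0) h.sm) H0
    (fun U _ hU => by simpa [hu] using hG U hU u)
    (fun U _ hU v => by
      have := mul_le_mul_of_nonneg_left (hG U hU u) (sq_nonneg (v ()))
      simp only [dotProduct, Finset.univ_unique, Finset.sum_singleton, mul_pow, ← Finset.mul_sum] at this ⊢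
      simp only [dotProduct] at hu
      rw [hu] at this
      linarith)
    (fun U hU => by simpa [hu] using (hM U hU u).trans (by rw [hu, mul_one]; exact MM_ge R1))
    (fun U hU => by simpa [hu] using (cs u (X U)).trans (by rw [hu, one_mul]; exact hF U hU))
  simp only [Finset.univ_unique, Finset.sum_singleton, EV] at key
  refine ⟨(measureReal_mono fun U hU => ?_).trans key.1, key.2.trans ?_⟩
  · exact lt_of_le_of_lt (add_le_add le_rfl e1) hU
  · have : 0 ≤ R * (K * fl R η H + δ) := by positivity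
    unfold fl at *
    linarith

lemma gD_le {c : Cs} (hc : c.Nn) (h : o.Ok) {U : Mat k} (hU : U ∈ SO k)
    (hA : APt c (o.w U) (o.A U) o.p) (u : Vn n) :
    ∑ a, (u ⬝ᵥ covV (o.w U) (hq (o.A U) (o.th a U) o.p sv) sv) ^ 2 ≤ gD c * (u ⬝ᵥ u) := by
  simp only [covV_dot, cov_comm _ (hq _ _ _ _)]
  refine ((Orb.fam h hU).key (Orb.wt U) hc.N hA.nb hc.k1 hA.k1 hc.k2 hA.k2 _).trans ?_
  rw [gD, mul_assoc]
  exact mul_le_mul (hA.lam_le hc) (hA.k1.var_le u) ((Orb.wt U).var_nonneg _) hc.lam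

theorem cov (hS : ScStmt) : CovStmt := by
  intro n k o μ _ c R η K δ H ε h H0 hε
  have := Orb.P_prob h.inv h.ok
  have hν := Orb.P_mem (o := o) h.inv
  have hc := h.nn
  have R1 := h.R1
  have cn := crude_nn hc.a (show 0 ≤ R by linarith)
  have gD0 : 0 ≤ gD c := mul_nonneg hc.lam hc.k1
  have gA0 : 0 ≤ gA c := by
    have := hc.lam; have := hc.k2; have := hc.e0; have := hc.d0
    unfold gA; positivity
  have rd := rd_del (p := o.p) (σ := sv) h.ok.iso h.ok.symm (Orb.wt0 (o := o)) o.z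
  have rA := rd_Ad (p := o.p) (σ := sv) h.ok.iso h.ok.symm (Orb.wt0 (o := o)) o.z
  have rC := rd_C (p := o.p) (σ := sv) h.ok.iso h.ok.symm (Orb.wt0 (o := o)) o.z
  have rAC := (rd_AU (W := o.W) (z := o.z) h.ok.iso).mul rC
  have R3 : R ≤ R ^ 3 := by simpa using pow_le_pow_right₀ R1 (show 1 ≤ 3 by norm_num)
  have R2 : R ^ 2 ≤ R ^ 3 := pow_le_pow_right₀ R1 (by norm_num)
  have hd := dir hS h H0 hε rd gD0 (fun U hU => gD_le hc h.ok hU.1 hU.2)
    (fun U hU u => (gD_le cn h.ok hU (h.cr U hU) u).trans (mul_le_mul_of_nonneg_right (by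
      simp only [gD, Cs.lam, crude]; nlinarith) (dot_self_nonneg u))) fun U hU => (h.cr U hU).d0
  have hA := dir hS h H0 hε rA gA0
    (fun U hU => hU.2.gAdU hc (Orb.wt U) (Orb.A_symm h.ok U) (Orb.fam h.ok hU.1))
    (fun U hU u => ((h.cr U hU).gAdU cn (Orb.wt U) (Orb.A_symm h.ok U) (Orb.fam h.ok hU) u).trans
      (mul_le_mul_of_nonneg_right (by
        have := mul_le_mul_of_nonneg_left h.Ra (show 0 ≤ R by linarith)
        simp only [Cs.gAdU, Cs.lam, crude]; nlinarith) (dot_self_nonneg u)))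
    fun U hU => (h.cr U hU).e0
  refine ⟨fun l l0 hm hl => ?_, fun B0 e hB e0 hE => ?_⟩
  · have h1 : μ.real {U | ¬ ∀ i, |o.d U i| ≤ l / 2} ≤ μ.real (⋃ i, {U | 4 * rad k (gD c) (gD c) H + ε <
        ((Pi.single i 1 : Vn n) ⬝ᵥ o.d U - ∫ V, (Pi.single i 1 : Vn n) ⬝ᵥ o.d V ∂o.P μ) ^ 2}) := by
      refine measureReal_mono fun U hU => ?_
      obtain ⟨i, hi⟩ := not_forall.1 hU
      refine mem_iUnion.2 ⟨i, hl.trans_lt ?_⟩
      simp only [single_dot]
      have h2 : l / 4 < |o.d U i - EV (o.P μ) o.d i| := by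
        linarith [abs_sub_abs_le_abs_sub (o.d U i) (EV (o.P μ) o.d i), hm i, not_le.1 hi]
      have h3 := pow_lt_pow_left₀ h2 (by positivity) two_ne_zero
      rw [sq_abs] at h3
      exact lt_of_eq_of_lt (by ring) h3
    refine h1.trans ((measureReal_iUnion_fintype_le _).trans ?_)
    refine (Finset.sum_le_sum fun i _ => (hd _ (by simp)).1).trans ?_
    simp
  · set VD := rad k (gD c) (gD c) H + ε with hVD
    set VA := rad k (gA c) (gA c) H + ε with hVA
    have vD := Vr_scale fun u hu => (hd u hu).2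
    have vA := Vr_scale fun u hu => (hA u hu).2
    have k2 : (0 : ℝ) < (k : ℝ) - 2 := by
      have : (2 : ℝ) < k := by exact_mod_cast h.ok.two
      linarith
    have ε0 : 0 ≤ ε := by
      have η0 : 0 ≤ η := measureReal_nonneg.trans h.G
      have := h.K1
      have := h.δ0
      refine le_trans ?_ hε
      unfold fl MM; positivity
    have D0 : 0 ≤ VD := by rw [hVD]; unfold rad; positivity
    have A0 : 0 ≤ VA := by rw [hVA]; unfold rad; positivity
    have b1 : Bl (Cv (o.P μ) (fun U => o.A U *ᵥ o.d U) o.d) (VA + VD) := fun u w =>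
      (dot_Cv hν (fun i => (rA i).c) (fun i => (rd i).c) u w).trans (by
        nlinarith [vA u, vD w, mul_nonneg A0 (dot_self_nonneg w), mul_nonneg D0 (dot_self_nonneg u)])
    have b2 : Bl (Cv (o.P μ) o.d o.d) VD := fun u w =>
      (dot_Cv hν (fun i => (rd i).c) (fun i => (rd i).c) u w).trans (by linarith [vD u, vD w])
    have oD := op2_Dm h.p1
    have b3 : Bl (1 + -(Dm o.p * B0)) (1 + 1 * 3) := (bl_of (by simpa using Op2.one) zero_le_one).add
      ((bl_of (a := 3) (by rw [show (3 : ℝ) ^ 2 = 9 by norm_num]; exact hB) (by norm_num)).mul_left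
        (by norm_num) oD zero_le_one).neg
    have b4 := ((bl_of hE e0).add (b1.mul_left (by positivity) oD zero_le_one)).add
      (b2.mul_left D0 (b3.op2 (by norm_num)) (by norm_num))
    have e1 : EM (o.P μ) (fun U => o.A U * sq2 o U) = EM (o.P μ) (fun U => o.A U * o.C U) +
        EM (o.P μ) fun U => vecMulVec (o.A U *ᵥ o.d U) (o.d U) := by
      simp only [sq2, sm2, Matrix.mul_add, mul_vecMulVec]
      ext i j
      exact integral_add (int_of hν (rAC i j).c) (int_of hν ((rA i).c.mul (rd j).c))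
    have e2 : EM (o.P μ) (sq2 o) = EM (o.P μ) o.C + EM (o.P μ) fun U => vecMulVec (o.d U) (o.d U) := by
      ext i j
      exact integral_add (int_of hν (rC i j).c) (int_of hν ((rd i).c.mul (rd j).c))
    have e3 : ErC o (o.P μ) B0 = Er4 o (o.P μ) B0 + Dm o.p * Cv (o.P μ) (fun U => o.A U *ᵥ o.d U) o.d +
        (1 + -(Dm o.p * B0)) * Cv (o.P μ) o.d o.d := by
      rw [ErC, Er4, e1, e2, Cv, Cv, ← sub_eq_add_neg]
      simp only [Matrix.mul_add, Matrix.mul_sub]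
      abel
    rw [e3]
    refine (b4.mono ?_).op2 ?_
    · rw [hVA, hVD] at *; linarith
    · rw [hVA, hVD] at *; linarith

end Crest.Agent.T157.O6.Cov6

namespace Crest.Agent.T157.O6

theorem covGlue : CovGlue := Cov6.cov

end Crest.Agent.T157.O6
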