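import Crest.Agent.T157.O6mD_17
import Crest.Agent.T157.O6s_61
import Crest.Agent.T157.O6u_6

set_option autoImplicit false
set_option linter.unusedSectionVars false

/-!
Row 157, A2, section 6 (helper17): (m2) with a separate moment for (w1), and with all numbers fixed.
-/

noncomputable section

namespace Crest.Agent.T157.O6m

open MeasureTheory Matrix Crest.Agent.Lib.OrthPoinc
open Crest.Agent.T157.Oc Crest.Agent.T157.E Crest.Agent.T157.SL Crest.Agent.T157.Ks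
open Crest.Agent.T157.Od Crest.Agent.T157.Oo Crest.Agent.T157.O6 Crest.Agent.T157.Ba26

variable {n k : ℕ}

/-- the hypotheses of (m2), moments `ra` for (w1) and `r` -/
structure MH2 (o : Orb n k) (μ : Measure (Mat k)) (c : Cs) (R η K δ : ℝ) (B0 : Mn n) (x : Vn n)
    (l b m γ g Γ e ε π s sa sb s1 : ℝ) (ra r : ℕ) : Prop where
  ctx : Ctx o μ c R η K δ
  W3 : Op2 o.W 9
  px : ∀ i, o.p i = Real.tanh (x i)
  hb : ∀ i, |o.h i - x i - o.z * o.p i| + |o.z| ≤ b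
  lp : 0 < l
  l1 : l ≤ 1
  lR : l⁻¹ ≤ R
  Bs : B0ᵀ = B0
  B3 : Op2 B0 9
  eva : Even ra
  ev : Even r
  s0 : 0 < s
  sa0 : 0 < sa
  sb0 : 0 < sb
  s10 : 0 ≤ s1
  e0 : 0 ≤ e
  g0 : 0 ≤ g
  γ0 : 0 < γ
  γ1 : γ ≤ 1
  m2 : ∀ i, |EV (o.P μ) (fun U => o.A U *ᵥ o.d U) i| ≤ m
  m4 : Op2 (ErC o (o.P μ) B0) (e ^ 2)
  hγ : γ ≤ Real.exp (-(14 + c.k2 + 2 * (m + 2 * sa + 1) + 2 * b))
  hg : 3 * (11 + c.k2 * c.k1 + 9 * c.k1 ^ 2) ≤ l * g ^ 2
  hΓ : g + e / l + 2 * sb + 2 ≤ Γ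
  hπ : η + pim n k ra (gA c) (MM R) η sa + pim n k r (bT n c l) (MM R) η sb +
    pim n k r (bR n c.a (rC c) l γ) (MM R) (η + pim n k ra (gA c) (MM R) η sa) s ≤ π
  small : MM R * (K * π + δ) ≤ ε
  ε1 : ε ≤ 1
  mean : 12 / γ * (e ^ 2 / l ^ 2 + l * (37 + c.k2 + 2 * c.a ^ 2) + Γ * (2 * s + ε) ^ 2 + ε) ≤ s1 ^ 2

theorem m2core {o : Orb n k} {μ : Measure (Mat k)} [IsProbabilityMeasure μ] {c : Cs} {R η K δ : ℝ}
    {B0 : Mn n} {x : Vn n} {l b m γ g Γ e ε π s sa sb s1 : ℝ} {ra r : ℕ}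
    (h : MH2 o μ c R η K δ B0 x l b m γ g Γ e ε π s sa sb s1 ra r) :
    μ.real {U | ¬ (U ∈ o.G c ∧ Sand (o.w U) o.p l γ Γ ∧
      OpLe (Rt (o.w U) (o.A U) o.p l - (1 - Sq o.p l * B0 * Sq o.p l)) (2 * s + ε + s1))} ≤ π := by
  have X := h.ctx
  have ho := X.ok
  have hc := X.nn
  have := Orb.P_prob X.inv ho
  have hν := Orb.P_mem (o := o) X.inv
  have η0 : 0 ≤ η := measureReal_nonneg.trans X.G
  have R0 : 0 ≤ R := by linarith [X.R1]
  have M0 : 0 ≤ MM R := by unfold MM; positivity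
  have K0 : 0 ≤ K := by linarith [X.K1]
  have gA0 : 0 ≤ gA c := by
    have := hc.lam; have := hc.k2; have := hc.e0; have := hc.d0
    unfold gA; positivity
  have bT0 : 0 ≤ bT n c l := by
    have := rC_nn hc; have := hc.k2; have := hc.d0; have := h.lp
    unfold bT; positivity
  have bR0 : 0 ≤ bR n c.a (rC c) l γ := by
    have := rC_nn hc; have := h.lp; have := h.γ0
    unfold bR; positivity
  have p1 := Op27.pim_nn (n := n) (r := ra) ho.two gA0 M0 η0 h.sa0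
  have p2 := Op27.pim_nn (n := n) (r := r) ho.two bT0 M0 η0 h.sb0
  have p3 := Op27.pim_nn (n := n) (r := r) ho.two bR0 M0 (add_nonneg η0 p1) h.s0
  have hπ := h.hπ
  have sm : ∀ q, q ≤ π → MM R * (K * q + δ) ≤ ε := fun q hq =>
    (mul_le_mul_of_nonneg_left (by linarith [mul_le_mul_of_nonneg_left hq K0]) M0).trans h.small
  have a1 := w1Stmt_17 n k o μ c R η K δ sa m ra X h.sa0 h.eva ((sm _ (by linarith)).trans h.ε1) h.m2
  have a2 := w2Stmt n k o μ c R η K δ l sb e g B0 r X h.lp h.l1 h.lR h.sb0 h.ev h.B3 h.e0 h.m4 h.g0 h.hg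
    ((sm _ (by linarith)).trans h.ε1)
  set G1 : Set (Mat k) := {U | U ∈ o.G c ∧ ∀ v, γ * qd (Dl o.p l) v ≤ v ⬝ᵥ Cl (o.w U) l *ᵥ v} with hG1
  have b1 : μ.real G1ᶜ ≤ η + pim n k ra (gA c) (MM R) η sa := by
    refine real_or (fun U hU => ?_) X.G a1
    by_contra hn
    simp only [Set.mem_union, Set.mem_compl_iff, Set.mem_ofPred_eq, not_or, not_not] at hn
    refine hU ⟨hn.1, fun v => ?_⟩
    have c1 := O6c.cr_orb ho (a := 3) (by norm_num) (op2_Wu ho (op_mono h.W3 (by norm_num)) hn.1.1)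
      hn.1.2.k2 hn.2 h.hb v
    have c2 : qd (Dl o.p l) v = ∑ i, (1 - Real.tanh (x i) ^ 2) * v i ^ 2 + l * (v ⬝ᵥ v) := by
      simp only [qd, Dl, h.px, dotProduct, Finset.mul_sum, ← Finset.sum_add_distrib]
      exact Finset.sum_congr rfl fun i _ => by ring
    have c3 : 0 ≤ ∑ i, (1 - Real.tanh (x i) ^ 2) * v i ^ 2 := Finset.sum_nonneg fun i _ =>
      mul_nonneg (h.px i ▸ D_nn X.p1 i) (sq_nonneg _)
    have c4 := mul_le_mul_of_nonneg_right h.hγ c3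
    have c5 := mul_le_mul_of_nonneg_right h.γ1 (mul_nonneg h.lp.le (dnn v))
    rw [show (4 * 3 + 2 : ℝ) = 14 by norm_num] at c1
    rw [c2, Cl_quad]; linarith
  have aR : c.a ≤ R := by nlinarith [X.Ra, X.R1, hc.a]
  have a3 := opStmt n k μ (o.P μ) _ _ G1 (bR n c.a (rC c) l γ) (MM R) (4 * R) _ K δ s r X.inv ho.two hν
    (mRdStmt n k o l ho h.lp) (fun U _ => Rt_t (Orb.A_symm ho U)) b1 K0 X.tr bR0 M0 h.s0 h.ev
    (fun U hU hG => mGradStmt n _ _ _ _ _ l γ c.a (rC c) (Orb.fam ho hU) (Orb.wt U) (Orb.A_symm ho U)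
      hG.1.2.a X.p1 h.lp h.l1 h.γ0 (rC_nn hc) hG.2 (rb_C hG.1.2 hc))
    (fun U hU v => (mGradStmt n _ _ _ _ _ l (l / 2) c.a (rC (crude c.a R)) (Orb.fam ho hU) (Orb.wt U)
      (Orb.A_symm ho U) (X.cr U hU).a X.p1 h.lp h.l1 (half_pos h.lp) (rC_nn (crude_nn hc.a R0))
      (low_crude X.p1 h.lp (Orb.wt U) h.l1) (rb_C (X.cr U hU) (crude_nn hc.a R0)) v).trans
      (mul_le_mul_of_nonneg_right (crude_bR X.R1 X.Rn X.Ra h.lp h.lR) (dnn v)))
    (fun U hU => Rt_crude (Orb.wt U) X.p1 h.lp h.l1 hc.a.le (X.cr U hU).a aR h.lR)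
  set Rb := EM (o.P μ) fun U => Rt (o.w U) (o.A U) o.p l with hRb
  set G3 : Set (Mat k) := {U | U ∈ o.G c ∧ Sand (o.w U) o.p l γ Γ ∧
    OpLe (Rt (o.w U) (o.A U) o.p l - Rb) (2 * s + ε)} with hG3
  have b3 : μ.real G3ᶜ ≤ π := by
    refine le_trans (real_or (fun U hU => ?_) (real_or subset_rfl b1 a2) a3) hπ
    by_contra hn
    simp only [Set.mem_union, Set.mem_compl_iff, Set.mem_ofPred_eq, not_or, not_not] at hn
    obtain ⟨⟨n1, n2⟩, n3⟩ := hn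
    refine hU ⟨n1.1, fun v => ⟨n1.2 v, (n2 v).trans (mul_le_mul_of_nonneg_right h.hΓ ?_)⟩,
      fun u hu => (n3 u hu).trans ?_⟩
    · rw [← Sq_dot X.p1 h.lp]; exact dnn _
    · have q1 := sm (pim n k r (bR n c.a (rC c) l γ) (MM R) (η + pim n k ra (gA c) (MM R) η sa) s)
        (by linarith)
      have q2 : 2 * (4 * R) ≤ MM R := by
        have : R ≤ R ^ 8 := le_self_pow₀ X.R1 (by norm_num)
        unfold MM; linarith
      linarith [mul_le_mul_of_nonneg_right q2 (add_nonneg (mul_nonneg K0 p3) X.δ0)]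
  have ε0 : 0 ≤ ε := le_trans (mul_nonneg M0 (by simpa using X.δ0)) (sm 0 (by linarith))
  have Γ0 : 0 ≤ Γ := le_trans (by have := h.g0; have := h.e0; have := h.lp; have := h.sb0; positivity) h.hΓ
  have a4 := mMeanStmt n k o (o.P μ) G3 B0 c.a R l γ Γ c.k2 (2 * s + ε) e ε s1 ho hν hc.a X.R1 X.Ra X.cr
    X.p1 h.lp h.l1 h.lR h.γ0 h.γ1 Γ0 hc.k2 (by linarith [h.s0]) h.Bs h.B3
    ((mul_le_mul_of_nonneg_left ((X.tr _).trans (by linarith [mul_le_mul_of_nonneg_left b3 K0])) M0).trans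
      h.small) h.ε1 (fun U _ hU => ⟨hU.2.2, hU.2.1, hU.1.2.k2⟩) h.m4 h.s10 h.mean
  refine le_trans (measureReal_mono ?_) b3
  intro U hU hG
  refine hU ⟨hG.1, hG.2.1, fun u hu => ?_⟩
  have q1 := abs_le.1 (hG.2.2 u hu)
  have q2 := abs_le.1 (a4 u hu)
  simp only [sub_mulVec, dotProduct_sub] at q1 q2 ⊢
  rw [abs_le]; constructor <;> linarith [q1.1, q1.2, q2.1, q2.2]

/-! ### numbers -/

section Num

variable {u x y : ℝ} {a b : ℤ}

theorem zp_mul (hu : 1 ≤ u) (hx : x ≤ u ^ a) (hy : y ≤ u ^ b) (y0 : 0 ≤ y) : x * y ≤ u ^ (a + b) := by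
  rw [zpow_add₀ (by linarith)]; exact mul_le_mul hx hy y0 (by positivity)

theorem zp_le (hu : 1 ≤ u) (h : a ≤ b) : u ^ a ≤ u ^ b := zpow_le_zpow_right₀ hu h

theorem zp_c (hu : 1 ≤ u) {c : ℝ} (hc : c ≤ u) (h : a + 1 ≤ b) : c * u ^ a ≤ u ^ b :=
  (zp_mul hu (a := 1) (by simpa using hc) le_rfl (by positivity)).trans (zp_le hu (by linarith))

theorem zp_pow (hx : x ≤ u ^ a) (x0 : 0 ≤ x) (q : ℕ) : x ^ q ≤ u ^ (a * q) := by
  rw [_root_.zpow_mul, _root_.zpow_natCast]; exact pow_le_pow_left₀ x0 hx q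

/-- the failure probability in powers of `u` -/
theorem pim_zp {r : ℕ} {B M η : ℝ} {c d e f : ℤ} (hu : 10 ≤ u) (hn : (n : ℝ) = u ^ (100 : ℤ))
    (hk : k + 2 = n) (B0 : 0 ≤ B) (M0 : 0 ≤ M) (η0 : 0 ≤ η)
    (hB : 8 * ((r : ℝ) + 1) ^ 2 * B ≤ u ^ a) (hM : 8 * ((r : ℝ) + 1) ^ 2 * M ≤ u ^ b) (hη : η ≤ u ^ c)
    (h1 : 100 + (a - 100 - 2 * d) * (r + 1 : ℕ) ≤ e) (h2 : 100 + (b - 100 - 2 * d) * (r + 1 : ℕ) + c ≤ e)
    (h3 : e + 1 ≤ f) : pim n k r B M η (u ^ d) ≤ u ^ f := by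
  have u1 : 1 ≤ u := by linarith
  have u0 : 0 < u := by linarith
  have hN : (10 : ℝ) ≤ n := by
    rw [hn]; exact hu.trans (by simpa using zp_le u1 (show (1 : ℤ) ≤ 100 by norm_num))
  have hk' : (k : ℝ) - 2 = n - 4 := by rw [← hk]; push_cast; ring
  have k0 : 4 * ((k : ℝ) - 2)⁻¹ ≤ 8 * u ^ (-100 : ℤ) := by
    rw [hk', _root_.zpow_neg, ← hn, ← div_eq_mul_inv, ← div_eq_mul_inv, div_le_div_iff₀ (by linarith) (by linarith)]
    linarith
  have k1 : 0 ≤ 4 * ((k : ℝ) - 2)⁻¹ := by rw [hk']; exact mul_nonneg (by norm_num) (inv_nonneg.2 (by linarith))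
  have key : ∀ {Z : ℝ} {j : ℤ}, 0 ≤ Z → 8 * ((r : ℝ) + 1) ^ 2 * Z ≤ u ^ j →
      (4 * ((k : ℝ) - 2)⁻¹ * ((r : ℝ) + 1) ^ 2 * Z / (u ^ d) ^ 2) ^ (r + 1) ≤
        u ^ ((j - 100 - 2 * d) * (r + 1 : ℕ)) := fun {Z j} Z0 hZ => by
    refine zp_pow ?_ (by positivity) _
    rw [div_le_iff₀ (by positivity), ← _root_.zpow_natCast (u ^ d), ← _root_.zpow_mul, ← zpow_add₀ u0.ne']
    have := zp_mul u1 (le_refl (u ^ (-100 : ℤ))) hZ (by positivity)
    refine le_trans ?_ (this.trans (zp_le u1 (by push_cast; linarith)))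
    nlinarith [mul_le_mul_of_nonneg_right k0 (show 0 ≤ ((r : ℝ) + 1) ^ 2 * Z by positivity)]
  have e1 : pim n k r B M η (u ^ d) =
      n * (4 * ((k : ℝ) - 2)⁻¹ * ((r : ℝ) + 1) ^ 2 * B / (u ^ d) ^ 2) ^ (r + 1) +
        n * (4 * ((k : ℝ) - 2)⁻¹ * ((r : ℝ) + 1) ^ 2 * M / (u ^ d) ^ 2) ^ (r + 1) * η := by
    simp only [pim, div_pow, mul_pow _ B, mul_pow _ M, pow_mul]; ring
  have b1 := (zp_mul u1 hn.le (key B0 hB) (by positivity)).trans (zp_le u1 h1)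
  have b2 := (zp_mul u1 (zp_mul u1 hn.le (key M0 hM) (by positivity)) hη η0).trans (zp_le u1 h2)
  have b3 := zp_c u1 (c := 2) (by linarith) h3
  rw [e1]; linarith

theorem exp_neg_le (hu : 10 ^ 7 ≤ u) : Real.exp (-u) ≤ u ^ (-1000 : ℤ) := by
  have u0 : 0 < u := by linarith
  have h1 : u ≤ (u / 2000) ^ 2 := by nlinarith
  have h2 : u / 2000 ≤ Real.exp (u / 2000) := by linarith [Real.add_one_le_exp (u / 2000)]
  have h3 : u ^ 1000 ≤ Real.exp u := by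
    refine (pow_le_pow_left₀ u0.le (h1.trans (pow_le_pow_left₀ (by positivity) h2 2)) 1000).trans_eq ?_
    rw [← pow_mul, ← Real.exp_nat_mul]; congr 1; push_cast; ring
  rw [Real.exp_neg, _root_.zpow_neg]
  exact inv_anti₀ (by positivity) (by exact_mod_cast h3)

end Num

/-- **(m2), all numbers fixed**: `n = u ^ 100`, `l = u ^ (-24)`, error `2 / u` -/
theorem m2d {o : Orb n k} {μ : Measure (Mat k)} [IsProbabilityMeasure μ] {c : Cs} {R η K δ : ℝ}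
    {B0 : Mn n} {x : Vn n} {b m u : ℝ} (hu : 10 ^ 10 ≤ u) (hn : (n : ℝ) = u ^ 100) (hk : k + 2 = n)
    (X : Ctx o μ c R η K δ) (hR : R ≤ 36 * n) (hK : K ≤ n) (hη : η * (n : ℝ) ^ 40000 ≤ 1)
    (hδ : δ * (n : ℝ) ^ 10 ≤ 1) (ha : c.a ≤ 6) (k1 : c.k1 ≤ u) (gD1 : gD c ≤ u) (gA1 : gA c ≤ u)
    (rC1 : rC c ≤ u) (d1 : c.d0 ≤ u) (hγ : Real.exp (20 + c.k2 + 2 * m + 2 * b) ≤ u) (W3 : Op2 o.W 9)
    (px : ∀ i, o.p i = Real.tanh (x i)) (hb : ∀ i, |o.h i - x i - o.z * o.p i| + |o.z| ≤ b)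
    (Bs : B0ᵀ = B0) (B3 : Op2 B0 9) (m0 : 0 ≤ m) (b0 : 0 ≤ b)
    (m2 : ∀ i, |EV (o.P μ) (fun U => o.A U *ᵥ o.d U) i| ≤ m)
    (m4 : Op2 (Er4 o (o.P μ) B0) (((u ^ 41)⁻¹) ^ 2)) :
    μ.real {U | ¬ (U ∈ o.G c ∧ OpLe (Rt (o.w U) (o.A U) o.p (u ^ 24)⁻¹ -
      (1 - Sq o.p (u ^ 24)⁻¹ * B0 * Sq o.p (u ^ 24)⁻¹)) (2 / u))} ≤ 1 / n := by
  have u1 : 1 ≤ u := by linarith
  have u0 : 0 < u := by linarith
  have hc := X.nn
  have hn' : (n : ℝ) = u ^ (100 : ℤ) := by exact_mod_cast hn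
  have zp : ∀ a : ℤ, 0 < u ^ a := fun a => zpow_pos u0 a
  have η0 : 0 ≤ η := measureReal_nonneg.trans X.G
  have R0 : 0 ≤ R := by linarith [X.R1]
  have K0 : 0 ≤ K := by linarith [X.K1]
  have M0 : 0 ≤ MM R := by unfold MM; positivity
  have inv : ∀ {y : ℝ} (j : ℕ), y * (n : ℝ) ^ j ≤ 1 → y ≤ u ^ (-(100 * j) : ℤ) := fun {y} j h => by
    rw [_root_.zpow_neg, _root_.zpow_mul, _root_.zpow_natCast, ← hn', ← one_div, le_div_iff₀ (by rw [hn']; positivity)]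
    exact h
  have η1 : η ≤ u ^ (-4000000 : ℤ) := by simpa using inv 40000 hη
  have δ1 : δ ≤ u ^ (-1000 : ℤ) := by simpa using inv 10 hδ
  have K1 : K ≤ u ^ (100 : ℤ) := hn' ▸ hK
  have M1 : MM R ≤ u ^ (802 : ℤ) := by
    have h1 : R ^ 8 ≤ (36 * u ^ 100) ^ 8 := pow_le_pow_left₀ R0 (hn ▸ hR) 8
    have h2 : (10 : ℝ) ^ 7 * 36 ^ 8 ≤ u ^ 2 := by nlinarith
    have h3 := mul_le_mul_of_nonneg_right h2 (show 0 ≤ u ^ 800 by positivity)
    have : MM R ≤ u ^ 802 := by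
      rw [mul_pow, ← pow_mul, show 100 * 8 = 800 by norm_num] at h1
      rw [show 802 = 2 + 800 by norm_num, pow_add, MM]
      generalize u ^ 800 = z at *
      linarith
    exact_mod_cast this
  have k2 : c.k2 ≤ u := by linarith [Real.add_one_le_exp (20 + c.k2 + 2 * m + 2 * b)]
  have one : ∀ {y : ℝ}, y ≤ u → y ≤ u ^ (1 : ℤ) := fun h => by simpa using h
  have cm : ∀ {y z : ℝ} {a : ℤ}, y ≤ u → z ≤ u ^ a → 0 ≤ z → y * z ≤ u ^ (1 + a) := fun h1 h2 h3 =>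
    zp_mul u1 (one h1) h2 h3
  have sm : ∀ {q : ℝ}, 0 ≤ q → q ≤ u ^ (-999 : ℤ) → MM R * (K * q + δ) ≤ u ^ (-96 : ℤ) := fun {q} q0 hq => by
    have h1 := zp_mul u1 K1 hq q0
    have h2 := δ1.trans (zp_le u1 (show (-1000 : ℤ) ≤ 100 + -999 by norm_num))
    have h3 := zp_c u1 (c := 2) (a := 100 + -999) (b := -898) (by linarith) (by norm_num)
    exact (zp_mul u1 M1 (show K * q + δ ≤ u ^ (-898 : ℤ) by linarith)
      (add_nonneg (mul_nonneg K0 q0) X.δ0)).trans (zp_le u1 (by norm_num))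
  have gA0 : 0 ≤ gA c := by
    have := hc.lam; have := hc.k2; have := hc.e0; have := hc.d0
    unfold gA; positivity
  have gD0 : 0 ≤ gD c := mul_nonneg hc.lam hc.k1
  -- the error of (M4)
  have fl1 : fl R η u ≤ u ^ (-999 : ℤ) := by
    have h1 := exp_neg_le (show 10 ^ 7 ≤ u by linarith)
    have h2 := (zp_mul u1 M1 η1 η0).trans (zp_le u1 (show 802 + -4000000 ≤ (-1000 : ℤ) by norm_num))
    have h3 := zp_c u1 (c := 2) (a := -1000) (b := -999) (by linarith) (by norm_num)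
    unfold fl; linarith
  have fl0 : 0 ≤ fl R η u := by unfold fl; positivity
  have hk' : (k : ℝ) - 2 = n - 4 := by rw [← hk]; push_cast; ring
  have hN : u ≤ n := by rw [hn]; exact le_self_pow₀ u1 (by norm_num)
  have rd : ∀ {T : ℝ}, 0 ≤ T → T ≤ u → 0 ≤ rad k T T u ∧ rad k T T u ≤ u ^ (-96 : ℤ) := fun {T} T0 hT => by
    refine ⟨div_nonneg (by positivity) (by linarith), ?_⟩
    rw [rad, hk', div_le_iff₀ (by linarith)]
    have e : u ^ (-96 : ℤ) * n = u ^ 4 := by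
      rw [hn', ← zpow_add₀ u0.ne']; norm_cast
    have h1 : u ^ (-96 : ℤ) ≤ 1 := by simpa using zp_le u1 (show (-96 : ℤ) ≤ 0 by norm_num)
    have h2 : u ^ 2 * (10 ^ 10) ≤ u ^ 2 * u ^ 2 := by gcongr; nlinarith
    nlinarith [mul_le_mul_of_nonneg_right hT u0.le]
  have m5 : Op2 (ErC o (o.P μ) B0) ((u ^ (-40 : ℤ)) ^ 2) := by
    have h1 := (covGlue scStmt n k o μ c R η K δ u _ X u0.le (sm fl0 fl1)).2 B0 _ B3 (by positivity) m4
    refine op_mono h1 (pow_le_pow_left₀ ?_ ?_ 2)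
    · have := (rd gD0 gD1).1; have := (rd gA0 gA1).1; have := zp (-96); positivity
    · have h2 := zp_c u1 (c := 20) (a := -96) (b := -41) (by linarith) (by norm_num)
      have h3 := zp_c u1 (c := 2) (a := -41) (b := -40) (by linarith) (by norm_num)
      have h4 : (u ^ 41)⁻¹ = u ^ (-41 : ℤ) := by rw [_root_.zpow_neg]; norm_cast
      linarith [(rd gD0 gD1).2, (rd gA0 gA1).2]
  have el : (u ^ 24)⁻¹ = u ^ (-24 : ℤ) := by rw [_root_.zpow_neg]; norm_cast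
  have cv : ∀ j : ℕ, u ^ (-(j : ℤ)) = (u ^ j)⁻¹ := fun j => by rw [_root_.zpow_neg, _root_.zpow_natCast]
  have a2 : c.a ^ 2 ≤ 36 := by nlinarith [hc.a]
  have r0 := rC_nn hc
  have pw : ∀ i j : ℕ, i ≤ j → u ^ i ≤ u ^ j := fun i j h => pow_le_pow_right₀ u1 h
  have bT1 : bT n c (u ^ 24)⁻¹ ≤ 39 * u ^ 127 := by
    have e : bT n c (u ^ 24)⁻¹ =
        3 * (rC c * u ^ 48 + 4 * (c.k1 ^ 2 * c.k2 * (2 * u ^ 100 + c.d0 * u ^ 48) * u ^ 24)) := by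
      rw [bT, hn]; field_simp
    have := hc.k1; have := hc.k2; have := hc.d0
    have h1 : rC c * u ^ 48 ≤ u * u ^ 48 := by gcongr
    have h2 : c.k1 ^ 2 * c.k2 * (2 * u ^ 100 + c.d0 * u ^ 48) * u ^ 24 ≤
        u ^ 2 * u * (2 * u ^ 100 + u * u ^ 48) * u ^ 24 := by gcongr
    have h3 := pw 49 127 (by norm_num)
    have h4 := pw 76 127 (by norm_num)
    rw [e]; linarith
  have bR1 : bR n c.a (rC c) (u ^ 24)⁻¹ u⁻¹ ≤ 2885 * u ^ 77 := by
    have e : bR n c.a (rC c) (u ^ 24)⁻¹ u⁻¹ = 5 * (16 * (c.a ^ 2 * u ^ 77) + rC c * u ^ 50) := by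
      rw [bR, hn]; field_simp
    have h1 : rC c * u ^ 50 ≤ u * u ^ 50 := by gcongr
    have h2 : c.a ^ 2 * u ^ 77 ≤ 36 * u ^ 77 := by gcongr
    have h3 := pw 51 77 (by norm_num)
    rw [e]; linarith
  have bT0 : 0 ≤ bT n c (u ^ 24)⁻¹ := by
    have := hc.k2; have := hc.d0
    unfold bT; positivity
  have bR0 : 0 ≤ bR n c.a (rC c) (u ^ 24)⁻¹ u⁻¹ := by unfold bR; positivity
  have u10 : (10 : ℝ) ≤ u := by linarith
  have pa := pim_zp (r := 4500) (d := 0) (e := -435800) (f := -435799) u10 hn' hk gA0 M0 η0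
    (cm (by norm_num; linarith) (one gA1) gA0) (cm (by norm_num; linarith) M1 M0) η1 (by norm_num)
    (by norm_num) (by norm_num)
  rw [_root_.zpow_zero] at pa
  have pa0 := Op27.pim_nn (n := n) (r := 4500) X.ok.two gA0 M0 η0 one_pos
  have pa' : η + pim n k 4500 (gA c) (MM R) η 1 ≤ u ^ (-435798 : ℤ) := by
    have h1 := η1.trans (zp_le u1 (show (-4000000 : ℤ) ≤ -435799 by norm_num))
    have h3 := zp_c u1 (c := 2) (a := -435799) (b := -435798) (by linarith) (by norm_num)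
    linarith
  have pb := pim_zp (r := 600) (a := 128) (d := 15) (e := -1100) (f := -1099) u10 hn' hk bT0 M0 η0
    (by
      have h1 := mul_le_mul_of_nonneg_right (show 8 * 601 ^ 2 * 39 ≤ u by linarith) (pow_pos u0 127).le
      have : 8 * (((600 : ℕ) : ℝ) + 1) ^ 2 * bT n c (u ^ 24)⁻¹ ≤ u ^ 128 := by
        push_cast; nlinarith
      exact_mod_cast this)
    (cm (by norm_num; linarith) M1 M0) η1 (by norm_num) (by norm_num) (by norm_num)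
  have pr := pim_zp (r := 600) (a := 78) (d := -10) (e := -1100) (f := -1099) u10 hn' hk bR0 M0
    (add_nonneg η0 pa0) (by
      have h1 := mul_le_mul_of_nonneg_right (show 8 * 601 ^ 2 * 2885 ≤ u by linarith) (pow_pos u0 77).le
      have : 8 * (((600 : ℕ) : ℝ) + 1) ^ 2 * bR n c.a (rC c) (u ^ 24)⁻¹ u⁻¹ ≤ u ^ 78 := by
        push_cast; nlinarith
      exact_mod_cast this)
    (cm (by norm_num; linarith) M1 M0) pa' (by norm_num) (by norm_num) (by norm_num)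
  have lt1 : ∀ a : ℤ, a ≤ 0 → u ^ a ≤ 1 := fun a h => by simpa using zp_le u1 h
  have H : MH2 o μ c R η K δ B0 x (u ^ 24)⁻¹ b m u⁻¹ (u ^ 14) (u ^ 16) (u ^ (-40 : ℤ)) (u ^ (-96 : ℤ))
      (u ^ (-999 : ℤ)) (u ^ (-10 : ℤ)) 1 (u ^ (15 : ℤ)) u⁻¹ 4500 600 := by
    refine ⟨X, W3, px, hb, by positivity, el ▸ lt1 _ (by norm_num), ?_, Bs, B3, by decide, by decide,
      zp _, one_pos, zp _, by positivity, (zp _).le, by positivity, by positivity,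
      inv_le_one_of_one_le₀ u1, m2, m5, ?_, ?_, ?_, ?_, sm (zp _).le le_rfl, lt1 _ (by norm_num), ?_⟩
    · rw [inv_inv]; exact (pw 24 100 (by norm_num)).trans (hn ▸ X.Rn)
    · rw [Real.exp_neg]
      refine inv_anti₀ (Real.exp_pos _) (le_trans (le_of_eq ?_) hγ)
      congr 1; ring
    · have := hc.k1; have := hc.k2
      have e : (u ^ 24)⁻¹ * (u ^ 14) ^ 2 = u ^ 2 * u ^ 2 := by field_simp
      have h1 : c.k2 * c.k1 ≤ u * u := by gcongr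
      have h2 : c.k1 ^ 2 ≤ u ^ 2 := by gcongr
      have h3 : 1 ≤ u ^ 2 := one_le_pow₀ u1
      have h4 : 63 * u ^ 2 ≤ u ^ 2 * u ^ 2 := by gcongr; nlinarith
      rw [e]; nlinarith
    · have e : u ^ (-40 : ℤ) / (u ^ 24)⁻¹ ≤ 1 := by
        rw [div_le_one (by positivity), el]; exact zp_le u1 (by norm_num)
      have h1 := pw 14 15 (by norm_num)
      have h2 : 1 ≤ u ^ 15 := one_le_pow₀ u1
      have h3 : 6 * u ^ 15 ≤ u * u ^ 15 := by gcongr; linarith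
      have h4 : u ^ (15 : ℤ) = u ^ 15 := by norm_cast
      rw [h4]; linarith
    · have h1 := pa'.trans (zp_le u1 (show (-435798 : ℤ) ≤ -1099 by norm_num))
      have h3 := zp_c u1 (c := 3) (a := -1099) (b := -999) (by linarith) (by norm_num)
      linarith
    · have h0 : 2 * u ^ (-10 : ℤ) + u ^ (-96 : ℤ) ≤ 3 * (u ^ 10)⁻¹ := by
        have := zp_le u1 (show (-96 : ℤ) ≤ -10 by norm_num)
        have h4 := cv 10
        simp only [Nat.cast_ofNat] at h4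
        linarith
      have h1 : u ^ 16 * (2 * u ^ (-10 : ℤ) + u ^ (-96 : ℤ)) ^ 2 ≤ u ^ 16 * (3 * (u ^ 10)⁻¹) ^ 2 := by
        have := zp (-10); have := zp (-96); gcongr
      have e1 : u ^ 16 * (3 * (u ^ 10)⁻¹) ^ 2 = 9 * (u ^ 4)⁻¹ := by field_simp; norm_num
      have h4 := cv 4
      simp only [Nat.cast_ofNat] at h4
      have h2 : (u ^ (-40 : ℤ)) ^ 2 / ((u ^ 24)⁻¹) ^ 2 ≤ (u ^ 4)⁻¹ := by
        rw [← div_pow, el, ← zpow_sub₀ u0.ne', ← h4]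
        exact (zp_pow le_rfl (zp _).le 2).trans (zp_le u1 (by norm_num))
      have h3 : (u ^ 24)⁻¹ * (37 + c.k2 + 2 * c.a ^ 2) ≤ (u ^ 4)⁻¹ := by
        rw [el, ← h4, mul_comm]
        have h5 : 37 + c.k2 + 2 * c.a ^ 2 ≤ u ^ (2 : ℤ) := by
          have : 37 + c.k2 + 2 * c.a ^ 2 ≤ u ^ 2 := by nlinarith
          exact_mod_cast this
        exact (zp_mul u1 h5 le_rfl (zp _).le).trans (zp_le u1 (by norm_num))
      have h5 := zp_le u1 (show (-96 : ℤ) ≤ -4 by norm_num)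
      refine (mul_le_mul_of_nonneg_left (show _ ≤ 12 * (u ^ 4)⁻¹ by linarith) (by positivity)).trans ?_
      rw [show 12 / u⁻¹ * (12 * (u ^ 4)⁻¹) = 144 * u⁻¹ * u⁻¹ ^ 2 by field_simp; norm_num]
      refine mul_le_of_le_one_left (by positivity) ?_
      rw [← div_eq_mul_inv, div_le_one u0]; linarith
  refine le_trans (measureReal_mono ?_) ((m2core H).trans ?_)
  · intro U hU hG
    refine hU ⟨hG.1, fun v hv => (hG.2.2 v hv).trans ?_⟩
    have h1 := zp_le u1 (show (-96 : ℤ) ≤ -10 by norm_num)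
    have h2 := zp_c u1 (c := 3) (a := -10) (b := -1) (by linarith) (by norm_num)
    rw [_root_.zpow_neg_one] at h2
    rw [div_eq_mul_inv]; linarith
  · rw [hn', one_div, ← _root_.zpow_neg]; exact zp_le u1 (by norm_num)

end Crest.Agent.T157.O6m
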