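import Crest.Agent.T157.TopZ_88
import Crest.Agent.T157.O7Qu_64
import Crest.Agent.T157.O7St_64
import Crest.Agent.T157.O7W_22
import Crest.Agent.T157.O7Pb_31
import Crest.Agent.T157.O7Aw_67
import Crest.Agent.T157.O7G_13

/-!
# Row 157, block A2, section 7 (helper64): assembly
-/

set_option autoImplicit false

namespace Crest.Agent.T157.O7

/-- **block A2 from the joint planted bounds and the edge window** -/
theorem aOut (j0 : J0) (j1 : J1) (j2 : J2) (j3 : J3) (ed : Edge) {a κ T : ℝ} (ha : a < 2 / 3)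
    (hκ : κ < 1 / 2) (hT : 0 < T) : TopZ.AOut a κ T :=
  have h := out_of quStmt w2Glue awGlue gGlue g3Glue pbStmt starGlue sharpGlue LpAll.covStmt
    Q1.ldB_gauss j0 j1 j2 j3 ed ha hκ hT
  ⟨h.1, h.2.1, h.2.2.1, h.2.2.2⟩

end Crest.Agent.T157.O7
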