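import Crest.Agent.T157.OaDef_48

set_option autoImplicit false
set_option linter.unusedSectionVars false

/-!
Row 157, A2 (helper48): calculus of the properties derivable from the future (`Dv`).
-/

noncomputable section

namespace Crest.Agent.T157.Oa

open MeasureTheory Matrix Filter Topology Set
open Crest.Agent.T157.E Crest.Agent.T157.SL Crest.Agent.T157.Ks Crest.Agent.T157.Od
open Crest.Agent.T157.Oo

variable {n : ℕ}

/-- the numerical frame: `R` bounds all features, `ε` bounds all conditional failures -/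
structure Ctx (I : Finset (Tst n)) (ρ ε R : ℝ) : Prop where
  pos : ∀ τ ∈ I, 0 < τ.lam
  lam1 : ∀ τ ∈ I, τ.lam ≤ 1
  ρ0 : 0 < ρ
  ρε : ρ ≤ ε
  card : I.card * ρ ≤ ε
  R2 : 2 ≤ R
  nR : 36 * (n : ℝ) ≤ R
  small : 10 ^ 12 * R ^ 16 * ε ≤ 1

variable {I : Finset (Tst n)} {W : Mn n} {ρ ε R t u u' a b a' b' h : ℝ} {v : Cube n → ℝ} {m m' : ℕ}
  {Q Q' : ℝ → (Cube n → ℝ) → Prop}

namespace Ctx

theorem ε0 (c : Ctx I ρ ε R) : 0 < ε := c.ρ0.trans_le c.ρε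

theorem R1 (c : Ctx I ρ ε R) : 1 ≤ R := by linarith [c.R2]

theorem R0 (c : Ctx I ρ ε R) : 0 < R := by linarith [c.R2]

/-- every error term `A * ε` with `A ≤ 10^12 R^16` is at most one -/
theorem err (c : Ctx I ρ ε R) {A : ℝ} (hA : A ≤ 10 ^ 12 * R ^ 16) : A * ε ≤ 1 :=
  (mul_le_mul_of_nonneg_right hA c.ε0.le).trans c.small

theorem err' (c : Ctx I ρ ε R) {A : ℝ} {k : ℕ} (hA : A ≤ 10 ^ 12) (hk : k ≤ 16) :
    A * R ^ k * ε ≤ 1 :=
  c.err (mul_le_mul hA (pow_le_pow_right₀ c.R1 hk) (pow_nonneg c.R0.le _) (by positivity))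

/-- an error term is smaller than `1 / R ^ j` -/
theorem err_div (c : Ctx I ρ ε R) {A : ℝ} {k j : ℕ} (hA : A ≤ 10 ^ 12) (hk : k + j ≤ 16) :
    A * R ^ k * ε ≤ 1 / R ^ j := by
  rw [le_div_iff₀ (pow_pos c.R0 j)]
  have := c.err' hA hk
  rw [pow_add] at this
  linarith

theorem ε1 (c : Ctx I ρ ε R) : ε ≤ 1 := by
  have := c.err' (A := 1) (k := 0) (by norm_num) (by norm_num)
  simpa using this

theorem ρ1 (c : Ctx I ρ ε R) : ρ ≤ 1 := c.ρε.trans c.ε1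

theorem bd (c : Ctx I ρ ε R) : Bd (sv (n := n)) R :=
  Oo.bd_sv.mono (by linarith [c.nR, Nat.cast_nonneg (α := ℝ) n])

theorem bdA (c : Ctx I ρ ε R) {A : Mn n} {a : ℝ} (hA : Op2 A (a ^ 2)) (ha : a ^ 2 ≤ 36) :
    Bd (fA A sv) R :=
  (bd_fA hA).mono ((mul_le_mul_of_nonneg_right ha (Nat.cast_nonneg n)).trans c.nR)

end Ctx

theorem FG.depth (c : Ctx I ρ ε R) (e : m ≤ m') (hv : FG I W (ρ ^ m') u v) : FG I W (ρ ^ m) u v :=
  hv.le c.pos (pow_le_pow_of_le_one c.ρ0.le c.ρ1 e)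

/-- a test of the family, seen from an earlier time -/
theorem FG.test (c : Ctx I ρ ε R) (hv : FG I W (ρ ^ (m + 1)) u v) {τ : Tst n} (hτ : τ ∈ I)
    (hu : u ≤ τ.s) : Fut sv (τ.s - u) (ε * τ.lam) (τ.P W) v :=
  (hv.2 τ hτ hu).le (mul_le_mul_of_nonneg_right
    (((pow_le_pow_of_le_one c.ρ0.le c.ρ1 (Nat.le_add_left 1 m)).trans_eq (pow_one ρ)).trans c.ρε)
    (c.pos τ hτ).le)

theorem FG.test' (c : Ctx I ρ ε R) (hv : FG I W (ρ ^ (m + 1)) u v) {τ : Tst n} (hτ : τ ∈ I)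
    (hu : u ≤ τ.s) : Fut sv (τ.s - u) ε (τ.P W) v :=
  (hv.test c hτ hu).le (mul_le_of_le_one_right c.ε0.le (c.lam1 τ hτ))

namespace Dv

theorem depth (c : Ctx I ρ ε R) (hQ : Dv I W ρ m a b Q) (e : m ≤ m') : Dv I W ρ m' a b Q :=
  fun u hu v hv => hQ u hu v (hv.depth c e)

theorem sub (hQ : Dv I W ρ m a b Q) (ha : a ≤ a') (hb : b' ≤ b) : Dv I W ρ m a' b' Q :=
  fun u hu => hQ u ⟨ha.trans hu.1, hu.2.trans hb⟩

theorem imp (hQ : Dv I W ρ m a b Q) (e : ∀ u ∈ Icc a b, ∀ v, (∀ x, 0 < v x) → Q u v → Q' u v) :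
    Dv I W ρ m a b Q' := fun u hu v hv => e u hu v hv.1 (hQ u hu v hv)

theorem and (hQ : Dv I W ρ m a b Q) (hQ' : Dv I W ρ m a b Q') :
    Dv I W ρ m a b fun u v => Q u v ∧ Q' u v := fun u hu v hv => ⟨hQ u hu v hv, hQ' u hu v hv⟩

theorem union (hQ : Dv I W ρ m a b Q) (hQ' : Dv I W ρ m b b' Q) : Dv I W ρ m a b' Q :=
  fun u hu => (le_total u b).elim (fun e => hQ u ⟨hu.1, e⟩) fun e => hQ' u ⟨e, hu.2⟩

theorem pos : Dv I W ρ m a b fun _ v => ∀ x, 0 < v x := fun _ _ _ hv => hv.1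

/-- a derivable property holds at later times, up to `ε` -/
theorem fut (c : Ctx I ρ ε R) (hQ : Dv I W ρ m a b Q) (hv : FG I W (ρ ^ (m + 1)) u v) (e : u ≤ u')
    (hu : u' ∈ Icc a b) : Fut sv (u' - u) ε (Q u') v := by
  have h1 := hv.inherit c.pos (pow_nonneg c.ρ0.le _) (pow_pos c.ρ0 m) e
  rw [pow_succ, mul_div_cancel_left₀ _ (pow_pos c.ρ0 m).ne'] at h1
  exact (h1.le c.card).mono hv.wt fun v' _ h2 => hQ u' hu v' h2

/-- a derivable property holds along a window, up to `ε` -/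
theorem ap (c : Ctx I ρ ε R) (hQ : Dv I W ρ m a b Q) (hv : FG I W (ρ ^ (m + 1)) u v) (ha : a ≤ u)
    (hb : u + h ≤ b) {P : (Cube n → ℝ) → Prop}
    (e : ∀ u' ∈ Icc u (u + h), ∀ v', Wt v' → Q u' v' → P v') : AP sv v h ε P := fun r hr => by
  have h1 := hQ.fut c hv (u' := u + r) (by linarith [hr.1]) ⟨by linarith [hr.1], by linarith [hr.2]⟩
  rw [add_sub_cancel_left] at h1
  exact h1.mono hv.wt (e _ ⟨by linarith [hr.1], by linarith [hr.2]⟩)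

theorem ap' (c : Ctx I ρ ε R) {P : (Cube n → ℝ) → Prop} (hQ : Dv I W ρ m a b fun _ => P)
    (hv : FG I W (ρ ^ (m + 1)) u v) (ha : a ≤ u) (hb : u + h ≤ b) : AP sv v h ε P :=
  hQ.ap c hv ha hb fun _ _ _ _ h => h

end Dv

end Crest.Agent.T157.Oa
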