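import Crest.Agent.T157.OaA_48

set_option autoImplicit false
set_option linter.unusedSectionVars false

/-!
Row 157, A2 (helper48): the short range part of the a priori list ((S1)-(S5) with explicit constants).
-/

noncomputable section

namespace Crest.Agent.T157.Oa

open MeasureTheory Matrix Filter Topology Set
open Crest.Agent.T157.E Crest.Agent.T157.SL Crest.Agent.T157.Ks Crest.Agent.T157.Od
open Crest.Agent.T157.Oo

variable {n : ℕ}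

/-- the parameters from which the list of constants is computed -/
structure Pm where
  (a h κ k al be ga N N' v4' : ℝ)

namespace Pm

variable (q : Pm)

def s1 : ℝ := 4 * q.be / q.h + 32 * (q.k + q.h) * q.al + 1
def s1' : ℝ := 4 * q.al / q.h + 16 * q.k * q.ga + 1

/-- the constants of `APt` -/
def cs : Cs where
  a := q.a
  k1 := q.κ
  k2 := q.k
  a1 := q.al
  b := q.be
  c2 := q.ga
  N := q.N
  N' := q.N'
  s1 := q.s1
  s1' := q.s1'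
  s2 := (4 * q.a ^ 2 / q.h + 144 * q.k) * q.s1 + 1
  s2' := 52 * q.s1 / q.h + 96 * q.k * q.s1' + 1
  t4 := 2960 * q.k / q.h ^ 3 + 1
  t3 := 20 * q.k / q.h ^ 2 + 1
  t3' := 20 / q.h ^ 3 + 1
  q4 := q.a ^ 2 * (2960 * q.k ^ 2 / q.h ^ 2 + 1)
  q3 := q.a ^ 2 * (20 * q.k ^ 2 / q.h + 1)
  q3' := 20 * q.k ^ 2 / q.h + 1
  v4 := 60 / q.h ^ 2
  v4' := q.v4'
  d0 := 0
  e0 := 0

/-- admissible parameters -/
structure Ok (R : ℝ) : Prop where
  a0 : 0 < q.a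
  a6 : q.a ^ 2 ≤ 36
  h1 : q.h ≤ 1
  hR : 1 ≤ q.h * R
  κ0 : 0 ≤ q.κ
  κh : q.κ * q.h ≤ 1
  k0 : 0 ≤ q.k
  kR : q.k ≤ R
  al0 : 0 ≤ q.al
  be0 : 0 ≤ q.be
  ga0 : 0 ≤ q.ga

end Pm

/-- the five second order bounds -/
def B2 (q : Pm) (A : Mn n) (v : Cube n → ℝ) : Prop :=
  CB v sv q.κ ∧ CB v (fA A sv) q.k ∧ fr (A * covMat v sv - 1) ≤ q.al ∧
    fr (A * covMat v sv * A - A) ≤ q.be ∧ fr (covMat v sv) ≤ q.ga

theorem fr_C (v : Cube n → ℝ) : fr (covMat v sv) = T2 v sv sv 0 := by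
  simp only [fr, T2, covMat, Pi.zero_apply, sub_zero]

theorem T4_swap {Ω J L M K : Type*} [Fintype Ω] [Fintype J] [Fintype L] [Fintype M] [Fintype K]
    (w : Ω → ℝ) (ψ : Ω → J → ℝ) (χ : Ω → L → ℝ) (ρ : Ω → M → ℝ) (φ : Ω → K → ℝ) :
    T4 w ψ χ ρ φ = T4 w χ ψ ρ φ := by
  have e : ∀ f g l k : Ω → ℝ, cum4 w f g l k = cum4 w g f l k := fun f g l k => by
    simp only [cum4, mul_comm (f _ - _) (g _ - _), cov_comm w f g]; ring
  simp only [T4]; rw [Finset.sum_comm]; simp only [e fun x => ψ x _]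

theorem T4_swap' {Ω J L M K : Type*} [Fintype Ω] [Fintype J] [Fintype L] [Fintype M] [Fintype K]
    (w : Ω → ℝ) (ψ : Ω → J → ℝ) (χ : Ω → L → ℝ) (ρ : Ω → M → ℝ) (φ : Ω → K → ℝ) :
    T4 w ψ χ ρ φ = T4 w ψ ρ χ φ := by
  simp only [T4]
  refine Finset.sum_congr rfl fun j _ => ?_
  rw [Finset.sum_comm]; simp only [cum4_comm' w _ fun x => χ x _]

theorem T4_swap'' {Ω J L M K : Type*} [Fintype Ω] [Fintype J] [Fintype L] [Fintype M] [Fintype K]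
    (w : Ω → ℝ) (ψ : Ω → J → ℝ) (χ : Ω → L → ℝ) (ρ : Ω → M → ℝ) (φ : Ω → K → ℝ) :
    T4 w ψ χ ρ φ = T4 w ψ χ φ ρ := by
  simp only [T4]
  refine Finset.sum_congr rfl fun j _ => Finset.sum_congr rfl fun l _ => ?_
  rw [Finset.sum_comm]; simp only [cum4_comm w _ _ fun x => ρ x _]

theorem op2_rows {A : Mn n} {a : ℝ} (h : Op2 A a) (v : Vn n) : ∑ m, (A m ⬝ᵥ v) ^ 2 ≤ a * ∑ i, v i ^ 2 := by
  have := h v
  simpa only [dotProduct, mulVec, sq] using this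

theorem fr_le_of_op2 {A : Mn n} {a : ℝ} (h : Op2 A a) : fr A ≤ a * n := by
  simpa only [Matrix.mul_one, fr_one] using h.fr_left 1

theorem sm_num {κ h X Y : ℝ} (hh : 0 < h) (hκ : κ * h ≤ 1) (hX : 0 ≤ X) (hY : 0 ≤ Y) :
    2 * (1 + κ * h) * (X / h + 4 * h * Y) ≤ 4 * X / h + 16 * h * Y := by
  have : 0 ≤ X / h + 4 * h * Y := by positivity
  calc _ ≤ 2 * (1 + 1) * (X / h + 4 * h * Y) := by gcongr
    _ = _ := by ring

variable {I : Finset (Tst n)} {W A : Mn n} {ρ ε R t u : ℝ} {v : Cube n → ℝ} {m : ℕ} {q : Pm}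

namespace Pm.Ok

theorem h0 (c : Ctx I ρ ε R) (o : q.Ok R) : 0 < q.h := by
  by_contra h
  nlinarith [o.hR, c.R0, not_lt.1 h]

theorem inv_le (c : Ctx I ρ ε R) (o : q.Ok R) : 1 / q.h ≤ R := by
  rw [div_le_iff₀ (o.h0 c)]; linarith [o.hR]

theorem κ_le (c : Ctx I ρ ε R) (o : q.Ok R) : q.κ ≤ 1 / q.h := by
  rw [le_div_iff₀ (o.h0 c)]; exact o.κh

theorem κR (c : Ctx I ρ ε R) (o : q.Ok R) : q.κ ≤ R := (o.κ_le c).trans (o.inv_le c)

theorem div_le (c : Ctx I ρ ε R) (o : q.Ok R) {x : ℝ} (hx : 0 ≤ x) : x / q.h ≤ R * x := by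
  rw [div_eq_mul_one_div, mul_comm]; exact mul_le_mul_of_nonneg_right (o.inv_le c) hx

theorem s1_nn (c : Ctx I ρ ε R) (o : q.Ok R) : 0 ≤ q.s1 := by
  have := o.h0 c; have := o.k0; have := o.al0; have := o.be0; unfold s1; positivity

theorem s1'_nn (c : Ctx I ρ ε R) (o : q.Ok R) : 0 ≤ q.s1' := by
  have := o.h0 c; have := o.k0; have := o.al0; have := o.ga0; unfold s1'; positivity

theorem nn (c : Ctx I ρ ε R) (o : q.Ok R) (h1 : 0 ≤ q.N) (h2 : 0 ≤ q.N') (h3 : 0 ≤ q.v4') : q.cs.Nn := by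
  have := o.h0 c; have := o.k0; have := o.al0; have := o.ga0; have := o.be0; have := o.κ0
  have := o.s1_nn c; have := o.s1'_nn c; have := o.a0
  constructor <;> simp only [cs] <;> positivity

end Pm.Ok

theorem sc1_le {κ h : ℝ} (hh : 0 < h) (κ0 : 0 ≤ κ) (hκ : κ * h ≤ 1) : sc1 κ h ≤ 20 / h := by
  have h1 := sm_num hh hκ zero_le_one (sq_nonneg κ)
  have h2 : h * κ ^ 2 ≤ 1 / h := by
    rw [le_div_iff₀ hh]; nlinarith [mul_nonneg κ0 hh.le]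
  unfold sc1
  have e : 20 / h = 4 * 1 / h + 16 * (1 / h) := by ring
  rw [e]; nlinarith

theorem sc1_crude {κ h R : ℝ} (hh : 0 < h) (h1 : h ≤ 1) (hR : 1 / h ≤ R) (κ0 : 0 ≤ κ) (hκ : κ ≤ R)
    (R1 : 1 ≤ R) : sc1 (κ + R) h ≤ 102 * R ^ 3 := by
  unfold sc1
  have a1 : 1 + (κ + R) * h ≤ 3 * R := by nlinarith
  have a2 : 1 / h + 4 * h * (κ + R) ^ 2 ≤ 17 * R ^ 2 := by
    have : (κ + R) ^ 2 ≤ (2 * R) ^ 2 := by gcongr; linarith
    nlinarith [sq_nonneg (κ + R)]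
  calc _ ≤ 2 * (3 * R) * (17 * R ^ 2) := by gcongr
    _ = _ := by ring

theorem S3P.mono {J L : Type*} [Fintype J] [Fintype L] {ψ : Cube n → J → ℝ} {χ : Cube n → L → ℝ}
    {a a' e e' : ℝ} (hv : Wt v) (h : S3P sv ψ χ a e v) (ha : a ≤ a') (he : e ≤ e') :
    S3P sv ψ χ a' e' v := fun x => (h x).trans (add_le_add
  (mul_le_mul_of_nonneg_right ha (hv.var_nonneg _)) (mul_le_mul_of_nonneg_right he (dot_self_nonneg x)))

/-- third cumulants with one fixed slot, on a window of length `h` -/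
theorem s3p_of (c : Ctx I ρ ε R) {ψ : Cube n → Fin n → ℝ} (hψ : Bd ψ R) {κ h k : ℝ} (hh : 0 < h)
    (h1 : h ≤ 1) (hR : 1 / h ≤ R) (κ0 : 0 ≤ κ) (hκ : κ * h ≤ 1) (k0 : 0 ≤ k) (hv : Wt v)
    (hC : CB v sv κ) (hP : AP sv v h ε fun v => CB v sv κ ∧ CB v ψ k) :
    S3P sv ψ sv (20 * k / h) (1632 * R ^ 5 * ε) v := by
  have κR : κ ≤ R := ((le_div_iff₀ hh).2 hκ).trans hR
  refine S3P.mono hv (S3P_of hv hh κ0 hC c.bd hψ k0 hP) ?_ ?_
  · exact (mul_le_mul_of_nonneg_right (sc1_le hh κ0 hκ) k0).trans_eq (by ring)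
  · have := c.ε0
    have := c.R0
    exact (mul_le_mul_of_nonneg_right (sc1_crude hh h1 hR κ0 κR c.R1) (by positivity)).trans_eq
      (by ring)

/-- the third order bounds -/
def B3 (q : Pm) (e : ℝ) (A : Mn n) (v : Cube n → ℝ) : Prop :=
  T3 v (fA A sv) (fA A sv) sv ≤ q.s1 ∧ T3 v (fA A sv) sv sv ≤ q.s1' ∧
    S3P sv (fA A sv) sv (20 * q.k / q.h) e v ∧ S3P sv sv sv (20 * q.κ / q.h) e v

theorem b3_of (c : Ctx I ρ ε R) (o : q.Ok R) (hA : Aᵀ = A) (ha : Op2 A (q.a ^ 2))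
    (hD : Dv I W ρ m t (t + 2 * q.h) fun _ => B2 q A) :
    Dv I W ρ (m + 1) t (t + q.h) fun _ => B3 q (1632 * R ^ 5 * ε) A := by
  intro u hu v hv
  have h0 := o.h0 c
  have hw := hv.wt
  have ε0 := c.ε0
  have R0 := c.R0
  have R1 := c.R1
  have bA := c.bdA ha o.a6
  have now := hD u ⟨hu.1, by linarith [hu.2]⟩ v (hv.depth c (Nat.le_succ m))
  have ap := hD.ap' c hv hu.1 (h := q.h) (by linarith [hu.2])
  have RR : R ≤ R ^ 2 := by nlinarith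
  have nR : (n : ℝ) ≤ R := by linarith [c.nR, Nat.cast_nonneg (α := ℝ) n]
  have f1 : ∑ j, ∑ l, (1 : Mn n) j l ^ 2 ≤ R ^ 2 := (fr_one (n := n)).trans_le (nR.trans RR)
  have fA' : ∑ j, ∑ l, A j l ^ 2 ≤ R ^ 2 := (fr_le_of_op2 ha).trans
    (((mul_le_mul_of_nonneg_right o.a6 (Nat.cast_nonneg n)).trans c.nR).trans RR)
  have k0 := o.k0
  have κ0 := o.κ0
  have e2 := o.div_le c (x := 34 * R ^ 2 * ε) (by positivity)
  have e3 : q.h * (34 * R ^ 4 * ε) ≤ 34 * R ^ 4 * ε := mul_le_of_le_one_left (by positivity) o.h1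
  have e4 := c.err' (A := 272) (k := 3) (by norm_num) (by norm_num)
  have e5 := c.err' (A := 1088) (k := 4) (by norm_num) (by norm_num)
  refine ⟨?_, ?_, s3p_of c bA h0 o.h1 (o.inv_le c) κ0 o.κh k0 hw now.1
    (ap.mono hw fun _ _ h => ⟨h.1, h.2.1⟩), s3p_of c c.bd h0 o.h1 (o.inv_le c) κ0 o.κh κ0 hw now.1
    (ap.mono hw fun _ _ h => ⟨h.1, h.1⟩)⟩
  · have al0 := o.al0
    have be0 := o.be0
    refine (S1 (c := A) (c' := (1 : Mn n)) hw h0 κ0 now.1 R1 c.bd bA bA fA' f1 be0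
      (β := 2 * (q.k * q.κ + 1) * q.al) (by positivity) (ap.mono hw fun w hw' h =>
        ⟨fr_ACA hA A ▸ h.2.2.2.1, (D2_one_le hw' h.2.1 k0 h.1).trans
          (mul_le_mul_of_nonneg_left (fr_AC hA 1 ▸ h.2.2.1) (by positivity))⟩)).trans
      ((sm_num h0 o.κh (by positivity) (by positivity)).trans ?_)
    have e6 : q.k * (q.κ * q.h) * q.al ≤ q.k * 1 * q.al := by gcongr; exact o.κh
    unfold Pm.s1
    rw [mul_add, add_div, mul_div_assoc 4 (34 * R ^ 2 * ε)]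
    nlinarith
  · have al0 := o.al0
    have ga0 := o.ga0
    refine (S1 (c := (1 : Mn n)) (c' := 0) hw h0 κ0 now.1 R1 c.bd bA c.bd f1 (by simp; positivity) al0
      (β := q.k * q.κ * q.ga) (by positivity) (ap.mono hw fun w hw' h =>
        ⟨fr_AC hA 1 ▸ h.2.2.1, (D2_zero_le hw' h.2.1 k0 h.1).trans
          (mul_le_mul_of_nonneg_left (fr_C w ▸ h.2.2.2.2) (by positivity))⟩)).trans
      ((sm_num h0 o.κh (by positivity) (by positivity)).trans ?_)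
    have e6 : q.k * (q.κ * q.h) * q.ga ≤ q.k * 1 * q.ga := by gcongr; exact o.κh
    unfold Pm.s1'
    rw [mul_add, add_div, mul_div_assoc 4 (34 * R ^ 2 * ε)]
    nlinarith

/-- fourth cumulants with one fixed slot -/
theorem t4_of (c : Ctx I ρ ε R) (o : q.Ok R) {ψ : Cube n → Fin n → ℝ} (hψ : Bd ψ R) {k : ℝ}
    (k0 : 0 ≤ k) (kR : k ≤ R) (hv : Wt v) (hC : CB v sv q.κ)
    (hP : AP sv v q.h ε fun v => CB v sv q.κ ∧ CB v ψ k ∧
      S3P sv ψ sv (20 * k / q.h) (1632 * R ^ 5 * ε) v ∧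
      S3P sv sv sv (20 * q.κ / q.h) (1632 * R ^ 5 * ε) v) (x : Vn n) :
    T4 v (sg fun s => x ⬝ᵥ sv s) ψ sv sv ≤
      2960 * k / q.h ^ 2 * var v (fun s => x ⬝ᵥ sv s) + 1 / 36 * (x ⬝ᵥ x) := by
  have h0 := o.h0 c
  have ε0 := c.ε0
  have R0 := c.R0
  have R1 := c.R1
  have κ0 := o.κ0
  refine (S3b hv h0 κ0 hC c.bd hψ k0 (by positivity) (by positivity) (by positivity) hP x).trans ?_
  have v0 := hv.var_nonneg fun s => x ⬝ᵥ sv s
  have x0 := dot_self_nonneg x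
  have κh := o.κh
  have a1 : 20 * k / q.h / q.h + 12 * q.h * q.κ * (2 * q.κ * (20 * k / q.h) + k * (20 * q.κ / q.h)) ≤
      740 * k / q.h ^ 2 := by
    have e : 20 * k / q.h / q.h + 12 * q.h * q.κ * (2 * q.κ * (20 * k / q.h) + k * (20 * q.κ / q.h)) =
        k / q.h ^ 2 * (20 + 720 * (q.κ * q.h) ^ 2) := by field_simp; ring
    have : (q.κ * q.h) ^ 2 ≤ 1 := pow_le_one₀ (by positivity) κh
    rw [e]
    calc _ ≤ k / q.h ^ 2 * (20 + 720 * 1) := by gcongr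
      _ = _ := by ring
  have a2 : (1632 * R ^ 5 * ε + 64 * R ^ 3 * ε) / q.h +
      4 * q.h * (3 * q.κ * (2 * q.κ + k) * (1632 * R ^ 5 * ε) + 576 * R ^ 5 * ε) ≤ 1 / 144 := by
    have b1 := o.div_le c (x := 1632 * R ^ 5 * ε + 64 * R ^ 3 * ε) (by positivity)
    have κR := o.κR c
    have b2 : 4 * q.h * (3 * q.κ * (2 * q.κ + k) * (1632 * R ^ 5 * ε) + 576 * R ^ 5 * ε) ≤
        4 * 1 * (3 * R * (2 * R + R) * (1632 * R ^ 5 * ε) + 576 * R ^ 5 * ε) := by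
      gcongr; exact o.h1
    have b3 := c.err' (A := 10 ^ 9) (k := 7) (by norm_num) (by norm_num)
    have b4 := c.err' (A := 10 ^ 9) (k := 6) (by norm_num) (by norm_num)
    have b5 := c.err' (A := 10 ^ 9) (k := 5) (by norm_num) (by norm_num)
    have b6 := c.err' (A := 10 ^ 9) (k := 4) (by norm_num) (by norm_num)
    nlinarith
  calc _ ≤ 2 * (1 + 1) * (740 * k / q.h ^ 2 * var v (fun s => x ⬝ᵥ sv s) + 1 / 144 * (x ⬝ᵥ x)) := by
        gcongr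
    _ = _ := by ring

/-- **the short range part of the list** -/
theorem apt_short (c : Ctx I ρ ε R) (o : q.Ok R) (hA : Aᵀ = A) (ha : Op2 A (q.a ^ 2))
    (hD : Dv I W ρ m t (t + 2 * q.h) fun _ => B2 q A) (hv : FG I W (ρ ^ (m + 2)) t v)
    (hN : ∀ U : Mn n, NV (fA A sv) sv U v ≤ q.N * fr U)
    (hN' : ∀ U : Mn n, NV (fA A sv) (fA A sv) U v ≤ q.N' * fr U)
    (h4 : ∀ x, var v (fun s => (x ⬝ᵥ fA A sv s - mean v fun s => x ⬝ᵥ fA A sv s) ^ 2) ≤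
      q.v4' * (x ⬝ᵥ x) ^ 2) : APt q.cs v A (meanV v sv) := by
  have h0 := o.h0 c
  have hw := hv.wt
  have ε0 := c.ε0
  have R0 := c.R0
  have R1 := c.R1
  have k0 := o.k0
  have κ0 := o.κ0
  have κh := o.κh
  have bA := c.bdA ha o.a6
  have hD3 := b3_of c o hA ha hD
  have hD2 := (hD.depth c (Nat.le_succ m)).sub le_rfl (show t + q.h ≤ t + 2 * q.h by linarith)
  have tI : t ∈ Icc t (t + q.h) := ⟨le_rfl, by linarith⟩
  obtain ⟨b1, b2, b3, b4, b5⟩ := hD2 t tI v (hv.depth c (Nat.le_succ _))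
  obtain ⟨c1, c2, c3, c4⟩ := hD3 t tI v (hv.depth c (Nat.le_succ _))
  have ap := (hD2.and hD3).ap' c hv le_rfl (h := q.h) le_rfl
  have s10 := o.s1_nn c
  have s10' := o.s1'_nn c
  have e1 : 1632 * R ^ 5 * ε ≤ 1 / 36 := by
    have := c.err' (A := 1632 * 36) (k := 5) (by norm_num) (by norm_num)
    linarith
  have e2 := o.div_le c (x := 64 * R ^ 3 * ε) (by positivity)
  have e3 : q.h * (576 * R ^ 5 * ε) ≤ 576 * R ^ 5 * ε := mul_le_of_le_one_left (by positivity) o.h1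
  have e4 := c.err' (A := 512) (k := 4) (by norm_num) (by norm_num)
  have e5 := c.err' (A := 18432) (k := 5) (by norm_num) (by norm_num)
  have rows := op2_rows ha
  have lin3 : ∀ {J L : Type} [Fintype J] [Fintype L] (w : Cube n → ℝ) (ψ : Cube n → J → ℝ)
      (χ : Cube n → L → ℝ), T3 w ψ χ (fA A sv) ≤ q.a ^ 2 * T3 w ψ χ sv :=
    fun w ψ χ => T3_lin (φ := sv) rows fun _ _ => rfl
  have κle := o.κ_le c
  have tA := t4_of c o bA k0 o.kR hw b1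
    (ap.mono hw fun _ _ h => ⟨h.1.1, h.1.2.1, h.2.2.2.1, h.2.2.2.2⟩)
  have tφ := t4_of c o c.bd κ0 (o.κR c) hw b1
    (ap.mono hw fun _ _ h => ⟨h.1.1, h.1.1, h.2.2.2.2, h.2.2.2.2⟩)
  have vκ : ∀ x : Vn n, var v (fun s => x ⬝ᵥ sv s) ≤ 1 / q.h * (x ⬝ᵥ x) := (b1.mono κle).var_le
  have vk : ∀ x : Vn n, var v (fun s => A *ᵥ x ⬝ᵥ sv s) ≤ q.k * (x ⬝ᵥ x) := fun x => by
    rw [← dot_fA hA x]; exact b2.var_le x
  have aA : ∀ x : Vn n, 1 / 36 * (A *ᵥ x ⬝ᵥ A *ᵥ x) ≤ x ⬝ᵥ x := fun x => by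
    nlinarith [ha x, o.a6, dot_self_nonneg x]
  have q3' : ∀ x : Vn n, T3 v (fA A sv) (sg fun s => x ⬝ᵥ fA A sv s) sv ≤
      (20 * q.k ^ 2 / q.h + 1) * (x ⬝ᵥ x) := fun x => by
    rw [T3_comm, dot_fA hA]
    have := mul_le_mul_of_nonneg_left (vk x) (show 0 ≤ 20 * q.k / q.h by positivity)
    have := mul_le_mul_of_nonneg_right e1 (dot_self_nonneg (A *ᵥ x))
    have e : (20 * q.k ^ 2 / q.h + 1) * (x ⬝ᵥ x) = 20 * q.k / q.h * (q.k * (x ⬝ᵥ x)) + x ⬝ᵥ x := by ring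
    linarith [c3 (A *ᵥ x), aA x]
  refine ⟨ha, b1, b2, b3, b4, b5, hN, hN', c1, c2, ?_, ?_, fun x => ?_, fun x => ?_, fun x => ?_,
    fun x => ?_, fun x => ?_, q3', fun x => ?_, h4, by simp [Pm.cs], by simp [Pm.cs]⟩
  · refine (S2 hw h0 κ0 b1 c.bd bA bA bA k0 k0 k0 κ0 (α := q.a ^ 2 * q.s1) (ap.mono hw fun w _ h =>
      ⟨h.1.1, h.1.2.1, h.1.2.1, h.1.2.1, (lin3 w _ _).trans
        (mul_le_mul_of_nonneg_left h.2.1 (sq_nonneg _)), h.2.1, h.2.1, h.2.1⟩) (by positivity)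
        s10 s10 s10).trans ((sm_num h0 κh (by positivity) (by positivity)).trans ?_)
    have e6 : q.k * (q.κ * q.h) * q.s1 ≤ q.k * 1 * q.s1 := by gcongr
    change _ ≤ (4 * q.a ^ 2 / q.h + 144 * q.k) * q.s1 + 1
    have e : (4 * q.a ^ 2 / q.h + 144 * q.k) * q.s1 = 4 * (q.a ^ 2 * q.s1) / q.h + 144 * q.k * q.s1 := by
      ring
    rw [e, mul_add, add_div, mul_div_assoc 4 (64 * R ^ 3 * ε)]
    nlinarith
  · refine (S2 hw h0 κ0 b1 c.bd bA c.bd bA k0 κ0 k0 κ0 (α := q.s1) (ap.mono hw fun w _ h =>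
      ⟨h.1.1, h.1.2.1, h.1.1, h.1.2.1, T3_comm'.trans_le h.2.1, h.2.2.1, h.2.1,
        T3_comm.trans_le h.2.2.1⟩) s10 s10' s10 s10').trans
      ((sm_num h0 κh (by positivity) (by positivity)).trans ?_)
    have e6 : q.k * (q.κ * q.h) * q.s1' ≤ q.k * 1 * q.s1' := by gcongr
    have e7 : q.κ * q.h * q.κ * q.s1 ≤ 1 * (1 / q.h) * q.s1 := by gcongr
    change _ ≤ 52 * q.s1 / q.h + 96 * q.k * q.s1' + 1
    have e : 52 * q.s1 / q.h = 4 * q.s1 / q.h + 48 * (1 * (1 / q.h) * q.s1) := by ring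
    rw [e, mul_add, add_div, mul_div_assoc 4 (64 * R ^ 3 * ε)]
    nlinarith
  · rw [T4_swap, T4_swap']
    have := mul_le_mul_of_nonneg_left (vκ x) (show 0 ≤ 2960 * q.k / q.h ^ 2 by positivity)
    change _ ≤ (2960 * q.k / q.h ^ 3 + 1) * (x ⬝ᵥ x)
    have e : (2960 * q.k / q.h ^ 3 + 1) * (x ⬝ᵥ x) =
      2960 * q.k / q.h ^ 2 * (1 / q.h * (x ⬝ᵥ x)) + x ⬝ᵥ x := by field_simp
    linarith [tA x, dot_self_nonneg x]
  · rw [T3_comm, T3_comm']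
    have := mul_le_mul_of_nonneg_left (vκ x) (show 0 ≤ 20 * q.k / q.h by positivity)
    have := mul_le_mul_of_nonneg_right e1 (dot_self_nonneg x)
    change _ ≤ (20 * q.k / q.h ^ 2 + 1) * (x ⬝ᵥ x)
    have e : (20 * q.k / q.h ^ 2 + 1) * (x ⬝ᵥ x) =
      20 * q.k / q.h * (1 / q.h * (x ⬝ᵥ x)) + x ⬝ᵥ x := by field_simp
    linarith [c3 x, dot_self_nonneg x]
  · rw [T3_comm]
    have x0 := dot_self_nonneg x
    have : 20 * q.κ / q.h * var v (fun s => x ⬝ᵥ sv s) ≤ 20 * (1 / q.h) / q.h * (1 / q.h * (x ⬝ᵥ x)) := by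
      have := hw.var_nonneg fun s => x ⬝ᵥ sv s
      gcongr; exact vκ x
    have := mul_le_mul_of_nonneg_right e1 x0
    change _ ≤ (20 / q.h ^ 3 + 1) * (x ⬝ᵥ x)
    have e : (20 / q.h ^ 3 + 1) * (x ⬝ᵥ x) =
      20 * (1 / q.h) / q.h * (1 / q.h * (x ⬝ᵥ x)) + x ⬝ᵥ x := by field_simp
    linarith [c4 x]
  · rw [T4_swap, T4_swap'', dot_fA hA]
    refine (T4_lin rows fun _ _ => rfl).trans ?_
    change _ ≤ q.a ^ 2 * (2960 * q.k ^ 2 / q.h ^ 2 + 1) * (x ⬝ᵥ x)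
    rw [mul_assoc]
    refine mul_le_mul_of_nonneg_left ?_ (sq_nonneg _)
    have := mul_le_mul_of_nonneg_left (vk x) (show 0 ≤ 2960 * q.k / q.h ^ 2 by positivity)
    have e : (2960 * q.k ^ 2 / q.h ^ 2 + 1) * (x ⬝ᵥ x) =
      2960 * q.k / q.h ^ 2 * (q.k * (x ⬝ᵥ x)) + x ⬝ᵥ x := by ring
    linarith [tA (A *ᵥ x), aA x]
  · refine (lin3 v _ _).trans ?_
    change _ ≤ q.a ^ 2 * (20 * q.k ^ 2 / q.h + 1) * (x ⬝ᵥ x)
    rw [mul_assoc]
    exact mul_le_mul_of_nonneg_left (q3' x) (sq_nonneg _)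
  · have x0 := dot_self_nonneg x
    have v0 := hw.var_nonneg fun s => x ⬝ᵥ sv s
    refine (hw.var_le_mean _ 0).trans ?_
    simp only [sub_zero, ← pow_mul]
    refine (four_le v x).trans ?_
    have i1 : 1 ≤ 1 / q.h := one_le_one_div h0 o.h1
    set i := 1 / q.h with hi
    have a1 : T4 v (sg fun s => x ⬝ᵥ sv s) sv sv sv ≤ (57 * i ^ 2) ^ 2 * (x ⬝ᵥ x) := by
      have a2 : 2960 * q.κ / q.h ^ 2 * var v (fun s => x ⬝ᵥ sv s) ≤
          2960 * i / q.h ^ 2 * (i * (x ⬝ᵥ x)) := by gcongr; exact vκ x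
      have a3 : 2960 * i / q.h ^ 2 * (i * (x ⬝ᵥ x)) = 2960 * i ^ 4 * (x ⬝ᵥ x) := by
        rw [hi]; field_simp
      have a4 : 1 * (x ⬝ᵥ x) ≤ i ^ 4 * (x ⬝ᵥ x) := by gcongr; exact one_le_pow₀ i1
      nlinarith [tφ x]
    have a5 : √((x ⬝ᵥ x) ^ 3 * T4 v (sg fun s => x ⬝ᵥ sv s) sv sv sv) ≤ 57 * i ^ 2 * (x ⬝ᵥ x) ^ 2 :=
      Real.sqrt_le_iff.2 ⟨by positivity,
        (mul_le_mul_of_nonneg_left a1 (by positivity)).trans_eq (by ring)⟩
    have a6 := pow_le_pow_left₀ v0 (vκ x) 2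
    change _ ≤ 60 / q.h ^ 2 * (x ⬝ᵥ x) ^ 2
    have e : 60 / q.h ^ 2 = 60 * i ^ 2 := by rw [hi]; field_simp
    rw [e]
    nlinarith

end Crest.Agent.T157.Oa
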