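import Crest.Agent.T157.St0B_5

/-!
# Row 157: one stage of the covariance chain, measurability (helper5)
-/

set_option autoImplicit false

noncomputable section

namespace Crest.Agent.T157.Ks.St0

open MeasureTheory ProbabilityTheory Matrix Filter Set Topology
open Crest.Agent.T157.E Crest.Agent.T157.Eig Crest.Agent.T157.Cond Crest.Agent.T157.Tap
open Crest.Agent.T157.SL Crest.Agent.T157.Tap.Cov15

variable {n : ℕ} {J : Mx n} {b c r R0 K' ρ a M h : ℝ} {Γ : V n → ℝ}

/-- the TAP Hessian is `⪰ c` on the open ball -/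
def GoodO (J : Mx n) (b c r : ℝ) (p : V n) : Prop :=
  ∀ p', Cb p' → nrm (p' - p) < r → Pos c (NN (B1 J b p') (dd p')) ∧ b * avg (DD p') ≤ 1 - c

theorem goodO_of {p : V n} (h : GoodB J b c r p) : GoodO J b c r p := fun p' h1 h2 => h p' h1 h2.le

theorem GoodO.goodB {p : V n} (h : GoodO J b c r p) {r' : ℝ} (hr : r' < r) : GoodB J b c r' p :=
  fun p' h1 h2 => h p' h1 (h2.trans_lt hr)

theorem goodB_mono {p : V n} (h : GoodB J b c r p) {r' : ℝ} (hr : r' ≤ r) : GoodB J b c r' p :=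
  fun p' h1 h2 => h p' h1 (h2.trans hr)

/-- every good TAP solution in the field `y` is close to the magnetisation -/
def Acc1 (J : Mx n) (b c r M : ℝ) (y : V n) : Prop :=
  ∀ x, Ymap J b x = y → GoodO J b c r (th x) → nrm (mag (ising J y) - th x) ^ 2 ≤ M

theorem Acc1.good {y : V n} (h : Acc1 J b c r M y) {x : V n} (hx : Ymap J b x = y)
    (hg : GoodB J b c r (th x)) : nrm (mag (ising J y) - th x) ^ 2 ≤ M := h x hx (goodO_of hg)

theorem CovOK.mono {w : Cube n → ℝ} {K K1 : ℝ} {y : V n} (h : CovOK w K ρ y) (hK : K ≤ K1) :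
    CovOK w K1 ρ y := fun v hv u =>
  (h v hv u).trans (mul_le_mul_of_nonneg_right hK (Cond.dot_self_nonneg u))

theorem grid {t s : ℝ} (N : ℕ) (h1 : t ≤ s) (h2 : s ≤ t + (N + 1) * h) :
    ∃ j : ℕ, j ≤ N ∧ t + j * h ≤ s ∧ s ≤ t + (j + 1) * h := by
  induction N with
  | zero => exact ⟨0, le_rfl, by simpa using h1, h2⟩
  | succ N ih =>
    rcases le_total s (t + (N + 1) * h) with h3 | h3
    · obtain ⟨j, a1, a2⟩ := ih h3
      exact ⟨j, by omega, a2⟩
    · exact ⟨N + 1, le_rfl, by push_cast; exact h3, h2⟩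

theorem exists_mesh {l h0 : ℝ} (hl : 0 ≤ l) (h0' : 0 < h0) :
    ∃ (N : ℕ) (h : ℝ), h ∈ Icc 0 h0 ∧ (N + 1) * h = l := by
  obtain ⟨N, hN⟩ := exists_nat_ge (l / h0)
  rw [div_le_iff₀ h0'] at hN
  refine ⟨N, l / (N + 1), ⟨by positivity, ?_⟩, by field_simp⟩
  rw [div_le_iff₀ (by positivity)]; linarith

/-- **one stage** of the backward chain, on `[t, t + (N + 1) h]` -/
theorem stage (hL : LipCovStmt) (hn : 0 < n) (hE : Ex J b)
    (hW : Win J b c r (R0 * √n) K' (min 1 ((R0 / 10) ^ 2))) (hA : Acc J b ρ a M Γ) (hΓ : MG Γ)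
    (h0' : ∀ y, 0 ≤ Γ y) (hM : 0 ≤ M) (hK : 0 ≤ K') (hc : 0 < c) (hρ0 : 0 ≤ ρ) (hρ : ρ ≤ c * a)
    (hr : 3 * (R0 * √n) + ρ < c * r) (ha : a < r) (hR0 : 0 < R0)
    (hh : h ∈ Icc 0 (min 1 ((R0 / 10) ^ 2))) {B : Set (V n)} (hBm : MeasurableSet B)
    (hB : ∀ x, Ymap J b x ∉ B → GoodB J b c r (th x)) {δ D t M' : ℝ}
    (hδ : Real.exp (-(n / 2)) ≤ δ) (ht : 0 ≤ t) (N : ℕ)
    (hend : (slE sv (ising J 0) (t + (N + 1) * h) fun _ y => Γ y) ≤ 4 * n * δ)
    (hlaw : ∀ j : ℕ, j ≤ N → (law sv (ising J 0) (t + j * h)).real B ≤ δ)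
    (hD : (N + 2) * (Real.exp K' * Real.exp (2 * ρ * √n)) ^ (N + 1) * δ ≤ D)
    (hM' : Real.exp K' ^ (N + 1) * (M + 2 * K' * (N + 1)) ≤ M') {ρ' r' : ℝ} (hρ' : ρ' + 1 ≤ ρ)
    (hr' : r < r') :
    (∃ Γ' : V n → ℝ, MG Γ' ∧ (∀ y, 0 ≤ Γ' y) ∧ Acc J b ρ a M' Γ' ∧
      (slE sv (ising J 0) t fun _ y => Γ' y) ≤ 4 * n * D) ∧
    ∀ s ∈ Icc t (t + (N + 1) * h),
      (law sv (ising J 0) s).real {y | ¬ CovOK (ising J 0) (KK K' M' c) ρ' y} ≤
        2 * δ + Real.exp (2 * ρ * √n) * (4 * n * D) ∧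
      (law sv (ising J 0) s).real {y | ¬ Acc1 J b c r' (Real.exp K' * (M' + 1 + 2 * K')) y} ≤
        Real.exp (2 * ρ * √n) * (4 * n * D) := by
  have δ0 : 0 ≤ δ := (Real.exp_pos _).le.trans hδ
  have hR : 0 ≤ R0 * √n := by positivity
  have q1 : 1 ≤ Real.exp K' := Real.one_le_exp hK
  have q2 : 1 ≤ Real.exp (2 * ρ * √n) := Real.one_le_exp (by positivity)
  have q3 := one_le_mul_of_one_le_of_one_le q1 q2
  have M0 : 0 ≤ M' := le_trans (by positivity) hM'
  have key : ∀ k : ℕ, k ≤ N + 1 → ∃ Γ' : V n → ℝ, MG Γ' ∧ (∀ y, 0 ≤ Γ' y) ∧ Acc J b ρ a M' Γ' ∧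
      (slE sv (ising J 0) (t + k * h) fun _ y => Γ' y) ≤ 4 * n * D := fun k hk => by
    obtain ⟨m, hm⟩ := Nat.exists_eq_add_of_le hk
    have hm' : (N : ℝ) + 1 = k + m := by exact_mod_cast hm
    have mN : m ≤ N + 1 := by omega
    have mN' : (m : ℝ) ≤ N + 1 := by exact_mod_cast mN
    obtain ⟨Γ', g1, g2, g3, g4⟩ := chain hE hW hA hΓ h0' hM hK hc hρ0 hρ hr ha hR hh hBm hB δ0 m
      (t + k * h) (add_nonneg ht (mul_nonneg k.cast_nonneg hh.1))
      (by rwa [show t + k * h + m * h = t + (N + 1) * h by rw [hm']; ring]) fun j hj => by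
        rw [show t + k * h + j * h = t + (k + j : ℕ) * h by push_cast; ring]
        exact hlaw _ (by omega)
    refine ⟨Γ', g1, g2, g3.mono (le_trans (by gcongr) hM'), g4.trans ?_⟩
    calc _ ≤ (N + 1 + 1) * (4 * n * δ) * (Real.exp K' * Real.exp (2 * ρ * √n)) ^ (N + 1) := by gcongr
      _ = 4 * n * ((N + 2) * (Real.exp K' * Real.exp (2 * ρ * √n)) ^ (N + 1) * δ) := by ring
      _ ≤ _ := by gcongr
  refine ⟨by simpa using key 0 (Nat.zero_le _), fun s hs => ?_⟩
  obtain ⟨j, j0, j1, j2⟩ := grid N hs.1 hs.2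
  obtain ⟨Γ', g1, g2, g3, g4⟩ := key (j + 1) (by omega)
  have s0 : 0 ≤ s := ht.trans hs.1
  have hw : t + (j + 1) * h - s ∈ Icc 0 (min 1 ((R0 / 10) ^ 2)) := ⟨by linarith, by linarith [hh.2]⟩
  push_cast at g4
  have g5 := mul_le_mul_of_nonneg_left g4 (Real.exp_pos (2 * ρ * √n)).le
  constructor
  · have p1 := partial_win hL hE hW g3 g1 g2 M0 hc hρ hr hR hw s0 (O := (Nb B (R0 * √n))ᶜ)
      (fun y hy => by
        obtain ⟨y', a1, a2⟩ := notMem_compl_iff.1 hy
        obtain ⟨xc, rfl⟩ := hE.1 y'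
        exact ⟨xc, hB xc a1, a2.le⟩) hρ' le_rfl
    have p2 := law_Nb (J := J) hBm (s := t + j * h) (h := s - (t + j * h)) hn
      (add_nonneg ht (mul_nonneg j.cast_nonneg hh.1)) (by linarith)
      (by linarith [hh.2.trans (min_le_left _ _)]) (by linarith [hh.2.trans (min_le_right _ _)]) hR0
    rw [add_sub_cancel] at p1 p2
    linarith [hlaw j j0]
  · have := isProb_law (φ := sv) (s := s) (wt_ising J 0)
    have p := law_markov (J := J) (s := s) ((mg_SG (J := J) (t + (j + 1) * h - s) g1).const_mul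
      (Real.exp (2 * ρ * √n))) fun y => mul_nonneg (Real.exp_pos _).le (SG_nonneg _ g2 y)
    rw [slE_const_mul, slE_SG s0 hw.1 g1, add_sub_cancel] at p
    refine (measureReal_mono fun y hy => ?_).trans (p.trans g5)
    by_contra hc'
    rw [mem_ofPred_eq] at hc'
    refine hy fun x hx hg => ?_
    have := win_core hE hW g3 g1 g2 M0 hc hρ hr hR hw (xc := x) (y := y) (v := 0) (x' := x)
      (hg.goodB hr') (by rw [hx, sub_self, nrm_zero]; exact hR) (by rw [nrm_zero]; exact hρ0)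
      (by rw [hx, add_zero]) (by
        rw [sub_self, nrm_zero]; exact (mul_pos_iff_of_pos_left hc).1 (by linarith))
    rw [add_zero] at this
    exact this.trans (mul_le_mul_of_nonneg_left (by linarith [not_le.1 hc']) (Real.exp_pos _).le)

/-! ### measurability -/

section
variable {X : Type*} [TopologicalSpace X] {A : X → Mx n} {y : X → V n}

theorem cont_mean (hA : Continuous A) (hy : Continuous y) {f : X → Cube n → ℝ}
    (hf : ∀ σ, Continuous fun x => f x σ) : Continuous fun x => mean (ising (A x) (y x)) (f x) := by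
  have h1 : ∀ σ, Continuous fun x => ising (A x) (y x) σ := fun σ => by unfold ising; fun_prop
  exact continuous_finsetSum _ fun σ _ => ((h1 σ).div (continuous_finsetSum _ fun τ _ => h1 τ)
    fun x => (wt_ising (A x) (y x)).pos.ne').mul (hf σ)

theorem cont_mag (hA : Continuous A) (hy : Continuous y) : Continuous fun x => mag (ising (A x) (y x)) :=
  continuous_pi fun _ => cont_mean hA hy fun _ => continuous_const

theorem cont_covM (hA : Continuous A) (hy : Continuous y) :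
    Continuous fun x => covM (ising (A x) (y x)) :=
  continuous_pi fun i => continuous_pi fun j => cont_mean hA hy fun _ =>
    (continuous_const.sub (cont_mean (f := fun _ σ => sv σ i) hA hy fun _ => continuous_const)).mul
      (continuous_const.sub (cont_mean (f := fun _ σ => sv σ j) hA hy fun _ => continuous_const))

theorem isClosed_goodO (hA : Continuous A) (hy : Continuous y) (b c r : ℝ) :
    IsClosed {x | GoodO (A x) b c r (y x)} := by
  simp only [GoodO, ofPred_forall]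
  refine isClosed_iInter fun p => isClosed_iInter fun _ => ?_
  have h1 : IsClosed {x | Pos c (NN (B1 (A x) b p) (dd p))} := by
    simp only [Pos, ofPred_forall]
    exact isClosed_iInter fun u => isClosed_le continuous_const (continuous_const.dotProduct
      ((TapFrz.cont_NN (TapFrz.cont_B1 hA continuous_const continuous_const)
        continuous_const).matrix_mulVec continuous_const))
  have h2 := (isClosed_le (continuous_const (y := r)) (TapFrz.cont_nrm
    ((continuous_const (y := p)).sub hy))).union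
      (h1.inter (isClosed_const (p := b * avg (DD p) ≤ 1 - c)))
  convert h2 using 1
  ext x
  simp [imp_iff_not_or]

end

theorem meas_cov (K ρ : ℝ) : MeasurableSet {z : Mx n × V n | ¬ CovOK (ising z.1 0) K ρ z.2} := by
  have h := TapFrz.measurableSet_exists_pos (Θ := Mx n × V n) (X := V n × V n)
    (C := {w | nrm w.2.1 ≤ ρ}) (isClosed_le (TapFrz.cont_nrm (by fun_prop)) continuous_const)
    (f := fun w => w.2.2 ⬝ᵥ covM (ising w.1.1 (w.1.2 + w.2.1)) *ᵥ w.2.2 - K * (w.2.2 ⬝ᵥ w.2.2))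
    (((by fun_prop : Continuous fun w : (Mx n × V n) × V n × V n => w.2.2).dotProduct
      ((cont_covM (by fun_prop) (by fun_prop)).matrix_mulVec (by fun_prop))).sub (by fun_prop))
  convert h using 1
  ext z
  simp [CovOK, tilt0]

theorem meas_acc (b c r M : ℝ) : MeasurableSet {z : Mx n × V n | ¬ Acc1 z.1 b c r M z.2} := by
  have h := TapFrz.measurableSet_exists_pos (Θ := Mx n × V n) (X := V n)
    (C := {w | Ymap w.1.1 b w.2 = w.1.2 ∧ GoodO w.1.1 b c r (th w.2)})
    ((isClosed_eq (TapFrz.cont_Ymap (by fun_prop) continuous_const (by fun_prop)) (by fun_prop)).inter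
      (isClosed_goodO (by fun_prop) (TapFrz.cont_th (by fun_prop)) b c r))
    (f := fun w => nrm (mag (ising w.1.1 w.1.2) - th w.2) ^ 2 - M)
    (((TapFrz.cont_nrm ((cont_mag (by fun_prop) (by fun_prop)).sub
      (TapFrz.cont_th (by fun_prop)))).pow 2).sub continuous_const)
  convert h using 1
  ext z
  simp [Acc1, and_assoc]

end Crest.Agent.T157.Ks.St0
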