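import Crest.Agent.T157.OaDef_48
import Crest.Agent.T157.St0C_5

/-!
# Row 157, A2 (helper5): growth along a geometric grid; the ceiling from a ball-robust future test
-/

set_option autoImplicit false

noncomputable section

namespace Crest.Agent.T157.Oa.G5

open MeasureTheory Matrix Filter Set Real
open Crest.Agent.T157.E Crest.Agent.T157.SL Crest.Agent.T157.Ks Crest.Agent.T157.Eig
open Crest.Agent.T157.Tap Crest.Agent.T157.Tap.Cov15

/-- the accumulated factor of `N_chain` -/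
def Gp (κ : ℝ → ℝ) (s : ℕ → ℝ) (e0 : ℝ) (j : ℕ) : ℝ :=
  ∏ i ∈ Finset.range j, exp (κ (s i) * (s (i + 1) - s i)) * (1 + e0)

/-- the constant of the growth lemma -/
def Ga (K' L' K0 T : ℝ) : ℝ := exp (K' * (2 * log L' + 1) + K0 * T)

theorem log_ge {e : ℝ} (h0 : 0 < e) : e / (1 + e) ≤ log (1 + e) := by
  have := one_sub_inv_le_log_of_pos (show 0 < 1 + e by linarith)
  rwa [show 1 - (1 + e)⁻¹ = e / (1 + e) by field_simp; ring] at this

theorem pow_lt_imp {e x : ℝ} (he : e ∈ Ioc (0 : ℝ) 1) {j : ℕ} (h : (1 + e) ^ j ≤ x) :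
    j * e ≤ 2 * log x := by
  have h0 := he.1
  have h1 := log_le_log (by positivity) h
  rw [log_pow] at h1
  have h2 : e / 2 ≤ log (1 + e) :=
    (div_le_div_of_nonneg_left h0.le (by linarith) (by linarith [he.2])).trans (log_ge h0)
  nlinarith [mul_le_mul_of_nonneg_left h2 (Nat.cast_nonneg (α := ℝ) j)]

theorem growth {t T t0 L' K' K0 ε : ℝ} {κ : ℝ → ℝ} (ht : 0 < t) (htT : t ≤ T) (hε : ε ∈ Ioc (0 : ℝ) 1)
    (hL : 1 ≤ L') (hK' : 0 ≤ K') (hK0 : 0 ≤ K0) (κ0 : ∀ u ∈ Icc t T, 0 ≤ κ u)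
    (h1 : ∀ u ∈ Icc t T, u < L' * t → κ u * u ≤ K')
    (h2 : ∀ u ∈ Icc t T, L' * t ≤ u → u < t0 → κ u * u ≤ 1 + ε)
    (h3 : ∀ u ∈ Icc t T, t0 ≤ u → κ u ≤ K0) :
    ∃ (s : ℕ → ℝ) (k : ℕ), s 0 = t ∧ s k = T ∧ (∀ j, s j ≤ s (j + 1)) ∧ (∀ j, s j ∈ Icc t T) ∧
      (∀ j, s (j + 1) ≤ (1 + ε) * s j) ∧ (k : ℝ) ≤ 2 * log (T / t) / ε + 1 ∧
      (∀ j ≤ k, Gp κ s (ε ^ 2) j ≤ Ga K' L' K0 T * (2 * T / t) ^ (1 + 5 * ε)) ∧
      ∑ j ∈ Finset.range k, Gp κ s (ε ^ 2) (j + 1) * κ (s j) ≤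
        3 / ε ^ 2 * (64 * (K' + 2 + K0 * T) * Ga K' L' K0 T / T) * (T / t) ^ (1 + 6 * ε) ∧
      ∑ j ∈ Finset.range k, Gp κ s (ε ^ 2) (j + 1) ≤
        3 / ε ^ 2 * (64 * Ga K' L' K0 T) * (T / t) ^ (1 + 6 * ε) := by
  classical
  have e0 := hε.1
  have e1 := hε.2
  have T0 : 0 < T := ht.trans_le htT
  have x1 : 1 ≤ T / t := (one_le_div ht).2 htT
  have b1 : (1 : ℝ) ≤ 1 + ε := by linarith
  have ex : ∃ k : ℕ, T ≤ t * (1 + ε) ^ k := by
    obtain ⟨k, hk⟩ := pow_unbounded_of_one_lt (T / t) (show 1 < 1 + ε by linarith)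
    exact ⟨k, ((div_lt_iff₀' ht).1 hk).le⟩
  set k := Nat.find ex with hk
  set s : ℕ → ℝ := fun j => min (t * (1 + ε) ^ j) T with hs
  have lt : ∀ j < k, t * (1 + ε) ^ j < T := fun j hj => not_le.1 (Nat.find_min ex hj)
  have sj : ∀ j < k, s j = t * (1 + ε) ^ j := fun j hj => min_eq_left (lt j hj).le
  have sm : ∀ j, s j ≤ s (j + 1) := fun j => min_le_min_right _ (by gcongr; omega)
  have sI : ∀ j, s j ∈ Icc t T := fun j =>
    ⟨le_min (le_mul_of_one_le_right ht.le (one_le_pow₀ b1)) htT, min_le_right _ _⟩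
  have sr : ∀ j, s (j + 1) ≤ (1 + ε) * s j := fun j => by
    rw [hs, mul_min_of_nonneg _ _ (by linarith)]
    exact min_le_min (le_of_eq (by ring)) (le_mul_of_one_le_left T0.le b1)
  have pj : ∀ j < k, (1 + ε) ^ j ≤ T / t := fun j hj => ((lt_div_iff₀' ht).2 (lt j hj)).le
  have l0 := log_nonneg x1
  have kb : (k : ℝ) ≤ 2 * log (T / t) / ε + 1 := by
    rcases Nat.eq_zero_or_pos k with h | h
    · rw [h, Nat.cast_zero]; positivity
    · have := pow_lt_imp hε (pj (k - 1) (by omega))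
      rw [Nat.cast_pred h, ← le_div_iff₀ e0] at this
      linarith
  have kb' : (k : ℝ) ≤ 3 / ε ^ 2 * (T / t) ^ ε := by
    have a1 := log_le_rpow_div (zero_le_one.trans x1) e0
    have a2 : 1 ≤ (T / t) ^ ε := one_le_rpow x1 e0.le
    have a3 : 1 ≤ 1 / ε ^ 2 := (one_le_div (by positivity)).2 (pow_le_one₀ e0.le e1)
    have a4 : 2 * log (T / t) / ε ≤ 2 * ((T / t) ^ ε / ε) / ε := by gcongr
    have a5 := one_le_mul_of_one_le_of_one_le a3 a2
    calc _ ≤ 2 * ((T / t) ^ ε / ε) / ε + 1 / ε ^ 2 * (T / t) ^ ε := by linarith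
      _ = _ := by field_simp; ring
  set m := ⌈2 * log L' / ε⌉₊ with hm
  have lL := log_nonneg hL
  have key : ∀ j ≤ k, Gp κ s (ε ^ 2) j ≤
      exp (K' * ε * min j m + K0 * (s j - t) + (1 + 5 * ε) * log (1 + ε) * j) := fun j hj => by
    induction j with
    | zero => simp [Gp, hs, htT]
    | succ j ih =>
      have hj' : j < k := hj
      rw [Gp, Finset.prod_range_succ]
      refine (mul_le_mul (ih hj'.le) (mul_le_mul_of_nonneg_left (add_comm (ε ^ 2) 1 ▸ add_one_le_exp _)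
        (exp_pos _).le) (by positivity) (exp_pos _).le).trans ?_
      rw [← exp_add, ← exp_add, exp_le_exp]
      have d0 := sub_nonneg.2 (sm j)
      have d1 : s (j + 1) - s j ≤ ε * s j := by linarith [sr j]
      have k0 := κ0 _ (sI j)
      have d2 := mul_le_mul_of_nonneg_left d1 k0
      have d3 : (1 + ε) * ε + ε ^ 2 ≤ (1 + 5 * ε) * log (1 + ε) := by
        refine le_trans ?_ (mul_le_mul_of_nonneg_left (log_ge e0) (by linarith))
        rw [← mul_div_assoc, le_div_iff₀ (by linarith)]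
        nlinarith [mul_le_mul_of_nonneg_left e1 (sq_nonneg ε)]
      have d4 : ((min j m : ℕ) : ℝ) ≤ (min (j + 1) m : ℕ) := by exact_mod_cast min_le_min_right m j.le_succ
      have d5 := mul_le_mul_of_nonneg_left d4 (mul_nonneg hK' e0.le)
      have d6 := mul_nonneg hK0 d0
      push_cast at d5 ⊢
      rcases lt_or_ge (s j) (L' * t) with c1 | c1
      · have c2 : j + 1 ≤ m := by
          rw [sj j hj', mul_comm L'] at c1
          have c3 := lt_of_mul_lt_mul_left c1 ht.le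
          rcases hL.eq_or_lt with rfl | hL'
          · exact absurd (one_le_pow₀ b1) (not_le.2 c3)
          rw [Nat.succ_le_iff, hm, Nat.lt_ceil, lt_div_iff₀ e0]
          rcases Nat.eq_zero_or_pos j with rfl | hj0
          · simpa using log_pos hL'
          · have c4 := log_lt_log (by positivity) c3
            have := pow_lt_imp hε (le_refl ((1 + ε) ^ j))
            linarith
        have c3 : ((j : ℝ) + 1) ≤ m := by exact_mod_cast c2
        rw [min_eq_left c3, min_eq_left (by linarith)]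
        nlinarith [mul_le_mul_of_nonneg_left (h1 _ (sI j) c1) e0.le]
      · rcases lt_or_ge (s j) t0 with c2 | c2
        · nlinarith [mul_le_mul_of_nonneg_left (h2 _ (sI j) c1 c2) e0.le]
        · nlinarith [mul_le_mul_of_nonneg_right (h3 _ (sI j) c2) d0]
  have G0 : 0 < Ga K' L' K0 T := exp_pos _
  have key' : ∀ j ≤ k, Gp κ s (ε ^ 2) j ≤ Ga K' L' K0 T * ((1 + ε) ^ j) ^ (1 + 5 * ε) := fun j hj => by
    refine (key j hj).trans ?_
    rw [rpow_def_of_pos (by positivity), log_pow, Ga, ← exp_add, exp_le_exp]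
    have a1 : (m : ℝ) < 2 * log L' / ε + 1 := Nat.ceil_lt_add_one (by positivity)
    have a2 : ε * min (j : ℝ) m ≤ 2 * log L' + 1 := by
      have := mul_le_mul_of_nonneg_left ((min_le_right (j : ℝ) m).trans a1.le) e0.le
      rw [mul_add, mul_div_cancel₀ _ e0.ne'] at this
      linarith
    push_cast
    nlinarith [mul_le_mul_of_nonneg_left a2 hK', mul_le_mul_of_nonneg_left (sI j).2 hK0,
      mul_nonneg hK0 ht.le]
  have r64 : (1 + ε) ^ (1 + 5 * ε) ≤ 64 := by
    refine (rpow_le_rpow (by linarith) (show 1 + ε ≤ 2 by linarith) (by linarith)).trans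
      ((rpow_le_rpow_of_exponent_le one_le_two (show 1 + 5 * ε ≤ (6 : ℕ) by push_cast; linarith)).trans ?_)
    rw [rpow_natCast]; norm_num
  have key2 : ∀ j < k, Gp κ s (ε ^ 2) (j + 1) ≤
      64 * Ga K' L' K0 T * (T / t) ^ (5 * ε) * (1 + ε) ^ j := fun j hj => by
    refine (key' (j + 1) hj).trans ?_
    rw [pow_succ, mul_rpow (by positivity) (by positivity), rpow_add (by positivity), rpow_one]
    have := rpow_le_rpow (by positivity) (pj j hj) (show 0 ≤ 5 * ε by positivity)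
    calc _ ≤ Ga K' L' K0 T * ((1 + ε) ^ j * (T / t) ^ (5 * ε) * 64) := by gcongr
      _ = _ := by ring
  have sp : (T / t) ^ (1 + 6 * ε) = (T / t) ^ ε * ((T / t) ^ (5 * ε) * (T / t)) := by
    rw [show 1 + 6 * ε = ε + (5 * ε + 1) by ring, rpow_add (by positivity), rpow_add (by positivity),
      rpow_one]
  have fin : ∀ {f : ℕ → ℝ} {c : ℝ}, 0 ≤ c → (∀ j < k, f j ≤ c * ((T / t) ^ (5 * ε) * (T / t))) →
      ∑ j ∈ Finset.range k, f j ≤ 3 / ε ^ 2 * c * (T / t) ^ (1 + 6 * ε) := fun {f c} hc h => by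
    refine (Finset.sum_le_card_nsmul _ _ _ fun j hj => h j (Finset.mem_range.1 hj)).trans ?_
    rw [Finset.card_range, nsmul_eq_mul, sp]
    exact (mul_le_mul_of_nonneg_right kb' (by positivity)).trans_eq (by ring)
  refine ⟨s, k, by simp [hs, htT], min_eq_right (Nat.find_spec ex), sm, sI, sr, kb, fun j hj => ?_,
    fin (by positivity) fun j hj => ?_, fin (by positivity) fun j hj => (key2 j hj).trans ?_⟩
  · refine (key' j hj).trans (mul_le_mul_of_nonneg_left (rpow_le_rpow (by positivity) ?_ (by positivity))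
      G0.le)
    rw [mul_div_assoc]
    rcases j with _ | j
    · rw [pow_zero]; linarith
    · rw [pow_succ]; nlinarith [pj j hj, pow_pos (show 0 < 1 + ε by linarith) j]
  · have a1 : κ (s j) * s j ≤ K' + 2 + K0 * T := by
      have := mul_nonneg hK0 T0.le
      rcases lt_or_ge (s j) (L' * t) with c1 | c1
      · linarith [h1 _ (sI j) c1]
      · rcases lt_or_ge (s j) t0 with c2 | c2
        · linarith [h2 _ (sI j) c1 c2]
        · linarith [mul_le_mul (h3 _ (sI j) c2) (sI j).2 (ht.le.trans (sI j).1) hK0]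
    refine (mul_le_mul_of_nonneg_right (key2 j hj) (κ0 _ (sI j))).trans ?_
    rw [sj j hj] at a1 ⊢
    calc _ = 64 * Ga K' L' K0 T * (T / t) ^ (5 * ε) / t * (κ (t * (1 + ε) ^ j) * (t * (1 + ε) ^ j)) := by
          field_simp
      _ ≤ 64 * Ga K' L' K0 T * (T / t) ^ (5 * ε) / t * (K' + 2 + K0 * T) := by gcongr
      _ = _ := by field_simp
  · rw [mul_assoc (64 * _)]
    gcongr
    exact pj j hj

/-! ### the ceiling -/

variable {n : ℕ} {v : Cube n → ℝ} {K ρ τ δ : ℝ}

/-- covariance bound in a ball of tilts -/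
def BallCB (K r : ℝ) (v : Cube n → ℝ) : Prop := ∀ z : V n, nrm z ≤ r → CB (tilt v z) sv K

theorem BallCB.cb {r : ℝ} (h : BallCB K r v) (hr : 0 ≤ r) : CB v sv K := by
  have := h 0 (by rwa [nrm_zero])
  rwa [show tilt v 0 = v by funext x; simp [tilt]] at this

theorem prob_tilt_congr {w : Cube n → ℝ} (hv : Wt v) (hw : Wt w) (h : prob v = prob w) (z : V n) :
    prob (tilt v z) = prob (tilt w z) := by
  refine prob_const_mul (c := Zw v / Zw w) (div_pos hv.pos hw.pos).ne' fun s => ?_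
  have h1 := congrFun h s
  have h2 := hv.pos.ne'
  have h3 := hw.pos.ne'
  rw [tilt, tilt, ← mul_assoc]
  congr 1
  unfold prob at h1
  unfold Zw at *
  field_simp at h1 ⊢
  linarith

theorem ballCB_of_covOK {W : Mx n} {y : V n} {r : ℝ} (hv : Wt v) (h : prob v = prob (ising W y))
    (hc : CovOK (ising W 0) K r y) : BallCB K r v := fun z hz =>
  CB_congr (by rw [prob_tilt_congr hv (wt_ising W y) h, tilt0, tilt_ising]) (hc z hz)

/-- **the ceiling is free**: a ball-robust bound in the near future holds now -/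
theorem Fut.ball (hn : 0 < n) (hv : Wt v) (hρ : 0 < ρ) (h0 : 0 ≤ τ) (h1 : τ ≤ 1) (h2 : τ ≤ (ρ / 10) ^ 2)
    (hδ : δ + exp (-(n / 2)) < 1) (h : Fut sv τ δ (BallCB K (ρ * √n)) v) :
    BallCB K (ρ / 2 * √n) v := by
  have := isProb_law (φ := sv) (s := τ) hv
  have mA : MeasurableSet {y : V n | ρ * √n / 2 ≤ nrm y} :=
    measurableSet_le measurable_const continuous_nrm.measurable
  have h3 := law_tail hv τ mA fun σ g hg => not_le.2 (nrm_path hn h0 h1 h2 hρ σ hg)
  obtain ⟨y, hy⟩ : ∃ y, y ∉ {y | ¬ BallCB K (ρ * √n) (post sv v τ y)} ∪ {y : V n | ρ * √n / 2 ≤ nrm y} := by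
    by_contra hc
    have h4 := measureReal_mono (μ := law sv v τ) (s₁ := univ) fun y _ => not_not.1 (not_exists.1 hc y)
    rw [probReal_univ] at h4
    linarith [h4.trans ((measureReal_union_le _ _).trans (add_le_add h h3))]
  simp only [mem_union, mem_ofPred_eq, not_or, not_not, not_le] at hy
  intro z hz
  refine CB_congr ?_ (hy.1 (z - y) (by linarith [nrm_sub_le z y, hy.2]))
  refine prob_const_mul (c := exp (-(τ / 2 * n))) (exp_pos _).ne' fun s => ?_
  simp only [tilt, post, sv_dot_self, mul_assoc, ← exp_add, sub_dotProduct]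
  rw [mul_left_comm, ← exp_add]
  congr 2; ring

end Crest.Agent.T157.Oa.G5
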