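import Crest.Agent.T157.OaB_48
import Crest.Agent.T157.OaG_5

set_option autoImplicit false
set_option linter.unusedSectionVars false

/-!
Row 157, A2 (helper48): the long range part of the a priori list ((N), (N'), (S5)).
-/

noncomputable section

namespace Crest.Agent.T157.Oa

open MeasureTheory Matrix Filter Topology Set
open Crest.Agent.T157.E Crest.Agent.T157.SL Crest.Agent.T157.Ks Crest.Agent.T157.Od
open Crest.Agent.T157.Oo
open Crest.Agent.T157.Oa.G5 (Gp)

variable {n : ℕ} {I : Finset (Tst n)} {W A : Mn n} {ρ ε R t T u : ℝ} {v : Cube n → ℝ} {m : ℕ}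

/-- **(N), (N')** along a grid -/
theorem nD (c : Ctx I ρ ε R) {ψ χ : Cube n → Fin n → ℝ} (bψ : Bd ψ R) (bχ : Bd χ R) {s : ℕ → ℝ}
    {J : ℕ} (s0 : s 0 = t) (sm : ∀ j, s j ≤ s (j + 1)) (sJ : s J = T) (sI : ∀ j, s j ∈ Icc t T)
    (hT : T - t ≤ R) {κ : ℝ → ℝ} {k1 k2 : ℕ → ℝ} (κ0 : ∀ j, 0 ≤ κ (s j)) (p1 : ∀ j, 0 ≤ k1 j)
    (p2 : ∀ j, 0 ≤ k2 j)
    (hD : ∀ j < J, Dv I W ρ m (s j) (s (j + 1)) fun _ v =>
      CB v sv (κ (s j)) ∧ CB v ψ (k1 j) ∧ CB v χ (k2 j))
    {γ : ℝ} (γ0 : 0 ≤ γ) (hF : Dv I W ρ m T T fun _ v => ∀ U : Mn n, NV ψ χ U v ≤ γ * fr U)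
    {e G S : ℝ} (e0 : 0 < e) (hG : ∀ j ≤ J, Gp κ s e j ≤ G)
    (hS : ∑ j ∈ Finset.range J, Gp κ s e (j + 1) * (k1 j * k2 j) ≤ S) (GR : G ≤ R ^ 2)
    (JR : (J : ℝ) ≤ R) (hv : FG I W (ρ ^ (m + 2)) t v) (U : Mn n) :
    NV ψ χ U v ≤ (G * γ + 4 * S / e + 1) * fr U := by
  have hw := hv.wt
  have ε0 := c.ε0
  have R0 := c.R0
  have R1 := c.R1
  have e1 : ∀ j, s (j + 1) - t - (s j - t) = s (j + 1) - s j := fun j => by ring
  have key := N_chain hw c.bd bψ bχ (r := fun j => s j - t) (κ := fun j => κ (s j)) (k1 := k1) (k2 := k2)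
    e0 γ0 ε0.le (by simp [s0]) (fun j => sub_le_sub_right (sm j) t) κ0 p1 p2 J (fun j hj => by
      have d : Dv I W ρ (m + 1) (s j) (s j) fun _ v =>
          NP sv ψ χ (s (j + 1) - s j) ε (κ (s j)) (k1 j) (k2 j) v := fun u hu v' hv' => by
        obtain rfl : u = s j := le_antisymm hu.2 hu.1
        exact ⟨(hD j hj).ap' c hv' le_rfl (by linarith),
          ((hD j hj) _ ⟨le_rfl, sm j⟩ v' (hv'.depth c (Nat.le_succ m))).2⟩
      simp only [e1]
      exact d.fut c hv (sI j).1 ⟨le_rfl, le_rfl⟩) U (by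
      have := (hF.depth c (Nat.le_succ m)).fut c hv ((sI 0).1.trans (sI 0).2) ⟨le_rfl, le_rfl⟩
      rw [sJ]
      exact this.mono hw fun _ _ h => h U)
  simp only [e1] at key
  refine key.trans (mul_le_mul_of_nonneg_right ?_ fr_nonneg)
  have gp : ∀ j, 0 ≤ Gp κ s e j := fun j => Finset.prod_nonneg fun _ _ => by positivity
  have a1 : ∀ j ∈ Finset.range J, Gp κ s e j * (Real.exp (κ (s j) * (s (j + 1) - s j)) *
      ((1 + e⁻¹) * (4 * (k1 j * k2 j)) + 16 * (1 + (s (j + 1) - s j) * R) * R ^ 2 * ε) +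
      16 * R ^ 2 * ε) ≤ 4 / e * (Gp κ s e (j + 1) * (k1 j * k2 j)) + 48 * R ^ 6 * ε := by
    intro j hj
    have hj' := Finset.mem_range.1 hj
    have g1 : Gp κ s e (j + 1) = Gp κ s e j * (Real.exp (κ (s j) * (s (j + 1) - s j)) * (1 + e)) :=
      Finset.prod_range_succ _ _
    have g2 : Gp κ s e j * Real.exp (κ (s j) * (s (j + 1) - s j)) ≤ R ^ 2 := by
      refine le_trans ?_ ((hG (j + 1) hj').trans GR)
      rw [g1, ← mul_assoc]
      exact le_mul_of_one_le_right (mul_nonneg (gp j) (Real.exp_pos _).le) (by linarith)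
    have g3 := (hG j hj'.le).trans GR
    have g4 : 1 + (s (j + 1) - s j) * R ≤ 2 * R ^ 2 := by
      have : s (j + 1) - s j ≤ R := by linarith [(sI j).1, (sI (j + 1)).2]
      nlinarith
    have g5 : 0 ≤ 1 + (s (j + 1) - s j) * R := by have := sub_nonneg.2 (sm j); positivity
    have g6 : Gp κ s e j * Real.exp (κ (s j) * (s (j + 1) - s j)) *
        (16 * (1 + (s (j + 1) - s j) * R) * R ^ 2 * ε) ≤ R ^ 2 * (16 * (2 * R ^ 2) * R ^ 2 * ε) := by
      gcongr
    have g7 : Gp κ s e j * (16 * R ^ 2 * ε) ≤ R ^ 2 * (16 * R ^ 4 * ε) := by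
      gcongr; norm_num
    have g8 : Gp κ s e j * Real.exp (κ (s j) * (s (j + 1) - s j)) * ((1 + e⁻¹) * (4 * (k1 j * k2 j))) =
        4 / e * (Gp κ s e (j + 1) * (k1 j * k2 j)) := by rw [g1]; field_simp; ring
    nlinarith
  have a2 := Finset.sum_le_sum a1
  rw [Finset.sum_add_distrib, ← Finset.mul_sum, Finset.sum_const, Finset.card_range, nsmul_eq_mul] at a2
  have a3 : (J : ℝ) * (48 * R ^ 6 * ε) ≤ R * (48 * R ^ 6 * ε) := by gcongr
  have a4 := mul_le_mul_of_nonneg_left hS (show 0 ≤ 4 / e by positivity)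
  have a5 : Gp κ s e J * (γ + 16 * R ^ 2 * ε) ≤ G * γ + R ^ 2 * (16 * R ^ 2 * ε) := by
    rw [mul_add]
    exact add_le_add (mul_le_mul_of_nonneg_right (hG J le_rfl) γ0)
      (mul_le_mul_of_nonneg_right ((hG J le_rfl).trans GR) (by positivity))
  have a6 := c.err' (A := 96) (k := 7) (by norm_num) (by norm_num)
  have a7 := c.err' (A := 32) (k := 4) (by norm_num) (by norm_num)
  have a8 : 4 * S / e = 4 / e * S := by ring
  change Gp κ s e J * _ + ∑ j ∈ Finset.range J, Gp κ s e j * _ ≤ _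
  nlinarith

/-- terminal bounds from the Poincaré inequality -/
theorem term_of {K0 γ a : ℝ} (hA : Aᵀ = A) (ha : Op2 A (a ^ 2)) (a6 : a ^ 2 ≤ 36) (K00 : 0 ≤ K0)
    (γ0 : 0 ≤ γ) (hv : ∀ x, 0 < v x) (hC : CB v sv K0) (hP : Top.Poin v γ) :
    (∀ U : Mn n, NV (fA A sv) sv U v ≤ 1296 * (γ * (8 * K0 + 18)) * fr U) ∧
    (∀ U : Mn n, NV (fA A sv) (fA A sv) U v ≤ 1296 * (γ * (8 * K0 + 18)) * fr U) ∧
    ∀ x : Vn n, var v (fun s => (x ⬝ᵥ fA A sv s - mean v fun s => x ⬝ᵥ fA A sv s) ^ 2) ≤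
      1296 * (γ * (8 * K0 + 18)) * (x ⬝ᵥ x) ^ 2 := by
  have h36 : ∀ x, Aᵀ *ᵥ x ⬝ᵥ Aᵀ *ᵥ x ≤ 36 * (x ⬝ᵥ x) := fun x => by
    rw [hA]; exact (ha x).trans (mul_le_mul_of_nonneg_right a6 (dot_self_nonneg x))
  have g0 : 0 ≤ γ * (8 * K0 + 18) := by positivity
  have h2 : ∀ U : Mn n, NV (fA A sv) (fA A sv) U v ≤ 1296 * (γ * (8 * K0 + 18)) * fr U := fun U =>
    (NV_term hv hC γ0 hP A A U).trans ((mul_le_mul_of_nonneg_left
      (fr_mul_le (by norm_num) h36 h36 U) g0).trans_eq (by ring))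
  refine ⟨fun U => ?_, h2, fun x => ?_⟩
  · have h3 := NV_term hv hC γ0 hP A 1 U
    simp only [one_mulVec] at h3
    refine h3.trans ((mul_le_mul_of_nonneg_left (fr_mul_le (b := 36) (by norm_num) h36
      (fun x => ?_) U) g0).trans_eq (by ring))
    simp only [transpose_one, one_mulVec]
    linarith [dot_self_nonneg x]
  · have h3 := h2 (vecMulVec x x)
    have e1 : fr (vecMulVec x x) = (x ⬝ᵥ x) ^ 2 := by
      simp only [fr, vecMulVec_apply, mul_pow, ← Finset.mul_sum, ← Finset.sum_mul, dotProduct, ← sq]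
    have e2 : qf v (fA A sv) (fA A sv) (vecMulVec x x) =
        fun s => (x ⬝ᵥ fA A sv s - mean v fun s => x ⬝ᵥ fA A sv s) ^ 2 := by
      funext s
      rw [qf, vecMulVec_mulVec, ← meanV_dot, ← dotProduct_sub, sq]
      simp only [dotProduct_smul, MulOpposite.smul_eq_mul_unop, MulOpposite.unop_op,
        dotProduct_comm x]
    rwa [NV, e1, e2] at h3

/-- **(S5)** for `A σ`, logarithmic loss -/
theorem fourD (c : Ctx I ρ ε R) {ψ : Cube n → Fin n → ℝ} (bψ : Bd ψ R) {K' k γ : ℝ} (ht : 0 < t)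
    (htT : t ≤ T) (hT : T ≤ K') (hR : K' ≤ R * t) (TR : T ≤ R) (k0 : 0 ≤ k) (γ0 : 0 ≤ γ)
    (hD : Dv I W ρ m t (T + 1) fun u v => CB v sv (K' / u) ∧ CB v ψ k)
    (hF : Dv I W ρ m T T fun _ v => ∀ x : Vn n,
      var v (fun s => (x ⬝ᵥ ψ s - mean v fun s => x ⬝ᵥ ψ s) ^ 2) ≤ γ * (x ⬝ᵥ x) ^ 2)
    (hv : FG I W (ρ ^ (m + 2)) t v) (x : Vn n) :
    var v (fun s => (x ⬝ᵥ ψ s - mean v fun s => x ⬝ᵥ ψ s) ^ 2) ≤
      (2 * γ + 8 * k ^ 2 + 48 * K' * k ^ 2 * Real.log (T / t) + 1) * (x ⬝ᵥ x) ^ 2 := by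
  have hw := hv.wt
  have ε0 := c.ε0
  have R0 := c.R0
  have R1 := c.R1
  have K0 : 0 < K' := by linarith
  set X := x ⬝ᵥ x with hX
  have X0 : 0 ≤ X := dot_self_nonneg x
  set f := fun s => x ⬝ᵥ ψ s with hf
  have bf : Bd (sg f) (R * X) := bψ.sg_dot x
  have d1 : Dv I W ρ (m + 1) t T fun u v =>
      T3 v (sg f) (sg f) sv ≤ (20 * K' * k ^ 2 / u + 1632 * R ^ 5 * ε) * X ^ 2 ∧
        covV v f sv ⬝ᵥ covV v f sv ≤ K' / u * (k * X) := fun u hu w hw' => by
    have u0 : 0 < u := ht.trans_le hu.1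
    have h1 : u / K' ≤ 1 := (div_le_one K0).2 (hu.2.trans hT)
    have h0 : 0 < u / K' := by positivity
    have κh : K' / u * (u / K') ≤ 1 := le_of_eq (by field_simp)
    have κR : K' / u ≤ R := (div_le_iff₀ u0).2 (hR.trans (by gcongr; exact hu.1))
    have now := hD u ⟨hu.1, by linarith [hu.2]⟩ w (hw'.depth c (Nat.le_succ m))
    have ww := hw'.wt
    have vf : var w f ≤ k * X := now.2.var_le x
    refine ⟨?_, (now.1.covV_le ww (by positivity) f).trans (by gcongr)⟩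
    have ap := hD.ap c hw' hu.1 (h := u / K') (by linarith [hu.2])
      (P := fun v => CB v sv (K' / u) ∧ CB v (sg f) (k * X)) fun u' hu' v' _ h =>
        ⟨h.1.mono (div_le_div_of_nonneg_left K0.le u0 hu'.1), (CB_sg v' f).mono (h.2.var_le x)⟩
    rcases X0.eq_or_lt with hx | hx
    · have : R * X = 0 := by rw [← hx, mul_zero]
      have h3 := T3_crude ww bf bf c.bd
      rw [this] at h3
      rw [← hx]
      simpa using h3
    -- rescale the second slot
    have bf' : Bd (sg fun s => (√X)⁻¹ * f s) R := fun s => by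
      have := bf s
      simp only [Finset.univ_unique, Finset.sum_singleton] at this ⊢
      rw [mul_pow, inv_pow, Real.sq_sqrt X0, inv_mul_le_iff₀ hx]
      linarith
    have sX : 0 < √X := Real.sqrt_pos.2 hx
    have h3 := S3 ww h0 (by positivity) now.1 c.bd bf' bf k0 (ap.mono ww fun v' hv' h => ⟨h.1,
      (CB_sg v' _).mono (by
        have := h.2.var_le fun _ => (√X)⁻¹
        simp only [dotProduct, Finset.univ_unique, Finset.sum_singleton] at this
        refine this.trans_eq ?_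
        rw [← mul_inv, Real.mul_self_sqrt X0]; field_simp)⟩)
    have e3 : T3 w (sg f) (sg f) sv = X * T3 w (sg f) (sg fun s => (√X)⁻¹ * f s) sv := by
      have : ∀ l : Cube n → ℝ, cum3 w f (fun s => (√X)⁻¹ * f s) l = (√X)⁻¹ * cum3 w f f l := fun l => by
        simp only [cum3, mean_const_mul, ← mul_sub, mul_left_comm _ (√X)⁻¹, mul_assoc (√X)⁻¹]
      simp only [T3, Finset.univ_unique, Finset.sum_singleton, this, mul_pow, inv_pow, Real.sq_sqrt X0,
        ← Finset.mul_sum]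
      field_simp
    have b1 : sc1 (K' / u) (u / K') ≤ 20 * K' / u :=
      (sc1_le h0 (by positivity) κh).trans_eq (by field_simp)
    have b2 := sc1_crude h0 h1 (by rwa [one_div_div]) (by positivity) κR R1
    have b3 : sc1 (K' / u) (u / K') * k * var w f ≤ 20 * K' / u * k * (k * X) := by
      have := ww.var_nonneg f
      gcongr
    have b4 : sc1 (K' / u + R) (u / K') * (16 * R * (R * X) * ε) ≤
        102 * R ^ 3 * (16 * R * (R * X) * ε) := by gcongr
    rw [e3]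
    refine (mul_le_mul_of_nonneg_left (h3.trans (add_le_add b3 b4)) X0).trans_eq ?_
    ring
  have T0 := sub_nonneg.2 htT
  have pos : ∀ r ∈ Icc 0 (T - t), 0 < t + r := fun r hr => by linarith [hr.1]
  have cinv : ContinuousOn (fun r => (t + r)⁻¹) (Icc 0 (T - t)) :=
    (continuousOn_const.add continuousOn_id).inv₀ fun r hr => (pos r hr).ne'
  have now := hD t ⟨le_rfl, by linarith⟩ v (hv.depth c (Nat.le_add_right m 2))
  have vf : var v f ≤ k * X := now.2.var_le x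
  have v0 := hw.var_nonneg f
  have fin := ((hF.and (hD.sub htT (by linarith))).depth c (Nat.le_succ m)).fut c hv htT
    ⟨le_rfl, le_rfl⟩
  have key := four_var hw T0 c.bd bf
    (a := fun r => (20 * K' * k ^ 2 * (t + r)⁻¹ + 1632 * R ^ 5 * ε) * X ^ 2)
    (b := fun r => K' * (t + r)⁻¹ * (k * X))
    (((continuousOn_const.mul cinv).add continuousOn_const).mul continuousOn_const)
    ((continuousOn_const.mul cinv).mul continuousOn_const)
    (fun r hr => by have := pos r hr; positivity) (fun r hr => by have := pos r hr; positivity)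
    (fun r hr => by
      have := d1.fut c hv (u' := t + r) (by linarith [hr.1]) ⟨by linarith [hr.1], by linarith [hr.2]⟩
      rw [add_sub_cancel_left] at this
      simpa only [div_eq_mul_inv, Fut] using this)
    (γ := γ * X ^ 2) (k := k * X) (by positivity) (by positivity) fin
    fun y hy => ⟨(not_not.1 hy).2.2.var_le x, (not_not.1 hy).1 x⟩
  refine key.trans ?_
  have i1 : ∫ r in (0 : ℝ)..T - t, (t + r)⁻¹ = Real.log (T / t) := by
    rw [intervalIntegral.integral_comp_add_left (fun r => r⁻¹), add_zero, add_sub_cancel,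
      integral_inv_of_pos ht (ht.trans_le htT)]
  have ii : IntervalIntegrable (fun r => (t + r)⁻¹) volume 0 (T - t) :=
    cinv.intervalIntegrable_of_Icc T0
  have i2 : ∫ r in (0 : ℝ)..T - t, (2 * ((20 * K' * k ^ 2 * (t + r)⁻¹ + 1632 * R ^ 5 * ε) * X ^ 2) +
      8 * (K' * (t + r)⁻¹ * (k * X)) * var v f + 16 * R * (R * X) ^ 2 * ε) =
      (40 * K' * k ^ 2 * X ^ 2 + 8 * K' * k * X * var v f) * Real.log (T / t) +
        (T - t) * ((3264 * R ^ 5 + 16 * R ^ 3) * ε * X ^ 2) := by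
    rw [← i1, ← intervalIntegral.integral_const_mul, ← sub_zero (T - t), ← smul_eq_mul (T - t - 0),
      ← intervalIntegral.integral_const, sub_zero,
      ← intervalIntegral.integral_add (ii.const_mul _) intervalIntegrable_const]
    exact intervalIntegral.integral_congr fun r _ => by ring
  rw [i2]
  have l0 : 0 ≤ Real.log (T / t) := Real.log_nonneg ((one_le_div ht).2 htT)
  have a1 : 8 * K' * k * X * var v f * Real.log (T / t) ≤ 8 * K' * k * X * (k * X) * Real.log (T / t) := by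
    gcongr
  have a2 : (T - t) * ((3264 * R ^ 5 + 16 * R ^ 3) * ε * X ^ 2) ≤
      R * ((3264 * R ^ 5 + 16 * R ^ 5) * ε * X ^ 2) := by
    gcongr
    · linarith
    · norm_num
  have a3 : 8 * (k * X) * var v f ≤ 8 * (k * X) * (k * X) := by gcongr
  have a4 := mul_le_mul_of_nonneg_right (c.err' (A := 6560) (k := 6) (by norm_num) (by norm_num))
    (sq_nonneg X)
  have a5 := mul_le_mul_of_nonneg_right (c.err' (A := 96) (k := 2) (by norm_num) (by norm_num))
    (sq_nonneg X)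
  nlinarith

end Crest.Agent.T157.Oa
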