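import Crest.Agent.T157.OaA_48

set_option autoImplicit false
set_option linter.unusedSectionVars false

/-!
Row 157, A2 (helper5): backward propagation with time dependent rates, in `Dv` words.
-/

noncomputable section

namespace Crest.Agent.T157.Oa

open MeasureTheory Matrix Filter Topology Set Real
open Crest.Agent.T157.E Crest.Agent.T157.SL Crest.Agent.T157.Ks Crest.Agent.T157.Od
open Crest.Agent.T157.Oo

section
variable {Ω ι J L : Type*} [Fintype Ω] [Fintype ι] [DecidableEq ι] [Fintype J] [Fintype L]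
  {φ : Ω → ι → ℝ} {ψ : Ω → J → ℝ} {χ : Ω → L → ℝ} {w : Ω → ℝ} {h δ R R' K α : ℝ} {κ β : ℝ → ℝ}

/-- `cb_prop` with a time dependent ceiling -/
theorem cb_propT (hw : Wt w) (hh : 0 ≤ h) (hκ : ContinuousOn κ (Icc 0 h))
    (κ0 : ∀ r ∈ Icc 0 h, 0 ≤ κ r) (hR : Bd φ R) (hR' : Bd ψ R')
    (hP : ∀ r ∈ Icc 0 h, Fut φ r δ (fun v => CB v φ (κ r)) w) (K0 : 0 ≤ K)
    (hS : Fut φ h δ (fun v => CB v ψ K) w) :
    CB w ψ (exp (∫ r in (0 : ℝ)..h, κ r) * (K + (1 + h * R) * R' * δ)) :=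
  CB_iff.2 fun v => by
  have v0 := dot_self_nonneg v
  have R0 := hR.nonneg hw
  have R0' := hR'.nonneg hw
  have δ0 := hS.nonneg
  set f := fun x => v ⬝ᵥ ψ x with hf
  have hV : ∀ q, Wt q → var q f ≤ R' * (v ⬝ᵥ v) := fun q hq => (hR'.cb hq).var_le v
  have h1 := (ito_var (φ := φ) hw f).ex_lower hw le_rfl hh (eg_var hw f) (κ := κ)
    (ε := fun _ => R * (R' * (v ⬝ᵥ v)) * δ) hκ continuousOn_const κ0
    (fun _ _ => by positivity) fun r hr => by
      have hr' := Ioo_subset_Icc_self hr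
      have := ex_le_bad (H := fun p => κ r * var (pw φ w p) f)
        (G := fun p => covV (pw φ w p) f φ ⬝ᵥ covV (pw φ w p) f φ) hw (hP r hr')
        ((eg_covV_dot hw f f).mg (mem_univ r)) (((eg_var hw f).const_mul _).mg (mem_univ r))
        (C := R * (R' * (v ⬝ᵥ v))) (by positivity)
        (fun y hy => (not_not.1 hy).covV_le (hw.post _ _ _) (κ0 r hr') f) fun y => by
          have hq := hw.post φ r y
          have := ((hR.cb hq).covV_le hq R0 f).trans (mul_le_mul_of_nonneg_left (hV _ hq) R0)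
          have := mul_nonneg (κ0 r hr') (hq.var_nonneg f)
          simp only [pw]; linarith
      rw [ex_const_mul] at this
      rw [ex_neg]
      linarith
  simp only [ex_pw_zero hw fun q => var q f, intervalIntegral.integral_const, sub_zero,
    smul_eq_mul] at h1
  have h2 := ex_le_bad' (G := fun p => var (pw φ w p) f) hw hS
    ((eg_var hw _).mg (mem_univ h)) (a := K * (v ⬝ᵥ v)) (C := R' * (v ⬝ᵥ v)) (by positivity)
    (by positivity) (fun y hy => (not_not.1 hy).var_le v) fun y => hV _ (hw.post _ _ _)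
  refine h1.trans ?_
  rw [mul_assoc (exp _)]
  exact mul_le_mul_of_nonneg_left (by nlinarith) (exp_pos _).le

/-- `fp` with a time dependent bound on the drift -/
theorem fpT (hw : Wt w) (hh : 0 ≤ h) {G a : J → Pt ι → ℝ} {b : J → ι → Pt ι → ℝ}
    (hG : ∀ k, Ito (md φ w) (Icc 0 h) (G k) (a k) (b k)) {c : J → ℝ}
    (hβ : ContinuousOn β (Icc 0 h)) (h1 : ex φ w (fun p => ∑ k, (G k p - c k) ^ 2) h ≤ α)
    (h2 : ∀ u ∈ Ioo 0 h, ex φ w (fun p => ∑ k, a k p ^ 2) u ≤ β u) :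
    √(∑ k, (G k (0, 0) - c k) ^ 2) ≤ √α + ∫ r in (0 : ℝ)..h, √(β r) := by
  set U : J → ℝ := fun k => G k (0, 0) - c k with hU
  set N := ∑ k, U k ^ 2 with hN
  have N0 : 0 ≤ N := by positivity
  have cs : ∀ {F : J → Pt ι → ℝ} {u A : ℝ}, (∀ k, MG fun y => F k (u, y)) →
      ex φ w (fun p => ∑ k, F k p ^ 2) u ≤ A → |ex φ w (fun p => ∑ k, U k * F k p) u| ≤ √N * √A := by
    intro F u A hF hA
    rw [← sqrt_mul N0]
    have m : MG fun y => ∑ k, U k * F k (u, y) := .sum _ fun k _ => (hF k).const_mul _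
    have m2 : MG fun y => ∑ k, F k (u, y) ^ 2 := .sum _ fun k _ => by
      simpa only [sq] using (hF k).mul (hF k)
    refine abs_le_sqrt ((ex_sq_le hw m).trans ((ex_mono (H := fun p => N * ∑ k, F k p ^ 2) hw
      (by simpa only [sq] using m.mul m) (m2.const_mul N) fun y =>
      Finset.sum_mul_sq_le_sq_mul_sq _ _ _).trans ?_))
    rw [ex_const_mul]; gcongr
  have it := Ito.sum Finset.univ fun k _ => ((hG k).sub (.const (c k))).const_mul (U k)
  have mG := fun k u (hu : u ∈ Icc 0 h) => ((hG k).eg.sub (.const (c k))).mg hu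
  have key := (it.mono Ioo_subset_Icc_self).ex_lower hw le_rfl hh it.eg (κ := fun _ => 0)
    (ε := fun r => √N * √(β r)) continuousOn_const (continuousOn_const.mul hβ.sqrt)
    (fun _ _ => le_rfl) (fun _ _ => by positivity) fun u hu => by
      have ma := fun k => ((hG k).eg_a (eg_md hw)).mg (Ioo_subset_Icc_self hu)
      have := neg_le_of_abs_le (cs ma (h2 u hu))
      simp only [sub_zero]
      linarith
  rw [ex_zero hw, intervalIntegral.integral_const_mul] at key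
  have h3 := le_of_abs_le (cs (F := fun k p => G k p - c k) (fun k => mG k h (right_mem_Icc.2 hh)) h1)
  have h4 : √N * √N ≤ √N * (√α + ∫ r in (0 : ℝ)..h, √(β r)) := by
    rw [mul_self_sqrt N0]
    have : ∑ k, U k * (G k (0, 0) - c k) = N := by simp only [hN, hU, sq]
    simp only [this, intervalIntegral.integral_zero, exp_zero, one_mul] at key
    linarith
  rcases (sqrt_nonneg N).eq_or_lt with h9 | h9
  · rw [← h9]
    exact add_nonneg (sqrt_nonneg _) (intervalIntegral.integral_nonneg hh fun _ _ => sqrt_nonneg _)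
  · exact le_of_mul_le_mul_left h4 h9

theorem fpT_T2 (hw : Wt w) (hh : 0 ≤ h) {c : J → L → ℝ} (hβ : ContinuousOn β (Icc 0 h))
    (h1 : ex φ w (fun p => T2 (pw φ w p) ψ χ c) h ≤ α)
    (h2 : ∀ u ∈ Ioo 0 h, ex φ w (fun p => D2 φ (pw φ w p) ψ χ 0) u ≤ β u) :
    √(T2 w ψ χ c) ≤ √α + ∫ r in (0 : ℝ)..h, √(β r) := by
  have := fpT (J := J × L) hw hh (fun q => ito_cov hw (fun x => ψ x q.1) fun x => χ x q.2)
    (c := fun q => c q.1 q.2) (α := α) hβ
    (by simpa only [Fintype.sum_prod_type, T2] using h1) fun u hu => by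
      simpa only [Fintype.sum_prod_type, neg_sq, D2, Pi.zero_apply, sub_zero] using h2 u hu
  simpa only [Fintype.sum_prod_type, pw, post_zero, T2] using this

end

variable {n : ℕ} {J L : Type*} [Fintype J] [Fintype L] {I : Finset (Tst n)} {W : Mn n}
  {ρ ε R t s a b K al : ℝ} {m : ℕ} {kap be : ℝ → ℝ} {ψ : Cube n → J → ℝ} {χ : Cube n → L → ℝ}

theorem shift_mem {u r : ℝ} (hu : u ∈ Icc t s) (hr : r ∈ Icc 0 (s - u)) : u + r ∈ Icc t s :=
  ⟨by linarith [hu.1, hr.1], by linarith [hr.2]⟩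

theorem shift_cont {u : ℝ} (hu : u ∈ Icc t s) (hk : ContinuousOn kap (Icc t s)) :
    ContinuousOn (fun r => kap (u + r)) (Icc 0 (s - u)) :=
  hk.comp (by fun_prop) fun _ hr => shift_mem hu hr

theorem shift_int (f : ℝ → ℝ) (u : ℝ) : ∫ r in (0 : ℝ)..(s - u), f (u + r) = ∫ r in u..s, f r := by
  rw [intervalIntegral.integral_comp_add_left, add_zero, add_sub_cancel]

theorem Dv.fut' {Q : ℝ → (Cube n → ℝ) → Prop} (c : Ctx I ρ ε R) (hQ : Dv I W ρ m t s Q) {u r : ℝ}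
    {v : Cube n → ℝ} (hv : FG I W (ρ ^ (m + 1)) u v) (hu : u ∈ Icc t s) (hr : r ∈ Icc 0 (s - u)) :
    Fut sv r ε (Q (u + r)) v := by
  have := hQ.fut c hv (u' := u + r) (by linarith [hr.1]) (shift_mem hu hr)
  rwa [add_sub_cancel_left] at this

/-- the core: the end condition is given as a future event, the error is `R⁻¹³` -/
theorem cbC' (c : Ctx I ρ ε R) (hk : ContinuousOn kap (Icc t s)) (k0 : ∀ u ∈ Icc t s, 0 ≤ kap u)
    (hD : Dv I W ρ m t s fun u v => CB v sv (kap u)) (hψ : Bd ψ R)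
    (hE : ∀ u ∈ Icc t s, ∀ v, FG I W (ρ ^ (m + 1)) u v → Fut sv (s - u) ε (fun v => CB v ψ K) v)
    (K0 : 0 ≤ K) (hst : s - t ≤ R) :
    Dv I W ρ (m + 1) t s fun u v => CB v ψ (exp (∫ r in u..s, kap r) * (K + 1 / R ^ 13)) :=
  fun u hu v hv => by
  have h0 : 0 ≤ s - u := sub_nonneg.2 hu.2
  have := cb_propT hv.wt h0 (shift_cont hu hk) (fun r hr => k0 _ (shift_mem hu hr)) c.bd hψ
    (fun r hr => hD.fut' c hv hu hr) K0 (hE u hu v hv)
  rw [shift_int] at this
  refine this.mono (mul_le_mul_of_nonneg_left (add_le_add_right ?_ K) (exp_pos _).le)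
  refine le_trans (mul_le_mul_of_nonneg_right ?_ c.ε0.le)
    (c.err_div (A := 2) (k := 3) (j := 13) (by norm_num) (by norm_num))
  have R1 := c.R1
  have : (s - u) * R ≤ R * R := mul_le_mul_of_nonneg_right (by linarith [hu.1]) c.R0.le
  nlinarith [mul_le_mul_of_nonneg_right (show 1 + (s - u) * R ≤ 2 * (R * R) by nlinarith) c.R0.le]

theorem cbC (c : Ctx I ρ ε R) (hk : ContinuousOn kap (Icc t s)) (k0 : ∀ u ∈ Icc t s, 0 ≤ kap u)
    (hD : Dv I W ρ m t s fun u v => CB v sv (kap u)) (hψ : Bd ψ R)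
    (hE : ∀ u ∈ Icc t s, ∀ v, FG I W (ρ ^ (m + 1)) u v → Fut sv (s - u) ε (fun v => CB v ψ K) v)
    (K0 : 0 ≤ K) (hst : s - t ≤ R) :
    Dv I W ρ (m + 1) t s fun u v => CB v ψ (exp (∫ r in u..s, kap r) * (K + 1 / R ^ 5)) :=
  (cbC' c hk k0 hD hψ hE K0 hst).imp fun _ _ _ _ h => h.mono (mul_le_mul_of_nonneg_left
    (add_le_add_right (one_div_le_one_div_of_le (pow_pos c.R0 _)
      (pow_le_pow_right₀ c.R1 (by norm_num))) K) (exp_pos _).le)

theorem Ctx.div5 (c : Ctx I ρ ε R) : 1 / R ^ 5 ≤ 1 / R / 16 := by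
  rw [div_div]
  refine one_div_le_one_div_of_le (by have := c.R0; positivity) ?_
  have := pow_le_pow_left₀ zero_le_two c.R2 4
  nlinarith [c.R0]

/-- **(b)** propagation of `Cov ψ ≤ K` from `s` backwards -/
theorem cbL (c : Ctx I ρ ε R) (hk : ContinuousOn kap (Icc t s)) (k0 : ∀ u ∈ Icc t s, 0 ≤ kap u)
    (hD : Dv I W ρ m t s fun u v => CB v sv (kap u)) (hψ : Bd ψ R)
    (hE : Dv I W ρ m s s fun _ v => CB v ψ K) (K0 : 0 ≤ K) (hst : s - t ≤ R) :
    Dv I W ρ (m + 1) t s fun u v => CB v ψ (exp (∫ r in u..s, kap r) * (K + 1 / R)) :=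
  (cbC c hk k0 hD hψ (fun _ hu _ hv => hE.fut c hv hu.2 ⟨le_rfl, le_rfl⟩) K0 hst).imp
    fun _ _ _ _ h => h.mono (mul_le_mul_of_nonneg_left (add_le_add_right (c.div5.trans
      (div_le_self (by have := c.R0; positivity) (by norm_num))) K) (exp_pos _).le)

/-- **(c)** propagation of `|Cov(ψ, χ) - c|_F` from `s` backwards -/
theorem t2L (c : Ctx I ρ ε R) (hb : ContinuousOn be (Icc t s)) (b0 : ∀ u ∈ Icc t s, 0 ≤ be u)
    (hD : Dv I W ρ m t s fun u v => D2 sv v ψ χ 0 ≤ be u) {c0 : J → L → ℝ}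
    (hE : Dv I W ρ m s s fun _ v => T2 v ψ χ c0 ≤ al) (a0 : 0 ≤ al) (hψ : Bd ψ R) (hχ : Bd χ R)
    (hc : ∑ j, ∑ l, c0 j l ^ 2 ≤ R ^ 2) :
    Dv I W ρ (m + 1) t s fun u v => √(T2 v ψ χ c0) ≤ √(al + 1) + ∫ r in u..s, √(be r + 1) :=
  fun u hu v hv => by
  have hw := hv.wt
  have R0 := c.R0
  beta_reduce
  rw [← shift_int (fun r => √(be r + 1))]
  refine fpT_T2 (φ := sv) (β := fun r => be (u + r) + 1) hw (sub_nonneg.2 hu.2)
    ((shift_cont hu hb).add continuousOn_const) ?_ fun r hr => ?_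
  · refine (ex_le_bad' (G := fun p => T2 (pw sv v p) ψ χ c0) hw (hE.fut c hv hu.2 ⟨le_rfl, le_rfl⟩)
      ((eg_T2 hw c0).mg (mem_univ _)) a0 (C := 34 * R ^ 2) (by positivity)
      (fun y hy => not_not.1 hy) fun y => ?_).trans
      (add_le_add_right (c.err' (by norm_num) (by norm_num)) al)
    have := T2_le (w := post sv v (s - u) y) (ψ := ψ) (χ := χ) c0
    have := T2_crude (hw.post sv (s - u) y) hψ hχ
    simp only [pw]; nlinarith
  · have hr' := Ioo_subset_Icc_self hr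
    exact (ex_le_bad' (G := fun p => D2 sv (pw sv v p) ψ χ 0) hw (hD.fut' c hv hu hr')
      ((eg_D2 hw 0).mg (mem_univ _)) (b0 _ (shift_mem hu hr')) (C := 16 * R ^ 4) (by positivity)
      (fun y hy => not_not.1 hy) fun y =>
        (D2_crude (hw.post sv r y) c.bd hψ hχ).trans_eq (by ring)).trans
      (add_le_add_right (c.err' (by norm_num) (by norm_num)) _)

theorem exp_half_le {x : ℝ} (hx : x ≤ 1 / 2) : exp x ≤ 7 / 4 := by
  refine (exp_le_exp.2 hx).trans (abs_le_of_sq_le_sq' ?_ (by norm_num)).2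
  rw [← exp_nat_mul]
  norm_num
  linarith [exp_one_lt_d9]

/-- constant rate with `κ (s - t) ≤ 1/2` -/
theorem cbK (c : Ctx I ρ ε R) {κ k : ℝ} (κ0 : 0 ≤ κ) (hD : Dv I W ρ m t s fun _ v => CB v sv κ)
    (hE : ∀ u ∈ Icc t s, ∀ v, FG I W (ρ ^ (m + 1)) u v → Fut sv (s - u) ε (fun v => CB v sv K) v)
    (K0 : 0 ≤ K) (hst : s - t ≤ R) (hκ : κ * (s - t) ≤ 1 / 2) (hk : 1 / R ≤ k) :
    Dv I W ρ (m + 1) t s fun _ v => CB v sv (7 / 4 * (K + k / 16)) :=
  (cbC c (kap := fun _ => κ) continuousOn_const (fun _ _ => κ0) hD c.bd hE K0 hst).imp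
    fun u hu _ _ h => h.mono (mul_le_mul (exp_half_le (by
      rw [intervalIntegral.integral_const, smul_eq_mul]
      nlinarith [hu.1])) (by linarith [c.div5]) (by have := c.R0; positivity) (by norm_num))

/-- **(a)** the Riccati step under a crude ceiling -/
theorem ricD (c : Ctx I ρ ε R) {Lam k d : ℝ} (hL : Dv I W ρ m a b fun _ v => CB v sv Lam)
    {τ : Tst n} (hτ : τ ∈ I) (ha : a ≤ τ.s - d) (hb : τ.s ≤ b) (hP : ∀ v, τ.P W v → CB v sv k)
    (hk : 1 / R ≤ k) (kL : k ≤ Lam) (d0 : 0 ≤ d) (dR : d ≤ R) (kd : 8 * k * d ≤ 1) {M : ℕ}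
    (hM : 2 * Lam * d ≤ M) : Dv I W ρ (m + 2 * M + 1) (τ.s - d) τ.s fun _ v => CB v sv (2 * k) := by
  have k0 : 0 < k := (one_div_pos.2 c.R0).trans_le hk
  have L0 : 0 < Lam := k0.trans_le kL
  obtain ⟨η, η0, ηM, ηL⟩ : ∃ η, 0 ≤ η ∧ M * η = d ∧ Lam * η ≤ 1 / 2 := by
    rcases (Nat.cast_nonneg (α := ℝ) M).eq_or_lt with h | h
    · exact ⟨0, le_rfl, by nlinarith, by norm_num⟩
    · refine ⟨d / M, by positivity, by field_simp, ?_⟩
      rw [← mul_div_assoc, div_le_iff₀ h]; linarith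
  have fin : ∀ {m' : ℕ} {t κ : ℝ}, 0 ≤ κ → τ.s - t ≤ d → κ * (τ.s - t) ≤ 1 / 2 →
      (Dv I W ρ m' t τ.s fun _ v => CB v sv κ) →
      Dv I W ρ (m' + 1) t τ.s fun _ v => CB v sv (2 * k) := fun κ0 h1 h2 h3 =>
    (cbK c κ0 h3 (fun _ hu _ hv => (hv.test' c hτ hu.2).mono hv.wt fun v _ => hP v) k0.le
      (h1.trans dR) h2 hk).imp fun _ _ _ _ h => h.mono (by linarith)
  have key : ∀ j : ℕ, j ≤ M →
      Dv I W ρ (m + 2 * j + 1) (τ.s - j * η) τ.s fun _ v => CB v sv (2 * k) := by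
    intro j
    induction j with
    | zero => exact fun _ => fin L0.le (by simpa) (by simp) (hL.sub (by simpa using by linarith) hb)
    | succ j ih =>
      intro hj
      have h1 := ih (Nat.le_of_succ_le hj)
      have e1 : ((j + 1 : ℕ) : ℝ) * η ≤ d := ηM ▸ mul_le_mul_of_nonneg_right (Nat.cast_le.2 hj) η0
      have e2 : ((j + 1 : ℕ) : ℝ) * η = j * η + η := by push_cast; ring
      have e3 : 0 ≤ (j : ℝ) * η := by positivity
      have h2 := cbK c (m := m + 2 * j + 1) (t := τ.s - (j + 1 : ℕ) * η) (s := τ.s - j * η) L0.le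
        ((hL.sub (by linarith) (by linarith)).depth c (by omega))
        (fun _ hu _ hv => h1.fut c hv hu.2 ⟨le_rfl, by linarith⟩) (by linarith) (by linarith)
        (by rw [e2]; linarith) hk
      exact fin (κ := 4 * k) (by linarith) (by linarith) (by nlinarith)
        ((h2.imp fun _ _ _ _ h => h.mono (by linarith)).union
          ((h1.depth c (Nat.le_succ _)).imp fun _ _ _ _ h => h.mono (by linarith)))
  simpa only [ηM] using key M le_rfl

theorem exp_le_of_pow {x y : ℝ} {j : ℕ} (i : ℕ) (hj : j ≠ 0) (hx : j * x ≤ i) (y0 : 0 ≤ y)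
    (hy : 2.7182818286 ^ i ≤ y ^ j) : exp x ≤ y := by
  refine le_of_pow_le_pow_left₀ hj y0 (le_trans ?_ hy)
  rw [← exp_nat_mul]
  refine (exp_le_exp.2 hx).trans ?_
  rw [← mul_one (i : ℝ), exp_nat_mul]
  exact pow_le_pow_left₀ (exp_pos _).le exp_one_lt_d9.le _

/-- constant rate with `exp (κ (s - t)) ≤ E` -/
theorem cbK' (c : Ctx I ρ ε R) {κ k E : ℝ} (κ0 : 0 ≤ κ) (hD : Dv I W ρ m t s fun _ v => CB v sv κ)
    (hE : ∀ u ∈ Icc t s, ∀ v, FG I W (ρ ^ (m + 1)) u v → Fut sv (s - u) ε (fun v => CB v sv K) v)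
    (K0 : 0 ≤ K) (hst : s - t ≤ R) (hκ : exp (κ * (s - t)) ≤ E) (hk : 1 / R ≤ k) :
    Dv I W ρ (m + 1) t s fun _ v => CB v sv (E * (K + k / 4096)) := by
  have R0 := c.R0
  have e : 1 / R ^ 13 ≤ 1 / R / 4096 := by
    rw [div_div]
    refine one_div_le_one_div_of_le (by positivity) ?_
    have := pow_le_pow_left₀ zero_le_two c.R2 12
    nlinarith
  exact (cbC' c (kap := fun _ => κ) continuousOn_const (fun _ _ => κ0) hD c.bd hE K0 hst).imp
    fun u hu _ _ h => h.mono (mul_le_mul (le_trans (exp_le_exp.2 (by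
      rw [intervalIntegral.integral_const, smul_eq_mul]
      nlinarith [hu.1])) hκ) (by linarith) (by positivity) ((exp_pos _).le.trans hκ))

/-- **(a')** the Riccati step with `4 k d ≤ 1` -/
theorem ricD' (c : Ctx I ρ ε R) {Lam k d : ℝ} (hL : Dv I W ρ m a b fun _ v => CB v sv Lam)
    {τ : Tst n} (hτ : τ ∈ I) (ha : a ≤ τ.s - d) (hb : τ.s ≤ b) (hP : ∀ v, τ.P W v → CB v sv k)
    (hk : 1 / R ≤ k) (kL : k ≤ Lam) (d0 : 0 ≤ d) (dR : d ≤ R) (kd : 4 * k * d ≤ 1) {M : ℕ}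
    (hM : 4 * Lam * d ≤ M) : Dv I W ρ (m + 2 * M + 1) (τ.s - d) τ.s fun _ v => CB v sv (2 * k) := by
  have k0 : 0 < k := (one_div_pos.2 c.R0).trans_le hk
  have L0 : 0 < Lam := k0.trans_le kL
  obtain ⟨η, η0, ηM, ηL⟩ : ∃ η, 0 ≤ η ∧ M * η = d ∧ Lam * η ≤ 1 / 4 := by
    rcases (Nat.cast_nonneg (α := ℝ) M).eq_or_lt with h | h
    · exact ⟨0, le_rfl, by nlinarith, by norm_num⟩
    · refine ⟨d / M, by positivity, by field_simp, ?_⟩
      rw [← mul_div_assoc, div_le_iff₀ h]; linarith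
  have fin : ∀ {m' : ℕ} {t κ : ℝ}, 0 ≤ κ → τ.s - t ≤ d → κ * (τ.s - t) ≤ 2 / 3 →
      (Dv I W ρ m' t τ.s fun _ v => CB v sv κ) →
      Dv I W ρ (m' + 1) t τ.s fun _ v => CB v sv (2 * k) := fun κ0 h1 h2 h3 =>
    (cbK' c (E := 39 / 20) κ0 h3 (fun _ hu _ hv => (hv.test' c hτ hu.2).mono hv.wt fun v _ => hP v)
      k0.le (h1.trans dR) (exp_le_of_pow (j := 3) 2 (by norm_num) (by push_cast; linarith)
        (by norm_num) (by norm_num)) hk).imp fun _ _ _ _ h => h.mono (by linarith)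
  have key : ∀ j : ℕ, j ≤ M →
      Dv I W ρ (m + 2 * j + 1) (τ.s - j * η) τ.s fun _ v => CB v sv (2 * k) := by
    intro j
    induction j with
    | zero => exact fun _ => fin L0.le (by simpa) (by norm_num) (hL.sub (by simpa using by linarith) hb)
    | succ j ih =>
      intro hj
      have h1 := ih (Nat.le_of_succ_le hj)
      have e1 : ((j + 1 : ℕ) : ℝ) * η ≤ d := ηM ▸ mul_le_mul_of_nonneg_right (Nat.cast_le.2 hj) η0
      have e2 : ((j + 1 : ℕ) : ℝ) * η = j * η + η := by push_cast; ring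
      have e3 : 0 ≤ (j : ℝ) * η := by positivity
      have h2 := cbK' c (m := m + 2 * j + 1) (t := τ.s - (j + 1 : ℕ) * η) (s := τ.s - j * η)
        (E := 129 / 100) L0.le ((hL.sub (by linarith) (by linarith)).depth c (by omega))
        (fun _ hu _ hv => h1.fut c hv hu.2 ⟨le_rfl, by linarith⟩) (by linarith) (by linarith)
        (exp_le_of_pow (j := 4) 1 (by norm_num) (by rw [e2]; push_cast; linarith) (by norm_num)
          (by norm_num)) hk
      exact fin (κ := 13 / 5 * k) (by linarith) (by linarith) (by nlinarith)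
        ((h2.imp fun _ _ _ _ h => h.mono (by linarith)).union
          ((h1.depth c (Nat.le_succ _)).imp fun _ _ _ _ h => h.mono (by linarith)))
  simpa only [ηM] using key M le_rfl

end Crest.Agent.T157.Oa
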