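import Crest.Agent.T157.OaC_48
import Crest.Agent.T157.OaR_5
import Crest.Agent.T157.O0Def_21

set_option autoImplicit false
set_option linter.unusedSectionVars false

/-!
Row 157, A2 (helper48): from tests to derivable properties (cap, grids, residual, `tr C²`, change of `z`).
-/

noncomputable section

namespace Crest.Agent.T157.Oa

open MeasureTheory Matrix Filter Topology Set
open Crest.Agent.T157.E Crest.Agent.T157.SL Crest.Agent.T157.Ks Crest.Agent.T157.Od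
open Crest.Agent.T157.Oo

variable {n : ℕ} {I : Finset (Tst n)} {W A : Mn n} {ρ ε R t u a b μ : ℝ} {v : Cube n → ℝ} {m : ℕ}

theorem fut_zero {δ : ℝ} {P : (Cube n → ℝ) → Prop} (hv : Wt v) (h : Fut sv 0 δ P v) (hδ : δ < 1) :
    P v := by
  by_contra hP
  obtain ⟨B, hB, sB, eB⟩ := exists_meas sv v 0 {y | ¬ P (post sv v 0 y)}
  have h0 : (0 : Vn n) ∈ B := sB (by simpa only [mem_ofPred_eq, post_zero] using hP)
  have h1 := ex_ind (φ := sv) (u := 0) hv hB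
  rw [ex_zero hv, eB, indicator_of_mem h0] at h1
  have h2 : (1 : ℝ) ≤ δ := h1.trans_le h
  linarith

theorem Ctx.ε_lt (c : Ctx I ρ ε R) : ε < 1 := by
  have := c.err' (A := 2) (k := 0) (by norm_num) (by norm_num)
  linarith

theorem testD (c : Ctx I ρ ε R) {τ : Tst n} (hτ : τ ∈ I) :
    Dv I W ρ (m + 1) τ.s τ.s fun _ v => τ.P W v := fun u hu v hv => by
  obtain rfl : u = τ.s := le_antisymm hu.2 hu.1
  have := hv.test' c hτ le_rfl
  rw [sub_self] at this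
  exact fut_zero hv.wt this c.ε_lt

/-- a grid of tests of mesh `μ` on `[a, b]` -/
theorem exists_grid (mk : ℝ → Tst n) (a b : ℝ) (hμ : 0 < μ) {J : ℕ} (hJ : b - a ≤ J * μ) :
    ∃ I : Finset (Tst n), I.card ≤ J + 1 ∧ (∀ τ ∈ I, ∃ s ∈ Icc a b, τ = mk s) ∧
      (∀ u ∈ Icc a b, ∃ s ∈ Icc u (u + μ), s ≤ b ∧ mk s ∈ I) ∧ (a ≤ b → mk a ∈ I) := by
  classical
  rcases lt_or_ge b a with h | h
  · exact ⟨∅, by simp, by simp, fun u hu => absurd (hu.1.trans hu.2) (not_le.2 h),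
      fun h' => absurd h' (not_le.2 h)⟩
  refine ⟨(Finset.range (J + 1)).image fun j : ℕ => mk (min (a + j * μ) b),
    Finset.card_image_le.trans (by simp), fun τ hτ => ?_, fun u hu => ?_, fun _ => ?_⟩
  · obtain ⟨j, -, rfl⟩ := Finset.mem_image.1 hτ
    exact ⟨_, ⟨le_min (le_add_of_nonneg_right (by positivity)) h, min_le_right _ _⟩, rfl⟩
  · have h0 : 0 ≤ (u - a) / μ := div_nonneg (sub_nonneg.2 hu.1) hμ.le
    have h1 := Nat.le_ceil ((u - a) / μ)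
    have h2 := (Nat.ceil_lt_add_one h0).le
    rw [div_le_iff₀ hμ] at h1
    have h3 : (⌈(u - a) / μ⌉₊ : ℝ) * μ ≤ u - a + μ := by
      have := mul_le_mul_of_nonneg_right h2 hμ.le
      rwa [add_mul, div_mul_cancel₀ _ hμ.ne', one_mul] at this
    refine ⟨min (a + ⌈(u - a) / μ⌉₊ * μ) b, ⟨le_min (by linarith) hu.2,
      (min_le_left _ _).trans (by linarith)⟩, min_le_right _ _, Finset.mem_image.2 ⟨_, ?_, rfl⟩⟩
    refine Finset.mem_range.2 (Nat.lt_succ_of_le (Nat.ceil_le.2 ?_))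
    rw [div_le_iff₀ hμ]; linarith [hu.2]
  · exact Finset.mem_image.2 ⟨0, by simp, by simp [h]⟩

theorem exp_le_three {x : ℝ} (hx : x ≤ 1) : Real.exp x ≤ 3 :=
  (Real.exp_le_exp.2 hx).trans (by linarith [Real.exp_one_lt_d9])

/-- the cap from one test, paid by its price -/
theorem capT (c : Ctx I ρ ε R) {τ : Tst n} (hτ : τ ∈ I) {k L : ℝ} (k0 : 0 ≤ k) (L0 : 0 ≤ L)
    (hP : ∀ v, Wt v → τ.P W v → CB v sv k ∧ ∑ i, meanV v sv i ^ 2 ≤ L)
    (hv : FG I W (ρ ^ (m + 1)) u v) (hu : u ≤ τ.s) (h1 : k * (τ.s - u) ≤ 1 / 4) (h2 : τ.s - u ≤ 1 / 4)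
    (h3 : Real.exp (L * (τ.s - u)) * τ.lam ≤ 3) : CB v sv (k / (1 - k * (τ.s - u)) + 1 / R) := by
  have h0 := sub_nonneg.2 hu
  refine (((hv.test c hτ hu).mono hv.wt hP).cap hv.wt h0 c.R1 c.bd k0 (by linarith) L0).mono ?_
  unfold capK
  refine add_le_add_right ?_ _
  set d := τ.s - u
  have a1 : k / (1 - k * d) * d ≤ 1 / 3 := by
    rw [div_mul_eq_mul_div, div_le_iff₀ (by linarith)]; linarith
  have a2 : Real.exp ((k / (1 - k * d) + (k + L) + 1) * d) ≤ 3 * Real.exp (L * d) := by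
    rw [show (k / (1 - k * d) + (k + L) + 1) * d = (k / (1 - k * d) * d + k * d + d) + L * d by ring,
      Real.exp_add]
    exact mul_le_mul_of_nonneg_right (exp_le_three (by linarith)) (Real.exp_pos _).le
  have ε0 := c.ε0
  have R0 := c.R0
  have l0 := c.pos τ hτ
  have a3 := c.err_div (A := 18) (k := 3) (j := 1) (by norm_num) (by norm_num)
  calc _ ≤ 2 * R ^ 3 * (3 * Real.exp (L * d)) * (ε * τ.lam) := by gcongr
    _ = 6 * R ^ 3 * ε * (Real.exp (L * d) * τ.lam) := by ring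
    _ ≤ 6 * R ^ 3 * ε * 3 := by gcongr
    _ ≤ 1 / R := by rw [pow_one] at a3; linarith

/-- on a fine grid the cap is free -/
theorem gridD (c : Ctx I ρ ε R) (hμ : R * μ ≤ 1 / 4) {k : ℝ → ℝ} (k1 : ∀ u ∈ Icc a b, 1 ≤ k u)
    (kR : ∀ u ∈ Icc a b, k u ≤ R)
    (h : ∀ u ∈ Icc a b, ∃ τ ∈ I, τ.s ∈ Icc u (u + μ) ∧ ∀ v, τ.P W v → CB v sv (k u)) :
    Dv I W ρ 1 a b fun u v => CB v sv (k u * (1 + (2 * R * μ + 1 / R))) := fun u hu v hv => by
  obtain ⟨τ, hτ, hs, hP⟩ := h u hu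
  have R1 := c.R1
  have d0 := sub_nonneg.2 hs.1
  have d1 : τ.s - u ≤ μ := by linarith [hs.2]
  have k1 := k1 u hu
  have d2 : R * (τ.s - u) ≤ R * μ := by gcongr
  have d3 : k u * (τ.s - u) ≤ R * (τ.s - u) := by gcongr; exact kR u hu
  refine (capT (m := 0) c hτ (k := k u) (L := R) (by linarith) c.R0.le
    (fun v hw h => ⟨hP v h, c.bd.meanV_le hw⟩) hv hs.1 (by linarith) (by nlinarith) ?_).mono ?_
  · exact (mul_le_mul (exp_le_three (by linarith)) (c.lam1 τ hτ) (c.pos τ hτ).le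
      (by norm_num)).trans (by norm_num)
  · have a1 : k u / (1 - k u * (τ.s - u)) ≤ k u * (1 + 2 * R * μ) := by
      rw [div_le_iff₀ (by linarith), mul_assoc]
      refine le_mul_of_one_le_right (by linarith) ?_
      have : 0 ≤ k u * (τ.s - u) := by positivity
      nlinarith
    have a2 : 1 / R ≤ k u * (1 / R) := le_mul_of_one_le_left (by positivity) k1
    linarith

/-- `Cov ψ` on a fine grid -/
theorem gridK (c : Ctx I ρ ε R) (hμ : R * μ ≤ 1 / 4) {ψ : Cube n → Fin n → ℝ} (bψ : Bd ψ R) {κ K b' : ℝ}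
    (κ0 : 0 ≤ κ) (κR : κ ≤ R) (K1 : 1 ≤ K) (hκ : Dv I W ρ m a b' fun _ v => CB v sv κ)
    (h : ∀ u ∈ Icc a b, ∃ τ ∈ I, τ.s ∈ Icc u (u + μ) ∧ τ.s ≤ b' ∧ ∀ v, τ.P W v → CB v ψ K) :
    Dv I W ρ (m + 1) a b fun _ v => CB v ψ (4 * K) := fun u hu v hv => by
  obtain ⟨τ, hτ, hs, hb, hP⟩ := h u hu
  have R1 := c.R1
  have ε0 := c.ε0
  have d0 := sub_nonneg.2 hs.1
  have d1 : τ.s - u ≤ μ := by linarith [hs.2]
  have d2 : (τ.s - u) * R ≤ 1 / 4 := by nlinarith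
  refine (cb_prop hv.wt d0 κ0 c.bd bψ (hκ.ap' c hv hu.1 (by linarith)) (by linarith : 0 ≤ K)
    (hv.test' c hτ hs.1) fun y hy => hP _ (not_not.1 hy)).mono ?_
  have a1 := exp_half_le (x := κ * (τ.s - u)) (by nlinarith)
  have a2 : (1 + (τ.s - u) * R) * R * ε ≤ 2 * R * ε := by gcongr; linarith
  have a3 := c.err' (A := 2) (k := 1) (by norm_num) (by norm_num)
  calc _ ≤ 7 / 4 * (K + 1) := by gcongr; linarith
    _ ≤ _ := by linarith

theorem meanV_fA (v : Cube n → ℝ) (A : Mn n) : meanV v (fA A sv) = A *ᵥ meanV v sv := by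
  funext j; exact (meanV_dot v sv (A j)).symm

/-- the residual and the mean from one test -/
theorem resT (c : Ctx I ρ ε R) (bA : Bd (fA A sv) R) {τ : Tst n} (hτ : τ ∈ I) {α β : ℝ} (α0 : 0 ≤ α)
    (β0 : 0 ≤ β) (hP : ∀ v, τ.P W v → (A *ᵥ meanV v sv - fld v) ⬝ᵥ (A *ᵥ meanV v sv - fld v) ≤ α ∧
      meanV v sv ⬝ᵥ meanV v sv ≤ β) (hv : FG I W (ρ ^ (m + 1)) u v) (hu : u ≤ τ.s)
    (h1 : τ.s - u ≤ 1) : (A *ᵥ meanV v sv - fld v) ⬝ᵥ (A *ᵥ meanV v sv - fld v) ≤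
      3 * (α + 1 + (τ.s - u) ^ 2 * β) ∧ meanV v sv ⬝ᵥ meanV v sv ≤ β + 1 := by
  have d0 := sub_nonneg.2 hu
  have R1 := c.R1
  have ε0 := c.ε0
  obtain ⟨h2, h3⟩ := res_prop hv.wt d0 c.bd bA (fld v) α0 β0 (hv.test' c hτ hu) fun y hy => by
    have := hP _ (not_not.1 hy)
    rw [fld_post hv.1, ← meanV_fA] at this
    simpa only [dotProduct, sq, Pi.sub_apply] using this
  have e1 := c.err' (A := 1) (k := 1) (by norm_num) (by norm_num)
  refine ⟨?_, by simp only [dotProduct, ← sq]; linarith⟩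
  set d := τ.s - u
  set X := ∑ j, (meanV v (fA A sv) j - fld v j) ^ 2 with hX
  set Y := ∑ j, fld v j ^ 2 with hY
  have eX : (A *ᵥ meanV v sv - fld v) ⬝ᵥ (A *ᵥ meanV v sv - fld v) = X := by
    simp only [hX, meanV_fA, dotProduct, sq, Pi.sub_apply]
  have X0 : 0 ≤ X := by positivity
  have Y0 : 0 ≤ Y := by positivity
  have hYX : Y ≤ 2 * (X + R) := by
    have a1 := dot_sub_le (meanV v (fA A sv)) (meanV v (fA A sv) - fld v)
    have a2 := bA.meanV_le hv.wt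
    simp only [sub_sub_cancel, dotProduct, ← sq, Pi.sub_apply] at a1
    linarith
  have nR : (n : ℝ) ≤ R := by linarith [c.nR, Nat.cast_nonneg (α := ℝ) n]
  have a3 : √(27 * (R ^ 2 + Y ^ 2 + 8 * d ^ 4 * R ^ 2 + 24 * d ^ 2 * (Fintype.card (Fin n) : ℝ) ^ 2) * ε) ≤
      1 / 10 + X / 50 := by
    refine Real.sqrt_le_iff.2 ⟨by positivity, ?_⟩
    have b1 : 8 * d ^ 4 * R ^ 2 ≤ 8 * 1 ^ 4 * R ^ 2 := by gcongr
    have b2 : 24 * d ^ 2 * (Fintype.card (Fin n) : ℝ) ^ 2 ≤ 24 * 1 ^ 2 * R ^ 2 := by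
      rw [Fintype.card_fin]; gcongr
    have b3 : Y ^ 2 ≤ 8 * X ^ 2 + 8 * R ^ 2 := by nlinarith [sq_nonneg (X - R)]
    have b4 := c.err' (A := 27 * 41 * 100) (k := 2) (by norm_num) (by norm_num)
    have b5 := mul_le_mul_of_nonneg_right
      (c.err' (A := 27 * 8 * 2500) (k := 0) (by norm_num) (by norm_num)) (sq_nonneg X)
    have b6 : 27 * (R ^ 2 + Y ^ 2 + 8 * d ^ 4 * R ^ 2 + 24 * d ^ 2 * (Fintype.card (Fin n) : ℝ) ^ 2) * ε ≤
        27 * (41 * R ^ 2 + 8 * X ^ 2) * ε :=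
      mul_le_mul_of_nonneg_right (mul_le_mul_of_nonneg_left (by linarith) (by norm_num)) ε0.le
    nlinarith
  have a4 := h2.trans (add_le_add (Real.sqrt_le_sqrt (add_le_add_right a3 α))
    (mul_le_mul_of_nonneg_left (Real.sqrt_le_sqrt (show β + R * ε ≤ β + 1 by linarith)) d0))
  have a5 := pow_le_pow_left₀ (Real.sqrt_nonneg _) a4 2
  have a6 := Real.sq_sqrt (show 0 ≤ α + (1 / 10 + X / 50) by positivity)
  have a7 := Real.sq_sqrt (show 0 ≤ β + 1 by positivity)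
  rw [Real.sq_sqrt X0] at a5
  have a8 : (d * √(β + 1)) ^ 2 = d ^ 2 * β + d ^ 2 := by rw [mul_pow, a7]; ring
  have a9 : d ^ 2 ≤ 1 := pow_le_one₀ d0 h1
  rw [eX]
  nlinarith [sq_nonneg (√(α + (1 / 10 + X / 50)) - d * √(β + 1)), mul_nonneg (sq_nonneg d) β0]

/-- `tr C²` from the mean at one test -/
theorem c2T (c : Ctx I ρ ε R) {τ : Tst n} (hτ : τ ∈ I) {β κ d : ℝ} (β0 : 0 ≤ β) (κ0 : 0 ≤ κ)
    (hP : ∀ v, τ.P W v → meanV v sv ⬝ᵥ meanV v sv ≤ β) (hv : FG I W (ρ ^ (m + 1)) u v) (d0 : 0 < d)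
    (hd : d ≤ τ.s - u) (h1 : τ.s - u ≤ 1) (hκ : κ * (τ.s - u) ≤ 3 / 2)
    (hC : AP sv v (τ.s - u) ε fun v => CB v sv κ) : fr (covMat v sv) ≤ 27 * ((β + 1) / d + 1) := by
  have hu : u ≤ τ.s := by linarith
  have h2 := ex_le_bad' (G := fun p => ∑ j, meanV (pw sv v p) sv j ^ 2) hv.wt (hv.test' c hτ hu)
    ((eg_msq hv.wt).mg (mem_univ _)) β0 c.R0.le
    (fun y hy => by simpa only [dotProduct, sq, pw] using hP _ (not_not.1 hy))
    fun y => c.bd.meanV_le (hv.wt.post _ _ _)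
  rw [fr_C]
  refine (trC2_le hv.wt (by linarith) κ0 c.bd hC h2).trans ?_
  have e1 := c.err' (A := 1) (k := 1) (by norm_num) (by norm_num)
  have e2 := c.err' (A := 32) (k := 3) (by norm_num) (by norm_num)
  have ε0 := c.ε0
  have R0 := c.R0
  have a1 : Real.exp (2 * κ * (τ.s - u)) ≤ 27 := by
    refine (Real.exp_le_exp.2 (show _ ≤ ((3 : ℕ) : ℝ) * 1 by push_cast; linarith)).trans ?_
    rw [Real.exp_nat_mul]
    exact (pow_le_pow_left₀ (Real.exp_pos _).le (exp_le_three le_rfl) 3).trans (by norm_num)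
  have a2 : (τ.s - u) * (32 * R ^ 3 * ε) ≤ 1 * 1 := by gcongr
  have a3 : (β + R * ε) / (τ.s - u) ≤ (β + 1) / d := by gcongr; linarith
  gcongr
  linarith

/-! ### change of `z` -/

theorem Az_eq (z : ℝ) (W : Mn n) : Az z W = Az 2 W + (z - 2) • (1 : Mn n) := by
  simp only [Az, sub_smul]; abel

theorem fr_smul (x : ℝ) (M : Mn n) : fr (x • M) = x ^ 2 * fr M := by
  simp only [fr, Matrix.smul_apply, smul_eq_mul, mul_pow, Finset.mul_sum]

theorem cb_Az {z ζ k κ : ℝ} (hv : Wt v) (hz : z ∈ Icc 2 (2 + ζ)) (κ0 : 0 ≤ κ)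
    (h1 : CB v (fA (Az 2 W) sv) k) (h2 : CB v sv κ) : CB v (fA (Az z W) sv) (2 * k + 2 * ζ ^ 2 * κ) :=
  CB_iff.2 fun x => by
  have e : (fun s : Cube n => x ⬝ᵥ fA (Az z W) sv s) =
      fun s => x ⬝ᵥ fA (Az 2 W) sv s + ((z - 2) • x) ⬝ᵥ sv s := by
    funext s
    rw [fA, Az_eq, add_mulVec, smul_mulVec, one_mulVec, dotProduct_add, dotProduct_smul, smul_dotProduct]
  have a1 := var_add_le hv (fun s => x ⬝ᵥ fA (Az 2 W) sv s) (fun s => ((z - 2) • x) ⬝ᵥ sv s) one_pos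
  have a2 := h2.var_le ((z - 2) • x)
  have a3 : (z - 2) ^ 2 ≤ ζ ^ 2 := pow_le_pow_left₀ (by linarith [hz.1]) (by linarith [hz.2]) 2
  have a4 := mul_le_mul_of_nonneg_right a3 (mul_nonneg κ0 (dot_self_nonneg x))
  rw [smul_dotProduct, dotProduct_smul, smul_eq_mul, smul_eq_mul] at a2
  rw [e]
  rw [inv_one] at a1
  nlinarith [h1.var_le x]

theorem a1_Az {z ζ al ga : ℝ} (hz : z ∈ Icc 2 (2 + ζ)) (h1 : fr (Az 2 W * covMat v sv - 1) ≤ al)
    (h2 : fr (covMat v sv) ≤ ga) : fr (Az z W * covMat v sv - 1) ≤ 2 * al + 2 * ζ ^ 2 * ga := by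
  have e : Az z W * covMat v sv - 1 = (Az 2 W * covMat v sv - 1) + (z - 2) • covMat v sv := by
    rw [Az_eq z, Matrix.add_mul, Matrix.smul_mul, Matrix.one_mul]; abel
  have a3 : (z - 2) ^ 2 ≤ ζ ^ 2 := pow_le_pow_left₀ (by linarith [hz.1]) (by linarith [hz.2]) 2
  have a4 := mul_le_mul a3 h2 fr_nonneg (sq_nonneg ζ)
  rw [e]
  refine (fr_add_le _ _).trans ?_
  rw [fr_smul]; linarith

theorem b_Az {z ζ al be ga : ℝ} (hW : Wᵀ = W) (hz : z ∈ Icc 2 (2 + ζ))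
    (h1 : fr (Az 2 W * covMat v sv - 1) ≤ al) (h2 : fr (covMat v sv) ≤ ga)
    (h3 : fr (Az 2 W * covMat v sv * Az 2 W - Az 2 W) ≤ be) :
    fr (Az z W * covMat v sv * Az z W - Az z W) ≤
      2 * be + 16 * ζ ^ 2 * al + 8 * ζ ^ 2 * n + 8 * ζ ^ 4 * ga := by
  set X := Az 2 W * covMat v sv - 1 with hX
  have eT : Xᵀ = covMat v sv * Az 2 W - 1 := by
    simp only [hX, transpose_sub, transpose_mul, covMat_transpose, transpose_smul, transpose_one, hW]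
  have e : Az z W * covMat v sv * Az z W - Az z W = (Az 2 W * covMat v sv * Az 2 W - Az 2 W) +
      (z - 2) • ((X + Xᵀ) + (1 + (z - 2) • covMat v sv)) := by
    rw [eT, hX, Az_eq z]
    simp only [Matrix.add_mul, Matrix.mul_add, Matrix.smul_mul, Matrix.mul_smul, Matrix.one_mul,
      Matrix.mul_one, smul_add, smul_sub]
    abel
  have a3 : (z - 2) ^ 2 ≤ ζ ^ 2 := pow_le_pow_left₀ (by linarith [hz.1]) (by linarith [hz.2]) 2
  have a4 := mul_le_mul a3 h2 fr_nonneg (sq_nonneg ζ)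
  have a5 := fr_add_le X Xᵀ
  have a6 := fr_add_le (1 : Mn n) ((z - 2) • covMat v sv)
  have a7 := fr_add_le (X + Xᵀ) (1 + (z - 2) • covMat v sv)
  rw [fr_transpose] at a5
  rw [fr_smul, fr_one] at a6
  have a8 := mul_le_mul a3 (show fr ((X + Xᵀ) + (1 + (z - 2) • covMat v sv)) ≤
    8 * al + 4 * n + 4 * (ζ ^ 2 * ga) by linarith) fr_nonneg (sq_nonneg ζ)
  rw [e]
  refine (fr_add_le _ _).trans ?_
  rw [fr_smul]; linarith

theorem d2_zero_le {ψ : Cube n → Fin n → ℝ} :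
    D2 sv v ψ ψ 0 ≤ 2 * D2 sv v ψ ψ (1 : Mn n) + 2 * n := by
  have := sum_sub_sq_le (fun j l => covV v (fun x => ψ x j) sv ⬝ᵥ covV v (fun x => ψ x l) sv -
    (1 : Mn n) j l) fun j l => -(1 : Mn n) j l
  have e : ∑ j, ∑ l, (1 : Mn n) j l ^ 2 = n := fr_one
  simpa only [D2, sub_neg_eq_add, sub_add_cancel, neg_sq, e, Pi.zero_apply, sub_zero] using this

/-- the spectrum of `W` bounds `z - W` -/
theorem op2_Az {l : Vn n} (h : Dq.Dg W l) {z : ℝ} (hl : ∀ i, |z - l i| ≤ 6) :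
    Wᵀ = W ∧ Op2 (Az z W) (6 ^ 2) := by
  obtain ⟨O, hO, rfl⟩ := h
  have hO' : Oᵀ * O = 1 := mul_eq_one_comm.1 hO
  refine ⟨by simp only [transpose_mul, transpose_transpose, diagonal_transpose, Matrix.mul_assoc],
    fun x => ?_⟩
  have e : Az z (O * diagonal l * Oᵀ) = O * diagonal (fun i => z - l i) * Oᵀ := by
    rw [← diagonal_sub, Matrix.mul_sub, Matrix.sub_mul, ← smul_one_eq_diagonal, Matrix.mul_smul,
      Matrix.smul_mul, Matrix.mul_one, hO]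
  rw [e, ← mulVec_mulVec, ← mulVec_mulVec, Op2.orth hO', ← Op2.orth (G := Oᵀ) (by simpa using hO) x]
  simp only [dotProduct, mulVec_diagonal, Finset.mul_sum]
  refine Finset.sum_le_sum fun i _ => ?_
  have := sq_le_sq' (abs_le.1 (hl i)).1 (abs_le.1 (hl i)).2
  nlinarith [mul_le_mul_of_nonneg_right this (sq_nonneg ((Oᵀ *ᵥ x) i))]

/-! ### integrals of powers -/

theorem int_rpow_lt {p s : ℝ} (hu : 0 < u) (hp : p < 1) :
    ∫ r in u..s, r ^ (-p) ≤ s ^ (1 - p) / (1 - p) := by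
  rw [integral_rpow (Or.inl (by linarith)), show -p + 1 = 1 - p by ring]
  exact div_le_div_of_nonneg_right (sub_le_self _ (by positivity)) (by linarith)

theorem int_rpow_gt {p s : ℝ} (hu : 0 < u) (hs : u ≤ s) (hp : 1 < p) :
    ∫ r in u..s, r ^ (-p) ≤ u ^ (1 - p) / (p - 1) := by
  rw [integral_rpow (Or.inr ⟨by linarith, fun h => by
    rw [uIcc_of_le hs] at h; linarith [h.1]⟩), show -p + 1 = 1 - p by ring,
    ← neg_div_neg_eq, neg_sub, neg_sub]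
  have := hu.trans_le hs
  exact div_le_div_of_nonneg_right (sub_le_self _ (by positivity)) (by linarith)

theorem cont_rpow {p s : ℝ} (hu : 0 < u) : ContinuousOn (fun r : ℝ => r ^ p) (Icc u s) :=
  continuousOn_id.rpow_const fun _ hr => Or.inl (hu.trans_le hr.1).ne'

end Crest.Agent.T157.Oa
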