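import Crest.Agent.T157.OoA_9
import Crest.Agent.T157.O0Inh_31

set_option autoImplicit false
set_option linter.unusedSectionVars false

/-!
Row 157, A2 (helper48): the words of the a priori event `AP` (section 1 of crit19).  A finite family
of future tests, its inheritance, and the list `AQ` that does not mention the centre.
-/

noncomputable section

namespace Crest.Agent.T157.Oa

open MeasureTheory Matrix Filter Topology Set
open Crest.Agent.T157.E Crest.Agent.T157.SL Crest.Agent.T157.Ks Crest.Agent.T157.Od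
open Crest.Agent.T157.Oo

variable {n : ℕ}

/-- the field of a positive law on the cube (`fld (ising W y) = y`) -/
def fld (v : Cube n → ℝ) : Vn n := fun i => mean (fun _ => 1) fun s => sv s i * Real.log (prob v s)

/-- `z - W` -/
abbrev Az (z : ℝ) (W : Mn n) : Mn n := z • (1 : Mn n) - W

/-- the constants of `Good` (`al, bb, r5, m5` are NOT divided by `n`) -/
structure Gs where
  (K K2 al bb r5 m5 : ℝ)

/-- (g1)-(g5) of crit19 at one weight, `A0 = 2 - W` -/
structure Gd (g : Gs) (W : Mn n) (v : Cube n → ℝ) : Prop where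
  g1 : CB v sv g.K
  g2 : CB v (fA (Az 2 W) sv) g.K2
  g3 : fr (Az 2 W * covMat v sv - 1) ≤ g.al
  g4 : fr (Az 2 W * covMat v sv * Az 2 W - Az 2 W) ≤ g.bb
  g5 : (Az 2 W *ᵥ meanV v sv - fld v) ⬝ᵥ (Az 2 W *ᵥ meanV v sv - fld v) ≤ g.r5
  g6 : meanV v sv ⬝ᵥ meanV v sv ≤ g.m5

/-- a future test: an absolute time, a price, a property of the posterior -/
structure Tst (n : ℕ) where
  s : ℝ
  lam : ℝ
  P : Mn n → (Cube n → ℝ) → Prop

/-- **the a priori event**: the weight `v`, seen at the absolute time `t`, passes every later test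
`τ` up to the conditional probability `δ * τ.lam` -/
def FG (I : Finset (Tst n)) (W : Mn n) (δ t : ℝ) (v : Cube n → ℝ) : Prop :=
  (∀ x, 0 < v x) ∧ ∀ τ ∈ I, t ≤ τ.s → Fut sv (τ.s - t) (δ * τ.lam) (τ.P W) v

/-- `Q u` follows from the future, at all times `u ∈ [a, b]`, at depth `m` -/
def Dv (I : Finset (Tst n)) (W : Mn n) (ρ : ℝ) (m : ℕ) (a b : ℝ)
    (Q : ℝ → (Cube n → ℝ) → Prop) : Prop :=
  ∀ u ∈ Icc a b, ∀ v, FG I W (ρ ^ m) u v → Q u v

/-- the a priori list without the centre: all `z ∈ [2, 2 + ζ]`, residual `r`, mean `μ` -/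
structure AQ (c : Cs) (ζ r μ : ℝ) (W : Mn n) (v : Cube n → ℝ) : Prop where
  apt : ∀ z ∈ Icc 2 (2 + ζ), APt (c.ctr 0 0) v (Az z W) (meanV v sv)
  res : (Az 2 W *ᵥ meanV v sv - fld v) ⬝ᵥ (Az 2 W *ᵥ meanV v sv - fld v) ≤ r
  msq : meanV v sv ⬝ᵥ meanV v sv ≤ μ

/-! ### the field -/

theorem sum_flip {f : Cube n → ℝ} (e : Cube n ≃ Cube n) (h : ∀ s, f (e s) = -f s) :
    mean (fun _ => 1) f = 0 := by
  have h1 := Equiv.sum_comp e f
  simp only [h, Finset.sum_neg_distrib] at h1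
  rw [mean_eq_div]
  simp only [one_mul]
  rw [show ∑ s, f s = 0 by linarith, zero_div]

/-- global flip -/
def flipAll : Cube n ≃ Cube n := Function.Involutive.toPerm (fun s i => !s i) fun s => by
  funext i; simp

theorem sv_flipAll (s : Cube n) : sv (flipAll s) = -sv s := by
  funext i
  change Crest.ProbabilityR.SpinGlassDynamics.spin (!s i) = -Crest.ProbabilityR.SpinGlassDynamics.spin (s i)
  cases s i <;> simp [Crest.ProbabilityR.SpinGlassDynamics.spin]

/-- flip of one site -/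
def flip1 (i : Fin n) : Cube n ≃ Cube n :=
  Function.Involutive.toPerm (fun s => Function.update s i (!s i)) fun s => by simp

theorem sv_flip1 (i j : Fin n) (s : Cube n) : sv (flip1 i s) j = if j = i then -sv s j else sv s j := by
  change Crest.ProbabilityR.SpinGlassDynamics.spin (Function.update s i (!s i) j) = _
  split_ifs with h
  · subst h
    simp only [Function.update_self, sv]
    cases s j <;> simp [Crest.ProbabilityR.SpinGlassDynamics.spin]
  · rw [Function.update_of_ne h]; rfl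

theorem wt_one : Wt fun _ : Cube n => (1 : ℝ) := Wt.of_pos fun _ => one_pos

theorem mean_sv (i : Fin n) : mean (fun _ => 1) (fun s : Cube n => sv s i) = 0 :=
  sum_flip flipAll fun s => by rw [sv_flipAll]; rfl

theorem mean_sv_dot (i : Fin n) (y : Vn n) :
    mean (fun _ => 1) (fun s : Cube n => sv s i * (y ⬝ᵥ sv s)) = y i := by
  simp only [dotProduct, Finset.mul_sum, mean_sum]
  rw [Finset.sum_eq_single i (fun j _ hj => ?_) (by simp)]
  · have : ∀ s : Cube n, sv s i * (y i * sv s i) = y i := fun s => by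
      have : sv s i ^ 2 = 1 := spin_sq _
      linear_combination y i * this
    simp only [this, wt_one.mean_const]
  · exact sum_flip (flip1 i) fun s => by simp [sv_flip1, hj]

theorem fld_congr {v w : Cube n → ℝ} (h : prob v = prob w) : fld v = fld w := by
  funext i; simp only [fld, h]

theorem fld_eq {v : Cube n → ℝ} (hv : ∀ x, 0 < v x) (i : Fin n) :
    fld v i = mean (fun _ => 1) fun s => sv s i * Real.log (v s) := by
  have h0 := (Wt.of_pos hv).pos
  simp only [fld, prob, Real.log_div (hv _).ne' h0.ne', mul_sub, mean_sub, mean_mul_const, mean_sv,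
    zero_mul, sub_zero]

theorem post_pos {v : Cube n → ℝ} (hv : ∀ x, 0 < v x) (u : ℝ) (y : Vn n) (x : Cube n) :
    0 < post sv v u y x := mul_pos (hv x) (Real.exp_pos _)

theorem fld_post {v : Cube n → ℝ} (hv : ∀ x, 0 < v x) (u : ℝ) (y : Vn n) :
    fld (post sv v u y) = fld v + y := by
  funext i
  rw [fld_eq (post_pos hv u y), Pi.add_apply, fld_eq hv]
  simp only [post, Real.log_mul (hv _).ne' (Real.exp_pos _).ne', Real.log_exp, sv_dot_self, mul_add,
    mul_sub, mean_add, mean_sub, mean_mul_const, mean_sv, mean_sv_dot, zero_mul, sub_zero]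

theorem fld_ising (W : Mn n) (y : Vn n) : fld (ising W y) = y := by
  funext i
  rw [fld_eq (v := ising W y) fun _ => Real.exp_pos _]
  simp only [ising, Real.log_exp, mul_add, mean_add, mean_sv_dot]
  rw [sum_flip flipAll fun s => by simp [sv_flipAll, mulVec_neg], zero_add]

/-! ### everything only depends on the law -/

section
variable {v w : Cube n → ℝ}

theorem mean_congr (h : prob v = prob w) : mean v = mean w := by funext f; simp only [mean, h]

theorem cov_congr (h : prob v = prob w) : cov v = cov w := by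
  funext f g; simp only [cov, h, mean_congr h]

theorem var_congr (h : prob v = prob w) : var v = var w := by
  funext f; simp only [var, h, mean_congr h]

theorem meanV_congr' {J : Type*} (h : prob v = prob w) (ψ : Cube n → J → ℝ) :
    meanV v ψ = meanV w ψ := by
  funext i; simp only [meanV, mean_congr h]

theorem meanV_congr (h : prob v = prob w) : meanV v (sv (n := n)) = meanV w sv := meanV_congr' h _

theorem covMat_congr {J : Type*} (h : prob v = prob w) (ψ : Cube n → J → ℝ) :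
    covMat v ψ = covMat w ψ := by
  funext i j; simp only [covMat, cov_congr h]

theorem CB_congr {J : Type*} [Fintype J] (h : prob v = prob w) {ψ : Cube n → J → ℝ} {k : ℝ}
    (hv : CB v ψ k) : CB w ψ k := by
  simpa only [CB, covMat_congr h] using hv

theorem Gd.congr {g : Gs} {W : Mn n} (h : prob v = prob w) (hv : Gd g W v) : Gd g W w :=
  ⟨CB_congr h hv.g1, CB_congr h hv.g2, covMat_congr h sv ▸ hv.g3, covMat_congr h sv ▸ hv.g4,
    meanV_congr h ▸ fld_congr h ▸ hv.g5, meanV_congr h ▸ hv.g6⟩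

theorem T3_congr {J L M : Type*} [Fintype J] [Fintype L] [Fintype M] (h : prob v = prob w)
    (ψ : Cube n → J → ℝ) (χ : Cube n → L → ℝ) (ρ : Cube n → M → ℝ) : T3 v ψ χ ρ = T3 w ψ χ ρ := by
  simp only [T3, cum3, mean_congr h]

theorem T4_congr {J L M K : Type*} [Fintype J] [Fintype L] [Fintype M] [Fintype K] (h : prob v = prob w)
    (ψ : Cube n → J → ℝ) (χ : Cube n → L → ℝ) (ρ : Cube n → M → ℝ) (φ : Cube n → K → ℝ) :
    T4 v ψ χ ρ φ = T4 w ψ χ ρ φ := by
  simp only [T4, cum4, mean_congr h, cov_congr h]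

theorem NV_congr {J L : Type*} [Fintype J] [Fintype L] (h : prob v = prob w)
    (ψ : Cube n → J → ℝ) (χ : Cube n → L → ℝ) (U : Matrix J L ℝ) : NV ψ χ U v = NV ψ χ U w := by
  have : qf v ψ χ U = qf w ψ χ U := by funext x; simp only [qf, meanV_congr' h]
  rw [NV, NV, this, var_congr h]

theorem APt_congr {c : Cs} {A : Mn n} {p : Vn n} (h : prob v = prob w) (hv : APt c v A p) :
    APt c w A p := by
  obtain ⟨h1, h2, h3, h4, h5, h6, h7, h8, h9, h10, h11, h12, h13, h14, h15, h16, h17, h18, h19, h20,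
    h21, h22⟩ := hv
  simp only [T3_congr h, T4_congr h, NV_congr h, covMat_congr h, mean_congr h, var_congr h,
    meanV_congr h] at *
  exact ⟨h1, CB_congr h h2, CB_congr h h3, h4, h5, h6, h7, h8, h9, h10, h11, h12, h13, h14, h15, h16,
    h17, h18, h19, h20, h21, h22⟩

theorem AQ.congr {c : Cs} {ζ r μ : ℝ} {W : Mn n} (h : prob v = prob w) (hv : AQ c ζ r μ W v) :
    AQ c ζ r μ W w :=
  ⟨fun z hz => meanV_congr h ▸ APt_congr h (hv.apt z hz), meanV_congr h ▸ fld_congr h ▸ hv.res,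
    meanV_congr h ▸ hv.msq⟩

theorem prob_const_mul {c : ℝ} (hc : c ≠ 0) (h : ∀ s, v s = c * w s) : prob v = prob w := by
  funext s
  simp only [prob, h, ← Finset.mul_sum, mul_div_mul_left _ _ hc]

end

theorem prob_orb {k : ℕ} {o : Orb n k} (h : o.Ok) (U : Lib.OrthPoinc.Mat k) :
    prob (o.w U) = prob (ising (o.Wu U) (o.y U)) :=
  prob_const_mul (Real.exp_pos _).ne' (Orb.w_eq h U)

/-- from the list without centre to the list with a centre -/
theorem AQ.toAPt {c : Cs} {ζ r μ z P Ψ : ℝ} {W : Mn n} {v : Cube n → ℝ} {p : Vn n}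
    (h : AQ c ζ r μ W v) (hz : z ∈ Icc 2 (2 + ζ)) (hp : p ⬝ᵥ p ≤ P)
    (hΨ : (Az z W *ᵥ p - fld v) ⬝ᵥ (Az z W *ᵥ p - fld v) ≤ Ψ) :
    APt (c.ctr (2 * (μ + P)) (4 * (r + ζ ^ 2 * μ) + 2 * Ψ)) v (Az z W) p := by
  obtain ⟨h1, h2, h3, h4, h5, h6, h7, h8, h9, h10, h11, h12, h13, h14, h15, h16, h17, h18, h19, h20,
    -, -⟩ := h.apt z hz
  refine ⟨h1, h2, h3, h4, h5, h6, h7, h8, h9, h10, h11, h12, h13, h14, h15, h16, h17, h18, h19, h20,
    ?_, ?_⟩
  · have := dot_add_le (meanV v sv) (-p)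
    simp only [neg_dotProduct, dotProduct_neg, neg_neg, ← sub_eq_add_neg] at this
    change _ ≤ 2 * (μ + P)
    linarith [h.msq]
  · set m := meanV v sv
    have e : Az z W *ᵥ (m - p) = ((Az 2 W *ᵥ m - fld v) + (z - 2) • m) + -(Az z W *ᵥ p - fld v) := by
      simp only [Az, mulVec_sub, sub_mulVec, smul_mulVec, one_mulVec, sub_smul]; abel
    have a1 := dot_add_le ((Az 2 W *ᵥ m - fld v) + (z - 2) • m) (-(Az z W *ᵥ p - fld v))
    have a2 := dot_add_le (Az 2 W *ᵥ m - fld v) ((z - 2) • m)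
    have a3 : ((z - 2) • m) ⬝ᵥ ((z - 2) • m) ≤ ζ ^ 2 * μ := by
      rw [smul_dotProduct, dotProduct_smul, smul_eq_mul, smul_eq_mul, ← mul_assoc, ← sq]
      exact mul_le_mul (pow_le_pow_left₀ (by linarith [hz.1]) (by linarith [hz.2]) 2) h.msq
        (dot_self_nonneg _) (sq_nonneg _)
    simp only [neg_dotProduct, dotProduct_neg, neg_neg] at a1
    rw [e]
    change _ ≤ 4 * (r + ζ ^ 2 * μ) + 2 * Ψ
    linarith [h.res]

/-- the same on an orbit: the residual of the centre is `z p - h` -/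
theorem AQ.orb {k : ℕ} {o : Orb n k} (ho : o.Ok) {U : Lib.OrthPoinc.Mat k} (hU : U ∈ Oc.SO k) {c : Cs}
    {ζ r μ P Ψ : ℝ} (h : AQ c ζ r μ (o.Wu U) (ising (o.Wu U) (o.y U))) (hz : o.z ∈ Icc 2 (2 + ζ))
    (hp : o.p ⬝ᵥ o.p ≤ P) (hΨ : (o.z • o.p - o.h) ⬝ᵥ (o.z • o.p - o.h) ≤ Ψ) :
    U ∈ o.G (c.ctr (2 * (μ + P)) (4 * (r + ζ ^ 2 * μ) + 2 * Ψ)) := by
  refine ⟨hU, APt_congr (prob_orb ho U).symm (h.toAPt hz hp ?_)⟩
  have e : Az o.z (o.Wu U) *ᵥ o.p - fld (ising (o.Wu U) (o.y U)) = o.z • o.p - o.h := by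
    simp only [fld_ising, Orb.y, Az, sub_mulVec, smul_mulVec, one_mulVec]; abel
  rwa [e]

/-! ### inheritance -/

variable {I : Finset (Tst n)} {W : Mn n} {δ δ' ρ t u a b : ℝ} {v : Cube n → ℝ} {m : ℕ}
  {Q Q' : ℝ → (Cube n → ℝ) → Prop}

theorem FG.wt (h : FG I W δ t v) : Wt v := Wt.of_pos h.1

theorem FG.le (hI : ∀ τ ∈ I, 0 < τ.lam) (h : FG I W δ t v) (e : δ ≤ δ') : FG I W δ' t v :=
  ⟨h.1, fun τ hτ ht => (h.2 τ hτ ht).le (mul_le_mul_of_nonneg_right e (hI τ hτ).le)⟩

theorem FG.inherit (hI : ∀ τ ∈ I, 0 < τ.lam) (h : FG I W δ t v) (δ0 : 0 ≤ δ) (h0 : 0 < δ')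
    (hu : t ≤ u) : Fut sv (u - t) (I.card * (δ / δ')) (FG I W δ' u) v := by
  have h1 : ∀ τ ∈ I, Fut sv (u - t) (δ / δ')
      (fun v' => u ≤ τ.s → Fut sv (τ.s - u) (δ' * τ.lam) (τ.P W) v') v := fun τ hτ => by
    by_cases hs : u ≤ τ.s
    · have h2 := h.2 τ hτ (hu.trans hs)
      rw [show τ.s - t = u - t + (τ.s - u) by ring] at h2
      have h3 := h2.inherit h.wt (sub_nonneg.2 hu) (sub_nonneg.2 hs) (mul_pos h0 (hI τ hτ))
      rw [mul_div_mul_right _ _ (hI τ hτ).ne'] at h3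
      exact h3.mono h.wt fun _ _ h4 _ => h4
    · simpa [Fut, hs] using div_nonneg δ0 h0.le
  have h2 := Fut.all h.wt I h1
  have := isProb_law (φ := sv) (s := u - t) h.wt
  exact le_trans (measureReal_mono fun y hy hp => hy ⟨post_pos h.1 _ _, hp⟩) h2

/-- the joint probability that the a priori event fails -/
theorem JP_FG (hI : ∀ τ ∈ I, 0 < τ.lam) (ht : 0 ≤ t) (h0 : 0 < δ) {E : Mn n → Prop}
    {G : Tst n → Mn n → Vn n → Prop} {p : Tst n → ℝ} (p0 : ∀ τ ∈ I, 0 ≤ p τ)
    (h : ∀ τ ∈ I, ∀ W y v, E W → (∀ x, 0 < v x) → prob v = prob (ising W y) → G τ W y → τ.P W v)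
    (hp : ∀ τ ∈ I, t ≤ τ.s → St0.JP τ.s n {z | E z.1 ∧ ¬ G τ z.1 z.2} ≤ ENNReal.ofReal (p τ)) :
    St0.JP t n {z | E z.1 ∧ ¬ FG I z.1 δ t (ising z.1 z.2)} ≤
      ENNReal.ofReal (∑ τ ∈ I with t ≤ τ.s, p τ / (δ * τ.lam)) := by
  refine le_trans (measure_mono fun z hz => ?_) (O0.X31.JP_fut_all (I.filter fun τ => t ≤ τ.s) ht
    (τ := fun τ => τ.s - t) (δ := fun τ => δ * τ.lam) (P := fun τ => τ.P) (Q := G) (E := E)
    (fun τ hτ => sub_nonneg.2 (Finset.mem_filter.1 hτ).2)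
    (fun τ hτ => mul_pos h0 (hI τ (Finset.mem_filter.1 hτ).1))
    (fun τ hτ => p0 τ (Finset.mem_filter.1 hτ).1)
    (fun τ hτ W y z hE hG => h τ (Finset.mem_filter.1 hτ).1 W (y + z) _ hE
      (post_pos (fun _ => Real.exp_pos _) _ _) (O0.X31.prob_post_ising W y z _) hG)
    fun τ hτ => by
      rw [add_sub_cancel]; exact hp τ (Finset.mem_filter.1 hτ).1 (Finset.mem_filter.1 hτ).2)
  exact ⟨hz.1, fun h1 => hz.2 ⟨fun _ => Real.exp_pos _, fun τ hτ hs =>
    h1 τ (Finset.mem_filter.2 ⟨hτ, hs⟩)⟩⟩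

end Crest.Agent.T157.Oa
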