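import Crest.Agent.T157.O0Def_21
import Crest.Agent.T157.OaG_5

set_option autoImplicit false

/-!
Row 157, A2 (helper48): the real inequalities behind `O0.Pack`.
-/

noncomputable section

namespace Crest.Agent.T157.Oa

open Filter Set
open Crest.Agent.T157.O0 (FF)

variable (p : O0.Pm)

/-- growth of the variance on `[t, Lp t]` -/
def cG : ℝ := 4 * Real.exp (3 * p.K * p.Lp)
/-- constant of `tr C²` -/
def cC : ℝ := 14 * p.L * p.K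
/-- constant of `a1` -/
def cA : ℝ := 16 + 1152 * cG p * p.K ^ 2 * cC p
/-- constant of `b` -/
def cB : ℝ := 3 * (2 * p.K + 7 + 8 * cA p + 96 * cG p * p.K ^ 2 * cA p / p.e1 ^ 2)
/-- what `B` has to exceed -/
def XB : ℝ := 100 * (cB p + cA p + cC p + p.K + p.L)
/-- the crude rate up to the terminal time -/
def cK : ℝ := 3 * p.K + 2 * p.K0 * (p.T + 1)
/-- what `B0` has to exceed (to the power four) -/
def XX : ℝ := XB p + 10 * cG p * p.K + 10 ^ 6 * p.K0 ^ 2 / p.t0 ^ 2 +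
  10 ^ 6 * (cK p + 2) ^ 2 * G5.Ga (cK p) p.Lp (2 * p.K0) p.T * p.T ^ 2 * p.K0 ^ 2 / p.e1 ^ 4
/-- the envelope of `‖A C A‖` above `t*` -/
def kk0 (t : ℝ) : ℝ := if p.tss ≤ t then 1 else (p.n : ℝ) ^ p.k2

/-- the inequalities -/
structure Num (t : ℝ) : Prop where
  ok : p.Ok
  hB : XB p ≤ p.B
  t0L : p.L ^ 4 * p.t0 ≤ 1
  hK0 : 6 * p.K ≤ p.K0 * p.t0
  hB0 : 10 ^ 6 * XX p ^ 4 ≤ p.B0
  hB2 : p.K ≤ p.B2 * p.t2
  hCn : 21 * (2 * (⌈2 * p.B2⌉₊ : ℝ) + 12) ≤ p.Cn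
  n1 : 10 ^ 12 * 36 ^ 16 ≤ (p.n : ℝ)
  nX : XX p ≤ p.n * t
  nk : XX p * p.kk t ≤ p.n
  ne : 146 ≤ p.e1 * p.n
  nB2 : p.B2 ≤ p.n
  nK : p.K ≤ (p.n : ℝ) ^ p.k2
  ts : p.ts ≤ p.tss
  tss : p.tss ≤ p.t0 / 4
  kkt : p.kk t * t ≤ 1
  kks : p.kk t * √t ≤ p.al t
  kk1 : kk0 p t * √(max t p.tss) ≤ p.al t
  kk3 : kk0 p t * p.al t * max 1 (p.ts / t) ^ (2 * p.e1) ≤ 1
  M1 : 1 ≤ p.M t

/-- the asymptotic leaf -/
def NumStmt : Prop := ∀ᶠ p in FF, ∀ t ∈ Icc p.lo p.t0, Num p t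

end Crest.Agent.T157.Oa
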