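import Crest.Agent.T157.OaD_48
import Crest.Agent.T157.OaN_48

set_option autoImplicit false
set_option linter.unusedSectionVars false

/-!
Row 157, A2 (helper48): monotonicity of the list, two integrals, consequences of `Num`.
-/

noncomputable section

namespace Crest.Agent.T157.Oa

open MeasureTheory Matrix Filter Topology Set
open Crest.Agent.T157.E Crest.Agent.T157.SL Crest.Agent.T157.Ks Crest.Agent.T157.Od
open Crest.Agent.T157.Oo

section
variable {n : ℕ} {I : Finset (Tst n)} {W A : Mn n} {ρ ε R t u s : ℝ} {v : Cube n → ℝ} {m : ℕ}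

theorem cb_fA {κ : ℝ} (hA : Aᵀ = A) (ha : Op2 A (6 ^ 2)) (κ0 : 0 ≤ κ) (h : CB v sv κ) :
    CB v (fA A sv) (36 * κ) := CB_iff.2 fun x => by
  rw [dot_fA hA]
  have := mul_le_mul_of_nonneg_left (ha x) κ0
  linarith [h.var_le (A *ᵥ x)]

theorem b2_crude {κ : ℝ} (hv : Wt v) (hA : Aᵀ = A) (ha : Op2 A (6 ^ 2)) (κ1 : 1 ≤ κ) (h : CB v sv κ) :
    fr (A * covMat v sv - 1) ≤ 74 * (κ ^ 2 * n) ∧ fr (A * covMat v sv * A - A) ≤ 2664 * (κ ^ 2 * n) ∧
      fr (covMat v sv) ≤ κ ^ 2 * n := by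
  have κ0 : 0 ≤ κ := by linarith
  have h2 := cb_fA hA ha κ0 h
  have a1 := fr_le_of_op2 (op2_C hv κ0 h)
  have a2 := fr_le_of_op2 (op2_AC hv h (by positivity) h2)
  have a3 := fr_le_of_op2 (op2_ACA hv hA (by positivity) h2)
  have a4 := fr_le_of_op2 ha
  have a5 := fr_sub_le (A * covMat v sv) 1
  have a6 := fr_sub_le (A * covMat v sv * A) A
  have a7 : 1 * (n : ℝ) ≤ κ ^ 2 * n := by gcongr; exact one_le_pow₀ κ1
  rw [fr_one] at a5
  exact ⟨by nlinarith, by nlinarith, by nlinarith⟩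

/-- fieldwise comparison of two lists -/
structure CsLe (c d : Cs) : Prop where
  a : c.a = d.a
  k1 : c.k1 ≤ d.k1
  k2 : c.k2 ≤ d.k2
  a1 : c.a1 ≤ d.a1
  b : c.b ≤ d.b
  c2 : c.c2 ≤ d.c2
  N : c.N ≤ d.N
  N' : c.N' ≤ d.N'
  s1 : c.s1 ≤ d.s1
  s1' : c.s1' ≤ d.s1'
  s2 : c.s2 ≤ d.s2
  s2' : c.s2' ≤ d.s2'
  t4 : c.t4 ≤ d.t4
  t3 : c.t3 ≤ d.t3
  t3' : c.t3' ≤ d.t3'
  q4 : c.q4 ≤ d.q4
  q3 : c.q3 ≤ d.q3
  q3' : c.q3' ≤ d.q3'
  v4 : c.v4 ≤ d.v4
  v4' : c.v4' ≤ d.v4'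
  d0 : c.d0 ≤ d.d0
  e0 : c.e0 ≤ d.e0

theorem apt_mono {c d : Cs} {p : Vn n} (e : CsLe c d) (h : APt c v A p) : APt d v A p :=
  have M : ∀ {x y : ℝ}, x ≤ y → ∀ z : Vn n, x * (z ⬝ᵥ z) ≤ y * (z ⬝ᵥ z) := fun h z =>
    mul_le_mul_of_nonneg_right h (dot_self_nonneg z)
  ⟨e.a ▸ h.a, h.k1.mono e.k1, h.k2.mono e.k2, h.a1.trans e.a1, h.b.trans e.b, h.c2.trans e.c2,
    fun U => (h.N U).trans (mul_le_mul_of_nonneg_right e.N fr_nonneg),
    fun U => (h.N' U).trans (mul_le_mul_of_nonneg_right e.N' fr_nonneg),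
    h.s1.trans e.s1, h.s1'.trans e.s1', h.s2.trans e.s2, h.s2'.trans e.s2',
    fun z => (h.t4 z).trans (M e.t4 z), fun z => (h.t3 z).trans (M e.t3 z),
    fun z => (h.t3' z).trans (M e.t3' z), fun z => (h.q4 z).trans (M e.q4 z),
    fun z => (h.q3 z).trans (M e.q3 z), fun z => (h.q3' z).trans (M e.q3' z),
    fun z => (h.v4 z).trans (mul_le_mul_of_nonneg_right e.v4 (sq_nonneg _)),
    fun z => (h.v4' z).trans (mul_le_mul_of_nonneg_right e.v4' (sq_nonneg _)),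
    h.d0.trans e.d0, h.e0.trans e.e0⟩

/-- propagation of `|Cov(ψ, χ) - c|_F` with a source that is a sum of two powers -/
theorem t2G (c : Ctx I ρ ε R) {ψ χ : Cube n → Fin n → ℝ} {α β a b al : ℝ} (ht : 0 < t) (α0 : 0 ≤ α)
    (β0 : 0 ≤ β) (ha : a < 1) (hb : 1 < b) (hs : s - t ≤ 1)
    (hD : Dv I W ρ m t s fun u v => D2 sv v ψ χ 0 ≤ α * (u ^ (-a)) ^ 2 + β * (u ^ (-b)) ^ 2)
    {c0 : Fin n → Fin n → ℝ} (hE : Dv I W ρ m s s fun _ v => T2 v ψ χ c0 ≤ al) (a0 : 0 ≤ al)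
    (hψ : Bd ψ R) (hχ : Bd χ R) (hc : ∑ j, ∑ l, c0 j l ^ 2 ≤ R ^ 2) :
    Dv I W ρ (m + 1) t s fun _ v => T2 v ψ χ c0 ≤
      4 * (al + 2 + α * (s ^ (1 - a) / (1 - a)) ^ 2 + β * (t ^ (1 - b) / (b - 1)) ^ 2) := by
  set g : ℝ → ℝ := fun r => 1 + (√α * r ^ (-a) + √β * r ^ (-b)) with hg
  have gc : ∀ u, 0 < u → ContinuousOn g (Icc u s) := fun u hu => continuousOn_const.add
    ((continuousOn_const.mul (cont_rpow hu)).add (continuousOn_const.mul (cont_rpow hu)))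
  have g1 : ∀ r, 0 < r → 0 ≤ √α * r ^ (-a) ∧ 0 ≤ √β * r ^ (-b) := fun r hr =>
    ⟨by positivity, by positivity⟩
  refine (t2L c (be := fun r => g r ^ 2 - 1) (((gc t ht).pow 2).sub continuousOn_const)
    (fun u hu => ?_) (hD.imp fun u hu v _ h => h.trans ?_) hE a0 hψ hχ hc).imp fun u hu v _ h => ?_
  · obtain ⟨h1, h2⟩ := g1 u (ht.trans_le hu.1)
    simp only [hg]; nlinarith
  · obtain ⟨h1, h2⟩ := g1 u (ht.trans_le hu.1)
    have e1 : α * (u ^ (-a)) ^ 2 = (√α * u ^ (-a)) ^ 2 := by rw [mul_pow, Real.sq_sqrt α0]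
    have e2 : β * (u ^ (-b)) ^ 2 = (√β * u ^ (-b)) ^ 2 := by rw [mul_pow, Real.sq_sqrt β0]
    rw [e1, e2]
    simp only [hg]; nlinarith [mul_nonneg h1 h2]
  · have u0 := ht.trans_le hu.1
    have s0 := u0.trans_le hu.2
    have i1 : ∀ x : ℝ, IntervalIntegrable (fun r : ℝ => r ^ x) volume u s := fun x =>
      ((cont_rpow u0).mono (uIcc_of_le hu.2).le).intervalIntegrable
    have e : ∫ r in u..s, √(g r ^ 2 - 1 + 1) =
        (s - u) + (√α * (∫ r in u..s, r ^ (-a)) + √β * ∫ r in u..s, r ^ (-b)) := by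
      rw [intervalIntegral.integral_congr (g := g) fun r hr => by
        rw [uIcc_of_le hu.2] at hr
        obtain ⟨h1, h2⟩ := g1 r (u0.trans_le hr.1)
        rw [sub_add_cancel, Real.sqrt_sq (by simp only [hg]; linarith)], hg,
        intervalIntegral.integral_add intervalIntegrable_const
          (((i1 _).const_mul _).add ((i1 _).const_mul _)),
        intervalIntegral.integral_add ((i1 _).const_mul _) ((i1 _).const_mul _),
        intervalIntegral.integral_const_mul, intervalIntegral.integral_const_mul,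
        intervalIntegral.integral_const, smul_eq_mul, mul_one]
    have b1 := mul_le_mul_of_nonneg_left (int_rpow_lt (s := s) u0 ha) (Real.sqrt_nonneg α)
    have b2 := mul_le_mul_of_nonneg_left ((int_rpow_gt u0 hu.2 hb).trans (div_le_div_of_nonneg_right
      (Real.rpow_le_rpow_of_nonpos ht hu.1 (by linarith)) (by linarith))) (Real.sqrt_nonneg β)
    rw [e] at h
    have b3 : √(T2 v ψ χ c0) ≤ √(al + 1) + 1 + √α * (s ^ (1 - a) / (1 - a)) +
      √β * (t ^ (1 - b) / (b - 1)) := by linarith [hu.1]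
    have b4 := pow_le_pow_left₀ (Real.sqrt_nonneg _) b3 2
    rw [Real.sq_sqrt (T2_nonneg _)] at b4
    have e1 := Real.sq_sqrt (show 0 ≤ al + 1 by linarith)
    have e2 : α * (s ^ (1 - a) / (1 - a)) ^ 2 = (√α * (s ^ (1 - a) / (1 - a))) ^ 2 := by
      rw [mul_pow, Real.sq_sqrt α0]
    have e3 : β * (t ^ (1 - b) / (b - 1)) ^ 2 = (√β * (t ^ (1 - b) / (b - 1))) ^ 2 := by
      rw [mul_pow, Real.sq_sqrt β0]
    rw [e2, e3]
    generalize √α * (s ^ (1 - a) / (1 - a)) = y at *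
    generalize √β * (t ^ (1 - b) / (b - 1)) = z at *
    generalize √(al + 1) = x at *
    nlinarith [sq_nonneg (x - 1), sq_nonneg (x - y), sq_nonneg (x - z), sq_nonneg (y - 1),
      sq_nonneg (z - 1), sq_nonneg (y - z)]

/-- the growth factor of the majorant -/
theorem int_maj {θ a : ℝ} (ht : 0 < t) (hu : t ≤ u) (hs : u ≤ s) (a0 : 0 ≤ a) :
    Real.exp (∫ r in u..s, θ * r⁻¹ + a * t * r ^ (-2 : ℝ)) ≤ (s / u) ^ θ * Real.exp a := by
  have u0 := ht.trans_le hu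
  have s0 := u0.trans_le hs
  have n0 : (0 : ℝ) ∉ uIcc u s := fun h => by rw [uIcc_of_le hs] at h; linarith [h.1]
  rw [intervalIntegral.integral_add ((intervalIntegral.intervalIntegrable_inv
      (fun x hx => (ne_of_mem_of_not_mem hx n0)) continuousOn_id).const_mul _)
      ((((cont_rpow u0).mono (uIcc_of_le hs).le).intervalIntegrable).const_mul _),
    intervalIntegral.integral_const_mul, intervalIntegral.integral_const_mul, integral_inv n0,
    Real.exp_add, Real.rpow_def_of_pos (div_pos s0 u0), mul_comm θ]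
  refine mul_le_mul_of_nonneg_left (Real.exp_le_exp.2 ?_) (Real.exp_pos _).le
  have h := int_rpow_gt u0 hs (show (1 : ℝ) < 2 by norm_num)
  rw [show (1 : ℝ) - 2 = -1 by norm_num, show (2 : ℝ) - 1 = 1 by norm_num, Real.rpow_neg_one, div_one] at h
  calc _ ≤ a * t * u⁻¹ := mul_le_mul_of_nonneg_left h (by positivity)
    _ ≤ a := by rw [mul_assoc]; exact mul_le_of_le_one_right a0 (by rw [← div_eq_mul_inv, div_le_one u0]; exact hu)

end

/-! ### consequences of the numerical leaf -/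

/-- the leaf at an admissible time -/
structure Nm (p : O0.Pm) (t : ℝ) : Prop extends Num p t where
  t0 : 0 < t
  t1 : t ≤ p.t0

namespace Nm

variable {p : O0.Pm} {t : ℝ} (N : Nm p t)
include N

theorem K0 : 0 < p.K := by linarith [N.ok.K]
theorem e0 : 0 < p.e1 := N.ok.e1.1
theorem k3 : 100 * p.e1 ≤ p.k3 := by linarith [N.ok.e1.2]
theorem k3' : p.k3 ≤ 1 / 1000 := by
  linarith [N.ok.k3.2, N.ok.k2.2, N.ok.k4.2, N.ok.d.2, N.ok.ch.2, N.ok.k2.1, N.ok.k4.1, N.ok.d.1]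
theorem tt : t ≤ 1 / 100 := N.t1.trans N.ok.t0.2
theorem n1' : (1000 : ℝ) ≤ p.n := le_trans (by norm_num) N.n1
theorem n0 : (0 : ℝ) < p.n := by linarith [N.n1']
theorem cG4 : 4 ≤ cG p := by
  have := Real.one_le_exp (show 0 ≤ 3 * p.K * p.Lp by have := N.K0; have := N.ok.Lp; positivity)
  unfold cG; linarith
theorem cC1 : 1400 * p.K ≤ cC p := by unfold cC; nlinarith [N.ok.L, N.K0]
theorem cA1 : 16 ≤ cA p := by
  have := N.cG4; have := N.cC1; have := N.K0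
  have : 0 ≤ 1152 * cG p * p.K ^ 2 * cC p := by have : 0 ≤ cC p := by linarith
                                                positivity
  unfold cA; linarith
theorem cB1 : 6 * p.K + 21 + 24 * cA p + 288 * (cG p * p.K ^ 2 * cA p / p.e1 ^ 2) = cB p := by
  unfold cB; ring
theorem cB0 : 0 ≤ cG p * p.K ^ 2 * cA p / p.e1 ^ 2 := by
  have := N.cG4; have := N.cA1; positivity
theorem cK1 : 3 * p.K + 2 * p.K0 * p.T + 2 * p.K0 = cK p := by unfold cK; ring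
theorem Ga1 : 1 ≤ G5.Ga (cK p) p.Lp (2 * p.K0) p.T := by
  have := N.cK1; have := N.K0; have := N.ok.K0; have := N.ok.T
  have : 0 ≤ cK p := by nlinarith
  have := Real.log_nonneg (show 1 ≤ p.Lp by linarith [N.ok.Lp])
  exact Real.one_le_exp (by positivity)

/-- the four summands of `XX` -/
theorem parts : 0 ≤ XB p ∧ 0 ≤ 10 * cG p * p.K ∧ 0 ≤ 10 ^ 6 * p.K0 ^ 2 / p.t0 ^ 2 ∧ 0 ≤
    10 ^ 6 * (cK p + 2) ^ 2 * G5.Ga (cK p) p.Lp (2 * p.K0) p.T * p.T ^ 2 * p.K0 ^ 2 / p.e1 ^ 4 := by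
  have := N.cG4; have := N.K0; have := N.Ga1
  refine ⟨?_, by positivity, by positivity, by positivity⟩
  unfold XB; linarith [N.cB1, N.cB0, N.cA1, N.cC1, N.ok.L]

theorem XBX : XB p ≤ XX p := by unfold XX; linarith [N.parts.2.1, N.parts.2.2.1, N.parts.2.2.2]
theorem XB1 : 10 ^ 4 * p.K + 100 * p.L ≤ XB p := by
  unfold XB; linarith [N.cB1, N.cB0, N.cA1, N.cC1, N.ok.L, N.K0]
theorem X1 : 10 ^ 4 ≤ XX p := by linarith [N.XBX, N.XB1, N.ok.K, N.ok.L]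
theorem XK : 10 ^ 4 * p.K ≤ XX p := by linarith [N.XBX, N.XB1, N.ok.L]
theorem XK0 : 10 ^ 6 * p.K0 ^ 2 ≤ XX p * p.t0 ^ 2 := by
  rw [← div_le_iff₀ (pow_pos N.ok.t0.1 2)]
  unfold XX; linarith [N.parts.1, N.parts.2.1, N.parts.2.2.2]
theorem XK0' : 10 ^ 6 * p.K0 ^ 2 / p.t0 ^ 2 ≥ 10 ^ 6 * p.K0 := by
  have := N.ok.t0; have := N.ok.K0
  rw [ge_iff_le, le_div_iff₀ (pow_pos N.ok.t0.1 2)]
  have : p.t0 ^ 2 ≤ 1 := pow_le_one₀ N.ok.t0.1.le (by linarith [N.ok.t0.2])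
  nlinarith
theorem Xk : 10 * cG p * p.K + 6 * p.K + 72 * p.K0 ≤ XX p := by
  unfold XX; linarith [N.XB1, N.XK0', N.parts.2.2.2, N.K0, N.ok.K0, N.ok.L]
theorem XG : 10 ^ 6 * (cK p + 2) ^ 2 * G5.Ga (cK p) p.Lp (2 * p.K0) p.T * p.T ^ 2 * p.K0 ^ 2 ≤
    XX p * p.e1 ^ 4 := by
  rw [← div_le_iff₀ (pow_pos N.e0 4)]
  unfold XX; linarith [N.parts.1, N.parts.2.1, N.parts.2.2.1]
theorem e4 : p.e1 ^ 4 ≤ p.e1 := by
  have := N.e0
  exact pow_le_of_le_one this.le (by linarith [N.k3, N.k3']) (by norm_num)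
theorem XG' : 10 ^ 6 * ((cK p + 2) * p.T) ≤ XX p * p.e1 := by
  have := N.cK1; have := N.K0; have hK := N.ok.K0; have hT := N.ok.T; have := N.Ga1
  have h0 : 1 ≤ cK p + 2 := by nlinarith
  refine le_trans ?_ (N.XG.trans (mul_le_mul_of_nonneg_left N.e4 (by linarith [N.X1])))
  calc _ = 10 ^ 6 * (cK p + 2) ^ 1 * 1 * p.T ^ 1 * 1 ^ 2 := by ring
    _ ≤ _ := by gcongr <;> first | assumption | norm_num
theorem XcK : cK p + 2 ≤ XX p := by
  have := N.XG'; have := N.cK1; have := N.K0; have hK := N.ok.K0; have hT := N.ok.T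
  have h0 : 1 ≤ cK p + 2 := by nlinarith
  have : XX p * p.e1 ≤ XX p * 1 := by gcongr <;> linarith [N.X1, N.k3, N.k3']
  nlinarith
theorem TcK : 2 * (p.T + 1) ≤ cK p := by nlinarith [N.cK1, N.K0, N.ok.K0, N.ok.T]
theorem Xn : 100 * XX p ≤ p.n := by nlinarith [N.nX, N.tt, N.n0]
theorem XB0 : XX p ≤ p.B0 := by
  have := N.X1
  refine le_trans ?_ N.hB0
  calc _ = 1 * XX p ^ 1 := by ring
    _ ≤ _ := by gcongr <;> linarith
theorem Xt : XX p / t ≤ p.n := by rw [div_le_iff₀ N.t0]; exact N.nX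
theorem nt : 10 ^ 4 ≤ p.n * t := N.X1.trans N.nX
/-- the mesh is far below `t / K` -/
theorem mu : 1000 * p.K * (1 / (p.n : ℝ) ^ 2) ≤ t := by
  have := N.n0
  rw [mul_one_div, div_le_iff₀ (by positivity)]
  nlinarith [N.XK, N.nX, N.n1', N.t0, mul_pos this N.t0]
theorem mu' : 1000 * (1 / (p.n : ℝ) ^ 2) ≤ t := by
  have := N.n0
  exact le_trans (by gcongr; linarith [N.ok.K]) N.mu
theorem eta0 : 0 < p.eta := by have := N.K0; unfold O0.Pm.eta; positivity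
theorem eta1 : p.K * p.eta = 1 / 4 := by have := N.K0; unfold O0.Pm.eta; field_simp
theorem eta2 : p.eta ≤ 1 / 4 := by nlinarith [N.eta0, N.eta1, N.ok.K]
theorem ts0 : 0 < p.ts := Real.rpow_pos_of_pos N.n0 _
theorem kk01 : 1 ≤ kk0 p t := by
  unfold kk0; split_ifs
  exacts [le_rfl, N.ok.K.trans N.nK]
theorem kk_eq : p.kk t = kk0 p t * max 1 (p.ts / t) ^ (1 + p.k3) := by
  unfold O0.Pm.kk kk0; split_ifs with h
  · rw [max_eq_left ((div_le_one N.t0).2 (N.ts.trans h)), Real.one_rpow, one_mul]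
  · rfl
theorem kk1' : 1 ≤ p.kk t := by
  rw [N.kk_eq]
  exact one_le_mul_of_one_le_of_one_le N.kk01
    (Real.one_le_rpow (le_max_left _ _) (by linarith [N.ok.k3.1]))
theorem m1 : max t p.tss ≤ 1 / 100 := max_le N.tt (by linarith [N.tss, N.ok.t0.2])
theorem al0 : 0 < p.al t := Real.rpow_pos_of_pos (N.t0.trans_le (le_max_left _ _)) _
theorem al1 : p.al t ≤ 1 :=
  Real.rpow_le_one (N.t0.le.trans (le_max_left _ _)) (by linarith [N.m1]) (by norm_num)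
theorem sq1 : √t ≤ 1 := Real.sqrt_le_one.2 (by linarith [N.tt])
theorem sq0 : 0 < √t := Real.sqrt_pos.2 N.t0
theorem tsq : t ≤ √t := by nlinarith [Real.mul_self_sqrt N.t0.le, N.sq1, N.sq0]
theorem sqal : √t ≤ p.al t := le_trans (le_mul_of_one_le_left N.sq0.le N.kk1') N.kks
theorem ze : (p.L ^ 2 * t / 100) ^ 2 ≤ t := by
  have := mul_le_mul_of_nonneg_left N.t1 (pow_nonneg (show 0 ≤ p.L by linarith [N.ok.L]) 4)
  nlinarith [N.t0L, N.t0]

end Nm

theorem rpow32 {x : ℝ} (hx : 0 ≤ x) : x ^ (3 / 2 : ℝ) = x * √x := by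
  rw [Real.sqrt_eq_rpow, ← Real.rpow_one_add' hx (by norm_num)]; norm_num

end Crest.Agent.T157.Oa
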