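import Crest.Agent.T157.OaE_48

set_option autoImplicit false
set_option linter.unusedSectionVars false

/-!
Row 157, A2 (helper48): comparison with `O0.Pm.cq`, and the long range bounds.
-/

noncomputable section

namespace Crest.Agent.T157.Oa

open MeasureTheory Matrix Filter Topology Set
open Crest.Agent.T157.E Crest.Agent.T157.SL Crest.Agent.T157.Ks Crest.Agent.T157.Od
open Crest.Agent.T157.Oo

/-- the parameters of the short range lemma -/
def qq (p : O0.Pm) (t Y h κ : ℝ) : Pm where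
  a := 6
  h := h
  κ := κ
  k := XX p * p.kk t
  al := Y * p.n * p.al t
  be := Y * p.n * max t p.ts
  ga := Y * p.n / √t
  N := p.B0 * p.kk t / t ^ (1 + p.k3)
  N' := p.B0 * p.kk t ^ 2 / t ^ (1 + p.k3)
  v4' := p.B0 * p.kk t ^ 2 / t ^ p.k3

variable {p : O0.Pm} {t Y h κ : ℝ}

theorem qq_ok (N : Nm p t) (Y0 : 0 ≤ Y) (h1 : h ≤ 1) (hX : t ≤ XX p * h) (κ0 : 0 ≤ κ) (κh : κ * h ≤ 1) :
    (qq p t Y h κ).Ok (36 * p.n) := by
  have := N.n0; have := N.al0; have := N.t0; have := N.kk1'; have := N.X1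
  have h0 : 0 < h := by by_contra h; nlinarith [not_lt.1 h]
  refine ⟨by norm_num [qq], by norm_num [qq], h1, ?_, κ0, κh, ?_, ?_, ?_, ?_, ?_⟩ <;> simp only [qq]
  · have := mul_le_mul_of_nonneg_right N.nX h0.le
    nlinarith
  · positivity
  · linarith [N.nk]
  all_goals positivity

theorem mono_le {X a b y : ℝ} {i : ℕ} (X1 : 1 ≤ X) (hi : i ≤ 4) (ha : a ≤ 10 ^ 6) (hb : 10 ^ 6 * X ^ 4 ≤ b)
    (y0 : 0 ≤ y) : a * X ^ i * y ≤ b * y := by
  refine mul_le_mul_of_nonneg_right (le_trans ?_ hb) y0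
  exact mul_le_mul ha (pow_le_pow_right₀ X1 hi) (by positivity) (by positivity)

set_option maxHeartbeats 1600000 in
theorem qq_le (N : Nm p t) (Y0 : 0 ≤ Y) (YX : Y ≤ XX p) (YB : Y ≤ p.Bt t) (h1 : h ≤ 1)
    (hX : t ≤ XX p * h) (hκ : κ ≤ p.Bt t / t) : CsLe (qq p t Y h κ).cs ((p.cq t).ctr 0 0) := by
  have n0 := N.n0; have al0 := N.al0; have t0 := N.t0; have k1 := N.kk1'
  have X1 : 1 ≤ XX p := by linarith [N.X1]
  have n1 : (1 : ℝ) ≤ p.n := by linarith [N.n1']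
  have h0 : 0 < h := by by_contra h; nlinarith [not_lt.1 h]
  have M := fun {a y : ℝ} {i : ℕ} => mono_le (a := a) (y := y) (i := i) X1 (b := p.B0)
  have hB := N.hB0
  have kkt := N.kkt
  have kks := N.kks
  have sq0 := N.sq0
  have sq1 := N.sq1
  have ss := Real.mul_self_sqrt t0.le
  have m0 : t ≤ max t p.ts := le_max_left _ _
  have t1 : t ≤ 1 := by linarith [N.tt]
  have e1 : ∀ x, x / t = x * t⁻¹ := fun x => div_eq_mul_inv _ _
  have hj : h⁻¹ ≤ XX p * t⁻¹ := by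
    rw [← div_eq_mul_inv, inv_eq_one_div, div_le_div_iff₀ h0 t0]; linarith
  have i1 : 1 ≤ t⁻¹ := (one_le_inv₀ t0).2 t1
  have w1 : 1 ≤ (√t)⁻¹ := (one_le_inv₀ sq0).2 sq1
  have ki : p.kk t ≤ t⁻¹ := by rw [← one_div, le_div_iff₀ t0]; exact kkt
  have kw : p.kk t * (√t)⁻¹ ≤ p.al t * t⁻¹ := by
    rw [← div_eq_mul_inv, ← div_eq_mul_inv, div_le_div_iff₀ sq0 t0]; nlinarith
  have mi : 1 ≤ max t p.ts * t⁻¹ := by rw [← div_eq_mul_inv, one_le_div t0]; exact m0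
  have j0 : 0 < h⁻¹ := inv_pos.2 h0
  have m1 : 0 < max t p.ts := t0.trans_le m0
  have q1 : (qq p t Y h κ).s1 ≤ 69 * XX p ^ 2 * (p.n * p.s1 t) := by
    simp only [Pm.s1, qq, O0.Pm.s1, div_eq_mul_inv]
    have a1 : 4 * (Y * p.n * max t p.ts) * h⁻¹ ≤ 4 * (XX p * p.n * max t p.ts) * (XX p * t⁻¹) := by
      gcongr
    have a2 : 32 * (XX p * p.kk t + h) * (Y * p.n * p.al t) ≤
        32 * (XX p * p.kk t + XX p * p.kk t) * (XX p * p.n * p.al t) := by
      gcongr; nlinarith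
    have a3 : 1 ^ 2 * (1 * 1) ≤ XX p ^ 2 * (p.n * (max t p.ts * t⁻¹)) := by gcongr
    have a4 : 0 ≤ XX p ^ 2 * (p.n * (p.kk t * p.al t)) := by positivity
    nlinarith
  have q2 : (qq p t Y h κ).s1' ≤ 21 * XX p ^ 2 * (p.n * (p.al t / t + p.kk t / √t)) := by
    simp only [Pm.s1', qq, div_eq_mul_inv]
    have a1 : 4 * (Y * p.n * p.al t) * h⁻¹ ≤ 4 * (XX p * p.n * p.al t) * (XX p * t⁻¹) := by gcongr
    have a2 : 16 * (XX p * p.kk t) * (Y * p.n * (√t)⁻¹) ≤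
        16 * (XX p * p.kk t) * (XX p * p.n * (√t)⁻¹) := by gcongr
    have a3 : 1 ^ 2 * (1 * (1 * 1)) ≤ XX p ^ 2 * (p.n * (p.kk t * (√t)⁻¹)) := by gcongr
    have a4 : 0 ≤ XX p ^ 2 * (p.n * (p.al t * t⁻¹)) := by positivity
    nlinarith
  have s1 : 1 ≤ p.s1 t := by
    simp only [O0.Pm.s1, div_eq_mul_inv]; exact le_add_of_le_of_nonneg mi (by positivity)
  have s2 : p.kk t * (p.al t / t + p.kk t / √t) ≤ 2 * (p.s1 t * t⁻¹) := by
    simp only [O0.Pm.s1, div_eq_mul_inv]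
    have a1 := mul_le_mul_of_nonneg_left kw (show 0 ≤ p.kk t by linarith)
    have a2 : 0 ≤ max t p.ts * t⁻¹ * t⁻¹ := by positivity
    nlinarith
  have p1 : 0 ≤ (qq p t Y h κ).s1 := by simp only [Pm.s1, qq]; positivity
  have p2 : 0 ≤ (qq p t Y h κ).s1' := by simp only [Pm.s1', qq]; positivity
  have one : 1 ≤ XX p ^ 3 * (p.n * p.s1 t * t⁻¹) := by
    calc (1 : ℝ) = 1 ^ 3 * (1 * 1 * 1) := by norm_num
      _ ≤ _ := by gcongr
  have ej : ∀ (x : ℝ) (i : ℕ), 0 ≤ x → x / h ^ i ≤ x * (XX p * t⁻¹) ^ i := fun x i hx => by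
    rw [div_eq_mul_inv, ← inv_pow]; gcongr
  have one' : ∀ a b c : ℕ, 1 ≤ XX p ^ a * (p.kk t ^ b * t⁻¹ ^ c) := fun a b c =>
    one_le_mul_of_one_le_of_one_le (one_le_pow₀ X1)
      (one_le_mul_of_one_le_of_one_le (one_le_pow₀ k1) (one_le_pow₀ i1))
  have B : ∀ {a x : ℝ} (i b c : ℕ), i ≤ 4 → a ≤ 10 ^ 6 → x ≤ a * (XX p ^ i * (p.kk t ^ b * t⁻¹ ^ c)) →
      x ≤ p.B0 * p.kk t ^ b / t ^ c := fun i b c hi ha hx => by
    rw [div_eq_mul_inv, ← inv_pow, mul_assoc]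
    exact hx.trans ((mul_assoc _ _ _).ge.trans (M hi ha hB (by positivity)))
  refine ⟨rfl, hκ, ?_, ?_, ?_, ?_, le_rfl, le_rfl, ?_, ?_, ?_, ?_, ?_, ?_, ?_, ?_, ?_, ?_, ?_, le_rfl,
    le_rfl, le_rfl⟩ <;> simp only [Pm.cs, Cs.ctr, O0.Pm.cq]
  · exact mul_le_mul_of_nonneg_right N.XB0 (by linarith)
  · simp only [qq]; gcongr
  · simp only [qq]; gcongr
  · simp only [qq]; gcongr
  · rw [mul_assoc]; exact q1.trans (M (by norm_num) (by norm_num) hB (by positivity))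
  · rw [mul_assoc]; exact q2.trans (M (by norm_num) (by norm_num) hB (by positivity))
  · have a1 : (4 * 6 ^ 2 * h⁻¹ + 144 * (XX p * p.kk t)) * (qq p t Y h κ).s1 ≤
        (4 * 6 ^ 2 * (XX p * t⁻¹) + 144 * (XX p * t⁻¹)) * (69 * XX p ^ 2 * (p.n * p.s1 t)) := by gcongr
    have a2 := M (a := 20000) (i := 3) (y := p.n * p.s1 t * t⁻¹) (by norm_num) (by norm_num) hB
      (by positivity)
    change (4 * 6 ^ 2 / h + 144 * (XX p * p.kk t)) * _ + 1 ≤ _
    rw [e1, div_eq_mul_inv]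
    nlinarith
  · have a1 : 52 * (qq p t Y h κ).s1 * h⁻¹ ≤ 52 * (69 * XX p ^ 2 * (p.n * p.s1 t)) * (XX p * t⁻¹) := by
      gcongr
    have a2 := M (a := 20000) (i := 3) (y := p.n * p.s1 t * t⁻¹) (by norm_num) (by norm_num) hB
      (by positivity)
    have a3 := mul_le_mul_of_nonneg_left q2 (show 0 ≤ 96 * (XX p * p.kk t) by positivity)
    have a4 := mul_le_mul_of_nonneg_left s2 (show 0 ≤ XX p ^ 3 * p.n by positivity)
    change 52 * _ / h + 96 * (XX p * p.kk t) * _ + 1 ≤ _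
    rw [e1, div_eq_mul_inv]
    nlinarith
  · have := B (a := 2961) (x := 2960 * (XX p * p.kk t) / h ^ 3 + 1) 4 1 3 le_rfl (by norm_num) (by
      linarith [ej (2960 * (XX p * p.kk t)) 3 (by positivity), one' 4 1 3])
    rwa [pow_one] at this
  · have := B (a := 21) (x := 20 * (XX p * p.kk t) / h ^ 2 + 1) 3 1 2 (by norm_num) (by norm_num) (by
      linarith [ej (20 * (XX p * p.kk t)) 2 (by positivity), one' 3 1 2])
    rwa [pow_one] at this
  · have := B (a := 21) (x := 20 / h ^ 3 + 1) 3 0 3 (by norm_num) (by norm_num) (by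
      linarith [ej 20 3 (by positivity), one' 3 0 3])
    rwa [pow_zero, mul_one] at this
  · exact B (a := 36 * 2961) (x := 6 ^ 2 * (2960 * (XX p * p.kk t) ^ 2 / h ^ 2 + 1)) 4 2 2 le_rfl
      (by norm_num) (by linarith [ej (2960 * (XX p * p.kk t) ^ 2) 2 (by positivity), one' 4 2 2])
  · have := B (a := 36 * 21) (x := 6 ^ 2 * (20 * (XX p * p.kk t) ^ 2 / h ^ 1 + 1)) 3 2 1 (by norm_num)
      (by norm_num) (by linarith [ej (20 * (XX p * p.kk t) ^ 2) 1 (by positivity), one' 3 2 1])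
    rwa [pow_one, pow_one] at this
  · have := B (a := 21) (x := 20 * (XX p * p.kk t) ^ 2 / h ^ 1 + 1) 3 2 1 (by norm_num)
      (by norm_num) (by linarith [ej (20 * (XX p * p.kk t) ^ 2) 1 (by positivity), one' 3 2 1])
    rwa [pow_one, pow_one] at this
  · have := B (a := 60) (x := 60 / h ^ 2) 2 0 2 (by norm_num) (by norm_num) (by
      linarith [ej 60 2 (by positivity)])
    rwa [pow_zero, mul_one] at this

variable {I : Finset (Tst p.n)} {W A : Mn p.n} {ρ ε : ℝ} {v : Cube p.n → ℝ} {m : ℕ}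

set_option maxHeartbeats 3200000 in
/-- **the long range bounds** -/
theorem longD (N : Nm p t) (c : Ctx I ρ ε (36 * p.n)) (hA : Aᵀ = A) (ha : Op2 A (6 ^ 2))
    (h1 : t < p.t0 / 2 → Dv I W ρ m t p.t0 fun u v => CB v sv (3 * p.K / u))
    (h2 : Dv I W ρ m (p.Lp * t) p.t0 fun u v => CB v sv ((1 + 2 * p.e1) / u))
    (h0 : Dv I W ρ m (max t (p.t0 / 2)) (p.T + 1) fun _ v => CB v sv (2 * p.K0))
    (hP : Dv I W ρ m p.T p.T fun _ v => Top.Poin v p.K0)
    (hk : Dv I W ρ m t (p.T + 1) fun _ v => CB v (fA A sv) (XX p * p.kk t))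
    (hv : FG I W (ρ ^ (m + 2)) t v) :
    (∀ U : Mn p.n, NV (fA A sv) sv U v ≤ p.B0 * p.kk t / t ^ (1 + p.k3) * fr U) ∧
    (∀ U : Mn p.n, NV (fA A sv) (fA A sv) U v ≤ p.B0 * p.kk t ^ 2 / t ^ (1 + p.k3) * fr U) ∧
    ∀ x, var v (fun s => (x ⬝ᵥ fA A sv s - mean v fun s => x ⬝ᵥ fA A sv s) ^ 2) ≤
      p.B0 * p.kk t ^ 2 / t ^ p.k3 * (x ⬝ᵥ x) ^ 2 := by
  have n0 := N.n0; have t0 := N.t0; have k1 := N.kk1'; have e0 := N.e0; have K0 := N.K0
  have X1 : 1 ≤ XX p := by linarith [N.X1]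
  have hT := N.ok.T; have hK0 := N.ok.K0; have tt := N.tt; have k3 := N.k3; have k3' := N.k3'
  have a0 := N.ok.t0.1; have a1 := N.ok.t0.2
  have tT : t ≤ p.T := by linarith
  have cK1 := N.cK1
  have cK0 : 0 ≤ cK p := by linarith [N.TcK]
  have TX : p.T ≤ p.n := by linarith [N.TcK, N.XcK, N.Xn]
  have bA : Bd (fA A sv) (36 * p.n) := c.bdA ha (by norm_num)
  set γ := 1296 * (p.K0 * (8 * (2 * p.K0) + 18)) with hγ
  have γ0 : 0 ≤ γ := by positivity
  have γ1 : γ ≤ 44064 * p.K0 ^ 2 := by nlinarith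
  have hF := (hP.and (h0.sub (max_le tT (by linarith)) (by linarith))).imp fun _ _ v hv h =>
    term_of hA ha (by norm_num) (by linarith) (by linarith) hv h.2 h.1
  -- crude bounds on `[t, T + 1]`
  have cr : ∀ {k : ℝ → ℝ}, (∀ u ∈ Icc t (p.T + 1), u < p.t0 / 2 → 3 * p.K / u ≤ k u) →
      (∀ u ∈ Icc t (p.T + 1), 2 * p.K0 ≤ k u) → Dv I W ρ m t (p.T + 1) fun u v => CB v sv (k u) :=
    fun b1 b2 u hu v hv => by
    rcases lt_or_ge u (p.t0 / 2) with h | h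
    · exact (h1 (hu.1.trans_lt h) u ⟨hu.1, by linarith⟩ v hv).mono (b1 u hu h)
    · exact (h0 u ⟨max_le hu.1 h, hu.2⟩ v hv).mono (b2 u hu)
  set τ := t ^ (1 + p.k3) with hτ
  have τ0 : 0 < τ := Real.rpow_pos_of_pos t0 _
  have τ1 : τ ≤ 1 := Real.rpow_le_one t0.le (by linarith) (by linarith)
  have τ2 : t ^ 2 ≤ τ := by
    rw [← Real.rpow_two]; exact Real.rpow_le_rpow_of_exponent_ge t0 (by linarith) (by linarith)
  have pw : ∀ {x a : ℝ}, 1 ≤ x → a ≤ 1 + p.k3 → (x / t) ^ a ≤ x ^ 2 / τ := fun {x a} hx h => by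
    refine (Real.rpow_le_rpow_of_exponent_le ((one_le_div t0).2 (by linarith)) h).trans ?_
    rw [Real.div_rpow (by linarith) t0.le, ← Real.rpow_two]
    exact div_le_div_of_nonneg_right (Real.rpow_le_rpow_of_exponent_le hx (by linarith)) τ0.le
  classical
  set κ : ℝ → ℝ := fun u => if p.t0 / 4 ≤ u then 2 * p.K0 else if u < p.Lp * t then 3 * p.K / u
    else (1 + 2 * p.e1) / u with hκ
  have κ0 : ∀ u ∈ Icc t p.T, 0 ≤ κ u := fun u hu => by
    have := t0.trans_le hu.1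
    simp only [hκ]; split_ifs <;> positivity
  obtain ⟨s, J, s0, sJ, sm, sI, sr, hJ, hG, S1, S2⟩ := G5.growth (κ := κ) (t0 := p.t0 / 4) (L' := p.Lp)
    (K' := cK p) (K0 := 2 * p.K0) (ε := 2 * p.e1) t0 tT ⟨by linarith, by linarith⟩
    (by linarith [N.ok.Lp]) cK0 (by linarith) κ0 (fun u hu h => by
      have := (t0.trans_le hu.1).ne'
      simp only [hκ, h, if_true]; split_ifs
      · nlinarith [hu.2]
      · rw [div_mul_cancel₀ _ this]; nlinarith)
    (fun u hu h h' => by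
      simp only [hκ, not_le.2 h', not_lt.2 h, if_false]
      rw [div_mul_cancel₀ _ (t0.trans_le hu.1).ne'])
    fun u _ h => by simp only [hκ, h, if_true, le_refl]
  have hD : ∀ j, Dv I W ρ m (s j) (s (j + 1)) fun _ v => CB v sv (κ (s j)) := fun j u hu v hv => by
    have b0 := t0.trans_le (sI j).1
    have b1 : t ≤ u := (sI j).1.trans hu.1
    have b2 : u ≤ 2 * s j := by nlinarith [hu.2, sr j]
    simp only [hκ]; split_ifs with b3 b4
    · rcases lt_or_ge u (p.t0 / 2) with h | h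
      · refine (h1 (b1.trans_lt h) u ⟨b1, by linarith⟩ v hv).mono ?_
        rw [div_le_iff₀ (b0.trans_le hu.1)]; nlinarith [N.hK0, hu.1]
      · exact h0 u ⟨max_le b1 h, by linarith [hu.2, (sI (j + 1)).2]⟩ v hv
    · exact (h1 (by linarith [(sI j).1]) u ⟨b1, by linarith⟩ v hv).mono (by gcongr; exact hu.1)
    · exact (h2 u ⟨(not_lt.1 b4).trans hu.1, by linarith⟩ v hv).mono (by gcongr; exact hu.1)
  have hD' : ∀ j, Dv I W ρ m (s j) (s (j + 1)) fun _ v => CB v (fA A sv) (XX p * p.kk t) := fun j =>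
    hk.sub (sI j).1 (by linarith [(sI (j + 1)).2])
  have Ga1 := N.Ga1
  have XG := N.XG
  set Ga := G5.Ga (cK p) p.Lp (2 * p.K0) p.T
  have e4 : p.e1 ^ 4 ≤ 1 := pow_le_one₀ e0.le (by linarith)
  have g0 : 10 ^ 6 * (Ga * p.T ^ 2 * p.K0 ^ 2) ≤ XX p := by
    have b1 : 1 ^ 2 * (Ga * p.T ^ 2 * p.K0 ^ 2) ≤ (cK p + 2) ^ 2 * (Ga * p.T ^ 2 * p.K0 ^ 2) := by
      gcongr; linarith
    nlinarith
  have g1 : Ga * (2 * p.T / t) ^ (1 + 5 * (2 * p.e1)) ≤ 4 * (Ga * p.T ^ 2) / τ :=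
    (mul_le_mul_of_nonneg_left (pw (by linarith) (by linarith)) (by linarith)).trans_eq (by ring)
  have g2 : 4 * (Ga * p.T ^ 2) / τ * γ ≤ XX p / τ := by
    rw [div_mul_eq_mul_div]
    refine div_le_div_of_nonneg_right ?_ τ0.le
    have := mul_le_mul_of_nonneg_left γ1 (show 0 ≤ Ga * p.T ^ 2 by positivity)
    nlinarith
  have g3 : 4 * (Ga * p.T ^ 2) / τ ≤ (36 * p.n) ^ 2 := by
    have b1 : Ga * p.T ^ 2 * 1 ^ 2 ≤ Ga * p.T ^ 2 * p.K0 ^ 2 := by gcongr
    have b2 : XX p ^ 2 ≤ (p.n * t) ^ 2 := by gcongr; exact N.nX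
    have b3 := mul_le_mul_of_nonneg_left τ2 (sq_nonneg (p.n : ℝ))
    have b4 : 0 ≤ (p.n : ℝ) ^ 2 * τ := by positivity
    rw [div_le_iff₀ τ0]; nlinarith
  have XG' := N.XG'
  have lg : Real.log (p.T / t) ≤ p.T / t := (Real.log_le_sub_one_of_pos (by positivity)).trans (by linarith)
  have JR : (J : ℝ) ≤ 36 * p.n := by
    have b1 : 2 * Real.log (p.T / t) / (2 * p.e1) ≤ p.n := by
      rw [div_le_iff₀ (by positivity)]
      have : p.T / t ≤ p.n * p.e1 := by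
        rw [div_le_iff₀ t0]; nlinarith [mul_le_mul_of_nonneg_right N.nX e0.le]
      linarith
    linarith [N.n1']
  have g4 : 4 * (3 / (2 * p.e1) ^ 2 * (64 * (cK p + 2 + 2 * p.K0 * p.T) * Ga) * (p.T ^ 2 / τ)) /
      (2 * p.e1) ^ 2 ≤ XX p / τ := by
    have e : 4 * (3 / (2 * p.e1) ^ 2 * (64 * (cK p + 2 + 2 * p.K0 * p.T) * Ga) * (p.T ^ 2 / τ)) /
      (2 * p.e1) ^ 2 = 48 * (cK p + 2 + 2 * p.K0 * p.T) * Ga * p.T ^ 2 / p.e1 ^ 4 / τ := by
      field_simp; ring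
    rw [e]
    refine div_le_div_of_nonneg_right ((div_le_iff₀ (by positivity)).2 (le_trans ?_ XG)) τ0.le
    calc _ ≤ 48 * (2 * (cK p + 2)) * Ga * p.T ^ 2 := by gcongr; linarith
      _ = 96 * (cK p + 2) ^ 1 * Ga * p.T ^ 2 * 1 ^ 2 := by ring
      _ ≤ _ := by gcongr <;> first | linarith | norm_num
  have x0 : 0 ≤ cK p + 2 + 2 * p.K0 * p.T := by positivity
  have fin : ∀ {k S : ℝ}, 1 ≤ k → S ≤ XX p ^ 2 * k *
      (3 / (2 * p.e1) ^ 2 * (64 * (cK p + 2 + 2 * p.K0 * p.T) * Ga) * (p.T ^ 2 / τ)) →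
      4 * (Ga * p.T ^ 2) / τ * γ + 4 * S / (2 * p.e1) ^ 2 + 1 ≤ p.B0 * k / τ := fun {k S} hk hS => by
    have b1 := mul_le_mul_of_nonneg_left g4 (show 0 ≤ XX p ^ 2 * k by positivity)
    have b2 : 4 * S / (2 * p.e1) ^ 2 ≤ XX p ^ 2 * k * (XX p / τ) :=
      (div_le_div_of_nonneg_right (mul_le_mul_of_nonneg_left hS (by norm_num)) (by positivity)).trans
        ((le_of_eq (by ring)).trans b1)
    have b3 := mono_le (a := 3) (i := 3) (y := k / τ) X1 (by norm_num) (by norm_num) N.hB0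
      (by positivity)
    have b4 : 1 ≤ XX p / τ := (one_le_div τ0).2 (by linarith)
    have b5 : 1 ^ 2 * 1 * (XX p / τ) ≤ XX p ^ 2 * k * (XX p / τ) := by gcongr
    have e : XX p ^ 2 * k * (XX p / τ) = XX p ^ 3 * (k / τ) := by ring
    rw [mul_div_assoc p.B0]
    linarith
  have pT := pw (a := 1 + 6 * (2 * p.e1)) hT (by linarith)
  refine ⟨fun U => (nD c bA c.bd s0 sm sJ sI (by linarith) (fun j => κ0 _ (sI j))
    (k1 := fun _ => XX p * p.kk t) (fun _ => by positivity) (fun j => κ0 _ (sI j))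
    (fun j _ => (hD j).and ((hD' j).and (hD j))) γ0 (hF.imp fun _ _ _ _ h => h.1) (by positivity)
    (fun j hj => (hG j hj).trans g1) le_rfl g3 JR hv U).trans
      (mul_le_mul_of_nonneg_right (fin k1 ?_) fr_nonneg),
    fun U => (nD c bA bA s0 sm sJ sI (by linarith) (fun j => κ0 _ (sI j))
    (k1 := fun _ => XX p * p.kk t) (k2 := fun _ => XX p * p.kk t) (fun _ => by positivity)
    (fun _ => by positivity)
    (fun j _ => (hD j).and ((hD' j).and (hD' j))) γ0 (hF.imp fun _ _ _ _ h => h.2.1) (by positivity)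
    (fun j hj => (hG j hj).trans g1) le_rfl g3 JR hv U).trans
      (mul_le_mul_of_nonneg_right (fin (one_le_pow₀ k1) ?_) fr_nonneg), fun x => ?_⟩
  · simp only [mul_left_comm _ (XX p * p.kk t), ← Finset.mul_sum]
    refine mul_le_mul (by gcongr; nlinarith) (S1.trans ?_) (Finset.sum_nonneg fun j _ =>
      mul_nonneg (Finset.prod_nonneg fun _ _ => by positivity) (κ0 _ (sI j))) (by positivity)
    gcongr
    exact div_le_self (by positivity) hT
  · rw [← Finset.sum_mul, mul_comm]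
    refine mul_le_mul (le_of_eq (by ring)) (S2.trans ?_) (Finset.sum_nonneg fun j _ =>
      Finset.prod_nonneg fun _ _ => by positivity) (by positivity)
    gcongr
    exact le_mul_of_one_le_right (by norm_num) (by nlinarith)
  · refine (fourD c bA (K' := cK p) t0 tT (by linarith [N.TcK]) (by nlinarith [N.XcK, N.nX])
      (by linarith) (by positivity) γ0 ((cr (fun u hu _ => ?_) fun u hu => ?_).and hk)
      (hF.imp fun _ _ _ _ h => h.2.2) hv x).trans (mul_le_mul_of_nonneg_right ?_ (sq_nonneg _))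
    · exact div_le_div_of_nonneg_right (by nlinarith) (t0.le.trans hu.1)
    · rw [le_div_iff₀ (t0.trans_le hu.1)]; nlinarith [hu.2]
    have k0 := N.ok.k3.1
    set σ := t ^ p.k3 with hσ
    have σ0 : 0 < σ := Real.rpow_pos_of_pos t0 _
    have σ1 : 1 ≤ σ⁻¹ := (one_le_inv₀ σ0).2 (Real.rpow_le_one t0.le (by linarith) k0.le)
    have b1 : Real.log (p.T / t) ≤ p.T * σ⁻¹ / p.e1 := by
      refine (Real.log_le_rpow_div (by positivity) k0).trans ?_
      rw [Real.div_rpow (by linarith) t0.le, div_eq_mul_inv _ σ]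
      gcongr
      · exact Real.rpow_le_self_of_one_le hT (by linarith)
      · linarith
    have b2 : 48 * cK p * Real.log (p.T / t) ≤ XX p * σ⁻¹ := by
      refine (mul_le_mul_of_nonneg_left b1 (by positivity)).trans ?_
      rw [← mul_div_assoc, div_le_iff₀ e0]
      have : 48 * cK p * p.T ≤ XX p * p.e1 := by nlinarith
      nlinarith
    have b3 := mul_le_mul_of_nonneg_left b2 (sq_nonneg (XX p * p.kk t))
    have b4 := mono_le (a := 12) (i := 3) (y := p.kk t ^ 2 * σ⁻¹) X1 (by norm_num) (by norm_num) N.hB0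
      (by positivity)
    have b5 : γ ≤ XX p := by
      have : 1 * 1 ^ 2 * p.K0 ^ 2 ≤ Ga * p.T ^ 2 * p.K0 ^ 2 := by gcongr
      nlinarith
    have b6 : XX p ^ 1 * (1 ^ 2 * 1) ≤ XX p ^ 3 * (p.kk t ^ 2 * σ⁻¹) := by gcongr; norm_num
    have b7 : XX p ^ 2 * (p.kk t ^ 2 * 1) ≤ XX p ^ 3 * (p.kk t ^ 2 * σ⁻¹) := by gcongr; norm_num
    rw [div_eq_mul_inv _ σ, mul_assoc p.B0]
    nlinarith

end Crest.Agent.T157.Oa
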