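import Mathlib
import Crest.Agent.T157.OcB_9

set_option autoImplicit false

/-!
Row 157, A2 tools (helper9).  Herbst argument, Herbst argument with a defect (HD), Gaussian
concentration of Frobenius-Lipschitz functions on `SO(n)`, two-set concentration.
-/

namespace Crest.Agent.T157.Oc

open MeasureTheory ProbabilityTheory Crest.Agent.Lib.OrthPoinc Filter Topology Set

section Abstract

variable {Ω : Type*} [MeasurableSpace Ω] {P : Measure Ω} [IsProbabilityMeasure P]

/-- `Ent(e^{u f})` -/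
noncomputable def entE (P : Measure Ω) (f : Ω → ℝ) (u : ℝ) : ℝ :=
  ∫ x, u * f x * Real.exp (u * f x) ∂P - mgf f P u * Real.log (mgf f P u)

/-- **Herbst argument.** -/
theorem herbst {f : Ω → ℝ} (hi : ∀ u, Integrable (fun x => Real.exp (u * f x)) P) {c t : ℝ}
    (ht : 0 ≤ t) (hE : ∀ u, 0 < u → u < t → entE P f u ≤ c * u ^ 2 * mgf f P u) :
    mgf f P t ≤ Real.exp (t * ∫ x, f x ∂P + c * t ^ 2) := by
  have hint : ∀ u, u ∈ interior (integrableExpSet f P) := fun u => by
    have : integrableExpSet f P = univ := eq_univ_of_forall hi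
    rw [this, interior_univ]; trivial
  have hpos : ∀ u, 0 < mgf f P u := fun u => mgf_pos (hi u)
  have hd : ∀ u, HasDerivAt (fun u => Real.log (mgf f P u))
      ((∫ x, f x * Real.exp (u * f x) ∂P) / mgf f P u) u := fun u =>
    (hasDerivAt_mgf (hint u)).log (hpos u).ne'
  rw [← Real.log_le_iff_le_exp (hpos t)]
  rcases ht.eq_or_lt with h0 | h0
  · rw [← h0]; simp
  have hanti : AntitoneOn (fun u => Real.log (mgf f P u) / u - c * u) (Ioc 0 t) := by
    have hd2 : ∀ u, 0 < u → HasDerivAt (fun u => Real.log (mgf f P u) / u - c * u)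
        (entE P f u / mgf f P u / u ^ 2 - c) u := fun u hu => by
      have d1 := (hd u).fun_div (hasDerivAt_id u) hu.ne'
      have d2 := (hasDerivAt_id u).const_mul c
      refine (d1.sub d2).congr_deriv ?_
      have e : ∫ x, u * f x * Real.exp (u * f x) ∂P = u * ∫ x, f x * Real.exp (u * f x) ∂P := by
        rw [← integral_const_mul]; congr 1; funext x; ring
      have := (hpos u).ne'
      have := hu.ne'
      simp only [entE, e, id]
      generalize (∫ x, f x * Real.exp (u * f x) ∂P) = I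
      field_simp
    refine antitoneOn_of_hasDerivWithinAt_nonpos (convex_Ioc 0 t)
      (fun u hu => (hd2 u hu.1).continuousAt.continuousWithinAt)
      (fun u hu => (hd2 u (interior_subset hu).1).hasDerivWithinAt) fun u hu => ?_
    rw [interior_Ioc] at hu
    have h1 := hE u hu.1 hu.2
    have h2 := hpos u
    have h3 : 0 < u ^ 2 := pow_pos hu.1 2
    rw [sub_nonpos, div_le_iff₀ h3, div_le_iff₀ h2]
    exact h1
  have hl : Tendsto (fun u => Real.log (mgf f P u) / u - c * u) (𝓝[>] 0) (𝓝 (∫ x, f x ∂P - c * 0)) := by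
    refine Tendsto.sub ?_ ((continuous_const.mul continuous_id).continuousAt.tendsto.mono_left
      nhdsWithin_le_nhds)
    have h1 := (hd 0).tendsto_slope_zero_right
    simp only [zero_add, mgf_zero', probReal_univ, Real.log_one, sub_zero, smul_eq_mul, zero_mul,
      Real.exp_zero, mul_one, div_one] at h1
    simpa only [div_eq_inv_mul] using h1
  have h2 : Real.log (mgf f P t) / t - c * t ≤ ∫ x, f x ∂P - c * 0 := by
    refine ge_of_tendsto hl ?_
    filter_upwards [Ioo_mem_nhdsGT h0] with u hu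
    exact hanti ⟨hu.1, hu.2.le⟩ ⟨h0, le_rfl⟩ hu.2.le
  rw [sub_le_iff_le_add, div_le_iff₀ h0] at h2
  nlinarith

/-- **(HD) Herbst argument with a defect.** -/
theorem herbst_defect {f : Ω → ℝ} (hi : ∀ u, Integrable (fun x => Real.exp (u * f x)) P)
    {a M δ x : ℝ} (ha : 0 < a) (hx : 0 ≤ x) (hMδ : 0 ≤ M * δ) (hm : ∫ y, f y ∂P ≤ x / 2)
    (hE : ∀ u, 0 < u → entE P f u ≤ u ^ 2 * (a * mgf f P u + M * δ * Real.exp (u * x))) :
    P.real {y | x ≤ f y} ≤ Real.exp (-x ^ 2 / (32 * a)) + M / a * δ := by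
  have hd0 : 0 ≤ M / a * δ := by rw [div_mul_eq_mul_div]; positivity
  by_cases h : ∀ u, 0 < u → M * δ * Real.exp (u * x) ≤ a * mgf f P u
  · have ht : 0 ≤ x / (8 * a) := by positivity
    have h1 := herbst hi (c := 2 * a) ht fun u hu _ => by
      have h2 := hE u hu
      have h3 := mul_le_mul_of_nonneg_left (h u hu) (sq_nonneg u)
      nlinarith
    have h2 := measure_ge_le_exp_mul_mgf (μ := P) (X := f) x ht (hi _)
    have h3 : Real.exp (-(x / (8 * a)) * x) * mgf f P (x / (8 * a)) ≤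
        Real.exp (-x ^ 2 / (32 * a)) := by
      refine (mul_le_mul_of_nonneg_left h1 (Real.exp_pos _).le).trans ?_
      rw [← Real.exp_add, Real.exp_le_exp]
      have h4 := mul_le_mul_of_nonneg_left hm ht
      have h5 : -(x / (8 * a)) * x + (x / (8 * a) * (x / 2) + 2 * a * (x / (8 * a)) ^ 2) =
          -x ^ 2 / (32 * a) := by field_simp; ring
      linarith
    linarith
  · push Not at h
    obtain ⟨u, hu, h1⟩ := h
    have h2 := measure_ge_le_exp_mul_mgf (μ := P) (X := f) x hu.le (hi _)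
    have h3 : Real.exp (-u * x) * mgf f P u ≤ M / a * δ := by
      rw [div_mul_eq_mul_div, le_div_iff₀ ha, neg_mul, Real.exp_neg, mul_assoc, inv_mul_eq_div,
        div_le_iff₀ (Real.exp_pos _)]
      linarith
    linarith [Real.exp_pos (-x ^ 2 / (32 * a))]

end Abstract

variable {n : ℕ} {μ : Measure (Mat n)} [IsProbabilityMeasure μ]

theorem int_exp (hμ : SOInv μ) {f : Mat n → ℝ} (hf : ContinuousOn f (SO n)) (u : ℝ) :
    Integrable (fun x => Real.exp (u * f x)) μ :=
  integrable_of hμ (Real.continuous_exp.comp_continuousOn (continuousOn_const.mul hf))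

theorem RD.entE_le (hμ : SOInv μ) (hn : 2 < n) {f : Mat n → ℝ} {D : Fin n × Fin n → Mat n → ℝ}
    (hf : RD f D) (u : ℝ) :
    entE μ f u ≤ u ^ 2 * ((2 * ((n : ℝ) - 2))⁻¹ * ∫ U, sqD D U * Real.exp (u * f U) ∂μ) := by
  have h := (hf.const_mul u).lsi hμ hn
  have e : ∀ U, sqD (fun a U => u * D a U) U * Real.exp (u * f U) =
      u ^ 2 * (sqD D U * Real.exp (u * f U)) := fun U => by
    unfold sqD
    simp only [mul_pow, ← Finset.mul_sum]; ring
  simp only [e, integral_const_mul] at h
  unfold entE mgf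
  linarith

/-- Herbst bound for `C^1` functions with bounded gradient. -/
theorem RD.mgf_le (hμ : SOInv μ) (hn : 2 < n) {f : Mat n → ℝ} {D : Fin n × Fin n → Mat n → ℝ}
    (hf : RD f D) {G : ℝ} (hG : ∀ U ∈ SO n, sqD D U ≤ G) {t : ℝ} (ht : 0 ≤ t) :
    mgf f μ t ≤ Real.exp (t * ∫ U, f U ∂μ + G / (2 * ((n : ℝ) - 2)) * t ^ 2) := by
  have hρ0 : (0 : ℝ) < (n : ℝ) - 2 := by
    have : (2 : ℝ) < n := by exact_mod_cast hn
    linarith
  refine herbst (int_exp hμ hf.c) ht fun u _ _ => (hf.entE_le hμ hn u).trans ?_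
  have h1 : ∫ U, sqD D U * Real.exp (u * f U) ∂μ ≤ G * mgf f μ u := by
    rw [mgf, ← integral_const_mul]
    refine integral_mono_ae (integrable_of hμ (hf.cD.mul
      (Real.continuous_exp.comp_continuousOn (continuousOn_const.mul hf.c))))
      ((int_exp hμ hf.c u).const_mul G) ?_
    filter_upwards [hμ.mem] with U hU using mul_le_mul_of_nonneg_right (hG U hU) (Real.exp_pos _).le
  calc _ ≤ u ^ 2 * ((2 * ((n : ℝ) - 2))⁻¹ * (G * mgf f μ u)) := by gcongr
    _ = _ := by ring

/-- **Herbst bound for Frobenius-Lipschitz functions on `SO(n)`** (variance proxy `4L²/(n-2)`). -/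
theorem lip_mgf_le (hμ : SOInv μ) (hn : 2 < n) {f : Mat n → ℝ} {L : ℝ}
    (hL : ∀ U ∈ SO n, ∀ W ∈ SO n, |f U - f W| ≤ L * √(fd U W)) {t : ℝ} (ht : 0 ≤ t) :
    mgf f μ t ≤ Real.exp (t * ∫ U, f U ∂μ + 2 * L ^ 2 / ((n : ℝ) - 2) * t ^ 2) := by
  have hρ0 : (0 : ℝ) < (n : ℝ) - 2 := by
    have : (2 : ℝ) < n := by exact_mod_cast hn
    linarith
  have hf := contOn_of_lip hL
  have key : ∀ ε : ℝ, 0 < ε → mgf f μ t ≤
      Real.exp (t * ∫ U, f U ∂μ + 2 * L ^ 2 / ((n : ℝ) - 2) * t ^ 2 + 2 * t * ε) := by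
    intro ε hε
    obtain ⟨p, hp⟩ := lip_approx hμ (by omega) hL hε
    have h1 := (RD.poly p).mgf_le hμ hn (G := 4 * L ^ 2)
      (fun U hU => by have := (hp U hU).2; rwa [Gam_eq] at this) ht
    have h2 : mgf f μ t ≤ Real.exp (t * ε) * mgf (ev p) μ t := by
      rw [mgf, mgf, ← integral_const_mul]
      refine integral_mono_ae (int_exp hμ hf t)
        ((int_exp hμ (continuous_ev p).continuousOn t).const_mul _) ?_
      filter_upwards [hμ.mem] with U hU
      rw [← Real.exp_add, Real.exp_le_exp]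
      have := (abs_le.mp (hp U hU).1).1
      nlinarith
    have h3 : ∫ U, ev p U ∂μ ≤ ∫ U, f U ∂μ + ε := by
      have : ∫ U, ev p U ∂μ ≤ ∫ U, (f U + ε) ∂μ := by
        refine integral_mono_ae (integrable_of hμ (continuous_ev p).continuousOn)
          ((integrable_of hμ hf).add (integrable_const _)) ?_
        filter_upwards [hμ.mem] with U hU
        have := (abs_le.mp (hp U hU).1).2
        linarith
      rw [integral_add (integrable_of hμ hf) (integrable_const _)] at this
      simpa using this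
    refine h2.trans ((mul_le_mul_of_nonneg_left h1 (Real.exp_pos _).le).trans ?_)
    rw [← Real.exp_add, Real.exp_le_exp]
    have h4 := mul_le_mul_of_nonneg_left h3 ht
    have h5 : 4 * L ^ 2 / (2 * ((n : ℝ) - 2)) = 2 * L ^ 2 / ((n : ℝ) - 2) := by field_simp; ring
    rw [h5]
    linarith
  have hc : Continuous fun ε : ℝ =>
      Real.exp (t * ∫ U, f U ∂μ + 2 * L ^ 2 / ((n : ℝ) - 2) * t ^ 2 + 2 * t * ε) := by fun_prop
  have hl := (hc.tendsto 0).mono_left (nhdsWithin_le_nhds (s := Ioi 0))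
  simp only [mul_zero, add_zero] at hl
  exact ge_of_tendsto hl (eventually_nhdsWithin_of_forall key)

/-- upper tail of a Lipschitz function -/
theorem lip_tail (hμ : SOInv μ) (hn : 2 < n) {f : Mat n → ℝ} {L : ℝ} (hL0 : 0 < L)
    (hL : ∀ U ∈ SO n, ∀ W ∈ SO n, |f U - f W| ≤ L * √(fd U W)) {r : ℝ} (hr : 0 ≤ r) :
    μ.real {U | ∫ V, f V ∂μ + r ≤ f U} ≤ Real.exp (-(((n : ℝ) - 2) * r ^ 2 / (8 * L ^ 2))) := by
  have hρ0 : (0 : ℝ) < (n : ℝ) - 2 := by
    have : (2 : ℝ) < n := by exact_mod_cast hn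
    linarith
  have ht : 0 ≤ ((n : ℝ) - 2) * r / (4 * L ^ 2) := by positivity
  refine (measure_ge_le_exp_mul_mgf _ ht (int_exp hμ (contOn_of_lip hL) _)).trans
    ((mul_le_mul_of_nonneg_left (lip_mgf_le hμ hn hL ht) (Real.exp_pos _).le).trans ?_)
  rw [← Real.exp_add]
  apply le_of_eq
  congr 1
  field_simp; ring

/-- lower tail of a Lipschitz function -/
theorem lip_tail_low (hμ : SOInv μ) (hn : 2 < n) {f : Mat n → ℝ} {L : ℝ} (hL0 : 0 < L)
    (hL : ∀ U ∈ SO n, ∀ W ∈ SO n, |f U - f W| ≤ L * √(fd U W)) {r : ℝ} (hr : 0 ≤ r) :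
    μ.real {U | f U ≤ ∫ V, f V ∂μ - r} ≤ Real.exp (-(((n : ℝ) - 2) * r ^ 2 / (8 * L ^ 2))) := by
  have h := lip_tail hμ hn (f := fun U => -f U) hL0 (fun U hU W hW => by
    rw [neg_sub_neg, abs_sub_comm]; exact hL U hU W hW) hr
  refine le_trans (le_of_eq ?_) h
  congr 1
  ext U
  simp only [Set.mem_ofPred_eq, integral_neg]
  constructor <;> intro h <;> linarith

/-- upper tail of a `C^1` function with bounded gradient -/
theorem RD.tail (hμ : SOInv μ) (hn : 2 < n) {f : Mat n → ℝ} {D : Fin n × Fin n → Mat n → ℝ}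
    (hf : RD f D) {G : ℝ} (hG0 : 0 < G) (hG : ∀ U ∈ SO n, sqD D U ≤ G) {r : ℝ} (hr : 0 ≤ r) :
    μ.real {U | ∫ V, f V ∂μ + r ≤ f U} ≤ Real.exp (-(((n : ℝ) - 2) * r ^ 2 / (2 * G))) := by
  have hρ0 : (0 : ℝ) < (n : ℝ) - 2 := by
    have : (2 : ℝ) < n := by exact_mod_cast hn
    linarith
  have ht : 0 ≤ ((n : ℝ) - 2) * r / G := by positivity
  refine (measure_ge_le_exp_mul_mgf _ ht (int_exp hμ hf.c _)).trans
    ((mul_le_mul_of_nonneg_left (hf.mgf_le hμ hn hG ht) (Real.exp_pos _).le).trans ?_)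
  rw [← Real.exp_add]
  apply le_of_eq
  congr 1
  field_simp; ring

/-- **two-set concentration** on `SO(n)` for the Frobenius distance -/
theorem two_set (hμ : SOInv μ) (hn : 2 < n) {S T : Set (Mat n)} {r : ℝ} (hr : 0 ≤ r)
    (hST : ∀ U ∈ S, ∀ W ∈ T, r ^ 2 ≤ fd U W) :
    μ.real S * μ.real T ≤ Real.exp (-(((n : ℝ) - 2) * r ^ 2 / 16)) := by
  have hρ0 : (0 : ℝ) < (n : ℝ) - 2 := by
    have : (2 : ℝ) < n := by exact_mod_cast hn
    linarith
  rcases S.eq_empty_or_nonempty with hS | hS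
  · rw [hS]; simp [(Real.exp_pos _).le]
  set e : Mat n → EuclideanSpace ℝ (Fin n × Fin n) := fun U => WithLp.toLp 2 fun ab => U ab.1 ab.2
    with he
  have hd : ∀ U W, dist (e U) (e W) = √(fd U W) := fun U W => by
    rw [EuclideanSpace.dist_eq, fd, Fintype.sum_prod_type]
    simp [he, Real.dist_eq]
  set f : Mat n → ℝ := fun U => Metric.infDist (e U) (e '' S) with hf
  have hL : ∀ U ∈ SO n, ∀ W ∈ SO n, |f U - f W| ≤ 1 * √(fd U W) := fun U _ W _ => by
    have := (Metric.lipschitz_infDist_pt (e '' S)).dist_le_mul (e U) (e W)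
    rw [hd] at this
    simpa [Real.dist_eq] using this
  have hL' : ∀ U ∈ SO n, ∀ W ∈ SO n, |(fun U => -f U) U - (fun U => -f U) W| ≤ 1 * √(fd U W) :=
    fun U hU W hW => by
      simp only [neg_sub_neg]; rw [abs_sub_comm]; exact hL U hU W hW
  set t := ((n : ℝ) - 2) * r / 8 with ht
  have ht0 : 0 ≤ t := by positivity
  have h1 : μ.real T ≤ Real.exp (-t * r) * mgf f μ t := by
    refine le_trans (measureReal_mono fun W hW => ?_)
      (measure_ge_le_exp_mul_mgf r ht0 (int_exp hμ (contOn_of_lip hL) _))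
    simp only [Set.mem_ofPred_eq, hf]
    rw [Metric.le_infDist (hS.image e)]
    rintro _ ⟨U, hU, rfl⟩
    rw [dist_comm, hd]
    exact Real.le_sqrt_of_sq_le (hST U hU W hW)
  have h2 : μ.real S ≤ Real.exp (-t * 0) * mgf (fun U => -f U) μ t := by
    refine le_trans (measureReal_mono fun U hU => ?_)
      (measure_ge_le_exp_mul_mgf 0 ht0 (int_exp hμ (contOn_of_lip hL') _))
    simp only [Set.mem_ofPred_eq, hf]
    rw [Metric.infDist_zero_of_mem (mem_image_of_mem e hU)]; simp
  have h3 := h1.trans (mul_le_mul_of_nonneg_left (lip_mgf_le hμ hn hL ht0) (Real.exp_pos _).le)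
  have h4 := h2.trans (mul_le_mul_of_nonneg_left (lip_mgf_le hμ hn hL' ht0) (Real.exp_pos _).le)
  refine (mul_le_mul h4 h3 measureReal_nonneg (by positivity)).trans (le_of_eq ?_)
  rw [← Real.exp_add, ← Real.exp_add, ← Real.exp_add, integral_neg, ht]
  congr 1
  field_simp; ring

/-! ### (HD) on `SO(n)` -/

/-- (HD), mean form: `f ≤ x`, `E f ≤ x/2`, `|Df|² ≤ A` on `G`, `≤ M` everywhere. -/
theorem RD.hd (hμ : SOInv μ) (hn : 2 < n) {f : Mat n → ℝ} {D : Fin n × Fin n → Mat n → ℝ}
    (hf : RD f D) {G : Set (Mat n)} (hGm : MeasurableSet G) {A M x : ℝ} (hA : 0 < A) (hx : 0 ≤ x)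
    (hM0 : 0 ≤ M) (hG : ∀ U ∈ SO n, U ∈ G → sqD D U ≤ A) (hM : ∀ U ∈ SO n, sqD D U ≤ M)
    (hfx : ∀ U ∈ SO n, f U ≤ x) (hm : ∫ U, f U ∂μ ≤ x / 2) :
    μ.real {U | x ≤ f U} ≤ Real.exp (-(((n : ℝ) - 2) * x ^ 2 / (16 * A))) + M / A * μ.real Gᶜ := by
  have hρ0 : (0 : ℝ) < (n : ℝ) - 2 := by
    have : (2 : ℝ) < n := by exact_mod_cast hn
    linarith
  have h := herbst_defect (P := μ) (int_exp hμ hf.c) (a := A / (2 * ((n : ℝ) - 2)))
    (M := M / (2 * ((n : ℝ) - 2))) (δ := μ.real Gᶜ) (by positivity) hx (by positivity) hm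
    fun u hu => (hf.entE_le hμ hn u).trans ?_
  · refine h.trans (le_of_eq ?_)
    congr 1
    · congr 1; field_simp; ring
    · field_simp
  · have h1 : ∫ U, sqD D U * Real.exp (u * f U) ∂μ ≤
        A * mgf f μ u + M * Real.exp (u * x) * μ.real Gᶜ := by
      have i1 := (int_exp hμ hf.c u).const_mul A
      have i2 : Integrable (Gᶜ.indicator fun _ => M * Real.exp (u * x)) μ :=
        (integrable_const _).indicator hGm.compl
      have h2 : ∫ U, sqD D U * Real.exp (u * f U) ∂μ ≤
          ∫ U, (A * Real.exp (u * f U) + Gᶜ.indicator (fun _ => M * Real.exp (u * x)) U) ∂μ := by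
        refine integral_mono_ae (integrable_of hμ (hf.cD.mul
          (Real.continuous_exp.comp_continuousOn (continuousOn_const.mul hf.c)))) (i1.add i2) ?_
        filter_upwards [hμ.mem] with U hU
        by_cases hUG : U ∈ G
        · rw [Set.indicator_of_notMem (by simpa using hUG), add_zero]
          exact mul_le_mul_of_nonneg_right (hG U hU hUG) (Real.exp_pos _).le
        · rw [Set.indicator_of_mem (by simpa using hUG)]
          have h3 : Real.exp (u * f U) ≤ Real.exp (u * x) :=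
            Real.exp_le_exp.mpr (mul_le_mul_of_nonneg_left (hfx U hU) hu.le)
          have h4 := mul_le_mul (hM U hU) h3 (Real.exp_pos _).le hM0
          have h5 : 0 ≤ A * Real.exp (u * f U) := by positivity
          linarith
      rw [integral_add i1 i2, integral_const_mul, integral_indicator_const _ hGm.compl,
        smul_eq_mul] at h2
      unfold mgf
      linarith
    refine mul_le_mul_of_nonneg_left ?_ (sq_nonneg u)
    calc _ ≤ (2 * ((n : ℝ) - 2))⁻¹ * (A * mgf f μ u + M * Real.exp (u * x) * μ.real Gᶜ) := by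
          gcongr
      _ = _ := by ring

/-- derivative of the step -/
noncomputable def st' (s : ℝ) : ℝ := max 0 (6 * s * (1 - s))

/-- a `C^1` step from `0` (on `u ≤ 0`) to `1` (on `u ≥ 1`) -/
noncomputable def st (u : ℝ) : ℝ := ∫ s in (0 : ℝ)..u, st' s

theorem continuous_st' : Continuous st' := by unfold st'; fun_prop

theorem st'_nonneg (s : ℝ) : 0 ≤ st' s := le_max_left _ _

theorem st'_le (s : ℝ) : st' s ≤ 3 / 2 := max_le (by norm_num) (by nlinarith [sq_nonneg (2 * s - 1)])

theorem hasDerivAt_st (u : ℝ) : HasDerivAt st (st' u) u :=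
  continuous_st'.deriv_integral st' 0 u ▸ (intervalIntegral.differentiable_integral_of_continuous
    continuous_st' u).hasDerivAt

theorem st_mono : Monotone st :=
  monotone_of_hasDerivAt_nonneg hasDerivAt_st fun u => st'_nonneg u

theorem st_of_nonpos {u : ℝ} (hu : u ≤ 0) : st u = 0 := by
  unfold st
  rw [intervalIntegral.integral_congr (g := fun _ => (0 : ℝ))]
  · simp
  · intro s hs
    rw [uIcc_of_ge hu] at hs
    exact max_eq_left (by nlinarith [hs.2])

theorem st_one : st 1 = 1 := by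
  unfold st
  rw [intervalIntegral.integral_congr (g := fun s => 6 * s - 6 * s ^ 2)]
  · rw [intervalIntegral.integral_sub (by apply Continuous.intervalIntegrable; fun_prop)
      (by apply Continuous.intervalIntegrable; fun_prop), intervalIntegral.integral_const_mul,
      intervalIntegral.integral_const_mul]
    simp; norm_num
  · intro s hs
    rw [uIcc_of_le zero_le_one] at hs
    unfold st'
    rw [max_eq_right (by nlinarith [hs.1, hs.2])]; ring

theorem st_of_one_le {u : ℝ} (hu : 1 ≤ u) : st u = 1 := by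
  have h1 : st u = st 1 + ∫ s in (1 : ℝ)..u, st' s :=
    (intervalIntegral.integral_add_adjacent_intervals (continuous_st'.intervalIntegrable _ _)
      (continuous_st'.intervalIntegrable _ _)).symm
  rw [h1, st_one, intervalIntegral.integral_congr (g := fun _ => (0 : ℝ))]
  · simp
  · intro s hs
    rw [uIcc_of_le hu] at hs
    exact max_eq_left (by nlinarith [hs.1])

theorem st_le_one (u : ℝ) : st u ≤ 1 := by
  rw [← st_of_one_le (le_max_right u 1)]; exact st_mono (le_max_left _ _)

/-- **(HD), median form**: if `P(F > c) ≤ 1/2`, `|DF|² ≤ A` on `G ∩ {c < F < c + x}` and `≤ M` on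
`{c < F < c + x}`, then `P(F ≥ c + x) ≤ exp(-(n-2)x²/(36A)) + (M/A) P(Gᶜ)`. -/
theorem RD.hd_med (hμ : SOInv μ) (hn : 2 < n) {F : Mat n → ℝ} {D : Fin n × Fin n → Mat n → ℝ}
    (hF : RD F D) {G : Set (Mat n)} (hGm : MeasurableSet G) {A M x c : ℝ} (hA : 0 < A) (hx : 0 < x)
    (hM0 : 0 ≤ M) (hG : ∀ U ∈ SO n, U ∈ G → c < F U → F U < c + x → sqD D U ≤ A)
    (hM : ∀ U ∈ SO n, c < F U → F U < c + x → sqD D U ≤ M)
    (hc : μ.real {U | c < F U} ≤ 1 / 2) :
    μ.real {U | c + x ≤ F U} ≤
      Real.exp (-(((n : ℝ) - 2) * x ^ 2 / (36 * A))) + M / A * μ.real Gᶜ := by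
  have hφ : ∀ y, HasDerivAt (fun y => x * st ((y - c) / x)) (st' ((y - c) / x)) y := fun y => by
    have h1 : HasDerivAt (fun y => (y - c) / x) (1 / x) y := ((hasDerivAt_id y).sub_const c).div_const x
    refine (((hasDerivAt_st _).comp y h1).const_mul x).congr_deriv ?_
    field_simp
  have hf := hF.comp (S := univ) (fun _ _ => trivial) (fun y _ => hφ y)
    (continuous_st'.comp (by fun_prop)).continuousOn
  have hb : ∀ U, ∀ B : ℝ, 0 ≤ B → (c < F U → F U < c + x → sqD D U ≤ B) →
      sqD (fun a U => st' ((F U - c) / x) * D a U) U ≤ 9 / 4 * B := by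
    intro U B hB h
    have e : sqD (fun a U => st' ((F U - c) / x) * D a U) U = st' ((F U - c) / x) ^ 2 * sqD D U := by
      unfold sqD; simp only [mul_pow, Finset.mul_sum]
    rw [e]
    by_cases h1 : c < F U ∧ F U < c + x
    · have h2 := st'_nonneg ((F U - c) / x)
      have h3 := st'_le ((F U - c) / x)
      exact mul_le_mul (by nlinarith) (h h1.1 h1.2) (sqD_nonneg _ _) (by norm_num)
    · have h2 : st' ((F U - c) / x) = 0 := by
        refine max_eq_left ?_
        rcases not_and_or.mp h1 with h2 | h2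
        · have : (F U - c) / x ≤ 0 := div_nonpos_of_nonpos_of_nonneg (by linarith) hx.le
          nlinarith
        · have : 1 ≤ (F U - c) / x := (one_le_div hx).mpr (by linarith)
          nlinarith
      rw [h2]; simp; positivity
  have hm : ∫ U, x * st ((F U - c) / x) ∂μ ≤ x / 2 := by
    have hms : NullMeasurableSet {U | c < F U} μ :=
      nullMeasurableSet_lt aemeasurable_const (aesm_of hμ hF.c).aemeasurable
    have h1 : ∫ U, x * st ((F U - c) / x) ∂μ ≤ ∫ U, {U | c < F U}.indicator (fun _ => x) U ∂μ := by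
      refine integral_mono_ae (integrable_of hμ hf.c) ((integrable_const _).indicator₀ hms)
        (Eventually.of_forall fun U => ?_)
      by_cases h : c < F U
      · simp only
        rw [Set.indicator_of_mem (by simpa using h)]
        exact mul_le_of_le_one_right hx.le (st_le_one _)
      · simp only
        rw [Set.indicator_of_notMem (by simpa using h),
          st_of_nonpos (div_nonpos_of_nonpos_of_nonneg (by linarith) hx.le), mul_zero]
    rw [integral_indicator₀ hms, setIntegral_const, smul_eq_mul] at h1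
    nlinarith
  have h := hf.hd hμ hn hGm (A := 9 / 4 * A) (M := 9 / 4 * M) (by positivity) hx.le (by positivity)
    (fun U hU hUG => hb U A hA.le (hG U hU hUG)) (fun U hU => hb U M hM0 (hM U hU))
    (fun U _ => mul_le_of_le_one_right hx.le (st_le_one _)) hm
  refine le_trans (measureReal_mono fun U hU => ?_) (h.trans (le_of_eq ?_))
  · simp only [Set.mem_ofPred_eq] at hU ⊢
    rw [st_of_one_le ((one_le_div hx).mpr (by linarith)), mul_one]
  · congr 1
    · congr 1; field_simp; ring
    · field_simp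

end Crest.Agent.T157.Oc
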