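import Crest.Agent.T157.OcE_9
import Crest.Agent.T157.KsB_5

set_option autoImplicit false
set_option linter.unusedSectionVars false

/-!
Row 157, A2 (helper9): calculus on the orbits `W ↦ g W gᵀ` (section 3 of crit19), cube frame.
-/

noncomputable section

namespace Crest.Agent.T157.Od

open MeasureTheory Matrix Crest.Agent.Lib.OrthPoinc Filter Topology Set
open Crest.Agent.T157.Oc Crest.Agent.T157.E Crest.Agent.T157.SL Crest.Agent.T157.Ks

variable {k : ℕ}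

/-! ### matrices and vectors of `C^1` functions -/

/-- entrywise `RD`, matrices -/
def RDM {α β : Type*} (F : Mat k → Matrix α β ℝ) (D : Fin k × Fin k → Mat k → Matrix α β ℝ) : Prop :=
  ∀ i j, RD (fun U => F U i j) fun a U => D a U i j

/-- entrywise `RD`, vectors -/
def RDV {α : Type*} (x : Mat k → α → ℝ) (D : Fin k × Fin k → Mat k → α → ℝ) : Prop :=
  ∀ i, RD (fun U => x U i) fun a U => D a U i

section Calc

variable {α β γ : Type*} [Fintype α] [Fintype β] [Fintype γ]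
  {F G : Mat k → Matrix α β ℝ} {D D' : Fin k × Fin k → Mat k → Matrix α β ℝ}
  {x y : Mat k → β → ℝ} {d d' : Fin k × Fin k → Mat k → β → ℝ}

theorem RDM.const (A : Matrix α β ℝ) : RDM (k := k) (fun _ => A) fun _ _ => 0 := fun _ _ => RD.const _

theorem RDM.add (hF : RDM F D) (hG : RDM G D') :
    RDM (fun U => F U + G U) fun a U => D a U + D' a U := fun i j => (hF i j).add (hG i j)

theorem RDM.sub (hF : RDM F D) (hG : RDM G D') :
    RDM (fun U => F U - G U) fun a U => D a U - D' a U := fun i j => (hF i j).sub (hG i j)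

theorem RDM.smul (hF : RDM F D) (c : ℝ) : RDM (fun U => c • F U) fun a U => c • D a U :=
  fun i j => (hF i j).const_mul c

theorem RDM.transpose (hF : RDM F D) : RDM (fun U => (F U)ᵀ) fun a U => (D a U)ᵀ :=
  fun i j => hF j i

theorem RDM.congr (hF : RDM F D) (h1 : ∀ U ∈ SO k, F U = G U) (h2 : ∀ a, ∀ U ∈ SO k, D a U = D' a U) :
    RDM G D' := fun i j =>
  (hF i j).congr (fun U hU => by rw [h1 U hU]) fun a U hU => by rw [h2 a U hU]

theorem RDM.mul {H : Mat k → Matrix β γ ℝ} {D'' : Fin k × Fin k → Mat k → Matrix β γ ℝ}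
    (hF : RDM F D) (hH : RDM H D'') :
    RDM (fun U => F U * H U) fun a U => D a U * H U + F U * D'' a U := fun i j =>
  (RD.sum Finset.univ fun l _ => (hF i l).mul (hH l j)).congr (fun _ _ => rfl) fun a U _ => by
    simp only [Matrix.add_apply, Matrix.mul_apply, Finset.sum_add_distrib]

theorem RDV.const (v : β → ℝ) : RDV (k := k) (fun _ => v) fun _ _ => 0 := fun _ => RD.const _

theorem RDV.add (hx : RDV x d) (hy : RDV y d') :
    RDV (fun U => x U + y U) fun a U => d a U + d' a U := fun i => (hx i).add (hy i)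

theorem RDV.sub (hx : RDV x d) (hy : RDV y d') :
    RDV (fun U => x U - y U) fun a U => d a U - d' a U := fun i => (hx i).sub (hy i)

theorem RDV.congr (hx : RDV x d) (h1 : ∀ U ∈ SO k, x U = y U) (h2 : ∀ a, ∀ U ∈ SO k, d a U = d' a U) :
    RDV y d' := fun i =>
  (hx i).congr (fun U hU => by rw [h1 U hU]) fun a U hU => by rw [h2 a U hU]

theorem RDM.mulVec (hF : RDM F D) (hx : RDV x d) :
    RDV (fun U => F U *ᵥ x U) fun a U => D a U *ᵥ x U + F U *ᵥ d a U := fun i =>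
  (RD.sum Finset.univ fun l _ => (hF i l).mul (hx l)).congr (fun _ _ => rfl) fun a U _ => by
    simp only [Pi.add_apply, Matrix.mulVec, dotProduct, Finset.sum_add_distrib]

theorem RDV.dot (hx : RDV x d) (hy : RDV y d') :
    RD (fun U => x U ⬝ᵥ y U) fun a U => d a U ⬝ᵥ y U + x U ⬝ᵥ d' a U :=
  (RD.sum Finset.univ fun l _ => (hx l).mul (hy l)).congr (fun _ _ => rfl) fun a U _ => by
    simp only [dotProduct, Finset.sum_add_distrib]

theorem RD.unique {f : Mat k → ℝ} {e e' : Fin k × Fin k → Mat k → ℝ} (h : RD f e) (h' : RD f e')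
    (a : Fin k × Fin k) {U : Mat k} (hU : U ∈ SO k) : e a U = e' a U :=
  ((h.r a).d U hU).unique ((h'.r a).d U hU)

theorem exists_RD_prod {κ : Type*} (s : Finset κ) {f : κ → Mat k → ℝ} (h : ∀ i, ∃ e, RD (f i) e) :
    ∃ e, RD (fun U => ∏ i ∈ s, f i U) e := by
  classical
  induction s using Finset.induction_on with
  | empty => exact ⟨_, by simpa using RD.const 1⟩
  | insert j s hj ih =>
    obtain ⟨e, he⟩ := ih
    obtain ⟨e', he'⟩ := h j
    exact ⟨_, (he'.mul he).congr (fun U _ => by rw [Finset.prod_insert hj]) fun _ _ _ => rfl⟩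

theorem exists_RD_det [DecidableEq α] {M : Mat k → Matrix α α ℝ}
    (h : ∀ i j, ∃ e, RD (fun U => M U i j) e) : ∃ e, RD (fun U => (M U).det) e := by
  choose e he using fun σ : Equiv.Perm α =>
    exists_RD_prod (k := k) Finset.univ (f := fun i U => M U (σ i) i) fun i => h _ _
  exact ⟨_, (RD.sum Finset.univ fun σ _ => (he σ).const_mul (Equiv.Perm.sign σ : ℝ)).congr
    (fun U _ => (det_apply' (M U)).symm) fun _ _ _ => rfl⟩

/-- `D (M⁻¹) = - M⁻¹ (D M) M⁻¹` -/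
theorem RDM.inv [DecidableEq α] {M : Mat k → Matrix α α ℝ} {DM : Fin k × Fin k → Mat k → Matrix α α ℝ}
    (hM : RDM M DM) (h0 : ∀ U ∈ SO k, 0 < (M U).det) :
    RDM (fun U => (M U)⁻¹) fun a U => -((M U)⁻¹ * DM a U * (M U)⁻¹) := by
  obtain ⟨e, he⟩ := exists_RD_det fun i j => ⟨_, hM i j⟩
  have h1 : RD (fun U => ((M U).det)⁻¹) fun a U => -((M U).det)⁻¹ ^ 2 * e a U :=
    ⟨he.c.inv₀ fun U hU => (h0 U hU).ne', fun a => (he.r a).inv h0⟩
  have h2 : ∀ i j, ∃ e, RD (fun U => (M U).adjugate i j) e := by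
    intro i j
    simp only [adjugate_apply]
    refine exists_RD_det fun a b => ?_
    by_cases hab : a = j
    · subst hab
      simp only [updateRow_self]
      exact ⟨_, RD.const _⟩
    · simp only [updateRow_ne hab]
      exact ⟨_, hM a b⟩
  choose e2 he2 using h2
  have h3 : RDM (fun U => (M U)⁻¹) fun a U => Matrix.of fun i j =>
      -((M U).det)⁻¹ ^ 2 * e a U * (M U).adjugate i j + ((M U).det)⁻¹ * e2 i j a U := fun i j =>
    (h1.mul (he2 i j)).congr (fun U _ => by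
      simp only [Matrix.inv_def, Ring.inverse_eq_inv', Matrix.smul_apply, smul_eq_mul]) fun _ _ _ => rfl
  refine h3.congr (fun _ _ => rfl) fun a U hU => ?_
  have hu : ∀ U ∈ SO k, IsUnit (M U).det := fun U hU => (h0 U hU).ne'.isUnit
  have h4 := (hM.mul h3).congr (G := fun _ => 1) (fun U hU => mul_nonsing_inv _ (hu U hU))
    fun _ _ _ => rfl
  set Y := Matrix.of fun i j => -((M U).det)⁻¹ ^ 2 * e a U * (M U).adjugate i j +
    ((M U).det)⁻¹ * e2 i j a U with hY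
  have h5 : DM a U * (M U)⁻¹ + M U * Y = 0 := by
    ext i j
    exact RD.unique (h4 i j) (RDM.const (k := k) (1 : Matrix α α ℝ) i j) a hU
  have h6 : (M U)⁻¹ * (DM a U * (M U)⁻¹ + M U * Y) = 0 := by rw [h5, Matrix.mul_zero]
  rw [Matrix.mul_add, ← Matrix.mul_assoc, ← Matrix.mul_assoc, nonsing_inv_mul _ (hu U hU),
    Matrix.one_mul] at h6
  exact eq_neg_of_add_eq_zero_right h6

end Calc

/-! ### Gibbs weights -/

section Gibbs

variable {Ω : Type*} [Fintype Ω] {w0 : Ω → ℝ} {H f g : Ω → Mat k → ℝ}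
  {DH Df Dg : Ω → Fin k × Fin k → Mat k → ℝ}

/-- the weight `w0 e^H` -/
def gw (w0 : Ω → ℝ) (H : Ω → Mat k → ℝ) (U : Mat k) (x : Ω) : ℝ := w0 x * Real.exp (H x U)

theorem wt_gw (hw : Wt w0) (U : Mat k) : Wt (gw w0 H U) := hw.mul_pos fun _ => Real.exp_pos _

theorem gAv_eq (u : Ω → ℝ) (U : Mat k) : gAv w0 H u U = mean (gw w0 H U) u := by
  rw [mean_eq_div]; rfl

theorem rd_logZ (hw : Wt w0) (hH : ∀ x, RD (H x) (DH x)) :
    RD (fun U => Real.log (Zw (gw w0 H U))) fun a U => mean (gw w0 H U) fun x => DH x a U := by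
  have := RD.logZ (w := w0) hH fun U _ => (wt_gw hw U).pos
  simp only [gAv_eq] at this
  exact this

theorem rd_mean (hw : Wt w0) (hH : ∀ x, RD (H x) (DH x)) (hf : ∀ x, RD (f x) (Df x)) :
    RD (fun U => mean (gw w0 H U) fun x => f x U) fun a U => (mean (gw w0 H U) fun x => Df x a U) +
      cov (gw w0 H U) (fun x => f x U) fun x => DH x a U := by
  have := RD.gibbs (w := w0) hH hf fun U _ => (wt_gw hw U).pos
  simp only [gAv_eq] at this
  exact this.congr (fun _ _ => rfl) fun a U _ => by rw [(wt_gw hw U).cov_eq]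

theorem rd_mean' (hw : Wt w0) (hH : ∀ x, RD (H x) (DH x)) (u : Ω → ℝ) :
    RD (fun U => mean (gw w0 H U) u) fun a U => cov (gw w0 H U) u fun x => DH x a U :=
  (rd_mean (f := fun x _ => u x) hw hH fun x => RD.const (u x)).congr (fun _ _ => rfl)
    fun a U _ => by rw [(wt_gw hw U).mean_const, zero_add]

theorem rd_cov' (hw : Wt w0) (hH : ∀ x, RD (H x) (DH x)) (u v : Ω → ℝ) :
    RD (fun U => cov (gw w0 H U) u v) fun a U => cum3 (gw w0 H U) u v fun x => DH x a U :=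
  ((rd_mean' hw hH fun x => u x * v x).sub ((rd_mean' hw hH u).mul (rd_mean' hw hH v))).congr
    (fun U _ => ((wt_gw hw U).cov_eq u v).symm) fun a U _ => by rw [(wt_gw hw U).cum3_eq]

end Gibbs

/-! ### the orbit -/

section Orbit

variable {Ω ι : Type*} [Fintype Ω] [Fintype ι] [DecidableEq ι]

/-- `g W gᵀ` -/
def WU (E : Matrix ι (Fin k) ℝ) (W : Matrix ι ι ℝ) (U : Mat k) : Matrix ι ι ℝ :=
  emb E U * W * (emb E U)ᵀ

/-- `z - g W gᵀ` -/
def AU (E : Matrix ι (Fin k) ℝ) (W : Matrix ι ι ℝ) (z : ℝ) (U : Mat k) : Matrix ι ι ℝ :=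
  z • (1 : Matrix ι ι ℝ) - WU E W U

/-- the generators in the cube frame -/
def thU (E : Matrix ι (Fin k) ℝ) (a : Fin k × Fin k) (U : Mat k) : Matrix ι ι ℝ :=
  thE (E * Matrix.of U) a

/-- the Hamiltonian `(σ - p)·W_U (σ - p) / 2` -/
def HU (E : Matrix ι (Fin k) ℝ) (W : Matrix ι ι ℝ) (p : ι → ℝ) (σ : Ω → ι → ℝ) (x : Ω) (U : Mat k) : ℝ :=
  (σ x - p) ⬝ᵥ WU E W U *ᵥ (σ x - p) / 2

/-- the Gibbs weight on the orbit -/
abbrev cw (E : Matrix ι (Fin k) ℝ) (W : Matrix ι ι ℝ) (p : ι → ℝ) (σ : Ω → ι → ℝ) (w0 : Ω → ℝ) :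
    Mat k → Ω → ℝ := gw w0 (HU E W p σ)

/-- the score `(σ - p)·A θ (σ - p)` -/
def hq (A θ : Matrix ι ι ℝ) (p : ι → ℝ) (σ : Ω → ι → ℝ) (x : Ω) : ℝ :=
  A *ᵥ (σ x - p) ⬝ᵥ θ *ᵥ (σ x - p)

variable {E : Matrix ι (Fin k) ℝ} {W : Matrix ι ι ℝ} {p : ι → ℝ} {σ : Ω → ι → ℝ} {w0 : Ω → ℝ} {z : ℝ}

theorem of_orth' {U : Mat k} (hU : U ∈ SO k) : (Matrix.of U)ᵀ * Matrix.of U = 1 := by
  ext i j
  simp only [Matrix.mul_apply, transpose_apply, of_apply, so_cols hU, one_apply]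

theorem EU_iso (hE : Eᵀ * E = 1) {U : Mat k} (hU : U ∈ SO k) :
    (E * Matrix.of U)ᵀ * (E * Matrix.of U) = 1 := by
  rw [transpose_mul, Matrix.mul_assoc, ← Matrix.mul_assoc Eᵀ, hE, Matrix.one_mul, of_orth' hU]

theorem thU_transpose (a : Fin k × Fin k) (U : Mat k) : (thU E a U)ᵀ = -thU E a U := thE_transpose a

theorem thU_mulVec {v : ι → ℝ} (hv : Eᵀ *ᵥ v = 0) (a : Fin k × Fin k) (U : Mat k) :
    thU E a U *ᵥ v = 0 := by
  rw [thU, thE, transpose_mul, ← mulVec_mulVec, ← mulVec_mulVec, ← mulVec_mulVec, ← mulVec_mulVec, hv]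
  simp

theorem emb_orth' (hE : Eᵀ * E = 1) {U : Mat k} (hU : U ∈ SO k) : (emb E U)ᵀ * emb E U = 1 :=
  mul_eq_one_comm.mp (emb_orth hE hU)

theorem emb_thE (hE : Eᵀ * E = 1) (a : Fin k × Fin k) {U : Mat k} (hU : U ∈ SO k) :
    emb E U * thE E a = thU E a U * emb E U := by
  rw [thU, ← emb_mul_E hE, thE, thE, transpose_mul]
  simp only [Matrix.mul_assoc]
  rw [emb_orth' hE hU, Matrix.mul_one]

theorem WU_symm (hW : Wᵀ = W) (U : Mat k) : (WU E W U)ᵀ = WU E W U := by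
  simp only [WU, transpose_mul, transpose_transpose, hW, Matrix.mul_assoc]

theorem AU_symm (hW : Wᵀ = W) (U : Mat k) : (AU E W z U)ᵀ = AU E W z U := by
  simp only [AU, transpose_sub, transpose_smul, transpose_one, WU_symm hW]

theorem AU_eq (hE : Eᵀ * E = 1) {U : Mat k} (hU : U ∈ SO k) :
    AU E W z U = emb E U * (z • (1 : Matrix ι ι ℝ) - W) * (emb E U)ᵀ := by
  rw [AU, WU, Matrix.mul_sub, Matrix.sub_mul, Matrix.mul_smul, Matrix.mul_one, Matrix.smul_mul,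
    emb_orth hE hU]

theorem rd_emb (hE : Eᵀ * E = 1) : RDM (emb E) fun a U => thU E a U * emb E U :=
  RDM.congr (F := emb E) (RD.emb hE) (fun _ _ => rfl) fun a _ hU => emb_thE hE a hU

theorem rd_embT (hE : Eᵀ * E = 1) :
    RDM (fun U => (emb E U)ᵀ) fun a U => -((emb E U)ᵀ * thU E a U) :=
  (rd_emb hE).transpose.congr (fun _ _ => rfl) fun a U _ => by
    rw [transpose_mul, thU_transpose, Matrix.mul_neg]

theorem rd_WU (hE : Eᵀ * E = 1) :
    RDM (WU E W) fun a U => thU E a U * WU E W U - WU E W U * thU E a U :=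
  (((rd_emb hE).mul (RDM.const W)).mul (rd_embT hE)).congr (fun _ _ => rfl) fun a U _ => by
    simp only [WU, Matrix.mul_zero, add_zero, Matrix.mul_neg, Matrix.mul_assoc, sub_eq_add_neg]

theorem rd_AU (hE : Eᵀ * E = 1) :
    RDM (AU E W z) fun a U => thU E a U * AU E W z U - AU E W z U * thU E a U :=
  ((RDM.const _).sub (rd_WU hE)).congr (fun _ _ => rfl) fun a U _ => by
    simp only [AU, Matrix.mul_sub, Matrix.sub_mul, Matrix.mul_smul, Matrix.smul_mul, Matrix.mul_one,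
      Matrix.one_mul]
    abel

theorem skew_dot {θ : Matrix ι ι ℝ} (hθ : θᵀ = -θ) (u v : ι → ℝ) : u ⬝ᵥ θ *ᵥ v = -(v ⬝ᵥ θ *ᵥ u) := by
  rw [dotProduct_mulVec, ← mulVec_transpose, hθ, neg_mulVec, neg_dotProduct, dotProduct_comm]

theorem symm_dot {A : Matrix ι ι ℝ} (hA : Aᵀ = A) (u v : ι → ℝ) : u ⬝ᵥ A *ᵥ v = A *ᵥ u ⬝ᵥ v := by
  rw [dotProduct_mulVec, ← mulVec_transpose, hA]

theorem rd_HU (hE : Eᵀ * E = 1) (hW : Wᵀ = W) (z : ℝ) (x : Ω) :
    RD (HU E W p σ x) fun a U => hq (AU E W z U) (thU E a U) p σ x := by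
  have h := ((RDV.const (σ x - p)).dot ((rd_WU (W := W) hE).mulVec (RDV.const (σ x - p)))).const_mul
    (1 / 2)
  refine h.congr (fun U _ => by rw [HU]; ring) fun a U _ => ?_
  rw [hq]
  generalize σ x - p = s
  have h1 := skew_dot (thU_transpose (E := E) a U) s (WU E W U *ᵥ s)
  have h2 := skew_dot (thU_transpose (E := E) a U) s s
  have h3 := symm_dot (WU_symm (E := E) hW U) s (thU E a U *ᵥ s)
  simp only [AU, sub_mulVec, smul_mulVec, one_mulVec, sub_dotProduct, smul_dotProduct,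
    zero_dotProduct, mulVec_zero, add_zero, zero_add, dotProduct_sub, ← mulVec_mulVec, smul_eq_mul]
  have h4 : s ⬝ᵥ thU E a U *ᵥ s = 0 := by linarith
  rw [h4]
  linarith

/-- third cumulant matrix `κ₃(σ, σ, h)` -/
def c3 (w : Ω → ℝ) (σ : Ω → ι → ℝ) (h : Ω → ℝ) : Matrix ι ι ℝ :=
  Matrix.of fun i j => cum3 w (fun x => σ x i) (fun x => σ x j) h

/-- derivative of `gᵀ(m - p)`, rotated back -/
def dDel (w : Ω → ℝ) (σ : Ω → ι → ℝ) (p : ι → ℝ) (A θ : Matrix ι ι ℝ) : ι → ℝ :=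
  covV w (hq A θ p σ) σ - θ *ᵥ (meanV w σ - p)

/-- derivative of `A (m - p)` -/
def dAd (w : Ω → ℝ) (σ : Ω → ι → ℝ) (p : ι → ℝ) (A θ : Matrix ι ι ℝ) : ι → ℝ :=
  (θ * A - A * θ) *ᵥ (meanV w σ - p) + A *ᵥ covV w (hq A θ p σ) σ

/-- derivative of `gᵀ C g`, rotated back -/
def dCx (w : Ω → ℝ) (σ : Ω → ι → ℝ) (p : ι → ℝ) (A θ : Matrix ι ι ℝ) : Matrix ι ι ℝ :=
  c3 w σ (hq A θ p σ) + (covMat w σ * θ - θ * covMat w σ)

/-- derivative of `A C A - A` -/
def dPhi (w : Ω → ℝ) (σ : Ω → ι → ℝ) (p : ι → ℝ) (A θ : Matrix ι ι ℝ) : Matrix ι ι ℝ :=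
  A * c3 w σ (hq A θ p σ) * A + ((θ * A - A * θ) * covMat w σ * A + A * covMat w σ * (θ * A - A * θ)
    - (θ * A - A * θ))

/-- derivative of `(A C - 1) g`, rotated back -/
def dX1 (w : Ω → ℝ) (σ : Ω → ι → ℝ) (p : ι → ℝ) (A θ : Matrix ι ι ℝ) : Matrix ι ι ℝ :=
  A * c3 w σ (hq A θ p σ) + ((θ * A - A * θ) * covMat w σ + (A * covMat w σ - 1) * θ)

variable (hE : Eᵀ * E = 1) (hW : Wᵀ = W) (hw : Wt w0) (z : ℝ)
include hE hW hw

theorem rd_lZ : RD (fun U => Real.log (Zw (cw E W p σ w0 U))) fun a U =>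
    mean (cw E W p σ w0 U) (hq (AU E W z U) (thU E a U) p σ) := rd_logZ hw (rd_HU hE hW z)

theorem rd_obs (u : Ω → ℝ) : RD (fun U => mean (cw E W p σ w0 U) u) fun a U =>
    cov (cw E W p σ w0 U) u (hq (AU E W z U) (thU E a U) p σ) := rd_mean' hw (rd_HU hE hW z) u

theorem rd_cv (u v : Ω → ℝ) : RD (fun U => cov (cw E W p σ w0 U) u v) fun a U =>
    cum3 (cw E W p σ w0 U) u v (hq (AU E W z U) (thU E a U) p σ) := rd_cov' hw (rd_HU hE hW z) u v

theorem rd_del : RDV (fun U => meanV (cw E W p σ w0 U) σ - p) fun a U =>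
    covV (cw E W p σ w0 U) (hq (AU E W z U) (thU E a U) p σ) σ := fun i =>
  ((rd_obs hE hW hw z fun x => σ x i).sub (RD.const (p i))).congr (fun _ _ => rfl) fun a U _ => by
    rw [sub_zero, cov_comm]; rfl

theorem rd_C : RDM (fun U => covMat (cw E W p σ w0 U) σ) fun a U =>
    c3 (cw E W p σ w0 U) σ (hq (AU E W z U) (thU E a U) p σ) := fun _ _ => rd_cv hE hW hw z _ _

theorem rd_delx : RDV (fun U => (emb E U)ᵀ *ᵥ (meanV (cw E W p σ w0 U) σ - p)) fun a U =>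
    (emb E U)ᵀ *ᵥ dDel (cw E W p σ w0 U) σ p (AU E W z U) (thU E a U) :=
  ((rd_embT hE).mulVec (rd_del hE hW hw z)).congr (fun _ _ => rfl) fun a U _ => by
    rw [dDel, mulVec_sub _ (covV _ _ _), neg_mulVec, mulVec_mulVec]; abel

theorem rd_Ad : RDV (fun U => AU E W z U *ᵥ (meanV (cw E W p σ w0 U) σ - p)) fun a U =>
    dAd (cw E W p σ w0 U) σ p (AU E W z U) (thU E a U) := (rd_AU hE).mulVec (rd_del hE hW hw z)

theorem rd_Cx : RDM (fun U => (emb E U)ᵀ * covMat (cw E W p σ w0 U) σ * emb E U) fun a U =>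
    (emb E U)ᵀ * dCx (cw E W p σ w0 U) σ p (AU E W z U) (thU E a U) * emb E U :=
  (((rd_embT hE).mul (rd_C hE hW hw z)).mul (rd_emb hE)).congr (fun _ _ => rfl) fun a U _ => by
    simp only [dCx, Matrix.mul_add, Matrix.add_mul, Matrix.mul_sub, Matrix.sub_mul, Matrix.neg_mul,
      Matrix.mul_assoc]
    abel

theorem rd_Phi : RDM (fun U => AU E W z U * covMat (cw E W p σ w0 U) σ * AU E W z U - AU E W z U)
    fun a U => dPhi (cw E W p σ w0 U) σ p (AU E W z U) (thU E a U) :=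
  ((((rd_AU hE).mul (rd_C hE hW hw z)).mul (rd_AU hE)).sub (rd_AU hE)).congr (fun _ _ => rfl)
    fun a U _ => by
      simp only [dPhi, Matrix.add_mul]
      abel

theorem rd_X1 : RDM (fun U => (AU E W z U * covMat (cw E W p σ w0 U) σ - 1) * emb E U)
    fun a U => dX1 (cw E W p σ w0 U) σ p (AU E W z U) (thU E a U) * emb E U :=
  ((((rd_AU hE).mul (rd_C hE hW hw z)).sub (RDM.const 1)).mul (rd_emb hE)).congr (fun _ _ => rfl)
    fun a U _ => by
      simp only [dX1, Matrix.add_mul, sub_zero, Matrix.mul_assoc]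
      abel

end Orbit

end Crest.Agent.T157.Od
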