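import Crest.Agent.T157.OdA_9
import Crest.Agent.T157.KsE_5

set_option autoImplicit false
set_option linter.unusedSectionVars false

/-!
Row 157, A2 (helper9): exact formulas and gradient sums on the orbits (sections 3, 5, 6 of crit19).
Everything is pointwise algebra for a finite weight `w`, features `σ`, a symmetric `A`, a centre `p`
and a family `θ a` of skew matrices (`Fam`).
-/

noncomputable section

namespace Crest.Agent.T157.Od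

open MeasureTheory Matrix Crest.Agent.Lib.OrthPoinc Filter Topology Set
open Crest.Agent.T157.Oc Crest.Agent.T157.E Crest.Agent.T157.SL Crest.Agent.T157.Ks

variable {Ω ι κ I J : Type*} [Fintype Ω] [Fintype ι] [DecidableEq ι] [Fintype κ] [Fintype I]
  [Fintype J]

/-- Frobenius pairing -/
def ipF (θ M : ι → ι → ℝ) : ℝ := ∑ j, ∑ l, θ j l * M j l

/-- a Bessel family of skew matrices -/
structure Fam (θ : κ → Matrix ι ι ℝ) : Prop where
  skew : ∀ a, (θ a)ᵀ = -θ a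
  bd : ∀ M : ι → ι → ℝ, ∑ a, ipF (θ a) M ^ 2 ≤ fr fun j l => M j l - M l j

theorem ipF_skew {θ : Matrix ι ι ℝ} (h : θᵀ = -θ) (M : ι → ι → ℝ) :
    ipF θ (fun j l => M j l - M l j) = 2 * ipF θ M := by
  have h1 : ∑ j, ∑ l, θ j l * M l j = -∑ j, ∑ l, θ j l * M j l := by
    rw [Finset.sum_comm, ← Finset.sum_neg_distrib]
    refine Finset.sum_congr rfl fun j _ => ?_
    rw [← Finset.sum_neg_distrib]
    refine Finset.sum_congr rfl fun l _ => ?_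
    have := congrFun (congrFun h j) l
    simp only [transpose_apply, Matrix.neg_apply] at this
    rw [this]; ring
  simp only [ipF, mul_sub, Finset.sum_sub_distrib, h1]
  ring

theorem ipF_eq_trace (θ M : Matrix ι ι ℝ) : ipF θ M = (Mᵀ * θ).trace := by
  simp only [ipF, Matrix.trace, diag_apply, Matrix.mul_apply, transpose_apply]
  rw [Finset.sum_comm]
  exact Finset.sum_congr rfl fun _ _ => Finset.sum_congr rfl fun _ _ => mul_comm _ _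

theorem fam_thE {k : ℕ} {E : Matrix ι (Fin k) ℝ} (hE : Eᵀ * E = 1) : Fam (thE E) := by
  refine ⟨thE_transpose, fun M => ?_⟩
  have h := sum_trace_thE_le hE (Matrix.of fun j l => M j l - M l j)ᵀ
  simp only [← ipF_eq_trace] at h
  have e : ∀ a, ipF (thE E a) (Matrix.of fun j l => M j l - M l j) = 2 * ipF (thE E a) M :=
    fun a => ipF_skew (thE_transpose a) M
  simp only [e, mul_pow, ← Finset.mul_sum, transpose_apply, of_apply] at h
  rw [Finset.sum_comm] at h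
  unfold fr
  linarith

theorem fam_thU {k : ℕ} {E : Matrix ι (Fin k) ℝ} (hE : Eᵀ * E = 1) {U : Mat k} (hU : U ∈ SO k) :
    Fam fun a => thU E a U := fam_thE (EU_iso hE hU)

variable {θ : κ → Matrix ι ι ℝ}

theorem Fam.bd4 (h : Fam θ) (M : ι → ι → ℝ) : ∑ a, ipF (θ a) M ^ 2 ≤ 4 * fr M := by
  refine (h.bd M).trans ?_
  have h1 : fr (fun j l => M j l - M l j) ≤ ∑ j, ∑ l, (2 * M j l ^ 2 + 2 * M l j ^ 2) :=
    Finset.sum_le_sum fun j _ => Finset.sum_le_sum fun l _ => by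
      nlinarith [sq_nonneg (M j l + M l j)]
  simp only [Finset.sum_add_distrib, ← Finset.mul_sum] at h1
  rw [Finset.sum_comm (f := fun j l => M l j ^ 2)] at h1
  unfold fr at *
  linarith

theorem dot_eq_ipF (B : Matrix ι ι ℝ) (u v : ι → ℝ) : u ⬝ᵥ B *ᵥ v = ipF B fun j l => u j * v l := by
  simp only [ipF, dotProduct, mulVec, Finset.mul_sum]
  exact Finset.sum_congr rfl fun _ _ => Finset.sum_congr rfl fun _ _ => by ring

theorem Fam.dot (h : Fam θ) (u v : ι → ℝ) :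
    ∑ a, (u ⬝ᵥ θ a *ᵥ v) ^ 2 ≤ 2 * ((u ⬝ᵥ u) * (v ⬝ᵥ v)) := by
  simp only [dot_eq_ipF]
  refine (h.bd _).trans ?_
  have e : fr (fun j l => u j * v l - u l * v j) =
      2 * ((u ⬝ᵥ u) * (v ⬝ᵥ v)) - 2 * (u ⬝ᵥ v) ^ 2 := by
    have e1 : (u ⬝ᵥ u) * (v ⬝ᵥ v) = ∑ i, ∑ j, u i * u i * (v j * v j) := Finset.sum_mul_sum _ _ _ _
    have e2 : (u ⬝ᵥ u) * (v ⬝ᵥ v) = ∑ i, ∑ j, u j * u j * (v i * v i) := by rw [e1, Finset.sum_comm]
    have e3 : (u ⬝ᵥ v) ^ 2 = ∑ i, ∑ j, u i * v i * (u j * v j) := by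
      rw [sq]; exact Finset.sum_mul_sum _ _ _ _
    rw [two_mul ((u ⬝ᵥ u) * _)]
    nth_rewrite 1 [e1]
    rw [e2, e3, fr]
    simp only [Finset.mul_sum, ← Finset.sum_add_distrib, ← Finset.sum_sub_distrib]
    exact Finset.sum_congr rfl fun i _ => Finset.sum_congr rfl fun j _ => by ring
  rw [e]
  nlinarith [sq_nonneg (u ⬝ᵥ v)]

/-! ### the centred quadratic form -/

/-- the feature `A σ` -/
abbrev fA (A : Matrix ι ι ℝ) (σ : Ω → ι → ℝ) : Ω → ι → ℝ := fun x => A *ᵥ σ x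

/-- `A x̄ · θ x̄` -/
abbrev Qf (w : Ω → ℝ) (σ : Ω → ι → ℝ) (A θ : Matrix ι ι ℝ) : Ω → ℝ := qf w (fA A σ) σ θ

/-- (N): `Var(A x̄ · θ x̄) ≤ N |θ|_F²` for skew `θ` -/
def NB (w : Ω → ℝ) (σ : Ω → ι → ℝ) (A : Matrix ι ι ℝ) (N : ℝ) : Prop :=
  ∀ θ : Matrix ι ι ℝ, θᵀ = -θ → NV (fA A σ) σ θ w ≤ N * fr θ

variable {w f g : Ω → ℝ} {σ : Ω → ι → ℝ} {p : ι → ℝ} {A B : Matrix ι ι ℝ}

theorem meanV_fA : meanV w (fA A σ) = A *ᵥ meanV w σ := by
  ext i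
  exact (meanV_dot w σ (A i)).symm

theorem covV_fA : covV w f (fA A σ) = A *ᵥ covV w f σ := by
  ext i
  exact (covV_dot w f σ (A i)).symm

theorem covV_lin (u : ι → ℝ) : covV w (fun x => u ⬝ᵥ σ x) σ = covMat w σ *ᵥ u :=
  (covMat_mulVec w σ u).symm

theorem dot_fA (hA : Aᵀ = A) (u : ι → ℝ) : (fun x => u ⬝ᵥ fA A σ x) = fun x => A *ᵥ u ⬝ᵥ σ x :=
  funext fun _ => symm_dot hA _ _

theorem cov_center (hw : Wt w) (f g l : Ω → ℝ) :
    cov w f (fun x => (g x - mean w g) * (l x - mean w l)) = cum3 w f g l := by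
  rw [cov_comm, hw.cov_eq', cum3]
  congr 1; funext x; ring

theorem cov_Qf (hw : Wt w) (f : Ω → ℝ) (B : Matrix ι ι ℝ) : cov w f (Qf w σ A B) =
    ipF B fun j l => cum3 w f (fun x => fA A σ x j) fun x => σ x l := by
  have e : Qf w σ A B = fun x => ∑ j, ∑ l, B j l * ((fA A σ x j - mean w fun x => fA A σ x j) *
      (σ x l - mean w fun x => σ x l)) := funext fun x => dot_eq_ipF _ _ _
  simp only [e, cov_sum, cov_const_mul, cov_center hw, ipF]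

theorem hq_eq (x : Ω) : hq A B p σ x = Qf w σ A B x + ((B *ᵥ (meanV w σ - p)) ⬝ᵥ fA A σ x +
    ((A *ᵥ (meanV w σ - p)) ᵥ* B ⬝ᵥ σ x + (A *ᵥ (meanV w σ - p) ⬝ᵥ B *ᵥ (meanV w σ - p) -
      (B *ᵥ (meanV w σ - p)) ⬝ᵥ A *ᵥ meanV w σ - (A *ᵥ (meanV w σ - p)) ᵥ* B ⬝ᵥ meanV w σ))) := by
  have e : σ x - p = (σ x - meanV w σ) + (meanV w σ - p) := by abel
  rw [hq, Qf, qf, meanV_fA, e]
  generalize meanV w σ - p = d
  simp only [← dotProduct_mulVec, fA, mulVec_add, mulVec_sub, add_dotProduct, dotProduct_add,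
    sub_dotProduct, dotProduct_sub, dotProduct_comm (B *ᵥ d)]
  ring

/-- `Cov(f, h) = Cov(f, Q) + Cov(f, Aσ)·θ δ + Aδ·θ Cov(f, σ)` -/
theorem cov_hq (hw : Wt w) (f : Ω → ℝ) : cov w f (hq A B p σ) = cov w f (Qf w σ A B) +
    (covV w f (fA A σ) ⬝ᵥ B *ᵥ (meanV w σ - p) + A *ᵥ (meanV w σ - p) ⬝ᵥ B *ᵥ covV w f σ) := by
  rw [show hq A B p σ = _ from funext (hq_eq (w := w)), cov_add, cov_add, cov_add, hw.cov_const,
    ← covV_dot, ← covV_dot, add_zero, dotProduct_comm (B *ᵥ _), ← dotProduct_mulVec]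

theorem Fam.cov_Qf_le (h : Fam θ) (hw : Wt w) {N : ℝ} (hN0 : 0 ≤ N) (hN : NB w σ A N) (f : Ω → ℝ) :
    ∑ a, cov w f (Qf w σ A (θ a)) ^ 2 ≤ 4 * N * var w f := by
  simp only [cov_Qf hw]
  set M : ι → ι → ℝ := fun j l => cum3 w f (fun x => fA A σ x j) fun x => σ x l with hM
  set S : Matrix ι ι ℝ := Matrix.of fun j l => M j l - M l j with hS
  have hsk : Sᵀ = -S := by ext j l; simp [hS]
  have h1 : fr S = 2 * cov w f (Qf w σ A S) := by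
    rw [cov_Qf hw, ← ipF_skew hsk]
    simp only [fr, ipF, hS, of_apply, sq, hM]
  have h2 := hw.cov_sq_le f (Qf w σ A S)
  have h3 : var w f * var w (Qf w σ A S) ≤ _ := mul_le_mul_of_nonneg_left (hN S hsk) (hw.var_nonneg f)
  have h4 := fr_nonneg (U := S)
  have h5 := mul_nonneg hN0 (hw.var_nonneg f)
  refine (h.bd M).trans ?_
  change fr S ≤ _
  by_contra hc
  push Not at hc
  nlinarith

theorem sq3_le (a b c : ℝ) : (a + (b + c)) ^ 2 ≤ 3 * (a ^ 2 + b ^ 2 + c ^ 2) := by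
  nlinarith [sq_nonneg (a - b), sq_nonneg (a - c), sq_nonneg (b - c)]

theorem sum_sq3_le (a b c : κ → ℝ) {x y z : ℝ} (ha : ∑ i, a i ^ 2 ≤ x) (hb : ∑ i, b i ^ 2 ≤ y)
    (hc : ∑ i, c i ^ 2 ≤ z) : ∑ i, (a i + (b i + c i)) ^ 2 ≤ 3 * (x + y + z) := by
  have := Finset.sum_le_sum fun i (_ : i ∈ Finset.univ) => sq3_le (a i) (b i) (c i)
  simp only [← Finset.mul_sum, Finset.sum_add_distrib] at this
  linarith

/-- the constant of the key lemma -/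
def Lam (w : Ω → ℝ) (σ : Ω → ι → ℝ) (p : ι → ℝ) (A : Matrix ι ι ℝ) (N k1 k2 : ℝ) : ℝ :=
  3 * (4 * N + 2 * (k2 * ((meanV w σ - p) ⬝ᵥ (meanV w σ - p))) +
    2 * ((A *ᵥ (meanV w σ - p) ⬝ᵥ A *ᵥ (meanV w σ - p)) * k1))

/-- **KEY**: `∑_θ Cov(f, h_θ)² ≤ Λ Var f` for every observable `f`. -/
theorem Fam.key (h : Fam θ) (hw : Wt w) {N k1 k2 : ℝ} (hN0 : 0 ≤ N) (hN : NB w σ A N) (h1 : 0 ≤ k1)
    (c1 : CB w σ k1) (h2 : 0 ≤ k2) (c2 : CB w (fA A σ) k2) (f : Ω → ℝ) :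
    ∑ a, cov w f (hq A (θ a) p σ) ^ 2 ≤ Lam w σ p A N k1 k2 * var w f := by
  simp only [cov_hq hw]
  refine (sum_sq3_le _ _ _ (h.cov_Qf_le hw hN0 hN f) (h.dot _ _) (h.dot _ _)).trans ?_
  have a1 := mul_le_mul_of_nonneg_right (c2.covV_le hw h2 f) (dot_self_nonneg (meanV w σ - p))
  have a2 := mul_le_mul_of_nonneg_left (c1.covV_le hw h1 f) (dot_self_nonneg (A *ᵥ (meanV w σ - p)))
  unfold Lam
  nlinarith

theorem cum3_eq_cov (hw : Wt w) (f g l : Ω → ℝ) :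
    cum3 w f g l = cov w (fun x => (f x - mean w f) * (g x - mean w g)) l := by
  rw [cov_comm, cov_center hw, cum3_comm w l, cum3_comm' w f l]

/-- KEY for third cumulants ((W) in the cube frame: `f = g = v·σ`) -/
theorem Fam.key3 (h : Fam θ) (hw : Wt w) {N k1 k2 : ℝ} (hN0 : 0 ≤ N) (hN : NB w σ A N) (h1 : 0 ≤ k1)
    (c1 : CB w σ k1) (h2 : 0 ≤ k2) (c2 : CB w (fA A σ) k2) (f g : Ω → ℝ) :
    ∑ a, cum3 w f g (hq A (θ a) p σ) ^ 2 ≤
      Lam w σ p A N k1 k2 * var w fun x => (f x - mean w f) * (g x - mean w g) := by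
  simp only [cum3_eq_cov hw f g]
  exact h.key hw hN0 hN h1 c1 h2 c2 _

/-! ### first order objects -/

theorem dot_dDel (hw : Wt w) (hA : Aᵀ = A) (u : ι → ℝ) :
    u ⬝ᵥ dDel w σ p A B = cov w (fun x => u ⬝ᵥ σ x) (Qf w σ A B) +
      (((A * covMat w σ - 1) *ᵥ u) ⬝ᵥ B *ᵥ (meanV w σ - p) +
        A *ᵥ (meanV w σ - p) ⬝ᵥ B *ᵥ (covMat w σ *ᵥ u)) := by
  have _ := hA
  rw [dDel, dotProduct_sub, covV_dot, cov_comm, cov_hq hw, covV_fA, covV_lin, sub_mulVec, one_mulVec,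
    sub_dotProduct, ← mulVec_mulVec]
  ring

theorem dot_dAd (hw : Wt w) (hA : Aᵀ = A) (hB : Bᵀ = -B) (u : ι → ℝ) :
    u ⬝ᵥ dAd w σ p A B = cov w (fun x => u ⬝ᵥ fA A σ x) (Qf w σ A B) +
      (((A * covMat w σ * A - A) *ᵥ u) ⬝ᵥ B *ᵥ (meanV w σ - p) +
        A *ᵥ (meanV w σ - p) ⬝ᵥ B *ᵥ ((covMat w σ * A - 1) *ᵥ u)) := by
  rw [dAd, dotProduct_add, symm_dot hA u (covV _ _ _), covV_dot, cov_comm, cov_hq hw, covV_fA,
    covV_lin, dot_fA hA]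
  generalize meanV w σ - p = d
  have h1 := skew_dot hB u (A *ᵥ d)
  have h2 := symm_dot hA u (B *ᵥ d)
  simp only [sub_mulVec, one_mulVec, sub_dotProduct, ← mulVec_mulVec, dotProduct_sub, mulVec_sub]
  linarith

theorem sum_single_dot (M : Matrix ι ι ℝ) :
    ∑ i, (M *ᵥ Pi.single i 1 ⬝ᵥ M *ᵥ Pi.single i 1) = fr M := by
  simp only [mulVec_single_one, dotProduct, col_apply, fr, sq]
  exact Finset.sum_comm

theorem single_dot (i : ι) (v : ι → ℝ) : (Pi.single i 1 : ι → ℝ) ⬝ᵥ v = v i := by simp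

/-- centre, `δ` in the `x`-frame: total gradient -/
theorem Fam.dDel_total (h : Fam θ) (hw : Wt w) (hA : Aᵀ = A) {N : ℝ} (hN0 : 0 ≤ N)
    (hN : NB w σ A N) :
    ∑ i, ∑ a, dDel w σ p A (θ a) i ^ 2 ≤ 3 * (4 * N * (covMat w σ).trace +
      2 * (fr (A * covMat w σ - 1) * ((meanV w σ - p) ⬝ᵥ (meanV w σ - p))) +
      2 * ((A *ᵥ (meanV w σ - p) ⬝ᵥ A *ᵥ (meanV w σ - p)) * fr (covMat w σ))) := by
  have h1 := Finset.sum_le_sum fun i (_ : i ∈ Finset.univ) =>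
    sum_sq3_le _ _ _ (h.cov_Qf_le hw hN0 hN fun x => (Pi.single i 1 : ι → ℝ) ⬝ᵥ σ x)
      (h.dot ((A * covMat w σ - 1) *ᵥ Pi.single i 1) (meanV w σ - p))
      (h.dot (A *ᵥ (meanV w σ - p)) (covMat w σ *ᵥ Pi.single i 1))
  simp only [← dot_dDel hw hA] at h1
  simp only [single_dot, ← Finset.mul_sum, Finset.sum_add_distrib,
    ← Finset.sum_mul, sum_single_dot, var_eq_cov] at h1
  exact h1

/-- centre, `A δ`: total gradient -/
theorem Fam.dAd_total (h : Fam θ) (hw : Wt w) (hA : Aᵀ = A) :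
    ∑ i, ∑ a, dAd w σ p A (θ a) i ^ 2 ≤ 3 * (4 * T3 w (fA A σ) (fA A σ) σ +
      2 * (fr (A * covMat w σ * A - A) * ((meanV w σ - p) ⬝ᵥ (meanV w σ - p))) +
      2 * ((A *ᵥ (meanV w σ - p) ⬝ᵥ A *ᵥ (meanV w σ - p)) * fr (covMat w σ * A - 1))) := by
  have h0 : ∀ i, ∑ a, cov w (fun x => (Pi.single i 1 : ι → ℝ) ⬝ᵥ fA A σ x) (Qf w σ A (θ a)) ^ 2 ≤
      4 * ∑ j, ∑ l, cum3 w (fun x => fA A σ x i) (fun x => fA A σ x j) (fun x => σ x l) ^ 2 := by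
    intro i
    simp only [cov_Qf hw, single_dot]
    exact h.bd4 _
  have h1 := Finset.sum_le_sum fun i (_ : i ∈ Finset.univ) =>
    sum_sq3_le _ _ _ (h0 i) (h.dot ((A * covMat w σ * A - A) *ᵥ Pi.single i 1) (meanV w σ - p))
      (h.dot (A *ᵥ (meanV w σ - p)) ((covMat w σ * A - 1) *ᵥ Pi.single i 1))
  simp only [← dot_dAd hw hA (h.skew _)] at h1
  simp only [single_dot, ← Finset.mul_sum, Finset.sum_add_distrib,
    ← Finset.sum_mul, sum_single_dot] at h1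
  exact h1

theorem sum_sq2_le (a b : κ → ℝ) {x y : ℝ} (ha : ∑ i, a i ^ 2 ≤ x) (hb : ∑ i, b i ^ 2 ≤ y) :
    ∑ i, (a i + b i) ^ 2 ≤ 2 * (x + y) := by
  have := Finset.sum_le_sum fun i (_ : i ∈ Finset.univ) =>
    (by nlinarith [sq_nonneg (a i - b i)] : (a i + b i) ^ 2 ≤ 2 * (a i ^ 2 + b i ^ 2))
  simp only [← Finset.mul_sum, Finset.sum_add_distrib] at this
  linarith

section OneDir

variable (h : Fam θ) (hw : Wt w) (hA : Aᵀ = A) {N k1 k2 : ℝ} (hN0 : 0 ≤ N) (hN : NB w σ A N)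
  (h1 : 0 ≤ k1) (c1 : CB w σ k1) (h2 : 0 ≤ k2) (c2 : CB w (fA A σ) k2)
include h hw hA hN0 hN h1 c1 h2 c2

theorem Lam_nonneg : 0 ≤ Lam w σ p A N k1 k2 := by
  have := dot_self_nonneg (meanV w σ - p)
  have := dot_self_nonneg (A *ᵥ (meanV w σ - p))
  unfold Lam; positivity

/-- centre, `δ`: one direction -/
theorem Fam.dDel_dir (u : ι → ℝ) : ∑ a, (u ⬝ᵥ dDel w σ p A (θ a)) ^ 2 ≤
    2 * (Lam w σ p A N k1 k2 * k1 + 2 * ((meanV w σ - p) ⬝ᵥ (meanV w σ - p))) * (u ⬝ᵥ u) := by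
  have e : ∀ a, u ⬝ᵥ dDel w σ p A (θ a) = cov w (fun x => u ⬝ᵥ σ x) (hq A (θ a) p σ) +
      (meanV w σ - p) ⬝ᵥ θ a *ᵥ u := fun a => by
    rw [dDel, dotProduct_sub, covV_dot, cov_comm, skew_dot (h.skew a) u]; ring
  simp only [e]
  refine (sum_sq2_le _ _ (h.key hw hN0 hN h1 c1 h2 c2 _) (h.dot _ _)).trans ?_
  have := mul_le_mul_of_nonneg_left (c1.var_le u) (Lam_nonneg (p := p) h hw hA hN0 hN h1 c1 h2 c2)
  nlinarith

/-- centre, `A δ`: one direction -/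
theorem Fam.dAd_dir (u : ι → ℝ) : ∑ a, (u ⬝ᵥ dAd w σ p A (θ a)) ^ 2 ≤
    3 * (Lam w σ p A N k1 k2 * k2 * (u ⬝ᵥ u) +
      2 * ((u ⬝ᵥ u) * (A *ᵥ (meanV w σ - p) ⬝ᵥ A *ᵥ (meanV w σ - p))) +
      2 * (((meanV w σ - p) ⬝ᵥ (meanV w σ - p)) * (A *ᵥ u ⬝ᵥ A *ᵥ u))) := by
  have e : ∀ a, u ⬝ᵥ dAd w σ p A (θ a) = cov w (fun x => u ⬝ᵥ fA A σ x) (hq A (θ a) p σ) +
      (u ⬝ᵥ θ a *ᵥ (A *ᵥ (meanV w σ - p)) + (meanV w σ - p) ⬝ᵥ θ a *ᵥ (A *ᵥ u)) := fun a => by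
    rw [dAd, dotProduct_add, symm_dot hA u (covV _ _ _), covV_dot, cov_comm, dot_fA hA, sub_mulVec,
      dotProduct_sub, ← mulVec_mulVec, ← mulVec_mulVec, symm_dot hA u,
      skew_dot (h.skew a) (A *ᵥ u)]
    ring
  simp only [e]
  refine (sum_sq3_le _ _ _ (h.key hw hN0 hN h1 c1 h2 c2 _) (h.dot _ _) (h.dot _ _)).trans ?_
  have := mul_le_mul_of_nonneg_left (c2.var_le u) (Lam_nonneg (p := p) h hw hA hN0 hN h1 c1 h2 c2)
  nlinarith

end OneDir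

/-! ### second order objects -/

/-- the cumulant part of `κ₃(f, g, h_θ)` -/
def Rm (w : Ω → ℝ) (σ : Ω → ι → ℝ) (p : ι → ℝ) (A B : Matrix ι ι ℝ) (f g : Ω → ℝ) : ℝ :=
  (ipF B fun j l => cum4 w f g (fun x => fA A σ x j) fun x => σ x l) +
    ((fun j => cum3 w f g fun x => fA A σ x j) ⬝ᵥ B *ᵥ (meanV w σ - p) +
      A *ᵥ (meanV w σ - p) ⬝ᵥ B *ᵥ fun j => cum3 w f g fun x => σ x j)

theorem cum3_center (f g l k : Ω → ℝ) :
    cum3 w (fun x => (f x - mean w f) * (g x - mean w g)) l k =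
      cum4 w f g l k + (cov w f l * cov w g k + cov w f k * cov w g l) := by
  have : cum3 w (fun x => (f x - mean w f) * (g x - mean w g)) l k = mean w (fun x => (f x - mean w f) *
      (g x - mean w g) * (l x - mean w l) * (k x - mean w k)) - cov w f g * cov w l k := by
    rw [cum3, ← cov_eq_mean w f g, cov_eq_mean w l k, ← mean_const_mul w _ (cov w f g), ← mean_sub]
    congr 1; ext x; ring
  rw [this, cum4]; ring

theorem ipF_add (B : Matrix ι ι ℝ) (M M' : ι → ι → ℝ) :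
    ipF B (fun j l => M j l + M' j l) = ipF B M + ipF B M' := by
  simp only [ipF, mul_add, Finset.sum_add_distrib]

/-- the exact form of `κ₃(f, g, h_θ)` -/
theorem cum3_hq (hw : Wt w) (f g : Ω → ℝ) : cum3 w f g (hq A B p σ) = Rm w σ p A B f g +
    (covV w f (fA A σ) ⬝ᵥ B *ᵥ covV w g σ + covV w g (fA A σ) ⬝ᵥ B *ᵥ covV w f σ) := by
  have e : ∀ ψ : Ω → ι → ℝ, covV w (fun x => (f x - mean w f) * (g x - mean w g)) ψ =
      fun j => cum3 w f g fun x => ψ x j := fun ψ => funext fun j => (cum3_eq_cov hw _ _ _).symm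
  rw [cum3_eq_cov hw, cov_hq hw, cov_Qf hw, e, e, Rm, dot_eq_ipF B (covV _ _ _),
    dot_eq_ipF B (covV _ _ _)]
  simp only [cum3_center, ipF_add, mul_comm (cov w f fun x => σ x _)]
  simp only [covV]
  ring

/-- the size of the cumulant part, for two families of observables -/
def RB (w : Ω → ℝ) (σ : Ω → ι → ℝ) (p : ι → ℝ) (A : Matrix ι ι ℝ) (α : Ω → I → ℝ) (β : Ω → J → ℝ) : ℝ :=
  3 * (4 * T4 w α β (fA A σ) σ + 2 * (T3 w α β (fA A σ) * ((meanV w σ - p) ⬝ᵥ (meanV w σ - p))) +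
    2 * ((A *ᵥ (meanV w σ - p) ⬝ᵥ A *ᵥ (meanV w σ - p)) * T3 w α β σ))

theorem Fam.Rm_le (h : Fam θ) (α : Ω → I → ℝ) (β : Ω → J → ℝ) :
    ∑ i, ∑ j, ∑ a, Rm w σ p A (θ a) (fun x => α x i) (fun x => β x j) ^ 2 ≤ RB w σ p A α β := by
  have h1 := Finset.sum_le_sum fun i (_ : i ∈ Finset.univ) => Finset.sum_le_sum
    fun j (_ : j ∈ Finset.univ) => sum_sq3_le _ _ _
      (h.bd4 fun j' l => cum4 w (fun x => α x i) (fun x => β x j) (fun x => fA A σ x j') fun x => σ x l)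
      (h.dot (fun j' => cum3 w (fun x => α x i) (fun x => β x j) fun x => fA A σ x j') (meanV w σ - p))
      (h.dot (A *ᵥ (meanV w σ - p)) fun j' => cum3 w (fun x => α x i) (fun x => β x j) fun x => σ x j')
  simp only [← Finset.mul_sum, Finset.sum_add_distrib, ← Finset.sum_mul] at h1
  simp only [RB, T4, T3, sq (cum3 _ _ _ _)]
  exact h1

end Crest.Agent.T157.Od
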