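import Crest.Agent.T157.OdB_9

set_option autoImplicit false
set_option linter.unusedSectionVars false

/-!
Row 157, A2 (helper9): exact second order formulas and their gradient sums ((W), (F), (m1), (m2) of
section 6 of crit19), in the words of `OdA_9`, `OdB_9`.
-/

noncomputable section

namespace Crest.Agent.T157.Od

open MeasureTheory Matrix Crest.Agent.Lib.OrthPoinc Filter Topology Set
open Crest.Agent.T157.Oc Crest.Agent.T157.E Crest.Agent.T157.SL Crest.Agent.T157.Ks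

variable {Ω ι κ I J : Type*} [Fintype Ω] [Fintype ι] [DecidableEq ι] [Fintype κ] [Fintype I]
  [Fintype J] {θ : κ → Matrix ι ι ℝ} {w f g : Ω → ℝ} {σ : Ω → ι → ℝ} {p : ι → ℝ}
  {A B : Matrix ι ι ℝ}

theorem dot_c3 (h : Ω → ℝ) (u v : ι → ℝ) :
    u ⬝ᵥ c3 w σ h *ᵥ v = cum3 w (fun x => u ⬝ᵥ σ x) (fun x => v ⬝ᵥ σ x) h := by
  rw [cum3_comm', cum3_dot]
  simp only [cum3_comm w (fun x => u ⬝ᵥ σ x) h, cum3_comm' w h (fun x => u ⬝ᵥ σ x), cum3_dot]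
  simp only [dotProduct, mulVec, c3, of_apply, Finset.mul_sum]
  rw [Finset.sum_comm]
  refine Finset.sum_congr rfl fun j _ => Finset.sum_congr rfl fun i _ => ?_
  rw [cum3_comm w h, cum3_comm' w _ h, cum3_comm w (fun x => σ x j)]
  ring

theorem c3_transpose (h : Ω → ℝ) : (c3 w σ h)ᵀ = c3 w σ h := by
  ext i j; exact cum3_comm _ _ _ _

theorem dot_mul3 (P M Q : Matrix ι ι ℝ) (u v : ι → ℝ) :
    u ⬝ᵥ (P * M * Q) *ᵥ v = Pᵀ *ᵥ u ⬝ᵥ M *ᵥ (Q *ᵥ v) := by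
  rw [← mulVec_mulVec, ← mulVec_mulVec, dotProduct_mulVec u P, ← mulVec_transpose]

section Exact

variable (hw : Wt w) (hA : Aᵀ = A) (hB : Bᵀ = -B) (u v : ι → ℝ)
include hw hA hB

/-- `u · D(gᵀ C g) v` -/
theorem dot_dCx : u ⬝ᵥ dCx w σ p A B *ᵥ v =
    ((A * covMat w σ - 1) *ᵥ u) ⬝ᵥ B *ᵥ (covMat w σ *ᵥ v) +
      (((A * covMat w σ - 1) *ᵥ v) ⬝ᵥ B *ᵥ (covMat w σ *ᵥ u) +
        Rm w σ p A B (fun x => u ⬝ᵥ σ x) fun x => v ⬝ᵥ σ x) := by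
  have _ := hA
  rw [dCx, add_mulVec, dotProduct_add, dot_c3, cum3_hq hw, covV_fA, covV_fA, covV_lin, covV_lin]
  have h1 := skew_dot hB v (covMat w σ *ᵥ u)
  have h2 := symm_dot (covMat_transpose w σ) u (B *ᵥ v)
  simp only [sub_mulVec, one_mulVec, sub_dotProduct, ← mulVec_mulVec, dotProduct_sub]
  linarith

/-- `u · D(A C A - A) v` -/
theorem dot_dPhi : u ⬝ᵥ dPhi w σ p A B *ᵥ v =
    ((A * covMat w σ * A - A) *ᵥ u) ⬝ᵥ B *ᵥ ((covMat w σ * A - 1) *ᵥ v) +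
      (((A * covMat w σ * A - A) *ᵥ v) ⬝ᵥ B *ᵥ ((covMat w σ * A - 1) *ᵥ u) +
        Rm w σ p A B (fun x => u ⬝ᵥ fA A σ x) fun x => v ⬝ᵥ fA A σ x) := by
  rw [dPhi, add_mulVec, dotProduct_add, dot_mul3, dot_c3, hA, cum3_hq hw, covV_fA, covV_fA, covV_lin,
    covV_lin, dot_fA hA, dot_fA hA]
  have hC := covMat_transpose w σ
  generalize covMat w σ = C at *
  have h1 := skew_dot hB u (A *ᵥ (C *ᵥ (A *ᵥ v)))
  have h2 := skew_dot hB (A *ᵥ v) (C *ᵥ (A *ᵥ u))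
  have h3 := skew_dot hB u (A *ᵥ v)
  simp only [sub_mulVec, add_mulVec, one_mulVec, sub_dotProduct, ← mulVec_mulVec, dotProduct_sub,
    dotProduct_add, mulVec_sub, symm_dot hA u, symm_dot hC (A *ᵥ u), symm_dot hA (C *ᵥ (A *ᵥ u))]
  linarith

/-- `u · D((A C - 1) g) gᵀ v` -/
theorem dot_dX1 : u ⬝ᵥ dX1 w σ p A B *ᵥ v =
    ((A * covMat w σ * A - A) *ᵥ u) ⬝ᵥ B *ᵥ (covMat w σ *ᵥ v) +
      (((A * covMat w σ - 1) *ᵥ v) ⬝ᵥ B *ᵥ ((covMat w σ * A - 1) *ᵥ u) +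
        Rm w σ p A B (fun x => u ⬝ᵥ fA A σ x) fun x => v ⬝ᵥ σ x) := by
  rw [dX1, add_mulVec, dotProduct_add, ← mulVec_mulVec, symm_dot hA, dot_c3, cum3_hq hw, covV_fA,
    covV_fA, covV_lin, covV_lin, dot_fA hA]
  have hC := covMat_transpose w σ
  generalize covMat w σ = C at *
  have h1 := skew_dot hB u (A *ᵥ (C *ᵥ v))
  have h2 := skew_dot hB v (C *ᵥ (A *ᵥ u))
  have h3 := skew_dot hB u v
  simp only [sub_mulVec, add_mulVec, one_mulVec, sub_dotProduct, ← mulVec_mulVec, dotProduct_sub,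
    dotProduct_add, mulVec_sub, symm_dot hA u, symm_dot hC (A *ᵥ u)]
  linarith

/-- (m2): `u · D(C⁻¹ - A) v` -/
theorem dot_dR (hd : 0 < (covMat w σ).det) :
    u ⬝ᵥ (-((covMat w σ)⁻¹ * c3 w σ (hq A B p σ) * (covMat w σ)⁻¹) - (B * A - A * B)) *ᵥ v =
      -Rm w σ p A B (fun x => u ⬝ᵥ fA (covMat w σ)⁻¹ σ x) fun x => v ⬝ᵥ fA (covMat w σ)⁻¹ σ x := by
  have hC : ((covMat w σ)⁻¹)ᵀ = (covMat w σ)⁻¹ := by rw [transpose_nonsing_inv, covMat_transpose]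
  have hi : ∀ y, covMat w σ *ᵥ ((covMat w σ)⁻¹ *ᵥ y) = y := fun y => by
    rw [mulVec_mulVec, mul_nonsing_inv _ (isUnit_iff_ne_zero.2 hd.ne'), one_mulVec]
  rw [sub_mulVec, dotProduct_sub, neg_mulVec, dotProduct_neg, dot_mul3, dot_c3, hC, cum3_hq hw,
    covV_fA, covV_fA, covV_lin, covV_lin, hi, hi, dot_fA hC, dot_fA hC]
  have h1 := skew_dot hB u (A *ᵥ v)
  simp only [sub_mulVec, ← mulVec_mulVec, dotProduct_sub, symm_dot hA u]
  linarith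

end Exact

/-! ### gradient sums -/

theorem dot_self_eq (y : ι → ℝ) : y ⬝ᵥ y = ∑ i, ((Pi.single i 1 : ι → ℝ) ⬝ᵥ y) ^ 2 := by
  simp only [single_dot]; simp only [dotProduct, sq]

theorem fr_eq_single (D : Matrix ι ι ℝ) :
    fr D = ∑ i, ∑ j, ((Pi.single i 1 : ι → ℝ) ⬝ᵥ D *ᵥ Pi.single j 1) ^ 2 := by
  simp only [single_dot, mulVec_single_one, col_apply, fr]

/-- operator form: `∑_θ |D_θ v|²` -/
theorem Fam.op_gen (h : Fam θ) {D : κ → Matrix ι ι ℝ} {P Q : Matrix ι ι ℝ} {v q r : ι → ℝ}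
    {α : Ω → ι → ℝ} (e : ∀ a u, u ⬝ᵥ D a *ᵥ v = (P *ᵥ u) ⬝ᵥ θ a *ᵥ q + (r ⬝ᵥ θ a *ᵥ (Q *ᵥ u) +
      Rm w σ p A (θ a) (fun x => u ⬝ᵥ α x) g)) :
    ∑ a, D a *ᵥ v ⬝ᵥ D a *ᵥ v ≤
      3 * (2 * (fr P * (q ⬝ᵥ q)) + 2 * ((r ⬝ᵥ r) * fr Q) + RB w σ p A α (sg g)) := by
  simp only [dot_self_eq (D _ *ᵥ v), e]
  rw [Finset.sum_comm]
  have h1 := Finset.sum_le_sum fun i (_ : i ∈ Finset.univ) => sum_sq3_le _ _ _
    (h.dot (P *ᵥ Pi.single i 1) q) (h.dot r (Q *ᵥ Pi.single i 1))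
    (le_refl (∑ a, Rm w σ p A (θ a) (fun x => (Pi.single i 1 : ι → ℝ) ⬝ᵥ α x) g ^ 2))
  refine h1.trans ?_
  have h2 := h.Rm_le (w := w) (σ := σ) (p := p) (A := A) α (sg g)
  simp only [Finset.univ_unique, Finset.sum_singleton] at h2
  simp only [single_dot, ← Finset.mul_sum, Finset.sum_add_distrib, ← Finset.sum_mul, sum_single_dot]
  linarith

/-- Frobenius form: `∑_θ |D_θ|_F²` -/
theorem Fam.fr_gen (h : Fam θ) {D : κ → Matrix ι ι ℝ} {P Q P' Q' : Matrix ι ι ℝ}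
    {α β : Ω → ι → ℝ} (e : ∀ a u v, u ⬝ᵥ D a *ᵥ v = (P *ᵥ u) ⬝ᵥ θ a *ᵥ (Q *ᵥ v) +
      ((P' *ᵥ v) ⬝ᵥ θ a *ᵥ (Q' *ᵥ u) + Rm w σ p A (θ a) (fun x => u ⬝ᵥ α x) fun x => v ⬝ᵥ β x)) :
    ∑ a, fr (D a) ≤ 3 * (2 * (fr P * fr Q) + 2 * (fr P' * fr Q') + RB w σ p A α β) := by
  simp only [fr_eq_single (D _), e]
  rw [Finset.sum_comm]
  simp only [Finset.sum_comm (s := (Finset.univ : Finset κ))]
  have h1 := Finset.sum_le_sum fun i (_ : i ∈ Finset.univ) => Finset.sum_le_sum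
    fun j (_ : j ∈ Finset.univ) => sum_sq3_le _ _ _
    (h.dot (P *ᵥ Pi.single i 1) (Q *ᵥ Pi.single j 1)) (h.dot (P' *ᵥ Pi.single j 1) (Q' *ᵥ Pi.single i 1))
    (le_refl (∑ a, Rm w σ p A (θ a) (fun x => (Pi.single i 1 : ι → ℝ) ⬝ᵥ α x)
      (fun x => (Pi.single j 1 : ι → ℝ) ⬝ᵥ β x) ^ 2))
  refine h1.trans ?_
  have h2 := h.Rm_le (w := w) (σ := σ) (p := p) (A := A) α β
  simp only [single_dot, ← Finset.mul_sum, Finset.sum_add_distrib, ← Finset.sum_mul, sum_single_dot]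
  linarith

section Sums

variable (h : Fam θ) (hw : Wt w) (hA : Aᵀ = A)
include h hw hA

/-- (m1), matrix variance of `gᵀ C g` -/
theorem Fam.dCx_op (v : ι → ℝ) : ∑ a, dCx w σ p A (θ a) *ᵥ v ⬝ᵥ dCx w σ p A (θ a) *ᵥ v ≤
    3 * (2 * (fr (A * covMat w σ - 1) * (covMat w σ *ᵥ v ⬝ᵥ covMat w σ *ᵥ v)) +
      2 * (((A * covMat w σ - 1) *ᵥ v ⬝ᵥ (A * covMat w σ - 1) *ᵥ v) * fr (covMat w σ)) +
        RB w σ p A σ (sg fun x => v ⬝ᵥ σ x)) :=
  h.op_gen fun a u => dot_dCx hw hA (h.skew a) u v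

/-- (m1), matrix variance of `A C A - A` -/
theorem Fam.dPhi_op (v : ι → ℝ) : ∑ a, dPhi w σ p A (θ a) *ᵥ v ⬝ᵥ dPhi w σ p A (θ a) *ᵥ v ≤
    3 * (2 * (fr (A * covMat w σ * A - A) *
      ((covMat w σ * A - 1) *ᵥ v ⬝ᵥ (covMat w σ * A - 1) *ᵥ v)) +
      2 * (((A * covMat w σ * A - A) *ᵥ v ⬝ᵥ (A * covMat w σ * A - A) *ᵥ v) *
        fr (covMat w σ * A - 1)) + RB w σ p A (fA A σ) (sg fun x => v ⬝ᵥ fA A σ x)) :=
  h.op_gen fun a u => dot_dPhi hw hA (h.skew a) u v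

/-- (F), total gradient of `A C A - A` -/
theorem Fam.dPhi_fr : ∑ a, fr (dPhi w σ p A (θ a)) ≤
    3 * (2 * (fr (A * covMat w σ * A - A) * fr (covMat w σ * A - 1)) +
      2 * (fr (A * covMat w σ * A - A) * fr (covMat w σ * A - 1)) + RB w σ p A (fA A σ) (fA A σ)) :=
  h.fr_gen fun a u v => dot_dPhi hw hA (h.skew a) u v

/-- (F), total gradient of `(A C - 1) g` -/
theorem Fam.dX1_fr : ∑ a, fr (dX1 w σ p A (θ a)) ≤
    3 * (2 * (fr (A * covMat w σ * A - A) * fr (covMat w σ)) +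
      2 * (fr (A * covMat w σ - 1) * fr (covMat w σ * A - 1)) + RB w σ p A (fA A σ) σ) :=
  h.fr_gen fun a u v => dot_dX1 hw hA (h.skew a) u v

/-- (m2), matrix variance of `C⁻¹ - A` -/
theorem Fam.dR_op (hd : 0 < (covMat w σ).det) (v : ι → ℝ) :
    ∑ a, (-((covMat w σ)⁻¹ * c3 w σ (hq A (θ a) p σ) * (covMat w σ)⁻¹) - (θ a * A - A * θ a)) *ᵥ v ⬝ᵥ
      (-((covMat w σ)⁻¹ * c3 w σ (hq A (θ a) p σ) * (covMat w σ)⁻¹) - (θ a * A - A * θ a)) *ᵥ v ≤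
      RB w σ p A (fA (covMat w σ)⁻¹ σ) (sg fun x => v ⬝ᵥ fA (covMat w σ)⁻¹ σ x) := by
  have h2 := h.Rm_le (w := w) (σ := σ) (p := p) (A := A) (fA (covMat w σ)⁻¹ σ)
    (sg fun x => v ⬝ᵥ fA (covMat w σ)⁻¹ σ x)
  simp only [Finset.univ_unique, Finset.sum_singleton] at h2
  simp only [dot_self_eq (_ *ᵥ v), dot_dR hw hA (h.skew _) _ v hd, neg_sq]
  rw [Finset.sum_comm]
  simpa only [single_dot] using h2

end Sums

/-! ### one direction at a time -/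

theorem ipF_comm (M N : ι → ι → ℝ) : ipF M N = ipF N M := by simp only [ipF, mul_comm]

theorem ipF_mul3 (U P M Q : Matrix ι ι ℝ) : ipF U (P * M * Q) = ipF M (Pᵀ * U * Qᵀ) := by
  rw [ipF_eq_trace, ipF_comm, ipF_eq_trace]
  simp only [transpose_mul, Matrix.mul_assoc]
  rw [trace_mul_comm]
  simp only [Matrix.mul_assoc]

theorem ipF_madd (U M N : Matrix ι ι ℝ) : ipF U (M + N) = ipF U M + ipF U N := ipF_add U M N

theorem ipF_msub (U M N : Matrix ι ι ℝ) : ipF U (M - N) = ipF U M - ipF U N := by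
  simp only [ipF, Matrix.sub_apply, mul_sub, Finset.sum_sub_distrib]

theorem ipF_sq_le (U M : Matrix ι ι ℝ) : ipF U M ^ 2 ≤ fr U * fr M := by
  simp only [ipF, fr, ← Finset.sum_product']
  exact Finset.sum_mul_sq_le_sq_mul_sq _ _ _

theorem cov_qf (hw : Wt w) (α β : Ω → ι → ℝ) (U : Matrix ι ι ℝ) (l : Ω → ℝ) :
    cov w (qf w α β U) l = ipF U fun i j => cum3 w (fun x => α x i) (fun x => β x j) l := by
  have e : qf w α β U = fun x => ∑ j, ∑ l, U j l * ((α x j - mean w fun x => α x j) *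
      (β x l - mean w fun x => β x l)) := funext fun x => dot_eq_ipF _ _ _
  simp only [cov_comm w _ l, e, cov_sum, cov_const_mul, cov_center hw, ipF, cum3_comm w l,
    cum3_comm' w _ l]

theorem c3_AA (hA : Aᵀ = A) (l : Ω → ℝ) : A * c3 w σ l * A =
    Matrix.of fun i j => cum3 w (fun x => fA A σ x i) (fun x => fA A σ x j) l := by
  ext i j
  have := dot_mul3 A (c3 w σ l) A (Pi.single i 1) (Pi.single j 1)
  rw [dot_c3, hA, ← dot_fA hA, ← dot_fA hA] at this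
  simpa only [single_dot, mulVec_single_one, col_apply, of_apply] using this

theorem c3_A1 (hA : Aᵀ = A) (l : Ω → ℝ) : A * c3 w σ l =
    Matrix.of fun i j => cum3 w (fun x => fA A σ x i) (fun x => σ x j) l := by
  ext i j
  have := dot_mul3 A (c3 w σ l) 1 (Pi.single i 1) (Pi.single j 1)
  rw [dot_c3, hA, ← dot_fA hA, one_mulVec, Matrix.mul_one] at this
  simpa only [single_dot, mulVec_single_one, col_apply, of_apply] using this

/-- `‖M‖² ≤ a` -/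
def Op2 (M : Matrix ι ι ℝ) (a : ℝ) : Prop := ∀ v, M *ᵥ v ⬝ᵥ M *ᵥ v ≤ a * (v ⬝ᵥ v)

theorem dot_add_le (x y : ι → ℝ) : (x + y) ⬝ᵥ (x + y) ≤ 2 * (x ⬝ᵥ x + y ⬝ᵥ y) := by
  have := dot_self_nonneg (x - y)
  simp only [add_dotProduct, dotProduct_add, sub_dotProduct, dotProduct_sub] at *
  linarith

theorem dot_sub_le (x y : ι → ℝ) : (x - y) ⬝ᵥ (x - y) ≤ 2 * (x ⬝ᵥ x + y ⬝ᵥ y) := by
  have := dot_self_nonneg (x + y)
  simp only [add_dotProduct, dotProduct_add, sub_dotProduct, dotProduct_sub] at *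
  linarith

theorem Op2.one : Op2 (1 : Matrix ι ι ℝ) 1 := fun v => by simp

theorem Op2.sub {M M' : Matrix ι ι ℝ} {a b : ℝ} (h : Op2 M a) (h' : Op2 M' b) :
    Op2 (M - M') (2 * (a + b)) := fun v => by
  rw [sub_mulVec]; linarith [dot_sub_le (M *ᵥ v) (M' *ᵥ v), h v, h' v]

theorem Op2.add {M M' : Matrix ι ι ℝ} {a b : ℝ} (h : Op2 M a) (h' : Op2 M' b) :
    Op2 (M + M') (2 * (a + b)) := fun v => by
  rw [add_mulVec]; linarith [dot_add_le (M *ᵥ v) (M' *ᵥ v), h v, h' v]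

theorem Op2.orth {G : Matrix ι ι ℝ} (h : Gᵀ * G = 1) (v : ι → ℝ) : G *ᵥ v ⬝ᵥ G *ᵥ v = v ⬝ᵥ v := by
  rw [dotProduct_mulVec, ← mulVec_transpose, mulVec_mulVec, h, one_mulVec]

theorem Op2.fr_left {P : Matrix ι ι ℝ} {a : ℝ} (h : Op2 P a) (M : Matrix ι ι ℝ) :
    fr (P * M) ≤ a * fr M := by
  rw [← sum_single_dot, ← sum_single_dot, Finset.mul_sum]
  exact Finset.sum_le_sum fun i _ => by rw [← mulVec_mulVec]; exact h _

theorem Op2.fr_right {Q : Matrix ι ι ℝ} {b : ℝ} (h : Op2 Qᵀ b) (M : Matrix ι ι ℝ) :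
    fr (M * Q) ≤ b * fr M := by
  rw [← fr_transpose, transpose_mul, ← fr_transpose (U := M)]; exact h.fr_left _

theorem fr_orth_left {G : Matrix ι ι ℝ} (h : Gᵀ * G = 1) (M : Matrix ι ι ℝ) : fr (G * M) = fr M := by
  simp only [← sum_single_dot, ← mulVec_mulVec, Op2.orth h]

theorem fr_orth_right {G : Matrix ι ι ℝ} (h : G * Gᵀ = 1) (M : Matrix ι ι ℝ) : fr (M * G) = fr M := by
  rw [← fr_transpose, transpose_mul, fr_orth_left (by rwa [transpose_transpose]), fr_transpose]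

theorem fr_add_le (M N : Matrix ι ι ℝ) : fr (M + N) ≤ 2 * (fr M + fr N) := by
  simp only [← sum_single_dot, add_mulVec, ← Finset.sum_add_distrib, Finset.mul_sum]
  exact Finset.sum_le_sum fun i _ => dot_add_le _ _

theorem fr_sub_le (M N : Matrix ι ι ℝ) : fr (M - N) ≤ 2 * (fr M + fr N) := by
  simp only [← sum_single_dot, sub_mulVec, ← Finset.sum_add_distrib, Finset.mul_sum]
  exact Finset.sum_le_sum fun i _ => dot_sub_le _ _

section Op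

variable {k1 k2 : ℝ} (hw : Wt w)
include hw

theorem op2_C (h1 : 0 ≤ k1) (c1 : CB w σ k1) : Op2 (covMat w σ) (k1 * k1) := fun v => by
  rw [← covV_lin, mul_assoc]
  exact (c1.covV_le hw h1 _).trans (mul_le_mul_of_nonneg_left (c1.var_le v) h1)

theorem op2_AC (c1 : CB w σ k1) (h2 : 0 ≤ k2) (c2 : CB w (fA A σ) k2) :
    Op2 (A * covMat w σ) (k2 * k1) := fun v => by
  rw [← mulVec_mulVec, ← covV_lin, ← covV_fA, mul_assoc]
  exact (c2.covV_le hw h2 _).trans (mul_le_mul_of_nonneg_left (c1.var_le v) h2)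

theorem op2_CA (hA : Aᵀ = A) (h1 : 0 ≤ k1) (c1 : CB w σ k1) (c2 : CB w (fA A σ) k2) :
    Op2 (covMat w σ * A) (k2 * k1) := fun v => by
  rw [← mulVec_mulVec, ← covV_lin, ← dot_fA hA, mul_comm k2, mul_assoc]
  exact (c1.covV_le hw h1 _).trans (mul_le_mul_of_nonneg_left (c2.var_le v) h1)

theorem op2_ACA (hA : Aᵀ = A) (h2 : 0 ≤ k2) (c2 : CB w (fA A σ) k2) :
    Op2 (A * covMat w σ * A) (k2 * k2) := fun v => by
  rw [← mulVec_mulVec, ← mulVec_mulVec, ← covV_lin, ← dot_fA hA, ← covV_fA, mul_assoc]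
  exact (c2.covV_le hw h2 _).trans (mul_le_mul_of_nonneg_left (c2.var_le v) h2)

end Op

section OneDir

variable (h : Fam θ) (hw : Wt w) (hA : Aᵀ = A) {N k1 k2 : ℝ} (hN0 : 0 ≤ N) (hN : NB w σ A N)
  (h1 : 0 ≤ k1) (c1 : CB w σ k1) (h2 : 0 ≤ k2) (c2 : CB w (fA A σ) k2)
include h hw hA hN0 hN h1 c1 h2 c2

/-- (W) for `C` (cube frame, `rd_C`) -/
theorem Fam.c3_dir (v : ι → ℝ) : ∑ a, (v ⬝ᵥ c3 w σ (hq A (θ a) p σ) *ᵥ v) ^ 2 ≤
    Lam w σ p A N k1 k2 * var w fun x => (v ⬝ᵥ σ x - mean w fun x => v ⬝ᵥ σ x) ^ 2 := by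
  have _ := hA
  simp only [dot_c3, sq (_ - mean _ _)]
  exact h.key3 hw hN0 hN h1 c1 h2 c2 _ _

/-- (W) for `A C A` (cube frame, `rd_ACA`) -/
theorem Fam.dACA_dir (v : ι → ℝ) :
    ∑ a, (v ⬝ᵥ (dPhi w σ p A (θ a) + (θ a * A - A * θ a)) *ᵥ v) ^ 2 ≤
      3 * (Lam w σ p A N k1 k2 * var w (fun x => (v ⬝ᵥ fA A σ x - mean w fun x => v ⬝ᵥ fA A σ x) ^ 2) +
        8 * ((v ⬝ᵥ v) * ((A * covMat w σ * A) *ᵥ v ⬝ᵥ (A * covMat w σ * A) *ᵥ v)) +
        8 * (((covMat w σ * A) *ᵥ v ⬝ᵥ (covMat w σ * A) *ᵥ v) * (A *ᵥ v ⬝ᵥ A *ᵥ v))) := by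
  have e : ∀ a, v ⬝ᵥ (dPhi w σ p A (θ a) + (θ a * A - A * θ a)) *ᵥ v =
      cum3 w (fun x => v ⬝ᵥ fA A σ x) (fun x => v ⬝ᵥ fA A σ x) (hq A (θ a) p σ) +
        (2 * (v ⬝ᵥ θ a *ᵥ ((A * covMat w σ * A) *ᵥ v)) +
          2 * ((covMat w σ * A) *ᵥ v ⬝ᵥ θ a *ᵥ (A *ᵥ v))) := fun a => by
    rw [dPhi, add_mulVec, dotProduct_add, add_mulVec, dotProduct_add, dot_mul3, dot_c3, hA, dot_fA hA]
    have hC := covMat_transpose w σ
    generalize covMat w σ = C at *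
    have b1 := skew_dot (h.skew a) v (A *ᵥ (C *ᵥ (A *ᵥ v)))
    have b2 := skew_dot (h.skew a) (A *ᵥ v) (C *ᵥ (A *ᵥ v))
    simp only [sub_mulVec, add_mulVec, ← mulVec_mulVec, dotProduct_sub,
      dotProduct_add, mulVec_sub, symm_dot hA v, symm_dot hC (A *ᵥ v), symm_dot hA (C *ᵥ (A *ᵥ v))]
    linarith
  simp only [e, sq (_ - mean _ _)]
  refine sum_sq3_le _ _ _ (h.key3 hw hN0 hN h1 c1 h2 c2 _ _) ?_ ?_
  · simp only [mul_pow, ← Finset.mul_sum]; linarith [h.dot v ((A * covMat w σ * A) *ᵥ v)]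
  · simp only [mul_pow, ← Finset.mul_sum]; linarith [h.dot ((covMat w σ * A) *ᵥ v) (A *ᵥ v)]

/-- (F), weak variance of `A C A - A` -/
theorem Fam.dPhi_dir {a : ℝ} (a0 : 0 ≤ a) (ha : Op2 A a) (U : Matrix ι ι ℝ) :
    ∑ b, ipF U (dPhi w σ p A (θ b)) ^ 2 ≤ 2 * (Lam w σ p A N k1 k2 * NV (fA A σ) (fA A σ) U w +
      32 * (2 * (k2 * k2 + a) + a * (k2 * k1)) * fr U) := by
  have hC := covMat_transpose w σ
  have e : ∀ b, ipF U (dPhi w σ p A (θ b)) = cov w (qf w (fA A σ) (fA A σ) U) (hq A (θ b) p σ) +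
      ipF (θ b) ((U * (A * covMat w σ * A - A) - (A * covMat w σ * A - A) * U) +
        (covMat w σ * A * U * A - A * U * (A * covMat w σ))) := fun b => by
    have e1 : dPhi w σ p A (θ b) = A * c3 w σ (hq A (θ b) p σ) * A +
        ((1 * θ b * (A * covMat w σ * A - A) - (A * covMat w σ * A - A) * θ b * 1) +
          (A * covMat w σ * θ b * A - A * θ b * (covMat w σ * A))) := by
      simp only [dPhi, Matrix.mul_sub, Matrix.sub_mul, Matrix.mul_assoc, Matrix.one_mul, Matrix.mul_one]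
      abel
    rw [e1, ipF_madd, c3_AA hA, cov_qf hw, ipF_madd, ipF_msub, ipF_msub, ipF_mul3 U, ipF_mul3 U, ipF_mul3 U,
      ipF_mul3 U, ipF_madd, ipF_msub, ipF_msub]
    simp only [transpose_mul, transpose_sub, transpose_one, hA, hC, Matrix.one_mul, Matrix.mul_one,
      Matrix.mul_assoc]
    rfl
  simp only [e]
  refine (sum_sq2_le _ _ (h.key hw hN0 hN h1 c1 h2 c2 _) (h.bd4 _)).trans ?_
  have x1 := (op2_ACA hw hA h2 c2).sub ha
  have x2 : Op2 (A * covMat w σ * A - A)ᵀ (2 * (k2 * k2 + a)) := by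
    simpa only [transpose_mul, transpose_sub, hA, hC, Matrix.mul_assoc] using x1
  have y1 := op2_CA hw hA h1 c1 c2
  have y2 : Op2 (A * covMat w σ)ᵀ (k2 * k1) := by rwa [transpose_mul, hA, hC]
  have f1 := x1.fr_left U
  have f2 := x2.fr_right U
  have f3 := (Op2.fr_right (Q := A) (by rwa [hA]) (covMat w σ * A * U)).trans
    (mul_le_mul_of_nonneg_left (y1.fr_left U) a0)
  have f4 := (y2.fr_right (A * U)).trans (mul_le_mul_of_nonneg_left (ha.fr_left U) (by positivity))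
  have f5 := fr_add_le (U * (A * covMat w σ * A - A) - (A * covMat w σ * A - A) * U)
    (covMat w σ * A * U * A - A * U * (A * covMat w σ))
  have f6 := fr_sub_le (U * (A * covMat w σ * A - A)) ((A * covMat w σ * A - A) * U)
  have f7 := fr_sub_le (covMat w σ * A * U * A) (A * U * (A * covMat w σ))
  unfold NV
  linarith

/-- (F), weak variance of `(A C - 1) g` -/
theorem Fam.dX1_dir {a : ℝ} (ha : Op2 A a) (U : Matrix ι ι ℝ) :
    ∑ b, ipF U (dX1 w σ p A (θ b)) ^ 2 ≤ 2 * (Lam w σ p A N k1 k2 * NV (fA A σ) σ U w +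
      16 * (2 * (k2 * k1) + k1 * k1 * a + 1) * fr U) := by
  have hC := covMat_transpose w σ
  have e : ∀ b, ipF U (dX1 w σ p A (θ b)) = cov w (qf w (fA A σ) σ U) (hq A (θ b) p σ) +
      ipF (θ b) ((U * (covMat w σ * A) - A * U * covMat w σ) + (covMat w σ * A - 1) * U :
        Matrix ι ι ℝ) := fun b => by
    have e1 : dX1 w σ p A (θ b) = A * c3 w σ (hq A (θ b) p σ) +
        ((1 * θ b * (A * covMat w σ) - A * θ b * covMat w σ) + (A * covMat w σ - 1) * θ b * 1) := by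
      simp only [dX1, Matrix.sub_mul, Matrix.mul_assoc, Matrix.one_mul, Matrix.mul_one]
    rw [e1, ipF_madd, c3_A1 hA, cov_qf hw, ipF_madd, ipF_msub, ipF_mul3 U, ipF_mul3 U, ipF_mul3 U,
      ipF_madd, ipF_msub]
    simp only [transpose_mul, transpose_sub, transpose_one, hA, hC, Matrix.one_mul, Matrix.mul_one,
      Matrix.mul_assoc]
    rfl
  simp only [e]
  refine (sum_sq2_le _ _ (h.key hw hN0 hN h1 c1 h2 c2 _) (h.bd4 _)).trans ?_
  have y1 := op2_CA hw hA h1 c1 c2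
  have y2 : Op2 (covMat w σ * A)ᵀ (k2 * k1) := by
    rw [transpose_mul, hA, hC]; exact op2_AC hw c1 h2 c2
  have y3 : Op2 (covMat w σ)ᵀ (k1 * k1) := by rw [hC]; exact op2_C hw h1 c1
  have f1 := y2.fr_right U
  have f2 := (y3.fr_right (A * U)).trans (mul_le_mul_of_nonneg_left (ha.fr_left U) (by positivity))
  have f3 := (y1.sub Op2.one).fr_left U
  have f5 := fr_add_le (U * (covMat w σ * A) - A * U * covMat w σ) ((covMat w σ * A - 1) * U)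
  have f6 := fr_sub_le (U * (covMat w σ * A)) (A * U * covMat w σ)
  unfold NV
  linarith

end OneDir

end Crest.Agent.T157.Od
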