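import Crest.Agent.T157.OdC_9

set_option autoImplicit false
set_option linter.unusedSectionVars false

/-!
Row 157, A2 (helper9): user forms of Poincare, (HD), (MM) with a good set; gradients of (T1);
(T2): gradient, convexity bound and the two tails of `log Z` on an orbit.
-/

noncomputable section

namespace Crest.Agent.T157.Od

open MeasureTheory Matrix Crest.Agent.Lib.OrthPoinc Filter Topology Set
open Crest.Agent.T157.Oc Crest.Agent.T157.E Crest.Agent.T157.SL Crest.Agent.T157.Ks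

variable {Ω ι κ : Type*} [Fintype Ω] [Fintype ι] [DecidableEq ι] [Fintype κ] {k : ℕ}

/-! ### user forms with a good set -/

section User

variable {μ : Measure (Mat k)} [IsProbabilityMeasure μ] {G : Set (Mat k)} {B M : ℝ}

/-- the entrywise mean of a matrix -/
def EM {α β : Type*} (μ : Measure (Mat k)) (F : Mat k → Matrix α β ℝ) : Matrix α β ℝ :=
  Matrix.of fun i j => ∫ V, F V i j ∂μ

/-- the entrywise mean of a vector -/
def EV {α : Type*} (μ : Measure (Mat k)) (x : Mat k → α → ℝ) : α → ℝ := fun i => ∫ V, x V i ∂μ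

theorem int_le_good (hμ : SOInv μ) {f : Mat k → ℝ} (hf : ContinuousOn f (SO k))
    (hGm : MeasurableSet G) (B0 : 0 ≤ B) (hG : ∀ U ∈ SO k, U ∈ G → f U ≤ B)
    (hM : ∀ U ∈ SO k, f U ≤ M) : ∫ U, f U ∂μ ≤ B + M * μ.real Gᶜ := by
  have h1 : ∫ U, f U ∂μ ≤ ∫ U, (B + Gᶜ.indicator (fun _ => M) U) ∂μ := by
    refine integral_mono_ae (integrable_of hμ hf)
      ((integrable_const _).add ((integrable_const _).indicator hGm.compl)) ?_
    filter_upwards [hμ.mem] with U hU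
    by_cases h : U ∈ G
    · simpa [h] using hG U hU h
    · simpa [h] using (hM U hU).trans (le_add_of_nonneg_left B0)
  rw [integral_add (integrable_const _) ((integrable_const _).indicator hGm.compl),
    integral_indicator_const _ hGm.compl] at h1
  simpa [mul_comm] using h1

theorem trace_pow_le {D : κ → Matrix ι ι ℝ} (hD : ∀ a, (D a)ᵀ = D a)
    (h : ∀ v, ∑ a, D a *ᵥ v ⬝ᵥ D a *ᵥ v ≤ B * (v ⬝ᵥ v)) (q : ℕ) :
    ((∑ a, D a * D a) ^ q).trace ≤ Fintype.card ι * B ^ q := by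
  have hS : (∑ a, D a * D a)ᵀ = ∑ a, D a * D a := by simp only [transpose_sum, transpose_mul, hD]
  obtain ⟨Q, l, h1, h2, h3⟩ := exists_spec hS
  have h4 : ∀ i, (Qᵀ * (∑ a, D a * D a) * Q) i i = l i := fun i => by
    have := h3 1
    rw [pow_one] at this
    rw [this, conj_back h2]; simp
  rw [← trace_conj h1, h3, conj_back h2, trace_diagonal]
  refine (Finset.sum_le_sum fun i _ => pow_le_pow_left₀ (h4 i ▸ sum_sq_psd hD Q i) (b := B) ?_ q).trans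
    (by simp)
  have h5 := h fun a => Q a i
  rw [col_unit h2, mul_one] at h5
  rw [← h4, conj_diag_eq, Matrix.sum_mulVec, dotProduct_sum]
  simpa only [← mulVec_mulVec, symm_dot (hD _) fun a => Q a i] using h5

theorem RDM.symm {F : Mat k → Matrix ι ι ℝ} {D : Fin k × Fin k → Mat k → Matrix ι ι ℝ} (hF : RDM F D)
    (sF : ∀ U ∈ SO k, (F U)ᵀ = F U) (a : Fin k × Fin k) {U : Mat k} (hU : U ∈ SO k) :
    (D a U)ᵀ = D a U := by
  ext i j
  exact RD.unique ((hF.transpose.congr sF fun _ _ _ => rfl) i j) (hF i j) a hU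

theorem contOn_trace_pow {F : Mat k → Matrix ι ι ℝ} (h : ∀ i j, ContinuousOn (fun U => F U i j) (SO k))
    (q : ℕ) : ContinuousOn (fun U => (F U ^ q).trace) (SO k) := by
  have h1 : ContinuousOn F (SO k) := continuousOn_pi.2 fun i => continuousOn_pi.2 fun j => h i j
  exact (continuous_id.pow q).matrix_trace.comp_continuousOn h1

/-- **(MM)**, operator norm of `F - E F` from the matrix variance on a good set -/
theorem mm_op (hμ : SOInv μ) (hn : 2 < k) {F : Mat k → Matrix ι ι ℝ}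
    {D : Fin k × Fin k → Mat k → Matrix ι ι ℝ} (hF : RDM F D) (sF : ∀ U ∈ SO k, (F U)ᵀ = F U)
    (hGm : MeasurableSet G) (B0 : 0 ≤ B) {s : ℝ} (hs : 0 < s)
    (hG : ∀ U ∈ SO k, U ∈ G → ∀ v, ∑ a, D a U *ᵥ v ⬝ᵥ D a U *ᵥ v ≤ B * (v ⬝ᵥ v))
    (hM : ∀ U ∈ SO k, ∀ v, ∑ a, D a U *ᵥ v ⬝ᵥ D a U *ᵥ v ≤ M * (v ⬝ᵥ v)) {r : ℕ} (hr : Even r) :
    μ.real {U | ¬ OpLe (F U - EM μ F) s} ≤ (4 * ((k : ℝ) - 2)⁻¹ * ((r : ℝ) + 1) ^ 2) ^ (r + 1) *
      (Fintype.card ι * B ^ (r + 1) + Fintype.card ι * M ^ (r + 1) * μ.real Gᶜ) / s ^ (2 * (r + 1)) := by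
  have hρ0 : (0 : ℝ) < (k : ℝ) - 2 := by
    have : (2 : ℝ) < k := by exact_mod_cast hn
    linarith
  have h1 := RD.mm hμ hn hF sF hr
  have h2 := op_tail (P := μ) (G := fun U => F U - EM μ F)
    (BMM.sub (fun i j => bm_of hμ (hF i j).c) (BMM.const _)) (by
      filter_upwards [hμ.mem] with U hU
      rw [transpose_sub, sF U hU]
      congr 1
      ext i j
      refine integral_congr_ae ?_
      filter_upwards [hμ.mem] with V hV using congrFun (congrFun (sF V hV) i) j)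
    (even_two_mul (r + 1)) hs
  have h3 := int_le_good hμ (f := fun U => ((∑ a, D a U * D a U) ^ (r + 1)).trace)
    (contOn_trace_pow (fun i j => by
      simp only [Matrix.sum_apply, Matrix.mul_apply]
      exact continuousOn_finsetSum _ fun a _ => continuousOn_finsetSum _ fun l _ =>
        ((hF i l).r a).c'.mul ((hF l j).r a).c') _) hGm (by positivity)
    (fun U hU h => trace_pow_le (fun a => hF.symm sF a hU) (hG U hU h) _)
    (fun U hU => trace_pow_le (fun a => hF.symm sF a hU) (hM U hU) _)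
  refine le_trans (measureReal_mono fun U hU => ?_) (h2.trans (div_le_div_of_nonneg_right
    (h1.trans (mul_le_mul_of_nonneg_left h3 (by positivity))) (by positivity)))
  simp only [OpLe, Set.mem_ofPred_eq, not_forall, not_le] at hU ⊢
  obtain ⟨u, hu, h⟩ := hU
  exact ⟨u, hu, h.le⟩

/-- Poincare for vectors with a good set -/
theorem vec_var (hμ : SOInv μ) (hn : 2 < k) {x : Mat k → κ → ℝ} {D : Fin k × Fin k → Mat k → κ → ℝ}
    (hx : RDV x D) (hGm : MeasurableSet G) (B0 : 0 ≤ B)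
    (hG : ∀ U ∈ SO k, U ∈ G → ∑ i, ∑ a, D a U i ^ 2 ≤ B) (hM : ∀ U ∈ SO k, ∑ i, ∑ a, D a U i ^ 2 ≤ M) :
    ∫ U, ∑ i, (x U i - EV μ x i) ^ 2 ∂μ ≤ ((k : ℝ) - 2)⁻¹ * (B + M * μ.real Gᶜ) := by
  have hρ0 : (0 : ℝ) < (k : ℝ) - 2 := by
    have : (2 : ℝ) < k := by exact_mod_cast hn
    linarith
  have i1 : ∀ i, Integrable (fun U => (x U i - ∫ V, x V i ∂μ) ^ 2) μ := fun i =>
    integrable_of hμ (((hx i).c.sub continuousOn_const).pow 2)
  have h2 := Finset.sum_le_sum fun i (_ : i ∈ Finset.univ) => (hx i).poincare hμ hn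
  rw [← Finset.mul_sum, ← integral_finsetSum _ fun i _ => integrable_of hμ (hx i).cD,
    ← integral_finsetSum _ fun i _ => i1 i] at h2
  exact h2.trans (mul_le_mul_of_nonneg_left (int_le_good hμ
    (continuousOn_finsetSum _ fun i _ => (hx i).cD) hGm B0 hG hM) (by positivity))

/-- the median of `|x - E x|` -/
theorem vec_med (hμ : SOInv μ) (hn : 2 < k) {x : Mat k → κ → ℝ} {D : Fin k × Fin k → Mat k → κ → ℝ}
    (hx : RDV x D) (hGm : MeasurableSet G) (B0 : 0 ≤ B)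
    (hG : ∀ U ∈ SO k, U ∈ G → ∑ i, ∑ a, D a U i ^ 2 ≤ B) (hM : ∀ U ∈ SO k, ∑ i, ∑ a, D a U i ^ 2 ≤ M)
    {c : ℝ} (hc : 0 < c) (h : 2 * (((k : ℝ) - 2)⁻¹ * (B + M * μ.real Gᶜ)) ≤ c ^ 2) :
    μ.real {U | c ^ 2 < ∑ i, (x U i - EV μ x i) ^ 2} ≤ 1 / 2 := by
  have hρ0 : (0 : ℝ) < (k : ℝ) - 2 := by
    have : (2 : ℝ) < k := by exact_mod_cast hn
    linarith
  refine norm_med hμ hn hx hc (le_trans ?_ h)
  have := int_le_good hμ (continuousOn_finsetSum _ fun i _ => (hx i).cD) hGm B0 hG hM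
  gcongr

theorem RDM.vec {F : Mat k → Matrix ι ι ℝ} {D : Fin k × Fin k → Mat k → Matrix ι ι ℝ} (hF : RDM F D) :
    RDV (fun U (i : ι × ι) => F U i.1 i.2) fun a U i => D a U i.1 i.2 := fun i => hF i.1 i.2

theorem sum_fr (D : κ → Matrix ι ι ℝ) : ∑ i : ι × ι, ∑ a, D a i.1 i.2 ^ 2 = ∑ a, fr (D a) := by
  rw [Finset.sum_comm]; simp only [fr, Fintype.sum_prod_type]

/-- Poincare for matrices with a good set -/
theorem fr_var (hμ : SOInv μ) (hn : 2 < k) {F : Mat k → Matrix ι ι ℝ}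
    {D : Fin k × Fin k → Mat k → Matrix ι ι ℝ} (hF : RDM F D) (hGm : MeasurableSet G) (B0 : 0 ≤ B)
    (hG : ∀ U ∈ SO k, U ∈ G → ∑ a, fr (D a U) ≤ B) (hM : ∀ U ∈ SO k, ∑ a, fr (D a U) ≤ M) :
    ∫ U, fr (F U - EM μ F) ∂μ ≤ ((k : ℝ) - 2)⁻¹ * (B + M * μ.real Gᶜ) := by
  have := vec_var hμ hn hF.vec hGm B0 (fun U hU h => (sum_fr _).trans_le (hG U hU h))
    fun U hU => (sum_fr _).trans_le (hM U hU)
  simp only [Fintype.sum_prod_type] at this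
  exact this

/-- the median of `|F - E F|_F` -/
theorem fr_med (hμ : SOInv μ) (hn : 2 < k) {F : Mat k → Matrix ι ι ℝ}
    {D : Fin k × Fin k → Mat k → Matrix ι ι ℝ} (hF : RDM F D) (hGm : MeasurableSet G) (B0 : 0 ≤ B)
    (hG : ∀ U ∈ SO k, U ∈ G → ∑ a, fr (D a U) ≤ B) (hM : ∀ U ∈ SO k, ∑ a, fr (D a U) ≤ M)
    {c : ℝ} (hc : 0 < c) (h : 2 * (((k : ℝ) - 2)⁻¹ * (B + M * μ.real Gᶜ)) ≤ c ^ 2) :
    μ.real {U | c ^ 2 < fr (F U - EM μ F)} ≤ 1 / 2 := by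
  have := vec_med hμ hn hF.vec hGm B0 (fun U hU h => (sum_fr _).trans_le (hG U hU h))
    (fun U hU => (sum_fr _).trans_le (hM U hU)) hc h
  simp only [Fintype.sum_prod_type] at this
  exact this

/-- **(HD)** for `|x - c|`, directions in the words of `dotProduct` -/
theorem vec_hd (hμ : SOInv μ) (hn : 2 < k) {x : Mat k → κ → ℝ} {D : Fin k × Fin k → Mat k → κ → ℝ}
    (hx : RDV x D) (x0 : κ → ℝ) (hGm : MeasurableSet G) {A c y : ℝ} (hA : 0 < A) (hM0 : 0 ≤ M)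
    (hc : 0 ≤ c) (hy : 0 < y)
    (hG : ∀ U ∈ SO k, U ∈ G → ∑ i, (x U i - x0 i) ^ 2 ≤ (c + 2 * y) ^ 2 →
      ∀ v, ∑ a, (v ⬝ᵥ D a U) ^ 2 ≤ A * (v ⬝ᵥ v))
    (hM : ∀ U ∈ SO k, ∀ v, ∑ a, (v ⬝ᵥ D a U) ^ 2 ≤ M * (v ⬝ᵥ v))
    (hm : μ.real {U | c ^ 2 < ∑ i, (x U i - x0 i) ^ 2} ≤ 1 / 2) :
    μ.real {U | (c + 2 * y) ^ 2 ≤ ∑ i, (x U i - x0 i) ^ 2} ≤
      Real.exp (-(((k : ℝ) - 2) * y ^ 2 / (36 * A))) + M / A * μ.real Gᶜ :=
  norm_hd hμ hn (x := fun i U => x U i - x0 i) (D := fun i a U => D a U i)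
    (fun i => ((hx i).sub (RD.const _)).congr (fun _ _ => rfl) fun _ _ _ => sub_zero _) hGm hA hM0 hc hy
    (fun U hU h h' v => by simpa only [dotProduct, ← sq] using hG U hU h h' v)
    (fun U hU v => by simpa only [dotProduct, ← sq] using hM U hU v) hm

/-- **(HD)** for `|F - F₀|_F`, directions in the words of `ipF` -/
theorem fr_hd (hμ : SOInv μ) (hn : 2 < k) {F : Mat k → Matrix ι ι ℝ}
    {D : Fin k × Fin k → Mat k → Matrix ι ι ℝ} (hF : RDM F D) (F0 : Matrix ι ι ℝ)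
    (hGm : MeasurableSet G) {A c y : ℝ} (hA : 0 < A) (hM0 : 0 ≤ M) (hc : 0 ≤ c) (hy : 0 < y)
    (hG : ∀ U ∈ SO k, U ∈ G → fr (F U - F0) ≤ (c + 2 * y) ^ 2 →
      ∀ V : Matrix ι ι ℝ, ∑ a, ipF V (D a U) ^ 2 ≤ A * fr V)
    (hM : ∀ U ∈ SO k, ∀ V : Matrix ι ι ℝ, ∑ a, ipF V (D a U) ^ 2 ≤ M * fr V)
    (hm : μ.real {U | c ^ 2 < fr (F U - F0)} ≤ 1 / 2) :
    μ.real {U | (c + 2 * y) ^ 2 ≤ fr (F U - F0)} ≤
      Real.exp (-(((k : ℝ) - 2) * y ^ 2 / (36 * A))) + M / A * μ.real Gᶜ := by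
  have e1 : ∀ U, ∑ i : ι × ι, (F U i.1 i.2 - F0 i.1 i.2) ^ 2 = fr (F U - F0) := fun U =>
    Fintype.sum_prod_type _
  have e2 : ∀ (v : ι × ι → ℝ) a U, (v ⬝ᵥ fun i => D a U i.1 i.2) = ipF (fun i j => v (i, j)) (D a U) :=
    fun v a U => Fintype.sum_prod_type _
  have e3 : ∀ v : ι × ι → ℝ, v ⬝ᵥ v = fr fun i j => v (i, j) := fun v => by
    simp only [dotProduct, ← sq]; exact Fintype.sum_prod_type _
  have := vec_hd hμ hn hF.vec (fun i => F0 i.1 i.2) hGm hA hM0 hc hy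
    (fun U hU h h' v => by simpa only [e2, e3] using hG U hU h (e1 U ▸ h') fun i j => v (i, j))
    (fun U hU v => by simpa only [e2, e3] using hM U hU fun i j => v (i, j))
    (by simpa only [e1] using hm)
  simpa only [e1] using this

end User

/-! ### frames -/

theorem op_conj {g : Matrix ι ι ℝ} (h : g * gᵀ = 1) (D : Matrix ι ι ℝ) (v : ι → ℝ) :
    (gᵀ * D * g) *ᵥ v ⬝ᵥ (gᵀ * D * g) *ᵥ v = D *ᵥ (g *ᵥ v) ⬝ᵥ D *ᵥ (g *ᵥ v) := by
  rw [← mulVec_mulVec, ← mulVec_mulVec, Op2.orth (by rwa [transpose_transpose])]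

theorem dot_tp (g : Matrix ι ι ℝ) (u v : ι → ℝ) : u ⬝ᵥ gᵀ *ᵥ v = g *ᵥ u ⬝ᵥ v := by
  rw [dotProduct_mulVec, vecMul_transpose]

theorem ipF_mul_right (V D g : Matrix ι ι ℝ) : ipF V (D * g) = ipF (V * gᵀ) D := by
  have := ipF_mul3 V 1 D g
  rwa [Matrix.one_mul, transpose_one, Matrix.one_mul, ipF_comm D] at this

variable {θ : κ → Matrix ι ι ℝ} {w : Ω → ℝ} {σ : Ω → ι → ℝ} {p : ι → ℝ} {A B : Matrix ι ι ℝ}
  {E : Matrix ι (Fin k) ℝ} {W : Matrix ι ι ℝ} {w0 : Ω → ℝ}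

theorem rd_ACA (hE : Eᵀ * E = 1) (hW : Wᵀ = W) (hw : Wt w0) (z : ℝ) :
    RDM (fun U => AU E W z U * covMat (cw E W p σ w0 U) σ * AU E W z U) fun a U =>
      dPhi (cw E W p σ w0 U) σ p (AU E W z U) (thU E a U) +
        (thU E a U * AU E W z U - AU E W z U * thU E a U) :=
  ((rd_Phi hE hW hw z).add (rd_AU hE)).congr (fun _ _ => sub_add_cancel _ _) fun _ _ _ => rfl

/-- (m2): `R = C⁻¹ - A` -/
theorem rd_R (hE : Eᵀ * E = 1) (hW : Wᵀ = W) (hw : Wt w0) (z : ℝ)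
    (hd : ∀ U ∈ SO k, 0 < (covMat (cw E W p σ w0 U) σ).det) :
    RDM (fun U => (covMat (cw E W p σ w0 U) σ)⁻¹ - AU E W z U) fun a U =>
      -((covMat (cw E W p σ w0 U) σ)⁻¹ * c3 (cw E W p σ w0 U) σ (hq (AU E W z U) (thU E a U) p σ) *
        (covMat (cw E W p σ w0 U) σ)⁻¹) - (thU E a U * AU E W z U - AU E W z U * thU E a U) :=
  ((rd_C hE hW hw z).inv hd).sub (rd_AU hE)

/-! ### (T1) -/

theorem cfc_symm {X : Matrix ι ι ℝ} (hX : Xᵀ = X) (φ : ℝ → ℝ) : (cfc φ X)ᵀ = cfc φ X := by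
  obtain ⟨Q, l, -, -, -, h⟩ := exists_spec_cfc hX
  rw [h, transpose_mul, transpose_mul, transpose_transpose, diagonal_transpose, Matrix.mul_assoc]

theorem cfc_comm {X : Matrix ι ι ℝ} (hX : Xᵀ = X) (φ : ℝ → ℝ) : cfc φ X * X = X * cfc φ X := by
  obtain ⟨Q, l, -, h2, h3, h⟩ := exists_spec_cfc hX
  have e : ∀ a b : ι → ℝ, Q * diagonal a * Qᵀ * (Q * diagonal b * Qᵀ) =
      Q * diagonal (fun i => a i * b i) * Qᵀ := fun a b => by
    rw [← diagonal_mul_diagonal]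
    calc _ = Q * diagonal a * (Qᵀ * Q) * diagonal b * Qᵀ := by simp only [Matrix.mul_assoc]
      _ = _ := by rw [h2, Matrix.mul_one]; simp only [Matrix.mul_assoc]
  rw [h]
  conv_lhs => rw [h3]
  conv_rhs => rw [h3]
  rw [e, e]
  simp only [mul_comm]

/-- (T1): the gradient of `tr φ(A_U + B)` -/
theorem rd_T1 (hE : Eᵀ * E = 1) (hW : Wᵀ = W) (hB : Bᵀ = B) (z : ℝ) {φ φ' : ℝ → ℝ} {K : ℝ}
    (hφ : ∀ x, HasDerivAt φ (φ' x) x) (hK : ∀ a b, |φ' a - φ' b| ≤ K * |a - b|) :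
    RD (fun U => (cfc φ (AU E W z U + B)).trace) fun a U =>
      ipF (thU E a U) (B * cfc φ' (AU E W z U + B) - cfc φ' (AU E W z U + B) * B : Matrix ι ι ℝ) := by
  have hs : ∀ U, (AU E W z U + B)ᵀ = AU E W z U + B := fun U => by rw [transpose_add, AU_symm hW, hB]
  refine (RD.trfun ((rd_AU hE).add (RDM.const B)) (fun U _ => hs U) hφ hK).congr (fun _ _ => rfl)
    fun a U _ => ?_
  have h1 := cfc_comm (hs U) φ'
  have h2 := cfc_symm (hs U) φ'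
  generalize cfc φ' (AU E W z U + B) = F at *
  have h3 : F * B - B * F = AU E W z U * F - F * AU E W z U := by
    rw [Matrix.mul_add, Matrix.add_mul] at h1
    rw [sub_eq_sub_iff_add_eq_add, add_comm, h1]
  rw [ipF_eq_trace, transpose_sub, transpose_mul, transpose_mul, h2, hB, h3, add_zero, Matrix.mul_sub,
    Matrix.sub_mul, trace_sub, trace_sub, ← Matrix.mul_assoc, trace_mul_cycle, Matrix.mul_assoc F]

/-- the commutator with `B` is the commutator with `W_U` -/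
theorem comm_T1 (hW : Wᵀ = W) (hB : Bᵀ = B) (z : ℝ) (φ' : ℝ → ℝ) (U : Mat k) :
    B * cfc φ' (AU E W z U + B) - cfc φ' (AU E W z U + B) * B =
      WU E W U * cfc φ' (AU E W z U + B) - cfc φ' (AU E W z U + B) * WU E W U := by
  have h1 := cfc_comm (show (AU E W z U + B)ᵀ = AU E W z U + B by rw [transpose_add, AU_symm hW, hB]) φ'
  generalize cfc φ' (AU E W z U + B) = F at *
  simp only [AU, Matrix.mul_add, Matrix.add_mul, Matrix.mul_sub, Matrix.sub_mul, Matrix.mul_smul,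
    Matrix.smul_mul, Matrix.mul_one, Matrix.one_mul] at h1
  rw [sub_eq_sub_iff_add_eq_add, ← sub_eq_zero]
  rw [← sub_eq_zero] at h1
  rw [← neg_eq_zero, ← h1]
  abel

theorem fr_comm_le {b : ℝ} (hB : Bᵀ = B) (h : Op2 B b) (F : Matrix ι ι ℝ) :
    fr (B * F - F * B) ≤ 4 * b * fr F := by
  linarith [fr_sub_le (B * F) (F * B), h.fr_left F, Op2.fr_right (Q := B) (by rwa [hB]) F]

/-- (T1): `|∇ v|² ≤ 16 ‖B‖² |φ'|_F²` (use `comm_T1` for `‖W‖` in place of `‖B‖`) -/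
theorem Fam.T1 (h : Fam θ) {b : ℝ} (hB : Bᵀ = B) (hb : Op2 B b) (F : Matrix ι ι ℝ) :
    ∑ a, ipF (θ a) (B * F - F * B : Matrix ι ι ℝ) ^ 2 ≤ 16 * b * fr F := by
  linarith [h.bd4 (B * F - F * B : Matrix ι ι ℝ), fr_comm_le hB hb F]

/-! ### (T2) -/

/-- second moments around `p` -/
def sm2 (w : Ω → ℝ) (σ : Ω → ι → ℝ) (p : ι → ℝ) : Matrix ι ι ℝ :=
  covMat w σ + vecMulVec (meanV w σ - p) (meanV w σ - p)

theorem sm2_transpose : (sm2 w σ p)ᵀ = sm2 w σ p := by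
  rw [sm2, transpose_add, covMat_transpose, transpose_vecMulVec]

theorem mean_dot2 (hw : Wt w) (u v : ι → ℝ) :
    mean w (fun x => (u ⬝ᵥ (σ x - p)) * (v ⬝ᵥ (σ x - p))) = u ⬝ᵥ sm2 w σ p *ᵥ v := by
  rw [sm2, add_mulVec, dotProduct_add, covMat_quad, hw.cov_eq, vecMulVec_mulVec, dotProduct_smul,
    dotProduct_comm _ v]
  simp only [dotProduct_sub, sub_mul, mul_sub, mean_sub, mean_const_mul, mean_mul_const, hw.mean_const,
    meanV_dot, MulOpposite.smul_eq_mul_unop, MulOpposite.unop_op, mul_comm (v ⬝ᵥ σ _) (u ⬝ᵥ σ _)]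
  ring

theorem mean_hq (hw : Wt w) : mean w (hq A B p σ) = ipF B (A * sm2 w σ p) := by
  have e : hq A B p σ = fun x => ∑ j, ∑ l, B j l * ((A j ⬝ᵥ (σ x - p)) *
      ((Pi.single l 1 : ι → ℝ) ⬝ᵥ (σ x - p))) := funext fun x => by
    rw [hq, dot_eq_ipF]; simp only [single_dot]; rfl
  simp only [e, mean_sum, mean_const_mul, mean_dot2 hw, mulVec_single_one, ipF]
  rfl

theorem fr_comm_sm2 (hA : Aᵀ = A) : fr (A * sm2 w σ p - sm2 w σ p * A) ≤ 8 * fr (A * covMat w σ - 1) +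
    8 * ((A *ᵥ (meanV w σ - p) ⬝ᵥ A *ᵥ (meanV w σ - p)) * ((meanV w σ - p) ⬝ᵥ (meanV w σ - p))) := by
  generalize hd : meanV w σ - p = d
  have e : A * sm2 w σ p - sm2 w σ p * A = ((A * covMat w σ - 1) - (A * covMat w σ - 1)ᵀ) +
      (vecMulVec (A *ᵥ d) d - (vecMulVec (A *ᵥ d) d)ᵀ) := by
    rw [sm2, hd, ← mul_vecMulVec]
    simp only [transpose_sub, transpose_mul, transpose_one, hA, covMat_transpose, transpose_vecMulVec,
      Matrix.mul_add, Matrix.add_mul]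
    abel
  have h1 : fr (vecMulVec (A *ᵥ d) d) = (A *ᵥ d ⬝ᵥ A *ᵥ d) * (d ⬝ᵥ d) := by
    simp only [fr, vecMulVec_apply, dotProduct, Finset.sum_mul_sum]
    exact Finset.sum_congr rfl fun _ _ => Finset.sum_congr rfl fun _ _ => by ring
  have h2 := fr_sub_le (A * covMat w σ - 1) (A * covMat w σ - 1)ᵀ
  have h3 := fr_sub_le (vecMulVec (A *ᵥ d) d) (vecMulVec (A *ᵥ d) d)ᵀ
  rw [fr_transpose] at h2 h3
  rw [e]
  linarith [fr_add_le ((A * covMat w σ - 1) - (A * covMat w σ - 1)ᵀ)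
    (vecMulVec (A *ᵥ d) d - (vecMulVec (A *ᵥ d) d)ᵀ)]

/-- (T2): `|∇ log Z|² ≤ |[A, C + δ δᵀ]|_F²` -/
theorem Fam.T2 (h : Fam θ) (hw : Wt w) (hA : Aᵀ = A) :
    ∑ a, mean w (hq A (θ a) p σ) ^ 2 ≤ fr (A * sm2 w σ p - sm2 w σ p * A) := by
  simp only [mean_hq hw]
  refine (h.bd _).trans_eq (congrArg fr ?_)
  ext i j
  rw [Matrix.sub_apply, ← transpose_apply (A * sm2 w σ p) i j, transpose_mul, hA, sm2_transpose]

theorem sm2_le {k1 : ℝ} (c1 : CB w σ k1) (v : ι → ℝ) :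
    v ⬝ᵥ sm2 w σ p *ᵥ v ≤ (k1 + (meanV w σ - p) ⬝ᵥ (meanV w σ - p)) * (v ⬝ᵥ v) := by
  have h1 := c1 v
  have h2 := Finset.sum_mul_sq_le_sq_mul_sq Finset.univ (meanV w σ - p) v
  simp only [sq] at h2
  rw [sm2, add_mulVec, dotProduct_add, vecMulVec_mulVec, dotProduct_smul, dotProduct_comm v (_ - p)]
  simp only [MulOpposite.smul_eq_mul_unop, MulOpposite.unop_op]
  change _ + _ * _ ≤ _
  change (meanV w σ - p) ⬝ᵥ v * ((meanV w σ - p) ⬝ᵥ v) ≤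
    ((meanV w σ - p) ⬝ᵥ (meanV w σ - p)) * (v ⬝ᵥ v) at h2
  linarith

theorem mean_tp_sq (hw : Wt w) {s : ℝ} (hs : ∀ v, v ⬝ᵥ sm2 w σ p *ᵥ v ≤ s * (v ⬝ᵥ v)) (M : Matrix ι ι ℝ) :
    mean w (fun x => Mᵀ *ᵥ (σ x - p) ⬝ᵥ Mᵀ *ᵥ (σ x - p)) ≤ s * fr M := by
  have e : ∀ x, Mᵀ *ᵥ (σ x - p) ⬝ᵥ Mᵀ *ᵥ (σ x - p) =
      ∑ i, (Mᵀ i ⬝ᵥ (σ x - p)) * (Mᵀ i ⬝ᵥ (σ x - p)) := fun _ => rfl
  simp only [e, mean_sum, mean_dot2 hw]
  rw [← fr_transpose, fr, Finset.mul_sum]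
  exact Finset.sum_le_sum fun i _ => (hs _).trans_eq (by simp only [dotProduct, sq])

theorem dot_le_amgm {a : ℝ} (ha : 0 < a) (x y : ι → ℝ) :
    x ⬝ᵥ y ≤ (x ⬝ᵥ x) / (2 * a) + a / 2 * (y ⬝ᵥ y) := by
  have := dot_self_nonneg (x - a • y)
  simp only [sub_dotProduct, dotProduct_sub, smul_dotProduct, dotProduct_smul, smul_eq_mul,
    dotProduct_comm y x] at this
  rw [div_add' _ _ _ (by positivity), le_div_iff₀ (by positivity)]
  nlinarith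

/-- the energy change under a rotation `h`, second order bound -/
theorem mean_conj_le (hw : Wt w) (hA : Aᵀ = A) {g : Matrix ι ι ℝ} (hg : g * gᵀ = 1) {a s r c : ℝ}
    (a0 : 0 < a) (ha : Op2 A (a ^ 2)) (s0 : 0 ≤ s) (hs : ∀ v, v ⬝ᵥ sm2 w σ p *ᵥ v ≤ s * (v ⬝ᵥ v))
    (r0 : 0 ≤ r) (hr : fr (g - 1) ≤ r ^ 2) (c0 : 0 ≤ c)
    (hc : fr (A * sm2 w σ p - sm2 w σ p * A) ≤ c ^ 2) :
    mean w (fun x => (σ x - p) ⬝ᵥ (g * A * gᵀ - A) *ᵥ (σ x - p)) ≤ r * c + 2 * a * s * r ^ 2 := by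
  obtain ⟨Δ, rfl⟩ : ∃ Δ, g = 1 + Δ := ⟨g - 1, by abel⟩
  rw [add_sub_cancel_left] at hr
  have h0 : Δᵀ + Δᵀ = (Δᵀ - Δ) - Δ * Δᵀ := by
    rw [transpose_add, transpose_one, Matrix.add_mul, Matrix.mul_add, Matrix.mul_add] at hg
    simp only [Matrix.one_mul, Matrix.mul_one] at hg
    rw [← sub_eq_zero] at hg ⊢
    rw [← hg]; abel
  have hK : (Δᵀ - Δ)ᵀ = -(Δᵀ - Δ) := by rw [transpose_sub, transpose_transpose, neg_sub]
  have h1 : ∀ y : ι → ℝ, y ⬝ᵥ ((1 + Δ) * A * (1 + Δ)ᵀ - A) *ᵥ y ≤ A *ᵥ y ⬝ᵥ (Δᵀ - Δ) *ᵥ y +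
      (((A * Δ)ᵀ *ᵥ y ⬝ᵥ (A * Δ)ᵀ *ᵥ y) / (2 * a) + 3 * a / 2 * (Δᵀ *ᵥ y ⬝ᵥ Δᵀ *ᵥ y)) := fun y => by
    have b0 := congrArg (fun M => A *ᵥ y ⬝ᵥ M *ᵥ y) h0
    have b1 := dot_le_amgm a0 (-(Δᵀ *ᵥ (A *ᵥ y))) (Δᵀ *ᵥ y)
    have b2 := dot_le_amgm a0 (A *ᵥ (Δᵀ *ᵥ y)) (Δᵀ *ᵥ y)
    have b3 : (A *ᵥ (Δᵀ *ᵥ y) ⬝ᵥ A *ᵥ (Δᵀ *ᵥ y)) / (2 * a) ≤ a / 2 * (Δᵀ *ᵥ y ⬝ᵥ Δᵀ *ᵥ y) := by
      rw [div_le_iff₀ (by positivity)]; linarith [ha (Δᵀ *ᵥ y)]
    have b4 : A *ᵥ y ⬝ᵥ Δ *ᵥ (Δᵀ *ᵥ y) = Δᵀ *ᵥ (A *ᵥ y) ⬝ᵥ Δᵀ *ᵥ y := by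
      rw [dotProduct_mulVec, ← mulVec_transpose]
    rw [sub_mulVec, dotProduct_sub, dot_mul3, transpose_mul, hA]
    simp only [add_mulVec, dotProduct_add, sub_mulVec _ (Δ * Δᵀ), dotProduct_sub, ← mulVec_mulVec, b4,
      neg_dotProduct, dotProduct_neg, neg_neg] at b0 b1
    simp only [transpose_add, transpose_one, add_mulVec, one_mulVec, mulVec_add, dotProduct_add,
      add_dotProduct, ← mulVec_mulVec, symm_dot hA y, dotProduct_comm (Δᵀ *ᵥ y) (A *ᵥ _)]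
    linarith
  refine (hw.mean_mono fun x => h1 _).trans ?_
  rw [mean_add, mean_add, mean_div_const, mean_const_mul]
  have h2 : mean w (fun x => A *ᵥ (σ x - p) ⬝ᵥ (Δᵀ - Δ) *ᵥ (σ x - p)) ≤ r * c := by
    have b1 : ipF (Δᵀ - Δ : Matrix ι ι ℝ) (A * sm2 w σ p - sm2 w σ p * A : Matrix ι ι ℝ) =
        2 * mean w (hq A (Δᵀ - Δ) p σ) := by
      rw [mean_hq hw, ← ipF_skew hK]
      congr 1
      ext i j
      rw [Matrix.sub_apply, ← transpose_apply (A * sm2 w σ p) i j, transpose_mul, hA, sm2_transpose]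
    have b2 := ipF_sq_le (Δᵀ - Δ) (A * sm2 w σ p - sm2 w σ p * A)
    have b3 := fr_sub_le Δᵀ Δ
    rw [fr_transpose] at b3
    have b4 := mul_le_mul (show fr (Δᵀ - Δ) ≤ 4 * r ^ 2 by linarith) hc fr_nonneg (by positivity)
    refine abs_le_of_sq_le_sq' ?_ (mul_nonneg r0 c0) |>.2
    change mean w (hq A (Δᵀ - Δ) p σ) ^ 2 ≤ _
    rw [b1] at b2
    linarith
  have h3 : mean w (fun x => (A * Δ)ᵀ *ᵥ (σ x - p) ⬝ᵥ (A * Δ)ᵀ *ᵥ (σ x - p)) / (2 * a) ≤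
      a / 2 * (s * r ^ 2) := by
    rw [div_le_iff₀ (by positivity)]
    have b1 := (ha.fr_left Δ).trans (mul_le_mul_of_nonneg_left hr (by positivity))
    have b2 := mul_le_mul_of_nonneg_left b1 s0
    linarith [mean_tp_sq hw hs (A * Δ)]
  have h4 := mul_le_mul_of_nonneg_left ((mean_tp_sq hw hs Δ).trans (mul_le_mul_of_nonneg_left hr s0))
    (show 0 ≤ 3 * a / 2 by positivity)
  linarith

theorem fr_emb (hE : Eᵀ * E = 1) {U V : Mat k} (hU : U ∈ SO k) :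
    fr (emb E V * (emb E U)ᵀ - 1) = fd U V := by
  have e1 : emb E V * (emb E U)ᵀ - 1 = E * (Matrix.of V - Matrix.of U) * Eᵀ * (emb E U)ᵀ := by
    rw [← emb_orth hE hU, ← Matrix.sub_mul]
    congr 1
    simp only [emb, Matrix.mul_sub, Matrix.sub_mul]
    abel
  rw [e1, fr_orth_right (by rw [transpose_transpose]; exact emb_orth' hE hU), fr, frob_eq_trace,
    transpose_mul, transpose_mul, transpose_transpose]
  have e2 : E * (Matrix.of V - Matrix.of U) * Eᵀ * (E * ((Matrix.of V - Matrix.of U)ᵀ * Eᵀ)) =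
      E * ((Matrix.of V - Matrix.of U) * (Eᵀ * E) * (Matrix.of V - Matrix.of U)ᵀ * Eᵀ) := by
    simp only [Matrix.mul_assoc]
  rw [e2, hE, Matrix.mul_one, trace_mul_comm, Matrix.mul_assoc, hE, Matrix.mul_one, ← frob_eq_trace, fd]
  exact Finset.sum_congr rfl fun _ _ => Finset.sum_congr rfl fun _ _ => by
    simp only [Matrix.sub_apply, of_apply]; ring

/-- **(T2), convexity**: `log Z(V) ≥ log Z(U) - r c / 2 - a s r²`, `r² ≥ |U - V|_F²`; only the Gibbs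
measure at `U` enters. -/
theorem logZ_ge (hE : Eᵀ * E = 1) (hW : Wᵀ = W) (hw : Wt w0) (z : ℝ) {U V : Mat k} (hU : U ∈ SO k)
    (hV : V ∈ SO k) {a s r c : ℝ} (a0 : 0 < a) (ha : Op2 (AU E W z U) (a ^ 2)) (s0 : 0 ≤ s)
    (hs : ∀ v, v ⬝ᵥ sm2 (cw E W p σ w0 U) σ p *ᵥ v ≤ s * (v ⬝ᵥ v)) (r0 : 0 ≤ r) (hr : fd U V ≤ r ^ 2)
    (c0 : 0 ≤ c) (hc : fr (AU E W z U * sm2 (cw E W p σ w0 U) σ p -
      sm2 (cw E W p σ w0 U) σ p * AU E W z U) ≤ c ^ 2) :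
    Real.log (Zw (cw E W p σ w0 U)) - (r * c / 2 + a * s * r ^ 2) ≤ Real.log (Zw (cw E W p σ w0 V)) := by
  have hwU := wt_gw (H := HU E W p σ) hw U
  have hg : emb E V * (emb E U)ᵀ * (emb E V * (emb E U)ᵀ)ᵀ = 1 := by
    rw [transpose_mul, transpose_transpose, Matrix.mul_assoc, ← Matrix.mul_assoc (emb E U)ᵀ,
      emb_orth' hE hU, Matrix.one_mul, emb_orth hE hV]
  have h1 := mean_conj_le hwU (AU_symm hW U) hg a0 ha s0 hs r0 ((fr_emb hE hU).trans_le hr) c0 hc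
  have e1 : emb E V * (emb E U)ᵀ * AU E W z U * (emb E V * (emb E U)ᵀ)ᵀ = AU E W z V := by
    rw [AU_eq hE hU, AU_eq hE hV, transpose_mul, transpose_transpose]
    calc _ = emb E V * ((emb E U)ᵀ * emb E U) * (z • (1 : Matrix ι ι ℝ) - W) * ((emb E U)ᵀ * emb E U) *
        (emb E V)ᵀ := by simp only [Matrix.mul_assoc]
      _ = _ := by rw [emb_orth' hE hU, Matrix.mul_one, Matrix.mul_one]
  have h2 : mean (cw E W p σ w0 U) (fun x => HU E W p σ x V - HU E W p σ x U) ≤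
      Real.log (mean (cw E W p σ w0 U) fun x => Real.exp (HU E W p σ x V - HU E W p σ x U)) :=
    Ent.mean_le_log_mean_exp hwU.isP _
  have e2 : (mean (cw E W p σ w0 U) fun x => Real.exp (HU E W p σ x V - HU E W p σ x U)) =
      Zw (cw E W p σ w0 V) / Zw (cw E W p σ w0 U) := by
    rw [mean_eq_div]
    congr 1
    exact Finset.sum_congr rfl fun x _ => by rw [cw, gw, gw, mul_assoc, ← Real.exp_add, add_sub_cancel]
  have e3 : (fun x => HU E W p σ x V - HU E W p σ x U) =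
      fun x => (-1 / 2) * ((σ x - p) ⬝ᵥ (AU E W z V - AU E W z U) *ᵥ (σ x - p)) := funext fun x => by
    rw [AU, AU, sub_sub_sub_cancel_left, sub_mulVec, dotProduct_sub, HU, HU]; ring
  rw [e2, Real.log_div (x := Zw _) (y := Zw _) (wt_gw hw V).pos.ne' hwU.pos.ne', e3,
    mean_const_mul] at h2
  rw [e1] at h1
  linarith

end Crest.Agent.T157.Od
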