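import Crest.Agent.T157.OdD_9

set_option autoImplicit false
set_option linter.unusedSectionVars false

/-!
Row 157, A2 (helper9): (T2), comparison of the Haar law with the tilted law `e^u Haar` on an orbit.
-/

noncomputable section

namespace Crest.Agent.T157.Od

open MeasureTheory Matrix Crest.Agent.Lib.OrthPoinc Filter Topology Set
open Crest.Agent.T157.Oc Crest.Agent.T157.E Crest.Agent.T157.SL Crest.Agent.T157.Ks

variable {k : ℕ} {μ : Measure (Mat k)} [IsProbabilityMeasure μ] {u : Mat k → ℝ} {S T : Set (Mat k)}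
  {c b : ℝ}

/-- the tilted mass of `T` -/
def tm (μ : Measure (Mat k)) (u : Mat k → ℝ) (T : Set (Mat k)) : ℝ := ∫ U in T, Real.exp (u U) ∂μ

/-- `u` is a normalised log-density, semi-convex seen from the points of `S` -/
structure T2H (μ : Measure (Mat k)) (u : Mat k → ℝ) (S : Set (Mat k)) (c b : ℝ) : Prop where
  inv : SOInv μ
  ct : ContinuousOn u (SO k)
  one : ∫ U, Real.exp (u U) ∂μ = 1
  cv : ∀ U ∈ SO k, U ∈ S → ∀ V ∈ SO k, ∀ r, 0 ≤ r → fd U V ≤ r ^ 2 → u U - (r * c / 2 + b * r ^ 2) ≤ u V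

namespace T2H

variable (h : T2H μ u S c b)
include h

theorem int : Integrable (fun U => Real.exp (u U)) μ := integrable_of h.inv h.ct.rexp

theorem tm_mono {T T' : Set (Mat k)} (hT : T ⊆ T') : tm μ u T ≤ tm μ u T' :=
  setIntegral_mono_set h.int.integrableOn (ae_of_all _ fun _ => (Real.exp_pos _).le) hT.eventuallyLE

theorem tm_union (T T' : Set (Mat k)) : tm μ u (T ∪ T') ≤ tm μ u T + tm μ u T' := by
  rw [tm, tm, tm, ← integral_add_measure h.int.integrableOn h.int.integrableOn]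
  exact integral_mono_measure (Measure.restrict_union_le _ _) (ae_of_all _ fun _ => (Real.exp_pos _).le)
    (Integrable.add_measure h.int.integrableOn h.int.integrableOn)

theorem nm_ge (w : ℝ) : NullMeasurableSet {U | w ≤ u U} μ :=
  nullMeasurableSet_le aemeasurable_const (aesm_of h.inv h.ct).aemeasurable

theorem nm_lt (w : ℝ) : NullMeasurableSet {U | u U < w} μ :=
  nullMeasurableSet_lt (aesm_of h.inv h.ct).aemeasurable aemeasurable_const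

theorem tm_le (T : Set (Mat k)) (w : ℝ) :
    tm μ u (T ∩ {U | u U < w}) ≤ Real.exp w * μ.real (T ∩ {U | u U < w}) := by
  have h1 : ∀ᵐ U ∂μ.restrict (T ∩ {U | u U < w}), Real.exp (u U) ≤ Real.exp w :=
    (ae_restrict_of_ae_restrict_of_subset inter_subset_right (ae_restrict_mem₀ (h.nm_lt w))).mono
      fun U hU => Real.exp_le_exp.2 (le_of_lt hU)
  simpa [mul_comm, tm] using integral_mono_ae h.int.integrableOn (integrable_const _) h1

theorem le_tm (T : Set (Mat k)) (w : ℝ) :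
    Real.exp w * μ.real (T ∩ {U | w ≤ u U}) ≤ tm μ u (T ∩ {U | w ≤ u U}) := by
  have h1 : ∀ᵐ U ∂μ.restrict (T ∩ {U | w ≤ u U}), Real.exp w ≤ Real.exp (u U) :=
    (ae_restrict_of_ae_restrict_of_subset inter_subset_right (ae_restrict_mem₀ (h.nm_ge w))).mono
      fun U hU => Real.exp_le_exp.2 hU
  simpa [mul_comm, tm] using integral_mono_ae (integrable_const _) h.int.integrableOn h1

theorem half : 1 / 2 ≤ μ.real ({U | u U < 1} ∩ SO k) := by
  have h1 := h.le_tm univ 1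
  have h2 : tm μ u (univ ∩ {U | 1 ≤ u U}) ≤ 1 :=
    (h.tm_mono (subset_univ _)).trans_eq (by rw [tm, Measure.restrict_univ, h.one])
  have h3 : μ.real univ ≤ μ.real (({U | u U < 1} ∩ SO k) ∪ (univ ∩ {U | 1 ≤ u U})) :=
    real_mono_SO h.inv fun U hU _ => (lt_or_ge (u U) 1).imp (fun h => ⟨h, hU⟩) fun h => ⟨trivial, h⟩
  have h4 := measureReal_union_le (μ := μ) ({U | u U < 1} ∩ SO k) (univ ∩ {U | 1 ≤ u U})
  have h5 := Real.add_one_le_exp 1
  have h6 := measureReal_nonneg (μ := μ) (s := univ ∩ {U | 1 ≤ u U})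
  rw [probReal_univ] at h3
  nlinarith

/-- upper tail of `u` on `S` under the Haar law -/
theorem up (hn : 2 < k) {r w : ℝ} (r0 : 0 ≤ r) (hw : 1 + (r * c / 2 + b * r ^ 2) ≤ w) :
    μ.real (S ∩ {U | w ≤ u U}) ≤ 2 * Real.exp (-(((k : ℝ) - 2) * r ^ 2 / 16)) := by
  have h1 := two_set h.inv hn (S := S ∩ {U | w ≤ u U} ∩ SO k) (T := {U | u U < 1} ∩ SO k) r0
    fun U hU V hV => le_of_not_ge fun hr => by
      have := h.cv U hU.2 hU.1.1 V hV.2 r r0 hr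
      have h2 : w ≤ u U := hU.1.2
      have h3 : u V < 1 := hV.1
      linarith
  have h2 : μ.real (S ∩ {U | w ≤ u U}) ≤ μ.real (S ∩ {U | w ≤ u U} ∩ SO k) :=
    real_mono_SO h.inv fun U hU hU' => ⟨hU', hU⟩
  have h3 := mul_le_mul h2 h.half (by norm_num) measureReal_nonneg
  linarith

theorem up3 (hn : 2 < k) (hb : b ≤ ((k : ℝ) - 2) / 128) {w : ℝ}
    (hw : 1 + 48 * c ^ 2 / ((k : ℝ) - 2) ≤ w) :
    μ.real (S ∩ {U | w ≤ u U}) ≤ 2 * Real.exp (-(3 * (w - 1))) := by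
  have hρ : (0 : ℝ) < (k : ℝ) - 2 := by
    have : (2 : ℝ) < k := by exact_mod_cast hn
    linarith
  have h0 : 0 ≤ 48 * c ^ 2 / ((k : ℝ) - 2) := by positivity
  have h1 : 0 ≤ 48 * (w - 1) / ((k : ℝ) - 2) := div_nonneg (by linarith) hρ.le
  have h2 := Real.sq_sqrt h1
  have h3 : √(48 * (w - 1) / ((k : ℝ) - 2)) * c ≤ w - 1 := by
    refine (abs_le_of_sq_le_sq' ?_ (by linarith)).2
    rw [mul_pow, h2]
    calc _ = (w - 1) * (48 * c ^ 2 / ((k : ℝ) - 2)) := by ring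
      _ ≤ (w - 1) * (w - 1) := mul_le_mul_of_nonneg_left (by linarith) (by linarith)
      _ = _ := by ring
  have h4 : b * (48 * (w - 1) / ((k : ℝ) - 2)) ≤ 3 / 8 * (w - 1) :=
    (mul_le_mul_of_nonneg_right hb h1).trans_eq (by field_simp; ring)
  refine (h.up hn (Real.sqrt_nonneg _) (by rw [h2]; linarith)).trans_eq ?_
  rw [h2]
  congr 3
  field_simp
  ring

/-- upper tail of `u` on `S` under the tilted law -/
theorem tail (hn : 2 < k) (hb : b ≤ ((k : ℝ) - 2) / 128) {w : ℝ}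
    (hw : 1 + 48 * c ^ 2 / ((k : ℝ) - 2) ≤ w) :
    tm μ u (S ∩ {U | w ≤ u U}) ≤ 4 * Real.exp (4 - 2 * w) := by
  have key : ∀ j : ℕ, tm μ u (S ∩ {U | w ≤ u U}) ≤ tm μ u (S ∩ {U | w + j ≤ u U}) +
      4 * Real.exp (4 - 2 * w) * (1 - (1 / 2) ^ j) := by
    intro j
    induction j with
    | zero => simp
    | succ j ih =>
      have h1 : tm μ u (S ∩ {U | w + j ≤ u U}) ≤ tm μ u ((S ∩ {U | w + (j + 1 : ℕ) ≤ u U}) ∪
          ((S ∩ {U | w + j ≤ u U}) ∩ {U | u U < w + (j + 1 : ℕ)})) := h.tm_mono fun U hU =>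
        (le_or_gt (w + (j + 1 : ℕ)) (u U)).imp (fun h => ⟨hU.1, h⟩) fun h => ⟨hU, h⟩
      have h2 := h.tm_union (S ∩ {U | w + (j + 1 : ℕ) ≤ u U})
        ((S ∩ {U | w + j ≤ u U}) ∩ {U | u U < w + (j + 1 : ℕ)})
      have h3 := (h.tm_le (S ∩ {U | w + j ≤ u U}) (w + (j + 1 : ℕ))).trans (mul_le_mul_of_nonneg_left
        ((measureReal_mono inter_subset_left).trans (h.up3 hn hb (w := w + j)
          (hw.trans (le_add_of_nonneg_right (Nat.cast_nonneg j))))) (Real.exp_pos _).le)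
      have h4 : Real.exp (w + (j + 1 : ℕ)) * (2 * Real.exp (-(3 * (w + j - 1)))) =
          2 * Real.exp (4 - 2 * w) * Real.exp (-2) ^ j := by
        rw [← Real.exp_nat_mul, mul_left_comm, mul_assoc, ← Real.exp_add, ← Real.exp_add]
        congr 2; push_cast; ring
      have h5 : Real.exp (-2) ^ j ≤ (1 / 2) ^ j := pow_le_pow_left₀ (Real.exp_pos _).le (by
        rw [Real.exp_neg, one_div]
        exact inv_anti₀ two_pos (by linarith [Real.add_one_le_exp 2])) j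
      have h6 := mul_le_mul_of_nonneg_left h5 (Real.exp_pos (4 - 2 * w)).le
      rw [pow_succ]
      linarith
  obtain ⟨K, hK⟩ := isCompact_SO.exists_bound_of_continuousOn h.ct
  obtain ⟨j, hj⟩ := exists_nat_gt (K - w)
  have h1 : μ (S ∩ {U | w + j ≤ u U}) = 0 := by
    refine measure_mono_null (fun U hU => ?_) (ae_iff.1 h.inv.mem)
    intro hU'
    have h2 : w + j ≤ u U := hU.2
    linarith [(le_abs_self _).trans (hK U hU')]
  have h2 := key j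
  rw [tm, tm, Measure.restrict_eq_zero.2 h1, integral_zero_measure] at h2
  have h3 : 0 ≤ Real.exp (4 - 2 * w) * (1 / 2) ^ j := by positivity
  unfold tm
  linarith

/-- **(T2), tilted law below Haar** on `S` -/
theorem tilt_le (hn : 2 < k) (hb : b ≤ ((k : ℝ) - 2) / 128) {r w w1 : ℝ} (r0 : 0 ≤ r)
    (hw : 1 + (r * c / 2 + b * r ^ 2) ≤ w) (hw1 : 1 + 48 * c ^ 2 / ((k : ℝ) - 2) ≤ w1) (T : Set (Mat k)) :
    tm μ u (T ∩ S) ≤ Real.exp w * μ.real T +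
      (2 * Real.exp (w1 - ((k : ℝ) - 2) * r ^ 2 / 16) + 4 * Real.exp (4 - 2 * w1)) := by
  have h1 : tm μ u (T ∩ S) ≤ tm μ u ((T ∩ {U | u U < w}) ∪
      (((S ∩ {U | w ≤ u U}) ∩ {U | u U < w1}) ∪ (S ∩ {U | w1 ≤ u U}))) := h.tm_mono fun U hU =>
    (lt_or_ge (u U) w).imp (fun h => ⟨hU.1, h⟩) fun h =>
      (lt_or_ge (u U) w1).imp (fun h' => ⟨⟨hU.2, h⟩, h'⟩) fun h' => ⟨hU.2, h'⟩
  have h2 := h.tm_union (T ∩ {U | u U < w})
    (((S ∩ {U | w ≤ u U}) ∩ {U | u U < w1}) ∪ (S ∩ {U | w1 ≤ u U}))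
  have h3 := h.tm_union ((S ∩ {U | w ≤ u U}) ∩ {U | u U < w1}) (S ∩ {U | w1 ≤ u U})
  have h4 := (h.tm_le T w).trans (mul_le_mul_of_nonneg_left (measureReal_mono inter_subset_left)
    (Real.exp_pos _).le)
  have h5 := (h.tm_le (S ∩ {U | w ≤ u U}) w1).trans (mul_le_mul_of_nonneg_left
    ((measureReal_mono inter_subset_left).trans (h.up hn r0 hw)) (Real.exp_pos _).le)
  rw [mul_left_comm, ← Real.exp_add, ← sub_eq_add_neg] at h5
  linarith [h.tail hn hb hw1]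

/-- lower tail of `u` under the Haar law, when `S` carries half of the tilted mass -/
theorem low (hn : 2 < k) (hb : b ≤ ((k : ℝ) - 2) / 128) {r w w1 : ℝ} (r0 : 0 ≤ r)
    (hw : 1 + (r * c / 2 + b * r ^ 2) ≤ w) (hw1 : 1 + 48 * c ^ 2 / ((k : ℝ) - 2) ≤ w1) (h5 : 5 ≤ w1)
    (hS : 1 / 2 ≤ tm μ u S) :
    μ.real {U | u U < -w} ≤ 10 * Real.exp (w1 - ((k : ℝ) - 2) * r ^ 2 / 16) := by
  have h1 : tm μ u S ≤ tm μ u ((S ∩ {U | u U < -1}) ∪
      (((S ∩ {U | -1 ≤ u U}) ∩ {U | u U < w1}) ∪ (S ∩ {U | w1 ≤ u U}))) := h.tm_mono fun U hU =>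
    (lt_or_ge (u U) (-1)).imp (fun h => ⟨hU, h⟩) fun h =>
      (lt_or_ge (u U) w1).imp (fun h' => ⟨⟨hU, h⟩, h'⟩) fun h' => ⟨hU, h'⟩
  have h2 := h.tm_union (S ∩ {U | u U < -1})
    (((S ∩ {U | -1 ≤ u U}) ∩ {U | u U < w1}) ∪ (S ∩ {U | w1 ≤ u U}))
  have h3 := h.tm_union ((S ∩ {U | -1 ≤ u U}) ∩ {U | u U < w1}) (S ∩ {U | w1 ≤ u U})
  have h4 := (h.tm_le S (-1)).trans (mul_le_of_le_one_right (Real.exp_pos _).le measureReal_le_one)
  have h6 := (h.tm_le (S ∩ {U | -1 ≤ u U}) w1).trans (mul_le_mul_of_nonneg_left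
    (measureReal_mono inter_subset_left) (Real.exp_pos _).le)
  have h7 := Real.exp_neg_one_lt_d9
  have h8 : Real.exp (4 - 2 * w1) ≤ (2 / 5) ^ 6 := by
    refine (Real.exp_le_exp.2 (show 4 - 2 * w1 ≤ (6 : ℕ) * (-1 : ℝ) by push_cast; linarith)).trans ?_
    rw [Real.exp_nat_mul]
    exact pow_le_pow_left₀ (Real.exp_pos _).le (by linarith) 6
  have h9 : 1 / 10 ≤ Real.exp w1 * μ.real (S ∩ {U | -1 ≤ u U}) := by
    linarith [h.tail hn hb hw1]
  have b1 := two_set h.inv hn (S := S ∩ {U | -1 ≤ u U} ∩ SO k) (T := {U | u U < -w} ∩ SO k) r0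
    fun U hU V hV => le_of_not_ge fun hr => by
      have := h.cv U hU.2 hU.1.1 V hV.2 r r0 hr
      have h2 : -1 ≤ u U := hU.1.2
      have h3 : u V < -w := hV.1
      linarith
  have b2 : μ.real (S ∩ {U | -1 ≤ u U}) ≤ μ.real (S ∩ {U | -1 ≤ u U} ∩ SO k) :=
    real_mono_SO h.inv fun U hU hU' => ⟨hU', hU⟩
  have b3 : μ.real {U | u U < -w} ≤ μ.real ({U | u U < -w} ∩ SO k) :=
    real_mono_SO h.inv fun U hU hU' => ⟨hU', hU⟩
  have b4 := mul_le_mul_of_nonneg_left ((mul_le_mul b2 b3 measureReal_nonneg measureReal_nonneg).trans b1)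
    (Real.exp_pos w1).le
  rw [← Real.exp_add, ← sub_eq_add_neg, ← mul_assoc] at b4
  have b5 := mul_le_mul_of_nonneg_right h9 (measureReal_nonneg (μ := μ) (s := {U | u U < -w}))
  linarith

/-- **(T2), Haar below the tilted law** -/
theorem le_tilt (hn : 2 < k) (hb : b ≤ ((k : ℝ) - 2) / 128) {r w w1 : ℝ} (r0 : 0 ≤ r)
    (hw : 1 + (r * c / 2 + b * r ^ 2) ≤ w) (hw1 : 1 + 48 * c ^ 2 / ((k : ℝ) - 2) ≤ w1) (h5 : 5 ≤ w1)
    (hS : 1 / 2 ≤ tm μ u S) (T : Set (Mat k)) :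
    μ.real T ≤ Real.exp w * tm μ u T + 10 * Real.exp (w1 - ((k : ℝ) - 2) * r ^ 2 / 16) := by
  have h1 : μ.real T ≤ μ.real ((T ∩ {U | -w ≤ u U}) ∪ {U | u U < -w}) := measureReal_mono fun U hU =>
    (le_or_gt (-w) (u U)).imp (fun h => ⟨hU, h⟩) id
  have h2 := measureReal_union_le (μ := μ) (T ∩ {U | -w ≤ u U}) {U | u U < -w}
  have h3 := mul_le_mul_of_nonneg_left ((h.le_tm T (-w)).trans (h.tm_mono inter_subset_left))
    (Real.exp_pos w).le
  rw [← mul_assoc, ← Real.exp_add, add_neg_cancel, Real.exp_zero, one_mul] at h3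
  linarith [h.low hn hb r0 hw hw1 h5 hS]

end T2H

variable {Ω ι : Type*} [Fintype Ω] [Fintype ι] [DecidableEq ι] {σ : Ω → ι → ℝ} {p : ι → ℝ}
  {E : Matrix ι (Fin k) ℝ} {W : Matrix ι ι ℝ} {w0 : Ω → ℝ}

/-- `log (Z / E Z)` on the orbit -/
def uZ (μ : Measure (Mat k)) (E : Matrix ι (Fin k) ℝ) (W : Matrix ι ι ℝ) (p : ι → ℝ) (σ : Ω → ι → ℝ)
    (w0 : Ω → ℝ) (U : Mat k) : ℝ :=
  Real.log (Zw (cw E W p σ w0 U)) - Real.log (∫ V, Zw (cw E W p σ w0 V) ∂μ)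

theorem contOn_Z (hE : Eᵀ * E = 1) (hW : Wᵀ = W) : ContinuousOn (fun U => Zw (cw E W p σ w0 U)) (SO k) :=
  continuousOn_finsetSum _ fun x _ => continuousOn_const.mul (rd_HU hE hW 0 x).c.rexp

theorem int_Z_pos (hμ : SOInv μ) (hE : Eᵀ * E = 1) (hW : Wᵀ = W) (hw : Wt w0) :
    0 < ∫ V, Zw (cw E W p σ w0 V) ∂μ :=
  (integral_pos_iff_support_of_nonneg (fun V => (wt_gw hw V).pos.le)
    (integrable_of hμ (contOn_Z hE hW))).2 (by
      rw [show Function.support _ = univ from eq_univ_of_forall fun V => (wt_gw hw V).pos.ne']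
      simp)

theorem exp_uZ (hμ : SOInv μ) (hE : Eᵀ * E = 1) (hW : Wᵀ = W) (hw : Wt w0) (U : Mat k) :
    Real.exp (uZ μ E W p σ w0 U) = Zw (cw E W p σ w0 U) / ∫ V, Zw (cw E W p σ w0 V) ∂μ := by
  rw [uZ, Real.exp_sub, Real.exp_log (x := Zw _) (wt_gw hw U).pos, Real.exp_log (int_Z_pos hμ hE hW hw)]

theorem tm_uZ (hμ : SOInv μ) (hE : Eᵀ * E = 1) (hW : Wᵀ = W) (hw : Wt w0) (T : Set (Mat k)) :
    tm μ (uZ μ E W p σ w0) T =
      (∫ U in T, Zw (cw E W p σ w0 U) ∂μ) / ∫ V, Zw (cw E W p σ w0 V) ∂μ := by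
  simp only [tm, exp_uZ hμ hE hW hw, integral_div]

/-- **(T2) on the orbit**: `‖A‖ ≤ a`, `C + δ δᵀ ≤ s`, `|[A, C + δ δᵀ]|_F ≤ c` on `S` (see `sm2_le`,
`fr_comm_sm2`) -/
theorem t2H (hμ : SOInv μ) (hE : Eᵀ * E = 1) (hW : Wᵀ = W) (hw : Wt w0) (z : ℝ) {a s : ℝ} (a0 : 0 < a)
    (s0 : 0 ≤ s) (c0 : 0 ≤ c) (hS : ∀ U ∈ SO k, U ∈ S → Op2 (AU E W z U) (a ^ 2) ∧
      (∀ v, v ⬝ᵥ sm2 (cw E W p σ w0 U) σ p *ᵥ v ≤ s * (v ⬝ᵥ v)) ∧
      fr (AU E W z U * sm2 (cw E W p σ w0 U) σ p - sm2 (cw E W p σ w0 U) σ p * AU E W z U) ≤ c ^ 2) :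
    T2H μ (uZ μ E W p σ w0) S c (a * s) where
  inv := hμ
  ct := (rd_lZ hE hW hw z).c.sub continuousOn_const
  one := by simp only [exp_uZ hμ hE hW hw, integral_div, div_self (int_Z_pos hμ hE hW hw).ne']
  cv := fun U hU hUS V hV r r0 hr => by
    obtain ⟨h1, h2, h3⟩ := hS U hU hUS
    have := logZ_ge hE hW hw z hU hV a0 h1 s0 h2 r0 hr c0 h3
    unfold uZ
    linarith

end Crest.Agent.T157.Od
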