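import Crest.Agent.T157.OeDef_87
import Crest.Agent.T157.SpTrf_85
import Crest.Agent.T157.SpWinA_34
import Crest.Agent.T157.StSph_38

/-!
# Row 157, A2 section 7 (helper87): `Oe.cmpGlue`
-/

set_option autoImplicit false
set_option linter.unusedSectionVars false

noncomputable section

namespace Crest.Agent.T157.Oe

open MeasureTheory ProbabilityTheory Matrix Filter Topology Set Real
open scoped ENNReal
open Crest.Agent.Lib.OrthPoinc (Mat SOInv)
open Crest.Agent.T157.E Crest.Agent.T157.St Crest.Agent.T157.Sp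
open Crest.Agent.T157.Ed (sx tau sx_pos tau_eq sx_pow_six)
open Crest.Agent.T157.Tap (Mx V GOE)
open Crest.Agent.T157.Oc (SO)
open Crest.Agent.T157.Od (T2H tm)
open Crest.Agent.T157.Ks.St0 (JP)
open Crest.Agent.T157.St.A87 Crest.Agent.T157.Sp.Trf85 Crest.Agent.T157.St.Lnk10

namespace Cmp87

section abs
variable {ι : Type*} [Fintype ι] [DecidableEq ι] {μ : Measure (ι → ℝ)} {K : ℝ}

instance (T : ℝ) : IsProbabilityMeasure (gK ι T) :=
  Measure.isProbabilityMeasure_map (Measurable.aemeasurable (by fun_prop))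

lemma lawY_lint (hμ : Cp μ) (hK : 0 ≤ K) {A : Set (ι → ℝ)} (hA : MeasurableSet A) :
    lawY K μ A = ∫⁻ y, A.indicator (fun y => ENNReal.ofReal (Mf K μ y)) y ∂gK ι K := by
  rw [lawY_eq hμ hK hA, PY, IK, ofReal_integral_eq_lintegral_ofReal
    (intK ((mg_Mf hμ hK).mul (mg_ind hA)) K) (.of_forall fun z => mul_nonneg (Mf_pos hμ hK _).le
      (indicator_nonneg (fun _ _ => zero_le_one) _)), gK,
    lintegral_map ((measurable_Mf hμ).ennreal_ofReal.indicator hA) (by fun_prop)]
  refine lintegral_congr fun z => ?_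
  by_cases h : √K • z ∈ A <;> simp [h]

lemma gK_scale {s : ℝ} (hs : 0 ≤ s) (t : ℝ) : (gK ι t).map (fun y => s • y) = gK ι (s ^ 2 * t) := by
  rw [gK, gK, Measure.map_map (by fun_prop) (by fun_prop)]
  congr 1
  funext z
  rw [Function.comp_apply, smul_smul, sqrt_mul (sq_nonneg _), sqrt_sq hs]

lemma gK_rot {O : Matrix ι ι ℝ} (hO : Oᵀ * O = 1) (t : ℝ) :
    (gK ι t).map (fun y => O *ᵥ y) = gK ι t := by
  unfold gK
  conv_rhs => rw [← Sph38.map_gv_orth hO]
  rw [Measure.map_map (by fun_prop) (by fun_prop), Measure.map_map (by fun_prop) (by fun_prop)]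
  congr 1
  funext z
  simp only [Function.comp_apply, mulVec_smul]

end abs

variable {n : ℕ} {t : ℝ}

/-- the null law of the pair (matrix, field) -/
abbrev NN (n : ℕ) (t : ℝ) : Measure (Mx n × V n) := (GOE n).prod (gK (Fin n) t)
/-- normalising constant -/
def ka (n : ℕ) (t : ℝ) : ℝ := exp (-(n * t / 2)) / exp (n / 4)
/-- back to unhatted fields -/
abbrev un (n : ℕ) (y : V n) : V n := (sx n ^ 2)⁻¹ • y

lemma ka_pos : 0 < ka n t := div_pos (exp_pos _) (exp_pos _)

lemma tau_sq (n : ℕ) : tau n = (sx n ^ 2) ^ 2 := by rw [tau_eq]; ring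

lemma model (hn : 1 ≤ n) (ht : 0 ≤ t) {μ : Measure (V n)} (hμ : Cp μ) {Z : ℝ} (hZ : 0 < Z)
    {L : V n → ℝ} (h : ∀ y, Mf (tau n * t) μ (sx n ^ 2 • y) = L y * exp (-(n * t / 2)) / Z)
    {A : Set (V n)} (hA : MeasurableSet A) :
    ENNReal.ofReal (Z / exp (n / 4)) * lawY (tau n * t) μ (un n ⁻¹' A) =
      ∫⁻ y, A.indicator (fun y => ENNReal.ofReal (ka n t * L y)) y ∂gK (Fin n) t := by
  have hs := pow_pos (sx_pos hn) 2
  have mA : MeasurableSet (un n ⁻¹' A) := hA.preimage (by fun_prop)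
  rw [lawY_lint hμ (mul_nonneg (Ed.tau_pos hn).le ht) mA]
  conv_lhs => arg 2; arg 1; rw [tau_sq, ← gK_scale hs.le]
  rw [lintegral_map ((measurable_Mf hμ).ennreal_ofReal.indicator mA) (by fun_prop),
    ← lintegral_const_mul' _ _ ENNReal.ofReal_ne_top]
  refine lintegral_congr fun y => ?_
  have e : sx n ^ 2 • y ∈ un n ⁻¹' A ↔ y ∈ A := by
    rw [mem_preimage, un, smul_smul, inv_mul_cancel₀ hs.ne', one_smul]
  by_cases hy : y ∈ A
  · rw [indicator_of_mem (e.2 hy), indicator_of_mem hy, h, ← ENNReal.ofReal_mul (by positivity), ka]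
    congr 1
    field_simp
  · rw [indicator_of_notMem (mt e.1 hy), indicator_of_notMem hy, mul_zero]

lemma Mf_c (hn : 1 ≤ n) (W : Mx n) (y : V n) :
    Mf (tau n * t) (muW n W) (sx n ^ 2 • y) = Lc W y * exp (-(n * t / 2)) / Zc n W := by
  have hs := (sx_pos hn).ne'
  have hZ : 0 < ∑ x, ising W 0 x := Finset.sum_pos (fun x _ => ising_pos W x) Finset.univ_nonempty
  rw [Mf, integral_muW, mean, Lc, Zc, Zw, Zw, div_mul_eq_mul_div, div_div_div_cancel_right₀
    (by positivity), Finset.sum_mul, Finset.sum_div]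
  refine Finset.sum_congr rfl fun x _ => ?_
  have e : sv x ⬝ᵥ sv x = sx n ^ 6 := by
    rw [sx_pow_six]; simp [dotProduct, sv, ← sq, spin_sq]
  rw [prob, div_mul_eq_mul_div, ising, ising, ew, ← exp_add, ← exp_add]
  congr 2
  simp only [hat, smul_dotProduct, dotProduct_smul, smul_eq_mul, e, zero_dotProduct, tau_eq]
  rw [← sx_pow_six n]
  field_simp
  ring

lemma Mf_s (hn : 1 ≤ n) (W : Mx n) (y : V n) :
    Mf (tau n * t) (nuW n W) (sx n ^ 2 • y) = Ls W y * exp (-(n * t / 2)) / Zs n W := by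
  have : Nonempty (Fin n) := ⟨⟨0, hn⟩⟩
  rw [Mf, nuW, integral_tilted, Ls, ← integral_mul_const, ← integral_div]
  refine integral_congr_ae ((Sph38.sphR_ae (sx n)).mono fun x hx => ?_)
  simp only [smul_eq_mul, ew, Zs, hx]
  rw [div_mul_eq_mul_div, ← exp_add, ← exp_add, tau_eq, ← sx_pow_six n]
  congr 2
  ring

lemma cp_sph (hn : 1 ≤ n) (r : ℝ) : Cp (sphR (Fin n) r) :=
  haveI : Nonempty (Fin n) := ⟨⟨0, hn⟩⟩
  ⟨inferInstance, r ^ 2, (Sph38.sphR_ae r).mono fun _ h => h.le⟩

lemma cp_nu (hn : 1 ≤ n) (W : Mx n) : Cp (nuW n W) := cp_tilted (cp_sph hn _) (continuous_Hh' W)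

lemma cp_mu (W : Mx n) : Cp (muW n W) := cp_dm (ising_pos W) _

lemma Zc_pos (W : Mx n) : 0 < Zc n W :=
  div_pos (Finset.sum_pos (fun y _ => ising_pos W y) Finset.univ_nonempty) (by positivity)

lemma Zs_pos (hn : 1 ≤ n) (W : Mx n) : 0 < Zs n W :=
  integral_exp_pos_cp (cp_sph hn _) (continuous_Hh' W)

lemma Lc_pos (W : Mx n) (y : V n) : 0 < Lc W y := div_pos (Pl.wt_ising W y).pos (by positivity)

lemma Ls_pos (hn : 1 ≤ n) (W : Mx n) (y : V n) : 0 < Ls W y :=
  integral_exp_pos_cp (cp_sph hn _) ((continuous_Hh' W).add (by fun_prop))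

lemma meas_Lc : Measurable fun z : Mx n × V n => Lc z.1 z.2 :=
  (Finset.measurable_fun_sum _ fun x _ => Pl.measurable_ising measurable_fst measurable_snd x).div_const _

lemma meas_Ls (hn : 1 ≤ n) : Measurable fun z : Mx n × V n => Ls z.1 z.2 := by
  have := (cp_sph hn (sx n)).prob
  refine (StronglyMeasurable.integral_prod_right (Measurable.stronglyMeasurable ?_)).measurable
  unfold Function.uncurry Hh
  fun_prop

lemma lawY_muW (hn : 1 ≤ n) (W : Mx n) (r : ℝ) {A : Set (V n)} (hA : MeasurableSet A) :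
    SL.law sv (ising W 0) r ((fun y => sx n ^ 2 • y) ⁻¹' A) = lawY (tau n * r) (muW n W) A := by
  have hs := pow_pos (sx_pos hn) 2
  have hm : Measurable fun y : Fin n → ℝ => sx n ^ 2 • y := by fun_prop
  rw [muW, Win34.lawY_dm, SL.law, SL.law, Measure.coe_finsetSum, Measure.coe_finsetSum,
    Finset.sum_apply, Finset.sum_apply]
  refine Finset.sum_congr rfl fun x _ => ?_
  rw [Measure.smul_apply, Measure.smul_apply, ← Measure.map_apply hm hA,
    Measure.map_map hm (by fun_prop)]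
  congr 3
  funext z
  rw [Function.comp_apply, hat, tau_sq, sqrt_mul (sq_nonneg _), sqrt_sq hs.le, smul_add, smul_smul,
    smul_smul, smul_smul]
  congr 2
  field_simp

/-- density of the planted law -/
def Dc (t : ℝ) (z : Mx n × V n) : ℝ≥0∞ := ENNReal.ofReal (ka n t * Lc z.1 z.2)
/-- density of the planted spherical law -/
def Ds (t : ℝ) (z : Mx n × V n) : ℝ≥0∞ := ENNReal.ofReal (ka n t * Ls z.1 z.2)

lemma meas_Dc : Measurable (Dc (n := n) t) := (meas_Lc.const_mul _).ennreal_ofReal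
lemma meas_Ds (hn : 1 ≤ n) : Measurable (Ds (n := n) t) := ((meas_Ls hn).const_mul _).ennreal_ofReal

lemma sec_c (hn : 1 ≤ n) (ht : 0 ≤ t) {A : Set (Mx n × V n)} (hA : MeasurableSet A) (W : Mx n) :
    ENNReal.ofReal (Zc n W / exp (n / 4)) * lawY (tau n * t) (muW n W) (un n ⁻¹' {y | (W, y) ∈ A}) =
      ∫⁻ y, A.indicator (Dc t) (W, y) ∂gK (Fin n) t :=
  model hn ht (cp_mu W) (Zc_pos W) (Mf_c hn W) (measurable_prodMk_left hA)

lemma sec_s (hn : 1 ≤ n) (ht : 0 ≤ t) {A : Set (Mx n × V n)} (hA : MeasurableSet A) (W : Mx n) :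
    ENNReal.ofReal (Zs n W / exp (n / 4)) * lawY (tau n * t) (nuW n W) (un n ⁻¹' {y | (W, y) ∈ A}) =
      ∫⁻ y, A.indicator (Ds t) (W, y) ∂gK (Fin n) t :=
  model hn ht (cp_nu hn W) (Zs_pos hn W) (Mf_s hn W) (measurable_prodMk_left hA)

lemma LRW_eq (W : Mx n) : Pl.LRW n 1 W = Zc n W / exp (n / 4) := by
  rw [Pl.LRW, Zc, one_smul, one_pow, one_mul, div_div]

lemma JP_lint (hn : 1 ≤ n) (ht : 0 ≤ t) {A : Set (Mx n × V n)} (hA : MeasurableSet A) :
    JP t n A = ∫⁻ z, A.indicator (Dc t) z ∂NN n t := by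
  have hs := pow_pos (sx_pos hn) 2
  rw [Ks.St0.JP_apply hA, Ks.St0.PW, lintegral_withDensity_eq_lintegral_mul _ Ks.St0.meas_LR
    (Ks.St0.meas_law hA), lintegral_prod _ (meas_Dc.indicator hA).aemeasurable]
  refine lintegral_congr fun W => ?_
  rw [← sec_c hn ht hA, Pi.mul_apply, LRW_eq, ← lawY_muW hn W t
    (A := un n ⁻¹' {y | (W, y) ∈ A}) ((measurable_prodMk_left hA).preimage (by fun_prop))]
  congr 2
  ext y
  simp only [mem_preimage, un, smul_smul, inv_mul_cancel₀ hs.ne', one_smul]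

lemma meas_act : Measurable fun z : (Mx n × V n) × Mat n => act z.2 z.1 := by
  have h : Measurable fun p : (Mx n × V n) × Mat n => (Matrix.of p.2 : Mx n) :=
    Cond.measurable_mat_iff.2 fun i j => by simp only [Matrix.of_apply]; fun_prop
  exact ((h.t157_mul measurable_fst.fst).t157_mul h.t157_transpose).prodMk
    (h.t157_mulVec measurable_fst.snd)

lemma meas_sec (z : Mx n × V n) {X : Set (Mx n × V n)} (hX : MeasurableSet X) :
    MeasurableSet {U | act U z ∈ X} :=
  measurable_prodMk_left (x := z) (meas_act hX)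

lemma map_act {U : Mat n} (hU : U ∈ SO n) : (NN n t).map (act U) = NN n t := by
  have h1 : MeasurePreserving (fun W : Mx n => Matrix.of U * W * (Matrix.of U)ᵀ) (GOE n) (GOE n) :=
    ⟨by fun_prop, Cond.goe_conj _ _ (Orb.mul_tp hU)⟩
  have h2 : MeasurePreserving (fun y : V n => Matrix.of U *ᵥ y) (gK (Fin n) t) (gK (Fin n) t) :=
    ⟨by fun_prop, gK_rot (Orb.tp_mul hU) t⟩
  exact (h1.prod h2).map_eq

lemma Ls_act {U : Mat n} (hU : U ∈ SO n) (z : Mx n × V n) :
    Ls (act U z).1 (act U z).2 = Ls z.1 z.2 := by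
  have hO := Orb.tp_mul hU
  rw [Ls, ← Sph38.map_orth_sphR (sx n) hO, integral_map (measurable_mulVec _).aemeasurable
    (Continuous.aestronglyMeasurable (by unfold Hh; fun_prop))]
  simp only [act, Hh_conj z.1 hO, Ls, ← mulVec_smul]
  refine integral_congr_ae (.of_forall fun x => ?_)
  simp only
  rw [dotProduct_mulVec, vecMul_mulVec, hO, vecMul_one]

variable {μ : Measure (Mat n)} [IsProbabilityMeasure μ]

lemma orb_c (hn : 1 ≤ n) {z : Mx n × V n} {S : Set (Mat n)} {c b : ℝ} (h : T2H μ (uo z) S c b)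
    {X : Set (Mx n × V n)} (hX : MeasurableSet X) :
    ∫⁻ U, X.indicator (Dc t) (act U z) ∂μ =
      ENNReal.ofReal (ka n t * Ls z.1 z.2 * tm μ (uo z) {U | act U z ∈ X}) := by
  have mX := meas_sec z hX
  have p := mul_pos (ka_pos (n := n) (t := t)) (Ls_pos hn z.1 z.2)
  rw [tm, ← integral_const_mul, ofReal_integral_eq_lintegral_ofReal
    (h.int.integrableOn.const_mul _) (.of_forall fun U => (mul_pos p (exp_pos _)).le),
    ← lintegral_indicator mX]
  refine lintegral_congr fun U => ?_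
  by_cases hU : act U z ∈ X
  · rw [indicator_of_mem hU, indicator_of_mem (show U ∈ {U | act U z ∈ X} from hU), Dc, uo, exp_sub,
      exp_log (Lc_pos _ _), exp_log (Ls_pos hn _ _)]
    congr 1
    have := (Ls_pos hn z.1 z.2).ne'
    field_simp
  · rw [indicator_of_notMem hU, indicator_of_notMem (show U ∉ {U | act U z ∈ X} from hU)]

lemma orb_s (hμ : SOInv μ) (hn : 1 ≤ n) (z : Mx n × V n) {X : Set (Mx n × V n)}
    (hX : MeasurableSet X) : ∫⁻ U, X.indicator (Ds t) (act U z) ∂μ =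
      ENNReal.ofReal (ka n t * Ls z.1 z.2 * μ.real {U | act U z ∈ X}) := by
  have mX := meas_sec z hX
  have p := mul_pos (ka_pos (n := n) (t := t)) (Ls_pos hn z.1 z.2)
  rw [ENNReal.ofReal_mul p.le, ofReal_measureReal, ← lintegral_indicator_const mX]
  refine lintegral_congr_ae ((Orb.ae_SO hμ).mono fun U hU => ?_)
  by_cases h : act U z ∈ X
  · simp only [indicator_of_mem h, indicator_of_mem (show U ∈ {U | act U z ∈ X} from h), Ds, Ls_act hU]
  · simp only [indicator_of_notMem h, indicator_of_notMem (show U ∉ {U | act U z ∈ X} from h)]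

lemma markov {F : Mx n × V n → ℝ≥0∞} (hF : Measurable F) {a ε : ℝ} (hε : 0 < ε)
    (h : ∫⁻ z, F z ∂NN n t ≤ ENNReal.ofReal a) :
    GOE n {W | ENNReal.ofReal ε ≤ ∫⁻ y, F (W, y) ∂gK (Fin n) t} ≤ ENNReal.ofReal (a / ε) := by
  refine (meas_ge_le_lintegral_div hF.lintegral_prod_right'.aemeasurable
    (ENNReal.ofReal_pos.2 hε).ne' ENNReal.ofReal_ne_top).trans ?_
  rw [← lintegral_prod _ hF.aemeasurable, ENNReal.ofReal_div_of_pos hε]
  exact ENNReal.div_le_div_right h _

end Cmp87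

open Cmp87 in
theorem cmpGlue : CmpGlue := by
  intro hH hO hS n I t s c r δ w θ l p hn hI ht s0 c0 r0 δ0 δ1 hb hρ hw θ0 l0 p0 hJ
  have n1 : 1 ≤ n := by omega
  obtain ⟨μ, _, hμ⟩ := hH n (by omega)
  set A := toMeasurable (JP t n) {z : Mx n × V n | z.1 ∈ I ∧ ¬ EG z.1 z.2 s c} with hA
  have mA : MeasurableSet A := measurableSet_toMeasurable _ _
  have jA : JP t n A ≤ ENNReal.ofReal θ := (measure_toMeasurable _).trans_le hJ
  set B : Set (Mx n × V n) := {z | 2 * δ < |log (Lc z.1 z.2) - log (Ls z.1 z.2)|} with hB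
  have mB : MeasurableSet B :=
    measurableSet_lt measurable_const (meas_Lc.log.sub (meas_Ls n1).log).abs
  set X : Set (Mx n × V n) := Prod.fst ⁻¹' I ∩ B with hX
  have mX : MeasurableSet X := (hI.1.preimage measurable_fst).inter mB
  have tl0 : 0 ≤ tl n r w := by unfold tl; positivity
  have T0 : ∀ z, T2H μ (uo z) ∅ (4 * c) (5 / 2 * s) := fun z =>
    hO n μ hμ hn.le z ∅ s c s0 c0 fun _ _ h => h.elim
  set a := (5 * θ + tl n r w) / δ with ha
  have key : ∀ z : Mx n × V n, max (tm μ (uo z) {U | act U z ∈ X}) (μ.real {U | act U z ∈ X}) ≤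
      (5 * tm μ (uo z) {U | act U z ∈ A} + tl n r w) / δ := fun z => by
    have mS := meas_sec z mA
    by_cases hz : z.1 ∈ I
    · have h1 := hO n μ hμ hn.le z {U | act U z ∈ A}ᶜ s c s0 c0 fun U hU h => by_contra fun h' =>
        h (subset_toMeasurable _ _ ⟨hI.2 _ hz _ (Orb.mul_tp hU), h'⟩)
      have h2 := hS n μ _ _ _ _ r δ w h1 mS.compl hn hb r0 δ0 δ1 hρ hw
      rw [compl_compl] at h2
      have e : {U | act U z ∈ X} ≤ᵐ[μ] {U | 2 * δ < |uo z U|} := (Orb.ae_SO hμ).mono fun U hU h => by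
        have h3 : 2 * δ < |log (Lc (act U z).1 (act U z).2) - log (Ls (act U z).1 (act U z).2)| := h.2
        rwa [Ls_act hU] at h3
      exact max_le ((setIntegral_mono_set h1.int.integrableOn
        (.of_forall fun _ => (exp_pos _).le) e).trans h2.1)
        ((ENNReal.toReal_mono (measure_ne_top _ _) (measure_mono_ae e)).trans h2.2)
    · have e : μ {U | act U z ∈ X} = 0 := by
        refine measure_mono_null (t := {U | ¬ U ∈ SO n}) (fun U h hU => hz ?_)
          (ae_iff.1 (Orb.ae_SO hμ))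
        have h3 := hI.2 _ h.1 (Matrix.of U)ᵀ (by rw [transpose_transpose]; exact Orb.tp_mul hU)
        rwa [act, transpose_transpose, ← Matrix.mul_assoc, ← Matrix.mul_assoc, Orb.tp_mul hU,
          Matrix.one_mul, Matrix.mul_assoc, Orb.tp_mul hU, Matrix.mul_one] at h3
      have h0 : 0 ≤ tm μ (uo z) {U | act U z ∈ A} := integral_nonneg fun _ => (exp_pos _).le
      rw [tm, Measure.restrict_eq_zero.2 e, integral_zero_measure, Measure.real, e]
      simp only [ENNReal.toReal_zero, max_self]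
      positivity
  have fub : ∀ {F : Mx n × V n → ℝ≥0∞}, Measurable F →
      ∫⁻ z, F z ∂NN n t = ∫⁻ z, ∫⁻ U, F (act U z) ∂μ ∂NN n t := fun hF =>
    Oc.orbit_lintegral hμ _ meas_act (fun _ hU => map_act hU) hF
  have tot : ∀ g : Mx n × V n → ℝ, (∀ z, g z ≤ (5 * tm μ (uo z) {U | act U z ∈ A} + tl n r w) / δ) →
      ∫⁻ z, ENNReal.ofReal (ka n t * Ls z.1 z.2 * g z) ∂NN n t ≤ ENNReal.ofReal a := fun g hg => by
    have mg : ∀ {Y : Set (Mx n × V n)}, MeasurableSet Y →
        Measurable fun z => ∫⁻ U, Y.indicator (Dc t) (act U z) ∂μ := fun hY =>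
      ((meas_Dc.indicator hY).comp meas_act).lintegral_prod_right'
    calc _ ≤ ∫⁻ z, (ENNReal.ofReal (5 / δ) * ∫⁻ U, A.indicator (Dc t) (act U z) ∂μ +
          ENNReal.ofReal (tl n r w / δ) * ∫⁻ U, (univ : Set _).indicator (Dc t) (act U z) ∂μ)
          ∂NN n t := lintegral_mono fun z => by
          have p := mul_pos (ka_pos (n := n) (t := t)) (Ls_pos n1 z.1 z.2)
          have h0 : 0 ≤ tm μ (uo z) {U | act U z ∈ A} := integral_nonneg fun _ => (exp_pos _).le
          have h1 : tm μ (uo z) {U | act U z ∈ univ} = 1 := by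
            simp only [tm, mem_univ, ofPred_true, Measure.restrict_univ, (T0 z).one]
          simp only
          rw [orb_c n1 (T0 z) mA, orb_c n1 (T0 z) .univ, h1, ← ENNReal.ofReal_mul (by positivity),
            ← ENNReal.ofReal_mul (by positivity), ← ENNReal.ofReal_add (by positivity) (by positivity)]
          exact ENNReal.ofReal_le_ofReal
            ((mul_le_mul_of_nonneg_left (hg z) p.le).trans_eq (by ring))
      _ = ENNReal.ofReal (5 / δ) * JP t n A + ENNReal.ofReal (tl n r w / δ) * JP t n univ := by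
          rw [lintegral_add_left ((mg mA).const_mul _), lintegral_const_mul _ (mg mA),
            lintegral_const_mul _ (mg .univ), JP_lint n1 ht mA, JP_lint n1 ht .univ,
            fub (meas_Dc.indicator mA), fub (meas_Dc.indicator .univ)]
      _ ≤ ENNReal.ofReal (5 / δ) * ENNReal.ofReal θ + ENNReal.ofReal (tl n r w / δ) := by
          rw [measure_univ, mul_one]; gcongr
      _ = _ := by
          rw [← ENNReal.ofReal_mul (by positivity),
            ← ENNReal.ofReal_add (by positivity) (by positivity), ha]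
          congr 1; ring
  have j1 : ∫⁻ z, X.indicator (Dc t) z ∂NN n t ≤ ENNReal.ofReal a := by
    rw [fub (meas_Dc.indicator mX)]
    simp only [fun z => orb_c (t := t) n1 (T0 z) mX]
    exact tot _ fun z => (le_max_left _ _).trans (key z)
  have j2 : ∫⁻ z, X.indicator (Ds t) z ∂NN n t ≤ ENNReal.ofReal a := by
    rw [fub ((meas_Ds n1).indicator mX)]
    simp only [fun z => orb_s (t := t) hμ n1 z mX]
    exact tot _ fun z => (le_max_right _ _).trans (key z)
  have a0 : 0 ≤ a / (l * p) := by positivity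
  refine le_trans (measure_mono (t := _ ∪ _) fun W hW => ?_) ((measure_union_le _ _).trans
    ((add_le_add (markov (meas_Dc.indicator mX) (mul_pos l0 p0) j1)
      (markov ((meas_Ds n1).indicator mX) (mul_pos l0 p0) j2)).trans_eq (by
        rw [← ENNReal.ofReal_add a0 a0]; congr 1; ring)))
  obtain ⟨w1, w2, w3, w4⟩ := hW
  by_contra hc
  rw [mem_union, not_or, mem_ofPred_eq, mem_ofPred_eq, ← sec_c n1 ht mX, ← sec_s n1 ht mX] at hc
  have hs := pow_pos (sx_pos n1) 2
  have f : ∀ {Z : ℝ} {x : ℝ≥0∞}, l * exp (n / 4) ≤ Z →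
      ¬ ENNReal.ofReal (l * p) ≤ ENNReal.ofReal (Z / exp (n / 4)) * x → x ≤ ENNReal.ofReal p :=
    fun h1 h2 => le_of_not_ge fun h3 => h2 (by
      rw [ENNReal.ofReal_mul l0.le]
      exact mul_le_mul' (ENNReal.ofReal_le_ofReal ((le_div_iff₀ (exp_pos _)).2 h1)) h3)
  refine w4 ⟨un n ⁻¹' {y | (W, y) ∈ X}, (measurable_prodMk_left mX).preimage (by fun_prop),
    f w2 hc.1, f w3 hc.2, Zc n W / Zs n W, div_pos (Zc_pos W) (Zs_pos n1 W), fun y hy => ?_⟩
  have h1 : |log (Lc W (un n y)) - log (Ls W (un n y))| ≤ 2 * δ := not_lt.1 fun h => hy ⟨w1, h⟩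
  have e : y = sx n ^ 2 • un n y := by rw [un, smul_smul, mul_inv_cancel₀ hs.ne', one_smul]
  rw [e, Mf_c n1, Mf_s n1]
  have u1 := Lc_pos W (un n y)
  have u2 := Ls_pos n1 W (un n y)
  have v1 : Lc W (un n y) ≤ exp (2 * δ) * Ls W (un n y) := by
    rw [← exp_log u1, ← exp_log u2, ← exp_add, exp_le_exp]; linarith [(abs_le.1 h1).2]
  have v2 : Ls W (un n y) ≤ exp (2 * δ) * Lc W (un n y) := by
    rw [← exp_log u1, ← exp_log u2, ← exp_add, exp_le_exp]; linarith [(abs_le.1 h1).1]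
  have z1 := (Zc_pos W).ne'
  have z2 : 0 ≤ exp (-(n * t / 2)) / Zs n W := (div_pos (exp_pos _) (Zs_pos n1 W)).le
  have e2 : Zc n W / Zs n W * (Lc W (un n y) * exp (-(n * t / 2)) / Zc n W) =
      Lc W (un n y) * (exp (-(n * t / 2)) / Zs n W) := by field_simp
  rw [e2, mul_div_assoc (Ls _ _), ← mul_assoc, ← mul_assoc]
  exact ⟨mul_le_mul_of_nonneg_right v1 z2, mul_le_mul_of_nonneg_right v2 z2⟩

end Crest.Agent.T157.Oe

end
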