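import Crest.Agent.T157.OgR1a_26
import Crest.Agent.T157.OgEv_26
import Crest.Agent.T157.O6w_20
import Crest.Agent.T157.O6v_73

set_option autoImplicit false
set_option linter.unusedSectionVars false

/-!
Row 157, A2 (helper26): (g1)-(g4) on an orbit for `t ≥ t**` (`t = ω ^ 30`) from the medians (m2), (P).
-/

noncomputable section

namespace Crest.Agent.T157.Ba26

open MeasureTheory Matrix Crest.Agent.Lib.OrthPoinc
open Crest.Agent.T157.Oc Crest.Agent.T157.E Crest.Agent.T157.SL Crest.Agent.T157.Ks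
open Crest.Agent.T157.Od Crest.Agent.T157.Oo Crest.Agent.T157.O6 Crest.Agent.T157.O6m

variable {n k : ℕ}

/-- the inputs in the range `t = ω ^ 30 ≥ t**` -/
structure R1H (o : Orb n k) (c : Cs) (e vt : Vn n) (G0 : Mn n) (T : Finset (Fin n))
    (κ ω l l0 s β χi H : ℝ) : Prop where
  κ1 : 1 ≤ κ
  ω0 : 0 < ω
  sm : κ ^ 2 * ω ≤ 1 / 1000
  big : 1 ≤ n * ω ^ 100
  dim : k + 2 = n
  a6 : c.a ≤ 6
  psd : ∀ v, 0 ≤ v ⬝ᵥ (o.z • (1 : Mn n) - o.W) *ᵥ v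
  lp : 0 < l
  ls : l ≤ ω ^ 50
  s0 : 0 ≤ s
  ss : s ≤ ω ^ 50
  hl0 : ω ^ 30 ≤ κ * l0
  l3 : l0 ≤ 3
  hv : ∀ i, 0 ≤ vt i ∧ vt i ≤ 3 ∧ vt i * (1 - o.p i ^ 2) ≤ 1
  inv : (o.z • (1 : Mn n) - o.W) * G0 = 1
  g2 : fr G0 ≤ κ * n / ω ^ 15
  z2 : 2 < o.z
  zt : o.z - 2 ≤ κ * ω ^ 30
  op : Op2 G0 ((2 / (o.z - 2)) ^ 2)
  he : e ⬝ᵥ e ≤ 1
  hβ : β ^ 2 ≤ κ
  hχ : (χi - 1) ^ 2 ≤ κ * ω ^ 30
  hT : (T.card : ℝ) ≤ n * ω ^ 45
  off : ∀ i, i ∉ T → o.p i ^ 4 ≤ κ * ω ^ 27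
  p4 : ∑ i, o.p i ^ 4 ≤ κ * n * ω ^ 30
  H0 : 0 ≤ H
  w1 : 300 * (wC c + 1) * H * ω ^ 60 ≤ n
  w2 : 300 * (wA c + 1) * H ≤ n
  w3 : 600 * (c.gX1U + c.gPhiU + 1) * H ≤ n * (n * ω ^ 30)

/-- (g1)-(g4) for `A0 = 2 - W` -/
structure G14 (W : Mn n) (w : Cube n → ℝ) (κ ω : ℝ) : Prop where
  g1 : CB w sv (4 * κ / ω ^ 30)
  g2 : CB w (fA ((2 : ℝ) • (1 : Mn n) - W) sv) 243
  g3 : fr (((2 : ℝ) • (1 : Mn n) - W) * covMat w sv - 1) ≤ n * ω ^ 10
  g4 : fr (((2 : ℝ) • (1 : Mn n) - W) * covMat w sv * ((2 : ℝ) • (1 : Mn n) - W) -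
    ((2 : ℝ) • (1 : Mn n) - W)) ≤ 1100 * κ * n * ω ^ 30

theorem crude_U {a R : ℝ} (R1 : 1 ≤ R) (ha : a ^ 2 ≤ R) :
    (crude a R).gX1U ≤ MM R ∧ (crude a R).gPhiU ≤ MM R := by
  have p : ∀ j, j ≤ 8 → R ^ j ≤ R ^ 8 := fun j => pow_le_pow_right₀ R1
  have h3 := mul_le_mul_of_nonneg_left ha (show 0 ≤ R ^ 2 by positivity)
  have := p 0 (by norm_num); have := p 1 (by norm_num); have := p 2 (by norm_num)
  have := p 3 (by norm_num); have := p 4 (by norm_num)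
  constructor <;> simp only [Cs.gX1U, Cs.gPhiU, Cs.lam, crude, MM] <;> nlinarith

theorem inv_De {p l χi x : ℝ} (hl : 0 ≤ l) (h : 1 / 2 ≤ 1 - p ^ 2 + l) (hχ : (χi - 1) ^ 2 ≤ x) :
    ((1 - p ^ 2 + l)⁻¹ - χi) ^ 2 ≤ 8 * p ^ 4 + 8 * l ^ 2 + 2 * x := by
  have d0 : 0 < 1 - p ^ 2 + l := by linarith
  have h1 : (1 - p ^ 2 + l)⁻¹ - 1 = (p ^ 2 - l) * (1 - p ^ 2 + l)⁻¹ := by field_simp; ring
  have h2 : (1 - p ^ 2 + l)⁻¹ ≤ 2 := by rw [inv_le_comm₀ d0 two_pos]; linarith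
  have h3 : ((1 - p ^ 2 + l)⁻¹) ^ 2 ≤ 2 ^ 2 := pow_le_pow_left₀ (by positivity) h2 2
  have h4 : ((1 - p ^ 2 + l)⁻¹ - 1) ^ 2 ≤ (p ^ 4 + l ^ 2) * 2 ^ 2 := by
    rw [h1, mul_pow]
    exact mul_le_mul (by nlinarith [mul_nonneg (sq_nonneg p) hl]) h3 (sq_nonneg _) (by positivity)
  nlinarith [sq_nonneg ((1 - p ^ 2 + l)⁻¹ - 1 + (χi - 1))]

theorem mm {μ : Measure (Mat k)} [IsProbabilityMeasure μ] {P Q : Mat k → Prop} {a : ℝ}
    (h : μ.real {U | P U} ≤ a) (hQ : ∀ U, Q U → P U) : μ.real {U | Q U} ≤ a :=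
  (measureReal_mono hQ).trans h

variable {o : Orb n k} {μ : Measure (Mat k)} [IsProbabilityMeasure μ] {c : Cs} {e vt : Vn n} {G0 : Mn n}
  {T : Finset (Fin n)} {R η K δ κ ω l l0 s β χi H : ℝ}

/-- the four bounds for `A = z - W` -/
theorem r1A (X : Ctx o μ c R η K δ) (h : R1H o c e vt G0 T κ ω l l0 s β χi H)
    (hm : μ.real {U | ¬ (U ∈ o.G c ∧ OpLe (Rt (o.w U) (o.A U) o.p l -
      (1 - Sq o.p l * (χi • (1 : Mn n) + β • vecMulVec e e) * Sq o.p l)) s)} ≤ 1 / 4)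
    (hP : μ.real {U | ¬ Pos (o.A U) (χi • (1 : Mn n) + β • vecMulVec e e) vt l0} ≤ 1 / 4) :
    μ.real {U | ¬ CB (o.w U) sv (4 * κ / ω ^ 30)} ≤ fl R η H ∧
    μ.real {U | ¬ CB (o.w U) (fA (o.A U) sv) 121} ≤ fl R η H ∧
    μ.real {U | n * ω ^ 10 / 40 < fr (o.A U * o.C U - 1)} ≤ fl R η H ∧
    μ.real {U | 361 * κ * n * ω ^ 30 < fr (o.A U * o.C U * o.A U - o.A U)} ≤ fl R η H := by
  have κ1 := h.κ1; have ω0 := h.ω0; have lp := h.lp; have s0 := h.s0; have H0 := h.H0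
  have sm : κ * ω ≤ 1 / 1000 := by nlinarith [h.sm, mul_le_mul_of_nonneg_right κ1 ω0.le]
  have l0p : 0 < l0 := by nlinarith [h.hl0, pow_pos ω0 30]
  have hn : (n : ℝ) / 2 ≤ (k : ℝ) - 2 ∧ (0 : ℝ) < n := by
    have m1 := mon κ1 ω0 sm 0 100 0 (by norm_num)
    have e : (k : ℝ) + 2 = n := by exact_mod_cast h.dim
    have : (8 : ℝ) ≤ n := by
      have := h.big
      norm_num at m1
      nlinarith [mul_le_mul_of_nonneg_left m1 (Nat.cast_nonneg (α := ℝ) n)]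
    constructor <;> linarith
  have he : 9 * l + 3 * s ≤ l0 / 4 := by
    have m1 := mon κ1 ω0 sm 1 50 30 (by norm_num)
    have := h.hl0; have := h.ls; have := h.ss
    refine le_of_mul_le_mul_left ?_ (show 0 < κ by linarith)
    simp only [Nat.reduceSub] at m1
    nlinarith [pow_pos ω0 30]
  have il : l0⁻¹ ≤ κ / ω ^ 30 := by
    rw [le_div_iff₀ (by positivity), inv_mul_le_iff₀ l0p, mul_comm]; exact h.hl0
  have k1p : 0 < (l0 - (9 * l + 3 * s))⁻¹ := inv_pos.2 (by linarith)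
  have k1 : (l0 - (9 * l + 3 * s))⁻¹ ≤ 4 / 3 * κ / ω ^ 30 :=
    calc _ ≤ (3 / 4 * l0)⁻¹ := inv_anti₀ (by positivity) (by linarith)
      _ = 4 / 3 * l0⁻¹ := by field_simp
      _ ≤ _ := by rw [mul_div_assoc]; gcongr
  have hE : μ.real {U | ¬ Ev o (Dl o.p l) e l β χi (l0 - (9 * l + 3 * s))⁻¹ (10 * c.a)
      (100 * (κ * n / ω ^ 15)) (12 / l0) (s ^ 2) U} ≤ 1 / 2 := by
    refine (real_or (fun U hU => ?_) hm hP).trans (by norm_num)
    by_contra hn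
    simp only [Set.mem_union, Set.mem_ofPred_eq, not_or, not_not] at hn
    exact hU (ev_orb X.ok X.nn hn.1.1 h.psd X.p1 lp s0 h.hv hn.2 he h.l3 h.inv h.g2 hn.1.2)
  have a0 := X.nn.a
  have w1 := (wStmt n k o μ c R η K δ (4 / 3 * κ / ω ^ 30) (κ / ω ^ 30) 2 H X (by positivity)
    (by positivity) one_lt_two).1 (by
      have h1 : (n : ℝ) / 2 * 1 ^ 2 ≤ ((k : ℝ) - 2) * κ ^ 2 :=
        mul_le_mul hn.1 (by gcongr) (by positivity) (by linarith [hn.1, hn.2])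
      have h0 : 0 ≤ (wC c + 1) * H * ω ^ 60 := by
        have := mul_nonneg X.nn.lam X.nn.v4
        unfold wC; positivity
      rw [div_pow, ← mul_div_assoc, le_div_iff₀ (by positivity), ← pow_mul]
      norm_num at h1 ⊢
      linarith [h.w1])
    (mm hE fun U hU hE => hU (hE.c1.mono k1))
  have w2 := (wStmt n k o μ c R η K δ 60 1 2 H X (by norm_num) one_pos one_lt_two).2 (by
      have h0 : 0 ≤ (wA c + 1) * H := by
        have := X.nn.lam; have := X.nn.v4'; have := X.nn.k1; have := X.nn.k2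
        unfold wA; positivity
      nlinarith [h.w2, hn.1])
    (mm hE fun U hU hE => hU (hE.ck.mono (by linarith [h.a6])))
  have l2 : l ^ 2 ≤ ω ^ 100 := by
    rw [show ω ^ 100 = (ω ^ 50) ^ 2 by ring]; exact pow_le_pow_left₀ lp.le h.ls 2
  have Z : Sz κ ω n (n * ω ^ 45) l β (l0 - (9 * l + 3 * s))⁻¹ c.a (100 * (κ * n / ω ^ 15)) (12 / l0)
      (s ^ 2) √(10 * κ * ω ^ 27) (11 * κ * n * ω ^ 30) :=
    ⟨κ1, ω0, sm, h.big, le_rfl, lp.le, h.ls, h.hβ, k1p.le, k1, a0.le, h.a6, by positivity, le_rfl,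
      by positivity, by rw [div_eq_mul_inv, mul_div_assoc]; gcongr, sq_nonneg _,
      by rw [show ω ^ 100 = (ω ^ 50) ^ 2 by ring]; exact pow_le_pow_left₀ s0 h.ss 2,
      (Real.sq_sqrt (by positivity)).le, le_rfl⟩
  have half : ∀ i, i ∉ T → 1 / 2 ≤ Dl o.p l i := fun i hi => by
    have m1 := mon κ1 ω0 sm 1 27 0 (by norm_num)
    have := h.off i hi
    unfold Dl; norm_num at m1; nlinarith [sq_nonneg (o.p i ^ 2 - 1 / 4)]
  have m100 : ω ^ 100 ≤ κ * ω ^ 30 / 8 := by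
    have m1 := mon κ1 ω0 sm 0 100 30 (by norm_num)
    have := mul_le_mul_of_nonneg_right κ1 (pow_pos ω0 30).le
    simp only [Nat.reduceSub] at m1; nlinarith [pow_pos ω0 30]
  have gX : 0 ≤ c.gX1U := by
    have := X.nn.lam; have := X.nn.N; have := X.nn.k1; have := X.nn.k2
    unfold Cs.gX1U; positivity
  have gP : 0 ≤ c.gPhiU := by
    have := X.nn.lam; have := X.nn.N'; have := X.nn.k1; have := X.nn.k2
    unfold Cs.gPhiU; positivity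
  have R0 : 0 ≤ R := by linarith [X.R1]
  have M0 : 0 ≤ MM R := by unfold MM; positivity
  have y2 : √(n * ω ^ 30 / 8) ^ 2 = n * ω ^ 30 / 8 := Real.sq_sqrt (by have := hn.2; positivity)
  obtain ⟨g3, g4⟩ := g34 (B := c.gX1U + c.gPhiU + 1) (H := H) (y := √(n * ω ^ 30 / 8)) X.inv X.ok X.nn
    (crude_nn a0 R0) (fun U hU => ⟨hU, X.cr U hU⟩) k1p.le (by positivity) lp (Dl_pos X.p1 lp)
    (by positivity) h.he (sq_nonneg s) h.hT half (v := √(10 * κ * ω ^ 27))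
    (v2 := 11 * κ * n * ω ^ 30) (fun i hi => by
      have m1 : κ * ω ^ 30 ≤ κ * ω ^ 27 / 2 := by
        have := mul_le_mul_of_nonneg_left (mon κ1 ω0 sm 0 30 27 (by norm_num)) (show 0 ≤ κ by linarith)
        simp only [Nat.reduceSub] at this; nlinarith [mul_pos (show 0 < κ by linarith) (pow_pos ω0 27)]
      rw [Real.sq_sqrt (by positivity)]
      refine (inv_De lp.le (half i hi) h.hχ).trans ?_
      linarith [h.off i hi, mul_pos (show 0 < κ by linarith) (pow_pos ω0 27)])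
    (by
      refine (Finset.sum_le_sum (g := fun i => 8 * o.p i ^ 4 + 3 * (κ * ω ^ 30)) fun i _ => ?_).trans ?_
      · split_ifs with hi
        · positivity
        · exact (inv_De lp.le (half i hi) h.hχ).trans (by linarith)
      · rw [Finset.sum_add_distrib, ← Finset.mul_sum, Finset.sum_const, Finset.card_univ, Fintype.card_fin,
          nsmul_eq_mul]
        linarith [h.p4])
    hE (by have := hn.2; positivity) Z.al (by have := hn.2; positivity) Z.bb (by linarith) (by linarith)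
    (by linarith) M0 (crude_U X.R1 X.Ra).1 (crude_U X.R1 X.Ra).2
    (Real.sqrt_pos.2 (by have := hn.2; positivity)) (by
      rw [y2]
      have := mul_le_mul_of_nonneg_right hn.1 (show 0 ≤ n * ω ^ 30 / 8 by have := hn.2; positivity)
      nlinarith [h.w3, mul_nonneg (show 0 ≤ c.gX1U + c.gPhiU + 1 by linarith) H0])
  have fb : Real.exp (-H) + MM R / (c.gX1U + c.gPhiU + 1) * μ.real (o.G c)ᶜ ≤ fl R η H :=
    add_le_add le_rfl (mul_le_mul (div_le_self M0 (by linarith)) X.G measureReal_nonneg M0)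
  rw [y2] at g3 g4
  refine ⟨mm w1 fun U hU hE => hU (hE.mono ?_), mm w2 fun U hU hE => hU (hE.mono (by norm_num)),
    mm (g3.trans fb) fun U hU => lt_of_le_of_lt ?_ hU, mm (g4.trans fb) fun U hU => lt_of_le_of_lt ?_ hU⟩
  · have : 0 ≤ κ / ω ^ 30 := by positivity
    simp only [mul_div_assoc]; linarith
  · have := mul_le_mul_of_nonneg_left (mon κ1 ω0 sm 0 30 10 (by norm_num)) hn.2.le
    simp only [Nat.reduceSub] at this; nlinarith [mul_pos hn.2 (pow_pos ω0 10)]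
  · nlinarith [mul_le_mul_of_nonneg_right κ1 (mul_pos hn.2 (pow_pos ω0 30)).le]

/-- from `z - W` to `2 - W` -/
theorem conv (ho : o.Ok) (h : R1H o c e vt G0 T κ ω l l0 s β χi H) {U : Mat k} (hU : U ∈ SO k)
    (b1 : CB (o.w U) sv (4 * κ / ω ^ 30)) (b2 : CB (o.w U) (fA (o.A U) sv) 121)
    (b3 : fr (o.A U * o.C U - 1) ≤ n * ω ^ 10 / 40)
    (b4 : fr (o.A U * o.C U * o.A U - o.A U) ≤ 361 * κ * n * ω ^ 30) : G14 (o.Wu U) (o.w U) κ ω := by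
  have κ1 := h.κ1; have ω0 := h.ω0; have z2 := h.z2
  have n0 : (0 : ℝ) ≤ n := Nat.cast_nonneg n
  have κ2 : 1 ≤ κ ^ 2 := one_le_pow₀ κ1
  have M := mon κ2 ω0 h.sm
  have e : o.A U - (o.z - 2) • (1 : Mn n) = (2 : ℝ) • (1 : Mn n) - o.Wu U := by
    rw [Orb.A, AU, sub_smul]; abel
  obtain ⟨c2, c3, c4, -⟩ := convStmt n (o.w U) (o.A U) o.p o.p (o.z - 2) (Orb.wt U) (Orb.A_symm ho U)
  rw [e] at c2 c3 c4
  have g1 := emb_orth ho.iso hU
  have g2 := emb_orth' ho.iso hU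
  set G := emb o.E U * G0 * (emb o.E U)ᵀ with hG
  have GA : G * o.A U = 1 := by
    rw [mul_eq_one_comm, Orb.A, AU_eq ho.iso hU, hG]
    simp only [Matrix.mul_assoc]
    rw [← Matrix.mul_assoc (emb o.E U)ᵀ, g2, Matrix.one_mul, ← Matrix.mul_assoc _ G0, h.inv,
      Matrix.one_mul, g1]
  have fG : fr G ≤ κ * n / ω ^ 15 := by
    rw [hG, fr_orth_right (by rw [transpose_transpose]; exact g2), fr_orth_left g2]; exact h.g2
  have oG : Op2 G ((2 / (o.z - 2)) ^ 2) := fun v => by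
    rw [hG, ← mulVec_mulVec, ← mulVec_mulVec, Op2.orth g2]
    exact (h.op _).trans_eq (by rw [Op2.orth (by rw [transpose_transpose]; exact g1)])
  have ζ2 : (o.z - 2) ^ 2 ≤ κ ^ 2 * ω ^ 60 := by
    rw [show κ ^ 2 * ω ^ 60 = (κ * ω ^ 30) ^ 2 by ring]; exact pow_le_pow_left₀ (by linarith) h.zt 2
  have fC : (o.z - 2) ^ 2 * fr (o.C U) ≤ n * ω ^ 10 / 4 := by
    have h1 := fr_add_le G (G * (o.A U * o.C U - 1))
    rw [Matrix.mul_sub, ← Matrix.mul_assoc, GA, Matrix.one_mul, Matrix.mul_one, add_sub_cancel] at h1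
    have h2 := oG.fr_left (o.A U * o.C U - 1)
    rw [Matrix.mul_sub, ← Matrix.mul_assoc, GA, Matrix.one_mul, Matrix.mul_one] at h2
    have h3 := mul_le_mul_of_nonneg_left h2 (sq_nonneg (o.z - 2))
    rw [← mul_assoc, show (o.z - 2) ^ 2 * (2 / (o.z - 2)) ^ 2 = 4 by
      have : o.z - 2 ≠ 0 := by linarith
      field_simp; norm_num] at h3
    have h4 : (o.z - 2) ^ 2 * fr G ≤ κ ^ 2 * ω ^ 60 * (κ ^ 2 * n / ω ^ 15) :=
      mul_le_mul ζ2 (fG.trans (by gcongr; nlinarith)) fr_nonneg (by positivity)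
    rw [show κ ^ 2 * ω ^ 60 * (κ ^ 2 * n / ω ^ 15) = n * ((κ ^ 2) ^ 2 * ω ^ 45) by field_simp] at h4
    have h5 := mul_le_mul_of_nonneg_left (M 2 45 10 (by norm_num)) n0
    simp only [Nat.reduceSub] at h5
    nlinarith [mul_le_mul_of_nonneg_left h1 (sq_nonneg (o.z - 2)), mul_nonneg n0 (pow_pos ω0 10).le]
  have t1 : ω ^ 10 ≤ 1 := by simpa using (M 0 10 0 (by norm_num)).trans (by norm_num)
  refine ⟨b1, (c2 _ _ b1 b2).mono ?_, c3.trans (by linarith [mul_nonneg n0 (pow_pos ω0 10).le]),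
    c4.trans ?_⟩
  · have h1 : (o.z - 2) ^ 2 * (4 * κ / ω ^ 30) ≤ κ ^ 2 * ω ^ 60 * (4 * κ ^ 2 / ω ^ 30) :=
      mul_le_mul ζ2 (by gcongr; nlinarith) (by positivity) (by positivity)
    rw [show κ ^ 2 * ω ^ 60 * (4 * κ ^ 2 / ω ^ 30) = 4 * ((κ ^ 2) ^ 2 * ω ^ 30) by field_simp] at h1
    have := M 2 30 0 (by norm_num)
    norm_num at this h1 ⊢; linarith
  · have h1 := mul_le_mul_of_nonneg_left t1 n0
    have h2 : (o.z - 2) ^ 2 * (2 * fr (o.A U * o.C U - 1) + n) ≤ κ ^ 2 * ω ^ 60 * (2 * n) :=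
      mul_le_mul ζ2 (by linarith) (by linarith [fr_nonneg (U := o.A U * o.C U - 1)]) (by positivity)
    have h3 : (o.z - 2) ^ 2 * ((o.z - 2) ^ 2 * fr (o.C U)) ≤ κ ^ 2 * ω ^ 60 * n :=
      mul_le_mul ζ2 (by linarith) (mul_nonneg (sq_nonneg _) fr_nonneg) (by positivity)
    have h5 := mul_le_mul_of_nonneg_left (M 1 60 30 (by norm_num)) n0
    have h6 := mul_le_mul_of_nonneg_right κ1 (mul_nonneg n0 (pow_pos ω0 30).le)
    simp only [Nat.reduceSub] at h5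
    nlinarith [mul_nonneg n0 (pow_pos ω0 30).le]

/-- **(g1)-(g4) at the level `H` for `t ≥ t**`** -/
theorem r1 (X : Ctx o μ c R η K δ) (h : R1H o c e vt G0 T κ ω l l0 s β χi H)
    (hm : μ.real {U | ¬ (U ∈ o.G c ∧ OpLe (Rt (o.w U) (o.A U) o.p l -
      (1 - Sq o.p l * (χi • (1 : Mn n) + β • vecMulVec e e) * Sq o.p l)) s)} ≤ 1 / 4)
    (hP : μ.real {U | ¬ Pos (o.A U) (χi • (1 : Mn n) + β • vecMulVec e e) vt l0} ≤ 1 / 4) :
    μ.real {U | ¬ G14 (o.Wu U) (o.w U) κ ω} ≤ 4 * fl R η H := by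
  obtain ⟨b1, b2, b3, b4⟩ := r1A X h hm hP
  refine le_trans (real_mono_SO X.inv fun U hU hx => ?_)
    ((real_or subset_rfl (real_or subset_rfl b1 b2) (real_or subset_rfl b3 b4)).trans (by linarith))
  by_contra hn
  simp only [Set.mem_union, Set.mem_ofPred_eq, not_or, not_not, not_lt] at hn
  exact hx (conv X.ok h hU hn.1.1 hn.1.2 hn.2.1 hn.2.2)

/-- `ω = t ^ (1 / 30)` -/
theorem om_pow {t : ℝ} (ht : 0 < t) (j : ℕ) : (t ^ (1 / 30 : ℝ)) ^ j = t ^ (j / 30 : ℝ) := by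
  rw [← Real.rpow_natCast, ← Real.rpow_mul ht.le]; congr 1; ring

theorem om_vals {t : ℝ} (ht : 0 < t) : (t ^ (1 / 30 : ℝ)) ^ 30 = t ∧
    (t ^ (1 / 30 : ℝ)) ^ 10 = t ^ (1 / 3 : ℝ) ∧ (t ^ (1 / 30 : ℝ)) ^ 15 = √t ∧
    (t ^ (1 / 30 : ℝ)) ^ 45 = t ^ (3 / 2 : ℝ) ∧ (t ^ (1 / 30 : ℝ)) ^ 60 = t ^ 2 := by
  simp only [om_pow ht, Real.sqrt_eq_rpow, ← Real.rpow_two]
  norm_num

end Crest.Agent.T157.Ba26
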