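import Crest.Agent.T157.OgDef_9
import Crest.Agent.T157.OgR1_26

set_option autoImplicit false
set_option linter.unusedSectionVars false

/-!
Row 157, A2 (helper26): `Og.HiFGlue`.
-/

noncomputable section

namespace Crest.Agent.T157.Og

open MeasureTheory Matrix Crest.Agent.Lib.OrthPoinc Filter Topology Set
open Crest.Agent.T157.Oc Crest.Agent.T157.E Crest.Agent.T157.SL Crest.Agent.T157.Ks
open Crest.Agent.T157.Od Crest.Agent.T157.Oo Crest.Agent.T157.O6 Crest.Agent.T157.O0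
open Crest.Agent.T157.O6m Crest.Agent.T157.Ba26

namespace Hf26

variable {p : Pm} {t ε H : ℝ} {k : ℕ} {o : Orb p.n k} {x : Vn p.n}

theorem n0 (h : Kp.At o x) : (0 : ℝ) < p.n := by
  have := h.dim
  exact_mod_cast (by omega : 0 < p.n)

theorem t0 (h : LH p t ε H) (hn : (0 : ℝ) < p.n) : 0 < t :=
  lt_of_lt_of_le (by unfold Pm.lo; positivity) h.lo

/-- `L² ≤ C`, `L ^ 20 t ≤ 1` -/
theorem LC (h : LH p t ε H) (ht : 0 < t) : p.L ^ 2 ≤ p.C ∧ p.L ^ 20 * t ≤ 1 := by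
  have o := h.ord
  have L1 : 1 ≤ p.L := by linarith [o.ok.L]
  have a1 : p.L ^ 2 ≤ p.L ^ 10 := pow_le_pow_right₀ L1 (by norm_num)
  have a2 : p.L ^ 2 ≤ p.C := by nlinarith [o.C, pow_nonneg (zero_le_one.trans L1) 10]
  have a3 : p.C ≤ p.K := (le_self_pow₀ o.ok.C (by norm_num)).trans o.K
  have a4 : p.L ^ 2 ≤ p.B := a2.trans (a3.trans o.ok.B)
  have a5 : p.L ^ 20 ≤ p.B ^ 1000 := by
    rw [show p.L ^ 20 = (p.L ^ 2) ^ 10 by ring]
    exact (pow_le_pow_left₀ (sq_nonneg _) a4 10).trans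
      (pow_le_pow_right₀ (o.ok.K.trans o.ok.B) (by norm_num))
  refine ⟨a2, le_trans ?_ o.t0⟩
  rw [mul_comm]
  exact mul_le_mul h.hi a5 (by positivity) o.ok.t0.1.le

theorem chi_eq (h : Kp.At o x) : Kp.chi x = 1 - o.p ⬝ᵥ o.p / p.n := by
  have := n0 h
  rw [h.p]
  simp only [Kp.chi, Tap.avg, Tap.DD, Finset.sum_sub_distrib, dotProduct, ← sq]
  simp; field_simp

theorem Bz_eq (h : Kp.At o x) : Bz o x = (Kp.chi x)⁻¹ • (1 : Mn p.n) +
    (2 : ℝ) • vecMulVec ((√p.n)⁻¹ • o.p) ((√p.n)⁻¹ • o.p) := by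
  have := Real.mul_self_sqrt (n0 h).le
  rw [Bz, smul_vecMulVec, vecMulVec_smul, smul_smul, smul_smul, mul_assoc, ← mul_inv, this,
    div_eq_mul_inv]

end Hf26

open Hf26 in
theorem hiFGlue : HiFGlue := by
  intro nh nf p t H η k o μ _ x vt X ht hvt S hm
  have At := X.fx.pt
  have n0 := n0 At
  have t0 := t0 X.lh n0
  obtain ⟨LC, Lt⟩ := LC X.lh t0
  have C1 := X.lh.ord.ok.C
  have L0 := X.lh.ord.ok.L
  have Y := X.ctx
  have he := (nh p t 1 H X.lh ht).2.2.2.2.2.2.2.2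
  obtain ⟨f1, f2, f3⟩ := nf p t H X.lh ht
  obtain ⟨⟨T, hT, off⟩, p4, G, hG, fG⟩ := S
  have lp : 0 < ll p := Real.rpow_pos_of_pos n0 _
  have s0 : 0 < sm p := Real.rpow_pos_of_pos n0 _
  have tC : t / p.C ≤ t := div_le_self t0.le C1
  have he' : 9 * ll p + 3 * sm p ≤ t / p.C / 16 := he.trans_eq (by field_simp)
  have tC0 : 0 < t / p.C := by positivity
  have t1 : t ≤ 1 / 100 := X.lh.hi.trans X.lh.ord.ok.t0.2
  -- `ρ = t ^ (1 / 20)`
  obtain ⟨ρ, ρ0, e20, e9, e10⟩ : ∃ ρ : ℝ, 0 < ρ ∧ ρ ^ 20 = t ∧ ρ ^ 9 = t ^ (9 / 20 : ℝ) ∧ ρ ^ 10 = √t := by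
    refine ⟨t ^ (1 / 20 : ℝ), by positivity, ?_, ?_, ?_⟩ <;>
      simp only [← Real.rpow_natCast, ← Real.rpow_mul t0.le, Real.sqrt_eq_rpow] <;> norm_num
  have Lρ : p.L * ρ ≤ 1 := by
    rw [← e20, ← mul_pow] at Lt
    exact (pow_le_one_iff_of_nonneg (by positivity) (by norm_num)).1 Lt
  have ρ1 : ρ ≤ 1 / 100 := by nlinarith
  have r9 : ρ ^ 9 ≤ ρ := pow_le_of_le_one ρ0.le (by linarith) (by norm_num)
  have r20 : t ≤ ρ ^ 9 := e20 ▸ pow_le_pow_of_le_one ρ0.le (by linarith) (by norm_num)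
  rw [← e9] at off f1 f2
  have q0 : 0 ≤ o.p ⬝ᵥ o.p / p.n := div_nonneg (dnn _) n0.le
  have q1 : o.p ⬝ᵥ o.p / p.n ≤ p.L / 50 * ρ ^ 10 := by
    rw [div_le_iff₀ n0, e10]; linarith [X.fx.P]
  have q2 : p.L / 50 * ρ ^ 10 ≤ ρ ^ 9 / 50 := by
    nlinarith [mul_le_mul_of_nonneg_right Lρ (pow_pos ρ0 9).le]
  have hχ : ((Kp.chi x)⁻¹ - 1) ^ 2 ≤ 4 * (p.L / 50 * ρ ^ 10) ^ 2 := by
    rw [chi_eq At]
    generalize o.p ⬝ᵥ o.p / p.n = q at q0 q1
    have d0 : 0 < 1 - q := by linarith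
    have h1 : (1 - q)⁻¹ - 1 = q * (1 - q)⁻¹ := by field_simp; ring
    have h2 : (1 - q)⁻¹ ≤ 2 := by rw [inv_le_comm₀ d0 two_pos]; linarith
    rw [h1, show 4 * (p.L / 50 * ρ ^ 10) ^ 2 = (p.L / 50 * ρ ^ 10 * 2) ^ 2 by ring]
    gcongr
  have half : ∀ i, i ∉ T → 1 / 2 ≤ Dl o.p (ll p) i := fun i hi => by
    unfold Dl; linarith [off i hi]
  have l2 : ll p ^ 2 ≤ t ^ 2 := pow_le_pow_left₀ lp.le (by linarith) 2
  have gX : 0 ≤ (c1 p t).gX1U := by
    have := Y.nn.lam; have := Y.nn.N; have := Y.nn.k1; have := Y.nn.k2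
    unfold Cs.gX1U; positivity
  have gP : 0 ≤ (c1 p t).gPhiU := by
    have := Y.nn.lam; have := Y.nn.N'; have := Y.nn.k1; have := Y.nn.k2
    unfold Cs.gPhiU; positivity
  have R0 : 0 ≤ RR p := by linarith [Y.R1]
  have M0 : 0 ≤ MM (RR p) := by unfold MM; positivity
  have y2 : √(p.n * t / 64) ^ 2 = p.n * t / 64 := Real.sq_sqrt (by positivity)
  have cn := crude_nn Y.nn.a R0
  have k1 : (t / p.C - (9 * ll p + 3 * sm p))⁻¹ ≤ 2 * p.C / t :=
    (inv_anti₀ (half_pos tC0) (by linarith)).trans_eq (by field_simp)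
  have hE : μ.real {U | ¬ Ev o (Dl o.p (ll p)) ((√p.n)⁻¹ • o.p) (ll p) 2 (Kp.chi x)⁻¹ (2 * p.C / t) 60
      (100 * (p.C * p.n / √t)) (12 * p.C / t) (sm p ^ 2) U} ≤ 1 / 2 := by
    refine le_trans (real_mono_SO Y.inv ?_) hm
    refine fun U hU hx ⟨b1, b2⟩ => hx ?_
    rw [Bz_eq At] at b1 b2
    obtain ⟨a1, a2, a3, a4, a5⟩ := ev_orb Y.ok cn ⟨hU, Y.cr U hU⟩ X.fx.psd Y.p1 lp s0.le hvt b1
      (by linarith) (by linarith) hG fG b2
    rw [div_div_eq_mul_div] at a4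
    exact ⟨a1.mono k1, a2.mono (by norm_num [crude, c1, Cs.ctr, Pm.cq]), a3, a4, a5⟩
  obtain ⟨g3, g4⟩ := g34 (B := (c1 p t).gX1U + (c1 p t).gPhiU + 1) (H := 3 * H) (y := √(p.n * t / 64))
    Y.inv Y.ok Y.nn cn (fun U hU => ⟨hU, Y.cr U hU⟩) (by positivity) (by norm_num) lp (Dl_pos Y.p1 lp)
    (by positivity) (by
      rw [smul_dotProduct, dotProduct_smul, smul_eq_mul, smul_eq_mul, ← mul_assoc, ← mul_inv,
        Real.mul_self_sqrt n0.le, ← div_eq_inv_mul]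
      linarith)
    (sq_nonneg _) hT half (v := 12 * ρ ^ 9) (v2 := 100 * p.C * p.n * t) (fun i hi => by
      refine (inv_De lp.le (half i hi) hχ).trans ?_
      have a1 := pow_le_pow_left₀ (sq_nonneg _) (off i hi) 2
      have a2 := pow_le_pow_left₀ t0.le r20 2
      have a3 := pow_le_pow_left₀ (by positivity) q2 2
      nlinarith [pow_pos ρ0 18])
    (by
      have a1 : (p.L / 50 * ρ ^ 10) ^ 2 ≤ p.C * t := by
        rw [← e20]; nlinarith [mul_le_mul_of_nonneg_right LC (pow_pos ρ0 20).le, pow_pos ρ0 20]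
      have a2 : t ^ 2 ≤ p.C * t := by nlinarith
      refine (Finset.sum_le_sum (g := fun i => 8 * o.p i ^ 4 + 16 * (p.C * t)) fun i _ => ?_).trans ?_
      · split_ifs with hi
        · positivity
        · exact (inv_De lp.le (half i hi) hχ).trans (by linarith)
      · rw [Finset.sum_add_distrib, ← Finset.mul_sum, Finset.sum_const, Finset.card_univ,
          Fintype.card_fin, nsmul_eq_mul]
        nlinarith [mul_pos (mul_pos (show 0 < p.C by linarith) n0) t0])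
    hE (by positivity) f1 (by positivity) f2 (by linarith) (by linarith) (by linarith) M0
    (crude_U Y.R1 Y.Ra).1 (crude_U Y.R1 Y.Ra).2 (Real.sqrt_pos.2 (by positivity)) (by
      have e : (k : ℝ) + 2 = p.n := by exact_mod_cast At.dim
      rw [y2, show (k : ℝ) - 2 = ro p by unfold ro; linarith]
      exact f3)
  have fb : Real.exp (-(3 * H)) + MM (RR p) / ((c1 p t).gX1U + (c1 p t).gPhiU + 1) *
      μ.real (o.G (c1 p t))ᶜ ≤ fl (RR p) η (3 * H) :=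
    add_le_add le_rfl (mul_le_mul (div_le_self M0 (by linarith)) Y.G measureReal_nonneg M0)
  rw [y2] at g3 g4
  refine ⟨mm (g3.trans fb) fun U hU => lt_of_le_of_lt ?_ hU,
    mm (g4.trans fb) fun U hU => lt_of_le_of_lt ?_ hU⟩
  · have : t ≤ t ^ (1 / 3 : ℝ) := by
      simpa using Real.rpow_le_rpow_of_exponent_ge t0 (by linarith) (show (1 / 3 : ℝ) ≤ 1 by norm_num)
    nlinarith [mul_le_mul_of_nonneg_left this n0.le]
  · nlinarith [mul_le_mul_of_nonneg_right C1 (mul_pos n0 t0).le]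

end Crest.Agent.T157.Og
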