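import Crest.Agent.T157.O5D_26

set_option autoImplicit false

/-!
Row 157, A2 (helper26): the numbers of (BA) for `t ≥ t**`, `t = ω ^ 30`.
-/

noncomputable section

namespace Crest.Agent.T157.Ba26

variable {κ ω N m l β k1 a c2 Γ s2 v v2 : ℝ}

theorem mon (κ1 : 1 ≤ κ) (ω0 : 0 < ω) (sm : κ * ω ≤ 1 / 1000) (i b j : ℕ) (h : i + j ≤ b) :
    κ ^ i * ω ^ b ≤ (1 / 1000) ^ (b - j) * ω ^ j := by
  obtain ⟨d, rfl⟩ := Nat.exists_eq_add_of_le h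
  have ω1 : ω ≤ 1 / 1000 := by nlinarith
  rw [show i + j + d - j = i + d by omega, pow_add (1 / 1000 : ℝ),
    show κ ^ i * ω ^ (i + j + d) = (κ * ω) ^ i * ω ^ d * ω ^ j by ring]
  gcongr

/-- the sizes in the range `t ≥ t**` -/
structure Sz (κ ω N m l β k1 a c2 Γ s2 v v2 : ℝ) : Prop where
  κ1 : 1 ≤ κ
  ω0 : 0 < ω
  sm : κ * ω ≤ 1 / 1000
  big : 1 ≤ N * ω ^ 100
  hm : m ≤ N * ω ^ 45
  l0 : 0 ≤ l
  hl : l ≤ ω ^ 50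
  hβ : β ^ 2 ≤ κ
  k0 : 0 ≤ k1
  hk : k1 ≤ 4 / 3 * κ / ω ^ 30
  a0 : 0 ≤ a
  ha : a ≤ 6
  c0 : 0 ≤ c2
  hc : c2 ≤ 100 * (κ * N / ω ^ 15)
  Γ0 : 0 ≤ Γ
  hΓ : Γ ≤ 12 * κ / ω ^ 30
  s0 : 0 ≤ s2
  hs : s2 ≤ ω ^ 100
  hv : v ^ 2 ≤ 10 * κ * ω ^ 27
  hv2 : v2 ≤ 11 * κ * N * ω ^ 30

namespace Sz

variable (h : Sz κ ω N m l β k1 a c2 Γ s2 v v2)
include h

theorem N0 : 0 < N := by
  have := h.big
  by_contra hN
  nlinarith [mul_nonneg_of_nonpos_of_nonpos (not_lt.1 hN) (neg_nonpos.2 (pow_pos h.ω0 100).le)]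

theorem kl : k1 + l ≤ 2 * κ / ω ^ 30 := by
  have ω0 := h.ω0
  have h1 := mon h.κ1 ω0 h.sm 0 80 0 (by norm_num)
  have h2 : ω ^ 50 ≤ 2 / 3 * κ / ω ^ 30 := by
    rw [le_div_iff₀ (by positivity), ← pow_add]
    have := h.κ1
    norm_num at h1 ⊢; linarith
  have : 2 * κ / ω ^ 30 = 4 / 3 * κ / ω ^ 30 + 2 / 3 * κ / ω ^ 30 := by ring
  linarith [h.hk, h.hl]

theorem phi : φ N l β k1 Γ s2 ≤ N * ω ^ 37 := by
  have ω0 := h.ω0; have N0 := h.N0; have κ1 := h.κ1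
  have := h.k0; have := h.l0; have := h.Γ0; have := h.s0
  have h1 : φ N l β k1 Γ s2 ≤ 2 * (κ * (2 * κ / ω ^ 30) ^ 2 * (N * ω ^ 100) +
      2 * ω ^ 100 * (12 * κ / ω ^ 30 * (2 * κ / ω ^ 30)) * N) := by
    unfold φ
    rw [← mul_one (β ^ 2 * _)]
    gcongr
    exacts [h.hβ, h.kl, h.big, h.hs, h.hΓ, h.kl]
  have e : 2 * (κ * (2 * κ / ω ^ 30) ^ 2 * (N * ω ^ 100) +
      2 * ω ^ 100 * (12 * κ / ω ^ 30 * (2 * κ / ω ^ 30)) * N) =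
      N * (8 * (κ ^ 3 * ω ^ 40) + 96 * (κ ^ 2 * ω ^ 40)) := by field_simp; ring
  have m1 := mon κ1 ω0 h.sm 3 40 37 (by norm_num)
  have m2 := mon κ1 ω0 h.sm 2 40 37 (by norm_num)
  refine h1.trans (e.le.trans (mul_le_mul_of_nonneg_left ?_ N0.le))
  have := pow_pos ω0 37
  norm_num at m1 m2; linarith

theorem phi0 : 0 ≤ φ N l β k1 Γ s2 := by
  have N0 := h.N0; have := h.k0; have := h.l0; have := h.Γ0; have := h.s0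
  unfold φ; positivity

theorem al : alB N m l β k1 (10 * a) a c2 Γ s2 v ≤ N * ω ^ 10 / 100 := by
  have ω0 := h.ω0; have N0 := h.N0; have κ1 := h.κ1
  have := h.k0; have := h.l0; have := h.a0; have := h.c0
  have h1 : alB N m l β k1 (10 * a) a c2 Γ s2 v ≤ N * ω ^ 45 * (2 * (4 / 3 * κ / ω ^ 30 * (10 * 6) + 1)) +
      2 * (2 * (10 * κ * ω ^ 27 * (2 * (100 * (κ * N / ω ^ 15) + (ω ^ 50) ^ 2 * N)) + N * ω ^ 37) +
        (ω ^ 50) ^ 2 * (N * 6 ^ 2)) := by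
    unfold alB
    gcongr
    exacts [h.hm, h.hk, h.ha, h.hv, h.hc, h.hl, h.phi, h.hl, h.ha]
  have e : N * ω ^ 45 * (2 * (4 / 3 * κ / ω ^ 30 * (10 * 6) + 1)) +
      2 * (2 * (10 * κ * ω ^ 27 * (2 * (100 * (κ * N / ω ^ 15) + (ω ^ 50) ^ 2 * N)) + N * ω ^ 37) +
        (ω ^ 50) ^ 2 * (N * 6 ^ 2)) = N * (160 * (κ ^ 1 * ω ^ 15) + 2 * (κ ^ 0 * ω ^ 45) +
        8000 * (κ ^ 2 * ω ^ 12) + 80 * (κ ^ 1 * ω ^ 127) + 4 * (κ ^ 0 * ω ^ 37) +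
        72 * (κ ^ 0 * ω ^ 100)) := by field_simp; ring
  have m1 := mon κ1 ω0 h.sm 1 15 10 (by norm_num)
  have m2 := mon κ1 ω0 h.sm 0 45 10 (by norm_num)
  have m3 := mon κ1 ω0 h.sm 2 12 10 (by norm_num)
  have m4 := mon κ1 ω0 h.sm 1 127 10 (by norm_num)
  have m5 := mon κ1 ω0 h.sm 0 37 10 (by norm_num)
  have m6 := mon κ1 ω0 h.sm 0 100 10 (by norm_num)
  rw [mul_div_assoc]
  refine h1.trans (e.le.trans (mul_le_mul_of_nonneg_left ?_ N0.le))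
  have := pow_pos ω0 10
  simp only [Nat.reduceSub] at m1 m2 m3 m4 m5 m6
  linarith

theorem bb : bB N m l β k1 (10 * a) a c2 Γ s2 v v2 ≤ 180 * κ * N * ω ^ 30 := by
  have ω0 := h.ω0; have N0 := h.N0; have κ1 := h.κ1
  have := h.k0; have := h.l0; have := h.a0; have := h.c0; have := h.phi0; have := h.Γ0; have := h.s0
  have hb : β ^ 2 ≤ κ * (N * ω ^ 100) := h.hβ.trans (le_mul_of_one_le_right (by linarith) h.big)
  have h1 : bB N m l β k1 (10 * a) a c2 Γ s2 v v2 ≤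
      2 * (N * ω ^ 45 * (2 * (10 * 6 * (10 * 6) + 6 ^ 2))) +
      2 * (2 * (2 * (2 * (11 * κ * N * ω ^ 30 + κ * (N * ω ^ 100)) + 4 * ω ^ 100 * N) +
      2 * (2 * ((10 * κ * ω ^ 27) ^ 2 * (2 * (100 * (κ * N / ω ^ 15) + (ω ^ 50) ^ 2 * N)) +
        10 * κ * ω ^ 27 * (N * ω ^ 37)) +
      2 * (10 * κ * ω ^ 27 * (N * ω ^ 37) + 2 * (κ * (N * ω ^ 37) +
        2 * ω ^ 100 * (2 * (κ * (N * ω ^ 100) * (12 * κ / ω ^ 30 * (2 * κ / ω ^ 30)) +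
          2 * ω ^ 100 * (12 * κ / ω ^ 30 * (12 * κ / ω ^ 30)) * N)))))) +
      (ω ^ 50) ^ 2 * (N * (6 ^ 2 * 6 ^ 2))) := by
    unfold bB
    rw [show v ^ 4 = (v ^ 2) ^ 2 by ring]
    have := h.hm; have := h.ha; have := h.hv2; have := h.hs; have := h.hv; have := h.hc
    have := h.hl; have := h.phi; have := h.hβ; have := h.hΓ; have := h.kl
    gcongr
  refine h1.trans ?_
  have m1 := mon κ1 ω0 h.sm 0 45 30 (by norm_num)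
  have m2 := mon κ1 ω0 h.sm 1 100 30 (by norm_num)
  have m3 := mon κ1 ω0 h.sm 0 100 30 (by norm_num)
  have m4 := mon κ1 ω0 h.sm 3 39 30 (by norm_num)
  have m5 := mon κ1 ω0 h.sm 2 154 30 (by norm_num)
  have m6 := mon κ1 ω0 h.sm 1 64 30 (by norm_num)
  have m7 := mon κ1 ω0 h.sm 1 37 30 (by norm_num)
  have m8 := mon κ1 ω0 h.sm 3 140 30 (by norm_num)
  have m9 := mon κ1 ω0 h.sm 2 140 30 (by norm_num)
  have m0 : ω ^ 30 ≤ κ * ω ^ 30 := le_mul_of_one_le_left (by positivity) κ1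
  simp only [Nat.reduceSub] at m1 m2 m3 m4 m5 m6 m7 m8 m9
  refine le_of_eq_of_le (b := N * (14544 * (κ ^ 0 * ω ^ 45) + 176 * (κ * ω ^ 30) +
    16 * (κ ^ 1 * ω ^ 100) + 2624 * (κ ^ 0 * ω ^ 100) + 320000 * (κ ^ 3 * ω ^ 39) +
    3200 * (κ ^ 2 * ω ^ 154) + 320 * (κ ^ 1 * ω ^ 64) + 32 * (κ ^ 1 * ω ^ 37) +
    3072 * (κ ^ 3 * ω ^ 140) + 36864 * (κ ^ 2 * ω ^ 140))) (by field_simp; ring) ?_
  rw [show 180 * κ * N * ω ^ 30 = N * (180 * (κ * ω ^ 30)) by ring]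
  refine mul_le_mul_of_nonneg_left ?_ N0.le
  have := pow_pos ω0 30
  linarith

end Sz

end Crest.Agent.T157.Ba26
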