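import Crest.Agent.T157.OiDef_19
import Crest.Agent.T157.O4xB_12
import Crest.Agent.T157.O0Wb_31

set_option autoImplicit false
set_option linter.unusedSectionVars false

/-!
Row 157, A2 (helper15): the data on `x` on one orbit.
-/

noncomputable section

namespace Crest.Agent.T157.Oi

open MeasureTheory Matrix Crest.Agent.Lib.OrthPoinc Filter Set
open Crest.Agent.T157.E Crest.Agent.T157.Cond Crest.Agent.T157.Tap
open Crest.Agent.T157.Oc Crest.Agent.T157.Od Crest.Agent.T157.Oo Crest.Agent.T157.O0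
open Crest.Agent.T157.Mj (Fr)
open Crest.Agent.T157.Kb (f2 ee)
open Crest.Agent.T157.Kb.Xd75 (avg_const avg_sub avg_add avg_mul sum_eq)
open Crest.Agent.T157.O4c (Hx)

namespace Xd15

variable {n k : ℕ}

theorem hx_mono {o : Orb n k} {x f1 f2 : Vn n} {χ X q η C0 T C : ℝ}
    (h : Hx o x f1 f2 χ X (C0 * q) η (6 * C0)) (q0 : 0 < q) (h0 : 1 ≤ C0) (hT : C0 ≤ T)
    (hη : T * q ≤ η) (hC : 6 * T ≤ C) : Hx o x f1 f2 χ X (T * q) η C := by
  have h1 : C0 * q ≤ T * q := mul_le_mul_of_nonneg_right hT q0.le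
  have k0 := h.k0
  have e0 : 0 < η := k0.trans_le h.ke
  have h2 := pow_le_pow_left₀ k0.le h1 2
  refine { h with
    k0 := k0.trans_le h1
    ke := hη
    C1 := by linarith
    Xn := h.Xn.trans (mul_le_mul_of_nonneg_right h1 n.cast_nonneg)
    big := h.big.trans (mul_le_mul_of_nonneg_right (mul_le_mul_of_nonneg_left h1 e0.le) h.X0.le)
    m6 := h.m6.trans h2
    f2 := fun i => ?_
    xp := fun y hy => (h.xp y hy).trans
      (mul_le_mul_of_nonneg_right (mul_le_mul_of_nonneg_left h2 e0.le) (abs_nonneg _)) }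
  have h3 : q * |f2 i| ≤ 6 * |f1 i| :=
    le_of_mul_le_mul_left (a := C0) (by linarith [h.f2 i]) (by linarith)
  have h4 := mul_le_mul_of_nonneg_left h3 (show 0 ≤ T by linarith)
  linarith [mul_le_mul_of_nonneg_right hC (abs_nonneg (f1 i))]

/-- the small numbers of a context -/
structure Sm (C0 : ℝ) (p : Pm) : Prop where
  ok : p.Ok
  T : 100 * C0 ^ 2 ≤ p.T
  e1 : p.T * p.e1 ≤ 1
  t0 : p.t0 ≤ ((p.T * p.L)⁻¹) ^ 4
  n : p.L * p.T ^ 2 ≤ (p.n : ℝ) ^ (p.d / 2)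

theorem ev_Sm (C0 : ℝ) : ∀ᶠ p in FF, Sm C0 p := by
  filter_upwards [ev_ok, ev_T (Q := fun _ x => 100 * C0 ^ 2 ≤ x) fun _ => ev_ge _,
    ev_e1 fun q => ev_sm q.T⁻¹, ev_t0 fun q => ev_sm (((q.T * q.L)⁻¹) ^ 4),
    ev_n (Q := fun p => 0 < p.d → p.L * p.T ^ 2 ≤ (p.n : ℝ) ^ (p.d / 2)) fun q => by
      by_cases hd : 0 < q.d
      · exact (((tendsto_rpow_atTop (half_pos hd)).comp tendsto_natCast_atTop_atTop).eventually_ge_atTop
          (q.L * q.T ^ 2)).mono fun _ h _ => h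
      · exact .of_forall fun _ h => absurd h hd] with p ok hT h1 h0 hn
  have T0 : 0 < p.T := by linarith [ok.T]
  have L0 : 0 < p.L := by linarith [ok.L]
  refine ⟨ok, hT, ?_, h0.2 (show 0 < ((p.T * p.L)⁻¹) ^ 4 by positivity), hn ok.d.1⟩
  have : p.e1 ≤ p.T⁻¹ := h1.2 (inv_pos.2 T0)
  rwa [← one_div, le_div_iff₀' T0] at this

variable {p : Pm} {t e h H C0 : ℝ} {o : Orb p.n k} {μ : Measure (Mat k)} {x : Vn p.n}

/-- `T q ≤ h² / 50` and `1 ≤ h⁴ n q³` -/
theorem nums (S : Sm C0 p) (c : Cz p t e h H o μ x) : 0 < t ∧ 0 < h ∧ p.T * h ≤ 1 ∧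
    p.T * aS x ≤ h ^ 2 / 50 ∧ 1 ≤ (h ^ 2) ^ 2 * (p.n * aS x ^ 3) := by
  have ok := S.ok
  have T1 := ok.T
  have L0 : 0 < p.L := by linarith [ok.L]
  have n2 : 2 < p.n := by have := c.pt.dim; have := c.pt.ok.two; omega
  have n1 : (1 : ℝ) ≤ p.n := by exact_mod_cast n2.le.trans' one_le_two
  have n0 : (0 : ℝ) < p.n := by linarith
  have t0 : 0 < t := lt_of_lt_of_le (by unfold Pm.lo; positivity) c.lo
  have t1 : t ≤ 1 := by linarith [c.hi, ok.t0.2]
  obtain ⟨e0, e1, et, en⟩ := c.er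
  have h0 : 0 < h := (pow_pos e0 2).trans_le c.h0
  have q0 := c.nx.mo.q0
  have cv : p.cv ≤ p.d / 100 := by
    have : (1 : ℝ) ≤ p.A := by exact_mod_cast ok.A
    nlinarith [ok.cv, ok.cv', ok.k3.2, ok.k2.2, ok.k4.2, ok.d.1, ok.k3.1, ok.k2.1, ok.k4.1]
  have d1 : p.d ≤ 1 := by linarith [ok.d.2, ok.ch.2]
  have h4 : e ^ 4 ≤ h ^ 2 := (by ring : e ^ 4 = (e ^ 2) ^ 2).trans_le (by gcongr; exact c.h0)
  refine ⟨t0, h0, (mul_le_mul_of_nonneg_left (c.h1.trans e1) (by linarith)).trans S.e1, ?_, ?_⟩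
  · obtain ⟨u, u0, rfl⟩ : ∃ u : ℝ, 0 < u ∧ t = u ^ 4 := ⟨t ^ ((4 : ℕ) : ℝ)⁻¹, by positivity,
      (Real.rpow_inv_natCast_pow t0.le (by norm_num)).symm⟩
    have a1 : u ≤ (p.T * p.L)⁻¹ :=
      le_of_pow_le_pow_left₀ (by norm_num) (by positivity) (c.hi.trans S.t0)
    have a2 : aS x ≤ p.L / 50 * u ^ 2 :=
      le_of_pow_le_pow_left₀ (n := 2) (by norm_num) (by positivity) (c.nx.q2.trans_eq (by ring))
    have a3 : u ≤ e ^ 4 := by
      refine le_trans ?_ (pow_le_pow_left₀ (by positivity) et 4)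
      rw [← Real.rpow_mul_natCast t0.le, mul_comm, Real.rpow_natCast_mul t0.le,
        ← Real.rpow_natCast_mul t0.le, ← Real.rpow_natCast u, ← Real.rpow_mul u0.le]
      exact Real.self_le_rpow_of_le_one u0.le
        ((pow_le_one_iff_of_nonneg u0.le (by norm_num)).1 t1) (by push_cast; linarith [ok.d.2, ok.ch.2])
    rw [← one_div, le_div_iff₀' (by positivity)] at a1
    have a4 := mul_le_mul_of_nonneg_left a2 (show 0 ≤ p.T by linarith)
    nlinarith [mul_le_mul_of_nonneg_right a1 u0.le]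
  · have b1 : (p.n : ℝ) ^ (-(p.d / 2)) ≤ (h ^ 2) ^ 2 := by
      refine le_trans ?_ ((pow_le_pow_left₀ (by positivity) en 8).trans
        ((by ring : e ^ 8 = (e ^ 4) ^ 2).trans_le (by gcongr)))
      rw [← Real.rpow_mul_natCast n0.le]
      exact Real.rpow_le_rpow_of_exponent_le n1 (by push_cast; linarith [ok.d.1])
    have b2 : t ^ (3 / 2 : ℝ) ≤ p.T ^ 2 * aS x ^ 3 := by
      have : t ≤ (p.T ^ 2 * aS x ^ 3) ^ (2 / 3 : ℝ) := by
        rw [Real.mul_rpow (by positivity) (by positivity), ← Real.rpow_natCast,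
          ← Real.rpow_natCast (aS x), ← Real.rpow_mul (by linarith), ← Real.rpow_mul q0.le]
        refine c.nx.q1.trans (mul_le_mul ?_ (le_of_eq ?_) (by positivity) (by positivity))
        · exact Real.self_le_rpow_of_one_le T1 (by norm_num)
        · rw [← Real.rpow_natCast]; norm_num
      refine (Real.rpow_le_rpow t0.le this (by norm_num)).trans_eq ?_
      rw [← Real.rpow_mul (by positivity)]; norm_num
    have b3 : (p.n : ℝ) ^ (p.d / 2) * (p.n : ℝ) ^ (p.d / 2) ≤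
        (p.n : ℝ) ^ (p.d / 2) * (p.n * aS x ^ 3) := by
      rw [← Real.rpow_add n0, add_halves]
      refine (c.H0.trans c.H1).trans ?_
      have := mul_le_mul_of_nonneg_right S.n (show 0 ≤ p.n * aS x ^ 3 by positivity)
      have := mul_le_mul_of_nonneg_left b2 (mul_pos L0 n0).le
      unfold Pm.M
      linarith
    have b4 := mul_le_mul b1 (le_of_mul_le_mul_left b3 (by positivity)) (by positivity)
      (by positivity)
    rwa [← Real.rpow_add n0, neg_add_cancel, Real.rpow_zero] at b4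

end Xd15

open Xd15 O4c.X12

theorem xdL : XdL := by
  obtain ⟨C0, C1, hC⟩ := hx'
  filter_upwards [ev_Sm C0] with p S t e h H k o μ _ x c
  obtain ⟨t0, h0, h1, h2, h3⟩ := nums S c
  have m := c.nx.mo
  have q0 := m.q0
  have n0 : 0 < p.n := by have := c.pt.dim; omega
  have n0' : (0 : ℝ) < p.n := by exact_mod_cast n0
  have T1 : 100 * C0 ≤ p.T := by nlinarith [S.T]
  have h4 : h ≤ 1 / 100 := by nlinarith
  have h5 : C0 * h ≤ 1 / 100 := by nlinarith
  have h6 : h ^ 30 ≤ h ^ 3 := pow_le_pow_of_le_one h0.le (by linarith) (by norm_num)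
  have h7 : h ^ 2 ≤ 1 / 100 := by nlinarith
  have h8 : h ^ 30 ≤ 1 / 100 := by nlinarith
  have q1 : C0 * aS x ≤ p.T * aS x := mul_le_mul_of_nonneg_right (by linarith) q0.le
  have q2 : aS x ≤ 1 / 100 := by nlinarith
  have hχ : Kp.chi x = 1 - aS x := by
    rw [Kp.chi, aS, ← avg_const n0 1, ← avg_sub]; rfl
  have hW : Op2 o.W 9 := (Wb.Wt_op2 S.ok c.er.1 (by nlinarith [c.er.2.1, S.e1, S.ok.e1.1]) t0
    (by linarith [c.hi, S.ok.t0.2]) c.W).1
  have H0 := hC _ _ o x _ (h ^ 2) c.pt hW m (by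
    nlinarith [mul_le_mul_of_nonneg_left h6 (show 0 ≤ C0 by linarith), pow_pos h0 2])
    (by nlinarith) h3
  rw [hχ] at H0
  obtain ⟨r0, e1, e2, F⟩ := H0.fr
  obtain ⟨r2, -, -, hv⟩ := fr_sizes c.pt F m h8 q2
  have l2 : len (th x) ^ 2 = p.n * aS x := by rw [len, pp_eq n0, Real.sq_sqrt (by positivity)]
  have l0 : len (th x) ≠ 0 := fun h => by rw [h] at l2; nlinarith [mul_pos n0' q0]
  have hp : th x = r0 • e1 := c.pt.p ▸ F.pe1
  have F' : Fr o x (1 - aS x) (len (th x)) (ee x) e2 :=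
    { F with
      hq := by rw [F.hq, hv]
      e11 := unitv_dot fun h => l0 (by simp [h, len])
      e12 := by rw [ee, unitv, smul_dotProduct, hp, smul_dotProduct, F.e12]; simp
      pe1 := by rw [ee, unitv, smul_smul, mul_inv_cancel₀ l0, one_smul, c.pt.p]
      pn := by rw [l2, ← r2]; exact F.pn }
  obtain ⟨-, s1, s2, -⟩ := fr_sizes c.pt F' m h8 q2
  have q3 := pow_pos q0 2
  refine ⟨hx_mono H0 q0 C1 (by linarith) (by linarith [pow_pos h0 2]) ?_, (dq_le H0).trans ?_,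
    ⟨e2, F', ?_⟩, s1, ?_⟩
  · have : (100 : ℝ) ^ 3 ≤ p.T ^ 3 := pow_le_pow_left₀ (by norm_num) (by linarith) 3
    nlinarith
  · rw [mul_pow]
    exact mul_le_mul_of_nonneg_right (by linarith [S.T, sq_nonneg C0]) q3.le
  · rw [dotProduct_comm]
    exact s2.trans (le_mul_of_one_le_left q3.le S.ok.T)
  · have e : ∀ i, (1 - o.p i ^ 2 - (1 - aS x)) ^ 2 =
        th x i ^ 4 - 2 * aS x * th x i ^ 2 + aS x ^ 2 := fun i => by rw [c.pt.p]; ring
    simp only [e]
    rw [sum_eq n0, avg_add, avg_sub, avg_mul, avg_const n0, mul_comm 4, mul_assoc (p.n : ℝ)]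
    refine mul_le_mul_of_nonneg_left ?_ n0'.le
    have := (abs_le.1 m.p4).2
    have e2 : avg (fun i => th x i ^ 2) = aS x := rfl
    rw [e2]
    nlinarith [mul_le_mul_of_nonneg_right h8 (pow_pos q0 3).le, pow_pos q0 3]

end Crest.Agent.T157.Oi

end
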