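import Crest.Agent.T157.OiG_5
import Crest.Agent.T157.OiFm_61
import Crest.Agent.T157.OiXd_15
import Crest.Agent.T157.OiM4_53
import Crest.Agent.T157.OiM_84
import Crest.Agent.T157.OiFx_31
import Crest.Agent.T157.OiBd_64
import Crest.Agent.T157.KbMg_67
import Crest.Agent.T157.OiBack_10
import Crest.Agent.T157.O4cAll_4

/-!
Row 157, A2 (helper5): `InC` and `InS` for `Kb.base` from the leaves of `OiDef_19`.
-/

set_option autoImplicit false

namespace Crest.Agent.T157.Oi

theorem in_all : Og.InC Kb.base ∧ Og.InS Kb.base :=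
  inGlue Kb.measG backL fxL posL xdL wdL (fmGlue O4c.m1Core xdL wdL bdL) m1L m23L m4L

theorem inC : Og.InC Kb.base := in_all.1
theorem inS : Og.InS Kb.base := in_all.2

end Crest.Agent.T157.Oi
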