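import Crest.Agent.T157.OkDef_35
import Crest.Agent.T157.BrNet_30
import Crest.Agent.T157.NrmS_84
import Crest.Agent.T157.S1Bud_6

/-!
# Row 157, block B, S1 (helper35): tools for the leaves of `OkDef_35` (half nets, words)
-/

set_option autoImplicit false
set_option linter.unusedVariables false
set_option linter.unusedSectionVars false

noncomputable section

namespace Crest.Agent.T157.Br.Ok35

open Real Matrix Function Finset
open Crest.Agent.T157.E Crest.Agent.T157.SL Crest.Agent.T157.Ta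
open Crest.Agent.T157.Rec (grad)
open Crest.Agent.T157.Eig
open Crest.Agent.T157.Xt (H1 Lip2)
open Crest.Agent.T157.S3 (Mx tau Dg Rg FreeM)

variable {n : ℕ} {κ : Type} [Fintype κ] [DecidableEq κ]

/-- **selection on a half net** -/
theorem sel (κ : Type) [Fintype κ] [DecidableEq κ] {ρ : ℝ} (hρ : 0 < ρ) :
    ∃ N : Finset (κ → ℝ), N.card ≤ 5 ^ Fintype.card κ ∧ (∀ a ∈ N, nrm a ≤ ρ) ∧
      ∀ g g1 : (κ → ℝ) → ℝ, (∃ C, ∀ f, nrm f ≤ ρ → g f ≤ C) →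
        (∀ a r, g (a + r) ≤ g1 a + g ((2 : ℝ) • r) / 2) →
        ∃ a ∈ N, ∀ f, nrm f ≤ ρ → g f ≤ 2 * g1 a := by
  classical
  obtain ⟨N, h1, h2, h3⟩ := Nrm.exists_half_net κ
  have key : ∀ f : κ → ℝ, nrm f ≤ ρ → ∃ a ∈ N.image (ρ • ·), nrm ((2 : ℝ) • (f - a)) ≤ ρ := by
    intro f hf
    obtain ⟨c, hc, h⟩ := h3 (ρ⁻¹ • f) (by
      rw [nrm_smul, abs_of_pos (inv_pos.2 hρ), inv_mul_le_iff₀ hρ, mul_one]; exact hf)
    refine ⟨ρ • c, mem_image_of_mem _ hc, ?_⟩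
    have e : f - ρ • c = ρ • (ρ⁻¹ • f - c) := by
      rw [smul_sub, smul_smul, mul_inv_cancel₀ hρ.ne', one_smul]
    rw [e, nrm_smul, nrm_smul, abs_of_pos hρ, abs_two]
    nlinarith
  refine ⟨N.image (ρ • ·), card_image_le.trans h1, fun a ha => ?_, fun g g1 hb hs => ?_⟩
  · obtain ⟨c, hc, rfl⟩ := mem_image.1 ha
    rw [nrm_smul, abs_of_pos hρ]
    exact mul_le_of_le_one_right hρ.le (h2 c hc)
  obtain ⟨a0, ha0, -⟩ := key 0 (by simpa using hρ.le)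
  obtain ⟨a, ha, hm⟩ := exists_max_image _ g1 ⟨a0, ha0⟩
  obtain ⟨C, hC⟩ := hb
  have bdd : BddAbove (g '' {f | nrm f ≤ ρ}) := ⟨C, by rintro _ ⟨f, hf, rfl⟩; exact hC f hf⟩
  have le : ∀ f, nrm f ≤ ρ → g f ≤ sSup (g '' {f | nrm f ≤ ρ}) := fun f hf =>
    le_csSup bdd ⟨f, hf, rfl⟩
  have up : sSup (g '' {f | nrm f ≤ ρ}) ≤ g1 a + sSup (g '' {f | nrm f ≤ ρ}) / 2 := by
    refine csSup_le ⟨g 0, 0, by simpa using hρ.le, rfl⟩ ?_
    rintro _ ⟨f, hf, rfl⟩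
    obtain ⟨c, hc, h⟩ := key f hf
    have := hs c (f - c)
    rw [add_sub_cancel] at this
    linarith [hm c hc, le _ h]
  exact ⟨a, ha, fun f hf => (le f hf).trans (by linarith)⟩

/-- **random directions**: selection and the entropy cost of the net -/
theorem net2 {Ω : Type} [Fintype Ω] {μ : Ω → ℝ} (hμ : ∀ x, 0 < μ x) {ρ e b : ℝ} (hρ : 1 ≤ ρ)
    (hc : (Fintype.card κ : ℝ) ≤ ρ ^ 2) (he : 0 < e) (hb : 0 ≤ b) (g g1 X : (κ → ℝ) → Ω → ℝ)
    (bd : ∀ x, ∃ C, ∀ f, nrm f ≤ ρ → g f x ≤ C)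
    (hs : ∀ x a r, g (a + r) x ≤ g1 a x + g ((2 : ℝ) • r) x / 2)
    (hX : ∀ a, nrm a ≤ ρ → ∀ v, Wt v → mean v (X a) ≤ e * kl v μ + b) :
    ∃ a : Ω → κ → ℝ, (∀ x, nrm (a x) ≤ ρ ∧ ∀ f, nrm f ≤ ρ → g f x ≤ 2 * g1 (a x) x) ∧
      ∀ v, Wt v → mean v (fun x => max (X (a x) x) 0) ≤ e * (kl v μ + 3 * ρ ^ 2) + b := by
  classical
  obtain ⟨N, h1, h2, h3⟩ := sel κ (lt_of_lt_of_le one_pos hρ)
  choose a ha hg using fun x => h3 (fun f => g f x) (fun f => g1 f x) (bd x) (hs x)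
  refine ⟨a, fun x => ⟨h2 _ (ha x), hg x⟩, fun v hv => ?_⟩
  have k := netStmt Ω (Option (κ → ℝ)) μ (insertNone N) (fun o x => o.elim 0 fun c => X c x) e b hμ
    he (fun o ho w hw => by
      cases o with
      | none =>
        obtain ⟨x0, -⟩ := hw.exists_pos
        have : Nonempty Ω := ⟨x0⟩
        have : 0 ≤ kl w μ := (Pr.mk hw (.of_pos hμ) fun x e => absurd e (hμ x).ne').kl_nonneg
        simp only [Option.elim]
        rw [hw.mean_const]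
        positivity
      | some c => exact hX c (h2 c (by simpa using ho)) w hw) v
    (fun x => if 0 ≤ X (a x) x then some (a x) else none) hv fun x => by
      split_ifs <;> simp [ha x]
  have e1 : (fun x => max (X (a x) x) 0) = fun x =>
      (if 0 ≤ X (a x) x then some (a x) else none).elim 0 fun c => X c x := by
    funext x
    split_ifs with h
    · exact max_eq_left h
    · exact max_eq_right (not_le.1 h).le
  have l : log ((insertNone N).card : ℝ) ≤ 3 * ρ ^ 2 := by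
    have p5 : (1 : ℝ) ≤ 5 ^ Fintype.card κ := one_le_pow₀ (by norm_num)
    have c1 : ((insertNone N).card : ℝ) ≤ 2 * 5 ^ Fintype.card κ := by
      rw [card_insertNone]
      have : (N.card : ℝ) ≤ 5 ^ Fintype.card κ := by exact_mod_cast h1
      push_cast
      linarith
    have c0 : (0 : ℝ) < (insertNone N).card := by rw [card_insertNone]; positivity
    have l2 : log 2 ≤ 1 := (log_le_sub_one_of_pos two_pos).trans (by norm_num)
    have l5 : log 5 ≤ 2 := by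
      rw [log_le_iff_le_exp (by norm_num), show (2 : ℝ) = 1 + 1 by norm_num, exp_add]
      nlinarith [exp_one_gt_d9]
    have := log_le_log c0 c1
    rw [log_mul two_ne_zero (by positivity), log_pow] at this
    nlinarith [mul_le_mul_of_nonneg_left l5 (Nat.cast_nonneg (Fintype.card κ) : (0 : ℝ) ≤ _)]
  rw [e1]
  exact k.trans (by nlinarith)

lemma bd_nrm {ρ : ℝ} {f : Cube n → κ → ℝ} (h : Bd ρ f) (hρ : 0 ≤ ρ) (x : Cube n) : nrm (f x) ≤ ρ :=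
  (nrm_le_iff hρ).2 (h x)

/-! ### words -/

variable {ι : κ → Fin n} {C U : Finset (Fin n)}

lemma ex_eq (c : κ → ℝ) : ex ι c = ∑ k, c k • Pi.single (ι k) (1 : ℝ) := by
  funext i
  simp only [ex, mulVec, dotProduct, XM, Finset.sum_apply, Pi.smul_apply, Pi.single_apply,
    smul_eq_mul, eq_comm (a := i)]
  exact sum_congr rfl fun k _ => mul_comm _ _

lemma ex_add (a b : κ → ℝ) : ex ι (a + b) = ex ι a + ex ι b := mulVec_add _ _ _
lemma ex_smul (t : ℝ) (a : κ → ℝ) : ex ι (t • a) = t • ex ι a := mulVec_smul _ _ _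
lemma ex_single (k : κ) : ex ι (Pi.single k 1) = Pi.single (ι k) 1 := by
  rw [ex_eq, sum_eq_single k (fun l _ h => by simp [h]) (by simp)]; simp

lemma XM_mv (x : ℝ) (c : κ → ℝ) : XM ι x *ᵥ c = x • ex ι c := by
  funext i
  simp only [ex, mulVec, dotProduct, XM, Pi.smul_apply, smul_eq_mul, mul_sum]
  exact sum_congr rfl fun k _ => by split_ifs <;> ring

lemma ex_dot (c : κ → ℝ) (u : Fin n → ℝ) : ex ι c ⬝ᵥ u = c ⬝ᵥ fun k => u (ι k) := by
  rw [ex_eq, sum_dotProduct]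
  exact sum_congr rfl fun k _ => by simp

lemma ex_app (hι : Injective ι) (c : κ → ℝ) (k : κ) : ex ι c (ι k) = c k := by
  simp [ex, mulVec, dotProduct, XM, hι.eq_iff]

lemma ex_off (c : κ → ℝ) {i : Fin n} (h : ∀ k, ι k ≠ i) : ex ι c i = 0 := by
  simp [ex, mulVec, dotProduct, XM, h]

lemma nrm_ex (hι : Injective ι) (c : κ → ℝ) : nrm (ex ι c) = nrm c := by
  rw [nrm, nrm, ex_dot]
  simp only [ex_app hι]

lemma sp_ex {m : ℝ} (h : (Fintype.card κ : ℝ) ≤ m) (c : κ → ℝ) : Rip.Sp m (ex ι c) :=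
  ⟨univ.image ι, le_trans (by exact_mod_cast card_image_le) h,
    fun i hi => ex_off c fun k e => hi (mem_image.2 ⟨k, mem_univ _, e⟩)⟩

lemma card_le (hι : Injective ι) (off : ∀ k, ι k ∉ C) : Fintype.card κ ≤ Cᶜ.card :=
  card_le_card_of_injOn ι (fun k _ => by simpa using off k) hι.injOn

lemma mk_add (u v : Fin n → ℝ) : mk C (u + v) = mk C u + mk C v := by
  funext j; simp only [mk, Pi.add_apply]; split_ifs <;> simp
lemma mk_sub (u v : Fin n → ℝ) : mk C (u - v) = mk C u - mk C v := by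
  funext j; simp only [mk, Pi.sub_apply]; split_ifs <;> simp
lemma mk_smul (t : ℝ) (u : Fin n → ℝ) : mk C (t • u) = t • mk C u := by
  funext j; simp only [mk, Pi.smul_apply]; split_ifs <;> simp
lemma mk_compl (u : Fin n → ℝ) : mk C u = u - mk Cᶜ u := by
  funext j; simp only [mk, Pi.sub_apply, mem_compl]; split_ifs <;> simp
lemma mk_dot (u v : Fin n → ℝ) : mk C u ⬝ᵥ v = u ⬝ᵥ mk C v :=
  sum_congr rfl fun j _ => by simp only [mk]; split_ifs <;> simp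
lemma mk_sq (u : Fin n → ℝ) : mk C u ⬝ᵥ mk C u = ∑ j ∈ C, u j ^ 2 := by
  rw [← Fintype.sum_ite_mem]
  exact sum_congr rfl fun j _ => by simp only [mk]; split_ifs <;> simp [pow_two]

lemma nrm_mono {u v : Fin n → ℝ} (h : ∀ j, |u j| ≤ |v j|) : nrm u ≤ nrm v :=
  sqrt_le_sqrt (sum_le_sum fun j _ => by
    rw [← abs_mul_abs_self (u j), ← abs_mul_abs_self (v j)]
    exact mul_self_le_mul_self (abs_nonneg _) (h j))

lemma nrm_mk (u : Fin n → ℝ) : nrm (mk C u) ≤ nrm u :=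
  nrm_mono fun j => by simp only [mk]; split_ifs <;> simp

lemma nrm_mk_sup {u : Fin n → ℝ} {e ρ : ℝ} (h : ∀ j, |u j| ≤ e) (he : 0 ≤ e) (hρ : 0 ≤ ρ)
    (hU : (U.card : ℝ) ≤ ρ ^ 2) : nrm (mk U u) ≤ e * ρ := by
  rw [nrm_le_iff (by positivity), mk_sq, mul_pow]
  refine (sum_le_card_nsmul _ _ (e ^ 2) fun j _ => ?_).trans ?_
  · rw [← sq_abs]; exact pow_le_pow_left₀ (abs_nonneg _) (h j) 2
  · rw [nsmul_eq_mul, mul_comm]; exact mul_le_mul_of_nonneg_left hU (sq_nonneg _)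

lemma rg_sup {e L : ℝ} {Ω : Cube n → Fin n → ℝ} (h : Rg e L Ω) (x : Cube n) (j : Fin n) :
    |Ω x j| ≤ e := (norm_le_pi_norm (Ω x) j).trans (h x).1

/-- the part of `W` on a small set -/
lemma nrm_mk_le {W Ω : Fin n → ℝ} {e ρ G : ℝ} (h : ∀ j, |Ω j| ≤ e) (he : 0 ≤ e) (hρ : 0 ≤ ρ)
    (hU : (U.card : ℝ) ≤ ρ ^ 2) (hG : nrm (W - Ω) ≤ G) : nrm (mk U W) ≤ e * ρ + G := by
  have e1 : mk U W = mk U Ω + mk U (W - Ω) := by rw [← mk_add, add_sub_cancel]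
  rw [e1]
  exact (nrm_add_le _ _).trans (add_le_add (nrm_mk_sup h he hρ hU) ((nrm_mk _).trans hG))

lemma Vf_Vm (T : Cube n → Mx n) (Wm : Mx n) (c : κ → ℝ) (x : Cube n) :
    Vf (Vm C ι T Wm) c x = mk C ((T x)ᵀ *ᵥ Wm *ᵥ ex ι c) := by
  rw [ex_eq, mulVec_sum, mulVec_sum]
  funext j
  simp only [Vf, Vm, mk, Finset.sum_apply, Pi.smul_apply, mulVec_smul]
  split_ifs <;> simp

lemma dot_φm (ψ : Cube n → Fin n → ℝ) (Wm : Mx n) (c : κ → ℝ) (x : Cube n) :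
    c ⬝ᵥ φm ι ψ Wm x = (Wm *ᵥ ex ι c) ⬝ᵥ ψ x := by
  rw [ex_eq, mulVec_sum, sum_dotProduct]
  exact sum_congr rfl fun k _ => by simp [φm, mulVec_smul]

lemma dot_dv (J : Mx n) (y : Fin n → ℝ) (V : κ → Cube n → Fin n → ℝ) (c : κ → ℝ) (x : Cube n) :
    c ⬝ᵥ dv J y V x = Vf V c x ⬝ᵥ tau J y x := by
  rw [Vf, sum_dotProduct]
  exact sum_congr rfl fun k _ => by simp [dv]

lemma rw_dot {J : Mx n} (k : κ) (u : Fin n → ℝ) : rw J C ι k ⬝ᵥ u = (J *ᵥ mk C u) (ι k) :=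
  sum_congr rfl fun j _ => by simp only [rw, mk]; split_ifs <;> simp

lemma dot_hG {J : Mx n} (hJ : Jᵀ = J) (c : κ → ℝ) (x : Cube n) :
    c ⬝ᵥ hG (rw J C ι) x = mk C (J *ᵥ ex ι c) ⬝ᵥ sv x := by
  rw [mk_dot, dotProduct_comm (J *ᵥ _), dotProduct_mulVec, ← mulVec_transpose, hJ,
    dotProduct_comm _ (ex ι c), ex_dot]
  exact sum_congr rfl fun k _ => by rw [hG, rw_dot]

lemma dot_sT (c : κ → ℝ) (x : Cube n) : c ⬝ᵥ sT ι x = ex ι c ⬝ᵥ sv x := (ex_dot c (sv x)).symm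

lemma dot_meanV (w : Cube n → ℝ) (c : κ → ℝ) (F : Cube n → κ → ℝ) :
    c ⬝ᵥ meanV w F = mean w fun x => c ⬝ᵥ F x := by
  simp only [dotProduct, mean_sum, mean_const_mul, meanV]

lemma Dg_mem (J : Mx n) (y : Fin n → ℝ) (x : Cube n) (j : Fin n) :
    0 ≤ Dg J y x j ∧ Dg J y x j ≤ 1 := by
  have := tanh_sq_lt_one (S3.hf J y x j)
  exact ⟨by rw [Dg]; linarith, by rw [Dg]; linarith [sq_nonneg (tanh (S3.hf J y x j))]⟩

lemma nrm_Dg (J : Mx n) (y : Fin n → ℝ) (x : Cube n) (u : Fin n → ℝ) : nrm (Dg J y x * u) ≤ nrm u := by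
  simpa using Rip.nrm_mul_le zero_le_one
    (fun j => abs_le.2 ⟨by linarith [(Dg_mem J y x j).1], (Dg_mem J y x j).2⟩) u

lemma ising_pos (J : Mx n) (y : Fin n → ℝ) (x : Cube n) : 0 < ising J y x := exp_pos _

lemma kl0 {J : Mx n} {y : Fin n → ℝ} {v : Cube n → ℝ} (hv : Wt v) : 0 ≤ kl v (ising J y) :=
  (S1n.pr_of (ising_pos J y) hv).kl_nonneg

lemma mean_sq_le {w : Cube n → ℝ} (hw : Wt w) (G : Cube n → ℝ) :
    mean w G ^ 2 ≤ mean w fun x => G x ^ 2 := by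
  have h := hw.mean_nonneg fun x => sq_nonneg (G x - mean w G)
  have e : (fun x => (G x - mean w G) ^ 2) =
      fun x => G x ^ 2 - 2 * mean w G * G x + mean w G ^ 2 := by funext x; ring
  rw [e, mean_add, mean_sub, mean_const_mul, hw.mean_const] at h
  linarith

/-- the excess under any law -/
lemma G_sq {J : Mx n} {y : Fin n → ℝ} {K δ ρ : ℝ} (h : Hb J y K) {G : Cube n → ℝ}
    (G0 : ∀ x, 0 ≤ G x) (hL : Lip2 δ G) (hG : mean (ising J y) (fun σ => G σ ^ 2) ≤ δ ^ 2 * ρ ^ 2)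
    (hρ : 1 ≤ ρ ^ 2) {v : Cube n → ℝ} (hv : Wt v) :
    mean v (fun σ => G σ ^ 2) ≤ K * δ ^ 2 * kl v (ising J y) + 3 * K * δ ^ 2 * ρ ^ 2 := by
  have h1 := h.2.2.1 G (δ ^ 2) G0 hL.vp v hv
  have h2 := mean_sq_le (Wt.of_pos (ising_pos J y)) G
  have h3 : 0 ≤ (K - 1) * (δ ^ 2 * ρ ^ 2) := mul_nonneg (by linarith [h.1]) (by positivity)
  have h4 : 0 ≤ K * δ ^ 2 * (ρ ^ 2 - 1) :=
    mul_nonneg (mul_nonneg (by linarith [h.1]) (sq_nonneg _)) (by linarith)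
  nlinarith

end Crest.Agent.T157.Br.Ok35
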