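import Crest.Agent.T157.BrDefB_50
import Crest.Agent.T157.S3Ans_69
import Crest.Agent.T157.Cav_35

/-!
# Row 157, block B, S1 (helper35): the hypotheses `Dat.Ok` of the act B from the ansatz

`Fm` is the package of one family of flows (ansatz and cavity vectors), direction by direction.
-/

set_option autoImplicit false
set_option linter.unusedVariables false

noncomputable section

namespace Crest.Agent.T157.Br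

open Real Matrix Function
open Crest.Agent.T157.E Crest.Agent.T157.SL Crest.Agent.T157.Ta
open Crest.Agent.T157.Rec (grad)
open Crest.Agent.T157.Eig (nrm opn)
open Crest.Agent.T157.Xt (H1 Lip2)
open Crest.Agent.T157.S3 (Mx tau Dg Rg FreeM AnsAt Exc)
open Crest.Agent.T157.Rip (Cav)

section words
variable {n : ℕ} {κ : Type} [Fintype κ]

/-- extension by zero -/
def ex (ι : κ → Fin n) (c : κ → ℝ) : Fin n → ℝ := XM ι 1 *ᵥ c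
/-- restriction to `C` -/
def mk (C : Finset (Fin n)) (u : Fin n → ℝ) : Fin n → ℝ := fun j => if j ∈ C then u j else 0
/-- the flows of the family -/
def Vm (C : Finset (Fin n)) (ι : κ → Fin n) (T : Cube n → Mx n) (Wm : Mx n) (k : κ) (x : Cube n) :
    Fin n → ℝ := mk C ((T x)ᵀ *ᵥ Wm *ᵥ Pi.single (ι k) 1)
/-- the tilts of the family -/
def φm (ι : κ → Fin n) (ψ : Cube n → Fin n → ℝ) (Wm : Mx n) (x : Cube n) (k : κ) : ℝ :=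
  (Wm *ᵥ Pi.single (ι k) 1) ⬝ᵥ ψ x

/-- (H2) -/
def H2 (w : Cube n → ℝ) (K : ℝ) : Prop := ∀ (G : Cube n → ℝ) (A : ℝ), (∀ x, 0 ≤ G x) →
  (∀ x, Atd.vp G x ≤ A) → ∀ v, Wt v →
    mean v (fun x => G x ^ 2) ≤ 2 * mean w G ^ 2 + K * A * (kl v w + 1)
/-- (TR) at `θ = 8` -/
def TR (J : Mx n) (y : Fin n → ℝ) (K : ℝ) : Prop := ∀ (G : Cube n → ℝ) (Ω : Cube n → Fin n → ℝ)
  (e L B : ℝ), Rg e L Ω → Exc (ising J y) (e ^ 2) B (fun x => nrm (grad G x - Ω x)) →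
  (∀ x, nrm (grad G x) ≤ L) → K * e ≤ 1 → K * L ≤ √n → ∀ v, Wt v →
  |mean v G - mean (ising J y) G| ≤ kl v (ising J y) / 8 +
    K * (1 + mean (ising J y) (fun x => grad G x ⬝ᵥ (Dg J y x * grad G x)) + B)
/-- the base: (H1), (H2), (TR) -/
def Hb (J : Mx n) (y : Fin n → ℝ) (K : ℝ) : Prop :=
  1 ≤ K ∧ H1 (ising J y) K ∧ H2 (ising J y) K ∧ TR J y K

/-- one direction `c` (extended by zero) at the radius `ρ`: flow `W`, tilt `φ`; `δ` hard, `es` soft -/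
structure Dir (J : Mx n) (y : Fin n → ℝ) (a x Ce CV δ es ρ : ℝ) (c : Fin n → ℝ)
    (W : Cube n → Fin n → ℝ) (φ : Cube n → ℝ) : Prop where
  ver : ∃ (Ω Ω' : Cube n → Fin n → ℝ) (G : Cube n → ℝ), Rg δ (CV * ρ) Ω ∧ Rg δ (CV * ρ) Ω' ∧
    Lip2 δ G ∧ mean (ising J y) (fun σ => G σ ^ 2) ≤ δ ^ 2 * ρ ^ 2 ∧
    (∀ σ, nrm (W σ - Ω σ) ≤ G σ ∧ nrm (grad φ σ - Ω' σ) ≤ G σ ∧ ∀ U : Finset (Fin n),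
      (U.card : ℝ) ≤ ρ ^ 2 → nrm (mk U (J *ᵥ (Dg J y σ * Ω σ) - x • c)) ≤ δ * ρ + G σ) ∧
    mean (ising J y) (fun σ => Ω σ ⬝ᵥ (Dg J y σ * Ω σ)) ≤ (Ce * x + δ) * ρ ^ 2 ∧
    mean (ising J y) (fun σ => Ω' σ ⬝ᵥ (Dg J y σ * Ω' σ)) ≤ (Ce * x + δ) * ρ ^ 2
  gf : ∀ v, Wt v → mean v (fun σ => nrm (grad φ σ - W σ) ^ 2) ≤ es * (ρ ^ 2 + kl v (ising J y))
  eq : ∀ v, Wt v → ∀ R : Cube n → ℝ,
    (R = fun σ => W σ ⬝ᵥ tau J y σ - a * φ σ - (J *ᵥ c - x • c) ⬝ᵥ sv σ) →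
    |mean v R - mean (ising J y) R| ≤ es * (ρ ^ 2 + kl v (ising J y))

/-- a family -/
structure Fm (J : Mx n) (y : Fin n → ℝ) (ι : κ → Fin n) (a x Ce CV δ es B0 R : ℝ)
    (ψ : Cube n → Fin n → ℝ) (T : Cube n → Mx n) (Wm : Mx n) : Prop where
  free : FreeM T
  bW : ∀ c σ, nrm ((T σ)ᵀ *ᵥ Wm *ᵥ ex ι c) ≤ CV * nrm c
  bφ : ∀ c σ, nrm (grad (fun z => (Wm *ᵥ ex ι c) ⬝ᵥ ψ z) σ) ≤ CV * nrm c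
  dir : ∀ ρ c, 0 ≤ ρ → B0 ≤ ρ ^ 2 → ρ ^ 2 ≤ 2 * R → nrm c ≤ ρ → Dir J y a x Ce CV δ es ρ (ex ι c)
    (fun σ => (T σ)ᵀ *ᵥ Wm *ᵥ ex ι c) fun σ => (Wm *ᵥ ex ι c) ⬝ᵥ ψ σ

/-- the class of the old tilt, at the hard accuracy -/
def Tc (μ : Cube n → ℝ) (δ L B0 : ℝ) (Θ : Cube n → ℝ) : Prop :=
  ∃ (Om : Cube n → Fin n → ℝ) (G : Cube n → ℝ), Rg δ L Om ∧ (∀ σ, nrm (grad Θ σ - Om σ) ≤ G σ) ∧
    Lip2 δ G ∧ ∀ v, Wt v → mean v (fun σ => G σ ^ 2) ≤ δ ^ 2 * (B0 + kl v μ)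

/-- the flows and the tilts of `D` come from two families -/
structure Two [DecidableEq κ] (D : Dat n κ) (Ce CV K δ es : ℝ) (ψ ψ0 : Cube n → Fin n → ℝ)
    (T T0 : Cube n → Mx n) (Wm W0 : Mx n) : Prop extends D.Geo where
  hb : Hb D.J D.y K
  fa : Fm D.J D.y D.ι D.a D.xa Ce CV δ es D.B0 D.R ψ T Wm
  f0 : Fm D.J D.y D.ι 0 D.b0 Ce CV δ es D.B0 D.R ψ0 T0 W0
  hV : D.V = Vm D.C D.ι T Wm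
  hV0 : D.V0 = Vm D.C D.ι T0 W0
  hφ : D.φ = φm D.ι ψ Wm
  tc : Tc D.μ δ D.L D.B0 D.Θ
  d0 : 0 < δ
  cv : 1 ≤ CV
  ce : 0 ≤ Ce
  xa : 0 ≤ D.xa ∧ D.xa ≤ 1
  b0 : 0 ≤ D.b0 ∧ D.b0 ≤ 1
  b1 : 1 ≤ D.B0
  bU : (D.Cᶜ.card : ℝ) ≤ D.B0
  bd : sq D.dl + sq D.del + D.L ^ 2 ≤ D.B0
  bR : D.B0 ≤ D.R
  hε : 10 ^ 7 * K * CV * δ ≤ D.ε
  ε1 : 100 * D.ε ≤ D.e
  e1 : D.e ≤ 1
  hs : D.ς ≤ D.ε
  he : 100 * es ≤ D.e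

end words

/-- **BASE** -/
def HbStmt : Prop := ∀ K0 κ0 : ℝ, 0 < κ0 → ∃ K : ℝ, ∀ (n : ℕ) (J : Mx n) (y : Fin n → ℝ), Jᵀ = J →
  (∀ j, J j j = 0) → opn J ≤ 3 → Atd.ATd (ising J y) K0 (exp (-(κ0 * n))) → Hb J y K

/-- **DIR**: the family from the ansatz and the cavity vectors -/
def DirStmt : Prop := ∀ (n : ℕ) (κ : Type) [Fintype κ] [DecidableEq κ] (J : Mx n) (y : Fin n → ℝ)
    (ι : κ → Fin n) (a CN C0 C' e e1 η K0 K' C1 x Cw Cp ew εw m K δ es B0 R : ℝ)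
    (E : (Fin n → ℝ) → ℝ) (p q α : Fin n → ℝ) (ψ : Cube n → Fin n → ℝ) (T : Cube n → Mx n)
    (Ft : Set (Fin n → ℝ)) (Wm : Mx n),
  opn J ≤ 3 → Injective ι → Hb J y K → AnsAt J y a CN C0 C' e e1 η K0 E p q α ψ T →
  Cav J p q α x Cw Cp ew εw m Ft Wm → (∀ f ∈ Ft, nrm f ≤ 1) →
  (∀ w t, 0 ≤ t → (∀ f ∈ Ft, |w ⬝ᵥ f| ≤ t) → E w ≤ e1 * (w ⬝ᵥ w) + K' + C1 * t ^ 2) →
  (∀ i, 0 ≤ p i ∧ p i ≤ 1 ∧ |q i| ≤ 2 ∧ |α i| ≤ CN) → 0 ≤ a → a ≤ 1 → 0 ≤ x → x ≤ 1 → 1 ≤ CN →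
  0 ≤ C0 → 0 ≤ C' → 0 ≤ e → e ≤ 1 → 0 ≤ e1 → 0 < η → 0 ≤ K0 → 0 ≤ C1 → 1 ≤ Cw → 0 ≤ Cp → 0 ≤ ew →
  0 ≤ εw → εw ≤ 1 → 0 < δ → δ ≤ es → es ≤ 1 → 1 ≤ B0 → (Fintype.card κ : ℝ) ≤ m →
  2 * R ≤ m → 2 * Cw ^ 2 * R ≤ m * η ^ 2 → 1000 * K * Cw ^ 2 * e1 ≤ δ ^ 2 → 1000 * K' ≤ δ ^ 2 * B0 →
  K0 ≤ B0 → 1000 * K * (CN + C0 + C1 + 1) * εw ≤ δ ^ 2 → 100 * K * (C' * √e * Cw ^ 2 + ew + δ) ≤ es →
  C' * e * Cw ^ 2 ≤ x + δ / 100 →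
  Fm J y ι a x (100 * (C0 * Cp + 1)) (2 * CN * Cw) δ es B0 R ψ T Wm

/-- **SF** for both families -/
def SfStmt : Prop := ∀ (n : ℕ) (κ : Type) [Fintype κ] [DecidableEq κ] (D : Dat n κ)
    (Ce CV K δ es : ℝ) (ψ ψ0 : Cube n → Fin n → ℝ) (T T0 : Cube n → Mx n) (Wm W0 : Mx n),
  Two D Ce CV K δ es ψ ψ0 T T0 Wm W0 → ∀ ρ, D.Rad ρ →
    SF D.J D.y D.C (rw D.J D.C D.ι) D.V (dv D.J D.y D.V) (XM D.ι D.xa) (fun _ => D.xa)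
      (16 * Ce * D.xa) CV D.ε ρ ∧
    SF D.J D.y D.C (rw D.J D.C D.ι) D.V0 (dv D.J D.y D.V0) (XM D.ι D.b0) (fun _ => D.b0)
      (16 * Ce * D.b0) CV D.ε ρ

/-- **EQ**: the targets, with explicit centres -/
def EqStmt : Prop := ∀ (n : ℕ) (κ : Type) [Fintype κ] [DecidableEq κ] (D : Dat n κ)
    (Ce CV K δ es : ℝ) (ψ ψ0 : Cube n → Fin n → ℝ) (T T0 : Cube n → Mx n) (Wm W0 : Mx n),
  Two D Ce CV K δ es ψ ψ0 T T0 Wm W0 →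
  D.ka = meanV D.μ (fun x => D.a • D.φ x + (D.h x - D.xa • D.s x) - dv D.J D.y D.V x) →
  D.k0 = meanV D.μ (fun x => D.h x - D.b0 • D.s x - dv D.J D.y D.V0 x) →
  (∀ c, sq c ≤ D.R → D.Sm (fun x => c ⬝ᵥ (dv D.J D.y D.V x -
    (D.a • D.φ x + (D.h x - D.xa • D.s x - D.ka)))) (D.B0 + sq c)) ∧
  ∀ ρ, D.Rad ρ → ∀ f, Bd ρ f →
    D.Sm (fun x => f x ⬝ᵥ (dv D.J D.y D.V0 x - (D.h x - D.b0 • D.s x - D.k0))) (ρ ^ 2)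

/-- **CEN** -/
def CenStmt : Prop := ∀ (n : ℕ) (κ : Type) [Fintype κ] [DecidableEq κ] (D : Dat n κ)
    (Ce CV K δ es : ℝ) (ψ ψ0 : Cube n → Fin n → ℝ) (T T0 : Cube n → Mx n) (Wm W0 : Mx n),
  Two D Ce CV K δ es ψ ψ0 T T0 Wm W0 → ∀ ρ, D.Rad ρ → ∀ c, sq c ≤ ρ ^ 2 →
    (∃ gb, Cen D.J D.y D.V (D.ψ c) gb D.ε ρ D.B0) ∧ ∃ gb, Cen D.J D.y D.V0 (D.ψ c) gb D.ε ρ D.B0

/-- **TR, GF, OSC, EXC** -/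
def TgStmt : Prop := ∀ (n : ℕ) (κ : Type) [Fintype κ] [DecidableEq κ] (D : Dat n κ)
    (Ce CV K δ es : ℝ) (ψ ψ0 : Cube n → Fin n → ℝ) (T T0 : Cube n → Mx n) (Wm W0 : Mx n),
  Two D Ce CV K δ es ψ ψ0 T T0 Wm W0 → 2 * K * CV * √D.R ≤ √n →
  (∀ c x, nrm (grad (fun y => c ⬝ᵥ D.φ y) x) ≤ CV * nrm c) ∧
  (∀ c, sq c ≤ D.R → ∀ v, Wt v → |mean v (fun x => c ⬝ᵥ D.φ x) - mean D.μ fun x => c ⬝ᵥ D.φ x| ≤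
    K * (2 * Ce + 6) * (D.B0 + sq c) + kl v D.μ / 8) ∧
  (∀ c, sq c ≤ D.R → D.Sm
    (fun x => ∑ j ∈ D.C, (grad (fun y => c ⬝ᵥ D.φ y) x j - Vf D.V c x j) ^ 2) (D.B0 + sq c)) ∧
  (∀ c, sq c ≤ D.R → ∃ g, D.Sm g (D.B0 + sq c) ∧ ∀ x x' : Cube n,
    (∀ i, (∀ k, D.ι k ≠ i) → x' i = x i) → D.Θ x + c ⬝ᵥ D.φ x - (D.Θ x' + c ⬝ᵥ D.φ x') ≤ g x) ∧
  ∀ v, Wt v → mean v (fun x => exc D.ε (grad D.Θ x)) ≤ D.ε ^ 2 * (D.B0 + kl v D.μ)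

/-- **OK** -/
def OkStmt : Prop := ∀ (n : ℕ) (κ : Type) [Fintype κ] [DecidableEq κ] (D : Dat n κ)
    (mg Ce CV K δ es : ℝ) (ψ ψ0 : Cube n → Fin n → ℝ) (T T0 : Cube n → Mx n) (Wm W0 : Mx n),
  Two D Ce CV K δ es ψ ψ0 T T0 Wm W0 → 2 * K * CV * √D.R ≤ √n →
  D.ka = meanV D.μ (fun x => D.a • D.φ x + (D.h x - D.xa • D.s x) - dv D.J D.y D.V x) →
  D.k0 = meanV D.μ (fun x => D.h x - D.b0 • D.s x - dv D.J D.y D.V0 x) →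
  (∀ x, 0 < D.f x) → 0 < mg → mg ≤ 1 / 2 → mg ≤ D.a → D.a * (1 - 2 * D.η) + mg ≤ D.a' →
  D.a' + mg ≤ 1 → 0 < D.η → 2 * D.η ≤ mg → (1 + D.a / ((1 - D.a') * (1 - mg))) * D.xa ≤ 1 - mg →
  3 * CV * D.P * D.ς ≤ D.ε → Lip2 (2 * D.L) D.Θ → kl D.ν D.μ ≤ D.B0 → mean D.ν D.U ≤ D.B0 →
  4 * D.L ^ 2 + sq D.dl + sq D.del ≤ D.B0 →
  (∀ x, prob D.ν x ≤ exp D.Dh * prob D.μ x) → D.B0 ≤ D.Dh →
  Dat.Ok { D with L := 2 * D.L } mg (16 * Ce) CV (K * (2 * Ce + 6))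

def OkGlue : Prop := SfStmt → EqStmt → CenStmt → TgStmt → OkStmt

end Crest.Agent.T157.Br
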