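import Crest.Agent.T157.OkDef_35
import Crest.Agent.T157.S3HbS_80
import Crest.Agent.T157.BrFl_51

/-!
# Row 157, block B, S1 (helper11): the base, the tilt bounds and the assembly of `Dat.Ok`
-/

set_option autoImplicit false
set_option linter.unusedSectionVars false

noncomputable section

namespace Crest.Agent.T157.Br

open Real Matrix Function
open Crest.Agent.T157.E Crest.Agent.T157.SL Crest.Agent.T157.Ta
open Crest.Agent.T157.Rec (grad)
open Crest.Agent.T157.Eig (nrm nrm_sq nrm_nonneg nrm_add_le)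
open Crest.Agent.T157.Xt (H1 Lip2)
open Crest.Agent.T157.S3 (Mx Dg Rg)

namespace Tg11

variable {n : ℕ} {κ : Type} [Fintype κ] [DecidableEq κ] {v w : Cube n → ℝ}

lemma h1_mono {K K' : ℝ} (h : H1 w K) (hK : K ≤ K') : H1 w K' := fun G A hA hG t ht =>
  (h G A hA hG t ht).trans (by gcongr)

lemma Dg_mem (J : Mx n) (y : Fin n → ℝ) (x : Cube n) (j : Fin n) : 0 ≤ Dg J y x j ∧ Dg J y x j ≤ 1 :=
  ⟨by rw [Dg, ← Ue.sq2_eq]; exact (Ue.sq2_pos _).le, sub_le_self _ (sq_nonneg _)⟩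

lemma gDg_nonneg (J : Mx n) (y : Fin n → ℝ) (x : Cube n) (g : Fin n → ℝ) : 0 ≤ g ⬝ᵥ (Dg J y x * g) :=
  Finset.sum_nonneg fun j _ => by
    rw [Pi.mul_apply, mul_left_comm]; exact mul_nonneg (Dg_mem J y x j).1 (mul_self_nonneg _)

lemma gDg_le (J : Mx n) (y : Fin n → ℝ) (x : Cube n) (g u : Fin n → ℝ) :
    g ⬝ᵥ (Dg J y x * g) ≤ 2 * (u ⬝ᵥ (Dg J y x * u)) + 2 * nrm (g - u) ^ 2 := by
  simp only [nrm_sq, dotProduct, Finset.mul_sum, ← Finset.sum_add_distrib, Pi.mul_apply, Pi.sub_apply]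
  refine Finset.sum_le_sum fun j _ => ?_
  obtain ⟨h0, h1⟩ := Dg_mem J y x j
  nlinarith [mul_nonneg h0 (sq_nonneg (g j - 2 * u j)), mul_nonneg (sub_nonneg.2 h1) (sq_nonneg (g j - u j))]

lemma wt_is (J : Mx n) (y : Fin n → ℝ) : Wt (ising J y) := .of_pos fun _ => exp_pos _

lemma kl0 (hv : Wt v) (J : Mx n) (y : Fin n → ℝ) : 0 ≤ kl v (ising J y) :=
  Pr.kl_nonneg ⟨hv, wt_is J y, fun _ e => absurd e (exp_pos _).ne'⟩

lemma ex_eq (ι : κ → Fin n) (c : κ → ℝ) : ex ι c = ∑ k, c k • Pi.single (ι k) (1 : ℝ) := by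
  ext i
  simp [ex, XM, mulVec, dotProduct, Pi.single_apply, eq_comm]

lemma dot_φm (ι : κ → Fin n) (ψ : Cube n → Fin n → ℝ) (Wm : Mx n) (c : κ → ℝ) (y : Cube n) :
    c ⬝ᵥ φm ι ψ Wm y = (Wm *ᵥ ex ι c) ⬝ᵥ ψ y := by
  rw [ex_eq, mulVec_sum, sum_dotProduct]
  simp only [mulVec_smul, smul_dotProduct, smul_eq_mul]
  rfl

lemma Vf_Vm (C : Finset (Fin n)) (ι : κ → Fin n) (T : Cube n → Mx n) (Wm : Mx n) (c : κ → ℝ)
    (x : Cube n) {j : Fin n} (hj : j ∈ C) : Vf (Vm C ι T Wm) c x j = ((T x)ᵀ *ᵥ Wm *ᵥ ex ι c) j := by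
  simp only [ex_eq, mulVec_sum, mulVec_smul, Vf, Finset.sum_apply, Pi.smul_apply, Vm, mk, if_pos hj]

lemma exc_le {ε : ℝ} {g u : Fin n → ℝ} (hu : ∀ j, |u j| ≤ ε) : exc ε g ≤ nrm (g - u) ^ 2 := by
  rw [nrm_sq]
  refine Finset.sum_le_sum fun j _ => ?_
  rw [← pow_two, ← sq_abs ((g - u) j)]
  exact pow_le_pow_left₀ (le_max_right _ _) (max_le (by
    linarith [hu j, abs_sub_abs_le_abs_sub (g j) (u j), show (g - u) j = g j - u j from rfl,
      show |(g - u) j| = |g j - u j| from rfl]) (abs_nonneg _)) 2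

lemma Rg.abs_le {e L : ℝ} {Ω : Cube n → Fin n → ℝ} (h : Rg e L Ω) (x : Cube n) (j : Fin n) :
    |Ω x j| ≤ e := (norm_le_pi_norm (Ω x) j).trans (h x).1

end Tg11

open Tg11 in
theorem hbStmt : HbStmt := fun K0 κ0 hκ => by
  obtain ⟨C, c, hc, h⟩ := S3.hbStmt K0 κ0 3 hκ
  have p1 : 0 ≤ max K0 0 + 8 / κ0 := by positivity
  have p2 := abs_nonneg C
  have p3 : 0 < 8 / c := by positivity
  have p4 := le_abs_self C
  obtain ⟨K, hK⟩ : ∃ K, K = 1 + (max K0 0 + 8 / κ0) + 9 * |C| + 8 / c := ⟨_, rfl⟩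
  refine ⟨K, fun n J y hJ hd ho hA => ?_⟩
  have hw : ∀ x, 0 < ising J y x := fun _ => exp_pos _
  obtain ⟨h2, -, h3⟩ := h n _ hw hA
  refine ⟨by linarith, h1_mono (Xt.h1_of_atd (hA.mono hw (le_max_left _ 0) le_rfl) hw (le_max_right _ _) hκ)
    (by linarith), fun G A h0 hG v hv => (h2 G A h0 hG _ hv.isP).trans ?_,
    fun G Ω e L B hΩ hE hL he hn v hv => ?_⟩
  · have a1 := (Atd.vp_nonneg G default).trans (hG default)
    have a2 := kl0 hv J y
    change _ + C * A * (kl v (ising J y) + 1) ≤ _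
    gcongr
    linarith
  · have e0 : 0 ≤ e := (norm_nonneg _).trans (hΩ default).1
    have L0 : 0 ≤ L := (nrm_nonneg _).trans (hL default)
    have k1 : ∀ t s : ℝ, 0 ≤ t → K * t ≤ s → 8 * t ≤ c * s := fun t s ht hs => by
      have := mul_le_mul_of_nonneg_left ((mul_le_mul_of_nonneg_right
        (show 8 / c ≤ K by linarith) ht).trans hs) hc.le
      rwa [← mul_assoc, mul_div_cancel₀ _ hc.ne'] at this
    refine (h3 J y hJ hd ho rfl G Ω e L B 8 hΩ hE hL (by norm_num) (by linarith [k1 e 1 e0 he])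
      (k1 L _ L0 hn) _ hv.isP).trans ?_
    obtain ⟨G', -, -, -, hB⟩ := hE
    have B0 := ((wt_is J y).mean_nonneg fun x => sq_nonneg (G' x)).trans hB
    have E0 := (wt_is J y).mean_nonneg fun x => gDg_nonneg J y x (grad G x)
    have e1 : e ≤ 1 := by nlinarith [mul_nonneg (show 0 ≤ K - 1 by linarith) e0]
    have e2 : e ^ 2 ≤ 1 := pow_le_one₀ e0 e1
    change (kl v (ising J y) + C) / 8 + _ ≤ _
    generalize mean (ising J y) _ = E at *
    have a1 := mul_le_mul p4 e2 (sq_nonneg e) p2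
    have a2 := mul_le_mul_of_nonneg_right (show C * 8 ≤ K by linarith) (add_nonneg E0 B0)
    linarith

open Tg11 in
theorem tgStmt : TgStmt := by
  intro n κ _ _ D Ce CV K δ es ψ ψ0 T T0 Wm W0 h hR
  obtain ⟨K1, -, h2, h3⟩ := h.hb
  have d0 := h.d0; have cv := h.cv; have ce := h.ce; have b1 := h.b1
  have ε1 := h.ε1; have e1 := h.e1
  have k1 : K * δ ≤ K * CV * δ := by nlinarith [mul_nonneg (mul_nonneg (sub_nonneg.2 cv) d0.le) (zero_le_one.trans K1)]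
  have k0 : δ ≤ K * δ := le_mul_of_one_le_left d0.le K1
  have k2 : K * δ ≤ D.ε := by nlinarith [h.hε]
  have eφ : ∀ c, (fun y => c ⬝ᵥ D.φ y) = fun y => (Wm *ᵥ ex D.ι c) ⬝ᵥ ψ y := fun c => by
    ext y; rw [h.hφ, dot_φm]
  have rad : ∀ c : κ → ℝ, sq c ≤ D.R → ∃ ρ : ℝ, ρ ^ 2 = D.B0 + sq c ∧ 0 ≤ ρ ∧ D.B0 ≤ ρ ^ 2 ∧ ρ ^ 2 ≤ 2 * D.R ∧
      nrm c ≤ ρ := fun c hc => by
    have c0 : 0 ≤ sq c := by rw [sq, ← nrm_sq]; positivity
    have e := sq_sqrt (show 0 ≤ D.B0 + sq c by linarith)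
    exact ⟨_, e, sqrt_nonneg _, by linarith, by linarith [h.bR], sqrt_le_sqrt (by
      change sq c ≤ _; linarith)⟩
  obtain ⟨Om, GΘ, t1, t2, t3, t4⟩ := h.tc
  refine ⟨fun c x => eφ c ▸ h.fa.bφ c x, fun c hc v hv => ?_, fun c hc v hv => ?_, fun c hc => ?_,
    fun v hv => ?_⟩
  · obtain ⟨ρ, e, r0, r1, r2, r3⟩ := rad c hc
    obtain ⟨Ω0, Ω, G, -, a1, a2, a3, a4, -, a5⟩ := (h.fa.dir ρ c r0 r1 r2 r3).ver
    have r4 : ρ ≤ 2 * √D.R := by
      have := sq_sqrt (show 0 ≤ D.R by linarith [h.bR])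
      exact le_of_sq_le_sq (by nlinarith [sq_nonneg ρ]) (by positivity)
    rw [eφ, ← e]
    refine (h3 _ Ω δ (CV * ρ) (δ ^ 2 * ρ ^ 2) a1 ⟨G, fun x => (a4 x).2.1,
      fun x => (nrm_nonneg _).trans (a4 x).1, (Xt.lip2_iff d0.le).1 a2, a3⟩
      (fun x => (h.fa.bφ c x).trans (by gcongr)) (by linarith) (le_trans ?_ hR) v hv).trans ?_
    · calc K * (CV * ρ) ≤ K * (CV * (2 * √D.R)) := by gcongr
        _ = _ := by ring
    · have b := (wt_is D.J D.y).mean_mono fun x => (gDg_le D.J D.y x _ (Ω x)).trans (add_le_add le_rfl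
        (mul_le_mul_of_nonneg_left (pow_le_pow_left₀ (nrm_nonneg _) (a4 x).2.1 2) two_pos.le))
      rw [mean_add, mean_const_mul, mean_const_mul] at b
      have c1 : δ ^ 2 * ρ ^ 2 ≤ 1 * ρ ^ 2 :=
        mul_le_mul_of_nonneg_right (pow_le_one₀ d0.le (by linarith)) (sq_nonneg _)
      have c2 : (Ce * D.xa + δ) * ρ ^ 2 ≤ (Ce + 1) * ρ ^ 2 := mul_le_mul_of_nonneg_right
        (add_le_add (mul_le_of_le_one_right ce h.xa.2) (by linarith)) (sq_nonneg _)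
      rw [add_comm, mul_assoc K]
      refine add_le_add (mul_le_mul_of_nonneg_left ?_ (by linarith)) le_rfl
      linarith
  · obtain ⟨ρ, e, r0, r1, r2, r3⟩ := rad c hc
    have H0 := kl0 hv D.J D.y
    refine (hv.mean_mono fun x => ?_).trans (((h.fa.dir ρ c r0 r1 r2 r3).gf v hv).trans ?_)
    · rw [eφ, nrm_sq, h.hV, Finset.sum_congr rfl fun j hj => by rw [Vf_Vm _ _ _ _ _ _ hj]]
      refine (Finset.sum_le_sum_of_subset_of_nonneg (Finset.subset_univ _)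
        fun _ _ _ => sq_nonneg _).trans_eq ?_
      simp only [dotProduct, pow_two, Pi.sub_apply]
    · rw [← e]
      exact mul_le_mul_of_nonneg_right (by linarith [h.he]) (add_nonneg (sq_nonneg _) H0)
  · obtain ⟨ρ, e, r0, r1, r2, r3⟩ := rad c hc
    obtain ⟨Ω0, Ω, G, -, a1, a2, a3, a4, -, -⟩ := (h.fa.dir ρ c r0 r1 r2 r3).ver
    have ε0 : 0 < D.ε := by linarith
    refine ⟨fun x => (2 * (δ + δ) + 8 * (δ + δ) + 4 * D.ε) * (Finset.univ.image D.ι).card +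
      (GΘ x + G x) ^ 2 / D.ε, fun v hv => ?_, fun x x' hx => (le_abs_self _).trans
        (osc_cl (Θ := fun x => D.Θ x + c ⬝ᵥ D.φ x) (Ω := fun x => Om x + Ω x) (by linarith) ε0
          (fun x j _ => (abs_add_le _ _).trans (add_le_add (Rg.abs_le t1 x j) (Rg.abs_le a1 x j)))
          (fun x => ?_) (t3.add a2) fun i hi => (hx i fun k ek =>
            hi (Finset.mem_image.2 ⟨k, Finset.mem_univ _, ek⟩)).symm)⟩
    · have H0 := kl0 hv D.J D.y
      have c1 : ((Finset.univ.image D.ι).card : ℝ) ≤ D.B0 := le_trans (Nat.cast_le.2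
        (Finset.card_le_card fun i hi => by
          obtain ⟨k, -, rfl⟩ := Finset.mem_image.1 hi
          exact Finset.mem_compl.2 (h.off k))) h.bU
      have c2 := h2 G _ (fun x => (nrm_nonneg _).trans (a4 x).1) a2.vp v hv
      have c3 : mean (ising D.J D.y) G ^ 2 ≤ _ := (S3.Rg.mean_sq (wt_is D.J D.y).isP G).trans a3
      have c4 := t4 v hv
      have c5 := hv.mean_mono (f := fun x => (GΘ x + G x) ^ 2)
        (g := fun x => 2 * GΘ x ^ 2 + 2 * G x ^ 2) fun x => by nlinarith [sq_nonneg (GΘ x - G x)]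
      rw [mean_add, mean_const_mul, mean_const_mul] at c5
      rw [mean_add, hv.mean_const, mean_div_const, ← e]
      change _ ≤ D.e * (ρ ^ 2 + kl v (ising D.J D.y))
      change _ ≤ δ ^ 2 * (D.B0 + kl v (ising D.J D.y)) at c4
      generalize kl v (ising D.J D.y) = H at *
      obtain ⟨X, hX⟩ : ∃ X, X = ρ ^ 2 + H := ⟨_, rfl⟩
      have X0 : 0 ≤ X := by linarith
      have d1 : δ ^ 2 ≤ D.ε ^ 2 := pow_le_pow_left₀ d0.le (by linarith) 2
      have d2 : K * δ ^ 2 ≤ D.ε ^ 2 := by nlinarith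
      have f1 := mul_le_mul d1 (show D.B0 + H ≤ X by linarith) (by linarith) (sq_nonneg _)
      have f2 := mul_le_mul d1 (show ρ ^ 2 ≤ X by linarith) (sq_nonneg _) (sq_nonneg _)
      have f3 := mul_le_mul d2 (show H + 1 ≤ X by linarith) (by linarith) (sq_nonneg _)
      have f4 : mean v (fun x => (GΘ x + G x) ^ 2) / D.ε ≤ 8 * (D.ε * X) := by
        rw [div_le_iff₀ ε0]; linarith
      have f5 := mul_le_mul (show 2 * (δ + δ) + 8 * (δ + δ) + 4 * D.ε ≤ 24 * D.ε by linarith)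
        (c1.trans (show D.B0 ≤ X by linarith)) (Nat.cast_nonneg _) (by positivity)
      have f6 := mul_le_mul_of_nonneg_right ε1 X0
      have f7 := mul_nonneg ε0.le X0
      rw [← hX]
      linarith
    · rw [Rec.grad_add, add_sub_add_comm, eφ]
      exact (nrm_add_le _ _).trans (add_le_add (t2 x) (a4 x).2.1)
  · refine (hv.mean_mono fun x => (Tg11.exc_le fun j => (Rg.abs_le t1 x j).trans (k0.trans k2)).trans
      (pow_le_pow_left₀ (nrm_nonneg _) (t2 x) 2)).trans ((t4 v hv).trans ?_)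
    exact mul_le_mul_of_nonneg_right (pow_le_pow_left₀ d0.le (k0.trans k2) 2)
      (add_nonneg (by linarith) (kl0 hv _ _))

theorem okGlue : OkGlue := by
  intro hS hE hC hT n κ _ _ D mg Ce CV K δ es ψ ψ0 T T0 Wm W0 h hR ka k0 fp mg0 mg1 a0 aU a1 η0 η1 xa1
    sm lΘ bk bu bd sz bD
  have K1 := h.hb.1
  have ce := h.ce
  have e0 := h.hε
  have d0 := h.d0
  have cv := h.cv
  obtain ⟨t1, t2, t3, t4, t5⟩ := hT n κ D Ce CV K δ es ψ ψ0 T T0 Wm W0 h hR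
  obtain ⟨q1, q2⟩ := hE n κ D Ce CV K δ es ψ ψ0 T T0 Wm W0 h ka k0
  have s := hS n κ D Ce CV K δ es ψ ψ0 T T0 Wm W0 h
  exact ⟨⟨h.symm, h.diag, h.op, h.inj, h.off, h.col, h.blk, h.s0, h.P1⟩,
    Tg11.h1_mono h.hb.2.1 (le_mul_of_one_le_right (by linarith) (by linarith)), by positivity, fp, mg0, mg1,
    a0, aU, a1, η0, η1, h.xa.1, xa1, h.b0.1, h.b0.2, lt_of_lt_of_le (by positivity) e0, cv, by positivity, sm,
    fun ρ hρ => (s ρ hρ).1, fun ρ hρ => (s ρ hρ).2, q1, q2, hC n κ D Ce CV K δ es ψ ψ0 T T0 Wm W0 h,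
    t1, t2, t3, t4, lΘ, t5, h.b1, h.bU, by change sq D.dl + sq D.del + (2 * D.L) ^ 2 ≤ D.B0; linarith,
    bk, bu, sz, bD⟩

end Crest.Agent.T157.Br

end
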