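import Crest.Agent.T157.OoA_9

set_option autoImplicit false
set_option linter.unusedSectionVars false

/-!
Row 157, A2 (helper9): the total gradient of the centre without `N`; updates of the a priori list.
-/

noncomputable section

namespace Crest.Agent.T157.Od

open Matrix Crest.Agent.T157.E Crest.Agent.T157.SL Crest.Agent.T157.Ks

variable {Ω ι κ : Type*} [Fintype Ω] [Fintype ι] [DecidableEq ι] [Fintype κ] {θ : κ → Matrix ι ι ℝ}
  {w : Ω → ℝ} {σ : Ω → ι → ℝ} {p : ι → ℝ} {A : Matrix ι ι ℝ}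

/-- centre, `δ` in the `x`-frame: total gradient by `|κ₃(A·, ·, ·)|_F²` -/
theorem Fam.dDel_total' (h : Fam θ) (hw : Wt w) (hA : Aᵀ = A) :
    ∑ i, ∑ a, dDel w σ p A (θ a) i ^ 2 ≤ 3 * (4 * T3 w (fA A σ) σ σ +
      2 * (fr (A * covMat w σ - 1) * ((meanV w σ - p) ⬝ᵥ (meanV w σ - p))) +
      2 * ((A *ᵥ (meanV w σ - p) ⬝ᵥ A *ᵥ (meanV w σ - p)) * fr (covMat w σ))) := by
  have h0 : ∀ i, ∑ a, cov w (fun x => (Pi.single i 1 : ι → ℝ) ⬝ᵥ σ x) (Qf w σ A (θ a)) ^ 2 ≤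
      4 * ∑ j, ∑ l, cum3 w (fun x => σ x i) (fun x => fA A σ x j) (fun x => σ x l) ^ 2 := by
    intro i
    simp only [cov_Qf hw, single_dot]
    exact h.bd4 _
  have h1 := Finset.sum_le_sum fun i (_ : i ∈ Finset.univ) =>
    sum_sq3_le _ _ _ (h0 i) (h.dot ((A * covMat w σ - 1) *ᵥ Pi.single i 1) (meanV w σ - p))
      (h.dot (A *ᵥ (meanV w σ - p)) (covMat w σ *ᵥ Pi.single i 1))
  simp only [← dot_dDel hw hA] at h1
  simp only [single_dot, ← Finset.mul_sum, Finset.sum_add_distrib,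
    ← Finset.sum_mul, sum_single_dot] at h1
  rw [T3_comm]
  exact h1

end Crest.Agent.T157.Od

namespace Crest.Agent.T157.Oo

open MeasureTheory Matrix Crest.Agent.Lib.OrthPoinc Filter Topology Set
open Crest.Agent.T157.Oc Crest.Agent.T157.E Crest.Agent.T157.SL Crest.Agent.T157.Ks
open Crest.Agent.T157.Od

variable {n k : ℕ} {c : Cs} {w : Cube n → ℝ} {A : Mn n} {p : Vn n}

def Cs.gDel' (c : Cs) : ℝ := 3 * (4 * c.s1' + 2 * (c.a1 * c.d0) + 2 * (c.e0 * c.c2))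

theorem APt.gDel' {κ : Type*} [Fintype κ] {θ : κ → Mn n} (h : APt c w A p) (hc : c.Nn) (hw : Wt w)
    (hA : Aᵀ = A) (hθ : Fam θ) : ∑ i, ∑ a, dDel w sv p A (θ a) i ^ 2 ≤ c.gDel' := by
  refine (hθ.dDel_total' hw hA).trans ?_
  have b1 := mul_le_mul h.a1 h.d0 (dot_self_nonneg _) hc.a1
  have b2 := mul_le_mul h.e0 h.c2 fr_nonneg hc.e0
  unfold Cs.gDel'; linarith [h.s1']

theorem Orb.gDelx' {o : Orb n k} {U : Mat k} (h : o.Ok) (hc : c.Nn) (hU : U ∈ o.G c) :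
    ∑ i, ∑ a, ((o.g U)ᵀ *ᵥ dDel (o.w U) sv o.p (o.A U) (o.th a U)) i ^ 2 ≤ c.gDel' := by
  refine le_of_eq_of_le ?_ (hU.2.gDel' hc (Orb.wt U) (Orb.A_symm h U) (Orb.fam h hU.1))
  rw [Finset.sum_comm, Finset.sum_comm (s := (Finset.univ : Finset (Fin n)))]
  refine Finset.sum_congr rfl fun a _ => ?_
  simpa only [dotProduct, ← sq] using Op2.orth (G := (o.g U)ᵀ)
    (by rw [transpose_transpose]; exact emb_orth h.iso hU.1) (dDel (o.w U) sv o.p (o.A U) (o.th a U))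

/-- the same list with better bounds on the covariance -/
def Cs.cov (c : Cs) (k1 k2 a1 b : ℝ) : Cs := { c with k1 := k1, k2 := k2, a1 := a1, b := b }

theorem APt.cov (h : APt c w A p) {k1 k2 a1 b : ℝ} (h1 : CB w sv k1) (h2 : CB w (fA A sv) k2)
    (h3 : fr (A * covMat w sv - 1) ≤ a1) (h4 : fr (A * covMat w sv * A - A) ≤ b) :
    APt (c.cov k1 k2 a1 b) w A p := { h with k1 := h1, k2 := h2, a1 := h3, b := h4 }

theorem Cs.Nn.cov (h : c.Nn) {k1 k2 a1 b : ℝ} (h1 : 0 ≤ k1) (h2 : 0 ≤ k2) (h3 : 0 ≤ a1) (h4 : 0 ≤ b) :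
    (c.cov k1 k2 a1 b).Nn := { h with k1 := h1, k2 := h2, a1 := h3, b := h4 }

theorem covMat_fA (hA : Aᵀ = A) : covMat w (fA A sv) = A * covMat w sv * A := by
  ext i j
  have := covMat_quad w sv (A *ᵥ Pi.single i 1) (A *ᵥ Pi.single j 1)
  rw [← symm_dot hA, ← dot_fA hA, ← dot_fA hA, mulVec_mulVec, mulVec_mulVec] at this
  simp only [single_dot, mulVec_single_one, col_apply] at this
  rw [this, cov_comm]; rfl

/-- from `OpLe` (unit vectors) to `CB` -/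
theorem cb_of_opLe {J : Type*} [Fintype J] [DecidableEq J] {ψ : Cube n → J → ℝ} {K : ℝ}
    (h : OpLe (covMat w ψ) K) : CB w ψ K := fun v => by
  rcases (dot_self_nonneg v).eq_or_lt with h0 | h0
  · rw [dotProduct_self_eq_zero.1 h0.symm]; simp
  · have h1 := Real.sq_sqrt h0.le
    have h2 := Real.sqrt_pos.2 h0
    have := (le_abs_self _).trans (h ((√(v ⬝ᵥ v))⁻¹ • v) (by
      rw [smul_dotProduct, dotProduct_smul, smul_eq_mul, smul_eq_mul]; field_simp; linarith))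
    rw [mulVec_smul, smul_dotProduct, dotProduct_smul, smul_eq_mul, smul_eq_mul, ← mul_assoc, ← mul_inv,
      ← sq, h1, inv_mul_le_iff₀ h0] at this
    linarith

theorem opLe_of_cb {J : Type*} [Fintype J] [DecidableEq J] {ψ : Cube n → J → ℝ} {K : ℝ} (hw : Wt w)
    (h : CB w ψ K) : OpLe (covMat w ψ) K := fun v hv => by
  rw [abs_of_nonneg (hw.covMat_quad_nonneg ψ v)]
  simpa only [hv, mul_one] using h v

end Crest.Agent.T157.Oo
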