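import Crest.Agent.T157.OdE_9

set_option autoImplicit false
set_option linter.unusedSectionVars false

/-!
Row 157, A2 (helper9): the common words of ONE orbit (sections 3-6 of crit19): data `Orb`, Haar law
`μ`, tilted law `o.P μ`, annealed means `o.an μ`, the pointwise a priori list `APt`.
-/

noncomputable section

namespace Crest.Agent.T157.Oo

open MeasureTheory Matrix Crest.Agent.Lib.OrthPoinc Filter Topology Set
open Crest.Agent.T157.Oc Crest.Agent.T157.E Crest.Agent.T157.SL Crest.Agent.T157.Ks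
open Crest.Agent.T157.Od

abbrev Vn (n : ℕ) : Type := Fin n → ℝ
abbrev Mn (n : ℕ) : Type := Matrix (Fin n) (Fin n) ℝ

/-- the data of an orbit: `E` spans the rotated subspace, `W` the base point, `p` the centre,
`h` the field (`x + χ p` in crit19), `A = z - W` -/
structure Orb (n k : ℕ) where
  E : Matrix (Fin n) (Fin k) ℝ
  W : Mn n
  p : Vn n
  h : Vn n
  z : ℝ

variable {n k : ℕ}

namespace Orb

variable (o : Orb n k) (μ : Measure (Mat k))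

structure Ok : Prop where
  iso : o.Eᵀ * o.E = 1
  symm : o.Wᵀ = o.W
  ep : o.Eᵀ *ᵥ o.p = 0
  eh : o.Eᵀ *ᵥ o.h = 0
  two : 2 < k

/-- the product weight `e^{h·σ}` -/
def w0 (s : Cube n) : ℝ := Real.exp (o.h ⬝ᵥ sv s)
/-- the rotation `g` -/
abbrev g (U : Mat k) : Mn n := emb o.E U
/-- `g W gᵀ` -/
abbrev Wu (U : Mat k) : Mn n := WU o.E o.W U
/-- the field of the Ising model at `U`: `y = h - W_U p = g (h - W p)` -/
def y (U : Mat k) : Vn n := o.h - o.Wu U *ᵥ o.p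
/-- the Gibbs weight at `U` (proportional to `ising (W_U) (y U)`, see `w_eq`) -/
abbrev w (U : Mat k) : Cube n → ℝ := cw o.E o.W o.p sv o.w0 U
abbrev A (U : Mat k) : Mn n := AU o.E o.W o.z U
abbrev th (a : Fin k × Fin k) (U : Mat k) : Mn n := thU o.E a U
/-- covariance, cube frame -/
abbrev C (U : Mat k) : Mn n := covMat (o.w U) sv
/-- `δ = m - p`, cube frame -/
abbrev d (U : Mat k) : Vn n := meanV (o.w U) sv - o.p
/-- `log (Z / E Z)` -/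
abbrev u : Mat k → ℝ := uZ μ o.E o.W o.p sv o.w0
/-- the tilted law `Pt_o` -/
def P : Measure (Mat k) := μ.withDensity fun U => ENNReal.ofReal (Real.exp (o.u μ U))
/-- annealed mean of `f (s, U)`: `U ∼ Pt_o`, then `s ∼` Gibbs -/
def an (f : Cube n → Mat k → ℝ) : ℝ := ∫ U, mean (o.w U) (fun s => f s U) ∂o.P μ

end Orb

/-- the constants of the a priori list -/
structure Cs where
  (a k1 k2 a1 b c2 N N' s1 s1' s2 s2' t4 t3 t3' q4 q3 q3' v4 v4' d0 e0 : ℝ)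

structure Cs.Nn (c : Cs) : Prop where
  a : 0 < c.a
  k1 : 0 ≤ c.k1
  k2 : 0 ≤ c.k2
  a1 : 0 ≤ c.a1
  b : 0 ≤ c.b
  c2 : 0 ≤ c.c2
  N : 0 ≤ c.N
  N' : 0 ≤ c.N'
  s1 : 0 ≤ c.s1
  s1' : 0 ≤ c.s1'
  s2 : 0 ≤ c.s2
  s2' : 0 ≤ c.s2'
  t4 : 0 ≤ c.t4
  t3 : 0 ≤ c.t3
  t3' : 0 ≤ c.t3'
  q4 : 0 ≤ c.q4
  q3 : 0 ≤ c.q3
  q3' : 0 ≤ c.q3'
  v4 : 0 ≤ c.v4
  v4' : 0 ≤ c.v4'
  d0 : 0 ≤ c.d0
  e0 : 0 ≤ c.e0

/-- **the a priori list** at one Gibbs weight (`ψ = A σ`; `a1, b, c2` are NOT divided by `n`) -/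
structure APt (c : Cs) (w : Cube n → ℝ) (A : Mn n) (p : Vn n) : Prop where
  a : Op2 A (c.a ^ 2)
  k1 : CB w sv c.k1
  k2 : CB w (fA A sv) c.k2
  a1 : fr (A * covMat w sv - 1) ≤ c.a1
  b : fr (A * covMat w sv * A - A) ≤ c.b
  c2 : fr (covMat w sv) ≤ c.c2
  N : ∀ U : Mn n, NV (fA A sv) sv U w ≤ c.N * fr U
  N' : ∀ U : Mn n, NV (fA A sv) (fA A sv) U w ≤ c.N' * fr U
  s1 : T3 w (fA A sv) (fA A sv) sv ≤ c.s1
  s1' : T3 w (fA A sv) sv sv ≤ c.s1'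
  s2 : T4 w (fA A sv) (fA A sv) (fA A sv) sv ≤ c.s2
  s2' : T4 w (fA A sv) sv (fA A sv) sv ≤ c.s2'
  t4 : ∀ v, T4 w sv (sg fun x => v ⬝ᵥ sv x) (fA A sv) sv ≤ c.t4 * (v ⬝ᵥ v)
  t3 : ∀ v, T3 w sv (sg fun x => v ⬝ᵥ sv x) (fA A sv) ≤ c.t3 * (v ⬝ᵥ v)
  t3' : ∀ v, T3 w sv (sg fun x => v ⬝ᵥ sv x) sv ≤ c.t3' * (v ⬝ᵥ v)
  q4 : ∀ v, T4 w (fA A sv) (sg fun x => v ⬝ᵥ fA A sv x) (fA A sv) sv ≤ c.q4 * (v ⬝ᵥ v)
  q3 : ∀ v, T3 w (fA A sv) (sg fun x => v ⬝ᵥ fA A sv x) (fA A sv) ≤ c.q3 * (v ⬝ᵥ v)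
  q3' : ∀ v, T3 w (fA A sv) (sg fun x => v ⬝ᵥ fA A sv x) sv ≤ c.q3' * (v ⬝ᵥ v)
  v4 : ∀ v, var w (fun x => (v ⬝ᵥ sv x - mean w fun x => v ⬝ᵥ sv x) ^ 2) ≤ c.v4 * (v ⬝ᵥ v) ^ 2
  v4' : ∀ v, var w (fun x => (v ⬝ᵥ fA A sv x - mean w fun x => v ⬝ᵥ fA A sv x) ^ 2) ≤
    c.v4' * (v ⬝ᵥ v) ^ 2
  d0 : (meanV w sv - p) ⬝ᵥ (meanV w sv - p) ≤ c.d0
  e0 : A *ᵥ (meanV w sv - p) ⬝ᵥ A *ᵥ (meanV w sv - p) ≤ c.e0

/-- the good set of an orbit -/
def Orb.G (o : Orb n k) (c : Cs) : Set (Mat k) := {U | U ∈ SO k ∧ APt c (o.w U) (o.A U) o.p}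

/-- the same list with better bounds on the centre -/
def Cs.ctr (c : Cs) (d e : ℝ) : Cs := { c with d0 := d, e0 := e }

/-- the constant of the key lemma -/
def Cs.lam (c : Cs) : ℝ := 3 * (4 * c.N + 2 * (c.k2 * c.d0) + 2 * (c.e0 * c.k1))

/-- crude constants: `R ≥ max (n, a² n, a², 1)` -/
def crude (a R : ℝ) : Cs where
  a := a
  k1 := R
  k2 := R
  a1 := 34 * R ^ 2
  b := 34 * R ^ 2
  c2 := 16 * R ^ 2
  N := 16 * R ^ 2
  N' := 16 * R ^ 2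
  s1 := 64 * R ^ 3
  s1' := 64 * R ^ 3
  s2 := 4096 * R ^ 4
  s2' := 4096 * R ^ 4
  t4 := 4096 * R ^ 4
  t3 := 64 * R ^ 3
  t3' := 64 * R ^ 3
  q4 := 4096 * R ^ 4
  q3 := 64 * R ^ 3
  q3' := 64 * R ^ 3
  v4 := 16 * R ^ 2
  v4' := 16 * R ^ 2
  d0 := 4 * R
  e0 := 4 * R

namespace Orb

variable {o : Orb n k} {μ : Measure (Mat k)} [IsProbabilityMeasure μ]

theorem wt0 : Wt o.w0 := Wt.of_pos fun _ => Real.exp_pos _

theorem wt (U : Mat k) : Wt (o.w U) := wt_gw wt0 U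

theorem w_pos (U : Mat k) (s : Cube n) : 0 < o.w U s := mul_pos (Real.exp_pos _) (Real.exp_pos _)

theorem A_symm (h : o.Ok) (U : Mat k) : (o.A U)ᵀ = o.A U := AU_symm h.symm U

theorem fam (h : o.Ok) {U : Mat k} (hU : U ∈ SO k) : Fam fun a => o.th a U := fam_thU h.iso hU

theorem w_eq (h : o.Ok) (U : Mat k) (s : Cube n) :
    o.w U s = Real.exp (o.p ⬝ᵥ o.Wu U *ᵥ o.p / 2) * ising (o.Wu U) (o.y U) s := by
  rw [w, cw, gw, w0, HU, ising, y, ← Real.exp_add, ← Real.exp_add]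
  congr 1
  have h1 := symm_dot (WU_symm (E := o.E) h.symm U) o.p (sv s)
  simp only [mulVec_sub, dotProduct_sub, sub_dotProduct, dotProduct_comm (sv s) (_ *ᵥ o.p)]
  linarith

theorem y_eq (h : o.Ok) (U : Mat k) : o.y U = o.g U *ᵥ (o.h - o.W *ᵥ o.p) := by
  have h1 : (emb o.E U)ᵀ *ᵥ o.p = o.p := by rw [emb_transpose]; exact emb_mulVec _ h.ep
  rw [y, Wu, WU, ← mulVec_mulVec, ← mulVec_mulVec, h1, mulVec_sub, emb_mulVec _ h.eh]

theorem P_int (hμ : SOInv μ) (h : o.Ok) (f : Mat k → ℝ) :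
    ∫ U, f U ∂o.P μ = ∫ U, Real.exp (o.u μ U) * f U ∂μ := by
  have hm : AEMeasurable (fun U => (Real.exp (o.u μ U)).toNNReal) μ :=
    (aesm_of hμ ((rd_lZ h.iso h.symm wt0 0).c.sub continuousOn_const).rexp).aemeasurable.real_toNNReal
  refine (integral_withDensity_eq_integral_smul₀ hm f).trans (integral_congr_ae (ae_of_all _ fun U => ?_))
  simp only [NNReal.smul_def, Real.coe_toNNReal _ (Real.exp_pos _).le, smul_eq_mul]

theorem int_exp_u (hμ : SOInv μ) (h : o.Ok) : Integrable (fun U => Real.exp (o.u μ U)) μ :=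
  integrable_of hμ ((rd_lZ h.iso h.symm wt0 0).c.sub continuousOn_const).rexp

theorem P_real (hμ : SOInv μ) (h : o.Ok) (T : Set (Mat k)) : (o.P μ).real T = tm μ (o.u μ) T := by
  rw [measureReal_def, P, withDensity_apply' , tm, ← ofReal_integral_eq_lintegral_ofReal
    (int_exp_u hμ h).integrableOn (ae_of_all _ fun _ => (Real.exp_pos _).le),
    ENNReal.toReal_ofReal (integral_nonneg fun _ => (Real.exp_pos _).le)]

theorem P_prob (hμ : SOInv μ) (h : o.Ok) : IsProbabilityMeasure (o.P μ) := by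
  refine ⟨?_⟩
  rw [P, withDensity_apply _ MeasurableSet.univ, Measure.restrict_univ,
    ← ofReal_integral_eq_lintegral_ofReal (int_exp_u hμ h) (ae_of_all _ fun _ => (Real.exp_pos _).le)]
  simp only [exp_uZ hμ h.iso h.symm wt0, integral_div, div_self (int_Z_pos hμ h.iso h.symm wt0).ne',
    ENNReal.ofReal_one]

theorem P_mem (hμ : SOInv μ) : ∀ᵐ U ∂o.P μ, U ∈ SO k := withDensity_absolutelyContinuous _ _ hμ.mem

/-- total expectation: the annealed law of `(s, U)` has density `w U s` -/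
theorem an_eq (hμ : SOInv μ) (h : o.Ok) (f : Cube n → Mat k → ℝ) :
    o.an μ f = (∫ U, ∑ s, o.w U s * f s U ∂μ) / ∫ U, ∑ s, o.w U s ∂μ := by
  rw [an, P_int hμ h, ← integral_div]
  refine integral_congr_ae (ae_of_all _ fun U => ?_)
  have h1 := (wt (o := o) U).pos.ne'
  simp only [exp_uZ hμ h.iso h.symm wt0, mean_eq_div, Zw]
  field_simp

end Orb

end Crest.Agent.T157.Oo
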