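import Crest.Agent.T157.CqDef_72

/-!
# Row 157, oscillation lemma (helper53): deterministic bounds for the mean response
-/

set_option autoImplicit false
set_option linter.all false

noncomputable section

namespace Crest.Agent.T157.Cq.Os53

open Filter Topology Finset Real Matrix
open Crest.Agent.T157.St Crest.Agent.T157.Ed

/-! ### one mode -/

section mode

variable {e h L : ℝ}

theorem q_ge (hh : 0 < h) (he : |e| * h ≤ 1 / 4) : 1 / 2 ≤ 1 - 2 * e * h := by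
  nlinarith [le_abs_self e]

theorem q_le (hh : 0 < h) (he : |e| * h ≤ 1 / 4) : 1 - 2 * e * h ≤ 2 := by
  nlinarith [neg_abs_le e]

theorem q_pos (hh : 0 < h) (he : |e| * h ≤ 1 / 4) : 0 < 1 - 2 * e * h := by
  linarith [q_ge hh he]

theorem pow_exp (hh : 0 < h) (he : |e| * h ≤ 1 / 4) (i : ℕ) :
    (1 - 2 * e * h) ^ i ≤ exp (-(2 * e * (i * h))) := by
  have h1 : 1 - 2 * e * h ≤ exp (-(2 * e * h)) := by linarith [add_one_le_exp (-(2 * e * h))]
  refine (pow_le_pow_left₀ (q_pos hh he).le h1 i).trans_eq ?_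
  rw [← exp_nat_mul]; congr 1; ring

theorem pow_E (hh : 0 < h) (he : |e| * h ≤ 1 / 4) (hL : 0 ≤ L) (hl : -L ≤ e) {i : ℕ}
    (hi : i * h ≤ 1) : (1 - 2 * e * h) ^ i ≤ exp (2 * L) := by
  refine (pow_exp hh he i).trans (exp_le_exp.2 ?_)
  have : 0 ≤ i * h := by positivity
  nlinarith

theorem exp_neg_le {y : ℝ} (hy : 0 ≤ y) : exp (-y) * (1 + y) ≤ 1 := by
  have := add_one_le_exp y
  rw [exp_neg, inv_mul_le_iff₀ (exp_pos y)]; linarith

theorem exp_neg_le2 {y : ℝ} (hy : 0 ≤ y) : exp (-y) * y ^ 2 ≤ 2 := by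
  have := quadratic_le_exp_of_nonneg hy
  rw [exp_neg, inv_mul_le_iff₀ (exp_pos y)]; linarith

/-- `q^i (1 + |e| y) ≤ E (1 + L)` for `y ≤ 2 i h`, `y ≤ 1` -/
theorem pow_inv (hh : 0 < h) (he : |e| * h ≤ 1 / 4) (hL : 0 ≤ L) (hl : -L ≤ e) {i : ℕ}
    (hi : i * h ≤ 1) {y : ℝ} (y0 : 0 ≤ y) (y1 : y ≤ 1) (y2 : y ≤ 2 * (i * h)) :
    (1 - 2 * e * h) ^ i * (1 + |e| * y) ≤ exp (2 * L) * (1 + L) := by
  have E1 : 1 ≤ exp (2 * L) := one_le_exp (by linarith)
  have q0 := (q_pos hh he).le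
  rcases le_total 0 e with h0 | h0
  · rw [abs_of_nonneg h0]
    have h1 := exp_neg_le (y := 2 * e * (i * h)) (by positivity)
    calc _ ≤ exp (-(2 * e * (i * h))) * (1 + 2 * e * (i * h)) := by
          exact mul_le_mul (pow_exp hh he i) (by nlinarith) (by positivity) (exp_pos _).le
      _ ≤ _ := by nlinarith
  · rw [abs_of_nonpos h0]
    gcongr
    · nlinarith
    · exact pow_E hh he hL hl hi
    · nlinarith

theorem geom (e h : ℝ) (N : ℕ) :
    2 * e * (h * ∑ i ∈ range N, (1 - 2 * e * h) ^ i) = 1 - (1 - 2 * e * h) ^ N := by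
  induction N with
  | zero => simp
  | succ N ih => rw [sum_range_succ, pow_succ]; linear_combination ih

theorem geom2 (e h : ℝ) (N : ℕ) :
    (2 * e) ^ 2 * (h * ∑ i ∈ range N, i * h * (1 - 2 * e * h) ^ i) =
      (1 - 2 * e * h) - (1 - 2 * e * h) ^ N * (N * (2 * e * h) + (1 - 2 * e * h)) := by
  induction N with
  | zero => simp
  | succ N ih => rw [sum_range_succ, pow_succ (1 - 2 * e * h)]; push_cast; linear_combination ih

theorem geom_le (hh : 0 < h) (he : |e| * h ≤ 1 / 4) (hL : 0 ≤ L) (hl : -L ≤ e) {j : ℕ}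
    (h1 : h ≤ 1) (hj : j * h ≤ 1) :
    (h * ∑ i ∈ range (j + 1), (1 - 2 * e * h) ^ i) * (1 + |e|) ≤ 3 * (exp (2 * L) * (1 + L)) := by
  have E1 : 1 ≤ exp (2 * L) := one_le_exp (by linarith)
  have q0 := (q_pos hh he).le
  have s0 : 0 ≤ h * ∑ i ∈ range (j + 1), (1 - 2 * e * h) ^ i := by positivity
  have s1 : h * ∑ i ∈ range (j + 1), (1 - 2 * e * h) ^ i ≤ 2 * exp (2 * L) := by
    have := sum_le_card_nsmul (range (j + 1)) (fun i => (1 - 2 * e * h) ^ i) (exp (2 * L))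
      fun i hi => pow_E hh he hL hl (le_trans (by
        gcongr; exact Nat.lt_succ_iff.1 (mem_range.1 hi)) hj)
    rw [card_range, nsmul_eq_mul] at this
    push_cast at this
    nlinarith [mul_le_mul_of_nonneg_left this hh.le]
  rcases le_total 0 e with h0 | h0
  · rw [abs_of_nonneg h0]
    have := geom e h (j + 1)
    have : 0 ≤ (1 - 2 * e * h) ^ (j + 1) := by positivity
    nlinarith
  · rw [abs_of_nonpos h0]
    nlinarith [mul_le_mul s1 (show -e ≤ L by linarith) (by linarith) (by positivity)]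

end mode

/-! ### the kernel of one mode -/

/-- what is used of the renewal sequence -/
structure Rh (h t D : ℝ) (ρ : ℕ → ℝ) (j : ℕ) : Prop where
  hh : 0 < h
  h1 : h ≤ 1
  hj : j * h ≤ 1
  t0 : 0 < t
  D0 : 0 ≤ D
  nn : ∀ i, i ≤ j → 0 ≤ ρ i
  sm : h * ∑ i ∈ range (j + 1), ρ i ≤ D * (√(j * h) + t⁻¹)
  pt : ∀ i, i ≤ j → 0 < i → ρ i ≤ D * ((√(i * h))⁻¹ + (t * (i * h))⁻¹)

section ker

variable {η : ℕ → ℝ} {h t D L : ℝ} {ρ : ℕ → ℝ} {j k : ℕ}

theorem sum_refl (ρ : ℕ → ℝ) (j : ℕ) : ∑ i ∈ range (j + 1), ρ (j - i) = ∑ i ∈ range (j + 1), ρ i := by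
  simpa using sum_range_reflect ρ (j + 1)

theorem Rh.K_nn (H : Rh h t D ρ j) (he : |η k| * h ≤ 1 / 4) : 0 ≤ Kk η h ρ k j :=
  mul_nonneg H.hh.le (sum_nonneg fun i _ => mul_nonneg (H.nn _ (Nat.sub_le _ _))
    (pow_nonneg (q_pos H.hh he).le _))

theorem Rh.K_early (H : Rh h t D ρ j) (he : |η k| * h ≤ 1 / 4) (hL : 0 ≤ L) (hl : -L ≤ η k)
    (hu : √(j * h) ≤ t⁻¹) : Kk η h ρ k j ≤ exp (2 * L) * (2 * D * t⁻¹) := by
  have h1 : ∑ i ∈ range (j + 1), ρ (j - i) * (1 - 2 * η k * h) ^ i ≤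
      ∑ i ∈ range (j + 1), exp (2 * L) * ρ (j - i) := sum_le_sum fun i hi => by
    rw [mul_comm]
    exact mul_le_mul_of_nonneg_right (pow_E H.hh he hL hl (le_trans (by
      have := H.hh; gcongr; exact Nat.lt_succ_iff.1 (mem_range.1 hi)) H.hj)) (H.nn _ (Nat.sub_le _ _))
  rw [← mul_sum, sum_refl] at h1
  have h2 := H.sm
  have h3 := mul_le_mul_of_nonneg_left hu H.D0
  calc _ ≤ h * (exp (2 * L) * ∑ i ∈ range (j + 1), ρ i) := mul_le_mul_of_nonneg_left h1 H.hh.le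
    _ = exp (2 * L) * (h * ∑ i ∈ range (j + 1), ρ i) := by ring
    _ ≤ _ := mul_le_mul_of_nonneg_left (by linarith) (exp_pos _).le

theorem Rh.sm2 (H : Rh h t D ρ j) (hu : t⁻¹ ≤ √(j * h)) :
    h * ∑ i ∈ range (j + 1), ρ i ≤ 2 * D * √(j * h) := by
  linarith [H.sm, mul_le_mul_of_nonneg_left hu H.D0]

theorem Rh.half (H : Rh h t D ρ j) (hu : t⁻¹ ≤ √(j * h)) {i : ℕ} (hi : i ≤ j) (h2 : j ≤ 2 * i) :
    ρ i ≤ 4 * D * (√(j * h))⁻¹ := by
  have hh := H.hh
  have t0 := H.t0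
  have s0 : 0 < √(j * h) := lt_of_lt_of_le (by positivity) hu
  have u0 : 0 < j * h := sqrt_pos.1 s0
  have j0 : 0 < j := by
    rcases Nat.eq_zero_or_pos j with rfl | h
    · simp at u0
    · exact h
  have i0 : 0 < i := by omega
  have a1 : (j : ℝ) * h ≤ 2 * (i * h) := by
    have : (j : ℝ) ≤ 2 * i := by exact_mod_cast h2
    nlinarith
  have v0 : 0 < i * h := by positivity
  have a2 : (√(i * h))⁻¹ ≤ 2 * (√(j * h))⁻¹ := by
    rw [← div_eq_mul_inv, inv_le_comm₀ (by positivity) (by positivity), inv_div, div_le_iff₀ two_pos]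
    refine sqrt_le_iff.2 ⟨by positivity, ?_⟩
    rw [mul_pow, sq_sqrt v0.le]; linarith
  have a3 : (t * (i * h))⁻¹ ≤ 2 * (√(j * h))⁻¹ := by
    rw [mul_inv]
    calc t⁻¹ * (i * h)⁻¹ ≤ √(j * h) * (2 * (j * h)⁻¹) := by
          gcongr
          rw [← div_eq_mul_inv, inv_le_comm₀ v0 (by positivity), inv_div]; linarith
      _ = _ := by
          have := mul_self_sqrt u0.le
          field_simp
          linarith
  have := H.pt i hi i0
  nlinarith [mul_le_mul_of_nonneg_left (add_le_add a2 a3) H.D0]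

theorem Rh.K_late (H : Rh h t D ρ j) (he : |η k| * h ≤ 1 / 4) (hL : 0 ≤ L) (hl : -L ≤ η k)
    (hu : t⁻¹ ≤ √(j * h)) :
    Kk η h ρ k j * (1 + |η k|) ≤ 14 * D * (exp (2 * L) * (1 + L)) * (√(j * h))⁻¹ := by
  have hh := H.hh
  have t0 := H.t0
  have D0 := H.D0
  have s0 : 0 < √(j * h) := lt_of_lt_of_le (by positivity) hu
  have u0 : 0 < j * h := sqrt_pos.1 s0
  have q0 := (q_pos hh he).le
  set E := exp (2 * L) * (1 + L) with hE
  have E0 : 0 ≤ E := by positivity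
  set Q := E / (1 + |η k| * (j * h)) with hQ
  have h1 : ∑ i ∈ range (j + 1), ρ (j - i) * (1 - 2 * η k * h) ^ i ≤
      ∑ i ∈ range (j + 1), (4 * D * (√(j * h))⁻¹ * (1 - 2 * η k * h) ^ i + Q * ρ (j - i)) :=
    sum_le_sum fun i hi => by
      have hi' := Nat.lt_succ_iff.1 (mem_range.1 hi)
      have n1 := H.nn _ (Nat.sub_le j i)
      rcases le_total (2 * i) j with h2 | h2
      · have := mul_le_mul_of_nonneg_right (H.half hu (Nat.sub_le j i) (by omega)) (pow_nonneg q0 i)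
        have : 0 ≤ Q * ρ (j - i) := by positivity
        linarith
      · have a1 : (j : ℝ) * h ≤ 2 * (i * h) := by
          have : (j : ℝ) ≤ 2 * i := by exact_mod_cast h2
          nlinarith
        have a2 : (1 - 2 * η k * h) ^ i ≤ Q := by
          rw [hQ, le_div_iff₀ (by positivity)]
          exact pow_inv hh he hL hl (le_trans (by gcongr) H.hj) u0.le H.hj a1
        have := mul_le_mul_of_nonneg_left a2 n1
        have : 0 ≤ 4 * D * (√(j * h))⁻¹ * (1 - 2 * η k * h) ^ i := by positivity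
        linarith
  rw [sum_add_distrib, ← mul_sum, ← mul_sum, sum_refl] at h1
  have h2 := geom_le hh he hL hl H.h1 H.hj
  have h3 := H.sm2 hu
  have h4 : Q * √(j * h) * (1 + |η k|) ≤ E * (√(j * h))⁻¹ := by
    have := mul_self_sqrt u0.le
    have := H.hj
    rw [hQ, ← div_eq_mul_inv, le_div_iff₀ s0, div_mul_eq_mul_div, div_mul_eq_mul_div,
      div_mul_eq_mul_div, div_le_iff₀ (by positivity)]
    calc E * √(j * h) * (1 + |η k|) * √(j * h) = E * ((√(j * h) * √(j * h)) * (1 + |η k|)) := by ring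
      _ ≤ _ := by gcongr; nlinarith
  calc _ ≤ h * (4 * D * (√(j * h))⁻¹ * ∑ i ∈ range (j + 1), (1 - 2 * η k * h) ^ i +
        Q * ∑ i ∈ range (j + 1), ρ i) * (1 + |η k|) := by unfold Kk; gcongr
    _ = 4 * D * (√(j * h))⁻¹ * ((h * ∑ i ∈ range (j + 1), (1 - 2 * η k * h) ^ i) * (1 + |η k|)) +
        Q * (h * ∑ i ∈ range (j + 1), ρ i) * (1 + |η k|) := by ring
    _ ≤ 4 * D * (√(j * h))⁻¹ * (3 * E) + Q * (2 * D * √(j * h)) * (1 + |η k|) := by gcongr
    _ = 12 * D * E * (√(j * h))⁻¹ + 2 * D * (Q * √(j * h) * (1 + |η k|)) := by ring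
    _ ≤ 12 * D * E * (√(j * h))⁻¹ + 2 * D * (E * (√(j * h))⁻¹) := by gcongr
    _ = _ := by ring

/-- stiff modes -/
theorem Rh.K_stiff (H : Rh h t D ρ j) (he : |η k| * h ≤ 1 / 4) (h1 : 1 ≤ η k) {u : ℝ} (u0 : 0 < u)
    (hu : t⁻¹ ≤ √(j * h)) (hu' : u ≤ j * h)
    (hd : ∀ l : ℕ, 2 * l ≤ j → |ρ j - ρ (j - l)| ≤ D * (l * h) * (u ^ 2)⁻¹) :
    |Kk η h ρ k j - ρ j / (2 * (1 + η k))| * η k ^ 2 ≤ 24 * D * (u ^ 2)⁻¹ := by
  have hh := H.hh
  have t0 := H.t0
  have D0 := H.D0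
  have hj := H.hj
  have s0 : 0 < √(j * h) := lt_of_lt_of_le (by positivity) hu
  have v0 : 0 < j * h := sqrt_pos.1 s0
  have q0 := (q_pos hh he).le
  have e0 : 0 < η k := by linarith
  have ss := mul_self_sqrt v0.le
  have s1 : √(j * h) ≤ 1 := sqrt_le_one.2 hj
  have u1 : u ≤ 1 := hu'.trans hj
  have r0 := H.nn j le_rfl
  have r1 := H.half hu le_rfl (by omega)
  have s2 : (√(j * h))⁻¹ ≤ u⁻¹ := inv_anti₀ u0 (by nlinarith)
  have s3 : u⁻¹ ≤ (u ^ 2)⁻¹ := inv_anti₀ (by positivity) (by nlinarith)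
  have j1 : h ≤ j * h := by
    rcases Nat.eq_zero_or_pos j with rfl | h'
    · simp at v0
    · have : (1 : ℝ) ≤ j := by exact_mod_cast h'
      nlinarith
  set q := 1 - 2 * η k * h with hq
  set Q := 2 * (u ^ 2)⁻¹ / η k ^ 2 with hQ
  have hQ0 : 0 ≤ Q := by positivity
  have qQ : ∀ i : ℕ, j ≤ 2 * i → q ^ i ≤ Q := fun i h2 => by
    have a1 : (j : ℝ) * h ≤ 2 * (i * h) := by
      have : (j : ℝ) ≤ 2 * i := by exact_mod_cast h2
      nlinarith
    refine (pow_exp hh he i).trans ((exp_le_exp.2 (neg_le_neg (show η k * u ≤ _ by nlinarith))).trans ?_)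
    have := exp_neg_le2 (y := η k * u) (by positivity)
    rw [hQ, le_div_iff₀ (by positivity), ← div_eq_mul_inv, le_div_iff₀ (by positivity)]
    linarith [show exp (-(η k * u)) * η k ^ 2 * u ^ 2 = exp (-(η k * u)) * (η k * u) ^ 2 by ring]
  have a1 : |∑ i ∈ range (j + 1), (ρ (j - i) - ρ j) * q ^ i| ≤
      ∑ i ∈ range (j + 1), (D * (u ^ 2)⁻¹ * (i * h * q ^ i) + Q * ρ (j - i) + Q * ρ j) :=
    (abs_sum_le_sum_abs _ _).trans (sum_le_sum fun i hi => by
      have n1 := H.nn _ (Nat.sub_le j i)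
      rw [abs_mul, abs_of_nonneg (pow_nonneg q0 i)]
      rcases le_total (2 * i) j with h2 | h2
      · have := mul_le_mul_of_nonneg_right (hd i h2) (pow_nonneg q0 i)
        rw [abs_sub_comm] at this
        have : 0 ≤ Q * ρ (j - i) := by positivity
        have : 0 ≤ Q * ρ j := by positivity
        linarith
      · have b1 : |ρ (j - i) - ρ j| ≤ ρ (j - i) + ρ j := abs_le.2 ⟨by linarith, by linarith⟩
        have := mul_le_mul b1 (qQ i h2) (pow_nonneg q0 i) (by positivity)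
        have : 0 ≤ D * (u ^ 2)⁻¹ * (i * h * q ^ i) := by positivity
        linarith)
  rw [sum_add_distrib, sum_add_distrib, ← mul_sum, ← mul_sum, sum_refl, sum_const, card_range,
    nsmul_eq_mul] at a1
  push_cast at a1
  have g1 := geom (η k) h (j + 1)
  have g2 := geom2 (η k) h (j + 1)
  rw [← hq] at g1 g2
  have g3 : (2 * η k) ^ 2 * (h * ∑ i ∈ range (j + 1), i * h * q ^ i) ≤ 1 := by
    have : 0 ≤ q ^ (j + 1) * (((j + 1 : ℕ) : ℝ) * (2 * η k * h) + q) := by positivity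
    have : 0 ≤ η k * h := by positivity
    linarith
  have h3 := H.sm2 hu
  have e1 : Kk η h ρ k j - ρ j / (2 * (1 + η k)) =
      h * ∑ i ∈ range (j + 1), (ρ (j - i) - ρ j) * q ^ i - ρ j * q ^ (j + 1) / (2 * η k) +
        ρ j / (2 * η k * (1 + η k)) := by
    have : h * ∑ i ∈ range (j + 1), q ^ i = (1 - q ^ (j + 1)) / (2 * η k) := by
      rw [← g1]; field_simp
    simp only [Kk, sub_mul, sum_sub_distrib, ← mul_sum, mul_sub, ← hq]
    rw [mul_left_comm h (ρ j), this]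
    field_simp
    ring
  have b1 : |h * ∑ i ∈ range (j + 1), (ρ (j - i) - ρ j) * q ^ i| * η k ^ 2 ≤ 21 * D * (u ^ 2)⁻¹ := by
    rw [abs_mul, abs_of_pos hh]
    have c1 : h * ((j + 1) * (Q * ρ j)) ≤ Q * (8 * D) := by
      calc _ = Q * (ρ j * (j * h + h)) := by ring
        _ ≤ Q * (4 * D * (√(j * h))⁻¹ * (2 * (√(j * h) * √(j * h)))) := by gcongr; linarith
        _ = Q * (8 * D * √(j * h)) := by field_simp; ring
        _ ≤ _ := mul_le_mul_of_nonneg_left (by nlinarith) hQ0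
    have c2 : Q * η k ^ 2 = 2 * (u ^ 2)⁻¹ := by rw [hQ]; field_simp
    calc _ ≤ h * (D * (u ^ 2)⁻¹ * ∑ i ∈ range (j + 1), i * h * q ^ i + Q * ∑ i ∈ range (j + 1), ρ i +
          (j + 1) * (Q * ρ j)) * η k ^ 2 := by gcongr
      _ = D * (u ^ 2)⁻¹ * ((2 * η k) ^ 2 * (h * ∑ i ∈ range (j + 1), i * h * q ^ i)) / 4 +
          (Q * (h * ∑ i ∈ range (j + 1), ρ i) + h * ((j + 1) * (Q * ρ j))) * η k ^ 2 := by ring
      _ ≤ D * (u ^ 2)⁻¹ * 1 / 4 + (Q * (2 * D) + Q * (8 * D)) * η k ^ 2 := by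
          have : h * ∑ i ∈ range (j + 1), ρ i ≤ 2 * D := h3.trans (by nlinarith)
          gcongr
      _ = D * (u ^ 2)⁻¹ / 4 + 10 * D * (Q * η k ^ 2) := by ring
      _ ≤ _ := by rw [c2]; have : 0 ≤ D * (u ^ 2)⁻¹ := by positivity
                  linarith
  have b2 : ρ j * q ^ (j + 1) / (2 * η k) * η k ^ 2 ≤ D * (u ^ 2)⁻¹ := by
    have c1 : q ^ (j + 1) * (2 * η k * u) ≤ 1 := by
      have := exp_neg_le (y := 2 * η k * u) (by positivity)
      have c2 : q ^ (j + 1) ≤ exp (-(2 * η k * u)) :=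
        (pow_exp hh he (j + 1)).trans (exp_le_exp.2 (neg_le_neg (by push_cast; gcongr; nlinarith)))
      have := exp_pos (-(2 * η k * u))
      nlinarith [mul_le_mul_of_nonneg_right c2 (show 0 ≤ 2 * η k * u by positivity)]
    calc _ = ρ j * (q ^ (j + 1) * (2 * η k * u)) * u⁻¹ / 4 := by field_simp; ring
      _ ≤ 4 * D * u⁻¹ * 1 * u⁻¹ / 4 := by gcongr; exact r1.trans (by gcongr)
      _ = _ := by field_simp
  have b3 : ρ j / (2 * η k * (1 + η k)) * η k ^ 2 ≤ 2 * D * (u ^ 2)⁻¹ := by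
    have c1 : ρ j ≤ 4 * D * (u ^ 2)⁻¹ := r1.trans (mul_le_mul_of_nonneg_left (s2.trans s3) (by positivity))
    rw [div_mul_eq_mul_div, div_le_iff₀ (by positivity)]
    have : 0 ≤ D * (u ^ 2)⁻¹ := by positivity
    nlinarith [mul_le_mul_of_nonneg_right c1 (sq_nonneg (η k))]
  have p2 : 0 ≤ ρ j * q ^ (j + 1) / (2 * η k) := by positivity
  have p3 : 0 ≤ ρ j / (2 * η k * (1 + η k)) := by positivity
  rw [e1]
  calc _ ≤ (|h * ∑ i ∈ range (j + 1), (ρ (j - i) - ρ j) * q ^ i| + ρ j * q ^ (j + 1) / (2 * η k) +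
        ρ j / (2 * η k * (1 + η k))) * η k ^ 2 := by
        gcongr
        exact abs_le.2 ⟨by linarith [neg_abs_le (h * ∑ i ∈ range (j + 1), (ρ (j - i) - ρ j) * q ^ i)],
          by linarith [le_abs_self (h * ∑ i ∈ range (j + 1), (ρ (j - i) - ρ j) * q ^ i)]⟩
    _ ≤ _ := by linarith

end ker

end Crest.Agent.T157.Cq.Os53
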