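import Crest.Agent.T157.EDef_39

/-!
# Row 157, part C, oscillation lemma (helper12): noise space and martingale transforms
-/

set_option autoImplicit false

noncomputable section

namespace Crest.Agent.T157.Cq.Os

open MeasureTheory ProbabilityTheory Finset
open Crest.Agent.T157.E

/-- noise space -/
abbrev Om (ι : Type) : Type := ℕ → ι → ℝ
/-- independent standard Gaussian vectors -/
abbrev PP (ι : Type) [Fintype ι] : Measure (Om ι) := Measure.infinitePi fun _ : ℕ => gv ι
/-- `F` depends on the noise before the time `j` only -/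
def Ad {ι β : Type} (j : ℕ) (F : Om ι → β) : Prop :=
  ∀ ω l ξ, j ≤ l → F (Function.update ω l ξ) = F ω
/-- an increment in the first two chaoses -/
def Dl {ι : Type} [Fintype ι] (a c ξ : ι → ℝ) : ℝ := ∑ k, (a k * ξ k + c k * (ξ k ^ 2 - 1))
/-- its variance -/
def vr {ι : Type} [Fintype ι] (a c : ι → ℝ) : ℝ := ∑ k, (a k ^ 2 + 2 * c k ^ 2)
/-- martingale transform -/
def mart {ι : Type} [Fintype ι] (a c : ℕ → Om ι → ι → ℝ) (j : ℕ) (ω : Om ι) : ℝ :=
  ∑ i ∈ range j, Dl (a i ω) (c i ω) (ω i)
/-- predictable coefficients -/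
def Prd {ι : Type} (a : ℕ → Om ι → ι → ℝ) : Prop := ∀ i, Measurable (a i) ∧ Ad i (a i)

end Crest.Agent.T157.Cq.Os

end
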