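import Crest.Agent.T157.CqDef_72
import Crest.Agent.T157.OsG_12

/-!
# Row 157, part C, oscillation lemma (helper12): definitions and leaves

`OscGlue ⇐ MeanStmt (B), BadStmt (C), ConStmt (D), IterStmt`.
-/

set_option autoImplicit false

noncomputable section

namespace Crest.Agent.T157.Cq.Os

open MeasureTheory ProbabilityTheory Matrix Filter Topology Finset Real
open Crest.Agent.T157.E Crest.Agent.T157.St Crest.Agent.T157.Ed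

/-- the data of a scheme -/
structure Sy (n : ℕ) where
  η : ℕ → ℝ
  t : ℝ
  κ : ℝ
  h : ℝ
  ρ : ℕ → ℝ

namespace Sy

variable {n : ℕ} (S : Sy n)

/-- squared damping factor -/
def q (k : Fin n) : ℝ := 1 - 2 * S.η k * S.h
/-- damping of `G` -/
def a0 : ℝ := 1 - S.h * S.κ * S.t
/-- response kernel -/
def K (k : Fin n) (m : ℕ) : ℝ := Kk S.η S.h S.ρ k m
/-- weights -/
def W (T : ℝ) (k : Fin n) : ℝ := Wt S.η T k
/-- the scheme driven by the noise `ω` -/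
def path (x : Fin n → ℝ) (ω : Om (Fin n)) : ℕ → Fin n → ℝ
  | 0 => x
  | j + 1 => Fs n S.η S.t S.κ S.h (path x ω j) + √(2 * S.h) • ω j
/-- next value of `G` -/
def nG (p : (Fin n → ℝ) × ℝ) : ℝ := S.a0 * p.2 + S.h * S.κ * ∑ k, p.1 k ^ 2
/-- the linearised scheme -/
def st (A : ℝ) (x : Fin n → ℝ) (ω : Om (Fin n)) : ℕ → (Fin n → ℝ) × ℝ
  | 0 => (fun k => x k / √A, A⁻¹)
  | j + 1 => (fun k => √(S.q k) * (st A x ω j).1 k + √(2 * S.h * S.nG (st A x ω j)) * ω j k,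
      S.nG (st A x ω j))
/-- vector part -/
def b (A : ℝ) (x : Fin n → ℝ) (j : ℕ) (ω : Om (Fin n)) : Fin n → ℝ := (S.st A x ω j).1
/-- scalar part -/
def G (A : ℝ) (x : Fin n → ℝ) (j : ℕ) (ω : Om (Fin n)) : ℝ := (S.st A x ω j).2
/-- mean of `G (j+1)` -/
def gb (A : ℝ) (x : Fin n → ℝ) (j : ℕ) : ℝ :=
  (S.a0 * S.ρ j / S.κ + ∑ k, S.K k j * x k ^ 2) / A
/-- conditional mean of `G (j+m+1)` at the time `j` -/
def Ph (A : ℝ) (x : Fin n → ℝ) (m j : ℕ) (ω : Om (Fin n)) : ℝ :=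
  S.a0 * S.ρ m / S.κ * S.G A x j ω + ∑ k, S.K k m * S.b A x j ω k ^ 2
/-- linear coefficient of the noise of `b²` -/
def ma (A : ℝ) (x : Fin n → ℝ) (i : ℕ) (ω : Om (Fin n)) (k : Fin n) : ℝ :=
  2 * √(S.q k) * S.b A x i ω k * √(2 * S.h * S.G A x (i + 1) ω)
/-- quadratic coefficient of the noise of `b²` -/
def mc (A : ℝ) (x : Fin n → ℝ) (i : ℕ) (ω : Om (Fin n)) : ℝ := 2 * S.h * S.G A x (i + 1) ω
/-- weighted mass -/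
def Z (T A : ℝ) (x : Fin n → ℝ) (j : ℕ) (ω : Om (Fin n)) : ℝ := ∑ k, S.W T k * S.b A x j ω k ^ 2
/-- the run is good up to the time `j` -/
def Good (T R A : ℝ) (x : Fin n → ℝ) (j : ℕ) : Set (Om (Fin n)) :=
  {ω | ∀ l, l ≤ j → S.Z T A x l ω ≤ R ∧ |S.G A x (l + 1) ω - S.gb A x l| ≤ 1}

/-- kernel facts on the horizon `T` -/
structure KF (c D T : ℝ) : Prop where
  h0 : 0 < S.h
  hT : 64 * S.h ≤ T
  hn : S.h * (n : ℝ) ^ 2 ≤ 1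
  κ0 : 0 < S.κ
  a0 : 0 < S.a0
  q0 : ∀ k, 0 ≤ S.q k
  q2 : ∀ k, S.q k ≤ 2
  rho : IsRho n S.η S.t S.κ S.h S.ρ
  ρ0 : ∀ m : ℕ, m * S.h ≤ T → 0 ≤ S.ρ m
  up : ∀ (m : ℕ) k, m * S.h ≤ T → S.K k m ^ 2 ≤ D * S.W T k
  lo : ∀ (m : ℕ) k, m * S.h ≤ T → T / 2 ≤ m * S.h → c * S.W T k / √T ≤ S.K k m
  inc : ∀ (m l : ℕ) k, (m + l) * S.h ≤ T → 0 < m →
    (S.K k (m + l) - S.K k m) ^ 2 ≤ D * min 1 ((l : ℝ) / m) * S.W T k
  ka : ∀ m : ℕ, m * S.h ≤ T → ∑ k, S.W T k * S.q k ^ m ≤ D / √((m + 1) * S.h)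

/-- bounds for the means of a run -/
structure Run (D T A : ℝ) (x : Fin n → ℝ) : Prop where
  A0 : 0 < A
  gb : ∀ j : ℕ, j * S.h ≤ T → S.gb A x j ≤ D / √((j + 1) * S.h)
  z : ∀ j : ℕ, j * S.h ≤ T → (∑ k, S.W T k * S.q k ^ j * x k ^ 2) / A ≤ D

/-- after the time `u` the starting point is forgotten -/
def Late (c T u s A : ℝ) (x : Fin n → ℝ) : Prop := S.h ≤ u ∧
  ∀ j : ℕ, u ≤ j * S.h → j * S.h ≤ T → c / √(j * S.h) ≤ S.ρ j ∧ |S.gb A x j - S.ρ j / 2| ≤ s ∧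
    (∑ k, S.W T k * S.q k ^ j * x k ^ 2) / A ≤ s

end Sy

/-- the scheme of the soft sphere -/
abbrev sy (n : ℕ) (η : ℕ → ℝ) (h : ℝ) (ρ : ℕ → ℝ) : Sy n := ⟨η, sx n ^ 2, (n : ℝ) ^ 2, h, ρ⟩

/-- the iterated operator is the mean along the path -/
def IterStmt : Prop := ∀ (n : ℕ) (S : Sy n) (v : (Fin n → ℝ) → ℝ), B1 v → ∀ (j : ℕ) x,
  Measurable (fun ω => S.path x ω j) ∧
    (Us n S.η S.t S.κ S.h)^[j] v x = ∫ ω, v (S.path x ω j) ∂PP (Fin n)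

/-- **(B)** deterministic part -/
def MeanStmt : Prop := ∀ L C w : ℝ, 0 ≤ L → 2 * L + 1 ≤ w → ∃ c D T₀ : ℝ, 0 < c ∧ 1 ≤ D ∧ 0 < T₀ ∧
  ∀ T u s : ℝ, 0 < T → T ≤ T₀ → 0 < u → 0 < s → ∃ δ : ℝ, 0 < δ ∧ ∀ a : ℝ, 0 < a →
    ∀ᶠ n in atTop, ∀ η, Gb n η L w C → ∀ᶠ h in 𝓝[>] (0 : ℝ), ∃ ρ, (sy n η h ρ).KF c D T ∧
      ∀ x, Nice n η 1 δ a x →
        (sy n η h ρ).Run D T (Aq n η 1 x) x ∧ (sy n η h ρ).Late c T u s (Aq n η 1 x) x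

/-- **(C)** a run is good with large probability -/
def BadStmt : Prop := ∀ c D ε : ℝ, 0 < c → 1 ≤ D → 0 < ε → ∃ R T₀ : ℝ, 1 ≤ R ∧ 0 < T₀ ∧
  ∀ T, T ≤ T₀ → ∀ (n : ℕ) (S : Sy n) (A : ℝ) (x : Fin n → ℝ), S.KF c D T → S.Run D T A x →
    ∀ j : ℕ, j * S.h ≤ T / 4 → PP (Fin n) (S.Good T R A x j)ᶜ ≤ ENNReal.ofReal ε

/-- **(D)** contraction -/
def ConStmt : Prop := ∀ c D R : ℝ, 0 < c → 1 ≤ D → 1 ≤ R → ∃ T₀ : ℝ, 0 < T₀ ∧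
  ∀ T β, 0 < T → T ≤ T₀ → 0 < β → ∃ u s : ℝ, 0 < u ∧ 0 < s ∧
    ∀ (n : ℕ) (S : Sy n) (A A' : ℝ) (x y : Fin n → ℝ), S.KF c D T → S.Run D T A x →
      S.Run D T A' y → S.Late c T u s A x → S.Late c T u s A' y →
      ∀ j : ℕ, T / 32 ≤ j * S.h → j * S.h ≤ T / 4 →
        ∫⁻ ω in S.Good T R A x j ∩ S.Good T R A' y j,
          ENNReal.ofReal (∑ k, S.W T k * (S.path x ω j k - S.path y ω j k) ^ 2) ∂PP (Fin n) ≤
          ENNReal.ofReal β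

/-- measurability of the good sets -/
def GmStmt : Prop := ∀ (n : ℕ) (S : Sy n) (T R A : ℝ) (x : Fin n → ℝ) (j : ℕ),
  MeasurableSet (S.Good T R A x j)

def MeanGlue : Prop := KernStmt → MeanStmt
/-- **(E)** -/
def FinGlue : Prop := IterStmt → GmStmt → MeanStmt → BadStmt → ConStmt → OscStmt

end Crest.Agent.T157.Cq.Os

end
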