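import Crest.Agent.T157.OsG_12
import Crest.Agent.T157.ConcH_16
import Crest.Agent.T157.EdClt_80

/-!
# Row 157, part C, oscillation lemma (helper12): probability toolkit

`lint_upd` (resampling), `l2`, `expm`, `tail`, `ville`, `chain`.
-/

set_option autoImplicit false

noncomputable section

namespace Crest.Agent.T157.Cq.Os

open MeasureTheory ProbabilityTheory Finset Function
open scoped ENNReal
open Crest.Agent.T157.E
open Crest.Agent.T157.Conc (ex ex_add ex_mono ex_zero ex_ne_top)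

variable {ι : Type} [Fintype ι]

/-- resampling one coordinate -/
theorem mp_upd (j : ℕ) : MeasurePreserving (fun p : Om ι × (ι → ℝ) => update p.1 j p.2)
    ((PP ι).prod (gv ι)) (PP ι) := by
  have hm : Measurable (fun p : Om ι × (ι → ℝ) => update p.1 j p.2) := measurable_update'
  refine ⟨hm, Measure.eq_infinitePi _ fun s t ht => ?_⟩
  rw [Measure.map_apply hm (MeasurableSet.pi s.countable_toSet fun i _ => ht i)]
  by_cases hj : j ∈ s
  · have : (fun p : Om ι × (ι → ℝ) => update p.1 j p.2) ⁻¹' (Set.pi s t) =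
        (Set.pi (s.erase j) t) ×ˢ (t j) := by
      ext ⟨g, x⟩
      simp only [Set.mem_preimage, Set.mem_pi, Set.mem_prod, coe_erase, Set.mem_sdiff, mem_coe,
        Set.mem_singleton_iff]
      refine ⟨fun h => ⟨fun i hi => ?_, by simpa using h j hj⟩, fun h i hi => ?_⟩
      · simpa [update_of_ne hi.2] using h i hi.1
      · by_cases e : i = j
        · subst e; simpa using h.2
        · simpa [update_of_ne e] using h.1 i ⟨hi, e⟩
    rw [this, Measure.prod_prod, Measure.infinitePi_pi _ fun i _ => ht i,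
      ← Finset.prod_erase_mul s _ hj]
  · have : (fun p : Om ι × (ι → ℝ) => update p.1 j p.2) ⁻¹' (Set.pi s t) =
        (Set.pi s t) ×ˢ Set.univ := by
      ext ⟨g, x⟩
      simp only [Set.mem_preimage, Set.mem_pi, Set.mem_prod, mem_coe, Set.mem_univ, and_true]
      exact forall₂_congr fun i hi => by rw [update_of_ne (ne_of_mem_of_not_mem hi hj)]
    rw [this, Measure.prod_prod, Measure.infinitePi_pi _ fun i _ => ht i, measure_univ, mul_one]

theorem lint_upd (j : ℕ) {F : Om ι → ℝ≥0∞} (hF : Measurable F) :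
    ∫⁻ ω, F ω ∂PP ι = ∫⁻ ω, ∫⁻ ξ, F (update ω j ξ) ∂gv ι ∂PP ι := by
  rw [← (mp_upd j).lintegral_comp hF]
  exact lintegral_prod _ (hF.comp measurable_update').aemeasurable

omit [Fintype ι] in
theorem Ad.mono {β : Type} {i j : ℕ} {F : Om ι → β} (h : Ad i F) (hij : i ≤ j) : Ad j F :=
  fun ω l ξ hl => h ω l ξ (hij.trans hl)

omit [Fintype ι] in
theorem Ad.comp {β γ : Type} {j : ℕ} {F : Om ι → β} (h : Ad j F) (g : β → γ) :
    Ad j fun ω => g (F ω) := fun ω l ξ hl => congrArg g (h ω l ξ hl)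

omit [Fintype ι] in
theorem Ad.comp₂ {β β' γ : Type} {j : ℕ} {F : Om ι → β} {F' : Om ι → β'} (h : Ad j F)
    (h' : Ad j F') (g : β → β' → γ) : Ad j fun ω => g (F ω) (F' ω) :=
  fun ω l ξ hl => congrArg₂ g (h ω l ξ hl) (h' ω l ξ hl)

omit [Fintype ι] in
theorem ad_noise {i j : ℕ} (h : i < j) : Ad j fun ω : Om ι => ω i :=
  fun ω l ξ hl => update_of_ne (by omega) ξ ω

/-! ### one step -/

theorem vr_nonneg (a c : ι → ℝ) : 0 ≤ vr a c := sum_nonneg fun _ _ => by positivity

@[fun_prop] theorem meas_Dl {α : Type*} [MeasurableSpace α] {a c ξ : α → ι → ℝ}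
    (ha : Measurable a) (hc : Measurable c) (hξ : Measurable ξ) :
    Measurable fun x => Dl (a x) (c x) (ξ x) := by unfold Dl; fun_prop

@[fun_prop] theorem meas_vr {α : Type*} [MeasurableSpace α] {a c : α → ι → ℝ}
    (ha : Measurable a) (hc : Measurable c) : Measurable fun x => vr (a x) (c x) := by
  unfold vr; fun_prop

theorem memLp_one (a c : ℝ) : MemLp (fun x : ℝ => a * x + c * (x ^ 2 - 1)) 2 (gaussianReal 0 1) :=
  ((memLp_id_gaussianReal 2).const_mul a).add
    ((Ed.Clt80.memLp_sq.sub (memLp_const 1)).const_mul c)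

theorem int_one (a c : ℝ) : ∫ x, (a * x + c * (x ^ 2 - 1)) ∂gaussianReal 0 1 = 0 := by
  have i1 : Integrable (fun x : ℝ => x) (gaussianReal 0 1) :=
    (memLp_id_gaussianReal 2).integrable one_le_two
  have i2 := Ed.Clt80.memLp_sq.integrable one_le_two
  have i3 : Integrable (fun x : ℝ => c * (x ^ 2 - 1)) (gaussianReal 0 1) :=
    (i2.sub (integrable_const 1)).const_mul c
  rw [integral_add (i1.const_mul a) i3, integral_const_mul,
    integral_const_mul, integral_sub i2 (integrable_const 1), Ed.Clt80.int_x2,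
    integral_id_gaussianReal]
  simp

theorem int_x3 : ∫ x : ℝ, x ^ 3 ∂gaussianReal 0 1 = 0 := by
  have h : ∫ x : ℝ, x ^ 3 ∂gaussianReal 0 1 = ∫ x : ℝ, (-x) ^ 3 ∂gaussianReal 0 1 := by
    conv_lhs => rw [← neg_zero, ← gaussianReal_map_neg]
    rw [integral_map (by fun_prop) (by fun_prop)]
  simp only [Odd.neg_pow (by decide : Odd 3), integral_neg] at h
  linarith

theorem var_one (a c : ℝ) :
    Var[fun x : ℝ => a * x + c * (x ^ 2 - 1); gaussianReal 0 1] = a ^ 2 + 2 * c ^ 2 := by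
  have i := fun p => Conc.SubE.integrable_pow (Conc.SubE.of_subG Conc.subG_gauss 1) one_pos p
  have i' : ∀ p : ℕ, Integrable (fun x : ℝ => x ^ p) (gaussianReal 0 1) := fun p =>
    (i p).mono' (by fun_prop) (ae_of_all _ fun x => by rw [Real.norm_eq_abs, abs_pow])
  rw [variance_eq_sub (memLp_one a c), int_one]
  have e : ((fun x : ℝ => a * x + c * (x ^ 2 - 1)) ^ 2) = fun x =>
      c ^ 2 * x ^ 4 + (2 * a * c * x ^ 3 + ((a ^ 2 - 2 * c ^ 2) * x ^ 2 +
        (-(2 * a * c) * x ^ 1 + c ^ 2))) := by ext x; simp only [Pi.pow_apply]; ring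
  have j1 := ((i' 1).const_mul (-(2 * a * c))).fun_add (integrable_const (c ^ 2))
  have j2 := ((i' 2).const_mul (a ^ 2 - 2 * c ^ 2)).fun_add j1
  have j3 := ((i' 3).const_mul (2 * a * c)).fun_add j2
  rw [e]
  beta_reduce
  rw [integral_add ((i' 4).const_mul _) j3, integral_add ((i' 3).const_mul _) j2,
    integral_add ((i' 2).const_mul _) j1, integral_add ((i' 1).const_mul _) (integrable_const _)]
  rw [integral_const_mul, integral_const_mul, integral_const_mul, integral_const_mul]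
  simp only [Ed.Clt80.int_x4, int_x3, Ed.Clt80.int_x2, pow_one,
    integral_id_gaussianReal, integral_const, probReal_univ, smul_eq_mul]
  ring

theorem memLp_Dl (a c : ι → ℝ) : MemLp (Dl a c) 2 (gv ι) :=
  memLp_finsetSum _ fun k _ => (memLp_one (a k) (c k)).comp_measurePreserving
    (measurePreserving_eval (fun _ : ι => gaussianReal 0 1) k)

theorem int_Dl (a c : ι → ℝ) : ∫ ξ, Dl a c ξ ∂gv ι = 0 := by
  unfold Dl
  rw [integral_finsetSum _ fun k _ => integrable_comp_eval (μ := fun _ : ι => gaussianReal 0 1)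
    (i := k) ((memLp_one (a k) (c k)).integrable one_le_two)]
  refine sum_eq_zero fun k _ => ?_
  rw [integral_comp_eval (μ := fun _ : ι => gaussianReal 0 1)
    (f := fun x : ℝ => a k * x + c k * (x ^ 2 - 1)) (by fun_prop), int_one]

theorem int_Dl_sq (a c : ι → ℝ) : ∫ ξ, Dl a c ξ ^ 2 ∂gv ι = vr a c := by
  have h := variance_sum_pi (μ := fun _ : ι => gaussianReal 0 1)
    (X := fun k x => a k * x + c k * (x ^ 2 - 1)) fun k => memLp_one _ _
  have e : (∑ k, fun ω : ι → ℝ => a k * ω k + c k * (ω k ^ 2 - 1)) = Dl a c := by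
    ext y; simp [Dl]
  rw [e, variance_eq_sub (memLp_Dl a c), int_Dl] at h
  simpa [var_one, vr] using h

theorem lint_sq (m : ℝ) (a c : ι → ℝ) : ∫⁻ ξ, ENNReal.ofReal ((m + Dl a c ξ) ^ 2) ∂gv ι =
    ENNReal.ofReal (m ^ 2) + ENNReal.ofReal (vr a c) := by
  have i1 := (memLp_Dl a c).integrable one_le_two
  have i2 := (memLp_Dl a c).integrable_sq
  have e : ∀ ξ, (m + Dl a c ξ) ^ 2 = m ^ 2 + (2 * m * Dl a c ξ + Dl a c ξ ^ 2) := fun ξ => by ring
  have i3 : Integrable (fun ξ => (m + Dl a c ξ) ^ 2) (gv ι) :=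
    ((memLp_const m).add (memLp_Dl a c)).integrable_sq
  have i4 : Integrable (fun ξ => 2 * m * Dl a c ξ + Dl a c ξ ^ 2) (gv ι) := (i1.const_mul _).add i2
  rw [← ofReal_integral_eq_lintegral_ofReal i3
    (ae_of_all _ fun _ => sq_nonneg _), ← ENNReal.ofReal_add (sq_nonneg _) (vr_nonneg _ _)]
  simp only [e]
  rw [integral_add (integrable_const _) i4, integral_add (i1.const_mul _) i2,
    integral_const_mul, int_Dl, int_Dl_sq]
  simp

theorem lint_lin {m : ℝ} {a c : ι → ℝ} (h : ∀ ξ, 0 ≤ m + Dl a c ξ) :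
    ∫⁻ ξ, ENNReal.ofReal (m + Dl a c ξ) ∂gv ι = ENNReal.ofReal m := by
  have i1 := (memLp_Dl a c).integrable one_le_two
  have i3 : Integrable (fun ξ => m + Dl a c ξ) (gv ι) := (integrable_const m).add i1
  rw [← ofReal_integral_eq_lintegral_ofReal i3 (ae_of_all _ h),
    integral_add (integrable_const _) i1, int_Dl]
  simp

theorem lint_ex {a c : ι → ℝ} (h : ∀ k, |c k| ≤ 1 / 8) :
    ∫⁻ ξ, ex (Dl a c ξ) ∂gv ι ≤ ex (4 * vr a c) := by
  rw [vr, mul_sum]
  refine Conc.lint_ex_sum (u := fun k x => a k * x + c k * (x ^ 2 - 1)) (fun k => by fun_prop)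
    fun k => Conc.lint_ex_add_le (by fun_prop) ?_ ?_
  · simp only [← mul_assoc]
    refine (Conc.subG_lint Conc.subG_gauss (2 * a k)).trans (ex_mono ?_)
    simp only [NNReal.coe_one]
    nlinarith [sq_nonneg (a k), sq_nonneg (c k)]
  · have e : ∀ x : ℝ, ex (2 * (c k * (x ^ 2 - 1))) = ex (-(2 * c k)) * ex (2 * c k * x ^ 2) :=
      fun x => by rw [← ex_add]; congr 1; ring
    simp only [e]
    rw [lintegral_const_mul' _ _ (ex_ne_top _)]
    refine (mul_le_mul_right (Conc.lint_sq_gauss (s := 2 * c k)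
      (by rw [abs_mul, abs_two]; linarith [h k])) _).trans ?_
    rw [← ex_add]
    exact ex_mono (by nlinarith [sq_nonneg (a k)])

/-! ### martingale transforms -/

variable {a c : ℕ → Om ι → ι → ℝ}

theorem mart_succ (a c : ℕ → Om ι → ι → ℝ) (j : ℕ) (ω : Om ι) :
    mart a c (j + 1) ω = mart a c j ω + Dl (a j ω) (c j ω) (ω j) := sum_range_succ _ _

@[simp] theorem mart_zero (a c : ℕ → Om ι → ι → ℝ) (ω : Om ι) : mart a c 0 ω = 0 := rfl

theorem meas_mart (ha : Prd a) (hc : Prd c) (j : ℕ) : Measurable (mart a c j) :=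
  Finset.measurable_sum _ fun i _ => meas_Dl (ha i).1 (hc i).1 (measurable_pi_apply i)

theorem ad_mart (ha : Prd a) (hc : Prd c) (j : ℕ) : Ad j (mart a c j) := fun ω l ξ hl =>
  sum_congr rfl fun i hi => by
    have := mem_range.1 hi
    rw [(ha i).2 ω l ξ (by omega), (hc i).2 ω l ξ (by omega), update_of_ne (by omega)]

theorem mart_upd (ha : Prd a) (hc : Prd c) (j : ℕ) (ω : Om ι) (ξ : ι → ℝ) :
    mart a c (j + 1) (update ω j ξ) = mart a c j ω + Dl (a j ω) (c j ω) ξ := by
  rw [mart_succ, ad_mart ha hc j ω j ξ le_rfl, (ha j).2 ω j ξ le_rfl, (hc j).2 ω j ξ le_rfl,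
    update_self]

omit [Fintype ι] in
/-- stopping -/
theorem Prd.ind (ha : Prd a) {B : ℕ → Set (Om ι)} (mB : ∀ i, MeasurableSet (B i))
    (aB : ∀ i ω l ξ, i ≤ l → (update ω l ξ ∈ B i ↔ ω ∈ B i)) :
    Prd fun i => (B i).indicator (a i) := fun i => ⟨(ha i).1.indicator (mB i), fun ω l ξ hl => by
  beta_reduce
  by_cases h : ω ∈ B i
  · rw [Set.indicator_of_mem h, Set.indicator_of_mem ((aB i ω l ξ hl).2 h), (ha i).2 ω l ξ hl]
  · rw [Set.indicator_of_notMem h, Set.indicator_of_notMem (mt (aB i ω l ξ hl).1 h)]⟩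

omit [Fintype ι] in
theorem prd_zero : Prd (0 : ℕ → Om ι → ι → ℝ) := fun _ => ⟨measurable_const, fun _ _ _ _ => rfl⟩

omit [Fintype ι] in
/-- deterministic multipliers -/
theorem Prd.mul (ha : Prd a) (u : ℕ → ι → ℝ) : Prd fun i ω k => u i k * a i ω k := fun i =>
  ⟨by have := (ha i).1; fun_prop, (ha i).2.comp fun z k => u i k * z k⟩

omit [Fintype ι] in
theorem Prd.sub (ha : Prd a) (hc : Prd c) : Prd fun i ω k => a i ω k - c i ω k := fun i =>
  ⟨by have := (ha i).1; have := (hc i).1; fun_prop,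
    (ha i).2.comp₂ (hc i).2 fun z z' k => z k - z' k⟩

/-- **isometry** -/
theorem l2 (ha : Prd a) (hc : Prd c) (m : ℝ) (j : ℕ) :
    ∫⁻ ω, ENNReal.ofReal ((m + mart a c j ω) ^ 2) ∂PP ι = ENNReal.ofReal (m ^ 2) +
      ∑ i ∈ range j, ∫⁻ ω, ENNReal.ofReal (vr (a i ω) (c i ω)) ∂PP ι := by
  induction j with
  | zero => simp
  | succ j ih =>
    have m1 := meas_mart ha hc (j + 1)
    have m2 := meas_mart ha hc j
    rw [lint_upd j (by fun_prop), sum_range_succ, ← add_assoc, ← ih,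
      ← lintegral_add_left (by fun_prop)]
    refine lintegral_congr fun ω => ?_
    simp only [mart_upd ha hc, ← add_assoc]
    exact lint_sq _ _ _

/-- **exponential moments** -/
theorem expm (ha : Prd a) (hc : Prd c) {v : ℕ → ℝ} {θ : ℝ} {j : ℕ}
    (hv : ∀ i < j, ∀ ω, vr (a i ω) (c i ω) ≤ v i) (hθ : ∀ i < j, ∀ ω k, |θ * c i ω k| ≤ 1 / 8) :
    ∫⁻ ω, ex (θ * mart a c j ω) ∂PP ι ≤ ex (4 * θ ^ 2 * ∑ i ∈ range j, v i) := by
  induction j with
  | zero => simp [ex_zero]
  | succ j ih =>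
    have m1 := meas_mart ha hc (j + 1)
    have m2 := meas_mart ha hc j
    rw [lint_upd j (by fun_prop), sum_range_succ, mul_add, ex_add]
    refine le_trans (lintegral_mono (g := fun ω => ex (θ * mart a c j ω) * ex (4 * θ ^ 2 * v j))
      fun ω => ?_) ?_
    · simp only [mart_upd ha hc, mul_add, ex_add]
      rw [lintegral_const_mul' _ _ (ex_ne_top _)]
      refine mul_le_mul_right ?_ _
      have e : ∀ ξ, θ * Dl (a j ω) (c j ω) ξ = Dl (fun k => θ * a j ω k) (fun k => θ * c j ω k) ξ :=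
        fun ξ => by simp only [Dl, mul_sum]; exact sum_congr rfl fun _ _ => by ring
      simp only [e]
      refine (lint_ex (hθ j j.lt_succ_self ω)).trans (ex_mono ?_)
      have e2 : vr (fun k => θ * a j ω k) (fun k => θ * c j ω k) = θ ^ 2 * vr (a j ω) (c j ω) := by
        simp only [vr, mul_sum]; exact sum_congr rfl fun _ _ => by ring
      rw [e2, mul_assoc]
      exact mul_le_mul_of_nonneg_left
        (mul_le_mul_of_nonneg_left (hv j j.lt_succ_self ω) (sq_nonneg _)) (by norm_num)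
    · rw [lintegral_mul_const' _ _ (ex_ne_top _)]
      exact mul_le_mul_left (ih (fun i hi => hv i (by omega)) fun i hi => hθ i (by omega)) _

/-- **Gaussian tail** in the moderate range -/
theorem tail (ha : Prd a) (hc : Prd c) {v : ℕ → ℝ} {V s : ℝ} {j : ℕ} (hV : 0 < V) (hs : 0 ≤ s)
    (hv : ∀ i < j, ∀ ω, vr (a i ω) (c i ω) ≤ v i) (hsum : ∑ i ∈ range j, v i ≤ V)
    (hb : ∀ i < j, ∀ ω k, s * |c i ω k| ≤ V) :
    PP ι {ω | s ≤ |mart a c j ω|} ≤ 2 * ex (-(s ^ 2 / (16 * V))) := by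
  have m1 := meas_mart ha hc j
  have h0 : 0 ≤ s / (8 * V) := by positivity
  have hθ : ∀ i < j, ∀ ω k, |s / (8 * V) * c i ω k| ≤ 1 / 8 := fun i hi ω k => by
    rw [abs_mul, abs_of_nonneg h0, div_mul_eq_mul_div, div_le_iff₀ (by positivity)]
    linarith [hb i hi ω k]
  have key : 4 * (s / (8 * V)) ^ 2 * ∑ i ∈ range j, v i - s / (8 * V) * s ≤ -(s ^ 2 / (16 * V)) := by
    have h1 := mul_le_mul_of_nonneg_left hsum (by positivity : 0 ≤ 4 * (s / (8 * V)) ^ 2)
    have h2 : 4 * (s / (8 * V)) ^ 2 * V - s / (8 * V) * s = -(s ^ 2 / (16 * V)) := by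
      field_simp; ring
    linarith
  have h1 := (Conc.chernoff m1.aemeasurable h0 (expm ha hc hv hθ) s).trans (ex_mono key)
  have h2 := expm ha hc (θ := -(s / (8 * V))) hv fun i hi ω k => by
    rw [neg_mul, abs_neg]; exact hθ i hi ω k
  simp only [neg_mul, ← mul_neg, neg_sq] at h2
  have h3 := (Conc.chernoff (X := fun ω => -mart a c j ω) m1.neg.aemeasurable h0 h2 s).trans
    (ex_mono key)
  rw [two_mul]
  refine le_trans (measure_mono fun ω hω => ?_) ((measure_union_le _ _).trans (add_le_add h1 h3))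
  exact le_abs.1 (show s ≤ |mart a c j ω| from hω)

/-- **Ville's inequality** -/
theorem ville (ha : Prd a) (hc : Prd c) {m lam : ℝ} {J : ℕ} (hl : 0 < lam)
    (h0 : ∀ j ≤ J, ∀ ω, 0 ≤ m + mart a c j ω) :
    PP ι {ω | ∃ j ≤ J, lam ≤ m + mart a c j ω} ≤ ENNReal.ofReal (m / lam) := by
  classical
  let B : ℕ → Set (Om ι) := fun i => {ω | ∀ l ≤ i, m + mart a c l ω < lam}
  have mB : ∀ i, MeasurableSet (B i) := fun i => by
    simp only [B, Set.ofPred_forall]
    exact MeasurableSet.iInter fun l => MeasurableSet.iInter fun _ =>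
      measurableSet_lt ((meas_mart ha hc l).const_add m) measurable_const
  have aB : ∀ i ω l ξ, i ≤ l → (update ω l ξ ∈ B i ↔ ω ∈ B i) := fun i ω l ξ hl =>
    forall₂_congr fun r hr => by rw [ad_mart ha hc r ω l ξ (hr.trans hl)]
  have pr : ∀ {a : ℕ → Om ι → ι → ℝ}, Prd a → Prd fun i => (B i).indicator (a i) :=
    fun ha => ha.ind mB aB
  set a' := fun i => (B i).indicator (a i)
  set c' := fun i => (B i).indicator (c i)
  have key : ∀ j ≤ J, ∀ ω, (ω ∈ B j → mart a' c' j ω = mart a c j ω) ∧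
      (ω ∉ B j → lam ≤ m + mart a' c' j ω) ∧ 0 ≤ m + mart a' c' j ω := fun j hj ω => by
    induction j with
    | zero =>
      refine ⟨fun _ => rfl, fun h => ?_, h0 0 hj ω⟩
      by_contra h'
      exact h fun l hl => by rw [Nat.le_zero.1 hl]; exact not_le.1 h'
    | succ j ih =>
      obtain ⟨i1, i2, -⟩ := ih (by omega)
      by_cases hB : ω ∈ B j
      · have e : mart a' c' (j + 1) ω = mart a c (j + 1) ω := by
          rw [mart_succ, mart_succ, i1 hB]; simp only [a', c', Set.indicator_of_mem hB]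
        refine ⟨fun _ => e, fun h => ?_, e ▸ h0 _ hj ω⟩
        rw [e]
        by_contra h'
        exact h fun l hl => (Nat.le_succ_iff.1 hl).elim (hB l) fun e => e ▸ not_le.1 h'
      · have e : mart a' c' (j + 1) ω = mart a' c' j ω := by
          rw [mart_succ]; simp [a', c', Set.indicator_of_notMem hB, Dl]
        rw [e]
        exact ⟨fun h => absurd (fun l hl => h l (by omega)) hB, fun _ => i2 hB,
          hl.le.trans (i2 hB)⟩
  have mean : ∀ j ≤ J, ∫⁻ ω, ENNReal.ofReal (m + mart a' c' j ω) ∂PP ι = ENNReal.ofReal m :=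
    fun j hj => by
      induction j with
      | zero => simp
      | succ j ih =>
        have m1 := meas_mart (pr ha) (pr hc) (j + 1)
        rw [lint_upd j (by fun_prop), ← ih (by omega)]
        refine lintegral_congr fun ω => ?_
        simp only [a', c', mart_upd (pr ha) (pr hc), ← add_assoc]
        refine lint_lin fun ξ => ?_
        have := (key (j + 1) hj (update ω j ξ)).2.2
        rwa [mart_upd (pr ha) (pr hc), ← add_assoc] at this
  have m1 := meas_mart (pr ha) (pr hc) J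
  have h1 := mul_meas_ge_le_lintegral (μ := PP ι)
    (f := fun ω => ENNReal.ofReal (m + mart a' c' J ω)) (by fun_prop) (ENNReal.ofReal lam)
  rw [mean J le_rfl] at h1
  rw [ENNReal.ofReal_div_of_pos hl, ENNReal.le_div_iff_mul_le (Or.inl (by simpa using hl))
    (Or.inl ENNReal.ofReal_ne_top), mul_comm]
  refine le_trans (mul_le_mul_right (measure_mono fun ω hω => ?_) _) h1
  obtain ⟨j, hj, h⟩ := hω
  exact ENNReal.ofReal_le_ofReal ((key J le_rfl ω).2.1 fun hB => absurd (hB j hj) (not_lt.2 h))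

/-! ### dyadic chaining -/

theorem chain_det {g cc : ℕ → ℝ} {J : ℕ} (hc : ∀ s, 0 ≤ cc s)
    (h : ∀ s i, (i + 1) * 2 ^ s ≤ J → |g (i * 2 ^ s + 2 ^ s) - g (i * 2 ^ s)| ≤ cc s) (S : ℕ)
    {j : ℕ} (hj : j ≤ J) : |g j - g (j / 2 ^ S * 2 ^ S)| ≤ ∑ s ∈ range S, cc s := by
  induction S with
  | zero => simp
  | succ S ih =>
    rw [sum_range_succ]
    refine (abs_sub_le _ (g (j / 2 ^ S * 2 ^ S)) _).trans (add_le_add ih ?_)
    have e : j / 2 ^ (S + 1) * 2 ^ (S + 1) = 2 * (j / 2 ^ S / 2) * 2 ^ S := by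
      rw [Nat.div_div_eq_div_mul, ← pow_succ]; ring
    have h1 := Nat.div_mul_le_self j (2 ^ S)
    rw [e]
    generalize j / 2 ^ S = p at h1
    obtain ⟨r, rfl | rfl⟩ := p.even_or_odd'
    · rw [show 2 * r / 2 = r by omega, sub_self, abs_zero]; exact hc S
    · rw [show (2 * r + 1) / 2 = r by omega, add_mul, one_mul]; exact h S _ (h1.trans hj)

theorem chain {Ω : Type*} [MeasurableSpace Ω] (μ : Measure Ω) (f : ℕ → Ω → ℝ) (J : ℕ) {V : ℝ}
    (hV : 0 < V) (hV1 : 30000 * V ≤ 1)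
    (h : ∀ (j l : ℕ) (s : ℝ), 0 < l → j + l ≤ J → 0 < s → s ≤ 1 →
      μ {ω | s ≤ |f (j + l) ω - f j ω|} ≤ 2 * ex (-(s ^ 2 / (V * √((l : ℝ) / J))))) :
    μ {ω | ∃ j ≤ J, 1 < |f j ω - f 0 ω|} ≤ ENNReal.ofReal (2000 * V) := by
  set L := Nat.log 2 J
  have hL : J < 2 ^ (L + 1) := Nat.lt_pow_succ_log_self one_lt_two J
  let cc : ℕ → ℝ := fun s => 1 / 12 * (11 / 12) ^ (L - s)
  have c0 : ∀ s, 0 < cc s := fun s => by positivity
  have c1 : ∀ s, cc s ≤ 1 := fun s => by
    have : (11 / 12 : ℝ) ^ (L - s) ≤ 1 := pow_le_one₀ (by norm_num) (by norm_num)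
    simp only [cc]; linarith
  have geo : ∀ {x : ℝ}, 0 ≤ x → x < 1 → ∑ s ∈ range (L + 1), x ^ (L - s) ≤ (1 - x)⁻¹ :=
    fun {x} h0 h1 => by
      rw [← tsum_geometric_of_lt_one h0 h1]
      exact (sum_range_reflect (fun r => x ^ r) (L + 1)).le.trans
        ((summable_geometric_of_lt_one h0 h1).sum_le_tsum _ fun _ _ => by positivity)
  let E : ℕ → ℕ → Set Ω := fun s i =>
    {ω | (i + 1) * 2 ^ s ≤ J ∧ cc s ≤ |f (i * 2 ^ s + 2 ^ s) ω - f (i * 2 ^ s) ω|}
  have sub : {ω | ∃ j ≤ J, 1 < |f j ω - f 0 ω|} ⊆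
      ⋃ s ∈ range (L + 1), ⋃ i ∈ range (2 ^ (L - s + 1)), E s i := fun ω ⟨j, hj, hω⟩ => by
    by_contra hn
    simp only [Set.mem_iUnion, not_exists, E, Set.mem_ofPred_eq, not_and, not_le, mem_range] at hn
    have h1 := chain_det (g := fun j => f j ω) (fun s => (c0 s).le) (fun s i hi => ?_) (L + 1) hj
    · rw [Nat.div_eq_of_lt (hj.trans_lt hL), zero_mul, ← mul_sum] at h1
      have := geo (x := 11 / 12) (by norm_num) (by norm_num)
      norm_num at this
      linarith
    · have h2 : 2 ^ s < 2 ^ (L + 1) := lt_of_le_of_lt (by nlinarith [Nat.zero_le (i * 2 ^ s)])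
        (hi.trans_lt hL)
      have h3 : s < L + 1 := (Nat.pow_lt_pow_iff_right one_lt_two).1 h2
      refine (hn s h3 i ?_ hi).le
      have h4 : (i + 1) * 2 ^ s < 2 ^ (L - s + 1) * 2 ^ s := by
        rw [← pow_add, show L - s + 1 + s = L + 1 by omega]; exact hi.trans_lt hL
      have := lt_of_mul_lt_mul_right h4 (Nat.zero_le _)
      omega
  have x0 : 200 ≤ 1 / (144 * V) := by rw [le_div_iff₀ (by positivity)]; linarith
  have bE : ∀ s ∈ range (L + 1), ∀ i,
      μ (E s i) ≤ ENNReal.ofReal (288 * V * (1 / 4) ^ (L - s)) := fun s hs i => by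
    by_cases hi : (i + 1) * 2 ^ s ≤ J
    swap
    · rw [show E s i = ∅ from Set.eq_empty_of_forall_notMem fun ω hω => hi hω.1]; simp
    have J0 : J ≠ 0 := by have : 0 < (i + 1) * 2 ^ s := by positivity
                          omega
    have J1 : (0 : ℝ) < J := by positivity
    refine le_trans (measure_mono fun ω hω => hω.2)
      ((h _ _ _ (by positivity) (by rwa [add_mul, one_mul] at hi) (c0 s) (c1 s)).trans ?_)
    generalize hr : L - s = r
    have h1 : √(((2 ^ s : ℕ) : ℝ) / J) ≤ (3 / 4) ^ r := by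
      have h2 : ((2 ^ L : ℕ) : ℝ) ≤ J := by exact_mod_cast Nat.pow_log_le_self 2 J0
      have h3 : L = s + r := by have := mem_range.1 hs; omega
      rw [h3] at h2
      push_cast at h2 ⊢
      rw [Real.sqrt_le_iff, div_le_iff₀ J1, ← pow_mul, mul_comm r, pow_mul]
      refine ⟨by positivity, le_trans ?_ (mul_le_mul_of_nonneg_left h2 (by positivity))⟩
      rw [pow_add, mul_left_comm, ← mul_pow]
      exact le_mul_of_one_le_right (by positivity) (one_le_pow₀ (by norm_num))
    have h4 : 0 < √(((2 ^ s : ℕ) : ℝ) / J) := Real.sqrt_pos.2 (by positivity)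
    have h5 : 1 / (144 * V) * (121 / 108) ^ r ≤ cc s ^ 2 / (V * √(((2 ^ s : ℕ) : ℝ) / J)) := by
      rw [le_div_iff₀ (by positivity)]
      simp only [cc, hr]
      calc _ ≤ 1 / (144 * V) * (121 / 108) ^ r * (V * (3 / 4) ^ r) := by gcongr
        _ = 1 / 144 * ((121 / 108) ^ r * (3 / 4) ^ r) := by field_simp
        _ = _ := by
          rw [← mul_pow, mul_pow (1 / 12 : ℝ), ← pow_mul, mul_comm r, pow_mul]; norm_num
    have h6 : 1 + (r : ℝ) * (13 / 108) ≤ (121 / 108) ^ r := by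
      simpa [show (1 : ℝ) + 13 / 108 = 121 / 108 by norm_num] using
        one_add_mul_le_pow (by norm_num : (-2 : ℝ) ≤ 13 / 108) r
    have h7 : 1 / (144 * V) + r * 3 ≤ cc s ^ 2 / (V * √(((2 ^ s : ℕ) : ℝ) / J)) := by
      have := mul_le_mul_of_nonneg_left h6 (by positivity : 0 ≤ 1 / (144 * V))
      nlinarith [Nat.cast_nonneg (α := ℝ) r]
    have h8 : Real.exp (-(1 / (144 * V))) ≤ 144 * V := by
      rw [Real.exp_neg, inv_le_comm₀ (Real.exp_pos _) (by positivity), ← one_div]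
      linarith [Real.add_one_le_exp (1 / (144 * V))]
    have h9 : Real.exp (-3) ≤ 1 / 4 := by
      rw [Real.exp_neg, inv_le_comm₀ (Real.exp_pos _) (by positivity)]
      linarith [Real.add_one_le_exp 3]
    rw [ex, ← ENNReal.ofReal_ofNat, ← ENNReal.ofReal_mul (by norm_num)]
    refine ENNReal.ofReal_le_ofReal ?_
    calc _ ≤ 2 * Real.exp (-(1 / (144 * V)) + r * (-3)) := by gcongr; linarith
      _ = 2 * (Real.exp (-(1 / (144 * V))) * Real.exp (-3) ^ r) := by
        rw [Real.exp_add, Real.exp_nat_mul]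
      _ ≤ 2 * (144 * V * (1 / 4) ^ r) := by gcongr
      _ = _ := by ring
  refine (measure_mono sub).trans ((measure_biUnion_finset_le _ _).trans ?_)
  refine le_trans (sum_le_sum (g := fun s => ENNReal.ofReal (576 * V * (1 / 2) ^ (L - s)))
    fun s hs => (measure_biUnion_finset_le _ _).trans
      ((sum_le_sum fun i _ => bE s hs i).trans (le_of_eq ?_))) ?_
  · rw [sum_const, card_range, ← ENNReal.ofReal_nsmul, nsmul_eq_mul]
    congr 1
    push_cast
    rw [show (1 / 2 : ℝ) = 2 * (1 / 4) by norm_num, mul_pow]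
    ring
  · rw [← ENNReal.ofReal_sum_of_nonneg fun _ _ => by positivity, ← mul_sum]
    refine ENNReal.ofReal_le_ofReal ?_
    have := geo (x := 1 / 2) (by norm_num) (by norm_num)
    norm_num at this ⊢
    nlinarith

end Crest.Agent.T157.Cq.Os

end
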