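import Crest.Agent.T157.OscDef_27

/-! # The contraction step of the oscillation lemma (helper27) -/

set_option autoImplicit false

noncomputable section

namespace Crest.Agent.T157.Cq.Osc

open MeasureTheory ProbabilityTheory Matrix Filter Topology Finset Real
open Crest.Agent.T157.E Crest.Agent.T157.St Crest.Agent.T157.Ed

namespace Con27

variable {n : ℕ}

theorem conv_le (f e : ℕ → ℝ) (hf : ∀ m, 0 ≤ f m) (he : ∀ m, 0 ≤ e m) (j : ℕ) :
    ∑ l ∈ range j, ∑ r ∈ range l, f (l - 1 - r) * e r ≤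
      (∑ m ∈ range j, f m) * ∑ r ∈ range j, e r := by
  rw [sum_comm' (s' := fun r => Ico (r + 1) j) (t' := range j)
    (by intro l r; simp only [mem_range, mem_Ico]; omega), mul_sum]
  refine sum_le_sum fun r _ => ?_
  rw [← sum_mul, sum_Ico_eq_sum_range]
  refine mul_le_mul_of_nonneg_right ?_ (he r)
  have : ∀ m, r + 1 + m - 1 - r = m := fun m => by omega
  simp_rw [this]
  exact sum_le_sum_of_subset_of_nonneg (range_subset_range.2 (by omega)) fun m _ _ => hf m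

theorem sum_gu {h C : ℝ} (h0 : 0 < h) (hC : 0 ≤ C) (m : ℕ) :
    h * ∑ l ∈ range m, C / √((l + 1) * h) ≤ 2 * C * √(m * h) := by
  have s0 : 0 < √h := sqrt_pos.2 h0
  have e : ∀ l : ℕ, C / √((l + 1) * h) = C / √h * (√((l : ℝ) + 1))⁻¹ := fun l => by
    rw [sqrt_mul (by positivity)]; field_simp
  simp_rw [e]
  rw [← mul_sum, sqrt_mul (by positivity)]
  calc h * (C / √h * ∑ l ∈ range m, (√((l : ℝ) + 1))⁻¹) ≤ h * (C / √h * (2 * √(m : ℝ))) := by
        gcongr; exact sum_isqrt m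
    _ = 2 * C * (√(m : ℝ) * (h / √h)) := by ring
    _ = _ := by rw [div_sqrt]

theorem sum_early {h C s : ℝ} (h0 : 0 < h) (hC : 0 ≤ C) (hs : 0 ≤ s) (hh : h ≤ s ^ 2) (j : ℕ) :
    h * ∑ l ∈ range j, (if (l : ℝ) * h < s ^ 2 then C / √((l + 1) * h) else 0) ≤ 3 * C * s := by
  rw [← sum_filter]
  have h1 : ∑ l ∈ (range j).filter (fun l : ℕ => (l : ℝ) * h < s ^ 2), C / √((l + 1) * h) ≤
      ∑ l ∈ range ⌈s ^ 2 / h⌉₊, C / √((l + 1) * h) :=
    sum_le_sum_of_subset_of_nonneg (fun l hl => mem_range.2 (Nat.lt_ceil.2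
      ((lt_div_iff₀ h0).2 (mem_filter.1 hl).2))) fun _ _ _ => by positivity
  refine (mul_le_mul_of_nonneg_left h1 h0.le).trans ((sum_gu h0 hC _).trans ?_)
  have h2 : (⌈s ^ 2 / h⌉₊ : ℝ) * h ≤ s ^ 2 + h := by
    have := (Nat.ceil_lt_add_one (show 0 ≤ s ^ 2 / h by positivity)).le
    calc _ ≤ (s ^ 2 / h + 1) * h := by gcongr
      _ = _ := by field_simp
  have h3 : √((⌈s ^ 2 / h⌉₊ : ℝ) * h) ≤ 3 / 2 * s :=
    sqrt_le_iff.2 ⟨by positivity, by nlinarith [sq_nonneg s]⟩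
  nlinarith

theorem wt_nn {η : ℕ → ℝ} {T : ℝ} (hT : 0 < T) (k : ℕ) : 0 ≤ Wt η T k := by
  unfold Wt
  have := le_max_right (η k) 0
  positivity

theorem wt_le {η : ℕ → ℝ} {T : ℝ} (hT : 0 < T) (k : ℕ) : Wt η T k ≤ T := by
  unfold Wt
  have := le_max_right (η k) 0
  exact div_le_self hT.le (by nlinarith)

theorem inc_sub (a c a' c' ξ : Fin n → ℝ) :
    inc a c ξ - inc a' c' ξ = inc (fun k => a k - a' k) (fun k => c k - c' k) ξ := by
  unfold inc
  rw [← sum_sub_distrib]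
  exact sum_congr rfl fun k _ => by ring

variable (S : Sy n) (T Z : ℝ) (p p' : ℝ × (Fin n → ℝ))

/-- not yet stopped -/
def I (i : ℕ) (ω : Nz n) : ℝ := (S.Ok T Z p p' (i + 1)).indicator 1 ω
/-- difference of the amplitudes -/
def dd (i : ℕ) (ω : Nz n) : ℝ := √(S.g p i ω) - √(S.g p' i ω)
/-- difference of the modes -/
def zz (i : ℕ) (ω : Nz n) (k : Fin n) : ℝ := S.be p i ω k - S.be p' i ω k
/-- difference of the noises -/
def ee (j : ℕ) (ω : Nz n) : ℝ := (S.g p j ω - S.gb p j) - (S.g p' j ω - S.gb p' j)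

variable {S T Z p p'}

theorem I_one {i : ℕ} {ω : Nz n} (h : ω ∈ S.Ok T Z p p' (i + 1)) : I S T Z p p' i ω = 1 :=
  Set.indicator_of_mem h _
theorem I_zero {i : ℕ} {ω : Nz n} (h : ω ∉ S.Ok T Z p p' (i + 1)) : I S T Z p p' i ω = 0 :=
  Set.indicator_of_notMem h _
theorem ok_mono {i j : ℕ} (hij : i ≤ j) {ω : Nz n} (h : ω ∈ S.Ok T Z p p' j) :
    ω ∈ S.Ok T Z p p' i := fun l hl => h l (by omega)

/-- what is used of a run -/
structure Rn (S : Sy n) (p : ℝ × (Fin n → ℝ)) : Prop where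
  m : ∀ j, Measurable (S.st p j)
  a : ∀ j, Ad j (S.st p j)
  ag : ∀ j, Ad j (S.g p j)
  pos : ∀ j ω, 0 < S.g p j ω
  du : ∀ j ω, S.g p j ω = S.gb p j + ∑ l ∈ range j,
    inc (fun k => S.K k (j - 1 - l) * S.ca p l ω k) (fun k => S.K k (j - 1 - l) * S.cc p l ω) (ω l)

theorem rn_of (H : DuStmt) (hS : S.Bas) (hp : 0 < p.1) : Rn S p := by
  obtain ⟨h1, h2, -, h4⟩ := H n S p hS hp
  exact ⟨fun j => (h1 j).1, fun j => (h1 j).2.1, fun j => (h1 j).2.2,
    fun j ω => (h2 (j + 1) ω).1, h4⟩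

theorem Rn.mg (R : Rn S p) (j : ℕ) : Measurable (S.g p j) := (R.m (j + 1)).fst
theorem Rn.mb (R : Rn S p) (j : ℕ) (k : Fin n) : Measurable fun ω => S.be p j ω k :=
  (measurable_pi_apply k).comp (R.m j).snd
theorem Rn.ab (R : Rn S p) (j : ℕ) : Ad j (S.be p j) := fun ω ω' H => by
  unfold Sy.be; rw [R.a j ω ω' H]

theorem Rn.mgood (R : Rn S p) (i : ℕ) : MeasurableSet {ω | S.Good T Z p i ω} := by
  change MeasurableSet ({ω | S.V T (S.be p i ω) ≤ Z} ∩ {ω | |S.g p i ω - S.gb p i| ≤ 1})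
  refine MeasurableSet.inter (measurableSet_le ?_ measurable_const)
    (measurableSet_le ((R.mg i).sub measurable_const).abs measurable_const)
  exact Finset.measurable_sum _ fun k _ => ((R.mb i k).pow_const 2).const_mul _

theorem m_ok (R : Rn S p) (R' : Rn S p') (j : ℕ) : MeasurableSet (S.Ok T Z p p' j) := by
  have : S.Ok T Z p p' j = ⋂ i ∈ range j, {ω | S.Good T Z p i ω} ∩ {ω | S.Good T Z p' i ω} := by
    ext ω; simp [Sy.Ok]
  rw [this]
  exact Finset.measurableSet_biInter _ fun i _ => (R.mgood i).inter (R'.mgood i)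

theorem m_I (R : Rn S p) (R' : Rn S p') (i : ℕ) : Measurable (I S T Z p p' i) :=
  measurable_const.indicator (m_ok R R' _)

theorem ad_I (R : Rn S p) (R' : Rn S p') (i : ℕ) : Ad i (I S T Z p p' i) := fun ω ω' H => by
  have : ω ∈ S.Ok T Z p p' (i + 1) ↔ ω' ∈ S.Ok T Z p p' (i + 1) := by
    refine forall₂_congr fun l hl => ?_
    have H' : ∀ m, m < l → ω m = ω' m := fun m hm => H m (by omega)
    unfold Sy.Good
    rw [R.ab l ω ω' H', R'.ab l ω ω' H', R.ag l ω ω' H', R'.ag l ω ω' H']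
  by_cases h : ω ∈ S.Ok T Z p p' (i + 1)
  · rw [I_one h, I_one (this.1 h)]
  · rw [I_zero h, I_zero fun h' => h (this.2 h')]

theorem m_dd (R : Rn S p) (R' : Rn S p') (i : ℕ) : Measurable (dd S p p' i) :=
  (R.mg i).sqrt.sub (R'.mg i).sqrt

theorem I_sq (i : ℕ) (ω : Nz n) : I S T Z p p' i ω ^ 2 = I S T Z p p' i ω := by
  by_cases h : ω ∈ S.Ok T Z p p' (i + 1)
  · rw [I_one h]; norm_num
  · rw [I_zero h]; norm_num

theorem zz_eq (h0 : 0 < S.h) (i : ℕ) (ω : Nz n) (k : Fin n) :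
    zz S p p' i ω k = √(S.q k) ^ i * (p.2 k - p'.2 k) +
      ∑ l ∈ range i, √(S.q k) ^ (i - 1 - l) * √(2 * S.h) * dd S p p' l ω * ω l k := by
  induction i with
  | zero => simp [zz, Sy.be, Sy.st]
  | succ i ih =>
    have e : zz S p p' (i + 1) ω k = √(S.q k) * zz S p p' i ω k +
        √(2 * S.h) * dd S p p' i ω * ω i k := by
      have e1 : ∀ r : ℝ × (Fin n → ℝ), S.be r (i + 1) ω k =
          √(S.q k) * S.be r i ω k + √(2 * S.h * S.g r i ω) * ω i k := fun r => rfl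
      unfold zz dd
      rw [e1, e1, sqrt_mul (x := 2 * S.h) (by positivity), sqrt_mul (x := 2 * S.h) (by positivity)]
      ring
    rw [e, ih, sum_range_succ, mul_add, mul_sum]
    have : ∑ l ∈ range i, √(S.q k) * (√(S.q k) ^ (i - 1 - l) * √(2 * S.h) * dd S p p' l ω * ω l k) =
        ∑ l ∈ range i, √(S.q k) ^ (i + 1 - 1 - l) * √(2 * S.h) * dd S p p' l ω * ω l k :=
      sum_congr rfl fun l hl => by
        have : i + 1 - 1 - l = (i - 1 - l) + 1 := by have := mem_range.1 hl; omega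
        rw [this, pow_succ]; ring
    rw [this]
    simp only [Nat.add_sub_cancel, Nat.sub_self, pow_zero, pow_succ]
    ring

/-- second moment of the difference of a mode -/
theorem zb (L : L2Stmt) (hS : S.Bas) (R : Rn S p) (R' : Rn S p') (δ : ℕ → ℝ) (i : ℕ)
    (hδ : ∀ l, l < i → 0 ≤ δ l ∧ EB (fun ω => I S T Z p p' l ω * dd S p p' l ω ^ 2) (δ l))
    (k : Fin n) : EB ((S.Ok T Z p p' i).indicator fun ω => zz S p p' i ω k ^ 2)
      (S.q k ^ i * (p.2 k - p'.2 k) ^ 2 + 2 * S.h * ∑ l ∈ range i, S.q k ^ (i - 1 - l) * δ l) := by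
  classical
  have h0 := hS.h0
  have hq := hS.q0 k
  have sq : ∀ m : ℕ, (√(S.q k) ^ m) ^ 2 = S.q k ^ m := fun m => by
    rw [← pow_mul, mul_comm, pow_mul, sq_sqrt hq]
  set a : ℕ → Nz n → Fin n → ℝ := fun l ω k' => if k' = k then
    I S T Z p p' l ω * (√(S.q k) ^ (i - 1 - l) * √(2 * S.h) * dd S p p' l ω) else 0 with ha
  have co : Co a (fun _ _ _ => 0) := by
    refine ⟨fun l => measurable_pi_lambda _ fun k' => ?_, fun _ => measurable_const,
      fun l ω ω' H => ?_, fun _ _ _ _ => rfl⟩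
    · by_cases e : k' = k
      · simp only [ha, e, if_true]
        exact (m_I R R' l).mul ((m_dd R R' l).const_mul _)
      · simp only [ha, e, if_false]; exact measurable_const
    · funext k'
      simp only [ha, dd]
      rw [ad_I R R' l ω ω' H, R.ag l ω ω' H, R'.ag l ω ω' H]
  have := L n a _ co (√(S.q k) ^ i * (p.2 k - p'.2 k)) (fun l => 2 * S.h * S.q k ^ (i - 1 - l) * δ l)
    i fun l hl => ⟨by have := (hδ l hl).1; positivity, by
      refine ((hδ l hl).2.smul (s := 2 * S.h * S.q k ^ (i - 1 - l)) (by positivity)).mono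
        (fun ω => le_of_eq ?_) le_rfl
      simp only [vr, ha, ite_pow, ne_eq, OfNat.ofNat_ne_zero, not_false_eq_true, zero_pow, mul_zero,
        add_zero, sum_ite_eq', mem_univ, if_true]
      rw [mul_pow, mul_pow, mul_pow, I_sq, sq, sq_sqrt (by positivity)]
      ring⟩
  refine this.mono (fun ω => ?_) (le_of_eq ?_)
  · by_cases h : ω ∈ S.Ok T Z p p' i
    · rw [Set.indicator_of_mem h, zz_eq h0]
      refine le_of_eq ?_
      congr 2
      refine sum_congr rfl fun l hl => ?_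
      simp only [inc, ha, ite_mul, zero_mul, add_zero, sum_ite_eq', mem_univ, if_true]
      rw [I_one (ok_mono (mem_range.1 hl) h), one_mul]
    · rw [Set.indicator_of_notMem h]; positivity
  · rw [mul_pow, sq, mul_sum]
    congr 1
    exact sum_congr rfl fun l _ => by ring

variable {c D C₁ σ : ℝ} {M : ℕ}

theorem m_ee (R : Rn S p) (R' : Rn S p') (j : ℕ) : Measurable (ee S p p' j) :=
  ((R.mg j).sub measurable_const).sub ((R'.mg j).sub measurable_const)

theorem dsq_le {a b u : ℝ} (ha : 0 < a) (hb : 0 < b) (hau : a ≤ u) (hbu : b ≤ u) :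
    (√a - √b) ^ 2 ≤ u ∧ (a - b) ^ 2 ≤ 4 * u * (√a - √b) ^ 2 := by
  have h1 := sq_sqrt ha.le
  have h2 := sq_sqrt hb.le
  have h3 := sqrt_nonneg a
  have h4 := sqrt_nonneg b
  constructor
  · rcases le_total √a √b with h | h <;> nlinarith
  · have : a - b = (√a + √b) * (√a - √b) := by nlinarith
    rw [this, mul_pow]
    exact mul_le_mul_of_nonneg_right (by nlinarith [sq_nonneg (√a - √b)]) (sq_nonneg _)

theorem dsq_late {a b : ℝ} (ha : 1 ≤ a) (hb : 1 ≤ b) : (√a - √b) ^ 2 ≤ (a - b) ^ 2 / 4 := by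
  have h1 := sq_sqrt (show 0 ≤ a by linarith)
  have h2 := sq_sqrt (show 0 ≤ b by linarith)
  have h3 : 1 ≤ √a := one_le_sqrt.2 ha
  have h4 : 1 ≤ √b := one_le_sqrt.2 hb
  have : a - b = (√a + √b) * (√a - √b) := by nlinarith
  rw [this, mul_pow]
  have : 4 ≤ (√a + √b) ^ 2 := by nlinarith
  nlinarith [sq_nonneg (√a - √b)]

theorem g_le (hI : S.Ini C₁ σ M p) {i : ℕ} (hi : i ≤ M) {ω : Nz n} (h : S.Good T Z p i ω) :
    S.g p i ω ≤ C₁ / √((i + 1) * S.h) := by
  have := hI.up i hi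
  have := (abs_le.1 h.2).2
  linarith

/-- the amplitudes -/
theorem db (R : Rn S p) (R' : Rn S p') (hI : S.Ini C₁ σ M p) (hI' : S.Ini C₁ σ M p')
    (hσ : 0 < σ) (hσ1 : σ ≤ 1) (hC : 0 ≤ C₁) {D₀ : ℝ} (hD : 0 ≤ D₀) {i : ℕ} (hi : i ≤ M)
    (he : EB ((S.Ok T Z p p' i).indicator fun ω => ee S p p' i ω ^ 2) D₀) :
    EB (fun ω => I S T Z p p' i ω * dd S p p' i ω ^ 2)
      (D₀ + 2 * σ + if (i : ℝ) * S.h < (σ ^ 2) ^ 2 then C₁ / √((i + 1) * S.h) else 0) := by
  split_ifs with hl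
  · refine (EB.const (C₁ / √((i + 1) * S.h))).mono (fun ω => ?_) (by linarith)
    by_cases h : ω ∈ S.Ok T Z p p' (i + 1)
    · rw [I_one h, one_mul]
      exact (dsq_le (R.pos i ω) (R'.pos i ω) (g_le hI hi (h i (by omega)).1)
        (g_le hI' hi (h i (by omega)).2)).1
    · rw [I_zero h, zero_mul]; positivity
  · have hl' : σ ^ 4 ≤ i * S.h := by
      have : (σ ^ 2) ^ 2 = σ ^ 4 := by ring
      linarith [not_lt.1 hl]
    refine (he.add (EB.const (2 * σ)) (((m_ee R R' i).pow_const 2).indicator (m_ok R R' i)) hD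
      (by positivity)).mono (fun ω => ?_) (by linarith)
    by_cases h : ω ∈ S.Ok T Z p p' (i + 1)
    · rw [I_one h, one_mul, Set.indicator_of_mem (ok_mono (by omega) h)]
      have a1 := abs_le.1 (h i (by omega)).1.2
      have a2 := abs_le.1 (h i (by omega)).2.2
      have b1 := hI.lo i hi hl'
      have b2 := hI'.lo i hi hl'
      have c1 := abs_le.1 (hI.cl i hi hl')
      have c2 := abs_le.1 (hI'.cl i hi hl')
      refine (dsq_late (by linarith) (by linarith)).trans ?_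
      have e : S.g p i ω - S.g p' i ω = ee S p p' i ω + (S.gb p i - S.gb p' i) := by
        unfold ee; ring
      have f : (S.gb p i - S.gb p' i) ^ 2 ≤ (2 * σ) ^ 2 :=
        sq_le_sq' (by linarith) (by linarith)
      rw [e]
      nlinarith [sq_nonneg (ee S p p' i ω - (S.gb p i - S.gb p' i)), sq_nonneg (ee S p p' i ω)]
    · rw [I_zero h, zero_mul]
      have : 0 ≤ (S.Ok T Z p p' i).indicator (fun ω => ee S p p' i ω ^ 2) ω :=
        Set.indicator_nonneg (fun _ _ => sq_nonneg _) _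
      positivity

theorem ini_le (hP : S.Par c D C₁ T M) (hI : S.Ini C₁ σ M p) (hI' : S.Ini C₁ σ M p') {i : ℕ}
    (hi : i ≤ M) (hl : σ ^ 2 ≤ i * S.h) : ∑ k, S.q k ^ i * (p.2 k - p'.2 k) ^ 2 ≤ 4 * σ ^ 2 := by
  have h1 := hI.de i hi hl
  have h2 := hI'.de i hi hl
  calc _ ≤ ∑ k, (2 * (S.q k ^ i * p.2 k ^ 2) + 2 * (S.q k ^ i * p'.2 k ^ 2)) :=
        sum_le_sum fun k _ => by
          have := pow_nonneg (hP.q0 k) i
          nlinarith [mul_nonneg this (sq_nonneg (p.2 k + p'.2 k))]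
    _ ≤ _ := by rw [sum_add_distrib, ← mul_sum, ← mul_sum]; linarith

/-- weighted mass of the difference -/
theorem vb (L : L2Stmt) (hP : S.Par c D C₁ T M) (R : Rn S p) (R' : Rn S p')
    (hI : S.Ini C₁ σ M p) (hI' : S.Ini C₁ σ M p') (hZ : 0 ≤ Z) (δ : ℕ → ℝ) {i : ℕ} (hi : i ≤ M)
    (hδ : ∀ l, l < i → 0 ≤ δ l ∧ EB (fun ω => I S T Z p p' l ω * dd S p p' l ω ^ 2) (δ l)) :
    EB (fun ω => I S T Z p p' i ω * S.V T (zz S p p' i ω))
      (if (i : ℝ) * S.h < σ ^ 2 then 4 * Z else 4 * σ ^ 2 + 2 * S.h * ∑ l ∈ range i,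
        (∑ k : Fin n, Wt S.η T k * S.q k ^ (i - 1 - l)) * δ l) := by
  have hW := fun k : Fin n => wt_nn (η := S.η) hP.T0 k
  have h0 := hP.h0
  split_ifs with hl
  · refine (EB.const (4 * Z)).mono (fun ω => ?_) le_rfl
    by_cases h : ω ∈ S.Ok T Z p p' (i + 1)
    · rw [I_one h, one_mul]
      have a1 := (h i (by omega)).1.1
      have a2 := (h i (by omega)).2.1
      unfold Sy.V at a1 a2 ⊢
      calc _ ≤ ∑ k : Fin n, (2 * (Wt S.η T k * S.be p i ω k ^ 2) +
            2 * (Wt S.η T k * S.be p' i ω k ^ 2)) := sum_le_sum fun k _ => by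
            unfold zz
            nlinarith [mul_nonneg (hW k) (sq_nonneg (S.be p i ω k + S.be p' i ω k))]
        _ ≤ _ := by rw [sum_add_distrib, ← mul_sum, ← mul_sum]; linarith
    · rw [I_zero h, zero_mul]; positivity
  · refine (EB.sum univ (fun k _ => (zb L hP.toBas R R' δ i hδ k).smul (hW k))
      (fun k _ => ((((R.mb i k).sub (R'.mb i k)).pow_const 2).indicator (m_ok R R' i)).const_mul _)
      (fun k _ => ?_)).mono (fun ω => ?_) ?_
    · have := hP.q0 k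
      have : 0 ≤ ∑ l ∈ range i, S.q k ^ (i - 1 - l) * δ l :=
        sum_nonneg fun l hl => mul_nonneg (pow_nonneg this _) (hδ l (mem_range.1 hl)).1
      have := hW k
      positivity
    · by_cases h : ω ∈ S.Ok T Z p p' (i + 1)
      · rw [I_one h, one_mul]
        simp_rw [Set.indicator_of_mem (ok_mono (Nat.le_succ i) h)]
        exact le_rfl
      · rw [I_zero h, zero_mul]
        exact sum_nonneg fun k _ =>
          mul_nonneg (hW k) (Set.indicator_nonneg (fun _ _ => sq_nonneg _) _)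
    · simp_rw [mul_add]
      rw [sum_add_distrib]
      refine add_le_add ((sum_le_sum fun k _ => ?_).trans (ini_le hP hI hI' hi (not_lt.1 hl)))
        (le_of_eq ?_)
      · exact mul_le_of_le_one_left (mul_nonneg (pow_nonneg (hP.q0 k) _) (sq_nonneg _))
          ((wt_le hP.T0 k).trans hP.T1)
      · simp_rw [sum_mul, mul_sum]
        rw [sum_comm]
        exact sum_congr rfl fun l _ => sum_congr rfl fun k _ => by ring

/-- second moment of the difference of the noises -/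
theorem eb (L : L2Stmt) (hP : S.Par c D C₁ T M) (R : Rn S p) (R' : Rn S p')
    (hI : S.Ini C₁ σ M p) (hI' : S.Ini C₁ σ M p') (hD : 0 ≤ D) (hC : 0 ≤ C₁) (hZ : 0 ≤ Z)
    (δ o : ℕ → ℝ) {j : ℕ} (hj : j ≤ M)
    (hδ : ∀ l, l < j → 0 ≤ δ l ∧ EB (fun ω => I S T Z p p' l ω * dd S p p' l ω ^ 2) (δ l))
    (ho : ∀ l, l < j → 0 ≤ o l ∧ EB (fun ω => I S T Z p p' l ω * S.V T (zz S p p' l ω)) (o l)) :
    EB ((S.Ok T Z p p' j).indicator fun ω => ee S p p' j ω ^ 2)
      (∑ l ∈ range j, 32 * D * S.h * (C₁ / √((l + 1) * S.h) * o l + (Z + 1) * δ l)) := by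
  have h0 := hP.h0
  have hW := fun k : Fin n => wt_nn (η := S.η) hP.T0 k
  set a : ℕ → Nz n → Fin n → ℝ := fun l ω k =>
    I S T Z p p' l ω * (S.K k (j - 1 - l) * (S.ca p l ω k - S.ca p' l ω k)) with ha
  set b : ℕ → Nz n → Fin n → ℝ := fun l ω k =>
    I S T Z p p' l ω * (S.K k (j - 1 - l) * (S.cc p l ω - S.cc p' l ω)) with hb
  have mca : ∀ {r}, Rn S r → ∀ l k, Measurable fun ω => S.ca r l ω k := fun R l k =>
    ((R.mb l k).const_mul _).mul ((R.mg l).const_mul _).sqrt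
  have mcc : ∀ {r}, Rn S r → ∀ l, Measurable (S.cc r l) := fun R l => (R.mg l).const_mul _
  have co : Co a b := by
    refine ⟨fun l => measurable_pi_lambda _ fun k =>
      (m_I R R' l).mul (((mca R l k).sub (mca R' l k)).const_mul _),
      fun l => measurable_pi_lambda _ fun k =>
      (m_I R R' l).mul (((mcc R l).sub (mcc R' l)).const_mul _), fun l ω ω' H => ?_,
      fun l ω ω' H => ?_⟩
    · funext k
      simp only [ha, Sy.ca]
      rw [ad_I R R' l ω ω' H, R.ag l ω ω' H, R'.ag l ω ω' H, R.ab l ω ω' H, R'.ab l ω ω' H]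
    · funext k
      simp only [hb, Sy.cc]
      rw [ad_I R R' l ω ω' H, R.ag l ω ω' H, R'.ag l ω ω' H]
  have := L n a b co 0 (fun l => 32 * D * S.h * (C₁ / √((l + 1) * S.h) * o l + (Z + 1) * δ l)) j
    fun l hl => ⟨by have := (hδ l hl).1; have := (ho l hl).1; positivity, by
      have o0 := (ho l hl).1
      have d0 := (hδ l hl).1
      refine ((((ho l hl).2.smul (s := C₁ / √((l + 1) * S.h)) (by positivity)).add
        ((hδ l hl).2.smul (s := Z + 1) (by positivity)) (((m_I R R' l).mul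
          (Finset.measurable_sum _ fun k _ =>
            (((R.mb l k).sub (R'.mb l k)).pow_const 2).const_mul _)).const_mul _) (by positivity)
        (by positivity)).smul (s := 32 * D * S.h) (by positivity)).mono (fun ω => ?_) le_rfl
      by_cases h : ω ∈ S.Ok T Z p p' (l + 1)
      swap
      · simp [vr, ha, hb, I_zero h]
      set u := C₁ / √((l + 1) * S.h) with hu
      have u0 : 0 ≤ u := by positivity
      have g1 : S.g p l ω ≤ u := g_le hI (by omega) (h l (by omega)).1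
      have g2 : S.g p' l ω ≤ u := g_le hI' (by omega) (h l (by omega)).2
      have v2 := (h l (by omega)).2.1
      have p1 := R.pos l ω
      have p2 := R'.pos l ω
      obtain ⟨-, ds⟩ := dsq_le p1 p2 g1 g2
      have hun : S.h * u * n ≤ 1 := by
        refine le_trans ?_ hP.sm
        have s0 : 0 < √S.h := sqrt_pos.2 h0
        have : u ≤ C₁ / √S.h := by
          rw [hu]; gcongr; nlinarith [(Nat.cast_nonneg l : (0 : ℝ) ≤ l)]
        calc S.h * u * n ≤ S.h * (C₁ / √S.h) * n := by gcongr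
          _ = C₁ * (S.h / √S.h) * n := by ring
          _ = _ := by rw [div_sqrt]
      set d := dd S p p' l ω with hd
      have key : ∀ k : Fin n, a l ω k ^ 2 + 2 * b l ω k ^ 2 ≤ 32 * D * S.h *
          (u * (Wt S.η T k * zz S p p' l ω k ^ 2) + Wt S.η T k * S.be p' l ω k ^ 2 * d ^ 2 +
            S.h * u * d ^ 2) := fun k => by
        have hK := hP.Ku k (j - 1 - l) (by omega)
        have q2 : S.q k ≤ 2 := by simpa using hP.q2 k 1 (by omega)
        have q0 := hP.q0 k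
        have w0 := hW k
        have w1 : Wt S.η T k ≤ 1 := (wt_le hP.T0 k).trans hP.T1
        have e1 : (S.ca p l ω k - S.ca p' l ω k) ^ 2 = 8 * S.h * S.q k *
            (zz S p p' l ω k * √(S.g p l ω) + S.be p' l ω k * d) ^ 2 := by
          have : S.ca p l ω k - S.ca p' l ω k = 2 * √(S.q k) * √(2 * S.h) *
              (zz S p p' l ω k * √(S.g p l ω) + S.be p' l ω k * d) := by
            simp only [Sy.ca, hd, dd, zz]
            rw [sqrt_mul (x := 2 * S.h) (by positivity), sqrt_mul (x := 2 * S.h) (by positivity)]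
            ring
          rw [this, mul_pow, mul_pow, mul_pow, sq_sqrt q0, sq_sqrt (by positivity)]
          ring
        have e2 : (zz S p p' l ω k * √(S.g p l ω) + S.be p' l ω k * d) ^ 2 ≤
            2 * (u * zz S p p' l ω k ^ 2 + S.be p' l ω k ^ 2 * d ^ 2) := by
          have : (zz S p p' l ω k * √(S.g p l ω)) ^ 2 ≤ u * zz S p p' l ω k ^ 2 := by
            rw [mul_pow, sq_sqrt p1.le, mul_comm]; gcongr
          nlinarith [sq_nonneg (zz S p p' l ω k * √(S.g p l ω) - S.be p' l ω k * d)]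
        have e3 : (S.ca p l ω k - S.ca p' l ω k) ^ 2 ≤
            32 * S.h * (u * zz S p p' l ω k ^ 2 + S.be p' l ω k ^ 2 * d ^ 2) := by
          rw [e1]
          calc _ ≤ 8 * S.h * 2 * (2 * (u * zz S p p' l ω k ^ 2 + S.be p' l ω k ^ 2 * d ^ 2)) := by
                gcongr
            _ = _ := by ring
        have e4 : 2 * (S.cc p l ω - S.cc p' l ω) ^ 2 ≤ 32 * S.h * (S.h * u * d ^ 2) := by
          have : (S.cc p l ω - S.cc p' l ω) ^ 2 = 4 * S.h ^ 2 * (S.g p l ω - S.g p' l ω) ^ 2 := by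
            simp only [Sy.cc]; ring
          rw [this]
          calc _ ≤ 2 * (4 * S.h ^ 2 * (4 * u * d ^ 2)) := by gcongr; exact ds
            _ = _ := by ring
        simp only [ha, hb, I_one h, one_mul, mul_pow]
        calc _ = S.K k (j - 1 - l) ^ 2 * (S.ca p l ω k - S.ca p' l ω k) ^ 2 +
              S.K k (j - 1 - l) ^ 2 * (2 * (S.cc p l ω - S.cc p' l ω) ^ 2) := by ring
          _ ≤ D * Wt S.η T k * (32 * S.h * (u * zz S p p' l ω k ^ 2 + S.be p' l ω k ^ 2 * d ^ 2)) +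
              D * 1 * (32 * S.h * (S.h * u * d ^ 2)) := by
              gcongr
              exact hK.trans (by gcongr)
          _ = _ := by ring
      refine (sum_le_sum fun k _ => key k).trans ?_
      rw [← mul_sum, I_one h, one_mul, one_mul]
      refine mul_le_mul_of_nonneg_left ?_ (by positivity)
      rw [sum_add_distrib, sum_add_distrib, ← mul_sum, ← sum_mul, sum_const, card_univ,
        Fintype.card_fin, nsmul_eq_mul]
      unfold Sy.V at v2 ⊢
      nlinarith [mul_le_mul_of_nonneg_right v2 (sq_nonneg d),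
        mul_le_mul_of_nonneg_right hun (sq_nonneg d)]⟩
  refine this.mono (fun ω => ?_) (by simp)
  by_cases h : ω ∈ S.Ok T Z p p' j
  · rw [Set.indicator_of_mem h, zero_add]
    refine le_of_eq ?_
    congr 1
    unfold ee Ms
    rw [R.du j ω, R'.du j ω, add_sub_cancel_left, add_sub_cancel_left, ← sum_sub_distrib]
    refine sum_congr rfl fun l hl => ?_
    rw [inc_sub]
    congr 1 <;> funext k <;>
      simp only [ha, hb, I_one (ok_mono (mem_range.1 hl) h), one_mul, mul_sub]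
  · rw [Set.indicator_of_notMem h]; positivity

/-- the deterministic sums -/
theorem sums {h B : ℝ} {ka : ℕ → ℝ} (h0 : 0 < h) (hD : 0 ≤ D) (hC : 1 ≤ C₁) (hZ : 0 ≤ Z)
    (hB : 0 ≤ B) (T0 : 0 < T) (T1 : T ≤ 1) (hσ : 0 < σ) (hσ1 : σ ≤ 1) (hh : h ≤ σ ^ 4)
    (Mu : M * h ≤ T) (k0 : ∀ m, 0 ≤ ka m) (k1 : h * ∑ i ∈ range (M + 1), ka i ≤ 2 * D * √T)
    {j : ℕ} (hj : j ≤ M) :
    h * ∑ l ∈ range j, (B + if (l : ℝ) * h < (σ ^ 2) ^ 2 then C₁ / √((l + 1) * h) else 0) ≤
      T * B + 3 * C₁ * σ ∧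
    h * ∑ l ∈ range j, C₁ / √((l + 1) * h) * (if (l : ℝ) * h < σ ^ 2 then 4 * Z else
      4 * σ ^ 2 + 2 * h * ∑ r ∈ range l, ka (l - 1 - r) *
        (B + if (r : ℝ) * h < (σ ^ 2) ^ 2 then C₁ / √((r + 1) * h) else 0)) ≤
      (12 * Z * C₁ + 8 * C₁ + 12 * C₁ ^ 2 * D) * σ + 8 * C₁ * D * T * B := by
  have C0 : 0 ≤ C₁ := by linarith
  have s21 : σ ^ 2 ≤ σ := by nlinarith
  have jT : (j : ℝ) * h ≤ T := le_trans (by gcongr) Mu
  set e : ℕ → ℝ := fun r => if (r : ℝ) * h < (σ ^ 2) ^ 2 then C₁ / √((r + 1) * h) else 0 with he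
  have e0 : ∀ r, 0 ≤ e r := fun r => by simp only [he]; split_ifs <;> positivity
  have e1 : h * ∑ r ∈ range j, e r ≤ 3 * C₁ * σ ^ 2 :=
    sum_early h0 C0 (by positivity) (by nlinarith) j
  have kk : ∀ l, l ≤ M + 1 → h * ∑ i ∈ range l, ka i ≤ 2 * D * √T := fun l hl =>
    le_trans (mul_le_mul_of_nonneg_left (sum_le_sum_of_subset_of_nonneg
      (range_subset_range.2 hl) fun i _ _ => k0 i) h0.le) k1
  have sT : √T ≤ 1 := sqrt_le_one.2 T1
  have sT0 : 0 ≤ √T := sqrt_nonneg T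
  constructor
  · rw [sum_add_distrib, sum_const, card_range, nsmul_eq_mul, mul_add]
    have : h * (j * B) ≤ T * B := by nlinarith
    have : 3 * C₁ * σ ^ 2 ≤ 3 * C₁ * σ := by gcongr
    linarith
  · have pt : ∀ l ∈ range j, C₁ / √((l + 1) * h) * (if (l : ℝ) * h < σ ^ 2 then 4 * Z else
        4 * σ ^ 2 + 2 * h * ∑ r ∈ range l, ka (l - 1 - r) * (B + e r)) ≤
        4 * Z * (if (l : ℝ) * h < σ ^ 2 then C₁ / √((l + 1) * h) else 0) +
          (4 * σ ^ 2 + 4 * D * √T * B) * (C₁ / √((l + 1) * h)) +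
          2 * h * (C₁ / σ) * ∑ r ∈ range l, ka (l - 1 - r) * e r := fun l hl => by
      have c0 : 0 ≤ ∑ r ∈ range l, ka (l - 1 - r) * e r :=
        sum_nonneg fun r _ => mul_nonneg (k0 _) (e0 _)
      have u0 : 0 ≤ C₁ / √((l + 1) * h) := by positivity
      split_ifs with hl'
      · have : 0 ≤ (4 * σ ^ 2 + 4 * D * √T * B) * (C₁ / √((l + 1) * h)) := by positivity
        have : 0 ≤ 2 * h * (C₁ / σ) * ∑ r ∈ range l, ka (l - 1 - r) * e r := by positivity
        linarith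
      · have u1 : C₁ / √((l + 1) * h) ≤ C₁ / σ := by
          gcongr
          exact le_sqrt_of_sq_le (by nlinarith [not_lt.1 hl'])
        have k2 : h * ∑ r ∈ range l, ka (l - 1 - r) ≤ 2 * D * √T := by
          rw [sum_range_reflect]; exact kk l (by have := mem_range.1 hl; omega)
        simp_rw [mul_add (ka _)]
        rw [sum_add_distrib, ← sum_mul]
        set X := ∑ r ∈ range l, ka (l - 1 - r) * e r
        set Y := ∑ r ∈ range l, ka (l - 1 - r)
        set u := C₁ / √((l + 1) * h)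
        have a1 : u * (2 * h * X) ≤ C₁ / σ * (2 * h * X) := by gcongr
        have a2 : u * (2 * (h * Y) * B) ≤ u * (2 * (2 * D * √T) * B) := by gcongr
        nlinarith
    refine (mul_le_mul_of_nonneg_left (sum_le_sum pt) h0.le).trans ?_
    rw [sum_add_distrib, sum_add_distrib, ← mul_sum, ← mul_sum, ← mul_sum]
    have b1 := sum_early h0 C0 hσ.le (show h ≤ σ ^ 2 by nlinarith [sq_nonneg σ]) j
    have b2 : h * ∑ l ∈ range j, C₁ / √((l + 1) * h) ≤ 2 * C₁ * √T :=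
      (sum_gu h0 C0 j).trans (by gcongr)
    have b3 : h * (h * ∑ l ∈ range j, ∑ r ∈ range l, ka (l - 1 - r) * e r) ≤
        (2 * D * √T) * (3 * C₁ * σ ^ 2) := by
      calc _ ≤ h * (h * ((∑ m ∈ range j, ka m) * ∑ r ∈ range j, e r)) := by
            gcongr; exact conv_le ka e k0 e0 j
        _ = (h * ∑ m ∈ range j, ka m) * (h * ∑ r ∈ range j, e r) := by ring
        _ ≤ _ := mul_le_mul (kk j (by omega)) e1
            (mul_nonneg h0.le (sum_nonneg fun r _ => e0 r)) (by positivity)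
    set X := ∑ l ∈ range j, (if (l : ℝ) * h < σ ^ 2 then C₁ / √((l + 1) * h) else 0)
    set Y := ∑ l ∈ range j, C₁ / √((l + 1) * h)
    set W := ∑ l ∈ range j, ∑ r ∈ range l, ka (l - 1 - r) * e r
    have c1 : 4 * Z * (h * X) ≤ 4 * Z * (3 * C₁ * σ) := by gcongr
    have c2 : (4 * σ ^ 2 + 4 * D * √T * B) * (h * Y) ≤
        (4 * σ ^ 2 + 4 * D * √T * B) * (2 * C₁ * √T) := by gcongr
    have c3 : 2 * (C₁ / σ) * (h * (h * W)) ≤ 2 * (C₁ / σ) * ((2 * D * √T) * (3 * C₁ * σ ^ 2)) := by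
      gcongr
    have c4 : 2 * (C₁ / σ) * ((2 * D * √T) * (3 * C₁ * σ ^ 2)) = 12 * C₁ ^ 2 * D * σ * √T := by
      field_simp; ring
    have c5 : 12 * C₁ ^ 2 * D * σ * √T ≤ 12 * C₁ ^ 2 * D * σ :=
      mul_le_of_le_one_right (by positivity) sT
    have c6 : (4 * σ ^ 2 + 4 * D * √T * B) * (2 * C₁ * √T) =
        8 * C₁ * (σ ^ 2 * √T) + 8 * C₁ * D * (√T ^ 2) * B := by ring
    have c7 : 8 * C₁ * (σ ^ 2 * √T) ≤ 8 * C₁ * σ := by
      gcongr; exact (mul_le_of_le_one_right (by positivity) sT).trans s21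
    rw [sq_sqrt T0.le] at c6
    nlinarith

end Con27

open Con27 in
theorem conGlue : ConGlue := by
  intro L H c D C₁ Z hD hC hZ
  set E₁ : ℝ := 32 * D * (12 * Z * C₁ + 8 * C₁ + 12 * C₁ ^ 2 * D + (Z + 1) * (3 * C₁)) with hE₁
  set E₂ : ℝ := 32 * D * (8 * C₁ * D + (Z + 1)) with hE₂
  have C0 : 0 ≤ C₁ := by linarith
  have E10 : 0 ≤ E₁ := by positivity
  have E20 : 0 ≤ E₂ := by positivity
  refine ⟨4 + 4 * (2 * (E₁ + 1) + 2 + 3 * C₁), 1 / (2 * (E₂ + 1)), by positivity, by positivity,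
    fun n S T σ M p p' hP hT hσ hσ1 hh hI hI' => ?_⟩
  have R := rn_of H hP.toBas hI.g0
  have R' := rn_of H hP.toBas hI'.g0
  have h0 := hP.h0
  have T0 := hP.T0
  have ET : E₂ * T ≤ 1 / 2 := by
    rw [le_div_iff₀ (by positivity)] at hT
    nlinarith
  set D₀ : ℝ := 2 * (E₁ + 1) * σ with hD₀
  have D0 : 0 ≤ D₀ := by positivity
  set δ : ℕ → ℝ := fun l => D₀ + 2 * σ +
    if (l : ℝ) * S.h < (σ ^ 2) ^ 2 then C₁ / √((l + 1) * S.h) else 0 with hδ
  have δ0 : ∀ l, 0 ≤ δ l := fun l => by simp only [hδ]; split_ifs <;> positivity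
  set ka : ℕ → ℝ := fun m => ∑ k : Fin n, Wt S.η T k * S.q k ^ m with hka
  have k0 : ∀ m, 0 ≤ ka m := fun m =>
    sum_nonneg fun k _ => mul_nonneg (wt_nn T0 k) (pow_nonneg (hP.q0 k) _)
  have sm := fun j (hj : j ≤ M) => sums (Z := Z) (B := D₀ + 2 * σ) (ka := ka) h0 hD hC hZ
    (by positivity) T0 hP.T1 hσ hσ1 hh hP.Mu k0 hP.ka hj
  have A : ∀ j, j ≤ M → EB ((S.Ok T Z p p' j).indicator fun ω => ee S p p' j ω ^ 2) D₀ := by
    intro j
    induction j using Nat.strong_induction_on with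
    | _ j ih =>
      intro hj
      have hd : ∀ l, l < j → 0 ≤ δ l ∧
          EB (fun ω => I S T Z p p' l ω * dd S p p' l ω ^ 2) (δ l) := fun l hl =>
        ⟨δ0 l, db R R' hI hI' hσ hσ1 C0 D0 (by omega) (ih l hl (by omega))⟩
      refine (eb L hP R R' hI hI' hD C0 hZ δ (fun l => if (l : ℝ) * S.h < σ ^ 2 then 4 * Z else
        4 * σ ^ 2 + 2 * S.h * ∑ r ∈ range l, ka (l - 1 - r) * δ r) hj hd fun l hl =>
        ⟨?_, vb L hP R R' hI hI' hZ δ (by omega) fun r hr => hd r (by omega)⟩).mono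
        (fun _ => le_rfl) ?_
      · have : 0 ≤ ∑ r ∈ range l, ka (l - 1 - r) * δ r :=
          sum_nonneg fun r _ => mul_nonneg (k0 _) (δ0 _)
        split_ifs <;> positivity
      · obtain ⟨s1, s2⟩ := sm j hj
        rw [← mul_sum, sum_add_distrib, ← mul_sum]
        set X := ∑ l ∈ range j, δ l
        set Y := ∑ l ∈ range j, C₁ / √((l + 1) * S.h) * (if (l : ℝ) * S.h < σ ^ 2 then 4 * Z else
          4 * σ ^ 2 + 2 * S.h * ∑ r ∈ range l, ka (l - 1 - r) * δ r)
        calc 32 * D * S.h * (Y + (Z + 1) * X) = 32 * D * (S.h * Y + (Z + 1) * (S.h * X)) := by ring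
          _ ≤ 32 * D * ((12 * Z * C₁ + 8 * C₁ + 12 * C₁ ^ 2 * D) * σ +
              8 * C₁ * D * T * (D₀ + 2 * σ) + (Z + 1) * (T * (D₀ + 2 * σ) + 3 * C₁ * σ)) := by
              gcongr
          _ = E₁ * σ + E₂ * T * (D₀ + 2 * σ) := by rw [hE₁, hE₂]; ring
          _ ≤ E₁ * σ + 1 / 2 * (D₀ + 2 * σ) := by gcongr
          _ ≤ D₀ := by rw [hD₀]; nlinarith
  intro j hj
  refine ⟨(A j hj).mono (fun _ => le_rfl) (by rw [hD₀]; nlinarith), fun hl k => ?_⟩
  refine (zb L hP.toBas R R' δ j (fun l hl =>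
    ⟨δ0 l, db R R' hI hI' hσ hσ1 C0 D0 (by omega) (A l (by omega))⟩) k).mono (fun _ => le_rfl) ?_
  have a1 : S.q k ^ j * (p.2 k - p'.2 k) ^ 2 ≤ 4 * σ ^ 2 :=
    le_trans (single_le_sum (f := fun k => S.q k ^ j * (p.2 k - p'.2 k) ^ 2)
      (fun k _ => mul_nonneg (pow_nonneg (hP.q0 k) _) (sq_nonneg _)) (mem_univ k))
      (ini_le hP hI hI' hj hl)
  have a2 : ∑ l ∈ range j, S.q k ^ (j - 1 - l) * δ l ≤ 2 * ∑ l ∈ range j, δ l := by
    rw [mul_sum]
    exact sum_le_sum fun l _ => mul_le_mul_of_nonneg_right (hP.q2 k _ (by omega)) (δ0 l)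
  have a3 : S.h * ∑ l ∈ range j, δ l ≤ T * (D₀ + 2 * σ) + 3 * C₁ * σ := (sm j hj).1
  have a4 : T * (D₀ + 2 * σ) ≤ D₀ + 2 * σ := mul_le_of_le_one_left (by positivity) hP.T1
  have a5 : 2 * S.h * ∑ l ∈ range j, S.q k ^ (j - 1 - l) * δ l ≤
      2 * S.h * (2 * ∑ l ∈ range j, δ l) := by gcongr
  have a6 : σ ^ 2 ≤ σ := by nlinarith
  nlinarith

end Crest.Agent.T157.Cq.Osc

end
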