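import Crest.Agent.T157.CqDef_72

/-!
# Row 157, part C: the oscillation lemma.  Definitions and leaves (helper27)

`Cq.OscGlue` follows from `L2Stmt TailStmt UsStmt ChStmt DuStmt KStmt` through
`StopGlue ConGlue FinGlue` (`oscGlue_of`).
-/

set_option autoImplicit false

noncomputable section

namespace Crest.Agent.T157.Cq.Osc

open MeasureTheory ProbabilityTheory Matrix Filter Topology Finset Real
open Crest.Agent.T157.E Crest.Agent.T157.St Crest.Agent.T157.Ed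

/-- noise sequences -/
abbrev Nz (n : ℕ) : Type := ℕ → Fin n → ℝ
/-- law of the noise -/
abbrev PP (n : ℕ) : Measure (Nz n) := Measure.infinitePi fun _ : ℕ => gv (Fin n)

variable {n : ℕ}

/-- depends only on the noise before time `i` -/
def Ad {α : Type*} (i : ℕ) (F : Nz n → α) : Prop :=
  ∀ ω ω' : Nz n, (∀ l, l < i → ω l = ω' l) → F ω = F ω'
/-- `E F ≤ c` -/
def EB (F : Nz n → ℝ) (c : ℝ) : Prop :=
  ∫⁻ ω, ENNReal.ofReal (F ω) ∂PP n ≤ ENNReal.ofReal c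
/-- martingale increment -/
def inc (a c ξ : Fin n → ℝ) : ℝ := ∑ k, (a k * ξ k + c k * (ξ k ^ 2 - 1))
/-- its variance -/
def vr (a c : Fin n → ℝ) : ℝ := ∑ k, (a k ^ 2 + 2 * c k ^ 2)
/-- martingale -/
def Ms (a c : ℕ → Nz n → Fin n → ℝ) (j : ℕ) (ω : Nz n) : ℝ :=
  ∑ i ∈ range j, inc (a i ω) (c i ω) (ω i)
/-- predictable coefficients -/
structure Co (a c : ℕ → Nz n → Fin n → ℝ) : Prop where
  ma : ∀ i, Measurable (a i)
  mc : ∀ i, Measurable (c i)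
  aa : ∀ i, Ad i (a i)
  ac : ∀ i, Ad i (c i)

/-- second moment -/
def L2Stmt : Prop := ∀ (n : ℕ) (a c : ℕ → Nz n → Fin n → ℝ), Co a c →
  ∀ (x₀ : ℝ) (w : ℕ → ℝ) (j : ℕ),
    (∀ i, i < j → 0 ≤ w i ∧ EB (fun ω => vr (a i ω) (c i ω)) (w i)) →
    EB (fun ω => (x₀ + Ms a c j ω) ^ 2) (x₀ ^ 2 + ∑ i ∈ range j, w i)

/-- tail (exponential supermartingale, `λ = x / (2 W)`) -/
def TailStmt : Prop := ∀ (n : ℕ) (a c : ℕ → Nz n → Fin n → ℝ), Co a c →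
  ∀ (w : ℕ → ℝ) (j : ℕ) (W c₀ x : ℝ), 0 < W → 0 < x →
    (∀ i, i < j → ∀ ω, vr (a i ω) (c i ω) ≤ w i) → ∑ i ∈ range j, w i ≤ W →
    (∀ i, i < j → ∀ ω k, |c i ω k| ≤ c₀) → 2 * x * c₀ ≤ W →
    (PP n).real {ω | x < |Ms a c j ω|} ≤ 2 * exp (-(x ^ 2 / (4 * W)))

/-- the scheme, driven by the noise -/
def XS (n : ℕ) (η : ℕ → ℝ) (t κ h : ℝ) (x : Fin n → ℝ) : ℕ → Nz n → Fin n → ℝ
  | 0, _ => x
  | j + 1, ω => Fs n η t κ h (XS n η t κ h x j ω) + √(2 * h) • ω j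

def UsStmt : Prop := ∀ (n : ℕ) (η : ℕ → ℝ) (t κ h : ℝ) (x : Fin n → ℝ) (j : ℕ),
  Measurable (XS n η t κ h x j) ∧
    ∀ v, B1 v → (Us n η t κ h)^[j] v x = ∫ ω, v (XS n η t κ h x j ω) ∂PP n

/-- dyadic chaining -/
def ChStmt : Prop := ∃ D : ℝ, 0 ≤ D ∧ ∀ (n : ℕ) (ν : ℕ → Nz n → ℝ) (M : ℕ) (B : ℝ), 0 ≤ B →
  (∀ ω, ν 0 ω = 0) →
  (∀ (j l : ℕ) (x : ℝ), 0 < l → j + l ≤ M → 0 < x → x ≤ 1 →
    (PP n).real {ω | x < |ν (j + l) ω - ν j ω|} ≤ B * (l : ℝ) ^ 2 / x ^ 8) →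
  (PP n).real {ω | ∃ j, j ≤ M ∧ 1 < |ν j ω|} ≤ D * B * (M : ℝ) ^ 2

/-- the parameters of the scheme -/
structure Sy (n : ℕ) : Type where
  η : ℕ → ℝ
  t : ℝ
  κ : ℝ
  h : ℝ
  ρ : ℕ → ℝ

namespace Sy
variable (S : Sy n)

/-- `1 - 2 η_k h` -/
def q (k : Fin n) : ℝ := 1 - 2 * S.η k * S.h
/-- response kernel -/
def K (k : Fin n) (m : ℕ) : ℝ := Kk S.η S.h S.ρ k m
/-- the linearised state `(γ_j, β_j)` -/
def st (p : ℝ × (Fin n → ℝ)) : ℕ → Nz n → ℝ × (Fin n → ℝ)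
  | 0, _ => p
  | j + 1, ω =>
    ((1 - S.h * S.κ * S.t) * (st p j ω).1 + S.h * S.κ * ∑ k, (st p j ω).2 k ^ 2,
      fun k => √(S.q k) * (st p j ω).2 k + √(2 * S.h * ((1 - S.h * S.κ * S.t) * (st p j ω).1 +
        S.h * S.κ * ∑ k, (st p j ω).2 k ^ 2)) * ω j k)
/-- `β_j` -/
def be (p : ℝ × (Fin n → ℝ)) (j : ℕ) (ω : Nz n) : Fin n → ℝ := (S.st p j ω).2
/-- `γ_j` -/
def ga (p : ℝ × (Fin n → ℝ)) (j : ℕ) (ω : Nz n) : ℝ := (S.st p j ω).1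
/-- `g_j = γ_{j+1}` (predictable) -/
def g (p : ℝ × (Fin n → ℝ)) (j : ℕ) (ω : Nz n) : ℝ := (S.st p (j + 1) ω).1
/-- the mean of `g_j` -/
def gb (p : ℝ × (Fin n → ℝ)) (j : ℕ) : ℝ :=
  (1 - S.h * S.κ * S.t) * S.ρ j / S.κ * p.1 + ∑ k, S.K k j * p.2 k ^ 2
/-- linear coefficient of the noise of `β_{j,k}²` -/
def ca (p : ℝ × (Fin n → ℝ)) (j : ℕ) (ω : Nz n) (k : Fin n) : ℝ :=
  2 * √(S.q k) * S.be p j ω k * √(2 * S.h * S.g p j ω)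
/-- quadratic coefficient -/
def cc (p : ℝ × (Fin n → ℝ)) (j : ℕ) (ω : Nz n) : ℝ := 2 * S.h * S.g p j ω
/-- weighted mass -/
def V (T : ℝ) (b : Fin n → ℝ) : ℝ := ∑ k : Fin n, Wt S.η T k * b k ^ 2
/-- good times -/
def Good (T Z : ℝ) (p : ℝ × (Fin n → ℝ)) (i : ℕ) (ω : Nz n) : Prop :=
  S.V T (S.be p i ω) ≤ Z ∧ |S.g p i ω - S.gb p i| ≤ 1
/-- all times before `j` are good for both runs -/
def Ok (T Z : ℝ) (p p' : ℝ × (Fin n → ℝ)) (j : ℕ) : Set (Nz n) :=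
  {ω | ∀ i, i < j → S.Good T Z p i ω ∧ S.Good T Z p' i ω}

/-- basic admissibility -/
structure Bas : Prop where
  h0 : 0 < S.h
  k0 : 0 < S.κ
  t1 : S.h * S.κ * S.t < 1
  q0 : ∀ k, 0 ≤ S.q k
  rho : IsRho n S.η S.t S.κ S.h S.ρ

/-- the kernel estimates on `[0, T]`, `M = ⌊T / h⌋` -/
structure Par (c D C₁ T : ℝ) (M : ℕ) : Prop extends S.Bas where
  T0 : 0 < T
  T1 : T ≤ 1
  hT : S.h ≤ T
  Mu : M * S.h ≤ T
  Ml : T ≤ (M + 1) * S.h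
  sm : C₁ * √S.h * n ≤ 1
  q2 : ∀ k i, i ≤ M + 1 → S.q k ^ i ≤ 2
  r0 : ∀ m, m ≤ M → 0 ≤ S.ρ m
  ka : S.h * ∑ i ∈ range (M + 1), ∑ k : Fin n, Wt S.η T k * S.q k ^ i ≤ 2 * D * √T
  Ku : ∀ (k : Fin n) (m : ℕ), m ≤ M → S.K k m ^ 2 ≤ D * Wt S.η T k
  Kl : ∀ (k : Fin n) (m : ℕ), m ≤ M → T / 2 ≤ m * S.h → c * Wt S.η T k / √T ≤ S.K k m
  Kd : ∀ (k : Fin n) (m l : ℕ), m + l ≤ M → 0 < m →
    (S.K k (m + l) - S.K k m) ^ 2 ≤ D * min 1 ((l : ℝ) / m) * Wt S.η T k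

/-- admissible starts -/
structure Ini (C₁ σ : ℝ) (M : ℕ) (p : ℝ × (Fin n → ℝ)) : Prop where
  g0 : 0 < p.1
  up : ∀ j, j ≤ M → S.gb p j + 1 ≤ C₁ / √((j + 1) * S.h)
  cl : ∀ j, j ≤ M → σ ^ 4 ≤ j * S.h → |S.gb p j - S.ρ j| ≤ σ
  lo : ∀ j, j ≤ M → σ ^ 4 ≤ j * S.h → 2 ≤ S.gb p j
  de : ∀ i, i ≤ M → σ ^ 2 ≤ i * S.h → ∑ k, S.q k ^ i * p.2 k ^ 2 ≤ σ ^ 2

end Sy

/-- **linearisation and Duhamel formula** (deterministic) -/
def DuStmt : Prop := ∀ (n : ℕ) (S : Sy n) (p : ℝ × (Fin n → ℝ)), S.Bas → 0 < p.1 →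
  (∀ j, Measurable (S.st p j) ∧ Ad j (S.st p j) ∧ Ad j (S.g p j)) ∧
  (∀ j ω, 0 < S.ga p j ω ∧
    XS n S.η S.t S.κ S.h (fun k => p.2 k / √p.1) j ω = fun k => S.be p j ω k / √(S.ga p j ω)) ∧
  (∀ i j ω, i ≤ j →
    (1 - S.h * S.κ * S.t) * S.ρ (j - i) / S.κ * S.ga p i ω + ∑ k, S.K k (j - i) * S.be p i ω k ^ 2 =
      S.gb p j + ∑ l ∈ range i, inc (fun k => S.K k (j - 1 - l) * S.ca p l ω k)
        (fun k => S.K k (j - 1 - l) * S.cc p l ω) (ω l)) ∧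
  ∀ j ω, S.g p j ω = S.gb p j + ∑ l ∈ range j, inc (fun k => S.K k (j - 1 - l) * S.ca p l ω k)
    (fun k => S.K k (j - 1 - l) * S.cc p l ω) (ω l)

/-- **the means** (deterministic; `A = h ∑_{i < ⌊ρ₁ / h⌋} ∑_k q_k^i x_k²`) -/
def KStmt : Prop := ∀ L D : ℝ, 0 ≤ L → 0 ≤ D → ∃ C₁ : ℝ, 1 ≤ C₁ ∧ ∀ σ : ℝ, 0 < σ → σ ≤ 1 →
  ∃ ρ₁ δ : ℝ, 0 < ρ₁ ∧ 0 < δ ∧ ∀ a : ℝ, 0 < a → ∀ᶠ n in atTop, ∀ η : ℕ → ℝ,
    (∀ k, k < n → -L ≤ η k ∧ η k ≤ 10 * tau n) → ∀ᶠ h : ℝ in 𝓝[>] (0 : ℝ),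
      ∀ (ρ : ℕ → ℝ) (M : ℕ), (M : ℝ) * h ≤ 1 →
      (∀ m : ℕ, m ≤ M → 0 ≤ ρ m ∧ ρ m ≤ 2 * (n : ℝ) ^ 2 ∧
        h * ∑ i ∈ range (m + 1), ρ i ≤ D * (√(m * h) + (sx n ^ 2)⁻¹) ∧
        (0 < m → ρ m ≤ D * ((√(m * h))⁻¹ + (sx n ^ 2 * (m * h))⁻¹)) ∧
        (σ ^ 4 ≤ m * h → 3 ≤ ρ m ∧ ∀ l : ℕ, 2 * l ≤ m →
          |ρ m - ρ (m - l)| ≤ D * (l * h) * (m * h) ^ (-(3 / 2) : ℝ))) →
      ∀ x, Nice n η ρ₁ δ a x → ∃ A : ℝ, 0 < A ∧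
        (⟨η, sx n ^ 2, (n : ℝ) ^ 2, h, ρ⟩ : Sy n).Ini C₁ σ M (A⁻¹, fun k => x k / √A)

/-- **the stop is unlikely** -/
def StopStmt : Prop := ∀ c D C₁ : ℝ, 0 < c → 0 ≤ D → 1 ≤ C₁ → ∃ D' : ℝ,
  ∀ (n : ℕ) (S : Sy n) (T σ : ℝ) (M N : ℕ) (p : ℝ × (Fin n → ℝ)), S.Par c D C₁ T M →
    S.Ini C₁ σ M p → N ≤ M → T / 2 + N * S.h ≤ M * S.h →
    (PP n).real {ω | ∃ i, i < N ∧ ¬ S.Good T (C₁ / c) p i ω} ≤ D' * T ^ 2

/-- **contraction** -/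
def ConStmt : Prop := ∀ c D C₁ Z : ℝ, 0 ≤ D → 1 ≤ C₁ → 0 ≤ Z → ∃ D' T₀ : ℝ, 0 ≤ D' ∧ 0 < T₀ ∧
  ∀ (n : ℕ) (S : Sy n) (T σ : ℝ) (M : ℕ) (p p' : ℝ × (Fin n → ℝ)), S.Par c D C₁ T M →
    T ≤ T₀ → 0 < σ → σ ≤ 1 → S.h ≤ σ ^ 4 → S.Ini C₁ σ M p → S.Ini C₁ σ M p' → ∀ j, j ≤ M →
      EB ((S.Ok T Z p p' j).indicator fun ω =>
        ((S.g p j ω - S.gb p j) - (S.g p' j ω - S.gb p' j)) ^ 2) (D' * σ) ∧
      (σ ^ 2 ≤ j * S.h → ∀ k, EB ((S.Ok T Z p p' j).indicator fun ω =>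
        (S.be p j ω k - S.be p' j ω k) ^ 2) (D' * σ))

def StopGlue : Prop := TailStmt → ChStmt → DuStmt → StopStmt
def ConGlue : Prop := L2Stmt → DuStmt → ConStmt
def FinGlue : Prop := UsStmt → DuStmt → KStmt → StopStmt → ConStmt → OscGlue

theorem oscGlue_of (l : L2Stmt) (t : TailStmt) (u : UsStmt) (c : ChStmt) (d : DuStmt) (k : KStmt)
    (s : StopGlue) (o : ConGlue) (f : FinGlue) : OscGlue := f u d k (s t c d) (o l d)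

/-! ### tools -/

/-- resampling one coordinate -/
theorem mp_update (i : ℕ) : MeasurePreserving
    (fun q : Nz n × (Fin n → ℝ) => Function.update q.1 i q.2) ((PP n).prod (gv (Fin n))) (PP n) := by
  have hm : Measurable fun q : Nz n × (Fin n → ℝ) => Function.update q.1 i q.2 :=
    measurable_update'
  refine ⟨hm, Measure.eq_infinitePi _ fun s t ht => ?_⟩
  rw [Measure.map_apply hm (MeasurableSet.pi s.countable_toSet fun l _ => ht l)]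
  by_cases hi : i ∈ s
  · have : (fun q : Nz n × (Fin n → ℝ) => Function.update q.1 i q.2) ⁻¹' Set.pi (↑s) t =
        (Set.pi (↑(s.erase i)) t) ×ˢ t i := by
      ext q
      simp only [Set.mem_preimage, Set.mem_pi, Finset.mem_coe, Set.mem_prod, Finset.mem_erase]
      constructor
      · intro H
        exact ⟨fun l hl => by simpa [Function.update_of_ne hl.1] using H l hl.2,
          by simpa using H i hi⟩
      · intro H l hl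
        by_cases e : l = i
        · subst e; simpa using H.2
        · simpa [Function.update_of_ne e] using H.1 l ⟨e, hl⟩
    rw [this, Measure.prod_prod, Measure.infinitePi_pi _ fun l _ => ht l,
      Finset.prod_erase_mul _ _ hi]
  · have : (fun q : Nz n × (Fin n → ℝ) => Function.update q.1 i q.2) ⁻¹' Set.pi (↑s) t =
        (Set.pi (↑s) t) ×ˢ Set.univ := by
      ext q
      simp only [Set.mem_preimage, Set.mem_pi, Finset.mem_coe, Set.mem_prod, Set.mem_univ,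
        and_true]
      refine forall₂_congr fun l hl => ?_
      rw [Function.update_of_ne (by rintro rfl; exact hi hl)]
    rw [this, Measure.prod_prod, Measure.infinitePi_pi _ fun l _ => ht l, measure_univ, mul_one]

theorem lint_update (i : ℕ) {F : Nz n → ENNReal} (hF : Measurable F) :
    ∫⁻ ω, F ω ∂PP n = ∫⁻ ω, ∫⁻ ξ, F (Function.update ω i ξ) ∂gv (Fin n) ∂PP n := by
  rw [← (mp_update i).lintegral_comp hF]
  exact lintegral_prod _ (hF.comp (mp_update i).measurable).aemeasurable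

theorem Ad.update {α : Type*} {i : ℕ} {F : Nz n → α} (h : Ad i F) {l : ℕ} (hl : i ≤ l) (ω : Nz n)
    (ξ : Fin n → ℝ) : F (Function.update ω l ξ) = F ω :=
  h _ _ fun m hm => Function.update_of_ne (by omega) _ _

theorem Ad.mono {α : Type*} {i j : ℕ} {F : Nz n → α} (h : Ad i F) (hij : i ≤ j) : Ad j F :=
  fun ω ω' H => h ω ω' fun l hl => H l (by omega)

theorem EB.mono {F G : Nz n → ℝ} {c d : ℝ} (h : EB G c) (hF : ∀ ω, F ω ≤ G ω) (hc : c ≤ d) :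
    EB F d :=
  ((lintegral_mono fun ω => ENNReal.ofReal_le_ofReal (hF ω)).trans h).trans
    (ENNReal.ofReal_le_ofReal hc)

theorem EB.const (c : ℝ) : EB (fun _ : Nz n => c) c := by
  simp [EB]

theorem EB.add {F G : Nz n → ℝ} {c d : ℝ} (hF : EB F c) (hG : EB G d) (mF : Measurable F)
    (hc : 0 ≤ c) (hd : 0 ≤ d) : EB (fun ω => F ω + G ω) (c + d) := by
  refine (lintegral_mono fun ω => ENNReal.ofReal_add_le).trans ?_
  rw [lintegral_add_left mF.ennreal_ofReal, ENNReal.ofReal_add hc hd]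
  exact add_le_add hF hG

theorem EB.smul {F : Nz n → ℝ} {c s : ℝ} (hF : EB F c) (hs : 0 ≤ s) :
    EB (fun ω => s * F ω) (s * c) := by
  unfold EB
  simp_rw [ENNReal.ofReal_mul hs]
  rw [lintegral_const_mul' _ _ ENNReal.ofReal_ne_top]
  exact mul_le_mul_right hF _

theorem EB.sum {ι : Type*} (s : Finset ι) {F : ι → Nz n → ℝ} {c : ι → ℝ}
    (h : ∀ i ∈ s, EB (F i) (c i)) (m : ∀ i ∈ s, Measurable (F i)) (hc : ∀ i ∈ s, 0 ≤ c i) :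
    EB (fun ω => ∑ i ∈ s, F i ω) (∑ i ∈ s, c i) := by
  classical
  induction s using Finset.induction_on with
  | empty => simpa using EB.const (n := n) 0
  | insert a s ha ih =>
    simp_rw [Finset.sum_insert ha]
    exact (h a (mem_insert_self _ _)).add
      (ih (fun i hi => h i (mem_insert_of_mem hi)) (fun i hi => m i (mem_insert_of_mem hi))
        fun i hi => hc i (mem_insert_of_mem hi)) (m a (mem_insert_self _ _))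
      (hc a (mem_insert_self _ _)) (sum_nonneg fun i hi => hc i (mem_insert_of_mem hi))

/-- `∑_{i<m} (i+1)^{-1/2} ≤ 2 √m` -/
theorem sum_isqrt (m : ℕ) : ∑ i ∈ range m, (√((i : ℝ) + 1))⁻¹ ≤ 2 * √(m : ℝ) := by
  induction m with
  | zero => simp
  | succ m ih =>
    rw [sum_range_succ]
    push_cast
    have h1 : 0 < √((m : ℝ) + 1) := sqrt_pos.2 (by positivity)
    have h2 : √((m : ℝ) + 1) ^ 2 = m + 1 := sq_sqrt (by positivity)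
    have h3 : √(m : ℝ) ^ 2 = m := sq_sqrt (by positivity)
    have h4 : 0 ≤ √(m : ℝ) := sqrt_nonneg _
    have : (√((m : ℝ) + 1))⁻¹ ≤ 2 * √((m : ℝ) + 1) - 2 * √(m : ℝ) := by
      rw [inv_le_iff_one_le_mul₀ h1]
      nlinarith [sq_nonneg (√((m : ℝ) + 1) - √(m : ℝ))]
    linarith

end Crest.Agent.T157.Cq.Osc

end
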