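import Crest.Agent.T157.Eig_84

/-!
# Row 157, A2 section 3 (helper46): trace functions under finite rank perturbations, and the
smoothed logarithm used in (T1)
-/

set_option autoImplicit false
set_option linter.unusedSectionVars false

noncomputable section

namespace Crest.Agent.T157.Ot

open Matrix Finset Crest.Agent.T157.Eig

variable {ι : Type*} [Fintype ι] [DecidableEq ι] {X Y : Matrix ι ι ℝ} {φ : ℝ → ℝ}

/-! ### spectral sums -/

lemma cfc_entry (hX : X.IsHermitian) (φ : ℝ → ℝ) (i j : ι) :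
    cfc φ X i j = ∑ k ∈ range (Fintype.card ι), φ (lam X k) * (vec X k i * vec X k j) := by
  rw [sum_range_eq hX (fun x v => φ x * (v i * v j)), hX.cfc_eq, IsHermitian.cfc]
  simp only [Unitary.conjStarAlgAut_apply, star_eq_conjTranspose,
    conjTranspose_eq_transpose_of_trivial]
  rw [Matrix.mul_apply]
  refine sum_congr rfl fun a _ => ?_
  rw [mul_diagonal]
  simp only [transpose_apply, IsHermitian.eigenvectorUnitary_apply, Function.comp_apply,
    RCLike.ofReal_real_eq_id, id_eq]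
  ring

lemma trc (hX : X.IsHermitian) (φ : ℝ → ℝ) :
    (cfc φ X).trace = ∑ k ∈ range (Fintype.card ι), φ (lam X k) := by
  simp only [trace, diag_apply, cfc_entry hX]
  rw [sum_comm]
  exact sum_congr rfl fun k hk => by rw [← mul_sum, sum_vec_sq hX (mem_range.1 hk), mul_one]

lemma quad_cfc (hX : X.IsHermitian) (φ : ℝ → ℝ) (v : ι → ℝ) :
    v ⬝ᵥ cfc φ X *ᵥ v =
      ∑ k ∈ range (Fintype.card ι), φ (lam X k) * ((vec X k ⬝ᵥ v) * (vec X k ⬝ᵥ v)) := by
  simp only [dotProduct, mulVec, cfc_entry hX, sum_mul, mul_sum]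
  simp only [sum_comm (t := range (Fintype.card ι))]
  exact sum_congr rfl fun k _ => sum_congr rfl fun i _ => sum_congr rfl fun j _ => by ring

lemma herm_cfc (φ : ℝ → ℝ) (X : Matrix ι ι ℝ) : (cfc φ X).IsHermitian :=
  cfc_predicate φ X

lemma fr_cfc (hX : X.IsHermitian) (φ : ℝ → ℝ) :
    ∑ i, ∑ j, cfc φ X i j ^ 2 = ∑ k ∈ range (Fintype.card ι), φ (lam X k) ^ 2 := by
  have h1 : ContinuousOn φ (spectrum ℝ X) := X.finite_real_spectrum.continuousOn φ
  rw [← sum_lam_sq (herm_cfc φ X), ← trace_pow (herm_cfc φ X), sq,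
    show cfc φ X * cfc φ X = cfc (fun x => φ x * φ x) X from (cfc_mul φ φ X h1 h1).symm, trc hX]
  simp only [sq]

lemma det_eq_exp (hX : X.IsHermitian) (h : ∀ k < Fintype.card ι, Real.exp (φ (lam X k)) = lam X k) :
    X.det = Real.exp (cfc φ X).trace := by
  rw [trc hX, Real.exp_sum, prod_congr rfl fun k hk => h k (mem_range.1 hk),
    hX.det_eq_prod_eigenvalues, ← Fin.prod_univ_eq_prod_range (fun k => lam X k),
    ← (eqv ι).prod_comp]
  exact prod_congr rfl fun k _ => (lam_fin hX k).symm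

/-! ### finite rank perturbations -/

lemma seq_shift {f g : ℕ → ℝ} {n r : ℕ} {lo hi : ℝ} (h : ∀ k, k + r < n → f (k + r) ≤ g k)
    (hf : ∀ k < n, f k ≤ hi) (hg : ∀ k < n, lo ≤ g k) (hl : lo ≤ hi) :
    ∑ k ∈ range n, f k ≤ ∑ k ∈ range n, g k + r * (hi - lo) := by
  set F : ℕ → ℝ := fun k => if k < n then f k else lo with hF
  have h1 : ∑ k ∈ range (n + r), F k = ∑ k ∈ range n, f k + r * lo := by
    rw [sum_range_add, sum_congr rfl fun k hk => if_pos (mem_range.1 hk),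
      sum_congr (s₁ := range r) rfl fun k _ => if_neg (show ¬ n + k < n by omega)]
    simp
  have h2 : ∑ k ∈ range (r + n), F k ≤ r * hi + ∑ k ∈ range n, g k := by
    rw [sum_range_add]
    refine add_le_add ((sum_le_sum (g := fun _ => hi) fun k _ => ?_).trans_eq (by simp))
      (sum_le_sum fun k hk => ?_)
    · simp only [hF]; split_ifs with h'; exacts [hf k h', hl]
    · simp only [hF]; split_ifs with h'
      · rw [add_comm] at h' ⊢; exact h k h'
      · exact hg k (mem_range.1 hk)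
  rw [add_comm r n] at h2
  linarith

/-- **(IL)** a bounded monotone trace function under comparison on a subspace of codimension `r` -/
theorem il (hX : X.IsHermitian) (hY : Y.IsHermitian) {S : Submodule ℝ (ι → ℝ)} {r : ℕ}
    (hS : Cod S r) (h : ∀ v ∈ S, v ⬝ᵥ X *ᵥ v ≤ v ⬝ᵥ Y *ᵥ v) (hφ : Monotone φ) {lo hi : ℝ}
    (h1 : ∀ x, lo ≤ φ x) (h2 : ∀ x, φ x ≤ hi) :
    (cfc φ X).trace ≤ (cfc φ Y).trace + r * (hi - lo) := by
  rw [trc hX, trc hY]
  refine seq_shift (fun k hk => hφ ?_) (fun _ _ => h2 _) (fun _ _ => h1 _) ((h1 0).trans (h2 0))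
  simpa using lam_le_of_cod hX hY hS hk (c := 0) fun v hv => by simpa using h v hv

/-- **(LIP1)** a monotone 1-Lipschitz trace function under a bounded finite rank perturbation -/
theorem lip1 (hX : X.IsHermitian) (hY : Y.IsHermitian) {S : Submodule ℝ (ι → ℝ)} {r : ℕ}
    (hS : Cod S r) (h : ∀ v ∈ S, v ⬝ᵥ X *ᵥ v ≤ v ⬝ᵥ Y *ᵥ v) {ρ : ℝ} (hρ : 0 ≤ ρ)
    (h' : ∀ v, v ⬝ᵥ X *ᵥ v ≤ v ⬝ᵥ Y *ᵥ v + ρ * (v ⬝ᵥ v)) (hφ : Monotone φ)
    (hL : ∀ x y, x ≤ y → φ y - φ x ≤ y - x) :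
    (cfc φ X).trace ≤ (cfc φ Y).trace + r * ρ := by
  have hR := hX.sub hY
  set P := cfc (fun x : ℝ => max x 0) (X - Y) with hP
  have hZ := hY.add (herm_cfc (fun x : ℝ => max x 0) (X - Y))
  have e : ∀ v, v ⬝ᵥ (X - Y) *ᵥ v = v ⬝ᵥ X *ᵥ v - v ⬝ᵥ Y *ᵥ v := fun v => by
    rw [sub_mulVec, dotProduct_sub]
  have p1 : ∀ v, v ⬝ᵥ (X - Y) *ᵥ v ≤ v ⬝ᵥ P *ᵥ v := fun v => by
    rw [quad_cfc hR, quad_eq hR]
    exact sum_le_sum fun k _ => mul_le_mul_of_nonneg_right (le_max_left _ _) (mul_self_nonneg _)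
  have p2 : ∀ v, 0 ≤ v ⬝ᵥ P *ᵥ v := fun v => by
    rw [quad_cfc hR]
    exact sum_nonneg fun k _ => mul_nonneg (le_max_right _ _) (mul_self_nonneg _)
  have p3 : P.trace ≤ r * ρ := by
    rw [trc hR]
    simpa using seq_shift (f := fun k => max (lam (X - Y) k) 0) (g := fun _ => 0) (lo := 0) (hi := ρ)
      (n := Fintype.card ι) (r := r)
      (fun k hk => max_le (lam_le hR hk (hS.mono (by omega)) fun v hv => by
        rw [e]; linarith [h v hv]) le_rfl)
      (fun k hk => max_le (lam_le hR hk (cod_top.mono (by omega)) fun v _ => by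
        rw [e]; linarith [h' v]) hρ) (fun _ _ => le_rfl) hρ
  have l1 := lam_mono hX hZ fun v => by
    rw [add_mulVec, dotProduct_add]; linarith [p1 v, e v]
  have l2 := lam_mono hY hZ fun v => by
    rw [add_mulVec, dotProduct_add]; linarith [p2 v]
  have l3 := sum_le_sum (s := range (Fintype.card ι)) fun k _ =>
    show φ (lam X k) ≤ φ (lam Y k) + (lam (Y + P) k - lam Y k) by
      linarith [hφ (l1 k), hL _ _ (l2 k)]
  rw [sum_add_distrib, sum_sub_distrib, ← trace_eq hZ, ← trace_eq hY, trace_add] at l3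
  rw [trc hX, trc hY]
  linarith

lemma ker_eq {M N : Matrix ι ι ℝ} {r : ℕ} (h : (M - N).rank ≤ r) :
    ∃ S : Submodule ℝ (ι → ℝ), Cod S r ∧ ∀ v ∈ S, M *ᵥ v = N *ᵥ v :=
  ⟨_, (cod_ker_rank (M - N)).mono h, fun v hv => by
    rwa [LinearMap.mem_ker, mulVecLin_apply, sub_mulVec, sub_eq_zero] at hv⟩

/-! ### the smoothed logarithm -/

lemma hasDerivAt_pos_sq (x : ℝ) : HasDerivAt (fun y : ℝ => max y 0 ^ 2) (2 * max x 0) x := by
  rcases lt_trichotomy x 0 with h | rfl | h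
  · rw [max_eq_right h.le, mul_zero]
    refine (hasDerivAt_const x (0 : ℝ)).congr_of_eventuallyEq ?_
    filter_upwards [Iio_mem_nhds h] with y hy
    rw [max_eq_right (le_of_lt hy)]; simp
  · rw [hasDerivAt_iff_isLittleO_nhds_zero]
    refine Asymptotics.IsBigO.trans_isLittleO (Asymptotics.IsBigO.of_bound' (.of_forall fun y => ?_))
      (Asymptotics.isLittleO_pow_id (𝕜 := ℝ) one_lt_two)
    simp only [zero_add, max_self, smul_eq_mul, Real.norm_eq_abs, abs_pow, sq_abs, mul_zero,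
      sub_zero, ne_eq, OfNat.ofNat_ne_zero, not_false_eq_true, zero_pow]
    rcases le_total y 0 with h | h
    · rw [max_eq_right h]; simpa using sq_nonneg y
    · rw [max_eq_left h]
  · rw [max_eq_left h.le]
    refine (by simpa using hasDerivAt_pow 2 x : HasDerivAt (fun y : ℝ => y ^ 2) (2 * x) x
      ).congr_of_eventuallyEq ?_
    filter_upwards [Ioi_mem_nhds h] with y hy
    rw [max_eq_left (le_of_lt hy)]

/-- the identity above `a`, flattened below -/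
def hh (a x : ℝ) : ℝ := a / 2 + (max x 0 ^ 2 - max (x - a) 0 ^ 2) / (2 * a)
def hd (a x : ℝ) : ℝ := (max x 0 - max (x - a) 0) / a
def f1 (a x : ℝ) : ℝ := Real.log (hh a x) - Real.log (1 + hh a x)
def f2 (a x : ℝ) : ℝ := Real.log (1 + hh a x)
def d1 (a x : ℝ) : ℝ := hd a x * (hh a x)⁻¹ - hd a x * (1 + hh a x)⁻¹
def d2 (a x : ℝ) : ℝ := hd a x * (1 + hh a x)⁻¹

variable {a : ℝ}

lemma hh_deriv (ha : 0 < a) (x : ℝ) : HasDerivAt (hh a) (hd a x) x := by
  have h1 := (hasDerivAt_pos_sq (x - a)).comp_sub_const x a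
  refine ((((hasDerivAt_pos_sq x).sub h1).div_const (2 * a)).const_add (a / 2)).congr_deriv ?_
  unfold hd; field_simp

lemma hd_mem (ha : 0 < a) (x : ℝ) : 0 ≤ hd a x ∧ hd a x ≤ 1 := by
  unfold hd
  rw [div_le_one ha]
  refine ⟨div_nonneg (sub_nonneg.2 (max_le_max (by linarith) le_rfl)) ha.le, ?_⟩
  rcases le_total x 0 with h | h
  · rw [max_eq_right h]; linarith [le_max_right (x - a) 0]
  · rw [max_eq_left h]; linarith [le_max_left (x - a) 0]

lemma hh_eq (ha : 0 < a) {x : ℝ} (h : a ≤ x) : hh a x = x := by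
  unfold hh
  rw [max_eq_left (by linarith), max_eq_left (by linarith)]
  field_simp; ring

lemma hh_ge (ha : 0 < a) (x : ℝ) : a / 2 ≤ hh a x ∧ x ≤ hh a x := by
  rcases le_total a x with h | h
  · rw [hh_eq ha h]; exact ⟨by linarith, le_rfl⟩
  · unfold hh
    rw [max_eq_right (by linarith : x - a ≤ 0)]
    have h1 : 0 ≤ (max x 0 ^ 2 - 0 ^ 2) / (2 * a) := by simp only [ne_eq, OfNat.ofNat_ne_zero, not_false_eq_true, zero_pow, sub_zero]; positivity
    refine ⟨by linarith, ?_⟩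
    have h2 : max x 0 - a / 2 ≤ (max x 0 ^ 2 - 0 ^ 2) / (2 * a) := by
      rw [le_div_iff₀ (by positivity)]; nlinarith [sq_nonneg (max x 0 - a)]
    linarith [le_max_left x 0]

lemma hh_pos (ha : 0 < a) (x : ℝ) : 0 < hh a x := by linarith [(hh_ge ha x).1]

lemma mono_lip {f f' : ℝ → ℝ} (h : ∀ x, HasDerivAt f (f' x) x) (h0 : ∀ x, 0 ≤ f' x)
    (h1 : ∀ x, f' x ≤ 1) : Monotone f ∧ ∀ x y, x ≤ y → f y - f x ≤ y - x :=
  ⟨monotone_of_hasDerivAt_nonneg h h0, fun x y hxy => by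
    have := monotone_of_hasDerivAt_nonneg (fun x => (hasDerivAt_id x).sub (h x))
      (fun x => sub_nonneg.2 (h1 x)) hxy
    simp only [Pi.sub_apply, id] at this
    linarith⟩

lemma hh_mono (ha : 0 < a) : Monotone (hh a) ∧ ∀ x y, x ≤ y → hh a y - hh a x ≤ y - x :=
  mono_lip (hh_deriv ha) (fun x => (hd_mem ha x).1) fun x => (hd_mem ha x).2

lemma f2_deriv (ha : 0 < a) (x : ℝ) : HasDerivAt (f2 a) (d2 a x) x :=
  ((hh_deriv ha x).const_add 1).log (by linarith [hh_pos ha x])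

lemma f1_deriv (ha : 0 < a) (x : ℝ) : HasDerivAt (f1 a) (d1 a x) x :=
  ((hh_deriv ha x).log (hh_pos ha x).ne').sub (f2_deriv ha x)

lemma d2_mem (ha : 0 < a) (x : ℝ) : 0 ≤ d2 a x ∧ d2 a x ≤ 1 := by
  have h1 := hh_pos ha x
  have h2 := hd_mem ha x
  exact ⟨mul_nonneg h2.1 (by positivity), mul_le_one₀ h2.2 (by positivity)
    (inv_le_one_of_one_le₀ (by linarith))⟩

lemma d1_mem (ha : 0 < a) (x : ℝ) : 0 ≤ d1 a x ∧ d1 a x ≤ (hh a x)⁻¹ := by
  have h1 := hh_pos ha x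
  have h2 := hd_mem ha x
  have h3 : (1 + hh a x)⁻¹ ≤ (hh a x)⁻¹ := inv_anti₀ h1 (by linarith)
  have h4 := mul_le_of_le_one_left (inv_pos.2 h1).le h2.2
  exact ⟨sub_nonneg.2 (mul_le_mul_of_nonneg_left h3 h2.1), by
    unfold d1; linarith [(d2_mem ha x).1, show d2 a x = hd a x * (1 + hh a x)⁻¹ from rfl]⟩

lemma f2_mono (ha : 0 < a) : Monotone (f2 a) ∧ ∀ x y, x ≤ y → f2 a y - f2 a x ≤ y - x :=
  mono_lip (f2_deriv ha) (fun x => (d2_mem ha x).1) fun x => (d2_mem ha x).2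

lemma f1_mono (ha : 0 < a) : Monotone (f1 a) :=
  monotone_of_hasDerivAt_nonneg (f1_deriv ha) fun x => (d1_mem ha x).1

lemma f1_mem (ha : 0 < a) (x : ℝ) : -Real.log (1 + 2 / a) ≤ f1 a x ∧ f1 a x ≤ 0 := by
  have h1 := hh_pos ha x
  refine ⟨?_, sub_nonpos.2 (Real.log_le_log h1 (by linarith))⟩
  have h2 : 1 + hh a x ≤ (1 + 2 / a) * hh a x := by
    have : 1 ≤ 2 / a * hh a x := by
      rw [div_mul_eq_mul_div, le_div_iff₀ ha]; linarith [(hh_ge ha x).1]
    linarith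
  have h3 := Real.log_le_log (by linarith) h2
  rw [Real.log_mul (by positivity) h1.ne'] at h3
  unfold f1; linarith

lemma exp_f (ha : 0 < a) {x : ℝ} (h : a ≤ x) : Real.exp (f1 a x + f2 a x) = x := by
  rw [f1, f2, sub_add_cancel, Real.exp_log (hh_pos ha x), hh_eq ha h]

lemma lip_inv (ha : 0 < a) {c : ℝ} (hc : 0 ≤ c) (x y : ℝ) :
    |hd a x * (c + hh a x)⁻¹ - hd a y * (c + hh a y)⁻¹| ≤ 8 / a ^ 2 * |x - y| := by
  have p1 : a / 2 ≤ c + hh a x := by linarith [(hh_ge ha x).1]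
  have p2 : a / 2 ≤ c + hh a y := by linarith [(hh_ge ha y).1]
  have q1 : 0 < c + hh a x := by linarith
  have q2 : 0 < c + hh a y := by linarith
  have i1 : (c + hh a x)⁻¹ ≤ 2 / a := by rw [← inv_div]; exact inv_anti₀ (by positivity) p1
  have i2 : (c + hh a y)⁻¹ ≤ 2 / a := by rw [← inv_div]; exact inv_anti₀ (by positivity) p2
  have l1 : |hh a y - hh a x| ≤ |x - y| := by
    rcases le_total x y with h | h
    · rw [abs_of_nonneg (sub_nonneg.2 ((hh_mono ha).1 h)), abs_sub_comm, abs_of_nonneg (sub_nonneg.2 h)]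
      exact (hh_mono ha).2 _ _ h
    · rw [abs_sub_comm, abs_of_nonneg (sub_nonneg.2 ((hh_mono ha).1 h)), abs_of_nonneg (sub_nonneg.2 h)]
      exact (hh_mono ha).2 _ _ h
  have l2 : |hd a x - hd a y| ≤ 2 / a * |x - y| := by
    have e : hd a x - hd a y = ((max x 0 - max y 0) - (max (x - a) 0 - max (y - a) 0)) / a := by
      unfold hd; ring
    have b1 := abs_max_sub_max_le_abs x y 0
    have b2 := abs_max_sub_max_le_abs (x - a) (y - a) 0
    rw [sub_sub_sub_cancel_right] at b2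
    rw [e, abs_div, abs_of_pos ha, div_mul_eq_mul_div]
    exact div_le_div_of_nonneg_right ((abs_sub _ _).trans (by linarith)) ha.le
  have e : hd a x * (c + hh a x)⁻¹ - hd a y * (c + hh a y)⁻¹ = (hd a x - hd a y) * (c + hh a x)⁻¹ +
      hd a y * ((hh a y - hh a x) * ((c + hh a x)⁻¹ * (c + hh a y)⁻¹)) := by
    field_simp; ring
  rw [e]
  refine (abs_add_le _ _).trans ?_
  rw [abs_mul, abs_mul, abs_mul, abs_of_pos (inv_pos.2 q1), abs_of_nonneg (hd_mem ha y).1,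
    abs_of_pos (mul_pos (inv_pos.2 q1) (inv_pos.2 q2))]
  have m1 := mul_le_mul l2 i1 (inv_pos.2 q1).le (by positivity)
  have m2 := mul_le_mul l1 (mul_le_mul i1 i2 (inv_pos.2 q2).le (by positivity))
    (mul_pos (inv_pos.2 q1) (inv_pos.2 q2)).le (abs_nonneg _)
  have m3 := mul_le_of_le_one_left (mul_nonneg (abs_nonneg (hh a y - hh a x))
    (mul_pos (inv_pos.2 q1) (inv_pos.2 q2)).le) (hd_mem ha y).2
  refine (add_le_add m1 (m3.trans m2)).trans_eq ?_
  field_simp; ring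

lemma d2_lip (ha : 0 < a) (x y : ℝ) : |d2 a x - d2 a y| ≤ 8 / a ^ 2 * |x - y| :=
  lip_inv ha zero_le_one x y

lemma d1_lip (ha : 0 < a) (x y : ℝ) : |d1 a x - d1 a y| ≤ 16 / a ^ 2 * |x - y| := by
  have h1 := lip_inv ha le_rfl x y
  have h2 := lip_inv ha zero_le_one x y
  simp only [zero_add] at h1
  rw [d1, d1, sub_sub_sub_comm]
  exact (abs_sub _ _).trans ((add_le_add h1 h2).trans_eq (by ring))

/-- the gradient bound everywhere -/
lemma fr_d1_le (ha : 0 < a) (hX : X.IsHermitian) :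
    ∑ i, ∑ j, cfc (d1 a) X i j ^ 2 ≤ Fintype.card ι * (4 / a ^ 2) := by
  rw [fr_cfc hX]
  refine (sum_le_sum (g := fun _ => 4 / a ^ 2) fun k _ => ?_).trans_eq (by simp)
  have h1 : (hh a (lam X k))⁻¹ ≤ 2 / a := by
    rw [← inv_div]; exact inv_anti₀ (by positivity) (hh_ge ha _).1
  exact (pow_le_pow_left₀ (d1_mem ha _).1 ((d1_mem ha _).2.trans h1) 2).trans_eq (by ring)

lemma fr_d2_le (ha : 0 < a) (hX : X.IsHermitian) :
    ∑ i, ∑ j, cfc (d2 a) X i j ^ 2 ≤ Fintype.card ι := by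
  rw [fr_cfc hX]
  exact (sum_le_sum (g := fun _ => 1) fun k _ =>
    pow_le_one₀ (d2_mem ha _).1 (d2_mem ha _).2).trans_eq (by simp)

/-- the gradient bound on the good set: `X ≥ Y > 0` on a subspace of codimension `r` -/
lemma fr_d1_good (ha : 0 < a) (hX : X.IsHermitian) (hY : Y.IsHermitian)
    {S : Submodule ℝ (ι → ℝ)} {r : ℕ} (hS : Cod S r)
    (h : ∀ v ∈ S, v ⬝ᵥ Y *ᵥ v ≤ v ⬝ᵥ X *ᵥ v) (hp : ∀ k < Fintype.card ι, 0 < lam Y k) :
    ∑ i, ∑ j, cfc (d1 a) X i j ^ 2 ≤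
      (cfc (fun x : ℝ => (x ^ 2)⁻¹) Y).trace + r * (4 / a ^ 2) := by
  have h1 := il hY hX hS h (φ := fun x => -((hh a x)⁻¹ ^ 2)) (lo := -(4 / a ^ 2)) (hi := 0)
    (fun x y hxy => neg_le_neg (pow_le_pow_left₀ (inv_pos.2 (hh_pos ha y)).le
      (inv_anti₀ (hh_pos ha x) ((hh_mono ha).1 hxy)) 2))
    (fun x => neg_le_neg ((pow_le_pow_left₀ (inv_pos.2 (hh_pos ha x)).le (show _ ≤ 2 / a by
      rw [← inv_div]; exact inv_anti₀ (by positivity) (hh_ge ha _).1) 2).trans_eq (by ring)))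
    fun x => neg_nonpos.2 (sq_nonneg _)
  rw [trc hX, trc hY, sum_neg_distrib, sum_neg_distrib] at h1
  rw [fr_cfc hX, trc hY]
  have h2 := sum_le_sum (s := range (Fintype.card ι)) fun k _ =>
    pow_le_pow_left₀ (d1_mem ha (lam X k)).1 (d1_mem ha (lam X k)).2 2
  have h3 := sum_le_sum (s := range (Fintype.card ι)) fun k hk =>
    show (hh a (lam Y k))⁻¹ ^ 2 ≤ (lam Y k ^ 2)⁻¹ by
      rw [← inv_pow]
      exact pow_le_pow_left₀ (inv_pos.2 (hh_pos ha _)).le
        (inv_anti₀ (hp k (mem_range.1 hk)) (hh_ge ha _).2) 2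
  linarith

end Crest.Agent.T157.Ot
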