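import Crest.Agent.T157.OtA_46
import Crest.Agent.T157.OtC_41
import Crest.Agent.T157.OoA_9

/-!
# Row 157, A2 section 3 (helper46): (T1), the determinant is constant on a good orbit up to `e^(2X)`
-/

set_option autoImplicit false
set_option linter.unusedSectionVars false

noncomputable section

namespace Crest.Agent.T157.Ot

open MeasureTheory Matrix Crest.Agent.Lib.OrthPoinc Filter Topology Set
open Crest.Agent.T157.Oc Crest.Agent.T157.E Crest.Agent.T157.SL Crest.Agent.T157.Ks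
open Crest.Agent.T157.Od Crest.Agent.T157.Oo
open Crest.Agent.T157.Orb (R2)
open Crest.Agent.T157.Eig (lam Cod herm_iff)

variable {n k : ℕ} {μ : Measure (Mat k)} [IsProbabilityMeasure μ]

/-- two-sided (HD) around an approximate median -/
theorem hd_two (hμ : SOInv μ) (hn : 2 < k) {F : Mat k → ℝ} {D : Fin k × Fin k → Mat k → ℝ}
    (hF : RD F D) {G : Set (Mat k)} (hGm : MeasurableSet G) {A M x : ℝ} (hA : 0 < A) (hx : 0 < x)
    (hM0 : 0 ≤ M) (hG : ∀ U ∈ SO k, U ∈ G → sqD D U ≤ A) (hM : ∀ U ∈ SO k, sqD D U ≤ M) :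
    ∃ c, μ.real {U | x + 1 ≤ |F U - c|} ≤
      2 * (Real.exp (-(((k : ℝ) - 2) * x ^ 2 / (36 * A))) + M / A * μ.real Gᶜ) := by
  obtain ⟨K, hK⟩ := isCompact_SO.exists_bound_of_continuousOn hF.c
  set S : Set ℝ := {s | μ.real {U | s < F U} ≤ 1 / 2} with hS
  have h1 : K ∈ S := by
    have : μ.real {U | K < F U} ≤ μ.real ∅ := real_mono_SO hμ fun U hU h =>
      absurd ((le_abs_self _).trans (hK U hU)) (not_le.2 h)
    exact this.trans (by simp)
  have h2 : BddBelow S := ⟨-K - 1, fun s hs => le_of_not_gt fun h => by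
    have : μ.real univ ≤ μ.real {U | s < F U} := real_mono_SO hμ fun U hU _ => by
      have := (abs_le.1 (hK U hU)).1
      show s < F U
      linarith
    rw [probReal_univ] at this
    linarith [show μ.real {U | s < F U} ≤ 1 / 2 from hs]⟩
  have h3 : μ.real {U | sInf S + 1 < F U} ≤ 1 / 2 := by
    obtain ⟨s, hs, h⟩ := exists_lt_of_csInf_lt ⟨K, h1⟩ (lt_add_one (sInf S))
    exact (measureReal_mono fun U (hU : sInf S + 1 < F U) => h.trans hU).trans hs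
  have h4 : μ.real {U | -sInf S + 1 < -1 * F U} ≤ 1 / 2 := by
    have a1 : 1 / 2 < μ.real {U | sInf S - 1 < F U} :=
      not_le.1 fun h => by linarith [csInf_le h2 (show sInf S - 1 ∈ S from h)]
    have a2 := probReal_compl_eq_one_sub₀ (μ := μ) (nullMeasurableSet_lt
      (aemeasurable_const (b := sInf S - 1)) (aesm_of hμ hF.c).aemeasurable)
    have a3 : μ.real {U | -sInf S + 1 < -1 * F U} ≤ μ.real {U | sInf S - 1 < F U}ᶜ :=
      measureReal_mono fun U (hU : -sInf S + 1 < -1 * F U) (h : sInf S - 1 < F U) => by linarith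
    linarith
  have e : ∀ U, sqD (fun a U => -1 * D a U) U = sqD D U := fun U => by simp [sqD]
  have b1 := hF.hd_med hμ hn hGm hA hx hM0 (fun U hU h _ _ => hG U hU h) (fun U hU _ _ => hM U hU) h3
  have b2 := (hF.const_mul (-1)).hd_med hμ hn hGm hA hx hM0
    (fun U hU h _ _ => (e U).trans_le (hG U hU h)) (fun U hU _ _ => (e U).trans_le (hM U hU)) h4
  refine ⟨sInf S, ((measureReal_mono fun U hU => ?_).trans (measureReal_union_le _ _)).trans
    ((add_le_add b1 b2).trans_eq (by ring))⟩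
  exact (le_abs.1 (show x + 1 ≤ |F U - sInf S| from hU)).imp
    (fun h => show sInf S + 1 + x ≤ F U by linarith)
    fun h => show -sInf S + 1 + x ≤ -1 * F U by linarith

lemma sqD_add_le (D D' : Fin k × Fin k → Mat k → ℝ) (U : Mat k) :
    sqD (fun a U => D a U + D' a U) U ≤ 2 * (sqD D U + sqD D' U) := by
  unfold sqD
  rw [← Finset.sum_add_distrib, Finset.mul_sum]
  exact Finset.sum_le_sum fun a _ => by nlinarith [sq_nonneg (D a U - D' a U)]

lemma quad_le_op {M : Mn n} {w : ℝ} (hw : 0 < w) (h : Op2 M (w ^ 2)) (v : Vn n) :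
    |v ⬝ᵥ M *ᵥ v| ≤ w * (v ⬝ᵥ v) := by
  have h1 := h v
  have h2 := Eig.dot_self_nonneg (w • v - M *ᵥ v)
  have h3 := Eig.dot_self_nonneg (w • v + M *ᵥ v)
  simp only [sub_dotProduct, dotProduct_sub, add_dotProduct, dotProduct_add, smul_dotProduct,
    dotProduct_smul, smul_eq_mul, dotProduct_comm (M *ᵥ v) v] at h2 h3
  exact abs_le.2 ⟨le_of_mul_le_mul_left (by nlinarith) hw, le_of_mul_le_mul_left (by nlinarith) hw⟩

variable {o : Orb n k} {B B' : Mn n} {a : ℝ}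

lemma op2_Wu (h : o.Ok) {b : ℝ} (hb : Op2 o.W b) {U : Mat k} (hU : U ∈ SO k) : Op2 (o.Wu U) b :=
  fun v => by
    rw [Orb.Wu, WU, ← mulVec_mulVec, ← mulVec_mulVec, Op2.orth (emb_orth' h.iso hU)]
    exact (hb _).trans_eq (by rw [Op2.orth (by rw [transpose_transpose]; exact emb_orth h.iso hU)])

lemma herm_AB (h : o.Ok) (hB : Bᵀ = B) (U : Mat k) : (o.A U + B).IsHermitian :=
  herm_iff.2 (by rw [transpose_add, Orb.A_symm h, hB])

/-- the gradient of `tr φ (A_U + B)` -/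
lemma grad_le (h : o.Ok) (hB : Bᵀ = B) {b : ℝ} (hb : Op2 B b ∨ Op2 o.W b) (φ' : ℝ → ℝ) {U : Mat k}
    (hU : U ∈ SO k) : sqD (fun a U => ipF (thU o.E a U)
      (B * cfc φ' (AU o.E o.W o.z U + B) - cfc φ' (AU o.E o.W o.z U + B) * B : Mn n)) U ≤
      16 * b * fr (cfc φ' (o.A U + B)) := by
  unfold sqD
  rcases hb with hb | hb
  · exact (Orb.fam h hU).T1 hB hb _
  · simp only [comm_T1 h.symm hB]
    exact (Orb.fam h hU).T1 (WU_symm h.symm U) (op2_Wu h hb hU) _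

lemma il_rank (ha : 0 < a) {X Y : Mn n} (hX : X.IsHermitian) (hY : Y.IsHermitian) {r : ℕ}
    (hr : (X - Y).rank ≤ r) :
    |(cfc (f1 a) X).trace - (cfc (f1 a) Y).trace| ≤ r * Real.log (1 + 2 / a) := by
  obtain ⟨S, hS, e⟩ := ker_eq hr
  have h1 := il hX hY hS (fun v hv => by rw [e v hv]) (f1_mono ha) (fun x => (f1_mem ha x).1)
    fun x => (f1_mem ha x).2
  have h2 := il hY hX hS (fun v hv => by rw [e v hv]) (f1_mono ha) (fun x => (f1_mem ha x).1)
    fun x => (f1_mem ha x).2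
  exact abs_le.2 ⟨by linarith, by linarith⟩

lemma lip_rank (ha : 0 < a) {X Y : Mn n} (hX : X.IsHermitian) (hY : Y.IsHermitian) {r : ℕ}
    (hr : (X - Y).rank ≤ r) {ρ : ℝ} (hρ : 0 ≤ ρ)
    (h : ∀ v, |v ⬝ᵥ X *ᵥ v - v ⬝ᵥ Y *ᵥ v| ≤ ρ * (v ⬝ᵥ v)) :
    |(cfc (f2 a) X).trace - (cfc (f2 a) Y).trace| ≤ r * ρ := by
  obtain ⟨S, hS, e⟩ := ker_eq hr
  have h1 := lip1 hX hY hS (fun v hv => by rw [e v hv]) hρ
    (fun v => by linarith [(abs_le.1 (h v)).2]) (f2_mono ha).1 (f2_mono ha).2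
  have h2 := lip1 hY hX hS (fun v hv => by rw [e v hv]) hρ
    (fun v => by linarith [(abs_le.1 (h v)).1]) (f2_mono ha).1 (f2_mono ha).2
  exact abs_le.2 ⟨by linarith, by linarith⟩

lemma lam_A (h : o.Ok) {U : Mat k} (hU : U ∈ SO k) (j : ℕ) :
    lam (o.A U) j = lam (o.z • (1 : Mn n) - o.W) j := by
  have h1 := Eig.lam_conj (A := o.z • (1 : Mn n) - o.W) (Q := (emb o.E U)ᵀ)
    (herm_iff.2 (by rw [transpose_sub, transpose_smul, transpose_one, h.symm]))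
    (by rw [transpose_transpose]; exact emb_orth h.iso hU) rfl j
  rw [Orb.A, AU_eq h.iso hU, ← h1, transpose_transpose]

/-- the good event of (T1): `A + B ≥ a` and `A + B' ≥ θ A` -/
def Qd (o : Orb n k) (B B' : Mn n) (a θ : ℝ) (U : Mat k) : Prop :=
  (∀ v, a * (v ⬝ᵥ v) ≤ v ⬝ᵥ (o.A U + B) *ᵥ v) ∧
    ∀ v, θ * (v ⬝ᵥ o.A U *ᵥ v) ≤ v ⬝ᵥ (o.A U + B') *ᵥ v

/-- the gradient constant of (T1) -/
def Aa (n : ℕ) (w b a θ T : ℝ) : ℝ := 32 * b * (T / θ ^ 2 + 16 / a ^ 2) + 32 * w ^ 2 * n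

/-- the radius of (T1) -/
def Xx (m : ℕ) (w a x : ℝ) : ℝ := x + 1 + (m + 4) * Real.log (1 + 2 / a) + 8 * w

/-- the functional that concentrates -/
def FF (o : Orb n k) (B B' : Mn n) (a : ℝ) (U : Mat k) : ℝ :=
  (cfc (f1 a) (o.A U + B')).trace + (cfc (f2 a) (o.A U + B)).trace

lemma exists_D (h : o.Ok) (hB : Bᵀ = B) (hB' : B'ᵀ = B') {w b : ℝ} (hW : Op2 o.W (w ^ 2))
    (b0 : 0 ≤ b) (hb : Op2 B' b ∨ Op2 o.W b) (ha : 0 < a) :
    ∃ D, RD (FF o B B' a) D ∧ ∀ U ∈ SO k, ∀ y, fr (cfc (d1 a) (o.A U + B')) ≤ y →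
      sqD D U ≤ 32 * b * y + 32 * w ^ 2 * n := by
  refine ⟨_, (rd_T1 (z := o.z) h.iso h.symm hB' (f1_deriv ha) (d1_lip ha)).add
    (rd_T1 (z := o.z) h.iso h.symm hB (f2_deriv ha) (d2_lip ha)), fun U hU y hy => ?_⟩
  have g1 := grad_le h hB' hb (d1 a) hU
  have g2 := grad_le h hB (Or.inr hW) (d2 a) hU
  have g3 : fr (cfc (d2 a) (o.A U + B)) ≤ n := by
    have := fr_d2_le ha (herm_AB h hB U)
    rwa [Fintype.card_fin] at this
  have g4 := mul_le_mul_of_nonneg_left hy b0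
  have g5 := mul_le_mul_of_nonneg_left g3 (sq_nonneg w)
  refine (sqD_add_le _ _ U).trans ((mul_le_mul_of_nonneg_left (add_le_add g1 g2) zero_le_two).trans ?_)
  linarith

lemma rk (h : o.Ok) (C : Mn n) (V : Mat k) {R : Mat k} (hR : R2 R) :
    (o.A (mm V R) + C - (o.A V + C)).rank ≤ 4 := by
  rw [add_sub_add_right_eq_sub]; exact Orb.rank_A41 h V hR

lemma good_fr (h : o.Ok) (hB' : B'ᵀ = B') (ha : 0 < a) {θ T : ℝ} (hθ : 0 < θ)
    (hp : ∀ j < n, 0 < lam (o.z • (1 : Mn n) - o.W) j)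
    (hT : ∑ j ∈ Finset.range n, (lam (o.z • (1 : Mn n) - o.W) j ^ 2)⁻¹ ≤ T) {V R : Mat k}
    (hV : V ∈ SO k) (hR : R2 R)
    (hq : ∀ v, θ * (v ⬝ᵥ o.A V *ᵥ v) ≤ v ⬝ᵥ (o.A V + B') *ᵥ v) :
    fr (cfc (d1 a) (o.A (mm V R) + B')) ≤ T / θ ^ 2 + 16 / a ^ 2 := by
  obtain ⟨S, hS, e⟩ := ker_eq (rk h B' V hR)
  have hY := Eig.herm_smul (herm_iff.2 (Orb.A_symm h V)) θ
  have el : ∀ j, lam (θ • o.A V) j = θ * lam (o.z • (1 : Mn n) - o.W) j := fun j => by
    rw [Eig.lam_smul (herm_iff.2 (Orb.A_symm h V)) hθ.le, lam_A h hV]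
  have h1 := fr_d1_good ha (herm_AB h hB' (mm V R)) hY hS (fun v hv => by
    rw [e v hv, smul_mulVec, dotProduct_smul]; exact hq v)
    fun j hj => by rw [el]; exact mul_pos hθ (hp j (by simpa using hj))
  rw [trc hY] at h1
  simp only [el, mul_pow, mul_inv, Fintype.card_fin, ← Finset.mul_sum] at h1
  have h2 := mul_le_mul_of_nonneg_left hT (inv_pos.2 (pow_pos hθ 2)).le
  refine h1.trans (add_le_add (h2.trans_eq (div_eq_inv_mul _ _).symm) (le_of_eq ?_))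
  push_cast; ring

lemma FF_move (h : o.Ok) (hB : Bᵀ = B) (hB' : B'ᵀ = B') (ha : 0 < a) {w : ℝ} (hw : 0 < w)
    (hW : Op2 o.W (w ^ 2)) {V R : Mat k} (hV : V ∈ SO k) (hR : R2 R) :
    |FF o B B' a (mm V R) - FF o B B' a V| ≤ 4 * Real.log (1 + 2 / a) + 8 * w := by
  have h1 := il_rank ha (herm_AB h hB' (mm V R)) (herm_AB h hB' V) (rk h B' V hR)
  have h2 := lip_rank ha (herm_AB h hB (mm V R)) (herm_AB h hB V) (rk h B V hR)
    (ρ := 2 * w) (by positivity) fun v => by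
      have q1 := abs_le.1 (quad_le_op hw (op2_Wu h hW hV) v)
      have q2 := abs_le.1 (quad_le_op hw (op2_Wu h hW (mm_mem hV hR.1)) v)
      simp only [AU, add_mulVec, sub_mulVec, dotProduct_add, dotProduct_sub]
      exact abs_le.2 ⟨by linarith [q1.1, q2.2], by linarith [q1.2, q2.1]⟩
  rw [FF, FF, add_sub_add_comm]
  refine (abs_add_le _ _).trans ((add_le_add h1 h2).trans_eq ?_)
  push_cast; ring

lemma det_FF (h : o.Ok) (hB : Bᵀ = B) (hB' : B'ᵀ = B') (ha : 0 < a) {m : ℕ}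
    (hr : (B - B').rank ≤ m) {U : Mat k} (hq : ∀ v, a * (v ⬝ᵥ v) ≤ v ⬝ᵥ (o.A U + B) *ᵥ v) :
    ∃ y, (o.A U + B).det = Real.exp y ∧ |y - FF o B B' a U| ≤ m * Real.log (1 + 2 / a) := by
  have hX := herm_AB h hB U
  have h2 := det_eq_exp hX (φ := fun y => f1 a y + f2 a y) fun j hj => exp_f ha
    (Eig.le_lam_of_cod hX hj (Eig.cod_top.mono (Nat.zero_le _)) fun v _ => hq v)
  rw [trc hX, Finset.sum_add_distrib, ← trc hX, ← trc hX] at h2
  refine ⟨_, h2, ?_⟩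
  rw [FF, add_sub_add_right_eq_sub]
  exact il_rank ha hX (herm_AB h hB' U) (by rw [add_sub_add_left_eq_sub]; exact hr)

/-- **(T1)** -/
theorem t1 (hμ : SOInv μ) (h : o.Ok) (hn : 0 < n) (hB : Bᵀ = B) (hB' : B'ᵀ = B') {m : ℕ}
    (hr : (B - B').rank ≤ m) {w b θ T x δ : ℝ} (hw : 0 < w) (hW : Op2 o.W (w ^ 2)) (b0 : 0 ≤ b)
    (bw : b ≤ w ^ 2) (hb : Op2 B' b ∨ Op2 o.W b) (ha : 0 < a) (hθ : 0 < θ)
    (hp : ∀ j < n, 0 < lam (o.z • (1 : Mn n) - o.W) j)
    (hT : ∑ j ∈ Finset.range n, (lam (o.z • (1 : Mn n) - o.W) j ^ 2)⁻¹ ≤ T) (hx : 0 < x)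
    (hQ : (o.P μ).real {U | ¬ Qd o B B' a θ U} ≤ δ) :
    ∃ k0 > (0 : ℝ), (o.P μ).real {U | ¬ (k0 ≤ (o.A U + B).det ∧
      (o.A U + B).det ≤ Real.exp (2 * Xx m w a x) * k0)} ≤
      2 * Real.exp (-(((k : ℝ) - 2) * x ^ 2 / (36 * Aa n w b a θ T))) + (3 + 8 / a ^ 2) * δ := by
  have hP := Orb.P_prob hμ h
  have T0 : 0 ≤ T := (Finset.sum_nonneg fun j _ => by positivity).trans hT
  have n0 : (0 : ℝ) < n := by exact_mod_cast hn
  have hA : 0 < Aa n w b a θ T := by unfold Aa; positivity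
  obtain ⟨D, rF, gF⟩ := exists_D h hB hB' hW b0 hb ha
  have hGm := meas_le41 rF.cD (continuousOn_const (c := Aa n w b a θ T))
  obtain ⟨c, hc⟩ := hd_two hμ h.two rF hGm (M := Aa n w b a θ T * (1 + 4 / a ^ 2)) hA hx
    (by positivity) (fun U _ hG => hG.2) fun U hU => by
      have h0 := fr_d1_le ha (herm_AB h hB' U)
      rw [Fintype.card_fin] at h0
      refine (gF U hU _ h0).trans ?_
      have h1 : b * (n * (4 / a ^ 2)) ≤ w ^ 2 * (n * (4 / a ^ 2)) :=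
        mul_le_mul_of_nonneg_right bw (by positivity)
      have h2 : 0 ≤ 32 * b * (T / θ ^ 2 + 16 / a ^ 2) * (1 + 4 / a ^ 2) := by positivity
      unfold Aa
      generalize 4 / a ^ 2 = q at *
      linarith
  have hG : μ.real {U | U ∈ SO k ∧ sqD D U ≤ Aa n w b a θ T}ᶜ ≤ δ :=
    (Orb.cpl' hμ h hGm.compl (T2 := {U | ¬ Qd o B B' a θ U}) fun V hV R hR hVR hq =>
      hVR ⟨mm_mem hV hR.1, gF _ (mm_mem hV hR.1) _ (good_fr h hB' ha hθ hp hT hV hR hq.2)⟩).trans hQ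
  have hT1 := meas_le41 (continuousOn_const (c := x + 1 + 4 * Real.log (1 + 2 / a) + 8 * w))
    (g := fun U => |FF o B B' a U - c|) (rF.c.sub (continuousOn_const (c := c))).abs
  have hc2 := (Orb.cpl hμ h hT1 (T2 := {U | x + 1 ≤ |FF o B B' a U - c|}) fun V hV R hR hVR => by
    have h3 : x + 1 + 4 * Real.log (1 + 2 / a) + 8 * w ≤ |FF o B B' a (mm V R) - c| := hVR.2
    have h4 := abs_sub_le (FF o B B' a (mm V R)) (FF o B B' a V) c
    have h5 := FF_move h hB hB' ha hw hW hV hR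
    show x + 1 ≤ |FF o B B' a V - c|
    linarith).trans hc
  refine ⟨Real.exp (c - Xx m w a x), Real.exp_pos _, ?_⟩
  have key : (o.P μ).real {U | ¬ (Real.exp (c - Xx m w a x) ≤ (o.A U + B).det ∧
      (o.A U + B).det ≤ Real.exp (2 * Xx m w a x) * Real.exp (c - Xx m w a x))} ≤
      (o.P μ).real ({U | U ∈ SO k ∧ x + 1 + 4 * Real.log (1 + 2 / a) + 8 * w ≤
        |FF o B B' a U - c|} ∪ {U | ¬ Qd o B B' a θ U}) := by
    refine ENNReal.toReal_mono (measure_ne_top _ _) (measure_mono_ae ?_)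
    filter_upwards [Orb.P_mem (o := o) hμ] with U hU hb
    by_contra hh
    have h1 : |FF o B B' a U - c| < x + 1 + 4 * Real.log (1 + 2 / a) + 8 * w :=
      not_le.1 fun h' => hh (Or.inl ⟨hU, h'⟩)
    have h2 : Qd o B B' a θ U := not_not.1 fun h' => hh (Or.inr h')
    obtain ⟨y, e, hy⟩ := det_FF h hB hB' ha hr h2.1
    obtain ⟨h3, h4⟩ := abs_lt.1 h1
    obtain ⟨h5, h6⟩ := abs_le.1 hy
    refine hb ⟨?_, ?_⟩
    · rw [e]; refine Real.exp_le_exp.2 ?_
      unfold Xx; linarith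
    · rw [e, ← Real.exp_add]; refine Real.exp_le_exp.2 ?_
      unfold Xx; linarith
  have e1 : Aa n w b a θ T * (1 + 4 / a ^ 2) / Aa n w b a θ T = 1 + 4 / a ^ 2 :=
    mul_div_cancel_left₀ _ hA.ne'
  rw [e1] at hc2
  have e2 := mul_le_mul_of_nonneg_left hG (show 0 ≤ 1 + 4 / a ^ 2 by positivity)
  refine key.trans ((measureReal_union_le _ _).trans ((add_le_add hc2 hQ).trans ?_))
  linarith [show (3 + 8 / a ^ 2) * δ = 2 * ((1 + 4 / a ^ 2) * δ) + δ by ring]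

/-- spectral sums of a diagonalised matrix -/
lemma sum_lam_conj {O : Mn n} (hO : O * Oᵀ = 1) (l : Vn n) (ψ : ℝ → ℝ) :
    ∑ j ∈ Finset.range n, ψ (lam (O * diagonal l * Oᵀ) j) = ∑ i, ψ (l i) := by
  have hD : (diagonal l).IsHermitian := isHermitian_diagonal l
  have h1 : ∀ j, lam (O * diagonal l * Oᵀ) j = lam (diagonal l) j := fun j => by
    have := Eig.lam_conj hD (Q := Oᵀ) (by rwa [transpose_transpose]) rfl j
    rwa [transpose_transpose] at this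
  have h2 := Eig.sum_range_eq hD fun x _ => ψ x
  rw [Fintype.card_fin] at h2
  simp only [h1, h2]
  have h3 := hD.roots_charpoly_eq_eigenvalues
  rw [charpoly_diagonal, Polynomial.roots_prod _ _ (Finset.prod_ne_zero_iff.2 fun i _ =>
    Polynomial.X_sub_C_ne_zero _)] at h3
  simp only [Polynomial.roots_X_sub_C, Multiset.bind_singleton] at h3
  have h4 := congrArg (fun s => (Multiset.map ψ s).sum) h3
  simpa [Finset.sum, Multiset.map_map, Function.comp_def] using h4.symm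

/-- the spectral hypotheses of `t1` from a diagonalisation of `W` -/
lemma spec_of_conj {W O : Mn n} (hO : O * Oᵀ = 1) {l : Vn n} (hW : W = O * diagonal l * Oᵀ) {z : ℝ}
    (hz : ∀ i, l i < z) : (∀ j < n, 0 < lam (z • (1 : Mn n) - W) j) ∧
      ∑ j ∈ Finset.range n, (lam (z • (1 : Mn n) - W) j ^ 2)⁻¹ = ∑ i, ((z - l i) ^ 2)⁻¹ := by
  have e : z • (1 : Mn n) - W = O * diagonal (fun i => z - l i) * Oᵀ := by
    rw [hW, ← diagonal_sub, Matrix.mul_sub, Matrix.sub_mul, ← smul_one_eq_diagonal, Matrix.mul_smul,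
      Matrix.mul_one, Matrix.smul_mul, hO]
  rw [e]
  refine ⟨fun j hj => not_le.1 fun h => ?_, sum_lam_conj hO _ fun x => (x ^ 2)⁻¹⟩
  have h1 := sum_lam_conj hO (fun i => z - l i) fun x => if x ≤ 0 then 1 else 0
  rw [Finset.sum_eq_zero (s := Finset.univ) fun i _ => if_neg (by linarith [hz i])] at h1
  have h2 := (Finset.sum_eq_zero_iff_of_nonneg fun i _ => by positivity).1 h1 j (Finset.mem_range.2 hj)
  rw [if_pos h] at h2
  exact one_ne_zero h2

end Crest.Agent.T157.Ot
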