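import Crest.Agent.T157.OtW_41
import Crest.Agent.T157.OtB_46

set_option autoImplicit false
set_option linter.unusedSectionVars false

/-!
Row 157, A2 section 3 (helper41): (T1) in the words of the orbit hypothesis.
-/

noncomputable section

namespace Crest.Agent.T157.Kp

open MeasureTheory Matrix Set
open Crest.Agent.Lib.OrthPoinc Crest.Agent.T157.E Crest.Agent.T157.Tap
open Crest.Agent.T157.Qe (Le qf_add qf_sub qf_smul qf_one qf_vmv qf_conj)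
open Crest.Agent.T157.Od (Op2 AU_eq emb_orth')
open Crest.Agent.T157.Dq (Dg)
open Crest.Agent.T157.Oc (SO emb emb_orth)
open W41

variable {n k : ℕ} {o : Oo.Orb n k} {μ : Measure (Mat k)} [IsProbabilityMeasure μ] {x : V n}

theorem T1out.mono (hμ : SOInv μ) (ho : o.Ok) {De De' η η' : ℝ} (h : T1out o μ x De η)
    (hD : De ≤ De') (hη : η ≤ η') : T1out o μ x De' η' := by
  obtain ⟨k0, h0, h1⟩ := h
  have := Oo.Orb.P_prob hμ ho
  refine ⟨k0, h0, le_trans (measureReal_mono ?_) (h1.trans hη)⟩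
  exact fun U hU hh => hU ⟨hh.1, hh.2.trans (mul_le_mul_of_nonneg_right hD h0.le)⟩

namespace W41

lemma num_A {N C l q b : ℝ} (hC : 1 ≤ C) (hl : 1 ≤ l) (q0 : 0 < q) (q3 : 1 ≤ N * q ^ 3)
    (b1 : b ≤ 32 * l * q) :
    32 * b * (C * N / q / (1 / 5) ^ 2 + 16 / (q ^ 2 / 10) ^ 2) + 32 * 4 ^ 2 * N ≤
      1700000 * (C * l * N) := by
  have N0 : 0 < N := by
    by_contra h
    nlinarith [pow_pos q0 3, not_lt.1 h]
  have h1 : 16 / (q ^ 2 / 10) ^ 2 ≤ 1600 * (C * N) / q := by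
    rw [div_le_div_iff₀ (by positivity) q0]
    have : q ≤ C * N * q ^ 4 := by
      calc q ≤ N * q ^ 3 * q := le_mul_of_one_le_left q0.le q3
        _ ≤ C * (N * q ^ 3 * q) := le_mul_of_one_le_left (by positivity) hC
        _ = _ := by ring
    nlinarith
  have h2 : C * N / q / (1 / 5) ^ 2 + 16 / (q ^ 2 / 10) ^ 2 ≤ 1625 * (C * N) / q := by
    have : C * N / q / (1 / 5) ^ 2 = 25 * (C * N) / q := by ring
    have e : 1625 * (C * N) / q = 25 * (C * N) / q + 1600 * (C * N) / q := by ring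
    linarith
  have h3 := mul_le_mul b1 h2 (by positivity) (by positivity)
  have e : 32 * l * q * (1625 * (C * N) / q) = 52000 * (C * l * N) := by field_simp; ring
  have h4 : N ≤ C * l * N := le_mul_of_one_le_left N0.le (one_le_mul_of_one_le_of_one_le hC hl)
  linarith

lemma inv_q {N q : ℝ} (q0 : 0 < q) (q1 : q ≤ 1) (q3 : 1 ≤ N * q ^ 3) {j : ℕ} (hj : j ≤ 3) :
    1 / q ^ j ≤ N := by
  have N0 : 0 < N := by
    by_contra h
    nlinarith [pow_pos q0 3, not_lt.1 h]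
  rw [div_le_iff₀ (by positivity)]
  exact q3.trans (mul_le_mul_of_nonneg_left (pow_le_pow_of_le_one q0.le q1 hj) N0.le)

lemma num_P {N q H A y : ℝ} (hN : 805 ≤ N) (q0 : 0 < q) (q1 : q ≤ 1) (q3 : 1 ≤ N * q ^ 3)
    (hH : 3 * Real.log N ≤ H) (H0 : 0 ≤ H) (A0 : 0 < A) (y0 : 0 < y) (hA : A ≤ 1700000 * (y * N)) :
    2 * Real.exp (-((N - 2 - 2) * (25000 * √(y * H)) ^ 2 / (36 * A))) +
      (3 + 8 / (q ^ 2 / 10) ^ 2) * Real.exp (-(5 * H)) ≤ Real.exp (-(4 * H)) := by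
  have h1 : 5 * H ≤ (N - 2 - 2) * (25000 * √(y * H)) ^ 2 / (36 * A) := by
    rw [le_div_iff₀ (by positivity), mul_pow, Real.sq_sqrt (by positivity)]
    have a1 := mul_le_mul_of_nonneg_left hA H0
    have a2 : 0 ≤ (N - 805) * (y * H) := mul_nonneg (by linarith) (by positivity)
    have a3 : 0 ≤ y * H := by positivity
    nlinarith
  have h2 := Real.exp_le_exp.2 (neg_le_neg h1)
  have h3 : 8 / (q ^ 2 / 10) ^ 2 ≤ 800 * N ^ 2 := by
    have a1 := inv_q q0 q1 q3 (j := 2) (by norm_num)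
    have a2 := pow_le_pow_left₀ (by positivity) a1 2
    have e : 8 / (q ^ 2 / 10) ^ 2 = 800 * (1 / q ^ 2) ^ 2 := by field_simp; norm_num
    linarith
  have h4 : N ^ 3 ≤ Real.exp H := by
    rw [← Real.exp_log (show 0 < N ^ 3 by positivity), Real.log_pow]
    exact Real.exp_le_exp.2 (by push_cast; linarith)
  have h5 : Real.exp (-(4 * H)) = Real.exp H * Real.exp (-(5 * H)) := by
    rw [← Real.exp_add]; ring_nf
  have h6 : 5 + 800 * N ^ 2 ≤ N ^ 3 := by nlinarith [mul_nonneg (show 0 ≤ N - 805 by linarith) (sq_nonneg N)]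
  have h7 := Real.exp_pos (-(5 * H))
  rw [h5]
  nlinarith

lemma num_X {N q y : ℝ} (hN : 805 ≤ N) (q0 : 0 < q) (q1 : q ≤ 1) (q3 : 1 ≤ N * q ^ 3) (m : ℕ) :
    2 * Ot.Xx m 4 (q ^ 2 / 10) (25000 * y) ≤ 50000 * y + (4 * m + 82) * Real.log N := by
  have h1 : 1 ≤ Real.log N := by
    rw [Real.le_log_iff_exp_le (by linarith)]
    linarith [Real.exp_one_lt_d9]
  have h2 : Real.log (1 + 2 / (q ^ 2 / 10)) ≤ 2 * Real.log N := by
    have a1 := inv_q q0 q1 q3 (j := 2) (by norm_num)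
    have e : 2 / (q ^ 2 / 10) = 20 * (1 / q ^ 2) := by field_simp; norm_num
    have a2 : 1 + 2 / (q ^ 2 / 10) ≤ N ^ 2 := by rw [e]; nlinarith
    have a3 := Real.log_le_log (by positivity) a2
    rwa [Real.log_pow, Nat.cast_ofNat] at a3
  have h3 := mul_le_mul_of_nonneg_left h2 (show (0 : ℝ) ≤ m + 4 by positivity)
  unfold Ot.Xx
  linarith

lemma eA (h : At o x) (n0 : 0 < n) (S : Finset (Fin n)) (U : Mat k) :
    o.A U + Bs S x = Kb.AT S x (o.Wu U) := by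
  rw [← AT_eq n0, ← h.z, Oo.Orb.A, Od.AU]

lemma spec (h : At o x) (n0 : 0 < n) {C : ℝ} (q0 : 0 < aS x) (q1 : aS x ≤ 1 / 2)
    (hW : Sp1 C (aS x) o.W) :
    (∀ v : V n, aS x ^ 2 / 2 * (v ⬝ᵥ v) ≤ v ⬝ᵥ (o.z • (1 : Mx n) - o.W) *ᵥ v) ∧ Op2 o.W (4 ^ 2) ∧
    (∀ j < n, 0 < Eig.lam (o.z • (1 : Mx n) - o.W) j) ∧
    ∑ j ∈ Finset.range n, (Eig.lam (o.z • (1 : Mx n) - o.W) j ^ 2)⁻¹ ≤ C * n / aS x := by
  obtain ⟨a, hd, ha, hs⟩ := hW
  have hz : o.z = 1 - aS x + 1 / (1 - aS x) := by rw [h.z, chi_eq n0]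
  have hz2 : 2 + aS x ^ 2 ≤ o.z := by
    have h1 : 1 + aS x + aS x ^ 2 ≤ 1 / (1 - aS x) := by
      rw [le_div_iff₀ (by linarith)]; nlinarith [pow_pos q0 3]
    linarith
  have dA : Dg (o.z • (1 : Mx n) - o.W) fun i => o.z - a i := by
    have h1 := Qe.dg_affine hd (-1) o.z
    rw [neg_one_smul, neg_add_eq_sub] at h1
    simpa only [neg_one_mul, neg_add_eq_sub] using h1
  have lA : ∀ v : V n, aS x ^ 2 / 2 * (v ⬝ᵥ v) ≤ v ⬝ᵥ (o.z • (1 : Mx n) - o.W) *ᵥ v := fun v => by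
    have h1 := Qe.dg_ge dA (c := aS x ^ 2 / 2) (fun i => by linarith [(ha i).2]) v
    rwa [qf_smul, qf_one] at h1
  have hA : (o.z • (1 : Mx n) - o.W).IsHermitian :=
    Eig.herm_iff.2 (by rw [transpose_sub, transpose_smul, transpose_one, h.ok.symm])
  refine ⟨lA, op2_dg hd fun i => abs_le.2 ⟨(ha i).1, by nlinarith [(ha i).2]⟩, fun j hj =>
    lt_of_lt_of_le (by positivity) (Eig.le_lam_of_cod hA (by simpa using hj)
      (Eig.cod_top.mono (Nat.zero_le _)) fun v _ => lA v), ?_⟩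
  rw [sum_lam dA fun y => (y ^ 2)⁻¹, hz]
  exact hs

lemma qd (h : At o x) (n0 : 0 < n) {c : ℝ}
    (lA : ∀ v : V n, c * (v ⬝ᵥ v) ≤ v ⬝ᵥ (o.z • (1 : Mx n) - o.W) *ᵥ v) {S : Finset (Fin n)}
    {U : Mat k} (hU : U ∈ SO k) (h2 : P5 S x (o.Wu U)) :
    Ot.Qd o (Bs ∅ x) (Bs S x) (c / 5) (1 / 5) U := by
  have hz : o.z = 1 - aS x + 1 / (1 - aS x) := by rw [h.z, chi_eq n0]
  have h3 : ∀ v, 1 / 5 * (v ⬝ᵥ o.A U *ᵥ v) ≤ v ⬝ᵥ (o.A U + Bs S x) *ᵥ v := fun v => by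
    have h4 := h2 v
    rwa [qf_smul, ← hz, ← eA h n0] at h4
  refine ⟨fun v => ?_, h3⟩
  have h4 := h3 v
  have h5 := Bs_le S x v
  have h6 := lA ((emb o.E U)ᵀ *ᵥ v)
  rw [← qf_conj, transpose_transpose, ← AU_eq h.ok.iso hU,
    Op2.orth (by rw [transpose_transpose]; exact emb_orth h.ok.iso hU)] at h6
  rw [qf_add] at h4 ⊢
  linarith

lemma ex_b (n0 : 0 < n) {l : ℝ} (hl : 1 ≤ l) (q0 : 0 < aS x) {W : Mx n} (w4 : Op2 W (4 ^ 2)) :
    ∃ b : ℝ, 0 ≤ b ∧ b ≤ 4 ^ 2 ∧ (Op2 (Bs (Sl l x) x) b ∨ Op2 W b) ∧ b ≤ 32 * l * aS x := by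
  have h1 : 0 < l * aS x := by positivity
  rcases le_total (l * aS x) (1 / 2) with hθ | hθ
  · exact ⟨_, by positivity, by nlinarith, Or.inl (op2_Bs n0 q0.le hl hθ), by nlinarith⟩
  · exact ⟨_, by positivity, le_rfl, Or.inr w4, by nlinarith⟩

end W41

/-- **(T1)** in the words of the orbit hypothesis -/
theorem t1out (hμ : SOInv μ) (h : At o x) {C l H : ℝ} (hn : 805 ≤ n) (hC : 1 ≤ C) (hl : 1 ≤ l)
    (q0 : 0 < aS x) (q1 : aS x ≤ 1 / 2) (q3 : 1 ≤ n * aS x ^ 3) (hW : Sp1 C (aS x) o.W)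
    (hH : 3 * Real.log n ≤ H)
    (hP : (o.P μ).real {U | ¬ P5 (Sl l x) x (o.Wu U)} ≤ Real.exp (-(5 * H))) :
    T1out o μ x (Real.exp (50000 * √(C * l * H) + (4 * (Sl l x).card + 82) * Real.log n))
      (Real.exp (-(4 * H))) := by
  have n0 : 0 < n := by omega
  have nR : (805 : ℝ) ≤ n := by exact_mod_cast hn
  have hPp := Oo.Orb.P_prob hμ h.ok
  have H0 : 0 < H := by
    have := Real.log_pos (show (1 : ℝ) < n by linarith)
    linarith
  obtain ⟨lA, w4, hp, hT⟩ := spec h n0 q0 q1 hW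
  obtain ⟨b, b0, bw, hb, bq⟩ := ex_b n0 hl q0 w4
  have hQ : (o.P μ).real {U | ¬ Ot.Qd o (Bs ∅ x) (Bs (Sl l x) x) (aS x ^ 2 / 10) (1 / 5) U} ≤
      Real.exp (-(5 * H)) := by
    refine le_trans (ENNReal.toReal_mono (measure_ne_top _ _) (measure_mono_ae ?_)) hP
    filter_upwards [Oo.Orb.P_mem (o := o) hμ] with U hU h1 h2
    have h3 := qd h n0 lA hU h2
    rw [show aS x ^ 2 / 2 / 5 = aS x ^ 2 / 10 by ring] at h3
    exact h1 h3
  have y0 : 0 < C * l := by positivity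
  have x0 : 0 < 25000 * √(C * l * H) := by positivity
  have a0 : 0 < aS x ^ 2 / 10 := by positivity
  obtain ⟨k0, hk, h1⟩ := Ot.t1 hμ h.ok n0 (Bs_symm ∅ x) (Bs_symm (Sl l x) x) (rank_B (Sl l x) x)
    four_pos w4 b0 bw hb a0 (by norm_num) hp hT x0 hQ
  have hD : 0 < ∏ i, DD (th x) i := Finset.prod_pos fun i _ => DD_pos x i
  have ek : (k : ℝ) = n - 2 := by rw [← h.dim]; push_cast; ring
  have q1' : aS x ≤ 1 := by linarith
  have A0 : 0 < Ot.Aa n 4 b (aS x ^ 2 / 10) (1 / 5) (C * n / aS x) := by unfold Ot.Aa; positivity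
  have h4 := num_P nR q0 q1' q3 hH H0.le A0 y0 (num_A hC hl q0 q3 bq)
  have h5 := Real.exp_le_exp.2 (num_X (y := √(C * l * H)) nR q0 q1' q3 (Sl l x).card)
  rw [ek] at h1
  refine ⟨k0 * ∏ i, DD (th x) i, mul_pos hk hD, le_trans (measureReal_mono ?_) (h1.trans h4)⟩
  intro U h2 h3
  refine h2 ?_
  rw [dt_eq n0, ← eA h n0, abs_of_pos (mul_pos (hk.trans_le h3.1) hD), ← mul_assoc]
  exact ⟨mul_le_mul_of_nonneg_right h3.1 hD.le, mul_le_mul_of_nonneg_right (h3.2.trans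
    (mul_le_mul_of_nonneg_right h5 hk.le)) hD.le⟩

end Crest.Agent.T157.Kp
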