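import Crest.Agent.T157.PaA_39

/-!
# Row 157, path layer, part B (helper39): adapted processes and semimartingales

`Gr` (growth `C exp (c sup ‖B‖)`), `Tm r H` (`F r`-measurable variable), `Ad a b X` (continuous
adapted), `Pr a b A` (progressive), `Nice Q`, `SM Q a b X A` (`X - ∫ A` is a `Q`-martingale),
`FV a b V V'` (finite variation), `St a b τ` (stopping time).  Closure: linear operations, product
with a finite variation process, stopping.
-/

set_option autoImplicit false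
set_option linter.unusedSectionVars false

noncomputable section

namespace Crest.Agent.T157.Pa

open MeasureTheory ProbabilityTheory Filter Topology Set Real
open scoped NNReal ENNReal

/-- integration by parts for primitives -/
theorem tri {f g : ℝ → ℝ} {r t : ℝ} (hf : IntervalIntegrable f volume r t)
    (hg : IntervalIntegrable g volume r t) :
    ∫ u in r..t, f u * ∫ w in u..t, g w = ∫ w in r..t, (∫ u in r..w, f u) * g w := by
  have h1 := hf.absolutelyContinuousOnInterval_intervalIntegral (c := r) left_mem_uIcc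
  have h2 := hg.absolutelyContinuousOnInterval_intervalIntegral (c := t) right_mem_uIcc
  have h3 := h1.integral_mul_deriv_eq_deriv_mul h2
  simp only [intervalIntegral.integral_same, mul_zero, zero_mul, sub_zero, zero_sub] at h3
  have e1 : ∫ x in r..t, (∫ v in r..x, f v) * deriv (fun x => ∫ v in t..x, g v) x =
      ∫ w in r..t, (∫ u in r..w, f u) * g w := by
    refine intervalIntegral.integral_congr_ae ?_
    filter_upwards [hg.ae_hasDerivAt_integral] with x hx hx'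
    rw [(hx (uIoc_subset_uIcc hx') t right_mem_uIcc).deriv]
  have e2 : ∫ x in r..t, deriv (fun x => ∫ v in r..x, f v) x * ∫ v in t..x, g v =
      -∫ u in r..t, f u * ∫ w in u..t, g w := by
    rw [← intervalIntegral.integral_neg]
    refine intervalIntegral.integral_congr_ae ?_
    filter_upwards [hf.ae_hasDerivAt_integral] with x hx hx'
    rw [(hx (uIoc_subset_uIcc hx') r left_mem_uIcc).deriv, intervalIntegral.integral_symm x t]
    ring
  rw [e1, e2, neg_neg] at h3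
  exact h3.symm

theorem integral_ite_lt (f : ℝ → ℝ) {r t : ℝ} (τ : ℝ) (h : r ≤ t) :
    ∫ u in r..t, (if u < τ then f u else 0) = ∫ u in min r τ..min t τ, f u := by
  rw [intervalIntegral.integral_of_le h, intervalIntegral.integral_of_le (min_le_min_right _ h)]
  have e : (fun u => if u < τ then f u else 0) = (Iio τ).indicator f := by
    ext u; simp [indicator_apply]
  rw [e, setIntegral_indicator measurableSet_Iio]
  refine setIntegral_congr_set ?_
  have : ∀ᵐ u : ℝ, u ≠ τ := by simp [ae_iff]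
  filter_upwards [this] with u hu
  apply propext
  change u ∈ Ioc r t ∩ Iio τ ↔ u ∈ Ioc (min r τ) (min t τ)
  simp only [mem_inter_iff, mem_Ioc, mem_Iio, min_lt_iff, le_min_iff]
  constructor
  · rintro ⟨⟨h1, h2⟩, h3⟩; exact ⟨Or.inl h1, h2, h3.le⟩
  · rintro ⟨h1, h2, h3⟩
    have h4 := lt_of_le_of_ne h3 hu
    exact ⟨⟨h1.resolve_right (not_lt.2 h3), h2⟩, h4⟩

namespace BM

variable {ι : Type} [Fintype ι] {W : BM ι}

/-- growth bound, uniform over the index set `I` -/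
def Gr (W : BM ι) {κ : Type*} (I : Set κ) (X : κ → W.Ω → ℝ) : Prop :=
  ∃ T C c : ℝ, 0 ≤ T ∧ 0 ≤ C ∧ 0 ≤ c ∧ ∀ t ∈ I, ∀ ω, |X t ω| ≤ C * exp (c * W.S T ω)

namespace Gr
variable {κ κ' : Type*} {I : Set κ} {X Y : κ → W.Ω → ℝ}

theorem of_bdd (C : ℝ) (h : ∀ t ∈ I, ∀ ω, |X t ω| ≤ C) : W.Gr I X :=
  ⟨0, |C|, 0, le_rfl, abs_nonneg _, le_rfl, fun t ht ω => by
    simpa using (h t ht ω).trans (le_abs_self C)⟩

theorem const (c : ℝ) : W.Gr I fun _ _ => c := of_bdd |c| fun _ _ _ => le_rfl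

theorem comp (h : W.Gr I X) {J : Set κ'} {Y : κ' → W.Ω → ℝ}
    (e : ∀ t ∈ J, ∀ ω, ∃ s ∈ I, |Y t ω| ≤ |X s ω|) : W.Gr J Y := by
  obtain ⟨T, C, c, h1, h2, h3, h4⟩ := h
  exact ⟨T, C, c, h1, h2, h3, fun t ht ω => by
    obtain ⟨s, hs, e⟩ := e t ht ω; exact e.trans (h4 s hs ω)⟩

theorem of_le (h : W.Gr I X) (e : ∀ t ∈ I, ∀ ω, |Y t ω| ≤ |X t ω|) : W.Gr I Y :=
  h.comp fun t ht ω => ⟨t, ht, e t ht ω⟩

theorem mono (h : W.Gr I X) {J : Set κ} (hJ : J ⊆ I) : W.Gr J X :=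
  h.comp fun t ht _ => ⟨t, hJ ht, le_rfl⟩

theorem both (h : W.Gr I X) {J : Set κ'} {Y : κ' → W.Ω → ℝ} (h' : W.Gr J Y) :
    ∃ T C c : ℝ, 0 ≤ T ∧ 0 ≤ C ∧ 0 ≤ c ∧ (∀ t ∈ I, ∀ ω, |X t ω| ≤ C * exp (c * W.S T ω)) ∧
      ∀ t ∈ J, ∀ ω, |Y t ω| ≤ C * exp (c * W.S T ω) := by
  obtain ⟨T, C, c, h1, h2, h3, h4⟩ := h
  obtain ⟨T', C', c', h1', h2', h3', h4'⟩ := h'
  refine ⟨max T T', max C C', max c c', by positivity, by positivity, by positivity,
    fun t ht ω => (h4 t ht ω).trans ?_, fun t ht ω => (h4' t ht ω).trans ?_⟩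
  · have := W.S_nonneg T ω
    gcongr
    exacts [le_max_left _ _, le_max_left _ _, W.S_mono h1 (le_max_left _ _) ω]
  · have := W.S_nonneg T' ω
    gcongr
    exacts [le_max_right _ _, le_max_right _ _, W.S_mono h1' (le_max_right _ _) ω]

theorem mul2 (h : W.Gr I X) {J : Set κ'} {Y : κ' → W.Ω → ℝ} (h' : W.Gr J Y) :
    W.Gr (I ×ˢ J) fun p ω => X p.1 ω * Y p.2 ω := by
  obtain ⟨T, C, c, h1, h2, h3, h4, h5⟩ := h.both h'
  refine ⟨T, C * C, c + c, h1, by positivity, by positivity, fun p hp ω => ?_⟩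
  rw [abs_mul, add_mul, exp_add, mul_mul_mul_comm]
  exact mul_le_mul (h4 _ hp.1 ω) (h5 _ hp.2 ω) (abs_nonneg _) (by positivity)

theorem add2 (h : W.Gr I X) {J : Set κ'} {Y : κ' → W.Ω → ℝ} (h' : W.Gr J Y) :
    W.Gr (I ×ˢ J) fun p ω => |X p.1 ω| + |Y p.2 ω| := by
  obtain ⟨T, C, c, h1, h2, h3, h4, h5⟩ := h.both h'
  refine ⟨T, C + C, c, h1, by positivity, h3, fun p hp ω => ?_⟩
  rw [abs_of_nonneg (by positivity), add_mul]
  exact add_le_add (h4 _ hp.1 ω) (h5 _ hp.2 ω)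

theorem mul (h : W.Gr I X) (h' : W.Gr I Y) : W.Gr I fun t ω => X t ω * Y t ω :=
  (h.mul2 h').comp fun t ht _ => ⟨(t, t), ⟨ht, ht⟩, le_rfl⟩

theorem add (h : W.Gr I X) (h' : W.Gr I Y) : W.Gr I fun t ω => X t ω + Y t ω :=
  (h.add2 h').comp fun t ht _ => ⟨(t, t), ⟨ht, ht⟩, (abs_add_le _ _).trans (le_abs_self _)⟩

theorem neg (h : W.Gr I X) : W.Gr I fun t ω => -X t ω := h.of_le fun _ _ _ => (abs_neg _).le

theorem sub (h : W.Gr I X) (h' : W.Gr I Y) : W.Gr I fun t ω => X t ω - Y t ω := by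
  simpa only [sub_eq_add_neg] using h.add h'.neg

theorem abs (h : W.Gr I X) : W.Gr I fun t ω => |X t ω| := h.of_le fun _ _ _ => (abs_abs _).le

theorem sum {σ : Type*} (s : Finset σ) {X : σ → κ → W.Ω → ℝ} (h : ∀ k ∈ s, W.Gr I (X k)) :
    W.Gr I fun t ω => ∑ k ∈ s, X k t ω := by
  classical
  induction s using Finset.induction_on with
  | empty => simpa using const 0
  | insert k s hk ih =>
    simpa [Finset.sum_insert hk] using (h k (by simp)).add (ih fun j hj => h j (by simp [hj]))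

/-- the exponential of a process of linear growth -/
theorem exp_of_le {T C c : ℝ} (hT : 0 ≤ T) (h : ∀ t ∈ I, ∀ ω, X t ω ≤ C + c * W.S T ω) :
    W.Gr I fun t ω => exp (X t ω) :=
  ⟨T, exp C, |c|, hT, (exp_pos _).le, abs_nonneg _, fun t ht ω => by
    rw [abs_of_pos (exp_pos _), ← exp_add, exp_le_exp]
    have := W.S_nonneg T ω
    exact (h t ht ω).trans (by gcongr; exact le_abs_self c)⟩

end Gr

/-- measures under which all exponential moments of the running supremum are finite -/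
structure Nice (W : BM ι) (Q : Measure W.Ω) : Prop where
  fin : IsFiniteMeasure Q
  int : ∀ c T, Integrable (fun ω => exp (c * W.S T ω)) Q

theorem nice_P (W : BM ι) : W.Nice W.P := ⟨inferInstance, W.int_exp_S⟩

/-- `F r`-measurable variables of controlled growth -/
structure Tm (W : BM ι) (r : ℝ) (H : W.Ω → ℝ) : Prop where
  meas : Measurable[W.F r] H
  gr : W.Gr (univ : Set Unit) fun _ => H

/-- continuous adapted processes -/
structure Ad (W : BM ι) (a b : ℝ) (X : ℝ → W.Ω → ℝ) : Prop where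
  cont : ∀ ω, ContinuousOn (fun t => X t ω) (Icc a b)
  meas : ∀ t ∈ Icc a b, Measurable[W.F t] (X t)
  gr : W.Gr (Icc a b) X

/-- the σ-algebra `Borel ⊗ F t` -/
abbrev PF (W : BM ι) (t : ℝ) : MeasurableSpace (ℝ × W.Ω) := @Prod.instMeasurableSpace ℝ W.Ω _ (W.F t)

/-- progressive processes -/
structure Pr (W : BM ι) (a b : ℝ) (A : ℝ → W.Ω → ℝ) : Prop where
  meas : ∀ t ∈ Icc a b, Measurable[W.PF t] fun p : ℝ × W.Ω => A (cl a t p.1) p.2
  gr : W.Gr (Icc a b) A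

variable {Q : Measure W.Ω} {a b r s t : ℝ} {H H' : W.Ω → ℝ} {X Y A A' V V' : ℝ → W.Ω → ℝ}

theorem Nice.integrable (hQ : W.Nice Q) {κ : Type*} {I : Set κ} {X : κ → W.Ω → ℝ} (h : W.Gr I X)
    {k : κ} (hk : k ∈ I) (hm : Measurable (X k)) : Integrable (X k) Q := by
  obtain ⟨T, C, c, -, -, -, h4⟩ := h
  exact ((hQ.int c T).const_mul C).mono' hm.aestronglyMeasurable (.of_forall (h4 k hk))

namespace Tm

theorem measurable (h : W.Tm r H) : Measurable H := W.meas_top h.meas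
theorem int (h : W.Tm r H) (hQ : W.Nice Q) : Integrable H Q :=
  hQ.integrable h.gr (mem_univ ()) h.measurable
theorem mono (h : W.Tm r H) (hr : r ≤ s) : W.Tm s H := ⟨W.meas_le h.meas hr, h.gr⟩
theorem const (c : ℝ) : W.Tm r fun _ => c := ⟨measurable_const, .const c⟩
theorem mul (h : W.Tm r H) (h' : W.Tm r H') : W.Tm r fun ω => H ω * H' ω :=
  ⟨h.meas.mul h'.meas, h.gr.mul h'.gr⟩
theorem add (h : W.Tm r H) (h' : W.Tm r H') : W.Tm r fun ω => H ω + H' ω :=
  ⟨h.meas.add h'.meas, h.gr.add h'.gr⟩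
theorem sub (h : W.Tm r H) (h' : W.Tm r H') : W.Tm r fun ω => H ω - H' ω :=
  ⟨h.meas.sub h'.meas, h.gr.sub h'.gr⟩
theorem neg (h : W.Tm r H) : W.Tm r fun ω => -H ω := ⟨h.meas.neg, h.gr.neg⟩
theorem abs (h : W.Tm r H) : W.Tm r fun ω => |H ω| := ⟨continuous_abs.measurable.comp h.meas, h.gr.abs⟩
theorem sum {σ : Type*} (S : Finset σ) {H : σ → W.Ω → ℝ} (h : ∀ k ∈ S, W.Tm r (H k)) :
    W.Tm r fun ω => ∑ k ∈ S, H k ω :=
  ⟨Finset.measurable_sum _ fun k hk => (h k hk).meas, .sum S fun k hk => (h k hk).gr⟩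
theorem of_le (h : W.Tm s H) (hm : Measurable[W.F r] H') (e : ∀ ω, |H' ω| ≤ |H ω|) : W.Tm r H' :=
  ⟨hm, h.gr.of_le fun _ _ => e⟩
theorem of_bdd (hm : Measurable[W.F r] H) (C : ℝ) (e : ∀ ω, |H ω| ≤ C) : W.Tm r H :=
  ⟨hm, .of_bdd C fun _ _ => e⟩
theorem ite (h : W.Tm r H) {p : W.Ω → Prop} [DecidablePred p] (hp : MeasurableSet[W.F r] {ω | p ω}) :
    W.Tm r fun ω => if p ω then H ω else 0 :=
  h.of_le (Measurable.ite hp h.meas measurable_const) fun ω => by split_ifs <;> simp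
theorem indicator (h : W.Tm r H) {E : Set W.Ω} (hE : MeasurableSet[W.F r] E) :
    W.Tm r (E.indicator H) :=
  h.of_le (h.meas.indicator hE) fun ω => by
    simpa only [Real.norm_eq_abs] using norm_indicator_le_norm_self H ω

end Tm

namespace Pr

theorem meas_at (h : W.Pr a b A) (ht : t ∈ Icc a b) : Measurable[W.F t] (A t) := by
  have h1 : Measurable[W.F t, W.PF t] fun ω => (t, ω) := measurable_const.prodMk measurable_id
  have := (h.meas t ht).comp h1
  simpa only [Function.comp_def, cl_eq (⟨ht.1, le_rfl⟩ : t ∈ Icc a t)] using this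

theorem tm (h : W.Pr a b A) (ht : t ∈ Icc a b) : W.Tm t (A t) :=
  ⟨h.meas_at ht, h.gr.comp fun _ _ _ => ⟨t, ht, le_rfl⟩⟩

/-- joint measurability -/
theorem jm (h : W.Pr a b A) (ht : t ∈ Icc a b) :
    Measurable fun p : ℝ × W.Ω => A (cl a t p.1) p.2 :=
  (h.meas t ht).mono (sup_le_sup le_rfl (MeasurableSpace.comap_mono (W.le t))) le_rfl

theorem const (c : ℝ) : W.Pr a b fun _ _ => c := ⟨fun _ _ => measurable_const, .const c⟩
theorem mul (h : W.Pr a b A) (h' : W.Pr a b A') : W.Pr a b fun t ω => A t ω * A' t ω :=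
  ⟨fun t ht => (h.meas t ht).mul (h'.meas t ht), h.gr.mul h'.gr⟩
theorem add (h : W.Pr a b A) (h' : W.Pr a b A') : W.Pr a b fun t ω => A t ω + A' t ω :=
  ⟨fun t ht => (h.meas t ht).add (h'.meas t ht), h.gr.add h'.gr⟩
theorem sub (h : W.Pr a b A) (h' : W.Pr a b A') : W.Pr a b fun t ω => A t ω - A' t ω :=
  ⟨fun t ht => (h.meas t ht).sub (h'.meas t ht), h.gr.sub h'.gr⟩
theorem neg (h : W.Pr a b A) : W.Pr a b fun t ω => -A t ω :=
  ⟨fun t ht => (h.meas t ht).neg, h.gr.neg⟩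
theorem abs (h : W.Pr a b A) : W.Pr a b fun t ω => |A t ω| :=
  ⟨fun t ht => continuous_abs.measurable.comp (h.meas t ht), h.gr.abs⟩
theorem sum {σ : Type*} (S : Finset σ) {A : σ → ℝ → W.Ω → ℝ} (h : ∀ k ∈ S, W.Pr a b (A k)) :
    W.Pr a b fun t ω => ∑ k ∈ S, A k t ω :=
  ⟨fun t ht => Finset.measurable_sum _ fun k hk => (h k hk).meas t ht,
    .sum S fun k hk => (h k hk).gr⟩
theorem comp (h : W.Pr a b A) {φ : ℝ → ℝ} (hφ : Measurable φ)
    (hg : W.Gr (Icc a b) fun t ω => φ (A t ω)) : W.Pr a b fun t ω => φ (A t ω) :=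
  ⟨fun t ht => hφ.comp (h.meas t ht), hg⟩

theorem mono {a' b' : ℝ} (h : W.Pr a b A) (ha : a ≤ a') (hb : b' ≤ b) : W.Pr a' b' A := by
  refine ⟨fun t ht => ?_, h.gr.mono (Icc_subset_Icc ha hb)⟩
  have h1 : Measurable[W.PF t, W.PF t] fun p : ℝ × W.Ω => (cl a' t p.1, p.2) :=
    ((continuous_cl a' t).measurable.comp measurable_fst).prodMk measurable_snd
  have := (h.meas t ⟨ha.trans ht.1, ht.2.trans hb⟩).comp h1
  have e : ∀ u, cl a t (cl a' t u) = cl a' t u := fun u =>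
    cl_eq ⟨ha.trans (cl_mem ht.1 u).1, (cl_mem ht.1 u).2⟩
  simpa only [Function.comp_def, e] using this

theorem congr (h : W.Pr a b A) (e : ∀ t ∈ Icc a b, ∀ ω, A' t ω = A t ω) : W.Pr a b A' :=
  ⟨fun t ht => by
    have : ∀ p : ℝ × W.Ω, A' (cl a t p.1) p.2 = A (cl a t p.1) p.2 := fun p =>
      e _ ⟨(cl_mem ht.1 _).1, (cl_mem ht.1 _).2.trans ht.2⟩ _
    simpa only [this] using h.meas t ht, h.gr.of_le fun t ht ω => (e t ht ω).symm ▸ le_rfl⟩

theorem ii (h : W.Pr a b A) (hr : r ∈ Icc a b) (ht : t ∈ Icc a b) (ω : W.Ω) :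
    IntervalIntegrable (fun u => A u ω) volume r t := by
  have hab := hr.1.trans hr.2
  obtain ⟨T, C, c, -, -, -, h4⟩ := h.gr
  have hm : Measurable fun u => A (cl a b u) ω :=
    (h.jm ⟨hab, le_rfl⟩).comp (measurable_id.prodMk measurable_const)
  have hs : uIoc r t ⊆ Icc a b := uIoc_subset_uIcc.trans (uIcc_subset_Icc hr ht)
  refine (intervalIntegrable_congr (f := fun u => A (cl a b u) ω)
    fun u hu => by simp only [cl_eq (hs hu)]).1 ?_
  refine (intervalIntegrable_const (c := C * exp (c * W.S T ω))).mono_fun'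
    hm.aestronglyMeasurable (.of_forall fun u => h4 _ (cl_mem hab u) ω)

theorem gr_int (h : W.Pr a b A) :
    W.Gr (Icc a b ×ˢ Icc a b) fun p ω => ∫ u in p.1..p.2, A u ω := by
  obtain ⟨T, C, c, h1, h2, h3, h4⟩ := h.gr
  refine ⟨T, C * |b - a|, c, h1, by positivity, h3, fun p hp ω => ?_⟩
  have hs : uIoc p.1 p.2 ⊆ Icc a b := uIoc_subset_uIcc.trans (uIcc_subset_Icc hp.1 hp.2)
  refine (intervalIntegral.norm_integral_le_of_norm_le_const (f := fun u => A u ω)
    (C := C * exp (c * W.S T ω)) fun u hu => h4 u (hs hu) ω).trans ?_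
  rw [mul_right_comm C |b - a|]
  refine mul_le_mul_of_nonneg_left ?_ (mul_nonneg h2 (exp_pos _).le)
  rw [abs_le]
  constructor <;> linarith [hp.1.1, hp.1.2, hp.2.1, hp.2.2, le_abs_self (b - a)]

theorem tm_int (h : W.Pr a b A) (hr : a ≤ r) (hrt : r ≤ t) (ht : t ≤ b) :
    W.Tm t fun ω => ∫ u in r..t, A u ω := by
  refine ⟨?_, h.gr_int.comp fun _ _ _ => ⟨(r, t), ⟨⟨hr, hrt.trans ht⟩, ⟨hr.trans hrt, ht⟩⟩, le_rfl⟩⟩
  have e : (fun ω => ∫ u in r..t, A u ω) = fun ω => ∫ u in Ioc r t, A (cl a t u) ω := by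
    funext ω
    rw [intervalIntegral.integral_of_le hrt]
    exact setIntegral_congr_fun measurableSet_Ioc fun u hu => by
      simp only [cl_eq (⟨hr.trans hu.1.le, hu.2⟩ : u ∈ Icc a t)]
  rw [e]
  exact (@StronglyMeasurable.integral_prod_left' ℝ W.Ω ℝ _ (W.F t) _ _ _ _ _
    (h.meas t ⟨hr.trans hrt, ht⟩).stronglyMeasurable).measurable

/-- primitives of progressive processes -/
theorem prim (h : W.Pr a b A) : W.Ad a b fun t ω => ∫ u in a..t, A u ω := by
  refine ⟨fun ω => ?_, fun t ht => (h.tm_int le_rfl ht.1 ht.2).meas,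
    h.gr_int.comp fun t ht _ => ⟨(a, t), ⟨⟨le_rfl, ht.1.trans ht.2⟩, ht⟩, le_rfl⟩⟩
  rcases le_or_gt a b with hab | hab
  · have := intervalIntegral.continuousOn_primitive_interval'
      (h.ii (left_mem_Icc.2 hab) (right_mem_Icc.2 hab) ω) left_mem_uIcc
    rwa [uIcc_of_le hab] at this
  · simp [Icc_eq_empty (not_le.2 hab)]

theorem int_prod (h : W.Pr a b A) (hQ : W.Nice Q) (hr : r ∈ Icc a b) (t : ℝ) :
    Integrable (Function.uncurry fun u ω => A (cl a b u) ω) ((volume.restrict (uIoc r t)).prod Q) := by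
  have hab := hr.1.trans hr.2
  obtain ⟨T, C, c, -, -, -, h4⟩ := h.gr
  have := hQ.fin
  have i1 : IsFiniteMeasure (volume.restrict (uIoc r t)) := ⟨by simp [uIoc]⟩
  refine (((hQ.int c T).const_mul C).comp_snd _).mono' (h.jm ⟨hab, le_rfl⟩).aestronglyMeasurable
    (.of_forall fun p => h4 _ (cl_mem hab _) _)

/-- Fubini -/
theorem fubini (h : W.Pr a b A) (hQ : W.Nice Q) (hr : r ∈ Icc a b) (ht : t ∈ Icc a b) :
    ∫ ω, (∫ u in r..t, A u ω) ∂Q = ∫ u in r..t, ∫ ω, A u ω ∂Q := by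
  have := hQ.fin
  have hs : uIoc r t ⊆ Icc a b := uIoc_subset_uIcc.trans (uIcc_subset_Icc hr ht)
  have e1 : ∀ ω, ∫ u in r..t, A u ω = ∫ u in r..t, A (cl a b u) ω := fun ω =>
    intervalIntegral.integral_congr_ae (.of_forall fun u hu => by rw [cl_eq (hs hu)])
  have e2 : ∫ u in r..t, ∫ ω, A u ω ∂Q = ∫ u in r..t, ∫ ω, A (cl a b u) ω ∂Q :=
    intervalIntegral.integral_congr_ae (.of_forall fun u hu => by rw [cl_eq (hs hu)])
  simp only [e1, e2]
  exact (intervalIntegral_integral_swap (h.int_prod hQ hr t)).symm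

theorem ii_int (h : W.Pr a b A) (hQ : W.Nice Q) (hr : r ∈ Icc a b) (ht : t ∈ Icc a b) :
    IntervalIntegrable (fun u => ∫ ω, A u ω ∂Q) volume r t := by
  have := hQ.fin
  have hs : uIoc r t ⊆ Icc a b := uIoc_subset_uIcc.trans (uIcc_subset_Icc hr ht)
  refine (intervalIntegrable_congr (f := fun u => ∫ ω, A (cl a b u) ω ∂Q)
    fun u hu => by simp only [cl_eq (hs hu)]).1 ?_
  exact intervalIntegrable_iff.2 (h.int_prod hQ hr t).integral_prod_left

end Pr

theorem Tm.pr (h : W.Tm a H) : W.Pr a b fun _ => H :=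
  ⟨fun _ ht => (W.meas_le h.meas ht.1).comp measurable_snd, h.gr.comp fun _ _ _ => ⟨(), trivial, le_rfl⟩⟩

theorem Tm.ad (h : W.Tm a H) : W.Ad a b fun _ => H :=
  ⟨fun _ => continuousOn_const, fun _ ht => W.meas_le h.meas ht.1,
    h.gr.comp fun _ _ _ => ⟨(), trivial, le_rfl⟩⟩

namespace Ad

theorem pr (h : W.Ad a b X) : W.Pr a b X := by
  refine ⟨fun t ht => ?_, h.gr⟩
  have hm : ∀ u, cl a t u ∈ Icc a b := fun u => ⟨(cl_mem ht.1 u).1, (cl_mem ht.1 u).2.trans ht.2⟩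
  exact measurable_uncurry_of_continuous_of_measurable (m := W.F t)
    (u := fun u ω => X (cl a t u) ω)
    (fun ω => (h.cont ω).comp_continuous (continuous_cl a t) hm)
    fun u => W.meas_le (h.meas _ (hm u)) (cl_mem ht.1 u).2

theorem tm (h : W.Ad a b X) (ht : t ∈ Icc a b) : W.Tm t (X t) := h.pr.tm ht
theorem int (h : W.Ad a b X) (hQ : W.Nice Q) (ht : t ∈ Icc a b) : Integrable (X t) Q :=
  (h.tm ht).int hQ
theorem const (c : ℝ) : W.Ad a b fun _ _ => c := (Tm.const c).ad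
theorem time {f : ℝ → ℝ} (hf : ContinuousOn f (Icc a b)) : W.Ad a b fun t _ => f t := by
  obtain ⟨C, hC⟩ := isCompact_Icc.exists_bound_of_continuousOn hf
  exact ⟨fun _ => hf, fun _ _ => measurable_const, .of_bdd C fun t ht _ => hC t ht⟩
theorem mul (h : W.Ad a b X) (h' : W.Ad a b Y) : W.Ad a b fun t ω => X t ω * Y t ω :=
  ⟨fun ω => (h.cont ω).mul (h'.cont ω), fun t ht => (h.meas t ht).mul (h'.meas t ht), h.gr.mul h'.gr⟩
theorem add (h : W.Ad a b X) (h' : W.Ad a b Y) : W.Ad a b fun t ω => X t ω + Y t ω :=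
  ⟨fun ω => (h.cont ω).add (h'.cont ω), fun t ht => (h.meas t ht).add (h'.meas t ht), h.gr.add h'.gr⟩
theorem sub (h : W.Ad a b X) (h' : W.Ad a b Y) : W.Ad a b fun t ω => X t ω - Y t ω :=
  ⟨fun ω => (h.cont ω).sub (h'.cont ω), fun t ht => (h.meas t ht).sub (h'.meas t ht), h.gr.sub h'.gr⟩
theorem neg (h : W.Ad a b X) : W.Ad a b fun t ω => -X t ω :=
  ⟨fun ω => (h.cont ω).neg, fun t ht => (h.meas t ht).neg, h.gr.neg⟩
theorem abs (h : W.Ad a b X) : W.Ad a b fun t ω => |X t ω| :=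
  ⟨fun ω => (h.cont ω).abs, fun t ht => continuous_abs.measurable.comp (h.meas t ht), h.gr.abs⟩
theorem sum {σ : Type*} (S : Finset σ) {X : σ → ℝ → W.Ω → ℝ} (h : ∀ k ∈ S, W.Ad a b (X k)) :
    W.Ad a b fun t ω => ∑ k ∈ S, X k t ω :=
  ⟨fun ω => continuousOn_finsetSum _ fun k hk => (h k hk).cont ω,
    fun t ht => Finset.measurable_sum _ fun k hk => (h k hk).meas t ht,
    .sum S fun k hk => (h k hk).gr⟩
theorem comp (h : W.Ad a b X) {φ : ℝ → ℝ} (hφ : Continuous φ)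
    (hg : W.Gr (Icc a b) fun t ω => φ (X t ω)) : W.Ad a b fun t ω => φ (X t ω) :=
  ⟨fun ω => hφ.comp_continuousOn (h.cont ω), fun t ht => hφ.measurable.comp (h.meas t ht), hg⟩
theorem mono {a' b' : ℝ} (h : W.Ad a b X) (ha : a ≤ a') (hb : b' ≤ b) : W.Ad a' b' X :=
  ⟨fun ω => (h.cont ω).mono (Icc_subset_Icc ha hb), fun t ht => h.meas t (Icc_subset_Icc ha hb ht),
    h.gr.mono (Icc_subset_Icc ha hb)⟩
theorem congr (h : W.Ad a b X) (e : ∀ t ∈ Icc a b, ∀ ω, Y t ω = X t ω) : W.Ad a b Y :=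
  ⟨fun ω => (h.cont ω).congr fun t ht => e t ht ω, fun t ht => by
    rw [show Y t = X t from funext (e t ht)]; exact h.meas t ht,
    h.gr.of_le fun t ht ω => (e t ht ω).symm ▸ le_rfl⟩

theorem continuousOn_int (h : W.Ad a b X) (hQ : W.Nice Q) :
    ContinuousOn (fun t => ∫ ω, X t ω ∂Q) (Icc a b) := by
  obtain ⟨T, C, c, -, -, -, h4⟩ := h.gr
  exact continuousOn_of_dominated (fun t ht => (h.tm ht).measurable.aestronglyMeasurable)
    (fun t ht => .of_forall (h4 t ht)) ((hQ.int c T).const_mul C) (.of_forall h.cont)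

end Ad

end BM

end Crest.Agent.T157.Pa

end
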