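import Crest.Agent.T157.PaB_39

/-!
# Row 157, path layer, part C (helper39): semimartingales, products, stopping

`SM Q a b X A`: `X - ∫ A` is a `Q`-martingale on `[a, b]`; `FV a b V V'`: `V = V a + ∫ V'`;
`St a b τ`: stopping time.  `SM.mul_fv`, `SM.stop`, `SM.expect`.
-/

set_option autoImplicit false
set_option linter.unusedSectionVars false

noncomputable section

namespace Crest.Agent.T157.Pa

open MeasureTheory ProbabilityTheory Filter Topology Set Real
open scoped NNReal ENNReal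

namespace BM

variable {ι : Type} [Fintype ι] {W : BM ι}
variable {Q : Measure W.Ω} {a b r s t : ℝ} {H H' : W.Ω → ℝ} {X Y A A' U U' V V' : ℝ → W.Ω → ℝ}
  {τ : W.Ω → ℝ}

/-- jointly measurable processes (not necessarily adapted) -/
structure Jm (W : BM ι) (a b : ℝ) (A : ℝ → W.Ω → ℝ) : Prop where
  meas : Measurable fun p : ℝ × W.Ω => A (cl a b p.1) p.2
  gr : W.Gr (Icc a b) A

theorem Pr.toJm (h : W.Pr a b A) (hab : a ≤ b) : W.Jm a b A := ⟨h.jm ⟨hab, le_rfl⟩, h.gr⟩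
theorem Tm.jm (h : W.Tm r H) : W.Jm a b fun _ => H :=
  ⟨h.measurable.comp measurable_snd, h.gr.comp fun _ _ _ => ⟨(), trivial, le_rfl⟩⟩
theorem Jm.mul (h : W.Jm a b A) (h' : W.Jm a b A') : W.Jm a b fun t ω => A t ω * A' t ω :=
  ⟨h.meas.mul h'.meas, h.gr.mul h'.gr⟩
theorem Jm.sub (h : W.Jm a b A) (h' : W.Jm a b A') : W.Jm a b fun t ω => A t ω - A' t ω :=
  ⟨h.meas.sub h'.meas, h.gr.sub h'.gr⟩
theorem Jm.add (h : W.Jm a b A) (h' : W.Jm a b A') : W.Jm a b fun t ω => A t ω + A' t ω :=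
  ⟨h.meas.add h'.meas, h.gr.add h'.gr⟩

theorem Jm.int_prod (h : W.Jm a b A) (hQ : W.Nice Q) (hab : a ≤ b) :
    Integrable (Function.uncurry fun u ω => A (cl a b u) ω) ((volume.restrict (uIoc a b)).prod Q) := by
  obtain ⟨T, C, c, -, -, -, h4⟩ := h.gr
  have := hQ.fin
  have i1 : IsFiniteMeasure (volume.restrict (uIoc a b)) := ⟨by simp [uIoc]⟩
  refine (((hQ.int c T).const_mul C).comp_snd _).mono' h.meas.aestronglyMeasurable
    (.of_forall fun p => h4 _ (cl_mem hab _) _)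

theorem int_cl (f : ℝ → ℝ) (hab : a ≤ b) : ∫ u in a..b, f u = ∫ u in a..b, f (cl a b u) :=
  intervalIntegral.integral_congr_ae (.of_forall fun u hu => by
    rw [cl_eq (show u ∈ Icc a b from uIcc_of_le hab ▸ uIoc_subset_uIcc hu)])

theorem Jm.fubini (h : W.Jm a b A) (hQ : W.Nice Q) (hab : a ≤ b) :
    ∫ ω, (∫ u in a..b, A u ω) ∂Q = ∫ u in a..b, ∫ ω, A u ω ∂Q := by
  have := hQ.fin
  rw [int_cl (fun u => ∫ ω, A u ω ∂Q) hab, intervalIntegral_integral_swap (h.int_prod hQ hab)]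
  exact integral_congr_ae (.of_forall fun ω => int_cl (fun u => A u ω) hab)

theorem Jm.int (h : W.Jm a b A) (hQ : W.Nice Q) (hab : a ≤ b) :
    Integrable (fun ω => ∫ u in a..b, A u ω) Q := by
  have := hQ.fin
  refine (h.int_prod hQ hab).integral_prod_right.congr (.of_forall fun ω => ?_)
  simp only [Function.uncurry]
  rw [int_cl (fun u => A u ω) hab, intervalIntegral.integral_of_le hab, uIoc_of_le hab]

/-- `X - ∫ A` is a `Q`-martingale on `[a, b]` -/
structure SM (W : BM ι) (Q : Measure W.Ω) (a b : ℝ) (X A : ℝ → W.Ω → ℝ) : Prop where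
  ad : W.Ad a b X
  pr : W.Pr a b A
  mart : ∀ r t, a ≤ r → r ≤ t → t ≤ b → ∀ H, W.Tm r H →
    ∫ ω, H ω * (X t ω - X r ω - ∫ u in r..t, A u ω) ∂Q = 0

/-- adapted processes of finite variation -/
structure FV (W : BM ι) (a b : ℝ) (V V' : ℝ → W.Ω → ℝ) : Prop where
  ad : W.Ad a b V
  pr : W.Pr a b V'
  eq : ∀ t ∈ Icc a b, ∀ ω, V t ω = V a ω + ∫ u in a..t, V' u ω

/-- stopping times -/
structure St (W : BM ι) (a b : ℝ) (τ : W.Ω → ℝ) : Prop where
  ge : ∀ ω, a ≤ τ ω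
  meas : ∀ t ∈ Icc a b, MeasurableSet[W.F t] {ω | τ ω ≤ t}

theorem Pr.int_sub (h : W.Pr a b A) (hr : r ∈ Icc a b) (hs : s ∈ Icc a b) (ht : t ∈ Icc a b)
    (ω : W.Ω) : (∫ u in r..t, A u ω) - ∫ u in r..s, A u ω = ∫ u in s..t, A u ω :=
  intervalIntegral.integral_interval_sub_left (h.ii hr ht ω) (h.ii hr hs ω)

namespace FV

theorem sub_eq (h : W.FV a b V V') (hr : r ∈ Icc a b) (ht : t ∈ Icc a b) (ω : W.Ω) :
    V t ω - V r ω = ∫ u in r..t, V' u ω := by
  rw [h.eq t ht, h.eq r hr, ← h.pr.int_sub ⟨le_rfl, hr.1.trans hr.2⟩ hr ht]; ring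

theorem sm (h : W.FV a b V V') : W.SM Q a b V V' :=
  ⟨h.ad, h.pr, fun r t h1 h2 h3 H _ => by
    simp [h.sub_eq ⟨h1, h2.trans h3⟩ ⟨h1.trans h2, h3⟩]⟩

theorem mono {a' b' : ℝ} (h : W.FV a b V V') (ha : a ≤ a') (hb : b' ≤ b) : W.FV a' b' V V' :=
  ⟨h.ad.mono ha hb, h.pr.mono ha hb, fun t ht ω => by
    rw [← h.sub_eq ⟨ha, (ht.1.trans ht.2).trans hb⟩ ⟨ha.trans ht.1, ht.2.trans hb⟩]; ring⟩

theorem of_tm (h : W.Tm a H) : W.FV a b (fun _ => H) fun _ _ => 0 :=
  ⟨h.ad, .const 0, fun _ _ _ => by simp⟩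

theorem const (c : ℝ) : W.FV a b (fun _ _ => c) fun _ _ => 0 := of_tm (.const c)

theorem prim (h : W.Pr a b A) : W.FV a b (fun t ω => ∫ u in a..t, A u ω) A :=
  ⟨h.prim, h, fun _ _ _ => by simp⟩

/-- pathwise differentiable processes -/
theorem of_deriv (h : W.Ad a b V) (h' : W.Pr a b V')
    (hd : ∀ ω, ∀ t ∈ Ioo a b, HasDerivAt (fun t => V t ω) (V' t ω) t) : W.FV a b V V' :=
  ⟨h, h', fun t ht ω => by
    rw [intervalIntegral.integral_eq_sub_of_hasDerivAt_of_le ht.1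
      ((h.cont ω).mono (Icc_subset_Icc_right ht.2)) (fun u hu => hd ω u ⟨hu.1, hu.2.trans_le ht.2⟩)
      (h'.ii ⟨le_rfl, ht.1.trans ht.2⟩ ht ω)]
    ring⟩

theorem time {f f' : ℝ → ℝ} (hf : ContinuousOn f (Icc a b)) (hf' : ContinuousOn f' (Icc a b))
    (hd : ∀ t ∈ Ioo a b, HasDerivAt f (f' t) t) : W.FV a b (fun t _ => f t) fun t _ => f' t :=
  of_deriv (.time hf) (Ad.time hf').pr fun _ => hd

theorem add (h : W.FV a b V V') (h' : W.FV a b U U') :
    W.FV a b (fun t ω => V t ω + U t ω) fun t ω => V' t ω + U' t ω :=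
  ⟨h.ad.add h'.ad, h.pr.add h'.pr, fun t ht ω => by
    have ha : a ∈ Icc a b := ⟨le_rfl, ht.1.trans ht.2⟩
    rw [intervalIntegral.integral_add (h.pr.ii ha ht ω) (h'.pr.ii ha ht ω), h.eq t ht, h'.eq t ht]
    ring⟩

theorem neg (h : W.FV a b V V') : W.FV a b (fun t ω => -V t ω) fun t ω => -V' t ω :=
  ⟨h.ad.neg, h.pr.neg, fun t ht ω => by rw [intervalIntegral.integral_neg, h.eq t ht]; ring⟩

theorem congr (h : W.FV a b V V') (e : ∀ t ∈ Icc a b, ∀ ω, U t ω = V t ω)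
    (e' : ∀ t ∈ Icc a b, ∀ ω, U' t ω = V' t ω) : W.FV a b U U' :=
  ⟨h.ad.congr e, h.pr.congr e', fun t ht ω => by
    rw [e t ht, e a ⟨le_rfl, ht.1.trans ht.2⟩, h.eq t ht]
    congr 1
    exact intervalIntegral.integral_congr fun u hu => (e' u (by
      rw [uIcc_of_le ht.1] at hu; exact ⟨hu.1, hu.2.trans ht.2⟩) ω).symm⟩

theorem sum {σ : Type*} (S : Finset σ) {V V' : σ → ℝ → W.Ω → ℝ}
    (h : ∀ k ∈ S, W.FV a b (V k) (V' k)) :
    W.FV a b (fun t ω => ∑ k ∈ S, V k t ω) fun t ω => ∑ k ∈ S, V' k t ω := by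
  classical
  induction S using Finset.induction_on with
  | empty => simpa using const 0
  | insert k s hk ih =>
    simpa [Finset.sum_insert hk] using (h k (by simp)).add (ih fun j hj => h j (by simp [hj]))

end FV

/-- pathwise product identity -/
theorem prod_id {X A V V' : ℝ → ℝ} (hrt : r ≤ t) (hX : ContinuousOn X (Icc r t))
    (hA : IntervalIntegrable A volume r t) (hV' : IntervalIntegrable V' volume r t)
    (hV : ∀ u ∈ Icc r t, V u - V r = ∫ w in r..u, V' w) :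
    V t * X t - V r * X r - ∫ u in r..t, (V' u * X u + V u * A u) =
      V r * (X t - X r - ∫ u in r..t, A u) +
        ∫ u in r..t, V' u * (X t - X u - ∫ w in u..t, A w) := by
  have hu := uIcc_of_le hrt
  have c1 : ContinuousOn (fun u => ∫ w in r..u, V' w) (uIcc r t) :=
    intervalIntegral.continuousOn_primitive_interval' hV' left_mem_uIcc
  have c2 : ContinuousOn (fun u => ∫ w in u..t, A w) (uIcc r t) := by
    simp only [intervalIntegral.integral_symm t]
    exact (intervalIntegral.continuousOn_primitive_interval' hA right_mem_uIcc).neg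
  have i1 := hV'.mul_continuousOn (hu ▸ hX)
  have i2 := hV'.mul_continuousOn c2
  have i3 := hA.continuousOn_mul c1
  have e1 : ∫ u in r..t, (V' u * X u + V u * A u) =
      ∫ u in r..t, (V' u * X u + (V r * A u + (∫ w in r..u, V' w) * A u)) :=
    intervalIntegral.integral_congr fun u hu' => by
      simp only [← hV u (hu ▸ hu')]; ring
  have e2 : ∫ u in r..t, V' u * (X t - X u - ∫ w in u..t, A w) =
      ∫ u in r..t, (V' u * X t - V' u * X u - V' u * ∫ w in u..t, A w) :=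
    intervalIntegral.integral_congr fun u _ => by ring
  rw [e1, e2, intervalIntegral.integral_add i1 ((hA.const_mul _).add i3),
    intervalIntegral.integral_add (hA.const_mul _) i3,
    intervalIntegral.integral_sub ((hV'.mul_const _).sub i1) i2,
    intervalIntegral.integral_sub (hV'.mul_const _) i1, tri hV' hA,
    intervalIntegral.integral_const_mul, intervalIntegral.integral_mul_const,
    ← hV t (right_mem_Icc.2 hrt)]
  ring

theorem FV.mul (h : W.FV a b V V') (h' : W.FV a b U U') :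
    W.FV a b (fun t ω => V t ω * U t ω) fun t ω => V' t ω * U t ω + V t ω * U' t ω := by
  refine ⟨h.ad.mul h'.ad, (h.pr.mul h'.ad.pr).add (h.ad.pr.mul h'.pr), fun t ht ω => ?_⟩
  have ha : a ∈ Icc a b := ⟨le_rfl, ht.1.trans ht.2⟩
  have := prod_id (X := fun u => U u ω) (A := fun u => U' u ω) (V := fun u => V u ω) ht.1
    ((h'.ad.cont ω).mono (Icc_subset_Icc_right ht.2)) (h'.pr.ii ha ht ω) (h.pr.ii ha ht ω)
    fun u hu => h.sub_eq ha ⟨hu.1, hu.2.trans ht.2⟩ ω
  have e : ∫ u in a..t, V' u ω * (U t ω - U u ω - ∫ w in u..t, U' w ω) = ∫ u in a..t, 0 :=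
    intervalIntegral.integral_congr fun u hu => by
      rw [uIcc_of_le ht.1] at hu
      simp [h'.sub_eq ⟨hu.1, hu.2.trans ht.2⟩ ht]
  rw [e, h'.sub_eq ha ht] at this
  simp only [sub_self, mul_zero, intervalIntegral.integral_zero, add_zero] at this
  linarith

namespace SM

theorem tm_incr (h : W.SM Q a b X A) (h1 : a ≤ r) (h2 : r ≤ t) (h3 : t ≤ b) :
    W.Tm t fun ω => X t ω - X r ω - ∫ u in r..t, A u ω :=
  ((h.ad.tm ⟨h1.trans h2, h3⟩).sub ((h.ad.tm ⟨h1, h2.trans h3⟩).mono h2)).sub (h.pr.tm_int h1 h2 h3)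

theorem mono {a' b' : ℝ} (h : W.SM Q a b X A) (ha : a ≤ a') (hb : b' ≤ b) : W.SM Q a' b' X A :=
  ⟨h.ad.mono ha hb, h.pr.mono ha hb, fun r t h1 h2 h3 => h.mart r t (ha.trans h1) h2 (h3.trans hb)⟩

theorem congr (h : W.SM Q a b X A) (e : ∀ t ∈ Icc a b, ∀ ω, Y t ω = X t ω)
    (e' : ∀ t ∈ Icc a b, ∀ ω, A' t ω = A t ω) : W.SM Q a b Y A' :=
  ⟨h.ad.congr e, h.pr.congr e', fun r t h1 h2 h3 H hH => by
    rw [← h.mart r t h1 h2 h3 H hH]
    congr 1; funext ω
    rw [e t ⟨h1.trans h2, h3⟩, e r ⟨h1, h2.trans h3⟩]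
    congr 2
    exact intervalIntegral.integral_congr fun u hu => e' u (by
      rw [uIcc_of_le h2] at hu; exact ⟨h1.trans hu.1, hu.2.trans h3⟩) ω⟩

theorem add (hQ : W.Nice Q) (h : W.SM Q a b X A) (h' : W.SM Q a b Y A') :
    W.SM Q a b (fun t ω => X t ω + Y t ω) fun t ω => A t ω + A' t ω := by
  refine ⟨h.ad.add h'.ad, h.pr.add h'.pr, fun r t h1 h2 h3 H hH => ?_⟩
  have hr : r ∈ Icc a b := ⟨h1, h2.trans h3⟩
  have ht : t ∈ Icc a b := ⟨h1.trans h2, h3⟩
  have := integral_add (((hH.mono h2).mul (h.tm_incr h1 h2 h3)).int hQ)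
    (((hH.mono h2).mul (h'.tm_incr h1 h2 h3)).int hQ)
  rw [h.mart r t h1 h2 h3 H hH, h'.mart r t h1 h2 h3 H hH, add_zero] at this
  rw [← this]
  congr 1; funext ω
  rw [intervalIntegral.integral_add (h.pr.ii hr ht ω) (h'.pr.ii hr ht ω)]
  ring

theorem tm_mul (h : W.SM Q a b X A) (hH : W.Tm a H) :
    W.SM Q a b (fun t ω => H ω * X t ω) fun t ω => H ω * A t ω := by
  refine ⟨hH.ad.mul h.ad, hH.pr.mul h.pr, fun r t h1 h2 h3 H' hH' => ?_⟩
  rw [← h.mart r t h1 h2 h3 _ (hH'.mul (hH.mono h1))]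
  congr 1; funext ω
  rw [intervalIntegral.integral_const_mul]
  ring

theorem const_mul (c : ℝ) (h : W.SM Q a b X A) :
    W.SM Q a b (fun t ω => c * X t ω) fun t ω => c * A t ω := h.tm_mul (.const c)

theorem neg (h : W.SM Q a b X A) : W.SM Q a b (fun t ω => -X t ω) fun t ω => -A t ω := by
  simpa using h.const_mul (-1)

theorem sub (hQ : W.Nice Q) (h : W.SM Q a b X A) (h' : W.SM Q a b Y A') :
    W.SM Q a b (fun t ω => X t ω - Y t ω) fun t ω => A t ω - A' t ω := by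
  simpa only [sub_eq_add_neg] using h.add hQ h'.neg

theorem sum (hQ : W.Nice Q) {σ : Type*} (S : Finset σ) {X A : σ → ℝ → W.Ω → ℝ}
    (h : ∀ k ∈ S, W.SM Q a b (X k) (A k)) :
    W.SM Q a b (fun t ω => ∑ k ∈ S, X k t ω) fun t ω => ∑ k ∈ S, A k t ω := by
  classical
  induction S using Finset.induction_on with
  | empty => simpa using (FV.const 0).sm
  | insert k s hk ih =>
    simpa [Finset.sum_insert hk] using (h k (by simp)).add hQ (ih fun j hj => h j (by simp [hj]))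

/-- the expectation formula -/
theorem expect_tm (hQ : W.Nice Q) (h : W.SM Q a b X A) (h1 : a ≤ r) (h2 : r ≤ t) (h3 : t ≤ b)
    (hH : W.Tm r H) : ∫ ω, H ω * X t ω ∂Q - ∫ ω, H ω * X r ω ∂Q =
      ∫ u in r..t, ∫ ω, H ω * A u ω ∂Q := by
  have hr : r ∈ Icc a b := ⟨h1, h2.trans h3⟩
  have ht : t ∈ Icc a b := ⟨h1.trans h2, h3⟩
  have i1 := ((hH.mono h2).mul (h.ad.tm ht)).int hQ
  have i2 := (hH.mul (h.ad.tm hr)).int hQ
  have i3 := ((hH.mono h2).mul (h.pr.tm_int h1 h2 h3)).int hQ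
  have i4 : Integrable (fun ω => H ω * X t ω - H ω * X r ω) Q := i1.sub i2
  have := h.mart r t h1 h2 h3 H hH
  simp only [mul_sub] at this
  rw [integral_sub i4 i3, integral_sub i1 i2, sub_eq_zero] at this
  rw [this, ← (hH.pr.mul (h.pr.mono h1 h3)).fubini hQ (left_mem_Icc.2 h2) (right_mem_Icc.2 h2)]
  simp only [intervalIntegral.integral_const_mul]

theorem expect (hQ : W.Nice Q) (h : W.SM Q a b X A) (h1 : a ≤ r) (h2 : r ≤ t) (h3 : t ≤ b) :
    ∫ ω, X t ω ∂Q - ∫ ω, X r ω ∂Q = ∫ u in r..t, ∫ ω, A u ω ∂Q := by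
  simpa using h.expect_tm hQ h1 h2 h3 (.const 1)

theorem of_expect (hQ : W.Nice Q) (hX : W.Ad a b X) (hA : W.Pr a b A)
    (h : ∀ r t, a ≤ r → r ≤ t → t ≤ b → ∀ H, W.Tm r H →
      ∫ ω, H ω * X t ω ∂Q - ∫ ω, H ω * X r ω ∂Q = ∫ u in r..t, ∫ ω, H ω * A u ω ∂Q) :
    W.SM Q a b X A := by
  refine ⟨hX, hA, fun r t h1 h2 h3 H hH => ?_⟩
  have hr : r ∈ Icc a b := ⟨h1, h2.trans h3⟩
  have ht : t ∈ Icc a b := ⟨h1.trans h2, h3⟩
  have i1 := ((hH.mono h2).mul (hX.tm ht)).int hQ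
  have i2 := (hH.mul (hX.tm hr)).int hQ
  have i3 := ((hH.mono h2).mul (hA.tm_int h1 h2 h3)).int hQ
  have i4 : Integrable (fun ω => H ω * X t ω - H ω * X r ω) Q := i1.sub i2
  simp only [mul_sub]
  rw [integral_sub i4 i3, integral_sub i1 i2, sub_eq_zero, h r t h1 h2 h3 H hH,
    ← (hH.pr.mul (hA.mono h1 h3)).fubini hQ (left_mem_Icc.2 h2) (right_mem_Icc.2 h2)]
  simp only [intervalIntegral.integral_const_mul]

/-- **product with a process of finite variation** -/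
theorem mul_fv (hQ : W.Nice Q) (h : W.SM Q a b X A) (hV : W.FV a b V V') :
    W.SM Q a b (fun t ω => V t ω * X t ω) fun t ω => V' t ω * X t ω + V t ω * A t ω := by
  refine ⟨hV.ad.mul h.ad, (hV.pr.mul h.ad.pr).add (hV.ad.pr.mul h.pr), fun r t h1 h2 h3 H hH => ?_⟩
  have hr : r ∈ Icc a b := ⟨h1, h2.trans h3⟩
  have ht : t ∈ Icc a b := ⟨h1.trans h2, h3⟩
  have hs : Icc r t ⊆ Icc a b := Icc_subset_Icc h1 h3
  have e : ∀ ω, H ω * (V t ω * X t ω - V r ω * X r ω -
      ∫ u in r..t, (V' u ω * X u ω + V u ω * A u ω)) =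
      H ω * V r ω * (X t ω - X r ω - ∫ u in r..t, A u ω) +
        ∫ u in r..t, H ω * V' u ω * (X t ω - X u ω -
          ((∫ w in a..t, A w ω) - ∫ w in a..u, A w ω)) := fun ω => by
    rw [prod_id (X := fun u => X u ω) (A := fun u => A u ω) (V := fun u => V u ω) h2
      ((h.ad.cont ω).mono hs) (h.pr.ii hr ht ω) (hV.pr.ii hr ht ω)
      fun u hu => hV.sub_eq hr (hs hu) ω, mul_add, mul_assoc, ← intervalIntegral.integral_const_mul]
    congr 1
    refine intervalIntegral.integral_congr fun u hu => ?_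
    rw [uIcc_of_le h2] at hu
    simp only [h.pr.int_sub ⟨le_rfl, h1.trans hr.2⟩ (hs hu) ht, mul_assoc]
  have j : W.Jm r t fun u ω => H ω * V' u ω * (X t ω - X u ω -
      ((∫ w in a..t, A w ω) - ∫ w in a..u, A w ω)) :=
    (hH.jm.mul ((hV.pr.mono h1 h3).toJm h2)).mul
      (((h.ad.tm ht).jm.sub ((h.ad.pr.mono h1 h3).toJm h2)).sub
        ((h.pr.prim.tm ht).jm.sub ((h.pr.prim.pr.mono h1 h3).toJm h2)))
  simp only [e]
  rw [integral_add ((((hH.mul (hV.ad.tm hr)).mono h2).mul (h.tm_incr h1 h2 h3)).int hQ) (j.int hQ h2),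
    h.mart r t h1 h2 h3 _ (hH.mul (hV.ad.tm hr)), zero_add, j.fubini hQ h2]
  refine (intervalIntegral.integral_congr (g := fun _ => 0) fun u hu => ?_).trans (by simp)
  rw [uIcc_of_le h2] at hu
  simp only [h.pr.int_sub ⟨le_rfl, h1.trans hr.2⟩ (hs hu) ht]
  exact h.mart u t (hs hu).1 hu.2 h3 _ ((hH.mono hu.1).mul (hV.pr.tm (hs hu)))

end SM

/-! ### stopping -/

namespace St

theorem meas_min (h : W.St a b τ) (ht : t ∈ Icc a b) : Measurable[W.F t] fun ω => min t (τ ω) := by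
  refine measurable_of_Iic (mδ := W.F t) fun s => ?_
  rcases le_or_gt t s with h1 | h1
  · have : (fun ω => min t (τ ω)) ⁻¹' Iic s = univ :=
      eq_univ_of_forall fun ω => (min_le_left _ _).trans h1
    rw [this]; exact MeasurableSet.univ
  rcases lt_or_ge s a with h2 | h2
  · have : (fun ω => min t (τ ω)) ⁻¹' Iic s = ∅ := eq_empty_of_forall_notMem fun ω hω =>
      absurd hω (not_le.2 (h2.trans_le (le_min ht.1 (h.ge ω))))
    rw [this]; exact @MeasurableSet.empty _ (W.F t)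
  · have : (fun ω => min t (τ ω)) ⁻¹' Iic s = {ω | τ ω ≤ s} := by
      ext ω; simp [not_le.2 h1]
    rw [this]; exact W.mono h1.le _ (h.meas s ⟨h2, h1.le.trans ht.2⟩)

theorem meas_lt (h : W.St a b τ) (ht : t ∈ Icc a b) : MeasurableSet[W.F t] {ω | t < τ ω} := by
  have := (h.meas t ht).compl
  simpa only [compl_ofPred, not_le] using this

theorem min_mem (h : W.St a b τ) (ht : t ∈ Icc a b) (ω : W.Ω) : min t (τ ω) ∈ Icc a b :=
  ⟨le_min ht.1 (h.ge ω), (min_le_left _ _).trans ht.2⟩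

theorem const (hs : a ≤ s) : W.St a b fun _ => s :=
  ⟨fun _ => hs, fun t _ => @MeasurableSet.const _ (W.F t) _⟩

theorem min {τ' : W.Ω → ℝ} (h : W.St a b τ) (h' : W.St a b τ') :
    W.St a b fun ω => min (τ ω) (τ' ω) :=
  ⟨fun ω => le_min (h.ge ω) (h'.ge ω), fun t ht => by
    simpa only [min_le_iff, ofPred_or] using (h.meas t ht).union (h'.meas t ht)⟩

theorem pr_ite (h : W.St a b τ) (hA : W.Pr a b A) :
    W.Pr a b fun u ω => if u < τ ω then A u ω else 0 := by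
  refine ⟨fun t ht => Measurable.ite ?_ (hA.meas t ht) measurable_const,
    hA.gr.of_le fun _ _ _ => by split_ifs <;> simp⟩
  have e : {p : ℝ × W.Ω | cl a t p.1 < τ p.2} =
      {p | cl a t p.1 < Min.min t (τ p.2)} ∪ Prod.snd ⁻¹' {ω | t < τ ω} := by
    ext p
    have := (cl_mem ht.1 p.1).2
    simp only [mem_ofPred_eq, mem_union, lt_min_iff, mem_preimage]
    constructor
    · intro h1
      rcases this.eq_or_lt with h2 | h2
      · exact Or.inr (h2 ▸ h1)
      · exact Or.inl ⟨h2, h1⟩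
    · rintro (h1 | h1)
      exacts [h1.2, this.trans_lt h1]
  rw [e]
  have m1 : Measurable[W.PF t] fun p : ℝ × W.Ω => cl a t p.1 :=
    (continuous_cl a t).measurable.comp measurable_fst
  have m2 : Measurable[W.PF t, W.F t] (Prod.snd : ℝ × W.Ω → W.Ω) := measurable_snd
  exact (measurableSet_lt m1 ((h.meas_min ht).comp m2)).union (m2 (h.meas_lt ht))

theorem ad_stop (h : W.St a b τ) (hX : W.Ad a b X) :
    W.Ad a b fun t ω => X (Min.min t (τ ω)) ω := by
  refine ⟨fun ω => (hX.cont ω).comp (by fun_prop) fun t ht => h.min_mem ht ω, fun t ht => ?_,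
    hX.gr.comp fun t ht ω => ⟨_, h.min_mem ht ω, le_rfl⟩⟩
  have h1 : Measurable[W.F t, W.PF t] fun ω => (Min.min t (τ ω), ω) :=
    (h.meas_min ht).prodMk measurable_id
  have := (hX.pr.meas t ht).comp h1
  have e : ∀ ω, cl a t (Min.min t (τ ω)) = Min.min t (τ ω) := fun ω =>
    cl_eq ⟨(h.min_mem ht ω).1, min_le_left _ _⟩
  simpa only [Function.comp_def, e] using this

/-- optional stopping for continuous martingales -/
theorem mart_stop (h : W.St a b τ) (hQ : W.Nice Q) (hN : W.Ad a b X)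
    (hm : ∀ r t, a ≤ r → r ≤ t → t ≤ b → ∀ H, W.Tm r H → ∫ ω, H ω * (X t ω - X r ω) ∂Q = 0)
    (h1 : a ≤ r) (h2 : r ≤ t) (h3 : t ≤ b) (hH : W.Tm r H) :
    ∫ ω, H ω * (X (Min.min t (τ ω)) ω - X (Min.min r (τ ω)) ω) ∂Q = 0 := by
  rcases h2.eq_or_lt with rfl | hlt
  · simp
  have hs : Icc r t ⊆ Icc a b := Icc_subset_Icc h1 h3
  let δ : ℕ → ℝ := fun k => (t - r) / (k + 1 : ℕ)
  have δ0 : ∀ k, 0 < δ k := fun k => div_pos (sub_pos.2 hlt) (by positivity)
  have δ1 : ∀ k, r + (k + 1 : ℕ) * δ k = t := fun k => by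
    simp only [δ]; rw [mul_div_cancel₀ _ (by positivity)]; ring
  have gm : ∀ k j : ℕ, j ≤ k + 1 → r + j * δ k ∈ Icc r t := fun k j hj =>
    ⟨le_add_of_nonneg_right (mul_nonneg j.cast_nonneg (δ0 k).le), by
      rw [← δ1 k]; have := (δ0 k).le; gcongr⟩
  let J : ℕ → W.Ω → ℕ := fun k ω => ⌈(cl r t (τ ω) - r) / δ k⌉₊
  have hJ : ∀ k ω, J k ω ≤ k + 1 := fun k ω => Nat.ceil_le.2 (by
    rw [div_le_iff₀ (δ0 k)]; linarith [(cl_mem h2 (τ ω)).2, δ1 k])
  let D : ℕ → W.Ω → ℝ := fun k ω => ∑ j ∈ Finset.range (k + 1),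
    (if r + j * δ k < τ ω then H ω else 0) * (X (r + (j + 1 : ℕ) * δ k) ω - X (r + j * δ k) ω)
  have hD : ∀ k ω, D k ω = H ω * (X (r + J k ω * δ k) ω - X r ω) := fun k ω => by
    have e : ∀ j ∈ Finset.range (k + 1), (r + j * δ k < τ ω ↔ j < J k ω) := fun j hj => by
      have hj' : r + j * δ k < t := by
        rw [← δ1 k]; have := δ0 k; gcongr; exact Finset.mem_range.1 hj
      have := (gm k j (Finset.mem_range.1 hj).le).1
      simp only [J]
      rw [Nat.lt_ceil, lt_div_iff₀ (δ0 k), lt_sub_iff_add_lt', cl, lt_max_iff, lt_min_iff]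
      exact ⟨fun h => Or.inr ⟨h, hj'⟩, fun h => (h.resolve_left (not_lt.2 this)).1⟩
    simp only [D]
    rw [Finset.sum_congr rfl fun j hj => by rw [if_congr (e j hj) rfl rfl]]
    simp only [ite_mul, zero_mul]
    rw [← Finset.sum_filter, show (Finset.range (k + 1)).filter (· < J k ω) = Finset.range (J k ω) from
      by ext j; simp only [Finset.mem_filter, Finset.mem_range]
         exact ⟨fun h => h.2, fun h => ⟨h.trans_le (hJ k ω), h⟩⟩,
      ← Finset.mul_sum, Finset.sum_range_sub fun j : ℕ => X (r + j * δ k) ω]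
    simp
  have tj : ∀ k, ∀ j ∈ Finset.range (k + 1), W.Tm (r + j * δ k)
      fun ω => if r + j * δ k < τ ω then H ω else 0 := fun k j hj =>
    have hm := gm k j (Finset.mem_range.1 hj).le
    (hH.mono hm.1).ite (h.meas_lt (hs hm))
  have ti : ∀ k, ∀ j ∈ Finset.range (k + 1), W.Tm t fun ω => (if r + j * δ k < τ ω then H ω else 0) *
      (X (r + (j + 1 : ℕ) * δ k) ω - X (r + j * δ k) ω) := fun k j hj =>
    have hm := gm k j (Finset.mem_range.1 hj).le
    have hm' := gm k (j + 1) (Finset.mem_range.1 hj)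
    ((tj k j hj).mono hm.2).mul (((hN.tm (hs hm')).mono hm'.2).sub ((hN.tm (hs hm)).mono hm.2))
  have I0 : ∀ k, ∫ ω, D k ω ∂Q = 0 := fun k => by
    simp only [D]
    rw [integral_finsetSum _ fun j hj => (ti k j hj).int hQ]
    refine Finset.sum_eq_zero fun j hj => ?_
    have hm' := gm k (j + 1) (Finset.mem_range.1 hj)
    refine hm _ _ (hs (gm k j (Finset.mem_range.1 hj).le)).1 ?_ (hs hm').2 _ (tj k j hj)
    have := (δ0 k).le
    gcongr
    exact Nat.le_succ j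
  obtain ⟨T, C, c, -, -, -, hb⟩ := hH.gr.mul2 (hN.gr.add2 hN.gr)
  have lim := tendsto_integral_of_dominated_convergence (μ := Q) (F := D)
    (f := fun ω => H ω * (X (Min.min t (τ ω)) ω - X (Min.min r (τ ω)) ω))
    (fun ω => C * exp (c * W.S T ω))
    (fun k => (Tm.sum _ (ti k)).measurable.aestronglyMeasurable) ((hQ.int c T).const_mul C)
    (fun k => .of_forall fun ω => by
      rw [hD, Real.norm_eq_abs]
      refine le_trans ?_ (hb ((), (r + J k ω * δ k, r))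
        ⟨trivial, hs (gm k _ (hJ k ω)), hs (left_mem_Icc.2 h2)⟩ ω)
      rw [abs_mul, abs_mul]
      exact mul_le_mul_of_nonneg_left ((abs_sub _ _).trans (le_abs_self _)) (abs_nonneg _))
    (.of_forall fun ω => by
      simp only [hD]
      have e : X (Min.min t (τ ω)) ω - X (Min.min r (τ ω)) ω = X (cl r t (τ ω)) ω - X r ω := by
        rcases le_total (τ ω) r with h4 | h4
        · rw [min_eq_right h4, min_eq_right (h4.trans h2), cl, min_eq_left (h4.trans h2),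
            max_eq_left h4]
          simp
        · rw [min_eq_left h4, cl, min_comm, max_eq_right (le_min h4 h2)]
      rw [e]
      refine (Tendsto.sub_const ?_ _).const_mul _
      refine ((hN.cont ω).mono hs _ (cl_mem h2 _)).tendsto.comp
        (tendsto_nhdsWithin_iff.2 ⟨?_, .of_forall fun k => gm k _ (hJ k ω)⟩)
      have d0 : Tendsto δ atTop (𝓝 0) := by
        have := (tendsto_const_div_atTop_nhds_zero_nat (t - r)).comp (tendsto_add_atTop_nat 1)
        exact this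
      have d1 : Tendsto (fun k => cl r t (τ ω) + δ k) atTop (𝓝 (cl r t (τ ω))) := by
        simpa using d0.const_add (cl r t (τ ω))
      refine tendsto_of_tendsto_of_tendsto_of_le_of_le tendsto_const_nhds d1 (fun k => ?_)
        fun k => ?_
      · have := Nat.le_ceil ((cl r t (τ ω) - r) / δ k)
        rw [div_le_iff₀ (δ0 k)] at this
        simp only [J]; linarith
      · have := Nat.ceil_lt_add_one (div_nonneg (sub_nonneg.2 (cl_mem h2 (τ ω)).1) (δ0 k).le)
        rw [← sub_lt_iff_lt_add, lt_div_iff₀ (δ0 k)] at this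
        simp only [J]; linarith)
  simp only [I0] at lim
  exact tendsto_nhds_unique lim tendsto_const_nhds

end St

/-- **stopping** -/
theorem SM.stop (hQ : W.Nice Q) (h : W.SM Q a b X A) (hτ : W.St a b τ) :
    W.SM Q a b (fun t ω => X (min t (τ ω)) ω) fun u ω => if u < τ ω then A u ω else 0 := by
  refine ⟨hτ.ad_stop h.ad, hτ.pr_ite h.pr, fun r t h1 h2 h3 H hH => ?_⟩
  have ha : a ∈ Icc a b := ⟨le_rfl, h1.trans (h2.trans h3)⟩
  refine Eq.trans ?_ (hτ.mart_stop hQ (h.ad.sub h.pr.prim) (fun r t h1 h2 h3 H hH => by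
    refine Eq.trans ?_ (h.mart r t h1 h2 h3 H hH)
    congr 1; funext ω
    rw [← h.pr.int_sub ha ⟨h1, h2.trans h3⟩ ⟨h1.trans h2, h3⟩]; ring) h1 h2 h3 hH)
  congr 1; funext ω
  rw [integral_ite_lt (fun u => A u ω) (τ ω) h2, ← h.pr.int_sub ha
    (hτ.min_mem ⟨h1, h2.trans h3⟩ ω) (hτ.min_mem ⟨h1.trans h2, h3⟩ ω)]
  ring

theorem FV.stop (h : W.FV a b V V') (hτ : W.St a b τ) :
    W.FV a b (fun t ω => V (min t (τ ω)) ω) fun u ω => if u < τ ω then V' u ω else 0 :=
  ⟨hτ.ad_stop h.ad, hτ.pr_ite h.pr, fun t ht ω => by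
    rw [integral_ite_lt (fun u => V' u ω) (τ ω) ht.1, min_eq_left (hτ.ge ω),
      h.eq _ (hτ.min_mem ht ω)]⟩

end BM

end Crest.Agent.T157.Pa

end
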