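import Crest.Agent.T157.PaC_39

/-!
# Row 157, path layer, part D (helper39): Itô functions are semimartingales

`sm_P`: under the Wiener measure; `Dn` (a space-time harmonic density `L` with `dL = L d · dB`),
`QL`, `Dn.sm`; the localisation measure `W.Qsl φ v T` (`y = B`), `sm_sl`, marginals `int_sl`,
change of the driving law, decomposition over the planted point.
-/

set_option autoImplicit false
set_option linter.unusedSectionVars false

noncomputable section

namespace Crest.Agent.T157.Pa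

open MeasureTheory ProbabilityTheory Filter Topology Set Real
open Crest.Agent.T157.SL Crest.Agent.T157.E
open scoped NNReal ENNReal

variable {ι : Type} [Fintype ι] [DecidableEq ι] {I : Set ℝ} {G A L : Pt ι → ℝ}
  {β d : ι → Pt ι → ℝ} {a b r s t T : ℝ}

theorem eg_shift (h : EG I G) (q : Pt ι) : EG {u | q.1 + u ∈ I} fun p => G (q + p) :=
  h.comp (φ := fun p => q + p) (by fun_prop) (fun _ hp => hp) ‖q.2‖ 1 fun p _ => by
    simpa using norm_add_le q.2 p.2

theorem ito_shift (h : Ito d I G A β) (q : Pt ι) :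
    Ito (fun i p => d i (q + p)) {u | q.1 + u ∈ I} (fun p => G (q + p)) (fun p => A (q + p))
      fun i p => β i (q + p) := by
  obtain ⟨g, k, h1, h2, h3, h4, h5, h6, h7⟩ := h
  refine ⟨fun p => g (q + p), fun i p => k i (q + p), eg_shift h1 q, eg_shift h2 q,
    fun i => eg_shift (h3 i) q, fun i => eg_shift (h4 i) q,
    fun c c' s hc hs => h5 (fun s => q + c s) c' s (hc.const_add q) hs, fun i p hp => ?_,
    fun p hp => h7 (q + p) hp⟩
  have e : ∀ s, q + (p.1, Function.update p.2 i s) =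
      ((q + p).1, Function.update (q + p).2 i (q.2 i + s)) := fun s => by
    ext j
    · rfl
    · rcases eq_or_ne j i with rfl | hj <;> simp [*]
  simp only [e]
  exact ((h6 i (q + p) hp).comp (p.2 i) ((hasDerivAt_id' (p.2 i)).const_add (q.2 i))).congr_deriv
    (mul_one _)

/-- the heat formula started from `(r, y)` -/
theorem heat (h : Ito (fun _ _ => 0) (Icc r t) G A β) (hrt : r ≤ t) (y : ι → ℝ) :
    ∫ z, G (t, y + √(t - r) • z) ∂Gs ι - G (r, y) =
      ∫ u in r..t, ∫ z, A (u, y + √(u - r) • z) ∂Gs ι := by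
  have h1 := (ito_shift h (r, y)).mono (J := Icc 0 (t - r)) fun u hu =>
    ⟨by simpa using hu.1, by linarith [hu.2]⟩
  have hT : ∀ u ∈ Icc 0 (t - r), |u| ≤ t - r := fun u hu => (abs_of_nonneg hu.1).trans_le hu.2
  have c1 := (h1.eg.path 0 _ hT).continuousOn_int
  have c2 := ((h1.eg_a fun _ => .const 0).path 0 _ hT).continuousOn_int
  have := intervalIntegral.integral_eq_sub_of_hasDerivAt_of_le (sub_nonneg.2 hrt) c1
    (fun u hu => (h1.hasDerivAt_int 0 hu.1 (Icc_mem_nhds hu.1 hu.2)).congr_deriv (by simp))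
    (c2.intervalIntegrable_of_Icc (sub_nonneg.2 hrt))
  simp only [smul_zero, zero_add, Prod.mk_add_mk, add_sub_cancel, sqrt_zero, zero_smul, add_zero,
    integral_const, probReal_univ, one_smul] at this
  rw [← this]
  have e := intervalIntegral.integral_comp_add_left (a := 0) (b := t - r)
    (fun u => ∫ z, A (u, y + √(u - r) • z) ∂Gs ι) r
  simp only [add_zero, add_sub_cancel, add_sub_cancel_left] at e
  exact e

theorem eg_heat (h : EG (Icc r t) A) :
    EG (Icc r t) fun p => ∫ z, A (p.1, p.2 + √(p.1 - r) • z) ∂Gs ι := by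
  obtain ⟨C, c, c1, c2, c3⟩ := h.bd
  have hb : ∀ p : Pt ι, p.1 ∈ Icc r t → ∀ z, |A (p.1, p.2 + √(p.1 - r) • z)| ≤
      C * exp (c * ‖p.2‖) * exp (c * √(t - r) * ‖z‖) := fun p hp z => by
    refine (c3 (p.1, p.2 + √(p.1 - r) • z) hp).trans ?_
    rw [mul_assoc, ← exp_add, mul_assoc c, ← mul_add]
    gcongr
    refine (norm_add_le _ _).trans ?_
    rw [norm_smul, norm_of_nonneg (sqrt_nonneg _)]
    gcongr
    exact hp.2
  have hm : ∀ p : Pt ι, p.1 ∈ Icc r t →
      AEStronglyMeasurable (fun z => A (p.1, p.2 + √(p.1 - r) • z)) (Gs ι) := fun p hp =>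
    ((h.cont_at hp).comp (by fun_prop)).aestronglyMeasurable
  refine ⟨fun q hq => ?_, C * ∫ z, exp (c * √(t - r) * ‖z‖) ∂Gs ι, c, by positivity, c2,
    fun p hp => ?_⟩
  · refine continuousWithinAt_of_dominated
      (bound := fun z => C * exp (c * (‖q.2‖ + 1)) * exp (c * √(t - r) * ‖z‖))
      (eventually_mem_nhdsWithin.mono fun p hp => hm p hp.1) ?_ ((int_exp _).const_mul _)
      (.of_forall fun z => (h.cont.comp (by fun_prop) fun p hp => ⟨hp.1, trivial⟩) q hq)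
    have : ∀ᶠ p : Pt ι in 𝓝 q, ‖p.2‖ < ‖q.2‖ + 1 :=
      (continuous_snd.norm.tendsto q).eventually (gt_mem_nhds (lt_add_one _))
    filter_upwards [eventually_mem_nhdsWithin, mem_nhdsWithin_of_mem_nhds this] with p hp hp'
    refine .of_forall fun z => (hb p hp.1 z).trans ?_
    gcongr
  · rw [mul_right_comm, ← integral_const_mul]
    exact norm_integral_le_of_norm_le (f := fun z => A (p.1, p.2 + √(p.1 - r) • z))
      ((int_exp _).const_mul _) (.of_forall (hb p hp))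

namespace BM

variable {W : BM ι} {H : W.Ω → ℝ}

theorem gr_eg (h : EG I G) {κ : Type*} {J : Set κ} {p q : κ → ℝ} (hT : 0 ≤ T)
    (hp : ∀ k ∈ J, p k ∈ I) (hq : ∀ k ∈ J, q k ∈ Icc 0 T) :
    W.Gr J fun k ω => G (p k, W.B (q k) ω) := by
  obtain ⟨C, c, c1, c2, c3⟩ := h.bd
  refine ⟨T, C, c, hT, c1, c2, fun k hk ω => (c3 _ (hp k hk)).trans ?_⟩
  gcongr
  exact W.norm_le_S (hq k hk) ω

/-- Markov functions are continuous adapted processes -/
theorem ad_eg (W : BM ι) (ha : 0 ≤ a) (h : EG (Icc a b) G) :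
    W.Ad a b fun t ω => G (t, W.B t ω) :=
  ⟨fun ω => h.cont.comp (continuousOn_id.prodMk (W.cont ω).continuousOn) fun _ ht => ⟨ht, trivial⟩,
    fun t ht => (h.cont_at ht).measurable.comp (W.meas t),
    gr_eg h (le_max_right b 0) (fun _ ht => ht) fun _ ht =>
      ⟨ha.trans ht.1, ht.2.trans (le_max_left _ _)⟩⟩

theorem ad_eg_frozen (W : BM ι) (ha : 0 ≤ s) (hs : s ≤ a) (h : EG (Icc a b) G) :
    W.Ad a b fun t ω => G (t, W.B s ω) :=
  ⟨fun _ => h.cont.comp (by fun_prop) fun _ ht => ⟨ht, trivial⟩,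
    fun _ ht => (h.cont_at ht).measurable.comp (W.meas_le (W.meas s) (hs.trans ht.1)),
    gr_eg h ha (fun _ ht => ht) fun _ _ => ⟨ha, le_rfl⟩⟩

theorem tm_mg (W : BM ι) (ht : 0 ≤ t) {F : (ι → ℝ) → ℝ} (h : MG F) :
    W.Tm t fun ω => F (W.B t ω) := by
  obtain ⟨C, c, c1, c2, c3⟩ := h.bd
  refine ⟨h.meas.comp (W.meas t), t, C, c, ht, c1, c2, fun _ _ ω => (c3 _).trans ?_⟩
  gcongr
  exact W.norm_le_S ⟨ht, le_rfl⟩ ω

theorem ad_B (W : BM ι) (ha : 0 ≤ a) (i : ι) : W.Ad a b fun t ω => W.B t ω i :=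
  W.ad_eg ha (EG.coord i)

/-- Markov property -/
theorem markov_mg (hr : 0 ≤ r) (hrt : r ≤ t) (hH : W.Tm r H) {F : (ι → ℝ) → ℝ} (h : MG F) :
    ∫ ω, H ω * F (W.B t ω) ∂W.P = ∫ ω, H ω * ∫ z, F (W.B r ω + √(t - r) • z) ∂Gs ι ∂W.P := by
  have := W.freeze hr hrt (X := fun ω => (H ω, W.B r ω)) (hH.meas.prodMk (W.meas r))
    (Ψ := fun p => p.1.1 * F (p.1.2 + p.2))
    (measurable_fst.fst.mul (h.meas.comp (measurable_fst.snd.add measurable_snd)))
    (by simpa using ((hH.mono hrt).mul (W.tm_mg (hr.trans hrt) h)).int W.nice_P)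
  simpa only [add_sub_cancel, integral_const_mul] using this

/-- **Itô functions under the Wiener measure** -/
theorem sm_P (W : BM ι) (ha : 0 ≤ a) (h : Ito (fun _ _ => 0) (Icc a b) G A β) :
    W.SM W.P a b (fun t ω => G (t, W.B t ω)) fun t ω => A (t, W.B t ω) := by
  have hA : EG (Icc a b) A := h.eg_a fun _ => .const 0
  refine .of_expect W.nice_P (W.ad_eg ha h.eg) (W.ad_eg ha hA).pr fun r t h1 h2 h3 H hH => ?_
  have hr0 := ha.trans h1
  have hs : Icc r t ⊆ Icc a b := Icc_subset_Icc h1 h3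
  have k1 := W.ad_eg_frozen hr0 le_rfl (eg_heat (h.eg.mono hs))
  have k2 := W.ad_eg_frozen hr0 le_rfl (eg_heat (hA.mono hs))
  have e : ∫ u in r..t, ∫ ω, H ω * A (u, W.B u ω) ∂W.P =
      ∫ u in r..t, ∫ ω, H ω * ∫ z, A (u, W.B r ω + √(u - r) • z) ∂Gs ι ∂W.P :=
    intervalIntegral.integral_congr fun u hu => by
      rw [uIcc_of_le h2] at hu
      exact markov_mg hr0 hu.1 hH (hA.mg (hs hu))
  rw [e, ← (hH.pr.mul k2.pr).fubini W.nice_P (left_mem_Icc.2 h2) (right_mem_Icc.2 h2),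
    markov_mg hr0 h2 hH (h.eg.mg (hs (right_mem_Icc.2 h2))),
    ← integral_sub (((hH.mono h2).mul (k1.tm (right_mem_Icc.2 h2))).int W.nice_P)
      ((hH.mul ((W.ad_eg ha h.eg).tm (hs (left_mem_Icc.2 h2)))).int W.nice_P)]
  refine integral_congr_ae (.of_forall fun ω => ?_)
  simp only [intervalIntegral.integral_const_mul, ← mul_sub]
  rw [heat (h.mono hs) h2]

end BM

/-- space-time harmonic densities: `dL = L d · dB`, `L ≥ 0`, `L (0, 0) = 1` -/
structure Dn (T : ℝ) (L : Pt ι → ℝ) (d : ι → Pt ι → ℝ) : Prop where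
  pos : 0 ≤ T
  nn : ∀ p, 0 ≤ L p
  one : L (0, 0) = 1
  eg : ∀ i, EG (Icc 0 T) (d i)
  ito : Ito (fun _ _ => 0) (Icc 0 T) L (fun _ => 0) fun i p => L p * d i p

namespace BM

variable (W : BM ι) {H : W.Ω → ℝ}

/-- the measure with density `L (T, B T)` -/
def QL (T : ℝ) (L : Pt ι → ℝ) : Measure W.Ω :=
  W.P.withDensity fun ω => ENNReal.ofReal (L (T, W.B T ω))

variable {W}

theorem tm_L (h : Dn T L d) (ht : t ∈ Icc 0 T) : W.Tm t fun ω => L (t, W.B t ω) :=
  (W.ad_eg le_rfl h.ito.eg).tm ht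

theorem int_QL' (h : Dn T L d) (H : W.Ω → ℝ) :
    ∫ ω, H ω ∂W.QL T L = ∫ ω, L (T, W.B T ω) * H ω ∂W.P := by
  rw [QL, integral_withDensity_eq_integral_toReal_smul
    (tm_L h (right_mem_Icc.2 h.pos)).measurable.ennreal_ofReal (.of_forall fun _ => by simp)]
  simp only [ENNReal.toReal_ofReal (h.nn _), smul_eq_mul]

theorem integrable_QL (h : Dn T L d) (H : W.Ω → ℝ) :
    Integrable H (W.QL T L) ↔ Integrable (fun ω => L (T, W.B T ω) * H ω) W.P := by
  rw [QL, integrable_withDensity_iff_integrable_smul'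
    (tm_L h (right_mem_Icc.2 h.pos)).measurable.ennreal_ofReal (.of_forall fun _ => by simp)]
  simp only [ENNReal.toReal_ofReal (h.nn _), smul_eq_mul]

theorem nice_QL (h : Dn T L d) : W.Nice (W.QL T L) := by
  have hL := tm_L (W := W) h (right_mem_Icc.2 h.pos)
  refine ⟨isFiniteMeasure_withDensity_ofReal (hL.int W.nice_P).2, fun c T' => ?_⟩
  rw [integrable_QL h]
  have g : W.Gr (univ : Set Unit) fun _ ω => exp (c * W.S T' ω) :=
    Gr.exp_of_le (C := 0) (c := |c|) (le_max_right T' 0) fun _ _ ω => by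
      have e : W.S (max T' 0) ω = W.S T' ω := by simp only [S, max_assoc, max_self]
      have := W.S_nonneg T' ω
      rw [e, zero_add]
      gcongr
      exact le_abs_self c
  exact W.nice_P.integrable (hL.gr.mul g) (mem_univ ())
    (hL.measurable.mul ((W.measurable_S T').const_mul c).exp)

/-- expectation of an `F t`-measurable variable -/
theorem int_QL (h : Dn T L d) (ht : t ∈ Icc 0 T) (hH : W.Tm t H) :
    ∫ ω, H ω ∂W.QL T L = ∫ ω, H ω * L (t, W.B t ω) ∂W.P := by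
  have := (W.sm_P le_rfl h.ito).expect_tm W.nice_P ht.1 ht.2 le_rfl hH
  simp only [mul_zero, integral_zero, intervalIntegral.integral_zero, sub_eq_zero] at this
  rw [int_QL' h, ← this]
  simp only [mul_comm]

theorem prob_QL (h : Dn T L d) : IsProbabilityMeasure (W.QL T L) := by
  have := (nice_QL (W := W) h).fin
  have e := int_QL (W := W) h (left_mem_Icc.2 h.pos) (.const 1)
  simp only [W.zero, h.one, integral_const, smul_eq_mul, mul_one, probReal_univ] at e
  exact isProbabilityMeasure_iff_real.2 e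

/-- **Itô functions under a tilted measure** -/
theorem sm_QL (h : Dn T L d) (ha : 0 ≤ a) (hb : b ≤ T) (hG : Ito d (Icc a b) G A β) :
    W.SM (W.QL T L) a b (fun t ω => G (t, W.B t ω)) fun t ω => A (t, W.B t ω) := by
  have hs : Icc a b ⊆ Icc 0 T := Icc_subset_Icc ha hb
  have hA : EG (Icc a b) A := hG.eg_a fun i => (h.eg i).mono hs
  have k1 := W.ad_eg ha hG.eg
  have k2 := W.ad_eg ha hA
  have hP : Ito (fun _ _ => 0) (Icc a b) (fun p => L p * G p) (fun p => L p * A p) _ :=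
    ((h.ito.mono hs).mul (hG.drift fun _ _ => 0)).congr (fun p _ => by
      simp only [zero_mul, zero_add, zero_sub, mul_add, Finset.mul_sum, add_assoc,
        ← Finset.sum_add_distrib, left_eq_add]
      exact Finset.sum_eq_zero fun i _ => by ring) fun _ _ _ => rfl
  refine .of_expect (nice_QL h) k1 k2.pr fun r t h1 h2 h3 H hH => ?_
  have hr : r ∈ Icc a b := ⟨h1, h2.trans h3⟩
  have ht : t ∈ Icc a b := ⟨h1.trans h2, h3⟩
  rw [int_QL h (hs ht) ((hH.mono h2).mul (k1.tm ht)), int_QL h (hs hr) (hH.mul (k1.tm hr))]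
  have := (W.sm_P ha hP).expect_tm W.nice_P h1 h2 h3 hH
  simp only [mul_right_comm _ (G _), mul_assoc]
  rw [this]
  refine intervalIntegral.integral_congr fun u hu => ?_
  rw [uIcc_of_le h2] at hu
  have hu' : u ∈ Icc a b := ⟨h1.trans hu.1, hu.2.trans h3⟩
  rw [int_QL h (hs hu') ((hH.mono hu.1).mul (k2.tm hu'))]
  simp only [mul_right_comm _ (A _), mul_assoc]

end BM

/-! ### the localisation measure -/

section sl
variable {Ω : Type*} [Fintype Ω] {φ : Ω → ι → ℝ} {v w f : Ω → ℝ}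

/-- density of the localisation driven by `v` -/
def Lsl (φ : Ω → ι → ℝ) (v : Ω → ℝ) (p : Pt ι) : ℝ := (∑ x, pw φ v p x) / ∑ x, v x

theorem ito_pw (hI : Bornology.IsBounded I) (v : Ω → ℝ) (x : Ω) :
    Ito (fun _ _ => 0) I (fun p => pw φ v p x) (fun _ => 0) fun i p => pw φ v p x * φ x i := by
  have h1 : Ito (fun _ _ => 0) I (fun p : Pt ι => p.2 ⬝ᵥ φ x - p.1 / 2 * (φ x ⬝ᵥ φ x))
      (fun _ => -(φ x ⬝ᵥ φ x) / 2) fun i _ => φ x i := by
    have t1 : Ito (fun _ _ => 0) I (fun p : Pt ι => p.1 / 2 * (φ x ⬝ᵥ φ x))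
        (fun _ => 1 / 2 * (φ x ⬝ᵥ φ x)) fun _ _ => 0 := by
      obtain ⟨T, hT⟩ := hI.exists_norm_le
      refine Ito.time (f := fun t => t / 2 * (φ x ⬝ᵥ φ x)) (f' := fun _ => 1 / 2 * (φ x ⬝ᵥ φ x))
        (fun t _ => ((hasDerivAt_id' t).div_const 2).mul_const _) ?_ (.const _)
      exact ((EG.time (f := fun t => t) continuousOn_id T hT).div_const 2).mul (.const _)
    refine ((Ito.sum Finset.univ fun j _ => (Ito.coord j).mul (Ito.const (φ x j))).sub t1).congr
      (fun p _ => by simp; ring) fun i p _ => by simp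
  have e := eg_pw (φ := φ) hI (fun _ => 1) x
  simp only [pw, post, one_mul] at e
  exact ((h1.exp e).const_mul (v x)).congr (fun p _ => by
    simp only [dotProduct, sq]; ring) fun i p _ => by simp only [pw, post]; ring

theorem dn_sl (hv : Wt v) (hT : 0 ≤ T) : Dn T (Lsl φ v) (md φ v) := by
  refine ⟨hT, fun p => div_nonneg (hv.post _ _ _).pos.le hv.pos.le, ?_, fun i => eg_md hv i, ?_⟩
  · simp only [Lsl, pw, post_zero]; exact div_self hv.pos.ne'
  · have h1 := (Ito.sum Finset.univ fun x _ => ito_pw (φ := φ)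
      (Metric.isBounded_Icc 0 T) v x).const_mul (∑ x, v x)⁻¹
    have e : Lsl φ v = fun p => (∑ x, v x)⁻¹ * ∑ x, pw φ v p x := by
      funext p; rw [Lsl, div_eq_inv_mul]
    rw [e]
    refine h1.congr (fun _ _ => by simp) fun i p _ => ?_
    rw [md, meanV, mean_eq_div, mul_assoc, mul_div_cancel₀ _ (hv.post _ _ _).pos.ne']

namespace BM
variable (W : BM ι) {H : W.Ω → ℝ}

/-- the law of the localisation driven by `v` up to time `T`; the process is `y = W.B` -/
def Qsl (φ : Ω → ι → ℝ) (v : Ω → ℝ) (T : ℝ) : Measure W.Ω := W.QL T (Lsl φ v)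

variable {W}

theorem nice_sl (hv : Wt v) (hT : 0 ≤ T) : W.Nice (W.Qsl φ v T) := nice_QL (dn_sl hv hT)

theorem prob_sl (hv : Wt v) (hT : 0 ≤ T) : IsProbabilityMeasure (W.Qsl φ v T) :=
  prob_QL (dn_sl hv hT)

/-- **Itô functions along the localisation** -/
theorem sm_sl (hv : Wt v) (ha : 0 ≤ a) (hab : a ≤ b) (hb : b ≤ T) (hG : Ito (md φ v) (Icc a b) G A β) :
    W.SM (W.Qsl φ v T) a b (fun t ω => G (t, W.B t ω)) fun t ω => A (t, W.B t ω) :=
  sm_QL (dn_sl hv (ha.trans (hab.trans hb))) ha hb hG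

theorem int_sl_tm (hv : Wt v) (ht : t ∈ Icc 0 T) (hH : W.Tm t H) :
    ∫ ω, H ω ∂W.Qsl φ v T = ∫ ω, H ω * Lsl φ v (t, W.B t ω) ∂W.P :=
  int_QL (dn_sl hv (ht.1.trans ht.2)) ht hH

/-- one-time marginals -/
theorem int_sl (hv : Wt v) (ht : t ∈ Icc 0 T) {F : (ι → ℝ) → ℝ} (hF : MG F) :
    ∫ ω, F (W.B t ω) ∂W.Qsl φ v T = slE φ v t fun _ => F := by
  have hL : MG fun y => Lsl φ v (t, y) := (dn_sl hv (ht.1.trans ht.2)).ito.eg.mg ht
  rw [int_sl_tm hv ht (W.tm_mg ht.1 hF), W.integral_B ht.1 (hF.mul hL).meas,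
    slE_eq_ref' ht.1 (.of_mg fun _ => hF), ← integral_div]
  congr 1; funext z
  rw [Lsl, ← Finset.sum_mul]; ring

theorem int_sl_ex (hv : Wt v) (ht : t ∈ Icc 0 T) (hG : MG fun y => G (t, y)) :
    ∫ ω, G (t, W.B t ω) ∂W.Qsl φ v T = ex φ v G t := int_sl hv ht hG

/-- the horizon does not matter -/
theorem int_sl_horizon (hv : Wt v) {T' : ℝ} (ht : t ∈ Icc 0 T) (ht' : t ≤ T') (hH : W.Tm t H) :
    ∫ ω, H ω ∂W.Qsl φ v T = ∫ ω, H ω ∂W.Qsl φ v T' := by
  rw [int_sl_tm hv ht hH, int_sl_tm hv ⟨ht.1, ht'⟩ hH]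

/-- change of the driving law -/
theorem int_sl_mul (hw : Wt w) (hf : ∀ x, 0 ≤ f x) (h0 : 0 < mean w f) (ht : t ∈ Icc 0 T)
    (hH : W.Tm t H) : ∫ ω, H ω ∂W.Qsl φ (fun x => w x * f x) T =
      (∫ ω, H ω * mean (pw φ w (t, W.B t ω)) f ∂W.Qsl φ w T) / mean w f := by
  rw [int_sl_tm (hw.mul hf h0) ht hH, int_sl_tm hw ht
    (hH.mul (W.tm_mg ht.1 ((eg_mean (I := univ) hw f).mg (mem_univ t)))), ← integral_div]
  congr 1; funext ω
  have h1 := (hw.post φ t (W.B t ω)).pos.ne'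
  have h2 := hw.pos.ne'
  have h3 := (hw.mul hf h0).pos.ne'
  simp only [Lsl, pw, post_mul, mean_eq_div]
  field_simp

theorem wt_single [DecidableEq Ω] (x : Ω) : Wt (Pi.single x (1 : ℝ) : Ω → ℝ) :=
  ⟨fun y => by rcases eq_or_ne y x with rfl | h <;> simp [*], by simp⟩

theorem md_single [DecidableEq Ω] (x : Ω) : md φ (Pi.single x 1) = fun i _ => φ x i := by
  funext i p
  simp only [md, meanV, mean_eq_div, pw, post, Pi.single_apply, ite_mul, one_mul, zero_mul,
    Finset.sum_ite_eq', Finset.mem_univ, if_true]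
  field_simp

/-- decomposition over the planted point -/
theorem int_sl_planted [DecidableEq Ω] (hv : Wt v) (ht : t ∈ Icc 0 T) {K : Ω → W.Ω → ℝ}
    (hK : ∀ x, W.Tm t (K x)) :
    ∫ ω, mean (pw φ v (t, W.B t ω)) (fun x => K x ω) ∂W.Qsl φ v T =
      mean v fun x => ∫ ω, K x ω ∂W.Qsl φ (Pi.single x 1) T := by
  have tp : ∀ x, W.Tm t fun ω => E.prob (pw φ v (t, W.B t ω)) x := fun x =>
    W.tm_mg ht.1 ((eg_prob (I := univ) hv x).mg (mem_univ t))
  rw [mean, show (fun ω => mean (pw φ v (t, W.B t ω)) fun x => K x ω) =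
      fun ω => ∑ x, E.prob (pw φ v (t, W.B t ω)) x * K x ω from rfl, integral_finsetSum _
      fun x _ => ((tp x).mul (hK x)).int (nice_sl hv (ht.1.trans ht.2))]
  refine Finset.sum_congr rfl fun x _ => ?_
  rw [int_sl_tm hv ht ((tp x).mul (hK x)), int_sl_tm (wt_single x) ht (hK x), ← integral_const_mul]
  congr 1; funext ω
  have h1 := (hv.post φ t (W.B t ω)).pos.ne'
  have h2 := hv.pos.ne'
  simp only [Lsl, pw, E.prob] at h1 ⊢
  have e : ∑ y, post φ (Pi.single x 1) t (W.B t ω) y =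
      exp (W.B t ω ⬝ᵥ φ x - t / 2 * (φ x ⬝ᵥ φ x)) := by
    simp [post, Pi.single_apply]
  have e' : post φ v t (W.B t ω) x = v x * exp (W.B t ω ⬝ᵥ φ x - t / 2 * (φ x ⬝ᵥ φ x)) := rfl
  rw [e, e', show ∑ y, (Pi.single x 1 : Ω → ℝ) y = 1 by simp]
  generalize exp (W.B t ω ⬝ᵥ φ x - t / 2 * (φ x ⬝ᵥ φ x)) = E
  generalize ∑ y, post φ v t (W.B t ω) y = Z at h1
  field_simp

theorem int_sl_mix [DecidableEq Ω] (hv : Wt v) (ht : t ∈ Icc 0 T) (hH : W.Tm t H) :
    ∫ ω, H ω ∂W.Qsl φ v T = mean v fun x => ∫ ω, H ω ∂W.Qsl φ (Pi.single x 1) T := by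
  rw [← int_sl_planted hv ht fun _ => hH]
  simp only [(hv.post _ _ _).mean_const]

/-- under the planted law the process has the constant drift `φ x` -/
theorem sm_planted [DecidableEq Ω] (x : Ω) (ha : 0 ≤ a) (hab : a ≤ b) (hb : b ≤ T)
    (hG : Ito (fun i _ => φ x i) (Icc a b) G A β) :
    W.SM (W.Qsl φ (Pi.single x 1) T) a b (fun t ω => G (t, W.B t ω)) fun t ω => A (t, W.B t ω) :=
  sm_sl (wt_single x) ha hab hb (by rwa [md_single])

end BM
end sl

end Crest.Agent.T157.Pa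

end
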