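import Crest.Agent.T157.PaD_39

/-!
# Row 157, path layer, part E (helper39): hitting times, maximal inequalities, Gronwall, chain rule
-/

set_option autoImplicit false
set_option linter.unusedSectionVars false

noncomputable section

namespace Crest.Agent.T157.Pa

open MeasureTheory ProbabilityTheory Filter Topology Set Real
open Crest.Agent.T157.SL
open scoped NNReal ENNReal

/-- first time in `[a, b]` at which `Y ≥ l` (equal to `b` if there is none) -/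
def hit {Ω : Type*} (a b l : ℝ) (Y : ℝ → Ω → ℝ) (ω : Ω) : ℝ :=
  sInf ({t | t ∈ Icc a b ∧ l ≤ Y t ω} ∪ {b})

section hit
variable {Ω : Type*} {a b l t : ℝ} {Y : ℝ → Ω → ℝ} {ω : Ω}

theorem hit_bdd (hab : a ≤ b) : BddBelow ({t | t ∈ Icc a b ∧ l ≤ Y t ω} ∪ {b}) :=
  ⟨a, by rintro t (ht | rfl); exacts [ht.1.1, hab]⟩

theorem le_hit (hab : a ≤ b) : a ≤ hit a b l Y ω :=
  le_csInf ⟨b, Or.inr rfl⟩ (by rintro t (ht | rfl); exacts [ht.1.1, hab])

theorem hit_le (hab : a ≤ b) : hit a b l Y ω ≤ b := csInf_le (hit_bdd hab) (Or.inr rfl)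

theorem hit_mem (hab : a ≤ b) : hit a b l Y ω ∈ Icc a b := ⟨le_hit hab, hit_le hab⟩

theorem hit_le_of (ht : t ∈ Icc a b) (h : l ≤ Y t ω) : hit a b l Y ω ≤ t :=
  csInf_le (hit_bdd (ht.1.trans ht.2)) (Or.inl ⟨ht, h⟩)

theorem lt_of_lt_hit (ht : t ∈ Icc a b) (h : t < hit a b l Y ω) : Y t ω < l :=
  not_le.1 fun h' => absurd (hit_le_of ht h') (not_le.2 h)

theorem hit_cases (hab : a ≤ b) (hc : ContinuousOn (fun t => Y t ω) (Icc a b)) :
    l ≤ Y (hit a b l Y ω) ω ∨ hit a b l Y ω = b := by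
  have hcl : IsClosed ({t | t ∈ Icc a b ∧ l ≤ Y t ω} ∪ {b}) :=
    (hc.preimage_isClosed_of_isClosed isClosed_Icc isClosed_Ici).union isClosed_singleton
  exact (hcl.csInf_mem ⟨b, Or.inr rfl⟩ (hit_bdd hab)).imp (fun h => h.2) id

theorem le_at_hit (hc : ContinuousOn (fun t => Y t ω) (Icc a b)) (ht : t ∈ Icc a b)
    (h : l ≤ Y t ω) : l ≤ Y (hit a b l Y ω) ω :=
  (hit_cases (ht.1.trans ht.2) hc).elim id fun e => by
    rwa [e, ← le_antisymm ht.2 (e ▸ hit_le_of ht h)]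

theorem hit_eq_of (h : ∀ t ∈ Icc a b, Y t ω < l) : hit a b l Y ω = b := by
  have : {t | t ∈ Icc a b ∧ l ≤ Y t ω} = ∅ :=
    eq_empty_of_forall_notMem fun t ht => absurd ht.2 (not_le.2 (h t ht.1))
  rw [hit, this, empty_union, csInf_singleton]

/-- up to and including the hitting time the process stays below the level -/
theorem le_of_le_hit (hc : ContinuousOn (fun t => Y t ω) (Icc a b)) (h0 : Y a ω ≤ l)
    (ht : t ∈ Icc a b) (h : t ≤ hit a b l Y ω) : Y t ω ≤ l := by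
  rcases ht.1.eq_or_lt with rfl | hlt
  · exact h0
  have h1 : ContinuousWithinAt (fun t => Y t ω) (Ico a t) t :=
    (hc t ht).mono fun u hu => ⟨hu.1, hu.2.le.trans ht.2⟩
  have : (𝓝[Ico a t] t).NeBot := right_nhdsWithin_Ico_neBot hlt
  exact le_of_tendsto h1 (eventually_mem_nhdsWithin.mono fun u hu =>
    (lt_of_lt_hit ⟨hu.1, hu.2.le.trans ht.2⟩ (hu.2.trans_le h)).le)

end hit

namespace BM

variable {ι : Type} [Fintype ι] {W : BM ι}
variable {Q : Measure W.Ω} {a b l r s t : ℝ} {H : W.Ω → ℝ} {X Y A K V V' : ℝ → W.Ω → ℝ}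
  {τ : W.Ω → ℝ}

theorem meas_exists (hc : ∀ ω, ContinuousOn (fun t => Y t ω) (Icc a b))
    (hm : ∀ t ∈ Icc a b, Measurable[W.F t] (Y t)) (ht : t ∈ Icc a b) :
    MeasurableSet[W.F t] {ω | ∃ r ∈ Icc a t, l ≤ Y r ω} := by
  have hs : Icc a t ⊆ Icc a b := Icc_subset_Icc_right ht.2
  have e : {ω | ∃ r ∈ Icc a t, l ≤ Y r ω} = {ω | l ≤ ⨆ q : ℚ, Y (cl a t q) ω} := by
    ext ω
    obtain ⟨r0, hr0, hmax⟩ := isCompact_Icc.exists_isMaxOn (nonempty_Icc.2 ht.1) ((hc ω).mono hs)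
    have hb : BddAbove (range fun q : ℚ => Y (cl a t q) ω) :=
      ⟨Y r0 ω, by rintro _ ⟨q, rfl⟩; exact hmax (cl_mem ht.1 _)⟩
    constructor
    · rintro ⟨r, hr, h⟩
      have c : Continuous fun r => Y (cl a t r) ω :=
        ((hc ω).mono hs).comp_continuous (continuous_cl a t) (cl_mem ht.1)
      have : ∀ r : ℝ, Y (cl a t r) ω ≤ ⨆ q : ℚ, Y (cl a t q) ω := fun r =>
        Rat.denseRange_cast.induction_on r (isClosed_le c continuous_const) fun _ => le_ciSup hb _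
      have h2 := this r
      rw [cl_eq hr] at h2
      exact h.trans h2
    · intro h
      exact ⟨r0, hr0, le_trans h (ciSup_le fun q => hmax (cl_mem ht.1 _))⟩
  rw [e]
  exact measurableSet_le measurable_const (Measurable.iSup (mδ := W.F t) fun q =>
    W.meas_le (hm _ (hs (cl_mem ht.1 _))) (cl_mem ht.1 _).2)

theorem st_hit' (hab : a ≤ b) (hc : ∀ ω, ContinuousOn (fun t => Y t ω) (Icc a b))
    (hm : ∀ t ∈ Icc a b, Measurable[W.F t] (Y t)) (l : ℝ) : W.St a b (hit a b l Y) := by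
  refine ⟨fun ω => le_hit hab, fun t ht => ?_⟩
  rcases ht.2.eq_or_lt with rfl | hlt
  · rw [eq_univ_of_forall (s := {ω | hit a t l Y ω ≤ t}) fun ω => hit_le hab]
    exact MeasurableSet.univ
  have e : {ω | hit a b l Y ω ≤ t} = {ω | ∃ r ∈ Icc a t, l ≤ Y r ω} := by
    ext ω
    exact ⟨fun h => ⟨_, ⟨le_hit hab, h⟩, (hit_cases hab (hc ω)).resolve_right
      (ne_of_lt (lt_of_le_of_lt h hlt))⟩,
      fun ⟨r, hr, h⟩ => (hit_le_of ⟨hr.1, hr.2.trans ht.2⟩ h).trans hr.2⟩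
  rw [e]
  exact meas_exists hc hm ht

/-- hitting times are stopping times -/
theorem Ad.st_hit (h : W.Ad a b Y) (hab : a ≤ b) (l : ℝ) : W.St a b (hit a b l Y) :=
  st_hit' hab h.cont h.meas l

theorem Ad.meas_exists (h : W.Ad a b Y) (hab : a ≤ b) (l : ℝ) :
    MeasurableSet {ω | ∃ r ∈ Icc a b, l ≤ Y r ω} :=
  W.le b _ (BM.meas_exists h.cont h.meas (right_mem_Icc.2 hab))

namespace SM

theorem expect_le (hQ : W.Nice Q) (h : W.SM Q a b X A) (h1 : a ≤ r) (h2 : r ≤ t) (h3 : t ≤ b)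
    {k : ℝ → ℝ} (hk : IntervalIntegrable k volume r t)
    (hle : ∀ u ∈ Ioo r t, ∫ ω, A u ω ∂Q ≤ k u) :
    ∫ ω, X t ω ∂Q ≤ ∫ ω, X r ω ∂Q + ∫ u in r..t, k u := by
  rw [← sub_le_iff_le_add', h.expect hQ h1 h2 h3]
  exact intervalIntegral.integral_mono_on_of_le_Ioo h2
    (h.pr.ii_int hQ ⟨h1, h2.trans h3⟩ ⟨h1.trans h2, h3⟩) hk hle

/-- supermartingales -/
theorem anti (hQ : W.Nice Q) (h : W.SM Q a b X A) (h1 : a ≤ r) (h2 : r ≤ t) (h3 : t ≤ b)
    (hle : ∀ u ∈ Ioo r t, ∀ ω, A u ω ≤ 0) : ∫ ω, X t ω ∂Q ≤ ∫ ω, X r ω ∂Q := by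
  simpa using h.expect_le hQ h1 h2 h3 (k := fun _ => 0) (by simp)
    fun u hu => integral_nonpos (hle u hu)

/-- submartingales -/
theorem mono_int (hQ : W.Nice Q) (h : W.SM Q a b X A) (h1 : a ≤ r) (h2 : r ≤ t) (h3 : t ≤ b)
    (hle : ∀ u ∈ Ioo r t, ∀ ω, 0 ≤ A u ω) : ∫ ω, X r ω ∂Q ≤ ∫ ω, X t ω ∂Q := by
  have := h.neg.anti hQ h1 h2 h3 fun u hu ω => neg_nonpos.2 (hle u hu ω)
  simpa only [integral_neg, neg_le_neg_iff] using this

/-- martingales -/
theorem const_int (hQ : W.Nice Q) (h : W.SM Q a b X A) (h1 : a ≤ r) (h2 : r ≤ t) (h3 : t ≤ b)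
    (hle : ∀ u ∈ Ioo r t, ∀ ω, A u ω = 0) : ∫ ω, X t ω ∂Q = ∫ ω, X r ω ∂Q :=
  le_antisymm (h.anti hQ h1 h2 h3 fun u hu ω => (hle u hu ω).le)
    (h.mono_int hQ h1 h2 h3 fun u hu ω => (hle u hu ω).ge)

/-- **maximal inequality** (Ville: `K = 0`; Doob: `K = A`) -/
theorem maximal (hQ : W.Nice Q) (h : W.SM Q a b X A) (hab : a ≤ b)
    (h0 : ∀ t ∈ Icc a b, ∀ ω, 0 ≤ X t ω) (hK : W.Pr a b K) (K0 : ∀ t ∈ Ioo a b, ∀ ω, 0 ≤ K t ω)
    (hle : ∀ t ∈ Ioo a b, ∀ ω, X t ω < l → A t ω ≤ K t ω) :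
    l * Q.real {ω | ∃ t ∈ Icc a b, l ≤ X t ω} ≤ ∫ ω, X a ω ∂Q + ∫ u in a..b, ∫ ω, K u ω ∂Q := by
  have := hQ.fin
  have hτ := h.ad.st_hit hab l
  have hs := h.stop hQ hτ
  have hb := right_mem_Icc.2 hab
  have h1 := hs.expect_le hQ le_rfl hab le_rfl (hK.ii_int hQ (left_mem_Icc.2 hab) hb) fun u hu =>
    integral_mono ((hs.pr.tm (Ioo_subset_Icc_self hu)).int hQ) ((hK.tm (Ioo_subset_Icc_self hu)).int hQ)
      fun ω => by
        beta_reduce
        split_ifs with h'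
        exacts [hle u hu ω (lt_of_lt_hit (Ioo_subset_Icc_self hu) h'), K0 u hu ω]
  simp only [min_eq_left (hτ.ge _)] at h1
  refine le_trans ?_ h1
  rw [mul_comm, ← smul_eq_mul, ← integral_indicator_const _ (h.ad.meas_exists hab l)]
  refine integral_mono ((integrable_const l).indicator (h.ad.meas_exists hab l))
    ((hs.ad.tm hb).int hQ) fun ω => ?_
  by_cases hω : ω ∈ {ω | ∃ t ∈ Icc a b, l ≤ X t ω}
  · rw [indicator_of_mem hω]
    obtain ⟨t, ht, hl⟩ := hω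
    simp only [min_eq_right (hit_le hab)]
    exact le_at_hit (h.ad.cont ω) ht hl
  · rw [indicator_of_notMem hω]
    exact h0 _ (hτ.min_mem hb ω) ω

theorem ville (hQ : W.Nice Q) (h : W.SM Q a b X A) (hab : a ≤ b)
    (h0 : ∀ t ∈ Icc a b, ∀ ω, 0 ≤ X t ω) (hle : ∀ t ∈ Ioo a b, ∀ ω, A t ω ≤ 0) :
    l * Q.real {ω | ∃ t ∈ Icc a b, l ≤ X t ω} ≤ ∫ ω, X a ω ∂Q := by
  simpa using h.maximal hQ hab h0 (.const 0) (fun _ _ _ => le_rfl) fun t ht ω _ => hle t ht ω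

theorem doob (hQ : W.Nice Q) (h : W.SM Q a b X A) (hab : a ≤ b)
    (h0 : ∀ t ∈ Icc a b, ∀ ω, 0 ≤ X t ω) (hle : ∀ t ∈ Ioo a b, ∀ ω, 0 ≤ A t ω) :
    l * Q.real {ω | ∃ t ∈ Icc a b, l ≤ X t ω} ≤ ∫ ω, X b ω ∂Q := by
  have := h.maximal (l := l) hQ hab h0 h.pr hle fun _ _ _ _ => le_rfl
  rwa [← h.expect hQ le_rfl hab le_rfl, add_sub_cancel] at this

/-- **Gronwall** -/
theorem gronwall (hQ : W.Nice Q) (h : W.SM Q a b X A) (hab : a ≤ b) {κ ε : ℝ → ℝ}
    (hκ : ContinuousOn κ (Icc a b)) (hε : ContinuousOn ε (Icc a b))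
    (hle : ∀ u ∈ Ioo a b, ∫ ω, A u ω ∂Q ≤ κ u * ∫ ω, X u ω ∂Q + ε u) :
    exp (-∫ u in a..b, κ u) * ∫ ω, X b ω ∂Q ≤
      ∫ ω, X a ω ∂Q + ∫ u in a..b, exp (-∫ w in a..u, κ w) * ε u := by
  have c1 : ContinuousOn (fun u => ∫ w in a..u, κ w) (Icc a b) := by
    have := intervalIntegral.continuousOn_primitive_interval' (μ := volume)
      (hκ.intervalIntegrable_of_Icc hab) left_mem_uIcc
    rwa [uIcc_of_le hab] at this
  have c2 : ContinuousOn (fun u => exp (-∫ w in a..u, κ w)) (Icc a b) := c1.neg.rexp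
  have hV : W.FV a b (fun u _ => exp (-∫ w in a..u, κ w))
      fun u _ => exp (-∫ w in a..u, κ w) * -κ u :=
    .time c2 (c2.mul hκ.neg) fun u hu => (intervalIntegral.integral_hasDerivAt_right
      ((hκ.mono (Icc_subset_Icc_right hu.2.le)).intervalIntegrable_of_Icc hu.1.le)
      ((hκ.mono Ioo_subset_Icc_self).stronglyMeasurableAtFilter isOpen_Ioo u hu)
      (hκ.continuousAt (Icc_mem_nhds hu.1 hu.2))).neg.exp
  have := (h.mul_fv hQ hV).expect_le hQ le_rfl hab le_rfl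
    ((c2.mul hε).intervalIntegrable_of_Icc hab) fun u hu => by
      have hu' := Ioo_subset_Icc_self hu
      rw [integral_add ((h.ad.int hQ hu').const_mul _) (((h.pr.tm hu').int hQ).const_mul _),
        integral_const_mul, integral_const_mul]
      have := mul_le_mul_of_nonneg_left (hle u hu) (exp_pos (-∫ w in a..u, κ w)).le
      simp only [Pi.mul_apply]
      linarith
  simpa only [integral_const_mul, intervalIntegral.integral_same, neg_zero, exp_zero, one_mul,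
    Pi.mul_apply] using this

end SM

/-! ### chain rule for processes of finite variation -/

namespace FV

theorem ae_deriv (h : W.FV a b V V') (ω : W.Ω) :
    ∀ᵐ t, t ∈ Ioo a b → HasDerivAt (fun t => V t ω) (V' t ω) t := by
  rcases le_or_gt a b with hab | hab
  swap
  · exact .of_forall fun t ht => absurd (ht.1.trans ht.2) (not_lt.2 hab.le)
  filter_upwards [(h.pr.ii (left_mem_Icc.2 hab) (right_mem_Icc.2 hab) ω).ae_hasDerivAt_integral]
    with t ht ht'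
  rw [uIcc_of_le hab] at ht
  refine ((ht (Ioo_subset_Icc_self ht') a (left_mem_Icc.2 hab)).const_add (V a ω)).congr_of_eventuallyEq ?_
  filter_upwards [Icc_mem_nhds ht'.1 ht'.2] with u hu using h.eq u hu ω

theorem lip (h : W.FV a b V V') (ω : W.Ω) :
    ∃ C : ℝ≥0, LipschitzOnWith C (fun t => V t ω) (Icc a b) := by
  obtain ⟨T, C, c, -, h2, -, h4⟩ := h.pr.gr
  refine ⟨⟨C * exp (c * W.S T ω), by positivity⟩, .of_dist_le_mul fun t ht r hr => ?_⟩
  rw [Real.dist_eq, Real.dist_eq, h.sub_eq hr ht]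
  exact intervalIntegral.norm_integral_le_of_norm_le_const (f := fun u => V' u ω) fun u hu =>
    h4 u (uIcc_subset_Icc hr ht (uIoc_subset_uIcc hu)) ω

theorem of_lip (h : W.Ad a b V) (h' : W.Pr a b V')
    (hl : ∀ ω, ∃ C : ℝ≥0, LipschitzOnWith C (fun t => V t ω) (Icc a b))
    (hd : ∀ ω, ∀ᵐ t, t ∈ Ioo a b → HasDerivAt (fun t => V t ω) (V' t ω) t) : W.FV a b V V' := by
  refine ⟨h, h', fun t ht ω => ?_⟩
  obtain ⟨C, hC⟩ := hl ω
  have ac : AbsolutelyContinuousOnInterval (fun t => V t ω) a t :=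
    (hC.mono (uIcc_subset_Icc ⟨le_rfl, ht.1.trans ht.2⟩ ht)).absolutelyContinuousOnInterval
  have e : ∫ u in a..t, V' u ω = ∫ u in a..t, deriv (fun t => V t ω) u := by
    refine intervalIntegral.integral_congr_ae ?_
    have : ∀ᵐ u : ℝ, u ≠ b := by simp [ae_iff]
    filter_upwards [hd ω, this] with u hu hb hu'
    rw [uIoc_of_le ht.1] at hu'
    exact (hu ⟨hu'.1, lt_of_le_of_ne (hu'.2.trans ht.2) hb⟩).deriv.symm
  rw [e, ac.integral_deriv_eq_sub]; ring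

/-- chain rule -/
theorem comp (h : W.FV a b V V') {φ φ' : ℝ → ℝ} (hφ : ∀ x, HasDerivAt φ (φ' x) x)
    (hφ' : Continuous φ') (g0 : W.Gr (Icc a b) fun t ω => φ (V t ω))
    (g1 : W.Gr (Icc a b) fun t ω => φ' (V t ω)) :
    W.FV a b (fun t ω => φ (V t ω)) fun t ω => φ' (V t ω) * V' t ω := by
  have hc : Continuous φ := continuous_iff_continuousAt.2 fun x => (hφ x).continuousAt
  refine of_lip (h.ad.comp hc g0) ((h.ad.comp hφ' g1).pr.mul h.pr) (fun ω => ?_) fun ω =>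
    (h.ae_deriv ω).mono fun t ht ht' => (hφ _).comp t (ht ht')
  obtain ⟨C, hC⟩ := h.lip ω
  obtain ⟨R, hR⟩ := isCompact_Icc.exists_bound_of_continuousOn (h.ad.cont ω)
  obtain ⟨M, hM⟩ := (isCompact_Icc (a := -R) (b := R)).exists_bound_of_continuousOn hφ'.continuousOn
  have hl : LipschitzOnWith M.toNNReal φ (Icc (-R) R) :=
    (convex_Icc _ _).lipschitzOnWith_of_nnnorm_hasDerivWithin_le
      (fun x _ => (hφ x).hasDerivWithinAt) fun x hx => by
        rw [← NNReal.coe_le_coe, coe_nnnorm]; exact (hM x hx).trans (Real.le_coe_toNNReal M)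
  exact ⟨_, hl.comp hC fun t ht => abs_le.1 (hR t ht)⟩

theorem exp (h : W.FV a b V V') (g : W.Gr (Icc a b) fun t ω => exp (V t ω)) :
    W.FV a b (fun t ω => Real.exp (V t ω)) fun t ω => Real.exp (V t ω) * V' t ω :=
  h.comp hasDerivAt_exp continuous_exp g g

theorem const_mul (c : ℝ) (h : W.FV a b V V') :
    W.FV a b (fun t ω => c * V t ω) fun t ω => c * V' t ω := by
  simpa using (const c).mul h

/-- killing functional `exp (-∫ K)` for `K` bounded below -/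
theorem kill (hK : W.Pr a b K) {C : ℝ} (h0 : ∀ t ∈ Icc a b, ∀ ω, -C ≤ K t ω) :
    W.FV a b (fun t ω => Real.exp (-∫ u in a..t, K u ω))
      fun t ω => Real.exp (-∫ u in a..t, K u ω) * -K t ω :=
  (prim hK).neg.exp (.of_bdd (Real.exp (|C| * |b - a|)) fun t ht ω => by
    rw [abs_of_pos (exp_pos _), exp_le_exp, neg_le]
    have h1 := intervalIntegral.integral_mono_on ht.1 (intervalIntegrable_const (c := -C))
      (hK.ii ⟨le_rfl, ht.1.trans ht.2⟩ ht ω) fun u hu => h0 u ⟨hu.1, hu.2.trans ht.2⟩ ω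
    refine le_trans ?_ h1
    rw [intervalIntegral.integral_const, smul_eq_mul, mul_neg, neg_le_neg_iff, mul_comm]
    exact mul_le_mul (le_abs_self _) ((sub_le_sub_right ht.2 a).trans (le_abs_self _))
      (sub_nonneg.2 ht.1) (abs_nonneg _))

end FV

end BM

end Crest.Agent.T157.Pa

end
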