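import Crest.Agent.T157.PaE_39

/-!
# Row 157, path layer, part F (helper39): adapted linear ODE, exponential martingales
-/

set_option autoImplicit false
set_option linter.unusedSectionVars false

noncomputable section

namespace Crest.Agent.T157.Pa

open MeasureTheory ProbabilityTheory Filter Topology Set Real
open Crest.Agent.T157.SL Crest.Agent.T157.E
open scoped NNReal ENNReal

theorem meas_lim {α : Type*} {m : MeasurableSpace α} {f : ℕ → α → ℝ} {g : α → ℝ}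
    (hf : ∀ i, Measurable[m] (f i)) (lim : Tendsto f atTop (𝓝 g)) : Measurable[m] g :=
  measurable_of_tendsto_metrizable hf lim

namespace BM

variable {ι : Type} [Fintype ι] {W : BM ι}
variable {Q : Measure W.Ω} {a b l r s t : ℝ} {X Y A K V V' : ℝ → W.Ω → ℝ}

section ode
variable {κ : Type*} [Fintype κ] {M : ℝ → W.Ω → κ → κ → ℝ} {H : W.Ω → κ → ℝ} {C : ℝ}

/-- Picard iterates -/
def pic (a : ℝ) (M : ℝ → W.Ω → κ → κ → ℝ) (H : W.Ω → κ → ℝ) : ℕ → ℝ → W.Ω → κ → ℝ
  | 0, _, ω, j => H ω j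
  | m + 1, t, ω, j => ∫ u in a..t, ∑ k, M u ω j k * pic a M H m u ω k

theorem pic_ad (hM : ∀ j k, W.Pr a b fun t ω => M t ω j k) (hH : ∀ j, W.Tm a fun ω => H ω j) :
    ∀ m j, W.Ad a b fun t ω => pic a M H m t ω j
  | 0, j => (hH j).ad
  | m + 1, j => (Pr.sum Finset.univ fun k _ => (hM j k).mul (pic_ad hM hH m k).pr).prim

theorem pic_le (hM : ∀ j k, W.Pr a b fun t ω => M t ω j k) (hH : ∀ j, W.Tm a fun ω => H ω j)
    (hC : ∀ t ∈ Icc a b, ∀ ω j, ∑ k, |M t ω j k| ≤ C) (ω : W.Ω) :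
    ∀ m, ∀ t ∈ Icc a b, ∀ j, |pic a M H m t ω j| ≤ ‖H ω‖ * ((C * (t - a)) ^ m / m.factorial)
  | 0, _, _, j => by simpa [pic] using norm_le_pi_norm (H ω) j
  | m + 1, t, ht, j => by
    have ha : a ∈ Icc a b := ⟨le_rfl, ht.1.trans ht.2⟩
    have C0 : 0 ≤ C := (Finset.sum_nonneg fun _ _ => abs_nonneg _).trans (hC t ht ω j)
    have h1 : ∀ u ∈ Ioc a t, ‖∑ k, M u ω j k * pic a M H m u ω k‖ ≤
        ‖H ω‖ * C ^ (m + 1) / m.factorial * (u - a) ^ m := fun u hu => by
      have hu' : u ∈ Icc a b := ⟨hu.1.le, hu.2.trans ht.2⟩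
      have := sub_nonneg.2 hu.1.le
      calc ‖∑ k, M u ω j k * pic a M H m u ω k‖
          ≤ ∑ k, |M u ω j k| * (‖H ω‖ * ((C * (u - a)) ^ m / m.factorial)) := by
            refine (norm_sum_le _ _).trans (Finset.sum_le_sum fun k _ => ?_)
            rw [Real.norm_eq_abs, abs_mul]
            gcongr
            exact pic_le hM hH hC ω m u hu' k
        _ ≤ C * (‖H ω‖ * ((C * (u - a)) ^ m / m.factorial)) := by
            rw [← Finset.sum_mul]; gcongr; exact hC u hu' ω j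
        _ = _ := by rw [mul_pow]; ring
    refine (intervalIntegral.norm_integral_le_of_norm_le ht.1 (.of_forall h1)
      (Continuous.intervalIntegrable (by fun_prop) _ _)).trans_eq ?_
    rw [intervalIntegral.integral_const_mul, intervalIntegral.integral_comp_sub_right (· ^ m),
      integral_pow, sub_self, zero_pow m.succ_ne_zero, sub_zero, Nat.factorial_succ, mul_pow]
    push_cast
    field_simp

/-- the solution of `V' = M V`, `V a = H` -/
def ode (a : ℝ) (M : ℝ → W.Ω → κ → κ → ℝ) (H : W.Ω → κ → ℝ) (t : ℝ) (ω : W.Ω) (j : κ) : ℝ :=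
  ∑' m, pic a M H m t ω j

theorem ode_start (ω : W.Ω) : ode a M H a ω = H ω := by
  funext j
  rw [ode, tsum_eq_single 0 fun m hm => by
    obtain ⟨m, rfl⟩ := Nat.exists_eq_succ_of_ne_zero hm
    simp [pic]]
  rfl

/-- **adapted solution of a linear ODE** -/
theorem ode_fv (hM : ∀ j k, W.Pr a b fun t ω => M t ω j k) (hH : ∀ j, W.Tm a fun ω => H ω j)
    (hC : ∀ t ∈ Icc a b, ∀ ω j, ∑ k, |M t ω j k| ≤ C) (j : κ) :
    W.FV a b (fun t ω => ode a M H t ω j) fun t ω => ∑ k, M t ω j k * ode a M H t ω k := by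
  set bd : W.Ω → ℕ → ℝ := fun ω m => ‖H ω‖ * ((|C| * |b - a|) ^ m / m.factorial)
  have hs : ∀ ω, Summable (bd ω) := fun ω => (summable_pow_div_factorial _).mul_left _
  have hb : ∀ ω m, ∀ t ∈ Icc a b, ∀ j, ‖pic a M H m t ω j‖ ≤ bd ω m := fun ω m t ht j => by
    have C0 : 0 ≤ C := (Finset.sum_nonneg fun _ _ => abs_nonneg _).trans (hC t ht ω j)
    refine (pic_le hM hH hC ω m t ht j).trans ?_
    have := sub_nonneg.2 ht.1
    simp only [bd]
    gcongr
    exacts [le_abs_self _, (sub_le_sub_right ht.2 a).trans (le_abs_self _)]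
  have sm : ∀ ω, ∀ t ∈ Icc a b, ∀ j, Summable fun m => pic a M H m t ω j := fun ω t ht j =>
    .of_norm_bounded (hs ω) fun m => hb ω m t ht j
  have gH : W.Gr (univ : Set Unit) fun _ ω => ‖H ω‖ :=
    (Gr.sum Finset.univ fun k _ => (hH k).gr.abs).of_le fun _ _ ω => by
      rw [abs_norm, abs_of_nonneg (by positivity)]
      exact (pi_norm_le_iff_of_nonneg (by positivity)).2 fun k =>
        Finset.single_le_sum (f := fun k => |H ω k|) (fun _ _ => abs_nonneg _) (Finset.mem_univ k)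
  have ad : ∀ j, W.Ad a b fun t ω => ode a M H t ω j := fun j => by
    refine ⟨fun ω => continuousOn_tsum (fun m => (pic_ad hM hH m j).cont ω) (hs ω)
      fun m t ht => hb ω m t ht j, fun t ht => ?_,
      (gH.mul (.const (∑' m : ℕ, (|C| * |b - a|) ^ m / m.factorial))).comp
        fun t ht ω => ⟨(), trivial, ?_⟩⟩
    · refine meas_lim (m := W.F t)
        (f := fun N ω => ∑ m ∈ Finset.range N, pic a M H m t ω j)
        (fun N => Finset.measurable_sum _ fun m _ => (pic_ad hM hH m j).meas t ht) ?_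
      exact tendsto_pi_nhds.2 fun ω => (sm ω t ht j).hasSum.tendsto_sum_nat
    · refine (tsum_of_norm_bounded (hs ω).hasSum fun m => hb ω m t ht j).trans ?_
      rw [tsum_mul_left]
      exact le_abs_self _
  refine ⟨ad j, .sum _ fun k _ => (hM j k).mul (ad k).pr, fun t ht ω => ?_⟩
  have ha : a ∈ Icc a b := ⟨le_rfl, ht.1.trans ht.2⟩
  have hu : ∀ u ∈ uIoc a t, u ∈ Icc a b := fun u hu => uIcc_subset_Icc ha ht (uIoc_subset_uIcc hu)
  have key := intervalIntegral.hasSum_integral_of_dominated_convergence (μ := volume) (a := a)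
    (b := t) (F := fun m u => ∑ k, M u ω j k * pic a M H m u ω k)
    (f := fun u => ∑ k, M u ω j k * ode a M H u ω k) (fun m _ => C * bd ω m)
    (fun m => ((Pr.sum Finset.univ fun k _ => (hM j k).mul (pic_ad hM hH m k).pr).ii ha ht
      ω).def'.aestronglyMeasurable)
    (fun m => .of_forall fun u hu' => by
      calc ‖∑ k, M u ω j k * pic a M H m u ω k‖ ≤ ∑ k, |M u ω j k| * bd ω m := by
            refine (norm_sum_le _ _).trans (Finset.sum_le_sum fun k _ => ?_)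
            rw [norm_mul, Real.norm_eq_abs]
            gcongr
            exact hb ω m u (hu u hu') k
        _ ≤ C * bd ω m := by
            rw [← Finset.sum_mul]
            exact mul_le_mul_of_nonneg_right (hC u (hu u hu') ω j)
              ((norm_nonneg _).trans (hb ω m u (hu u hu') j)))
    (.of_forall fun _ _ => (hs ω).mul_left C) intervalIntegrable_const
    (.of_forall fun u hu' => hasSum_sum fun k _ => (sm ω u (hu u hu') k).hasSum.mul_left _)
  rw [ode_start, ← key.tsum_eq, ode, (sm ω t ht j).tsum_eq_zero_add]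
  rfl

end ode

/-! ### exponential martingales -/

variable [DecidableEq ι] {G a' : Pt ι → ℝ} {β d : ι → Pt ι → ℝ}

/-- linear growth on `[a, b]` -/
def Lg (a b : ℝ) (G : Pt ι → ℝ) : Prop := ∃ C c : ℝ, ∀ p : Pt ι, p.1 ∈ Icc a b → |G p| ≤ C + c * ‖p.2‖

theorem Lg.of_bdd (C : ℝ) (h : ∀ p : Pt ι, p.1 ∈ Icc a b → |G p| ≤ C) : Lg a b G :=
  ⟨C, 0, fun p hp => by simpa using h p hp⟩

theorem Lg.coord (i : ι) : Lg a b fun p : Pt ι => p.2 i :=
  ⟨0, 1, fun p _ => by simpa using norm_le_pi_norm p.2 i⟩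

theorem Lg.const_mul (h : Lg a b G) (θ : ℝ) : Lg a b fun p => θ * G p := by
  obtain ⟨C, c, h⟩ := h
  refine ⟨|θ| * C, |θ| * c, fun p hp => ?_⟩
  rw [abs_mul, mul_assoc, ← mul_add]
  exact mul_le_mul_of_nonneg_left (h p hp) (abs_nonneg _)

theorem Lg.add {G' : Pt ι → ℝ} (h : Lg a b G) (h' : Lg a b G') : Lg a b fun p => G p + G' p := by
  obtain ⟨C, c, h⟩ := h
  obtain ⟨C', c', h'⟩ := h'
  exact ⟨C + C', c + c', fun p hp => (abs_add_le _ _).trans (by linarith [h p hp, h' p hp])⟩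

theorem Lg.sum {σ : Type*} (S : Finset σ) {G : σ → Pt ι → ℝ} (h : ∀ k ∈ S, Lg a b (G k)) :
    Lg a b fun p => ∑ k ∈ S, G k p := by
  classical
  induction S using Finset.induction_on with
  | empty => exact .of_bdd 0 (by simp)
  | insert k s hk ih =>
    simpa [Finset.sum_insert hk] using (h k (by simp)).add (ih fun j hj => h j (by simp [hj]))

theorem Lg.eg_exp (h : Lg a b G) (hc : ContinuousOn G (Icc a b ×ˢ univ)) :
    EG (Icc a b) fun p => exp (G p) := by
  obtain ⟨C, c, h⟩ := h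
  exact .exp hc C c fun p hp => (le_abs_self _).trans (h p hp)

theorem Lg.le_S (h : Lg a b G) (ha : 0 ≤ a) : ∃ C c : ℝ, 0 ≤ C ∧ 0 ≤ c ∧ ∀ t ∈ Icc a b, ∀ ω,
    |G (t, W.B t ω)| ≤ C + c * W.S (max b 0) ω := by
  obtain ⟨C, c, h⟩ := h
  refine ⟨|C|, |c|, abs_nonneg _, abs_nonneg _, fun t ht ω => (h _ ht).trans ?_⟩
  gcongr
  exacts [le_abs_self _, le_abs_self _, W.norm_le_S ⟨ha.trans ht.1, ht.2.trans (le_max_left _ _)⟩ ω]

/-- **exponential martingale**: for an Itô function `G` of linear growth,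
`exp (G_t - G_a - ∫ (a' + |β|²/2))` is a martingale starting at `1`. -/
theorem exp_mart (hQ : W.Nice Q) (ha : 0 ≤ a) (hab : a ≤ b) (hG : Ito d (Icc a b) G a' β)
    (hd : ∀ i, EG (Icc a b) (d i)) (l1 : Lg a b G) (l2 : Lg a b fun p => a' p + (∑ i, β i p ^ 2) / 2)
    (hsm : ∀ {G a' : Pt ι → ℝ} {β : ι → Pt ι → ℝ}, Ito d (Icc a b) G a' β →
      W.SM Q a b (fun t ω => G (t, W.B t ω)) fun t ω => a' (t, W.B t ω)) :
    W.SM Q a b (fun t ω => exp (G (t, W.B t ω) - G (a, W.B a ω) -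
      ∫ u in a..t, (a' (u, W.B u ω) + (∑ i, β i (u, W.B u ω) ^ 2) / 2))) fun _ _ => 0 := by
  have e1 := hsm (hG.exp (l1.eg_exp hG.eg.cont))
  have hK := (W.ad_eg ha ((hG.eg_a hd).add
    ((EG.sum Finset.univ fun i _ => (hG.eg_b i).pow 2).div_const 2))).pr
  obtain ⟨C1, c1, -, -, b1⟩ := l1.le_S (W := W) ha
  obtain ⟨C2, c2, p2, q2, b2⟩ := l2.le_S (W := W) ha
  have hV := ((FV.of_tm ((W.ad_eg ha hG.eg).tm (left_mem_Icc.2 hab))).add (FV.prim hK)).neg.exp
    (Gr.exp_of_le (C := C1 + C2 * (b - a)) (c := c1 + c2 * (b - a)) (le_max_right b 0) fun t ht ω => by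
      have h1 := b1 a (left_mem_Icc.2 hab) ω
      have h2 := intervalIntegral.norm_integral_le_of_norm_le_const (a := a) (b := t)
        (f := fun u => a' (u, W.B u ω) + (∑ i, β i (u, W.B u ω) ^ 2) / 2)
        (C := C2 + c2 * W.S (max b 0) ω) fun u hu =>
          b2 u (uIcc_subset_Icc (left_mem_Icc.2 hab) ht (uIoc_subset_uIcc hu)) ω
      have h3 : (C2 + c2 * W.S (max b 0) ω) * |t - a| ≤ (C2 + c2 * W.S (max b 0) ω) * (b - a) := by
        have := W.S_nonneg (max b 0) ω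
        rw [abs_of_nonneg (sub_nonneg.2 ht.1)]
        gcongr
        exact ht.2
      rw [Real.norm_eq_abs] at h2
      linarith [neg_abs_le (G (a, W.B a ω)), neg_abs_le
        (∫ u in a..t, (a' (u, W.B u ω) + (∑ i, β i (u, W.B u ω) ^ 2) / 2))])
  exact (e1.mul_fv hQ hV).congr (fun t _ ω => by rw [← exp_add]; ring_nf) fun t _ ω => by ring

/-- **Freedman-type tail**: drift plus half the quadratic variation bounded by `k` -/
theorem exp_tail [IsProbabilityMeasure Q] (hQ : W.Nice Q) (ha : 0 ≤ a) (hab : a ≤ b)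
    (hG : Ito d (Icc a b) G a' β) (hd : ∀ i, EG (Icc a b) (d i)) (l1 : Lg a b G)
    (l2 : Lg a b fun p => a' p + (∑ i, β i p ^ 2) / 2)
    (hsm : ∀ {G a' : Pt ι → ℝ} {β : ι → Pt ι → ℝ}, Ito d (Icc a b) G a' β →
      W.SM Q a b (fun t ω => G (t, W.B t ω)) fun t ω => a' (t, W.B t ω)) (l : ℝ) :
    Q.real {ω | ∃ t ∈ Icc a b, l ≤ G (t, W.B t ω) - G (a, W.B a ω) -
      ∫ u in a..t, (a' (u, W.B u ω) + (∑ i, β i (u, W.B u ω) ^ 2) / 2)} ≤ exp (-l) := by
  have := (exp_mart hQ ha hab hG hd l1 l2 hsm).ville (l := exp l) hQ hab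
    (fun _ _ _ => (exp_pos _).le) fun _ _ _ => le_rfl
  simp only [exp_le_exp, sub_self, intervalIntegral.integral_same, exp_zero, integral_const,
    probReal_univ, smul_eq_mul, mul_one] at this
  rw [exp_neg, ← one_div, le_div_iff₀' (exp_pos _)]
  exact this

section sl
variable {Ω : Type*} [Fintype Ω] {φ : Ω → ι → ℝ} {v : Ω → ℝ} {T : ℝ}

/-- oscillation of a linear form of the localisation: `|u · φ x| ≤ D` -/
theorem osc_sl (hv : Wt v) (ha : 0 ≤ a) (hab : a ≤ b) (hb : b ≤ T) (u : ι → ℝ) {D : ℝ}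
    (hD : ∀ x, u ⬝ᵥ φ x ≤ D) (hD0 : 0 ≤ D) (l : ℝ) :
    (W.Qsl φ v T).real {ω | ∃ t ∈ Icc a b, l ≤ u ⬝ᵥ (W.B t ω - W.B a ω)} ≤
      exp ((D + u ⬝ᵥ u / 2) * (b - a) - l) := by
  have hT := ha.trans (hab.trans hb)
  have := prob_sl (W := W) (φ := φ) hv hT
  have hG : Ito (md φ v) (Icc a b) (fun p : Pt ι => u ⬝ᵥ p.2) (fun p => u ⬝ᵥ meanV (pw φ v p) φ)
      fun i _ => u i :=
    (Ito.sum Finset.univ fun j _ => (Ito.coord j).const_mul (u j)).congr (fun _ _ => rfl)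
      fun i p _ => by simp
  have hm : ∀ p : Pt ι, u ⬝ᵥ meanV (pw φ v p) φ ≤ D := fun p => by
    rw [meanV_dot]; exact (hv.post _ _ _).mean_le hD
  have l2 : Lg a b fun p : Pt ι => u ⬝ᵥ meanV (pw φ v p) φ + (∑ i, u i ^ 2) / 2 :=
    .add (.of_bdd (∑ x, |u ⬝ᵥ φ x|) fun p _ => by
      rw [meanV_dot]
      exact (hv.post _ _ _).abs_mean_le fun x => Finset.single_le_sum
        (f := fun x => |u ⬝ᵥ φ x|) (fun _ _ => abs_nonneg _) (Finset.mem_univ x))
      (.of_bdd _ fun _ _ => le_rfl)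
  have h := exp_tail (W := W) (nice_sl hv hT) ha hab hG (eg_md hv)
    (Lg.sum Finset.univ fun j _ => (Lg.coord j).const_mul (u j)) l2
    (fun h => sm_sl hv ha hab hb h) (l - (D + u ⬝ᵥ u / 2) * (b - a))
  rw [neg_sub] at h
  refine (measureReal_mono ?_).trans h
  rintro ω ⟨t, ht, hl⟩
  refine ⟨t, ht, ?_⟩
  have e : ∑ i, u i ^ 2 = u ⬝ᵥ u := by simp only [dotProduct, sq]
  have u0 : 0 ≤ u ⬝ᵥ u := e ▸ Finset.sum_nonneg fun _ _ => sq_nonneg _
  have hK := (W.ad_eg ha ((hG.eg_a (eg_md hv)).add (EG.const ((∑ i, u i ^ 2) / 2)))).pr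
  have h1 := intervalIntegral.integral_mono_on ht.1 (hK.ii (left_mem_Icc.2 hab) ht ω)
    (intervalIntegrable_const (c := D + u ⬝ᵥ u / 2)) fun r _ => by
      rw [e]; linarith [hm (r, W.B r ω)]
  rw [intervalIntegral.integral_const, smul_eq_mul, mul_comm] at h1
  have h2 : (D + u ⬝ᵥ u / 2) * (t - a) ≤ (D + u ⬝ᵥ u / 2) * (b - a) := by gcongr; exact ht.2
  rw [dotProduct_sub] at hl
  simp only at h1 ⊢
  linarith

end sl

end BM

end Crest.Agent.T157.Pa

end
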