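import Crest.Agent.T157.PaF_39
import Crest.Agent.T157.SLD_23

/-!
# Row 157, path layer, part G (helper39): measurable Markov functions, pathwise Gronwall,
Markov restart along the localisation
-/

set_option autoImplicit false
set_option linter.unusedSectionVars false

noncomputable section

namespace Crest.Agent.T157.Pa

open MeasureTheory ProbabilityTheory Filter Topology Set Real Matrix
open Crest.Agent.T157.SL Crest.Agent.T157.E
open scoped NNReal ENNReal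

namespace BM

variable {ι : Type} [Fintype ι] [DecidableEq ι] {W : BM ι}
variable {Q : Measure W.Ω} {a b r s t T : ℝ} {H : W.Ω → ℝ} {X A K V V' : ℝ → W.Ω → ℝ}

theorem meas_path (W : BM ι) (ht : a ≤ t) :
    Measurable[W.PF t] fun p : ℝ × W.Ω => ((cl a t p.1, W.B (cl a t p.1) p.2) : Pt ι) :=
  ((continuous_cl a t).measurable.comp measurable_fst).prodMk
    (measurable_uncurry_of_continuous_of_measurable (m := W.F t)
      (u := fun u ω => W.B (cl a t u) ω) (fun ω => (W.cont ω).comp (continuous_cl a t))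
      fun u => W.meas_le (W.meas _) (cl_mem ht u).2)

/-- measurable functions of `(t, B t)` of exponential growth are progressive -/
theorem pr_meas (W : BM ι) (ha : 0 ≤ a) {G : Pt ι → ℝ} (hm : Measurable G) {C c : ℝ} (hC : 0 ≤ C)
    (hc : 0 ≤ c) (h : ∀ p : Pt ι, p.1 ∈ Icc a b → |G p| ≤ C * exp (c * ‖p.2‖)) :
    W.Pr a b fun t ω => G (t, W.B t ω) := by
  refine ⟨fun t ht => hm.comp (W.meas_path ht.1), max b 0, C, c, le_max_right _ _, hC, hc,
    fun t ht ω => (h _ ht).trans ?_⟩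
  gcongr
  exact W.norm_le_S ⟨ha.trans ht.1, ht.2.trans (le_max_left _ _)⟩ ω

theorem pr_meas_bdd (W : BM ι) {G : Pt ι → ℝ} (hm : Measurable G) (C : ℝ)
    (h : ∀ p : Pt ι, p.1 ∈ Icc a b → |G p| ≤ C) : W.Pr a b fun t ω => G (t, W.B t ω) :=
  ⟨fun _ ht => hm.comp (W.meas_path ht.1), .of_bdd C fun _ ht _ => h _ ht⟩

/-- cut a progressive process on a measurable space-time set -/
theorem Pr.ite_set (h : W.Pr a b A) {S : Set (Pt ι)} (hS : MeasurableSet S)
    [DecidablePred (· ∈ S)] :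
    W.Pr a b fun t ω => if (t, W.B t ω) ∈ S then A t ω else 0 :=
  ⟨fun t ht => Measurable.ite (W.meas_path ht.1 hS) (h.meas t ht) measurable_const,
    h.gr.of_le fun _ _ _ => by split_ifs <;> simp⟩

theorem Pr.indicator (h : W.Pr a b A) {S : Set (Pt ι)} (hS : MeasurableSet S) :
    W.Pr a b fun t ω => S.indicator (fun _ => (1 : ℝ)) (t, W.B t ω) * A t ω :=
  (W.pr_meas_bdd (measurable_const.indicator hS) 1 fun p _ => by
    by_cases hp : p ∈ S <;> simp [hp]).mul h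

theorem pr_time {f : ℝ → ℝ} (hm : Measurable f) (C : ℝ) (h : ∀ t ∈ Icc a b, |f t| ≤ C) :
    W.Pr a b fun t _ => f t :=
  ⟨fun t _ => (hm.comp (continuous_cl a t).measurable).comp measurable_fst,
    .of_bdd C fun t ht _ => h t ht⟩

theorem FV.le_of_deriv (h : W.FV a b V V') (hr : r ∈ Icc a b) (ht : t ∈ Icc a b) (hrt : r ≤ t)
    (ω : W.Ω) {k : ℝ → ℝ} (hk : IntervalIntegrable k volume r t) (hle : ∀ u ∈ Ioo r t, V' u ω ≤ k u) :
    V t ω ≤ V r ω + ∫ u in r..t, k u := by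
  rw [← sub_le_iff_le_add', h.sub_eq hr ht]
  exact intervalIntegral.integral_mono_on_of_le_Ioo hrt (h.pr.ii hr ht ω) hk hle

/-- **pathwise Gronwall** -/
theorem FV.gronwall (h : W.FV a b V V') (hK : W.Pr a b K) {C : ℝ}
    (h0 : ∀ t ∈ Icc a b, ∀ ω, -C ≤ K t ω) (ht : t ∈ Icc a b) (ω : W.Ω)
    (hle : ∀ u ∈ Ioo a t, V' u ω ≤ K u ω * V u ω) : V t ω ≤ Real.exp (∫ u in a..t, K u ω) * V a ω := by
  have := ((FV.kill hK h0).mul h).le_of_deriv ⟨le_rfl, ht.1.trans ht.2⟩ ht ht.1 ω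
    (k := fun _ => 0) (by simp) fun u hu => by
      have := mul_le_mul_of_nonneg_left (hle u hu) (exp_pos (-∫ w in a..u, K w ω)).le
      linarith
  simp only [intervalIntegral.integral_same, neg_zero, exp_zero, one_mul,
    intervalIntegral.integral_zero, add_zero] at this
  rw [← le_div_iff₀' (exp_pos _), exp_neg, div_inv_eq_mul, mul_comm] at this
  exact this

section vec
variable {κ : Type*} [Fintype κ] {U U' Z Z' : ℝ → W.Ω → κ → ℝ}

theorem Ad.dot (h : ∀ j, W.Ad a b fun t ω => U t ω j) (h' : ∀ j, W.Ad a b fun t ω => Z t ω j) :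
    W.Ad a b fun t ω => U t ω ⬝ᵥ Z t ω := .sum _ fun j _ => (h j).mul (h' j)

theorem Pr.dot (h : ∀ j, W.Pr a b fun t ω => U t ω j) (h' : ∀ j, W.Pr a b fun t ω => Z t ω j) :
    W.Pr a b fun t ω => U t ω ⬝ᵥ Z t ω := .sum _ fun j _ => (h j).mul (h' j)

theorem Pr.mulVec {κ' : Type*} {M : ℝ → W.Ω → Matrix κ' κ ℝ}
    (hM : ∀ j k, W.Pr a b fun t ω => M t ω j k) (h : ∀ j, W.Pr a b fun t ω => U t ω j) (j : κ') :
    W.Pr a b fun t ω => (M t ω *ᵥ U t ω) j := .sum _ fun k _ => (hM j k).mul (h k)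

theorem FV.dot (h : ∀ j, W.FV a b (fun t ω => U t ω j) fun t ω => U' t ω j)
    (h' : ∀ j, W.FV a b (fun t ω => Z t ω j) fun t ω => Z' t ω j) :
    W.FV a b (fun t ω => U t ω ⬝ᵥ Z t ω) fun t ω => U' t ω ⬝ᵥ Z t ω + U t ω ⬝ᵥ Z' t ω :=
  (FV.sum Finset.univ fun j _ => (h j).mul (h' j)).congr (fun _ _ _ => rfl) fun _ _ _ => by
    simp only [dotProduct, Finset.sum_add_distrib]

/-- scalar product of a vector of finite variation with a vector semimartingale -/
theorem SM.dot_fv (hQ : W.Nice Q) (h' : ∀ j, W.SM Q a b (fun t ω => Z t ω j) fun t ω => Z' t ω j)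
    (h : ∀ j, W.FV a b (fun t ω => U t ω j) fun t ω => U' t ω j) :
    W.SM Q a b (fun t ω => U t ω ⬝ᵥ Z t ω) fun t ω => U' t ω ⬝ᵥ Z t ω + U t ω ⬝ᵥ Z' t ω :=
  (SM.sum hQ Finset.univ fun j _ => (h' j).mul_fv hQ (h j)).congr (fun _ _ _ => rfl) fun _ _ _ => by
    simp only [dotProduct, Finset.sum_add_distrib]

variable {M : ℝ → W.Ω → Matrix κ κ ℝ} {H : W.Ω → κ → ℝ} {C : ℝ}

theorem ode_fv' (hM : ∀ j k, W.Pr a b fun t ω => M t ω j k) (hH : ∀ j, W.Tm a fun ω => H ω j)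
    (hC : ∀ t ∈ Icc a b, ∀ ω j k, |M t ω j k| ≤ C) (j : κ) :
    W.FV a b (fun t ω => ode a M H t ω j) fun t ω => (M t ω *ᵥ ode a M H t ω) j :=
  ode_fv (C := Fintype.card κ * C) hM hH (fun t ht ω j =>
    (Finset.sum_le_sum fun k _ => hC t ht ω j k).trans_eq (by simp)) j

/-- growth of the Euclidean norm of the solution -/
theorem ode_sq_le (hM : ∀ j k, W.Pr a b fun t ω => M t ω j k) (hH : ∀ j, W.Tm a fun ω => H ω j)
    (hC : ∀ t ∈ Icc a b, ∀ ω j k, |M t ω j k| ≤ C) (hK : W.Pr a b K) {C' : ℝ}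
    (h0 : ∀ t ∈ Icc a b, ∀ ω, -C' ≤ K t ω) (ht : t ∈ Icc a b) (ω : W.Ω)
    (hle : ∀ u ∈ Ioo a t, ∀ x : κ → ℝ, x ⬝ᵥ M u ω *ᵥ x ≤ K u ω * (x ⬝ᵥ x)) :
    ode a M H t ω ⬝ᵥ ode a M H t ω ≤ exp (2 * ∫ u in a..t, K u ω) * (H ω ⬝ᵥ H ω) := by
  have := (FV.dot (ode_fv' hM hH hC) (ode_fv' hM hH hC)).gronwall ((Pr.const 2).mul hK)
    (C := 2 * C') (fun t ht ω => by linarith [h0 t ht ω]) ht ω fun u hu => by
      rw [dotProduct_comm (M u ω *ᵥ _)]; linarith [hle u hu (ode a M H u ω)]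
  rwa [intervalIntegral.integral_const_mul, ode_start] at this

end vec

section sl
variable {Ω : Type*} [Fintype Ω] {φ : Ω → ι → ℝ} {v : Ω → ℝ}

theorem mg_restart (hv : Wt v) (r h : ℝ) {F : Ω → (ι → ℝ) → ℝ} (hF : ∀ x, MG (F x)) :
    MG fun y => slE φ (post φ v r y) h fun x z => F x (y + z) :=
  mg_mean hv r fun x => (hF x).conv (h • φ x) √h

/-- **Markov property along the localisation** -/
theorem markov_sl (hv : Wt v) (hr : 0 ≤ r) (hrt : r ≤ t) (hT : t ≤ T) (hH : W.Tm r H)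
    {F : (ι → ℝ) → ℝ} (hF : MG F) :
    ∫ ω, H ω * F (W.B t ω) ∂W.Qsl φ v T =
      ∫ ω, H ω * slE φ (post φ v r (W.B r ω)) (t - r) (fun _ z => F (W.B r ω + z)) ∂W.Qsl φ v T := by
  have ht : t ∈ Icc 0 T := ⟨hr.trans hrt, hT⟩
  have hL : MG fun y => Lsl φ v (t, y) := (dn_sl hv (ht.1.trans ht.2)).ito.eg.mg ht
  rw [int_sl_tm hv ht ((hH.mono hrt).mul (W.tm_mg ht.1 hF)), int_sl_tm hv ⟨hr, hrt.trans hT⟩
    (hH.mul (W.tm_mg hr (mg_restart hv r (t - r) fun _ => hF)))]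
  simp only [mul_assoc]
  rw [markov_mg hr hrt hH (hF.mul hL)]
  congr 1; funext ω
  congr 1
  have hF' : MG fun z => F (W.B r ω + z) := by simpa using hF.affine (W.B r ω) 1
  rw [slE_eq_ref' (sub_nonneg.2 hrt) (.of_mg fun _ => hF'), Lsl, pw, div_mul_div_cancel₀
    (hv.post φ r (W.B r ω)).pos.ne', ← integral_div]
  congr 1; funext z
  simp only [Lsl, pw, post_post, add_sub_cancel, ← Finset.sum_mul]
  ring

theorem map_B_sl (hv : Wt v) (ht : t ∈ Icc 0 T) : (W.Qsl φ v T).map (W.B t) = SL.law φ v t := by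
  have := prob_sl (W := W) (φ := φ) hv (ht.1.trans ht.2)
  have := isProb_law (φ := φ) (s := t) hv
  have := Measure.isProbabilityMeasure_map (μ := W.Qsl φ v T) (W.measurable_B t).aemeasurable
  ext A hA
  rw [← ofReal_measureReal, ← ofReal_measureReal (μ := SL.law φ v t), ← integral_indicator_one hA,
    ← integral_indicator_one hA, integral_map (W.measurable_B t).aemeasurable
      (measurable_one.indicator hA).aestronglyMeasurable,
    integral_law hv (measurable_one.indicator hA) (.of_mg fun _ => (MG.const 1).indicator hA)]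
  exact congrArg _ (int_sl hv ht ((MG.const 1).indicator hA))

theorem real_B_sl (hv : Wt v) (ht : t ∈ Icc 0 T) {A : Set (ι → ℝ)} (hA : MeasurableSet A) :
    (W.Qsl φ v T).real {ω | W.B t ω ∈ A} = (SL.law φ v t).real A := by
  rw [← map_B_sl (W := W) hv ht, map_measureReal_apply (W.measurable_B t) hA]
  rfl

end sl

end BM

end Crest.Agent.T157.Pa

end
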