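import Crest.Agent.T157.PathD_90

/-!
# Row 157, part C: the soft top of S0232 (helper90)

`s0232_of_fdd`: finite-dimensional convergence of `An`, tightness at each time and three
non-degeneracy properties (for the Gaussian couplings) give the statement S0232.
`s0232_of_res`: the same from joint convergence of the resolvent values `Rn`.
-/

set_option autoImplicit false

noncomputable section

namespace Crest.Agent.T157.Soft

open MeasureTheory Filter Topology Set BoundedContinuousFunction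
open Crest.ProbabilityR.SpinGlassDynamics
open Crest.Agent.T157

/-- finite-dimensional convergence of `An`, same limit for both coupling laws -/
def AFddStmt : Prop := ∀ φ : (Ioi (0 : ℝ) → ℝ) → ℝ, IsCyl φ → ∃ L, ∀ b,
  Tendsto (fun n => ∫ g, φ (fun s => An n g s) ∂couplingLaw b n) atTop (𝓝 L)

/-- joint convergence in law of the resolvent values, same limit for both coupling laws -/
def ResConvStmt : Prop := ∀ φ : (Ioi (0 : ℝ) → ℝ) → ℝ, IsCyl φ → ∃ L, ∀ b,
  Tendsto (fun n => ∫ g, φ (fun a => Rn n g a) ∂couplingLaw b n) atTop (𝓝 L)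

/-- tightness of `An` at every positive time -/
def ATightStmt : Prop := ∀ (b : Bool) (s ε : ℝ), 0 < s → 0 < ε → ∃ M : ℝ, ∀ᶠ n in atTop,
  couplingLaw b n {g | M < An n g s} ≤ ENNReal.ofReal ε

/-- tightness of the resolvent at `1` -/
def ResTightStmt : Prop := ∀ (b : Bool) (ε : ℝ), 0 < ε → ∃ M : ℝ, ∀ᶠ n in atTop,
  couplingLaw b n {g | M < Rn n g 1} ≤ ENNReal.ofReal ε

/-- the limit path is not zero -/
def NonzeroStmt : Prop := ∀ ε : ℝ, 0 < ε → ∃ s δ : ℝ, 0 < s ∧ 0 < δ ∧ ∃ᶠ n in atTop,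
  disorderLaw n {g | An n g s < δ} ≤ ENNReal.ofReal ε

/-- the limit path tends to zero -/
def DecayStmt : Prop := ∀ ε : ℝ, 0 < ε → ∃ s : ℝ, 0 < s ∧ ∃ᶠ n in atTop,
  disorderLaw n {g | ε < An n g s} ≤ ENNReal.ofReal ε

/-- the limit law is not a point mass -/
def SpreadStmt : Prop := ∃ s a a' c : ℝ, 0 < s ∧ a < a' ∧ 0 < c ∧
  (∃ᶠ n in atTop, ENNReal.ofReal c ≤ disorderLaw n {g | An n g s ≤ a}) ∧
  ∃ᶠ n in atTop, ENNReal.ofReal c ≤ disorderLaw n {g | a' ≤ An n g s}

/-- `An` at some time has unbounded support in the limit -/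
def UnboundedStmt : Prop := ∃ s : ℝ, 0 < s ∧ ∀ M : ℝ, ∃ c : ℝ, 0 < c ∧ ∃ᶠ n in atTop,
  ENNReal.ofReal c ≤ disorderLaw n {g | M ≤ An n g s}

theorem atight_of_res (h : ResTightStmt) : ATightStmt := by
  intro b s ε hs hε
  obtain ⟨M, hM⟩ := h b ε hε
  refine ⟨(1 + 1 / s) * M, hM.mono fun n hn => le_trans (measure_mono fun g hg => ?_) hn⟩
  have h1 := lt_of_lt_of_le hg (An_le_Rn g one_pos hs)
  exact lt_of_mul_lt_mul_left h1 (by positivity)

theorem afdd_of_res (h : ResConvStmt) (ht : ResTightStmt) : AFddStmt := by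
  intro φ hφ
  refine cyl_conv_of_approx couplingLaw (fun n g (s : Ioi (0 : ℝ)) => An n g s)
    (fun n s => (continuous_An_left _).measurable) (fun T ε hε => ?_) φ hφ
  obtain ⟨M₀, h₀⟩ := ht false ε hε
  obtain ⟨M₁, h₁⟩ := ht true ε hε
  set M := max 1 (max M₀ M₁) with hM
  have hM0 : 0 < M := lt_of_lt_of_le one_pos (le_max_left _ _)
  choose t w hw using fun s : Ioi (0 : ℝ) => An_approx (s := s) s.2 (div_pos hε hM0)
  classical
  refine ⟨fun _ n g s => if s ∈ T then ∑ α ∈ t s, w s α * Rn n g α else 0, fun _ n s => ?_,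
    fun b => ?_, fun ψ hψ => ?_⟩
  · by_cases hs : s ∈ T
    · simp only [if_pos hs]
      exact Finset.measurable_fun_sum _ fun α _ => (measurable_Rn _).const_mul _
    · simp only [if_neg hs]; exact measurable_const
  · have hb : ∀ᶠ n in atTop, couplingLaw b n {g | M < Rn n g 1} ≤ ENNReal.ofReal ε := by
      cases b
      · refine h₀.mono fun n hn => le_trans (measure_mono fun g hg => ?_) hn
        exact lt_of_le_of_lt ((le_max_left M₀ M₁).trans (le_max_right 1 _)) hg
      · refine h₁.mono fun n hn => le_trans (measure_mono fun g hg => ?_) hn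
        exact lt_of_le_of_lt ((le_max_right M₀ M₁).trans (le_max_right 1 _)) hg
    refine hb.mono fun n hn => le_trans (measure_mono ?_) hn
    rintro g ⟨s, hs, hg⟩
    simp only [if_pos hs] at hg
    have h1 := hg.trans_le (hw s n g)
    rw [div_mul_eq_mul_div, lt_div_iff₀ hM0] at h1
    exact lt_of_mul_lt_mul_left h1 hε.le
  · refine h (fun x => ψ fun s => if s ∈ T then ∑ α ∈ t s, w s α * x α else 0) ?_
    obtain ⟨u, K, hK, hb, hl⟩ := hψ
    set W : ℝ := ∑ s ∈ T, ∑ α ∈ t s, |w s α| with hW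
    have hW0 : 0 ≤ W := by positivity
    refine ⟨T.biUnion t, K * (1 + u.card * W), by positivity, fun x => (hb _).trans ?_,
      fun x y => (hl _ _).trans ?_⟩
    · exact le_mul_of_one_le_right hK (le_add_of_nonneg_right (by positivity))
    set S := ∑ α ∈ T.biUnion t, |x α - y α| with hS
    have hS0 : 0 ≤ S := by positivity
    have key : ∀ s ∈ u, |(if s ∈ T then ∑ α ∈ t s, w s α * x α else 0) -
        (if s ∈ T then ∑ α ∈ t s, w s α * y α else 0)| ≤ W * S := by
      intro s _
      by_cases hs : s ∈ T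
      · rw [if_pos hs, if_pos hs, ← Finset.sum_sub_distrib]
        refine (Finset.abs_sum_le_sum_abs _ _).trans ?_
        calc ∑ α ∈ t s, |w s α * x α - w s α * y α| ≤ ∑ α ∈ t s, |w s α| * S := by
              refine Finset.sum_le_sum fun α hα => ?_
              rw [← mul_sub, abs_mul]
              refine mul_le_mul_of_nonneg_left ?_ (abs_nonneg _)
              exact Finset.single_le_sum (f := fun α => |x α - y α|) (fun _ _ => abs_nonneg _)
                (Finset.mem_biUnion.2 ⟨s, hs, hα⟩)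
          _ ≤ W * S := by
              rw [← Finset.sum_mul]
              refine mul_le_mul_of_nonneg_right ?_ hS0
              exact Finset.single_le_sum (f := fun s => ∑ α ∈ t s, |w s α|)
                (fun _ _ => by positivity) hs
      · rw [if_neg hs, if_neg hs, sub_self, abs_zero]; positivity
    rw [mul_assoc]
    refine mul_le_mul_of_nonneg_left ?_ hK
    refine (Finset.sum_le_card_nsmul u _ _ key).trans ?_
    rw [nsmul_eq_mul]
    nlinarith

theorem spread_of_unbounded (ht : ATightStmt) (h : UnboundedStmt) : SpreadStmt := by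
  obtain ⟨s, hs, h⟩ := h
  obtain ⟨M, hM⟩ := ht false s (1 / 2) hs (by norm_num)
  obtain ⟨c, hc, hc'⟩ := h (M + 1)
  refine ⟨s, M, M + 1, min c (1 / 2), hs, by linarith, by positivity,
    (hM.mono fun n hn => ?_).frequently, hc'.mono fun n hn =>
      le_trans (ENNReal.ofReal_le_ofReal (min_le_left _ _)) hn⟩
  refine le_trans (ENNReal.ofReal_le_ofReal (min_le_right _ _)) ?_
  have hm : MeasurableSet {g : Pair n → ℝ | M < An n g s} :=
    measurableSet_lt measurable_const (continuous_An_left s).measurable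
  have e : {g : Pair n → ℝ | An n g s ≤ M} = {g | M < An n g s}ᶜ := by ext g; simp
  rw [e, prob_compl_eq_one_sub hm]
  refine ENNReal.le_sub_of_add_le_right (measure_ne_top _ _) ?_
  calc ENNReal.ofReal (1 / 2) + disorderLaw n {g | M < An n g s}
      ≤ ENNReal.ofReal (1 / 2) + ENNReal.ofReal (1 / 2) := add_le_add le_rfl hn
    _ = 1 := by rw [← ENNReal.ofReal_add (by norm_num) (by norm_num)]; norm_num

/-- compact exhaustion of `(0, ∞)` -/
def Kx (j : ℕ) : Set (Ioi (0 : ℝ)) := {s | 1 / ((j : ℝ) + 1) ≤ s.1 ∧ s.1 ≤ j + 1}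

lemma isCompact_sub_Icc {a : ℝ} (ha : 0 < a) (b : ℝ) :
    IsCompact {s : Ioi (0 : ℝ) | a ≤ s.1 ∧ s.1 ≤ b} := by
  rw [Subtype.isCompact_iff]
  convert isCompact_Icc (a := a) (b := b) using 1
  ext x
  constructor
  · rintro ⟨s, hs, rfl⟩; exact hs
  · intro hx; exact ⟨⟨x, ha.trans_le hx.1⟩, hx, rfl⟩

lemma isCompact_Kx (j : ℕ) : IsCompact (Kx j) := isCompact_sub_Icc Nat.one_div_pos_of_nat _

lemma Kx_eventually (x : Ioi (0 : ℝ)) : ∀ᶠ j in atTop, Kx j ∈ 𝓝 x := by
  have h1 : ∀ᶠ j : ℕ in atTop, 1 / ((j : ℝ) + 1) < x.1 :=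
    tendsto_one_div_add_atTop_nhds_zero_nat.eventually (gt_mem_nhds x.2)
  have h2 : ∀ᶠ j : ℕ in atTop, x.1 < (j : ℝ) + 1 :=
    (tendsto_atTop_add_const_right _ 1 tendsto_natCast_atTop_atTop).eventually_gt_atTop x.1
  filter_upwards [h1, h2] with j hj hj'
  exact continuous_subtype_val.continuousAt.preimage_mem_nhds (Icc_mem_nhds hj hj')

/-- the laws of the paths `An` are tight -/
theorem isTight_toPath (ht : ATightStmt) (b : Bool) :
    IsTightMeasureSet {(couplingLaw b n).map (toPath n) | n} := by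
  let _ : MeasurableSpace C(Ioi (0 : ℝ), ℝ) := (inferInstance : MeasurableSpace Path)
  have : BorelSpace C(Ioi (0 : ℝ), ℝ) := (inferInstance : BorelSpace Path)
  have key : ∀ (n : ℕ) (S : Set Path), IsOpen S →
      (couplingLaw b n).map (toPath n) S = couplingLaw b n (toPath n ⁻¹' S) := fun n S hS =>
    Measure.map_apply measurable_toPath hS.measurableSet
  let μ : ℕ → Measure C(Ioi (0 : ℝ), ℝ) := fun n => (couplingLaw b n).map (toPath n)
  have : ∀ n, IsFiniteMeasure (μ n) := fun n =>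
    (inferInstance : IsFiniteMeasure ((couplingLaw b n).map (toPath n)))
  refine isTight_of_modulus Kx isCompact_Kx (fun x => (Kx_eventually x).exists) μ
    (fun j ε hε => ?_) (fun j η ε hη hε => ?_)
  · obtain ⟨ε', -, hε', hle⟩ := ENNReal.lt_iff_exists_real_btwn.1 hε
    obtain ⟨M, hM⟩ := ht b (1 / ((j : ℝ) + 1)) ε' Nat.one_div_pos_of_nat
      (ENNReal.ofReal_pos.1 hε')
    refine ⟨M, hM.mono fun n hn => (key n _ ?_).trans_le ?_⟩
    swap
    · refine le_trans (measure_mono ?_) (hn.trans hle.le)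
      rintro g ⟨x, hx, h⟩
      have h' : M < |An n g x| := h
      rw [abs_of_nonneg (An_nonneg g _)] at h'
      exact h'.trans_le (An_anti g hx.1)
    · change IsOpen {f : C(Ioi (0 : ℝ), ℝ) | ∃ x ∈ Kx j, M < |f x|}
      simp only [ofPred_exists, ofPred_and]
      exact isOpen_iUnion fun x => isOpen_const.inter (isOpen_lt (by fun_prop) (by fun_prop))
  · obtain ⟨ε', -, hε', hle⟩ := ENNReal.lt_iff_exists_real_btwn.1 hε
    have ha : (0 : ℝ) < 1 / ((j : ℝ) + 1) := Nat.one_div_pos_of_nat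
    set a : ℝ := 1 / ((j : ℝ) + 1)
    obtain ⟨M, hM⟩ := ht b (a / 2) ε' (by positivity) (ENNReal.ofReal_pos.1 hε')
    have hM1 : 0 < max M 1 := lt_of_lt_of_le one_pos (le_max_right _ _)
    refine ⟨η / (2 / a * max M 1), by positivity, hM.mono fun n hn => (key n _ ?_).trans_le ?_⟩
    swap
    · refine le_trans (measure_mono ?_) (hn.trans hle.le)
      rintro g ⟨x, hx, y, hy, hd, h⟩
      have h' : η < |An n g x - An n g y| := h
      by_contra hcon
      have h1 : An n g (a / 2) ≤ max M 1 := (not_lt.1 hcon).trans (le_max_left _ _)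
      have h2 := An_lip g ha hx.1 hy.1
      have h3 : |x.1 - y.1| < η / (2 / a * max M 1) := hd
      rw [lt_div_iff₀ (by positivity)] at h3
      have h4 : 2 / a * An n g (a / 2) * |x.1 - y.1| ≤ 2 / a * max M 1 * |x.1 - y.1| := by gcongr
      linarith
    · change IsOpen {f : C(Ioi (0 : ℝ), ℝ) | ∃ x ∈ Kx j, ∃ y ∈ Kx j, dist x y < _ ∧ η < |f x - f y|}
      simp only [ofPred_exists, ofPred_and]
      exact isOpen_iUnion fun x => isOpen_const.inter (isOpen_iUnion fun y => isOpen_const.inter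
        (isOpen_const.inter (isOpen_lt (by fun_prop) (by fun_prop))))

/-- portmanteau along a subsequence, open sets -/
lemma measure_open_le {X : Type*} [TopologicalSpace X] [PolishSpace X] [MeasurableSpace X]
    [BorelSpace X] {μ : ℕ → ProbabilityMeasure X} {Q : ProbabilityMeasure X}
    (h : Tendsto μ atTop (𝓝 Q)) {S : Set X} (hS : IsOpen S) {c : ENNReal}
    (hc : ∃ᶠ n in atTop, (μ n : Measure X) S ≤ c) : (Q : Measure X) S ≤ c := by
  let _ := TopologicalSpace.upgradeIsCompletelyMetrizable X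
  exact (ProbabilityMeasure.le_liminf_measure_open_of_tendsto h hS).trans
    (liminf_le_of_frequently_le hc)

/-- portmanteau along a subsequence, closed sets -/
lemma le_measure_closed {X : Type*} [TopologicalSpace X] [PolishSpace X] [MeasurableSpace X]
    [BorelSpace X] {μ : ℕ → ProbabilityMeasure X} {Q : ProbabilityMeasure X}
    (h : Tendsto μ atTop (𝓝 Q)) {S : Set X} (hS : IsClosed S) {c : ENNReal}
    (hc : ∃ᶠ n in atTop, c ≤ (μ n : Measure X) S) : c ≤ (Q : Measure X) S := by
  let _ := TopologicalSpace.upgradeIsCompletelyMetrizable X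
  exact (le_limsup_of_frequently_le hc).trans
    (ProbabilityMeasure.limsup_measure_closed_le_of_tendsto h hS)

lemma continuous_path_eval (s : Ioi (0 : ℝ)) : Continuous fun f : Path => f s :=
  continuous_eval_const (F := C(Ioi (0 : ℝ), ℝ)) s

/-- the law of `toPath n` -/
def lawA (b : Bool) (n : ℕ) : ProbabilityMeasure Path :=
  ⟨(couplingLaw b n).map (toPath n), Measure.isProbabilityMeasure_map measurable_toPath.aemeasurable⟩

lemma lawA_apply (b : Bool) (n : ℕ) {S : Set Path} (hS : MeasurableSet S) :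
    (lawA b n : Measure Path) S = couplingLaw b n (toPath n ⁻¹' S) :=
  Measure.map_apply measurable_toPath hS

lemma eq_zero_of_forall_le {x : ENNReal} (h : ∀ ε : ℝ, 0 < ε → x ≤ ENNReal.ofReal ε) : x = 0 := by
  refine le_antisymm (ENNReal.le_of_forall_pos_le_add fun ε hε _ => ?_) bot_le
  simpa using h ε hε

/-- **S0232 from finite-dimensional convergence.** -/
theorem s0232_of_fdd (h1 : AFddStmt) (h2 : ATightStmt) (h3 : NonzeroStmt) (h4 : DecayStmt)
    (h5 : SpreadStmt) :
    ∃ Q : Measure Path, IsProbabilityMeasure Q ∧ (¬ ∃ f : Path, Q = Measure.dirac f) ∧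
      (∀ᶠ f in ae Q, (∀ s, 0 ≤ f s) ∧ (∃ s, f s ≠ 0) ∧ (∀ s s', s ≤ s' → f s' ≤ f s) ∧
        Tendsto (fun s => f s) atTop (𝓝 0)) ∧
      ∀ (b : Bool) (F : Path →ᵇ ℝ),
        Tendsto (fun n : ℕ => ∫ g, F (toPath n g) ∂(couplingLaw b n)) atTop (𝓝 (∫ f, F f ∂Q)) := by
  obtain ⟨Q, hQ⟩ := exists_weak_limit (fun (f : Path) (s : Ioi (0 : ℝ)) => f s) continuous_path_eval
    DFunLike.coe_injective lawA (isTight_toPath h2) fun φ hφ => by
      obtain ⟨L, hL⟩ := h1 φ hφ
      refine ⟨L, fun b => (hL b).congr fun n => ?_⟩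
      exact (integral_map measurable_toPath.aemeasurable
        (hφ.continuous.comp (continuous_pi continuous_path_eval)).aestronglyMeasurable).symm
  have hopen : ∀ (S : Set Path) (c : ENNReal), IsOpen S →
      (∃ᶠ n in atTop, disorderLaw n (toPath n ⁻¹' S) ≤ c) → (Q : Measure Path) S ≤ c :=
    fun S c hS hc => measure_open_le (hQ false) hS
      (hc.mono fun n hn => by rw [lawA_apply _ _ hS.measurableSet]; exact hn)
  have hclosed : ∀ (S : Set Path) (c : ENNReal), IsClosed S →
      (∃ᶠ n in atTop, c ≤ disorderLaw n (toPath n ⁻¹' S)) → c ≤ (Q : Measure Path) S :=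
    fun S c hS hc => le_measure_closed (hQ false) hS
      (hc.mono fun n hn => by rw [lawA_apply _ _ hS.measurableSet]; exact hn)
  have hmono : ∀ᵐ f ∂(Q : Measure Path), (∀ s, 0 ≤ f s) ∧ ∀ s s', s ≤ s' → f s' ≤ f s := by
    rw [ae_iff]
    refine le_antisymm (hopen _ 0 ?_ (Eventually.of_forall fun n => ?_).frequently) bot_le
    · refine IsClosed.isOpen_compl (s := {f : Path | (∀ s, 0 ≤ f s) ∧ ∀ s s', s ≤ s' → f s' ≤ f s})
        (self := ?_)
      simp only [ofPred_and, ofPred_forall]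
      exact (isClosed_iInter fun s => isClosed_le continuous_const (continuous_path_eval s)).inter
        (isClosed_iInter fun s => isClosed_iInter fun s' => isClosed_iInter fun _ =>
          isClosed_le (continuous_path_eval s') (continuous_path_eval s))
    · refine le_of_eq (measure_mono_null (t := ∅) (fun g hg => hg ?_) measure_empty)
      exact ⟨fun s => An_nonneg g s, fun s s' h => An_anti g h⟩
  have hne : ∀ᵐ f ∂(Q : Measure Path), ∃ s, f s ≠ 0 := by
    rw [ae_iff]
    refine eq_zero_of_forall_le fun ε hε => ?_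
    obtain ⟨s, δ, hs, hδ, h⟩ := h3 ε hε
    refine le_trans (measure_mono fun f hf => ?_) (hopen {f | f ⟨s, hs⟩ < δ} _
      (isOpen_lt (continuous_path_eval _) continuous_const) h)
    simp only [ne_eq, not_exists, not_not, mem_ofPred_eq] at hf ⊢
    rw [hf]; exact hδ
  have hdec : ∀ᵐ f ∂(Q : Measure Path), ∀ k : ℕ, ∃ s, f s ≤ 1 / ((k : ℝ) + 1) := by
    rw [ae_all_iff]
    intro k
    rw [ae_iff]
    refine eq_zero_of_forall_le fun ε hε => ?_
    have hk : (0 : ℝ) < 1 / ((k : ℝ) + 1) := Nat.one_div_pos_of_nat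
    obtain ⟨s, hs, h⟩ := h4 (min ε (1 / ((k : ℝ) + 1))) (lt_min hε hk)
    refine le_trans (measure_mono fun f hf => ?_) ((hopen {f | min ε (1 / ((k : ℝ) + 1)) < f ⟨s, hs⟩}
      _ (isOpen_lt continuous_const (continuous_path_eval _)) h).trans
        (ENNReal.ofReal_le_ofReal (min_le_left _ _)))
    simp only [not_exists, not_le, mem_ofPred_eq] at hf ⊢
    exact (min_le_right _ _).trans_lt (hf _)
  refine ⟨Q, inferInstance, ?_, ?_, fun b F => ?_⟩
  · rintro ⟨f, hf⟩
    obtain ⟨s, a, a', c, hs, haa, hc, hl, hu⟩ := h5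
    have e1 := hclosed {f | f ⟨s, hs⟩ ≤ a} _ (isClosed_le (continuous_path_eval _) continuous_const) hl
    have e2 := hclosed {f | a' ≤ f ⟨s, hs⟩} _ (isClosed_le continuous_const (continuous_path_eval _)) hu
    have hc' : ENNReal.ofReal c ≠ 0 := (ENNReal.ofReal_pos.2 hc).ne'
    rw [hf] at e1 e2
    have key : ∀ S : Set Path, IsClosed S → ENNReal.ofReal c ≤ Measure.dirac f S → f ∈ S := by
      intro S hS h
      by_contra hf
      rw [Measure.dirac_apply' _ hS.measurableSet, indicator_of_notMem hf] at h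
      exact hc' (le_antisymm h bot_le)
    have k1 := key _ (isClosed_le (continuous_path_eval _) continuous_const) e1
    have k2 := key _ (isClosed_le continuous_const (continuous_path_eval _)) e2
    exact absurd (le_trans k2 k1) (not_le.2 haa)
  · filter_upwards [hmono, hne, hdec] with f hf hf' hf''
    refine ⟨hf.1, hf', hf.2, ?_⟩
    rw [Metric.tendsto_atTop]
    intro ε hε
    obtain ⟨k, hk⟩ := exists_nat_one_div_lt hε
    obtain ⟨s, hs⟩ := hf'' k
    refine ⟨s, fun s' hs' => ?_⟩
    rw [Real.dist_eq, sub_zero, abs_of_nonneg (hf.1 s')]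
    exact ((hf.2 s s' hs').trans hs).trans_lt hk
  · refine ((ProbabilityMeasure.tendsto_iff_forall_integral_tendsto.1 (hQ b)) F).congr fun n => ?_
    exact integral_map measurable_toPath.aemeasurable F.continuous.aestronglyMeasurable

/-- **S0232 from resolvent convergence.** -/
theorem s0232_of_res (h1 : ResConvStmt) (h2 : ResTightStmt) (h3 : NonzeroStmt) (h4 : DecayStmt)
    (h5 : SpreadStmt) :
    ∃ Q : Measure Path, IsProbabilityMeasure Q ∧ (¬ ∃ f : Path, Q = Measure.dirac f) ∧
      (∀ᶠ f in ae Q, (∀ s, 0 ≤ f s) ∧ (∃ s, f s ≠ 0) ∧ (∀ s s', s ≤ s' → f s' ≤ f s) ∧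
        Tendsto (fun s => f s) atTop (𝓝 0)) ∧
      ∀ (b : Bool) (F : Path →ᵇ ℝ),
        Tendsto (fun n : ℕ => ∫ g, F (toPath n g) ∂(couplingLaw b n)) atTop (𝓝 (∫ f, F f ∂Q)) :=
  s0232_of_fdd (afdd_of_res h1 h2) (atight_of_res h2) h3 h4 h5

end Crest.Agent.T157.Soft

end
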