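import Crest.Agent.T157.Weak_90
import Crest.Agent.T157.Bar_33

/-!
# Row 157, part C: the rescaled autocorrelations as random paths (helper90)

`An`, `Bn` (rescaled stationary and quench autocorrelations as plain real functions), `Rn` (Laplace
transform of `An` = rescaled resolvent trace), continuity in the couplings, measurability of
`toPath`, `toPathPair`, spectral form of `An` and `Rn`, variational formula for `Rn`, elementary
bounds (monotonicity, Lipschitz bound, Jensen lower bound, decay from a Poincaré inequality).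
-/

set_option autoImplicit false

noncomputable section

namespace Crest.Agent.T157.Soft

open MeasureTheory Filter Topology Set Matrix
open Crest.ProbabilityR.SpinGlassDynamics
open Crest.Agent.T157

/-- rescaled stationary autocorrelation -/
def An (n : ℕ) (g : Pair n → ℝ) (s : ℝ) : ℝ :=
  (n : ℝ) ^ (1 / 3 : ℝ) * autocorr n g (s * (n : ℝ) ^ (2 / 3 : ℝ))

/-- rescaled quench autocorrelation -/
def Bn (n : ℕ) (g : Pair n → ℝ) (s t : ℝ) : ℝ :=
  (n : ℝ) ^ (1 / 3 : ℝ) * quenchCorr n g (s * (n : ℝ) ^ (2 / 3 : ℝ)) (t * (n : ℝ) ^ (2 / 3 : ℝ))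

/-- rescaled resolvent trace `n^{-2/3} ∑ᵢ ⟨σᵢ, (a - n^{2/3} L)⁻¹ σᵢ⟩`, as a Laplace transform -/
def Rn (n : ℕ) (g : Pair n → ℝ) (a : ℝ) : ℝ := ∫ s in Ioi (0 : ℝ), Real.exp (-(a * s)) * An n g s

variable {n : ℕ}

lemma toPath_apply (g : Pair n → ℝ) (s : Ioi (0 : ℝ)) : toPath n g s = An n g s := rfl
lemma autocorrPath_apply (g : Pair n → ℝ) (s : Ioi (0 : ℝ)) : autocorrPath n g s = An n g s := rfl
lemma quenchPath_apply (g : Pair n → ℝ) (p : Ioi (0 : ℝ) × Ioi (0 : ℝ)) :
    quenchPath n g p = Bn n g p.1 p.2 := rfl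

/-! ### continuity in the couplings -/

lemma continuous_gibbsWeight (β : ℝ) (x : E.Cube n) :
    Continuous fun g : Pair n → ℝ => gibbsWeight n β g x := by
  unfold gibbsWeight; fun_prop

lemma continuous_gibbsProb (β : ℝ) (x : E.Cube n) :
    Continuous fun g : Pair n → ℝ => gibbsProb n β g x :=
  (continuous_gibbsWeight β x).div (continuous_finsetSum _ fun y _ => continuous_gibbsWeight β y)
    fun g => (Finset.sum_pos (fun y _ => E.gibbsWeight_pos β g y) Finset.univ_nonempty).ne'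

lemma continuous_heatBathKernel (β : ℝ) (x y : E.Cube n) :
    Continuous fun g : Pair n → ℝ => heatBathKernel n β g x y := by
  unfold heatBathKernel
  refine continuous_const.mul (continuous_finsetSum _ fun i _ => ?_)
  split_ifs
  · exact (continuous_gibbsWeight β y).div
      ((continuous_gibbsWeight β _).add (continuous_gibbsWeight β _))
      fun g => (add_pos (E.gibbsWeight_pos β g _) (E.gibbsWeight_pos β g _)).ne'
  · exact continuous_const

lemma continuous_kernelPow (β : ℝ) (k : ℕ) (x y : E.Cube n) :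
    Continuous fun g : Pair n → ℝ => kernelPow n β g k x y := by
  induction k generalizing y with
  | zero => exact continuous_const
  | succ k ih =>
    exact continuous_finsetSum _ fun z _ => (ih z).mul (continuous_heatBathKernel β z y)

lemma abs_kernelPow_le_one (β : ℝ) (g : Pair n → ℝ) (k : ℕ) (x y : E.Cube n) :
    |kernelPow n β g k x y| ≤ 1 := by
  rcases Nat.eq_zero_or_pos n with rfl | hn
  · cases k with
    | zero => simp only [kernelPow]; split_ifs <;> simp
    | succ k => simp [kernelPow, heatBathKernel]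
  · rw [E.kernelPow_eq, Bar.hbPow_eq hn (E.gibbsWeight_pos β g),
      abs_of_nonneg ((Bar.rc hn _).pow_nn k x y)]
    exact (Bar.rc hn _).pow_le_one k x y

lemma continuous_poisson_tsum {X : Type*} [TopologicalSpace X] {F : ℕ → X → ℝ} {t : X → ℝ}
    (hF : ∀ k, Continuous (F k)) (hb : ∀ k z, |F k z| ≤ 1) (ht : Continuous t) :
    Continuous fun z => ∑' k : ℕ, Real.exp (-t z) * t z ^ k / (k.factorial : ℝ) * F k z := by
  rw [continuous_iff_continuousAt]
  intro p
  set T := |t p| + 1 with hT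
  have ho : IsOpen {q | |t q| < T} := isOpen_lt (by fun_prop) continuous_const
  refine ContinuousOn.continuousAt (s := {q | |t q| < T}) ?_ (ho.mem_nhds (by simp [hT]))
  refine continuousOn_tsum (u := fun k : ℕ => Real.exp T * (T ^ k / (k.factorial : ℝ)))
    (fun k => ?_) ((Real.summable_pow_div_factorial _).mul_left _) (fun k z hz => ?_)
  · have := hF k
    fun_prop
  · have hz' : |t z| ≤ T := le_of_lt hz
    rw [Real.norm_eq_abs, abs_mul, abs_div, abs_mul, Nat.abs_cast, abs_pow,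
      abs_of_pos (Real.exp_pos _)]
    have h1 : Real.exp (-t z) ≤ Real.exp T := Real.exp_le_exp.2 ((neg_le_abs _).trans hz')
    calc Real.exp (-t z) * |t z| ^ k / (k.factorial : ℝ) * |F k z|
        ≤ Real.exp T * T ^ k / (k.factorial : ℝ) * 1 := by
          gcongr
          exact hb k z
      _ = _ := by ring

lemma continuous_ctKernel' {X : Type*} [TopologicalSpace X] {G : X → Pair n → ℝ} {t : X → ℝ}
    (hG : Continuous G) (ht : Continuous t) (β : ℝ) (x y : E.Cube n) :
    Continuous fun z => ctKernel n β (G z) (t z) x y :=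
  continuous_poisson_tsum (F := fun k z => kernelPow n β (G z) k x y) (t := fun z => n * t z)
    (fun k => (continuous_kernelPow β k x y).comp hG) (fun k _ => abs_kernelPow_le_one β _ k x y)
    (ht.const_mul _)

lemma continuous_ctKernel (β : ℝ) (x y : E.Cube n) :
    Continuous fun p : (Pair n → ℝ) × ℝ => ctKernel n β p.1 p.2 x y :=
  continuous_ctKernel' continuous_fst continuous_snd β x y

lemma continuous_An : Continuous fun p : (Pair n → ℝ) × ℝ => An n p.1 p.2 := by
  have h1 : ∀ x, Continuous fun p : (Pair n → ℝ) × ℝ => gibbsProb n 1 p.1 x := fun x =>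
    (continuous_gibbsProb 1 x).comp continuous_fst
  have h2 : ∀ x y, Continuous fun p : (Pair n → ℝ) × ℝ =>
      ctKernel n 1 p.1 (p.2 * (n : ℝ) ^ (2 / 3 : ℝ)) x y := fun x y =>
    continuous_ctKernel' continuous_fst (continuous_snd.mul continuous_const) 1 x y
  unfold An autocorr
  fun_prop

lemma continuous_Bn : Continuous fun p : (Pair n → ℝ) × ℝ × ℝ => Bn n p.1 p.2.1 p.2.2 := by
  have h1 : ∀ x y, Continuous fun p : (Pair n → ℝ) × ℝ × ℝ =>
      ctKernel n 1 p.1 (p.2.1 * (n : ℝ) ^ (2 / 3 : ℝ)) x y := fun x y =>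
    continuous_ctKernel' continuous_fst (continuous_snd.fst.mul continuous_const) 1 x y
  have h2 : ∀ x y, Continuous fun p : (Pair n → ℝ) × ℝ × ℝ =>
      ctKernel n 1 p.1 (p.2.2 * (n : ℝ) ^ (2 / 3 : ℝ)) x y := fun x y =>
    continuous_ctKernel' continuous_fst (continuous_snd.snd.mul continuous_const) 1 x y
  have h3 : ∀ (i : Fin n) (x y z : E.Cube n), Continuous fun p : (Pair n → ℝ) × ℝ × ℝ =>
      (Fintype.card (Fin n → Bool) : ℝ)⁻¹ * ctKernel n 1 p.1 (p.2.1 * (n : ℝ) ^ (2 / 3 : ℝ)) x y *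
        ctKernel n 1 p.1 (p.2.2 * (n : ℝ) ^ (2 / 3 : ℝ)) y z * spin (y i) * spin (z i) :=
    fun i x y z => ((((h1 x y).const_mul _).mul (h2 y z)).mul_const _).mul_const _
  unfold Bn quenchCorr
  exact ((continuous_finsetSum _ fun i _ => continuous_finsetSum _ fun x _ =>
    continuous_finsetSum _ fun y _ => continuous_finsetSum _ fun z _ =>
      h3 i x y z).const_mul _).const_mul _

lemma continuous_An_left (s : ℝ) : Continuous fun g : Pair n → ℝ => An n g s :=
  continuous_An.comp (f := fun g : Pair n → ℝ => (g, s)) (by fun_prop)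

lemma continuous_An_right (g : Pair n → ℝ) : Continuous fun s => An n g s :=
  continuous_An.comp (f := fun s : ℝ => (g, s)) (by fun_prop)

lemma continuous_Bn_left (s t : ℝ) : Continuous fun g : Pair n → ℝ => Bn n g s t :=
  continuous_Bn.comp (f := fun g : Pair n → ℝ => (g, s, t)) (by fun_prop)

lemma continuous_autocorrPath : Continuous (autocorrPath n) :=
  ContinuousMap.continuous_of_continuous_uncurry _
    (continuous_An.comp (f := fun p : (Pair n → ℝ) × Ioi (0 : ℝ) => (p.1, p.2.1)) (by fun_prop))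

lemma continuous_quenchPath : Continuous (quenchPath n) :=
  ContinuousMap.continuous_of_continuous_uncurry _
    (continuous_Bn.comp
      (f := fun p : (Pair n → ℝ) × Ioi (0 : ℝ) × Ioi (0 : ℝ) => (p.1, p.2.1.1, p.2.2.1))
      (by fun_prop))

lemma continuous_toPath : Continuous (toPath n) := continuous_autocorrPath

lemma continuous_toPathPair : Continuous (toPathPair n) :=
  continuous_autocorrPath.prodMk continuous_quenchPath

lemma measurable_toPath : Measurable (toPath n) := continuous_toPath.measurable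

lemma measurable_toPathPair : Measurable (toPathPair n) := continuous_toPathPair.measurable

lemma measurable_Rn (a : ℝ) : Measurable fun g : Pair n → ℝ => Rn n g a := by
  have h : Continuous fun p : (Pair n → ℝ) × ℝ => Real.exp (-(a * p.2)) * An n p.1 p.2 :=
    Continuous.mul (by fun_prop) continuous_An
  exact (h.stronglyMeasurable.integral_prod_right' (ν := volume.restrict (Ioi 0))).measurable

instance : LocallyCompactSpace (Ioi (0 : ℝ)) := isOpen_Ioi.locallyCompactSpace

instance : PolishSpace Path := inferInstanceAs (PolishSpace C(Ioi (0 : ℝ), ℝ))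

instance : PolishSpace PathPair :=
  inferInstanceAs (PolishSpace (C(Ioi (0 : ℝ), ℝ) × C(Ioi (0 : ℝ) × Ioi (0 : ℝ), ℝ)))

/-! ### spectral form -/

/-- the heat-bath chain of the critical SK weight -/
abbrev ch (hn : 0 < n) (g : Pair n → ℝ) : Chain22.RC (E.Cube n) :=
  Bar.rc hn (E.gibbsWeight_pos 1 g)

/-- the spin at site `i` -/
def sp (i : Fin n) : E.Cube n → ℝ := fun x => spin (x i)

lemma rpow_third (hn : 0 < n) : (n : ℝ) ^ (1 / 3 : ℝ) * (1 / n) = ((n : ℝ) ^ (2 / 3 : ℝ))⁻¹ := by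
  have h : (0 : ℝ) < n := by exact_mod_cast hn
  have h1 : (n : ℝ) ^ (1 / 3 : ℝ) * (n : ℝ) ^ (2 / 3 : ℝ) = n := by
    rw [← Real.rpow_add h]; norm_num
  have h2 : (0 : ℝ) < (n : ℝ) ^ (2 / 3 : ℝ) := by positivity
  field_simp
  exact h1

lemma An_eq_ip (hn : 0 < n) (g : Pair n → ℝ) (s : ℝ) :
    An n g s = ((n : ℝ) ^ (2 / 3 : ℝ))⁻¹ * ∑ i, Chain22.ip (ch hn g).π (sp i)
      ((ch hn g).H (n * (s * (n : ℝ) ^ (2 / 3 : ℝ))) *ᵥ sp i) := by
  rw [An, autocorr, ← mul_assoc, rpow_third hn]
  congr 1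
  refine Finset.sum_congr rfl fun i _ => Finset.sum_congr rfl fun x _ => ?_
  simp only [mulVec, dotProduct, Finset.mul_sum, E.ctKernel_eq,
    Bar.hbCt_eq hn (E.gibbsWeight_pos 1 g), sp]
  refine Finset.sum_congr rfl fun y _ => ?_
  have : gibbsProb n 1 g x = (ch hn g).π x := rfl
  rw [this]
  ring

/-- spectral weights of `An` -/
def cA (hn : 0 < n) (g : Pair n → ℝ) (j : E.Cube n) : ℝ :=
  ((n : ℝ) ^ (2 / 3 : ℝ))⁻¹ * ∑ i, Chain22.ip (ch hn g).π (sp i) ((ch hn g).φ j) ^ 2

/-- rescaled eigenvalues of the generator -/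
def lA (hn : 0 < n) (g : Pair n → ℝ) (j : E.Cube n) : ℝ :=
  (n : ℝ) ^ (2 / 3 : ℝ) * (n * (1 - (ch hn g).ev j))

lemma cA_nonneg (hn : 0 < n) (g : Pair n → ℝ) (j : E.Cube n) : 0 ≤ cA hn g j := by
  unfold cA; positivity

lemma lA_nonneg (hn : 0 < n) (g : Pair n → ℝ) (j : E.Cube n) : 0 ≤ lA hn g j := by
  have := sub_nonneg.2 ((ch hn g).ev_le_one j)
  unfold lA; positivity

lemma An_eq_sum (hn : 0 < n) (g : Pair n → ℝ) (s : ℝ) :
    An n g s = ∑ j, cA hn g j * Real.exp (-(s * lA hn g j)) := by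
  rw [An_eq_ip hn]
  simp only [Chain22.RC.ip_H_spec, cA, lA, mul_assoc, ← Finset.mul_sum]
  congr 1
  rw [Finset.sum_comm]
  refine Finset.sum_congr rfl fun j _ => ?_
  rw [Finset.sum_mul]
  refine Finset.sum_congr rfl fun i _ => ?_
  rw [sq, mul_comm]
  congr 3
  ring

lemma integral_exp_sum {J : Type*} [Fintype J] (c lam : J → ℝ) (hl : ∀ j, 0 ≤ lam j) {a : ℝ}
    (ha : 0 < a) : ∫ s in Ioi (0 : ℝ), Real.exp (-(a * s)) * ∑ j, c j * Real.exp (-(s * lam j)) =
      ∑ j, c j / (a + lam j) := by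
  have e : ∀ s : ℝ, Real.exp (-(a * s)) * ∑ j, c j * Real.exp (-(s * lam j)) =
      ∑ j, c j * Real.exp (-(a + lam j) * s) := fun s => by
    rw [Finset.mul_sum]
    refine Finset.sum_congr rfl fun j _ => ?_
    rw [mul_left_comm, ← Real.exp_add]
    congr 2; ring
  simp_rw [e]
  rw [integral_finsetSum _ fun j _ =>
    (exp_neg_integrableOn_Ioi 0 (add_pos_of_pos_of_nonneg ha (hl j))).const_mul (c j)]
  refine Finset.sum_congr rfl fun j _ => ?_
  have h : -(a + lam j) < 0 := by linarith [hl j]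
  rw [integral_const_mul, integral_exp_mul_Ioi h]
  simp only [mul_zero, Real.exp_zero]
  rw [neg_div_neg_eq, mul_one_div]

lemma Rn_eq_sum (hn : 0 < n) (g : Pair n → ℝ) {a : ℝ} (ha : 0 < a) :
    Rn n g a = ∑ j, cA hn g j / (a + lA hn g j) := by
  simp only [Rn, An_eq_sum hn]
  exact integral_exp_sum _ _ (lA_nonneg hn g) ha

lemma An_zero (g : Pair 0 → ℝ) (s : ℝ) : An 0 g s = 0 := by simp [An, autocorr]

/-- `An` is a finite positive combination of exponentials and `Rn` its Laplace transform -/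
theorem An_spec (g : Pair n → ℝ) : ∃ c lam : E.Cube n → ℝ, (∀ j, 0 ≤ c j) ∧ (∀ j, 0 ≤ lam j) ∧
    (∀ s, An n g s = ∑ j, c j * Real.exp (-(s * lam j))) ∧
    ∀ a, 0 < a → Rn n g a = ∑ j, c j / (a + lam j) := by
  rcases Nat.eq_zero_or_pos n with rfl | hn
  · exact ⟨0, 0, fun _ => le_rfl, fun _ => le_rfl, fun s => by simp [An_zero],
      fun a _ => by simp [Rn, An_zero]⟩
  · exact ⟨_, _, cA_nonneg hn g, lA_nonneg hn g, An_eq_sum hn g, fun a => Rn_eq_sum hn g⟩

lemma An_nonneg (g : Pair n → ℝ) (s : ℝ) : 0 ≤ An n g s := by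
  obtain ⟨c, lam, hc, -, h, -⟩ := An_spec g
  rw [h]
  exact Finset.sum_nonneg fun j _ => mul_nonneg (hc j) (Real.exp_pos _).le

lemma Rn_nonneg (g : Pair n → ℝ) (a : ℝ) : 0 ≤ Rn n g a :=
  integral_nonneg fun s => mul_nonneg (Real.exp_pos _).le (An_nonneg g s)

lemma An_anti (g : Pair n → ℝ) : Antitone (An n g) := by
  obtain ⟨c, lam, hc, hl, h, -⟩ := An_spec g
  intro s t hst
  rw [h, h]
  refine Finset.sum_le_sum fun j _ => mul_le_mul_of_nonneg_left (Real.exp_le_exp.2 ?_) (hc j)
  nlinarith [hl j]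

/-- Lipschitz bound away from `0` -/
lemma An_lip (g : Pair n → ℝ) {a s t : ℝ} (ha : 0 < a) (hs : a ≤ s) (ht : a ≤ t) :
    |An n g s - An n g t| ≤ 2 / a * An n g (a / 2) * |s - t| := by
  wlog hst : s ≤ t generalizing s t
  · rw [abs_sub_comm, abs_sub_comm s]; exact this ht hs (le_of_not_ge hst)
  obtain ⟨c, lam, hc, hl, h, -⟩ := An_spec g
  rw [abs_of_nonneg (sub_nonneg.2 (An_anti g hst)), abs_sub_comm, abs_of_nonneg (sub_nonneg.2 hst),
    h, h, h, ← Finset.sum_sub_distrib, Finset.mul_sum, Finset.sum_mul]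
  refine Finset.sum_le_sum fun j _ => ?_
  have hj := hl j
  have h1 : Real.exp (-(s * lam j)) - Real.exp (-(t * lam j)) ≤
      Real.exp (-(s * lam j)) * ((t - s) * lam j) := by
    have e : Real.exp (-(t * lam j)) = Real.exp (-(s * lam j)) * Real.exp (-((t - s) * lam j)) := by
      rw [← Real.exp_add]; congr 1; ring
    have := Real.add_one_le_exp (-((t - s) * lam j))
    rw [e]
    nlinarith [Real.exp_pos (-(s * lam j))]
  have h2 : Real.exp (-(s * lam j)) * lam j ≤ 2 / a * Real.exp (-(a / 2 * lam j)) := by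
    have e1 : Real.exp (-(s * lam j)) ≤
        Real.exp (-(a / 2 * lam j)) * Real.exp (-(a / 2 * lam j)) := by
      rw [← Real.exp_add]; exact Real.exp_le_exp.2 (by nlinarith)
    have e2 : Real.exp (-(a / 2 * lam j)) * (a / 2 * lam j) ≤ 1 := by
      rw [Real.exp_neg, inv_mul_le_iff₀ (Real.exp_pos _)]
      linarith [Real.add_one_le_exp (a / 2 * lam j)]
    have e3 : Real.exp (-(a / 2 * lam j)) * lam j ≤ 2 / a := by
      rw [le_div_iff₀ ha]; nlinarith
    calc Real.exp (-(s * lam j)) * lam j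
        ≤ Real.exp (-(a / 2 * lam j)) * Real.exp (-(a / 2 * lam j)) * lam j := by gcongr
      _ = Real.exp (-(a / 2 * lam j)) * lam j * Real.exp (-(a / 2 * lam j)) := by ring
      _ ≤ _ := by gcongr
  have h3 : 0 ≤ t - s := sub_nonneg.2 hst
  calc c j * Real.exp (-(s * lam j)) - c j * Real.exp (-(t * lam j))
      = c j * (Real.exp (-(s * lam j)) - Real.exp (-(t * lam j))) := by ring
    _ ≤ c j * (Real.exp (-(s * lam j)) * lam j * (t - s)) := by
        refine mul_le_mul_of_nonneg_left (h1.trans (le_of_eq (by ring))) (hc j)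
    _ ≤ c j * (2 / a * Real.exp (-(a / 2 * lam j)) * (t - s)) := by gcongr; exact hc j
    _ = _ := by ring

/-- `An` at time `s` is controlled by the resolvent at any `a` -/
lemma An_le_Rn (g : Pair n → ℝ) {a s : ℝ} (ha : 0 < a) (hs : 0 < s) :
    An n g s ≤ (a + 1 / s) * Rn n g a := by
  obtain ⟨c, lam, hc, hl, h, h'⟩ := An_spec g
  rw [h, h' a ha, Finset.mul_sum]
  refine Finset.sum_le_sum fun j _ => ?_
  have hj := hl j
  have h1 : 0 < a + lam j := by linarith
  rw [mul_div_assoc', le_div_iff₀ h1, mul_comm (a + 1 / s), mul_assoc]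
  refine mul_le_mul_of_nonneg_left ?_ (hc j)
  have e1 : Real.exp (-(s * lam j)) ≤ 1 := Real.exp_le_one_iff.2 (by nlinarith)
  have e2 : Real.exp (-(s * lam j)) * (s * lam j) ≤ 1 := by
    rw [Real.exp_neg, inv_mul_le_iff₀ (Real.exp_pos _)]
    linarith [Real.add_one_le_exp (s * lam j)]
  have e3 : Real.exp (-(s * lam j)) * lam j ≤ 1 / s := by
    rw [le_div_iff₀ hs]; nlinarith
  nlinarith

/-- at a fixed time `An` is approximated by finitely many resolvent values -/
lemma An_approx {s : ℝ} (hs : 0 < s) {ε : ℝ} (hε : 0 < ε) :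
    ∃ (t : Finset (Ioi (0 : ℝ))) (w : Ioi (0 : ℝ) → ℝ), ∀ (n : ℕ) (g : Pair n → ℝ),
      |An n g s - ∑ α ∈ t, w α * Rn n g α| ≤ ε * Rn n g 1 := by
  obtain ⟨t, w, h⟩ := exp_sum_approx hs hε
  refine ⟨t, w, fun n g => ?_⟩
  obtain ⟨c, lam, hc, hl, h1, h2⟩ := An_spec g
  have h3 : ∑ α ∈ t, w α * Rn n g α = ∑ α ∈ t, w α * ∑ j, c j / (α.1 + lam j) :=
    Finset.sum_congr rfl fun α _ => by rw [h2 α.1 α.2]
  rw [h1, h2 1 one_pos, h3]
  exact h c lam hc hl

end Crest.Agent.T157.Soft

end
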