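import Crest.Agent.R339.Var71M

/-!
Row 157 (helper56): Parisi facts, part A.  Calculus of the backward test functions `tE m v Φ P`
inside one block, to all orders; a Gronwall lemma in the sup norm.
-/

set_option autoImplicit false

namespace Crest.Agent.T157.Pf

open MeasureTheory ProbabilityTheory Filter Topology Set
open Crest.Agent.R164.GC Crest.Agent.R339.B Crest.Agent.R339.Var
open Crest.ProbabilityR.InvariantGlass (gaussOp)

noncomputable section

/-- the tilted average of `P` as a function of `(v, x)` -/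
def At (Φ : ℝ → ℝ) (m : ℝ) (P : ℝ → ℝ) (v x : ℝ) : ℝ := tE m v Φ P x

/-- `(P w)' = (dl P) w` for `w = e^{mΦ}` -/
def dl (Φ : ℝ → ℝ) (m : ℝ) (P : ℝ → ℝ) (y : ℝ) : ℝ := deriv P y + m * (P y * deriv Φ y)

/-- the numerator -/
def Nu (Φ : ℝ → ℝ) (m : ℝ) (P : ℝ → ℝ) (v x : ℝ) : ℝ :=
  H (Real.sqrt v) (fun y => P y * Real.exp (m * Φ y)) x

section atom

variable {Φ : ℝ → ℝ} (h : Prof Φ) (m : ℝ) {P : ℝ → ℝ}
include h

theorem dl_bd (hP : BD P) : BD (dl Φ m P) := hP.deriv.add ((hP.mul h.bd).const_mul m)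

theorem num_hasDerivAt (hP : BD P) (y : ℝ) :
    HasDerivAt (fun y => P y * Real.exp (m * Φ y)) (dl Φ m P y * Real.exp (m * Φ y)) y := by
  have h1 := (hP.hasDerivAt y).fun_mul ((h.d1 y).const_mul m).exp
  refine h1.congr_deriv ?_
  unfold dl
  ring

theorem num_eg (hP : BD P) : EG (fun y => P y * Real.exp (m * Φ y)) :=
  hP.eg.mul (h.exp_egs m).eg

theorem Nu_dx (hP : BD P) (v x : ℝ) :
    HasDerivAt (fun y => Nu Φ m P v y) (Nu Φ m (dl Φ m P) v x) x :=
  H_deriv_x (num_eg h m hP) (num_eg h m (dl_bd h m hP)) (num_hasDerivAt h m hP) _ x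

theorem Nu_dv (hP : BD P) {v : ℝ} (hv : 0 < v) (x : ℝ) :
    HasDerivAt (fun s => Nu Φ m P s x) (1 / 2 * Nu Φ m (dl Φ m (dl Φ m P)) v x) v :=
  H_deriv_v (num_eg h m hP) (num_eg h m (dl_bd h m hP)) (num_eg h m (dl_bd h m (dl_bd h m hP)))
    (num_hasDerivAt h m hP) (num_hasDerivAt h m (dl_bd h m hP)) hv x

omit h in
theorem At_eq (v x : ℝ) : At Φ m P v x = Nu Φ m P v x / Wk Φ m 0 v x := by
  unfold At tE Nu
  rw [Wk0_eq]

theorem At_dx (hP : BD P) (v x : ℝ) : HasDerivAt (fun y => At Φ m P v y)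
    (At Φ m (dl Φ m P) v x - At Φ m P v x * Dk Φ m 1 v x) x := by
  have h1 := (Nu_dx h m hP v x).fun_div (Wk_dx h m 0 v x) (Wk_pos h m v x).ne'
  simp_rw [At_eq]
  refine h1.congr_deriv ?_
  unfold Dk
  have := (Wk_pos h m v x).ne'
  field_simp

theorem At_dv (hP : BD P) {v : ℝ} (hv : 0 < v) (x : ℝ) : HasDerivAt (fun s => At Φ m P s x)
    (1 / 2 * (At Φ m (dl Φ m (dl Φ m P)) v x - At Φ m P v x * Dk Φ m 2 v x)) v := by
  have h1 := (Nu_dv h m hP hv x).fun_div (Wk_dv h m 0 hv x) (Wk_pos h m v x).ne'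
  simp_rw [At_eq]
  refine h1.congr_deriv ?_
  unfold Dk
  have := (Wk_pos h m v x).ne'
  field_simp

theorem At_bdd (hP : BD P) : ∃ C, ∀ v x, |At Φ m P v x| ≤ C := by
  obtain ⟨C, hC⟩ := hP.bc
  exact ⟨C, fun v x => tE_abs_le h.lip m v hC x⟩

theorem At_ug (hP : BD P) : UG (At Φ m P) := by
  obtain ⟨C, hC⟩ := At_bdd h m hP
  refine ⟨tE_continuous h.lip m hP.eg, fun d => ?_⟩
  exact ⟨C, 0, (abs_nonneg _).trans (hC 0 0), le_rfl, fun v x _ => by simpa using hC v x⟩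

theorem At_bd (hP : BD P) (v : ℝ) : BD (At Φ m P v) := h.tE_bd m v hP

theorem D1_eq (v x : ℝ) : Dk Φ m 1 v x = m * At Φ m (deriv Φ) v x := by
  unfold At
  rw [← tE_const_mul]
  unfold Dk Wk tE
  rw [iteratedDeriv_zero, iteratedDeriv_one]
  have : deriv (w0 Φ m) = fun y => m * deriv Φ y * Real.exp (m * Φ y) := by
    funext y
    have := ((h.d1 y).const_mul m).exp
    unfold w0
    rw [this.deriv]
    ring
  rw [this]
  rfl

/-- tilted averages are martingales -/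
theorem tb_At (hP : BD P) : TB Φ m (At Φ m P) (fun _ _ => 0)
    (fun v x => At Φ m (dl Φ m P) v x - At Φ m P v x * Dk Φ m 1 v x) := by
  have h1 := dl_bd h m hP
  have h2 := dl_bd h m h1
  refine ⟨fun v x => 1 / 2 * (At Φ m (dl Φ m (dl Φ m P)) v x - At Φ m P v x * Dk Φ m 2 v x),
    fun v x => (At Φ m (dl Φ m (dl Φ m P)) v x - At Φ m (dl Φ m P) v x * Dk Φ m 1 v x) -
      ((At Φ m (dl Φ m P) v x - At Φ m P v x * Dk Φ m 1 v x) * Dk Φ m 1 v x +
        At Φ m P v x * (Dk Φ m (1 + 1) v x - Dk Φ m 1 v x * Dk Φ m 1 v x)),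
    fun v x hv => At_dv h m hP hv x, fun v x => At_dx h m hP v x,
    fun v x => (At_dx h m h1 v x).fun_sub ((At_dx h m hP v x).fun_mul (Dk_dx h m 1 v x)),
    At_ug h m hP,
    ((At_ug h m h2).sub ((At_ug h m hP).mul (Dk_ug h m 2))).const_mul _,
    (At_ug h m h1).sub ((At_ug h m hP).mul (Dk_ug h m 1)),
    ((At_ug h m h2).sub ((At_ug h m h1).mul (Dk_ug h m 1))).sub
      ((((At_ug h m h1).sub ((At_ug h m hP).mul (Dk_ug h m 1))).mul (Dk_ug h m 1)).add
        ((At_ug h m hP).mul ((Dk_ug h m (1 + 1)).sub ((Dk_ug h m 1).mul (Dk_ug h m 1))))),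
    fun v x => ?_⟩
  show (0 : ℝ) = _
  have e2 : 1 + 1 = 2 := rfl
  rw [e2]
  ring

end atom

/-! ### polynomial expressions in the tilted averages -/

/-- expressions -/
inductive Ex : Type
  | at : (ℝ → ℝ) → Ex
  | c : ℝ → Ex
  | add : Ex → Ex → Ex
  | mul : Ex → Ex → Ex

namespace Ex

/-- well-formed expressions -/
def WF : Ex → Prop
  | .at P => BD P
  | .c _ => True
  | .add a b => WF a ∧ WF b
  | .mul a b => WF a ∧ WF b

/-- value -/
def ev (Φ : ℝ → ℝ) (m : ℝ) : Ex → ℝ → ℝ → ℝ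
  | .at P => At Φ m P
  | .c r => fun _ _ => r
  | .add a b => fun v x => ev Φ m a v x + ev Φ m b v x
  | .mul a b => fun v x => ev Φ m a v x * ev Φ m b v x

/-- formal space derivative -/
def dx (Φ : ℝ → ℝ) (m : ℝ) : Ex → Ex
  | .at P => .add (.at (dl Φ m P)) (.mul (.c (-m)) (.mul (.at P) (.at (deriv Φ))))
  | .c _ => .c 0
  | .add a b => .add (dx Φ m a) (dx Φ m b)
  | .mul a b => .add (.mul (dx Φ m a) b) (.mul a (dx Φ m b))

/-- formal generator -/
def L (Φ : ℝ → ℝ) (m : ℝ) : Ex → Ex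
  | .at _ => .c 0
  | .c _ => .c 0
  | .add a b => .add (L Φ m a) (L Φ m b)
  | .mul a b => .add (.add (.mul a (L Φ m b)) (.mul b (L Φ m a))) (.mul (dx Φ m a) (dx Φ m b))

variable {Φ : ℝ → ℝ} (h : Prof Φ) (m : ℝ)
include h

theorem wf_dx : ∀ {e : Ex}, WF e → WF (dx Φ m e)
  | .at _, hP => ⟨dl_bd h m hP, trivial, hP, h.bd⟩
  | .c _, _ => trivial
  | .add _ _, he => ⟨wf_dx he.1, wf_dx he.2⟩
  | .mul _ _, he => ⟨⟨wf_dx he.1, he.2⟩, he.1, wf_dx he.2⟩

theorem wf_L : ∀ {e : Ex}, WF e → WF (L Φ m e)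
  | .at _, _ => trivial
  | .c _, _ => trivial
  | .add _ _, he => ⟨wf_L he.1, wf_L he.2⟩
  | .mul _ _, he => ⟨⟨⟨he.1, wf_L he.2⟩, he.2, wf_L he.1⟩, wf_dx h m he.1, wf_dx h m he.2⟩

theorem tb : ∀ {e : Ex}, WF e → TB Φ m (ev Φ m e) (ev Φ m (L Φ m e)) (ev Φ m (dx Φ m e))
  | .at P, hP => (tb_At h m hP).congr (fun _ _ => rfl) (fun _ _ => rfl) (fun v x => by
      simp only [dx, ev]
      rw [D1_eq h m]
      ring)
  | .c r, _ => TB.const r
  | .add _ _, he => (tb he.1).add (tb he.2)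
  | .mul _ _, he => (tb he.1).mul (tb he.2)

theorem bdd : ∀ {e : Ex}, WF e → ∃ C, ∀ v x, |ev Φ m e v x| ≤ C
  | .at _, hP => At_bdd h m hP
  | .c r, _ => ⟨|r|, fun _ _ => le_rfl⟩
  | .add _ _, he => by
    obtain ⟨A, hA⟩ := bdd he.1
    obtain ⟨B, hB⟩ := bdd he.2
    exact ⟨A + B, fun v x => (abs_add_le _ _).trans (add_le_add (hA v x) (hB v x))⟩
  | .mul _ _, he => by
    obtain ⟨A, hA⟩ := bdd he.1
    obtain ⟨B, hB⟩ := bdd he.2
    refine ⟨A * B, fun v x => ?_⟩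
    simp only [ev]
    rw [abs_mul]
    exact mul_le_mul (hA v x) (hB v x) (abs_nonneg _) ((abs_nonneg _).trans (hA v x))

omit h in
theorem comm : ∀ (e : Ex) (v x : ℝ), ev Φ m (L Φ m (dx Φ m e)) v x =
    ev Φ m (dx Φ m (L Φ m e)) v x - m * ev Φ m (dx Φ m (.at (deriv Φ))) v x * ev Φ m (dx Φ m e) v x
  | .at P, v, x => by
    simp only [dx, L, ev]
    ring
  | .c r, v, x => by
    simp only [dx, L, ev]
    ring
  | .add a b, v, x => by
    have h1 := comm a v x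
    have h2 := comm b v x
    simp only [dx, L, ev] at h1 h2 ⊢
    rw [h1, h2]
    ring
  | .mul a b, v, x => by
    have h1 := comm a v x
    have h2 := comm b v x
    simp only [dx, L, ev] at h1 h2 ⊢
    rw [h1, h2]
    ring

theorem ev_dx {e : Ex} (he : WF e) (v : ℝ) : ev Φ m (dx Φ m e) v = deriv (ev Φ m e v) :=
  funext fun x => ((tb h m he).dx v x).deriv.symm

theorem wf_iter {e : Ex} (he : WF e) (k : ℕ) : WF ((dx Φ m)^[k] e) := by
  induction k with
  | zero => exact he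
  | succ k ih => rw [Function.iterate_succ_apply']; exact wf_dx h m ih

theorem ev_iter {e : Ex} (he : WF e) (k : ℕ) (v : ℝ) :
    ev Φ m ((dx Φ m)^[k] e) v = iteratedDeriv k (ev Φ m e v) := by
  induction k with
  | zero => rw [iteratedDeriv_zero]; rfl
  | succ k ih => rw [Function.iterate_succ_apply', ev_dx h m (wf_iter h m he k), ih,
      iteratedDeriv_succ]

end Ex

/-- `k`-th space derivative of the tilted average -/
def Ak (Φ : ℝ → ℝ) (m : ℝ) (P : ℝ → ℝ) (k : ℕ) (v x : ℝ) : ℝ := iteratedDeriv k (At Φ m P v) x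

/-- the generator applied to `Ak` -/
def LA (Φ : ℝ → ℝ) (m : ℝ) (P : ℝ → ℝ) (k : ℕ) (v x : ℝ) : ℝ :=
  -m * ∑ i ∈ Finset.range k,
    (k.choose (i + 1) : ℝ) * Ak Φ m (deriv Φ) (i + 1) v x * Ak Φ m P (k - i) v x

section all

variable {Φ : ℝ → ℝ} (h : Prof Φ) (m : ℝ) {P : ℝ → ℝ} (hP : BD P)
include h hP

theorem Ak_bdd (k : ℕ) : ∃ C, ∀ v x, |Ak Φ m P k v x| ≤ C := by
  obtain ⟨C, hC⟩ := Ex.bdd h m (Ex.wf_iter h m (e := .at P) hP k)
  refine ⟨C, fun v x => ?_⟩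
  have := hC v x
  rwa [Ex.ev_iter h m (e := .at P) hP k v] at this

theorem LA_eq (k : ℕ) (v x : ℝ) : LA Φ m P k v x =
    -m * (iteratedDeriv k (fun y => At Φ m (deriv Φ) v y * deriv (At Φ m P v) y) x -
      At Φ m (deriv Φ) v x * Ak Φ m P (k + 1) v x) := by
  have h1 := (At_bd h m h.bd v).contDiff k
  have h2 := (At_bd h m hP v).deriv.contDiff k
  rw [iteratedDeriv_fun_mul h1.contDiffAt h2.contDiffAt, Finset.sum_range_succ']
  unfold LA Ak
  congr 1
  rw [Nat.choose_zero_right, iteratedDeriv_zero, Nat.sub_zero, ← iteratedDeriv_succ']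
  push_cast
  rw [one_mul, add_sub_cancel_right]
  refine Finset.sum_congr rfl fun i hi => ?_
  rw [Finset.mem_range] at hi
  have : k - i = (k - (i + 1)) + 1 := by omega
  rw [this, iteratedDeriv_succ' (n := k - (i + 1))]

theorem tb_Ak (k : ℕ) : TB Φ m (Ak Φ m P k) (LA Φ m P k) (Ak Φ m P (k + 1)) := by
  have key : ∀ k v x, Ex.ev Φ m (Ex.L Φ m ((Ex.dx Φ m)^[k] (.at P))) v x = LA Φ m P k v x := by
    intro k
    induction k with
    | zero => intro v x; simp [LA, Ex.L, Ex.ev]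
    | succ k ih =>
      intro v x
      have w := Ex.wf_iter h m (e := .at P) hP k
      rw [Function.iterate_succ_apply', Ex.comm, Ex.ev_dx h m (Ex.wf_L h m w),
        Ex.ev_dx h m w, Ex.ev_iter h m (e := .at P) hP k,
        Ex.ev_dx h m (e := .at (deriv Φ)) h.bd]
      have e : Ex.ev Φ m (Ex.L Φ m ((Ex.dx Φ m)^[k] (.at P))) v = fun x =>
          -m * (iteratedDeriv k (fun y => At Φ m (deriv Φ) v y * deriv (At Φ m P v) y) x -
            At Φ m (deriv Φ) v x * Ak Φ m P (k + 1) v x) :=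
        funext fun x => by rw [ih, LA_eq h m hP]
      rw [e, LA_eq h m hP]
      have b1 := At_bd h m h.bd v
      have b2 := At_bd h m hP v
      have d1 := ((b1.mul b2.deriv).iter k).hasDerivAt x
      have d2 := (b1.hasDerivAt x).fun_mul ((b2.iter (k + 1)).hasDerivAt x)
      have d3 := (d1.fun_sub d2).const_mul (-m)
      unfold Ak
      rw [d3.deriv, ← iteratedDeriv_succ, ← iteratedDeriv_succ]
      simp only [Ex.ev]
      rw [← iteratedDeriv_succ]
      ring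
  have w := Ex.wf_iter h m (e := .at P) hP k
  refine (Ex.tb h m w).congr (fun v x => ?_) (fun v x => (key k v x).symm) (fun v x => ?_)
  · rw [Ex.ev_iter h m (e := .at P) hP k]; rfl
  · rw [← Function.iterate_succ_apply' (Ex.dx Φ m), Ex.ev_iter h m (e := .at P) hP (k + 1)]; rfl

end all

/-! ### Duhamel's formula in tilted form -/

/-- forward average at time `τ` of a block of length `d` -/
def VV (Φ : ℝ → ℝ) (m d : ℝ) (F : ℝ → ℝ → ℝ) (x τ : ℝ) : ℝ :=
  H (√τ) (fun y => Wk Φ m 0 (d - τ) y * F (d - τ) y) x / Wk Φ m 0 d x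

section duhamel

variable {Φ : ℝ → ℝ} (h : Prof Φ) {m : ℝ} (hm : m ≠ 0)
include h

theorem VV_deriv {F LF Fx : ℝ → ℝ → ℝ} (hF : TB Φ m F LF Fx) {d τ : ℝ} (h0 : 0 < τ) (h1 : τ < d)
    (x : ℝ) : HasDerivAt (VV Φ m d F x) (VV Φ m d LF x τ) τ :=
  (EX_deriv h m hF h0 h1 x).div_const _

theorem VV_cont {F : ℝ → ℝ → ℝ} (hF : UG F) (d x : ℝ) : Continuous (VV Φ m d F x) := by
  have uF := (Wk_ug h m 0).mul hF
  exact ((heat_cont uF d).comp (by fun_prop : Continuous fun s : ℝ => (s, x))).div_const _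

include hm

theorem VV_eq (F : ℝ → ℝ → ℝ) {d τ : ℝ} (h0 : 0 ≤ τ) (h1 : τ ≤ d) (x : ℝ) :
    VV Φ m d F x τ = tE m τ (gaussOp m (d - τ) Φ) (F (d - τ)) x := by
  unfold VV
  rw [HW_eq h hm h0 h1, mul_div_cancel_right₀ _ (Wk_pos h m d x).ne']

theorem VV_zero (F : ℝ → ℝ → ℝ) {d : ℝ} (hd : 0 ≤ d) (x : ℝ) : VV Φ m d F x 0 = F d x := by
  rw [VV_eq h hm F le_rfl hd, tE_v0, sub_zero]

theorem VV_end (F : ℝ → ℝ → ℝ) {d : ℝ} (hd : 0 ≤ d) (x : ℝ) :
    VV Φ m d F x d = tE m d Φ (F 0) x := by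
  rw [VV_eq h hm F hd le_rfl, sub_self, gaussOp_v0 hm]

theorem VV_abs_le {F : ℝ → ℝ → ℝ} (hF : UG F) {d τ : ℝ} (h0 : 0 ≤ τ) (h1 : τ ≤ d) {K : ℝ}
    (hK : ∀ y, |F (d - τ) y| ≤ K) (x : ℝ) : |VV Φ m d F x τ| ≤ K := by
  rw [VV_eq h hm F h0 h1]
  exact tE_abs_le (h.step m _).lip _ _ ⟨(hF.eg _).cont, hK⟩ x

/-- **Gronwall in the sup norm**, for a family of test functions -/
theorem gronwall {ι : Type} {F LF Fx : ι → ℝ → ℝ → ℝ} (hF : ∀ i, TB Φ m (F i) (LF i) (Fx i))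
    {B c f M d : ℝ} (hc : 0 ≤ c) (hf : 0 ≤ f) (hM : 0 ≤ M) (hd : 0 ≤ d)
    (hB : ∀ i v x, |F i v x| ≤ B)
    (hL : ∀ v ∈ Icc 0 d, ∀ N, 0 ≤ N → (∀ j y, |F j v y| ≤ N) → ∀ i x, |LF i v x| ≤ c * N + f)
    (h0 : ∀ i x, |F i 0 x| ≤ M) (i : ι) (x : ℝ) :
    |F i d x| ≤ (M + f * d) * Real.exp (2 * c * d) := by
  set S : Set ℝ := {r | r = 0 ∨ ∃ j v y, v ∈ Icc 0 d ∧ r = Real.exp (-(2 * c * v)) * |F j v y|}
    with hS
  have hne : S.Nonempty := ⟨0, Or.inl rfl⟩
  have hB0 : 0 ≤ B := (abs_nonneg _).trans (hB i 0 0)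
  have hbd : BddAbove S := by
    refine ⟨B, ?_⟩
    rintro r (rfl | ⟨j, v, y, hv, rfl⟩)
    · exact hB0
    · have h1 : Real.exp (-(2 * c * v)) ≤ 1 := by
        rw [Real.exp_le_one_iff]
        have := mul_nonneg hc hv.1
        linarith
      calc _ ≤ 1 * B := mul_le_mul h1 (hB j v y) (abs_nonneg _) zero_le_one
        _ = B := one_mul B
  set N := sSup S with hN
  have hN0 : 0 ≤ N := le_csSup hbd (Or.inl rfl)
  have hle : ∀ j v y, v ∈ Icc 0 d → |F j v y| ≤ N * Real.exp (2 * c * v) := by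
    intro j v y hv
    have h1 : Real.exp (-(2 * c * v)) * |F j v y| ≤ N := le_csSup hbd (Or.inr ⟨j, v, y, hv, rfl⟩)
    have h2 := mul_le_mul_of_nonneg_right h1 (Real.exp_pos (2 * c * v)).le
    rwa [mul_comm (Real.exp _), mul_assoc, ← Real.exp_add, neg_add_cancel, Real.exp_zero,
      mul_one] at h2
  have hstep : ∀ j v y, v ∈ Icc 0 d →
      |F j v y| ≤ M + f * v + N * (Real.exp (2 * c * v) - 1) / 2 := by
    intro j v y hv
    have hc1 := VV_cont h (hF j).ug v y (m := m)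
    -- the comparison function
    have hg : ∀ τ, HasDerivAt (fun τ => f * τ - N * Real.exp (2 * c * (v - τ)) / 2)
        (f + c * (N * Real.exp (2 * c * (v - τ)))) τ := by
      intro τ
      have a1 : HasDerivAt (fun τ => 2 * c * (v - τ)) (2 * c * (-1)) τ :=
        ((hasDerivAt_id' τ).const_sub v).const_mul _
      have a2 := ((hasDerivAt_id' τ).const_mul f).fun_sub ((a1.exp.const_mul N).div_const 2)
      refine a2.congr_deriv ?_
      ring
    have hb : ∀ τ ∈ Ioo 0 v, |VV Φ m v (LF j) y τ| ≤ f + c * (N * Real.exp (2 * c * (v - τ))) := by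
      intro τ hτ
      refine VV_abs_le h hm ((hF j).ugL h) hτ.1.le hτ.2.le (fun z => ?_) y
      have hvτ : v - τ ∈ Icc 0 d := ⟨by linarith [hτ.2], by linarith [hτ.1, hv.2]⟩
      have := hL (v - τ) hvτ _ (by positivity) (fun j' y' => hle j' _ y' hvτ) j z
      linarith
    have hgc : Continuous (fun τ => f * τ - N * Real.exp (2 * c * (v - τ)) / 2) := by fun_prop
    have m1 := monotoneOn_of_block (a := 0) (b := v)
      (f := fun τ => (f * τ - N * Real.exp (2 * c * (v - τ)) / 2) + VV Φ m v (F j) y τ)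
      (hgc.add hc1).continuousOn
      (fun τ hτ => (hg τ).fun_add (VV_deriv h (hF j) hτ.1 hτ.2 y))
      (fun τ hτ => by have := (abs_le.1 (hb τ hτ)).1; linarith)
    have m2 := monotoneOn_of_block (a := 0) (b := v)
      (f := fun τ => (f * τ - N * Real.exp (2 * c * (v - τ)) / 2) - VV Φ m v (F j) y τ)
      (hgc.sub hc1).continuousOn
      (fun τ hτ => (hg τ).fun_sub (VV_deriv h (hF j) hτ.1 hτ.2 y))
      (fun τ hτ => by have := (abs_le.1 (hb τ hτ)).2; linarith)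
    have i1 := m1 ⟨le_rfl, hv.1⟩ ⟨hv.1, le_rfl⟩ hv.1
    have i2 := m2 ⟨le_rfl, hv.1⟩ ⟨hv.1, le_rfl⟩ hv.1
    simp only at i1 i2
    rw [VV_zero h hm _ hv.1] at i1 i2
    have e1 := abs_le.1 (VV_abs_le h hm (hF j).ug hv.1 le_rfl (K := M)
      (fun z => by rw [sub_self]; exact h0 j z) y)
    simp only [sub_self, mul_zero, Real.exp_zero, sub_zero] at i1 i2
    rw [abs_le]
    constructor <;> linarith [e1.1, e1.2]
  have hA : 0 ≤ M + f * d := by positivity
  have hNle : N ≤ max (M + f * d) (N / 2) := by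
    refine csSup_le hne ?_
    rintro r (rfl | ⟨j, v, y, hv, rfl⟩)
    · exact le_max_of_le_left hA
    · set E := Real.exp (-(2 * c * v)) with hE
      have hE0 : 0 < E := Real.exp_pos _
      have hE1 : E ≤ 1 := by
        rw [hE, Real.exp_le_one_iff]
        have := mul_nonneg hc hv.1
        linarith
      have hEE : E * Real.exp (2 * c * v) = 1 := by
        rw [hE, ← Real.exp_add, neg_add_cancel, Real.exp_zero]
      have h1 := mul_le_mul_of_nonneg_left (hstep j v y hv) hE0.le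
      have h2 : f * v ≤ f * d := mul_le_mul_of_nonneg_left hv.2 hf
      have h3 := le_max_left (M + f * d) (N / 2)
      have h4 := le_max_right (M + f * d) (N / 2)
      have e : E * (M + f * v + N * (Real.exp (2 * c * v) - 1) / 2) =
          E * (M + f * v) + (1 - E) * (N / 2) := by
        have : E * (N * (Real.exp (2 * c * v) - 1) / 2) =
          N * (E * Real.exp (2 * c * v)) / 2 - E * N / 2 := by ring
        rw [mul_add, this, hEE]
        ring
      rw [e] at h1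
      have h5 : E * (M + f * v) ≤ E * max (M + f * d) (N / 2) :=
        mul_le_mul_of_nonneg_left (by linarith) hE0.le
      have h6 : (1 - E) * (N / 2) ≤ (1 - E) * max (M + f * d) (N / 2) :=
        mul_le_mul_of_nonneg_left h4 (by linarith)
      nlinarith
  have hNA : N ≤ M + f * d := by
    rcases le_max_iff.1 hNle with h1 | h1
    · exact h1
    · linarith
  exact (hle i d x ⟨hd, le_rfl⟩).trans
    (mul_le_mul_of_nonneg_right hNA (Real.exp_pos _).le)

end duhamel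

end

end Crest.Agent.T157.Pf
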