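import Crest.Agent.T157.PfE_56
import Crest.Agent.T157.ScDef_68

/-! `Γ` is `β²`-Lipschitz (the input `Sc.GamLipStmt`). -/

namespace Crest.Agent.T157.Pf

theorem gamLip : Sc.GamLipStmt := fun _ _ hβ h _ _ hs hs' => h.Gam_lip hβ hs hs'

end Crest.Agent.T157.Pf
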