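import Crest.Agent.T157.PfDef_56

/-!
Row 157 (helper62): every admissible list of blocks is approximated from above by a vector of levels
on the uniform grid (`minStmt`).
-/

set_option autoImplicit false

namespace Crest.Agent.T157.Pf

open MeasureTheory Set
open Crest.Agent.R164.GC Crest.Agent.R339 Crest.Agent.R339.B Crest.Agent.R339.Var
open Crest.ProbabilityR.InvariantGlass (gaussOp)

noncomputable section

namespace Min62

/-- monotonicity of the Cole–Hopf step in the terminal function -/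
theorem gaussOp_le_add {f g : ℝ → ℝ} (hf : Lip1 f) (hg : Lip1 g) {m : ℝ} (hm : 0 < m) (v : ℝ)
    {c : ℝ} (h : ∀ y, f y ≤ g y + c) (x : ℝ) : gaussOp m v f x ≤ gaussOp m v g x + c := by
  rw [gaussOp_ne hm.ne', gaussOp_ne hm.ne']
  have h1 : H (Real.sqrt v) (fun y => Real.exp (m * f y)) x ≤
      Real.exp (m * c) * H (Real.sqrt v) (fun y => Real.exp (m * g y)) x := by
    rw [← H_const_mul]
    refine H_mono (EG.exp_lip hf m) ((EG.const _).mul (EG.exp_lip hg m)) (fun y => ?_) _ _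
    rw [← Real.exp_add]
    exact Real.exp_le_exp.2 (by nlinarith [h y])
  have hp := H_pos (EG.exp_lip hf m) (fun y => Real.exp_pos _) (Real.sqrt v) x
  have hq := H_pos (EG.exp_lip hg m) (fun y => Real.exp_pos _) (Real.sqrt v) x
  have h2 := Real.log_le_log hp h1
  rw [Real.log_mul (Real.exp_pos _).ne' hq.ne', Real.log_exp] at h2
  have h3 := mul_le_mul_of_nonneg_left h2 (inv_pos.2 hm).le
  rw [mul_add, ← mul_assoc, inv_mul_cancel₀ hm.ne', one_mul] at h3
  linarith

theorem gaussOp_le {f g : ℝ → ℝ} (hf : Lip1 f) (hg : Lip1 g) {m : ℝ} (hm : 0 < m) (v : ℝ)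
    (h : ∀ y, f y ≤ g y) (x : ℝ) : gaussOp m v f x ≤ gaussOp m v g x := by
  simpa using gaussOp_le_add hf hg hm v (c := 0) (by simpa using h) x

/-- derivative in the level -/
theorem hasDerivAt_level {f : ℝ → ℝ} (hf : Lip1 f) {m : ℝ} (hm : 0 < m) (v x : ℝ) :
    HasDerivAt (fun a => gaussOp a v f x) (Dm m v f x) m := by
  have h := step_hasDerivAt (f := fun _ => f) (A := fun _ _ => 0) (m := m) (η := 1) (v := v)
    (C := 0) (r := m) (t := 0) (by simpa using hm)
    (fun s hs => by linarith [(abs_lt.1 hs).1]) (fun _ _ => hf)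
    (fun s _ x => hasDerivAt_const _ _) (fun _ _ _ => by simp) (fun _ _ => continuous_const) x
  simp only [mul_one, one_mul, add_zero, tE_const hf] at h
  have h3 : HasDerivAt (fun s => gaussOp (m + s) v f x) (Dm m v f x) (m - m) := by
    rw [sub_self]; exact h
  simpa using h3.comp_sub_const m m

theorem Dm_nonneg {Φ : ℝ → ℝ} (h : Prof Φ) {m : ℝ} (hm : 0 < m) {v : ℝ} (hv : 0 ≤ v) (x : ℝ) :
    0 ≤ Dm m v Φ x := by
  rw [dmFormula Φ h m hm v hv x]
  refine mul_nonneg (by norm_num) (intervalIntegral.integral_nonneg hv fun s _ => ?_)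
  have := tE_mono (h.step m (v - s)).lip m s (EG.const 0) (sq_BC (h.step m (v - s))).eg
    (fun y => sq_nonneg _) x
  rwa [tE_const (h.step m (v - s)).lip] at this

/-- the Cole–Hopf step is monotone and Lipschitz in the level -/
theorem level {Φ : ℝ → ℝ} (h : Prof Φ) {a b : ℝ} (ha : 0 < a) (hab : a ≤ b) {v : ℝ} (hv : 0 ≤ v)
    (x : ℝ) : gaussOp a v Φ x ≤ gaussOp b v Φ x ∧
      gaussOp b v Φ x ≤ gaussOp a v Φ x + (b - a) * v / 2 := by
  rcases hab.eq_or_lt with rfl | hlt
  · simp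
  have hd : ∀ m ∈ Icc a b, HasDerivAt (fun a => gaussOp a v Φ x) (Dm m v Φ x) m :=
    fun m hm => hasDerivAt_level h.lip (ha.trans_le hm.1) v x
  obtain ⟨c, hc, he⟩ := exists_hasDerivAt_eq_slope (fun a => gaussOp a v Φ x)
    (fun m => Dm m v Φ x) hlt (fun m hm => (hd m hm).continuousAt.continuousWithinAt)
    (fun m hm => hd m (Ioo_subset_Icc_self hm))
  have hc0 : 0 < c := ha.trans hc.1
  have h1 := Dm_nonneg h hc0 hv x
  have h2 := (abs_le.1 (Dm_bound dmFormula h hc0 hv x)).2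
  have hba : 0 < b - a := sub_pos.2 hlt
  rw [eq_div_iff hba.ne'] at he
  constructor <;> nlinarith

theorem TT_nn {β : ℝ} : ∀ {l : List (ℝ × ℝ)}, Adm β l → 0 ≤ TT l
  | [], _ => le_rfl
  | p :: l, h => by
    rw [TT_cons]
    exact add_nonneg h.2.2.1 (TT_nn h.2.2.2)

theorem rest_adm {β : ℝ} : ∀ {l : List (ℝ × ℝ)}, Adm β l → ∀ t : ℝ, 0 ≤ t → t ≤ TT l →
    Adm β (rest l t) ∧ TT (rest l t) = TT l - t ∧ headLv β l ≤ headLv β (rest l t)
  | [], _, t, h0, ht => by
    have : t = 0 := le_antisymm ht h0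
    subst this
    exact ⟨trivial, by simp [rest], le_rfl⟩
  | p :: l, h, t, h0, ht => by
    unfold rest
    rw [TT_cons] at ht
    split_ifs with h1
    · refine ⟨⟨h.1, h.2.1, by simpa using h1, h.2.2.2⟩, ?_, le_rfl⟩
      simp only [TT_cons]; ring
    · obtain ⟨a, b, c⟩ := rest_adm h.2.2.2 (t - p.2) (by linarith) (by linarith)
      refine ⟨a, ?_, h.2.1.trans c⟩
      rw [b, TT_cons]; ring

/-- lower bound of the recursion on an initial time interval -/
theorem rest_le {β : ℝ} (hβ : 0 < β) : ∀ {l : List (ℝ × ℝ)}, Adm β l → ∀ t : ℝ, 0 ≤ t →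
    t ≤ TT l → ∀ lo : ℝ, 0 < lo → lo ≤ headLv β l → ∀ x,
      gaussOp lo t (PhiL β (rest l t)) x ≤ PhiL β l x
  | [], _, t, h0, ht, lo, hlo, _, x => by
    have : t = 0 := le_antisymm ht h0
    subst this
    rw [gaussOp_v0 hlo.ne']
    exact le_rfl
  | p :: l, h, t, h0, ht, lo, hlo, hl, x => by
    unfold rest
    rw [TT_cons] at ht
    have hP := PhiL_prof hβ l
    split_ifs with h1
    · have e : PhiL β (p :: l) = gaussOp p.1 t (gaussOp p.1 (p.2 - t) (PhiL β l)) := by
        rw [← gaussOp_semi hP h.1.ne' h0 (by linarith), add_sub_cancel]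
        rfl
      rw [e]
      exact (level (hP.step _ _) hlo hl h0 x).1
    · have hR := PhiL_prof hβ (rest l (t - p.2))
      have e : gaussOp lo t (PhiL β (rest l (t - p.2))) =
          gaussOp lo p.2 (gaussOp lo (t - p.2) (PhiL β (rest l (t - p.2)))) := by
        rw [← gaussOp_semi hR hlo.ne' h.2.2.1 (by linarith), add_sub_cancel]
      rw [e]
      refine (gaussOp_le (hR.step _ _).lip hP.lip hlo p.2
        (rest_le hβ h.2.2.2 (t - p.2) (by linarith) (by linarith) lo hlo (hl.trans h.2.1)) x).trans ?_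
      exact (level hP hlo hl h.2.2.1 x).1

/-- upper bound of the penalty on an initial time interval -/
theorem pen_le {β : ℝ} : ∀ {l : List (ℝ × ℝ)}, Adm β l → ∀ t : ℝ, 0 ≤ t → t ≤ TT l →
    ∀ q hi : ℝ, 0 ≤ q → headLv β (rest l t) ≤ hi →
      Guerra.pen q l ≤ hi * ((q + t) ^ 2 - q ^ 2) + Guerra.pen (q + t) (rest l t)
  | [], _, t, h0, ht, q, hi, _, _ => by
    have : t = 0 := le_antisymm ht h0
    subst this
    simp [rest, Guerra.pen]
  | p :: l, h, t, h0, ht, q, hi, hq, hh => by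
    unfold rest at hh ⊢
    rw [TT_cons] at ht
    split_ifs at hh ⊢ with h1
    · simp only [Guerra.pen]
      have e : q + t + (p.2 - t) = q + p.2 := by ring
      rw [e]
      have h2 : p.1 ≤ hi := hh
      have h3 : 0 ≤ (q + t) ^ 2 - q ^ 2 := by nlinarith
      nlinarith [mul_le_mul_of_nonneg_right h2 h3]
    · have ih := pen_le h.2.2.2 (t - p.2) (by linarith) (by linarith) (q + p.2) hi
        (add_nonneg hq h.2.2.1) hh
      have e : q + p.2 + (t - p.2) = q + t := by ring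
      rw [e] at ih
      have h2 : p.1 ≤ hi :=
        (h.2.1.trans (rest_adm h.2.2.2 (t - p.2) (by linarith) (by linarith)).2.2).trans hh
      have h3 : 0 ≤ (q + p.2) ^ 2 - q ^ 2 := by nlinarith [h.2.2.1]
      simp only [Guerra.pen]
      nlinarith [mul_le_mul_of_nonneg_right h2 h3]

theorem zero_len {β : ℝ} : ∀ {l : List (ℝ × ℝ)}, Adm β l → TT l = 0 →
    PhiL β l = phi0 β ∧ ∀ q, Guerra.pen q l = 0
  | [], _, _ => ⟨rfl, fun _ => rfl⟩
  | p :: l, h, h0 => by
    rw [TT_cons] at h0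
    have h1 := TT_nn h.2.2.2
    have h2 : p.2 = 0 := by linarith [h.2.2.1]
    obtain ⟨a, b⟩ := zero_len h.2.2.2 (by linarith)
    refine ⟨?_, fun q => by simp [Guerra.pen, h2, b]⟩
    show gaussOp p.1 p.2 (PhiL β l) = _
    rw [h2, gaussOp_v0 h.1.ne', a]

theorem core {β ε d : ℝ} (hβ : 0 < β) (hε : 0 < ε) (hεβ : ε ≤ β) (hd : 0 ≤ d) :
    ∀ (N : ℕ) (l : List (ℝ × ℝ)), Adm β l → TT l = N * d →
      ∃ m : Fin N → ℝ, Monotone m ∧ (∀ k, ε ≤ m k ∧ m k ≤ β ∧ headLv β l ≤ m k) ∧
        (∀ x, PhiL β (List.ofFn fun k => (m k, d)) x ≤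
          PhiL β l x + ((β - headLv β l) * d + N * ε * d) / 2) ∧
        ∀ q, 0 ≤ q → Guerra.pen q l ≤ Guerra.pen q (List.ofFn fun k => (m k, d))
  | 0, l, h, h0 => by
    obtain ⟨a, b⟩ := zero_len h (by simpa using h0)
    refine ⟨Fin.elim0, fun k => k.elim0, fun k => k.elim0, fun x => ?_, fun q _ => ?_⟩
    · have := mul_nonneg (sub_nonneg.2 h.head_le) hd
      simp only [List.ofFn_zero, a, Nat.cast_zero, zero_mul, add_zero]
      show phi0 β x ≤ _
      linarith
    · rw [b]; simp [Guerra.pen]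
  | N + 1, l, h, h0 => by
    have hdl : d ≤ TT l := by
      rw [h0]; push_cast; nlinarith [mul_nonneg (Nat.cast_nonneg (α := ℝ) N) hd]
    obtain ⟨hA, hT, hh⟩ := rest_adm h d hd hdl
    obtain ⟨m, hm, hb, hPhi, hpen⟩ := core hβ hε hεβ hd N (rest l d) hA
      (by rw [hT, h0]; push_cast; ring)
    set hi := headLv β (rest l d) with hhi
    have hhi0 : 0 < hi := hA.head_pos hβ
    have hlo0 : 0 < headLv β l := h.head_pos hβ
    have e : (List.ofFn fun k : Fin (N + 1) => ((Fin.cons (max ε hi) m : Fin (N + 1) → ℝ) k, d)) =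
        (max ε hi, d) :: List.ofFn fun k => (m k, d) := by
      rw [List.ofFn_succ]; simp
    refine ⟨Fin.cons (max ε hi) m, ?_, fun k => ?_, fun x => ?_, fun q hq => ?_⟩
    · refine Fin.monotone_iff_le_succ.2 fun k => ?_
      cases N with
      | zero => exact k.elim0
      | succ N =>
        refine Fin.cases ?_ (fun j => ?_) k
        · exact max_le (hb 0).1 (hb 0).2.2
        · exact hm (Fin.castSucc_le_succ j)
    · refine Fin.cases ?_ (fun j => ?_) k
      · exact ⟨le_max_left _ _, max_le hεβ hA.head_le, hh.trans (le_max_right _ _)⟩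
      · exact ⟨(hb j).1, (hb j).2.1, hh.trans (hb j).2.2⟩
    · rw [e]
      have h1 := gaussOp_le_add (PhiL_prof hβ _).lip (PhiL_prof hβ _).lip
        (lt_max_of_lt_left hε : 0 < max ε hi) d hPhi x
      have h2 := (level (PhiL_prof hβ (rest l d)) hlo0 (hh.trans (le_max_right ε hi)) hd x).2
      have h3 := rest_le hβ h d hd hdl _ hlo0 le_rfl x
      have h4 : max ε hi ≤ hi + ε := max_le (by linarith) (by linarith)
      have h5 := mul_le_mul_of_nonneg_right h4 hd
      show gaussOp (max ε hi) d (PhiL β (List.ofFn fun k => (m k, d))) x ≤ _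
      push_cast
      nlinarith
    · rw [e]
      have h1 := pen_le h d hd hdl q (max ε hi) hq (le_max_right _ _)
      have h2 := hpen (q + d) (add_nonneg hq hd)
      simp only [Guerra.pen]
      linarith

end Min62

/-- sharp form: the error is `β/(2K) + ε/2` -/
theorem minStmt' {β ε : ℝ} (hβ : 0 < β) (hε : 0 < ε) (hεβ : ε ≤ β) {K : ℕ} (hK : 0 < K)
    {l : List (ℝ × ℝ)} (hl : Adm β l) (hT : TT l = 1) :
    ∃ m ∈ cone K ε β, PF β m ≤ PL β l + (β / K + ε) / 2 := by
  have hK' : (0 : ℝ) < K := by exact_mod_cast hK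
  obtain ⟨m, hm, hb, hPhi, hpen⟩ := Min62.core (d := 1 / (K : ℝ)) hβ hε hεβ (by positivity) K l hl
    (by rw [hT]; field_simp)
  refine ⟨m, ⟨hm, fun k => ⟨(hb k).1, (hb k).2.1⟩⟩, ?_⟩
  have h1 := hPhi 0
  have h2 := hpen 0 le_rfl
  have h3 : (K : ℝ) * ε * (1 / K) = ε := by field_simp
  have h4 : (β - headLv β l) * (1 / (K : ℝ)) ≤ β / K := by
    rw [mul_one_div]
    exact div_le_div_of_nonneg_right (by linarith [hl.head_pos hβ]) hK'.le
  unfold PF PL grid
  linarith

/-- **grid approximation from above** -/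
theorem minStmt {β ε : ℝ} (hβ : 0 < β) (hε : 0 < ε) (hεβ : ε ≤ β) {K : ℕ} (hK : 0 < K)
    {l : List (ℝ × ℝ)} (hl : Adm β l) (hT : TT l = 1) :
    ∃ m ∈ cone K ε β, PF β m ≤ PL β l + β / K + ε := by
  obtain ⟨m, hm, h⟩ := minStmt' hβ hε hεβ hK hl hT
  have : (0 : ℝ) ≤ β / K := by positivity
  exact ⟨m, hm, by linarith⟩

end

end Crest.Agent.T157.Pf
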