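import Crest.Agent.T157.PfE_56
import Crest.Agent.T157.PfLip_62
import Crest.Agent.T157.Sc2_68

/-!
Row 157 (helper56): the scaling bridge between the words of `R339` (`β`, levels `m ≤ β`) and the
standard words (`ζ = m/β`), and the first variation of the functional.
-/

set_option autoImplicit false

namespace Crest.Agent.T157.Pf

open MeasureTheory Set Filter Topology
open Crest.Agent.R164.GC Crest.Agent.R339.B Crest.Agent.R339.Var
open Crest.ProbabilityR.InvariantGlass (gaussOp)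

noncomputable section

/-- `x ↦ β f(x/β)` -/
def sc (β : ℝ) (f : ℝ → ℝ) (x : ℝ) : ℝ := β * f (x / β)

/-- the blocks in standard words -/
def scl (β : ℝ) (l : List (ℝ × ℝ)) : List (ℝ × ℝ) := l.map fun p => (p.1 / β, β ^ 2 * p.2)

variable {β : ℝ}

theorem sqrt_sc (hβ : 0 < β) (v x g : ℝ) : (x + √(β ^ 2 * v) * g) / β = x / β + √v * g := by
  rw [Real.sqrt_mul (sq_nonneg β), Real.sqrt_sq hβ.le]
  field_simp

theorem mul_sc (hβ : 0 < β) (a : ℝ) (f : ℝ → ℝ) (y : ℝ) : a / β * sc β f y = a * f (y / β) := by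
  unfold sc
  field_simp

theorem gaussOp_sc (hβ : 0 < β) {a : ℝ} (ha : a ≠ 0) (v : ℝ) (f : ℝ → ℝ) :
    gaussOp (a / β) (β ^ 2 * v) (sc β f) = sc β (gaussOp a v f) := by
  funext x
  have h1 : a / β ≠ 0 := div_ne_zero ha hβ.ne'
  show _ = β * gaussOp a v f (x / β)
  unfold gaussOp
  rw [if_neg h1, if_neg ha]
  simp only [mul_sc hβ, sqrt_sc hβ]
  rw [inv_div, ← mul_assoc, div_eq_mul_inv]

theorem tE_sc (hβ : 0 < β) (a v : ℝ) (f F : ℝ → ℝ) :
    tE (a / β) (β ^ 2 * v) (sc β f) (fun y => F (y / β)) = fun x => tE a v f F (x / β) := by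
  funext x
  unfold tE H
  simp only [mul_sc hβ, sqrt_sc hβ]

theorem phi0_sc (hβ : 0 < β) : phi0 1 = sc β (phi0 β) := by
  funext x
  unfold sc phi0
  rw [one_mul, div_one, mul_div_cancel₀ x hβ.ne', mul_div_cancel₀ _ hβ.ne']

theorem PhiL_sc (hβ : 0 < β) : ∀ {l : List (ℝ × ℝ)}, (∀ p ∈ l, 0 < p.1) →
    PhiL 1 (scl β l) = sc β (PhiL β l)
  | [], _ => phi0_sc hβ
  | p :: l, h => by
    show gaussOp (p.1 / β) (β ^ 2 * p.2) (PhiL 1 (scl β l)) = sc β (gaussOp p.1 p.2 (PhiL β l))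
    rw [PhiL_sc hβ fun q hq => h q (List.mem_cons_of_mem _ hq),
      gaussOp_sc hβ (h p (by simp)).ne']

theorem PhiT_sc (hβ : 0 < β) : ∀ {l : List (ℝ × ℝ)}, (∀ p ∈ l, 0 < p.1) → ∀ t,
    PhiT 1 (scl β l) (β ^ 2 * t) = sc β (PhiT β l t)
  | [], _, _ => phi0_sc hβ
  | p :: l, h, t => by
    have hl := fun q hq => h q (List.mem_cons_of_mem p hq)
    have hb : 0 < β ^ 2 := by positivity
    show (if β ^ 2 * t ≤ β ^ 2 * p.2 then
        gaussOp (p.1 / β) (β ^ 2 * p.2 - β ^ 2 * t) (PhiL 1 (scl β l))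
      else PhiT 1 (scl β l) (β ^ 2 * t - β ^ 2 * p.2)) =
      sc β (if t ≤ p.2 then gaussOp p.1 (p.2 - t) (PhiL β l) else PhiT β l (t - p.2))
    simp only [mul_le_mul_iff_right₀ hb, ← mul_sub]
    split_ifs
    · rw [PhiL_sc hβ hl, gaussOp_sc hβ (h p (by simp)).ne']
    · exact PhiT_sc hβ hl _

theorem EX_sc (hβ : 0 < β) : ∀ {l : List (ℝ × ℝ)}, (∀ p ∈ l, 0 < p.1) → ∀ t (F : ℝ → ℝ),
    EX 1 (scl β l) (β ^ 2 * t) (fun y => F (y / β)) = fun x => EX β l t F (x / β)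
  | [], _, _, _ => rfl
  | p :: l, h, t, F => by
    have hl := fun q hq => h q (List.mem_cons_of_mem p hq)
    have hb : 0 < β ^ 2 := by positivity
    show (if β ^ 2 * t ≤ β ^ 2 * p.2 then tE (p.1 / β) (β ^ 2 * t)
        (gaussOp (p.1 / β) (β ^ 2 * p.2 - β ^ 2 * t) (PhiL 1 (scl β l))) (fun y => F (y / β))
      else tE (p.1 / β) (β ^ 2 * p.2) (PhiL 1 (scl β l))
        (EX 1 (scl β l) (β ^ 2 * t - β ^ 2 * p.2) fun y => F (y / β))) =
      fun x => (if t ≤ p.2 then tE p.1 t (gaussOp p.1 (p.2 - t) (PhiL β l)) F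
        else tE p.1 p.2 (PhiL β l) (EX β l (t - p.2) F)) (x / β)
    simp only [mul_le_mul_iff_right₀ hb, ← mul_sub]
    split_ifs
    · rw [PhiL_sc hβ hl, gaussOp_sc hβ (h p (by simp)).ne', tE_sc hβ]
    · rw [PhiL_sc hβ hl, EX_sc hβ hl, tE_sc hβ]

theorem deriv_sc (hβ : 0 < β) {f : ℝ → ℝ} (hf : Prof f) (x : ℝ) :
    deriv (sc β f) x = deriv f (x / β) := by
  have h1 := ((hf.d1 (x / β)).comp x ((hasDerivAt_id x).div_const β)).const_mul β
  have h2 : HasDerivAt (sc β f) (β * (deriv f (x / β) * (1 / β))) x := h1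
  rw [h2.deriv]
  field_simp

theorem pen_sc (β : ℝ) : ∀ (l : List (ℝ × ℝ)) (q : ℝ), β ≠ 0 →
    R339.Guerra.pen (β ^ 2 * q) (scl β l) = β ^ 3 * R339.Guerra.pen q l
  | [], _, _ => by simp [scl, R339.Guerra.pen]
  | p :: l, q, hβ => by
    show p.1 / β * ((β ^ 2 * q + β ^ 2 * p.2) ^ 2 - (β ^ 2 * q) ^ 2) +
      R339.Guerra.pen (β ^ 2 * q + β ^ 2 * p.2) (scl β l) =
      β ^ 3 * (p.1 * ((q + p.2) ^ 2 - q ^ 2) + R339.Guerra.pen (q + p.2) l)
    rw [← mul_add, pen_sc β l _ hβ]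
    field_simp

theorem cut_end : ∀ {l : List (ℝ × ℝ)}, (∀ p ∈ l, 0 < p.2) → Sc.cut l (TT l) = l
  | [], _ => rfl
  | [p], _ => by simp [Sc.cut, TT]
  | p :: q :: l, h => by
    have hl : ∀ r ∈ q :: l, 0 < r.2 := fun r hr => h r (List.mem_cons_of_mem p hr)
    have h1 : 0 < TT (q :: l) := by
      rw [Sc.TT_cons]
      have : 0 ≤ TT l := List.sum_nonneg fun x hx => by
        obtain ⟨r, hr, rfl⟩ := List.mem_map.1 hx
        exact (hl r (List.mem_cons_of_mem q hr)).le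
      linarith [hl q (by simp)]
    show (if TT (p :: q :: l) ≤ p.2 then [(p.1, TT (p :: q :: l))]
      else p :: Sc.cut (q :: l) (TT (p :: q :: l) - p.2)) = _
    rw [Sc.TT_cons p, if_neg (by linarith), add_sub_cancel_left, cut_end hl]

namespace Par

variable {P : Par}

/-- the levels in the words of `R339` -/
def mv (P : Par) (β : ℝ) : Fin P.K → ℝ := fun k => β * P.z k

theorem lst_sc (P : Par) (hβ : 0 < β) : P.lst β P.K = scl β (grid (P.mv β)) := by
  unfold lst scl grid mv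
  rw [List.map_ofFn]
  congr 1
  funext k
  simp only [Function.comp]
  rw [mul_div_cancel_left₀ _ hβ.ne', mul_one_div]

theorem OK.grid_pos (h : P.OK) (hβ : 0 < β) : ∀ p ∈ grid (P.mv β), 0 < p.1 := by
  intro p hp
  unfold grid at hp
  rw [List.mem_ofFn] at hp
  obtain ⟨k, rfl⟩ := hp
  exact mul_pos hβ (h.pos k)

theorem OK.Ph_sc (h : P.OK) (hβ : 0 < β) (s : ℝ) :
    P.Ph β s = sc β (PhiT β (grid (P.mv β)) s) := by
  rw [Ph_eq, lst_sc P hβ, PhiT_sc hβ (h.grid_pos hβ)]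

/-- `Γ` in the words of `R339` -/
theorem OK.Gam_sc (h : P.OK) (hβ : 0 < β) {s : ℝ} (hs : s ≤ 1) :
    P.Gam β s = QQ β (grid (P.mv β)) s 0 := by
  have e : (fun x => P.Px β s x ^ 2) =
      fun y => (fun y => deriv (PhiT β (grid (P.mv β)) s) y ^ 2) (y / β) := by
    funext x
    unfold Px
    rw [h.Ph_sc hβ, deriv_sc hβ (PhiT_prof hβ _ _)]
  unfold Gam
  rw [h.E_eq β h.aK (by nlinarith [h.Kp]), e, lst_sc P hβ]
  refine (congrFun (EX_sc hβ (h.grid_pos hβ) s
    (fun y => deriv (PhiT β (grid (P.mv β)) s) y ^ 2)) 0).trans ?_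
  simp only [zero_div]
  rfl

/-- the functional in the words of `R339` -/
theorem OK.val_sc (h : P.OK) (hβ : 0 < β) : P.val β = β * PF β (P.mv β) := by
  have h1 := Sc.pen_cut h hβ (s := 1) ⟨zero_le_one, le_rfl⟩
  have h0 := cut_end (h.lst_pos hβ P.K)
  rw [h.TT_K β] at h0
  rw [mul_one, h0, lst_sc P hβ] at h1
  have h2 := pen_sc β (grid (P.mv β)) 0 hβ.ne'
  rw [mul_zero, h1] at h2
  have h3 : P.pen β 1 = 0 := by simp [pen]
  have h4 : PhiT β (grid (P.mv β)) 0 = PhiL β (grid (P.mv β)) :=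
    PhiT_zero fun p hp => by rw [grid_snd _ p hp]; positivity
  unfold val PF PL
  rw [h.Ph_sc hβ, h4]
  unfold sc
  rw [zero_div]
  rw [h3] at h2
  have hb : β ^ 2 ≠ 0 := by positivity
  have : P.pen β 0 = β * R339.Guerra.pen 0 (grid (P.mv β)) / 4 := by
    apply mul_left_cancel₀ hb
    linarith
  rw [this]
  ring

/-- the segment between two data -/
def seg (P Q : Par) (t : ℝ) : Par := ⟨P.K, P.a, fun k => P.z k + t * (Q.z k - P.z k)⟩

theorem OK.seg (h : P.OK) {Q : Par} (h' : Q.OK) (ha : Q.a = P.a) {t : ℝ} (ht : t ∈ Icc (0:ℝ) 1) :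
    (seg P Q t).OK where
  Kpos := h.Kpos
  aK := h.aK
  mono := fun i j hij => by
    show P.z i + t * (Q.z i - P.z i) ≤ P.z j + t * (Q.z j - P.z j)
    nlinarith [mul_nonneg ht.1 (sub_nonneg.2 (h'.mono hij)),
      mul_nonneg (sub_nonneg.2 ht.2) (sub_nonneg.2 (h.mono hij))]
  pos := fun k => by
    show 0 < P.z k + t * (Q.z k - P.z k)
    rcases le_total (P.z k) (Q.z k) with h1 | h1
    · nlinarith [h.pos k, mul_nonneg ht.1 (sub_nonneg.2 h1)]
    · nlinarith [h'.pos k, mul_nonneg (sub_nonneg.2 ht.2) (sub_nonneg.2 h1)]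
  top := fun k hk => by
    show P.z k + t * (Q.z k - P.z k) = 1
    rw [h.top k hk, h'.top k (ha ▸ hk)]
    ring

theorem seg_one {Q : Par} (hK : Q.K = P.K) (ha : Q.a = P.a) (β : ℝ) :
    (P.seg Q 1).val β = Q.val β := by
  obtain ⟨K, a, z⟩ := P
  obtain ⟨K', a', z'⟩ := Q
  simp only at hK ha
  subst hK ha
  simp [Par.seg]

/-- **first variation**: near a stationary point the functional moves at second order -/
theorem OK.pert (h : P.OK) (hβ : 0 < β) {η : ℝ} (hη : 0 ≤ η)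
    (hg : ∀ s ∈ Icc 0 P.b, |P.Gam β s - s| ≤ η) {Q : Par} {e : ℝ} (h' : Q.OK) (hK : Q.K = P.K)
    (ha : Q.a = P.a) (hz : ∀ k, |Q.z k - P.z k| ≤ e) :
    Q.val β ≤ P.val β + β ^ 2 / 2 * (e * η + CG β * e ^ 2) := by
  have hKp := h.Kp
  have he : 0 ≤ e := (abs_nonneg _).trans (hz 0)
  have hCG := CG_nonneg β
  set w : Fin P.K → ℝ := fun k => β * (Q.z k - P.z k) with hw
  have emv : ∀ t, (P.seg Q t).mv β = P.mv β + t • w := fun t => by
    funext k
    show β * (P.z k + t * (Q.z k - P.z k)) = β * P.z k + t * (β * (Q.z k - P.z k))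
    ring
  set D : ℝ → ℝ := fun t => ∑ k : Fin P.K, w k * ((1/2) *
    ∫ s in ((k:ℕ):ℝ)/P.K..(((k:ℕ):ℝ)+1)/P.K, (QQ β (grid (P.mv β + t • w)) s 0 - s)) with hD
  have hd : ∀ t ∈ Icc (0:ℝ) 1, HasDerivAt (fun t => PF β (P.mv β + t • w)) (D t) t := by
    intro t ht
    have h1 := PF_hasDerivAt dmFormula hβ (m := P.mv β + t • w)
      (fun k => by rw [← emv]; exact mul_pos hβ ((h.seg h' ha ht).pos k)) w
    have h2 : HasDerivAt (fun r : ℝ => PF β (P.mv β + t • w + r • w)) (D t) (t - t) := by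
      rw [sub_self]; exact h1
    have h3 := h2.comp_sub_const t t
    refine h3.congr_of_eventuallyEq (Eventually.of_forall fun r => ?_)
    show PF β (P.mv β + r • w) = PF β (P.mv β + t • w + (r - t) • w)
    rw [add_assoc, ← add_smul, add_sub_cancel]
  have hb : ∀ t ∈ Icc (0:ℝ) 1, |D t| ≤ β * e * (η + CG β * e) / 2 := by
    intro t ht
    have hs := h.seg h' ha ht
    have hk : ∀ k : Fin P.K, |w k * ((1/2) * ∫ s in ((k:ℕ):ℝ)/P.K..(((k:ℕ):ℝ)+1)/P.K,
        (QQ β (grid (P.mv β + t • w)) s 0 - s))| ≤ β * e * (η + CG β * e) / 2 / P.K := by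
      intro k
      rcases le_or_gt P.a k with hk | hk
      · have : w k = 0 := by
          show β * (Q.z k - P.z k) = 0
          rw [h.top k hk, h'.top k (ha ▸ hk)]
          ring
        rw [this, zero_mul, abs_zero]
        positivity
      · have hle : ((k:ℕ):ℝ)/P.K ≤ (((k:ℕ):ℝ)+1)/P.K :=
          div_le_div_of_nonneg_right (by linarith) hKp.le
        have hk1 : (((k:ℕ):ℝ)+1)/P.K ≤ P.b :=
          div_le_div_of_nonneg_right (by exact_mod_cast hk) hKp.le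
        have h1 : ‖∫ s in ((k:ℕ):ℝ)/P.K..(((k:ℕ):ℝ)+1)/P.K,
            (QQ β (grid (P.mv β + t • w)) s 0 - s)‖ ≤
            (η + CG β * e) * |(((k:ℕ):ℝ)+1)/P.K - ((k:ℕ):ℝ)/P.K| := by
          apply intervalIntegral.norm_integral_le_of_norm_le_const
          intro s hs'
          rw [uIoc_of_le hle] at hs'
          have hs0 : 0 ≤ s := le_trans (by positivity) hs'.1.le
          have hsb : s ≤ P.b := hs'.2.trans hk1
          have hs1 : s ≤ 1 := hsb.trans h.b_le_one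
          have e1 : QQ β (grid (P.mv β + t • w)) s 0 = (P.seg Q t).Gam β s := by
            rw [hs.Gam_sc hβ hs1, emv]
            rfl
          have h2 := hs.Gam_zlip h (e := e) rfl (fun j => by
            show |P.z j + t * (Q.z j - P.z j) - P.z j| ≤ e
            rw [add_sub_cancel_left, abs_mul, abs_of_nonneg ht.1]
            nlinarith [hz j, abs_nonneg (Q.z j - P.z j), ht.1, ht.2]) β ⟨hs0, hs1⟩
          have h3 := hg s ⟨hs0, hsb⟩
          rw [Real.norm_eq_abs, e1, abs_le] at *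
          constructor <;> linarith [h2.1, h2.2, h3.1, h3.2]
        have e2 : (((k:ℕ):ℝ)+1)/P.K - ((k:ℕ):ℝ)/P.K = 1 / P.K := by ring
        rw [Real.norm_eq_abs, e2, abs_of_pos (a := 1 / (P.K:ℝ)) (by positivity)] at h1
        have h4 : |w k| ≤ β * e := by
          show |β * (Q.z k - P.z k)| ≤ β * e
          rw [abs_mul, abs_of_pos hβ]
          exact mul_le_mul_of_nonneg_left (hz k) hβ.le
        rw [abs_mul (w k), abs_mul (1/2), abs_of_pos (by norm_num : (0:ℝ) < 1/2)]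
        calc _ ≤ β * e * (1 / 2 * ((η + CG β * e) * (1 / P.K))) := by gcongr
          _ = _ := by ring
    refine (Finset.abs_sum_le_sum_abs _ _).trans ((Finset.sum_le_sum fun k _ => hk k).trans ?_)
    rw [Finset.sum_const, Finset.card_univ, Fintype.card_fin, nsmul_eq_mul]
    apply le_of_eq
    field_simp
  have h1 := abs_sub_le_of_rder (a := 0) (b := 1) (s := 0) (t := 1)
    (fun t ht => (hd t ht).continuousAt.continuousWithinAt)
    (fun r hr => (hd r ⟨hr.1, hr.2.le⟩).hasDerivWithinAt) ⟨le_rfl, zero_le_one⟩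
    ⟨zero_le_one, le_rfl⟩ (fun r hr => hb r (by
      simp only [zero_le_one, min_eq_left, max_eq_right] at hr
      exact ⟨hr.1, hr.2.le⟩))
  have e1 : Q.val β = β * PF β (P.mv β + (1:ℝ) • w) := by
    have h5 := (h.seg h' ha ⟨zero_le_one, le_rfl⟩).val_sc hβ
    rw [seg_one hK ha, emv] at h5
    exact h5
  rw [e1, h.val_sc hβ]
  simp only [zero_smul, add_zero, sub_zero, abs_one, mul_one] at h1
  have h2 := mul_le_mul_of_nonneg_left (abs_le.1 h1).2 hβ.le
  nlinarith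

end Par

end

end Crest.Agent.T157.Pf
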