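import Crest.Agent.T157.PlbS_78
import Crest.Agent.T157.CascP_52

/-!
# Row 157: the cavity step for the new spin (helper78)
-/

set_option autoImplicit false
set_option linter.unusedSectionVars false

noncomputable section

namespace Crest.Agent.T157.Plb

open MeasureTheory Real Set
open Crest.Agent.T157.E Crest.Agent.T157.Casc Crest.Agent.T157.SL
open Crest.Agent.R339.Guerra (Phi T pen Good mh γ Lev Lip lip_Phi int_exp_γ)

variable {N : ℕ} {β : ℝ}

theorem wt1 {Ω : Type*} [Fintype Ω] [Nonempty Ω] : Wt fun _ : Ω => (1 : ℝ) :=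
  Wt.of_pos fun _ => one_pos

theorem pi2_ov_mono {w : Cube N → ℝ} (hw : Wt w) : ∀ (L : List (Lv (Cube N))) (j : ℕ)
    (z : Cube N → ℝ), pi2 w L j ov z ≤ pi2 w L (j + 1) ov z
  | [], _, _ => by simp [pi2]
  | l :: L, 0, z => by
    rw [pi2_cons, pi2_zero, funext (pi2_zero w L ov)]; exact mu_le_tE hw l L z
  | l :: L, j + 1, z => tE_mono (lg_X hw L) (eg_pi2 hw L j ov) (eg_pi2 hw L (j + 1) ov)
      (pi2_ov_mono hw L j) l z

/-! ### the interpolating cascade -/

/-- a scalar field on the new spin -/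
def e1 (N : ℕ) (c m : ℝ) (f f' : ℝ → ℝ) : TL (Cube (N + 1)) :=
  ⟨Unit, fun t x _ => f t * (c * sv x 0), fun t x _ => f' t * (c * sv x 0), m⟩

/-- the cavity field -/
def tz (N : ℕ) (β : ℝ) : TL (Cube (N + 1)) :=
  ⟨Fin N, fun t x i => sin t * (β / √((N : ℝ) + 1) * (sv x 0 * sv x i.succ)),
    fun t x i => cos t * (β / √((N : ℝ) + 1) * (sv x 0 * sv x i.succ)), 0⟩

/-- blocks of three levels -/
def blk (N : ℕ) (β : ℝ) : List (ℝ × ℝ) → (ℕ → ℝ) → List (TL (Cube (N + 1)))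
  | [], _ => []
  | a :: ℓ, q => (pull Fin.tail (fl N a)).cst :: e1 N a.2 a.1 sin cos ::
      e1 N (β * √(q 1 - q 0)) a.1 cos (fun t => -sin t) :: blk N β ℓ fun j => q (j + 1)

/-- the same as a mixed list -/
def mix (N : ℕ) (β t : ℝ) : List (ℝ × ℝ) → (ℕ → ℝ) → List (Lv (Cube N) ⊕ Lv (Cube (N + 1)))
  | [], _ => []
  | a :: ℓ, q => .inl (fl N a) :: .inr ((e1 N a.2 a.1 sin cos).at t) ::
      .inr ((e1 N (β * √(q 1 - q 0)) a.1 cos fun t => -sin t).at t) :: mix N β t ℓ fun j => q (j + 1)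

/-- the Parisi list -/
def parF (β : ℝ) : List (ℝ × ℝ) → (ℕ → ℝ) → Lev
  | [], q => [(β, 1 - q 0)]
  | a :: ℓ, q => (β * a.1, q 1 - q 0) :: parF β ℓ fun j => q (j + 1)

/-- total variance of the perturbation -/
def tot (ℓ : List (ℝ × ℝ)) : ℝ := (ℓ.map fun a => a.2 ^ 2).sum

theorem tot_nonneg (ℓ : List (ℝ × ℝ)) : 0 ≤ tot ℓ :=
  List.sum_nonneg fun a ha => by obtain ⟨b, -, rfl⟩ := List.mem_map.1 ha; positivity

theorem ext_mix (t : ℝ) : ∀ (ℓ : List (ℝ × ℝ)) (q : ℕ → ℝ),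
    extL Fin.tail (mix N β t ℓ q) = atL (blk N β ℓ q) t
  | [], _ => rfl
  | a :: ℓ, q => by
    have := ext_mix t ℓ fun j => q (j + 1)
    simp only [mix, extL, blk, atL, List.map_cons] at this ⊢
    rw [this]; rfl

theorem base_mix (t : ℝ) : ∀ (ℓ : List (ℝ × ℝ)) (q : ℕ → ℝ), base (mix N β t ℓ q) = fL N ℓ
  | [], _ => rfl
  | a :: ℓ, q => by
    have := base_mix t ℓ fun j => q (j + 1)
    simp only [mix, base, fL, List.map_cons] at this ⊢
    rw [this]

theorem blk_C1 : ∀ (ℓ : List (ℝ × ℝ)) (q : ℕ → ℝ), ∀ l ∈ blk N β ℓ q, l.C1 univ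
  | [], _ => by simp [blk]
  | a :: ℓ, q => by
    simp only [blk, List.mem_cons, forall_eq_or_imp]
    exact ⟨cst_C1 _ _, ⟨fun t _ _ _ => (hasDerivAt_sin t).mul_const _,
      fun _ _ => (continuous_cos.mul continuous_const).continuousOn⟩,
      ⟨fun t _ _ _ => (hasDerivAt_cos t).mul_const _,
      fun _ _ => (continuous_sin.neg.mul continuous_const).continuousOn⟩, blk_C1 ℓ _⟩

/-- fields which are odd in the new spin -/
def Od (b : Cube (N + 1) → ℝ) : Prop := ∃ a : Cube N → ℝ, ∀ x, b x = sv x 0 * a (Fin.tail x)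

theorem fld_e1 (c m t : ℝ) (f f' : ℝ → ℝ) (g : Unit → ℝ) (x : Cube (N + 1)) :
    ((e1 N c m f f').at t).fld g x = f t * c * g () * sv x 0 := by
  show ∑ i : Unit, f t * (c * sv x 0) * g i = _
  rw [Fintype.sum_unique]; ring

theorem od_e1 (c m t : ℝ) (f f' : ℝ → ℝ) (b : Cube (N + 1) → ℝ) (g : Unit → ℝ) (hb : Od b) :
    Od (b + ((e1 N c m f f').at t).fld g) := by
  obtain ⟨a, ha⟩ := hb
  refine ⟨fun s => a s + f t * c * g (), fun x => ?_⟩
  rw [Pi.add_apply, ha, fld_e1]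
  ring

theorem od_tz (t : ℝ) (b : Cube (N + 1) → ℝ) (g : Fin N → ℝ) (hb : Od b) :
    Od (b + ((tz N β).at t).fld g) := by
  obtain ⟨a, ha⟩ := hb
  refine ⟨fun s => a s + ∑ i, sin t * (β / √((N : ℝ) + 1) * sv s i) * g i, fun x => ?_⟩
  simp only [Pi.add_apply, ha, Lv.fld, tz, mul_add, Finset.mul_sum]
  congr 1
  exact Finset.sum_congr rfl fun i _ => by
    have : sv (Fin.tail x) i = sv x i.succ := rfl
    rw [this]; ring

theorem cov_e1 (c m t : ℝ) (f f' : ℝ → ℝ) (x y : Cube (N + 1)) :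
    ((e1 N c m f f').at t).cov x y = f t ^ 2 * c ^ 2 * (sv x 0 * sv y 0) := by
  show ∑ _i : Unit, f t * (c * sv x 0) * (f t * (c * sv y 0)) = _
  rw [Fintype.sum_unique]; ring

theorem S_e1 (c m t : ℝ) (f f' : ℝ → ℝ) (x y : Cube (N + 1)) :
    (e1 N c m f f').S t x y = f' t * f t * c ^ 2 * (sv x 0 * sv y 0) := by
  show ∑ _i : Unit, f' t * (c * sv x 0) * (f t * (c * sv y 0)) = _
  rw [Fintype.sum_unique]; ring

theorem S_cst {Ω : Type*} (l : Lv Ω) (t : ℝ) (x y : Ω) : l.cst.S t x y = 0 := by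
  simp [TL.S, Lv.cst]

theorem sv_mul_self (x : Cube N) (i : Fin N) : sv x i * sv x i = 1 := spin_mul_self _

theorem sum_tail (hN : 0 < N) (x y : Cube (N + 1)) :
    ∑ i : Fin N, sv x i.succ * sv y i.succ = N * ov (Fin.tail x) (Fin.tail y) := by
  rw [ov, mul_div_cancel₀ _ (by positivity)]; rfl

theorem S_tz (hN : 0 < N) (t : ℝ) (x y : Cube (N + 1)) : (tz N β).S t x y =
    sin t * cos t * (sv x 0 * sv y 0) * (β ^ 2 * (N / (N + 1) * ov (Fin.tail x) (Fin.tail y))) := by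
  have h : (β / √((N : ℝ) + 1)) ^ 2 = β ^ 2 / (N + 1) := by rw [div_pow, sq_sqrt (by positivity)]
  have : (tz N β).S t x y = sin t * cos t * (sv x 0 * sv y 0) * ((β / √((N : ℝ) + 1)) ^ 2 *
      ∑ i : Fin N, sv x i.succ * sv y i.succ) := by
    simp only [TL.S, tz, Finset.mul_sum]
    exact Finset.sum_congr rfl fun i _ => by ring
  rw [this, h, sum_tail hN]; ring

theorem cov_tz_le (hN : 0 < N) (t : ℝ) (x : Cube (N + 1)) : ((tz N β).at t).cov x x ≤ β ^ 2 := by
  have h : (β / √((N : ℝ) + 1)) ^ 2 = β ^ 2 / (N + 1) := by rw [div_pow, sq_sqrt (by positivity)]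
  have : ((tz N β).at t).cov x x = sin t ^ 2 * (sv x 0 * sv x 0) * ((β / √((N : ℝ) + 1)) ^ 2 *
      ∑ i : Fin N, sv x i.succ * sv x i.succ) := by
    simp only [Lv.cov, tz, Finset.mul_sum]
    exact Finset.sum_congr rfl fun i _ => by ring
  rw [this, h, sum_tail hN, ov_self hN, sv_mul_self, mul_one, mul_one]
  have h1 : β ^ 2 / (N + 1) * N ≤ β ^ 2 := by
    rw [div_mul_eq_mul_div, div_le_iff₀ (by positivity)]; nlinarith [sq_nonneg β]
  exact (mul_le_of_le_one_left (by positivity) (sin_sq_le_one t)).trans h1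

theorem adm_mix (t : ℝ) : ∀ (ℓ : List (ℝ × ℝ)) (q : ℕ → ℝ) (m0 V : ℝ), Mono m0 (fL N ℓ) →
    (∀ j, q j ≤ q (j + 1)) → (∀ j, q j ≤ 1) → tot ℓ + β ^ 2 * (1 - q 0) ≤ V →
    Adm Od m0 V (mix N β t ℓ q)
  | [], q, _, _, h, _, h1, hV => ⟨h, le_trans (by
      have := sub_nonneg.2 (h1 0); have := tot_nonneg []; positivity) hV⟩
  | a :: ℓ, q, _, V, h, hq, h1, hV => by
    refine ⟨h.1, rfl, od_e1 _ _ _ _ _, a.2 ^ 2, fun x => ?_, rfl, od_e1 _ _ _ _ _,
      β ^ 2 * (q 1 - q 0), fun x => ?_, adm_mix t ℓ _ _ _ h.2 (fun j => hq _) (fun j => h1 _) ?_⟩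
    · rw [cov_e1, sv_mul_self, mul_one]
      exact mul_le_of_le_one_left (sq_nonneg _) (sin_sq_le_one t)
    · have := sub_nonneg.2 (hq 0)
      rw [cov_e1, sv_mul_self, mul_one, mul_pow, sq_sqrt this]
      exact mul_le_of_le_one_left (by positivity) (cos_sq_le_one t)
    · simp only [tot, List.map_cons, List.sum_cons, zero_add] at hV ⊢
      linarith

theorem rel_mix {t T : ℝ} (ht : 0 ≤ sin t * cos t) : ∀ (ℓ : List (ℝ × ℝ)) (q : ℕ → ℝ) (τ : ℝ),
    (∀ j, q j ≤ q (j + 1)) → 0 ≤ τ → τ + tot ℓ ≤ T →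
    Rel Fin.tail (mix N β t ℓ q) (fun j x y => sin t * cos t * (sv x 0 * sv y 0) *
        (β ^ 2 * (N / (N + 1) * ov (Fin.tail x) (Fin.tail y) - q 0) + τ) +
        Sacc (blk N β ℓ q) t j x y)
      fun j s s' => sin t * cos t * (β ^ 2 * |ov s s' - q j| + (β ^ 2 / (N + 1) + T)) := by
  have key : ∀ (q0 τ : ℝ), 0 ≤ τ → τ ≤ T → ∀ x y : Cube (N + 1), sin t * cos t * (sv x 0 * sv y 0) *
      (β ^ 2 * (N / (N + 1) * ov (Fin.tail x) (Fin.tail y) - q0) + τ) + 0 ≤ sin t * cos t *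
      (β ^ 2 * |ov (Fin.tail x) (Fin.tail y) - q0| + (β ^ 2 / (N + 1) + T)) := by
    intro q0 τ h0 h1 x y
    rw [add_zero, mul_assoc]
    refine mul_le_mul_of_nonneg_left ((le_abs_self _).trans ?_) ht
    set r := ov (Fin.tail x) (Fin.tail y)
    have hr : |r| ≤ 1 := abs_ov_le _ _
    have e : (N : ℝ) / (N + 1) * r - q0 = (r - q0) - r / (N + 1) := by field_simp; ring
    rw [abs_mul, abs_mul, abs_sv, abs_sv, one_mul, one_mul, e]
    refine (abs_add_le _ _).trans ?_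
    rw [abs_of_nonneg h0, abs_mul, abs_of_nonneg (sq_nonneg β)]
    have h2 : |r - q0 - r / (N + 1)| ≤ |r - q0| + 1 / (N + 1) := (abs_sub _ _).trans (by
      rw [abs_div, abs_of_pos (by positivity : (0 : ℝ) < N + 1)]
      exact add_le_add le_rfl (div_le_div_of_nonneg_right hr (by positivity)))
    have h3 := mul_le_mul_of_nonneg_left h2 (sq_nonneg β)
    have h4 : β ^ 2 / (N + 1) = β ^ 2 * (1 / (N + 1)) := by ring
    linarith
  intro ℓ
  induction ℓ with
  | nil => exact fun q τ _ h0 h1 => key _ τ h0 (by simpa [tot] using h1)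
  | cons a ℓ ih =>
    intro q τ hq h0 h1
    simp only [tot, List.map_cons, List.sum_cons] at h1
    have h2 := tot_nonneg ℓ
    refine ⟨key _ τ h0 (by simp only [tot] at h2; nlinarith [sq_nonneg a.2]), ?_⟩
    have := ih (fun j => q (j + 1)) (τ + a.2 ^ 2) (fun j => hq _) (by positivity)
      (by simp only [tot]; linarith)
    simp only [Rel]
    convert this using 4 with j x y
    simp only [blk, Sacc_cons, S_cst, S_e1, mul_pow, sq_sqrt (sub_nonneg.2 (hq 0)), zero_add]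
    ring

theorem diag_blk (t : ℝ) (x : Cube (N + 1)) : ∀ (ℓ : List (ℝ × ℝ)) (q : ℕ → ℝ),
    (∀ j, q j ≤ q (j + 1)) → Sacc (blk N β ℓ q) t (blk N β ℓ q).length x x =
      sin t * cos t * (tot ℓ - β ^ 2 * (q ℓ.length - q 0))
  | [], q, _ => by simp [blk, Sacc_zero, tot]
  | a :: ℓ, q, hq => by
    have := diag_blk t x ℓ (fun j => q (j + 1)) fun j => hq _
    simp only [blk, List.length_cons, Sacc_cons, S_cst, S_e1, mul_pow,
      sq_sqrt (sub_nonneg.2 (hq 0)), this, sv_mul_self, tot, List.map_cons, List.sum_cons, zero_add]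
    ring

/-! ### the end points -/

theorem sum_cube (F : Cube (N + 1) → ℝ) :
    ∑ x, F x = ∑ s : Cube N, (F (Fin.cons true s) + F (Fin.cons false s)) := by
  rw [← (Fin.consEquiv fun _ : Fin (N + 1) => Bool).sum_comp, Fintype.sum_prod_type_right]
  exact Finset.sum_congr rfl fun s _ => by rw [Fintype.sum_bool]; rfl

theorem sv_t (s : Cube N) : sv (Fin.cons true s : Cube (N + 1)) 0 = 1 := by
  simp [sv, Crest.ProbabilityR.SpinGlassDynamics.spin]

theorem sv_f (s : Cube N) : sv (Fin.cons false s : Cube (N + 1)) 0 = -1 := by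
  simp [sv, Crest.ProbabilityR.SpinGlassDynamics.spin]

theorem od_ge (h : Cube N → ℝ) (b : Cube (N + 1) → ℝ) (hb : Od b) :
    X (fun _ => 1) [] h - 0 ≤ X (fun _ => 1) [] fun x => h (Fin.tail x) + b x := by
  obtain ⟨a, ha⟩ := hb
  simp only [X, one_mul, sub_zero]
  refine log_le_log (Finset.sum_pos (fun _ _ => exp_pos _) Finset.univ_nonempty) ?_
  rw [sum_cube]
  refine Finset.sum_le_sum fun s _ => ?_
  simp only [ha, Fin.tail_cons, sv_t, sv_f, exp_add, ← mul_add]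
  refine le_mul_of_one_le_right (exp_pos _).le ?_
  have := add_one_le_exp (1 * a s)
  have := add_one_le_exp (-1 * a s)
  linarith

theorem card_tail (s : Cube N) :
    (Finset.univ.filter fun x : Cube (N + 1) => Fin.tail x = s).card ≤ 2 := by
  refine le_trans (Finset.card_le_card (t := {Fin.cons true s, Fin.cons false s}) fun x hx => ?_)
    Finset.card_le_two
  have := (Finset.mem_filter.1 hx).2
  rw [← this, ← Fin.cons_self_tail x]
  cases x 0 <;> simp

theorem top_blk : ∀ (ℓ : List (ℝ × ℝ)) (q : ℕ → ℝ),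
    X (fun _ => 1) (atL (blk N β ℓ q) (π / 2)) = X (fun _ => 1) (fL (N + 1) ℓ)
  | [], _ => rfl
  | a :: ℓ, q => by
    have := top_blk ℓ fun j => q (j + 1)
    simp only [blk, atL, fL, List.map_cons] at this ⊢
    rw [C.X_split wt1 (l := fl (N + 1) a) (l1 := pull Fin.tail (fl N a))
      (l2 := (e1 N a.2 a.1 sin cos).at (π / 2)) rfl rfl fun x y => ?_]
    · simp only [C.X_cons, this]
      rw [C.step_of_zero (l := (e1 N (β * √(q 1 - q 0)) a.1 cos fun t => -sin t).at (π / 2))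
        fun x i => by simp [e1]]
      rfl
    · rw [cov_e1, sin_pi_div_two]
      show ∑ i : Fin (N + 1), a.2 * sv x i * (a.2 * sv y i) =
        ∑ i : Fin N, a.2 * sv x i.succ * (a.2 * sv y i.succ) + _
      rw [Fin.sum_univ_succ]
      ring

/-- states of product form -/
def st (h : Cube N → ℝ) (c : ℝ) : Cube (N + 1) → ℝ := fun x => h (Fin.tail x) + c * sv x 0

theorem int_unit (F : ℝ → ℝ) : ∫ g : Unit → ℝ, F (g ()) ∂gv Unit = ∫ y, F y ∂γ :=
  (measurePreserving_funUnique γ Unit).integral_comp' F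

theorem bot_nil (hβ : 0 < β) {δ : ℝ} (hδ : 0 ≤ δ) (h : Cube N → ℝ) (c : ℝ) :
    X (fun _ => 1) [] (st h c) + β ^ 2 * δ / 2 =
      X (fun _ => 1) [] h + β * Phi β [(β, δ)] (c / β) := by
  have h0 : 0 < ∑ s, exp (h s) := Finset.sum_pos (fun _ _ => exp_pos _) Finset.univ_nonempty
  have h1 : 0 < exp c + exp (-c) := by positivity
  have e1 : ∑ x, exp (st h c x) = (∑ s, exp (h s)) * (exp c + exp (-c)) := by
    rw [sum_cube, Finset.sum_mul]
    exact Finset.sum_congr rfl fun s _ => by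
      simp only [st, Fin.tail_cons, sv_t, sv_f, exp_add, mul_one, mul_neg, mul_add]
  have e2 : ∀ y, exp (β * (log (2 * cosh (β * (c / β + √δ * y))) / β)) =
      exp c * exp (β * √δ * y) + exp (-c) * exp (-(β * √δ) * y) := fun y => by
    rw [mul_div_cancel₀ _ hβ.ne', exp_log (by have := cosh_pos (β * (c / β + √δ * y)); positivity),
      cosh_eq, ← exp_add, ← exp_add, mul_add, mul_div_cancel₀ _ hβ.ne']
    ring_nf
  have hi : ∀ t : ℝ, Integrable (fun y => exp (t * y)) γ := fun t =>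
    Integrable.of_integral_ne_zero (by rw [int_exp_γ]; exact (exp_pos _).ne')
  simp only [X, one_mul, Phi, T, e1, e2]
  rw [integral_add ((hi _).const_mul _) ((hi _).const_mul _), integral_const_mul, integral_const_mul,
    int_exp_γ, int_exp_γ, neg_sq, ← add_mul, log_mul h0.ne' h1.ne', log_mul h1.ne' (exp_pos _).ne',
    log_exp, mul_pow, sq_sqrt hδ]
  field_simp
  ring

theorem good_parF (hβ : 0 < β) : ∀ (ℓ : List (ℝ × ℝ)) (q : ℕ → ℝ) (m0 : ℝ), Mono m0 (fL N ℓ) →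
    (∀ a ∈ ℓ, 0 < a.1) → (∀ j, q j ≤ q (j + 1)) → (∀ j, q j ≤ 1) →
    Good β (parF β ℓ q) ∧ β * m0 ≤ mh β (parF β ℓ q)
  | [], q, _, h, _, _, h1 => ⟨⟨hβ, le_rfl, sub_nonneg.2 (h1 0), trivial⟩,
      mul_le_of_le_one_right hβ.le h⟩
  | a :: ℓ, q, _, h, ha, hq, h1 => by
    have := good_parF hβ ℓ (fun j => q (j + 1)) a.1 h.2 (fun b hb => ha b (by simp [hb]))
      (fun j => hq _) fun j => h1 _
    exact ⟨⟨mul_pos hβ (ha a (by simp)), this.2, sub_nonneg.2 (hq 0), this.1⟩,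
      mul_le_mul_of_nonneg_left h.1 hβ.le⟩

theorem sum_parF : ∀ (ℓ : List (ℝ × ℝ)) (q : ℕ → ℝ), ((parF β ℓ q).map Prod.snd).sum = 1 - q 0
  | [], q => by simp [parF]
  | a :: ℓ, q => by simp [parF, sum_parF ℓ]

theorem pen_parF : ∀ (ℓ : List (ℝ × ℝ)) (q : ℕ → ℝ) (m0 : ℝ), pen (q 0) (parF β ℓ q) =
    β * (1 - m0 * q 0 ^ 2 - ∑ j ∈ Finset.range ((fL N ℓ).length + 1), dm (fL N ℓ) m0 j * q j ^ 2)
  | [], q, m0 => by
    have : dm ([] : List (Lv (Cube N))) m0 0 = 1 - m0 := rfl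
    simp only [parF, pen, fL, List.map_nil, List.length_nil, zero_add, Finset.sum_range_one, this]
    ring
  | a :: ℓ, q, m0 => by
    have := pen_parF ℓ (fun j => q (j + 1)) a.1
    simp only [fL, List.map_cons, List.length_cons] at this ⊢
    rw [Finset.sum_range_succ']
    simp only [dm_cons_succ, parF, pen, add_sub_cancel, zero_add] at this ⊢
    rw [this]
    simp only [dm, ex, exP, List.getElem?_cons_zero]
    ring

theorem bot_blk (hβ : 0 < β) : ∀ (ℓ : List (ℝ × ℝ)) (q : ℕ → ℝ) (m0 : ℝ), Mono m0 (fL N ℓ) →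
    (∀ a ∈ ℓ, 0 < a.1) → (∀ j, q j ≤ q (j + 1)) → (∀ j, q j ≤ 1) → ∀ (h : Cube N → ℝ) (c : ℝ),
    X (fun _ => 1) (atL (blk N β ℓ q) 0) (st h c) + β ^ 2 * (1 - q ℓ.length) / 2 =
      X (fun _ => 1) (fL N ℓ) h + β * Phi β (parF β ℓ q) (c / β)
  | [], q, _, _, _, _, h1, h, c => bot_nil hβ (sub_nonneg.2 (h1 0)) h c
  | a :: ℓ, q, _, hM, ha, hq, h1, h, c => by
    have ih := bot_blk hβ ℓ (fun j => q (j + 1)) a.1 hM.2 (fun b hb => ha b (by simp [hb]))
      (fun j => hq _) fun j => h1 _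
    have hG := (good_parF (N := N) hβ ℓ (fun j => q (j + 1)) a.1 hM.2
      (fun b hb => ha b (by simp [hb])) (fun j => hq _) fun j => h1 _).1
    have hm : 0 < a.1 := ha a (by simp)
    set f := Phi β (parF β ℓ fun j => q (j + 1)) with hf
    set r := β ^ 2 * (1 - q (ℓ.length + 1)) / 2 with hr
    set F' := X (fun _ => 1) (atL (blk N β ℓ fun j => q (j + 1)) 0) with hF'
    set F := X (fun _ : Cube N => (1 : ℝ)) (fL N ℓ) with hF
    have hI : 0 < ∫ y, exp (β * a.1 * f (c / β + √(q 1 - q 0) * y)) ∂γ :=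
      integral_exp_pos ((lip_Phi hβ _ hG).integrable_exp _ _ _)
    set l3 := (e1 N (β * √(q 1 - q 0)) a.1 cos fun t => -sin t).at 0 with hl3
    have h3 : ∀ h, step l3 F' (st h c) = F h + (β * T (β * a.1) (q 1 - q 0) f (c / β) - r) :=
      fun h => by
      have e : ∀ g : Unit → ℝ, exp (a.1 * F' (st h c + l3.fld g)) =
          exp (a.1 * (F h - r)) * exp (β * a.1 * f (c / β + √(q 1 - q 0) * g ())) := fun g => by
        have e0 : st h c + l3.fld g = st h (c + β * √(q 1 - q 0) * g ()) := by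
          funext x
          have := fld_e1 (β * √(q 1 - q 0)) a.1 0 cos (fun t => -sin t) g x
          rw [Pi.add_apply, show l3.fld g x = _ from this, cos_zero]
          simp only [st]
          ring
        have e1 := ih h (c + β * √(q 1 - q 0) * g ())
        rw [add_div, mul_assoc, mul_div_cancel_left₀ _ hβ.ne'] at e1
        rw [e0, ← exp_add, mul_assoc β, eq_sub_of_add_eq e1]
        congr 1; ring
      rw [C.step_ne (l := l3) hm.ne']
      show a.1⁻¹ * log (∫ g : Unit → ℝ, exp (a.1 * F' (st h c + l3.fld g)) ∂gv Unit) = _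
      simp only [e]
      rw [integral_const_mul, int_unit fun y => exp (β * a.1 * f (c / β + √(q 1 - q 0) * y)),
        log_mul (exp_pos _).ne' hI.ne', log_exp, T]
      field_simp
      ring
    have hF0 := (lg_X (wt1 (Ω := Cube N)) (fL N ℓ)).Z_pos (fl N a) h
    show step (pull Fin.tail (fl N a)) (step ((e1 N a.2 a.1 sin cos).at 0) (step l3 F')) (st h c) + r =
      step (fl N a) F h + β * T (β * a.1) (q 1 - q 0) f (c / β)
    rw [C.step_of_zero (l := (e1 N a.2 a.1 sin cos).at 0) fun x i => by simp [e1],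
      C.step_ne (Ω := Cube (N + 1)) (l := pull Fin.tail (fl N a)) hm.ne',
      C.step_ne (l := fl N a) hm.ne']
    have e : ∀ g, st h c + (pull (Ω' := Cube (N + 1)) Fin.tail (fl N a)).fld g =
        st (h + (fl N a).fld g) c := fun g => by
      funext x
      simp only [st, Pi.add_apply, Lv.fld]
      ring
    simp only [e, h3, mul_add, exp_add]
    rw [integral_mul_const, log_mul hF0.ne' (exp_pos _).ne', log_exp]
    field_simp
    ring

/-! ### the cavity step -/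

theorem tot_par (k : ℕ) (s : ℝ) {lam : ℕ → ℝ} (hl : Box lam) : tot (par k s lam) ≤ 4 * (k * s ^ 2) := by
  have := List.sum_le_card_nsmul ((par k s lam).map fun a => a.2 ^ 2) (4 * s ^ 2) fun a ha => by
    simp only [par, List.map_map, List.mem_map] at ha
    obtain ⟨j, -, rfl⟩ := ha
    have h1 := (hl j).1
    have h2 := (hl j).2
    have : lam j ^ 2 ≤ 4 := by nlinarith
    simp only [Function.comp, mul_pow]
    nlinarith [sq_nonneg s]
  simp only [par, List.length_map, List.length_range, nsmul_eq_mul] at this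
  simp only [tot, par]
  linarith

theorem pair_cmul {Ω : Type*} [Fintype Ω] {w : Ω → ℝ} (hw : Wt w) (L : List (Lv Ω)) (m0 c : ℝ)
    (K : ℕ → Ω → Ω → ℝ) (z : Ω → ℝ) :
    pair w L m0 (fun j x y => c * K j x y) z = c * pair w L m0 K z := by
  simp only [pair_eq_sum hw, pi2_const_mul, Finset.mul_sum]
  exact Finset.sum_congr rfl fun i _ => by ring

theorem pair_one {Ω : Type*} [Fintype Ω] {w : Ω → ℝ} (hw : Wt w) (L : List (Lv Ω)) (c : ℝ)
    (z : Ω → ℝ) : pair w L 0 (fun _ _ _ => c) z = c := by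
  rw [pair_const hw L 0 fun _ => c, ← Finset.sum_mul, sum_dm, ex_length, sub_zero, one_mul]

theorem a_arith {β c0 σ δ n v T r X1 X0 X Ph P S pp qk : ℝ} (hβ : 0 ≤ β) (hc1 : 1 ≤ c0) (hσ : 0 ≤ σ)
    (hδ : 0 ≤ δ) (hn : 0 ≤ n) (hv : 0 ≤ v) (hr : r ≤ β ^ 2 * n) (hT : T ≤ 4 * v)
    (b1 : 0 ≤ X1 - (β ^ 2 * (1 - qk) - r - c0 * (β ^ 2 * (σ + δ) + (r + T))) * (1 ^ 2 / 2) -
      (X0 - (β ^ 2 * (1 - qk) - r - c0 * (β ^ 2 * (σ + δ) + (r + T))) * (0 ^ 2 / 2)))
    (b3 : X0 + β ^ 2 * (1 - qk) / 2 = X + β * Ph) (b4 : P ≤ Ph - β * (1 - 0 * 0 ^ 2 - S) / 4)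
    (b6 : S ≤ pp) :
    X + β * P + β ^ 2 / 4 * (1 - pp) - c0 * (β ^ 2 + 2) * (σ + n + v + δ) ≤ X1 := by
  have b7 := mul_le_mul_of_nonneg_left b4 hβ
  have b8 := mul_le_mul_of_nonneg_left b6 (sq_nonneg β)
  have e1 : r ≤ c0 * (β ^ 2 * n) := hr.trans (le_mul_of_one_le_left (by positivity) hc1)
  have e2 : β ^ 2 * n + (β ^ 2 * (σ + δ) + (r + T)) ≤ 2 * ((β ^ 2 + 2) * (σ + n + v + δ)) := by
    have := mul_nonneg (sq_nonneg β) hσ
    have := mul_nonneg (sq_nonneg β) hδ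
    have := mul_nonneg (sq_nonneg β) hv
    linarith
  have e3 := mul_le_mul_of_nonneg_left e2 (zero_le_one.trans hc1)
  linarith

theorem aStmt (hD : DenStmt) : AStmt := by
  intro β hβ
  set c0 := 4 * exp (2 * (2 * β ^ 2 + 4)) with hc0
  have hc1 : 1 ≤ c0 := by
    have := add_one_le_exp (2 * (2 * β ^ 2 + 4)); nlinarith [sq_nonneg β]
  refine ⟨c0 * (β ^ 2 + 2), by positivity, fun P hP N k hN s lam hl hs h => ?_⟩
  set ℓ := par k s lam with hℓ
  set L := fL N ℓ with hL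
  set p := pj (fun _ => 1) L h with hp
  set q : ℕ → ℝ := fun j => if j = 0 then 0 else p j with hq
  have hp0 : ∀ j, 0 ≤ p j := fun j => pi2_ov_nonneg L j h
  have hp1 : ∀ j, p j ≤ 1 := fun j => pi2_ov_le wt1 L j h
  have hq0 : q 0 = 0 := rfl
  have hqp : ∀ j, 0 ≤ q j ∧ q j ≤ p j := fun j => by
    simp only [hq]; split_ifs; exacts [⟨le_rfl, hp0 j⟩, ⟨hp0 j, le_rfl⟩]
  have hq1 : ∀ j, q j ≤ 1 := fun j => (hqp j).2.trans (hp1 j)
  have hqm : ∀ j, q j ≤ q (j + 1) := fun j => (hqp j).2.trans (pi2_ov_mono wt1 L j h)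
  have hM : Mono 0 L := mono_par N k s lam
  have hpos : ∀ a ∈ ℓ, 0 < a.1 := fun a ha =>
    lt_of_lt_of_le (by positivity) (mem_par N k s lam (List.mem_map_of_mem ha))
  have hlen : ℓ.length = k := by simp [hℓ, par]
  have hT := tot_par k s hl
  have hT0 := tot_nonneg ℓ
  set σ := sync (fun _ => 1) L h with hσ
  set δ : ℝ := 1 / ((k : ℝ) + 1) with hδ
  have hδ0 : 0 ≤ δ := by positivity
  have hσ0 : 0 ≤ σ := by
    rw [hσ, sync, pair_eq_sum wt1]
    exact Finset.sum_nonneg fun j _ => mul_nonneg (dm_nonneg hM j)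
      (pi2_nonneg wt1 L j (fun _ _ => abs_nonneg _) h)
  -- the base functional
  have hq' : pair (fun _ => 1) L 0 (fun j x y => |ov x y - q j|) h ≤ σ + δ := by
    have h1 := pair_mono wt1 hM (K := fun j x y => |ov x y - q j|)
      (K' := fun j x y => |ov x y - p j| + if j = 0 then 1 else 0) (fun j _ x y => by
        simp only [hq]
        split_ifs with hj
        · have := abs_sub_le (ov x y) (p j) 0
          rw [sub_zero (p j), abs_of_nonneg (hp0 j)] at this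
          linarith [hp1 j]
        · simp) h
    rw [Casc.pair_add wt1, pair_const wt1, Finset.sum_range_succ'] at h1
    simpa [hL, hℓ, dm_par N k s lam (Nat.zero_le k), hδ, hσ, sync, hp] using h1
  set G := β ^ 2 * (1 - q k) - β ^ 2 / (N + 1) - c0 * (β ^ 2 * (σ + δ) + (β ^ 2 / (N + 1) + tot ℓ))
    with hG
  set TA := tz N β :: blk N β ℓ q with hTA
  have hC1 : ∀ l ∈ TA, l.C1 univ := by
    simp only [hTA, List.mem_cons, forall_eq_or_imp]
    exact ⟨⟨fun t _ _ _ => (hasDerivAt_sin t).mul_const _,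
      fun _ _ => (continuous_cos.mul continuous_const).continuousOn⟩, blk_C1 ℓ q⟩
  set h' : Cube (N + 1) → ℝ := fun x => h (Fin.tail x) with hh'
  have hder : ∀ t, HasDerivAt (fun t => X (fun _ => 1) (atL TA t) h' - G * (sin t ^ 2 / 2))
      (DX (fun _ => 1) TA t h' 0 - G * (sin t * cos t)) t := fun t => by
    refine (hasDerivAt_X wt1 isOpen_univ hC1 (mem_univ t) (b := fun _ => h') (b' := 0)
      fun _ => hasDerivAt_const _ _).sub (HasDerivAt.const_mul G ?_)
    refine (((hasDerivAt_sin t).pow 2).div_const 2).congr_deriv ?_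
    simp only [Nat.cast_ofNat, Nat.add_one_sub_one, pow_one]
    ring
  have hDX : ∀ t, 0 ≤ sin t * cos t → G * (sin t * cos t) ≤ DX (fun _ => 1) TA t h' 0 := fun t ht => by
    have a1 := hD (Cube N) (Cube (N + 1)) Fin.tail 2 card_tail Od 0 le_rfl od_ge
      (.inr ((tz N β).at t) :: mix N β t ℓ q) (2 * β ^ 2 + 4)
      ⟨rfl, od_tz t, β ^ 2, cov_tz_le hN t, adm_mix t ℓ q 0 _ hM hqm hq1 (by rw [hq0]; linarith)⟩
      (Sacc TA t) (fun j s s' => sin t * cos t * (β ^ 2 * |ov s s' - q j| + (β ^ 2 / (N + 1) + tot ℓ)))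
      (by
        have := rel_mix (N := N) (β := β) (T := tot ℓ) ht ℓ q 0 hqm le_rfl (by simp)
        simp only [Rel, hTA, Sacc_cons, S_tz hN]
        simpa only [hq0, sub_zero, add_zero] using this)
      (fun j x y => by positivity) h 0 0 ⟨0, fun _ => by simp⟩ fun _ => le_rfl
    have a2 : extL Fin.tail (.inr ((tz N β).at t) :: mix N β t ℓ q) = atL TA t := by
      simp only [extL, ext_mix, hTA, atL, List.map_cons]
    have a3 : pair (fun _ => 1) L 0 (fun j s s' => sin t * cos t * (β ^ 2 * |ov s s' - q j| +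
        (β ^ 2 / (N + 1) + tot ℓ))) h = sin t * cos t * (β ^ 2 * pair (fun _ => 1) L 0
          (fun j x y => |ov x y - q j|) h + (β ^ 2 / (N + 1) + tot ℓ)) := by
      rw [pair_cmul wt1, Casc.pair_add wt1, pair_cmul wt1, pair_one wt1]
    simp only [base, base_mix, a2, Pi.zero_apply, add_zero, mul_zero, zero_add] at a1
    rw [a3] at a1
    have a4 : ∀ x, Sacc TA t TA.length x x =
        sin t * cos t * (β ^ 2 * (1 - q k) - β ^ 2 / (N + 1) + tot ℓ) := fun x => by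
      simp only [hTA, List.length_cons, Sacc_cons, S_tz hN, diag_blk t x ℓ q hqm, ov_self hN,
        sv_mul_self, hlen, hq0]
      field_simp
      ring
    rw [DX]
    simp only [a4, Pi.zero_apply, zero_add, ← Finset.sum_mul, sum_P wt1, one_mul]
    have a5 : sin t * cos t * (β ^ 2 * pair (fun _ => 1) L 0 (fun j x y => |ov x y - q j|) h +
        (β ^ 2 / (N + 1) + tot ℓ)) ≤ sin t * cos t * (β ^ 2 * (σ + δ) + (β ^ 2 / (N + 1) + tot ℓ)) :=
      mul_le_mul_of_nonneg_left (add_le_add (mul_le_mul_of_nonneg_left hq' (sq_nonneg β)) le_rfl) ht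
    have a6 := mul_le_mul_of_nonneg_left a5 (zero_le_one.trans hc1)
    have a7 := mul_nonneg ht hT0
    have a8 : ((2 : ℕ) : ℝ) ^ 2 * exp (2 * (2 * β ^ 2 + 4)) = c0 := by rw [hc0]; norm_num
    rw [a8] at a1
    rw [hG]
    linarith
  obtain ⟨t, ht, he⟩ := exists_hasDerivAt_eq_slope
    (fun t => X (fun _ => 1) (atL TA t) h' - G * (sin t ^ 2 / 2)) _ pi_div_two_pos
    (fun t _ => (hder t).continuousAt.continuousWithinAt) fun t _ => hder t
  have b1 := sub_nonneg.2 (hDX t (mul_nonneg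
    (sin_nonneg_of_nonneg_of_le_pi ht.1.le (by linarith [ht.2, pi_pos]))
    (cos_nonneg_of_mem_Icc ⟨by linarith [ht.1, pi_pos], ht.2.le⟩)))
  rw [he, sub_zero, le_div_iff₀ pi_div_two_pos, zero_mul, sin_pi_div_two, sin_zero] at b1
  have b2 : X (fun _ => 1) (atL TA (π / 2)) = X (fun _ => 1) (lz N β :: fL (N + 1) ℓ) := by
    have := top_blk (N := N) (β := β) ℓ q
    simp only [hTA, atL, List.map_cons, C.X_cons] at this ⊢
    rw [this]
    congr 1
    simp only [tz, TL.at, sin_pi_div_two, one_mul]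
    rfl
  have b3 : X (fun _ => 1) (atL TA 0) h' + β ^ 2 * (1 - q k) / 2 =
      X (fun _ => 1) L h + β * Phi β (parF β ℓ q) 0 := by
    have := bot_blk hβ ℓ q 0 hM hpos hqm hq1 h 0
    rw [zero_div, hlen] at this
    rw [← this]
    simp only [hTA, atL, List.map_cons, C.X_cons]
    rw [C.step_of_zero (l := (tz N β).at 0) fun x i => by simp [tz]]
    congr 2
    funext x; simp [st, hh']
  have b4 := hP _ (good_parF hβ ℓ q 0 hM hpos hqm hq1).1 (by rw [sum_parF, hq0, sub_zero])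
  have b5 := pen_parF (N := N) (β := β) ℓ q 0
  have b6 : ∑ j ∈ Finset.range (L.length + 1), dm L 0 j * q j ^ 2 ≤ pp (fun _ => 1) L h := by
    rw [pp, pair_const wt1]
    exact Finset.sum_le_sum fun j _ => mul_le_mul_of_nonneg_left
      (pow_le_pow_left₀ (hqp j).1 (hqp j).2 2) (dm_nonneg hM j)
  rw [hq0] at b5
  rw [b5] at b4
  rw [b2] at b1
  have b9 : β ^ 2 / (N + 1) ≤ β ^ 2 * (1 / N) := by
    rw [mul_one_div]; exact div_le_div_of_nonneg_left (sq_nonneg β) (by positivity) (by linarith)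
  exact a_arith hβ.le hc1 hσ0 hδ0 (by positivity) (by positivity) b9 hT b1 b3 b4 b6

end Crest.Agent.T157.Plb

end
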