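import Crest.Agent.T157.PlbA_78

/-!
# Row 157: the cavity step, change of temperature; one increment (helper78)
-/

set_option autoImplicit false
set_option linter.unusedSectionVars false

noncomputable section

namespace Crest.Agent.T157.Plb

open MeasureTheory Real Set
open Crest.Agent.T157.E Crest.Agent.T157.Casc Crest.Agent.T157.SL
open Crest.ProbabilityR.SpinGlassDynamics

variable {N : ℕ} {β : ℝ}

theorem sum_pair (hN : 0 < N) (x y : Cube N) :
    ∑ p : Pair N, (sv x p.1.1 * sv x p.1.2) * (sv y p.1.1 * sv y p.1.2) =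
      ((N * ov x y) ^ 2 - N) / 2 := by
  have h := sum_sum_eq_two_mul_pair (n := N) (fun i j => (sv x i * sv y i) * (sv x j * sv y j) -
    if i = j then 1 else 0) (fun i j => by simp only [eq_comm]; ring) fun i => by
      have h1 := sv_mul_self x i
      have h2 := sv_mul_self y i
      rw [if_pos rfl, mul_mul_mul_comm, h1, h2]; ring
  simp only [Finset.sum_sub_distrib, Finset.sum_ite_eq, Finset.mem_univ, if_true, Finset.sum_const,
    Finset.card_univ, Fintype.card_fin, nsmul_eq_mul, mul_one, ← Finset.sum_mul_sum] at h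
  rw [Finset.sum_congr rfl fun (p : Pair N) _ => if_neg (ne_of_lt p.2), Finset.sum_const_zero,
    sub_zero] at h
  rw [ov, mul_div_cancel₀ _ (by positivity), sq, dotProduct, h, mul_div_cancel_left₀ _ two_ne_zero]
  exact Finset.sum_congr rfl fun p _ => by ring

theorem cov_lW (hN : 0 < N) (c : ℝ) (x y : Cube N) :
    (lW N c).cov x y = c ^ 2 / N * (((N * ov x y) ^ 2 - N) / 2) := by
  rw [← sum_pair hN, Finset.mul_sum]
  refine Finset.sum_congr rfl fun p _ => ?_
  have : c ^ 2 / N = (c / √(N : ℝ)) ^ 2 := by rw [div_pow, sq_sqrt (by positivity)]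
  rw [this]; ring

/-- the SK level with the inverse temperature as a parameter -/
def tW (N : ℕ) : TL (Cube N) :=
  ⟨Pair N, fun t x p => t / √N * (sv x p.1.1 * sv x p.1.2),
    fun _ x p => 1 / √N * (sv x p.1.1 * sv x p.1.2), 0⟩

theorem hasDerivAt_W (hN : 0 < N) (L : List (Lv (Cube N))) (t : ℝ) :
    HasDerivAt (fun t => X (fun _ => 1) (lW N t :: L) 0) (t * N / 2 * (1 - ∫ g, pair (fun _ => 1) L 0
      (fun _ x y => ov x y ^ 2) ((lW N t).fld g) ∂gv (Pair N))) t := by
  have h := hasDerivAt_X wt1 isOpen_univ (L := tW N :: L.map Lv.cst) (fun l hl => by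
    rcases List.mem_cons.1 hl with rfl | hl
    · exact ⟨fun t _ x i => ((hasDerivAt_id t).div_const _).mul_const _,
        fun _ _ => continuousOn_const⟩
    · obtain ⟨l', -, rfl⟩ := List.mem_map.1 hl
      exact cst_C1 _ _) (mem_univ t) (b := fun _ => 0) (b' := fun _ => 0)
    fun _ => hasDerivAt_const _ _
  have e : ∀ t, atL (tW N :: L.map Lv.cst) t = lW N t :: L := fun t => by
    have := atL_cst L t
    simp only [atL, List.map_cons] at this ⊢
    rw [this]; rfl
  have hN' : (0 : ℝ) < N := by positivity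
  have hS : (tW N).S t = fun x y => t * N / 2 * ov x y ^ 2 + -(t / 2) := by
    funext x y
    have e1 : (tW N).S t x y = t / N *
        ∑ p : Pair N, (sv x p.1.1 * sv x p.1.2) * (sv y p.1.1 * sv y p.1.2) := by
      rw [Finset.mul_sum]
      refine Finset.sum_congr rfl fun p _ => ?_
      have : t / N = 1 / √(N : ℝ) * (t / √N) := by
        rw [div_mul_div_comm, mul_self_sqrt hN'.le, one_mul]
      rw [this]; simp only [tW]; ring
    rw [e1, sum_pair hN]; field_simp; ring
  simp only [e] at h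
  refine h.congr_deriv ?_
  rw [DX, e]
  simp only [List.length_cons, Sacc_cons, Sacc_cst, hS, pair, Sacc_zero, add_zero, zero_add,
    ov_self hN, sub_self, zero_mul, ← Finset.sum_mul, sum_P wt1, one_mul]
  rw [C.tE_zero rfl]
  simp only [zero_add, Casc.pair_add wt1, pair_cmul wt1, pair_one wt1]
  have hi := (eg_pair wt1 L 0 fun _ x y => ov x y ^ 2).int (lW N t) 0
  simp only [zero_add] at hi
  rw [integral_add (hi.const_mul _) (integrable_const _), integral_const_mul]
  simp only [integral_const, probReal_univ, smul_eq_mul]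
  ring

theorem adm_inl {Ω Ω' : Type} (C : (Ω' → ℝ) → Prop) : ∀ (L : List (Lv Ω)) (m0 : ℝ), Mono m0 L →
    Adm C m0 0 (L.map Sum.inl)
  | [], _, h => ⟨h, le_rfl⟩
  | l :: L, _, h => ⟨h.1, adm_inl C L l.m h.2⟩

theorem rel_inl {Ω : Type} : ∀ (L : List (Lv Ω)) (K : ℕ → Ω → Ω → ℝ), Rel id (L.map Sum.inl) K K
  | [], _ => fun _ _ => le_rfl
  | _ :: L, _ => ⟨fun _ _ => le_rfl, rel_inl L _⟩

theorem ext_inl {Ω : Type} : ∀ L : List (Lv Ω), extL id (L.map Sum.inl) = L
  | [] => rfl
  | l :: L => by rw [List.map_cons, extL, ext_inl L]; rfl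

theorem base_inl {Ω Ω' : Type} : ∀ L : List (Lv Ω),
    base (L.map Sum.inl : List (Lv Ω ⊕ Lv Ω')) = L
  | [] => rfl
  | l :: L => by rw [List.map_cons, base, base_inl L]

/-- a bounded change of the Hamiltonian -/
theorem pair_shift (hD : DenStmt) {Ω : Type} [Fintype Ω] [Nonempty Ω] {L : List (Lv Ω)}
    (hL : Mono 0 L) {K : ℕ → Ω → Ω → ℝ} (hK : ∀ j x y, 0 ≤ K j x y) (h b : Ω → ℝ) {κ : ℝ}
    (hb : ∀ x, |b x| ≤ κ) :
    pair (fun _ => 1) L 0 K (h + b) ≤ exp (4 * κ) * pair (fun _ => 1) L 0 K h := by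
  classical
  have := hD Ω Ω id 1 (fun s => Finset.card_le_one.2 fun a ha b hb =>
    (Finset.mem_filter.1 ha).2.trans (Finset.mem_filter.1 hb).2.symm) (· = b) κ
    ((abs_nonneg _).trans (hb (Classical.arbitrary _))) (fun h b' hb' => by
      rw [sub_le_iff_le_add, hb']
      exact X_le_add wt1 [] fun x _ => by have := neg_abs_le (b x); have := hb x; simp; linarith)
    (L.map Sum.inl) 0 (adm_inl _ L 0 hL) K K (rel_inl L K) hK h b κ rfl
    fun x => (le_abs_self _).trans (hb x)
  rw [ext_inl, base_inl] at this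
  have e : ((1 : ℕ) : ℝ) ^ 2 * exp (2 * κ + 2 * 0 + 2 * κ) = exp (4 * κ) := by
    rw [Nat.cast_one, one_pow, one_mul]; congr 1; ring
  rw [e] at this
  exact this

theorem eg_pp {w : Cube N → ℝ} (hw : Wt w) (L : List (Lv (Cube N))) : Eg (pp w L) := by
  have : pp w L = fun h => ∑ j ∈ Finset.range (L.length + 1), dm L 0 j * pi2 w L j ov h ^ 2 :=
    funext fun h => pair_const hw L 0 _ h
  rw [this]
  exact Eg.sum _ fun j _ => ((eg_pi2 hw L j ov).pow 2).const_mul _

theorem pp_le_one {w : Cube N → ℝ} (hw : Wt w) {L : List (Lv (Cube N))} (hL : Mono 0 L)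
    (h : Cube N → ℝ) : pp w L h ≤ 1 :=
  (pair_mono hw hL (K' := fun _ _ _ => 1) (fun j _ _ _ =>
    pow_le_one₀ (pi2_ov_nonneg L j h) (pi2_ov_le hw L j h)) h).trans (pair_one hw L 1 h).le

theorem sync_nonneg {w : Cube N → ℝ} (hw : Wt w) {L : List (Lv (Cube N))} (hL : Mono 0 L)
    (h : Cube N → ℝ) : 0 ≤ sync w L h :=
  (pair_one hw L 0 h).ge.trans (pair_mono hw hL (fun _ _ _ _ => abs_nonneg _) h)

theorem eg_om (N : ℕ) : Eg (om N) :=
  ⟨by unfold om; fun_prop, 1, 4 / N, zero_le_one, by positivity, fun h => by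
    rw [om, abs_of_pos (exp_pos _), one_mul]; exact le_of_eq (by congr 1; ring)⟩

theorem one_le_om (h : Cube N → ℝ) : 1 ≤ om N h := one_le_exp (by positivity)

theorem Eg.int0 {Ω : Type*} [Fintype Ω] {Φ : (Ω → ℝ) → ℝ} (h : Eg Φ) (l : Lv Ω) :
    Integrable (fun g => Φ (l.fld g)) (gv l.ι) := by simpa using h.int l 0

theorem bStmt (hD : DenStmt) : BStmt := by
  intro β hβ N k hN s lam Em hE hEm β' hβ'
  set L := fL N (par k s lam) with hL
  have hM : Mono 0 L := mono_par N k s lam
  have hN' : (0 : ℝ) < N := by positivity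
  set r := √((N : ℝ) / (N + 1)) with hr
  have hr2 : r ^ 2 = N / (N + 1) := sq_sqrt (by positivity)
  have hr0 : 0 < r := sqrt_pos.2 (by positivity)
  have hr1 : r < 1 := by
    rw [hr, sqrt_lt' one_pos, one_pow, div_lt_one (by positivity)]; linarith
  have h0 : 0 < β' := by rw [hβ']; positivity
  have h1 : β' < β := by rw [hβ']; exact mul_lt_of_lt_one_right hβ hr1
  have h2 : β / β' - 1 ≤ 1 / N := by
    have : N / (N + 1) ≤ r := by rw [← hr2]; nlinarith
    rw [div_le_iff₀ (by positivity)] at this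
    rw [hβ', sub_le_iff_le_add, div_le_iff₀ (by positivity)]
    have e : (1 / (N : ℝ) + 1) * (β * r) = β * (r * (N + 1) / N) := by field_simp; ring
    rw [e]
    exact le_mul_of_one_le_right hβ.le (by rwa [le_div_iff₀ hN', one_mul])
  set I1 := ∫ g, (1 - pp (fun _ => 1) L ((lW N β').fld g)) ∂gv (Pair N) with hI1
  set I2 := ∫ g, om N ((lW N β').fld g) * Em ((lW N β').fld g) ∂gv (Pair N) with hI2
  have hI10 : 0 ≤ I1 := integral_nonneg fun g => sub_nonneg.2 (pp_le_one wt1 hM _)
  have hI20 : 0 ≤ I2 := integral_nonneg fun g =>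
    mul_nonneg (exp_pos _).le ((sync_nonneg wt1 hM _).trans (hEm _))
  have key : ∀ t ∈ Ioo β' β, 1 - ∫ g, pair (fun _ => 1) L 0 (fun _ x y => ov x y ^ 2)
      ((lW N t).fld g) ∂gv (Pair N) ≤ I1 + 2 * I2 := fun t ht => by
    have i1 := Eg.int0 ((Eg.const 1).sub (eg_pp wt1 L)) (lW N β')
    have i2 := Eg.int0 ((eg_om N).mul hE) (lW N β')
    have i3 := Eg.int0 (eg_pair wt1 L 0 fun _ x y => ov x y ^ 2) (lW N t)
    have e : (1 : ℝ) = ∫ _g, 1 ∂gv (Pair N) := by simp
    rw [hI1, hI2, ← integral_const_mul, ← integral_add i1 (i2.const_mul _)]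
    nth_rewrite 1 [e]
    rw [← integral_sub (integrable_const _) i3]
    refine integral_mono ((integrable_const _).sub i3) (i1.add (i2.const_mul _)) fun g => ?_
    set H := (lW N β').fld g with hH
    have a1 : (lW N t).fld g = H + (t / β' - 1) • H := by
      funext x
      simp only [hH, Pi.add_apply, Pi.smul_apply, smul_eq_mul, Lv.fld, Finset.mul_sum,
        ← Finset.sum_add_distrib]
      exact Finset.sum_congr rfl fun p _ => by field_simp; ring
    have a2 := pair_shift hD hM (K := fun j x y => |ov x y - pj (fun _ => 1) L H j|)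
      (fun _ _ _ => abs_nonneg _) H ((t / β' - 1) • H) (κ := ‖H‖ / N) fun x => by
        have b1 : 0 ≤ t / β' - 1 := by rw [sub_nonneg, le_div_iff₀ h0]; linarith [ht.1]
        have b2 : t / β' - 1 ≤ 1 / N :=
          le_trans (sub_le_sub_right (div_le_div_of_nonneg_right ht.2.le h0.le) 1) h2
        rw [Pi.smul_apply, smul_eq_mul, abs_mul, abs_of_nonneg b1, div_eq_inv_mul ‖H‖, ← one_div]
        exact mul_le_mul b2 (norm_le_pi_norm H x) (abs_nonneg _) (by positivity)
    have a3 := pair_mono wt1 hM (K := fun j _ _ => pj (fun _ => 1) L H j ^ 2)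
      (K' := fun j x y => ov x y ^ 2 + 2 * |ov x y - pj (fun _ => 1) L H j|) (fun j _ x y => by
        have b1 := abs_le.1 (abs_ov_le x y)
        have b2 : 0 ≤ pj (fun _ => 1) L H j := pi2_ov_nonneg L j H
        have b3 : pj (fun _ => 1) L H j ≤ 1 := pi2_ov_le wt1 L j H
        have b4 := neg_abs_le (ov x y - pj (fun _ => 1) L H j)
        have b5 := le_abs_self (ov x y - pj (fun _ => 1) L H j)
        rcases le_total 0 (ov x y + pj (fun _ => 1) L H j) with b6 | b6 <;> nlinarith)
      (H + (t / β' - 1) • H)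
    rw [Casc.pair_add wt1, pair_cmul wt1, pair_const wt1, ← pair_const wt1 L 0 _ H] at a3
    have a4 := mul_le_mul_of_nonneg_left (hEm H) (exp_pos (4 * (‖H‖ / N))).le
    have a5 : om N H = exp (4 * (‖H‖ / N)) := by rw [om, mul_div_assoc]
    simp only [a1, a5, pp]
    simp only [sync] at a4
    linarith
  obtain ⟨t, ht, he⟩ := exists_hasDerivAt_eq_slope
    (fun t => X (fun _ => 1) (lW N t :: L) 0 - (I1 + 2 * I2) * N / 4 * t ^ 2) _ h1
    (fun t _ => ((hasDerivAt_W hN L t).sub
      ((hasDerivAt_pow 2 t).const_mul _)).continuousAt.continuousWithinAt)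
    fun t _ => (hasDerivAt_W hN L t).sub ((hasDerivAt_pow 2 t).const_mul _)
  have b1 := mul_le_mul_of_nonneg_left (key t ht) (show 0 ≤ t * N / 2 by
    have := h0.trans ht.1; positivity)
  rw [eq_div_iff (sub_pos.2 h1).ne'] at he
  have b2 : X (fun _ => 1) (lW N β :: L) 0 - (I1 + 2 * I2) * N / 4 * β ^ 2 -
      (X (fun _ => 1) (lW N β' :: L) 0 - (I1 + 2 * I2) * N / 4 * β' ^ 2) ≤ 0 := by
    rw [← he]
    refine mul_nonpos_of_nonpos_of_nonneg ?_ (sub_pos.2 h1).le
    simp only [Nat.cast_ofNat, Nat.add_one_sub_one, pow_one]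
    linarith
  have b3 : N * (β ^ 2 - β' ^ 2) ≤ β ^ 2 := by
    have : N * (β ^ 2 - β' ^ 2) = β ^ 2 * (N / (N + 1)) := by
      rw [hβ', mul_pow, hr2]; field_simp; ring
    rw [this]
    exact mul_le_of_le_one_right (sq_nonneg _) (by rw [div_le_one (by positivity)]; linarith)
  have b4 := mul_le_mul_of_nonneg_left b3 (show 0 ≤ I1 + 2 * I2 by positivity)
  linarith

/-- the SK level of `N + 1` spins splits into the level of `N` spins and the cavity level -/
theorem split_W (hN : 0 < N) (L : List (Lv (Cube (N + 1)))) {β' : ℝ}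
    (hβ' : β' = β * √(N / (N + 1))) : X (fun _ => 1) (lW (N + 1) β :: L) 0 =
      ∫ g, X (fun _ => 1) (lz N β :: L) (fun x => (lW N β').fld g (Fin.tail x)) ∂gv (Pair N) := by
  rw [C.X_split wt1 (l := lW (N + 1) β) (l1 := pull Fin.tail (lW N β')) (l2 := lz N β) rfl rfl
    fun x y => ?_, C.X_cons, C.step_zero rfl]
  · simp only [zero_add]; rfl
  · have h : (β / √((N : ℝ) + 1)) ^ 2 = β ^ 2 / (N + 1) := by rw [div_pow, sq_sqrt (by positivity)]
    have e1 : (lz N β).cov x y = (sv x 0 * sv y 0) * ((β / √((N : ℝ) + 1)) ^ 2 *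
        ∑ i : Fin N, sv x i.succ * sv y i.succ) := by
      simp only [Lv.cov, Finset.mul_sum]
      exact Finset.sum_congr rfl fun i _ => by ring
    have e2 : (pull (Ω' := Cube (N + 1)) Fin.tail (lW N β')).cov x y =
      (lW N β').cov (Fin.tail x) (Fin.tail y) := rfl
    have e3 : ((N + 1 : ℕ) : ℝ) * ov x y = sv x 0 * sv y 0 + N * ov (Fin.tail x) (Fin.tail y) := by
      rw [← sum_tail hN, ov, mul_div_cancel₀ _ (by positivity), dotProduct, Fin.sum_univ_succ]
    have e4 : (sv x 0 * sv y 0) ^ 2 = 1 := by rw [mul_pow, sv_sq, sv_sq, one_mul]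
    rw [e1, e2, cov_lW hN, cov_lW (Nat.succ_pos N), e3, h, sum_tail hN, hβ', mul_pow,
      sq_sqrt (by positivity), add_sq, e4]
    push_cast
    field_simp
    ring

end Crest.Agent.T157.Plb

end
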