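import Crest.Agent.T157.PlbDef_78
import Crest.Agent.T157.CascC_65

/-!
# Row 157: synchronisation of overlaps under a cascade of external fields (helper78)
-/

set_option autoImplicit false
set_option linter.unusedSectionVars false

noncomputable section

namespace Crest.Agent.T157.Plb

open MeasureTheory Real Set
open Crest.Agent.T157.E Crest.Agent.T157.Casc Crest.Agent.T157.SL

variable {N : ℕ} {w : Cube N → ℝ}

/-! ### overlaps and magnetisations -/

theorem sv_sq (x : Cube N) (i : Fin N) : sv x i ^ 2 = 1 := spin_sq _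

theorem abs_sv (x : Cube N) (i : Fin N) : |sv x i| = 1 := abs_spin _

theorem ov_self (hN : 0 < N) (x : Cube N) : ov x x = 1 := by
  rw [ov, sv_dot_self, div_self (by positivity)]

theorem abs_ov_le (x y : Cube N) : |ov x y| ≤ 1 := by
  rcases Nat.eq_zero_or_pos N with rfl | hN
  · simp [ov]
  rw [ov, abs_div, abs_of_pos (by positivity : (0 : ℝ) < N), div_le_one (by positivity), dotProduct]
  refine (Finset.abs_sum_le_sum_abs _ _).trans (le_of_eq ?_)
  simp [abs_mul, abs_sv]

/-- magnetisation at a node -/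
def mg (w : Cube N → ℝ) (L : List (Lv (Cube N))) (z : Cube N → ℝ) (i : Fin N) : ℝ :=
  ∑ x, P w L z x * sv x i

/-- mean overlap at a node -/
def mu (w : Cube N → ℝ) (L : List (Lv (Cube N))) (z : Cube N → ℝ) : ℝ := qf (P w L z) ov

theorem mu_eq (L : List (Lv (Cube N))) (z : Cube N → ℝ) :
    mu w L z = (∑ i, mg w L z i ^ 2) / N := by
  have : (ov : Cube N → Cube N → ℝ) = fun x y => (N : ℝ)⁻¹ * ∑ i, sv x i * sv y i := by
    funext x y; rw [ov, div_eq_inv_mul]; rfl
  rw [mu, this, qf_const_mul, qf_sum, div_eq_inv_mul]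
  congr 1
  exact Finset.sum_congr rfl fun i _ => by rw [qf_mul, sq]; rfl

theorem mu_nonneg (L : List (Lv (Cube N))) (z : Cube N → ℝ) : 0 ≤ mu w L z := by
  rw [mu_eq]; positivity

theorem mu_le_one (hw : Wt w) (L : List (Lv (Cube N))) (z : Cube N → ℝ) : mu w L z ≤ 1 :=
  (qf_mono (P_nonneg hw L z) fun x y => (le_abs_self _).trans (abs_ov_le x y)).trans
    (qf_const (sum_P hw L z) 1).le

theorem eg_mu (hw : Wt w) (L : List (Lv (Cube N))) : Eg (mu w L) := eg_qf hw L ov

theorem eg_mg (hw : Wt w) (L : List (Lv (Cube N))) (i : Fin N) : Eg fun z => mg w L z i :=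
  Eg.sum _ fun x _ => (eg_P hw L x).mul_const _

theorem mg_cons (hw : Wt w) (l : Lv (Cube N)) (L : List (Lv (Cube N))) (z : Cube N → ℝ) (i : Fin N) :
    mg w (l :: L) z i = tE l (X w L) (fun z' => mg w L z' i) z := by
  simp only [mg]
  rw [tE_sum (lg_X hw L) _ fun x _ => (eg_P hw L x).mul_const _]
  exact Finset.sum_congr rfl fun x _ => by rw [tE_mul_const]; rfl

theorem sum_mg_sq_le (hw : Wt w) (hN : 0 < N) (L : List (Lv (Cube N))) (z : Cube N → ℝ) :
    ∑ i, mg w L z i ^ 2 ≤ N := by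
  have := mu_le_one hw L z
  rwa [mu_eq, div_le_one (by positivity)] at this

/-- the trace of the covariance of the next magnetisation -/
theorem tE_tr (hw : Wt w) (hN : 0 < N) (l : Lv (Cube N)) (L : List (Lv (Cube N))) (z : Cube N → ℝ) :
    tE l (X w L) (fun z' => ∑ i, (mg w L z' i - mg w (l :: L) z i) ^ 2) z =
      N * (tE l (X w L) (mu w L) z - mu w (l :: L) z) := by
  have hF := lg_X hw L
  have h1 : ∀ i, tE l (X w L) (fun z' => (mg w L z' i - mg w (l :: L) z i) ^ 2) z =
      tE l (X w L) (fun z' => mg w L z' i ^ 2) z - mg w (l :: L) z i ^ 2 := fun i => by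
    have e : (fun z' => (mg w L z' i - mg w (l :: L) z i) ^ 2) = fun z' => (mg w L z' i ^ 2 +
        mg w (l :: L) z i ^ 2) - (2 * mg w (l :: L) z i) * mg w L z' i := by funext z'; ring
    rw [e, tE_sub hF (((eg_mg hw L i).pow 2).add (Eg.const _)) ((eg_mg hw L i).const_mul _),
      tE_add hF ((eg_mg hw L i).pow 2) (Eg.const _), tE_const hF, tE_const_mul, ← mg_cons hw]
    ring
  have h2 : mu w L = fun z' => (N : ℝ)⁻¹ * ∑ i, mg w L z' i ^ 2 := by
    funext z'; rw [mu_eq, div_eq_inv_mul]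
  rw [tE_sum hF _ fun i _ => ((eg_mg hw L i).sub (Eg.const _)).pow 2, h2, tE_const_mul,
    tE_sum hF _ fun i _ => (eg_mg hw L i).pow 2, mu_eq]
  simp only [h1, Finset.sum_sub_distrib]
  field_simp

theorem mu_le_tE (hw : Wt w) (l : Lv (Cube N)) (L : List (Lv (Cube N))) (z : Cube N → ℝ) :
    mu w (l :: L) z ≤ tE l (X w L) (mu w L) z := by
  rcases Nat.eq_zero_or_pos N with rfl | hN
  · rw [mu_eq]; simpa using tE_nonneg l _ (mu_nonneg L) z
  have h := tE_nonneg l (X w L) (Φ := fun z' => ∑ i, (mg w L z' i - mg w (l :: L) z i) ^ 2)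
    (fun _ => by positivity) z
  rw [tE_tr hw hN] at h
  have : (0 : ℝ) < N := by positivity
  nlinarith

theorem tE_mu_le (hw : Wt w) (l : Lv (Cube N)) (L : List (Lv (Cube N))) (z : Cube N → ℝ) :
    tE l (X w L) (mu w L) z ≤ 1 :=
  (tE_mono (lg_X hw L) (eg_mu hw L) (Eg.const 1) (mu_le_one hw L) l z).trans
    (tE_const (lg_X hw L) l 1 z).le

/-! ### the overlap at a node is close to the squared magnetisation -/

theorem lin_dev (hV : VarStmt) (hw : Wt w) (hN : 0 < N) {m σ μ θ : ℝ} (hm : 0 ≤ m) (hσ : 0 < σ)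
    (hμ : 0 < μ) (hθ : 0 ≤ θ) (hθ2 : 1 / (μ * σ * √N) ≤ θ ^ 2) {L : List (Lv (Cube N))}
    (hL : Mono μ L) (z : Cube N → ℝ) (v : Fin N → ℝ) (hv : ∑ i, v i ^ 2 ≤ N) :
    ∑ x, P w (fl N (m, σ) :: L) z x * |∑ i, v i * (sv x i - mg w (fl N (m, σ) :: L) z i)| ≤
      N * (√(tE (fl N (m, σ)) (X w L) (mu w L) z - mu w (fl N (m, σ) :: L) z) + θ) := by
  set l := fl N (m, σ) with hl
  set κ := tE l (X w L) (mu w L) z - mu w (l :: L) z with hκ
  have hκ0 : 0 ≤ κ := sub_nonneg.2 (mu_le_tE hw l L z)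
  have hκ1 : κ ≤ 1 := by have := tE_mu_le hw l L z; have := mu_nonneg (w := w) (l :: L) z; linarith
  have hN' : (0 : ℝ) < N := by positivity
  have hf : ∀ x, l.fld v x = σ * ∑ i, v i * sv x i := fun x => by
    simp only [Lv.fld, Finset.mul_sum]
    exact Finset.sum_congr rfl fun i _ => by ring
  have hm' : ∀ (L' : List (Lv (Cube N))) (z' : Cube N → ℝ),
      ∑ x, P w L' z' x * l.fld v x = σ * ∑ i, v i * mg w L' z' i := fun L' z' => by
    simp only [hf, mg, Finset.mul_sum]
    rw [Finset.sum_comm]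
    exact Finset.sum_congr rfl fun i _ => Finset.sum_congr rfl fun x _ => by ring
  have h1 := hV (Cube N) w hw l L μ hm hμ hL z v _ _ rfl rfl
  set Vf := tE l (X w L) (fun h' => (∑ x, P w L h' x * l.fld v x -
    ∑ x, P w (l :: L) z x * l.fld v x) ^ 2) z with hVf
  have h2 : Vf ≤ (σ * N * √κ) ^ 2 := by
    have e : (σ * N * √κ) ^ 2 = σ ^ 2 * N * (N * κ) := by rw [mul_pow, sq_sqrt hκ0]; ring
    rw [e, hκ, ← tE_tr hw hN, ← tE_const_mul]
    refine tE_mono (lg_X hw L) (((Eg.sum _ fun x _ => (eg_P hw L x).mul_const _).sub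
      (Eg.const _)).pow 2) ((Eg.sum _ fun i _ => ((eg_mg hw L i).sub (Eg.const _)).pow 2).const_mul _)
      (fun z' => ?_) l z
    rw [hm', hm', ← mul_sub, ← Finset.sum_sub_distrib, mul_pow, mul_assoc]
    refine mul_le_mul_of_nonneg_left ?_ (sq_nonneg _)
    simp only [← mul_sub]
    exact (Finset.sum_mul_sq_le_sq_mul_sq _ _ _).trans
      (mul_le_mul_of_nonneg_right hv (by positivity))
  have h3 : √Vf ≤ σ * N * √κ := sqrt_le_iff.2 ⟨by positivity, h2⟩
  have h4 : √(∑ i, v i ^ 2) ≤ √N := sqrt_le_sqrt hv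
  have hs1 : √κ ≤ 1 := sqrt_le_one.2 hκ1
  have hsN : 0 < √(N : ℝ) := sqrt_pos.2 hN'
  have h5 : √(∑ i, v i ^ 2) * √Vf / μ ≤ σ ^ 2 * N ^ 2 * θ ^ 2 := by
    have a1 : √(∑ i, v i ^ 2) * √Vf ≤ √N * (σ * N) :=
      mul_le_mul h4 (h3.trans (mul_le_of_le_one_right (by positivity) hs1)) (sqrt_nonneg _) hsN.le
    refine (div_le_div_of_nonneg_right a1 hμ.le).trans (le_trans (le_of_eq ?_)
      (mul_le_mul_of_nonneg_left hθ2 (by positivity)))
    have : (N : ℝ) = √N * √N := (mul_self_sqrt hN'.le).symm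
    field_simp
    rw [sq_sqrt hN'.le]
  set T := ∑ x, P w (l :: L) z x * |∑ i, v i * (sv x i - mg w (l :: L) z i)| with hT
  have h6 : T ^ 2 ≤ ∑ x, P w (l :: L) z x * (∑ i, v i * (sv x i - mg w (l :: L) z i)) ^ 2 := by
    have := Finset.sum_mul_sq_le_sq_mul_sq Finset.univ (fun x => √(P w (l :: L) z x))
      (fun x => √(P w (l :: L) z x) * |∑ i, v i * (sv x i - mg w (l :: L) z i)|)
    simp only [← mul_assoc, mul_self_sqrt (P_nonneg hw _ _ _), mul_pow, sq_sqrt (P_nonneg hw _ _ _),
      sq_abs, sum_P hw, one_mul] at this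
    exact this
  have h7 : ∑ x, P w (l :: L) z x * (l.fld v x - ∑ x, P w (l :: L) z x * l.fld v x) ^ 2 =
      σ ^ 2 * ∑ x, P w (l :: L) z x * (∑ i, v i * (sv x i - mg w (l :: L) z i)) ^ 2 := by
    rw [hm', Finset.mul_sum _ _ (σ ^ 2)]
    refine Finset.sum_congr rfl fun x _ => ?_
    simp only [hf, mul_sub, Finset.sum_sub_distrib]
    ring
  have h8 : σ ^ 2 * T ^ 2 ≤ σ ^ 2 * (N * (√κ + θ)) ^ 2 := by
    have a1 := mul_le_mul_of_nonneg_left h6 (sq_nonneg σ)
    have a2 : 0 ≤ σ ^ 2 * N ^ 2 * (√κ * θ) := by positivity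
    nlinarith
  exact (abs_le_of_sq_le_sq' (le_of_mul_le_mul_left h8 (by positivity)) (by positivity)).2

theorem node_dev (hV : VarStmt) (hw : Wt w) (hN : 0 < N) {m σ μ θ : ℝ} (hm : 0 ≤ m) (hσ : 0 < σ)
    (hμ : 0 < μ) (hθ : 0 ≤ θ) (hθ2 : 1 / (μ * σ * √N) ≤ θ ^ 2) {L : List (Lv (Cube N))}
    (hL : Mono μ L) (z : Cube N → ℝ) :
    qf (P w (fl N (m, σ) :: L) z) (fun x y => |ov x y - mu w (fl N (m, σ) :: L) z|) ≤
      2 * (√(tE (fl N (m, σ)) (X w L) (mu w L) z - mu w (fl N (m, σ) :: L) z) + θ) := by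
  have h1 := lin_dev hV hw hN hm hσ hμ hθ hθ2 hL z
  set l := fl N (m, σ) with hl
  set A := √(tE l (X w L) (mu w L) z - mu w (l :: L) z) + θ
  set p := P w (l :: L) z
  set a := mg w (l :: L) z
  have hp : ∀ x, 0 ≤ p x := P_nonneg hw _ _
  have hs : ∑ x, p x = 1 := sum_P hw _ _
  have hN' : (0 : ℝ) < N := by positivity
  have h2 : ∀ x y : Cube N, |ov x y - mu w (l :: L) z| ≤
      (N : ℝ)⁻¹ * (|∑ i, sv y i * (sv x i - a i)| + |∑ i, a i * (sv y i - a i)|) := fun x y => by
    have e : ov x y - mu w (l :: L) z =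
        (N : ℝ)⁻¹ * (∑ i, sv y i * (sv x i - a i) + ∑ i, a i * (sv y i - a i)) := by
      rw [mu_eq, ov, dotProduct, ← sub_div, div_eq_inv_mul, ← Finset.sum_sub_distrib,
        ← Finset.sum_add_distrib]
      congr 1
      exact Finset.sum_congr rfl fun i _ => by ring
    rw [e, abs_mul, abs_of_pos (inv_pos.2 hN')]
    exact mul_le_mul_of_nonneg_left (abs_add_le _ _) (by positivity)
  refine (qf_mono hp h2).trans ?_
  rw [qf_const_mul, qf_add, inv_mul_le_iff₀ hN']
  have h3 : qf p (fun x y => |∑ i, sv y i * (sv x i - a i)|) ≤ N * A := by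
    rw [← qf_swap, qf]
    calc _ = ∑ x, p x * ∑ y, p y * |∑ i, sv x i * (sv y i - a i)| := by
          simp only [Finset.mul_sum, mul_assoc]
      _ ≤ ∑ x, p x * (N * A) := Finset.sum_le_sum fun x _ =>
          mul_le_mul_of_nonneg_left (h1 (sv x) (by simp [sv_sq])) (hp x)
      _ = N * A := by rw [← Finset.sum_mul, hs, one_mul]
  have h4 : qf p (fun _ y => |∑ i, a i * (sv y i - a i)|) ≤ N * A := by
    have := qf_mul p (fun _ => 1) fun y => |∑ i, a i * (sv y i - a i)|
    simp only [one_mul, mul_one, hs] at this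
    rw [this]
    exact h1 a (sum_mg_sq_le hw hN _ _)
  linarith

/-! ### the amplitude of one level -/

theorem Sacc_cst {Ω : Type*} (L : List (Lv Ω)) (t : ℝ) :
    ∀ j, Sacc (L.map Lv.cst) t j = fun _ _ => 0 := by
  intro j
  funext x y
  refine List.sum_eq_zero fun a ha => ?_
  obtain ⟨l, hl, rfl⟩ := List.mem_map.1 ha
  obtain ⟨l', -, rfl⟩ := List.mem_map.1 (List.mem_of_mem_take hl)
  simp [TL.S, Lv.cst]

theorem cst_C1 {Ω : Type*} (l : Lv Ω) (I : Set ℝ) : l.cst.C1 I :=
  ⟨fun _ _ _ _ => hasDerivAt_const _ _, fun _ _ => continuousOn_const⟩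

/-- a field level with amplitude `s * t` -/
def tf (N : ℕ) (m s : ℝ) : TL (Cube N) :=
  ⟨Fin N, fun t x i => s * t * sv x i, fun _ x i => s * sv x i, m⟩

/-- the weighted mean overlap below a level -/
def Bf (w : Cube N → ℝ) (l : Lv (Cube N)) (L : List (Lv (Cube N))) : (Cube N → ℝ) → ℝ :=
  tE l (X w L) (pair w L l.m fun _ => ov)

theorem eg_Bf (hw : Wt w) (l : Lv (Cube N)) (L : List (Lv (Cube N))) : Eg (Bf w l L) :=
  (eg_pair hw L _ _).tE (lg_X hw L) l

theorem pi2_ov_nonneg (L : List (Lv (Cube N))) (j : ℕ) (z : Cube N → ℝ) : 0 ≤ pi2 w L j ov z :=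
  node_nonneg w (mu_nonneg _) L j z

theorem pi2_ov_le (hw : Wt w) (L : List (Lv (Cube N))) (j : ℕ) (z : Cube N → ℝ) :
    pi2 w L j ov z ≤ 1 := node_le hw (eg_mu hw _) (mu_le_one hw _) L j z

theorem Bf_mem (hw : Wt w) {l : Lv (Cube N)} {L : List (Lv (Cube N))} (hm : 0 ≤ l.m)
    (hL : Mono l.m L) (z : Cube N → ℝ) : 0 ≤ Bf w l L z ∧ Bf w l L z ≤ 1 := by
  refine ⟨tE_nonneg l _ (fun z => ?_) z, (tE_mono (lg_X hw L) (eg_pair hw L _ _) (Eg.const 1)
    (fun z => ?_) l z).trans (tE_const (lg_X hw L) l 1 z).le⟩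
  · rw [pair_eq_sum hw]
    exact Finset.sum_nonneg fun j _ => mul_nonneg (dm_nonneg hL j) (pi2_ov_nonneg L j z)
  · rw [pair_eq_sum hw]
    refine (Finset.sum_le_sum fun j _ => mul_le_of_le_one_right (dm_nonneg hL j)
      (pi2_ov_le hw L j z)).trans ?_
    rw [sum_dm, ex_length]; linarith

theorem hasDerivAt_amp (hw : Wt w) (hN : 0 < N) (m s t : ℝ) (L : List (Lv (Cube N)))
    (z : Cube N → ℝ) : HasDerivAt (fun t => X w (fl N (m, s * t) :: L) z)
      (t * s ^ 2 * N * (1 - Bf w (fl N (m, s * t)) L z)) t := by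
  have h := hasDerivAt_X hw isOpen_univ (L := tf N m s :: L.map Lv.cst) (fun l hl => by
    rcases List.mem_cons.1 hl with rfl | hl
    · exact ⟨fun t _ x i => by
        simpa [tf] using (((hasDerivAt_id t).const_mul s).mul_const (sv x i)),
        fun _ _ => continuousOn_const⟩
    · obtain ⟨l', -, rfl⟩ := List.mem_map.1 hl
      exact cst_C1 _ _) (mem_univ t) (b := fun _ => z) (b' := fun _ => 0)
    fun _ => hasDerivAt_const _ _
  have e : ∀ t, atL (tf N m s :: L.map Lv.cst) t = fl N (m, s * t) :: L := fun t => by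
    have := atL_cst L t
    simp only [atL, List.map_cons] at this ⊢
    rw [this]; rfl
  have hS : (tf N m s).S t = fun x y => t * s ^ 2 * N * ov x y := by
    funext x y
    have : (N : ℝ) ≠ 0 := by positivity
    simp only [TL.S, tf, ov, dotProduct]
    rw [mul_assoc, mul_div_cancel₀ _ this, Finset.mul_sum]
    exact Finset.sum_congr rfl fun i _ => by ring
  simp only [e] at h
  convert h using 1
  rw [DX, e]
  simp only [List.length_cons, Sacc_cons, Sacc_cst, hS, pair, Sacc_zero, add_zero, zero_add,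
    ov_self hN, mul_one, qf_const (sum_P hw _ _), mul_zero, ← Finset.sum_mul, sum_P hw, one_mul]
  have : (pair w L m fun _ x y => t * s ^ 2 * N * ov x y) =
      fun z => t * s ^ 2 * N * pair w L m (fun _ => ov) z := by
    funext z
    simp only [pair_eq_sum hw, pi2_const_mul, Finset.mul_sum]
    exact Finset.sum_congr rfl fun i _ => by ring
  rw [this, tE_const_mul, Bf]
  ring

theorem amp_convex (hw : Wt w) (hN : 0 < N) {m s t : ℝ} (hm : 0 ≤ m) (ht : t ≠ 0)
    {L : List (Lv (Cube N))} (hL : ∀ l ∈ L, 0 ≤ l.m) (z : Cube N → ℝ) (t' : ℝ) :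
    X w (fl N (m, s * t) :: L) z + (t' - t) * (t * s ^ 2 * N * (1 - Bf w (fl N (m, s * t)) L z)) ≤
      X w (fl N (m, s * t') :: L) z := by
  set l := fl N (m, s * t) with hl
  have hF := lg_X hw L
  have hq : Eg fun z' => ∑ x, P w L z' x * (z' x - z x) :=
    Eg.sum _ fun x _ => (eg_P hw L x).mul ((Eg.coord x).sub (Eg.const _))
  set c := t⁻¹ * tE l (X w L) (fun z' => ∑ x, P w L z' x * (z' x - z x)) z with hc
  have key : ∀ t', X w (l :: L) z + (t' - t) * c ≤ X w (fl N (m, s * t') :: L) z := fun t' => by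
    set r := t' / t with hr
    have hG : Lg fun z' => X w L (z + r • (z' - z)) := by
      obtain ⟨C, c, h1, h2, h3⟩ := hF.bd
      refine Lg.of (hF.eg.cont.comp (by fun_prop)) (C + c * (‖z‖ + |r| * ‖z‖)) (c * |r|)
        fun z' => (h3 (0, z + r • (z' - z)) trivial).trans ?_
      have a1 : ‖z + r • (z' - z)‖ ≤ ‖z‖ + |r| * (‖z'‖ + ‖z‖) := (norm_add_le _ _).trans (by
        rw [norm_smul, Real.norm_eq_abs]
        exact add_le_add le_rfl (mul_le_mul_of_nonneg_left (norm_sub_le _ _) (abs_nonneg _)))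
      have := mul_le_mul_of_nonneg_left a1 h2
      simp only
      linarith
    have h1 := step_ge hF hG (l := l) hm z
    have h2 : step l (fun z' => X w L (z + r • (z' - z))) z = X w (fl N (m, s * t') :: L) z := by
      have : ∀ g, z + r • (z + l.fld g - z) = z + (fl N (m, s * t')).fld g := fun g => by
        funext x
        simp only [add_sub_cancel_left, Pi.add_apply, Pi.smul_apply, smul_eq_mul, Lv.fld,
          Finset.mul_sum, hr]
        congr 1
        refine Finset.sum_congr rfl fun i _ => ?_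
        show t' / t * (s * t * sv x i * g i) = s * t' * sv x i * g i
        field_simp
      simp only [step, X, this]
      rfl
    have h3 : (t' - t) * c ≤ tE l (X w L) (fun z' => X w L (z + r • (z' - z)) - X w L z') z := by
      rw [hc, ← mul_assoc, ← tE_const_mul]
      refine tE_mono hF (hq.const_mul _) (hG.eg.sub hF.eg) (fun z' => ?_) l z
      have a1 := X_add_ge hw L hL z' (((t' - t) * t⁻¹) • (z' - z))
      have a2 : z' + ((t' - t) * t⁻¹) • (z' - z) = z + r • (z' - z) := by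
        funext x
        simp only [Pi.add_apply, Pi.smul_apply, Pi.sub_apply, smul_eq_mul, hr]
        field_simp
        ring
      rw [a2] at a1
      have a3 : ∑ x, P w L z' x * (((t' - t) * t⁻¹) • (z' - z)) x =
          (t' - t) * t⁻¹ * ∑ x, P w L z' x * (z' x - z x) := by
        rw [Finset.mul_sum]
        exact Finset.sum_congr rfl fun x _ => by simp only [Pi.smul_apply, Pi.sub_apply, smul_eq_mul]; ring
      linarith
    rw [← h2]
    exact le_trans (add_le_add le_rfl h3) h1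
  have hmin : IsLocalMin (fun t' => X w (fl N (m, s * t') :: L) z - (t' - t) * c) t :=
    Filter.Eventually.of_forall fun t' => by
      have := key t'
      simp only [sub_self, zero_mul, sub_zero]
      linarith
  have hd := hmin.hasDerivAt_eq_zero ((hasDerivAt_amp hw hN m s t L z).sub
    (((hasDerivAt_id t).sub_const t).mul_const c))
  rw [one_mul, sub_eq_zero] at hd
  rw [hd]
  exact key t'

/-! ### the list of levels -/

section par
variable (N) (k : ℕ) (s : ℝ) (lam : ℕ → ℝ)

theorem len_par : (fL N (par k s lam)).length = k := by simp [fL, par]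

theorem drop_par {j : ℕ} (hj : j < k) : (fL N (par k s lam)).drop j =
    fl N (((j : ℝ) + 1) / ((k : ℝ) + 1), s * lam j) :: (fL N (par k s lam)).drop (j + 1) := by
  rw [List.drop_eq_getElem_cons (by rwa [len_par])]
  simp [fL, par]

theorem mem_par {l : Lv (Cube N)} (h : l ∈ fL N (par k s lam)) : 1 / ((k : ℝ) + 1) ≤ l.m := by
  simp only [fL, par, List.map_map, List.mem_map] at h
  obtain ⟨j, -, rfl⟩ := h
  exact div_le_div_of_nonneg_right (by simp) (by positivity)

theorem mono_drop : ∀ (r j : ℕ), j + r = k → ∀ μ : ℝ, μ ≤ ((j : ℝ) + 1) / ((k : ℝ) + 1) →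
    Mono μ ((fL N (par k s lam)).drop j)
  | 0, j, h, μ, hμ => by
    obtain rfl : j = k := h
    rw [List.drop_of_length_le (len_par ..).le]
    rwa [div_self (by positivity)] at hμ
  | r + 1, j, h, μ, hμ => by
    rw [drop_par N k s lam (by omega)]
    exact ⟨hμ, mono_drop r (j + 1) (by omega) _
      (div_le_div_of_nonneg_right (by simp) (by positivity))⟩

theorem mono_par : Mono 0 (fL N (par k s lam)) := by
  simpa using mono_drop N k s lam k 0 (by simp) 0 (by positivity)

theorem ex_par {j : ℕ} (hj : j ≤ k) : ex (fL N (par k s lam)) j = ((j : ℝ) + 1) / ((k : ℝ) + 1) := by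
  rcases hj.lt_or_eq with hj | rfl
  · simp [ex, fL, par, hj]
  · rw [div_self (by positivity)]
    simpa [len_par] using ex_length (fL N (par j s lam))

theorem dm_par {j : ℕ} (hj : j ≤ k) : dm (fL N (par k s lam)) 0 j = 1 / ((k : ℝ) + 1) := by
  cases j with
  | zero => simp [dm, exP, ex_par N k s lam hj]
  | succ j =>
    simp only [dm, exP, ex_par N k s lam hj, ex_par N k s lam (Nat.le_of_succ_le hj)]
    push_cast; ring

theorem par_update {j : ℕ} (hj : j < k) (a : ℝ) : fL N (par k s (Function.update lam j a)) =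
    (fL N (par k s lam)).take j ++ fl N (((j : ℝ) + 1) / ((k : ℝ) + 1), s * a) ::
      (fL N (par k s lam)).drop (j + 1) := by
  have e := List.set_eq_take_append_cons_drop (l := fL N (par k s lam)) (i := j)
    (a := fl N (((j : ℝ) + 1) / ((k : ℝ) + 1), s * a))
  rw [if_pos (by rwa [len_par])] at e
  rw [← e]
  refine List.ext_getElem (by simp [len_par]) fun i h1 h2 => ?_
  rw [List.getElem_set]
  split_ifs with h
  · subst h; simp [fL, par]
  · simp [fL, par, Function.update_of_ne (Ne.symm h)]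

end par

/-! ### assembly -/

theorem abs_tE_le {Ω : Type*} [Fintype Ω] {F Φ : (Ω → ℝ) → ℝ} (hF : Lg F) (h : Eg Φ) (l : Lv Ω)
    (z : Ω → ℝ) : |tE l F Φ z| ≤ tE l F (fun z => |Φ z|) z := by
  refine abs_le.2 ⟨?_, tE_mono hF h h.abs (fun _ => le_abs_self _) l z⟩
  rw [← tE_neg]
  exact tE_mono hF h.abs.neg h (fun _ => neg_abs_le _) l z

/-- concentration of `Bf` at the node above its level -/
theorem Bf_conc (hC : CmpStmt) (hw : Wt w) (hN : 0 < N) {k : ℕ} {s u : ℝ} (hs : 0 < s) (hu : 0 < u)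
    {lam : ℕ → ℝ} (hlam : ∀ j, 1 ≤ lam j) (h : Cube N → ℝ) {j : ℕ} (hj : j < k)
    {B : (Cube N → ℝ) → ℝ} (hB : B = Bf w (fl N (((j : ℝ) + 1) / ((k : ℝ) + 1), s * lam j))
      ((fL N (par k s lam)).drop (j + 1))) :
    node w (fL N (par k s lam)) j (fun z => |B z - node w (fL N (par k s lam)) j B h|) h ≤
      ((k + 1) * log 2 + d2 (fun lam => X w (fL N (par k s lam)) h) u lam j) / (u * s ^ 2 * N) := by
  set L := fL N (par k s lam) with hL
  set m : ℝ := ((j : ℝ) + 1) / ((k : ℝ) + 1) with hm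
  have hk : (0 : ℝ) < (k : ℝ) + 1 := by positivity
  have hm0 : 0 ≤ m := by positivity
  have hl0 : ∀ l ∈ L, 0 ≤ l.m := fun l hl => le_trans (by positivity) (mem_par N k s lam hl)
  have hD : ∀ l ∈ L.drop (j + 1), 0 ≤ l.m := fun l hl => hl0 l (List.mem_of_mem_drop hl)
  have hc : ∀ a, ∀ l ∈ fl N (m, a) :: L.drop (j + 1), 0 ≤ l.m := fun a l hl => by
    rcases List.mem_cons.1 hl with rfl | hl
    exacts [hm0, hD l hl]
  have hlj : lam j ≠ 0 := by have := hlam j; positivity
  set c := u * (lam j * s ^ 2 * N) with hcd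
  have hc0 : u * s ^ 2 * N ≤ c := by
    have : 0 ≤ u * s ^ 2 * N := by positivity
    nlinarith [hlam j]
  have hc1 : 0 < u * s ^ 2 * N := by positivity
  have hBe : Eg B := hB ▸ eg_Bf hw _ _
  have hBm : ∀ z, 0 ≤ B z ∧ B z ≤ 1 := fun z => hB ▸ Bf_mem hw hm0 (mono_drop N k s lam (k - (j + 1))
    (j + 1) (by omega) _ (div_le_div_of_nonneg_right (by simp) hk.le)) z
  have h1 := hC (Cube N) w hw (L.take j) (fl N (m, s * lam j) :: L.drop (j + 1))
    (fl N (m, s * (lam j + u)) :: L.drop (j + 1)) (fl N (m, s * (lam j - u)) :: L.drop (j + 1))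
    (1 / ((k : ℝ) + 1)) (by positivity)
    (fun l hl => mem_par N k s lam (List.mem_of_mem_take hl)) (hc _) (hc _) (hc _)
    (fun z => c * (1 - B z)) c (continuous_const.mul (continuous_const.sub hBe.cont))
    (fun z => by
      rw [abs_mul, abs_of_pos (hc1.trans_le hc0), abs_of_nonneg (sub_nonneg.2 (hBm z).2)]
      exact mul_le_of_le_one_right (hc1.trans_le hc0).le (by linarith [(hBm z).1]))
    (fun z => by
      have := amp_convex hw hN hm0 hlj hD z (s := s) (lam j + u)
      rw [← hB] at this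
      rw [hcd]; linarith)
    (fun z => by
      have := amp_convex hw hN hm0 hlj hD z (s := s) (lam j - u)
      rw [← hB] at this
      rw [hcd]; linarith) h
  rw [← drop_par N k s lam hj, List.take_append_drop, List.length_take_of_le
    (by rw [len_par]; exact hj.le), ← par_update N k s lam hj, ← par_update N k s lam hj] at h1
  have h2 : node w L j (fun z => c * (1 - B z)) h = c * (1 - node w L j B h) := by
    rw [node_const_mul, node_sub hw (Eg.const 1) hBe, node_const hw]
  have h3 : (fun z => |c * (1 - B z) - c * (1 - node w L j B h)|) =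
      fun z => c * |B z - node w L j B h| := by
    funext z
    rw [← mul_sub, abs_mul, abs_of_pos (hc1.trans_le hc0), abs_sub_comm]
    congr 2; ring
  rw [h2, h3, node_const_mul] at h1
  have h4 := node_nonneg w (Φ := fun z => |B z - node w L j B h|) (fun _ => abs_nonneg _) L j h
  rw [le_div_iff₀ hc1, d2]
  have h5 := mul_le_mul_of_nonneg_left h1 hk.le
  have h6 : ∀ a : ℝ, ((k : ℝ) + 1) * (1 / ((k : ℝ) + 1) * a) = a := fun a => by field_simp
  simp only [mul_add, h6] at h5
  nlinarith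

theorem fin_sum (k : ℕ) {δ η θ : ℝ} (hδ0 : 0 < δ) (hη : 0 < η) (hθ0 : 0 ≤ θ)
    (hk : ((k : ℝ) + 1) * δ = 1) {t p e q : ℕ → ℝ} (ht : ∀ j, t j ≤ 2)
    (hmain : ∀ j < k, t j ≤ (p (j + 1) - p j) * (1 / η + 2) + η + 2 * θ + q j)
    (hQc : ∀ j, j + 1 < k → δ * q j ≤ e j + e (j + 1)) (he0 : ∀ j, 0 ≤ e j) (hp0 : ∀ j, 0 ≤ p j)
    (hp1 : ∀ j, p j ≤ 1) : ∑ j ∈ Finset.range (k + 1), δ * t j ≤
      6 * δ + δ * (1 / η) + η + 2 * θ + 2 * ∑ j ∈ Finset.range k, e j := by
  have hη' : 0 ≤ δ * (1 / η) := by positivity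
  cases k with
  | zero =>
    have := mul_le_mul_of_nonneg_left (ht 0) hδ0.le
    simp only [zero_add, Finset.range_one, Finset.sum_singleton, Finset.range_zero, Finset.sum_empty]
    linarith
  | succ k =>
    rw [Finset.sum_range_succ, Finset.sum_range_succ]
    have a1 := mul_le_mul_of_nonneg_left (ht k) hδ0.le
    have a2 := mul_le_mul_of_nonneg_left (ht (k + 1)) hδ0.le
    have a3 : ∑ j ∈ Finset.range k, δ * t j ≤
        ∑ j ∈ Finset.range k, (δ * (1 / η + 2) * (p (j + 1) - p j) + δ * (η + 2 * θ) +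
          (e j + e (j + 1))) := Finset.sum_le_sum fun j hj => by
      have hj := Finset.mem_range.1 hj
      have b1 := mul_le_mul_of_nonneg_left (hmain j (by omega)) hδ0.le
      have b2 := hQc j (by omega)
      linarith
    rw [Finset.sum_add_distrib, Finset.sum_add_distrib, Finset.sum_add_distrib,
      ← Finset.mul_sum _ _ (δ * (1 / η + 2)),
      Finset.sum_range_sub, Finset.sum_const, Finset.card_range, nsmul_eq_mul] at a3
    have a4 : δ * (1 / η + 2) * (p k - p 0) ≤ δ * (1 / η + 2) :=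
      mul_le_of_le_one_right (by positivity) (by linarith [hp0 0, hp1 k])
    have a5 : k * (δ * (η + 2 * θ)) ≤ η + 2 * θ := by
      rw [← mul_assoc]
      refine mul_le_of_le_one_left (by positivity) ?_
      push_cast at hk; nlinarith
    have a6 := Finset.sum_range_succ e k
    have a7 := Finset.sum_range_succ' e k
    linarith [he0 0, he0 k]

theorem syncStmt (hV : VarStmt) (hC : CmpStmt) : SyncStmt := by
  intro N k w hw hN s u η hs hu hη lam hlam h
  set L := fL N (par k s lam) with hL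
  set θ := √(((k : ℝ) + 1) / (s * √N)) with hθ
  set δ : ℝ := 1 / ((k : ℝ) + 1) with hδ
  have hk : (0 : ℝ) < (k : ℝ) + 1 := by positivity
  have hδ0 : 0 < δ := by positivity
  set lv : ℕ → Lv (Cube N) := fun j => fl N (((j : ℝ) + 1) / ((k : ℝ) + 1), s * lam j) with hlv
  have hdr : ∀ j < k, L.drop j = lv j :: L.drop (j + 1) := fun j hj => drop_par N k s lam hj
  set p := pj w L h with hp
  set B : ℕ → (Cube N → ℝ) → ℝ := fun j => Bf w (lv j) (L.drop (j + 1)) with hB
  set Q : ℕ → (Cube N → ℝ) → ℝ := fun j => tE (lv j) (X w (L.drop (j + 1))) (mu w (L.drop (j + 1)))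
    with hQ
  set e : ℕ → ℝ := fun j => node w L j (fun z => |B j z - node w L j (B j) h|) h with he
  have he0 : ∀ j, 0 ≤ e j := fun j => node_nonneg w (fun _ => abs_nonneg _) L j h
  have hBe : ∀ j, Eg (B j) := fun j => eg_Bf hw _ _
  have hQe : ∀ j, Eg (Q j) := fun j => (eg_mu hw _).tE (lg_X hw _) _
  have htow : ∀ j < k, ∀ Φ, node w L j (tE (lv j) (X w (L.drop (j + 1))) Φ) = node w L (j + 1) Φ :=
    fun j hj Φ => by
      have := node_node w Φ 1 L j
      rwa [hdr j hj, node_cons, node_zero, add_comm 1 j] at this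
  have hpj : ∀ j, p j = node w L j (mu w (L.drop j)) h := fun j => rfl
  have hQp : ∀ j < k, node w L j (Q j) h = p (j + 1) := fun j hj => by rw [hQ, htow j hj, hpj]
  have hp0 : ∀ j, 0 ≤ p j := fun j => pi2_ov_nonneg L j h
  have hp1 : ∀ j, p j ≤ 1 := fun j => pi2_ov_le hw L j h
  have hmQ : ∀ j < k, ∀ z, mu w (L.drop j) z ≤ Q j z := fun j hj z => by
    rw [hdr j hj]; exact mu_le_tE hw _ _ z
  have hpm : ∀ j < k, p j ≤ p (j + 1) := fun j hj => by
    rw [← hQp j hj, hpj]; exact node_mono hw (eg_mu hw _) (hQe j) (hmQ j hj) L j h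
  -- the trivial bound
  have ht : ∀ j, pi2 w L j (fun x y => |ov x y - p j|) h ≤ 2 := fun j =>
    (pi2_mono hw L j (fun x y => (abs_sub _ _).trans (by
      have := abs_ov_le x y
      rw [abs_of_nonneg (hp0 j)]; linarith [hp1 j])) h).trans (pi2_const hw L j 2 h).le
  -- recursion for `B`
  have hrec : ∀ j, j + 1 < k → ∀ z, δ * Q j z = B j z - tE (lv j) (X w (L.drop (j + 1))) (B (j + 1)) z :=
    fun j hj z => by
      have e1 : pair w (L.drop (j + 1)) (lv j).m (fun _ => ov) =
          fun z => δ * mu w (L.drop (j + 1)) z + B (j + 1) z := by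
        funext z
        conv_lhs => rw [hdr _ hj]
        rw [pair, ← hdr _ hj]
        congr 2
        simp only [hlv, hδ]; push_cast; ring
      have e2 : B j z = tE (lv j) (X w (L.drop (j + 1)))
          (pair w (L.drop (j + 1)) (lv j).m fun _ => ov) z := rfl
      rw [e2, e1, tE_add (lg_X hw _) ((eg_mu hw _).const_mul _) (hBe (j + 1)), tE_const_mul]
      simp only [hQ]
      ring
  have hQc : ∀ j, j + 1 < k → δ * node w L j (fun z => |Q j z - p (j + 1)|) h ≤ e j + e (j + 1) :=
    fun j hj => by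
      have hj' : j < k := by omega
      have e1 : δ * p (j + 1) = node w L j (B j) h - node w L (j + 1) (B (j + 1)) h := by
        rw [← hQp j hj', ← congrFun (node_const_mul w (Q j) δ L j) h, funext (hrec j hj),
          node_sub hw (hBe j) ((hBe _).tE (lg_X hw _) _), htow j hj']
      have hA := ((hBe (j + 1)).sub (Eg.const (node w L (j + 1) (B (j + 1)) h)))
      rw [← congrFun (node_const_mul w _ δ L j) h]
      simp only [he]
      rw [← htow j hj', ← congrFun (node_add hw ((hBe j).sub (Eg.const _)).abs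
        (hA.abs.tE (lg_X hw _) _) L j) h]
      refine node_mono hw (((hQe j).sub (Eg.const _)).abs.const_mul _)
        (((hBe j).sub (Eg.const _)).abs.add (hA.abs.tE (lg_X hw _) _)) (fun z => ?_) L j h
      have a1 := abs_tE_le (lg_X hw (L.drop (j + 1))) hA (lv j) z
      rw [tE_sub (lg_X hw _) (hBe _) (Eg.const _), tE_const (lg_X hw _)] at a1
      rw [← abs_of_pos hδ0, ← abs_mul, mul_sub, hrec j hj, e1]
      refine le_trans (le_of_eq ?_) ((abs_sub _ _).trans (add_le_add le_rfl a1))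
      congr 1; ring
  have hmain : ∀ j < k, pi2 w L j (fun x y => |ov x y - p j|) h ≤
      (p (j + 1) - p j) * (1 / η + 2) + η + 2 * θ + node w L j (fun z => |Q j z - p (j + 1)|) h :=
    fun j hj => by
      have hA := ((hQe j).sub (eg_mu hw (L.drop j))).const_mul (1 / η + 1)
      have hA' := ((hQe j).sub (Eg.const (p (j + 1)))).abs
      have a0 : node w L j (fun z => ((1 / η + 1) * (Q j z - mu w (L.drop j) z) +
          |Q j z - p (j + 1)|) + (η + 2 * θ + (p (j + 1) - p j))) h =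
          (p (j + 1) - p j) * (1 / η + 2) + η + 2 * θ +
            node w L j (fun z => |Q j z - p (j + 1)|) h := by
        rw [node_add hw (hA.add hA') (Eg.const _), node_add hw hA hA', node_const_mul,
          node_sub hw (hQe j) (eg_mu hw _), node_const hw]
        simp only [hQp j hj, ← hpj]
        ring
      rw [← a0]
      refine node_mono hw (eg_qf hw _ _) ((hA.add hA').add (Eg.const _)) (fun z => ?_) L j h
      have hsj : 0 < s * lam j := by have := hlam j; positivity
      have a1 := node_dev hV hw hN (m := ((j : ℝ) + 1) / ((k : ℝ) + 1)) (by positivity) hsj hδ0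
        (sqrt_nonneg _ : 0 ≤ θ) (by
          rw [sq_sqrt (by positivity), hδ]
          have hsN : 0 < √(N : ℝ) := sqrt_pos.2 (by positivity)
          rw [div_le_div_iff₀ (by positivity) (by positivity)]
          have : ((k : ℝ) + 1) * (1 / ((k : ℝ) + 1) * (s * lam j) * √N) = s * √N * lam j := by
            field_simp
          rw [this]
          nlinarith [hlam j, mul_pos hs hsN])
        (mono_drop N k s lam (k - (j + 1)) (j + 1) (by omega) δ
          (div_le_div_of_nonneg_right (by simp; positivity) hk.le)) z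
      change qf (P w (lv j :: L.drop (j + 1)) z) (fun x y => |ov x y - mu w (lv j :: L.drop (j + 1)) z|)
        ≤ 2 * (√(Q j z - mu w (lv j :: L.drop (j + 1)) z) + θ) at a1
      rw [← hdr j hj] at a1
      have a2 := qf_mono (P_nonneg hw (L.drop j) z) (K := fun x y => |ov x y - p j|)
        (K' := fun x y => |ov x y - mu w (L.drop j) z| + |mu w (L.drop j) z - p j|)
        fun x y => abs_sub_le _ _ _
      rw [qf_add, qf_const (sum_P hw _ _)] at a2
      have a3 := sub_nonneg.2 (hmQ j hj z)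
      set κ := Q j z - mu w (L.drop j) z with hκ
      have a4 : 2 * √κ ≤ 1 / η * κ + η := by
        have : 1 / η * κ + η - 2 * √κ = 1 / η * (√κ - η) ^ 2 := by
          rw [sub_sq, sq_sqrt a3]; field_simp; ring
        have : 0 ≤ 1 / η * (√κ - η) ^ 2 := by positivity
        linarith
      have a5 : |mu w (L.drop j) z - p j| ≤ κ + |Q j z - p (j + 1)| + (p (j + 1) - p j) := by
        have := hpm j hj
        have := le_abs_self (Q j z - p (j + 1))
        have := neg_abs_le (Q j z - p (j + 1))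
        rw [abs_le]; constructor <;> linarith
      linarith
  have hE : ∑ j ∈ Finset.range k, e j ≤ ∑ j ∈ Finset.range k, ((k + 1) * log 2 +
      d2 (fun lam => X w (fL N (par k s lam)) h) u lam j) / (u * s ^ 2 * N) :=
    Finset.sum_le_sum fun j hj => Bf_conc hC hw hN hs hu hlam h (Finset.mem_range.1 hj) rfl
  have hS : sync w L h = ∑ j ∈ Finset.range (k + 1), δ * pi2 w L j (fun x y => |ov x y - p j|) h := by
    rw [sync, pair_eq_sum hw, hL, len_par]
    exact Finset.sum_congr rfl fun j hj => by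
      rw [dm_par N k s lam (Nat.lt_succ_iff.1 (Finset.mem_range.1 hj))]
  have hθ0 : 0 ≤ θ := sqrt_nonneg _
  have e6 : 6 / ((k : ℝ) + 1) = 6 * δ := by rw [hδ]; ring
  have e7 : 1 / (((k : ℝ) + 1) * η) = δ * (1 / η) := by rw [hδ]; field_simp
  rw [hS, e6, e7]
  refine le_trans ?_ (add_le_add le_rfl (mul_le_mul_of_nonneg_left hE zero_le_two))
  exact fin_sum k hδ0 hη hθ0 (by rw [hδ]; field_simp) ht hmain hQc he0 hp0 hp1

end Crest.Agent.T157.Plb

end
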