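import Crest.Agent.T157.FeTap_84

/-!
# Row 157, part B (S3, POS): the free edge, robust on `δ n` exceptional sites (helper23)

`Pos.rob`: for a fixed profile `A ≥ a0 > β`, off an event of probability `exp (-κ₁ n)`, for all sets
`T` of at most `δ n` sites, `β W + 10 η ⪯ (1 - κ) (A off T, a0 on T) + (1 - κ) (β² avg (1/A) - 10 η)`.
-/

set_option autoImplicit false

noncomputable section

namespace Crest.Agent.T157.Pos

open MeasureTheory ProbabilityTheory Matrix Filter Set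
open Crest.ProbabilityR.SpinGlassDynamics
open Crest.Agent.T157.E Crest.Agent.T157.Eig Crest.Agent.T157.Cond Crest.Agent.T157.Tap

variable {n : ℕ}

/-- the quadratic form of a diagonal matrix -/
def qd (A v : V n) : ℝ := ∑ i, A i * v i ^ 2

/-- the profile `A` off `T`, the floor `a0` on `T` -/
def cutT (a0 : ℝ) (T : Finset (Fin n)) (A : V n) : V n := fun i => if i ∈ T then a0 else A i

/-- some exceptional set and some vector violate the edge bound -/
def Viol (β a0 κ δ m e : ℝ) (A : V n) (W : Mx n) : Prop :=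
  ∃ T : Finset (Fin n), (T.card : ℝ) ≤ δ * n ∧ ∃ v : V n,
    (1 - κ) * (qd (cutT a0 T A) v + m * (v ⬝ᵥ v)) < β * (v ⬝ᵥ W *ᵥ v) + e * (v ⬝ᵥ v)

lemma dot_eq (v : V n) : v ⬝ᵥ v = ∑ i, v i ^ 2 := Finset.sum_congr rfl fun i _ => by ring

lemma qd_mono {A B : V n} (h : ∀ i, A i ≤ B i) (v : V n) : qd A v ≤ qd B v :=
  Finset.sum_le_sum fun i _ => mul_le_mul_of_nonneg_right (h i) (sq_nonneg _)

lemma qd_add_const (A : V n) (m : ℝ) (v : V n) :
    qd (fun i => A i + m) v = qd A v + m * (v ⬝ᵥ v) := by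
  simp only [qd, dot_eq, Finset.mul_sum, ← Finset.sum_add_distrib]
  exact Finset.sum_congr rfl fun i _ => by ring

lemma qd_smul (c : ℝ) (A v : V n) : qd (fun i => c * A i) v = c * qd A v := by
  simp only [qd, Finset.mul_sum]
  exact Finset.sum_congr rfl fun i _ => by ring

lemma le_cutT {a0 : ℝ} {A : V n} (h : ∀ i, a0 ≤ A i) (T : Finset (Fin n)) (i : Fin n) :
    a0 ≤ cutT a0 T A i := by
  unfold cutT; split_ifs
  · exact le_rfl
  · exact h i

lemma sum_inv_cutT {a0 : ℝ} (ha : 0 < a0) {A : V n} (h : ∀ i, a0 ≤ A i) (T : Finset (Fin n)) :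
    ∑ i, 1 / cutT a0 T A i ≤ ∑ i, 1 / A i + T.card / a0 := by
  have e : (T.card : ℝ) / a0 = ∑ i, if i ∈ T then 1 / a0 else 0 := by
    rw [Finset.sum_ite_mem, Finset.univ_inter, Finset.sum_const, nsmul_eq_mul]; ring
  rw [e, ← Finset.sum_add_distrib]
  refine Finset.sum_le_sum fun i _ => ?_
  have : 0 < A i := ha.trans_le (h i)
  unfold cutT; split_ifs
  · have : 0 < 1 / A i := by positivity
    linarith
  · simp

lemma avg_inv_le {a0 : ℝ} (ha : 0 < a0) {A : V n} (h : ∀ i, a0 ≤ A i) (hn : 0 < n) :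
    avg (fun i => 1 / A i) ≤ 1 / a0 := by
  have hn' : (0 : ℝ) < n := by positivity
  rw [avg, div_le_iff₀ hn']
  calc ∑ i, 1 / A i ≤ ∑ _i : Fin n, 1 / a0 :=
        Finset.sum_le_sum fun i _ => one_div_le_one_div_of_le ha (h i)
    _ = _ := by simp [mul_comm]

/-- the number of small sets -/
lemma card_small {u δ : ℝ} (hu : 0 < u) (hδ : δ ≤ u ^ 2) (n : ℕ) :
    (((Finset.univ : Finset (Finset (Fin n))).filter fun T => (T.card : ℝ) ≤ δ * n).card : ℝ) ≤
      Real.exp (2 * u * n) := by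
  have h1 : ∀ T : Finset (Fin n), (T.card : ℝ) ≤ δ * n → 1 ≤ u ^ T.card * Real.exp (u * n) := by
    intro T hT
    have a1 : Real.exp (-(1 / u)) ≤ u := by
      have := Real.add_one_le_exp (1 / u)
      rw [Real.exp_neg, inv_le_comm₀ (Real.exp_pos _) hu, ← one_div]
      linarith
    have a2 : Real.exp (-(1 / u)) ^ T.card ≤ u ^ T.card :=
      pow_le_pow_left₀ (Real.exp_pos _).le a1 _
    rw [← Real.exp_nat_mul] at a2
    have a3 : (T.card : ℝ) ≤ u ^ 2 * n :=
      hT.trans (mul_le_mul_of_nonneg_right hδ (Nat.cast_nonneg n))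
    have a4 : (T.card : ℝ) * (1 / u) ≤ u * n := by
      rw [mul_one_div, div_le_iff₀ hu]; nlinarith
    calc (1 : ℝ) = Real.exp 0 := Real.exp_zero.symm
      _ ≤ Real.exp (T.card * -(1 / u) + u * n) := Real.exp_le_exp.2 (by linarith)
      _ = _ := Real.exp_add _ _
      _ ≤ _ := mul_le_mul_of_nonneg_right a2 (Real.exp_pos _).le
  have h2 : ∑ T : Finset (Fin n), u ^ T.card = (1 + u) ^ n := by
    have := Finset.prod_one_add (s := (Finset.univ : Finset (Fin n))) (f := fun _ => u)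
    simp only [Finset.prod_const, Finset.card_univ, Fintype.card_fin, Finset.powerset_univ] at this
    exact this.symm
  have h3 : (1 + u) ^ n ≤ Real.exp (u * n) := by
    rw [mul_comm, Real.exp_nat_mul]
    exact pow_le_pow_left₀ (by positivity) (by linarith [Real.add_one_le_exp u]) _
  calc _ = ∑ _T ∈ (Finset.univ : Finset (Finset (Fin n))).filter
        (fun T => (T.card : ℝ) ≤ δ * n), (1 : ℝ) := by simp
    _ ≤ ∑ T ∈ (Finset.univ : Finset (Finset (Fin n))).filter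
        (fun T => (T.card : ℝ) ≤ δ * n), u ^ T.card * Real.exp (u * n) :=
        Finset.sum_le_sum fun T hT => h1 T (Finset.mem_filter.1 hT).2
    _ ≤ ∑ T : Finset (Fin n), u ^ T.card * Real.exp (u * n) :=
        Finset.sum_le_sum_of_subset_of_nonneg (Finset.filter_subset _ _)
          fun T _ _ => by positivity
    _ = (1 + u) ^ n * Real.exp (u * n) := by rw [← Finset.sum_mul, h2]
    _ ≤ Real.exp (u * n) * Real.exp (u * n) :=
        mul_le_mul_of_nonneg_right h3 (Real.exp_pos _).le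
    _ = _ := by rw [← Real.exp_add]; congr 1; ring

/-- one fixed profile -/
lemma one {β τ t : ℝ} (hβ : β ∈ Ioc (0 : ℝ) 1) (hn : 0 < n) {a : V n} (h : ∀ i, τ < a i)
    (ht : 0 ≤ t) :
    (GOE n).real {W | ∃ v : V n, qd a v + (-τ + β ^ 2 * avg (fun i => 1 / (a i - τ)) + t) *
      (v ⬝ᵥ v) < β * (v ⬝ᵥ W *ᵥ v)} ≤ Real.exp (-(t ^ 2 / 4) * n) := by
  have : Nonempty (Fin n) := ⟨⟨0, hn⟩⟩
  have hn' : (0 : ℝ) < n := by positivity
  have h1 := Fe.fe_tail_goe (β * (1 / √n)) h ht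
  rw [Fe.fe, Fe.sq_param] at h1
  have h2 : Real.exp (-t ^ 2 / (4 * (β ^ 2 / n))) ≤ Real.exp (-(t ^ 2 / 4) * n) := by
    have a0 : β ^ 2 ≤ 1 := pow_le_one₀ hβ.1.le hβ.2
    have a1 : 0 < β ^ 2 := pow_pos hβ.1 2
    refine Real.exp_le_exp.2 ?_
    rw [show -t ^ 2 / (4 * (β ^ 2 / n)) = -(t ^ 2 / 4 * n / β ^ 2) by field_simp, neg_mul,
      neg_le_neg_iff, le_div_iff₀ a1]
    exact mul_le_of_le_one_right (by positivity) a0
  refine le_trans (ENNReal.toReal_mono (measure_ne_top _ _) ?_) (h1.trans h2)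
  refine le_trans (measure_mono_ae ?_) ((Fe.mp_smul (1 / √n) β).measure_preimage_le _)
  filter_upwards [goe_ae_symm (ι := Fin n) (1 / √n)] with W hW ⟨v, hv⟩
  have hH : (β • W - diagonal a).IsHermitian :=
    (herm_iff.2 (by rw [transpose_smul, hW])).sub (Fe.herm_diag a)
  have h3 := quad_le_top hH v
  rw [sub_mulVec, dotProduct_sub, Fe.quad_diag, smul_mulVec, dotProduct_smul, smul_eq_mul] at h3
  by_contra hc0
  have hc : lam (β • W - diagonal a) 0 < -τ + β ^ 2 / n * ∑ i, 1 / (a i - τ) + t :=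
    not_le.1 hc0
  have e : β ^ 2 / n * ∑ i, 1 / (a i - τ) = β ^ 2 * avg fun i => 1 / (a i - τ) := by
    rw [avg]; ring
  rw [e] at hc
  have := mul_le_mul_of_nonneg_right hc.le (Eig.dot_self_nonneg v)
  rw [qd] at hv
  linarith

lemma scal {β ρ κ a : ℝ} (hβ : 0 < β) (hρ : 0 < ρ) (hκ : 0 ≤ κ) (hκ1 : κ ≤ 1 / 2)
    (hκ2 : κ * (β + 4 * ρ) ≤ ρ) (ha : β + 4 * ρ ≤ a) :
    ρ < (1 - κ) * a ∧ 1 / ((1 - κ) * a - ρ) ≤ (1 + 2 * κ) * (1 / a) + ρ / (β + 2 * ρ) ^ 2 := by
  have h1 : β + 3 * ρ ≤ (1 - κ) * a := by nlinarith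
  have ha0 : 0 < a := by linarith
  refine ⟨by linarith, ?_⟩
  set b := (1 - κ) * a with hb
  have b0 : 0 < b := by linarith
  have b1 : 0 < b - ρ := by linarith
  have e : 1 / (b - ρ) = 1 / b + ρ / (b * (b - ρ)) := by field_simp; ring
  rw [e]
  refine add_le_add ?_ (div_le_div_of_nonneg_left hρ.le (by positivity) (by nlinarith))
  rw [mul_one_div, div_le_div_iff₀ b0 ha0, hb]
  have : 0 ≤ κ * (1 - 2 * κ) * a := by
    have : 0 ≤ 1 - 2 * κ := by linarith
    positivity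
  nlinarith

/-- **robust free edge** -/
theorem rob {β a0 : ℝ} (hβ : β ∈ Ioc (0 : ℝ) 1) (ha : β < a0) :
    ∃ κ η δ κ1 : ℝ, 0 < κ ∧ κ ≤ 1 / 2 ∧ 0 < η ∧ η ≤ 1 ∧ 0 < δ ∧ 0 < κ1 ∧ ∀ n : ℕ, 0 < n →
      ∀ A : V n, (∀ i, a0 ≤ A i) → (GOE n).real {W | Viol β a0 κ δ
        (β ^ 2 * avg (fun i => 1 / A i) - 10 * η) (10 * η) A W} ≤ Real.exp (-κ1 * n) := by
  have hβ0 := hβ.1
  set ρ := (a0 - β) / 4 with hρ
  have ρ0 : 0 < ρ := by rw [hρ]; linarith
  have ea : a0 = β + 4 * ρ := by rw [hρ]; ring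
  have a00 : 0 < a0 := hβ0.trans ha
  set c1 := 1 - β ^ 2 / (β + 2 * ρ) ^ 2 with hc1
  have c10 : 0 < c1 := by
    rw [hc1, sub_pos, div_lt_one (by positivity)]; nlinarith
  set E := min (ρ * c1 / 40) 1 with hE
  have E0 : 0 < E := lt_min (by positivity) one_pos
  have E1 : E ≤ ρ * c1 / 40 := min_le_left _ _
  have E2 : E ≤ 1 := min_le_right _ _
  set κ := min E (min (1 / 2) (ρ / a0)) with hκ
  have κ0 : 0 < κ := lt_min E0 (lt_min (by norm_num) (by positivity))
  have κ1 : κ ≤ E := min_le_left _ _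
  have κ2 : κ ≤ 1 / 2 := (min_le_right _ _).trans (min_le_left _ _)
  have κ3 : κ ≤ ρ / a0 := (min_le_right _ _).trans (min_le_right _ _)
  rw [le_div_iff₀ a00] at κ3
  set u := E ^ 2 / 16 with hu
  have u0 : 0 < u := by positivity
  have u1 : u ≤ 1 := by rw [hu]; nlinarith
  have u2 : u ^ 2 ≤ E := by
    have : u ≤ E := by rw [hu]; nlinarith
    nlinarith
  refine ⟨κ, E, u ^ 2, E ^ 2 / 8, κ0, κ2, E0, E2, by positivity, by positivity, ?_⟩
  intro n hn A hA
  have hn' : (0 : ℝ) < n := by positivity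
  set F := (Finset.univ : Finset (Finset (Fin n))).filter fun T => (T.card : ℝ) ≤ u ^ 2 * n with hF
  have hsc : ∀ (T : Finset (Fin n)) i, _ := fun T i =>
    scal hβ0 ρ0 κ0.le κ2 (by rw [← ea]; exact κ3) (ea.ge.trans (le_cutT hA T i))
  calc _ ≤ (GOE n).real (⋃ T ∈ F, {W | ∃ v : V n, qd (fun i => (1 - κ) * cutT a0 T A i) v +
        (-ρ + β ^ 2 * avg (fun i => 1 / ((1 - κ) * cutT a0 T A i - ρ)) + E) * (v ⬝ᵥ v) <
          β * (v ⬝ᵥ W *ᵥ v)}) := by
        refine measureReal_mono (fun W ⟨T, hT, v, hv⟩ => ?_) (measure_ne_top _ _)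
        refine mem_iUnion₂.2 ⟨T, Finset.mem_filter.2 ⟨Finset.mem_univ _, hT⟩, v, ?_⟩
        rw [qd_smul]
        set G := avg fun i => 1 / A i with hG
        have G0 : 0 ≤ G := div_nonneg (Finset.sum_nonneg fun i _ =>
          (one_div_pos.2 (a00.trans_le (hA i))).le) hn'.le
        have b1 : β ^ 2 / a0 ≤ 1 := by
          rw [div_le_one a00]; nlinarith [hβ.2]
        have G1 : β ^ 2 * G ≤ 1 := by
          have := mul_le_mul_of_nonneg_left (avg_inv_le a00 hA hn) (sq_nonneg β)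
          rw [mul_one_div] at this
          exact this.trans b1
        have s1 : avg (fun i => 1 / ((1 - κ) * cutT a0 T A i - ρ)) ≤
            (1 + 2 * κ) * (G + u ^ 2 / a0) + ρ / (β + 2 * ρ) ^ 2 := by
          rw [avg, div_le_iff₀ hn']
          refine (Finset.sum_le_sum fun i _ => (hsc T i).2).trans ?_
          rw [Finset.sum_add_distrib, ← Finset.mul_sum, Finset.sum_const, Finset.card_univ,
            Fintype.card_fin, nsmul_eq_mul]
          have t1 := sum_inv_cutT a00 hA T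
          have t2 : (T.card : ℝ) / a0 ≤ u ^ 2 / a0 * n := by
            rw [div_mul_eq_mul_div]; exact div_le_div_of_nonneg_right hT a00.le
          have t3 : ∑ i, 1 / A i = G * n := by rw [hG, avg]; field_simp
          have t4 := mul_le_mul_of_nonneg_left (t1.trans (add_le_add t3.le t2))
            (show 0 ≤ 1 + 2 * κ by positivity)
          linarith
        have s2 : β ^ 2 * (u ^ 2 / a0) ≤ E := by
          rw [show β ^ 2 * (u ^ 2 / a0) = β ^ 2 / a0 * u ^ 2 by ring]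
          exact (mul_le_of_le_one_left (by positivity) b1).trans u2
        have s3 : β ^ 2 * (ρ / (β + 2 * ρ) ^ 2) = ρ - ρ * c1 := by rw [hc1]; ring
        have s4 := mul_le_mul_of_nonneg_left s1 (sq_nonneg β)
        have s5 : β ^ 2 * ((1 + 2 * κ) * (G + u ^ 2 / a0)) ≤ β ^ 2 * G + 5 * E := by
          have r1 : κ * (β ^ 2 * G) ≤ E := (mul_le_of_le_one_right κ0.le G1).trans κ1
          have r2 : κ * (β ^ 2 * (u ^ 2 / a0)) ≤ E :=
            (mul_le_of_le_one_right κ0.le (s2.trans E2)).trans κ1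
          linarith
        have s6 : -ρ + β ^ 2 * avg (fun i => 1 / ((1 - κ) * cutT a0 T A i - ρ)) + E + 10 * E ≤
            (1 - κ) * (β ^ 2 * G - 10 * E) := by
          have r1 : κ * (β ^ 2 * G) ≤ E := (mul_le_of_le_one_right κ0.le G1).trans κ1
          have r2 : 0 ≤ κ * E := by positivity
          rw [mul_add, s3] at s4
          linarith
        have s7 := mul_le_mul_of_nonneg_right s6 (Eig.dot_self_nonneg v)
        linarith
    _ ≤ ∑ T ∈ F, Real.exp (-(E ^ 2 / 4) * n) :=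
        (measureReal_biUnion_finset_le _ _).trans (Finset.sum_le_sum fun T _ =>
          one hβ hn (fun i => (hsc T i).1) E0.le)
    _ ≤ Real.exp (2 * u * n) * Real.exp (-(E ^ 2 / 4) * n) := by
        rw [Finset.sum_const, nsmul_eq_mul]
        exact mul_le_mul_of_nonneg_right (card_small u0 le_rfl n) (Real.exp_pos _).le
    _ = _ := by rw [← Real.exp_add, hu]; congr 1; ring

end Crest.Agent.T157.Pos

end
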