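import Crest.Agent.T157.PosA_23
import Crest.Agent.T157.TapKr_50
import Crest.Agent.T157.TapPl_37
import Crest.Agent.T157.TapSE_6
import Crest.Agent.T157.TapCov_15
import Crest.Agent.T157.TapFrz_25

/-!
# Row 157, part B (S3): generic Kac-Rice transfer, joint planted transfer (helper23)

* `Pos.kr`: an event of `(W, x)` that is exponentially rare in the reference model of `CellStmt` is
  exponentially rare for the TAP solutions of the planted model;
* `Pos.joint`: transfer of events of `(W, σ, y)` to the localisation of the Gibbs measure;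
* `Pos.tapT`: the two together with the gauge.
-/

set_option autoImplicit false

noncomputable section

namespace Crest.Agent.T157.Pos

open MeasureTheory ProbabilityTheory Matrix Filter Set Topology
open Crest.ProbabilityR.SpinGlassDynamics
open Crest.Agent.T157.E Crest.Agent.T157.Eig Crest.Agent.T157.Cond Crest.Agent.T157.Tap
open Crest.Agent.T157.SL

variable {n : ℕ}

/-- the reference model of `CellStmt` -/
abbrev Ref (n : ℕ) : Measure ((V n × V n) × Mx n) := ((gv (Fin n)).prod (gv (Fin n))).prod (GOE n)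

lemma isQ_strong (hSE : SEStmt) {β s q : ℝ} (hβ : β ∈ Icc (0 : ℝ) 1) (hs : 0 < s) (hq : IsQ β s q) :
    ∃ ν > (0 : ℝ), ∀ a ∈ Icc (0 : ℝ) 1, ∀ b : ℝ, ν * (|a - q| + |b - q|) ≤
      |a - gE (fun x => Real.tanh x ^ 2) (s + β ^ 2 * b) (s + β ^ 2 * a)| +
      |b - gE Real.tanh (s + β ^ 2 * b) (s + β ^ 2 * a)| := by
  obtain ⟨q', -, ν, hν, h⟩ := hSE.2.2 β hβ s hs
  have h1 := h q hq.1 q
  have h0 : 0 ≤ s + β ^ 2 * q := by have := hq.1.1; positivity
  rw [(hSE.1 _ h0).1, ← hq.2, sub_self, abs_zero, add_zero] at h1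
  have h2 : |q - q'| ≤ 0 := by
    by_contra hc
    have := mul_pos hν (show 0 < |q - q'| + |q - q'| by linarith [not_le.1 hc])
    linarith
  rw [sub_eq_zero.1 (abs_nonpos_iff.1 h2)]
  exact ⟨ν, hν, h⟩

open Kr50 in
/-- **generic Kac-Rice transfer** -/
theorem kr (hC : CellStmt) (hR : RamStmt) (hSE : SEStmt) (hH : HoefStmt) {β s q ε1 κ1 : ℝ}
    (hβ : β ∈ Ioc (0 : ℝ) 1) (hs0 : 0 < s) (hq : IsQ β s q) (hε1 : 0 < ε1) (hκ1 : 0 < κ1)
    {B : ∀ n, Set (Mx n × V n)} (hBm : ∀ n, MeasurableSet (B n))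
    (hSF : ∀ᶠ n : ℕ in atTop, Ref n {z | |aS (xv β s q q z.1.1 z.1.2) - q| ≤ ε1 ∧
      (glueW β (xv β s q q z.1.1 z.1.2) z.1.2 z.2, xv β s q q z.1.1 z.1.2) ∈ B n} ≤
        ENNReal.ofReal (Real.exp (-κ1 * n))) :
    ∃ c' > (0 : ℝ), ∃ ε > (0 : ℝ), ∃ κ > (0 : ℝ), ∀ᶠ n : ℕ in atTop,
      ((GOE n).prod (gv (Fin n))) {z | opn (plW β z.1 1) ≤ 3 ∧ DET (plW β z.1 1) β c' ε ∧
        ∃ x, Ymap (β • plW β z.1 1) (β ^ 2) x = s • (1 : V n) + Real.sqrt s • z.2 ∧
          (z.1, x) ∈ B n} ≤ ENNReal.ofReal (Real.exp (-κ * n)) := by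
  have hβ' : β ∈ Icc (0 : ℝ) 1 := ⟨hβ.1.le, hβ.2⟩
  obtain ⟨ν, hν, hqν⟩ := isQ_strong hSE hβ' hs0 hq
  obtain ⟨am1, ham1, κ2, hκ2, hH2⟩ := hH.2 s hs0
  obtain ⟨a, ha, haq⟩ := hSE.2.1 s hs0
  have hqa : a ≤ q := by
    have := haq (s + β ^ 2 * q) (s + β ^ 2 * q) (by
      have := mul_nonneg (sq_nonneg β) hq.1.1
      linarith)
    rwa [← hq.2] at this
  set am : ℝ := min am1 a with ham
  have ham0 : 0 < am := by positivity
  obtain ⟨C, hC0⟩ := hC β hβ' s hs0 am ham0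
  set ε0 : ℝ := min (min ε1 (am / 2)) (κ1 / 2 / (|C| + 1)) with hε0
  have hε0p : 0 < ε0 := by positivity
  have hε01 : ε0 ≤ ε1 := (min_le_left _ _).trans (min_le_left _ _)
  have hε02 : ε0 ≤ am / 2 := (min_le_left _ _).trans (min_le_right _ _)
  have hε03 : ε0 ≤ κ1 / 2 / (|C| + 1) := min_le_right _ _
  rw [le_div_iff₀ (by positivity)] at hε03
  obtain ⟨ε, hε, hεε0, κ3, hκ3, hfar⟩ := far hC hR hH hβ' hs0 ham0 hν hε0p hqν
  obtain ⟨F, hFK, hFfin, hFcov⟩ := Metric.finite_approx_of_totallyBounded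
    ((isCompact_Icc (a := am) (b := 1)).prod ((isCompact_Icc (a := (-1 : ℝ)) (b := 1)).prod
      (isCompact_Icc (a := (-6 : ℝ)) (b := 6)))).totallyBounded ε hε
  classical
  set F' : Finset (ℝ × ℝ × ℝ) := hFfin.toFinset.filter
    fun p => ε0 / 2 ≤ |p.2.2| ∨ ε0 / 2 ≤ |p.1 - q| + |p.2.1 - q| with hF'
  set κ : ℝ := min (min (κ1 / 2) κ2) κ3 with hκ
  have hκp : 0 < κ := by positivity
  have hk1 : κ ≤ κ1 / 2 := (min_le_left _ _).trans (min_le_left _ _)
  have hk2 : κ ≤ κ2 := (min_le_left _ _).trans (min_le_right _ _)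
  have hk3 : κ ≤ κ3 := min_le_right _ _
  refine ⟨am, ham0, ε, hε, κ / 2, by positivity, ?_⟩
  filter_upwards [hSF, ev_exp (3 + 4 * F'.card) hκp, eventually_gt_atTop 0] with n hSF hev hn
  have hn' : (0 : ℝ) < n := by positivity
  set H : Set (V n) := {g | 2 * Real.sqrt n < nrm g ∨ ∃ (J : Mx n) (b : ℝ) (x : V n), opn J ≤ 3 ∧
      b ∈ Icc (0 : ℝ) 1 ∧ Ymap J b x = s • (1 : V n) + Real.sqrt s • g ∧ aS x < am1} with hHd
  have hmono : ∀ {k : ℝ}, κ ≤ k → Real.exp (-k * n) ≤ Real.exp (-κ * n) := fun hk =>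
    Real.exp_le_exp.2 (by nlinarith)
  have b1 : ((GOE n).prod (gv (Fin n))) {z | z.2 ∈ H} ≤ ENNReal.ofReal (2 * Real.exp (-κ * n)) :=
    (prod_snd_le _ _ (fun z hz => hz)).trans ((hH2 n hn).trans
      (ENNReal.ofReal_le_ofReal (by linarith [hmono hk2])))
  have b2 : ((GOE n).prod (gv (Fin n))) (cellE n β s ε0 am q q 0 (B n)) ≤
      ENNReal.ofReal (Real.exp (-κ * n)) := by
    refine (hC0 n ε0 am q q 0 (B n) hn hε0p hε02 ⟨(min_le_right _ _).trans hqa, hq.1.2⟩ (by simp)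
      (hBm n)).trans (ofReal_mul_le (Real.exp_pos _).le
        ((measure_mono fun z hz => ?_).trans hSF) ?_)
    · obtain ⟨h1, -, -, h3⟩ := hz
      exact ⟨h1.trans hε01, h3⟩
    · rw [← Real.exp_add]
      refine Real.exp_le_exp.2 ?_
      have : C * ε0 ≤ |C| * ε0 := mul_le_mul_of_nonneg_right (le_abs_self _) hε0p.le
      nlinarith
  have b3 : ((GOE n).prod (gv (Fin n))) (⋃ p ∈ F', cellE n β s ε am p.1 p.2.1 p.2.2 univ) ≤
      ENNReal.ofReal (F'.card * (4 * Real.exp (-κ * n))) := by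
    refine (measure_biUnion_finset_le _ _).trans ?_
    rw [ENNReal.ofReal_mul (Nat.cast_nonneg _), ENNReal.ofReal_natCast, ← nsmul_eq_mul]
    refine Finset.sum_le_card_nsmul _ _ _ fun p hp => ?_
    rw [hF', Finset.mem_filter, Finite.mem_toFinset] at hp
    have h1 := hFK hp.1
    refine (hfar n am p.1 p.2.1 p.2.2 hn h1.1 ?_ hp.2).trans
      (ENNReal.ofReal_le_ofReal (by linarith [hmono hk3]))
    exact abs_le.2 ⟨by linarith [h1.2.2.1], by linarith [h1.2.2.2]⟩
  calc _ ≤ ((GOE n).prod (gv (Fin n))) (({z | z.2 ∈ H} ∪ cellE n β s ε0 am q q 0 (B n)) ∪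
        ⋃ p ∈ F', cellE n β s ε am p.1 p.2.1 p.2.2 univ) := by
        refine measure_mono fun z hz => ?_
        obtain ⟨h1, h2, x, h3, h4⟩ := hz
        by_cases hzH : z.2 ∈ H
        · exact Or.inl (Or.inl hzH)
        simp only [hHd, mem_ofPred_eq, not_or, not_lt, not_exists, not_and] at hzH
        obtain ⟨h5, h6⟩ := hzH
        have h7 : am ≤ aS x := (min_le_left _ _).trans (h6 _ _ x (by
          rw [opn_smul, abs_of_nonneg hβ'.1]
          nlinarith [opn_nonneg (plW β z.1 1), hβ.2, hβ.1])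
          ⟨sq_nonneg β, pow_le_one₀ hβ'.1 hβ.2⟩ h3)
        have h8 : avg (DD (th x)) ≤ 1 - am := by rw [avg_DD hn]; linarith
        have h9 := abs_SW_le hn hβ' h1 (ham0.trans_le h7)
        by_cases hcen : |aS x - q| ≤ ε0 ∧ |bS x - q| ≤ ε0 ∧ |SW β z.1 x - 0| ≤ ε0
        · exact Or.inl (Or.inr ⟨h1, DET_mono h2 (by linarith), h5, x, h3, h8, hcen.1, hcen.2.1,
            hcen.2.2, h4⟩)
        have h10 : (aS x, bS x, SW β z.1 x) ∈ Icc am 1 ×ˢ Icc (-1 : ℝ) 1 ×ˢ Icc (-6 : ℝ) 6 :=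
          ⟨⟨h7, aS_le_one x⟩, abs_le.1 (abs_bS_le x), abs_le.1 h9⟩
        obtain ⟨p, hpF, hp⟩ := mem_iUnion₂.1 (hFcov h10)
        rw [Metric.mem_ball, Prod.dist_eq, Prod.dist_eq, max_lt_iff, max_lt_iff, Real.dist_eq,
          Real.dist_eq, Real.dist_eq] at hp
        obtain ⟨p1, p2, p3⟩ := hp
        dsimp only at p1 p2 p3
        refine Or.inr (mem_iUnion₂.2 ⟨p, ?_, h1, h2, h5, x, h3, h8, p1.le, p2.le, p3.le, mem_univ _⟩)
        rw [hF', Finset.mem_filter, Finite.mem_toFinset]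
        refine ⟨hpF, ?_⟩
        by_contra hcon
        push Not at hcon
        obtain ⟨q1, q2⟩ := hcon
        have r1 := abs_sub_le (aS x) p.1 q
        have r2 := abs_sub_le (bS x) p.2.1 q
        have r3 := abs_sub_le (SW β z.1 x) p.2.2 0
        rw [sub_zero p.2.2] at r3
        have r4 := abs_nonneg (p.1 - q)
        have r5 := abs_nonneg (p.2.1 - q)
        exact hcen ⟨by linarith, by linarith, by linarith⟩
    _ ≤ ENNReal.ofReal (2 * Real.exp (-κ * n)) + ENNReal.ofReal (Real.exp (-κ * n)) +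
        ENNReal.ofReal (F'.card * (4 * Real.exp (-κ * n))) :=
        (measure_union_le _ _).trans (add_le_add ((measure_union_le _ _).trans (add_le_add b1 b2)) b3)
    _ ≤ _ := by
        rw [← ENNReal.ofReal_add (by positivity) (by positivity),
          ← ENNReal.ofReal_add (by positivity) (by positivity)]
        exact ENNReal.ofReal_le_ofReal (by linarith)

/-! ### the joint transfer -/

lemma transfer_joint (β s : ℝ) {A : Cube n → Set (Mx n × V n)} (hA : ∀ σ, MeasurableSet (A σ))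
    {δ ε η : ℝ} (hε : 0 < ε) (hη : 0 < η) (h : ∀ σ : Cube n, ((GOE n).prod (gv (Fin n))).real
      {z | (plW β z.1 (sv σ), s • sv σ + Real.sqrt s • z.2) ∈ A σ} ≤ δ) :
    (GOE n).real {W | ε ≤ mean (ising (β • W) 0) fun σ => px sv s {y | (W, y) ∈ A σ} σ} ≤
      (GOE n).real {W | Pl.LRW n β W < η} + δ / (ε * η) := by
  refine (Pl.transferW_mean β (fun σ => TapPl.measurable_px s (hA σ) σ) (fun _ _ => px_nonneg _)
    (fun σ => (integrable_const 1).mono' ((TapPl.measurable_px s (hA σ) σ).comp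
      (by fun_prop)).aestronglyMeasurable (.of_forall fun W => by
        rw [Real.norm_of_nonneg (px_nonneg _)]; exact px_le_one _)) hε hη).trans
    (add_le_add le_rfl (div_le_div_of_nonneg_right ?_ (mul_pos hε hη).le))
  rw [div_le_iff₀ (by positivity), ← Pl.card_cube, mul_comm, ← nsmul_eq_mul, ← Finset.card_univ,
    ← Finset.sum_const]
  refine Finset.sum_le_sum fun σ _ => le_of_eq_of_le ?_ (h σ)
  have hS : MeasurableSet {z : Mx n × V n |
      (plW β z.1 (sv σ), s • sv σ + Real.sqrt s • z.2) ∈ A σ} :=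
    (hA σ).preimage (by unfold plW; fun_prop)
  simp only [TapPl.px_eq s (hA σ)]
  rw [Measure.real, Measure.prod_apply hS, ← integral_toReal
    (measurable_measure_prodMk_left hS).aemeasurable (.of_forall fun _ => measure_lt_top _ _)]
  rfl

/-- posterior mass of a joint event -/
lemma law_post (J : Mx n) {s : ℝ} (hs : 0 ≤ s) {A : Cube n → Set (V n)}
    (hA : ∀ σ, MeasurableSet (A σ)) :
    (law sv (ising J 0) s).real {y | 1 / 2 ≤ mean (ising J y) fun σ => (A σ).indicator 1 y} ≤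
      2 * mean (ising J 0) fun σ => px sv s (A σ) σ := by
  have hF : ∀ σ, MG ((A σ).indicator (1 : V n → ℝ)) := fun σ => (MG.const 1).indicator (hA σ)
  have h1 := mg_mean (φ := sv) (Cov15.wt_ising J 0) s hF
  have h2 := bayes (φ := sv) (Cov15.wt_ising J 0) hs (SInt.of_mg hF)
  simp only [mean_post_sv, Cov15.tilt0] at h1 h2
  have h3 := Cov15.law_markov (J := J) (s := s) (h1.const_mul 2) fun y =>
    mul_nonneg zero_le_two ((Cov15.wt_ising J y).mean_nonneg fun σ =>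
      indicator_nonneg (fun _ _ => zero_le_one) y)
  rw [slE_const_mul, ← h2, slE_eq_mean] at h3
  have e : ∀ σ : Cube n, ∫ z, (A σ).indicator (1 : V n → ℝ) (s • sv σ + √s • z) ∂Gs (Fin n) =
      px sv s (A σ) σ := fun σ => by
    rw [px, ← integral_indicator_one (hA σ), integral_map (by fun_prop)
      (measurable_one.indicator (hA σ)).aestronglyMeasurable]
  simp only [e] at h3
  refine le_trans (le_of_eq ?_) h3
  congr 1; ext y; simp only [mem_ofPred_eq]; constructor <;> intro h <;> linarith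

/-- **joint transfer** -/
theorem joint {β s κ : ℝ} (hβ : β ∈ Icc (0 : ℝ) 1) (hs : 0 ≤ s) (hκ : 0 < κ)
    {A : ∀ n, Cube n → Set (Mx n × V n)} (hA : ∀ n σ, MeasurableSet (A n σ))
    (h : ∀ᶠ n : ℕ in atTop, ∀ σ : Cube n, ((GOE n).prod (gv (Fin n)))
      {z | (plW β z.1 (sv σ), s • sv σ + Real.sqrt s • z.2) ∈ A n σ} ≤
        ENNReal.ofReal (Real.exp (-κ * n))) :
    Top.Whp GOE fun n W => (law sv (ising (β • W) 0) s).real {y | 1 / 2 ≤ mean (ising (β • W) y)
      fun σ => {y | (W, y) ∈ A n σ}.indicator 1 y} ≤ 2 * Real.exp (-(κ / 2) * n) := by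
  have h1 := Pl.tendsto_LRW_lt_rpow hβ.1 hβ.2 (a := κ / 4) (c := 1) (by positivity) one_pos
  refine Top.whp_of_real_le ((h1.add (TapPl.tendsto_exp_neg (κ := κ / 4) (by positivity))).trans_eq
    (by simp)) ?_
  filter_upwards [h] with n hn
  refine le_trans (measureReal_mono fun W hW => ?_) ((transfer_joint β s (hA n)
    (Real.exp_pos (-(κ / 2) * n)) (Real.exp_pos (-(κ / 4 * (n : ℝ) ^ (1 : ℝ))))
    (δ := Real.exp (-κ * n))
      fun σ => ENNReal.toReal_le_of_le_ofReal (Real.exp_pos _).le (hn σ)).trans_eq ?_)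
  · have h2 := (not_le.1 hW).trans_le (law_post (β • W) hs
      (A := fun σ => {y | (W, y) ∈ A n σ}) fun σ => measurable_prodMk_left (hA n σ))
    rw [mem_ofPred_eq]; linarith
  · rw [← Real.exp_add, ← Real.exp_sub, Real.rpow_one]
    congr 2
    ring

/-! ### open events of the unplanted matrix and the TAP solution -/

/-- the matrix with the planted direction removed -/
def unp (β : ℝ) (W : Mx n) (σ : V n) : Mx n := W - (β / n) • vecMulVec σ σ

lemma unp_plW (β : ℝ) (W : Mx n) (σ : V n) : unp β (plW β W σ) σ = W := by simp [unp, plW]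

lemma exists_pos_fun {B : Set (Mx n × V n)} (hB : IsOpen B) :
    ∃ f : Mx n × V n → ℝ, Continuous f ∧ ∀ z, z ∈ B ↔ 0 < f z := by
  haveI : TopologicalSpace.PseudoMetrizableSpace (Mx n) :=
    inferInstanceAs (TopologicalSpace.PseudoMetrizableSpace (Fin n → Fin n → ℝ))
  letI := TopologicalSpace.pseudoMetrizableSpacePseudoMetric (Mx n × V n)
  rcases Bᶜ.eq_empty_or_nonempty with hE | hE
  · exact ⟨fun _ => 1, continuous_const, fun z => by simp [compl_empty_iff.1 hE]⟩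
  · exact ⟨fun z => Metric.infDist z Bᶜ, Metric.continuous_infDist_pt _, fun z => by
      rw [← hB.isClosed_compl.notMem_iff_infDist_pos hE, mem_compl_iff, not_not]⟩

open TapPl in
/-- **TAP transfer**: `{0 < φ k}` is a gauge invariant open event of `(W₀, x)` -/
theorem tapT (hC : CellStmt) (hR : RamStmt) (hSE : SEStmt) (hH : HoefStmt) (hD : DETStmt)
    {β s q ε1 κ1 : ℝ} (hβ : β ∈ Ioc (0 : ℝ) 1) (hs0 : 0 < s) (hq : IsQ β s q) (hε1 : 0 < ε1)
    (hκ1 : 0 < κ1) {B : ∀ n, Set (Mx n × V n)} (hB : ∀ n, IsOpen (B n))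
    (hg : ∀ n (σ : Cube n) (W : Mx n) (x : V n), (cj (sv σ) W, x) ∈ B n → (W, sv σ * x) ∈ B n)
    (hSF : ∀ᶠ n : ℕ in atTop, Ref n {z | |aS (xv β s q q z.1.1 z.1.2) - q| ≤ ε1 ∧
      (glueW β (xv β s q q z.1.1 z.1.2) z.1.2 z.2, xv β s q q z.1.1 z.1.2) ∈ B n} ≤
        ENNReal.ofReal (Real.exp (-κ1 * n))) :
    ∃ κ > (0 : ℝ), Top.Whp GOE fun n W => (law sv (ising (β • W) 0) s).real
      {y | 1 / 2 ≤ mean (ising (β • W) y) fun σ => {y | ∃ x, Ymap (β • W) (β ^ 2) x = y ∧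
        (unp β W (sv σ), x) ∈ B n}.indicator 1 y} ≤ 2 * Real.exp (-κ * n) := by
  have hβ' : β ∈ Icc (0 : ℝ) 1 := ⟨hβ.1.le, hβ.2⟩
  obtain ⟨c', hc', ε, hε, κ, hκ, h⟩ := kr hC hR hSE hH hβ hs0 hq hε1 hκ1
    (fun n => (hB n).measurableSet) hSF
  have hA : ∀ (n : ℕ) (σ : Cube n), MeasurableSet {z : Mx n × V n | opn z.1 ≤ 3 ∧
      DET z.1 β c' ε ∧ ∃ x, Ymap (β • z.1) (β ^ 2) x = z.2 ∧ (unp β z.1 (sv σ), x) ∈ B n} := by
    intro n σ
    refine (measurableSet_le (Nrm.measurable_opn'.comp measurable_fst) measurable_const).inter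
      (((TapFrz.measStmt n β 0 0 c' ε).2.2.preimage measurable_fst).inter ?_)
    obtain ⟨f, hf, hfB⟩ := exists_pos_fun (hB n)
    have := TapFrz.measurableSet_exists_pos (Θ := Mx n × V n) (X := V n)
      (C := {w | Ymap (β • w.1.1) (β ^ 2) w.2 = w.1.2}) (isClosed_eq (TapFrz.cont_Ymap
        (by fun_prop) continuous_const continuous_snd) (by fun_prop))
        (f := fun w => f (unp β w.1.1 (sv σ), w.2)) (hf.comp (by unfold unp; fun_prop))
    simp only [hfB]
    exact this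
  refine ⟨κ / 2, half_pos hκ, ((joint hβ' hs0.le hκ hA ?_).and
    (whp_opn.and (hD β hβ' c' hc' ε hε))).imp fun n W hW => ?_⟩
  · filter_upwards [h] with n hn σ
    refine (planted_gauge β s (hA n σ) σ).trans_le (le_trans (measure_mono fun z hz => ?_) hn)
    have hσ := Pl.isSign_sv σ
    obtain ⟨h1, h2, x, h3, h4⟩ := hz
    refine ⟨by rwa [opn_cj hσ] at h1, ?_, sv σ * x, ?_, hg n σ _ _ ?_⟩
    · simpa only [cj_cj hσ] using DET_cj hσ h2
    · have := Ymap_cj hσ (β • cj (sv σ) (plW β z.1 1)) (β ^ 2) x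
      dsimp only at h3
      rw [h3, cj_smul, cj_cj hσ, hσ.mul_self] at this
      exact this
    · dsimp only at h4
      rwa [← plW_cj, mul_one, unp_plW] at h4
  · simpa only [mem_ofPred_eq, hW.2.1, hW.2.2, true_and] using hW.1

end Crest.Agent.T157.Pos

end
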