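import Crest.Agent.T157.PosB_23
import Crest.Agent.T157.TapCell_53

/-!
# Row 157, part B (S3): envelopes, the reference model bounds (helper23)
-/

set_option autoImplicit false

noncomputable section

namespace Crest.Agent.T157.Pos

open MeasureTheory ProbabilityTheory Matrix Filter Set Topology
open Crest.ProbabilityR.SpinGlassDynamics
open Crest.Agent.T157.E Crest.Agent.T157.Eig Crest.Agent.T157.Cond Crest.Agent.T157.Tap
open Crest.Agent.T157.SL

variable {n : ℕ}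

/-! ### the lower envelope, Lipschitz in `tanh` -/

def lo (a : ℝ → ℝ) (L t : ℝ) : ℝ := ⨅ x, (a x + L * |Real.tanh x - t|)

section env
variable {a : ℝ → ℝ} {a0 L : ℝ}

lemma lo_le (h0 : ∀ x, a0 ≤ a x) (hL : 0 ≤ L) (t x : ℝ) :
    lo a L t ≤ a x + L * |Real.tanh x - t| :=
  ciInf_le ⟨a0, by
    rintro _ ⟨x, rfl⟩
    exact (h0 x).trans (le_add_of_nonneg_right (by positivity))⟩ x

lemma le_lo (h0 : ∀ x, a0 ≤ a x) (hL : 0 ≤ L) (t : ℝ) : a0 ≤ lo a L t :=
  le_ciInf fun x => (h0 x).trans (le_add_of_nonneg_right (by positivity))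

lemma lo_tanh_le (h0 : ∀ x, a0 ≤ a x) (hL : 0 ≤ L) (x : ℝ) : lo a L (Real.tanh x) ≤ a x := by
  simpa using lo_le h0 hL (Real.tanh x) x

lemma lo_lip (h0 : ∀ x, a0 ≤ a x) (hL : 0 ≤ L) (t t' : ℝ) : lo a L t ≤ lo a L t' + L * |t' - t| := by
  rw [← sub_le_iff_le_add]
  refine le_ciInf fun x => ?_
  have h1 := lo_le h0 hL t x
  have h2 := mul_le_mul_of_nonneg_left (abs_sub_le (Real.tanh x) t' t) hL
  linarith

lemma cont_lo (h0 : ∀ x, a0 ≤ a x) (hL : 0 ≤ L) : Continuous (lo a L) :=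
  (LipschitzWith.of_le_add_mul' L fun t t' => by
    rw [Real.dist_eq, abs_sub_comm]; exact lo_lip h0 hL t t').continuous

lemma lo_neg (h0 : ∀ x, a0 ≤ a x) (hL : 0 ≤ L) (he : ∀ x, a (-x) = a x) (t : ℝ) :
    lo a L (-t) = lo a L t := by
  have key : ∀ t, lo a L (-t) ≤ lo a L t := fun t => le_ciInf fun x => by
    have := lo_le h0 hL (-t) (-x)
    rwa [he, Real.tanh_neg, neg_sub_neg, abs_sub_comm] at this
  exact (key t).antisymm (by simpa using key (-t))

lemma lo_tendsto (h0 : ∀ x, a0 ≤ a x) (ha : Continuous a) (x : ℝ) :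
    Tendsto (fun L : ℕ => lo a L (Real.tanh x)) atTop (𝓝 (a x)) := by
  refine tendsto_order.2 ⟨fun b hb => ?_, fun b hb => .of_forall fun L =>
    (lo_tanh_le h0 (Nat.cast_nonneg L) x).trans_lt hb⟩
  obtain ⟨b', hb1, hb2⟩ := exists_between hb
  obtain ⟨δ, hδ, h⟩ := Metric.eventually_nhds_iff.1 (ha.continuousAt.eventually (lt_mem_nhds hb2))
  have hm : StrictMono Real.tanh := strictMono_of_deriv_pos fun y => by
    rw [(SE.hasDerivAt_tanh y).deriv]; linarith [Real.tanh_sq_lt_one y]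
  set ρ := min (Real.tanh (x + δ) - Real.tanh x) (Real.tanh x - Real.tanh (x - δ)) with hρ
  have ρ0 : 0 < ρ := lt_min (sub_pos.2 (hm (by linarith))) (sub_pos.2 (hm (by linarith)))
  filter_upwards [tendsto_natCast_atTop_atTop.eventually_ge_atTop ((b' - a0) / ρ)] with L hL
  refine hb1.trans_le (le_ciInf fun y => ?_)
  by_cases hy : dist y x < δ
  · exact (h hy).le.trans (le_add_of_nonneg_right (by positivity))
  have h1 : ρ ≤ |Real.tanh y - Real.tanh x| := by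
    rw [Real.dist_eq, not_lt, le_abs] at hy
    rcases hy with hy | hy
    · exact (min_le_left _ _).trans ((sub_le_sub_right (hm.monotone (by linarith)) _).trans
        (le_abs_self _))
    · refine (min_le_right _ _).trans ?_
      rw [abs_sub_comm]
      exact (sub_le_sub_left (hm.monotone (by linarith)) _).trans (le_abs_self _)
  rw [div_le_iff₀ ρ0] at hL
  have := mul_le_mul_of_nonneg_left h1 (Nat.cast_nonneg (α := ℝ) L)
  linarith [h0 y]

lemma gE_lo (h0 : ∀ x, a0 ≤ a x) (ha : Continuous a) {Φ : ℝ → ℝ} (hm : Measurable Φ)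
    (hΦ : ∀ x, ContinuousAt Φ (a x)) {K : ℝ} (hK : ∀ u x, a0 ≤ u → u ≤ a x → |Φ u| ≤ K)
    (m v : ℝ) {e : ℝ} (he : 0 < e) : ∃ L : ℝ, 0 < L ∧
      |gE (fun x => Φ (lo a L (Real.tanh x))) m v - gE (fun x => Φ (a x)) m v| ≤ e := by
  have h : Tendsto (fun L : ℕ => gE (fun x => Φ (lo a L (Real.tanh x))) m v) atTop
      (𝓝 (gE (fun x => Φ (a x)) m v)) :=
    tendsto_integral_of_dominated_convergence (fun _ => K)
      (fun L => (hm.comp ((cont_lo h0 (Nat.cast_nonneg L)).measurable.comp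
        (TapFrz.continuous_tanh.measurable.comp (by fun_prop)))).aestronglyMeasurable)
      (integrable_const K) (fun L => .of_forall fun z => hK _ _ (le_lo h0 (Nat.cast_nonneg L) _)
        (lo_tanh_le h0 (Nat.cast_nonneg L) _))
      (.of_forall fun z => (hΦ _).tendsto.comp (lo_tendsto h0 ha _))
  obtain ⟨L, h1, h2⟩ := ((Metric.tendsto_nhds.1 h e he).and (eventually_gt_atTop 0)).exists
  exact ⟨L, by positivity, h1.le⟩

end env

/-! ### the reference model -/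

lemma nrm_unitv (u : V n) : nrm (unitv u) ≤ 1 := by
  rw [nrm]; exact Real.sqrt_le_one.2 (unitv_dot_le u)

lemma glue_quad (hn : 0 < n) {β : ℝ} (hβ : β ∈ Icc (0 : ℝ) 1) {x Z : V n} (ha : 0 < aS x)
    (hZ : nrm Z ≤ 2 * √n) {W : Mx n} (hW : opn W ≤ 3) (v : V n) :
    v ⬝ᵥ glueW β x Z W *ᵥ v ≤ v ⬝ᵥ W *ᵥ v + 12 * (|unitv (th x) ⬝ᵥ v| * nrm v) +
      6 * (unitv (th x) ⬝ᵥ v) ^ 2 := by
  have hs : (0 : ℝ) < √n := by positivity
  rw [glueW, ← Cell.shift_eq hn ha β]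
  set e := unitv (th x) with he
  have e1 : nrm e ≤ 1 := nrm_unitv _
  have e0 := nrm_nonneg e
  set ω := (1 / √(n : ℝ)) • (Z + (β * (1 - aS x) * √n) • e) with hω
  have a1 := Cell.aS_le_one x
  have ω1 : nrm ω ≤ 3 := by
    rw [hω, nrm_smul, abs_of_pos (by positivity), one_div, inv_mul_le_iff₀ hs]
    refine (nrm_add_le _ _).trans ?_
    have b0 : 0 ≤ β * (1 - aS x) := mul_nonneg hβ.1 (by linarith)
    have b1 : β * (1 - aS x) ≤ 1 := mul_le_one₀ hβ.2 (by linarith) (by linarith)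
    rw [nrm_smul, abs_of_nonneg (by positivity)]
    have : β * (1 - aS x) * √n * nrm e ≤ 1 * √n * 1 := by gcongr
    linarith
  have hP : nextR 1 (th x) *ᵥ v = v - (e ⬝ᵥ v) • e := by
    rw [nextR, sub_mulVec, one_mulVec, vmv_mulVec, dirv, one_mulVec]
  have q1 : v ⬝ᵥ (nextR 1 (th x) * W * nextR 1 (th x)) *ᵥ v =
      (v - (e ⬝ᵥ v) • e) ⬝ᵥ W *ᵥ (v - (e ⬝ᵥ v) • e) := by
    rw [← mulVec_mulVec, ← mulVec_mulVec, dotProduct_mulVec, ← mulVec_transpose,
      nextR_symm IsProj.one, hP]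
  have q2 : v ⬝ᵥ rk2 ω e *ᵥ v = 2 * (e ⬝ᵥ v) * (ω ⬝ᵥ v) - (e ⬝ᵥ ω) * (e ⬝ᵥ v) ^ 2 := by
    simp only [rk2, sub_mulVec, add_mulVec, smul_mulVec, vmv_mulVec, dotProduct_sub,
      dotProduct_add, dotProduct_smul, smul_eq_mul]
    rw [dotProduct_comm v ω, dotProduct_comm v e]
    ring
  rw [add_mulVec, dotProduct_add, q1, q2]
  simp only [mulVec_sub, mulVec_smul, sub_dotProduct, dotProduct_sub, smul_dotProduct,
    dotProduct_smul, smul_eq_mul]
  set c := e ⬝ᵥ v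
  have v0 := nrm_nonneg v
  have o0 := opn_nonneg W
  have w0 := nrm_nonneg ω
  have r1 : |ω ⬝ᵥ v| ≤ 3 * nrm v := (abs_dot_le _ _).trans (by gcongr)
  have r2 : |e ⬝ᵥ ω| ≤ 3 := (abs_dot_le _ _).trans (by nlinarith)
  have r3 : |v ⬝ᵥ W *ᵥ e| ≤ 3 * nrm v :=
    (abs_bil_le _ _ _).trans (mul_le_mul hW (mul_le_of_le_one_right v0 e1) (by positivity)
      (by norm_num))
  have r4 : |e ⬝ᵥ W *ᵥ v| ≤ 3 * nrm v :=
    (abs_bil_le _ _ _).trans (mul_le_mul hW (mul_le_of_le_one_left v0 e1) (by positivity)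
      (by norm_num))
  have r5 : |e ⬝ᵥ W *ᵥ e| ≤ 3 :=
    (abs_bil_le _ _ _).trans (by nlinarith [mul_le_one₀ e1 e0 e1, mul_nonneg e0 e0])
  have k : ∀ {u b : ℝ}, |u| ≤ b → |c * u| ≤ |c| * b := fun h => by
    rw [abs_mul]; exact mul_le_mul_of_nonneg_left h (abs_nonneg _)
  have k2 : ∀ {u : ℝ}, |u| ≤ 3 → |u * c ^ 2| ≤ 3 * c ^ 2 := fun h => by
    rw [abs_mul, abs_of_nonneg (sq_nonneg c)]; exact mul_le_mul_of_nonneg_right h (sq_nonneg _)
  have t1 := abs_le.1 (k r1)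
  have t2 := abs_le.1 (k2 r2)
  have t3 := abs_le.1 (k r3)
  have t4 := abs_le.1 (k r4)
  have t5 := abs_le.1 (k2 r5)
  nlinarith [t1.2, t2.1, t3.1, t4.1, t5.2]

/-- the violation of (POS) for the unplanted matrix and the profile `f (x i)` -/
def VB (β a0 κ δ m e C : ℝ) (f : ℝ → ℝ) (n : ℕ) : Set (Mx n × V n) :=
  {z | ∃ T : Finset (Fin n), (T.card : ℝ) ≤ δ * n ∧ ∃ v : V n,
    (1 - κ) * (qd (cutT a0 T fun i => f (z.2 i)) v + m * (v ⬝ᵥ v)) + C / n * (th z.2 ⬝ᵥ v) ^ 2 <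
      β * (v ⬝ᵥ z.1 *ᵥ v) + e * (v ⬝ᵥ v)}

lemma isOpen_VB (β a0 κ δ m e C : ℝ) {f : ℝ → ℝ} (hf : Continuous f) (n : ℕ) :
    IsOpen (VB β a0 κ δ m e C f n) := by
  simp only [VB, ofPred_exists, ofPred_and]
  refine isOpen_iUnion fun T => IsOpen.inter isOpen_const (isOpen_iUnion fun v => isOpen_lt ?_ ?_)
  · refine (continuous_const.mul (Continuous.add ?_ continuous_const)).add
      (continuous_const.mul (((TapFrz.cont_th continuous_snd).dotProduct continuous_const).pow 2))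
    refine continuous_finsetSum _ fun i _ => Continuous.mul ?_ continuous_const
    unfold cutT
    split_ifs
    · exact continuous_const
    · exact hf.comp ((continuous_apply i).comp continuous_snd)
  · exact (continuous_const.mul (continuous_const.dotProduct
      (continuous_fst.matrix_mulVec continuous_const))).add continuous_const

open TapPl in
lemma gauge_VB (β a0 κ δ m e C : ℝ) {f : ℝ → ℝ} (hf : ∀ x, f (-x) = f x) (n : ℕ) (σ : Cube n)
    (W : Mx n) (x : V n) (h : (cj (sv σ) W, x) ∈ VB β a0 κ δ m e C f n) :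
    (W, sv σ * x) ∈ VB β a0 κ δ m e C f n := by
  obtain ⟨T, hT, v, hv⟩ := h
  have hσ := Pl.isSign_sv σ
  refine ⟨T, hT, sv σ * v, ?_⟩
  have e1 : (fun i => f ((sv σ * x) i)) = fun i => f (x i) := by
    funext i; rcases hσ i with e | e <;> simp [e, hf]
  have e2 : ∀ A : V n, qd A (sv σ * v) = qd A v := fun A => Finset.sum_congr rfl fun i _ => by
    rcases hσ i with e | e <;> simp [e]
  have e3 : v ⬝ᵥ cj (sv σ) W *ᵥ v = (sv σ * v) ⬝ᵥ W *ᵥ (sv σ * v) := by
    conv_lhs => rw [← hσ.mul_self v, cj_mulVec hσ, dot_sign hσ]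
  dsimp only at hv ⊢
  rw [e1, e2, dot_sign hσ, th_sign hσ, dot_sign hσ, ← e3]
  exact hv

lemma prod_le {X Y : Type*} [MeasurableSpace X] [MeasurableSpace Y] (μ : Measure X)
    (ν : Measure Y) [IsProbabilityMeasure μ] [IsProbabilityMeasure ν] {N S : Set (X × Y)}
    (hN : MeasurableSet N) (B : Set X) (δ : ENNReal)
    (h : ∀ z ∈ S, z ∈ N ∧ (z.1 ∈ B ∨ ν (Prod.mk z.1 ⁻¹' N) ≤ δ)) : μ.prod ν S ≤ μ B + δ := by
  have hG : MeasurableSet {x | ν (Prod.mk x ⁻¹' N) ≤ δ} :=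
    measurableSet_le (measurable_measure_prodMk_left hN) measurable_const
  calc μ.prod ν S ≤ μ.prod ν (B ×ˢ univ ∪ N ∩ {x | ν (Prod.mk x ⁻¹' N) ≤ δ} ×ˢ univ) :=
        measure_mono fun z hz => (h z hz).2.imp (fun h' => ⟨h', trivial⟩)
          fun h' => ⟨(h z hz).1, h', trivial⟩
    _ ≤ _ := (measure_union_le _ _).trans (add_le_add (by rw [Measure.prod_prod]; simp) ?_)
  rw [Measure.prod_apply (hN.inter (hG.prod .univ))]
  refine (lintegral_mono (g := fun _ => δ) fun x => ?_).trans (by rw [lintegral_const]; simp)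
  by_cases hx : ν (Prod.mk x ⁻¹' N) ≤ δ
  · exact (measure_mono fun y hy => hy.1).trans hx
  · refine le_trans (le_of_eq ?_) zero_le
    exact measure_mono_null (fun y hy => (hx hy.2.1).elim) measure_empty

lemma ev_three {k1 k2 : ℝ} (h1 : 0 < k1) (h2 : 0 < k2) : ∃ κ > (0 : ℝ), ∀ᶠ n : ℕ in atTop,
    (Real.exp (-n / 2) + 2 * Real.exp (-n * k1 ^ 2 / 2)) +
      (2 * Real.exp (-(n * 1 ^ 2 / 4)) + Real.exp (-k2 * n)) ≤ Real.exp (-κ * n) := by
  set κ := min (min (1 / 4) (k1 ^ 2 / 2)) k2 with hκ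
  have κ0 : 0 < κ := by positivity
  have a1 : κ ≤ 1 / 4 := (min_le_left _ _).trans (min_le_left _ _)
  have a2 : κ ≤ k1 ^ 2 / 2 := (min_le_left _ _).trans (min_le_right _ _)
  have a3 : κ ≤ k2 := min_le_right _ _
  refine ⟨κ / 2, by positivity, ?_⟩
  filter_upwards [Kr50.ev_exp 6 κ0] with n hn
  have hn' : (0 : ℝ) ≤ n := Nat.cast_nonneg n
  have b : ∀ {u : ℝ}, u ≤ -κ * n → Real.exp u ≤ Real.exp (-κ * n) := Real.exp_le_exp.2
  have b1 := b (u := -n / 2) (by nlinarith)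
  have b2 := b (u := -n * k1 ^ 2 / 2) (by nlinarith)
  have b3 := b (u := -(n * 1 ^ 2 / 4)) (by nlinarith)
  have b4 := b (u := -k2 * n) (by nlinarith)
  linarith

/-- (POS) in the reference model -/
lemma ref_VB {β a0 κ η δ κ1 s q am : ℝ} (hβ : β ∈ Ioc (0 : ℝ) 1) (ha : β < a0) (hκ : κ ≤ 1 / 2)
    (hη : 0 < η) (hκ1 : 0 < κ1) (hR : ∀ n : ℕ, 0 < n →
      ∀ A : V n, (∀ i, a0 ≤ A i) → (GOE n).real {W | Viol β a0 κ δ
        (β ^ 2 * avg (fun i => 1 / A i) - 10 * η) (10 * η) A W} ≤ Real.exp (-κ1 * n))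
    (hs : 0 ≤ s) (ham : 0 < am) (hq : am ≤ q) {f : ℝ → ℝ} (hf : Continuous f)
    (h0 : ∀ x, a0 ≤ f x) : ∃ κ2 > (0 : ℝ), ∀ᶠ n : ℕ in atTop,
      Ref n {z | |aS (xv β s q q z.1.1 z.1.2) - q| ≤ am / 2 ∧
        (glueW β (xv β s q q z.1.1 z.1.2) z.1.2 z.2, xv β s q q z.1.1 z.1.2) ∈
          VB β a0 κ δ (β ^ 2 * gE (fun x => 1 / f x) (s + β ^ 2 * q) (s + β ^ 2 * q) - 9 * η)
            (9 * η) ((36 / η + 6) * (2 / am)) f n} ≤ ENNReal.ofReal (Real.exp (-κ2 * n)) := by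
  have a00 : 0 < a0 := hβ.1.trans ha
  have hβ' : β ∈ Icc (0 : ℝ) 1 := ⟨hβ.1.le, hβ.2⟩
  obtain ⟨κ2, hκ2, hev⟩ := ev_three hη hκ1
  refine ⟨κ2, hκ2, ?_⟩
  filter_upwards [hev, eventually_gt_atTop 0] with n hev hn
  have hn' : (0 : ℝ) < n := by positivity
  set G := gE (fun x => 1 / f x) (s + β ^ 2 * q) (s + β ^ 2 * q) with hG
  have hb : ∀ x, |a0 * (1 / f x)| ≤ 1 := fun x => by
    have := a00.trans_le (h0 x)
    rw [abs_of_pos (by positivity), mul_one_div, div_le_one this]; exact h0 x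
  have hL := SE.hoeff_xv hn β q hs (ham.le.trans hq) (f := fun x => a0 * (1 / f x))
    (by have := hf.measurable; fun_prop) hb hη.le
  rw [SE.gE_const_mul, ← hG] at hL
  have hmx : Measurable fun z : (V n × V n) × Mx n => xv β s q q z.1.1 z.1.2 := by
    unfold xv; fun_prop
  have hN : MeasurableSet {z : (V n × V n) × Mx n | |aS (xv β s q q z.1.1 z.1.2) - q| ≤ am / 2 ∧
        (glueW β (xv β s q q z.1.1 z.1.2) z.1.2 z.2, xv β s q q z.1.1 z.1.2) ∈
          VB β a0 κ δ (β ^ 2 * G - 9 * η) (9 * η) ((36 / η + 6) * (2 / am)) f n} := by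
    have m1 : Measurable fun x : V n => aS x := (TapFrz.cont_avg (continuous_pi fun i =>
      ((continuous_apply i).comp (TapFrz.cont_th continuous_id)).pow 2)).measurable
    have m2 : Measurable fun x : V n => th x := (TapFrz.cont_th continuous_id).measurable
    refine (measurableSet_le ((m1.comp hmx).sub_const q).abs measurable_const).inter
      ((isOpen_VB _ _ _ _ _ _ _ hf n).measurableSet.preimage (Measurable.prodMk ?_ hmx))
    have m3 := m1.comp hmx
    have m4 := m2.comp hmx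
    unfold glueW
    exact (Measurable.t157_rk2 (by fun_prop) m4.t157_unitv).t157_add
      (((measurable_const.t157_nextR m4).t157_mul measurable_snd).t157_mul
        (measurable_const.t157_nextR m4))
  refine (prod_le _ _ hN ({z | 2 * √(n : ℝ) < nrm z.2} ∪ {z | η ≤ |avg (fun i => a0 *
    (1 / f (xv β s q q z.1 z.2 i))) - a0 * G|}) (ENNReal.ofReal (2 * Real.exp (-(n * 1 ^ 2 / 4)) +
      Real.exp (-κ1 * n))) fun z hz => ⟨hz, ?_⟩).trans ?_
  · by_cases hB : z.1 ∈ ({z | 2 * √(n : ℝ) < nrm z.2} ∪ {z | η ≤ |avg (fun i => a0 *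
        (1 / f (xv β s q q z.1 z.2 i))) - a0 * G|} : Set (V n × V n))
    · exact Or.inl hB
    right
    simp only [mem_union, mem_ofPred_eq, not_or, not_lt, not_le] at hB
    set x := xv β s q q z.1.1 z.1.2 with hx
    have hax : am / 2 ≤ aS x := by have := (abs_le.1 hz.1).1; linarith
    have hax0 : 0 < aS x := by linarith
    have l1 : β ^ 2 * avg (fun i => 1 / f (x i)) ≤ β ^ 2 * G + η := by
      have e : avg (fun i => a0 * (1 / f (x i))) = a0 * avg fun i => 1 / f (x i) := by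
        rw [avg, avg, ← Finset.mul_sum, mul_div_assoc]
      have h1 := (abs_lt.1 hB.2).2
      rw [e, ← mul_sub] at h1
      have b1 : β ^ 2 ≤ a0 := by nlinarith [hβ.2, hβ.1]
      by_cases hd : avg (fun i => 1 / f (x i)) - G ≤ 0
      · nlinarith [sq_nonneg β]
      · nlinarith [mul_le_mul_of_nonneg_right b1 (not_le.1 hd).le]
    refine (ofReal_measureReal (measure_ne_top _ _)).symm.trans_le (ENNReal.ofReal_le_ofReal ?_)
    refine le_trans (measureReal_mono (fun W hW => ?_) (measure_ne_top _ _))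
      ((measureReal_union_le _ _).trans (add_le_add (Nrm.goe_opn_tail_n zero_le_one)
        (hR n hn (fun i => f (x i)) fun i => h0 _)))
    by_cases hW3 : 2 + 1 ≤ opn W
    · exact Or.inl hW3
    obtain ⟨-, T, hT, v, hv⟩ := hW
    refine Or.inr ⟨T, hT, v, ?_⟩
    dsimp only at hv
    rw [← hx] at hv
    have g1 := glue_quad hn hβ' hax0 hB.1 (W := W) (by linarith [not_le.1 hW3]) v
    set c := unitv (th x) ⬝ᵥ v with hc
    have g2 : (th x ⬝ᵥ v) ^ 2 = n * aS x * c ^ 2 := by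
      conv_lhs => rw [← len_smul_unitv (th x), smul_dotProduct, smul_eq_mul, mul_pow, len_sq,
        Cell.dot_th x hn]
    have g3 : 12 * (|c| * nrm v) ≤ η * (v ⬝ᵥ v) + 36 / η * c ^ 2 := by
      rw [← nrm_sq, ← sq_abs c]
      have : 0 ≤ (η * nrm v - 6 * |c|) ^ 2 / η := by positivity
      have e : (η * nrm v - 6 * |c|) ^ 2 / η =
        η * nrm v ^ 2 + 36 / η * |c| ^ 2 - 12 * (|c| * nrm v) := by field_simp; ring
      linarith
    have g4 : (36 / η + 6) * c ^ 2 ≤ (36 / η + 6) * (2 / am) / n * (th x ⬝ᵥ v) ^ 2 := by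
      rw [g2, show (36 / η + 6) * (2 / am) / n * (n * aS x * c ^ 2) =
        (36 / η + 6) * c ^ 2 * (aS x / (am / 2)) by field_simp]
      exact le_mul_of_one_le_right (by positivity) ((one_le_div (by positivity)).2 hax)
    have g5 : 0 ≤ 12 * (|c| * nrm v) + 6 * c ^ 2 := by have := nrm_nonneg v; positivity
    have g6 := mul_le_mul_of_nonneg_left g1 hβ.1.le
    have g7 := mul_le_of_le_one_left g5 hβ.2
    have g8 := mul_le_mul_of_nonneg_left (mul_le_mul_of_nonneg_right l1 (Eig.dot_self_nonneg v))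
      (show 0 ≤ 1 - κ by linarith)
    linarith
  · have hZ : ((gv (Fin n)).prod (gv (Fin n))).real {z | 2 * √(n : ℝ) < nrm z.2} ≤
        Real.exp (-n / 2) := le_trans (ENNReal.toReal_mono (measure_ne_top _ _)
          (Kr50.prod_snd_le _ _ fun z hz => hz)) (SE.nrm_tail n)
    refine le_trans (add_le_add ((ofReal_measureReal (measure_ne_top _ _)).symm.trans_le
      (ENNReal.ofReal_le_ofReal ((measureReal_union_le _ _).trans (add_le_add hZ hL)))) le_rfl) ?_
    rw [← ENNReal.ofReal_add (by positivity) (by positivity)]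
    exact ENNReal.ofReal_le_ofReal hev

end Crest.Agent.T157.Pos

end
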