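import Crest.Agent.T157.PosC_23
import Crest.Agent.T157.LpAll_17

/-!
# Row 157, part B (S3): (ACC), (EMP), (POS) along the localisation, GOE form (helper23)

* `Pos.acc`: every TAP solution is `ℓ²`-close to the magnetisation;
* `Pos.emp`: empirical averages of even bounded continuous functions of any field `ξ` with
  `tanh ξ` close to the magnetisation;
* `Pos.pos`: `al - β W ⪰ κ al + η - C m mᵀ / n`.
-/

set_option autoImplicit false

noncomputable section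

namespace Crest.Agent.T157.Pos

open MeasureTheory ProbabilityTheory Matrix Filter Set Topology
open Crest.ProbabilityR.SpinGlassDynamics
open Crest.Agent.T157.E Crest.Agent.T157.Eig Crest.Agent.T157.Cond Crest.Agent.T157.Tap
open Crest.Agent.T157.SL

variable {n : ℕ}

/-- `P n W y` fails with exponentially small mass along the localisation at time `s`, whp in `W` -/
def Typ (β s : ℝ) (P : ∀ n, Mx n → V n → Prop) : Prop := ∃ κ > (0 : ℝ), Top.Whp GOE fun n W =>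
  (law sv (ising (β • W) 0) s).real {y | ¬ P n W y} ≤ Real.exp (-κ * n)

section typ
variable {β s : ℝ} {P Q : ∀ n, Mx n → V n → Prop}

lemma Typ.of_mul {κ A : ℝ} (hκ : 0 < κ) (h : Top.Whp GOE fun n W =>
    (law sv (ising (β • W) 0) s).real {y | ¬ P n W y} ≤ A * Real.exp (-κ * n)) : Typ β s P :=
  ⟨κ / 2, half_pos hκ, h.mono ((Kr50.ev_exp A hκ).mono fun _ hn _ hW => hW.trans hn)⟩

lemma Typ.mono' (h : Typ β s P) {R : ∀ n, Mx n → Prop} (hR : Top.Whp GOE R)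
    (hPQ : ∀ᶠ n in atTop, ∀ W y, R n W → P n W y → Q n W y) : Typ β s Q := by
  obtain ⟨κ, hκ, h⟩ := h
  refine ⟨κ, hκ, (h.and hR).mono (hPQ.mono fun n hn W hW => le_trans ?_ hW.1)⟩
  have := isProb_law (φ := sv) (s := s) (Cov15.wt_ising (β • W) 0)
  exact measureReal_mono fun y hy hy' => hy (hn W y hW.2 hy')

lemma Typ.mono (h : Typ β s P) (hPQ : ∀ᶠ n in atTop, ∀ W y, P n W y → Q n W y) : Typ β s Q :=
  h.mono' Top.whp_true (hPQ.mono fun _ hn W y _ => hn W y)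

lemma Typ.and (h : Typ β s P) (h' : Typ β s Q) : Typ β s fun n W y => P n W y ∧ Q n W y := by
  obtain ⟨κ, hκ, h⟩ := h
  obtain ⟨κ', hκ', h'⟩ := h'
  refine Typ.of_mul (A := 2) (lt_min hκ hκ') ((h.and h').imp fun n W hW => ?_)
  have := isProb_law (φ := sv) (s := s) (Cov15.wt_ising (β • W) 0)
  have hn : (0 : ℝ) ≤ n := Nat.cast_nonneg n
  have e1 : Real.exp (-κ * n) ≤ Real.exp (-min κ κ' * n) :=
    Real.exp_le_exp.2 (by nlinarith [min_le_left κ κ'])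
  have e2 : Real.exp (-κ' * n) ≤ Real.exp (-min κ κ' * n) :=
    Real.exp_le_exp.2 (by nlinarith [min_le_right κ κ'])
  refine le_trans (measureReal_mono (s₂ := {y | ¬ P n W y} ∪ {y | ¬ Q n W y})
    fun y hy => not_and_or.1 hy) ((measureReal_union_le _ _).trans ?_)
  linarith [hW.1, hW.2]

lemma typ_true : Typ β s fun _ _ _ => True :=
  ⟨1, one_pos, Top.whp_of_eventually (.of_forall fun n W => by simp [Real.exp_nonneg])⟩

lemma Typ.finset {ι : Type*} (S : Finset ι) {R : ι → ∀ n, Mx n → V n → Prop}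
    (h : ∀ i ∈ S, Typ β s (R i)) : Typ β s fun n W y => ∀ i ∈ S, R i n W y := by
  classical
  induction S using Finset.induction_on with
  | empty => exact typ_true.mono (.of_forall fun _ _ _ _ => by simp)
  | insert a S _ ih =>
    exact ((h a (Finset.mem_insert_self _ _)).and (ih fun i hi =>
      h i (Finset.mem_insert_of_mem hi))).mono (.of_forall fun _ _ _ hh => by
        simpa only [Finset.forall_mem_insert] using hh)

lemma Typ.fintype {ι : Type*} [Fintype ι] {R : ι → ∀ n, Mx n → V n → Prop}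
    (h : ∀ i, Typ β s (R i)) : Typ β s fun n W y => ∀ i, R i n W y :=
  (Typ.finset Finset.univ fun i _ => h i).mono
    (.of_forall fun _ _ _ hh i => hh i (Finset.mem_univ i))

end typ

/-- the covariance bound at one time -/
theorem cov {β s : ℝ} (hβ : β ∈ Ioc (0 : ℝ) 1) (hs : 0 ≤ s) (h : β < 1 ∨ 0 < s) :
    ∃ K ρ : ℝ, 0 ≤ K ∧ 0 < ρ ∧ Typ β s fun n W y => ∀ v : V n, nrm v ≤ ρ * √n →
      ∀ u : V n, u ⬝ᵥ covM (ising (β • W) (y + v)) *ᵥ u ≤ K * (u ⬝ᵥ u) := by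
  obtain ⟨K, ρ, hρ, κ, hκ, w⟩ := LpAll.covStmt β hβ s hs h s
  refine ⟨|K|, ρ, abs_nonneg _, hρ, Typ.mono (P := fun n W y =>
    CovOK (ising (β • W) 0) K (ρ * √n) y) ⟨κ, hκ, w.imp fun n W hW => hW s ⟨le_rfl, le_rfl⟩⟩
    (.of_forall fun n W y hy v hv u => ?_)⟩
  have := hy v hv u
  rw [Cov15.tilt0] at this
  exact this.trans (mul_le_mul_of_nonneg_right (le_abs_self _) (Eig.dot_self_nonneg u))

/-- **(ACC)** -/
theorem acc {β s : ℝ} (hβ : β ∈ Ioc (0 : ℝ) 1) (hs : 0 < s) : ∃ M : ℝ, 0 ≤ M ∧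
    Typ β s fun _ W y => (∃ x, Ymap (β • W) (β ^ 2) x = y) ∧ ∀ x, Ymap (β • W) (β ^ 2) x = y →
      nrm (mag (ising (β • W) y) - th x) ^ 2 ≤ M := by
  obtain ⟨K, M, ρ, α, κ, A, M0, r1, -, r3, hκ, -, w⟩ := Cov15.main TapFrz.measStmt ufStmt
    TapFrz.frzStmt exStmt errStmt lipCovStmt (winStmt exStmt) LpAll.frozStmt LpAll.allGoodStmt
    s hβ hs one_pos one_pos
  refine ⟨M + 1, by linarith, Typ.mono' (P := fun n W y => ∀ x, Ymap (β • W) (β ^ 2) x = y →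
    nrm (mag (ising (β • W) y) - th x) ^ 2 ≤ M + 1) ⟨κ / 4, by positivity, w.mono ?_⟩
    Cov15.whp_symm (.of_forall fun _ W y hW h =>
      ⟨(exStmt _ _ _ (by rw [transpose_smul, hW])).1 y, h⟩)⟩
  filter_upwards [Cov15.ev_num A hκ] with n hn W ⟨_, Γ, g1, g2, g3, g4⟩
  have := isProb_law (φ := sv) (s := s) (Cov15.wt_ising (β • W) 0)
  have hE := slE_nonneg (φ := sv) (s := s) (F := fun _ y => Γ y) (Cov15.wt_ising (β • W) 0)
    fun _ y => g2 y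
  have h1 := le_mul_of_one_le_left hE (Real.one_le_exp
    (show 0 ≤ 2 * (2 * ρ * √(n : ℝ)) * √(n : ℝ) by positivity))
  refine le_trans (measureReal_mono fun y hy => ?_) ((Cov15.law_markov g1 g2).trans ?_)
  · simp only [mem_ofPred_eq, not_forall, not_le] at hy
    obtain ⟨x, hx, hy⟩ := hy
    have := g3 x 0 x (by rw [nrm_zero]; positivity) (add_zero _).symm
      (by rw [sub_self, nrm_zero]; exact mul_nonneg (by linarith) (Real.sqrt_nonneg _))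
    rw [add_zero, hx] at this
    rw [mem_ofPred_eq]; linarith
  · linarith [Real.exp_pos (-(κ / 2) * n)]

lemma avg_abs_le (hn : 0 < n) (w : V n) : avg (fun i => |w i|) ≤ nrm w / √n := by
  have hn' : (0 : ℝ) < n := by positivity
  have h := (le_abs_self _).trans (abs_dot_le (fun i => |w i|) (1 : V n))
  have e : nrm (fun i => |w i|) = nrm w := by simp [nrm, dotProduct]
  rw [e, Cell.nrm_one] at h
  simp only [dotProduct, Pi.one_apply, mul_one] at h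
  rw [avg, div_le_div_iff₀ hn' (by positivity)]
  calc (∑ i, |w i|) * √n ≤ nrm w * √n * √n := by gcongr
    _ = _ := by rw [mul_assoc, Real.mul_self_sqrt hn'.le]

/-- the bad set for an empirical average -/
def EB (f : ℝ → ℝ) (G e : ℝ) (n : ℕ) : Set (Mx n × V n) := {z | e < |avg (fun i => f (z.2 i)) - G|}

lemma ref_EB {β s q : ℝ} (hs : 0 ≤ s) (hq : 0 ≤ q) {f : ℝ → ℝ} (hf : Continuous f)
    (hb : ∀ x, |f x| ≤ 1) {e : ℝ} (he0 : 0 < e) :
    ∀ᶠ n : ℕ in atTop, Ref n {z | |aS (xv β s q q z.1.1 z.1.2) - q| ≤ 1 ∧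
      (glueW β (xv β s q q z.1.1 z.1.2) z.1.2 z.2, xv β s q q z.1.1 z.1.2) ∈
        EB f (gE f (s + β ^ 2 * q) (s + β ^ 2 * q)) e n} ≤
        ENNReal.ofReal (Real.exp (-(e ^ 2 / 2 / 2) * n)) := by
  filter_upwards [Kr50.ev_exp 2 (show 0 < e ^ 2 / 2 by positivity), eventually_gt_atTop 0]
    with n hn hn0
  have h0 := SE.hoeff_xv hn0 β q hs hq hf.measurable hb he0.le
  rw [show -(n : ℝ) * e ^ 2 / 2 = -(e ^ 2 / 2) * n by ring] at h0
  have h1 := h0.trans hn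
  refine le_trans (Kr50.prod_fst_le _ _ ?_)
    ((ofReal_measureReal (measure_ne_top _ _)).symm.trans_le (ENNReal.ofReal_le_ofReal h1))
  intro z hz
  have h2 := hz.2
  simp only [EB, mem_ofPred_eq] at h2 ⊢
  exact h2.le

/-- empirical averages at the TAP solutions -/
lemma emp_tap {β s q : ℝ} (hβ : β ∈ Ioc (0 : ℝ) 1) (hs : 0 < s) (hq : IsQ β s q) {f : ℝ → ℝ}
    (hf : Continuous f) (he : ∀ x, f (-x) = f x) (hb : ∀ x, |f x| ≤ 1) {e : ℝ} (he0 : 0 < e) :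
    Typ β s fun _ W y => ∀ x, Ymap (β • W) (β ^ 2) x = y →
      |avg (fun i => f (x i)) - gE f (s + β ^ 2 * q) (s + β ^ 2 * q)| ≤ e := by
  have h1 := ref_EB (β := β) hs.le hq.1.1 hf hb he0
  generalize gE f (s + β ^ 2 * q) (s + β ^ 2 * q) = G at h1 ⊢
  have h2 : ∀ n, IsOpen (EB f G e n) := fun n =>
    isOpen_lt continuous_const (((TapFrz.cont_avg (continuous_pi fun i =>
      hf.comp ((continuous_apply i).comp continuous_snd))).sub continuous_const).abs)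
  have h3 : ∀ n (σ : Cube n) (W : Mx n) (x : V n), (TapPl.cj (sv σ) W, x) ∈ EB f G e n →
      (W, sv σ * x) ∈ EB f G e n := fun n σ W x h => by
    have e1 : (fun i => f ((sv σ * x) i)) = fun i => f (x i) := by
      funext i; rcases Pl.isSign_sv σ i with e | e <;> simp [e, he]
    simpa only [EB, mem_ofPred_eq, e1] using h
  obtain ⟨κ, hκ, w⟩ := tapT cellStmt ramStmt seStmt hoefStmt detStmt14 hβ hs hq one_pos
    (by positivity) h2 h3 h1
  refine Typ.of_mul hκ (w.imp fun n W hW => le_trans ?_ hW)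
  have := isProb_law (φ := sv) (s := s) (Cov15.wt_ising (β • W) 0)
  refine measureReal_mono fun y hy => ?_
  simp only [mem_ofPred_eq, not_forall, not_le] at hy
  obtain ⟨x, hx, hy⟩ := hy
  refine (Cov15.wt_ising _ _).le_mean fun σ => ?_
  rw [indicator_of_mem (by exact ⟨x, hx, hy⟩)]
  norm_num

lemma ev_sq {M r : ℝ} (hr : 0 < r) : ∀ᶠ n : ℕ in atTop, 0 < n ∧ M ≤ (r * √(n : ℝ)) ^ 2 := by
  filter_upwards [tendsto_natCast_atTop_atTop.eventually_ge_atTop (M / r ^ 2),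
    eventually_gt_atTop 0] with n hn hn0
  rw [mul_pow, Real.sq_sqrt (Nat.cast_nonneg n)]
  rw [div_le_iff₀ (by positivity)] at hn
  exact ⟨hn0, by linarith⟩

lemma near {m p ξ : V n} {M ρ : ℝ} (hρ : 0 ≤ ρ) (h1 : nrm (m - p) ^ 2 ≤ M) (h2 : M ≤ ρ ^ 2)
    (h3 : nrm (ξ - m) ≤ ρ) : nrm (ξ - p) ≤ 2 * ρ := by
  have h4 := abs_le_of_sq_le_sq' (h1.trans h2) hρ
  have := nrm_add_le (ξ - m) (m - p)
  rw [sub_add_sub_cancel] at this
  linarith [h4.2]

lemma emp_lo {β s q : ℝ} (hβ : β ∈ Ioc (0 : ℝ) 1) (hs : 0 < s) (hq : IsQ β s q) {ψ : ℝ → ℝ}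
    (hf : Continuous ψ) (he : ∀ x, ψ (-x) = ψ x) (hb : ∀ x, |ψ x| ≤ 1) {e : ℝ} (he0 : 0 < e) :
    ∃ r > (0 : ℝ), Typ β s fun n W y => ∀ ξ, nrm (th ξ - mag (ising (β • W) y)) ≤ r * √n →
      gE ψ (s + β ^ 2 * q) (s + β ^ 2 * q) - e ≤ avg fun i => ψ (ξ i) := by
  have h0 : ∀ x, -1 ≤ ψ x := fun x => (abs_le.1 (hb x)).1
  obtain ⟨L, hL, hG⟩ := gE_lo h0 hf (Φ := fun u => u) measurable_id (fun _ => continuousAt_id)
    (K := 1) (fun u x h1 h2 => abs_le.2 ⟨h1, h2.trans (abs_le.1 (hb x)).2⟩)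
    (s + β ^ 2 * q) (s + β ^ 2 * q) (e := e / 3) (by positivity)
  obtain ⟨M, -, hA⟩ := acc hβ hs
  have hT := emp_tap hβ hs hq (f := fun x => lo ψ L (Real.tanh x))
    ((cont_lo h0 hL.le).comp TapFrz.continuous_tanh)
    (fun x => by rw [Real.tanh_neg, lo_neg h0 hL.le he])
    (fun x => abs_le.2 ⟨le_lo h0 hL.le _, (lo_tanh_le h0 hL.le x).trans (abs_le.1 (hb x)).2⟩)
    (e := e / 3) (by positivity)
  have r0 : 0 < e / (6 * L) := by positivity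
  refine ⟨e / (6 * L), r0, (hA.and hT).mono ?_⟩
  filter_upwards [ev_sq (M := M) r0] with n ⟨hn, hM⟩ W y ⟨⟨⟨x, hx⟩, h1⟩, h2⟩ ξ hξ
  have hn' : (0 : ℝ) < n := by positivity
  have hsq : (0 : ℝ) < √n := by positivity
  have h3 := near (by positivity) (h1 x hx) hM hξ
  have h4 := (avg_abs_le hn (th ξ - th x)).trans (div_le_div_of_nonneg_right h3 hsq.le)
  rw [show 2 * (e / (6 * L) * √(n : ℝ)) / √(n : ℝ) = e / 3 / L by field_simp; norm_num,
    le_div_iff₀ hL] at h4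
  have h5 : avg (fun i => lo ψ L (Real.tanh (x i))) ≤ (avg fun i => ψ (ξ i)) +
      avg (fun i => |(th ξ - th x) i|) * L := by
    rw [avg, avg, avg, div_mul_eq_mul_div, ← add_div, Finset.sum_mul, ← Finset.sum_add_distrib]
    refine div_le_div_of_nonneg_right (Finset.sum_le_sum fun i _ => ?_) hn'.le
    rw [mul_comm]; exact lo_le h0 hL.le _ _
  linarith [(abs_le.1 (h2 x hx)).1, (abs_le.1 hG).1]

/-- **(EMP)** -/
theorem emp {β s q : ℝ} (hβ : β ∈ Ioc (0 : ℝ) 1) (hs : 0 < s) (hq : IsQ β s q) {ψ : ℝ → ℝ}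
    (hf : Continuous ψ) (he : ∀ x, ψ (-x) = ψ x) {K : ℝ} (hb : ∀ x, |ψ x| ≤ K) {e : ℝ}
    (he0 : 0 < e) :
    ∃ r > (0 : ℝ), Typ β s fun n W y => ∀ ξ, nrm (th ξ - mag (ising (β • W) y)) ≤ r * √n →
      |avg (fun i => ψ (ξ i)) - gE ψ (s + β ^ 2 * q) (s + β ^ 2 * q)| ≤ e := by
  have K0 : 0 < K + 1 := by linarith [(abs_nonneg _).trans (hb 0)]
  have hb' : ∀ {c : ℝ}, |c| = (K + 1)⁻¹ → ∀ x, |c * ψ x| ≤ 1 := fun hc x => by
    rw [abs_mul, hc, inv_mul_le_iff₀ K0]; linarith [hb x]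
  obtain ⟨r1, hr1, h1⟩ := emp_lo hβ hs hq (ψ := fun x => (K + 1)⁻¹ * ψ x) (by fun_prop)
    (fun x => by rw [he]) (hb' (abs_of_pos (by positivity))) (e := (K + 1)⁻¹ * e) (by positivity)
  obtain ⟨r2, hr2, h2⟩ := emp_lo hβ hs hq (ψ := fun x => -(K + 1)⁻¹ * ψ x) (by fun_prop)
    (fun x => by rw [he]) (hb' (by rw [abs_neg]; exact abs_of_pos (by positivity)))
    (e := (K + 1)⁻¹ * e) (by positivity)
  refine ⟨min r1 r2, lt_min hr1 hr2, (h1.and h2).mono (.of_forall fun n W y h ξ hξ => ?_)⟩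
  have a1 := h.1 ξ (hξ.trans (by gcongr; exact min_le_left _ _))
  have a2 := h.2 ξ (hξ.trans (by gcongr; exact min_le_right _ _))
  have e1 : ∀ c : ℝ, avg (fun i => c * ψ (ξ i)) = c * avg fun i => ψ (ξ i) := fun c => by
    rw [avg, avg, ← Finset.mul_sum, mul_div_assoc]
  rw [SE.gE_const_mul, e1] at a1 a2
  have c0 : 0 < (K + 1)⁻¹ := by positivity
  exact abs_le.2 ⟨le_of_mul_le_mul_left (by linarith) c0, le_of_mul_le_mul_left (by linarith) c0⟩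

/-! ### positivity -/

lemma avg_step {w : Cube n → ℝ} (hw : Wt w) {I : Cube n → ℝ} (hI : ∀ σ, I σ = 0 ∨ I σ = 1)
    (hm : mean w I < 1 / 2) {D c : ℝ} (hc : 0 ≤ c) (v : V n)
    (h : ∀ σ, I σ = 0 → D ≤ c * (v ⬝ᵥ sv σ) ^ 2) :
    D ≤ 2 * c * (v ⬝ᵥ covM w *ᵥ v + (v ⬝ᵥ mag w) ^ 2) := by
  have e : mean w (fun σ => (v ⬝ᵥ sv σ) ^ 2) = v ⬝ᵥ covM w *ᵥ v + (v ⬝ᵥ mag w) ^ 2 := by
    rw [covM, covMat_quad, hw.cov_eq, mag, meanV_dot]
    simp only [sq, sub_add_cancel]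
  have h0 : 0 ≤ mean w fun σ => (v ⬝ᵥ sv σ) ^ 2 := hw.mean_nonneg fun _ => sq_nonneg _
  rw [← e]
  by_cases hD : D ≤ 0
  · exact hD.trans (by positivity)
  have h1 : mean w (fun σ => D - D * I σ) ≤ mean w fun σ => c * (v ⬝ᵥ sv σ) ^ 2 :=
    hw.mean_mono fun σ => by
      rcases hI σ with e | e
      · rw [e, mul_zero, sub_zero]; exact h σ e
      · rw [e, mul_one, sub_self]; positivity
  rw [mean_sub, hw.mean_const, mean_const_mul, mean_const_mul] at h1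
  nlinarith [not_le.1 hD]

lemma card_far {u : V n} {ρ : ℝ} (hρ : 0 < ρ) :
    ((Finset.univ.filter fun i => ρ < |u i|).card : ℝ) * ρ ^ 2 ≤ nrm u ^ 2 := by
  rw [nrm_sq, dot_eq, ← nsmul_eq_mul, ← Finset.sum_const]
  refine (Finset.sum_le_sum fun i hi => ?_).trans (Finset.sum_le_sum_of_subset_of_nonneg
    (Finset.filter_subset _ _) fun _ _ _ => sq_nonneg _)
  rw [← sq_abs (u i)]
  exact pow_le_pow_left₀ hρ.le (Finset.mem_filter.1 hi).2.le 2

/-- `al - J ⪰ κ al + η - C u uᵀ / n` -/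
def PosF (κ η C : ℝ) (J : Mx n) (al u : V n) : Prop :=
  ∀ v : V n, v ⬝ᵥ J *ᵥ v + η * (v ⬝ᵥ v) ≤ (1 - κ) * qd al v + C / n * (u ⬝ᵥ v) ^ 2

/-- **(POS)**, positive times -/
theorem pos {β a0 : ℝ} (hβ : β ∈ Ioc (0 : ℝ) 1) (ha : β < a0) :
    ∃ κ η : ℝ, 0 < κ ∧ κ ≤ 1 / 2 ∧ 0 < η ∧ ∀ t0 > (0 : ℝ), ∃ C : ℝ, 0 ≤ C ∧ ∀ s q, t0 ≤ s →
      IsQ β s q → ∀ a : ℝ → ℝ, Continuous a → (∀ x, a (-x) = a x) → (∀ x, a0 ≤ a x) →
      ∃ r > (0 : ℝ), Typ β s fun n W y => ∀ ξ al : V n,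
        nrm (th ξ - mag (ising (β • W) y)) ≤ r * √n →
        (∀ i, a (ξ i) + β ^ 2 * gE (fun x => 1 / a x) (s + β ^ 2 * q) (s + β ^ 2 * q) - η ≤ al i) →
        PosF κ (8 * η) C (β • W) al (mag (ising (β • W) y)) := by
  obtain ⟨κ, η, δ, κ1, κ0, κh, η0, -, δ0, κ10, hR⟩ := rob hβ ha
  have a00 : 0 < a0 := hβ.1.trans ha
  refine ⟨κ, η, κ0, κh, η0, fun t0 ht0 => ?_⟩
  obtain ⟨am, ham, hq0⟩ := SE.lower ht0
  set C := (36 / η + 6) * (2 / am) with hC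
  have C0 : 0 ≤ C := by positivity
  refine ⟨2 * C + 2, by positivity, fun s q hs hq a hca he h0 => ?_⟩
  have hs0 : 0 < s := ht0.trans_le hs
  have hqa : am ≤ q := by
    have := hq0 (s + β ^ 2 * q) (s + β ^ 2 * q) (by
      have := mul_nonneg (sq_nonneg β) hq.1.1
      linarith)
    rwa [← hq.2] at this
  obtain ⟨L, hL, hG⟩ := gE_lo h0 hca (Φ := fun u => 1 / u) (by fun_prop)
    (fun x => continuousAt_const.div continuousAt_id (a00.trans_le (h0 x)).ne') (K := 1 / a0)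
    (fun u x h1 _ => by
      rw [abs_of_pos (one_div_pos.2 (a00.trans_le h1))]; exact one_div_le_one_div_of_le a00 h1)
    (s + β ^ 2 * q) (s + β ^ 2 * q) η0
  set f : ℝ → ℝ := fun x => lo a L (Real.tanh x) with hf
  have f1 : Continuous f := (cont_lo h0 hL.le).comp TapFrz.continuous_tanh
  have f2 : ∀ x, f (-x) = f x := fun x => by
    simp only [hf]; rw [Real.tanh_neg, lo_neg h0 hL.le he]
  have f3 : ∀ x, a0 ≤ f x := fun x => le_lo h0 hL.le _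
  obtain ⟨κ2, κ20, hRef⟩ := ref_VB hβ ha κh η0 κ10 hR hs0.le ham hqa f1 f3
  obtain ⟨κ3, κ30, w⟩ := tapT cellStmt ramStmt seStmt hoefStmt detStmt14 hβ hs0 hq
    (half_pos ham) κ20 (fun n => isOpen_VB _ _ _ _ _ _ _ f1 n)
    (fun n σ W x h => gauge_VB _ _ _ _ _ _ _ f2 n σ W x h) hRef
  set G0 := gE (fun x => 1 / f x) (s + β ^ 2 * q) (s + β ^ 2 * q) with hG0
  have w' : Typ β s fun n W y => (mean (ising (β • W) y) fun σ => {y | ∃ x,
      Ymap (β • W) (β ^ 2) x = y ∧ (unp β W (sv σ), x) ∈ VB β a0 κ δ (β ^ 2 * G0 - 9 * η)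
        (9 * η) C f n}.indicator 1 y) < 1 / 2 :=
    Typ.of_mul κ30 (w.imp fun n W hW => by simpa only [not_lt] using hW)
  obtain ⟨M, M0, hA⟩ := acc hβ hs0
  obtain ⟨K, ρ1, K0, ρ10, hK⟩ := cov hβ hs0.le (Or.inr hs0)
  set ρ := η / L with hρ
  have ρ0 : 0 < ρ := by positivity
  have r0 : 0 < √δ * ρ / 2 := by positivity
  refine ⟨√δ * ρ / 2, r0, ((hA.and hK).and w').mono ?_⟩
  filter_upwards [ev_sq (M := M) r0, tendsto_natCast_atTop_atTop.eventually_ge_atTop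
    ((2 * C * M + 2 * K) / η)] with n ⟨hn, hM⟩ hn2 W y ⟨⟨⟨⟨x, hx⟩, h1⟩, h2⟩, h3⟩ ξ al hξ hal v
  have hn' : (0 : ℝ) < n := by positivity
  have v0 := Eig.dot_self_nonneg v
  have b1 : β ^ 2 ≤ 1 := pow_le_one₀ hβ.1.le hβ.2
  have h4 := near (by positivity) (h1 x hx) hM hξ
  set T := Finset.univ.filter fun i => ρ < |(th ξ - th x) i| with hT
  have hTc : (T.card : ℝ) ≤ δ * n := by
    have t1 := (card_far (u := th ξ - th x) ρ0).trans (pow_le_pow_left₀ (nrm_nonneg _) h4 2)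
    rw [show (2 * (√δ * ρ / 2 * √(n : ℝ))) ^ 2 = √δ ^ 2 * √(n : ℝ) ^ 2 * ρ ^ 2 by ring,
      Real.sq_sqrt δ0.le, Real.sq_sqrt hn'.le] at t1
    exact le_of_mul_le_mul_right t1 (by positivity)
  have g1 : β ^ 2 * G0 ≤ β ^ 2 * gE (fun x => 1 / a x) (s + β ^ 2 * q) (s + β ^ 2 * q) + η := by
    have t1 := mul_le_mul_of_nonneg_left (abs_le.1 hG).2 (sq_nonneg β)
    have t2 := mul_le_of_le_one_left η0.le b1
    linarith
  have g2 : qd (cutT a0 T fun i => f (x i)) v + (β ^ 2 * G0 - 9 * η) * (v ⬝ᵥ v) ≤ qd al v := by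
    rw [← qd_add_const]
    refine qd_mono (fun i => ?_) v
    have t0 := hal i
    unfold cutT; split_ifs with hi
    · linarith [h0 (ξ i)]
    · have t1 : |Real.tanh (ξ i) - Real.tanh (x i)| ≤ ρ :=
        not_lt.1 fun hc => hi (Finset.mem_filter.2 ⟨Finset.mem_univ _, hc⟩)
      have t2 := lo_le h0 hL.le (Real.tanh (x i)) (ξ i)
      have t3 : L * |Real.tanh (ξ i) - Real.tanh (x i)| ≤ η := by
        rw [hρ, le_div_iff₀ hL] at t1; linarith
      simp only [hf]; linarith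
  have g3 := mul_le_mul_of_nonneg_left g2 (show 0 ≤ 1 - κ by linarith)
  set m := mag (ising (β • W) y) with hm
  have g4 := avg_step (Cov15.wt_ising (β • W) y) (fun σ => by
      classical rw [indicator_apply]; split_ifs <;> simp) h3
    (D := β * (v ⬝ᵥ W *ᵥ v) + 9 * η * (v ⬝ᵥ v) - (1 - κ) * qd al v - C / n * (th x ⬝ᵥ v) ^ 2)
    (c := β ^ 2 / n) (by positivity) v fun σ hσ => by
      have t1 : (unp β W (sv σ), x) ∉ VB β a0 κ δ (β ^ 2 * G0 - 9 * η) (9 * η) C f n := fun hc => by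
        rw [indicator_of_mem (by exact ⟨x, hx, hc⟩)] at hσ; simp at hσ
      have t2 := not_lt.1 fun hc => t1 ⟨T, hTc, v, hc⟩
      simp only [unp, sub_mulVec, smul_mulVec, vmv_mulVec, dotProduct_sub, dotProduct_smul,
        smul_eq_mul, dotProduct_comm (sv σ) v] at t2
      have e : β * (v ⬝ᵥ W *ᵥ v - β / n * (v ⬝ᵥ sv σ * v ⬝ᵥ sv σ)) =
        β * (v ⬝ᵥ W *ᵥ v) - β ^ 2 / n * (v ⬝ᵥ sv σ) ^ 2 := by ring
      linarith
  have g5 := h2 0 (by rw [nrm_zero]; positivity) v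
  rw [add_zero] at g5
  rw [← hm, dotProduct_comm v m] at g4
  have g6 : (th x ⬝ᵥ v) ^ 2 ≤ 2 * (m ⬝ᵥ v) ^ 2 + 2 * (M * (v ⬝ᵥ v)) := by
    have t1 : ((m - th x) ⬝ᵥ v) ^ 2 ≤ M * (v ⬝ᵥ v) := by
      rw [← sq_abs, ← nrm_sq]
      refine (pow_le_pow_left₀ (abs_nonneg _) (abs_dot_le _ _) 2).trans ?_
      rw [mul_pow]; exact mul_le_mul_of_nonneg_right (h1 x hx) (sq_nonneg _)
    rw [sub_dotProduct] at t1
    nlinarith [sq_nonneg (2 * (m ⬝ᵥ v) - th x ⬝ᵥ v)]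
  have g7 : 2 * (β ^ 2 / n) * (v ⬝ᵥ covM (ising (β • W) y) *ᵥ v + (m ⬝ᵥ v) ^ 2) ≤
      2 * (1 / n) * (K * (v ⬝ᵥ v) + (m ⬝ᵥ v) ^ 2) :=
    mul_le_mul (by gcongr) (by linarith) (add_nonneg
      ((Cov15.wt_ising _ _).covMat_quad_nonneg sv v) (sq_nonneg _)) (by positivity)
  have g8 := mul_le_mul_of_nonneg_left g6 (show 0 ≤ C / n by positivity)
  have g9 : (2 * C * M + 2 * K) / n * (v ⬝ᵥ v) ≤ η * (v ⬝ᵥ v) := by
    refine mul_le_mul_of_nonneg_right ?_ v0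
    rw [div_le_iff₀ η0] at hn2
    rw [div_le_iff₀ hn']; linarith
  rw [smul_mulVec, dotProduct_smul, smul_eq_mul]
  have e1 : (2 * C + 2) / n * (m ⬝ᵥ v) ^ 2 + (2 * C * M + 2 * K) / n * (v ⬝ᵥ v) =
      C / n * (2 * (m ⬝ᵥ v) ^ 2 + 2 * (M * (v ⬝ᵥ v))) +
        2 * (1 / n) * (K * (v ⬝ᵥ v) + (m ⬝ᵥ v) ^ 2) := by ring
  linarith

end Crest.Agent.T157.Pos

end
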