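import Crest.Agent.T157.TyF_23

/-!
# Row 157, part B (S1): (POS) with a normalised mode and level-uniform constants (helper23)
-/

set_option autoImplicit false

noncomputable section

namespace Crest.Agent.T157.Pos

open MeasureTheory ProbabilityTheory Matrix Filter Set Topology
open Crest.ProbabilityR.SpinGlassDynamics
open Crest.Agent.T157.E Crest.Agent.T157.Eig Crest.Agent.T157.Cond Crest.Agent.T157.Tap
open Crest.Agent.T157.SL

variable {n : ℕ}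

/-- **(POS)**, positive times, with the explicit dependence on the overlap -/
theorem pos2 {β a0 : ℝ} (hβ : β ∈ Ioc (0 : ℝ) 1) (ha : β < a0) :
    ∃ κ η : ℝ, 0 < κ ∧ κ ≤ 1 / 2 ∧ 0 < η ∧ ∀ s q, 0 < s → 0 < q →
      IsQ β s q → ∀ a : ℝ → ℝ, Continuous a → (∀ x, a (-x) = a x) → (∀ x, a0 ≤ a x) →
      ∃ r > (0 : ℝ), Typ β s fun n W y => ∀ ξ al : V n,
        nrm (th ξ - mag (ising (β • W) y)) ≤ r * √n →
        (∀ i, a (ξ i) + β ^ 2 * gE (fun x => 1 / a x) (s + β ^ 2 * q) (s + β ^ 2 * q) - η ≤ al i) →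
        PosF κ (8 * η) (2 * ((36 / η + 6) * (2 / q)) + 2) (β • W) al (mag (ising (β • W) y)) := by
  obtain ⟨κ, η, δ, κ1, κ0, κh, η0, -, δ0, κ10, hR⟩ := rob hβ ha
  have a00 : 0 < a0 := hβ.1.trans ha
  refine ⟨κ, η, κ0, κh, η0, fun s q hs0 ham hq a hca he h0 => ?_⟩
  set C := (36 / η + 6) * (2 / q) with hC
  have C0 : 0 ≤ C := by positivity
  obtain ⟨L, hL, hG⟩ := gE_lo h0 hca (Φ := fun u => 1 / u) (by fun_prop)
    (fun x => continuousAt_const.div continuousAt_id (a00.trans_le (h0 x)).ne') (K := 1 / a0)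
    (fun u x h1 _ => by
      rw [abs_of_pos (one_div_pos.2 (a00.trans_le h1))]; exact one_div_le_one_div_of_le a00 h1)
    (s + β ^ 2 * q) (s + β ^ 2 * q) η0
  set f : ℝ → ℝ := fun x => lo a L (Real.tanh x) with hf
  have f1 : Continuous f := (cont_lo h0 hL.le).comp TapFrz.continuous_tanh
  have f2 : ∀ x, f (-x) = f x := fun x => by
    simp only [hf]; rw [Real.tanh_neg, lo_neg h0 hL.le he]
  have f3 : ∀ x, a0 ≤ f x := fun x => le_lo h0 hL.le _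
  obtain ⟨κ2, κ20, hRef⟩ := ref_VB hβ ha κh η0 κ10 hR hs0.le ham le_rfl f1 f3
  obtain ⟨κ3, κ30, w⟩ := tapT cellStmt ramStmt seStmt hoefStmt detStmt14 hβ hs0 hq
    (half_pos ham) κ20 (fun n => isOpen_VB _ _ _ _ _ _ _ f1 n)
    (fun n σ W x h => gauge_VB _ _ _ _ _ _ _ f2 n σ W x h) hRef
  set G0 := gE (fun x => 1 / f x) (s + β ^ 2 * q) (s + β ^ 2 * q) with hG0
  have w' : Typ β s fun n W y => (mean (ising (β • W) y) fun σ => {y | ∃ x,
      Ymap (β • W) (β ^ 2) x = y ∧ (unp β W (sv σ), x) ∈ VB β a0 κ δ (β ^ 2 * G0 - 9 * η)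
        (9 * η) C f n}.indicator 1 y) < 1 / 2 :=
    Typ.of_mul κ30 (w.imp fun n W hW => by simpa only [not_lt] using hW)
  obtain ⟨M, M0, hA⟩ := acc hβ hs0
  obtain ⟨K, ρ1, K0, ρ10, hK⟩ := cov hβ hs0.le (Or.inr hs0)
  set ρ := η / L with hρ
  have ρ0 : 0 < ρ := by positivity
  have r0 : 0 < √δ * ρ / 2 := by positivity
  refine ⟨√δ * ρ / 2, r0, ((hA.and hK).and w').mono ?_⟩
  filter_upwards [ev_sq (M := M) r0, tendsto_natCast_atTop_atTop.eventually_ge_atTop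
    ((2 * C * M + 2 * K) / η)] with n ⟨hn, hM⟩ hn2 W y ⟨⟨⟨⟨x, hx⟩, h1⟩, h2⟩, h3⟩ ξ al hξ hal v
  have hn' : (0 : ℝ) < n := by positivity
  have v0 := Eig.dot_self_nonneg v
  have b1 : β ^ 2 ≤ 1 := pow_le_one₀ hβ.1.le hβ.2
  have h4 := near (by positivity) (h1 x hx) hM hξ
  set T := Finset.univ.filter fun i => ρ < |(th ξ - th x) i| with hT
  have hTc : (T.card : ℝ) ≤ δ * n := by
    have t1 := (card_far (u := th ξ - th x) ρ0).trans (pow_le_pow_left₀ (nrm_nonneg _) h4 2)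
    rw [show (2 * (√δ * ρ / 2 * √(n : ℝ))) ^ 2 = √δ ^ 2 * √(n : ℝ) ^ 2 * ρ ^ 2 by ring,
      Real.sq_sqrt δ0.le, Real.sq_sqrt hn'.le] at t1
    exact le_of_mul_le_mul_right t1 (by positivity)
  have g1 : β ^ 2 * G0 ≤ β ^ 2 * gE (fun x => 1 / a x) (s + β ^ 2 * q) (s + β ^ 2 * q) + η := by
    have t1 := mul_le_mul_of_nonneg_left (abs_le.1 hG).2 (sq_nonneg β)
    have t2 := mul_le_of_le_one_left η0.le b1
    linarith
  have g2 : qd (cutT a0 T fun i => f (x i)) v + (β ^ 2 * G0 - 9 * η) * (v ⬝ᵥ v) ≤ qd al v := by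
    rw [← qd_add_const]
    refine qd_mono (fun i => ?_) v
    have t0 := hal i
    unfold cutT; split_ifs with hi
    · linarith [h0 (ξ i)]
    · have t1 : |Real.tanh (ξ i) - Real.tanh (x i)| ≤ ρ :=
        not_lt.1 fun hc => hi (Finset.mem_filter.2 ⟨Finset.mem_univ _, hc⟩)
      have t2 := lo_le h0 hL.le (Real.tanh (x i)) (ξ i)
      have t3 : L * |Real.tanh (ξ i) - Real.tanh (x i)| ≤ η := by
        rw [hρ, le_div_iff₀ hL] at t1; linarith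
      simp only [hf]; linarith
  have g3 := mul_le_mul_of_nonneg_left g2 (show 0 ≤ 1 - κ by linarith)
  set m := mag (ising (β • W) y) with hm
  have g4 := avg_step (Cov15.wt_ising (β • W) y) (fun σ => by
      classical rw [indicator_apply]; split_ifs <;> simp) h3
    (D := β * (v ⬝ᵥ W *ᵥ v) + 9 * η * (v ⬝ᵥ v) - (1 - κ) * qd al v - C / n * (th x ⬝ᵥ v) ^ 2)
    (c := β ^ 2 / n) (by positivity) v fun σ hσ => by
      have t1 : (unp β W (sv σ), x) ∉ VB β a0 κ δ (β ^ 2 * G0 - 9 * η) (9 * η) C f n := fun hc => by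
        rw [indicator_of_mem (by exact ⟨x, hx, hc⟩)] at hσ; simp at hσ
      have t2 := not_lt.1 fun hc => t1 ⟨T, hTc, v, hc⟩
      simp only [unp, sub_mulVec, smul_mulVec, vmv_mulVec, dotProduct_sub, dotProduct_smul,
        smul_eq_mul, dotProduct_comm (sv σ) v] at t2
      have e : β * (v ⬝ᵥ W *ᵥ v - β / n * (v ⬝ᵥ sv σ * v ⬝ᵥ sv σ)) =
        β * (v ⬝ᵥ W *ᵥ v) - β ^ 2 / n * (v ⬝ᵥ sv σ) ^ 2 := by ring
      linarith
  have g5 := h2 0 (by rw [nrm_zero]; positivity) v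
  rw [add_zero] at g5
  rw [← hm, dotProduct_comm v m] at g4
  have g6 : (th x ⬝ᵥ v) ^ 2 ≤ 2 * (m ⬝ᵥ v) ^ 2 + 2 * (M * (v ⬝ᵥ v)) := by
    have t1 : ((m - th x) ⬝ᵥ v) ^ 2 ≤ M * (v ⬝ᵥ v) := by
      rw [← sq_abs, ← nrm_sq]
      refine (pow_le_pow_left₀ (abs_nonneg _) (abs_dot_le _ _) 2).trans ?_
      rw [mul_pow]; exact mul_le_mul_of_nonneg_right (h1 x hx) (sq_nonneg _)
    rw [sub_dotProduct] at t1
    nlinarith [sq_nonneg (2 * (m ⬝ᵥ v) - th x ⬝ᵥ v)]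
  have g7 : 2 * (β ^ 2 / n) * (v ⬝ᵥ covM (ising (β • W) y) *ᵥ v + (m ⬝ᵥ v) ^ 2) ≤
      2 * (1 / n) * (K * (v ⬝ᵥ v) + (m ⬝ᵥ v) ^ 2) :=
    mul_le_mul (by gcongr) (by linarith) (add_nonneg
      ((Cov15.wt_ising _ _).covMat_quad_nonneg sv v) (sq_nonneg _)) (by positivity)
  have g8 := mul_le_mul_of_nonneg_left g6 (show 0 ≤ C / n by positivity)
  have g9 : (2 * C * M + 2 * K) / n * (v ⬝ᵥ v) ≤ η * (v ⬝ᵥ v) := by
    refine mul_le_mul_of_nonneg_right ?_ v0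
    rw [div_le_iff₀ η0] at hn2
    rw [div_le_iff₀ hn']; linarith
  rw [smul_mulVec, dotProduct_smul, smul_eq_mul]
  have e1 : (2 * C + 2) / n * (m ⬝ᵥ v) ^ 2 + (2 * C * M + 2 * K) / n * (v ⬝ᵥ v) =
      C / n * (2 * (m ⬝ᵥ v) ^ 2 + 2 * (M * (v ⬝ᵥ v))) +
        2 * (1 / n) * (K * (v ⬝ᵥ v) + (m ⬝ᵥ v) ^ 2) := by ring
  linarith

/-- `al - J ⪰ κ al - C u uᵀ / |u|²` -/
def PosN (κ C : ℝ) (J : Mx n) (al u : V n) : Prop :=
  ∀ v : V n, v ⬝ᵥ J *ᵥ v ≤ (1 - κ) * qd al v + C * ((u ⬝ᵥ v) ^ 2 / (u ⬝ᵥ u))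

lemma md_nn (u v : V n) : 0 ≤ (u ⬝ᵥ v) ^ 2 / (u ⬝ᵥ u) :=
  div_nonneg (sq_nonneg _) (Eig.dot_self_nonneg u)

lemma md_le (u v : V n) : (u ⬝ᵥ v) ^ 2 / (u ⬝ᵥ u) ≤ v ⬝ᵥ v := by
  refine div_le_of_le_mul₀ (Eig.dot_self_nonneg u) (Eig.dot_self_nonneg v) ?_
  rw [← sq_abs, ← nrm_sq, ← nrm_sq, ← mul_pow, mul_comm]
  exact pow_le_pow_left₀ (abs_nonneg _) (abs_dot_le _ _) 2

lemma PosF.posN {κ η C C' : ℝ} {J : Mx n} {al u : V n} (h : PosF κ η C J al u) (hη : 0 ≤ η)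
    (hC : C / n * (u ⬝ᵥ u) ≤ C') : PosN κ C' J al u := by
  intro v
  have h1 := h v
  have h2 := mul_nonneg hη (Eig.dot_self_nonneg v)
  rcases (Eig.dot_self_nonneg u).eq_or_lt with e | e
  · rw [dotProduct_self_eq_zero.1 e.symm] at h1 ⊢
    simp only [zero_dotProduct, div_zero, mul_zero, ne_eq, OfNat.ofNat_ne_zero, not_false_eq_true,
      zero_pow] at h1 ⊢
    linarith
  · have := mul_le_mul_of_nonneg_right hC (md_nn u v)
    rw [mul_assoc, mul_div_cancel₀ _ e.ne'] at this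
    linarith

variable {T : ∀ n, Mx n → Mx n} {β s q : ℝ}

lemma mag_sq (hT : Adm T) (hβ : β ∈ Ioc (0 : ℝ) 1) (hL : Lv β s q) (hq : 0 < q) :
    Typ β s fun n W y => mag (ising (β • T n W) y) ⬝ᵥ mag (ising (β • T n W) y) ≤ 6 * q * n := by
  obtain ⟨M, -, hA⟩ := accF hT hβ hL.1
  refine (hA.and (empF hT hβ hL (ψ := fun x => Real.tanh x ^ 2)
    (TapFrz.continuous_tanh.pow 2) (fun x => by rw [Real.tanh_neg, neg_sq]) (K := 1) (fun x => by
      rw [abs_pow]; exact pow_le_one₀ (abs_nonneg _) (SE.abs_tanh_le x)) hq)).mono ?_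
  filter_upwards [tendsto_natCast_atTop_atTop.eventually_ge_atTop (M ^ 2 / q),
    eventually_gt_atTop 0] with n h1 hn W y ⟨h2, h3⟩
  have hn' : (0 : ℝ) < n := by positivity
  rw [← hL.2.1.2] at h3
  have h4 := (abs_le.1 h3).2
  rw [avg, sub_le_iff_le_add, div_le_iff₀ hn'] at h4
  rw [div_le_iff₀ hq] at h1
  have h5 := pow_le_pow_left₀ (nrm_nonneg _) h2 2
  have h6 := Eig.dot_self_nonneg ((2 : ℝ) • th (fld β (T n W) y) - mag (ising (β • T n W) y))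
  have h7 : th (fld β (T n W) y) ⬝ᵥ th (fld β (T n W) y) ≤ (q + q) * n := (dot_eq _).trans_le h4
  rw [nrm_sq] at h5
  simp only [sub_dotProduct, dotProduct_sub, smul_dotProduct, dotProduct_smul, smul_eq_mul] at h5 h6
  linarith

/-- **(POS)** at the cavity field, all levels, uniform constants -/
theorem posN (hT : Adm T) (hβ : β ∈ Ioc (0 : ℝ) 1) {a0 : ℝ} (ha : β < a0) :
    ∃ κ η C : ℝ, 0 < κ ∧ 0 < η ∧ η ≤ a0 / 2 ∧ 0 ≤ C ∧ ∀ s q, Lv β s q → ∀ a : ℝ → ℝ, Continuous a →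
      (∀ x, a (-x) = a x) → (∀ x, a0 ≤ a x) → Typ β s fun n W y => ∀ al : V n,
        (∀ i, a (fld β (T n W) y i) +
          β ^ 2 * gE (fun x => 1 / a x) (s + β ^ 2 * q) (s + β ^ 2 * q) - η ≤ al i) →
        PosN κ C (β • T n W) al (mag (ising (β • T n W) y)) := by
  have a00 : 0 < a0 := hβ.1.trans ha
  obtain ⟨κ, η, κ0, -, η0, h⟩ := pos2 hβ ha
  obtain ⟨κ', η', κ0', -, η0', h'⟩ := posF hT hβ ha
  obtain ⟨C', -, h'⟩ := h' 1 one_pos
  set e := min (min η η') (a0 / 2) with he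
  have e1 : e ≤ η := (min_le_left _ _).trans (min_le_left _ _)
  have e2 : e ≤ η' := (min_le_left _ _).trans (min_le_right _ _)
  have e3 : e ≤ a0 / 2 := min_le_right _ _
  refine ⟨min κ κ', e, 24 * (36 / η + 6) + 12, lt_min κ0 κ0', by positivity, e3, by positivity,
    fun s q hL a hc hev h0 => ?_⟩
  have G0 : 0 ≤ β ^ 2 * gE (fun x => 1 / a x) (s + β ^ 2 * q) (s + β ^ 2 * q) :=
    mul_nonneg (sq_nonneg _) (integral_nonneg fun x => (one_div_pos.2 (a00.trans_le (h0 _))).le)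
  rcases hL.1.eq_or_lt with rfl | hs
  · refine ((h' 0 q hL (.inl rfl) a hc hev h0).and (typ_zero (P := fun _ _ y => y = 0)
      (Top.whp_of_eventually (.of_forall fun _ _ => rfl)))).mono
        (.of_forall fun n W y ⟨h1, h2⟩ al hal => ?_)
    refine ((h1 al fun i => by linarith [hal i]).mono (fun i => by linarith [hal i, h0 (fld β
      (T n W) y i)]) (min_le_right _ _) le_rfl le_rfl).posN η0'.le ?_
    rw [h2, TopL.mag_ising_zero, dotProduct_zero, mul_zero]; positivity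
  obtain ⟨am, ham, hq0⟩ := SE.lower hs
  have q0 : 0 < q := ham.trans_le (by
    have := hq0 (s + β ^ 2 * q) (s + β ^ 2 * q) (by
      linarith [mul_nonneg (sq_nonneg β) hL.2.1.1.1])
    rwa [← hL.2.1.2] at this)
  obtain ⟨r, hr, w⟩ := h s q hs q0 hL.2.1 a hc hev h0
  refine ((atF hT hβ hs.le (P := fun n W y ξ => ∀ al : V n, (∀ i, a (ξ i) +
    β ^ 2 * gE (fun x => 1 / a x) (s + β ^ 2 * q) (s + β ^ 2 * q) - η ≤ al i) →
      PosF κ (7 * η) (2 * ((36 / η + 6) * (2 / q)) + 2) (β • T n W) al (mag (ising (β • T n W) y)))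
    ⟨r, hr, w.mono' (hT η η0) (.of_forall fun n W y hW hy ξ hξ al hal => ?_)⟩).and
      (mag_sq hT hβ hL q0)).mono ?_
  · rw [hW.mag] at hξ ⊢
    exact (hy ξ al hξ hal).nd hβ hW
  filter_upwards [eventually_gt_atTop 0] with n hn W y ⟨h1, h2⟩ al hal
  refine ((h1 al fun i => by linarith [hal i]).mono (fun i => by linarith [hal i, h0 (fld β
    (T n W) y i)]) (min_le_left _ _) le_rfl le_rfl).posN (by positivity)
      ((mul_le_mul_of_nonneg_left h2 (by positivity)).trans ?_)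
  have hn' : (0 : ℝ) < n := by positivity
  rw [show (2 * ((36 / η + 6) * (2 / q)) + 2) / n * (6 * q * n) = 24 * (36 / η + 6) + 12 * q by
    field_simp; ring]
  linarith [hL.2.1.1.2]

/-- inversion of `al - J` off the pinned set `S` -/
theorem PosN.inv {κ C K a0 c : ℝ} (hκ : 0 < κ) (hC : 0 ≤ C) (ha : 0 < a0) (hc : 0 < c) :
    ∃ C1 ≥ (1 : ℝ), ∀ (n : ℕ) (J : Mx n) (al m p : V n), PosN κ C J al m → opn J ≤ K →
      (∀ i, a0 ≤ al i) → (∀ i, c ≤ p i * al i) → ∀ (S : Finset (Fin n)) (Δ : V n),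
      (∀ i ∈ S, Δ i = 0) → Δ ⬝ᵥ Δ ≤ C1 * ∑ i ∈ Sᶜ, (p * (al * Δ - J *ᵥ Δ)) i ^ 2 +
        C1 * ((m ⬝ᵥ Δ) ^ 2 / (m ⬝ᵥ m)) := by
  set G := 1 / (κ * a0) with hG
  have G0 : 0 < G := by positivity
  set A := 2 + 8 * C * G + 2 * (K * G) ^ 2 with hA
  have A0 : 0 < A := by positivity
  refine ⟨1 + A / c ^ 2 + 8 * C * G, by
    have : 0 ≤ A / c ^ 2 + 8 * C * G := by positivity
    linarith, fun n J al m p h hJ hal hp S v hv => ?_⟩
  have a0' : ∀ i, 0 < al i := fun i => ha.trans_le (hal i)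
  set w : V n := fun i => if i ∈ S then 0 else (al * v - J *ᵥ v) i / al i with hw
  set z := v - w with hz
  have e1 : qd al z = z ⬝ᵥ J *ᵥ v := Finset.sum_congr rfl fun i _ => by
    have := (a0' i).ne'
    simp only [hz, hw, Pi.sub_apply, Pi.mul_apply]
    split_ifs with hi
    · simp [hv i hi]
    · field_simp; ring
  have e2 : z ⬝ᵥ J *ᵥ v = z ⬝ᵥ J *ᵥ z + z ⬝ᵥ J *ᵥ w := by
    rw [show v = z + w by simp [hz], mulVec_add, dotProduct_add]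
  have w0 := Eig.dot_self_nonneg w
  have h1 : a0 * (z ⬝ᵥ z) ≤ qd al z := by
    have := qd_mono (A := fun _ => 0 + a0) (B := al) (by simpa using hal) z
    rw [qd_add_const] at this
    simpa [qd] using this
  have h2 : z ⬝ᵥ J *ᵥ w ≤ nrm z * (K * nrm w) := (le_abs_self _).trans ((abs_dot_le _ _).trans
    (mul_le_mul_of_nonneg_left ((nrm_mulVec_le _ _).trans
      (mul_le_mul_of_nonneg_right hJ (nrm_nonneg _))) (nrm_nonneg _)))
  have h3 : (m ⬝ᵥ z) ^ 2 / (m ⬝ᵥ m) ≤ 2 * ((m ⬝ᵥ v) ^ 2 / (m ⬝ᵥ m)) + 2 * (w ⬝ᵥ w) := by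
    refine le_trans ?_ (add_le_add le_rfl (mul_le_mul_of_nonneg_left (md_le m w) two_pos.le))
    rw [← mul_add, ← add_div, ← mul_div_assoc, hz, dotProduct_sub]
    exact div_le_div_of_nonneg_right (by nlinarith [sq_nonneg (m ⬝ᵥ v + m ⬝ᵥ w)])
      (Eig.dot_self_nonneg m)
  set R := (m ⬝ᵥ v) ^ 2 / (m ⬝ᵥ m) with hR
  have R0 : 0 ≤ R := md_nn m v
  have h4 : κ * a0 * (z ⬝ᵥ z) ≤ C * (2 * R + 2 * (w ⬝ᵥ w)) + nrm z * (K * nrm w) := by
    have t1 := h z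
    have t2 := mul_le_mul_of_nonneg_left h1 hκ.le
    have t3 := mul_le_mul_of_nonneg_left h3 hC
    nlinarith
  have h5 : z ⬝ᵥ z ≤ G * (C * (2 * R + 2 * (w ⬝ᵥ w))) + nrm z * (K * G * nrm w) := by
    have := mul_le_mul_of_nonneg_left h4 G0.le
    refine le_trans (le_of_eq ?_) (this.trans_eq (by ring))
    rw [hG]; field_simp
  have h6 : v ⬝ᵥ v ≤ 2 * (z ⬝ᵥ z) + 2 * (w ⬝ᵥ w) := by
    have := Eig.dot_self_nonneg (z - w)
    rw [show v = z + w by simp [hz]]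
    simp only [add_dotProduct, dotProduct_add, sub_dotProduct, dotProduct_sub] at this ⊢
    linarith
  have h7 := sq_nonneg (nrm z - K * G * nrm w)
  rw [sub_sq, mul_pow, nrm_sq, nrm_sq] at h7
  have h8 : v ⬝ᵥ v ≤ A * (w ⬝ᵥ w) + 8 * C * G * R := by rw [hA]; linarith
  set Z := ∑ i ∈ Sᶜ, (p * (al * v - J *ᵥ v)) i ^ 2 with hZ
  have Z0 : 0 ≤ Z := Finset.sum_nonneg fun i _ => sq_nonneg _
  have h9 : w ⬝ᵥ w ≤ Z / c ^ 2 := by
    rw [dot_eq, ← Finset.sum_add_sum_compl S, Finset.sum_eq_zero fun i hi => by simp [hw, hi],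
      zero_add, hZ, Finset.sum_div]
    refine Finset.sum_le_sum fun i hi => ?_
    have := (a0' i).ne'
    rw [hw]; dsimp only
    rw [if_neg (Finset.mem_compl.1 hi), le_div_iff₀ (by positivity), Pi.mul_apply p,
      show (p i * (al * v - J *ᵥ v) i) ^ 2 = ((al * v - J *ᵥ v) i / al i) ^ 2 * (p i * al i) ^ 2 by
        field_simp]
    exact mul_le_mul_of_nonneg_left (pow_le_pow_left₀ hc.le (hp i) 2) (sq_nonneg _)
  have t1 := mul_le_mul_of_nonneg_left h9 A0.le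
  have t2 : 0 ≤ 8 * C * G * Z := by positivity
  have t3 : 0 ≤ A / c ^ 2 * R := by positivity
  rw [show A * (Z / c ^ 2) = A / c ^ 2 * Z by ring] at t1
  linarith

/-- **the clause `pos` of `S1.LinOK2`**, level-uniform: `al ≥ a (b) + β² E (1 / a) - η`,
`p al ≥ c` -/
theorem linPos (hβ : β ∈ Ioc (0 : ℝ) 1) {a0 c : ℝ} (ha : β < a0) (hc : 0 < c) :
    ∃ C1 ≥ (1 : ℝ), ∃ η > (0 : ℝ), ∀ s q, Lv β s q → ∀ a : ℝ → ℝ, Continuous a →
      (∀ x, a (-x) = a x) → (∀ x, a0 ≤ a x) → TypJ β s fun n J y => ∀ al p : V n,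
        (∀ i, a (fld β J y i) +
          β ^ 2 * gE (fun x => 1 / a x) (s + β ^ 2 * q) (s + β ^ 2 * q) - η ≤ al i) →
        (∀ i, c ≤ p i * al i) → ∀ (S : Finset (Fin n)) (Δ : V n), (∀ i ∈ S, Δ i = 0) →
        Δ ⬝ᵥ Δ ≤ C1 * ∑ i ∈ Sᶜ, (p * (al * Δ - (β • J) *ᵥ Δ)) i ^ 2 +
          C1 * ((mag (ising (β • J) y) ⬝ᵥ Δ) ^ 2 /
            (mag (ising (β • J) y) ⬝ᵥ mag (ising (β • J) y))) := by
  have a00 : 0 < a0 := hβ.1.trans ha
  obtain ⟨κ, η, C, κ0, η0, η1, C0, h⟩ := posN adm_offd hβ ha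
  obtain ⟨C1, h1, hI⟩ := PosN.inv (K := 4) κ0 C0 (half_pos a00) hc
  refine ⟨C1, h1, η, η0, fun s q hL a hca hev h0 => Typ.toJ ((h s q hL a hca hev h0).mono'
    ((adm_offd 1 one_pos).and TapPl.whp_opn) (.of_forall fun n W y ⟨⟨d, e, _, hd⟩, hW⟩ hy al p hal
      hp => hI n _ al _ p (hy al hal) ?_ (fun i => ?_) hp))⟩
  · have := opn_sub_le W (diagonal d)
    rw [← eq_sub_of_add_eq e.symm] at this
    rw [opn_smul, abs_of_pos hβ.1]
    nlinarith [opn_diagonal_le zero_le_one hd, hβ.1, hβ.2, opn_nonneg (offd W)]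
  · have : 0 ≤ β ^ 2 * gE (fun x => 1 / a x) (s + β ^ 2 * q) (s + β ^ 2 * q) :=
      mul_nonneg (sq_nonneg _) (integral_nonneg fun x => (one_div_pos.2 (a00.trans_le (h0 _))).le)
    linarith [hal i, h0 (fld β (offd W) y i)]

theorem TypJ.ev {P : ∀ n, Mx n → V n → Prop} (h : TypJ β s P) :
    ∀ᶠ i in TF β s, P i.n (Jmat i.n i.g) i.y := by
  obtain ⟨κ, hκ, h⟩ := h
  exact TF.of_dis (P := fun n g y => P n (Jmat n g) y) fun ε hε => h.mono
    (((TapPl.tendsto_exp_neg hκ).eventually (ge_mem_nhds hε)).mono fun _ hn _ hW => hW.trans hn)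

/-- the same along the filter of typical instances -/
theorem TF.linPos (hβ : β ∈ Ioc (0 : ℝ) 1) {a0 c : ℝ} (ha : β < a0) (hc : 0 < c) :
    ∃ C1 ≥ (1 : ℝ), ∃ η > (0 : ℝ), ∀ s q, Lv β s q → ∀ a : ℝ → ℝ, Continuous a →
      (∀ x, a (-x) = a x) → (∀ x, a0 ≤ a x) → ∀ᶠ i in TF β s, ∀ al p : V i.n,
        (∀ k, a (i.b β k) +
          β ^ 2 * gE (fun x => 1 / a x) (s + β ^ 2 * q) (s + β ^ 2 * q) - η ≤ al k) →
        (∀ k, c ≤ p k * al k) → ∀ (S : Finset (Fin i.n)) (Δ : V i.n), (∀ k ∈ S, Δ k = 0) →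
        Δ ⬝ᵥ Δ ≤ C1 * ∑ k ∈ Sᶜ, (p * (al * Δ - i.J β *ᵥ Δ)) k ^ 2 +
          C1 * ((mag (ising (i.J β) i.y) ⬝ᵥ Δ) ^ 2 /
            (mag (ising (i.J β) i.y) ⬝ᵥ mag (ising (i.J β) i.y))) := by
  obtain ⟨C1, h1, η, η0, h⟩ := Pos.linPos hβ ha hc
  exact ⟨C1, h1, η, η0, fun s q hL a h2 h3 h4 => (h s q hL a h2 h3 h4).ev⟩

end Crest.Agent.T157.Pos

end
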