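import Crest.Agent.T157.Ac_33
import Crest.Agent.T157.CondA_53

/-!
Row 157, part D (helper33): the exact input `PsiStmt` of step (L4) (lower half of S0231).
-/

set_option autoImplicit false

noncomputable section

namespace Crest.Agent.T157.Ac

open Finset Matrix MeasureTheory Real Filter
open Crest.Agent.T157.E Crest.Agent.T157.Cond

variable {n : ℕ}

/-- GOE matrix (off-diagonal variance `1/n`) as a function of a standard Gaussian array -/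
def Jg (n : ℕ) (x : Fin n × Fin n → ℝ) : Matrix (Fin n) (Fin n) ℝ := symG (1 / √n) x

/-- the edge weight `η² ((2 - J)² + η²)⁻¹` -/
def Am (η : ℝ) (J : Matrix (Fin n) (Fin n) ℝ) : Matrix (Fin n) (Fin n) ℝ :=
  η ^ 2 • (((2 : ℝ) • 1 - J) * ((2 : ℝ) • 1 - J) + η ^ 2 • (1 : Matrix (Fin n) (Fin n) ℝ))⁻¹

/-- the SK Hamiltonian for `J = √(1-d) J₀ + √d J₁` -/
def Hm (β d : ℝ) (x0 x1 : Fin n × Fin n → ℝ) (σ : Cube n) : ℝ :=
  β / 2 * (sv σ ⬝ᵥ (√(1 - d) • Jg n x0 + √d • Jg n x1) *ᵥ sv σ)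

/-- the tilted free energy `log ∑ exp (H - l Q)`, `Q = σ·A(J₀)σ` -/
def psi (β d η l : ℝ) (x0 x1 : Fin n × Fin n → ℝ) : ℝ :=
  log (∑ σ : Cube n, exp (Hm β d x0 x1 σ - l * Qf (Am η (Jg n x0)) σ))

/-- its expectation -/
def Psi (n : ℕ) (β d η l : ℝ) : ℝ :=
  ∫ x0, ∫ x1, psi β d η l x0 x1 ∂(gv (Fin n × Fin n)) ∂(gv (Fin n × Fin n))

/-- `E tr A(J₀)` -/
def Tau (n : ℕ) (η : ℝ) : ℝ := ∫ x0, (Am η (Jg n x0)).trace ∂(gv (Fin n × Fin n))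

/-- the input of (L4) -/
def PsiStmt : Prop :=
  ∀ β : ℝ, 1 < β → ∃ c : ℝ, 1 / 10000 < c ∧ ∃ d η l m : ℕ → ℝ,
    (∀ᶠ n : ℕ in atTop, 0 < d n ∧ d n ≤ 1 ∧ 0 < η n ∧ η n ≤ 1 ∧ 0 < l n ∧ 0 < m n ∧
      Psi n β (d n) (η n) (l n) - Psi n β (d n) (η n) 0 ≤ -(2 * l n * n * m n)) ∧
    Tendsto (fun n : ℕ => (n : ℝ) ^ c *
      ((Psi n β (d n) (η n) (l n) + Psi n β (d n) (η n) (-l n) - 2 * Psi n β (d n) (η n) 0 + 1) /
        (l n * n) + √(Tau n (η n) / (n * d n))) / m n) atTop (nhds 0) ∧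
    Tendsto (fun n : ℕ => (1 / l n + 1 / η n) / (m n * √n)) atTop (nhds 0)

end Crest.Agent.T157.Ac
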