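import Crest.Agent.T157.TrB_64
import Crest.Agent.T157.EntD_34

/-!
# Row 157, part C (helper63): entropy production along stochastic localisation at one level

Early times by the two-replica exponential moment; the window by the submartingale
`√(u² + c(r)² |v|²)`, `u = μ_r f`, `v = Cov_r (f, φ)`.
-/

set_option autoImplicit false
set_option linter.unusedSectionVars false

noncomputable section

namespace Crest.Agent.T157.Q1

open MeasureTheory ProbabilityTheory Filter Topology Set Real Matrix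
open Crest.Agent.T157.SL Crest.Agent.T157.E Crest.Agent.T157.Tr

variable {Ω : Type*} [Fintype Ω] {ι : Type} [Fintype ι] [DecidableEq ι] {φ : Ω → ι → ℝ}
  {v w f g : Ω → ℝ} {I : Set ℝ} {s t T : ℝ}

/-! ### early times -/

/-- exponential moment of the overlap of two replicas -/
def XX (φ : Ω → ι → ℝ) (v : Ω → ℝ) (θ : ℝ) : ℝ :=
  mean v fun x => mean v fun x' => exp (θ * (φ x ⬝ᵥ φ x'))

/-- half the entropy production -/
def J2 (φ : Ω → ι → ℝ) (w f : Ω → ℝ) : ℝ → ℝ := ex φ w fun p =>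
  covV (pw φ w p) f φ ⬝ᵥ covV (pw φ w p) f φ / (2 * mean (pw φ w p) f)

theorem exp_mean_le (hv : Wt v) (K : ℝ) : exp (K * (meanV v φ ⬝ᵥ meanV v φ)) ≤ XX φ v K := by
  set b := K * (meanV v φ ⬝ᵥ meanV v φ) with hb
  have e : mean v (fun x => mean v fun x' => exp b * (1 - b) + exp b * K * (φ x ⬝ᵥ φ x')) =
      exp b := by
    simp only [mean_add, hv.mean_const, mean_const_mul, ← meanV_dot]
    simp only [dotProduct_comm _ (meanV v φ), ← meanV_dot]
    rw [mul_assoc, ← hb]; ring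
  rw [← e]
  refine hv.mean_mono fun x => hv.mean_mono fun x' => ?_
  have := mul_le_mul_of_nonneg_left (add_one_le_exp (K * (φ x ⬝ᵥ φ x') - b)) (exp_pos b).le
  rw [← exp_add, add_sub_cancel] at this
  linarith

theorem eg_exp_md (hw : Wt w) (K : ℝ) :
    EG I fun p => exp (K * ∑ i, md φ w i p ^ 2) := by
  refine EG.exp (EG.const_mul K (EG.sum _ fun i _ => (eg_md hw i).pow 2)).cont
    (|K| * ∑ i, (∑ x, |φ x i|) ^ 2) 0 fun p _ => ?_
  rw [zero_mul, add_zero]
  refine mul_le_mul (le_abs_self K) (Finset.sum_le_sum fun i _ => ?_)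
    (Finset.sum_nonneg fun _ _ => sq_nonneg _) (abs_nonneg K)
  exact sq_le_sq' (abs_le.1 ((hw.post φ p.1 p.2).abs_mean_le fun x => Finset.single_le_sum
    (f := fun x => |φ x i|) (fun _ _ => abs_nonneg _) (Finset.mem_univ x))).1
    (abs_le.1 ((hw.post φ p.1 p.2).abs_mean_le fun x => Finset.single_le_sum
    (f := fun x => |φ x i|) (fun _ _ => abs_nonneg _) (Finset.mem_univ x))).2

theorem mg_post (v : Ω → ℝ) (s : ℝ) (x : Ω) : MG fun z : ι → ℝ => post φ v s (√s • z) x := by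
  simpa using ((eg_pw (φ := φ) (Metric.isBounded_Icc s s) v x).mg (left_mem_Icc.2 le_rfl)).affine 0 √s

theorem int_post_post (hs : 0 ≤ s) (x x' : Ω) :
    ∫ z, post φ v s (√s • z) x * post φ v s (√s • z) x' ∂Gs ι =
      v x * v x' * exp (s * (φ x ⬝ᵥ φ x')) := by
  have := cm (√s • φ x + √s • φ x') fun _ => (1 : ℝ)
  simp only [integral_const, probReal_univ, smul_eq_mul, mul_one] at this
  rw [← mul_one (v x * v x' * _), this, ← integral_const_mul]
  congr 1; ext z
  rw [post_sqrt hs, post_sqrt hs, mul_mul_mul_comm, mul_assoc (v x * v x'), ← exp_add, ← exp_add]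
  congr 2
  simp only [add_dotProduct, dotProduct_add, smul_dotProduct, dotProduct_smul, smul_eq_mul,
    dotProduct_comm (φ x') (φ x)]
  ring_nf
  simp only [sq_sqrt hs]
  ring

/-- Jensen's inequality for the posterior mean (helper87's argument) -/
theorem ex_exp_md (hv : Wt v) (hs : 0 ≤ s) (K : ℝ) :
    ex φ v (fun p => exp (K / 2 * ∑ i, md φ v i p ^ 2)) s ≤ (1 + XX φ v (s + K)) / 2 := by
  have hV := hv.pos
  have m := (eg_exp_md (φ := φ) (I := univ) hv (K / 2)).mg (mem_univ s)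
  have i2 : ∀ x x', Integrable (fun z => post φ v s (√s • z) x * post φ v s (√s • z) x' *
      exp (K * (φ x ⬝ᵥ φ x'))) (Gs ι) := fun x x' =>
    ((mg_post v s x).mul (mg_post v s x')).int.mul_const _
  have i3 : Integrable (fun z => ∑ x, ∑ x', post φ v s (√s • z) x * post φ v s (√s • z) x' *
      exp (K * (φ x ⬝ᵥ φ x'))) (Gs ι) :=
    integrable_finsetSum _ fun x _ => integrable_finsetSum _ fun x' _ => i2 x x'
  have e0 : ∀ (u : Ω → ℝ) (θ : ℝ), Wt u → XX φ u θ * ((∑ x, u x) * ∑ x, u x) =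
      ∑ x, ∑ x', u x * u x' * exp (θ * (φ x ⬝ᵥ φ x')) := fun u θ hu => by
    have := hu.pos.ne'
    simp only [XX, mean_eq_div, ← mul_div_assoc, ← Finset.sum_div, mul_assoc, ← Finset.mul_sum]
    field_simp
  have e1 : (∑ x, v x) * ((1 + XX φ v (s + K)) / 2) = ∫ z, ((∑ x, v x) / 2 + (2 * ∑ x, v x)⁻¹ *
      ∑ x, ∑ x', post φ v s (√s • z) x * post φ v s (√s • z) x' * exp (K * (φ x ⬝ᵥ φ x'))) ∂Gs ι := by
    rw [integral_add (integrable_const _) (i3.const_mul _), integral_const_mul,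
      integral_finsetSum _ fun x _ => integrable_finsetSum _ fun x' _ => i2 x x',
      Finset.sum_congr rfl fun x _ => integral_finsetSum _ fun x' _ => i2 x x']
    simp only [integral_mul_const, int_post_post hs, integral_const, probReal_univ, one_smul,
      mul_assoc (v _ * v _), ← exp_add, ← add_mul, ← e0 v _ hv]
    field_simp
  rw [ex, slE_eq_ref' hs (.of_mg fun _ => m), div_le_iff₀' hV, e1]
  refine integral_mono (integrable_finsetSum _ fun x _ => (SInt.of_mg fun _ => m).post hs v x)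
    ((integrable_const _).add (i3.const_mul _)) fun z => ?_
  have hu := hv.post φ s (√s • z)
  have h1 := mul_le_mul_of_nonneg_right (exp_mean_le (φ := φ) hu K) (mul_pos hu.pos hu.pos).le
  simp only [← Finset.sum_mul, ← e0 _ _ hu]
  set Z := ∑ x, post φ v s (√s • z) x
  set F := exp (K / 2 * ∑ i, md φ v i (s, √s • z) ^ 2) with hF
  have e2 : F * F = exp (K * (meanV (post φ v s (√s • z)) φ ⬝ᵥ meanV (post φ v s (√s • z)) φ)) := by
    rw [hF, ← exp_add, ← add_mul, add_halves]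
    simp only [md, sq, dotProduct]
  rw [← e2] at h1
  refine le_trans ?_ (add_le_add le_rfl (mul_le_mul_of_nonneg_left h1 (by positivity)))
  rw [← sub_nonneg]
  have : (∑ x, v x) / 2 + (2 * ∑ x, v x)⁻¹ * (F * F * (Z * Z)) - Z * F =
      (2 * ∑ x, v x)⁻¹ * ((∑ x, v x) - Z * F) ^ 2 := by field_simp; ring
  rw [this]; positivity

theorem ex_le_of_exp (hv : Wt v) {G : Pt ι → ℝ} (h : MG fun y => G (t, y))
    (h' : MG fun y => exp (G (t, y))) {a : ℝ} (ha : ex φ v (fun p => exp (G p)) t ≤ exp a) :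
    ex φ v G t ≤ a := by
  have := ex_mono (φ := φ) (G := G) (H := fun p => (a - 1) + exp (-a) * exp (G p)) hv h
    ((MG.const _).add (h'.const_mul _)) fun y => by
      rw [← exp_add]; linarith [add_one_le_exp (-a + G (t, y))]
  rw [ex_add (G := fun _ => a - 1) (MG.const _) (h'.const_mul _), ex_const hv, ex_const_mul] at this
  have h2 := mul_le_mul_of_nonneg_left ha (exp_pos (-a)).le
  rw [← exp_add, neg_add_cancel, exp_zero] at h2
  linarith

/-- the entropy production at early times -/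
theorem early (hw : Wt w) (hf : ∀ x, 0 ≤ f x) (h1 : mean w f = 1) {A L θ : ℝ} (hA : 0 ≤ A)
    (hL : 0 ≤ L) (hM : ∀ x, f x ≤ exp A) (hX : XX φ w θ ≤ exp L) (hs : 0 ≤ s) (hθ : s < θ) :
    J2 φ w f s ≤ 2 * (3 * A + 2 * L) / (θ - s) := by
  have h0 : 0 < mean w f := h1 ▸ one_pos
  have hv := hw.mul hf h0
  set v := fun x => w x * f x with hvd
  have hK : 0 < θ - s := sub_pos.2 hθ
  have sq : ∀ {u : Ω → ℝ}, Wt u → EG univ fun p : Pt ι => (θ - s) / 2 * ∑ i, md φ u i p ^ 2 :=
    fun hu => (EG.sum _ fun i _ => (eg_md hu i).pow 2).const_mul _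
  have one : ∀ a : ℝ, 0 ≤ a → ∀ X ≤ exp a, (1 + X) / 2 ≤ exp a := fun a ha X hX => by
    linarith [one_le_exp ha]
  have x1 : XX φ v θ ≤ exp (2 * A + L) := by
    simp only [XX, hvd, mean_mul_weight _ _ _ hw.pos.ne', h1, div_one]
    refine le_trans (hw.mean_mono (g := fun x => exp A * exp A * mean w fun x' =>
      exp (θ * (φ x ⬝ᵥ φ x'))) fun x => ?_) ?_
    · rw [mul_assoc, ← mean_const_mul _ _ (exp A)]
      exact mul_le_mul (hM x) (hw.mean_mono fun x' => mul_le_mul_of_nonneg_right (hM x')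
        (exp_pos _).le) (hw.mean_nonneg fun x' => mul_nonneg (hf x') (exp_pos _).le) (exp_pos _).le
    · rw [mean_const_mul, two_mul, exp_add, exp_add]
      exact mul_le_mul_of_nonneg_left hX (by positivity)
  have a1 := ex_le_of_exp (φ := φ) hv ((sq hv).mg (mem_univ s))
    ((eg_exp_md (I := univ) hv _).mg (mem_univ s)) (a := 2 * A + L)
    ((ex_exp_md hv hs _).trans (one _ (by linarith) _ (by rwa [add_sub_cancel])))
  have m := (eg_exp_md (φ := φ) (I := univ) hw ((θ - s) / 2)).mg (mem_univ s)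
  have a2 := ex_le_of_exp (φ := φ) hv ((sq hw).mg (mem_univ s)) m (a := A + L) (by
    rw [hvd, ex_mul_weight (G := fun p => exp ((θ - s) / 2 * ∑ i, md φ w i p ^ 2)) hw hs f m, h1,
      div_one, exp_add]
    refine le_trans (ex_mono (H := fun p => exp A * exp ((θ - s) / 2 * ∑ i, md φ w i p ^ 2)) hw
      (((eg_mean hw f).mg (mem_univ s)).mul m) (m.const_mul _) fun y =>
        mul_le_mul_of_nonneg_right ((hw.post _ _ _).mean_le hM) (exp_pos _).le) ?_
    rw [ex_const_mul]
    exact mul_le_mul_of_nonneg_left ((ex_exp_md hw hs _).trans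
      (one _ hL _ (by rwa [add_sub_cancel]))) (exp_pos _).le)
  have e := ex_md_sq (φ := φ) hw hf h0 hvd hs
  rw [h1, div_one] at e
  rw [J2, ← e, le_div_iff₀' hK, ← ex_const_mul]
  refine le_trans (ex_mono (H := fun p => 2 * ((θ - s) / 2 * ∑ i, md φ v i p ^ 2) +
    2 * ((θ - s) / 2 * ∑ i, md φ w i p ^ 2)) hv ((((EG.sum _ fun i _ => ((eg_md hv i).sub
      (eg_md hw i)).pow 2).div_const 2).const_mul _).mg (mem_univ s))
    ((((sq hv).const_mul 2).add ((sq hw).const_mul 2)).mg (mem_univ s)) fun y => ?_) ?_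
  · have : ∑ i, (md φ v i (s, y) - md φ w i (s, y)) ^ 2 ≤
        2 * ∑ i, md φ v i (s, y) ^ 2 + 2 * ∑ i, md φ w i (s, y) ^ 2 := by
      rw [Finset.mul_sum, Finset.mul_sum, ← Finset.sum_add_distrib]
      exact Finset.sum_le_sum fun i _ => by nlinarith [sq_nonneg (md φ v i (s, y) + md φ w i (s, y))]
    nlinarith
  · rw [ex_add (((sq hv).const_mul 2).mg (mem_univ s)) (((sq hw).const_mul 2).mg (mem_univ s)),
      ex_const_mul 2, ex_const_mul 2]
    linarith

/-! ### the norm of a vector of Itô processes -/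

theorem ito_norm {κ : Type*} [Fintype κ] {d : ι → Pt ι → ℝ} {Z a : κ → Pt ι → ℝ}
    {b : κ → ι → Pt ι → ℝ} (h : ∀ k, Ito d I (Z k) (a k) (b k))
    (h0 : ∀ p : Pt ι, p.1 ∈ I → 0 < ∑ k, Z k p * Z k p)
    (e : EG I fun p => (√(∑ k, Z k p * Z k p))⁻¹) :
    ∃ A B, Ito d I (fun p => √(∑ k, Z k p * Z k p)) A B ∧
      ∀ p : Pt ι, p.1 ∈ I → (∑ k, Z k p * a k p) / √(∑ k, Z k p * Z k p) ≤ A p := by
  have hG := Ito.sum Finset.univ fun k _ => (h k).mul (h k)
  refine ⟨_, _, hG.comp (φ := fun x => √x) (φ' := fun x => (√x)⁻¹ / 2)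
    (φ'' := fun x => -(√x)⁻¹ ^ 3 / 4) (fun p hp => ?_) (fun p hp => ?_) ?_ (e.div_const 2)
    ((e.pow 3).neg.div_const 4), fun p hp => ?_⟩
  · exact (hasDerivAt_sqrt (h0 p hp).ne').congr_deriv (by ring)
  · have := (sqrt_pos.2 (h0 p hp)).ne'
    exact (((hasDerivAt_sqrt (h0 p hp).ne').inv this).div_const 2).congr_deriv (by field_simp; ring)
  · refine ((EG.const 1).add hG.eg).of_le hG.eg.cont.sqrt fun p hp => ?_
    have := h0 p hp
    rw [abs_of_nonneg (sqrt_nonneg _), abs_of_nonneg (by positivity), sqrt_le_left (by positivity)]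
    nlinarith
  · have h1 := h0 p hp
    have h2 := sqrt_pos.2 h1
    have h3 := mul_self_sqrt h1.le
    have cs : ∑ i, (∑ k, (b k i p * Z k p + Z k p * b k i p)) ^ 2 ≤
        4 * ((∑ k, Z k p * Z k p) * ∑ k, ∑ i, b k i p * b k i p) := by
      rw [Finset.sum_comm, Finset.mul_sum, Finset.mul_sum]
      refine Finset.sum_le_sum fun i _ => ?_
      have := Finset.sum_mul_sq_le_sq_mul_sq Finset.univ (fun k => Z k p) fun k => b k i p
      simp only [mul_comm (b _ i p) (Z _ p), Finset.sum_add_distrib, ← sq] at this ⊢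
      nlinarith
    simp only [Finset.sum_add_distrib, mul_comm (a _ p) (Z _ p)] at cs ⊢
    set S := √(∑ k, Z k p * Z k p)
    rw [← h3] at cs
    have h4 := mul_le_mul_of_nonneg_left cs (by positivity : 0 ≤ S⁻¹ ^ 3 / 8)
    have h5 : S⁻¹ ^ 3 / 8 * (4 * (S * S * ∑ k, ∑ i, b k i p * b k i p)) =
        S⁻¹ / 2 * ∑ k, ∑ i, b k i p * b k i p := by field_simp; ring
    rw [h5] at h4
    rw [div_eq_inv_mul]
    linarith

theorem eg_time {a b : ℝ} {k : ℝ → ℝ} (hk : ContinuousOn k (Icc a b)) :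
    EG (Icc a b) fun p : Pt ι => k p.1 := by
  obtain ⟨C, hC⟩ := isCompact_Icc.exists_bound_of_continuousOn hk
  exact EG.time hk C hC

/-- the functional `√(u² + c² |v|²)` -/
def Nf (φ : Ω → ι → ℝ) (w f : Ω → ℝ) (c : ℝ) (p : Pt ι) : ℝ :=
  √(mean (pw φ w p) f ^ 2 + c ^ 2 * (vv φ w f p ⬝ᵥ vv φ w f p))

theorem mean_le_Nf (c : ℝ) (p : Pt ι) : mean (pw φ w p) f ≤ Nf φ w f c p :=
  le_sqrt_of_sq_le (le_add_of_nonneg_right (mul_nonneg (sq_nonneg c) (dot_self_nonneg _)))

theorem eg_Nf (hw : Wt w) {c : ℝ → ℝ} (hc : EG I fun p : Pt ι => c p.1) :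
    EG I fun p => Nf φ w f (c p.1) p := by
  have e := ((eg_mean (φ := φ) (I := I) hw f).pow 2).add ((hc.pow 2).mul
    (eg_covV_dot (φ := φ) hw f f))
  refine ((EG.const 1).add e).of_le e.cont.sqrt fun p _ => ?_
  have : 0 ≤ mean (pw φ w p) f ^ 2 + c p.1 ^ 2 * (vv φ w f p ⬝ᵥ vv φ w f p) :=
    add_nonneg (sq_nonneg _) (mul_nonneg (sq_nonneg _) (dot_self_nonneg _))
  rw [Nf, abs_of_nonneg (sqrt_nonneg _)]
  refine le_trans ?_ (le_abs_self _)
  rw [sqrt_le_left (by unfold vv at this; linarith)]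
  unfold vv at this ⊢
  nlinarith

/-- **the submartingale**; `k r` bounds the covariance off the bad event `A r` -/
theorem transport (hw : Wt w) (hf : ∀ x, 0 ≤ f x) (h0 : 0 < mean w f) (hs : 0 ≤ s) (hst : s ≤ T)
    {c k ε : ℝ → ℝ} (hc : ContinuousOn c (Icc s T)) (hk : ContinuousOn k (Icc s T))
    (hε : ContinuousOn ε (Icc s T)) (dc : ∀ r ∈ Ioo s T, HasDerivAt c (k r * c r) r)
    (k0 : ∀ r ∈ Icc s T, 0 ≤ k r) (ε0 : ∀ r ∈ Icc s T, 0 ≤ ε r) {χ : Pt ι → ℝ}
    (hχ : ∀ r, MG fun y => χ (r, y)) (χ0 : ∀ p, 0 ≤ χ p)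
    (good : ∀ p : Pt ι, p.1 ∈ Ioo s T → χ p < 1 → ∀ u,
      u ⬝ᵥ covMat (pw φ w p) φ *ᵥ u ≤ k p.1 * (u ⬝ᵥ u))
    (bad : ∀ r ∈ Ioo s T, c r ^ 2 * ex φ w (fun p => χ p * (vv φ w f p ⬝ᵥ
      covMat (pw φ w p) φ *ᵥ vv φ w f p / mean (pw φ w p) f)) r ≤ ε r) :
    ex φ w (Nf φ w f (c s)) s ≤ ex φ w (Nf φ w f (c T)) T + ∫ r in s..T, ε r := by
  have pos := fun p : Pt ι => hw.mean_post_pos hf h0 φ p.1 p.2
  have ic : Ito (md φ w) (Ioo s T) (fun p => c p.1) (fun p => k p.1 * c p.1) fun _ _ => 0 :=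
    Ito.time (f' := fun r => k r * c r) dc ((eg_time hc).mono Ioo_subset_Icc_self)
      ((eg_time (hk.mul hc)).mono Ioo_subset_Icc_self)
  have e0 : ∀ p : Pt ι, ∑ o : Option ι, (o.elim (mean (pw φ w p) f) fun j => c p.1 * vv φ w f p j) *
      (o.elim (mean (pw φ w p) f) fun j => c p.1 * vv φ w f p j) =
      mean (pw φ w p) f ^ 2 + c p.1 ^ 2 * (vv φ w f p ⬝ᵥ vv φ w f p) := fun p => by
    simp only [Fintype.sum_option, Option.elim, dotProduct, Finset.mul_sum, sq]
    exact congrArg _ (Finset.sum_congr rfl fun j _ => by ring)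
  have ei := eg_inv_mean (φ := φ) (Metric.isBounded_Ioo s T) hw hf h0
  have en := eg_Nf (φ := φ) (f := f) hw (eg_time (ι := ι) hc)
  obtain ⟨A, B, hI, hA⟩ := ito_norm (d := md φ w) (I := Ioo s T) (κ := Option ι)
    (Z := fun o p => o.elim (mean (pw φ w p) f) fun j => c p.1 * vv φ w f p j)
    (a := fun o p => o.elim 0 fun j => k p.1 * c p.1 * vv φ w f p j -
      c p.1 * (covMat (pw φ w p) φ *ᵥ vv φ w f p) j)
    (b := fun o i p => o.elim (vv φ w f p i) fun j =>
      c p.1 * cum3 (pw φ w p) f (fun x => φ x j) fun x => φ x i)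
    (fun o => by
      cases o with
      | none => exact ito_mean hw f
      | some j =>
        refine (ic.mul (ito_cov hw f fun x => φ x j)).congr (fun p _ => ?_) fun i p _ => by simp
        simp only [Option.elim, zero_mul, Finset.sum_const_zero, add_zero, vv, mulVec,
          dotProduct_comm (covV (pw φ w p) f φ)]
        exact (sub_eq_add_neg _ _).trans (by rw [mul_neg]; rfl))
    (fun p _ => by
      rw [e0]; exact add_pos_of_pos_of_nonneg (pow_pos (pos p) 2)
        (mul_nonneg (sq_nonneg _) (dot_self_nonneg _)))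
    (by
      simp only [e0]
      refine ei.of_le ((en.mono Ioo_subset_Icc_self).cont.inv₀ fun p _ =>
        ((pos p).trans_le (mean_le_Nf _ p)).ne') fun p _ => ?_
      rw [abs_of_nonneg (inv_nonneg.2 (sqrt_nonneg _)), abs_of_pos (inv_pos.2 (pos p))]
      exact inv_anti₀ (pos p) (mean_le_Nf _ p))
  simp only [e0] at hI hA
  have := hI.ex_lower (φ := φ) hw hs hst en (κ := fun _ => 0) continuousOn_const hε
    (fun _ _ => le_rfl) ε0 fun r hr => by
      rw [zero_mul, neg_zero, zero_sub]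
      refine le_trans (neg_le_neg (bad r hr)) ?_
      rw [← ex_const_mul, ← ex_neg]
      refine ex_mono hw (((hχ r).mul ?_).const_mul _).neg ((hI.eg_a fun i => eg_md hw i).mg hr)
        fun y => le_trans ?_ (hA (r, y) hr)
      · exact ((eg_dot (fun j => eg_vv hw f j) fun j => eg_dot (fun l => eg_cov hw _ _)
          fun l => eg_vv hw f l).mul ei).mg hr
      · have q0 := (hw.post φ r y).covMat_quad_nonneg φ (vv φ w f (r, y))
        have e1 : ∑ o : Option ι, (o.elim (mean (pw φ w (r, y)) f) fun j => c r * vv φ w f (r, y) j) *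
            (o.elim 0 fun j => k r * c r * vv φ w f (r, y) j -
              c r * (covMat (pw φ w (r, y)) φ *ᵥ vv φ w f (r, y)) j) =
            c r ^ 2 * (k r * (vv φ w f (r, y) ⬝ᵥ vv φ w f (r, y)) -
              vv φ w f (r, y) ⬝ᵥ covMat (pw φ w (r, y)) φ *ᵥ vv φ w f (r, y)) := by
          simp only [Fintype.sum_option, Option.elim, mul_zero, zero_add, dotProduct, Finset.mul_sum,
            ← Finset.sum_sub_distrib]
          exact Finset.sum_congr rfl fun j _ => by ring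
        rw [e1]
        have u0 := pos (r, y)
        have n0 := u0.trans_le (mean_le_Nf (c r) (r, y))
        rcases lt_or_ge (χ (r, y)) 1 with h | h
        · exact le_trans (neg_nonpos.2 (mul_nonneg (sq_nonneg _) (mul_nonneg (χ0 _)
            (div_nonneg q0 u0.le)))) (div_nonneg (mul_nonneg (sq_nonneg _)
            (sub_nonneg.2 (good (r, y) hr h _))) (sqrt_nonneg _))
        · rw [mul_div_assoc, ← mul_neg]
          refine mul_le_mul_of_nonneg_left ?_ (sq_nonneg _)
          rw [sub_div]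
          have b1 := div_nonneg (mul_nonneg (k0 r (Ioo_subset_Icc_self hr))
            (dot_self_nonneg (vv φ w f (r, y)))) n0.le
          have b2 := div_le_div_of_nonneg_left q0 u0 (mean_le_Nf (c r) (r, y))
          have b3 := le_mul_of_one_le_left (div_nonneg q0 u0.le) h
          unfold Nf at b1 b2
          linarith
  simp only [intervalIntegral.integral_zero, exp_zero, one_mul] at this
  exact this

end Crest.Agent.T157.Q1

end
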