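import Crest.Agent.T157.QeM_11

/-!
# Row 157, part A2 (helper11): the form inequality (HA)

Under the planted tilt, conditionally on `W p`, on a rigid spectrum
`W + (1 - η) g g' ≤ 2 + ε q²`, `g = u - m e`, off probability `exp(K log n + E/2 - ε⁹ q² n / 64)`.
-/

set_option autoImplicit false

noncomputable section

namespace Crest.Agent.T157.Qe

open Matrix Finset MeasureTheory Set
open scoped ENNReal
open Crest.Agent.T157.E Crest.Agent.T157.Cond Crest.Agent.T157.Dq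
open Crest.Agent.T157.Conc (ex ex_add ex_mono ex_zero ex_ne_top measurable_ex)

variable {n : ℕ}

namespace M11

/-- any deterministic consequence of the tilt event and the isotropic event -/
theorem evCore : ∃ K : ℕ, ∀ (n : ℕ) (Cw ε d q E : ℝ) (e c τ u : V n) (S : Set (Mx n))
    (Q : Mx n → Prop), Par n ε q → 0 ≤ Cw → 1100 * (1 + Cw) * q ≤ ε ^ 3 → ε ^ 3 ≤ d → d ≤ 1 / 3 →
    0 ≤ E → WS ε q E Cw S → (∀ W ∈ S, (zz (gg ε q) • (1 : Mx n) - W)⁻¹.trace ≤ (1 + d) * n) →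
    FS ε q e c τ → u ⬝ᵥ u ≤ 1 →
    (∀ X : Mx n, Xᵀ = X → X *ᵥ e = c → Le (X + Tm ε q τ) (zz (gg ε q) • (1 : Mx n)) →
      (∀ v, ((P3 e c τ *ᵥ u) ⬝ᵥ v) ^ 2 ≤
        (1 + 3 * d) * (v ⬝ᵥ (zz (gg ε q) • (1 : Mx n) - X) *ᵥ v)) → Q X) →
    GOE n {W | Wm e c τ W ∈ S ∧ ¬ Q (Wm e c τ W)} ≤
      ex (K * Real.log n + E / 2 - ε ^ 9 * q ^ 2 * n / 64) := by
  obtain ⟨K, hK⟩ := tiGlue qsStmt
  refine ⟨K + 1, fun n Cw ε d q E e c τ u S Q hp hCw hq hd1 d1 hE hW htr hF hu hQ => ?_⟩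
  have hT := hK n ε q E Cw e c τ S hp hCw hq hW hF
  have h0 := hp.e0
  have h1 := hp.e1
  have h2 := hp.q0
  have hn8 : (8 : ℝ) ≤ n := by exact_mod_cast hp.n8
  have e3 : 0 < ε ^ 3 := by positivity
  have hd : 0 < d := by linarith
  have hn : 6 ≤ d * n := by
    have i1 : n * ε * q ≤ n * 1 * (d / 1100) := by
      gcongr
      · linarith
      · nlinarith
    linarith [hp.nq]
  have hP := proj_P3 hF.unit c τ
  have hA := TT_avg hp.n8 hF.unit hW.meas hW.inv (hP.mulVec_mulVec u) fun X hX =>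
    one hp hW hCw hP (trace_P3 hF.unit c τ) d1 hn (by nlinarith) hX (htr X hX)
  have hsub : {W | Wm e c τ W ∈ S ∧ ¬ Q (Wm e c τ W)} ⊆
      {W | Wm e c τ W ∈ S ∧ ¬ Le (Wm e c τ W + Tm ε q τ) (zz (gg ε q) • (1 : Mx n))} ∪
        TT (zz (gg ε q)) (1 + 3 * d) e c τ S (P3 e c τ *ᵥ u) := by
    rintro W ⟨w1, w2⟩
    by_contra hc
    rw [Set.mem_union, not_or] at hc
    obtain ⟨a, hd', ha, -, -⟩ := hW.sp _ w1
    obtain ⟨-, -, hz0, -⟩ := Ti61.consts hp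
    have e6 : 0 < ε ^ 4 * q ^ 2 := by positivity
    have haz : ∀ i, a i < zz (gg ε q) := fun i => by linarith [(ha i).2]
    refine w2 (hQ _ hd'.symm (glue_e hF.unit c _) (by_contra fun h => hc.1 ⟨w1, h⟩) fun v => ?_)
    have c1 := not_lt.1 fun h => hc.2 ⟨w1, h⟩
    have c2 := Ti61.psd_cs (Ti61.symm_of hd' _) (Ti61.psd_of hd' fun i => (haz i).le) v
      ((zz (gg ε q) • (1 : Mx n) - Wm e c τ W)⁻¹ *ᵥ (P3 e c τ *ᵥ u))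
    rw [mulVec_mulVec, (Ti61.dg_inv hd' haz).2, one_mulVec, dotProduct_comm v,
      dotProduct_comm (_ *ᵥ (P3 e c τ *ᵥ u))] at c2
    have c3 := Ti61.psd_of hd' (fun i => (haz i).le) v
    have c4 := (hP.dot_le u).trans hu
    have c5 := c1.trans (mul_le_of_le_one_right (by linarith) c4)
    exact c2.trans ((mul_le_mul_of_nonneg_left c5 c3).trans_eq (mul_comm _ _))
  have c1 : 0 ≤ (K : ℝ) * Real.log n := mul_nonneg (Nat.cast_nonneg _) (Real.log_natCast_nonneg n)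
  have c2 : ε ^ 9 * q ^ 2 * n / 64 ≤ d * ε ^ 4 * q ^ 2 * n / 16 := by
    have i1 : ε ^ 5 ≤ d := (pow_le_pow_of_le_one h0.le (by linarith) (by norm_num)).trans hd1
    have i2 : 0 < ε ^ 4 * q ^ 2 * n := by positivity
    nlinarith [mul_le_mul_of_nonneg_right i1 i2.le, mul_pos hd i2]
  refine (measure_mono hsub).trans ((measure_union_le _ _).trans ?_)
  obtain ⟨x, hx⟩ : ∃ x, x = K * Real.log n + E / 2 - ε ^ 9 * q ^ 2 * n / 64 := ⟨_, rfl⟩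
  rw [← hx] at hT
  have g2 := hA.trans (mul_le_mul_right (ex_mono (v := x) (by rw [hx]; linarith)) 2)
  refine (add_le_add hT g2).trans ?_
  have g3 : (3 : ℝ≥0∞) ≤ ex (Real.log n) := by
    rw [ex, Real.exp_log (by linarith), ← ENNReal.ofReal_ofNat]
    exact ENNReal.ofReal_le_ofReal (by linarith)
  calc ex x + 2 * ex x = 3 * ex x := by ring
    _ ≤ ex (Real.log n) * ex x := mul_le_mul_left g3 _
    _ = _ := by rw [← ex_add, hx]; congr 1; push_cast; ring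

variable {ε q d : ℝ} {e c τ : V n}

/-- the scalar bounds for (HA) -/
lemma scalH {C N S0 η B L μ β ν a1 a2 a3 m : ℝ} (hC : 1 ≤ C)
    (hq : 0 < q) (hd : 0 < d) (d1 : 10 ^ 4 * C ^ 2 * d ≤ 1) (hqd : 20 * C ^ 5 * q ≤ d) (hN : 0 < N)
    (s1 : q / C ≤ S0) (s2 : S0 ≤ C * q) (s3 : |B - S0| ≤ d * S0) (η0 : 0 ≤ η) (η1 : η ≤ 2 * q ^ 2)
    (hL : N / 4 ≤ L) (u5 : β ^ 2 ≤ C * q ^ 3 * N) (hμ : μ ^ 2 ≤ C * q ^ 2)
    (hν : ν ^ 2 ≤ d * q ^ 2 * N) (hm : (m - μ) ^ 2 ≤ d * q ^ 2)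
    (e1 : a1 * B = μ) (e3 : a3 * B = β) (e2 : a2 * L = ν - a3 * μ) :
    (a1 - a2 * a3) ^ 2 * (S0 + η) ≤ d ∧ a2 ^ 2 * N ≤ 64 * d * q ^ 2 ∧
      ((a1 - a2 * a3) * (S0 + η) - m) ^ 2 ≤ 9 * d * q ^ 2 := by
  have C0 : 0 < C := by linarith
  have C2 : 1 ≤ C ^ 2 := one_le_pow₀ hC
  have C3 : 1 ≤ C ^ 3 := one_le_pow₀ hC
  have d2 : d ≤ 1 / 10 ^ 4 := by linarith [mul_le_mul_of_nonneg_right C2 hd.le]
  have d3 : C * d ≤ 1 / 10 ^ 4 := by linarith [pw_le hC (show 1 ≤ 2 by norm_num) hd]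
  have q4 : C ^ 4 * q ≤ d / 20 := by linarith [pw_le hC (show 4 ≤ 5 by norm_num) hq]
  have q1 : C * q ≤ d / 20 := by linarith [pw_le hC (show 1 ≤ 5 by norm_num) hq]
  have q0 : q ≤ d / 20 := by linarith [pw_le hC (show 0 ≤ 5 by norm_num) hq]
  obtain ⟨B3, S2, S1, i1⟩ := scalB hC hq hd d2 q1 s1 s2 s3 η0 η1
  obtain ⟨A1, A2, A23⟩ := scalA C0 hq hd hN q4 B3 hL u5 hμ hν e1 e3 e2
  have q2 : 0 < q ^ 2 := by positivity
  have q3 : q ^ 3 ≤ 1 := pow_le_one₀ hq.le (by linarith)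
  have A4 : (a1 - a2 * a3) ^ 2 ≤ 10 * C ^ 3 := by
    have i1 : 256 * C ^ 3 * d * q ^ 3 ≤ 256 * C ^ 3 * (1 / 10 ^ 4) * 1 := by gcongr
    linarith [sq_nonneg (a1 + a2 * a3)]
  refine ⟨?_, A2, ?_⟩
  · calc _ ≤ (10 * C ^ 3) * (2 * C * q) := by gcongr
      _ = 20 * (C ^ 4 * q) := by ring
      _ ≤ _ := by linarith
  · have T2 : (a1 * (S0 + η) - μ) ^ 2 ≤ d * q ^ 2 := by
      calc _ = a1 ^ 2 * (S0 + η - B) ^ 2 := by rw [← e1]; ring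
        _ ≤ a1 ^ 2 * (4 * d * B) ^ 2 := by gcongr
        _ = 16 * d ^ 2 * μ ^ 2 := by rw [← e1]; ring
        _ ≤ 16 * d ^ 2 * (C * q ^ 2) := by gcongr
        _ = 16 * (C * d) * (d * q ^ 2) := by ring
        _ ≤ 16 * (1 / 10 ^ 4) * (d * q ^ 2) := by gcongr
        _ ≤ _ := by linarith [mul_pos hd q2]
    have T3 : (a2 * a3 * (S0 + η)) ^ 2 ≤ d * q ^ 2 := by
      calc _ = (a2 * a3) ^ 2 * (S0 + η) ^ 2 := by ring
        _ ≤ (256 * C ^ 3 * d * q ^ 3) * (2 * C * q) ^ 2 := by gcongr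
        _ = 1024 * (C ^ 5 * q) * q * q * (d * q ^ 2) := by ring
        _ ≤ 1024 * (1 / 10 ^ 4) * 1 * 1 * (d * q ^ 2) := by gcongr <;> linarith
        _ ≤ _ := by linarith [mul_pos hd q2]
    have e : (a1 - a2 * a3) * (S0 + η) - m =
        (a1 * (S0 + η) - μ) - a2 * a3 * (S0 + η) - (m - μ) := by ring
    rw [e]
    generalize a1 * (S0 + η) - μ = x at *
    generalize a2 * a3 * (S0 + η) = y at *
    generalize m - μ = w at *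
    linarith [sq_nonneg (x + y), sq_nonneg (x + w), sq_nonneg (y - w)]

lemma four {η d ε Y a x y w r : ℝ} (h0 : 0 < η) (h1 : η ≤ 1) (hd : 0 < d) (_ : 0 < ε) (hε1 : ε ≤ 1)
    (h : 10 ^ 4 * d ≤ ε * η) (h' : 10 ^ 4 * d ≤ η ^ 2) (hY : 0 ≤ Y) (ha : 0 ≤ a) (hx : x ^ 2 ≤ (1 + 3 * d) * Y)
    (hy : y ^ 2 ≤ d * Y) (hw : w ^ 2 ≤ 64 * d * Y) (hr : r ^ 2 ≤ 9 * d * a) :
    (1 - η) * (x - y + w + r) ^ 2 ≤ Y + ε / 2 * a := by
  have i1 : η * (x - y + w + r) ^ 2 ≤ η * (1 + η / 2) * x ^ 2 + (η + 2) * (w - y + r) ^ 2 := by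
    linarith [sq_nonneg (η * x - 2 * (w - y + r))]
  have i2 : (w - y + r) ^ 2 ≤ 195 * d * Y + 27 * d * a := by
    linarith [sq_nonneg (w + y), sq_nonneg (w - r), sq_nonneg (y + r)]
  have i3 : (η + 2) * (w - y + r) ^ 2 ≤ 3 * (195 * d * Y + 27 * d * a) :=
    mul_le_mul (by linarith) i2 (sq_nonneg _) (by norm_num)
  have i4 : η * (1 + η / 2) * x ^ 2 ≤ η * (1 + η / 2) * ((1 + 3 * d) * Y) := by gcongr
  have d1 : 10 ^ 4 * d ≤ η := h.trans (mul_le_of_le_one_left h0.le hε1)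
  refine le_of_mul_le_mul_left ?_ h0
  have i5 : (1 - η) * (η * (x - y + w + r) ^ 2) ≤ (1 - η) * (η * (1 + η / 2) * ((1 + 3 * d) * Y)) +
      (1 - η) * (3 * (195 * d * Y + 27 * d * a)) := by
    rw [← mul_add]
    exact mul_le_mul_of_nonneg_left (by linarith) (by linarith)
  have i6 : (1 - η) * (3 * (195 * d * Y + 27 * d * a)) ≤ 3 * (195 * d * Y + 27 * d * a) :=
    mul_le_of_le_one_left (by positivity) (by linarith)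
  have i7 : (1 - η) * (1 + η / 2) * (1 + 3 * d) ≤ 1 - η / 4 := by
    have j1 : (1 - η) * (1 + η / 2) ≤ 1 - η / 2 := by nlinarith
    calc _ ≤ (1 - η / 2) * (1 + 3 * d) := by gcongr
      _ ≤ _ := by nlinarith
  have i8 : η * Y * ((1 - η) * (1 + η / 2) * (1 + 3 * d)) ≤ η * Y * (1 - η / 4) := by gcongr
  have i9 := mul_le_mul_of_nonneg_right h' hY
  have i10 := mul_le_mul_of_nonneg_right h ha
  have i11 := mul_nonneg hd.le hY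
  have i12 := mul_nonneg hd.le ha
  linarith

/-- the deterministic step of (HA) -/
lemma detH {C m η : ℝ} {u : V n} {X : Mx n} (hp : Par n ε q) (hC : 1 ≤ C) (hd : 0 < d)
    (η0 : 0 < η) (η1 : η ≤ 1) (hdε : 10 ^ 4 * C ^ 2 * d ≤ ε * η) (hdη : 10 ^ 4 * d ≤ η ^ 2)
    (hqd : 20 * C ^ 5 * q ≤ d) (hF : FS ε q e c τ)
    (h4 : S4 C d q 0 0 0 e c τ u) (hm : (m - u ⬝ᵥ bv e c) ^ 2 ≤ d * q ^ 2) (hX : Xᵀ = X)
    (hXe : X *ᵥ e = c) (hT : Le (X + Tm ε q τ) (zz (gg ε q) • (1 : Mx n)))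
    (hf : ∀ v, ((P3 e c τ *ᵥ u) ⬝ᵥ v) ^ 2 ≤
      (1 + 3 * d) * (v ⬝ᵥ (zz (gg ε q) • (1 : Mx n) - X) *ᵥ v)) :
    Le (X + (1 - η) • vecMulVec (u - m • e) (u - m • e)) ((2 + ε * q ^ 2) • (1 : Mx n)) := by
  obtain ⟨hx, hx1, hz0, -⟩ := Ti61.consts hp
  have h0 := hp.e0
  have h1 := hp.e1
  have h2 := hp.q0
  have hn8 : (8 : ℝ) ≤ n := by exact_mod_cast hp.n8
  have q2 : 0 < q ^ 2 := by positivity
  have hz1 : zz (gg ε q) ≤ 2 + 2 * (ε ^ 2 * q) ^ 2 := by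
    rw [Ti61.zz_eq (by unfold gg; linarith), gg, sub_sub_cancel, add_le_add_iff_left,
      div_le_iff₀ (by linarith)]
    nlinarith [sq_nonneg (ε ^ 2 * q)]
  have e4 : (ε ^ 2 * q) ^ 2 ≤ ε / 4 * q ^ 2 := by
    have : ε ^ 3 ≤ 1 / 4 := (pow_le_pow_left₀ h0.le h1 3).trans (by norm_num)
    calc _ = ε ^ 3 * (ε * q ^ 2) := by ring
      _ ≤ 1 / 4 * (ε * q ^ 2) := by gcongr
      _ = _ := by ring
  have e5 : ε / 4 * q ^ 2 ≤ 1 * q ^ 2 := by gcongr; linarith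
  have e6 : 0 < ε ^ 4 * q ^ 2 := by positivity
  obtain ⟨z, hz⟩ : ∃ z, z = zz (gg ε q) := ⟨_, rfl⟩
  have hpos := hF.pos
  rw [← hz] at hz0 hz1 hT hf hpos
  have C0 : 0 < C := by linarith
  have S00 : 0 < 2 - e ⬝ᵥ c := lt_of_lt_of_le (by positivity) h4.s1
  have εη : ε * η ≤ 1 := by nlinarith
  have d0 : d ≤ C ^ 2 * d := by linarith [pw_le hC (show 0 ≤ 2 by norm_num) hd]
  have d1 : d ≤ 1 / 2 := by linarith
  have hB : 0 < bv e c ⬝ᵥ bv e c := by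
    linarith [(abs_le.1 h4.s3).1, mul_le_mul_of_nonneg_right d1 S00.le]
  obtain ⟨a1, a2, a3, L, hL, e1, e3, e2, hu⟩ := dec hF h4.orth hB (by linarith [hp.n8])
  have T0 : 0 < τ ⬝ᵥ τ := by linarith [hF.t1]
  obtain ⟨k1, k2, k3⟩ := scalH (η := z - 2) hC h2 hd (by linarith) hqd (by linarith) h4.s1 h4.s2
    h4.s3 (by linarith) (by linarith) hL h4.u5 h4.b2 h4.ut hm e1 e3 e2
  intro v
  obtain ⟨A, hA⟩ : ∃ A, A = a1 - a2 * a3 := ⟨_, rfl⟩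
  obtain ⟨α, hα⟩ : ∃ α, α = e ⬝ᵥ v := ⟨_, rfl⟩
  obtain ⟨f, hfe⟩ : ∃ f, f = P3 e c τ *ᵥ u := ⟨_, rfl⟩
  obtain ⟨S, hS⟩ : ∃ S, S = z - e ⬝ᵥ c := ⟨_, rfl⟩
  rw [← hA, show 2 - e ⬝ᵥ c + (z - 2) = S by rw [hS]; ring] at k1 k3
  rw [← hA] at hu
  rw [← hfe] at hu hf
  rw [← hS] at hpos
  have hs : (z • (1 : Mx n) - X)ᵀ = z • (1 : Mx n) - X := by
    rw [transpose_sub, transpose_smul, transpose_one, hX]
  have hk : 0 < q ^ 2 / ε / (τ ⬝ᵥ τ) := by positivity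
  have hT' : ∀ w : V n, q ^ 2 / ε / (τ ⬝ᵥ τ) * (τ ⬝ᵥ w) ^ 2 ≤ w ⬝ᵥ (z • (1 : Mx n) - X) *ᵥ w :=
    fun w => by
      have f2 := hT w
      rw [qf_add, Tm, Ti61.quad_vmv] at f2
      rw [qf_sub]; linarith
  have hP : Le 0 (z • (1 : Mx n) - X) := fun w => by
    rw [qf_zero]; exact le_trans (by positivity) (hT' w)
  have hvc : v ⬝ᵥ c = (e ⬝ᵥ c) * α + bv e c ⬝ᵥ v := by
    rw [bv, R1_mulVec, sub_dotProduct, smul_dotProduct, smul_eq_mul, ← hα, dotProduct_comm]; ring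
  have cs := qf_cs hs hP v e
  have f1 := hf v
  have f2 := hT' v
  have Y0 := hP v
  rw [qf_zero] at Y0
  obtain ⟨Y, hY⟩ : ∃ Y, Y = v ⬝ᵥ (z • (1 : Mx n) - X) *ᵥ v := ⟨_, rfl⟩
  rw [← hY] at cs f1 f2 Y0
  have c1 : v ⬝ᵥ (z • (1 : Mx n) - X) *ᵥ e = S * α - bv e c ⬝ᵥ v := by
    rw [qf_sub, qf_smul, qf_one, hXe, hvc, dotProduct_comm v e, ← hα, hS]; ring
  have c2 : e ⬝ᵥ (z • (1 : Mx n) - X) *ᵥ e = S := by
    rw [qf_sub, qf_smul, qf_one, hXe, hF.unit, hS, mul_one]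
  rw [c1, c2] at cs
  have g1 : (A * (S * α - bv e c ⬝ᵥ v)) ^ 2 ≤ d * Y := by
    calc _ = A ^ 2 * (S * α - bv e c ⬝ᵥ v) ^ 2 := by ring
      _ ≤ A ^ 2 * (Y * S) := by gcongr
      _ = A ^ 2 * S * Y := by ring
      _ ≤ _ := by gcongr
  have g2 : (a2 * (τ ⬝ᵥ v)) ^ 2 ≤ 64 * d * Y := by
    have j1 : a2 ^ 2 * (τ ⬝ᵥ τ) ≤ 64 * d * q ^ 2 :=
      (mul_le_mul_of_nonneg_left hF.t2 (sq_nonneg _)).trans k2
    calc _ = a2 ^ 2 * (τ ⬝ᵥ τ) * (ε / q ^ 2) * (q ^ 2 / ε / (τ ⬝ᵥ τ) * (τ ⬝ᵥ v) ^ 2) := by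
          field_simp
      _ ≤ 64 * d * q ^ 2 * (1 / q ^ 2) * Y := by gcongr; linarith
      _ = _ := by field_simp
  have g3 : ((A * S - m) * α) ^ 2 ≤ 9 * d * (q ^ 2 * α ^ 2) := by
    calc _ = (A * S - m) ^ 2 * α ^ 2 := by ring
      _ ≤ 9 * d * q ^ 2 * α ^ 2 := by gcongr
      _ = _ := by ring
  have g4 := four η0 η1 hd h0 (by linarith) (by linarith) hdη Y0 (by positivity) f1 g1 g2 g3
  have huv : (u - m • e) ⬝ᵥ v = f ⬝ᵥ v - A * (S * α - bv e c ⬝ᵥ v) + a2 * (τ ⬝ᵥ v) +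
      (A * S - m) * α := by
    conv_lhs => rw [hu]
    simp only [add_dotProduct, sub_dotProduct, smul_dotProduct, smul_eq_mul, ← hα]; ring
  have hN : α ^ 2 ≤ v ⬝ᵥ v := by
    have := dot_self_nonneg (v - α • e)
    simp only [sub_dotProduct, dotProduct_sub, smul_dotProduct, dotProduct_smul, smul_eq_mul,
      hF.unit, dotProduct_comm v e, ← hα] at this
    linarith
  have g5 := mul_le_mul_of_nonneg_left hN (show 0 ≤ 2 + ε * q ^ 2 - z by linarith)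
  have g6 := mul_le_mul_of_nonneg_right (show ε * q ^ 2 / 2 ≤ 2 + ε * q ^ 2 - z by linarith)
    (sq_nonneg α)
  rw [qf_sub, qf_smul, qf_one] at hY
  rw [qf_add, Ti61.quad_vmv, huv, qf_smul, qf_one]
  linarith

end M11

open M11 in
/-- **(HA), conditional form** -/
theorem haCore : ∃ K : ℕ, ∀ (n : ℕ) (C Cw ε d q E m η : ℝ) (e c τ u : V n) (S : Set (Mx n)),
    Par n ε q → 1 ≤ C → 0 ≤ Cw → 1100 * (1 + Cw) * q ≤ ε ^ 3 → ε ^ 3 ≤ d → 0 < η → η ≤ 1 →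
    10 ^ 4 * C ^ 2 * d ≤ ε * η → 10 ^ 4 * d ≤ η ^ 2 → 20 * C ^ 5 * q ≤ d → 0 ≤ E → WS ε q E Cw S →
    (∀ W ∈ S, (zz (gg ε q) • (1 : Mx n) - W)⁻¹.trace ≤ (1 + d) * n) →
    FS ε q e c τ → S4 C d q 0 0 0 e c τ u → (m - u ⬝ᵥ bv e c) ^ 2 ≤ d * q ^ 2 →
    GOE n {W | Wm e c τ W ∈ S ∧ ¬ Le (Wm e c τ W + (1 - η) • vecMulVec (u - m • e) (u - m • e))
      ((2 + ε * q ^ 2) • (1 : Mx n))} ≤ ex (K * Real.log n + E / 2 - ε ^ 9 * q ^ 2 * n / 64) := by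
  obtain ⟨K, h⟩ := evCore
  refine ⟨K, fun n C Cw ε d q E m η e c τ u S hp hC hCw hq h1 η0 η1 h2 h3 h4 hE hW htr hF hS hm =>
    h n Cw ε d q E e c τ u S (fun X => Le (X + (1 - η) • vecMulVec (u - m • e) (u - m • e))
      ((2 + ε * q ^ 2) • (1 : Mx n))) hp hCw hq h1 (by nlinarith) hE hW htr hF hS.unit
      fun X x1 x2 x3 x4 => detH hp hC (lt_of_lt_of_le (pow_pos hp.e0 3) h1) η0 η1 h2 h3 h4 hF hS hm
        x1 x2 x3 x4⟩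

/-- **(HA), planted form** -/
theorem haPt : ∃ K : ℕ, ∀ (n : ℕ) (C Cw ε d q E m η : ℝ) (p s u : V n) (S : Set (Mx n))
    (F : V n → ℝ≥0∞),
    Par n ε q → 1 ≤ C → 0 ≤ Cw → 1100 * (1 + Cw) * q ≤ ε ^ 3 → ε ^ 3 ≤ d → 0 < η → η ≤ 1 →
    10 ^ 4 * C ^ 2 * d ≤ ε * η → 10 ^ 4 * d ≤ η ^ 2 → 20 * C ^ 5 * q ≤ d → 0 ≤ E → WS ε q E Cw S →
    (∀ W ∈ S, (zz (gg ε q) • (1 : Mx n) - W)⁻¹.trace ≤ (1 + d) * n) → p ≠ 0 → Measurable F →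
    (∀ b, F b ≠ 0 → FS ε q (unitv p) ((len p)⁻¹ • b) (bv (unitv p) s) ∧
      S4 C d q 0 0 0 (unitv p) ((len p)⁻¹ • b) (bv (unitv p) s) u ∧
      (m - u ⬝ᵥ bv (unitv p) ((len p)⁻¹ • b)) ^ 2 ≤ d * q ^ 2) →
    ∫⁻ W in {W | W ∈ S ∧ ¬ Le (W + (1 - η) • vecMulVec (u - m • unitv p) (u - m • unitv p))
        ((2 + ε * q ^ 2) • (1 : Mx n))}, ex (s ⬝ᵥ W *ᵥ s / 2) * F (W *ᵥ p) ∂GOE n ≤
      ex (K * Real.log n + E / 2 - ε ^ 9 * q ^ 2 * n / 64) *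
        ∫⁻ W, ex (s ⬝ᵥ W *ᵥ s / 2) * F (W *ᵥ p) ∂GOE n := by
  obtain ⟨K, h⟩ := haCore
  refine ⟨K, fun n C Cw ε d q E m η p s u S F hp hC hCw hq h1 η0 η1 h2 h3 h4 hE hW htr hp0 hF hS => ?_⟩
  refine Pt66.planted p s (hW.meas.inter (measurableSet_le (by fun_prop) measurable_const).compl) hF
    fun c hc => ?_
  have hl : len p ≠ 0 := fun h => hp0 (len_eq_zero.1 h)
  have h5 := hS _ hc
  rw [smul_smul, inv_mul_cancel₀ hl, one_smul] at h5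
  exact h n C Cw ε d q E m η _ c _ u S hp hC hCw hq h1 η0 η1 h2 h3 h4 hE hW htr h5.1 h5.2.1 h5.2.2

end Crest.Agent.T157.Qe

end
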