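import Crest.Agent.T157.QeA_24
import Crest.Agent.T157.QeTi_61
import Crest.Agent.T157.QePt_66
import Crest.Agent.T157.QeQs_98

/-!
# Row 157, part A2 (helper11): the rank-two condition of (M1), replacing (B4)

Under the planted tilt, conditionally on `W p`, on a rigid spectrum
`W ≤ 2 + ε q² + b₁₁ e e' + b₁₂ (e u' + u e') + b₂₂ u u'` off probability
`exp(K log n + E/2 - ε⁹ q² n / 64)`.
-/

set_option autoImplicit false

noncomputable section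

namespace Crest.Agent.T157.Qe

open Matrix Finset MeasureTheory Set
open scoped ENNReal
open Crest.Agent.T157.E Crest.Agent.T157.Cond Crest.Agent.T157.Dq
open Crest.Agent.T157.Conc (ex ex_add ex_mono ex_zero ex_ne_top measurable_ex)

variable {n : ℕ}

/-- the rank-two matrix on `span (e, u)` -/
def B2 (b11 b12 b22 : ℝ) (e u : V n) : Mx n :=
  b11 • vecMulVec e e + b12 • (vecMulVec e u + vecMulVec u e) + b22 • vecMulVec u u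

/-- the scalar statistics used by the rank-two condition -/
structure S4 (C δ q b11 b12 b22 : ℝ) (e c τ u : V n) : Prop where
  orth : e ⬝ᵥ u = 0
  unit : u ⬝ᵥ u ≤ 1
  s1 : q / C ≤ 2 - e ⬝ᵥ c
  s2 : 2 - e ⬝ᵥ c ≤ C * q
  s3 : |bv e c ⬝ᵥ bv e c - (2 - e ⬝ᵥ c)| ≤ δ * (2 - e ⬝ᵥ c)
  u5 : (bv e c ⬝ᵥ τ) ^ 2 ≤ C * q ^ 3 * n
  b1 : b12 ^ 2 ≤ C * q ^ 2
  b2 : (u ⬝ᵥ bv e c) ^ 2 ≤ C * q ^ 2
  b3 : 0 ≤ b22
  m : -(δ * q ^ 2) ≤ b11 + 2 * b12 * (u ⬝ᵥ bv e c) - b12 ^ 2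
  ut : (u ⬝ᵥ τ) ^ 2 ≤ δ * q ^ 2 * n

lemma S4.mono {C C' δ δ' q b11 b12 b22 : ℝ} {e c τ u : V n} (h : S4 C δ q b11 b12 b22 e c τ u)
    (hq : 0 ≤ q) (h0 : 0 < C) (hC : C ≤ C') (hδ : δ ≤ δ') : S4 C' δ' q b11 b12 b22 e c τ u := by
  have hn : (0 : ℝ) ≤ n := Nat.cast_nonneg n
  have h1 : 0 ≤ 2 - e ⬝ᵥ c := le_trans (by positivity) h.s1
  exact ⟨h.orth, h.unit, le_trans (div_le_div_of_nonneg_left hq h0 hC) h.s1,
    h.s2.trans (by gcongr), h.s3.trans (by gcongr), h.u5.trans (by gcongr), h.b1.trans (by gcongr),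
    h.b2.trans (by gcongr), h.b3, le_trans (neg_le_neg (by gcongr)) h.m, h.ut.trans (by gcongr)⟩

namespace M11

lemma dg_sq {M : Mx n} {m : V n} (h : Dg M m) : (M * M).trace = ∑ i, m i ^ 2 := by
  obtain ⟨O, hO, rfl⟩ := h
  have hO' : Oᵀ * O = 1 := mul_eq_one_comm.1 hO
  refine dg_trace ⟨O, hO, ?_⟩
  calc O * diagonal m * Oᵀ * (O * diagonal m * Oᵀ)
      = O * (diagonal m * (Oᵀ * O) * diagonal m) * Oᵀ := by simp only [Matrix.mul_assoc]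
    _ = _ := by
      rw [hO', Matrix.mul_one, diagonal_mul_diagonal]
      simp only [sq]

/-- Gaussian Chernoff bound of a quadratic form -/
lemma chern {M : Mx n} (hM : Mᵀ = M) {l ρ : ℝ} (hl : 0 < l) (h1 : Le M (ρ • (1 : Mx n)))
    (h2 : l * ρ ≤ 1 / 2) : gv (Fin n) {g | 0 < g ⬝ᵥ M *ᵥ g} ≤
      ex (l * M.trace / 2 + l ^ 2 * (M * M).trace) := by
  obtain ⟨m, hm⟩ := dg_symm hM
  have hx : ∀ i, l * m i ≤ 1 / 2 := fun i =>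
    (mul_le_mul_of_nonneg_left (le_dg hm h1 i) hl.le).trans h2
  have hN := gi_dg (dg_affine hm (-l) 1) fun i => by linarith [hx i]
  have hmk := mul_meas_ge_le_lintegral₀ (μ := gv (Fin n))
    (f := fun x => ex ((x ⬝ᵥ x - x ⬝ᵥ ((-l) • M + (1 : ℝ) • (1 : Mx n)) *ᵥ x) / 2))
    (Measurable.aemeasurable (by fun_prop)) 1
  rw [one_mul] at hmk
  refine le_trans (measure_mono fun g hg => ?_) (hmk.trans (le_of_eq_of_le hN (ex_mono ?_)))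
  · simp only [Set.mem_ofPred_eq] at hg ⊢
    rw [← ex_zero]
    refine ex_mono ?_
    rw [qf_add, qf_smul, qf_smul, qf_one]
    nlinarith [mul_pos hl hg]
  · rw [dg_sq hm, dg_trace hm, mul_sum, mul_sum, ← sum_neg_distrib, sum_div, sum_div,
      ← sum_add_distrib]
    refine sum_le_sum fun i _ => ?_
    have h3 := hx i
    have h4 : 0 < -l * m i + 1 := by linarith
    have h5 := Real.one_sub_inv_le_log_of_pos h4
    have h6 : (-l * m i + 1)⁻¹ ≤ 1 + l * m i + 2 * (l * m i) ^ 2 := by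
      rw [inv_le_iff_one_le_mul₀ h4]
      nlinarith [mul_nonneg (sq_nonneg (l * m i)) (sub_nonneg.2 h3)]
    nlinarith

lemma fro_proj {P : Mx n} (hP : IsProj P) (Y : Mx n) :
    ((P * Y)ᵀ * (P * Y)).trace ≤ (Yᵀ * Y).trace := by
  have e : ∀ Z : Mx n, (Zᵀ * Z).trace = ∑ j, (fun i => Z i j) ⬝ᵥ fun i => Z i j := fun Z => rfl
  rw [e, e]
  exact sum_le_sum fun j _ => hP.dot_le fun i => Y i j

lemma fro_pxp {P X : Mx n} (hP : IsProj P) (hX : Xᵀ = X) :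
    (P * X * P * (P * X * P)).trace ≤ (X * X).trace := by
  have h1 := fro_proj hP (X * P)
  have h2 := fro_proj hP X
  simp only [transpose_mul, hP.symm, hX] at h1 h2
  rw [trace_mul_comm (P * X)] at h1
  simp only [Matrix.mul_assoc] at h1 h2 ⊢
  exact h1.trans h2

lemma tr_pxp {P R : Mx n} (hP : IsProj P) (hR : Le 0 R) : (P * R * P).trace ≤ R.trace := by
  have e : ∀ Q : Mx n, IsProj Q → (Q * R * Q).trace = (R * Q).trace := fun Q hQ => by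
    rw [trace_mul_cycle, hQ.idem, trace_mul_comm]
  have h1 : 0 ≤ ((1 - P) * R * (1 - P)).trace := sum_nonneg fun i _ => by
    have h2 := hR ((1 - P) *ᵥ Pi.single i 1)
    rw [qf_zero, ← qf_proj hP.compl] at h2
    simpa using h2
  rw [e _ hP.compl, Matrix.mul_sub, Matrix.mul_one, trace_sub, ← e _ hP] at h1
  linarith

lemma measurable_res (z : ℝ) : Measurable fun X : Mx n => (z • (1 : Mx n) - X)⁻¹ := by
  have hc : Continuous fun X : Mx n => z • (1 : Mx n) - X := continuous_const.sub continuous_id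
  simp only [Matrix.inv_def, Ring.inverse_eq_inv']
  exact Measurable.t157_smul hc.matrix_det.measurable.inv hc.matrix_adjugate.measurable

lemma wm_conj {O : Mx n} (hO : O * Oᵀ = 1) {e c τ : V n} (h1 : O *ᵥ e = e) (h2 : O *ᵥ c = c)
    (h3 : O *ᵥ τ = τ) (W : Mx n) : Wm e c τ (O * W * Oᵀ) = O * Wm e c τ W * Oᵀ := by
  rw [Wm, Wm, ← glue_conj hO h1 h2, Matrix.mul_add O, Matrix.add_mul, Matrix.mul_smul,
    Matrix.smul_mul, conj_vmv, h3]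

/-- the isotropic event in the direction `v` -/
def TT (z k : ℝ) (e c τ : V n) (S : Set (Mx n)) (v : V n) : Set (Mx n) :=
  {W | Wm e c τ W ∈ S ∧ k * (v ⬝ᵥ v) < v ⬝ᵥ (z • (1 : Mx n) - Wm e c τ W)⁻¹ *ᵥ v}

lemma TT_le {z k : ℝ} {e c τ : V n} {S : Set (Mx n)} (he : e ⬝ᵥ e = 1)
    (hS : ∀ O W : Mx n, O * Oᵀ = 1 → W ∈ S → O * W * Oᵀ ∈ S) {f v : V n}
    (hf : P3 e c τ *ᵥ f = f) (hv : P3 e c τ *ᵥ v = v) (h0 : 0 < v ⬝ᵥ v) :
    GOE n (TT z k e c τ S f) ≤ GOE n (TT z k e c τ S v) := by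
  obtain ⟨r, hr⟩ : ∃ r : ℝ, r ^ 2 * (v ⬝ᵥ v) = f ⬝ᵥ f :=
    ⟨√(f ⬝ᵥ f / (v ⬝ᵥ v)), by
      rw [Real.sq_sqrt (div_nonneg (dot_self_nonneg f) h0.le), div_mul_cancel₀ _ h0.ne']⟩
  obtain ⟨O, hO, hw⟩ := Qs.exists_refl (proj_P3 he c τ) hf (w' := r • v)
    (by rw [mulVec_smul, hv]) (by rw [smul_dotProduct, dotProduct_smul, ← hr]; simp only [smul_eq_mul]; ring)
  have hO1 : O * Oᵀ = 1 := by rw [hO.symm, hO.inv]
  have hb : Oᵀ *ᵥ (r • v) = f := by rw [← hw, mulVec_mulVec, hO.symm, hO.inv, one_mulVec]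
  conv_rhs => rw [GOE, ← goe_conj _ O hO1]
  refine le_trans (measure_mono fun W hW => ?_) (Measure.le_map_apply (by fun_prop) _)
  have hc := wm_conj hO1 (hO.fix _ (P3_e he c τ)) (hO.fix _ (P3_c he c τ))
    (hO.fix _ (P3_τ he c τ)) W
  refine ⟨by rw [hc]; exact hS _ _ hO1 hW.1, ?_⟩
  have h2 := hW.2
  rw [hc, Ti61.conj_sub hO1, Ti61.conj_inv hO1]
  have h3 := qf_conj Oᵀ (z • (1 : Mx n) - Wm e c τ W)⁻¹ (r • v) (r • v)
  rw [transpose_transpose, hb, mulVec_smul, smul_dotProduct, dotProduct_smul, smul_eq_mul,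
    smul_eq_mul] at h3
  rw [← h3, ← hr] at h2
  by_contra h4
  nlinarith [mul_le_mul_of_nonneg_left (not_lt.1 h4) (sq_nonneg r)]

lemma TT_avg {z k : ℝ} {e c τ : V n} {S : Set (Mx n)} (hn : 8 ≤ n) (he : e ⬝ᵥ e = 1)
    (hm : MeasurableSet S) (hS : ∀ O W : Mx n, O * Oᵀ = 1 → W ∈ S → O * W * Oᵀ ∈ S) {f : V n}
    (hf : P3 e c τ *ᵥ f = f) {a : ℝ≥0∞}
    (ha : ∀ X ∈ S, gv (Fin n) {g | 0 < g ⬝ᵥ (P3 e c τ * ((z • (1 : Mx n) - X)⁻¹ -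
      k • (1 : Mx n)) * P3 e c τ) *ᵥ g} ≤ a) : GOE n (TT z k e c τ S f) ≤ 2 * a := by
  have hP := proj_P3 he c τ
  obtain ⟨m, hm'⟩ := Qs98.trace_nat hP
  have hn' : (8 : ℝ) ≤ n := by exact_mod_cast hn
  have hm1 : (1 : ℝ) ≤ m := by linarith [trace_P3 he c τ]
  have hw := Qs.window hP hm' (by exact_mod_cast hm1)
  have hWm : Measurable (Wm e c τ) := by unfold Wm; fun_prop
  have hres := (measurable_res (n := n) z).comp hWm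
  have hZ : MeasurableSet {y : V n × Mx n | y.2 ∈ TT z k e c τ S (P3 e c τ *ᵥ y.1)} := by
    have h1 : Measurable fun y : V n × Mx n => (z • (1 : Mx n) - Wm e c τ y.2)⁻¹ :=
      hres.comp measurable_snd
    exact ((hWm.comp measurable_snd) hm).inter (measurableSet_lt
      (f := fun y : V n × Mx n => k * ((P3 e c τ *ᵥ y.1) ⬝ᵥ (P3 e c τ *ᵥ y.1)))
      (g := fun y : V n × Mx n => (P3 e c τ *ᵥ y.1) ⬝ᵥ
        (z • (1 : Mx n) - Wm e c τ y.2)⁻¹ *ᵥ (P3 e c τ *ᵥ y.1)) (by fun_prop) (by fun_prop))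
  have h1 := Measure.prod_apply (μ := gv (Fin n)) (ν := GOE n) hZ
  have h2 := Measure.prod_apply_symm (μ := gv (Fin n)) (ν := GOE n) hZ
  have h3 : ∫⁻ W, gv (Fin n) ((fun g => (g, W)) ⁻¹'
      {y : V n × Mx n | y.2 ∈ TT z k e c τ S (P3 e c τ *ᵥ y.1)}) ∂GOE n ≤ a := by
    refine le_trans (lintegral_mono (g := fun _ => a) fun W => ?_) (by simp)
    by_cases hW : Wm e c τ W ∈ S
    · refine le_trans (measure_mono fun g hg => ?_) (ha _ hW)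
      have h4 := hg.2
      simp only [Set.mem_ofPred_eq] at h4 ⊢
      rw [qf_proj hP, qf_sub, qf_smul, qf_one]
      linarith
    · exact le_trans (measure_mono (t := ∅) fun g hg => hW hg.1) (by simp)
  have h5 : GOE n (TT z k e c τ S f) * 2⁻¹ ≤ a := by
    refine le_trans (mul_le_mul_right hw _) ?_
    rw [← setLIntegral_const]
    refine le_trans (setLIntegral_mono (measurable_measure_prodMk_left hZ) fun g hg => ?_)
      ((setLIntegral_le_lintegral _ _).trans ((h1.symm.trans h2).le.trans h3))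
    exact TT_le he hS hf (hP.mulVec_mulVec g) (lt_of_lt_of_le (by positivity) hg.1)
  calc _ = 2 * (GOE n (TT z k e c τ S f) * 2⁻¹) := by
        rw [mul_comm (GOE n _), ← mul_assoc, ENNReal.mul_inv_cancel (by simp) (by simp), one_mul]
    _ ≤ _ := mul_le_mul_right h5 _

section main
variable {ε q E Cw d : ℝ} {e c τ : V n} {S : Set (Mx n)}

/-- the isotropic bound for one matrix -/
lemma one (hp : Par n ε q) (hW : WS ε q E Cw S) (hCw : 0 ≤ Cw) {P : Mx n} (hP : IsProj P)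
    (ht : (n : ℝ) - 3 ≤ P.trace) (hd1 : d ≤ 1 / 3) (hn : 6 ≤ d * n) (hq : 8 * (1 + Cw) * q ≤ d)
    {X : Mx n} (hX : X ∈ S) (htr : (zz (gg ε q) • (1 : Mx n) - X)⁻¹.trace ≤ (1 + d) * n) :
    gv (Fin n) {g | 0 < g ⬝ᵥ (P * ((zz (gg ε q) • (1 : Mx n) - X)⁻¹ -
      (1 + 3 * d) • (1 : Mx n)) * P) *ᵥ g} ≤ ex (-(d * ε ^ 4 * q ^ 2 * n / 16)) := by
  obtain ⟨hx, hx1, hz0, -⟩ := Ti61.consts hp
  obtain ⟨a, hd, ha, -, hs⟩ := hW.sp X hX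
  have h0 := hp.e0
  have h1 := hp.e1
  have h2 := hp.q0
  have hn8 : (8 : ℝ) ≤ n := by exact_mod_cast hp.n8
  have hd0 : 0 < d := by nlinarith
  obtain ⟨b, hb⟩ : ∃ b, b = ε ^ 4 * q ^ 2 / 2 := ⟨_, rfl⟩
  obtain ⟨z, hz⟩ : ∃ z, z = zz (gg ε q) := ⟨_, rfl⟩
  rw [← hz] at hz0 hs htr ⊢
  rw [← hb] at ha
  have hb0 : 0 < b := by rw [hb]; positivity
  have hab : ∀ i, b ≤ z - a i := fun i => by linarith [(ha i).2]
  have haz : ∀ i, a i < z := fun i => by linarith [hab i]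
  have hR := (Ti61.dg_inv hd haz).1
  obtain ⟨R, hRe⟩ : ∃ R, R = (z • (1 : Mx n) - X)⁻¹ := ⟨_, rfl⟩
  rw [← hRe] at hR htr ⊢
  have hR0 : Le 0 R := by
    have := dg_ge hR (c := 0) fun i => (inv_pos.2 (sub_pos.2 (haz i))).le
    rwa [zero_smul] at this
  have hR1 := dg_le hR (c := b⁻¹) fun i => inv_anti₀ hb0 (hab i)
  have hY := dg_affine hR 1 (-(1 + 3 * d))
  rw [one_smul, neg_smul, ← sub_eq_add_neg] at hY
  have hs' : (P * (R - (1 + 3 * d) • (1 : Mx n)) * P)ᵀ = P * (R - (1 + 3 * d) • (1 : Mx n)) * P := by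
    rw [transpose_mul, transpose_mul, hP.symm, hY.symm, Matrix.mul_assoc]
  refine (chern hs' (l := b / 2) (ρ := b⁻¹) (by positivity) (fun u => ?_)
    (le_of_eq (by field_simp))).trans (ex_mono ?_)
  · have h3 := hR1 (P *ᵥ u)
    have h4 := hP.dot_le u
    have h5 := dot_self_nonneg (P *ᵥ u)
    rw [qf_smul, qf_one] at h3
    rw [qf_proj hP, qf_sub, qf_smul, qf_smul, qf_one, qf_one]
    have h6 : b⁻¹ * ((P *ᵥ u) ⬝ᵥ (P *ᵥ u)) ≤ b⁻¹ * (u ⬝ᵥ u) := by gcongr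
    nlinarith
  · have t1 : (P * (R - (1 + 3 * d) • (1 : Mx n)) * P).trace ≤ -(d * n) := by
      rw [Matrix.mul_sub, Matrix.sub_mul, trace_sub, Matrix.mul_smul, Matrix.smul_mul,
        Matrix.mul_one, hP.idem, trace_smul, smul_eq_mul]
      have := tr_pxp hP hR0
      nlinarith
    have t2 := fro_pxp hP hY.symm
    rw [dg_sq hY] at t2
    have t3 : ∑ i, (1 * (z - a i)⁻¹ + -(1 + 3 * d)) ^ 2 ≤
        ∑ i : Fin n, (((z - a i) ^ 2)⁻¹ + 4) := sum_le_sum fun i _ => by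
      have := (inv_pos.2 (sub_pos.2 (haz i))).le
      rw [← inv_pow]
      nlinarith
    rw [sum_add_distrib, sum_const, card_univ, Fintype.card_fin, nsmul_eq_mul] at t3
    have t4 : b * (Cw * n / (ε ^ 2 * q) + n * 4) ≤ d * n / 2 := by
      have e1 : b * (Cw * n / (ε ^ 2 * q) + n * 4) =
          n * (ε ^ 2 * q * (Cw / 2 + 2 * (ε ^ 2 * q))) := by rw [hb]; field_simp; ring
      have e2 : ε ^ 2 * q ≤ q :=
        mul_le_of_le_one_left h2.le (pow_le_one₀ h0.le (by linarith))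
      have e3 : ε ^ 2 * q * (Cw / 2 + 2 * (ε ^ 2 * q)) ≤ q * (1 + Cw) :=
        mul_le_mul e2 (by linarith) (by positivity) h2.le
      rw [e1]; nlinarith
    have t5 : (P * (R - (1 + 3 * d) • (1 : Mx n)) * P * (P * (R - (1 + 3 * d) • (1 : Mx n)) * P)).trace
        ≤ Cw * n / (ε ^ 2 * q) + n * 4 := by linarith
    have t6 := mul_le_mul_of_nonneg_left t5 (sq_nonneg (b / 2))
    have t7 := mul_le_mul_of_nonneg_left t1 hb0.le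
    have t8 := mul_le_mul_of_nonneg_left t4 hb0.le
    have e4 : d * ε ^ 4 * q ^ 2 * n / 16 = b * (d * n) / 8 := by rw [hb]; ring
    rw [e4]; nlinarith

lemma amgm {x y Y c w : ℝ} (hc : 0 < c) (hw : 0 < w) (h : x ^ 2 ≤ c * Y) :
    -(w * Y) - c / w * y ^ 2 ≤ 2 * x * y := by
  have h1 : 0 ≤ (w * x + c * y) ^ 2 / (c * w) := by positivity
  have h2 : (w * x + c * y) ^ 2 / (c * w) = w / c * x ^ 2 + 2 * x * y + c / w * y ^ 2 := by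
    field_simp; ring
  have h3 : w / c * x ^ 2 ≤ w * Y := by
    calc _ ≤ w / c * (c * Y) := by gcongr
      _ = _ := by field_simp
  linarith

lemma pw_le {C : ℝ} (hC : 1 ≤ C) {j k : ℕ} (h : j ≤ k) (hq : 0 < q) : C ^ j * q ≤ C ^ k * q :=
  mul_le_mul_of_nonneg_right (pow_le_pow_right₀ hC h) hq.le

/-- the three coefficients -/
lemma scalA {C N B L μ β ν a1 a2 a3 : ℝ} (C0 : 0 < C) (hq : 0 < q) (hd : 0 < d) (hN : 0 < N)
    (q4 : C ^ 4 * q ≤ d / 20) (B3 : q ^ 2 ≤ 4 * C ^ 2 * B ^ 2)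
    (hL : N / 4 ≤ L) (u5 : β ^ 2 ≤ C * q ^ 3 * N) (hμ : μ ^ 2 ≤ C * q ^ 2)
    (hν : ν ^ 2 ≤ d * q ^ 2 * N) (e1 : a1 * B = μ) (e3 : a3 * B = β) (e2 : a2 * L = ν - a3 * μ) :
    a1 ^ 2 ≤ 4 * C ^ 3 ∧ a2 ^ 2 * N ≤ 64 * d * q ^ 2 ∧ (a2 * a3) ^ 2 ≤ 256 * C ^ 3 * d * q ^ 3 := by
  have q2 : 0 < q ^ 2 := by positivity
  have A1 : a1 ^ 2 ≤ 4 * C ^ 3 := by
    refine le_of_mul_le_mul_right ?_ q2
    calc a1 ^ 2 * q ^ 2 ≤ a1 ^ 2 * (4 * C ^ 2 * B ^ 2) := by gcongr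
      _ = 4 * C ^ 2 * μ ^ 2 := by rw [← e1]; ring
      _ ≤ 4 * C ^ 2 * (C * q ^ 2) := by gcongr
      _ = _ := by ring
  have A3 : a3 ^ 2 ≤ 4 * C ^ 3 * q * N := by
    refine le_of_mul_le_mul_right ?_ q2
    calc a3 ^ 2 * q ^ 2 ≤ a3 ^ 2 * (4 * C ^ 2 * B ^ 2) := by gcongr
      _ = 4 * C ^ 2 * β ^ 2 := by rw [← e3]; ring
      _ ≤ 4 * C ^ 2 * (C * q ^ 3 * N) := by gcongr
      _ = _ := by ring
  have A2 : a2 ^ 2 * N ≤ 64 * d * q ^ 2 := by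
    refine le_of_mul_le_mul_right ?_ hN
    have i0 := mul_pos hd (mul_pos q2 hN)
    have i1 : (a3 * μ) ^ 2 ≤ d * q ^ 2 * N := by
      calc (a3 * μ) ^ 2 = a3 ^ 2 * μ ^ 2 := by ring
        _ ≤ (4 * C ^ 3 * q * N) * (C * q ^ 2) := by gcongr
        _ = 4 * (C ^ 4 * q) * (q ^ 2 * N) := by ring
        _ ≤ 4 * (d / 20) * (q ^ 2 * N) := by gcongr
        _ ≤ _ := by linarith
    have i2 : N ^ 2 ≤ 16 * L ^ 2 := by
      have := pow_le_pow_left₀ (by positivity) hL 2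
      linarith
    calc a2 ^ 2 * N * N = a2 ^ 2 * N ^ 2 := by ring
      _ ≤ a2 ^ 2 * (16 * L ^ 2) := by gcongr
      _ = 16 * (ν - a3 * μ) ^ 2 := by rw [← e2]; ring
      _ ≤ _ := by linarith [sq_nonneg (ν + a3 * μ)]
  refine ⟨A1, A2, ?_⟩
  calc (a2 * a3) ^ 2 = a2 ^ 2 * a3 ^ 2 := by ring
    _ ≤ a2 ^ 2 * (4 * C ^ 3 * q * N) := by gcongr
    _ = 4 * C ^ 3 * q * (a2 ^ 2 * N) := by ring
    _ ≤ 4 * C ^ 3 * q * (64 * d * q ^ 2) := by gcongr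
    _ = _ := by ring

lemma scalB {C S0 η B : ℝ} (hC : 1 ≤ C) (hq : 0 < q) (hd : 0 < d) (d1 : d ≤ 1 / 10 ^ 4)
    (q1 : C * q ≤ d / 20) (s1 : q / C ≤ S0) (s2 : S0 ≤ C * q) (s3 : |B - S0| ≤ d * S0)
    (η0 : 0 ≤ η) (η1 : η ≤ 2 * q ^ 2) : q ^ 2 ≤ 4 * C ^ 2 * B ^ 2 ∧ 0 ≤ S0 + η ∧
      S0 + η ≤ 2 * C * q ∧ (S0 + η - B) ^ 2 ≤ (4 * d * B) ^ 2 := by
  have C0 : 0 < C := by linarith
  have hS0 : q ≤ C * S0 := by rwa [div_le_iff₀' C0] at s1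
  have S00 : 0 < S0 := lt_of_lt_of_le (by positivity) s1
  obtain ⟨s4, s5⟩ := abs_le.1 s3
  have i0 : d * S0 ≤ 1 / 10 ^ 4 * S0 := by gcongr
  have B1 : S0 ≤ 2 * B := by linarith
  have B2 : q ≤ 2 * C * B := by linarith [mul_le_mul_of_nonneg_left B1 C0.le]
  have η2 : η ≤ d * S0 := by
    calc η ≤ 2 * q * q := by linarith
      _ ≤ 2 * q * (C * S0) := by gcongr
      _ = 2 * (C * q) * S0 := by ring
      _ ≤ 2 * (d / 20) * S0 := by gcongr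
      _ ≤ _ := by linarith [mul_pos hd S00]
  have i1 := mul_le_mul_of_nonneg_left B1 hd.le
  have i2 := mul_pos hd S00
  exact ⟨by linarith [pow_le_pow_left₀ hq.le B2 2], by linarith, by linarith,
    sq_le_sq' (by linarith) (by linarith)⟩

/-- the scalar inequality -/
lemma scal {C N S0 η B L μ β ν b1 b a1 a2 a3 c2 : ℝ} (hC : 1 ≤ C) (h0 : 0 < ε) (h1 : ε ≤ 1)
    (hq : 0 < q) (hd : 0 < d) (hdε : 10 ^ 4 * C ^ 2 * d ≤ ε) (hqd : 20 * C ^ 5 * q ≤ d) (hN : 0 < N)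
    (s1 : q / C ≤ S0) (s2 : S0 ≤ C * q) (s3 : |B - S0| ≤ d * S0) (η0 : 0 ≤ η) (η1 : η ≤ 2 * q ^ 2)
    (hL : N / 4 ≤ L) (u5 : β ^ 2 ≤ C * q ^ 3 * N) (hb : b ^ 2 ≤ C * q ^ 2) (hμ : μ ^ 2 ≤ C * q ^ 2)
    (hm : -(d * q ^ 2) ≤ b1 + 2 * b * μ - b ^ 2) (hν : ν ^ 2 ≤ d * q ^ 2 * N)
    (e1 : a1 * B = μ) (e3 : a3 * B = β) (e2 : a2 * L = ν - a3 * μ) (c1 : c2 * q ^ 2 ≤ ε * N) :
    0 ≤ ε * q ^ 2 / 2 + b1 + 2 * b * ((a1 - a2 * a3) * (S0 + η)) -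
      (S0 + η) * (b * (a1 - a2 * a3)) ^ 2 - (1 + 3 * d) / (1 - ε / (16 * C)) * b ^ 2 -
      c2 / (ε / (16 * C)) * (b * a2) ^ 2 := by
  have C0 : 0 < C := by linarith
  have C2 : 1 ≤ C ^ 2 := one_le_pow₀ hC
  have C3 : 1 ≤ C ^ 3 := one_le_pow₀ hC
  have d1 : d ≤ 1 / 10 ^ 4 := by linarith [mul_le_mul_of_nonneg_right C2 hd.le]
  have q4 : C ^ 4 * q ≤ d / 20 := by linarith [pw_le hC (show 4 ≤ 5 by norm_num) hq]
  have j1 : C ^ 2 * q ≤ d / 20 := by linarith [pw_le hC (show 2 ≤ 5 by norm_num) hq]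
  have q1 : C * q ≤ d / 20 := by linarith [pw_le hC (show 1 ≤ 5 by norm_num) hq]
  have q0 : q ≤ d / 20 := by linarith [pw_le hC (show 0 ≤ 5 by norm_num) hq]
  obtain ⟨B3, S2, S1, i1⟩ := scalB hC hq hd d1 q1 s1 s2 s3 η0 η1
  obtain ⟨A1, A2, A23⟩ := scalA C0 hq hd hN q4 B3 hL u5 hμ hν e1 e3 e2
  have q2 : 0 < q ^ 2 := by positivity
  have q3 : q ^ 3 ≤ 1 := pow_le_one₀ hq.le (by linarith)
  have A4 : (a1 - a2 * a3) ^ 2 ≤ 10 * C ^ 3 := by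
    have i1 : 256 * C ^ 3 * d * q ^ 3 ≤ 256 * C ^ 3 * (1 / 10 ^ 4) * 1 := by gcongr
    linarith [sq_nonneg (a1 + a2 * a3)]
  have T1 : (S0 + η) * (b * (a1 - a2 * a3)) ^ 2 ≤ d * q ^ 2 := by
    calc _ = (S0 + η) * (b ^ 2 * (a1 - a2 * a3) ^ 2) := by ring
      _ ≤ (2 * C * q) * ((C * q ^ 2) * (10 * C ^ 3)) := by gcongr
      _ = 20 * C ^ 5 * q * q ^ 2 := by ring
      _ ≤ _ := by gcongr
  have T2 : -(12 * C * d * q ^ 2) ≤ 2 * b * (a1 * (S0 + η) - μ) := by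
    have i2 : (b * (a1 * (S0 + η) - μ)) ^ 2 ≤ (6 * C * d * q ^ 2) ^ 2 := by
      calc _ = b ^ 2 * (a1 ^ 2 * (S0 + η - B) ^ 2) := by rw [← e1]; ring
        _ ≤ (C * q ^ 2) * (a1 ^ 2 * (4 * d * B) ^ 2) := by gcongr
        _ = (C * q ^ 2) * (16 * d ^ 2 * μ ^ 2) := by rw [← e1]; ring
        _ ≤ (C * q ^ 2) * (16 * d ^ 2 * (C * q ^ 2)) := by gcongr
        _ ≤ _ := by linarith [sq_nonneg (C * d * q ^ 2)]
    have := (abs_le_of_sq_le_sq' i2 (by positivity)).1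
    linarith
  have T3 : 2 * (b * (a2 * a3) * (S0 + η)) ≤ d * q ^ 2 := by
    have i1 : (C ^ 2 * q) ^ 3 ≤ d / 4096 := by
      calc _ ≤ (d / 20) ^ 3 := by gcongr
        _ = d * (d * d) / 8000 := by ring
        _ ≤ d * (1 * 1) / 8000 := by gcongr <;> linarith
        _ ≤ _ := by linarith
    have i2 : (b * (a2 * a3) * (S0 + η)) ^ 2 ≤ (d * q ^ 2 / 2) ^ 2 := by
      calc _ = b ^ 2 * (a2 * a3) ^ 2 * (S0 + η) ^ 2 := by ring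
        _ ≤ (C * q ^ 2) * (256 * C ^ 3 * d * q ^ 3) * (2 * C * q) ^ 2 := by gcongr
        _ = 1024 * (C ^ 2 * q) ^ 3 * (d * q ^ 4) := by ring
        _ ≤ 1024 * (d / 4096) * (d * q ^ 4) := by gcongr
        _ = _ := by ring
    have := (abs_le_of_sq_le_sq' i2 (by positivity)).2
    linarith
  obtain ⟨κ, hκ⟩ : ∃ κ, κ = ε / (16 * C) := ⟨_, rfl⟩
  have κ0 : 0 < κ := by rw [hκ]; positivity
  have κ1 : 16 * C * κ = ε := by rw [hκ]; field_simp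
  have κ2 : κ ≤ 1 / 2 := by linarith [mul_le_mul_of_nonneg_right hC κ0.le]
  rw [← hκ]
  have T4 : (1 + 3 * d) / (1 - κ) * b ^ 2 ≤ b ^ 2 + (6 * d + 2 * κ) * (C * q ^ 2) := by
    have i1 : (1 + 3 * d) / (1 - κ) ≤ 1 + (6 * d + 2 * κ) := by
      rw [div_le_iff₀ (by linarith)]
      linarith [mul_le_mul_of_nonneg_left κ2 hd.le, mul_le_mul_of_nonneg_left κ2 κ0.le]
    calc _ ≤ (1 + (6 * d + 2 * κ)) * b ^ 2 := by gcongr
      _ = b ^ 2 + (6 * d + 2 * κ) * b ^ 2 := by ring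
      _ ≤ _ := by gcongr
  have T5 : c2 / κ * (b * a2) ^ 2 ≤ 1024 * C ^ 2 * d * q ^ 2 := by
    rw [div_mul_eq_mul_div, div_le_iff₀ κ0]
    refine le_of_mul_le_mul_right ?_ q2
    calc c2 * (b * a2) ^ 2 * q ^ 2 = (c2 * q ^ 2) * (b ^ 2 * a2 ^ 2) := by ring
      _ ≤ (ε * N) * (b ^ 2 * a2 ^ 2) := by gcongr
      _ = ε * (b ^ 2 * (a2 ^ 2 * N)) := by ring
      _ ≤ ε * ((C * q ^ 2) * (64 * d * q ^ 2)) := by gcongr
      _ = _ := by rw [← κ1]; ring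
  have T6 : C * d * q ^ 2 ≤ C ^ 2 * d * q ^ 2 := by
    have := pw_le hC (show 1 ≤ 2 by norm_num) (mul_pos hd q2)
    linarith
  have T7 : d * q ^ 2 ≤ C ^ 2 * d * q ^ 2 := by
    have := pw_le hC (show 0 ≤ 2 by norm_num) (mul_pos hd q2)
    linarith
  have T8 := mul_le_mul_of_nonneg_right hdε q2.le
  have T9 : κ * (C * q ^ 2) = ε * q ^ 2 / 16 := by rw [← κ1]; ring
  have T10 := mul_pos hd q2
  linarith

/-- decomposition of `u` along the three projectors -/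
lemma dec {u : V n} (hF : FS ε q e c τ) (hu : e ⬝ᵥ u = 0) (hB : 0 < bv e c ⬝ᵥ bv e c) (hn : 0 < n) :
    ∃ a1 a2 a3 L : ℝ, (n : ℝ) / 4 ≤ L ∧ a1 * (bv e c ⬝ᵥ bv e c) = u ⬝ᵥ bv e c ∧
      a3 * (bv e c ⬝ᵥ bv e c) = bv e c ⬝ᵥ τ ∧ a2 * L = u ⬝ᵥ τ - a3 * (u ⬝ᵥ bv e c) ∧
      u = P3 e c τ *ᵥ u + (a1 - a2 * a3) • bv e c + a2 • τ := by
  have hn' : (0 : ℝ) < n := by exact_mod_cast hn
  obtain ⟨b, hb⟩ : ∃ b, b = bv e c := ⟨_, rfl⟩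
  have hl : ∀ x y : V n, (unitv x ⬝ᵥ y) • unitv x = ((x ⬝ᵥ y) / (x ⬝ᵥ x)) • x := fun x y => by
    rw [unitv, smul_dotProduct, smul_smul, ← len_sq, smul_eq_mul]
    congr 1
    rw [div_eq_mul_inv, ← inv_pow]; ring
  have p2 : ∀ y : V n, e ⬝ᵥ y = 0 → P2 e c *ᵥ y = y - ((b ⬝ᵥ y) / (b ⬝ᵥ b)) • b := fun y hy => by
    rw [P2, nextR, sub_mulVec, Ti61.R1_of hy, vmv_mulVec, hb, ← hl]; rfl
  have hL := (Ti61.proj_tau hF).1
  obtain ⟨t, ht⟩ : ∃ t, t = P2 e c *ᵥ τ := ⟨_, rfl⟩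
  have p3 : P3 e c τ *ᵥ u = P2 e c *ᵥ u - ((t ⬝ᵥ u) / (t ⬝ᵥ t)) • t := by
    rw [P3, nextR, sub_mulVec, vmv_mulVec, ht, ← hl]; rfl
  rw [← ht] at hL
  rw [← hb] at hB ⊢
  have hL4 : (n : ℝ) / 4 ≤ t ⬝ᵥ t := by linarith [hF.t1, hF.w1]
  have t0 : 0 < t ⬝ᵥ t := lt_of_lt_of_le (by positivity) hL4
  have t1 : t = τ - ((b ⬝ᵥ τ) / (b ⬝ᵥ b)) • b := ht.trans (p2 τ hF.orth)
  refine ⟨(b ⬝ᵥ u) / (b ⬝ᵥ b), (t ⬝ᵥ u) / (t ⬝ᵥ t), (b ⬝ᵥ τ) / (b ⬝ᵥ b), t ⬝ᵥ t, hL4,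
    by rw [div_mul_cancel₀ _ hB.ne', dotProduct_comm], div_mul_cancel₀ _ hB.ne', ?_, ?_⟩
  · rw [div_mul_cancel₀ _ t0.ne', t1, sub_dotProduct, smul_dotProduct, smul_eq_mul,
      dotProduct_comm τ, dotProduct_comm b u]
  · rw [p3, p2 u hu]
    generalize (t ⬝ᵥ u) / (t ⬝ᵥ t) = a2
    rw [t1]
    module

/-- the deterministic step -/
lemma det {C b11 b12 b22 : ℝ} {u : V n} {X : Mx n} (hp : Par n ε q) (hC : 1 ≤ C) (hd : 0 < d)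
    (hdε : 10 ^ 4 * C ^ 2 * d ≤ ε) (hqd : 20 * C ^ 5 * q ≤ d) (hF : FS ε q e c τ)
    (h4 : S4 C d q b11 b12 b22 e c τ u) (hX : Xᵀ = X) (hXe : X *ᵥ e = c)
    (hT : Le (X + Tm ε q τ) (zz (gg ε q) • (1 : Mx n)))
    (hf : ∀ v, ((P3 e c τ *ᵥ u) ⬝ᵥ v) ^ 2 ≤
      (1 + 3 * d) * (v ⬝ᵥ (zz (gg ε q) • (1 : Mx n) - X) *ᵥ v)) :
    Le X ((2 + ε * q ^ 2) • (1 : Mx n) + B2 b11 b12 b22 e u) := by
  obtain ⟨hx, hx1, hz0, -⟩ := Ti61.consts hp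
  have h0 := hp.e0
  have h1 := hp.e1
  have h2 := hp.q0
  have hn8 : (8 : ℝ) ≤ n := by exact_mod_cast hp.n8
  have q2 : 0 < q ^ 2 := by positivity
  have hz1 : zz (gg ε q) ≤ 2 + 2 * (ε ^ 2 * q) ^ 2 := by
    rw [Ti61.zz_eq (by unfold gg; linarith), gg, sub_sub_cancel, add_le_add_iff_left,
      div_le_iff₀ (by linarith)]
    nlinarith [sq_nonneg (ε ^ 2 * q)]
  have e4 : (ε ^ 2 * q) ^ 2 ≤ ε / 4 * q ^ 2 := by
    have : ε ^ 3 ≤ 1 / 4 := (pow_le_pow_left₀ h0.le h1 3).trans (by norm_num)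
    calc _ = ε ^ 3 * (ε * q ^ 2) := by ring
      _ ≤ 1 / 4 * (ε * q ^ 2) := by gcongr
      _ = _ := by ring
  have e5 : ε / 4 * q ^ 2 ≤ 1 * q ^ 2 := by gcongr; linarith
  have e6 : 0 < ε ^ 4 * q ^ 2 := by positivity
  obtain ⟨z, hz⟩ : ∃ z, z = zz (gg ε q) := ⟨_, rfl⟩
  rw [← hz] at hz0 hz1 hT hf
  have C0 : 0 < C := by linarith
  have S00 : 0 < 2 - e ⬝ᵥ c := lt_of_lt_of_le (by positivity) h4.s1
  have d1 : d ≤ 1 / 2 := by nlinarith [one_le_pow₀ (n := 2) hC]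
  have hB : 0 < bv e c ⬝ᵥ bv e c := by
    nlinarith [(abs_le.1 h4.s3).1, mul_le_mul_of_nonneg_right d1 S00.le]
  obtain ⟨a1, a2, a3, L, hL, e1, e3, e2, hu⟩ := dec hF h4.orth hB (by linarith [hp.n8])
  have T0 : 0 < τ ⬝ᵥ τ := by linarith [hF.t1]
  have key := scal (η := z - 2) (c2 := ε * (τ ⬝ᵥ τ) / q ^ 2) hC h0 (by linarith) h2 hd hdε hqd
    (by linarith) h4.s1 h4.s2 h4.s3 (by linarith) (by linarith) hL h4.u5 h4.b1 h4.b2 h4.m h4.ut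
    e1 e3 e2 (by rw [div_mul_cancel₀ _ q2.ne']; exact mul_le_mul_of_nonneg_left hF.t2 h0.le)
  obtain ⟨κ, hκ⟩ : ∃ κ, κ = ε / (16 * C) := ⟨_, rfl⟩
  have κ0 : 0 < κ := by rw [hκ]; positivity
  have κ1 : κ < 1 := by rw [hκ, div_lt_one (by positivity)]; linarith
  rw [← hκ] at key
  intro v
  obtain ⟨A, hA⟩ : ∃ A, A = a1 - a2 * a3 := ⟨_, rfl⟩
  obtain ⟨α, hα⟩ : ∃ α, α = e ⬝ᵥ v := ⟨_, rfl⟩
  obtain ⟨f, hfe⟩ : ∃ f, f = P3 e c τ *ᵥ u := ⟨_, rfl⟩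
  rw [← hA] at key hu
  rw [← hfe] at hu hf
  have fe : f ⬝ᵥ e = 0 := by
    rw [hfe, ← (proj_P3 hF.unit c τ).dot, P3_e hF.unit, dotProduct_zero]
  have hs : (z • (1 : Mx n) - X)ᵀ = z • (1 : Mx n) - X := by
    rw [transpose_sub, transpose_smul, transpose_one, hX]
  have hY := qf_expand hs 1 (-(b12 * A * α)) v e
  have hvc : v ⬝ᵥ c = (e ⬝ᵥ c) * α + bv e c ⬝ᵥ v := by
    rw [bv, R1_mulVec, sub_dotProduct, smul_dotProduct, smul_eq_mul, ← hα, dotProduct_comm]; ring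
  obtain ⟨w, hw⟩ : ∃ w, w = (1 : ℝ) • v + (-(b12 * A * α)) • e := ⟨_, rfl⟩
  have f1 := hf w
  have f2 := hT w
  have w1 : f ⬝ᵥ w = f ⬝ᵥ v := by
    rw [hw, dotProduct_add, dotProduct_smul, dotProduct_smul, fe, one_smul, smul_zero, add_zero]
  have w2 : τ ⬝ᵥ w = τ ⬝ᵥ v := by
    rw [hw, dotProduct_add, dotProduct_smul, dotProduct_smul, dotProduct_comm τ e, hF.orth,
      one_smul, smul_zero, add_zero]
  rw [← hw] at hY
  obtain ⟨Y, hYe⟩ : ∃ Y, Y = w ⬝ᵥ (z • (1 : Mx n) - X) *ᵥ w := ⟨_, rfl⟩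
  have f3 : (τ ⬝ᵥ v) ^ 2 ≤ ε * (τ ⬝ᵥ τ) / q ^ 2 * Y := by
    rw [qf_add, Tm, Ti61.quad_vmv, w2] at f2
    have f4 : q ^ 2 / ε / (τ ⬝ᵥ τ) * (τ ⬝ᵥ v) ^ 2 ≤ Y := by rw [hYe, qf_sub]; linarith
    calc _ = ε * (τ ⬝ᵥ τ) / q ^ 2 * (q ^ 2 / ε / (τ ⬝ᵥ τ) * (τ ⬝ᵥ v) ^ 2) := by field_simp
      _ ≤ _ := by gcongr
  rw [w1, ← hYe] at f1
  rw [← hYe] at hY
  simp only [qf_sub, qf_smul, qf_one, hXe, hvc, hF.unit, dotProduct_comm v e, ← hα] at hY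
  have g1 := amgm (y := b12 * α) (by linarith) (sub_pos.2 κ1) f1
  have g2 := amgm (y := b12 * a2 * α) (by positivity) κ0 f3
  have huv : u ⬝ᵥ v = f ⬝ᵥ v + A * (bv e c ⬝ᵥ v) + a2 * (τ ⬝ᵥ v) := by
    conv_lhs => rw [hu]
    simp only [add_dotProduct, smul_dotProduct, smul_eq_mul]
  have hN : α ^ 2 ≤ v ⬝ᵥ v := by
    have := dot_self_nonneg (v - α • e)
    simp only [sub_dotProduct, dotProduct_sub, smul_dotProduct, dotProduct_smul, smul_eq_mul,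
      hF.unit, dotProduct_comm v e, ← hα] at this
    linarith
  have g3 := mul_nonneg key (sq_nonneg α)
  have g4 := mul_nonneg h4.b3 (sq_nonneg (u ⬝ᵥ v))
  have g5 := mul_le_mul_of_nonneg_left hN (show 0 ≤ 2 + ε * q ^ 2 - z by linarith)
  have g6 := mul_le_mul_of_nonneg_right (show ε * q ^ 2 / 2 ≤ 2 + ε * q ^ 2 - z by linarith)
    (sq_nonneg α)
  simp only [B2, qf_add, qf_smul, qf_one, qf_vmv, dotProduct_comm v e, dotProduct_comm v u, ← hα]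
  have g7 : b12 * (α * (u ⬝ᵥ v) + u ⬝ᵥ v * α) =
      2 * b12 * α * (f ⬝ᵥ v + A * (bv e c ⬝ᵥ v) + a2 * (τ ⬝ᵥ v)) := by rw [← huv]; ring
  rw [g7]
  linarith

end main

end M11

open M11 in
/-- **the rank-two condition, conditional form** -/
theorem mCore : ∃ K : ℕ, ∀ (n : ℕ) (C Cw ε d q E b11 b12 b22 : ℝ) (e c τ u : V n) (S : Set (Mx n)),
    Par n ε q → 1 ≤ C → 0 ≤ Cw → 1100 * (1 + Cw) * q ≤ ε ^ 3 → ε ^ 3 ≤ d →
    10 ^ 4 * C ^ 2 * d ≤ ε → 20 * C ^ 5 * q ≤ d → 0 ≤ E → WS ε q E Cw S →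
    (∀ W ∈ S, (zz (gg ε q) • (1 : Mx n) - W)⁻¹.trace ≤ (1 + d) * n) →
    FS ε q e c τ → S4 C d q b11 b12 b22 e c τ u →
    GOE n {W | Wm e c τ W ∈ S ∧
      ¬ Le (Wm e c τ W) ((2 + ε * q ^ 2) • (1 : Mx n) + B2 b11 b12 b22 e u)} ≤
      ex (K * Real.log n + E / 2 - ε ^ 9 * q ^ 2 * n / 64) := by
  obtain ⟨K, hK⟩ := tiGlue qsStmt
  refine ⟨K + 1, fun n C Cw ε d q E b11 b12 b22 e c τ u S hp hC hCw hq hd1 hd2 hd3 hE hW htr hF h4 => ?_⟩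
  have hT := hK n ε q E Cw e c τ S hp hCw hq hW hF
  have h0 := hp.e0
  have h1 := hp.e1
  have h2 := hp.q0
  have hn8 : (8 : ℝ) ≤ n := by exact_mod_cast hp.n8
  have e3 : 0 < ε ^ 3 := by positivity
  have hd : 0 < d := by linarith
  have d1 : d ≤ 1 / 3 := by nlinarith [one_le_pow₀ (n := 2) hC]
  have hn : 6 ≤ d * n := by
    have i1 : n * ε * q ≤ n * 1 * (d / 1100) := by
      gcongr
      · linarith
      · nlinarith
    linarith [hp.nq]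
  have hP := proj_P3 hF.unit c τ
  have hA := TT_avg hp.n8 hF.unit hW.meas hW.inv (hP.mulVec_mulVec u) fun X hX =>
    one hp hW hCw hP (trace_P3 hF.unit c τ) d1 hn (by nlinarith) hX (htr X hX)
  have hsub : {W | Wm e c τ W ∈ S ∧
      ¬ Le (Wm e c τ W) ((2 + ε * q ^ 2) • (1 : Mx n) + B2 b11 b12 b22 e u)} ⊆
      {W | Wm e c τ W ∈ S ∧ ¬ Le (Wm e c τ W + Tm ε q τ) (zz (gg ε q) • (1 : Mx n))} ∪
        TT (zz (gg ε q)) (1 + 3 * d) e c τ S (P3 e c τ *ᵥ u) := by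
    rintro W ⟨w1, w2⟩
    by_contra hc
    rw [Set.mem_union, not_or] at hc
    obtain ⟨a, hd', ha, -, -⟩ := hW.sp _ w1
    obtain ⟨-, -, hz0, -⟩ := Ti61.consts hp
    have e6 : 0 < ε ^ 4 * q ^ 2 := by positivity
    have haz : ∀ i, a i < zz (gg ε q) := fun i => by linarith [(ha i).2]
    refine w2 (det hp hC hd hd2 hd3 hF h4 hd'.symm (glue_e hF.unit c _)
      (by_contra fun h => hc.1 ⟨w1, h⟩) fun v => ?_)
    have c1 := not_lt.1 fun h => hc.2 ⟨w1, h⟩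
    have c2 := Ti61.psd_cs (Ti61.symm_of hd' _) (Ti61.psd_of hd' fun i => (haz i).le) v
      ((zz (gg ε q) • (1 : Mx n) - Wm e c τ W)⁻¹ *ᵥ (P3 e c τ *ᵥ u))
    rw [mulVec_mulVec, (Ti61.dg_inv hd' haz).2, one_mulVec, dotProduct_comm v,
      dotProduct_comm (_ *ᵥ (P3 e c τ *ᵥ u))] at c2
    have c3 := Ti61.psd_of hd' (fun i => (haz i).le) v
    have c4 := (hP.dot_le u).trans h4.unit
    have c5 := c1.trans (mul_le_of_le_one_right (by linarith) c4)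
    exact c2.trans ((mul_le_mul_of_nonneg_left c5 c3).trans_eq (mul_comm _ _))
  have c1 : 0 ≤ (K : ℝ) * Real.log n := mul_nonneg (Nat.cast_nonneg _) (Real.log_natCast_nonneg n)
  have c2 : ε ^ 9 * q ^ 2 * n / 64 ≤ d * ε ^ 4 * q ^ 2 * n / 16 := by
    have i1 : ε ^ 5 ≤ d := (pow_le_pow_of_le_one h0.le (by linarith) (by norm_num)).trans hd1
    have i2 : 0 < ε ^ 4 * q ^ 2 * n := by positivity
    nlinarith [mul_le_mul_of_nonneg_right i1 i2.le, mul_pos hd i2]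
  refine (measure_mono hsub).trans ((measure_union_le _ _).trans ?_)
  obtain ⟨x, hx⟩ : ∃ x, x = K * Real.log n + E / 2 - ε ^ 9 * q ^ 2 * n / 64 := ⟨_, rfl⟩
  rw [← hx] at hT
  have g2 := hA.trans (mul_le_mul_right (ex_mono (v := x) (by rw [hx]; linarith)) 2)
  refine (add_le_add hT g2).trans ?_
  have g3 : (3 : ℝ≥0∞) ≤ ex (Real.log n) := by
    rw [ex, Real.exp_log (by linarith), ← ENNReal.ofReal_ofNat]
    exact ENNReal.ofReal_le_ofReal (by linarith)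
  calc ex x + 2 * ex x = 3 * ex x := by ring
    _ ≤ ex (Real.log n) * ex x := mul_le_mul_left g3 _
    _ = _ := by rw [← ex_add, hx]; congr 1; push_cast; ring

/-- **the rank-two condition, planted form** -/
theorem mPt : ∃ K : ℕ, ∀ (n : ℕ) (C Cw ε d q E b11 b12 b22 : ℝ) (p s u : V n) (S : Set (Mx n))
    (F : V n → ℝ≥0∞),
    Par n ε q → 1 ≤ C → 0 ≤ Cw → 1100 * (1 + Cw) * q ≤ ε ^ 3 → ε ^ 3 ≤ d →
    10 ^ 4 * C ^ 2 * d ≤ ε → 20 * C ^ 5 * q ≤ d → 0 ≤ E → WS ε q E Cw S →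
    (∀ W ∈ S, (zz (gg ε q) • (1 : Mx n) - W)⁻¹.trace ≤ (1 + d) * n) → p ≠ 0 → Measurable F →
    (∀ b, F b ≠ 0 → FS ε q (unitv p) ((len p)⁻¹ • b) (bv (unitv p) s) ∧
      S4 C d q b11 b12 b22 (unitv p) ((len p)⁻¹ • b) (bv (unitv p) s) u) →
    ∫⁻ W in {W | W ∈ S ∧ ¬ Le W ((2 + ε * q ^ 2) • (1 : Mx n) + B2 b11 b12 b22 (unitv p) u)},
        ex (s ⬝ᵥ W *ᵥ s / 2) * F (W *ᵥ p) ∂GOE n ≤
      ex (K * Real.log n + E / 2 - ε ^ 9 * q ^ 2 * n / 64) *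
        ∫⁻ W, ex (s ⬝ᵥ W *ᵥ s / 2) * F (W *ᵥ p) ∂GOE n := by
  obtain ⟨K, h⟩ := mCore
  refine ⟨K, fun n C Cw ε d q E b11 b12 b22 p s u S F hp hC hCw hq h1 h2 h3 hE hW htr hp0 hF hS => ?_⟩
  refine Pt66.planted p s (hW.meas.inter (Pt66.measurableSet_le_right _).compl) hF
    fun c hc => ?_
  have hl : len p ≠ 0 := fun h => hp0 (len_eq_zero.1 h)
  have h4 := hS _ hc
  rw [smul_smul, inv_mul_cancel₀ hl, one_smul] at h4
  exact h n C Cw ε d q E b11 b12 b22 _ c _ u S hp hC hCw hq h1 h2 h3 hE hW htr h4.1 h4.2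

end Crest.Agent.T157.Qe

end
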