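import Crest.Agent.T157.QeDef_24

/-!
# Row 157, part A2 (helper43): the 3 x 3 criterion `Qe.NumStmt`

Write `u = α e + μ b + γ τ + w` with `w = P3 u`, remove `w` by Cauchy-Schwarz and put
`μ = α k + y` with `k |b|² = z - e·c`; what is left is a scalar inequality (`core`).
-/

set_option autoImplicit false

noncomputable section

namespace Crest.Agent.T157.Qe

open Matrix Finset Set
open Crest.Agent.T157.Cond

namespace Nm43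

lemma cr {x y E a b : ℝ} (ha : 0 ≤ a) (hb : 0 ≤ b) (h : E ^ 2 ≤ a * b) :
    -(a * x ^ 2 + b * y ^ 2) ≤ 2 * x * y * E := by
  have h1 : (2 * x * y * E) ^ 2 ≤ (a * x ^ 2 + b * y ^ 2) ^ 2 := by
    nlinarith [sq_nonneg (a * x ^ 2 - b * y ^ 2), mul_le_mul_of_nonneg_left h (sq_nonneg (x * y))]
  exact (abs_le_of_sq_le_sq' h1 (by positivity)).1

/-- smallness conditions -/
structure Sm (C ε δ q : ℝ) : Prop where
  C1 : 1 ≤ C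
  e0 : 0 < ε
  e1 : 500 * C ^ 2 * ε ≤ 1
  d0 : 0 < δ
  d1 : 512 * δ ≤ ε
  q0 : 0 < q
  q1 : 200 * C ^ 3 * q ≤ δ

namespace Sm
variable {C ε δ q : ℝ} (h : Sm C ε δ q)
include h

lemma C2 : C ≤ C ^ 2 := by nlinarith [h.C1]
lemma C3 : C ^ 2 ≤ C ^ 3 := by nlinarith [h.C1, h.C2]
lemma eC : 500 * (C * ε) ≤ 1 := by nlinarith [h.e1, mul_le_mul_of_nonneg_right h.C2 h.e0.le]
lemma e2 : 500 * ε ≤ 1 := by nlinarith [h.eC, mul_le_mul_of_nonneg_right h.C1 h.e0.le]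
lemma dC : 256000 * (C * δ) ≤ 1 := by
  have := mul_le_mul_of_nonneg_left h.d1 (by linarith [h.C1] : (0 : ℝ) ≤ C)
  nlinarith [h.eC]
lemma d2 : 256000 * δ ≤ 1 := by linarith [h.d1, h.e2]
lemma q2 : 200 * (C ^ 2 * q) ≤ δ := by nlinarith [h.q1, mul_le_mul_of_nonneg_right h.C3 h.q0.le]
lemma q3 : 200 * (C * q) ≤ δ := by nlinarith [h.q2, mul_le_mul_of_nonneg_right h.C2 h.q0.le]
lemma q4 : 200 * q ≤ δ := by nlinarith [h.q3, mul_le_mul_of_nonneg_right h.C1 h.q0.le]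

end Sm

lemma sg_le {C ε δ q N S B2 bt k : ℝ} (h : Sm C ε δ q) (hN : 0 < N) (hS : q ≤ C * S)
    (hk : k * B2 = S) (k3 : k ≤ 2) (hS0 : 0 < S) (hB0 : 0 < B2) (u5 : bt ^ 2 ≤ C * q ^ 3 * N)
    (α y γ : ℝ) : 9 * C ^ 2 * q ^ 2 * y ^ 2 - C * (C * q ^ 2 * N) * γ ^ 2 ≤
      S⁻¹ * (α * S - (α * k + y) * B2 - γ * bt) ^ 2 := by
  have hC := h.C1
  have hq := h.q0
  rw [inv_mul_eq_div, le_div_iff₀ hS0]
  have c1 : α * S - (α * k + y) * B2 - γ * bt = -(y * B2 + γ * bt) := by rw [← hk]; ring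
  have c2 : bt ^ 2 ≤ C * (C * q ^ 2 * N) * S := by
    have := mul_le_mul_of_nonneg_left hS (by positivity : 0 ≤ C * q ^ 2 * N)
    linarith
  have c3 : 9 * C ^ 2 * q ^ 2 * S ≤ B2 ^ 2 / 2 := by
    have d1 : S ≤ 2 * B2 := by rw [← hk]; exact mul_le_mul_of_nonneg_right k3 hB0.le
    have d2 : 72 * C ^ 2 * q ^ 2 ≤ S := by
      have d4 : 72 * (C ^ 3 * q) ≤ 1 := by linarith [h.q1, h.d2, h.d0]
      have d3 : C * (72 * C ^ 2 * q ^ 2) ≤ C * S := by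
        linarith [mul_le_mul_of_nonneg_left d4 hq.le]
      exact le_of_mul_le_mul_left d3 (by linarith)
    have d5 := mul_le_mul_of_nonneg_right d2 hS0.le
    have d6 := mul_le_mul d1 d1 hS0.le (by positivity)
    linarith
  rw [c1]
  linarith [sq_nonneg (y * B2 + 2 * (γ * bt)), mul_le_mul_of_nonneg_left c2 (sq_nonneg γ),
    mul_le_mul_of_nonneg_left c3 (sq_nonneg y)]

lemma tm_le {C ε δ q N T bt : ℝ} (h : Sm C ε δ q) (hN : 0 < N) (hT1 : N / 2 ≤ T)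
    (u5 : bt ^ 2 ≤ C * q ^ 3 * N) (μ γ : ℝ) :
    125 * C * (C * q ^ 2 * N) * γ ^ 2 - q ^ 2 / 256 * μ ^ 2 ≤
      q ^ 2 / ε / T * (μ * bt + γ * T) ^ 2 := by
  have hC := h.C1
  have hq := h.q0
  have he := h.e0
  have hT0 : 0 < T := by linarith
  rw [div_div, div_mul_eq_mul_div (q ^ 2) (ε * T), le_div_iff₀ (by positivity)]
  have c1 : 125 * C * (C * N) * (ε * T) ≤ T ^ 2 / 2 := by
    linarith [mul_le_mul_of_nonneg_right h.e1 (by positivity : 0 ≤ N * T),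
      mul_le_mul_of_nonneg_right hT1 hT0.le]
  have c2 : bt ^ 2 ≤ ε * T / 256 := by
    have d1 : 512 * (C * q ^ 3) ≤ ε := by
      have d2 : q ^ 2 ≤ 1 := by nlinarith [h.q4, h.d2]
      have := mul_le_mul_of_nonneg_left d2 (by positivity : 0 ≤ C * q)
      linarith [h.q3, h.d1]
    linarith [mul_le_mul_of_nonneg_right d1 hN.le, mul_le_mul_of_nonneg_left hT1 he.le]
  have c3 : 125 * C * (C * N) * (ε * T) * γ ^ 2 - ε * T / 256 * μ ^ 2 ≤ (μ * bt + γ * T) ^ 2 := by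
    linarith [sq_nonneg (2 * (μ * bt) + γ * T), mul_le_mul_of_nonneg_left c1 (sq_nonneg γ),
      mul_le_mul_of_nonneg_left c2 (sq_nonneg μ)]
  linarith [mul_le_mul_of_nonneg_left c3 (sq_nonneg q)]

/-- the scalar inequality -/
lemma core {C ε δ q N S B2 T bt A β Bq Cq Eq Fq Gq g2 k : ℝ} (h : Sm C ε δ q) (hN : 0 < N)
    (hS : q ≤ C * S) (hk : k * B2 = S) (hk1 : |k - 1| ≤ 3 * δ) (hB0 : 0 < B2)
    (hB : B2 ≤ 2 * (C * q)) (hT1 : N / 2 ≤ T) (hT2 : T ≤ N)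
    (e1 : 2 * q ^ 2 ≤ A - β + 2 * Bq - g2) (e3 : |Bq| ≤ C * q ^ 2)
    (v1 : -(δ * q ^ 2) ≤ Cq) (u2 : -(C * q ^ 2 * N) ≤ Gq) (u3 : Eq ^ 2 ≤ C * q ^ 4 * N)
    (u4 : Fq ^ 2 ≤ C * q ^ 4 * N) (u5 : bt ^ 2 ≤ C * q ^ 3 * N) (α μ γ : ℝ) :
    ε * q ^ 2 * (α ^ 2 + 2 * μ ^ 2 * B2 + 2 * γ ^ 2 * T) +
      ((g2 + q ^ 2 / 4) * α ^ 2 + 32 * C * (δ * q ^ 2) * μ ^ 2 + 32 * C * (C * q ^ 2 * N) * γ ^ 2) ≤
    α ^ 2 * A + 2 * α * μ * Bq + μ ^ 2 * Cq + 2 * α * γ * Eq + 2 * μ * γ * Fq + γ ^ 2 * Gq -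
      β * α ^ 2 + S⁻¹ * (α * S - μ * B2 - γ * bt) ^ 2 + q ^ 2 / ε / T * (μ * bt + γ * T) ^ 2 := by
  have hC := h.C1
  have hq := h.q0
  have he := h.e0
  have hd := h.d0
  obtain ⟨k1, k2⟩ := abs_le.1 hk1
  have k3 : k ≤ 2 := by linarith [h.d2]
  have k4 : 0 < k := by linarith [h.d2]
  have hS0 : 0 < S := hk ▸ mul_pos k4 hB0
  obtain ⟨y, hμ⟩ : ∃ y, μ = α * k + y := ⟨μ - α * k, by ring⟩
  have b1 := sg_le h hN hS hk k3 hS0 hB0 u5 α y γ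
  rw [← hμ] at b1
  have b2 := tm_le h hN hT1 u5 μ γ
  have a3 : 2 * α * μ * Bq = 2 * α ^ 2 * Bq + 2 * (α ^ 2 * ((k - 1) * Bq)) + 2 * α * y * Bq := by
    rw [hμ]; ring
  have hα := sq_nonneg α
  have hμ2 : μ ^ 2 ≤ 8 * α ^ 2 + 2 * y ^ 2 := by
    have : k * k ≤ 2 * 2 := mul_le_mul k3 k3 k4.le (by norm_num)
    rw [hμ]
    linarith [sq_nonneg (α * k - y), mul_le_mul_of_nonneg_left this hα]
  clear hμ
  generalize S⁻¹ * (α * S - μ * B2 - γ * bt) ^ 2 = X1 at b1 ⊢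
  generalize q ^ 2 / ε / T * (μ * bt + γ * T) ^ 2 = X2 at b2 ⊢
  have hq2 : 0 < q ^ 2 := by positivity
  have hγ := sq_nonneg γ
  have hμ0 := sq_nonneg μ
  have a1 : -(q ^ 2 / 8 * α ^ 2 + 8 * C ^ 2 * q ^ 2 * y ^ 2) ≤ 2 * α * y * Bq :=
    cr (by positivity) (by positivity) (by
      linarith [sq_le_sq' (abs_le.1 e3).1 (abs_le.1 e3).2])
  have a2 : -(3 * δ * (C * q ^ 2)) ≤ (k - 1) * Bq := by
    have : |(k - 1) * Bq| ≤ 3 * δ * (C * q ^ 2) := by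
      rw [abs_mul]; exact mul_le_mul hk1 e3 (abs_nonneg _) (by positivity)
    exact (abs_le.1 this).1
  have a4 := mul_le_mul_of_nonneg_left a2 hα
  have a5 := mul_le_mul_of_nonneg_left v1 hμ0
  have a6 : -(q ^ 2 / 8 * α ^ 2 + 8 * (C * q ^ 2 * N) * γ ^ 2) ≤ 2 * α * γ * Eq :=
    cr (by positivity) (by positivity) (by linarith)
  have a7 : -(q ^ 2 / 64 * μ ^ 2 + 64 * (C * q ^ 2 * N) * γ ^ 2) ≤ 2 * μ * γ * Fq :=
    cr (by positivity) (by positivity) (by linarith)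
  have a8 := mul_le_mul_of_nonneg_left u2 hγ
  have a9 := mul_le_mul_of_nonneg_left e1 hα
  have m1 : ε * q ^ 2 * (2 * μ ^ 2 * B2) ≤ q ^ 2 / 256 * μ ^ 2 := by
    have d0 : ε * B2 ≤ 1 * 1 / 512 := by
      have := mul_le_mul (show ε ≤ 1 by linarith [h.e2]) (show B2 ≤ 1 / 512 by
        linarith [h.q3, h.d2]) hB0.le zero_le_one
      linarith
    linarith [mul_le_mul_of_nonneg_left d0 (by positivity : 0 ≤ q ^ 2 * μ ^ 2)]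
  have m2 : (32 * C + 1) * (δ * q ^ 2) * μ ^ 2 ≤ q ^ 2 / 256 * μ ^ 2 := by
    have d1 : (32 * C + 1) * δ ≤ 1 / 256 := by linarith [h.dC, h.d2]
    linarith [mul_le_mul_of_nonneg_left d1 (by positivity : 0 ≤ q ^ 2 * μ ^ 2)]
  have m3 : q ^ 2 * μ ^ 2 ≤ q ^ 2 * (8 * α ^ 2 + 2 * y ^ 2) := mul_le_mul_of_nonneg_left hμ2 hq2.le
  have m4 : q ^ 2 * y ^ 2 ≤ C ^ 2 * q ^ 2 * y ^ 2 := by
    have : 1 ≤ C ^ 2 := by linarith [h.C2]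
    linarith [mul_le_mul_of_nonneg_left this (by positivity : 0 ≤ q ^ 2 * y ^ 2)]
  have m5 : (6 * (C * δ) + ε) * (q ^ 2 * α ^ 2) ≤ 1 / 4 * (q ^ 2 * α ^ 2) :=
    mul_le_mul_of_nonneg_right (by linarith [h.dC, h.e2]) (by positivity)
  have m6 : ε * q ^ 2 * (2 * γ ^ 2 * T) ≤ C * q ^ 2 * N * γ ^ 2 := by
    have d1 : 2 * (ε * T) ≤ C * N := by
      linarith [mul_le_mul_of_nonneg_left hT2 he.le, mul_le_mul_of_nonneg_right h.e2 hN.le,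
        mul_le_mul_of_nonneg_right hC hN.le]
    linarith [mul_le_mul_of_nonneg_left d1 (by positivity : 0 ≤ q ^ 2 * γ ^ 2)]
  have m10 : 0 ≤ C * q ^ 2 * N * γ ^ 2 := by positivity
  have m7 := mul_le_mul_of_nonneg_left hC m10
  have m8 : 0 ≤ q ^ 2 * α ^ 2 := by positivity
  have m9 : 0 ≤ q ^ 2 * y ^ 2 := by positivity
  have m11 : 0 ≤ q ^ 2 * μ ^ 2 := by positivity
  rw [a3]
  linarith

lemma zz_bd {t : ℝ} (h1 : t ≤ 1 / 2) : 2 ≤ zz (1 - t) ∧ zz (1 - t) ≤ 2 + 2 * t ^ 2 := by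
  have h : 0 < 1 - t := by linarith
  have e : zz (1 - t) = 2 + t ^ 2 / (1 - t) := by unfold zz; field_simp; ring
  have h2 : t ^ 2 / (1 - t) ≤ 2 * t ^ 2 := by
    rw [div_le_iff₀ h]; nlinarith [sq_nonneg t]
  have h3 : 0 ≤ t ^ 2 / (1 - t) := by positivity
  constructor <;> linarith

/-- the scalar consequences of `s1 s2 s3` -/
lemma sfacts {C ε δ q a B2 : ℝ} (h : Sm C ε δ q) (s1 : q / C ≤ 2 - a) (s2 : 2 - a ≤ C * q)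
    (s3 : |B2 - (2 - a)| ≤ δ * (2 - a)) :
    q ≤ C * (zz (gg ε q) - a) ∧ 0 < B2 ∧ B2 ≤ 2 * (C * q) ∧ q ≤ 2 * (C * B2) ∧
      |(zz (gg ε q) - a) / B2 - 1| ≤ 3 * δ ∧ 0 < zz (gg ε q) - a ∧
      1 - 2 * δ ≤ B2 / (zz (gg ε q) - a) := by
  have hC := h.C1
  have hq := h.q0
  have he := h.e0
  have hd := h.d0
  have he2 : ε ^ 2 ≤ 1 := by nlinarith [h.e2]
  have ht : ε ^ 2 * q ≤ q := by linarith [mul_le_mul_of_nonneg_right he2 hq.le]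
  obtain ⟨z1, z2⟩ := zz_bd (t := ε ^ 2 * q) (by linarith [h.q4, h.d2])
  rw [div_le_iff₀ (by linarith)] at s1
  obtain ⟨b1, b2⟩ := abs_le.1 s3
  change 2 ≤ zz (gg ε q) at z1
  change zz (gg ε q) ≤ _ at z2
  generalize zz (gg ε q) = z at z1 z2 ⊢
  obtain ⟨s, rfl⟩ : ∃ s, a = 2 - s := ⟨2 - a, by ring⟩
  rw [sub_sub_cancel] at s1 s2 b1 b2
  have hs : 0 < s := by
    by_contra hc
    linarith [mul_nonneg (by linarith : 0 ≤ -s) (by linarith : (0 : ℝ) ≤ C)]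
  have hds : δ * s ≤ 1 / 256000 * s := mul_le_mul_of_nonneg_right (by linarith [h.d2]) hs.le
  have hr : z - 2 ≤ δ * s / 2 := by
    have c1 : (ε ^ 2 * q) ^ 2 ≤ q ^ 2 := pow_le_pow_left₀ (by positivity) ht 2
    linarith [mul_le_mul_of_nonneg_left s1 hq.le, mul_le_mul_of_nonneg_right h.q3 hs.le,
      mul_pos hd hs]
  have hB : 0 < B2 := by linarith
  have hS : 0 < z - (2 - s) := by linarith
  refine ⟨?_, hB, by linarith, ?_, ?_, hS, ?_⟩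
  · linarith [mul_nonneg (by linarith : (0 : ℝ) ≤ C) (by linarith : 0 ≤ z - 2)]
  · linarith [mul_le_mul_of_nonneg_left (show s ≤ 2 * B2 by linarith) (by linarith : (0 : ℝ) ≤ C)]
  · have c1 : δ * s ≤ δ * (2 * B2) := mul_le_mul_of_nonneg_left (by linarith) hd.le
    rw [div_sub_one hB.ne', abs_div, abs_of_pos hB, div_le_iff₀ hB, abs_le]
    constructor <;> linarith [mul_pos hd hs]
  · rw [le_div_iff₀ hS]
    linarith [mul_nonneg hd.le (by linarith : 0 ≤ z - 2), mul_pos hd hs]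

variable {n : ℕ}

lemma cs (x y : V n) : (x ⬝ᵥ y) ^ 2 ≤ (x ⬝ᵥ x) * (y ⬝ᵥ y) := by
  have := Finset.sum_mul_sq_le_sq_mul_sq Finset.univ x y
  simpa only [dotProduct, sq] using this

lemma bv_eq (e c : V n) : bv e c = c - (e ⬝ᵥ c) • e := by
  rw [bv, R1, Matrix.sub_mulVec, Matrix.one_mulVec, vmv_mulVec]

lemma proj1 {e : V n} (he : e ⬝ᵥ e = 1) : IsProj (R1 e) ∧ R1 e *ᵥ e = 0 := by
  have h0 : R1 e *ᵥ e = 0 := by
    rw [R1, Matrix.sub_mulVec, Matrix.one_mulVec, vmv_mulVec, he, one_smul, sub_self]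
  refine ⟨⟨by rw [R1, Matrix.transpose_sub, Matrix.transpose_one, Matrix.transpose_vecMulVec], ?_⟩,
    h0⟩
  conv_lhs => enter [2]; rw [R1]
  rw [Matrix.mul_sub, Matrix.mul_one, Matrix.mul_vecMulVec, h0]
  simp

lemma proj3 {e : V n} (he : e ⬝ᵥ e = 1) (c τ : V n) : IsProj (P3 e c τ) ∧ P3 e c τ *ᵥ e = 0 ∧
    P3 e c τ *ᵥ bv e c = 0 ∧ P3 e c τ *ᵥ τ = 0 := by
  obtain ⟨h1, h0⟩ := proj1 he
  have h2 : IsProj (P2 e c) := h1.nextR c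
  have h3 : P3 e c τ *ᵥ e = 0 := nextR_mulVec_of h2 τ (nextR_mulVec_of h1 c h0)
  have h4 : P3 e c τ *ᵥ c = 0 := nextR_mulVec_of h2 τ (nextR_v h1 c)
  refine ⟨h2.nextR τ, h3, ?_, nextR_v h2 τ⟩
  rw [bv_eq, Matrix.mulVec_sub, Matrix.mulVec_smul, h3, h4, smul_zero, sub_zero]

lemma decomp (e c τ u : V n) :
    ∃ α μ γ : ℝ, u = α • e + μ • bv e c + γ • τ + P3 e c τ *ᵥ u := by
  have h2 : ∀ x : V n, ∃ a m : ℝ, P2 e c *ᵥ x = x - a • e - m • bv e c := fun x =>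
    ⟨e ⬝ᵥ x, (dirv (R1 e) c ⬝ᵥ x) * (len (bv e c))⁻¹, by
      rw [P2, nextR, Matrix.sub_mulVec, vmv_mulVec, ← smul_smul, ← bv_eq]; rfl⟩
  obtain ⟨a, m, hu⟩ := h2 u
  obtain ⟨a', m', ht⟩ := h2 τ
  have h3 : P3 e c τ *ᵥ u = P2 e c *ᵥ u -
      ((dirv (P2 e c) τ ⬝ᵥ u) * (len (P2 e c *ᵥ τ))⁻¹) • (P2 e c *ᵥ τ) := by
    rw [P3, nextR, Matrix.sub_mulVec, vmv_mulVec, ← smul_smul]; rfl
  generalize (dirv (P2 e c) τ ⬝ᵥ u) * (len (P2 e c *ᵥ τ))⁻¹ = g at h3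
  refine ⟨a - g * a', m - g * m', g, ?_⟩
  rw [h3, hu, ht]
  module

lemma dg_symm (D x y : V n) : x ⬝ᵥ diagonal D *ᵥ y = y ⬝ᵥ diagonal D *ᵥ x := by
  rw [dot_symm (Matrix.diagonal_transpose D), dotProduct_comm]

lemma dg_lo {D : V n} {t : ℝ} (hD : ∀ i, -t ≤ D i) (w : V n) :
    -(t * (w ⬝ᵥ w)) ≤ w ⬝ᵥ diagonal D *ᵥ w := by
  simp only [dotProduct, Matrix.mulVec_diagonal, Finset.mul_sum, ← Finset.sum_neg_distrib]
  exact Finset.sum_le_sum fun i _ => by nlinarith [hD i, mul_self_nonneg (w i)]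

lemma fs {C ε δ q β : ℝ} {D e c τ : V n} (h : Sm C ε δ q) (h9 : 512 * C ^ 2 * δ ≤ ε ^ 9)
    (hn : 0 < n) (s : St C δ q D β e c τ) : FS ε q e c τ := by
  have hN : (0 : ℝ) < n := Nat.cast_pos.2 hn
  have hC := h.C1
  have hq := h.q0
  have he := h.e0
  have hd := h.d0
  obtain ⟨-, hB, -, hB2, -, hS, hk⟩ := sfacts h s.s1 s.s2 s.s3
  have hx0 := sq_nonneg (unitv (bv e c) ⬝ᵥ τ)
  have hx1 : (unitv (bv e c) ⬝ᵥ τ) ^ 2 * (bv e c ⬝ᵥ bv e c) = (bv e c ⬝ᵥ τ) ^ 2 := by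
    conv_rhs => rw [← len_smul_unitv (bv e c)]
    rw [smul_dotProduct, smul_eq_mul, mul_pow, len_sq, mul_comm]
  have hx : (unitv (bv e c) ⬝ᵥ τ) ^ 2 ≤ 2 * C ^ 2 * q ^ 2 * n := by
    refine le_of_mul_le_mul_left ?_ hq
    have c1 := mul_le_mul_of_nonneg_left hB2 hx0
    have c2 := mul_le_mul_of_nonneg_left (hx1.trans_le s.u5) (by linarith : (0 : ℝ) ≤ C)
    linarith
  have hq1 : q ≤ 1 := by linarith [h.q4, h.d2]
  have hcq : 200 * (C ^ 2 * q ^ 2) ≤ δ := by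
    linarith [h.q2, mul_le_mul_of_nonneg_left hq1 (by positivity : 0 ≤ C ^ 2 * q)]
  have hdn : δ * n ≤ 1 / 256000 * n := mul_le_mul_of_nonneg_right (by linarith [h.d2]) hN.le
  refine ⟨s.unit, s.orth, by linarith [s.t1], s.t2, hS, ?_, ?_⟩
  · linarith [mul_le_mul_of_nonneg_right hcq hN.le]
  · have he2 : ε ^ 2 ≤ 1 := by nlinarith [h.e2]
    have ht : ε ^ 2 * (2 * q) ≤ 2 * q := by linarith [mul_le_mul_of_nonneg_right he2 hq.le]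
    have z2 : zz (gg ε (2 * q)) ≤ 2 + 2 * (ε ^ 2 * (2 * q)) ^ 2 :=
      (zz_bd (t := ε ^ 2 * (2 * q)) (by linarith [h.q4, h.d2])).2
    have c1 : (ε ^ 2 * (2 * q)) ^ 2 ≤ (2 * q) ^ 2 := pow_le_pow_left₀ (by positivity) ht 2
    have c2 : 200 * q ^ 2 ≤ δ := by linarith [h.q4, mul_le_mul_of_nonneg_left hq1 hq.le]
    have c3 : 1 - δ - 2 * C ^ 2 * q ^ 2 ≤ (τ ⬝ᵥ τ - (unitv (bv e c) ⬝ᵥ τ) ^ 2) / n := by
      rw [le_div_iff₀ hN]; linarith [s.t1]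
    have c4 : zz (gg ε (2 * q)) - bv e c ⬝ᵥ bv e c / (zz (gg ε q) - e ⬝ᵥ c) -
        (τ ⬝ᵥ τ - (unitv (bv e c) ⬝ᵥ τ) ^ 2) / n ≤ 4 * δ := by linarith
    calc _ ≤ (unitv (bv e c) ⬝ᵥ τ) ^ 2 * (4 * δ) := mul_le_mul_of_nonneg_left c4 hx0
      _ ≤ 2 * C ^ 2 * q ^ 2 * n * (4 * δ) := mul_le_mul_of_nonneg_right hx (by positivity)
      _ ≤ _ := by linarith [mul_le_mul_of_nonneg_right h9 (by positivity : 0 ≤ q ^ 2 * n)]

/-- removal of the component `w` -/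
lemma wcross {C ε δ q M₁ M₂ : ℝ} (h : Sm C ε δ q) {D : V n} (hD : ∀ i, -(3 * q) ≤ D i)
    (w : V n) {g x y : V n} (e2 : g ⬝ᵥ g ≤ C * q ^ 2) (hx : x ⬝ᵥ x ≤ M₁) (hy : y ⬝ᵥ y ≤ M₂)
    (α μ γ : ℝ) : -((g ⬝ᵥ g + q ^ 2 / 4) * α ^ 2 + 32 * C * M₁ * μ ^ 2 + 32 * C * M₂ * γ ^ 2) ≤
      2 * α * (w ⬝ᵥ g) + 2 * μ * (w ⬝ᵥ x) + 2 * γ * (w ⬝ᵥ y) + w ⬝ᵥ diagonal D *ᵥ w +
        (uu ε)⁻¹ * (w ⬝ᵥ w) := by
  have hC := h.C1
  have he := h.e0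
  have hw := dot_self_nonneg w
  have hg := dot_self_nonneg g
  obtain ⟨η, hη, h8⟩ : ∃ η : ℝ, 0 < η ∧ η * (8 * C) = 1 :=
    ⟨(8 * C)⁻¹, by positivity, inv_mul_cancel₀ (by positivity)⟩
  have hη1 : 8 * η ≤ 1 := by linarith [mul_le_mul_of_nonneg_left hC hη.le]
  have j1 : -((1 - η) * (w ⬝ᵥ w) * 1 ^ 2 + (g ⬝ᵥ g + q ^ 2 / 4) * α ^ 2) ≤ 2 * 1 * α * (w ⬝ᵥ g) := by
    refine cr (mul_nonneg (by linarith) hw) (by positivity) ((cs w g).trans ?_)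
    have c1 : η * (g ⬝ᵥ g) ≤ q ^ 2 / 8 := by
      have := mul_le_mul_of_nonneg_left e2 hη.le
      have c0 : η * (8 * C) * q ^ 2 = q ^ 2 := by rw [h8, one_mul]
      linarith
    have c2 : g ⬝ᵥ g ≤ (1 - η) * (g ⬝ᵥ g + q ^ 2 / 4) := by
      linarith [mul_le_mul_of_nonneg_right hη1 (sq_nonneg q), sq_nonneg q]
    linarith [mul_le_mul_of_nonneg_left c2 hw]
  have j2 : ∀ (x : V n) (M t : ℝ), x ⬝ᵥ x ≤ M →
      -(η / 4 * (w ⬝ᵥ w) * 1 ^ 2 + 32 * C * M * t ^ 2) ≤ 2 * 1 * t * (w ⬝ᵥ x) := by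
    intro x M t hx
    have hM : 0 ≤ M := (dot_self_nonneg x).trans hx
    refine cr (by positivity) (by positivity) ((cs w x).trans ?_)
    have c0 : η * (8 * C) * ((w ⬝ᵥ w) * M) = (w ⬝ᵥ w) * M := by rw [h8, one_mul]
    linarith [mul_le_mul_of_nonneg_left hx hw]
  have j6 : 1 - η / 2 + 3 * q ≤ (uu ε)⁻¹ := by
    have c1 : 1 - ε / 16 ≤ (uu ε)⁻¹ := by
      rw [uu, inv_eq_one_div, le_div_iff₀ (by positivity)]; nlinarith [sq_nonneg ε]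
    have c2 : ε / 16 + 3 * q ≤ η / 2 := by
      refine le_of_mul_le_mul_left ?_ (show (0 : ℝ) < C by linarith)
      linarith [h.eC, h.q3, h.d2]
    linarith
  linarith [j2 _ _ μ hx, j2 _ _ γ hy, dg_lo hD w, mul_le_mul_of_nonneg_right j6 hw]

lemma expand (D : V n) {e b τ w u : V n} {α μ γ : ℝ} (hu : u = α • e + μ • b + γ • τ + w)
    (ee : e ⬝ᵥ e = 1) (eb : e ⬝ᵥ b = 0) (et : e ⬝ᵥ τ = 0) (w1 : e ⬝ᵥ w = 0) (w2 : b ⬝ᵥ w = 0)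
    (w3 : τ ⬝ᵥ w = 0) : e ⬝ᵥ u = α ∧ b ⬝ᵥ u = μ * (b ⬝ᵥ b) + γ * (b ⬝ᵥ τ) ∧
    τ ⬝ᵥ u = μ * (b ⬝ᵥ τ) + γ * (τ ⬝ᵥ τ) ∧
    u ⬝ᵥ u - w ⬝ᵥ w ≤ α ^ 2 + 2 * μ ^ 2 * (b ⬝ᵥ b) + 2 * γ ^ 2 * (τ ⬝ᵥ τ) ∧
    u ⬝ᵥ diagonal D *ᵥ u = α ^ 2 * (e ⬝ᵥ diagonal D *ᵥ e) +
      2 * α * μ * (e ⬝ᵥ diagonal D *ᵥ b) + μ ^ 2 * (b ⬝ᵥ diagonal D *ᵥ b) +
      2 * α * γ * (e ⬝ᵥ diagonal D *ᵥ τ) + 2 * μ * γ * (b ⬝ᵥ diagonal D *ᵥ τ) +
      γ ^ 2 * (τ ⬝ᵥ diagonal D *ᵥ τ) + 2 * α * (w ⬝ᵥ diagonal D *ᵥ e) +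
      2 * μ * (w ⬝ᵥ diagonal D *ᵥ b) + 2 * γ * (w ⬝ᵥ diagonal D *ᵥ τ) + w ⬝ᵥ diagonal D *ᵥ w := by
  have i1 : e ⬝ᵥ u = α := by
    simp only [hu, dotProduct_add, dotProduct_smul, smul_eq_mul, ee, eb, et, w1]; ring
  have i2 : b ⬝ᵥ u = μ * (b ⬝ᵥ b) + γ * (b ⬝ᵥ τ) := by
    simp only [hu, dotProduct_add, dotProduct_smul, smul_eq_mul, dotProduct_comm b e, eb, w2]; ring
  have i3 : τ ⬝ᵥ u = μ * (b ⬝ᵥ τ) + γ * (τ ⬝ᵥ τ) := by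
    simp only [hu, dotProduct_add, dotProduct_smul, smul_eq_mul, dotProduct_comm τ e,
      dotProduct_comm τ b, et, w3]; ring
  have i4 : w ⬝ᵥ u = w ⬝ᵥ w := by
    simp only [hu, dotProduct_add, dotProduct_smul, smul_eq_mul, dotProduct_comm w e,
      dotProduct_comm w b, dotProduct_comm w τ, w1, w2, w3]; ring
  have i5 : u ⬝ᵥ u = α * α + μ * (μ * (b ⬝ᵥ b) + γ * (b ⬝ᵥ τ)) +
      γ * (μ * (b ⬝ᵥ τ) + γ * (τ ⬝ᵥ τ)) + w ⬝ᵥ w := by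
    conv_lhs => enter [1]; rw [hu]
    simp only [add_dotProduct, smul_dotProduct, smul_eq_mul, i1, i2, i3, i4]
  refine ⟨i1, i2, i3, ?_, ?_⟩
  · have := dot_self_nonneg (μ • b - γ • τ)
    simp only [sub_dotProduct, dotProduct_sub, smul_dotProduct, dotProduct_smul, smul_eq_mul,
      dotProduct_comm τ b] at this
    linarith
  · simp only [hu, Matrix.mulVec_add, Matrix.mulVec_smul, add_dotProduct, dotProduct_add,
      smul_dotProduct, dotProduct_smul, smul_eq_mul, dg_symm D b e, dg_symm D τ e, dg_symm D τ b,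
      dg_symm D e w, dg_symm D b w, dg_symm D τ w]
    ring

lemma le_main {C ε δ q β : ℝ} {D e c τ : V n} (h : Sm C ε δ q) (hn : 0 < n)
    (hD : ∀ i, -(3 * q) ≤ D i) (s : St C δ q D β e c τ) :
    Le ((ε * q ^ 2) • (1 - P3 e c τ)) (diagonal D - β • vecMulVec e e +
      (Sg (zz (gg ε q)) e c + Tm ε q τ) + (uu ε)⁻¹ • P3 e c τ) := by
  intro u
  have hN : (0 : ℝ) < n := Nat.cast_pos.2 hn
  obtain ⟨hS1, hB, hB1, -, hk, -, -⟩ := sfacts h s.s1 s.s2 s.s3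
  obtain ⟨hP, p1, p2, p3⟩ := proj3 s.unit c τ
  obtain ⟨α, μ, γ, hu⟩ := decomp e c τ u
  have hdn : δ * n ≤ 1 / 256000 * n := mul_le_mul_of_nonneg_right (by linarith [h.d2]) hN.le
  have key := core h hN hS1 (div_mul_cancel₀ _ hB.ne') hk hB hB1 (by linarith [s.t1]) s.t2 s.e1
    s.e3 s.v1 s.u2 s.u3 s.u4 s.u5 α μ γ
  have w0 : u ⬝ᵥ P3 e c τ *ᵥ u = (P3 e c τ *ᵥ u) ⬝ᵥ (P3 e c τ *ᵥ u) := (hP.dot_self u u).symm
  have w1 : e ⬝ᵥ P3 e c τ *ᵥ u = 0 := by rw [hP.dot, p1, zero_dotProduct]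
  have w2 : bv e c ⬝ᵥ P3 e c τ *ᵥ u = 0 := by rw [hP.dot, p2, zero_dotProduct]
  have w3 : τ ⬝ᵥ P3 e c τ *ᵥ u = 0 := by rw [hP.dot, p3, zero_dotProduct]
  have hz : zz (gg ε q) • e - c = (zz (gg ε q) - e ⬝ᵥ c) • e - bv e c := by rw [bv_eq]; module
  have eb : e ⬝ᵥ bv e c = 0 := by
    rw [bv_eq, dotProduct_sub, dotProduct_smul, s.unit, smul_eq_mul, mul_one, sub_self]
  have g1 : P3 e c τ *ᵥ u ⬝ᵥ diagonal D *ᵥ e = P3 e c τ *ᵥ u ⬝ᵥ bv e (diagonal D *ᵥ e) := by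
    rw [bv_eq e (diagonal D *ᵥ e), dotProduct_sub, dotProduct_smul, dotProduct_comm _ e, w1,
      smul_zero, sub_zero]
  have wc := wcross h hD (P3 e c τ *ᵥ u) s.e2 s.v2 s.u1 α μ γ
  obtain ⟨i1, i2, i3, i5, i6⟩ := expand D hu s.unit eb s.orth w1 w2 w3
  have j8 := mul_le_mul_of_nonneg_left i5 (mul_nonneg h.e0.le (sq_nonneg q))
  rw [g1] at i6
  have hsg : u ⬝ᵥ Sg (zz (gg ε q)) e c *ᵥ u = (zz (gg ε q) - e ⬝ᵥ c)⁻¹ *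
      (α * (zz (gg ε q) - e ⬝ᵥ c) - μ * (bv e c ⬝ᵥ bv e c) - γ * (bv e c ⬝ᵥ τ)) ^ 2 := by
    rw [Sg, hz, Matrix.smul_mulVec, vmv_mulVec, dotProduct_smul, dotProduct_smul,
      dotProduct_comm u, sub_dotProduct, smul_dotProduct, i1, i2]
    simp only [smul_eq_mul]
    ring
  have htm : u ⬝ᵥ Tm ε q τ *ᵥ u = q ^ 2 / ε / (τ ⬝ᵥ τ) *
      (μ * (bv e c ⬝ᵥ τ) + γ * (τ ⬝ᵥ τ)) ^ 2 := by
    rw [Tm, Matrix.smul_mulVec, vmv_mulVec, dotProduct_smul, dotProduct_smul,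
      dotProduct_comm u, i3, smul_eq_mul, smul_eq_mul, sq (μ * _ + _)]
  rw [← hsg, ← htm] at key
  simp only [Matrix.add_mulVec, Matrix.sub_mulVec, Matrix.smul_mulVec, Matrix.one_mulVec,
    vmv_mulVec, dotProduct_add, dotProduct_sub, dotProduct_smul, smul_eq_mul, w0,
    dotProduct_comm u e, i1]
  linarith

end Nm43

open Nm43 in
/-- **the 3 x 3 criterion** -/
theorem numStmt : NumStmt := by
  intro C hC
  have hC0 : 0 < C := by linarith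
  refine ⟨1 / (500 * C ^ 2), by positivity, fun ε hε => ?_⟩
  have he := hε.1
  have e1 : 500 * C ^ 2 * ε ≤ 1 := by
    have := hε.2
    rw [le_div_iff₀ (by positivity)] at this
    linarith
  have hC2 : 1 ≤ C ^ 2 := one_le_pow₀ hC
  have e2 : ε ≤ 1 := by linarith [mul_le_mul_of_nonneg_right hC2 he.le]
  have h9 : 512 * C ^ 2 * (ε ^ 9 / (512 * C ^ 2)) ≤ ε ^ 9 := le_of_eq (by field_simp)
  have hd : 0 < ε ^ 9 / (512 * C ^ 2) := by positivity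
  generalize ε ^ 9 / (512 * C ^ 2) = δ at h9 hd
  refine ⟨δ, hd, δ / (200 * C ^ 3), by positivity, fun n q β D e c τ hn hq hD s => ?_⟩
  have h : Sm C ε δ q := by
    refine ⟨hC, he, e1, hd, ?_, hq.1, ?_⟩
    · have : ε ^ 9 ≤ ε := pow_le_of_le_one he.le e2 (by norm_num)
      linarith [mul_le_mul_of_nonneg_right hC2 hd.le]
    · have := hq.2
      rw [le_div_iff₀ (by positivity)] at this
      linarith
  exact ⟨fs h h9 hn s, le_main h hn hD s⟩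

end Crest.Agent.T157.Qe

end
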