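import Crest.Agent.T157.DqC_9

/-!
# Row 157, part A2 (helper98): the quenched spherical bound (QS)

`μ` is any law of symmetric matrices which is invariant under the rotations of `ran P`.
* `gauss_quad` : `E exp(b·g + (g·g - g·B g)/2) = det B^{-1/2} exp(b·B⁻¹b/2)`;
* `det_pinch` : `det M ≤ c^k det (1 - P + P M P)`;
* the bound of `∫ exp((v+w)·W(v+w)/2) dμ` itself is `qs` in `QsB_98`.
-/

set_option autoImplicit false
set_option maxHeartbeats 400000
set_option linter.unusedSectionVars false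

noncomputable section

namespace Crest.Agent.T157.Qs

open Matrix Finset MeasureTheory ProbabilityTheory
open scoped ENNReal NNReal
open Crest.Agent.T157.E Crest.Agent.T157.Cond Crest.Agent.T157.Dq
open Crest.Agent.T157.Conc (ex ex_add ex_mono ex_zero)

variable {ι : Type*} [Fintype ι] [DecidableEq ι]

/-- symmetric with a positive form -/
structure PD (B : Matrix ι ι ℝ) : Prop where
  symm : Bᵀ = B
  pos : ∀ x : ι → ℝ, x ≠ 0 → 0 < x ⬝ᵥ B *ᵥ x

lemma herm_of {B : Matrix ι ι ℝ} (h : Bᵀ = B) : B.IsHermitian := by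
  rwa [Matrix.IsHermitian, conjTranspose_eq_transpose_of_trivial]

lemma PD.posDef {B : Matrix ι ι ℝ} (h : PD B) : B.PosDef :=
  Matrix.PosDef.of_dotProduct_mulVec_pos (herm_of h.symm) fun x hx => by simpa using h.pos x hx

lemma PD.det_pos {B : Matrix ι ι ℝ} (h : PD B) : 0 < B.det := h.posDef.det_pos

lemma PD.exists_solve {B : Matrix ι ι ℝ} (h : PD B) (b : ι → ℝ) : ∃ c, B *ᵥ c = b :=
  ⟨B⁻¹ *ᵥ b, by rw [mulVec_mulVec, mul_nonsing_inv _ (h.det_pos.ne'.isUnit), one_mulVec]⟩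

lemma gauss_det {B : Matrix ι ι ℝ} (h : PD B) :
    ∫⁻ x, ex ((x ⬝ᵥ x - x ⬝ᵥ B *ᵥ x) / 2) ∂gv ι = ex (-Real.log B.det / 2) := by
  have hD := dg_herm (herm_of h.symm)
  have hb := fun i => h.posDef.eigenvalues_pos i
  have := gauss_cv hD hb (G := fun _ => 1) measurable_const
  simp only [mul_one, lintegral_const, measure_univ] at this
  rw [this, ex, hD.det]
  congr 1
  rw [Real.log_prod fun i _ => (hb i).ne', ← Finset.sum_neg_distrib, Finset.sum_div, Real.exp_sum]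
  refine prod_congr rfl fun i _ => ?_
  rw [Real.sqrt_eq_rpow, ← Real.rpow_neg (hb i).le, Real.rpow_def_of_pos (hb i)]
  congr 1
  ring

/-- the Gaussian integral of an exponential quadratic form -/
theorem gauss_quad {B : Matrix ι ι ℝ} (h : PD B) {b c : ι → ℝ} (hc : B *ᵥ c = b) :
    ∫⁻ x, ex (b ⬝ᵥ x + (x ⬝ᵥ x - x ⬝ᵥ B *ᵥ x) / 2) ∂gv ι = ex (b ⬝ᵥ c / 2 - Real.log B.det / 2) := by
  have h1 := Kr.lintegral_gv_tilt c
    (G := fun x => ex (b ⬝ᵥ x - c ⬝ᵥ x + (x ⬝ᵥ x - x ⬝ᵥ B *ᵥ x) / 2)) (by fun_prop)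
  have e1 : ∀ g : ι → ℝ, ENNReal.ofReal (Real.exp (c ⬝ᵥ g)) *
      ex (b ⬝ᵥ g - c ⬝ᵥ g + (g ⬝ᵥ g - g ⬝ᵥ B *ᵥ g) / 2) =
      ex (b ⬝ᵥ g + (g ⬝ᵥ g - g ⬝ᵥ B *ᵥ g) / 2) := fun g => by
    rw [← ex, ← ex_add]; congr 1; ring
  have e2 : ∀ g : ι → ℝ, ex (b ⬝ᵥ (g + c) - c ⬝ᵥ (g + c) +
      ((g + c) ⬝ᵥ (g + c) - (g + c) ⬝ᵥ B *ᵥ (g + c)) / 2) =
      ex (b ⬝ᵥ c / 2 - c ⬝ᵥ c / 2) * ex ((g ⬝ᵥ g - g ⬝ᵥ B *ᵥ g) / 2) := fun g => by
    rw [← ex_add]; congr 1
    have : c ⬝ᵥ B *ᵥ g = b ⬝ᵥ g := by rw [dot_symm h.symm, hc]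
    simp only [mulVec_add, add_dotProduct, dotProduct_add, hc, this, dotProduct_comm g c,
      dotProduct_comm g b, dotProduct_comm c b]
    ring
  simp only [e1, e2] at h1
  rw [h1, lintegral_const_mul _ (by fun_prop), gauss_det h, ← ex, ← ex_add, ← ex_add]
  congr 1; ring

lemma det_proj {P : Matrix ι ι ℝ} (hP : IsProj P) {m : ℕ} (hm : P.trace = m) (s t : ℝ) :
    (s • (1 - P) + t • P).det = s ^ (Fintype.card ι - m) * t ^ m ∧ m ≤ Fintype.card ι := by
  obtain ⟨O, hO, e⟩ := dg_herm (herm_of hP.symm)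
  set d := (herm_of hP.symm).eigenvalues
  have hO' : Oᵀ * O = 1 := mul_eq_one_comm.1 hO
  have hd : diagonal d = Oᵀ * P * O := by
    rw [e]; simp only [← Matrix.mul_assoc, hO', Matrix.one_mul]
    rw [Matrix.mul_assoc, hO', Matrix.mul_one]
  have h2 : ∀ i, d i = 0 ∨ d i = 1 := fun i => by
    have : diagonal d * diagonal d = diagonal d := by
      rw [hd]
      calc Oᵀ * P * O * (Oᵀ * P * O) = Oᵀ * (P * (O * Oᵀ) * P) * O := by
            simp only [Matrix.mul_assoc]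
        _ = _ := by rw [hO, Matrix.mul_one, hP.idem]
    rw [diagonal_mul_diagonal] at this
    have h3 : d i * d i = d i := congrFun (diagonal_injective this) i
    rcases mul_eq_zero.1 (show d i * (d i - 1) = 0 by linear_combination h3) with h | h
    · exact Or.inl h
    · exact Or.inr (by linarith)
  have htr : ((univ.filter fun i => d i = 1).card : ℝ) = m := by
    rw [← hm, e, trace_mul_cycle, hO', Matrix.one_mul, trace_diagonal, card_filter]
    push_cast
    exact sum_congr rfl fun i _ => by rcases h2 i with h | h <;> simp [h]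
  have hc : (univ.filter fun i => d i = 1).card = m := by exact_mod_cast htr
  have hc' := card_filter_add_card_filter_not (s := (univ : Finset ι)) fun i => d i = 1
  rw [hc, card_univ] at hc'
  refine ⟨?_, by omega⟩
  have : Dg (s • (1 - P) + t • P) fun i => if d i = 1 then t else s := by
    refine ⟨O, hO, ?_⟩
    have : (diagonal fun i => if d i = 1 then t else s) = s • (1 - diagonal d) + t • diagonal d := by
      ext i j
      by_cases hij : i = j
      · subst hij; rcases h2 i with h | h <;> simp [h]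
      · simp [hij, one_apply_ne hij]
    rw [this]
    conv_lhs => rw [e]
    simp only [Matrix.mul_add, Matrix.add_mul, Matrix.mul_smul, Matrix.smul_mul, Matrix.mul_sub,
      Matrix.sub_mul, Matrix.mul_one, hO]
  rw [this.det, prod_ite, prod_const, prod_const, hc, mul_comm]
  congr 2
  omega

/-- the compression of `M` to `ran P`, completed by the identity -/
def cp (P M : Matrix ι ι ℝ) : Matrix ι ι ℝ := 1 - P + P * M * P

lemma quad_split {P : Matrix ι ι ℝ} (hP : IsProj P) (M : Matrix ι ι ℝ) (s t : ℝ) (x : ι → ℝ) :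
    x ⬝ᵥ (s • (1 - P) + t • (P * M * P)) *ᵥ x =
      s * (x ⬝ᵥ x - P *ᵥ x ⬝ᵥ P *ᵥ x) + t * (P *ᵥ x ⬝ᵥ M *ᵥ (P *ᵥ x)) := by
  rw [add_mulVec, smul_mulVec, smul_mulVec, sub_mulVec, one_mulVec, ← mulVec_mulVec,
    ← mulVec_mulVec, dotProduct_add, dotProduct_smul, dotProduct_smul, dotProduct_sub,
    hP.dot x (M *ᵥ _), hP.dot_self, smul_eq_mul, smul_eq_mul]

lemma pd_split {P M : Matrix ι ι ℝ} (hP : IsProj P) (hM : Mᵀ = M)
    (h : ∀ x, P *ᵥ x = x → x ≠ 0 → 0 < x ⬝ᵥ M *ᵥ x) {s t : ℝ} (hs : 0 < s) (ht : 0 < t) :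
    PD (s • (1 - P) + t • (P * M * P)) := by
  refine ⟨by simp [transpose_mul, hP.symm, hM, Matrix.mul_assoc], fun x hx => ?_⟩
  rw [quad_split hP]
  have h1 := hP.dot_le x
  by_cases h0 : P *ᵥ x = 0
  · have : 0 < x ⬝ᵥ x := lt_of_le_of_ne (dot_self_nonneg x) fun h =>
      hx (dotProduct_self_eq_zero.1 h.symm)
    simp [h0, mul_pos hs this]
  · have := h _ (hP.mulVec_mulVec x) h0
    nlinarith [mul_pos ht this, mul_nonneg hs.le (sub_nonneg.2 h1)]

lemma det_split {P : Matrix ι ι ℝ} (hP : IsProj P) {m : ℕ} (hm : P.trace = m) (M : Matrix ι ι ℝ)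
    (s t : ℝ) : (s • (1 - P) + t • (P * M * P)).det =
      s ^ (Fintype.card ι - m) * t ^ m * (cp P M).det := by
  rw [← (det_proj hP hm s t).1, ← det_mul, cp]
  congr 1
  have h1 : P * (P * M * P) = P * M * P := by
    rw [← Matrix.mul_assoc, ← Matrix.mul_assoc, hP.idem]
  simp only [Matrix.add_mul, Matrix.mul_add, Matrix.smul_mul, Matrix.sub_mul, Matrix.mul_sub,
    Matrix.one_mul, Matrix.mul_one, hP.idem, h1, sub_self, smul_zero, sub_zero, add_zero, zero_add]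
  abel

lemma pd_cp {P M : Matrix ι ι ℝ} (hP : IsProj P) (hM : Mᵀ = M)
    (h : ∀ x, P *ᵥ x = x → x ≠ 0 → 0 < x ⬝ᵥ M *ᵥ x) : PD (cp P M) := by
  simpa [cp] using pd_split hP hM h one_pos one_pos

lemma ex_mid (a b : ℝ) : 2 * ex ((a + b) / 2) ≤ ex a + ex b := by
  rw [ex, ex, ex, ← ENNReal.ofReal_add (Real.exp_pos _).le (Real.exp_pos _).le,
    ← ENNReal.ofReal_ofNat, ← ENNReal.ofReal_mul (by norm_num)]
  refine ENNReal.ofReal_le_ofReal ?_
  have ha : Real.exp a = Real.exp (a / 2) ^ 2 := by rw [← Real.exp_nat_mul]; congr 1; push_cast; ring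
  have hb : Real.exp b = Real.exp (b / 2) ^ 2 := by rw [← Real.exp_nat_mul]; congr 1; push_cast; ring
  rw [ha, hb, add_div, Real.exp_add]
  nlinarith [sq_nonneg (Real.exp (a / 2) - Real.exp (b / 2))]

lemma refl_orth {P : Matrix ι ι ℝ} (hP : IsProj P) :
    (1 - (2 : ℝ) • P) * (1 - (2 : ℝ) • P)ᵀ = 1 := by
  simp only [transpose_sub, transpose_one, transpose_smul, hP.symm, Matrix.mul_sub, Matrix.sub_mul,
    Matrix.one_mul, Matrix.mul_one, Matrix.smul_mul, Matrix.mul_smul, hP.idem]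
  module

/-- the determinant is monotone -/
lemma det_mono {A B : Matrix ι ι ℝ} (hA : PD A) (hB : Bᵀ = B)
    (h : ∀ x, x ⬝ᵥ A *ᵥ x ≤ x ⬝ᵥ B *ᵥ x) : A.det ≤ B.det := by
  have hB' : PD B := ⟨hB, fun x hx => (hA.pos x hx).trans_le (h x)⟩
  have : ex (-Real.log B.det / 2) ≤ ex (-Real.log A.det / 2) := by
    rw [← gauss_det hA, ← gauss_det hB']
    exact lintegral_mono fun x => ex_mono (by linarith [h x])
  rw [Conc.ex_le_iff] at this
  exact (Real.log_le_log_iff hA.det_pos hB'.det_pos).1 (by linarith)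

/-- pinching: `det M ≤ c^k det (1 - P + P M P)` if `0 < M`, `M ≤ c` on `ker P` -/
theorem det_pinch {P M : Matrix ι ι ℝ} (hP : IsProj P) {m : ℕ} (hm : P.trace = m) (hM : PD M)
    {c : ℝ} (hc : 0 < c) (h : ∀ x, P *ᵥ x = 0 → x ⬝ᵥ M *ᵥ x ≤ c * (x ⬝ᵥ x)) :
    M.det ≤ c ^ (Fintype.card ι - m) * (cp P M).det := by
  have hB := pd_split hP hM.symm (fun x _ hx => hM.pos x hx) hc one_pos
  have hd := det_split hP hm M c 1
  rw [one_pow, mul_one] at hd
  rw [← hd]
  set O : Matrix ι ι ℝ := 1 - (2 : ℝ) • P with hO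
  have hOO : O * Oᵀ = 1 := refl_orth hP
  have hOt : Oᵀ = O := by simp [hO, hP.symm]
  have hq : ∀ x, x ⬝ᵥ (O * M * O) *ᵥ x = O *ᵥ x ⬝ᵥ M *ᵥ (O *ᵥ x) := fun x => by
    rw [← mulVec_mulVec, ← mulVec_mulVec, dot_symm hOt]
  have hM' : PD (O * M * O) := ⟨by simp [transpose_mul, hOt, hM.symm, Matrix.mul_assoc],
    fun x hx => by
      rw [hq]
      refine hM.pos _ fun h0 => hx ?_
      rw [← one_mulVec x, ← hOO, hOt, ← mulVec_mulVec, h0, mulVec_zero]⟩
  have hdet : (O * M * O).det = M.det := by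
    have := congrArg det hOO
    rw [det_mul, hOt, det_one] at this
    rw [det_mul, det_mul]; linear_combination M.det * this
  have key : 2 * ex (-Real.log (c • (1 - P) + (1 : ℝ) • (P * M * P)).det / 2) ≤
      2 * ex (-Real.log M.det / 2) := by
    conv_rhs => rw [two_mul]; enter [2]; rw [← hdet, ← gauss_det hM']
    rw [← gauss_det hM, ← gauss_det hB, ← lintegral_add_left (by fun_prop),
      ← lintegral_const_mul _ (by fun_prop)]
    refine lintegral_mono fun x => le_trans (mul_le_mul_right (ex_mono ?_) 2) (ex_mid _ _)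
    rw [quad_split hP, hq]
    set w := P *ᵥ x with hw
    have hx : x = (x - w) + w := by abel
    have hOx : O *ᵥ x = (x - w) - w := by
      rw [hO, sub_mulVec, one_mulVec, smul_mulVec, ← hw]; module
    have h0 : P *ᵥ (x - w) = 0 := by rw [mulVec_sub, hw, hP.mulVec_mulVec, sub_self]
    have h1 := h _ h0
    have h2 : (x - w) ⬝ᵥ (x - w) = x ⬝ᵥ x - w ⬝ᵥ w := by
      have : w ⬝ᵥ w = x ⬝ᵥ w := hP.dot_self x x
      simp only [sub_dotProduct, dotProduct_sub, dotProduct_comm w x]; linarith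
    rw [hOx, ← h2]
    generalize x - w = v at *
    have h3 : x ⬝ᵥ M *ᵥ x = (v + w) ⬝ᵥ M *ᵥ (v + w) := by rw [← hx]
    rw [h3]
    simp only [mulVec_add, mulVec_sub, add_dotProduct, sub_dotProduct, dotProduct_add,
      dotProduct_sub]
    linarith
  rw [ENNReal.mul_le_mul_iff_right (by norm_num) (by norm_num), Conc.ex_le_iff] at key
  exact (Real.log_le_log_iff hM.det_pos hB.det_pos).1 (by linarith)

end Crest.Agent.T157.Qs
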