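import Crest.Agent.T157.RegDef_94

/-!
# Row 157, part B, REG: the leaf `BoGlue` (helper13)
-/

set_option autoImplicit false

noncomputable section

namespace Crest.Agent.T157.Reg

open Matrix Real Filter Topology Finset
open Crest.Agent.T157.E hiding mean
open Crest.Agent.T157.Tap (V Mx)
open Crest.Agent.T157.Rec (grad fl)

namespace Bo13

/-- the Bochner inequality at one site -/
lemma site {n : ℕ} (T a D w : Fin n → ℝ) {ξ σ h c k : ℝ} (hT : ∀ j, 0 ≤ T j ∧ T j ≤ 1)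
    (hr : ∀ j, 0 ≤ T j + a j ∧ T j + a j ≤ 1) (ha : ∀ j, |a j| ≤ c * |w j| * T j)
    (hw : ∑ j, w j ^ 2 ≤ k ^ 2) (c0 : 0 ≤ c) (k0 : 0 ≤ k) (h0 : 0 ≤ h)
    (h1 : 6 * (1 + c * k) * h * (n + 1) ≤ 1) :
    (ξ + h * (∑ j, (T j + a j) * D j - ξ + σ)) ^ 2 ≤
      ξ ^ 2 + h * ∑ j, T j * (2 * ξ * D j + D j ^ 2) + h * (2 * c ^ 2 * k ^ 2 * ξ ^ 2 + 2 * σ ^ 2) := by
  set Q := ∑ j, T j * D j ^ 2 with hQ
  have Q0 : 0 ≤ Q := sum_nonneg fun j _ => mul_nonneg (hT j).1 (sq_nonneg _)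
  have a1 : 2 * ξ * ∑ j, a j * D j ≤ Q / 2 + 2 * c ^ 2 * k ^ 2 * ξ ^ 2 := by
    have : ∀ j, 2 * ξ * (a j * D j) ≤ T j * D j ^ 2 / 2 + 2 * c ^ 2 * ξ ^ 2 * w j ^ 2 := fun j => by
      have e1 : 2 * ξ * (a j * D j) ≤ 2 * |a j| * (|ξ| * |D j|) := by
        refine (le_abs_self _).trans (le_of_eq ?_)
        simp only [abs_mul, abs_two]; ring
      have e2 : 2 * |a j| * (|ξ| * |D j|) ≤ 2 * (c * |w j| * T j) * (|ξ| * |D j|) :=
        mul_le_mul_of_nonneg_right (by linarith [ha j]) (by positivity)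
      have e3 : 2 * (c * |w j|) * (|ξ| * |D j|) ≤ D j ^ 2 / 2 + 2 * c ^ 2 * ξ ^ 2 * w j ^ 2 := by
        rw [← sq_abs (D j), ← sq_abs ξ, ← sq_abs (w j)]
        nlinarith [sq_nonneg (|D j| - 2 * c * |w j| * |ξ|)]
      have e4 := mul_le_mul_of_nonneg_left e3 (hT j).1
      have e5 : T j * (2 * c ^ 2 * ξ ^ 2 * w j ^ 2) ≤ 2 * c ^ 2 * ξ ^ 2 * w j ^ 2 :=
        mul_le_of_le_one_left (by positivity) (hT j).2
      nlinarith
    calc _ = ∑ j, 2 * ξ * (a j * D j) := mul_sum _ _ _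
      _ ≤ ∑ j, (T j * D j ^ 2 / 2 + 2 * c ^ 2 * ξ ^ 2 * w j ^ 2) := sum_le_sum fun j _ => this j
      _ = Q / 2 + 2 * c ^ 2 * ξ ^ 2 * ∑ j, w j ^ 2 := by
          rw [sum_add_distrib, ← sum_div, ← mul_sum]
      _ ≤ _ := by
          have := mul_le_mul_of_nonneg_left hw (show 0 ≤ 2 * c ^ 2 * ξ ^ 2 by positivity)
          linarith
  set A := ∑ j, (T j + a j) * D j with hA
  have a2 : A ^ 2 ≤ n * ((1 + c * k) * Q) := by
    have b1 := sq_sum_le_card_mul_sum_sq (s := (univ : Finset (Fin n)))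
      (f := fun j => (T j + a j) * D j)
    rw [card_univ, Fintype.card_fin] at b1
    refine b1.trans (mul_le_mul_of_nonneg_left ?_ n.cast_nonneg)
    rw [hQ, mul_sum]
    refine sum_le_sum fun j _ => ?_
    have w1 : |w j| ≤ k := abs_le_of_sq_le_sq' ((single_le_sum (f := fun j => w j ^ 2)
      (fun _ _ => sq_nonneg _) (mem_univ j)).trans hw) k0 |> abs_le.2
    have r1 : T j + a j ≤ (1 + c * k) * T j := by
      have := (le_abs_self _).trans (ha j)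
      have h2 : c * |w j| * T j ≤ c * k * T j :=
        mul_le_mul_of_nonneg_right (mul_le_mul_of_nonneg_left w1 c0) (hT j).1
      linarith
    have r2 : (T j + a j) ^ 2 ≤ (1 + c * k) * T j := by
      nlinarith [(hr j).1, (hr j).2]
    rw [mul_pow, ← mul_assoc]
    exact mul_le_mul_of_nonneg_right r2 (sq_nonneg _)
  have e1 : A = ∑ j, T j * D j + ∑ j, a j * D j := by
    rw [hA, ← sum_add_distrib]; exact sum_congr rfl fun j _ => by ring
  have e2 : ∑ j, T j * (2 * ξ * D j + D j ^ 2) = 2 * ξ * ∑ j, T j * D j + Q := by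
    rw [hQ, mul_sum, ← sum_add_distrib]; exact sum_congr rfl fun j _ => by ring
  have n0 : (0 : ℝ) ≤ n := n.cast_nonneg
  have ck : 0 ≤ c * k := mul_nonneg c0 k0
  have h2 : 3 * h ≤ 1 := by nlinarith [mul_nonneg h0 n0, mul_nonneg ck h0, mul_nonneg (mul_nonneg ck h0) n0]
  have h3 : 3 * h * (n * (1 + c * k)) ≤ 1 / 2 := by nlinarith [mul_nonneg ck h0]
  have a3 : 3 * h * A ^ 2 ≤ Q / 2 := by
    calc 3 * h * A ^ 2 ≤ 3 * h * (n * ((1 + c * k) * Q)) :=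
          mul_le_mul_of_nonneg_left a2 (by positivity)
      _ = 3 * h * (n * (1 + c * k)) * Q := by ring
      _ ≤ 1 / 2 * Q := mul_le_mul_of_nonneg_right h3 Q0
      _ = _ := by ring
  have a4 : h * (A - ξ + σ) ^ 2 ≤ 3 * h * A ^ 2 + 3 * h * ξ ^ 2 + 3 * h * σ ^ 2 := by
    have : (A - ξ + σ) ^ 2 ≤ 3 * A ^ 2 + 3 * ξ ^ 2 + 3 * σ ^ 2 := by
      nlinarith [sq_nonneg (A + ξ), sq_nonneg (A - σ), sq_nonneg (ξ + σ)]
    nlinarith [mul_le_mul_of_nonneg_left this h0]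
  have a5 : 3 * h * ξ ^ 2 ≤ ξ ^ 2 := mul_le_of_le_one_left (sq_nonneg _) h2
  have a6 : 3 * h * σ ^ 2 ≤ σ ^ 2 := mul_le_of_le_one_left (sq_nonneg _) h2
  have a7 : 2 * ξ * (A - ξ + σ) + h * (A - ξ + σ) ^ 2 ≤
      2 * ξ * ∑ j, T j * D j + Q + (2 * c ^ 2 * k ^ 2 * ξ ^ 2 + 2 * σ ^ 2) := by
    have : 2 * ξ * A = 2 * ξ * ∑ j, T j * D j + 2 * ξ * ∑ j, a j * D j := by rw [e1]; ring
    nlinarith [sq_nonneg (ξ - σ)]
  rw [e2]
  nlinarith [mul_le_mul_of_nonneg_left a7 h0]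

/-- the maximum principle at one site -/
lemma sup {n : ℕ} (r u : Fin n → ℝ) {ξ σ h y z : ℝ} (hr : ∀ j, 0 ≤ r j ∧ r j ≤ 1) (h0 : 0 ≤ h)
    (h1 : h * (n + 1) ≤ 1) (hξ : |ξ| ≤ y) (hu : ∀ j, |u j| ≤ y) (hσ : |σ| ≤ z) :
    |ξ + h * (∑ j, r j * (u j - ξ) - ξ + σ)| ≤ (1 - h) * y + h * z := by
  have e : ξ + h * (∑ j, r j * (u j - ξ) - ξ + σ) =
      (1 - h * ∑ j, r j - h) * ξ + h * ∑ j, r j * u j + h * σ := by
    simp only [mul_sub (r _), sum_sub_distrib, ← sum_mul]; ring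
  have s1 : ∑ j, r j ≤ n := by
    simpa using sum_le_sum (s := (univ : Finset (Fin n))) fun j _ => (hr j).2
  have p0 : 0 ≤ 1 - h * ∑ j, r j - h := by nlinarith [mul_le_mul_of_nonneg_left s1 h0]
  have s2 : |∑ j, r j * u j| ≤ (∑ j, r j) * y := by
    rw [sum_mul]
    refine (abs_sum_le_sum_abs _ _).trans (sum_le_sum fun j _ => ?_)
    rw [abs_mul, abs_of_nonneg (hr j).1]
    exact mul_le_mul_of_nonneg_left (hu j) (hr j).1
  rw [e]
  refine (abs_add_three _ _ _).trans ?_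
  rw [abs_mul, abs_mul, abs_mul, abs_of_nonneg p0, abs_of_nonneg h0]
  have t1 := mul_le_mul_of_nonneg_left hξ p0
  have t2 := mul_le_mul_of_nonneg_left s2 h0
  have t3 := mul_le_mul_of_nonneg_left hσ h0
  nlinarith

lemma row {n : ℕ} {W : Mx n} {K : ℝ} (h : Nice W K) (i : Fin n) : ∑ k, W i k ^ 2 ≤ |K| ^ 2 := by
  have n0 : (0 : ℝ) < n := by exact_mod_cast i.pos
  have b1 := sq_sum_le_card_mul_sum_sq (s := (univ : Finset (Fin n))) (f := fun k => W i k ^ 2)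
  rw [card_univ, Fintype.card_fin] at b1
  have b2 := h.2.2 i
  rw [le_div_iff₀ n0] at b2
  simp only [← pow_mul] at b1
  rw [sq_abs]
  exact abs_le_of_sq_le_sq' (by nlinarith) (sq_nonneg K) |>.2

end Bo13

open Bo13

/-- **`BoGlue`** -/
theorem boGlue : BoGlue := by
  intro b cf K
  obtain ⟨c, hc, H⟩ := cf K
  have c0 : 0 ≤ c := by linarith
  have k0 := abs_nonneg K
  have ck := mul_nonneg c0 k0
  have q0 : 0 ≤ 2 * c ^ 2 * |K| ^ 2 := by positivity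
  refine ⟨6 * (1 + c * |K|) + 2 * c ^ 2 * |K| ^ 2, by linarith, fun n W hW h h0 h1 ξ σ => ?_⟩
  have hn : 0 ≤ h * (n + 1) := by positivity
  have h2 : 6 * (1 + c * |K|) * h * (n + 1) ≤ 1 := by nlinarith [mul_nonneg q0 hn]
  have h3 : h * (n + 1) ≤ 1 := by nlinarith [mul_nonneg ck hn]
  refine ⟨fun x => ?_, fun y z hy hz x i => ?_⟩
  · obtain ⟨t1, t2, t3, -⟩ := H n W hW x
    have key := fun i => site (Tk W x) (al W x i) (jac ξ x i) (W i) (ξ := ξ x i) (σ := σ x i)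
      (fun j => ⟨(t1 j).1.le, (t1 j).2.le⟩) (t2 i) (fun j => (t3 i j).trans
        (mul_le_mul_of_nonneg_left (mul_le_of_le_one_right (t1 j).1.le (by linarith [(t1 j).1]))
          (mul_nonneg c0 (abs_nonneg _)))) (row hW i) c0 k0 h0 h2
    have e1 : sq2 (stp W h ξ σ) x = ∑ i, (ξ x i +
        h * (∑ j, (Tk W x j + al W x i j) * jac ξ x i j - ξ x i + σ x i)) ^ 2 := by
      simp only [sq2, dotProduct, stp, sq]
    have e2 : ∀ ω : VF n, ∀ z, sq2 ω z = ∑ i, ω z i ^ 2 := fun ω z => by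
      simp only [sq2, dotProduct, sq]
    have e3 : gen (mu W) (sq2 ξ) x =
        ∑ i, ∑ j, Tk W x j * (2 * ξ x i * jac ξ x i j + jac ξ x i j ^ 2) := by
      rw [b.gen_eq n W hW.1, sum_comm]
      refine sum_congr rfl fun j _ => ?_
      rw [e2, e2, ← sum_sub_distrib, ← mul_sum]
      congr 1
      exact sum_congr rfl fun i _ => by simp only [jac, of_apply]; ring
    rw [e1, Qh, e3]
    refine (sum_le_sum fun i _ => key i).trans ?_
    rw [sum_add_distrib, sum_add_distrib, ← mul_sum, ← mul_sum, sum_add_distrib, ← mul_sum,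
      ← mul_sum, ← e2, ← e2]
    have s0 : 0 ≤ sq2 ξ x := by rw [e2]; positivity
    have : 0 ≤ h * (6 * (1 + c * |K|) * sq2 ξ x) := by positivity
    nlinarith
  · exact sup (fun j => Tk W x j + al W x i j) (fun j => ξ (fl x j) i) ((H n W hW x).2.1 i) h0 h3
      (hy x i) (fun j => hy _ i) (hz x i)

end Crest.Agent.T157.Reg

end
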