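import Crest.Agent.T157.RegDefB_94

/-!
# Row 157, part B, REG: the bridge `ColGlue` (helper13)
-/

set_option autoImplicit false

noncomputable section

namespace Crest.Agent.T157.Reg

open Matrix Real Filter Topology Finset
open Crest.ProbabilityR.SpinGlassDynamics (disorderLaw gibbsWeight)
open Crest.Agent.T157.E hiding mean
open Crest.Agent.T157.Tap (V Mx)
open Crest.Agent.T157.Rec (grad fl)
open Crest.Agent.T157.Chain22 (sg IsP mean)

namespace Col13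

variable {n : ℕ}

lemma nice_mono {W : Mx n} {K K' : ℝ} (h : Nice W K) (K0 : 0 ≤ K) (hK : K ≤ K') : Nice W K' :=
  ⟨h.1, h.2.1.trans hK, fun i => (h.2.2 i).trans
    (div_le_div_of_nonneg_right (pow_le_pow_left₀ K0 hK 4) n.cast_nonneg)⟩

lemma wm_of {w f : Cube n → ℝ} (hw : ∀ x, 0 < w x) {H : ℝ} (hf : Rv.Warm w H f) :
    Wm w H fun x => prob w x * f x := by
  have p0 := (Chain22.isP_prob' hw).nn
  refine ⟨⟨fun x => mul_nonneg (p0 x) (hf.1 x).le, hf.2.1⟩, fun x => ?_⟩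
  exact (mul_le_mul_of_nonneg_left (hf.2.2 x) (p0 x)).trans_eq (mul_comm _ _)

lemma mean_of (w f F : Cube n → ℝ) :
    E.mean w (fun x => f x * F x) = mean (fun x => prob w x * f x) F := by
  simp only [E.mean, Chain22.mean, mul_assoc]

/-- the second moment of the field -/
lemma sq2_le {p : Cube n → ℝ} (hp : IsP p) (ω ω' : VF n) {s a b : ℝ} (hs : 0 < s)
    (h1 : mean p (fun x => ∑ k, ω' x k ^ 4) ≤ a) (h2 : mean p (sq2 (ω - ω')) ≤ b) :
    mean p (sq2 ω) ≤ a / s + n * s + 2 * b := by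
  have key : ∀ x, sq2 ω x ≤ s⁻¹ * ∑ k, ω' x k ^ 4 + n * s + 2 * sq2 (ω - ω') x := fun x => by
    have : ∀ k, ω x k * ω x k ≤ s⁻¹ * ω' x k ^ 4 + s +
        2 * ((ω x k - ω' x k) * (ω x k - ω' x k)) := fun k => by
      have h3 : 2 * ω' x k ^ 2 ≤ s⁻¹ * ω' x k ^ 4 + s := by
        have : s⁻¹ * ω' x k ^ 4 + s - 2 * ω' x k ^ 2 = s⁻¹ * (ω' x k ^ 2 - s) ^ 2 := by
          field_simp; ring
        have h4 : 0 ≤ s⁻¹ * (ω' x k ^ 2 - s) ^ 2 := by positivity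
        linarith
      nlinarith [sq_nonneg (ω x k - 2 * ω' x k)]
    calc sq2 ω x = ∑ k, ω x k * ω x k := rfl
      _ ≤ _ := sum_le_sum fun k _ => this k
      _ = _ := by
        rw [sum_add_distrib, sum_add_distrib, ← mul_sum, ← mul_sum, sum_const, card_univ,
          Fintype.card_fin, nsmul_eq_mul]
        rfl
  have e : ∑ x, p x * (s⁻¹ * ∑ k, ω' x k ^ 4 + n * s + 2 * sq2 (ω - ω') x) =
      s⁻¹ * mean p (fun x => ∑ k, ω' x k ^ 4) + (∑ x, p x) * (n * s) +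
        2 * mean p (sq2 (ω - ω')) := by
    simp only [Chain22.mean, mul_sum _ _ s⁻¹, mul_sum _ _ (2 : ℝ), sum_mul, ← sum_add_distrib]
    exact sum_congr rfl fun x _ => by rw [← mul_sum]; ring
  refine (sum_le_sum fun x _ => mul_le_mul_of_nonneg_left (key x) (hp.nn x)).trans ?_
  rw [e, hp.sum1, one_mul, div_eq_inv_mul]
  have := mul_le_mul_of_nonneg_left h1 (inv_pos.2 hs).le
  linarith

/-- the numerics -/
lemma num {C1 C2 P A e0 ρ0 H S N : ℝ} (c1 : 1 ≤ C1) (c2 : 1 ≤ C2) (hP : 11 * C2 * C1 ^ 2 ≤ P)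
    (A0 : 0 < A) (N0 : 0 ≤ N) (H0 : 0 ≤ H) (r0 : 0 ≤ ρ0) (hρ : P ^ 8 * ρ0 ≤ 1)
    (hz : N * e0 ^ 2 ≤ P ^ 2) (hq : P ^ 18 * (e0 ^ 2 * H) ≤ 1) (hs : P ^ 14 * (e0 ^ 2 * S) ≤ 2) :
    C2 * ((C1 * P * A ^ 2 * (ρ0 + N * e0 ^ 2 / (P ^ 5) ^ 2 + (P ^ 5) ^ 2 * e0 ^ 2 * H) +
        A ^ 2 / P ^ 7) +
      √((C1 * P * A ^ 2 * (ρ0 + N * e0 ^ 2 / (P ^ 5) ^ 2 + (P ^ 5) ^ 2 * e0 ^ 2 * H) +
        A ^ 2 / P ^ 7) * (4 * C1 * A ^ 2 * P ^ 3 + (C1 * P ^ 5 * P * A * e0) ^ 2 * H)) +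
      (C1 * P ^ 5 * P * A * e0) ^ 2 * S) ≤ A ^ 2 * P⁻¹ := by
  have c3 : 1 ≤ C1 ^ 2 := one_le_pow₀ c1
  have c4 : C1 ≤ C1 ^ 2 := by nlinarith
  have P1 : 1 ≤ P := by linarith [one_le_mul_of_one_le_of_one_le c2 c3]
  have P0 : 0 < P := by linarith
  have b1 : ρ0 ≤ 1 / P ^ 8 := by rw [le_div_iff₀' (by positivity)]; exact hρ
  have b2 : N * e0 ^ 2 / (P ^ 5) ^ 2 ≤ 1 / P ^ 8 := by
    refine (div_le_div_of_nonneg_right hz (by positivity)).trans (le_of_eq ?_)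
    field_simp
  have b3 : (P ^ 5) ^ 2 * e0 ^ 2 * H ≤ 1 / P ^ 8 := by
    rw [le_div_iff₀' (by positivity)]
    exact le_of_eq_of_le (by ring) hq
  set ρ := C1 * P * A ^ 2 * (ρ0 + N * e0 ^ 2 / (P ^ 5) ^ 2 + (P ^ 5) ^ 2 * e0 ^ 2 * H) +
    A ^ 2 / P ^ 7 with hρ1
  have ρ0' : 0 ≤ ρ := by positivity
  have b4 : ρ ≤ 4 * C1 * (A ^ 2 / P ^ 7) := by
    have h1 : C1 * P * A ^ 2 * (ρ0 + N * e0 ^ 2 / (P ^ 5) ^ 2 + (P ^ 5) ^ 2 * e0 ^ 2 * H) ≤
        C1 * P * A ^ 2 * (3 * (1 / P ^ 8)) :=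
      mul_le_mul_of_nonneg_left (by linarith) (by positivity)
    have h2 : C1 * P * A ^ 2 * (3 * (1 / P ^ 8)) = 3 * C1 * (A ^ 2 / P ^ 7) := by field_simp
    have h3 : A ^ 2 / P ^ 7 ≤ C1 * (A ^ 2 / P ^ 7) := le_mul_of_one_le_left (by positivity) c1
    linarith
  have b5 : 4 * C1 * A ^ 2 * P ^ 3 + (C1 * P ^ 5 * P * A * e0) ^ 2 * H ≤
      5 * C1 ^ 2 * (A ^ 2 * P ^ 3) := by
    have h1 : (C1 * P ^ 5 * P * A * e0) ^ 2 * H =
        C1 ^ 2 * A ^ 2 * P ^ 2 * ((P ^ 5) ^ 2 * e0 ^ 2 * H) := by ring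
    have h2 : 1 / P ^ 8 ≤ P := (div_le_one (by positivity)).2 (one_le_pow₀ P1) |>.trans P1
    have h3 := mul_le_mul_of_nonneg_left (b3.trans h2)
      (show 0 ≤ C1 ^ 2 * A ^ 2 * P ^ 2 by positivity)
    have h4 := mul_le_mul_of_nonneg_right c4 (show 0 ≤ A ^ 2 * P ^ 3 by positivity)
    rw [h1]
    nlinarith
  have b6 : √(ρ * (4 * C1 * A ^ 2 * P ^ 3 + (C1 * P ^ 5 * P * A * e0) ^ 2 * H)) ≤
      5 * C1 ^ 2 * (A ^ 2 / P ^ 2) := by
    refine sqrt_le_iff.2 ⟨by positivity, ?_⟩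
    refine (mul_le_mul b4 b5 (by positivity) (by positivity)).trans ?_
    have e : 4 * C1 * (A ^ 2 / P ^ 7) * (5 * C1 ^ 2 * (A ^ 2 * P ^ 3)) =
        20 * C1 * C1 ^ 2 * (A ^ 2 / P ^ 2) ^ 2 := by field_simp; ring
    rw [e, mul_pow]
    refine mul_le_mul_of_nonneg_right ?_ (sq_nonneg _)
    nlinarith [mul_le_mul_of_nonneg_right c4 (show 0 ≤ C1 ^ 2 by positivity)]
  have b7 : (C1 * P ^ 5 * P * A * e0) ^ 2 * S ≤ 2 * C1 ^ 2 * (A ^ 2 / P ^ 2) := by
    have e : (C1 * P ^ 5 * P * A * e0) ^ 2 * S =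
        C1 ^ 2 * (A ^ 2 / P ^ 2) * (P ^ 14 * (e0 ^ 2 * S)) := by field_simp
    rw [e]
    have := mul_le_mul_of_nonneg_left hs (show 0 ≤ C1 ^ 2 * (A ^ 2 / P ^ 2) by positivity)
    linarith
  have b8 : ρ ≤ 4 * C1 ^ 2 * (A ^ 2 / P ^ 2) := by
    refine b4.trans (mul_le_mul (by linarith) ?_ (by positivity) (by positivity))
    exact div_le_div_of_nonneg_left (sq_nonneg _) (by positivity)
      (pow_le_pow_right₀ P1 (by norm_num))
  calc _ ≤ C2 * (11 * C1 ^ 2 * (A ^ 2 / P ^ 2)) :=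
        mul_le_mul_of_nonneg_left (by linarith) (by linarith)
    _ = 11 * C2 * C1 ^ 2 * (A ^ 2 / P ^ 2) := by ring
    _ ≤ P * (A ^ 2 / P ^ 2) := mul_le_mul_of_nonneg_right hP (by positivity)
    _ = _ := by field_simp

end Col13

open Col13

/-- **`ColGlue`** -/
theorem colGlue : ColGlue := by
  intro rs rg ⟨K1, K1p, hN⟩ at0 β lam β0 β1 lbf c hc
  obtain ⟨K2, K2p, hA⟩ := at0 β β0 β1
  obtain ⟨C1, c1, R1⟩ := rs (max K1 K2) (lt_max_of_lt_left K1p)
  obtain ⟨C2, c2, R2⟩ := rg (max K1 K2) (lt_max_of_lt_left K1p)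
  obtain ⟨c', hc', hF⟩ := lbf c hc
  set m : ℝ := min (min c c') 1 with hm
  have m0 : 0 < m := lt_min (lt_min hc hc') one_pos
  have m1 : m ≤ c := (min_le_left _ _).trans (min_le_left _ _)
  have m2 : m ≤ c' := (min_le_left _ _).trans (min_le_right _ _)
  have m3 : m ≤ 1 := min_le_right _ _
  have C0 : 0 < C1 := by linarith
  refine ⟨m / 64 / C1, by positivity, m / 128, by positivity, fun e he => ?_⟩
  set e1 : ℝ := min e (m / 64) with he1
  have e10 : 0 < e1 := lt_min he (by positivity)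
  have e11 : e1 ≤ e := min_le_left _ _
  have e12 : e1 ≤ m / 64 := min_le_right _ _
  refine ((hF e1 e10).and (hN.and hA)).mono ?_
  filter_upwards [eventually_gt_atTop 0, ((tendsto_rpow_atTop (show 0 < m / 64 by positivity)).comp
    tendsto_natCast_atTop_atTop).eventually_ge_atTop (11 * C2 * C1 ^ 2)] with n hn hP g hg
  obtain ⟨⟨Φ, ω0, f1, f2, f3, f4, f5, f6⟩, g1, g2⟩ := hg
  have n1 : (1 : ℝ) ≤ n := by exact_mod_cast hn
  have n0 : (0 : ℝ) < n := by linarith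
  have hw := gibbsWeight_pos β g
  have nice : Nice (β • Jmat n g) (max K1 K2) := nice_mono (g1 β β0 β1.le) K1p.le (le_max_left _ _)
  have at1 := g2.mono hw (le_max_right K1 K2) le_rfl
  have ew : gibbsWeight n β g = mu (β • Jmat n g) := gibbsWeight_eq_ising β g
  rw [ew] at f1 f4 f5 f6 at1 hw ⊢
  set W := β • Jmat n g
  have pe : (n : ℝ) ^ e1 ≤ (n : ℝ) ^ e := rpow_le_rpow_of_exponent_le n1 e11
  have x0 : 0 ≤ log n := log_natCast_nonneg n
  have rp : ∀ a : ℝ, (n : ℝ) ^ a = exp (a * log n) := fun a => by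
    rw [rpow_def_of_pos n0, mul_comm]
  change 11 * C2 * C1 ^ 2 ≤ (n : ℝ) ^ (m / 64) at hP
  set P : ℝ := (n : ℝ) ^ (m / 64) with hPd
  have c3 : 1 ≤ C1 ^ 2 := one_le_pow₀ c1
  have P11 : 11 ≤ P := by linarith [one_le_mul_of_one_le_of_one_le c2 c3]
  have P0 : 0 < P := by linarith
  have Pk : ∀ k : ℕ, P ^ k = exp (k * (m / 64) * log n) := fun k => by
    rw [hPd, rp, ← exp_nat_mul, mul_assoc]
  have mx := mul_nonneg m0.le x0
  have k2 : ((n : ℝ) ^ (-(m / 128))) ^ 2 = P⁻¹ := by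
    rw [hPd, rp, rp, ← exp_nat_mul, ← exp_neg]; congr 1; push_cast; ring
  have hρ : P ^ 8 * (n : ℝ) ^ (-c') ≤ 1 := by
    rw [Pk, rp, ← exp_add, exp_le_one_iff]
    push_cast
    linarith [mul_le_mul_of_nonneg_right m2 x0]
  have s2 : ((n : ℝ) ^ (e1 - 1 / 2)) ^ 2 = exp ((2 * e1 - 1) * log n) := by
    rw [rp, ← exp_nat_mul]; congr 1; push_cast; ring
  have e0p : 0 < (n : ℝ) ^ (e1 - 1 / 2) := by positivity
  have ex := mul_le_mul_of_nonneg_right e12 x0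
  have cx := mul_le_mul_of_nonneg_right m1 x0
  have hz : n * ((n : ℝ) ^ (e1 - 1 / 2)) ^ 2 ≤ P ^ 2 := by
    rw [s2, Pk]
    nth_rewrite 1 [← exp_log n0]
    rw [← exp_add, exp_le_exp]
    push_cast
    linarith
  refine ⟨Φ, f1, fun x => (f2 x).trans pe, fun x => (f3 x).trans
    (mul_le_mul_of_nonneg_left pe (sqrt_nonneg _)),
    (inv_anti₀ (by positivity) pe).trans f4, f5.trans (mul_le_mul_of_nonneg_right (by linarith)
      (le_trans (by positivity) f4)), fun f hf => ?_, fun f hf A G hG => ?_⟩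
  · rw [mean_of, k2]
    refine ((R2 n W hn nice at1 Φ ω0 _ _ _ f6 _ (wm_of hw hf)).2 _ ?_).trans ?_
    · have h1 : (n : ℝ) ^ (c - 1 / 2) = exp ((c - e1) * log n) * (n : ℝ) ^ (e1 - 1 / 2) := by
        rw [rp, rp, ← exp_add]; congr 1; ring
      rw [h1]
      refine mul_le_mul_of_nonneg_right (le_trans (by linarith : (4 : ℝ) ≤ P) ?_) e0p.le
      rw [hPd, rp, exp_le_exp]
      linarith
    · rw [inv_eq_one_div, le_div_iff₀ P0]
      refine le_trans ?_ hρ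
      have h1 : 8 * P ≤ P ^ 8 := by
        calc 8 * P ≤ P ^ 2 := by rw [sq]; exact mul_le_mul_of_nonneg_right (by linarith) P0.le
          _ ≤ P ^ 8 := pow_le_pow_right₀ (by linarith) (by norm_num)
      have := mul_le_mul_of_nonneg_right h1 (show 0 ≤ (n : ℝ) ^ (-c') by positivity)
      linarith
  · obtain ⟨ι, _, α, u, hu, hα, hG⟩ := hG
    have A0 : 0 ≤ A := (sum_nonneg fun i _ => abs_nonneg _).trans hα
    rcases A0.eq_or_lt with A0 | A0
    · have : G = fun _ => 0 := funext fun x => by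
        rw [hG]
        refine sum_eq_zero fun i _ => ?_
        have := (single_le_sum (f := fun i => |α i|) (fun _ _ => abs_nonneg _)
          (mem_univ i)).trans hα
        rw [abs_nonpos_iff.1 (this.trans A0.ge), zero_mul]
      rw [this, ← A0]
      simp [Low.Gm, dir, siteM, E.mean]
    let q := (Fintype.equivFin ι).symm
    have eG : G = fun x => ∑ j, α (q j) * sg (mu W) (u (q j)) Φ x := funext fun x => by
      rw [hG]; exact (Equiv.sum_comp q fun i => α i * sg (mu W) (u i) Φ x).symm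
    have eP : exp (C1 * (m / 64 / C1 * log n)) = P := by
      rw [hPd, rp]; congr 1; field_simp
    obtain ⟨ω, ω', r1, r2, r3⟩ := R1 n W hn nice at1 Φ ω0 _ _ _ (m / 64 / C1 * log n) (P ^ 5) e0p
      (by positivity) (one_le_pow₀ (by linarith)) f6 _ (fun j => u (q j)) (fun j => α (q j)) A
      (fun j => hu _) ((Equiv.sum_comp q fun i => |α i|).trans_le hα) (A ^ 2 / P ^ 7)
      (by positivity)
    rw [eP] at r1 r2 r3
    rw [← eG] at r1
    rw [mean_of, k2]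
    refine ((R2 n W hn nice at1 G ω _ _ _ r1 _ (wm_of hw hf)).1 (4 * C1 * A ^ 2 * P ^ 3) ?_).trans
      (num c1 c2 hP A0 n0.le (by positivity) (by positivity) hρ hz ?_ ?_)
    · refine (sq2_le (Chain22.isP_prob' hw) ω ω'
        (s := A ^ 2 * ((n : ℝ) ^ (e1 - 1 / 2)) ^ 2) (by positivity) r2 r3).trans ?_
      set e0 := (n : ℝ) ^ (e1 - 1 / 2)
      have h1 : C1 * P * A ^ 4 * (n * e0 ^ 4) / (A ^ 2 * e0 ^ 2) =
          C1 * P * A ^ 2 * (n * e0 ^ 2) := by field_simp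
      have h2 : n * e0 ^ 2 / (P ^ 5) ^ 2 ≤ P ^ 2 :=
        (div_le_self (by positivity) (one_le_pow₀ (one_le_pow₀ (by linarith)))).trans hz
      have h3 := mul_le_mul_of_nonneg_left hz (show 0 ≤ C1 * P * A ^ 2 by positivity)
      have h4 := mul_le_mul_of_nonneg_left h2 (show 0 ≤ C1 * P * A ^ 2 by positivity)
      have h5 : A ^ 2 * (n * e0 ^ 2) ≤ C1 * P * A ^ 2 * (n * e0 ^ 2) := by
        rw [mul_assoc (C1 * P)]
        exact le_mul_of_one_le_left (by positivity) (one_le_mul_of_one_le_of_one_le c1 (by linarith))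
      rw [h1]
      linarith
    · rw [s2, Pk, rp, ← exp_add, ← exp_add, exp_le_one_iff]
      push_cast
      linarith
    · have h1 : √(n * ((n : ℝ) ^ (1 - c) + 1)) ≤ 2 * exp ((1 - m / 2) * log n) := by
        refine sqrt_le_iff.2 ⟨by positivity, ?_⟩
        have h2 : (n : ℝ) ^ (1 - c) ≤ exp ((1 - m) * log n) := by
          rw [rp, exp_le_exp]; linarith
        have h3 : 1 ≤ exp ((1 - m) * log n) := one_le_exp (mul_nonneg (by linarith) x0)
        have h4 : (2 * exp ((1 - m / 2) * log n)) ^ 2 = 4 * (n * exp ((1 - m) * log n)) := by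
          nth_rewrite 2 [← exp_log n0]
          rw [mul_pow, ← exp_nat_mul, ← exp_add]
          congr 1
          · norm_num
          · congr 1; push_cast; ring
        rw [h4]
        linarith [mul_le_mul_of_nonneg_left (add_le_add h2 h3) n0.le,
          mul_pos n0 (exp_pos ((1 - m) * log n))]
      have h5 : P ^ 14 * (((n : ℝ) ^ (e1 - 1 / 2)) ^ 2 * exp ((1 - m / 2) * log n)) ≤ 1 := by
        rw [s2, Pk, ← exp_add, ← exp_add, exp_le_one_iff]
        push_cast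
        linarith
      have h6 := mul_le_mul_of_nonneg_left h1
        (show 0 ≤ P ^ 14 * ((n : ℝ) ^ (e1 - 1 / 2)) ^ 2 by positivity)
      linarith

end Crest.Agent.T157.Reg

end
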