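import Crest.Agent.T157.RegDef_94

/-!
# Row 157, part B (helper75): the evolution of the flip Jacobian and the clip

`Reg.jacStmt : JacStmt`, `Reg.clGlue : ClGlue`.
-/

set_option autoImplicit false

noncomputable section

namespace Crest.Agent.T157.Reg

open Matrix Real
open Crest.Agent.T157.E hiding mean
open Crest.Agent.T157.Eig
open Crest.Agent.T157.Tap (V Mx)
open Crest.Agent.T157.Rec (grad fl sv_mul_self sv_fl_ne grad_eq grad_update)
open Crest.Agent.T157.Da.Gr (loc tt loc_fl sv_fl mvt tanh_lip hasDerivAt_tanh sech_nonneg)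

namespace J75

variable {n : ℕ}

lemma fl_fl (x : Cube n) (i : Fin n) : fl (fl x i) i = x := by simp [fl]

lemma fl_comm (x : Cube n) (i j : Fin n) : fl (fl x i) j = fl (fl x j) i := by
  by_cases h : i = j
  · rw [h]
  · simp [fl, Function.update_of_ne h, Function.update_of_ne (Ne.symm h), Function.update_comm h]

lemma sv_fl_self (x : Cube n) (i : Fin n) : sv (fl x i) i = -sv x i := by
  rw [sv_fl]; simp; ring

lemma tt_fl (W : Mx n) (x : Cube n) (i : Fin n) : tt W 0 (fl x i) i = tt W 0 x i := by
  simp [tt, loc_fl]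

lemma al_self (W : Mx n) (x : Cube n) (i : Fin n) : al W x i i = 0 := by simp [al, tt_fl]

lemma mx_self (W : Mx n) (x : Cube n) (i j : Fin n) : mx W x i j j = 0 := by simp [mx, tt_fl]

/-- the rate of `k` seen from the flipped site `i` -/
lemma rate (W : Mx n) (x : Cube n) (i k : Fin n) :
    Tk W x k + al W x i k = (1 - sv x k * tt W 0 (fl x i) k) / 2 := by
  simp only [Tk, al, of_apply]; ring

lemma dj_eq (W : Mx n) (ω σ : VF n) (x : Cube n) (i j : Fin n) : dj W ω σ x i j =
    ∑ k, ((Tk W (fl x j) k + al W (fl x j) i k) * jac ω (fl x j) i k -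
      (Tk W x k + al W x i k) * jac ω x i k) - jac ω x i j + jac σ x i j := by
  rw [Finset.sum_sub_distrib]
  change stp W 1 ω σ (fl x j) i - stp W 1 ω σ x i - (ω (fl x j) i - ω x i) =
    _ - (ω (fl x j) i - ω x i) + (σ (fl x j) i - σ x i)
  simp only [stp]
  ring

lemma sq_tanh_lip (a b : ℝ) : |tanh a ^ 2 - tanh b ^ 2| ≤ |a - b| := by
  have := (convex_univ (𝕜 := ℝ) (E := ℝ)).norm_image_sub_le_of_norm_hasDerivWithin_le (C := 1)
    (f := fun u => tanh u ^ 2) (f' := fun u => 2 * tanh u * (1 - tanh u ^ 2))
    (fun u _ => (((hasDerivAt_tanh u).pow 2).congr_deriv (by simp)).hasDerivWithinAt)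
    (fun u _ => ?_) (Set.mem_univ b) (Set.mem_univ a)
  · simpa using this
  have h := abs_nonneg (tanh u)
  rw [Real.norm_eq_abs, abs_mul, abs_mul, abs_two, abs_of_nonneg (sech_nonneg u), ← sq_abs]
  nlinarith [mul_nonneg h (sq_nonneg (|tanh u| - 3 / 5)), sq_nonneg (|tanh u| - 4 / 7)]

/-- second-order Taylor bound for `tanh` -/
lemma tanh_taylor (a d : ℝ) : |tanh (a + d) - tanh a - (1 - tanh a ^ 2) * d| ≤ d ^ 2 := by
  obtain ⟨ξ, h1, h2⟩ := mvt a (a + d)
  rw [sub_add_cancel_left, abs_neg] at h1
  rw [show tanh (a + d) - tanh a - (1 - tanh a ^ 2) * d = -(d * (tanh ξ ^ 2 - tanh a ^ 2)) by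
    linear_combination -h2, abs_neg, abs_mul, ← sq_abs d, sq |d|]
  exact mul_le_mul_of_nonneg_left ((sq_tanh_lip _ _).trans h1) (abs_nonneg _)

lemma clip_taylor {η : ℝ} (hη : 0 < η) (z d : ℝ) :
    |clip η (z + d) - clip η z - (1 - tanh (z / η) ^ 2) * d| ≤ d ^ 2 / η := by
  have := mul_le_mul_of_nonneg_left (tanh_taylor (z / η) (d / η)) hη.le
  rw [← abs_of_pos hη, ← abs_mul, abs_of_pos hη] at this
  refine (le_of_eq ?_).trans (this.trans_eq (by field_simp))
  rw [clip, clip, add_div, mul_sub, mul_sub, mul_left_comm, mul_div_cancel₀ _ hη.ne']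

end J75

open J75

/-- **exact evolution of the Jacobian** -/
theorem jacStmt : JacStmt where
  lin n W h ω σ x := by
    ext i j
    simp only [dj, Matrix.add_apply, Matrix.sub_apply, Matrix.smul_apply, smul_eq_mul]
    rw [jac, jac.eq_1 (stp W 1 ω σ), jac.eq_1 ω x]
    simp only [stp, of_apply]
    ring
  offd n W ω σ x i j hij := by
    have key : ∀ k, (Tk W (fl x j) k + al W (fl x j) i k) * jac ω (fl x j) i k -
        (Tk W x k + al W x i k) * jac ω x i k =
        (Tk W x k + al W x i k + al W x j k + mx W x i j k) * (jac ω (fl x k) - jac ω x) i j +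
          (al W x j k + mx W x i j k) * jac ω x i k +
          if j = k then (2 * Tk W x j + 2 * al W x i j - 1) * jac ω x i j else 0 := fun k => by
      split_ifs with h
      · subst h
        rw [rate W (fl x j), al_self, mx_self, ← mul_add, add_zero, add_zero, rate, fl_comm, tt_fl,
          sv_fl_self]
        simp only [jac, of_apply, Matrix.sub_apply, fl_fl]
        ring
      · rw [rate W (fl x j), sv_fl_ne x (Ne.symm h), fl_comm x j i]
        simp only [jac, of_apply, Matrix.sub_apply, Tk, al, mx, fl_comm x k j]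
        ring
    rw [dj_eq]
    simp only [key, Finset.sum_add_distrib, Finset.sum_ite_eq, Finset.mem_univ, if_true]
    ring
  diag n W ω σ x i := by
    have key : ∀ k, (Tk W (fl x i) k + al W (fl x i) i k) * jac ω (fl x i) i k -
        (Tk W x k + al W x i k) * jac ω x i k =
        Tk W x k * (jac ω (fl x k) - jac ω x) i i - al W x i k * jac ω x i k +
          if i = k then (2 * Tk W x i - 1) * jac ω x i i else 0 := fun k => by
      split_ifs with h
      · subst h
        rw [rate W (fl x i), al_self, fl_fl, sv_fl_self]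
        simp only [jac, of_apply, Matrix.sub_apply, fl_fl, Tk]
        ring
      · rw [rate W (fl x i), sv_fl_ne x (Ne.symm h), fl_fl]
        simp only [jac, of_apply, Matrix.sub_apply, Tk, al, fl_comm x k i]
        ring
    rw [dj_eq]
    simp only [key, Finset.sum_add_distrib, Finset.sum_sub_distrib, Finset.sum_ite_eq,
      Finset.mem_univ, if_true]
    ring
  ydiag n ω x i k _ := by
    simp only [jac, of_apply, Matrix.sub_apply, fl_comm x k i]
    ring
  jb n W ω x i j := by
    have e : jac (bb W ω) x i j = (am W x * jac ω x) i j +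
        ∑ k, (am W (fl x j) i k - am W x i k) * (jac ω x k j + ω x k) := by
      simp only [jac, bb, of_apply, mul_apply, mulVec, dotProduct, ← Finset.sum_add_distrib,
        ← Finset.sum_sub_distrib]
      exact Finset.sum_congr rfl fun k _ => by ring
    rw [e]
    congr 1
    split_ifs with h
    · subst h
      refine Finset.sum_eq_zero fun k _ => ?_
      simp only [am, of_apply, fl, grad_update, sub_self, zero_mul]
    · refine Finset.sum_congr rfl fun k _ => ?_
      congr 1
      simp only [am, of_apply, grad_eq, mx, sv_fl_ne x h, fl_comm x j i]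
      linear_combination -(sv x i * (tt W 0 (fl (fl x i) j) k - tt W 0 (fl x i) k -
        tt W 0 (fl x j) k + tt W 0 x k) / 2) * -sv_mul_self x k

/-- **the clip** -/
theorem clGlue : ClGlue := fun t η hη => by
  have m : ∀ z z', ∃ ξ, |ξ - z / η| ≤ |z / η - z' / η| ∧
      z - clip η z - (z' - clip η z') = (z - z') * tanh ξ ^ 2 := fun z z' => by
    obtain ⟨ξ, h1, h2⟩ := mvt (z / η) (z' / η)
    refine ⟨ξ, h1, ?_⟩
    have : clip η z - clip η z' = (z - z') * (1 - tanh ξ ^ 2) := by
      rw [clip, clip, ← mul_sub, h2]; field_simp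
    linear_combination -this
  refine ⟨fun z => ⟨?_, ?_⟩, fun z z' => ⟨?_, ?_⟩, fun n b x N hN => ?_⟩
  · rw [clip, abs_mul, abs_of_pos hη]
    exact mul_le_of_le_one_right hη.le (abs_tanh_lt_one _).le
  · have := clip_taylor hη 0 z
    rw [abs_sub_comm]
    simpa [clip] using this
  · rw [clip, clip, ← mul_sub, abs_mul, abs_of_pos hη, ← le_div_iff₀' hη, ← abs_of_pos hη, ← abs_div,
      abs_of_pos hη, sub_div]
    exact tanh_lip _ _
  · obtain ⟨ξ, -, h⟩ := m z z'
    rw [h, abs_mul, abs_of_nonneg (sq_nonneg (tanh ξ))]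
    exact mul_le_of_le_one_right (abs_nonneg _) (tanh_sq_lt_one _).le
  · have N0 : 0 ≤ N := (opn_nonneg _).trans hN
    set D : Mx n := diagonal fun i => 1 - tanh (b x i / η) ^ 2
    set R : Mx n := jac (fun z i => clip η (b z i)) x - D * jac b x with hR
    have r : ∀ i j, |R i j| ≤ jac b x i j ^ 2 / η := fun i j => by
      have := clip_taylor hη (b x i) (jac b x i j)
      rw [hR, Matrix.sub_apply, diagonal_mul]
      simpa only [jac, of_apply, add_sub_cancel] using this
    have q := pow_le_pow_left₀ (opn_nonneg _) hN 2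
    have a : opn R ≤ N ^ 2 / η := t.op_schur n R _ (by positivity)
      (fun i => (Finset.sum_le_sum fun j _ => r i j).trans (by
        rw [← Finset.sum_div]; gcongr; exact (t.row_le n _ i).1.trans q))
      fun j => (Finset.sum_le_sum fun i _ => r i j).trans (by
        rw [← Finset.sum_div]; gcongr; exact (t.row_le n _ j).2.trans q)
    have d : opn D ≤ 1 := opn_diagonal_le zero_le_one fun i => by
      rw [abs_of_nonneg (sech_nonneg _)]; exact sub_le_self _ (sq_nonneg _)
    rw [← add_sub_cancel (D * jac b x) (jac _ x), add_sub_assoc']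
    rw [add_sub_assoc, ← hR]
    exact (opn_add_le _ _).trans (add_le_add ((opn_mul_le _ _).trans
      ((mul_le_mul d hN (opn_nonneg _) zero_le_one).trans_eq (one_mul N))) a)

end Crest.Agent.T157.Reg

end
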