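import Crest.Agent.T157.RegPt_29

/-!
# Row 157, part B (helper45): the Jacobian of the source
-/

set_option autoImplicit false

noncomputable section

namespace Crest.Agent.T157.Reg

open Matrix Real Finset
open Crest.Agent.T157.E hiding mean
open Crest.Agent.T157.Eig
open Crest.Agent.T157.Tap (V Mx)
open Crest.Agent.T157.Rec (grad fl)

namespace Jb45

variable {n : ℕ} {W : Mx n} {K c : ℝ}

/-- the right factor -/
def NN (d J : Mx n) (θ : V n) : Mx n := of fun k j => d j k * (J k j + θ k)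

theorem NN_eq (d J : Mx n) (θ : V n) :
    NN d J θ = (of fun k j => d j k * J k j) + diagonal θ * dᵀ := by
  ext k j
  simp only [NN, of_apply, Matrix.add_apply, diagonal_mul, transpose_apply]; ring

theorem NN_op (t : ToolStmt) {d J J' : Mx n} {θ : V n} {y : ℝ} (hc : 1 ≤ c) (hd : opn d ≤ c)
    (hJ : ∀ k j, |J' k j| ≤ |J k j|) (hy : 0 ≤ y) (hθ : ∀ k, |θ k| ≤ y) :
    opn (NN d J' θ) ≤ c * (opn J + y) := by
  rw [NN_eq]
  have h1 : opn (of fun k j => d j k * J' k j) ≤ opn J * c :=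
    t.op_had n J dᵀ _ _ _ (opn_nonneg _) (by linarith) (fun i => (t.row_le n J i).1)
      (fun j => (t.row_le n d j).1.trans (pow_le_pow_left₀ (opn_nonneg _) hd 2)) fun k j => by
        rw [of_apply, abs_mul, mul_comm, transpose_apply]
        exact mul_le_mul_of_nonneg_right (hJ k j) (abs_nonneg _)
  have h2 : opn (diagonal θ * dᵀ) ≤ y * c := (opn_mul_le _ _).trans
    (mul_le_mul (opn_diagonal_le hy hθ) (by rwa [opn_transpose]) (opn_nonneg _) hy)
  refine (opn_add_le _ _).trans ?_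
  linarith

theorem NN_s4 (t : ToolStmt) (hW : Nice W K) (hK : K ≤ c) {d J J' : Mx n} {θ ω : V n} (hc : 1 ≤ c)
    (hd : opn d ≤ c) (he : ∀ i k, |d i k| ≤ c * |W i k|) (hJ : ∀ k j, |J' k j| ≤ |J k j|)
    (hθ : ∀ k, θ k ^ 4 = ω k ^ 4) : S4 (NN d J' θ) ≤ 8 * c ^ 8 * (S4 J + ∑ k, ω k ^ 4) := by
  rw [NN_eq]
  have K0 := Pt29.K_nonneg hW
  have s0 := Pt29.s4_nonneg J
  have w0 : 0 ≤ ∑ k, ω k ^ 4 := by positivity
  have h1 : S4 (of fun k j => d j k * J' k j) ≤ c ^ 4 * K ^ 4 * S4 J :=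
    Pt29.had t hW _ J fun k j => by
      have e : W k j = W j k := by conv_lhs => rw [← hW.1, transpose_apply]
      rw [of_apply, abs_mul, e]
      exact mul_le_mul (he j k) (hJ k j) (abs_nonneg _) (by positivity)
  have h2 : S4 (diagonal θ * dᵀ) ≤ c ^ 4 * ∑ k, ω k ^ 4 := by
    have := t.s4_mul n 1 (diagonal θ) dᵀ
    rw [Matrix.one_mul, t.s4_diag, opn_transpose] at this
    simp only [hθ] at this
    refine this.trans ?_
    have h3 := opn_nonneg d
    have h4 := opn_nonneg (1 : Mx n)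
    calc _ ≤ 1 ^ 4 * c ^ 4 * ∑ k, ω k ^ 4 := by gcongr; exact opn_one_le
      _ = _ := by ring
  have h3 : c ^ 4 * K ^ 4 * S4 J ≤ c ^ 4 * c ^ 4 * S4 J := by gcongr
  have h4 : c ^ 4 * ∑ k, ω k ^ 4 ≤ c ^ 8 * ∑ k, ω k ^ 4 := by gcongr; norm_num
  refine (t.s4_add n _ _).trans ?_
  nlinarith

theorem op_mul {L N : Mx n} {a b : ℝ} (h1 : opn L ≤ a) (h2 : opn N ≤ b) : opn (L * N) ≤ a * b :=
  (opn_mul_le _ _).trans (mul_le_mul h1 h2 (opn_nonneg _) ((opn_nonneg _).trans h1))

theorem s4_mul (t : ToolStmt) {L N : Mx n} {a b : ℝ} (h1 : opn L ≤ a) (h2 : S4 N ≤ b) :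
    S4 (L * N) ≤ a ^ 4 * b := by
  have := t.s4_mul n L N 1
  rw [Matrix.mul_one] at this
  have h3 := opn_nonneg L
  have h4 := opn_nonneg (1 : Mx n)
  have h5 := Pt29.s4_nonneg N
  have h6 := h3.trans h1
  refine this.trans ?_
  calc _ ≤ a ^ 4 * 1 ^ 4 * b := by gcongr; exact opn_one_le
    _ = _ := by ring

theorem abs_sv (x : Cube n) (i : Fin n) : |sv x i| = 1 := by
  have := Rec.sv_mul_self x i
  rw [← sq, ← sq_abs] at this
  nlinarith [abs_nonneg (sv x i)]

theorem op_sand (hc : 1 ≤ c) (x : Cube n) {d : Mx n} {q : V n} (hd : opn d ≤ c)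
    (hq : ∀ k, |q k| ≤ c) : opn (diagonal (sv x) * d * diagonal q) ≤ c ^ 2 := by
  have := op_mul (op_mul (opn_diagonal_le zero_le_one fun i => (abs_sv x i).le) hd)
    (opn_diagonal_le (by linarith) hq)
  rwa [one_mul, ← sq] at this

end Jb45

open Jb45 in
theorem jbGlue_45 : JbGlue := by
  intro t j cf K
  obtain ⟨C, hC, cf⟩ := cf K
  obtain ⟨c, h1, h2, h3⟩ : ∃ c : ℝ, C ≤ c ∧ K ≤ c ∧ K ^ 2 ≤ c :=
    ⟨C + K ^ 2, by nlinarith, by nlinarith [sq_nonneg (K - 1)], by linarith⟩
  have hc : 1 ≤ c := hC.trans h1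
  have c16 : ∀ k ≤ 16, c ^ k ≤ c ^ 16 := fun k hk => pow_le_pow_right₀ hc hk
  refine ⟨1200000 * c ^ 16, by nlinarith [one_le_pow₀ (n := 16) hc], fun n W hW ω x => ?_⟩
  obtain ⟨-, -, -, -, ham, -, d, P, q, hd, hP, he, hq, hr⟩ := cf n W hW x
  have K0 := Pt29.K_nonneg hW
  have c2 : c ≤ c ^ 2 := by nlinarith
  set J := jac ω x with hJ
  set G : Mx n := of fun i k => W i k ^ 2 with hG
  have hs : ∀ k, |sv x k| ≤ c := fun k => (abs_sv x k).trans_le hc
  have L1 := op_sand hc x (hP.trans h1) hs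
  have L2 := op_sand hc x (hd.trans h1) hs
  have L3 := op_sand hc x (hd.trans h1) (q := fun k => sv x k * q k) fun k => by
    rw [abs_mul, abs_sv, one_mul]; exact (hq k).trans h1
  have oG : opn G ≤ c := (t.op_schur n G (K ^ 2) (by positivity)
    (fun i => by simpa [hG] using Pt29.row_sq t hW i)
    (fun i => by simpa [hG] using Pt29.col_sq t hW i)).trans h3
  have eG : ∀ i k, |G i k| ≤ c * |W i k| := fun i k => by
    rw [hG, of_apply, sq, abs_mul]
    exact mul_le_mul_of_nonneg_right (((abs_entry_le W i k).trans hW.2.1).trans h2) (abs_nonneg _)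
  have L4 : opn (c • G) ≤ c ^ 2 := by
    rw [opn_smul, abs_of_nonneg (by linarith), sq]; gcongr
  have ed : ∀ i k, |d i k| ≤ c * |W i k| := fun i k => (he i k).1.trans (by gcongr)
  have eP : ∀ i k, |P i k| ≤ c * |W i k| := fun i k => (he i k).2.trans (by gcongr)
  set T : Mx n := diagonal (sv x) * P * diagonal (sv x) * NN d J (ω x) +
    diagonal (sv x) * d * diagonal (sv x) * NN P J (ω x) +
    (diagonal (sv x) * d * diagonal fun k => sv x k * q k) * NN d J (ω x) with hT
  set R : Mx n := jac (bb W ω) x - (am W x * J + off T) with hR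
  have eq : jac (bb W ω) x = am W x * J + off T + R := by rw [hR]; abel
  have dom : ∀ a b, |R a b| ≤
      (c • G * NN G (of fun k j => |J k j|) fun k => |ω x k|) a b := fun a b => by
    have eT : T a b = ∑ k, sv x a * sv x k * (P a k * d b k + d a k * P b k + q k * (d a k * d b k)) *
        (J k b + ω x k) := by
      simp only [hT, Matrix.add_apply, Matrix.mul_apply (M := _ * _ * _), mul_diagonal,
        diagonal_mul, NN, of_apply, ← sum_add_distrib]
      exact sum_congr rfl fun k _ => by ring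
    have nn : ∀ k, 0 ≤ c * W a k ^ 2 * (W b k ^ 2 * (|J k b| + |ω x k|)) := fun k => by positivity
    have eR : (c • G * NN G (of fun k j => |J k j|) fun k => |ω x k|) a b =
        ∑ k, c * W a k ^ 2 * (W b k ^ 2 * (|J k b| + |ω x k|)) := by
      rw [Matrix.mul_apply]
      simp only [Matrix.smul_apply, hG, NN, smul_eq_mul, of_apply]
    rw [eR]
    simp only [hR, Matrix.sub_apply, Matrix.add_apply, j.jb, off, of_apply, ← hJ]
    split_ifs with hab
    · simpa using sum_nonneg fun k _ => nn k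
    · rw [eT, add_sub_add_left_eq_sub, ← sum_sub_distrib]
      refine (abs_sum_le_sum_abs _ _).trans (sum_le_sum fun k _ => ?_)
      rw [← sub_mul, ← mul_sub, abs_mul, abs_mul, abs_mul, abs_sv, abs_sv, one_mul, one_mul]
      calc _ ≤ c * (W a k ^ 2 * W b k ^ 2) * (|J k b| + |ω x k|) :=
            mul_le_mul ((hr a b k hab).trans (by gcongr)) (abs_add_le _ _) (abs_nonneg _)
              (by positivity)
        _ = _ := by ring
  refine ⟨fun y hy hω => ?_, ?_, ?_⟩
  · have n1 := NN_op t (J := J) hc (hd.trans h1) (fun _ _ => le_rfl) hy hω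
    have n2 := NN_op t (J := J) hc (hP.trans h1) (fun _ _ => le_rfl) hy hω
    have n3 := NN_op t (J := J) (J' := of fun k j => |J k j|) (θ := fun k => |ω x k|) hc oG
      (fun _ _ => by simp) hy fun k => by simpa using hω k
    have a1 := op_mul (ham.trans h1) (le_add_of_nonneg_right hy : opn J ≤ opn J + y)
    have a2 : opn T ≤ 3 * (c ^ 2 * (c * (opn J + y))) := by
      have := op_mul L1 n1; have := op_mul L2 n2; have := op_mul L3 n1
      refine (opn_add_le _ _).trans ((add_le_add (opn_add_le _ _) le_rfl).trans ?_)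
      linarith
    have a3 := (t.op_dom n _ _ dom).trans (op_mul L4 n3)
    have a4 := t.op_off n T
    have X0 : 0 ≤ opn J + y := add_nonneg (opn_nonneg _) hy
    have b1 : c * (opn J + y) ≤ c ^ 16 * (opn J + y) := by
      gcongr; simpa using c16 1 (by norm_num)
    have b2 : c ^ 3 * (opn J + y) ≤ c ^ 16 * (opn J + y) := by gcongr; norm_num
    have b3 : 0 ≤ c ^ 16 * (opn J + y) := by positivity
    rw [eq]
    refine (opn_add_le _ _).trans ((add_le_add (opn_add_le _ _) le_rfl).trans ?_)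
    nlinarith
  · have n1 := NN_s4 t hW h2 (J := J) (ω := ω x) hc (hd.trans h1) ed (fun _ _ => le_rfl)
      fun _ => rfl
    have n2 := NN_s4 t hW h2 (J := J) (ω := ω x) hc (hP.trans h1) eP (fun _ _ => le_rfl)
      fun _ => rfl
    have n3 := NN_s4 t hW h2 (J := J) (J' := of fun k j => |J k j|) (θ := fun k => |ω x k|)
      (ω := ω x) hc oG eG (fun _ _ => by simp) fun k => by
        rw [show (4 : ℕ) = 2 * 2 from rfl, pow_mul, pow_mul, sq_abs]
    have w0 : 0 ≤ ∑ k, ω x k ^ 4 := by positivity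
    have a1 := s4_mul t (ham.trans h1) (le_add_of_nonneg_right w0 : S4 J ≤ S4 J + ∑ k, ω x k ^ 4)
    have X0 : 0 ≤ S4 J + ∑ k, ω x k ^ 4 := add_nonneg (Pt29.s4_nonneg _) w0
    generalize S4 J + ∑ k, ω x k ^ 4 = X at *
    have e8 : (c ^ 2) ^ 4 * (8 * c ^ 8 * X) = 8 * (c ^ 16 * X) := by ring
    have a2 : S4 T ≤ 1088 * (c ^ 16 * X) := by
      have := s4_mul t L1 n1; have := s4_mul t L2 n2; have := s4_mul t L3 n1
      have := t.s4_add n (diagonal (sv x) * P * diagonal (sv x) * NN d J (ω x))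
        (diagonal (sv x) * d * diagonal (sv x) * NN P J (ω x))
      refine (t.s4_add n _ _).trans ?_
      linarith
    have a3 := (t.s4_dom n _ _ dom).trans (s4_mul t L4 n3)
    have a4 : S4 (off T) ≤ 17 * S4 T :=
      le_trans (le_add_of_nonneg_right (by positivity)) (t.so_le n T).1
    have b1 : c ^ 4 * X ≤ c ^ 16 * X := by gcongr; norm_num
    have b3 : 0 ≤ c ^ 16 * X := by positivity
    have := t.s4_add n (am W x * J) (off T)
    rw [eq]
    refine (t.s4_add n _ _).trans ?_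
    linarith
  · have := mulVec_dot_le (am W x) (ω x)
    have h0 : 0 ≤ ω x ⬝ᵥ ω x := dotProduct_self_star_nonneg _
    have h4 := opn_nonneg (am W x)
    have h5 : opn (am W x) ^ 2 ≤ c ^ 16 :=
      (pow_le_pow_left₀ h4 (ham.trans h1) 2).trans (c16 2 (by norm_num))
    have h6 : 0 ≤ c ^ 16 := by positivity
    refine this.trans (mul_le_mul_of_nonneg_right (by linarith) h0)

end Crest.Agent.T157.Reg

end
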