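import Crest.Agent.T157.RegDef_94

/-!
# Row 157, part B (helper34): `Reg.opGlue`, the maximum principle for the operator norm
-/

set_option autoImplicit false

noncomputable section

namespace Crest.Agent.T157.Reg

open Matrix Real Finset
open Crest.Agent.T157.Eig
open Crest.Agent.T157.Tap (V Mx)
open Crest.Agent.T157.Rec (fl)

namespace Op34

variable {n : ℕ}

lemma opn_le_of_two {A : Mx n} {c : ℝ} (hc : 0 ≤ c)
    (h : ∀ u v, 2 * (u ⬝ᵥ A *ᵥ v) ≤ c * (u ⬝ᵥ u + v ⬝ᵥ v)) : opn A ≤ c := by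
  refine opn_le_of_bil hc fun u v => ?_
  by_cases hu : u = 0
  · simp [hu]
  by_cases hv : v = 0
  · simp [hv]
  have h1 := h (nrm v • u) (nrm u • v)
  simp only [mulVec_smul, smul_dotProduct, dotProduct_smul, smul_eq_mul] at h1
  rw [← nrm_mul_self u, ← nrm_mul_self v] at h1
  exact le_of_mul_le_mul_left (by linarith) (mul_pos (nrm_pos hu) (nrm_pos hv))

lemma bil_tr (B : Mx n) (u v : V n) : v ⬝ᵥ Bᵀ *ᵥ u = u ⬝ᵥ B *ᵥ v := by
  rw [mulVec_transpose, dotProduct_comm, dotProduct_mulVec]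

lemma gap {B : Mx n} {M : ℝ} (hB : opn B ≤ M) (u v : V n) :
    M * (2 * (u ⬝ᵥ B *ᵥ v)) + (B *ᵥ v - M • u) ⬝ᵥ (B *ᵥ v - M • u) ≤
      M * (M * (u ⬝ᵥ u + v ⬝ᵥ v)) := by
  have h1 := (mulVec_dot_le B v).trans (mul_le_mul_of_nonneg_right
    (pow_le_pow_left₀ (opn_nonneg B) hB 2) (dot_self_nonneg v))
  simp only [sub_dotProduct, dotProduct_sub, smul_dotProduct, dotProduct_smul, smul_eq_mul,
    dotProduct_comm (B *ᵥ v) u]
  linarith

lemma mix {T : ℝ} (p y : V n) :
    T * (1 - T) * (y ⬝ᵥ y) ≤ (1 - T) * (p ⬝ᵥ p) + T * ((p + y) ⬝ᵥ (p + y)) := by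
  have := dot_self_nonneg (p + T • y)
  simp only [add_dotProduct, dotProduct_add, smul_dotProduct, dotProduct_smul, smul_eq_mul,
    dotProduct_comm y p] at this ⊢
  linarith

/-- the gain of one flip -/
lemma gain {O Y : Mx n} {M T : ℝ} (hO : opn O ≤ M) (hY : opn (O + Y) ≤ M) (h0 : 0 ≤ T) (h1 : T ≤ 1)
    (u v : V n) : M * (2 * (u ⬝ᵥ O *ᵥ v) + T * (2 * (u ⬝ᵥ Y *ᵥ v))) +
      T * (1 - T) * ((Y *ᵥ v) ⬝ᵥ (Y *ᵥ v)) ≤ M * (M * (u ⬝ᵥ u + v ⬝ᵥ v)) := by
  have a := mul_le_mul_of_nonneg_left (gap hO u v) (sub_nonneg.2 h1)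
  have b := mul_le_mul_of_nonneg_left (gap hY u v) h0
  have c := mix (T := T) (O *ᵥ v - M • u) (Y *ᵥ v)
  rw [add_mulVec, dotProduct_add, add_sub_right_comm] at b
  linarith

lemma young {S M : ℝ} (hS : 0 < S) (a y : V n) :
    M * (2 * (2 * (a ⬝ᵥ y))) ≤ S * (y ⬝ᵥ y) + 4 * M ^ 2 * (a ⬝ᵥ a / S) := by
  have := mul_nonneg (inv_pos.2 hS).le (dot_self_nonneg (S • y - (2 * M) • a))
  simp only [sub_dotProduct, dotProduct_sub, smul_dotProduct, dotProduct_smul, smul_eq_mul,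
    dotProduct_comm y a] at this
  refine sub_nonneg.1 (this.trans_eq ?_)
  field_simp; ring

lemma diag_dot (d u w : V n) : u ⬝ᵥ diagonal d *ᵥ w = (diagonal d *ᵥ u) ⬝ᵥ w := by
  rw [← bil_tr, diagonal_transpose, dotProduct_comm]

lemma sum_diag {P : Mx n} {a : ℝ} (h : ∀ i, ∑ k, P i k ^ 2 ≤ a) (u : V n) :
    ∑ k, (diagonal (fun i => P i k) *ᵥ u) ⬝ᵥ (diagonal (fun i => P i k) *ᵥ u) ≤ a * (u ⬝ᵥ u) := by
  simp only [dotProduct, mulVec_diagonal]
  rw [sum_comm, mul_sum]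
  refine sum_le_sum fun i _ => le_trans (le_of_eq ?_)
    (mul_le_mul_of_nonneg_right (h i) (mul_self_nonneg (u i)))
  rw [sum_mul]
  exact sum_congr rfl fun k _ => by ring

/-- the main part: Markov step plus first-order terms -/
lemma main {O A : Mx n} {Y : Fin n → Mx n} {T : V n} {M a h : ℝ} (hM : 0 < M) (hO : opn O ≤ M)
    (hY : ∀ k, opn (O + Y k) ≤ M) (hT : ∀ k, 0 < T k ∧ T k < 1) (ha : 0 ≤ a)
    (hA : ∀ i, ∑ k, (A i k / √(T k * (1 - T k))) ^ 2 ≤ a) (h0 : 0 ≤ h) (hn : h * n ≤ 1) :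
    opn (O + h • ∑ k, (T k • Y k + diagonal (fun i => A i k) * Y k +
      Y k * diagonal fun i => A i k)) ≤ (1 + 2 * a * h) * M := by
  refine opn_le_of_two (by positivity) fun u v => ?_
  set q := u ⬝ᵥ u + v ⬝ᵥ v with hq
  set D : Fin n → Mx n := fun k => diagonal fun i => A i k / √(T k * (1 - T k)) with hD
  have S0 : ∀ k, 0 < T k * (1 - T k) := fun k => mul_pos (hT k).1 (sub_pos.2 (hT k).2)
  have e : ∀ k (w : V n), (diagonal (fun i => A i k) *ᵥ w) ⬝ᵥ (diagonal (fun i => A i k) *ᵥ w) /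
      (T k * (1 - T k)) = (D k *ᵥ w) ⬝ᵥ (D k *ᵥ w) := fun k w => by
    simp only [hD, dotProduct, mulVec_diagonal, sum_div]
    refine sum_congr rfl fun i _ => ?_
    rw [div_mul_eq_mul_div, div_mul_div_comm, mul_self_sqrt (S0 k).le]
  have k1 : ∀ k, 2 * (u ⬝ᵥ O *ᵥ v) + 2 * (u ⬝ᵥ (T k • Y k + diagonal (fun i => A i k) * Y k +
      Y k * diagonal fun i => A i k) *ᵥ v) ≤
      M * q + 2 * M * ((D k *ᵥ u) ⬝ᵥ (D k *ᵥ u) + (D k *ᵥ v) ⬝ᵥ (D k *ᵥ v)) := fun k => by
    have g1 := gain hO (hY k) (hT k).1.le (hT k).2.le u v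
    have g2 := gain (O := Oᵀ) (Y := (Y k)ᵀ) (M := M) ((opn_transpose _).trans_le hO)
      (by rw [← transpose_add, opn_transpose]; exact hY k) (hT k).1.le (hT k).2.le v u
    rw [bil_tr, bil_tr, add_comm (v ⬝ᵥ v)] at g2
    have y1 := young (M := M) (S0 k) (diagonal (fun i => A i k) *ᵥ u) (Y k *ᵥ v)
    have y2 := young (M := M) (S0 k) (diagonal (fun i => A i k) *ᵥ v) ((Y k)ᵀ *ᵥ u)
    rw [e] at y1 y2
    rw [bil_tr] at y2
    rw [add_mulVec, add_mulVec, dotProduct_add, dotProduct_add, smul_mulVec, dotProduct_smul,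
      smul_eq_mul, ← mulVec_mulVec, ← mulVec_mulVec, diag_dot]
    exact le_of_mul_le_mul_left (by linarith) hM
  have k2 := sum_le_sum fun k (_ : k ∈ univ) => k1 k
  simp only [sum_add_distrib (f := fun _ => 2 * (u ⬝ᵥ O *ᵥ v)),
    sum_add_distrib (f := fun _ => M * q), sum_const, card_univ, Fintype.card_fin, nsmul_eq_mul,
    ← mul_sum] at k2
  rw [sum_add_distrib] at k2
  have k3 := sum_diag (P := of fun i k => A i k / √(T k * (1 - T k))) hA u
  have k4 := sum_diag (P := of fun i k => A i k / √(T k * (1 - T k))) hA v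
  have k5 : 2 * (u ⬝ᵥ O *ᵥ v) ≤ M * q := le_of_mul_le_mul_left (by
    linarith [gap hO u v, dot_self_nonneg (O *ᵥ v - M • u)]) hM
  rw [add_mulVec, dotProduct_add, smul_mulVec, dotProduct_smul, smul_eq_mul, sum_mulVec,
    dotProduct_sum]
  have k6 := mul_le_mul_of_nonneg_left (k2.trans (add_le_add le_rfl
    (mul_le_mul_of_nonneg_left (add_le_add k3 k4) (by positivity)))) h0
  have k7 := mul_le_mul_of_nonneg_left k5 (sub_nonneg.2 hn)
  rw [← mul_add a, ← hq] at k6
  linarith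

/-- sums of two-sided diagonal multiples -/
lemma sandwich {P Q : Mx n} {Y : Fin n → Mx n} {B a : ℝ} (hB : 0 ≤ B) (ha : 0 ≤ a)
    (hY : ∀ k, opn (Y k) ≤ B) (hP : ∀ i, ∑ k, P i k ^ 2 ≤ a) (hQ : ∀ i, ∑ k, Q i k ^ 2 ≤ a) :
    opn (of fun i j => ∑ k, P i k * Q j k * Y k i j : Mx n) ≤ B * a := by
  have e : (of fun i j => ∑ k, P i k * Q j k * Y k i j : Mx n) =
      ∑ k, diagonal (fun i => P i k) * Y k * diagonal fun i => Q i k := by
    ext i j
    simp only [of_apply, Matrix.sum_apply, mul_diagonal, diagonal_mul]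
    exact sum_congr rfl fun k _ => by ring
  refine opn_le_of_two (by positivity) fun u v => ?_
  rw [e, sum_mulVec, dotProduct_sum, mul_sum, mul_assoc, mul_add a]
  refine le_trans (sum_le_sum fun k _ => ?_) ((mul_sum _ _ B).symm.trans_le
    (mul_le_mul_of_nonneg_left (sum_add_distrib.trans_le
      (add_le_add (sum_diag hP u) (sum_diag hQ v))) hB))
  rw [← mulVec_mulVec, ← mulVec_mulVec, diag_dot]
  set p := diagonal (fun i => P i k) *ᵥ u
  set r := diagonal (fun i => Q i k) *ᵥ v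
  have h1 := (le_abs_self _).trans ((abs_bil_le (Y k) p r).trans (mul_le_mul_of_nonneg_right (hY k)
    (mul_nonneg (nrm_nonneg p) (nrm_nonneg r))))
  rw [← nrm_mul_self p, ← nrm_mul_self r]
  linarith [mul_nonneg hB (mul_self_nonneg (nrm p - nrm r))]

lemma rows {X W : Mx n} {c K : ℝ} (hW : ∀ i, ∑ k, W i k ^ 2 ≤ K ^ 2)
    (h : ∀ i k, |X i k| ≤ c * |W i k|) (i : Fin n) : ∑ k, X i k ^ 2 ≤ (c * K) ^ 2 := by
  rw [mul_pow]
  refine le_trans ?_ (mul_le_mul_of_nonneg_left (hW i) (sq_nonneg c))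
  rw [mul_sum]
  refine sum_le_sum fun k _ => ?_
  rw [← sq_abs, ← sq_abs (W i k), ← mul_pow]
  exact pow_le_pow_left₀ (abs_nonneg _) (h i k) 2

lemma cs {a b : V n} {A B : ℝ} (hA : 0 ≤ A) (hB : 0 ≤ B) (ha : ∑ k, a k ^ 2 ≤ A ^ 2)
    (hb : ∑ k, b k ^ 2 ≤ B ^ 2) : |∑ k, a k * b k| ≤ A * B :=
  abs_le_of_sq_le_sq ((sum_mul_sq_le_sq_mul_sq _ a b).trans (by
    rw [mul_pow]; exact mul_le_mul ha hb (by positivity) (sq_nonneg A))) (mul_nonneg hA hB)

lemma opn_mul_le' {A B : Mx n} {a b : ℝ} (ha : opn A ≤ a) (hb : opn B ≤ b) : opn (A * B) ≤ a * b :=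
  (opn_mul_le A B).trans (mul_le_mul ha hb (opn_nonneg B) ((opn_nonneg A).trans ha))

lemma opn_add_le' {A B : Mx n} {a b : ℝ} (ha : opn A ≤ a) (hb : opn B ≤ b) : opn (A + B) ≤ a + b :=
  (opn_add_le A B).trans (add_le_add ha hb)

end Op34

open Op34

theorem opGlue : OpGlue := by
  intro t J hC K
  obtain ⟨C, C1, hC⟩ := hC K
  have C0 : 0 ≤ C := by linarith
  refine ⟨1 + (2 * (C * K) ^ 2 + (2 + 2 * (6 * (C * C * K) ^ 2 + 3 * (C * |K| * C * C) + C +
    2 * (C * |K|)) + 3 * C * K ^ 4 + 3 * (C * |K|))), le_add_of_nonneg_right (by positivity),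
    fun n W hW h h0 hn ω σ M₀ N hM₀ hN x => ?_⟩
  have K0 : 0 ≤ K := (opn_nonneg W).trans hW.2.1
  rw [abs_of_nonneg K0]
  set c := 2 * (C * K) ^ 2 + (2 + 2 * (6 * (C * C * K) ^ 2 + 3 * (C * K * C * C) + C +
    2 * (C * K)) + 3 * C * K ^ 4 + 3 * (C * K)) with hc
  have c0 : 0 ≤ c := by positivity
  suffices H : ∀ M, 0 < M → (∀ x, opn (jac ω x) ≤ M) →
      opn (jac (stp W h ω σ) x) ≤ (1 + c * h) * M + h * N by
    have M0 : 0 ≤ M₀ := (opn_nonneg _).trans (hM₀ x)
    refine le_of_forall_pos_le_add fun ε hε => ?_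
    have p : 0 < 1 + c * h := by positivity
    refine (H (M₀ + ε / (1 + c * h)) (by positivity) fun x => (hM₀ x).trans
      (le_add_of_nonneg_right (by positivity))).trans ?_
    rw [mul_add, mul_div_cancel₀ _ p.ne']
    nlinarith [mul_nonneg h0 M0]
  intro M M0 hM
  obtain ⟨hT, -, hA, a1, -, -, d, P, q, d1, P1, dP, q1, hR⟩ := hC n W hW x
  set O := jac ω x with hO
  set Y : Fin n → Mx n := fun k => jac ω (fl x k) - O with hY
  set T := Tk W x
  set A := al W x
  have S0 : ∀ k, 0 < T k * (1 - T k) := fun k => mul_pos (hT k).1 (sub_pos.2 (hT k).2)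
  have S1 : ∀ k, T k * (1 - T k) ≤ 1 := fun k => by nlinarith [(hT k).1, (hT k).2]
  have w1 : ∀ i, ∑ k, W i k ^ 2 ≤ K ^ 2 := fun i =>
    (t.row_le n W i).1.trans (pow_le_pow_left₀ (opn_nonneg W) hW.2.1 2)
  have w2 : ∀ i, ∑ k, W k i ^ 2 ≤ K ^ 2 := fun i =>
    (t.row_le n W i).2.trans (pow_le_pow_left₀ (opn_nonneg W) hW.2.1 2)
  have o1 : ∀ z i, ∑ k, jac ω z i k ^ 2 ≤ M ^ 2 := fun z i =>
    (t.row_le n _ i).1.trans (pow_le_pow_left₀ (opn_nonneg _) (hM z) 2)
  have o2 : ∀ i, ∑ k, O k i ^ 2 ≤ M ^ 2 := fun i =>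
    (t.row_le n _ i).2.trans (pow_le_pow_left₀ (opn_nonneg _) (hM x) 2)
  have y1 : ∀ k, opn (Y k) ≤ 2 * M := fun k =>
    (opn_sub_le _ _).trans (by linarith [hM x, hM (fl x k)])
  have cw : ∀ i k, 0 ≤ C * |W i k| := fun i k => by positivity
  have A1 : ∀ i k, |A i k| ≤ C * |W i k| := fun i k =>
    (hA i k).trans (mul_le_of_le_one_right (cw i k) (S1 k))
  have up : ∀ i k, C * |W i k| ≤ C * C * |W i k| := fun i k => by
    rw [mul_assoc]; exact le_mul_of_one_le_left (cw i k) C1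
  have rd := rows w1 fun i k => (dP i k).1.trans (up i k)
  have rP := rows w1 fun i k => (dP i k).2.trans (up i k)
  have rq := rows (X := of fun i k => q k * d i k) (c := C * C) w1 fun i k => by
    rw [of_apply, abs_mul, mul_assoc]
    exact mul_le_mul (q1 k) (dP i k).1 (abs_nonneg _) C0
  have had : ∀ X : Mx n, (∀ i k, |X i k| ≤ C * |W i k|) →
      opn (of fun i k => X i k * O i k : Mx n) ≤ C * K * M := fun X hX =>
    t.op_had n X O _ _ _ (by positivity) M0.le (rows w1 hX) o2 fun i k => (abs_mul _ _).le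
  let G : Mx n := (of fun i j => ∑ k, P i k * d j k * Y k i j) +
    (of fun i j => ∑ k, d i k * P j k * Y k i j) +
    (of fun i j => ∑ k, (of fun i k => q k * d i k : Mx n) i k * d j k * Y k i j) +
    ((of fun i k => P i k * O i k) * dᵀ + (of fun i k => d i k * O i k) * Pᵀ +
      (of fun i k => d i k * O i k) * diagonal q * dᵀ) + O * Aᵀ +
    ((of fun i k => A i k * O i k) + of fun i k => A i k * O i k)
  let E : Mx n := of fun i j => if i = j then 0 else ∑ k, (mx W x i j k -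
    (P i k * d j k + d i k * P j k + q k * (d i k * d j k))) * (Y k i j + O i k)
  let δ : V n := fun i => ∑ k, A i k * O i k - 2 * ∑ k, A i k * jac ω (fl x i) i k
  have g1 : opn G ≤ (6 * (C * C * K) ^ 2 + 3 * (C * K * C * C) + C + 2 * (C * K)) * M := by
    have s := fun {P Q : Mx n} => sandwich (P := P) (Q := Q) (by positivity : 0 ≤ 2 * M)
      (sq_nonneg (C * C * K)) y1
    have hd : opn dᵀ ≤ C := by rwa [opn_transpose]
    have h1 := had d fun i k => (dP i k).1
    refine (opn_add_le' (opn_add_le' (opn_add_le' (opn_add_le' (opn_add_le' (s rP rd) (s rd rP))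
      (s rq rd)) (opn_add_le' (opn_add_le' (opn_mul_le' (had P fun i k => (dP i k).2) hd)
        (opn_mul_le' h1 ((opn_transpose _).trans_le P1))) (opn_mul_le' (opn_mul_le' h1
          (opn_diagonal_le C0 q1)) hd))) (opn_mul_le' (hM x) ((opn_transpose _).trans_le a1)))
      (opn_add_le' (had A A1) (had A A1))).trans ?_
    have : C * K * M * C ≤ C * K * M * C * C := le_mul_of_one_le_right (by positivity) C1
    linarith
  have eb : ∀ i j, |E i j| ≤ 3 * C * M * ∑ k, W i k ^ 2 * W j k ^ 2 := fun i j => by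
    simp only [E, of_apply]
    split_ifs with hij
    · rw [abs_zero]; positivity
    rw [mul_sum]
    refine (abs_sum_le_sum_abs _ _).trans (sum_le_sum fun k _ => ?_)
    have : |Y k i j + O i k| ≤ 3 * M := (abs_add_le _ _).trans (by
      linarith [(abs_entry_le (Y k) i j).trans (y1 k), (abs_entry_le O i k).trans (hM x)])
    rw [abs_mul]
    exact (mul_le_mul (hR i j k hij) this (abs_nonneg _) (by positivity)).trans_eq (by ring)
  have nb : ∀ i, ∑ j, 3 * C * M * ∑ k, W i k ^ 2 * W j k ^ 2 ≤ 3 * C * K ^ 4 * M := fun i => by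
    rw [← mul_sum, sum_comm]
    simp only [← mul_sum]
    have : ∑ k, W i k ^ 2 * ∑ j, W j k ^ 2 ≤ K ^ 2 * K ^ 2 :=
      (sum_le_sum fun k _ => mul_le_mul_of_nonneg_left (w2 k) (sq_nonneg _)).trans (by
        rw [← sum_mul]; exact mul_le_mul_of_nonneg_right (w1 i) (sq_nonneg K))
    exact (mul_le_mul_of_nonneg_left this (by positivity)).trans_eq (by ring)
  have e1 : opn E ≤ 3 * C * K ^ 4 * M :=
    t.op_schur n E _ (by positivity) (fun i => (sum_le_sum fun j _ => eb i j).trans (nb i))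
      fun j => (sum_le_sum fun i _ => (eb i j).trans_eq (by simp only [mul_comm])).trans (nb j)
  have d2 : opn (diagonal δ) ≤ 3 * (C * K) * M :=
    opn_diagonal_le (by positivity) fun i => (abs_sub _ _).trans (by
      rw [abs_mul, abs_two]
      linarith [cs (by positivity) M0.le (rows w1 A1 i) (o1 x i),
        cs (by positivity) M0.le (rows w1 A1 i) (o1 (fl x i) i)])
  have t2 : opn (O * diagonal fun j => 2 * T j - 2) ≤ M * 2 :=
    opn_mul_le' (hM x) (opn_diagonal_le zero_le_two fun j =>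
      abs_le.2 ⟨by linarith [(hT j).1], by linarith [(hT j).2]⟩)
  have key : dj W ω σ x = ∑ k, (T k • Y k + diagonal (fun i => A i k) * Y k +
      Y k * diagonal fun i => A i k) +
      ((O * diagonal fun j => 2 * T j - 2) + off G + E + diagonal δ + jac σ x) := by
    ext i j
    simp only [Matrix.add_apply, Matrix.sum_apply, Matrix.smul_apply, smul_eq_mul, mul_diagonal,
      diagonal_mul, off, of_apply, E]
    by_cases hij : i = j
    · subst hij
      have yd : ∀ k, Y k i i = jac ω (fl x i) i k - O i k := fun k => by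
        by_cases hk : i = k
        · subst hk; rfl
        · exact J.ydiag n ω x i k hk
      rw [J.diag, diagonal_apply_eq, if_pos rfl, if_pos rfl]
      change ∑ k, T k * Y k i i - ∑ k, A i k * O i k + (2 * T i - 2) * O i i + _ = _
      simp only [sum_add_distrib, δ, mul_comm (Y _ i i)]
      simp only [yd, mul_sub (A i _), sum_sub_distrib]
      ring
    · rw [J.offd n W ω σ x i j hij, diagonal_apply_ne _ hij, if_neg hij, if_neg hij]
      change ∑ k, (T k + A i k + A j k + mx W x i j k) * Y k i j +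
        ∑ k, (A j k + mx W x i j k) * O i k + (2 * T j + 2 * A i j - 2) * O i j + _ = _
      simp only [G, Matrix.add_apply, of_apply, mul_apply (N := dᵀ), mul_apply (N := Pᵀ),
        mul_apply (N := Aᵀ), transpose_apply, mul_diagonal]
      have : ∀ a b c : ℝ, a = b + c → ∀ u v, a + (2 * T j + 2 * A i j - 2) * O i j + u =
          b + (O i j * (2 * T j - 2) + (c - v + (A i j * O i j + A i j * O i j)) + v + 0 + u) := by
        intro a b c e u v; rw [e]; ring
      refine (this _ _ _ ?_ _ _).trans (by congr 6; rw [sub_eq_iff_eq_add])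
      simp only [← sum_add_distrib]
      exact sum_congr rfl fun k _ => by ring
  rw [J.lin, key, smul_add, ← add_assoc]
  refine (opn_add_le' (main M0 (hM x) (fun k => by rw [hY, add_sub_cancel]; exact hM _) hT
    (sq_nonneg (C * K)) (rows (X := of fun i k => A i k / √(T k * (1 - T k))) w1 fun i k => ?_)
    h0 hn) ((opn_smul _ _).trans_le (mul_le_mul_of_nonneg_left (opn_add_le' (opn_add_le'
      (opn_add_le' (opn_add_le' t2 ((t.op_off n G).trans
        (mul_le_mul_of_nonneg_left g1 zero_le_two))) e1) d2) (hN x)) (abs_nonneg h)))).trans_eq ?_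
  · have s0 := sqrt_pos.2 (S0 k)
    rw [of_apply, abs_div, abs_of_pos s0, div_le_iff₀ s0]
    refine (hA i k).trans (mul_le_mul_of_nonneg_left ?_ (cw i k))
    exact le_sqrt_of_sq_le (by nlinarith [S0 k, S1 k])
  · rw [abs_of_nonneg h0, hc]; ring

end Crest.Agent.T157.Reg

end
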