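import Crest.Agent.T157.RegDefB_94
import Crest.Agent.T157.RegSb_51
import Crest.Agent.T157.LowC_85

/-!
# Row 157, part B (helper10): `Reg.RegOfS`, `Reg.RgGlue`
-/

set_option autoImplicit false

noncomputable section

namespace Crest.Agent.T157.Reg

open Matrix Real Filter Topology Finset
open Crest.Agent.T157.E hiding mean
open Crest.Agent.T157.Eig
open Crest.Agent.T157.Tap (V Mx)
open Crest.Agent.T157.Rec (grad fl grad_eq sv_mul_self)
open Crest.Agent.T157.Da.Gr (loc tt ising_pos)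
open Crest.Agent.T157.Chain22 (sg IsP mean isP_prob' hbRC)

variable {n : ℕ}

namespace Rg10

lemma mu_pos (W : Mx n) (x : Cube n) : 0 < mu W x := ising_pos W 0 x

lemma sq2_eq (ω : VF n) (x : Cube n) : sq2 ω x = ∑ k, ω x k ^ 2 := by
  simp only [sq2, dotProduct, sq]

lemma sq2_nonneg (ω : VF n) (x : Cube n) : 0 ≤ sq2 ω x := dot_self_nonneg _

lemma wm_nonneg {w v : Cube n → ℝ} {H : ℝ} (hw : ∀ x, 0 < w x) (hv : Wm w H v) : 0 ≤ H := by
  have := sum_le_sum fun x (_ : x ∈ univ) => hv.2 x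
  rwa [hv.1.sum1, ← mul_sum, (isP_prob' hw).sum1, mul_one, one_le_exp_iff] at this

lemma wm_self {w : Cube n → ℝ} {H : ℝ} (hw : ∀ x, 0 < w x) (hH : 0 ≤ H) : Wm w H (prob w) :=
  ⟨isP_prob' hw, fun x => le_mul_of_one_le_left ((isP_prob' hw).nn x) (one_le_exp hH)⟩

/-- Cauchy-Schwarz in the configuration and the site -/
lemma cs {v : Cube n → ℝ} (hv : IsP v) (p q : Cube n → Fin n → ℝ) :
    mean v (fun x => ∑ k, p x k * q x k) ≤
      √(mean v (fun x => ∑ k, p x k ^ 2) * mean v fun x => ∑ k, q x k ^ 2) := by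
  refine (hv.mean_mono fun x => sum_mul_le_sqrt_mul_sqrt _ _ _).trans (le_sqrt_of_sq_le ?_)
  have := hv.ip_sq_le (fun x => √(∑ k, p x k ^ 2)) fun x => √(∑ k, q x k ^ 2)
  simpa only [Chain22.ip_eq_mean, mul_self_sqrt (sum_nonneg fun _ _ => sq_nonneg _)] using this

lemma flip_sq (G : Cube n → ℝ) (x : Cube n) (k : Fin n) :
    (G x - G (fl x k)) ^ 2 = 4 * grad G x k ^ 2 := by
  rw [grad_eq]
  linear_combination -(G x - G (fl x k)) ^ 2 * sv_mul_self x k

lemma hb_sum (b : BasStmt) (hn : 0 < n) {W : Mx n} (hW : Wᵀ = W) (x : Cube n) {φ : Cube n → ℝ}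
    (h : φ x = 0) : n / 2 * ∑ y, hb (mu W) x y * φ y = (∑ k, Tk W x k * φ (fl x k)) / 2 := by
  have := b.gen_eq n W hW φ x
  rw [Chain22.gen_eq hn (mu_pos W), h] at this
  simp only [sub_zero] at this
  rw [← this, div_mul_eq_mul_div]
  rfl

lemma Gm_eq (b : BasStmt) (hn : 0 < n) {W : Mx n} (hW : Wᵀ = W) (G : Cube n → ℝ) (x : Cube n) :
    Low.Gm (mu W) G G x = 2 * ∑ k, Tk W x k * grad G x k ^ 2 := by
  rw [Low.Gm, hb_sum b hn hW x (φ := fun y => (G x - G y) * (G x - G y)) (by simp), sum_div, mul_sum]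
  exact sum_congr rfl fun k _ => by rw [← sq, flip_sq]; ring

lemma mean_Gm (hn : 0 < n) {w : Cube n → ℝ} (hw : ∀ x, 0 < w x) (G : Cube n → ℝ) :
    mean (prob w) (Low.Gm w G G) = dir w G := by
  rw [Chain22.dir_eq_D hn hw, Chain22.RC.D_eq]
  simp only [mean, Low.Gm, mul_sum]
  refine sum_congr rfl fun x _ => sum_congr rfl fun y _ => ?_
  change _ = _ * (_ * (prob w x * hb w x y * _))
  ring

/-- the gradient of the regularised carré du champ -/
lemma grad_le (t : ToolStmt) {W : Mx n} {ω : VF n} {C e : ℝ}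
    (hT : ∀ x k, 0 < Tk W x k ∧ Tk W x k < 1)
    (hA : ∀ x i k, 0 ≤ Tk W x k + al W x i k ∧ Tk W x k + al W x i k ≤ 1)
    (hC : ∀ x, opn (al W x) ≤ C) (h1 : ∀ x i, |ω x i| ≤ e) (h2 : ∀ x, opn (jac ω x) ≤ e)
    (x : Cube n) : grad (fun x => 2 * ∑ k, Tk W x k * ω x k ^ 2) x ⬝ᵥ
      grad (fun x => 2 * ∑ k, Tk W x k * ω x k ^ 2) x ≤
        3 * (C ^ 2 + 4 + (C ^ 2 + 5) ^ 2) * (n * e ^ 4) := by
  set J := jac ω x with hJ
  have s1 : ∀ k, ω x k ^ 2 ≤ e ^ 2 := fun k => sq_le_sq' (abs_le.1 (h1 x k)).1 (abs_le.1 (h1 x k)).2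
  have oC : opn (al W x) ^ 2 ≤ C ^ 2 := pow_le_pow_left₀ (opn_nonneg _) (hC x) 2
  have oJ : opn J ^ 2 ≤ e ^ 2 := pow_le_pow_left₀ (opn_nonneg _) (h2 x) 2
  have cJ : ∀ j, ∑ k, J k j ^ 2 ≤ e ^ 2 := fun j => (t.row_le n J j).2.trans oJ
  have a1 : (al W x *ᵥ fun k => ω x k ^ 2) ⬝ᵥ (al W x *ᵥ fun k => ω x k ^ 2) ≤
      C ^ 2 * (n * e ^ 4) := (mulVec_dot_le _ _).trans (mul_le_mul oC
    ((sum_le_sum fun k _ => mul_self_le_mul_self (sq_nonneg _) (s1 k)).trans_eq
      (by rw [sum_const, card_univ, Fintype.card_fin, nsmul_eq_mul]; ring))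
      (dot_self_nonneg _) (sq_nonneg _))
  have a2 : (Jᵀ *ᵥ fun k => Tk W x k * ω x k) ⬝ᵥ (Jᵀ *ᵥ fun k => Tk W x k * ω x k) ≤
      e ^ 2 * (n * e ^ 2) := (mulVec_dot_le _ _).trans (mul_le_mul (by rwa [opn_transpose])
    ((sum_le_sum (g := fun _ => e ^ 2) fun k _ => by
      rw [mul_mul_mul_comm, ← sq (ω x k)]
      exact (mul_le_of_le_one_left (sq_nonneg _)
        (mul_le_one₀ (hT x k).2.le (hT x k).1.le (hT x k).2.le)).trans (s1 k)).trans_eq (by simp))
      (dot_self_nonneg _) (sq_nonneg _))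
  have key : ∀ j, grad (fun x => 2 * ∑ k, Tk W x k * ω x k ^ 2) x j ^ 2 ≤
      3 * ((al W x *ᵥ fun k => ω x k ^ 2) j ^ 2 + 4 * (Jᵀ *ᵥ fun k => Tk W x k * ω x k) j ^ 2 +
        ((C ^ 2 + 5) * e ^ 2) ^ 2) := fun j => by
    set B := Tk W (fl x j) j - Tk W x j - al W x j j with hB
    have hB1 : |B| ≤ 1 := abs_le.2 ⟨by linarith [(hT (fl x j) j).1, (hA x j j).2],
      by linarith [(hT (fl x j) j).2, (hA x j j).1]⟩
    have e1 : ∀ k, Tk W (fl x j) k * ω (fl x j) k ^ 2 - Tk W x k * ω x k ^ 2 =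
        al W x j k * ω x k ^ 2 + 2 * (J k j * (Tk W x k * ω x k)) +
          (2 * (al W x j k * ω x k) * J k j + Tk W (fl x j) k * J k j ^ 2 +
            if j = k then B * (ω x k ^ 2 + 2 * ω x k * J k j) else 0) := fun k => by
      have : ω (fl x j) k = ω x k + J k j := by simp [hJ, jac]
      rw [this]
      split_ifs with h
      · subst h; rw [hB]; ring
      · have : Tk W (fl x j) k = Tk W x k + al W x j k := by
          simp only [Tk, al, of_apply, Rec.sv_fl_ne x (Ne.symm h)]; ring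
        rw [this]; ring
    have e2 : |∑ k, (2 * (al W x j k * ω x k) * J k j + Tk W (fl x j) k * J k j ^ 2 +
        if j = k then B * (ω x k ^ 2 + 2 * ω x k * J k j) else 0)| ≤ (C ^ 2 + 5) * e ^ 2 := by
      rw [sum_add_distrib, sum_ite_eq, if_pos (mem_univ _)]
      have b1 : |∑ k, (2 * (al W x j k * ω x k) * J k j + Tk W (fl x j) k * J k j ^ 2)| ≤
          ∑ k, (e ^ 2 * al W x j k ^ 2 + 2 * J k j ^ 2) :=
        (abs_sum_le_sum_abs _ _).trans (sum_le_sum fun k _ => by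
          have c1 := mul_le_mul_of_nonneg_right (s1 k) (sq_nonneg (al W x j k))
          have c2 := mul_le_of_le_one_left (sq_nonneg (J k j)) (hT (fl x j) k).2.le
          have c3 := mul_nonneg (hT (fl x j) k).1.le (sq_nonneg (J k j))
          rw [abs_le]
          constructor <;> nlinarith [sq_nonneg (al W x j k * ω x k - J k j),
            sq_nonneg (al W x j k * ω x k + J k j)])
      rw [sum_add_distrib (f := fun k => e ^ 2 * al W x j k ^ 2), ← mul_sum, ← mul_sum] at b1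
      have b2 := mul_le_mul_of_nonneg_left ((t.row_le n (al W x) j).1.trans oC) (sq_nonneg e)
      have b3 : J j j ^ 2 ≤ e ^ 2 :=
        (single_le_sum (f := fun k => J k j ^ 2) (fun _ _ => sq_nonneg _) (mem_univ j)).trans (cJ j)
      have b4 : |B * (ω x j ^ 2 + 2 * ω x j * J j j)| ≤ 3 * e ^ 2 := by
        rw [abs_mul]
        refine (mul_le_of_le_one_left (abs_nonneg _) hB1).trans (abs_le.2 ⟨?_, ?_⟩) <;>
          nlinarith [sq_nonneg (ω x j - J j j), sq_nonneg (ω x j + J j j), s1 j, sq_nonneg e]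
      linarith [abs_add_le (∑ k, (2 * (al W x j k * ω x k) * J k j + Tk W (fl x j) k * J k j ^ 2))
        (B * (ω x j ^ 2 + 2 * ω x j * J j j)), cJ j]
    have e3 := sum_congr rfl fun k (_ : k ∈ univ) => e1 k
    rw [sum_sub_distrib, sum_add_distrib, sum_add_distrib, ← mul_sum] at e3
    have e4 := flip_sq (fun x => 2 * ∑ k, Tk W x k * ω x k ^ 2) x j
    have e5 := sq_le_sq' (abs_le.1 e2).1 (abs_le.1 e2).2
    change _ ≤ 3 * ((∑ k, al W x j k * ω x k ^ 2) ^ 2 +
      4 * (∑ k, J k j * (Tk W x k * ω x k)) ^ 2 + _)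
    generalize ∑ k, al W x j k * ω x k ^ 2 = p at *
    generalize ∑ k, J k j * (Tk W x k * ω x k) = q at *
    generalize (∑ k, (2 * (al W x j k * ω x k) * J k j + Tk W (fl x j) k * J k j ^ 2 +
      if j = k then B * (ω x k ^ 2 + 2 * ω x k * J k j) else 0)) = r at *
    rw [← mul_sub, ← neg_sub, e3] at e4
    nlinarith [sq_nonneg (p - 2 * q), sq_nonneg (p - r), sq_nonneg (2 * q - r)]
  have := sum_le_sum fun j (_ : j ∈ univ) => key j
  simp only [← mul_sum, sum_add_distrib, sum_const, card_univ, Fintype.card_fin, nsmul_eq_mul,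
    dotProduct, ← sq] at this a1 a2 ⊢
  linarith

/-- one site: the field is controlled by the energy unless the local field is large -/
lemma site_le (h A g o o' : ℝ) : o ^ 2 ≤ 2 * cosh A ^ 2 * ((1 - tanh h ^ 2) * g ^ 2) +
    2 * (g - o) ^ 2 + 2 * (o - o') ^ 2 + 2 * (o' ^ 2 * if A < |h| then 1 else 0) := by
  have c0 : cosh h ^ 2 * (1 - tanh h ^ 2) = 1 := by
    have := (cosh_pos h).ne'
    rw [tanh_eq_sinh_div_cosh, div_pow, mul_sub, mul_div_cancel₀ _ (by positivity), cosh_sq]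
    ring
  have c1 : 0 ≤ (1 - tanh h ^ 2) * g ^ 2 :=
    mul_nonneg (sub_nonneg.2 (tanh_sq_lt_one _).le) (sq_nonneg _)
  have c2 := mul_nonneg (sq_nonneg (cosh A)) c1
  split_ifs with hh
  · linarith [sq_nonneg (g - o), sq_nonneg (o - 2 * o')]
  · have c4 := mul_le_mul_of_nonneg_right (pow_le_pow_left₀ (cosh_pos _).le
      (cosh_le_cosh.2 ((not_lt.1 hh).trans (le_abs_self A))) 2) c1
    rw [← mul_assoc, c0] at c4
    linarith [sq_nonneg (2 * g - o), sq_nonneg (o - o')]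

lemma consts {K C1 C2 U : ℝ} (hK : 0 < K) (h1 : 1 ≤ C1) (h2 : 1 ≤ C2) (hU : 0 ≤ U) (A : ℝ) :
    (28 + 8 * K) * (C1 * exp (C1 * U)) ^ 2 ≤ (2 * C2 + (28 + 8 * K) * C1 ^ 2) *
      exp ((2 * C2 + (28 + 8 * K) * C1 ^ 2) * U) ∧
    exp (-(A ^ 2 / C2)) ≤ exp (-(A ^ 2 / (2 * C2 + (28 + 8 * K) * C1 ^ 2))) ^ 2 := by
  have p : 0 ≤ K * C1 ^ 2 := by positivity
  constructor
  · rw [mul_pow, ← exp_nat_mul, ← mul_assoc, ← mul_assoc]
    refine mul_le_mul (by linarith) (exp_le_exp.2 (mul_le_mul_of_nonneg_right ?_ hU)) (exp_pos _).le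
      (by positivity)
    push_cast; nlinarith
  · rw [← exp_nat_mul, exp_le_exp]
    have : A ^ 2 / ((2 * C2 + (28 + 8 * K) * C1 ^ 2) / 2) ≤ A ^ 2 / C2 :=
      div_le_div_of_nonneg_left (sq_nonneg A) (by linarith) (by linarith [sq_nonneg C1])
    rw [div_div_eq_mul_div, mul_div_right_comm] at this
    push_cast
    linarith

end Rg10

open Rg10

theorem rgGlue : RgGlue := by
  intro t b hc sb K hK
  obtain ⟨C, hC1, hc⟩ := hc K
  set c1 := 32 * K * (3 * (C ^ 2 + 4 + (C ^ 2 + 5) ^ 2)) with hc1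
  refine ⟨4 + 8 * √(2 + 4 * K) + √c1, by linarith [sqrt_nonneg (2 + 4 * K), sqrt_nonneg c1],
    fun n W hn hW hA G ω e ρ H hF v hv => ⟨fun N hN => ?_, fun η hη => ?_⟩⟩
  · have hw := mu_pos W
    have hp := isP_prob' hw
    have hH := wm_nonneg hw hv
    have hT := fun x => (hc n W hW x).1
    have N0 : 0 ≤ N := (hp.mean_nonneg (sq2_nonneg ω)).trans hN
    have ρ0 : 0 ≤ ρ := (hv.1.mean_nonneg (sq2_nonneg _)).trans (hF.cl v hv)
    have e0 : 0 ≤ e := (abs_nonneg _).trans (hF.sup (fun _ => true) ⟨0, hn⟩)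
    set Γ : Cube n → ℝ := fun x => 2 * ∑ k, Tk W x k * ω x k ^ 2 with hΓ
    have d1 : ∀ u M, Wm (mu W) H u → mean u (sq2 ω) ≤ M →
        mean u (fun x => |Low.Gm (mu W) G G x - Γ x|) ≤ 2 * ρ + 4 * √(ρ * M) := fun u M hu hM => by
      have p : ∀ x, |Low.Gm (mu W) G G x - Γ x| ≤ 2 * sq2 (grad G - ω) x +
          4 * ∑ k, |(grad G - ω) x k| * |ω x k| := fun x => by
        rw [Gm_eq b hn hW.1, hΓ, ← mul_sub, ← sum_sub_distrib, sq2_eq, mul_sum, mul_sum, mul_sum,
          ← sum_add_distrib]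
        refine (abs_sum_le_sum_abs _ _).trans (sum_le_sum fun k _ => ?_)
        simp only [Pi.sub_apply]
        rw [← mul_sub, abs_mul, abs_mul, abs_two, abs_of_pos (hT x k).1, ← abs_mul,
          show grad G x k ^ 2 - ω x k ^ 2 = (grad G x k - ω x k) ^ 2 +
            2 * ((grad G x k - ω x k) * ω x k) by ring]
        have c1 := abs_add_le ((grad G x k - ω x k) ^ 2) (2 * ((grad G x k - ω x k) * ω x k))
        have c2 := mul_le_of_le_one_left (abs_nonneg ((grad G x k - ω x k) ^ 2 +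
          2 * ((grad G x k - ω x k) * ω x k))) (hT x k).2.le
        rw [abs_sq, abs_mul, abs_two] at c1
        linarith
      have c := cs hu.1 (fun x k => |(grad G - ω) x k|) fun x k => |ω x k|
      simp only [sq_abs, ← sq2_eq] at c
      have c' := c.trans (sqrt_le_sqrt (mul_le_mul (hF.cl u hu) hM
        (hu.1.mean_nonneg (sq2_nonneg ω)) ρ0))
      refine (hu.1.mean_mono p).trans ?_
      rw [Ent.mean_add', Ent.mean_const_mul, Ent.mean_const_mul]
      linarith [hF.cl u hu]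
    have d2 : |mean (prob (mu W)) Γ - dir (mu W) G| ≤ 2 * ρ + 4 * √(ρ * N) := by
      refine le_trans ?_ (d1 _ N (wm_self hw hH) hN)
      rw [← mean_Gm hn hw, abs_sub_comm, ← Ent.mean_sub', abs_le, ← neg_one_mul,
        ← Ent.mean_const_mul]
      exact ⟨hp.mean_mono fun x => by rw [neg_one_mul]; exact neg_abs_le _,
        hp.mean_mono fun x => le_abs_self _⟩
    have main : ∀ e' > e, mean v (fun x => |Low.Gm (mu W) G G x - dir (mu W) G|) ≤
        (4 + 8 * √(2 + 4 * K) + √c1) *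
          (ρ + √(ρ * (N + e' ^ 2 * H)) + e' ^ 2 * √(n * (H + 1))) := fun e' he => by
      have e1 : 0 < e' := e0.trans_lt he
      have op := fun x => (hF.op x).trans he.le
      have d3 := d1 v _ hv ((sb.vec n _ hw K hK hA ω e' e1 op H v hv).trans
        (show _ ≤ (2 + 4 * K) * (N + e' ^ 2 * H) by
          nlinarith [mul_nonneg hK.le N0, mul_nonneg (sq_nonneg e') hH]))
      have d4 := Low.sq_le_kl hn hw hK hA (F := fun x => Γ x - mean (prob (mu W)) Γ)
        (γ := 3 * (C ^ 2 + 4 + (C ^ 2 + 5) ^ 2) * (n * e' ^ 4)) (by positivity)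
        (fun x => by
          rw [Rec.grad_sub, Rec.grad_const, sub_zero]
          exact grad_le t hT (fun x => (hc n W hW x).2.1) (fun x => (hc n W hW x).2.2.2.1)
            (fun x i => (hF.sup x i).trans he.le) op x)
        (by rw [Chain22.emean_eq, Ent.mean_sub', hp.mean_const, sub_self]) hv.1
      have d5 : mean v (fun x => |Γ x - mean (prob (mu W)) Γ|) ≤
          √c1 * (e' ^ 2 * √(n * (H + 1))) := by
        refine (pow_le_pow_iff_left₀ (hv.1.mean_nonneg fun _ => abs_nonneg _) (by positivity)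
          two_ne_zero).1 ((hv.1.mean_sq_le _).trans ?_)
        simp only [Chain22.ip_eq_mean, ← sq, sq_abs]
        rw [mul_pow, mul_pow, sq_sqrt (by positivity), sq_sqrt (by positivity)]
        refine (d4.trans (mul_le_mul_of_nonneg_left (add_le_add_left (Sb51.kl_le hw hv) 1)
          (by positivity))).trans_eq ?_
        rw [hc1]; ring
      have d6 : √(ρ * N) ≤ √(2 + 4 * K) * √(ρ * (N + e' ^ 2 * H)) :=
        (sqrt_le_sqrt (mul_le_mul_of_nonneg_left (le_add_of_nonneg_right (by positivity)) ρ0)).trans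
          (le_mul_of_one_le_left (sqrt_nonneg _) (one_le_sqrt.2 (by linarith)))
      rw [mul_left_comm, sqrt_mul (by positivity)] at d3
      refine (hv.1.mean_mono (g := fun x => |Low.Gm (mu W) G G x - Γ x| +
        |Γ x - mean (prob (mu W)) Γ| + |mean (prob (mu W)) Γ - dir (mu W) G|) fun x =>
          (abs_sub_le _ _ _).trans (add_le_add_left (abs_sub_le _ _ _) _)).trans ?_
      rw [Ent.mean_add', Ent.mean_add', hv.1.mean_const]
      have p1 := sqrt_nonneg (2 + 4 * K)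
      have p2 := sqrt_nonneg c1
      have p3 := sqrt_nonneg (ρ * (N + e' ^ 2 * H))
      have p4 : 0 ≤ e' ^ 2 * √(n * (H + 1)) := by positivity
      nlinarith [mul_nonneg p1 ρ0, mul_nonneg p2 ρ0, mul_nonneg p2 p3, mul_nonneg p1 p4]
    refine ge_of_tendsto (x := 𝓝[>] e) (Tendsto.mono_left (Continuous.tendsto (f := fun e' : ℝ =>
      (4 + 8 * √(2 + 4 * K) + √c1) * (ρ + √(ρ * (N + e' ^ 2 * H)) + e' ^ 2 * √(n * (H + 1))))
        (by fun_prop) e) nhdsWithin_le_nhds) (eventually_mem_nhdsWithin.mono main)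
  · refine (hv.1.mean_mono (g := fun x => 8 * sq2 (grad G - ω) x) fun x => ?_).trans
      (by rw [Ent.mean_const_mul]; linarith [hF.cl v hv])
    rw [Low.Ex, hb_sum b hn hW.1 x (φ := fun y => if η < |G x - G y| then (G x - G y) ^ 2 else 0)
      (by simp), sq2_eq, sum_div, mul_sum]
    refine sum_le_sum fun k _ => ?_
    have hT := (hc n W hW x).1 k
    simp only [Pi.sub_apply]
    split_ifs with h
    · have e0 : 0 ≤ e := (abs_nonneg _).trans (hF.sup x k)
      have c1 : (4 * e) ^ 2 ≤ 4 * grad G x k ^ 2 := by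
        rw [← flip_sq, ← sq_abs (_ - _)]; exact pow_le_pow_left₀ (by positivity) (by linarith) 2
      have c2 := sq_le_sq' (abs_le.1 (hF.sup x k)).1 (abs_le.1 (hF.sup x k)).2
      have c3 := mul_le_of_le_one_left (sq_nonneg (grad G x k)) hT.2.le
      rw [flip_sq]
      nlinarith [sq_nonneg (grad G x k - 2 * ω x k)]
    · rw [mul_zero, zero_div]; positivity

theorem regOfS : RegOfS := by
  intro b sb p4 hS K hK
  obtain ⟨C1, h1, hS⟩ := hS K hK
  obtain ⟨C2, h2, p4⟩ := p4 K hK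
  refine ⟨2 * C2 + (28 + 8 * K) * C1 ^ 2, by nlinarith, fun n W hn hW hA Φ ω0 e ρ H U A he hH hHn
    hU hA0 ho hs hop hcl d u α hu v hv => ?_⟩
  have hw := mu_pos W
  have hp := isP_prob' hw
  have H0 : 0 < H := by linarith
  have ρ0 : 0 ≤ ρ := (hv.1.mean_nonneg (sq2_nonneg _)).trans (hcl v hv)
  set s := √(n * H) with hsd
  have s2 : s ^ 2 = n * H := sq_sqrt (by positivity)
  have sH : H ≤ s := le_sqrt_of_sq_le (by rw [sq]; exact mul_le_mul_of_nonneg_right hHn H0.le)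
  have s0 : 0 < s := by linarith
  have L2 : √(s / H) ^ 2 = s / H := sq_sqrt (by positivity)
  have L3 : n * e ^ 2 / √(s / H) ^ 2 = e ^ 2 * s := by
    rw [L2, div_eq_iff (by positivity)]; field_simp; linarith
  have L4 : √(s / H) ^ 2 * e ^ 2 * H = e ^ 2 * s := by rw [L2]; field_simp
  set a := ∑ j, |α j| with ha
  set G : Cube n → ℝ := fun x => ∑ j, α j * sg (mu W) (u j) Φ x with hG
  set E := C1 * exp (C1 * U) with hE
  have E1 : 1 ≤ E := one_le_mul_of_one_le_of_one_le h1 (one_le_exp (by positivity))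
  obtain ⟨E2, T2⟩ := consts hK h1 h2 hU A
  rw [← hE] at E2
  generalize 2 * C2 + (28 + 8 * K) * C1 ^ 2 = C at E2 T2 ⊢
  set T := exp (-(A ^ 2 / C)) with hT
  refine le_of_forall_pos_le_add fun δ hδ => ?_
  obtain ⟨ε, ε0, hε⟩ : ∃ ε > (0 : ℝ), (10 + 8 * K * H) * ε = δ :=
    ⟨δ / (10 + 8 * K * H), by positivity, mul_div_cancel₀ _ (by positivity)⟩
  obtain ⟨ω, ω', hF, q1, q2⟩ := hS n W hn hW hA Φ ω0 e ρ H U (√(s / H)) he hU
    (one_le_sqrt.2 ((one_le_div H0).2 sH)) ⟨ho, hs, hop, hcl⟩ d u α a hu le_rfl ε ε0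
  rw [L3, L4, ← hE, ← hG] at hF
  rw [L3] at q2
  rw [← hE] at q1 q2
  have r1 := sb.vec n _ hw K hK hA ω (√((C1 * √(s / H) * exp (C1 * U) * a * e) ^ 2 + ε))
    (by positivity) (fun x => (hF.op x).trans (le_sqrt_of_sq_le (by linarith))) H v hv
  rw [sq_sqrt (by positivity), show 4 * K * ((C1 * √(s / H) * exp (C1 * U) * a * e) ^ 2 + ε) * H =
    4 * K * (E ^ 2 * a ^ 2 * (√(s / H) ^ 2 * e ^ 2 * H)) + 4 * K * H * ε by rw [hE]; ring, L4] at r1
  have r2 : mean v (sq2 (grad G)) ≤ 2 * mean v (sq2 ω) + 2 * mean v (sq2 (grad G - ω)) := by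
    rw [← Ent.mean_const_mul, ← Ent.mean_const_mul, ← Ent.mean_add']
    refine hv.1.mean_mono fun x => ?_
    simp only [sq2_eq, mul_sum, ← sum_add_distrib, Pi.sub_apply]
    exact sum_le_sum fun k _ => by linarith [sq_nonneg (grad G x k - 2 * ω x k)]
  have r3 := cs hp (fun x k => ω' x k ^ 2) fun x k => if A < |loc W 0 x k| then 1 else 0
  simp only [← pow_mul, ite_pow, one_pow, ne_eq, OfNat.ofNat_ne_zero, not_false_eq_true,
    zero_pow] at r3
  have r4 := r3.trans (sqrt_le_iff.2 (show 0 ≤ 2 * (E * a ^ 2 * (e ^ 2 * (n * T))) ∧ _ from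
    ⟨by positivity, (mul_le_mul q1 (((p4 n W hW hA).2 A hA0).trans
      (mul_le_mul_of_nonneg_left T2 (by positivity)))
      (hp.mean_nonneg fun x => sum_nonneg fun k _ => by positivity) (by positivity)).trans (by
        have : 0 ≤ E * (a ^ 2 * (e ^ 2 * (n * T))) ^ 2 := by positivity
        linarith [mul_le_mul_of_nonneg_right E1 this])⟩))
  have r5 : mean (prob (mu W)) (sq2 ω) ≤ 2 * cosh A ^ 2 * dir (mu W) G +
      2 * mean (prob (mu W)) (sq2 (grad G - ω)) + 2 * mean (prob (mu W)) (sq2 (ω - ω')) +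
      2 * mean (prob (mu W)) fun x => ∑ k, ω' x k ^ 2 * if A < |loc W 0 x k| then 1 else 0 := by
    rw [b.dir_eq n W hW.1]
    simp only [← Ent.mean_const_mul, ← Ent.mean_add']
    refine hp.mean_mono fun x => ?_
    simp only [sq2_eq, mul_sum, ← sum_add_distrib, Pi.sub_apply]
    exact sum_le_sum fun k _ => site_le _ _ _ _ _
  have r6 := hF.cl v hv
  have r7 := hF.cl _ (wm_self hw H0.le)
  have z1 : 0 ≤ a ^ 2 * ρ := by positivity
  have z2 : 0 ≤ a ^ 2 * (e ^ 2 * s) := by positivity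
  have z3 : 0 ≤ a ^ 2 * (e ^ 2 * (n * T)) := by positivity
  have E3 : E ≤ E ^ 2 := le_self_pow₀ E1 two_ne_zero
  have E4 : 0 ≤ K * E ^ 2 := by positivity
  have y := mul_le_mul_of_nonneg_right E2 (add_nonneg (add_nonneg z1 z2) z3)
  linarith [mul_le_mul_of_nonneg_right E3 z1, mul_le_mul_of_nonneg_right E3 z2,
    mul_le_mul_of_nonneg_right E3 z3, mul_nonneg E4 z1, mul_nonneg E4 z3,
    mul_nonneg (sq_nonneg E) z1, mul_nonneg (sq_nonneg E) z3]

end Crest.Agent.T157.Reg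

end
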