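import Crest.Agent.T157.RegGl_45
import Crest.Agent.T157.RegJb_45
import Crest.Agent.T157.RegTool_31
import Crest.Agent.T157.RegJac_75
import Crest.Agent.T157.RegCoef_54
import Crest.Agent.T157.RegSb_51
import Crest.Agent.T157.RegBo_13
import Crest.Agent.T157.RegOp_34
import Crest.Agent.T157.RegS4_2
import Crest.Agent.T157.RegNice_66
import Crest.Agent.T157.RegRg_10
import Crest.Agent.T157.RegCol_13

/-!
# Row 157, part B (helper45): (REG) assembled, unconditional
-/

set_option autoImplicit false

namespace Crest.Agent.T157.Reg.All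

theorem jbStmt : JbStmt := jbGlue_45 toolStmt jacStmt coefStmt
theorem boStmt : BoStmt := boGlue basStmt coefStmt
theorem opStmt : OpStmt := opGlue toolStmt jacStmt coefStmt
theorem ptStmt : PtStmt := ptGlue toolStmt basStmt jacStmt coefStmt
theorem s4Stmt : S4Stmt := s4Glue toolStmt jacStmt ptStmt
theorem clStmt : ClStmt := clGlue toolStmt
theorem p4Stmt : P4Stmt := p4Glue toolStmt basStmt
theorem regStmt : RegStmt :=
  regGlue toolStmt basStmt jbStmt boStmt opStmt s4Stmt clStmt sbStmt p4Stmt
theorem regS : RegS :=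
  regSGlue toolStmt basStmt jbStmt boStmt opStmt s4Stmt clStmt sbStmt p4Stmt
theorem rgStmt : RgStmt := rgGlue toolStmt basStmt coefStmt sbStmt
theorem lbc_of_lbf (hA : Rv.At0) (β lam : ℝ) (h0 : 0 ≤ β) (h1 : β < 1) (h : LBF β lam) :
    Low.LBC β lam := colGlue regS rgStmt niceStmt hA β lam h0 h1 h

end Crest.Agent.T157.Reg.All
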