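import Crest.Agent.T157.RegBas_66
import Crest.Agent.T157.RegDefB_94

/-!
# Row 157, part B (helper45): the glue of (REG)

For a fixed small step `h` we compare the gradient flow, the clipped flow and the linear flow;
then `h → 0`.
-/

set_option autoImplicit false

noncomputable section

namespace Crest.Agent.T157.Reg

open Matrix Real Filter Topology Finset
open Crest.Agent.T157.E hiding mean
open Crest.Agent.T157.Eig
open Crest.Agent.T157.Tap (V Mx)
open Crest.Agent.T157.Rec (grad fl)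
open Crest.Agent.T157.Da.Gr (loc tt)
open Crest.Agent.T157.Chain22 (sg IsP mean)

namespace G45

variable {n : ℕ}

theorem sq2_eq (ω : VF n) (x : Cube n) : sq2 ω x = ∑ i, ω x i ^ 2 := by
  simp [sq2, dotProduct, sq]

theorem sq2_nn (ω : VF n) (x : Cube n) : 0 ≤ sq2 ω x := by rw [sq2_eq]; positivity

theorem S4_nn (M : Mx n) : 0 ≤ S4 M := by unfold S4; positivity

theorem So_nn (M : Mx n) : 0 ≤ So M := by
  unfold So; have := S4_nn (off M); positivity

theorem mu_pos (W : Mx n) (x : Cube n) : 0 < mu W x := exp_pos _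

theorem isP_mu (W : Mx n) : IsP (prob (mu W)) := Chain22.isP_prob' (mu_pos W)

theorem wm_mu (W : Mx n) {H : ℝ} (hH : 0 ≤ H) : Wm (mu W) H (prob (mu W)) :=
  ⟨isP_mu W, fun x => le_mul_of_one_le_left ((isP_mu W).nn x) (one_le_exp hH)⟩

theorem wm_zero {W : Mx n} {v : Cube n → ℝ} (h : Wm (mu W) 0 v) : v = prob (mu W) := by
  have h1 : ∀ x ∈ univ, 0 ≤ prob (mu W) x - v x := fun x _ => by
    have := h.2 x; rw [exp_zero, one_mul] at this; linarith
  have h2 : ∑ x, (prob (mu W) x - v x) = 0 := by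
    rw [sum_sub_distrib, (isP_mu W).sum1, h.1.sum1, sub_self]
  ext x
  have := (sum_eq_zero_iff_of_nonneg h1).1 h2 x (mem_univ x); linarith

theorem mean_le4 {v : Cube n → ℝ} (hv : IsP v) {F f1 f2 f3 f4 : Cube n → ℝ} {a1 a2 a3 a4 : ℝ}
    (h : ∀ x, F x ≤ a1 * f1 x + a2 * f2 x + a3 * f3 x + a4 * f4 x) :
    mean v F ≤ a1 * mean v f1 + a2 * mean v f2 + a3 * mean v f3 + a4 * mean v f4 := by
  refine (hv.mean_mono h).trans_eq ?_
  simp only [mean, mul_sum, ← sum_add_distrib]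
  exact sum_congr rfl fun x _ => by ring

theorem mean_le2 {v : Cube n → ℝ} (hv : IsP v) {F f1 f2 : Cube n → ℝ} {a1 a2 : ℝ}
    (h : ∀ x, F x ≤ a1 * f1 x + a2 * f2 x) : mean v F ≤ a1 * mean v f1 + a2 * mean v f2 := by
  have := mean_le4 (F := F) (f1 := f1) (f2 := f2) (f3 := f1) (f4 := f1) (a1 := a1) (a2 := a2)
    (a3 := 0) (a4 := 0) hv fun x => by simpa using h x
  simpa using this

theorem mean_le1 {v : Cube n → ℝ} (hv : IsP v) {F f1 : Cube n → ℝ} {a1 : ℝ}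
    (h : ∀ x, F x ≤ a1 * f1 x) : mean v F ≤ a1 * mean v f1 := by
  have := mean_le2 (F := F) (f1 := f1) (f2 := f1) (a1 := a1) (a2 := 0) hv fun x => by
    simpa using h x
  simpa using this

theorem jac_sub (ω ω' : VF n) (x : Cube n) : jac (ω - ω') x = jac ω x - jac ω' x := by
  ext i j; simp only [jac, of_apply, Pi.sub_apply, Matrix.sub_apply]; ring

theorem bb_sub (W : Mx n) (ω ω' : VF n) : bb W (ω - ω') = bb W ω - bb W ω' := by
  ext x i; simp [bb, mulVec_sub]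

theorem stp_sub (W : Mx n) (h : ℝ) (ω σ ω' σ' : VF n) :
    stp W h ω σ - stp W h ω' σ' = stp W h (ω - ω') (σ - σ') := by
  ext x i
  have : ∑ k, (Tk W x k + al W x i k) * jac (ω - ω') x i k =
      ∑ k, (Tk W x k + al W x i k) * jac ω x i k - ∑ k, (Tk W x k + al W x i k) * jac ω' x i k := by
    rw [← sum_sub_distrib]
    exact sum_congr rfl fun k _ => by rw [jac_sub, Matrix.sub_apply]; ring
  simp only [stp, Pi.sub_apply, this]; ring

/-! ### linear combinations -/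

/-- linear combination of fields -/
def cmb {d : ℕ} (α : Fin d → ℝ) (w : Fin d → VF n) : VF n := fun x i => ∑ j, α j * w j x i

theorem cmb_sq {d : ℕ} (α : Fin d → ℝ) (w : Fin d → VF n) (x : Cube n) (i : Fin n) :
    cmb α w x i ^ 2 ≤ (∑ j, |α j|) * ∑ j, |α j| * w j x i ^ 2 :=
  sum_sq_le_sum_mul_sum_of_sq_le_mul _ (fun _ _ => abs_nonneg _) (fun _ _ => by positivity)
    fun j _ => by rw [mul_pow, ← sq_abs (α j)]; exact le_of_eq (by ring)

theorem cmb_mean {d : ℕ} (α : Fin d → ℝ) (w : Fin d → VF n) {v : Cube n → ℝ} (hv : IsP v)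
    (θ : VF n) (hθ : ∀ x i, 0 ≤ θ x i) {R : ℝ}
    (h : ∀ j, mean v (fun x => ∑ i, θ x i * w j x i ^ 2) ≤ R) :
    mean v (fun x => ∑ i, θ x i * cmb α w x i ^ 2) ≤ (∑ j, |α j|) ^ 2 * R := by
  have ha : 0 ≤ ∑ j, |α j| := by positivity
  calc mean v (fun x => ∑ i, θ x i * cmb α w x i ^ 2)
      ≤ (∑ j, |α j|) * mean v (fun x => ∑ j, |α j| * ∑ i, θ x i * w j x i ^ 2) := by
        refine mean_le1 hv fun x => ?_
        calc ∑ i, θ x i * cmb α w x i ^ 2
            ≤ ∑ i, θ x i * ((∑ j, |α j|) * ∑ j, |α j| * w j x i ^ 2) :=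
              sum_le_sum fun i _ => mul_le_mul_of_nonneg_left (cmb_sq α w x i) (hθ x i)
          _ = _ := by
              generalize (∑ j, |α j|) = a
              simp only [mul_sum]
              rw [sum_comm]
              exact sum_congr rfl fun j _ => sum_congr rfl fun i _ => by ring
    _ = (∑ j, |α j|) * ∑ j, |α j| * mean v (fun x => ∑ i, θ x i * w j x i ^ 2) := by
        congr 1
        generalize hF : (fun j x => ∑ i, θ x i * w j x i ^ 2) = F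
        have e : ∀ j x, ∑ i, θ x i * w j x i ^ 2 = F j x := fun j x => by rw [← hF]
        simp only [e, mean, mul_sum]
        rw [sum_comm]
        exact sum_congr rfl fun j _ => sum_congr rfl fun x _ => by ring
    _ ≤ (∑ j, |α j|) * ∑ j, |α j| * R := by gcongr with j; exact h j
    _ = _ := by rw [← sum_mul]; ring

theorem cmb_sq2 {d : ℕ} (α : Fin d → ℝ) (w : Fin d → VF n) {v : Cube n → ℝ} (hv : IsP v) {R : ℝ}
    (h : ∀ j, mean v (sq2 (w j)) ≤ R) : mean v (sq2 (cmb α w)) ≤ (∑ j, |α j|) ^ 2 * R := by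
  have e : ∀ ω : VF n, sq2 ω = fun x => ∑ i, (fun _ _ => (1 : ℝ)) x i * ω x i ^ 2 := fun ω => by
    ext x; simp [sq2_eq]
  rw [e]
  exact cmb_mean α w hv _ (fun _ _ => zero_le_one) fun j => by rw [← e]; exact h j

theorem cmb_op {d : ℕ} (α : Fin d → ℝ) (w : Fin d → VF n) (x : Cube n) {Y : ℝ}
    (h : ∀ j, opn (jac (w j) x) ≤ Y) : opn (jac (cmb α w) x) ≤ (∑ j, |α j|) * Y := by
  have e : jac (cmb α w) x = ∑ j, α j • jac (w j) x := by
    ext i k
    simp only [jac, cmb, of_apply, Matrix.sum_apply, Matrix.smul_apply, smul_eq_mul, mul_sub,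
      sum_sub_distrib]
  rw [e, sum_mul]
  refine (opn_sum_le _ _).trans (sum_le_sum fun j _ => ?_)
  rw [opn_smul]
  exact mul_le_mul_of_nonneg_left (h j) (abs_nonneg _)

theorem cmb_sub {d : ℕ} (α : Fin d → ℝ) (w w' : Fin d → VF n) (x : Cube n) (i : Fin n) :
    cmb α (fun j => w j - w' j) x i = cmb α w x i - cmb α w' x i := by
  simp only [cmb, Pi.sub_apply, mul_sub, sum_sub_distrib]

theorem grad_cmb {d : ℕ} (α : Fin d → ℝ) (F : Fin d → Cube n → ℝ) :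
    grad (fun x => ∑ j, α j * F j x) = cmb α fun j => grad (F j) := by
  ext x i
  simp only [Rec.grad_eq, cmb, ← sum_sub_distrib, mul_sum, sum_div]
  exact sum_congr rfl fun j _ => by ring

theorem cosh_tanh {A z : ℝ} (hA : 0 ≤ A) :
    0 ≤ 1 - tanh z ^ 2 ∧ (|z| ≤ A → 1 ≤ cosh A ^ 2 * (1 - tanh z ^ 2)) := by
  have hc := cosh_pos z
  have e : 1 - tanh z ^ 2 = 1 / cosh z ^ 2 := by
    rw [tanh_eq_sinh_div_cosh]; field_simp; rw [cosh_sq]; ring
  rw [e]
  refine ⟨by positivity, fun h => ?_⟩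
  have : cosh z ≤ cosh A := cosh_le_cosh.2 (by rwa [abs_of_nonneg hA])
  rw [mul_one_div, one_le_div (by positivity)]
  gcongr

/-! ### the hypotheses at a fixed step -/

/-- everything the leaves give at a fixed step `h` -/
structure Hy (W : Mx n) (K C h : ℝ) : Prop where
  C1 : 1 ≤ C
  K0 : 0 < K
  h0 : 0 ≤ h
  int : ∀ f, grad (Qh W h f) = stp W h (grad f) (bb W (grad f))
  wm : ∀ H v, Wm (mu W) H v → ∃ v', Wm (mu W) H v' ∧ ∀ f, mean v (Qh W h f) = mean v' f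
  obb : ∀ ω : VF n, Odd ω → Odd (bb W ω)
  ostp : ∀ ω σ : VF n, Odd ω → Odd σ → Odd (stp W h ω σ)
  jb1 : ∀ (ω : VF n) x y, 0 ≤ y → (∀ k, |ω x k| ≤ y) →
    opn (jac (bb W ω) x) ≤ C * (opn (jac ω x) + y)
  jb2 : ∀ (ω : VF n) x, S4 (jac (bb W ω) x) ≤ C * (S4 (jac ω x) + ∑ k, ω x k ^ 4)
  jb3 : ∀ (ω : VF n) x, sq2 (bb W ω) x ≤ C * sq2 ω x
  bo1 : ∀ (ξ σ : VF n) x,
    sq2 (stp W h ξ σ) x ≤ Qh W h (sq2 ξ) x + h * (C * sq2 ξ x + 2 * sq2 σ x)
  bo2 : ∀ (ξ σ : VF n) y z, (∀ x i, |ξ x i| ≤ y) → (∀ x i, |σ x i| ≤ z) →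
    ∀ x i, |stp W h ξ σ x i| ≤ (1 - h) * y + h * z
  op : ∀ (ω σ : VF n) (M N : ℝ), (∀ x, opn (jac ω x) ≤ M) → (∀ x, opn (jac σ x) ≤ N) →
    ∀ x, opn (jac (stp W h ω σ) x) ≤ (1 + C * h) * M + h * N
  s4 : ∀ ω σ : VF n, mean (prob (mu W)) (fun x => So (jac (stp W h ω σ) x)) ≤
    (1 + C * h) * mean (prob (mu W)) (fun x => So (jac ω x)) +
      C * h * mean (prob (mu W)) fun x => S4 (jac σ x)
  p4 : ∀ ω : VF n, Odd ω → mean (prob (mu W)) (fun x => ∑ i, ω x i ^ 4) ≤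
    C * mean (prob (mu W)) fun x => S4 (jac ω x)
  cl : ClStmt
  vec : ∀ (ω : VF n) (M : ℝ), 0 < M → (∀ x, opn (jac ω x) ≤ M) → ∀ H v, Wm (mu W) H v →
    mean v (sq2 ω) ≤ 2 * mean (prob (mu W)) (sq2 ω) + 4 * K * M ^ 2 * H
  so : ∀ M : Mx n, So M ≤ 17 * S4 M ∧ S4 M ≤ 8 * So M
  s4op : ∀ M : Mx n, S4 M ≤ n * opn M ^ 4

variable {W : Mx n} {K C h : ℝ}

theorem Hy.r1 (c : Hy W K C h) : 1 ≤ 1 + 5 * C * h := by
  have := c.C1; have := c.h0; have : 0 ≤ 5 * C * h := by positivity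
  linarith

theorem Hy.flow (c : Hy W K C h) (H : ℝ) (ξ σ : ℕ → VF n)
    (hr : ∀ m, ξ (m + 1) = stp W h (ξ m) (σ m)) (M : ℕ) {a b : ℝ} (hb : 0 ≤ b)
    (h0 : ∀ v, Wm (mu W) H v → mean v (sq2 (ξ 0)) ≤ a)
    (hσ : ∀ m < M, ∀ v, Wm (mu W) H v → mean v (sq2 (σ m)) ≤ 2 * C * mean v (sq2 (ξ m)) + b) :
    ∀ m ≤ M, ∀ v, Wm (mu W) H v →
      mean v (sq2 (ξ m)) ≤ (1 + 5 * C * h) ^ m * (a + m * h * (2 * b)) := by
  intro m
  have hC := c.C1
  have hh := c.h0
  induction m with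
  | zero => intro _ v hv; simpa using h0 v hv
  | succ m ih =>
    intro hm v hv
    obtain ⟨v', hv', e⟩ := c.wm H v hv
    have i1 := ih (by omega) v hv
    have i2 := ih (by omega) v' hv'
    have i3 := hσ m (by omega) v hv
    have i4 : mean v (sq2 (ξ (m + 1))) ≤ 1 * mean v (Qh W h (sq2 (ξ m))) +
        h * C * mean v (sq2 (ξ m)) + 2 * h * mean v (sq2 (σ m)) + 0 * mean v (sq2 (σ m)) :=
      mean_le4 hv.1 fun x => by rw [hr]; have := c.bo1 (ξ m) (σ m) x; linarith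
    rw [e] at i4
    have r1 : 1 ≤ (1 + 5 * C * h) ^ (m + 1) := one_le_pow₀ c.r1
    have e2 : (1 + 5 * C * h) ^ (m + 1) * (a + ((m + 1 : ℕ) : ℝ) * h * (2 * b)) =
        (1 + 5 * C * h) * ((1 + 5 * C * h) ^ m * (a + m * h * (2 * b))) +
          (1 + 5 * C * h) ^ (m + 1) * (h * (2 * b)) := by push_cast; ring
    rw [e2]
    generalize (1 + 5 * C * h) ^ m * (a + m * h * (2 * b)) = R at *
    have j1 : h * C * mean v (sq2 (ξ m)) ≤ h * C * R := by gcongr
    have j2 : 2 * h * mean v (sq2 (σ m)) ≤ 2 * h * (2 * C * R + b) := by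
      refine mul_le_mul_of_nonneg_left (i3.trans ?_) (by positivity); gcongr
    have j3 : 1 * (h * (2 * b)) ≤ (1 + 5 * C * h) ^ (m + 1) * (h * (2 * b)) := by gcongr
    nlinarith

/-- clip level -/
def et (C h y : ℝ) (m : ℕ) : ℝ := 2 * C * y * (1 + 5 * C * h) ^ m
/-- the clipped flow with our parameters -/
def cf (W : Mx n) (C h y : ℝ) (ω0 : VF n) : ℕ → VF n := clf W h (2 * C * y) (1 + 5 * C * h) ω0
/-- the clipped source -/
def cs (W : Mx n) (C h y : ℝ) (ω0 : VF n) (m : ℕ) : VF n := fun x i =>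
  clip (et C h y m) (bb W (cf W C h y ω0 m) x i)

theorem cf_succ (y : ℝ) (ω0 : VF n) (m : ℕ) :
    cf W C h y ω0 (m + 1) = stp W h (cf W C h y ω0 m) (cs W C h y ω0 m) := rfl

theorem Hy.et_pos (c : Hy W K C h) {y : ℝ} (hy : 0 < y) (m : ℕ) : 0 < et C h y m := by
  have := c.C1; have := c.r1; unfold et; positivity

theorem Hy.src (c : Hy W K C h) {ω0 : VF n} {y : ℝ} (hy : 0 < y) {m : ℕ}
    (h1 : ∀ x i, |cf W C h y ω0 m x i| ≤ y * (1 + 5 * C * h) ^ m)
    (h2 : ∀ x, opn (jac (cf W C h y ω0 m) x) ≤ y * (1 + 5 * C * h) ^ m) (x : Cube n) :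
    opn (jac (bb W (cf W C h y ω0 m)) x) ≤ et C h y m ∧
      opn (jac (cs W C h y ω0 m) x) ≤ 2 * et C h y m := by
  have hC := c.C1
  have hr := c.r1
  have he := c.et_pos hy m
  have a1 : opn (jac (bb W (cf W C h y ω0 m)) x) ≤ et C h y m := by
    refine (c.jb1 _ x _ (by positivity) (h1 x)).trans ?_
    calc _ ≤ C * (y * (1 + 5 * C * h) ^ m + y * (1 + 5 * C * h) ^ m) := by gcongr; exact h2 x
      _ = _ := by unfold et; ring
  refine ⟨a1, ((c.cl _ he).2.2 n _ x _ a1).trans_eq ?_⟩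
  field_simp; ring

theorem Hy.inv (c : Hy W K C h) {ω0 : VF n} {y : ℝ} (hy : 0 < y) (h1 : ∀ x i, |ω0 x i| ≤ y)
    (h2 : ∀ x, opn (jac ω0 x) ≤ y) (m : ℕ) :
    (∀ x i, |cf W C h y ω0 m x i| ≤ y * (1 + 5 * C * h) ^ m) ∧
      ∀ x, opn (jac (cf W C h y ω0 m) x) ≤ y * (1 + 5 * C * h) ^ m := by
  have hC := c.C1
  have hr := c.r1
  have hh := c.h0
  induction m with
  | zero => simpa [cf, clf] using ⟨h1, h2⟩
  | succ m ih =>
    have hY : 0 ≤ y * (1 + 5 * C * h) ^ m := by positivity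
    have ee : et C h y m = 2 * C * (y * (1 + 5 * C * h) ^ m) := by unfold et; ring
    have e2 : y * (1 + 5 * C * h) ^ (m + 1) = (1 + 5 * C * h) * (y * (1 + 5 * C * h) ^ m) := by ring
    rw [cf_succ, e2]
    refine ⟨fun x i => ?_, fun x => ?_⟩
    · refine (c.bo2 _ _ _ (et C h y m) ih.1
        (fun x i => ((c.cl _ (c.et_pos hy m)).1 _).1) x i).trans ?_
      rw [ee]
      generalize y * (1 + 5 * C * h) ^ m = Y at *
      have : 0 ≤ h * Y := by positivity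
      have : 0 ≤ C * (h * Y) := by positivity
      nlinarith
    · refine (c.op _ _ _ _ ih.2 (fun x => (c.src hy ih.1 ih.2 x).2) x).trans_eq ?_
      rw [ee]; ring

theorem Hy.odd_lin (c : Hy W K C h) {ω0 : VF n} (ho : Odd ω0) (m : ℕ) : Odd (lin W h ω0 m) := by
  induction m with
  | zero => exact ho
  | succ m ih => exact c.ostp _ _ ih (c.obb _ ih)

theorem Hy.l4 (c : Hy W K C h) {ω : VF n} (ho : Odd ω) :
    mean (prob (mu W)) (fun x => ∑ i, ω x i ^ 4) ≤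
      8 * C * mean (prob (mu W)) fun x => So (jac ω x) := by
  have hC := c.C1
  have := mean_le1 (isP_mu W) fun x => (c.so (jac ω x)).2
  refine (c.p4 ω ho).trans ?_
  calc _ ≤ C * (8 * mean (prob (mu W)) fun x => So (jac ω x)) := by gcongr
    _ = _ := by ring

theorem Hy.s4b (c : Hy W K C h) {ω : VF n} (ho : Odd ω) :
    mean (prob (mu W)) (fun x => S4 (jac (bb W ω) x)) ≤
      16 * C ^ 2 * mean (prob (mu W)) fun x => So (jac ω x) := by
  have hC := c.C1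
  have h1 := c.l4 ho
  have h2 : mean (prob (mu W)) (fun x => S4 (jac (bb W ω) x)) ≤
      8 * C * mean (prob (mu W)) (fun x => So (jac ω x)) +
        C * mean (prob (mu W)) (fun x => ∑ i, ω x i ^ 4) :=
    mean_le2 (isP_mu W) fun x => by
      have := c.jb2 ω x
      have h3 : C * S4 (jac ω x) ≤ C * (8 * So (jac ω x)) := by gcongr; exact (c.so _).2
      linarith
  have h3 : 0 ≤ mean (prob (mu W)) fun x => So (jac ω x) :=
    (isP_mu W).mean_nonneg fun x => So_nn _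
  generalize (mean (prob (mu W)) fun x => So (jac ω x)) = s at *
  have h4 : C * mean (prob (mu W)) (fun x => ∑ i, ω x i ^ 4) ≤ C * (8 * C * s) := by gcongr
  have h5 : 0 ≤ C * s * (C - 1) := by have : 0 ≤ C - 1 := by linarith
                                      positivity
  nlinarith

theorem Hy.so_lin (c : Hy W K C h) {ω0 : VF n} (ho : Odd ω0) {e : ℝ}
    (h2 : ∀ x, opn (jac ω0 x) ≤ e) (m : ℕ) :
    mean (prob (mu W)) (fun x => So (jac (lin W h ω0 m) x)) ≤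
      (1 + 17 * C ^ 3 * h) ^ m * (17 * (n * e ^ 4)) := by
  have hC := c.C1
  have hh := c.h0
  induction m with
  | zero =>
    rw [pow_zero, one_mul, ← (isP_mu W).mean_const (17 * (n * e ^ 4))]
    refine (isP_mu W).mean_mono fun x => (c.so _).1.trans ?_
    have := opn_nonneg (jac ω0 x)
    have h3 : (n : ℝ) * opn (jac ω0 x) ^ 4 ≤ n * e ^ 4 := by gcongr; exact h2 x
    have := c.s4op (jac ω0 x)
    simp only [lin]; linarith
  | succ m ih =>
    have h1 := c.s4 (lin W h ω0 m) (bb W (lin W h ω0 m))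
    have h3 := c.s4b (c.odd_lin ho m)
    have h4 : 0 ≤ mean (prob (mu W)) fun x => So (jac (lin W h ω0 m) x) :=
      (isP_mu W).mean_nonneg fun x => So_nn _
    rw [pow_succ', mul_assoc]
    simp only [lin]
    generalize (mean (prob (mu W)) fun x => So (jac (lin W h ω0 m) x)) = s at *
    have h5 : C * h * mean (prob (mu W)) (fun x => S4 (jac (bb W (lin W h ω0 m)) x)) ≤
        C * h * (16 * C ^ 2 * s) := by gcongr
    have h6 : C ≤ C ^ 3 := by simpa using pow_le_pow_right₀ hC (show 1 ≤ 3 by norm_num)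
    have h7 : C * (h * s) ≤ C ^ 3 * (h * s) := by gcongr
    calc _ ≤ (1 + 17 * C ^ 3 * h) * s := by nlinarith
      _ ≤ _ := by gcongr

/-- the data of the fixed-step estimate -/
structure Dt (W : Mx n) (K C h : ℝ) (ω0 : VF n) (e y H Z q : ℝ) (M : ℕ) : Prop where
  e0 : 0 < e
  ey : e ≤ y
  H0 : 0 ≤ H
  Z0 : 0 ≤ Z
  yH : y ^ 2 * H ≤ Z
  nZ : n * e ^ 4 ≤ Z * y ^ 2
  Cq : C ≤ q
  Kq : K ≤ q
  Mq : M * h ≤ q
  gq : (1 + 17 * C ^ 3 * h) ^ M ≤ q
  odd : Odd ω0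
  sup : ∀ x i, |ω0 x i| ≤ e
  op : ∀ x, opn (jac ω0 x) ≤ e

variable {ω0 : VF n} {e y H Z q : ℝ} {M : ℕ}

theorem Dt.y0 (t : Dt W K C h ω0 e y H Z q M) : 0 < y := t.e0.trans_le t.ey

theorem Hy.gq (c : Hy W K C h) (t : Dt W K C h ω0 e y H Z q M) {m : ℕ} (hm : m ≤ M) :
    (1 + 17 * C ^ 3 * h) ^ m ≤ q ∧ (1 + 5 * C * h) ^ m ≤ q ∧ m * h ≤ q := by
  have hC := c.C1
  have hh := c.h0
  have h6 : C ≤ C ^ 3 := by simpa using pow_le_pow_right₀ hC (show 1 ≤ 3 by norm_num)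
  have h7 : 1 + 5 * C * h ≤ 1 + 17 * C ^ 3 * h := by gcongr; norm_num
  have h1 : (1 + 17 * C ^ 3 * h) ^ m ≤ q := (pow_le_pow_right₀ (c.r1.trans h7) hm).trans t.gq
  refine ⟨h1, (pow_le_pow_left₀ (zero_le_one.trans c.r1) h7 m).trans h1, le_trans ?_ t.Mq⟩
  gcongr

theorem Hy.so_le (c : Hy W K C h) (t : Dt W K C h ω0 e y H Z q M) {m : ℕ} (hm : m ≤ M) :
    mean (prob (mu W)) (fun x => So (jac (lin W h ω0 m) x)) ≤ q * (17 * (n * e ^ 4)) := by
  refine (c.so_lin t.odd t.op m).trans ?_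
  gcongr
  exact (c.gq t hm).1

theorem Hy.b4 (c : Hy W K C h) (t : Dt W K C h ω0 e y H Z q M) {m : ℕ} (hm : m ≤ M) :
    1 / et C h y m ^ 2 * mean (prob (mu W)) (fun x => ∑ i, bb W (lin W h ω0 m) x i ^ 4) ≤
      68 * q ^ 2 * Z := by
  have hC := c.C1
  have hq := c.C1.trans t.Cq
  have hZ := t.Z0
  have hy := t.y0
  have h1 := c.p4 _ (c.obb _ (c.odd_lin t.odd m))
  have h2 := c.s4b (c.odd_lin t.odd m)
  have h3 := c.so_le t hm
  have he := c.et_pos hy m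
  have h4 : 2 * C * y ≤ et C h y m :=
    le_mul_of_one_le_right (by positivity) (one_le_pow₀ c.r1)
  rw [one_div_mul_eq_div, div_le_iff₀ (by positivity)]
  calc _ ≤ C * (16 * C ^ 2 * (q * (17 * (Z * y ^ 2)))) := by
        refine h1.trans ?_
        gcongr
        refine h2.trans ?_
        gcongr
        refine h3.trans ?_
        gcongr q * (17 * ?_)
        exact t.nZ
    _ = 68 * (C * q) * Z * (2 * C * y) ^ 2 := by ring
    _ ≤ 68 * (q * q) * Z * et C h y m ^ 2 := by gcongr; exact t.Cq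
    _ = _ := by ring

theorem sq_add_le {a b s η : ℝ} (hη : 0 < η) (h : |s| ≤ |a| + b ^ 2 / η) :
    s ^ 2 ≤ 2 * a ^ 2 + 2 * (1 / η ^ 2 * b ^ 4) := by
  have e : 1 / η ^ 2 * b ^ 4 = (b ^ 2 / η) ^ 2 := by field_simp
  rw [e, ← sq_abs s, ← sq_abs a]
  have : |s| ^ 2 ≤ (|a| + b ^ 2 / η) ^ 2 := by gcongr
  nlinarith [sq_nonneg (|a| - b ^ 2 / η)]

theorem Hy.pt (c : Hy W K C h) (l k σ : VF n) {η : ℝ} (hη : 0 < η) (x : Cube n)
    (hs : ∀ i, |σ x i| ≤ |bb W l x i - bb W k x i| + bb W l x i ^ 2 / η) :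
    sq2 σ x ≤ 2 * C * sq2 (l - k) x + 2 * (1 / η ^ 2) * ∑ i, bb W l x i ^ 4 := by
  have h1 := c.jb3 (l - k) x
  rw [bb_sub, sq2_eq] at h1
  have h2 : sq2 σ x ≤ ∑ i, (2 * (bb W l - bb W k) x i ^ 2 + 2 * (1 / η ^ 2 * bb W l x i ^ 4)) := by
    rw [sq2_eq]; exact sum_le_sum fun i _ => sq_add_le hη (hs i)
  rw [sum_add_distrib, ← mul_sum, ← mul_sum, ← mul_sum] at h2
  linarith

theorem Hy.dl (c : Hy W K C h) (t : Dt W K C h ω0 e y H Z q M) {m : ℕ} (hm : m ≤ M) :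
    mean (prob (mu W)) (sq2 (lin W h ω0 m - cf W C h y ω0 m)) ≤ 272 * q ^ 4 * Z := by
  have hq := c.C1.trans t.Cq
  have hZ := t.Z0
  have hh := c.h0
  have := c.flow 0 (fun m => lin W h ω0 m - cf W C h y ω0 m)
    (fun m => bb W (lin W h ω0 m) - cs W C h y ω0 m) (fun m => by rw [← stp_sub]; rfl) M
    (a := 0) (b := 136 * q ^ 2 * Z) (by positivity)
    (fun v hv => by simp [lin, cf, clf, mean, sq2]) (fun m hm v hv => by
      rw [wm_zero hv]
      have he := c.et_pos t.y0 m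
      have h1 := mean_le2 (isP_mu W) fun x =>
        c.pt (lin W h ω0 m) (cf W C h y ω0 m) (bb W (lin W h ω0 m) - cs W C h y ω0 m) he x
          fun i => by
            have a1 := ((c.cl _ he).1 (bb W (lin W h ω0 m) x i)).2
            have a2 := ((c.cl _ he).2.1 (bb W (lin W h ω0 m) x i) (bb W (cf W C h y ω0 m) x i)).1
            have a3 := abs_sub_le (bb W (lin W h ω0 m) x i)
              (clip (et C h y m) (bb W (lin W h ω0 m) x i))
              (clip (et C h y m) (bb W (cf W C h y ω0 m) x i))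
            simp only [Pi.sub_apply, cs]
            linarith
      have h2 := c.b4 t hm.le
      linarith) m hm _ (wm_mu W le_rfl)
  refine this.trans ?_
  obtain ⟨-, g2, g3⟩ := c.gq t hm
  calc _ ≤ q * (0 + q * (2 * (136 * q ^ 2 * Z))) := by gcongr
    _ = _ := by ring

theorem Hy.ex (c : Hy W K C h) (t : Dt W K C h ω0 e y H Z q M) {m : ℕ} (hm : m ≤ M)
    {v : Cube n → ℝ} (hv : Wm (mu W) H v) :
    mean v (sq2 (bb W (cf W C h y ω0 m) - cs W C h y ω0 m)) ≤ 1504 * q ^ 5 * Z := by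
  have hC := c.C1
  have hq := c.C1.trans t.Cq
  have hZ := t.Z0
  have hy := t.y0
  have hK := c.K0
  have hH := t.H0
  have hr := c.r1
  have he := c.et_pos t.y0 m
  have hi := c.inv t.y0 (fun x i => (t.sup x i).trans t.ey) (fun x => (t.op x).trans t.ey) m
  have h0 := c.vec (bb W (cf W C h y ω0 m) - cs W C h y ω0 m) (3 * et C h y m) (by positivity)
    (fun x => by
      have := c.src t.y0 hi.1 hi.2 x
      rw [jac_sub]
      refine (opn_sub_le _ _).trans ?_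
      linarith) H v hv
  have h1 := mean_le2 (isP_mu W) fun x =>
    c.pt (lin W h ω0 m) (cf W C h y ω0 m) (bb W (cf W C h y ω0 m) - cs W C h y ω0 m) he x
      fun i => by
        have a1 := ((c.cl _ he).1 (bb W (lin W h ω0 m) x i)).2
        have a2 := ((c.cl _ he).2.1 (bb W (lin W h ω0 m) x i) (bb W (cf W C h y ω0 m) x i)).2
        have a3 := abs_sub_abs_le_abs_sub
          (bb W (cf W C h y ω0 m) x i - clip (et C h y m) (bb W (cf W C h y ω0 m) x i))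
          (bb W (lin W h ω0 m) x i - clip (et C h y m) (bb W (lin W h ω0 m) x i))
        rw [abs_sub_comm (bb W (cf W C h y ω0 m) x i - _)] at a3
        simp only [Pi.sub_apply, cs]
        linarith
  have h2 := c.b4 t hm
  have h3 : C * mean (prob (mu W)) (sq2 (lin W h ω0 m - cf W C h y ω0 m)) ≤
      q * (272 * q ^ 4 * Z) := by
    refine mul_le_mul t.Cq (c.dl t hm) ((isP_mu W).mean_nonneg (sq2_nn _)) (by positivity)
  have h4 : q ^ 2 * Z ≤ q ^ 5 * Z := by gcongr; norm_num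
  have h5 : 4 * K * (3 * et C h y m) ^ 2 * H ≤ 144 * q ^ 5 * Z := by
    calc _ = 144 * (K * C ^ 2 * ((1 + 5 * C * h) ^ m) ^ 2) * (y ^ 2 * H) := by unfold et; ring
      _ ≤ 144 * (q * q ^ 2 * q ^ 2) * Z := by
          gcongr
          exacts [t.Kq, t.Cq, (c.gq t hm).2.1, t.yH]
      _ = _ := by ring
  nlinarith

theorem Hy.gm (c : Hy W K C h) (t : Dt W K C h ω0 e y H Z q M) (Φ : Cube n → ℝ) {ρ : ℝ}
    (hρ : ∀ v, Wm (mu W) H v → mean v (sq2 (grad Φ - ω0)) ≤ ρ) {m : ℕ} (hm : m ≤ M)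
    {v : Cube n → ℝ} (hv : Wm (mu W) H v) :
    mean v (sq2 (grad ((Qh W h)^[m] Φ) - cf W C h y ω0 m)) ≤ 6016 * q ^ 7 * (ρ + Z) := by
  have hC := c.C1
  have hq := c.C1.trans t.Cq
  have hZ := t.Z0
  have hh := c.h0
  have hρ0 : 0 ≤ ρ := (hv.1.mean_nonneg (sq2_nn _)).trans (hρ v hv)
  have := c.flow H (fun m => grad ((Qh W h)^[m] Φ) - cf W C h y ω0 m)
    (fun m => bb W (grad ((Qh W h)^[m] Φ)) - cs W C h y ω0 m)
    (fun m => by rw [← stp_sub, Function.iterate_succ_apply', c.int]; rfl) M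
    (a := ρ) (b := 3008 * q ^ 5 * Z) (by positivity) hρ (fun m hm v hv => by
      have h1 : mean v (sq2 (bb W (grad ((Qh W h)^[m] Φ)) - cs W C h y ω0 m)) ≤
          2 * C * mean v (sq2 (grad ((Qh W h)^[m] Φ) - cf W C h y ω0 m)) +
          2 * mean v (sq2 (bb W (cf W C h y ω0 m) - cs W C h y ω0 m)) :=
        mean_le2 hv.1 fun x => by
          have a1 := c.jb3 (grad ((Qh W h)^[m] Φ) - cf W C h y ω0 m) x
          rw [bb_sub] at a1
          generalize bb W (grad ((Qh W h)^[m] Φ)) = A at *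
          generalize bb W (cf W C h y ω0 m) = B at *
          have a2 : sq2 (A - cs W C h y ω0 m) x ≤
              2 * sq2 (A - B) x + 2 * sq2 (B - cs W C h y ω0 m) x := by
            simp only [sq2_eq, mul_sum, ← sum_add_distrib, Pi.sub_apply]
            exact sum_le_sum fun i _ => by
              nlinarith [sq_nonneg (A x i - B x i - (B x i - cs W C h y ω0 m x i))]
          linarith
      have h2 := c.ex t hm.le hv
      linarith) m hm v hv
  refine this.trans ?_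
  obtain ⟨-, g2, g3⟩ := c.gq t hm
  have h1 : q ≤ q ^ 7 := by simpa using pow_le_pow_right₀ hq (show 1 ≤ 7 by norm_num)
  have h2 : q * ρ ≤ q ^ 7 * ρ := by gcongr
  have h3 : 0 ≤ q ^ 7 * ρ := by positivity
  calc _ ≤ q * (ρ + q * (2 * (3008 * q ^ 5 * Z))) := by gcongr
    _ ≤ _ := by nlinarith

theorem Hy.tl (c : Hy W K C h) (t : Dt W K C h ω0 e y H Z q M) {m : ℕ} (hm : m ≤ M) (θ : VF n)
    (hθ : ∀ x i, θ x i = 1 ∨ θ x i = 0) {ε : ℝ} (hε : 0 < ε)
    (ht : mean (prob (mu W)) (fun x => ∑ k, θ x k) ≤ 2 * n * ε ^ 2) :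
    mean (prob (mu W)) (fun x => ∑ k, θ x k * lin W h ω0 m x k ^ 2) ≤
      69 * q ^ 2 * (n * e ^ 2 * ε) := by
  have hC := c.C1
  have hq := c.C1.trans t.Cq
  have he := t.e0
  have h1 : mean (prob (mu W)) (fun x => ∑ k, θ x k * lin W h ω0 m x k ^ 2) ≤
      e ^ 2 / (2 * ε) * mean (prob (mu W)) (fun x => ∑ k, θ x k) +
        ε / (2 * e ^ 2) * mean (prob (mu W)) (fun x => ∑ k, lin W h ω0 m x k ^ 4) :=
    mean_le2 (isP_mu W) fun x => by
      simp only [mul_sum, ← sum_add_distrib]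
      refine sum_le_sum fun k _ => ?_
      rcases hθ x k with h1 | h1 <;> rw [h1]
      · have : e ^ 2 / (2 * ε) * 1 + ε / (2 * e ^ 2) * lin W h ω0 m x k ^ 4 -
            1 * lin W h ω0 m x k ^ 2 =
            (e ^ 2 - ε * lin W h ω0 m x k ^ 2) ^ 2 / (2 * ε * e ^ 2) := by field_simp; ring
        have h2 : 0 ≤ (e ^ 2 - ε * lin W h ω0 m x k ^ 2) ^ 2 / (2 * ε * e ^ 2) := by positivity
        linarith
      · simp only [zero_mul, mul_zero, zero_add]; positivity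
  have h2 : mean (prob (mu W)) (fun x => ∑ k, lin W h ω0 m x k ^ 4) ≤
      8 * q * (q * (17 * (n * e ^ 4))) := by
    refine (c.l4 (c.odd_lin t.odd m)).trans (mul_le_mul (by linarith [t.Cq]) (c.so_le t hm)
      ((isP_mu W).mean_nonneg fun x => So_nn _) (by positivity))
  have h3 : 1 * (n * e ^ 2 * ε) ≤ q ^ 2 * (n * e ^ 2 * ε) := by
    gcongr; exact one_le_pow₀ hq
  calc _ ≤ e ^ 2 / (2 * ε) * (2 * n * ε ^ 2) +
        ε / (2 * e ^ 2) * (8 * q * (q * (17 * (n * e ^ 4)))) := by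
        refine h1.trans ?_; gcongr
    _ = n * e ^ 2 * ε + 68 * q ^ 2 * (n * e ^ 2 * ε) := by field_simp; ring
    _ ≤ _ := by linarith

theorem Hy.fixed (c : Hy W K C h) (t : Dt W K C h ω0 e y H Z q M) (Φ : Cube n → ℝ) {ρ : ℝ}
    (hρ : ∀ v, Wm (mu W) H v → mean v (sq2 (grad Φ - ω0)) ≤ ρ) {A ε : ℝ} (hA : 0 ≤ A) (hε : 0 < ε)
    (ht : mean (prob (mu W)) (fun x => ∑ k, if A < |loc W 0 x k| then (1 : ℝ) else 0) ≤
      2 * n * ε ^ 2) {d : ℕ} (α : Fin d → ℝ) (ha : 0 < ∑ j, |α j|) (m : Fin d → ℕ)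
    (hm : ∀ j, m j ≤ M) {v : Cube n → ℝ} (hv : Wm (mu W) H v) :
    mean v (sq2 (grad fun x => ∑ j, α j * (Qh W h)^[m j] Φ x)) ≤
      8 * cosh A ^ 2 * mean (prob (mu W)) (fun x => ∑ k, (1 - tt W 0 x k ^ 2) *
        grad (fun x => ∑ j, α j * (Qh W h)^[m j] Φ x) x k ^ 2) +
      63000 * q ^ 7 * (∑ j, |α j|) ^ 2 * (ρ + (Z + n * e ^ 2 * ε)) := by
  have hC := c.C1
  have hq := c.C1.trans t.Cq
  have hZ := t.Z0
  have hy := t.y0
  have hK := c.K0
  have hH := t.H0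
  have he := t.e0
  have hρ0 : 0 ≤ ρ := (hv.1.mean_nonneg (sq2_nn _)).trans (hρ v hv)
  rw [grad_cmb]
  have g1 := cmb_sq2 α _ hv.1 fun j => c.gm t Φ hρ (hm j) hv
  have g2 := cmb_sq2 α _ (isP_mu W) fun j => c.gm t Φ hρ (hm j) (wm_mu W hH)
  have g3 := cmb_sq2 α _ (isP_mu W) fun j => c.dl t (hm j)
  have g4 := cmb_mean α _ (isP_mu W) (fun x k => if A < |loc W 0 x k| then (1 : ℝ) else 0)
    (fun x k => by split_ifs <;> norm_num) fun j =>
      c.tl t (hm j) (fun x k => if A < |loc W 0 x k| then (1 : ℝ) else 0)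
        (fun x k => by split_ifs <;> simp) hε ht
  have g5 := c.vec (cmb α fun j => cf W C h y ω0 (m j)) ((∑ j, |α j|) * (y * q)) (by positivity)
    (fun x => cmb_op α _ x fun j => by
      refine ((c.inv hy (fun x i => (t.sup x i).trans t.ey)
        (fun x => (t.op x).trans t.ey) (m j)).2 x).trans ?_
      gcongr
      exact (c.gq t (hm j)).2.1) H v hv
  have s1 := cmb_sub α (fun j => grad ((Qh W h)^[m j] Φ)) fun j => cf W C h y ω0 (m j)
  have s2 := cmb_sub α (fun j => lin W h ω0 (m j)) fun j => cf W C h y ω0 (m j)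
  generalize (cmb α fun j => grad ((Qh W h)^[m j] Φ) - cf W C h y ω0 (m j)) = Γ at *
  generalize (cmb α fun j => lin W h ω0 (m j) - cf W C h y ω0 (m j)) = Δ at *
  generalize (cmb α fun j => grad ((Qh W h)^[m j] Φ)) = g at *
  generalize (cmb α fun j => lin W h ω0 (m j)) = L at *
  generalize (cmb α fun j => cf W C h y ω0 (m j)) = B at *
  have g6 : mean v (sq2 g) ≤ 2 * mean v (sq2 B) + 2 * mean v (sq2 Γ) :=
    mean_le2 hv.1 fun x => by
      simp only [sq2_eq, mul_sum, ← sum_add_distrib, s1]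
      exact sum_le_sum fun i _ => by nlinarith [sq_nonneg (B x i - (g x i - B x i))]
  have g7 : mean (prob (mu W)) (sq2 B) ≤
      2 * cosh A ^ 2 * mean (prob (mu W)) (fun x => ∑ k, (1 - tt W 0 x k ^ 2) * g x k ^ 2) +
      2 * mean (prob (mu W)) (sq2 Γ) +
      2 * mean (prob (mu W)) (fun x => ∑ k, (if A < |loc W 0 x k| then (1 : ℝ) else 0) * L x k ^ 2) +
      2 * mean (prob (mu W)) (sq2 Δ) :=
    mean_le4 (isP_mu W) fun x => by
      simp only [sq2_eq, mul_sum, ← sum_add_distrib, s1, s2]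
      refine sum_le_sum fun k _ => ?_
      obtain ⟨a1, a2⟩ := cosh_tanh (z := loc W 0 x k) hA
      change 0 ≤ 1 - tt W 0 x k ^ 2 at a1
      change _ → 1 ≤ cosh A ^ 2 * (1 - tt W 0 x k ^ 2) at a2
      split_ifs with hk
      · have : 0 ≤ 2 * cosh A ^ 2 * ((1 - tt W 0 x k ^ 2) * g x k ^ 2) := by positivity
        nlinarith [sq_nonneg (L x k + (L x k - B x k)), sq_nonneg (g x k - B x k)]
      · have b1 : 1 * g x k ^ 2 ≤ cosh A ^ 2 * (1 - tt W 0 x k ^ 2) * g x k ^ 2 := by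
          gcongr; exact a2 (not_lt.1 hk)
        nlinarith [sq_nonneg (g x k + (g x k - B x k)), sq_nonneg (L x k - B x k)]
  generalize (∑ j, |α j|) = a at *
  have g8 : 4 * K * (a * (y * q)) ^ 2 * H ≤ 4 * (a ^ 2 * (q ^ 7 * Z)) := by
    calc _ = 4 * (a ^ 2 * (K * q ^ 2 * (y ^ 2 * H))) := by ring
      _ ≤ 4 * (a ^ 2 * (q * q ^ 6 * Z)) := by
          gcongr
          exacts [t.Kq, by norm_num, t.yH]
      _ = _ := by ring
  have g9 : a ^ 2 * (q ^ 4 * Z) ≤ a ^ 2 * (q ^ 7 * Z) := by gcongr; norm_num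
  have g10 : a ^ 2 * (q ^ 2 * (n * e ^ 2 * ε)) ≤ a ^ 2 * (q ^ 7 * (n * e ^ 2 * ε)) := by
    gcongr; norm_num
  have p1 : 0 ≤ a ^ 2 * (q ^ 7 * Z) := by positivity
  have p2 : 0 ≤ a ^ 2 * (q ^ 7 * ρ) := by positivity
  have p3 : 0 ≤ a ^ 2 * (q ^ 7 * (n * e ^ 2 * ε)) := by positivity
  nlinarith

theorem cont_l {d : ℕ} (α : Fin d → ℝ) (v : Cube n → ℝ) :
    Continuous fun f : Fin d → Cube n → ℝ => mean v (sq2 (grad fun x => ∑ j, α j * f j x)) := by
  simp only [mean, sq2_eq, Rec.grad_eq]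
  fun_prop

theorem cont_r {d : ℕ} (α : Fin d → ℝ) (v : Cube n → ℝ) (θ : VF n) :
    Continuous fun f : Fin d → Cube n → ℝ =>
      mean v (fun x => ∑ k, θ x k * grad (fun x => ∑ j, α j * f j x) x k ^ 2) := by
  simp only [mean, Rec.grad_eq]
  fun_prop

theorem setup (tl : ToolStmt) (bas : BasStmt) (jb : JbStmt) (bo : BoStmt) (op : OpStmt)
    (s4 : S4Stmt) (cl : ClStmt) (sb : SbStmt) (p4 : P4Stmt) {K : ℝ} (hK : 0 < K) :
    ∃ C ≥ (1 : ℝ), ∀ (n : ℕ) (W : Mx n), Nice W K → Ent.AT (mu W) K 0 →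
      (∀ A ≥ (0 : ℝ), mean (prob (mu W))
        (fun x => ∑ k, if A < |loc W 0 x k| then (1 : ℝ) else 0) ≤
          2 * n * exp (-(A ^ 2 / (2 * C))) ^ 2) ∧
      ∀ᶠ h : ℝ in 𝓝[>] 0, 0 < h ∧ Hy W K C h := by
  obtain ⟨Cb, b1, jb⟩ := jb K
  obtain ⟨Co, o1, bo⟩ := bo K
  obtain ⟨Cp, p1, op⟩ := op K
  obtain ⟨Cs, s1, s4⟩ := s4 K
  obtain ⟨C4, f1, p4⟩ := p4 K hK
  obtain ⟨C, hb, ho, hp, hs, hf⟩ : ∃ C : ℝ, Cb ≤ C ∧ Co ≤ C ∧ Cp ≤ C ∧ Cs ≤ C ∧ C4 ≤ C :=
    ⟨Cb + Co + Cp + Cs + C4, by linarith, by linarith, by linarith, by linarith, by linarith⟩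
  have hC : 1 ≤ C := b1.trans hb
  refine ⟨C, hC, fun n W hW hAT => ⟨fun A hA => ?_, ?_⟩⟩
  · refine ((p4 n W hW hAT).2 A hA).trans ?_
    rw [← exp_nat_mul]
    gcongr
    have : A ^ 2 / C ≤ A ^ 2 / C4 := by gcongr
    have e2 : ((2 : ℕ) : ℝ) * -(A ^ 2 / (2 * C)) = -(A ^ 2 / C) := by push_cast; field_simp
    rw [e2]; linarith
  filter_upwards [s4 n W hW, Ioo_mem_nhdsGT (show (0 : ℝ) < 1 / (C * (n + 1)) by positivity)]
    with h h4 hh
  have h0 : 0 < h := hh.1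
  have h1 : C * h * (n + 1) ≤ 1 := by
    have := hh.2.le
    rw [le_div_iff₀ (by positivity)] at this
    linarith
  have h2 : Co * h * (n + 1) ≤ 1 := le_trans (by gcongr) h1
  have h3 : h * n ≤ 1 := by
    have : 1 * h * (n + 1) ≤ C * h * (n + 1) := by gcongr
    nlinarith
  exact ⟨h0,
    { C1 := hC
      K0 := hK
      h0 := h0.le
      int := bas.int n W hW.1 h
      wm := fun H v hv => Bas66.wm W h0.le h3 hv
      obb := bas.odd_bb n W
      ostp := bas.odd_stp n W h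
      jb1 := fun ω x y hy h1 => ((jb n W hW ω x).1 y hy h1).trans (by
        have := opn_nonneg (jac ω x); gcongr)
      jb2 := fun ω x => (jb n W hW ω x).2.1.trans (by have := S4_nn (jac ω x); gcongr)
      jb3 := fun ω x => (jb n W hW ω x).2.2.trans (by have := sq2_nn ω x; gcongr)
      bo1 := fun ξ σ x => ((bo n W hW h h0.le h2 ξ σ).1 x).trans (by
        have := sq2_nn ξ x; gcongr)
      bo2 := fun ξ σ => (bo n W hW h h0.le h2 ξ σ).2
      op := fun ω σ M N h5 h6 x => (op n W hW h h0.le h3 ω σ M N h5 h6 x).trans (by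
        have := (opn_nonneg _).trans (h5 x); gcongr)
      s4 := fun ω σ => (h4 ω σ).trans (by
        have := (isP_mu W).mean_nonneg fun x => So_nn (jac ω x)
        have := (isP_mu W).mean_nonneg fun x => S4_nn (jac σ x)
        gcongr)
      p4 := fun ω ho => ((p4 n W hW hAT).1 ω ho).trans (by
        have := (isP_mu W).mean_nonneg fun x => S4_nn (jac ω x)
        gcongr)
      cl := cl
      vec := sb.vec n (mu W) (mu_pos W) K hK hAT
      so := tl.so_le n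
      s4op := tl.s4_op n }⟩

/-- the common size of all growth factors -/
def qq (K C U : ℝ) : ℝ := (C + K) * exp ((17 * C ^ 3 + 1) * U)

theorem Hy.dt (c : Hy W K C h) (h0 : 0 < h) {U : ℝ} (hU : 0 ≤ U) (he : 0 < e) (ey : e ≤ y)
    (H0 : 0 ≤ H) (Z0 : 0 ≤ Z) (yH : y ^ 2 * H ≤ Z) (nZ : n * e ^ 4 ≤ Z * y ^ 2) (odd : Odd ω0)
    (sup : ∀ x i, |ω0 x i| ≤ e) (op : ∀ x, opn (jac ω0 x) ≤ e) :
    Dt W K C h ω0 e y H Z (qq K C U) ⌊U / h⌋₊ := by
  have hC := c.C1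
  have hK := c.K0
  have x1 : 1 ≤ exp ((17 * C ^ 3 + 1) * U) := one_le_exp (by positivity)
  have q1 : exp ((17 * C ^ 3 + 1) * U) ≤ qq K C U :=
    le_mul_of_one_le_left (by positivity) (by linarith)
  have q2 : C + K ≤ qq K C U := le_mul_of_one_le_right (by positivity) x1
  have hM : (⌊U / h⌋₊ : ℝ) * h ≤ U := by
    have := Nat.floor_le (show 0 ≤ U / h by positivity)
    rwa [le_div_iff₀ h0] at this
  have hC3 : 0 ≤ 17 * C ^ 3 * U := by positivity
  refine ⟨he, ey, H0, Z0, yH, nZ, by linarith, by linarith, ?_, ?_, odd, sup, op⟩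
  · have := add_one_le_exp ((17 * C ^ 3 + 1) * U)
    nlinarith
  · refine le_trans ?_ q1
    calc _ ≤ exp (17 * C ^ 3 * h) ^ ⌊U / h⌋₊ := by
          gcongr; rw [add_comm]; exact add_one_le_exp _
      _ = exp (17 * C ^ 3 * (⌊U / h⌋₊ * h)) := by rw [← exp_nat_mul]; congr 1; ring
      _ ≤ exp (17 * C ^ 3 * U) := by gcongr
      _ ≤ _ := by gcongr; linarith

theorem exF {K C : ℝ} (hK : 0 < K) (hC : 1 ≤ C) : ∃ F : ℝ, 2 * C ≤ F ∧ ∀ U ≥ (0 : ℝ),
    1 ≤ qq K C U ∧ 63000 * qq K C U ^ 7 ≤ F * exp (F * U) := by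
  have k1 : 0 ≤ 63000 * (C + K) ^ 7 := by positivity
  have k2 : 0 ≤ 7 * (17 * C ^ 3 + 1) := by positivity
  obtain ⟨F, F1, F2, F3⟩ : ∃ F : ℝ, 63000 * (C + K) ^ 7 ≤ F ∧ 7 * (17 * C ^ 3 + 1) ≤ F ∧
      2 * C ≤ F :=
    ⟨63000 * (C + K) ^ 7 + 7 * (17 * C ^ 3 + 1) + 2 * C, by linarith, by linarith, by linarith⟩
  refine ⟨F, F3, fun U hU => ⟨one_le_mul_of_one_le_of_one_le (by linarith)
    (one_le_exp (by positivity)), ?_⟩⟩
  calc 63000 * qq K C U ^ 7 = 63000 * (C + K) ^ 7 * exp (7 * (17 * C ^ 3 + 1) * U) := by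
        rw [qq, mul_pow, ← exp_nat_mul]; push_cast; ring_nf
    _ ≤ _ := by
        have : 0 ≤ F := by linarith
        gcongr

theorem lim_all (bas : BasStmt) (W : Mx n) (hn : 0 < n) (Φ : Cube n → ℝ) {d : ℕ} {u : Fin d → ℝ}
    (hu : ∀ j, 0 ≤ u j) :
    Tendsto (fun (h : ℝ) (j : Fin d) => (Qh W h)^[⌊u j / h⌋₊] Φ) (𝓝[>] 0)
      (𝓝 fun j => sg (mu W) (u j) Φ) :=
  tendsto_pi_nhds.2 fun j => tendsto_pi_nhds.2 fun x => bas.lim n W hn (u j) (hu j) Φ x

theorem wm_H {v : Cube n → ℝ} (hv : Wm (mu W) H v) : 0 ≤ H := by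
  have : ∑ x, v x ≤ ∑ x, exp H * prob (mu W) x := sum_le_sum fun x _ => hv.2 x
  rw [← mul_sum, hv.1.sum1, (isP_mu W).sum1, mul_one] at this
  exact one_le_exp_iff.1 this

theorem Hy.odd_cf (c : Hy W K C h) (ho : Odd ω0) (m : ℕ) : Odd (cf W C h y ω0 m) := by
  induction m with
  | zero => exact ho
  | succ m ih =>
    rw [cf_succ]
    refine c.ostp _ _ ih fun x => ?_
    ext i
    simp only [cs, c.obb _ ih x, Pi.neg_apply, clip, neg_div, tanh_neg, mul_neg]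

theorem odd_cmb {d : ℕ} (α : Fin d → ℝ) {w : Fin d → VF n} (ho : ∀ j, Odd (w j)) :
    Odd (cmb α w) := fun x => by
  ext i
  simp only [cmb, ho _ x, Pi.neg_apply, mul_neg, sum_neg_distrib]

theorem cmb_sup {d : ℕ} (α : Fin d → ℝ) (w : Fin d → VF n) (x : Cube n) (i : Fin n) {Y : ℝ}
    (h : ∀ j, |w j x i| ≤ Y) : |cmb α w x i| ≤ (∑ j, |α j|) * Y := by
  rw [sum_mul]
  refine (abs_sum_le_sum_abs _ _).trans (sum_le_sum fun j _ => ?_)
  rw [abs_mul]
  exact mul_le_mul_of_nonneg_left (h j) (abs_nonneg _)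

theorem cmb_four {d : ℕ} (α : Fin d → ℝ) (w : Fin d → VF n) {v : Cube n → ℝ} (hv : IsP v) {R : ℝ}
    (h : ∀ j, mean v (fun x => ∑ i, w j x i ^ 4) ≤ R) :
    mean v (fun x => ∑ i, cmb α w x i ^ 4) ≤ (∑ j, |α j|) ^ 4 * R := by
  have h1 := cmb_mean (fun j => |α j|) (fun j x i => w j x i ^ 2) hv (fun _ _ => 1)
    (fun _ _ => zero_le_one) (R := R) fun j => by
      simpa only [one_mul, ← pow_mul] using h j
  simp only [abs_abs, one_mul] at h1
  have h2 : mean v (fun x => ∑ i, cmb α w x i ^ 4) ≤ (∑ j, |α j|) ^ 2 *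
      mean v (fun x => ∑ i, cmb (fun j => |α j|) (fun j x i => w j x i ^ 2) x i ^ 2) :=
    mean_le1 hv fun x => by
      rw [mul_sum]
      refine sum_le_sum fun i _ => ?_
      rw [← mul_pow, show cmb α w x i ^ 4 = (cmb α w x i ^ 2) ^ 2 by ring]
      gcongr
      exact cmb_sq α w x i
  refine h2.trans ?_
  calc _ ≤ (∑ j, |α j|) ^ 2 * ((∑ j, |α j|) ^ 2 * R) := by gcongr
    _ = _ := by ring

theorem near {d : ℕ} (α : Fin d → ℝ) {f : ℝ → Fin d → Cube n → ℝ} {g : Fin d → Cube n → ℝ}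
    (hl : Tendsto f (𝓝[>] 0) (𝓝 g)) {ε : ℝ} (hε : 0 < ε) :
    ∀ᶠ h in 𝓝[>] (0 : ℝ), ∀ x, sq2 ((grad fun x => ∑ j, α j * g j x) -
      grad fun x => ∑ j, α j * f h j x) x ≤ ε := by
  refine eventually_all.2 fun x => ?_
  have hc : Continuous fun k : Fin d → Cube n → ℝ =>
      sq2 ((grad fun x => ∑ j, α j * g j x) - grad fun x => ∑ j, α j * k j x) x := by
    simp only [sq2_eq, Pi.sub_apply, Rec.grad_eq]
    fun_prop
  have := (hc.tendsto g).comp hl
  rw [sub_self, show sq2 (0 : VF n) x = 0 by simp [sq2]] at this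
  exact (this.eventually (gt_mem_nhds hε)).mono fun h hh => hh.le

end G45

open G45 in
theorem regGlue : RegGlue := by
  intro tl bas jb bo op s4 cl sb p4 K hK
  obtain ⟨C, hC, st⟩ := setup tl bas jb bo op s4 cl sb p4 hK
  obtain ⟨F, F3, hF⟩ := exF hK hC
  refine ⟨F, by linarith, ?_⟩
  intro n W hn hW hAT Φ ω0 e ρ H U A he H1 Hn hU hA odd sup opj hρ d u α hu v hv
  have hn' : (0 : ℝ) < n := by exact_mod_cast hn
  have hH : 0 < H := by linarith
  have hρ0 : 0 ≤ ρ := (hv.1.mean_nonneg (sq2_nn _)).trans (hρ v hv)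
  rw [bas.dir_eq n W hW.1]
  rcases (show 0 ≤ ∑ j, |α j| by positivity).eq_or_lt with ha | ha
  · have : ∀ j, α j = 0 := fun j =>
      abs_eq_zero.1 ((sum_eq_zero_iff_of_nonneg fun j _ => abs_nonneg (α j)).1 ha.symm j
        (mem_univ j))
    simp [this, mean, sq2_eq, Rec.grad_eq]
  obtain ⟨s, s1, s2, s3⟩ : ∃ s : ℝ, 1 ≤ s ∧ s ^ 2 * H = n ∧ √(n * H) = s * H := by
    have s2 : √(n / H) ^ 2 * H = n := by rw [sq_sqrt (by positivity)]; field_simp
    refine ⟨√(n / H), by rw [one_le_sqrt, one_le_div hH]; exact Hn, s2, ?_⟩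
    rw [sqrt_eq_iff_mul_self_eq (by positivity) (by positivity)]
    first | linear_combination H * s2 | linear_combination (-H) * s2
  have y2 : (e * √s) ^ 2 = e ^ 2 * s := by rw [mul_pow, sq_sqrt (by positivity)]
  have ev : ∀ᶠ h : ℝ in 𝓝[>] 0,
      mean v (sq2 (grad fun x => ∑ j, α j * (Qh W h)^[⌊u j / h⌋₊] Φ x)) ≤
      8 * cosh A ^ 2 * mean (prob (mu W)) (fun x => ∑ k, (1 - tt W 0 x k ^ 2) *
        grad (fun x => ∑ j, α j * (Qh W h)^[⌊u j / h⌋₊] Φ x) x k ^ 2) +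
      63000 * qq K C U ^ 7 * (∑ j, |α j|) ^ 2 *
        (ρ + (e ^ 2 * √(n * H) + n * e ^ 2 * exp (-(A ^ 2 / (2 * C))))) := by
    filter_upwards [(st n W hW hAT).2] with h ⟨h0, c⟩
    exact c.fixed (c.dt (y := e * √s) h0 hU he
      (le_mul_of_one_le_right he.le (one_le_sqrt.2 s1)) hH.le (by positivity)
      (by rw [y2, s3]; exact le_of_eq (by ring)) (by rw [y2, s3, ← s2]; exact le_of_eq (by ring))
      odd sup opj) Φ hρ hA (exp_pos _) ((st n W hW hAT).1 A hA) α ha (fun j => ⌊u j / h⌋₊)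
      (fun j => Nat.floor_le_floor (by gcongr; exact (hu j).2)) hv
  have lim := lim_all bas W hn Φ fun j => (hu j).1
  have l1 := ((cont_l α v).tendsto _).comp lim
  have l2 := ((((cont_r α (prob (mu W)) fun x k => 1 - tt W 0 x k ^ 2).tendsto _).comp
    lim).const_mul (8 * cosh A ^ 2)).add_const (63000 * qq K C U ^ 7 * (∑ j, |α j|) ^ 2 *
      (ρ + (e ^ 2 * √(n * H) + n * e ^ 2 * exp (-(A ^ 2 / (2 * C))))))
  refine (le_of_tendsto_of_tendsto l1 l2 ev).trans (add_le_add le_rfl ?_)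
  have z2 : exp (-(A ^ 2 / (2 * C))) ≤ exp (-(A ^ 2 / F)) := by gcongr
  have z3 : e ^ 2 * √(n * H) + n * e ^ 2 * exp (-(A ^ 2 / (2 * C))) ≤
      e ^ 2 * (√(n * H) + n * exp (-(A ^ 2 / F))) := by
    have : n * e ^ 2 * exp (-(A ^ 2 / (2 * C))) ≤ n * e ^ 2 * exp (-(A ^ 2 / F)) := by gcongr
    linarith
  have : 0 ≤ F := by linarith
  have z1 := (hF U hU).2
  gcongr

open G45 in
theorem regSGlue : RegSGlue := by
  intro tl bas jb bo op s4 cl sb p4 K hK
  obtain ⟨C, hC, st⟩ := setup tl bas jb bo op s4 cl sb p4 hK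
  obtain ⟨F, F3, hF⟩ := exF hK hC
  refine ⟨F, by linarith, ?_⟩
  intro n W hn hW hAT Φ ω0 e ρ H U L he hU hL fd d u α a hu ha ε hε
  obtain ⟨h, ⟨h0, c⟩, hn⟩ := ((st n W hW hAT).2.and
    (near α (lim_all bas W hn Φ fun j => (hu j).1) (half_pos hε))).exists
  obtain ⟨q1, q7⟩ := hF U hU
  have a0 : 0 ≤ ∑ j, |α j| := by positivity
  have a1 : 0 ≤ a := a0.trans ha
  have hm : ∀ j, ⌊u j / h⌋₊ ≤ ⌊U / h⌋₊ := fun j =>
    Nat.floor_le_floor (by gcongr; exact (hu j).2)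
  have ey : e ≤ e * L := le_mul_of_one_le_right he.le hL
  have eZ : n * e ^ 4 = n * e ^ 2 / L ^ 2 * (e * L) ^ 2 := by field_simp
  have t0 := c.dt (H := 0) (Z := n * e ^ 2 / L ^ 2) h0 hU he ey le_rfl (by positivity)
    (by rw [mul_zero]; positivity) eZ.le fd.odd fd.sup fd.op
  have hi := c.inv t0.y0 (fun x i => (fd.sup x i).trans ey) fun x => (fd.op x).trans ey
  have qk : ∀ (k : ℕ) (b : ℝ), k ≤ 7 → 0 ≤ b → b ≤ 63000 →
      b * qq K C U ^ k ≤ F * exp (F * U) := fun k b hk b0 hb =>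
    le_trans (by gcongr) q7
  have hY : ∀ j, e * L * (1 + 5 * C * h) ^ ⌊u j / h⌋₊ ≤ e * L * qq K C U :=
    fun j => by gcongr; exact (c.gq t0 (hm j)).2.1
  have hZ : (∑ j, |α j|) * (e * L * qq K C U) ≤ F * L * exp (F * U) * a * e := by
    have := qk 1 1 (by norm_num) zero_le_one (by norm_num)
    rw [one_mul, pow_one] at this
    calc _ ≤ a * (e * L * (F * exp (F * U))) := by gcongr
      _ = _ := by ring
  refine ⟨cmb α fun j => cf W C h (e * L) ω0 ⌊u j / h⌋₊, cmb α fun j => lin W h ω0 ⌊u j / h⌋₊,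
    ⟨odd_cmb α fun j => c.odd_cf fd.odd _, fun x i => ?_, fun x => ?_, fun v hv => ?_⟩, ?_, ?_⟩
  · exact (cmb_sup α _ x i fun j => ((hi _).1 x i).trans (hY j)).trans hZ
  · exact (cmb_op α _ x fun j => ((hi _).2 x).trans (hY j)).trans hZ
  · have hH := wm_H hv
    have hρ0 : 0 ≤ ρ := (hv.1.mean_nonneg (sq2_nn _)).trans (fd.cl v hv)
    have t := c.dt (H := H) (Z := n * e ^ 2 / L ^ 2 + L ^ 2 * e ^ 2 * H) h0 hU he ey hH
      (by positivity) (by
        have : 0 ≤ n * e ^ 2 / L ^ 2 := by positivity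
        nlinarith) (by
        rw [eZ]; gcongr; exact le_add_of_nonneg_right (by positivity)) fd.odd fd.sup fd.op
    have g1 := cmb_sq2 α _ hv.1 fun j => c.gm t Φ fd.cl (hm j) hv
    have s1 := cmb_sub α (fun j => grad ((Qh W h)^[⌊u j / h⌋₊] Φ))
      fun j => cf W C h (e * L) ω0 ⌊u j / h⌋₊
    rw [grad_cmb α fun j => (Qh W h)^[⌊u j / h⌋₊] Φ] at hn
    have g2 : mean v (sq2 ((grad fun x => ∑ j, α j * sg (mu W) (u j) Φ x) -
        cmb α fun j => cf W C h (e * L) ω0 ⌊u j / h⌋₊)) ≤ 2 * mean v (fun _ => ε / 2) +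
        2 * mean v (sq2 (cmb α fun j =>
          grad ((Qh W h)^[⌊u j / h⌋₊] Φ) - cf W C h (e * L) ω0 ⌊u j / h⌋₊)) :=
      mean_le2 hv.1 fun x => by
        have b1 := hn x
        generalize (grad fun x => ∑ j, α j * sg (mu W) (u j) Φ x) = G at *
        generalize (cmb α fun j =>
          grad ((Qh W h)^[⌊u j / h⌋₊] Φ) - cf W C h (e * L) ω0 ⌊u j / h⌋₊) = Γ at *
        generalize (cmb α fun j => grad ((Qh W h)^[⌊u j / h⌋₊] Φ)) = g at *
        generalize (cmb α fun j => cf W C h (e * L) ω0 ⌊u j / h⌋₊) = B at *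
        have b2 : sq2 (G - B) x ≤ 2 * sq2 (G - g) x + 2 * sq2 Γ x := by
          simp only [sq2_eq, mul_sum, ← sum_add_distrib, s1, Pi.sub_apply]
          exact sum_le_sum fun i _ => by nlinarith [sq_nonneg (G x i - g x i - (g x i - B x i))]
        linarith
    rw [hv.1.mean_const] at g2
    have g3 : 2 * ((∑ j, |α j|) ^ 2 *
        (6016 * qq K C U ^ 7 * (ρ + (n * e ^ 2 / L ^ 2 + L ^ 2 * e ^ 2 * H)))) ≤
        F * exp (F * U) * a ^ 2 * (ρ + n * e ^ 2 / L ^ 2 + L ^ 2 * e ^ 2 * H) := by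
      calc _ = 12032 * qq K C U ^ 7 * (∑ j, |α j|) ^ 2 *
            (ρ + n * e ^ 2 / L ^ 2 + L ^ 2 * e ^ 2 * H) := by ring
        _ ≤ _ := by
          have := qk 7 12032 le_rfl (by norm_num) (by norm_num)
          have : 0 ≤ F := by linarith
          gcongr
    linarith
  · have hq : 0 ≤ qq K C U := by linarith
    refine (cmb_four α _ (isP_mu W) (R := 8 * qq K C U * (qq K C U * (17 * (n * e ^ 4)))) fun j =>
      (c.l4 (c.odd_lin fd.odd _)).trans (mul_le_mul (by linarith [t0.Cq]) (c.so_le t0 (hm j))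
        ((isP_mu W).mean_nonneg fun x => So_nn _) (by positivity))).trans ?_
    calc _ = 136 * qq K C U ^ 2 * (∑ j, |α j|) ^ 4 * (n * e ^ 4) := by ring
      _ ≤ _ := by
        have := qk 2 136 (by norm_num) (by norm_num) (by norm_num)
        have : 0 ≤ F := by linarith
        gcongr
  · have e1 : sq2 ((cmb α fun j => cf W C h (e * L) ω0 ⌊u j / h⌋₊) -
        cmb α fun j => lin W h ω0 ⌊u j / h⌋₊) =
        sq2 (cmb α fun j => lin W h ω0 ⌊u j / h⌋₊ - cf W C h (e * L) ω0 ⌊u j / h⌋₊) := by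
      ext x
      simp only [sq2_eq, cmb_sub, Pi.sub_apply]
      exact sum_congr rfl fun i _ => by ring
    rw [e1]
    refine (cmb_sq2 α _ (isP_mu W) fun j => c.dl t0 (hm j)).trans ?_
    calc _ = 272 * qq K C U ^ 4 * (∑ j, |α j|) ^ 2 * (n * e ^ 2 / L ^ 2) := by ring
      _ ≤ _ := by
        have := qk 4 272 (by norm_num) (by norm_num) (by norm_num)
        have : 0 ≤ F := by linarith
        gcongr

end Crest.Agent.T157.Reg

end
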