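import Crest.Agent.T157.RegDef_94

/-!
# Row 157, part B (helper29): the pointwise first-order inequality for `So` (`Reg.ptGlue`)
-/

set_option autoImplicit false

noncomputable section

namespace Crest.Agent.T157.Reg

open Matrix Real
open Crest.Agent.T157.E hiding mean
open Crest.Agent.T157.Eig
open Crest.Agent.T157.Tap (V Mx)
open Crest.Agent.T157.Rec (grad fl)

namespace Pt29

variable {n : ℕ}

lemma s4_nonneg (M : Mx n) : 0 ≤ S4 M :=
  Finset.sum_nonneg fun _ _ => Finset.sum_nonneg fun _ _ => sq_nonneg _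

lemma fp_self (M : Mx n) : fp M M = ∑ i, ∑ j, M i j ^ 2 := by
  simp only [fp, sq]

lemma fp_self_nonneg (M : Mx n) : 0 ≤ fp M M := by
  rw [fp_self]
  exact Finset.sum_nonneg fun _ _ => Finset.sum_nonneg fun _ _ => sq_nonneg _

lemma fp_off_add (Z A B : Mx n) : fp Z (off (A + B)) = fp Z (off A) + fp Z (off B) := by
  simp only [fp, ← Finset.sum_add_distrib]
  refine Finset.sum_congr rfl fun i _ => Finset.sum_congr rfl fun j _ => ?_
  simp only [off, of_apply, Matrix.add_apply]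
  split_ifs <;> ring

/-- the second-order gain -/
def Gn (X Y : Mx n) : ℝ := S4 (X + Y) - S4 X - 4 * fp (X * Xᵀ * X) Y

lemma Gn_nonneg (t : ToolStmt) (X Y : Mx n) : 0 ≤ Gn X Y := by
  have h := (t.s4_gain n X Y).2.2
  have := s4_nonneg Y
  unfold Gn
  linarith

lemma fp_left (X Y : Mx n) (a : V n) :
    ∑ i, ∑ j, (X * Xᵀ * X) i j * (a i * Y i j) =
      ∑ i, ∑ l, a i * (X * Xᵀ) i l * (Y * Xᵀ) i l := by
  refine Finset.sum_congr rfl fun i _ => ?_
  generalize X * Xᵀ = M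
  simp only [mul_apply, transpose_apply, Finset.sum_mul, Finset.mul_sum]
  rw [Finset.sum_comm]
  exact Finset.sum_congr rfl fun l _ => Finset.sum_congr rfl fun j _ => by ring

lemma fp_right (X Y : Mx n) (a : V n) :
    ∑ i, ∑ j, (X * Xᵀ * X) i j * (a j * Y i j) =
      ∑ l, ∑ j, a j * (Xᵀ * X) l j * (Xᵀ * Y) l j := by
  rw [Matrix.mul_assoc]
  generalize Xᵀ * X = M
  rw [Finset.sum_comm, Finset.sum_comm (f := fun l j => a j * M l j * (Xᵀ * Y) l j)]
  refine Finset.sum_congr rfl fun j _ => ?_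
  simp only [mul_apply, transpose_apply, Finset.sum_mul, Finset.mul_sum]
  rw [Finset.sum_comm]
  exact Finset.sum_congr rfl fun l _ => Finset.sum_congr rfl fun i _ => by ring

lemma pt_am {a w M Q C T : ℝ} (hT0 : 0 ≤ T) (hT1 : T ≤ 1) (ha : |a| ≤ C * |w| * T) :
    4 * (a * M * Q) ≤ T * (2 / 3 * Q ^ 2) + 6 * C ^ 2 * (w ^ 2 * M ^ 2) := by
  have h1 : a * M * Q ≤ C * |w| * T * (|M| * |Q|) := by
    calc a * M * Q ≤ |a * M * Q| := le_abs_self _
      _ = |a| * (|M| * |Q|) := by rw [abs_mul, abs_mul, mul_assoc]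
      _ ≤ _ := mul_le_mul_of_nonneg_right ha (by positivity)
  have h2 : 0 ≤ T * (|Q| - 3 * (C * |w| * |M|)) ^ 2 := by positivity
  have h3 : 0 ≤ (1 - T) * (C * |w| * |M|) ^ 2 := by
    have : 0 ≤ 1 - T := by linarith
    positivity
  rw [← sq_abs Q, ← sq_abs w, ← sq_abs M]
  nlinarith

lemma left_le (t : ToolStmt) (X Y : Mx n) (a w : V n) {C T : ℝ} (hT0 : 0 ≤ T) (hT1 : T ≤ 1)
    (ha : ∀ i, |a i| ≤ C * |w i| * T) :
    4 * ∑ i, ∑ j, (X * Xᵀ * X) i j * (a i * Y i j) ≤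
      T * Gn X Y / 3 + 6 * C ^ 2 * ∑ i, ∑ l, w i ^ 2 * (X * Xᵀ) i l ^ 2 := by
  rw [fp_left]
  have hg : 2 * fp (Y * Xᵀ) (Y * Xᵀ) ≤ Gn X Y := (t.s4_gain n X Y).2.1
  rw [fp_self] at hg
  have h : 4 * ∑ i, ∑ l, a i * (X * Xᵀ) i l * (Y * Xᵀ) i l ≤
      T * (2 / 3 * ∑ i, ∑ l, (Y * Xᵀ) i l ^ 2) +
        6 * C ^ 2 * ∑ i, ∑ l, w i ^ 2 * (X * Xᵀ) i l ^ 2 := by
    simp only [Finset.mul_sum, ← Finset.sum_add_distrib]
    exact Finset.sum_le_sum fun i _ => Finset.sum_le_sum fun l _ => pt_am hT0 hT1 (ha i)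
  have := mul_le_mul_of_nonneg_left hg hT0
  linarith

lemma right_le (t : ToolStmt) (X Y : Mx n) (a w : V n) {C T : ℝ} (hT0 : 0 ≤ T) (hT1 : T ≤ 1)
    (ha : ∀ i, |a i| ≤ C * |w i| * T) :
    4 * ∑ i, ∑ j, (X * Xᵀ * X) i j * (a j * Y i j) ≤
      T * Gn X Y / 3 + 6 * C ^ 2 * ∑ l, ∑ j, w j ^ 2 * (Xᵀ * X) l j ^ 2 := by
  rw [fp_right]
  have hg : 2 * fp (Xᵀ * Y) (Xᵀ * Y) ≤ Gn X Y := (t.s4_gain n X Y).1
  rw [fp_self] at hg
  have h : 4 * ∑ l, ∑ j, a j * (Xᵀ * X) l j * (Xᵀ * Y) l j ≤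
      T * (2 / 3 * ∑ l, ∑ j, (Xᵀ * Y) l j ^ 2) +
        6 * C ^ 2 * ∑ l, ∑ j, w j ^ 2 * (Xᵀ * X) l j ^ 2 := by
    simp only [Finset.mul_sum, ← Finset.sum_add_distrib]
    exact Finset.sum_le_sum fun l _ => Finset.sum_le_sum fun j _ => pt_am hT0 hT1 (ha j)
  have := mul_le_mul_of_nonneg_left hg hT0
  linarith

lemma pt_mx {z m y u v C T θ : ℝ} (hC : 0 ≤ C) (hT0 : 0 ≤ T) (hT1 : T ≤ 1) (hθ : 0 < θ)
    (hm : |m * y| ≤ C * |u| * |v| * T * |y|) :
    4 * (z * (m * y)) ≤ 2 * C * θ * (z ^ 2 * (u ^ 2 * v ^ 2)) + T * (2 * C / θ * y ^ 2) := by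
  have h1 : z * (m * y) ≤ |z| * (C * |u| * |v| * T * |y|) := by
    calc z * (m * y) ≤ |z * (m * y)| := le_abs_self _
      _ = |z| * |m * y| := abs_mul _ _
      _ ≤ _ := mul_le_mul_of_nonneg_left hm (abs_nonneg _)
  rw [← sq_abs z, ← sq_abs u, ← sq_abs v, ← sq_abs y]
  set p := |z| * |u| * |v| with hp
  have e1 : |z| ^ 2 * (|u| ^ 2 * |v| ^ 2) = p ^ 2 := by rw [hp]; ring
  have e2 : |z| * (C * |u| * |v| * T * |y|) = T * (C * (p * |y|)) := by rw [hp]; ring
  rw [e1]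
  rw [e2] at h1
  have h2 : 2 * (p * |y|) ≤ θ * p ^ 2 + |y| ^ 2 / θ := by
    have : θ * p ^ 2 + |y| ^ 2 / θ - 2 * (p * |y|) = (θ * p - |y|) ^ 2 / θ := by
      field_simp
      ring
    have h0 : 0 ≤ (θ * p - |y|) ^ 2 / θ := by positivity
    linarith
  have h3 : T * (C * (2 * (p * |y|))) ≤ T * (C * (θ * p ^ 2 + |y| ^ 2 / θ)) :=
    mul_le_mul_of_nonneg_left (mul_le_mul_of_nonneg_left h2 hC) hT0
  have h4 : 0 ≤ (1 - T) * (C * θ * p ^ 2) := by
    have : 0 ≤ 1 - T := by linarith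
    positivity
  have e3 : T * (2 * C / θ * |y| ^ 2) = 2 * (T * (C * (|y| ^ 2 / θ))) := by ring
  rw [e3]
  nlinarith

lemma mix_le (t : ToolStmt) (hn : 0 < n) (X Y m : Mx n) (w : V n) {C T θ : ℝ} (hC : 0 ≤ C)
    (hT0 : 0 ≤ T) (hT1 : T ≤ 1) (hθ : 0 < θ)
    (hm : ∀ i j, |m i j * Y i j| ≤ C * |w i| * |w j| * T * |Y i j|) :
    4 * ∑ i, ∑ j, (X * Xᵀ * X) i j * (m i j * Y i j) ≤
      T * Gn X Y / 3 + 2 * C * θ * (∑ i, ∑ j, (X * Xᵀ * X) i j ^ 2 * (w i ^ 2 * w j ^ 2)) +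
        18 * n * C ^ 2 / θ ^ 2 := by
  have hn' : (0 : ℝ) < n := by exact_mod_cast hn
  have h : 4 * ∑ i, ∑ j, (X * Xᵀ * X) i j * (m i j * Y i j) ≤
      2 * C * θ * (∑ i, ∑ j, (X * Xᵀ * X) i j ^ 2 * (w i ^ 2 * w j ^ 2)) +
        T * (2 * C / θ * ∑ i, ∑ j, Y i j ^ 2) := by
    simp only [Finset.mul_sum, ← Finset.sum_add_distrib]
    exact Finset.sum_le_sum fun i _ => Finset.sum_le_sum fun j _ =>
      pt_mx hC hT0 hT1 hθ (hm i j)
  rw [← fp_self] at h
  have h1 : fp Y Y ^ 2 ≤ n * S4 Y := (t.s4_fro n Y).2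
  have h2 : S4 Y ≤ 6 * Gn X Y := (t.s4_gain n X Y).2.2
  have h3 : fp Y Y ^ 2 / (18 * n) ≤ Gn X Y / 3 := by
    rw [div_le_iff₀ (by positivity)]
    nlinarith [mul_le_mul_of_nonneg_left h2 hn'.le]
  have h4 : 2 * C / θ * fp Y Y ≤ fp Y Y ^ 2 / (18 * n) + 18 * n * C ^ 2 / θ ^ 2 := by
    have : fp Y Y ^ 2 / (18 * n) + 18 * n * C ^ 2 / θ ^ 2 - 2 * C / θ * fp Y Y =
        (fp Y Y - 18 * n * C / θ) ^ 2 / (18 * n) := by
      field_simp
      ring
    have h0 : 0 ≤ (fp Y Y - 18 * n * C / θ) ^ 2 / (18 * n) := by positivity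
    linarith
  have h5 : 0 ≤ (1 - T) * (18 * n * C ^ 2 / θ ^ 2) := by
    have : 0 ≤ 1 - T := by linarith
    positivity
  have h6 := mul_le_mul_of_nonneg_left (h4.trans (add_le_add_left h3 _)) hT0
  nlinarith

section nice

variable {W : Mx n} {K : ℝ}

lemma K_nonneg (hW : Nice W K) : 0 ≤ K := (opn_nonneg W).trans hW.2.1

lemma row_sq (t : ToolStmt) (hW : Nice W K) (i : Fin n) : ∑ k, W i k ^ 2 ≤ K ^ 2 :=
  (t.row_le n W i).1.trans (pow_le_pow_left₀ (opn_nonneg W) hW.2.1 2)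

lemma col_sq (t : ToolStmt) (hW : Nice W K) (i : Fin n) : ∑ k, W k i ^ 2 ≤ K ^ 2 :=
  (t.row_le n W i).2.trans (pow_le_pow_left₀ (opn_nonneg W) hW.2.1 2)

lemma row_mix (hW : Nice W K) (i j : Fin n) : ∑ k, W i k ^ 2 * W j k ^ 2 ≤ K ^ 4 / n := by
  have h : ∑ k, W i k ^ 2 * W j k ^ 2 ≤ ∑ k, (W i k ^ 4 + W j k ^ 4) / 2 :=
    Finset.sum_le_sum fun k _ => by nlinarith [sq_nonneg (W i k ^ 2 - W j k ^ 2)]
  rw [← Finset.sum_div, Finset.sum_add_distrib] at h
  linarith [hW.2.2 i, hW.2.2 j]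

/-- the three third-order sums are paid by the gain -/
lemma third (t : ToolStmt) (hW : Nice W K) {C : ℝ} (hC : 0 ≤ C) (X : Mx n) (Y : Fin n → Mx n)
    (T : V n) (a : Mx n) (m : Fin n → Fin n → Fin n → ℝ) (hT : ∀ k, 0 ≤ T k ∧ T k ≤ 1)
    (ha : ∀ i k, |a i k| ≤ C * |W i k| * T k)
    (hm : ∀ i j k, |m i j k * Y k i j| ≤ C * |W i k| * |W j k| * T k * |Y k i j|) :
    4 * ∑ i, ∑ j, (X * Xᵀ * X) i j * ∑ k, (T k + a i k + a j k + m i j k) * Y k i j ≤
      ∑ k, T k * (S4 (X + Y k) - S4 X) +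
        (12 * C ^ 2 * K ^ 2 + 2 * C * K ^ 4 + 18 * C ^ 2) * S4 X := by
  set Z := X * Xᵀ * X with hZ
  have e : ∑ i, ∑ j, Z i j * ∑ k, (T k + a i k + a j k + m i j k) * Y k i j =
      ∑ k, (T k * fp Z (Y k) + ∑ i, ∑ j, Z i j * (a i k * Y k i j) +
        ∑ i, ∑ j, Z i j * (a j k * Y k i j) + ∑ i, ∑ j, Z i j * (m i j k * Y k i j)) := by
    simp only [fp, Finset.mul_sum, ← Finset.sum_add_distrib]
    symm
    rw [Finset.sum_comm]
    refine Finset.sum_congr rfl fun i _ => ?_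
    rw [Finset.sum_comm]
    exact Finset.sum_congr rfl fun j _ => Finset.sum_congr rfl fun k _ => by ring
  have h1 : 4 * ∑ k, ∑ i, ∑ j, Z i j * (a i k * Y k i j) ≤
      ∑ k, T k * Gn X (Y k) / 3 + 6 * C ^ 2 * K ^ 2 * S4 X := by
    have h : 4 * ∑ k, ∑ i, ∑ j, Z i j * (a i k * Y k i j) ≤ ∑ k, (T k * Gn X (Y k) / 3 +
        6 * C ^ 2 * ∑ i, ∑ l, W i k ^ 2 * (X * Xᵀ) i l ^ 2) := by
      rw [Finset.mul_sum]
      exact Finset.sum_le_sum fun k _ =>
        left_le t X (Y k) (fun i => a i k) (fun i => W i k) (hT k).1 (hT k).2 fun i => ha i k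
    rw [Finset.sum_add_distrib, ← Finset.mul_sum] at h
    have h' : ∑ k, ∑ i, ∑ l, W i k ^ 2 * (X * Xᵀ) i l ^ 2 ≤ K ^ 2 * S4 X := by
      rw [Finset.sum_comm, S4, Finset.mul_sum]
      refine Finset.sum_le_sum fun i _ => ?_
      simp only [← Finset.mul_sum]
      rw [← Finset.sum_mul]
      exact mul_le_mul_of_nonneg_right (row_sq t hW i)
        (Finset.sum_nonneg fun _ _ => sq_nonneg _)
    nlinarith [mul_le_mul_of_nonneg_left h' (by positivity : 0 ≤ 6 * C ^ 2)]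
  have h2 : 4 * ∑ k, ∑ i, ∑ j, Z i j * (a j k * Y k i j) ≤
      ∑ k, T k * Gn X (Y k) / 3 + 6 * C ^ 2 * K ^ 2 * S4 X := by
    have h : 4 * ∑ k, ∑ i, ∑ j, Z i j * (a j k * Y k i j) ≤ ∑ k, (T k * Gn X (Y k) / 3 +
        6 * C ^ 2 * ∑ l, ∑ j, W j k ^ 2 * (Xᵀ * X) l j ^ 2) := by
      rw [Finset.mul_sum]
      exact Finset.sum_le_sum fun k _ =>
        right_le t X (Y k) (fun i => a i k) (fun i => W i k) (hT k).1 (hT k).2 fun i => ha i k
    rw [Finset.sum_add_distrib, ← Finset.mul_sum] at h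
    have h' : ∑ k, ∑ l, ∑ j, W j k ^ 2 * (Xᵀ * X) l j ^ 2 ≤ K ^ 2 * S4 X := by
      rw [← t.s4_tr n X, Finset.sum_comm, S4, transpose_transpose, Finset.mul_sum]
      refine Finset.sum_le_sum fun l _ => ?_
      rw [Finset.sum_comm, Finset.mul_sum]
      refine Finset.sum_le_sum fun j _ => ?_
      rw [← Finset.sum_mul]
      exact mul_le_mul_of_nonneg_right (row_sq t hW j) (sq_nonneg _)
    nlinarith [mul_le_mul_of_nonneg_left h' (by positivity : 0 ≤ 6 * C ^ 2)]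
  have h3 : 4 * ∑ k, ∑ i, ∑ j, Z i j * (m i j k * Y k i j) ≤
      ∑ k, T k * Gn X (Y k) / 3 + (2 * C * K ^ 4 + 18 * C ^ 2) * S4 X := by
    have hS := s4_nonneg X
    have hG : 0 ≤ ∑ k, T k * Gn X (Y k) / 3 := Finset.sum_nonneg fun k _ => by
      have := (hT k).1
      have := Gn_nonneg t X (Y k)
      positivity
    have hc : fp Z Z ^ 2 ≤ S4 X ^ 3 := t.s4_cube n X
    rcases hS.eq_or_lt with h0 | h0
    · have hz : fp Z Z = 0 := by
        rw [← h0] at hc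
        exact pow_eq_zero_iff (two_ne_zero) |>.1 (le_antisymm (by simpa using hc) (sq_nonneg _))
      rw [fp_self] at hz
      have hz' : ∀ i j, Z i j = 0 := fun i j => by
        have h1 := (Finset.sum_eq_zero_iff_of_nonneg fun _ _ =>
          Finset.sum_nonneg fun _ _ => sq_nonneg _).1 hz i (Finset.mem_univ _)
        have h2 := (Finset.sum_eq_zero_iff_of_nonneg fun _ _ => sq_nonneg _).1 h1 j
          (Finset.mem_univ _)
        exact pow_eq_zero_iff (two_ne_zero) |>.1 h2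
      simp only [hz', zero_mul, Finset.sum_const_zero, mul_zero, ← h0, add_zero]
      exact hG
    · have hn : 0 < n := by
        rcases Nat.eq_zero_or_pos n with h | h
        · subst h
          simp [S4] at h0
        · exact h
      have hn' : (0 : ℝ) < n := by exact_mod_cast hn
      obtain ⟨s, hs, hss⟩ : ∃ s : ℝ, 0 < s ∧ S4 X = s ^ 2 :=
        ⟨√(S4 X), Real.sqrt_pos.2 h0, (Real.sq_sqrt hS).symm⟩
      have hZs : fp Z Z ≤ s ^ 3 := by
        rw [hss] at hc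
        exact (pow_le_pow_iff_left₀ (fp_self_nonneg Z) (by positivity) two_ne_zero).1
          (hc.trans_eq (by ring))
      have h : 4 * ∑ k, ∑ i, ∑ j, Z i j * (m i j k * Y k i j) ≤ ∑ k, (T k * Gn X (Y k) / 3 +
          2 * C * (n / s) * (∑ i, ∑ j, Z i j ^ 2 * (W i k ^ 2 * W j k ^ 2)) +
          18 * n * C ^ 2 / (n / s) ^ 2) := by
        rw [Finset.mul_sum]
        exact Finset.sum_le_sum fun k _ =>
          mix_le t hn X (Y k) (of fun i j => m i j k) (fun i => W i k) hC (hT k).1 (hT k).2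
            (by positivity) fun i j => hm i j k
      rw [Finset.sum_add_distrib, Finset.sum_add_distrib, ← Finset.mul_sum, Finset.sum_const,
        Finset.card_univ, Fintype.card_fin, nsmul_eq_mul] at h
      have h' : ∑ k, ∑ i, ∑ j, Z i j ^ 2 * (W i k ^ 2 * W j k ^ 2) ≤ K ^ 4 / n * fp Z Z := by
        rw [fp_self, Finset.sum_comm, Finset.mul_sum]
        refine Finset.sum_le_sum fun i _ => ?_
        rw [Finset.sum_comm, Finset.mul_sum]
        refine Finset.sum_le_sum fun j _ => ?_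
        rw [← Finset.mul_sum, mul_comm]
        exact mul_le_mul_of_nonneg_right (row_mix hW i j) (sq_nonneg _)
      have h'' : 2 * C * (n / s) * ∑ k, ∑ i, ∑ j, Z i j ^ 2 * (W i k ^ 2 * W j k ^ 2) ≤
          2 * C * (n / s) * (K ^ 4 / n * s ^ 3) :=
        mul_le_mul_of_nonneg_left (h'.trans (mul_le_mul_of_nonneg_left hZs (by positivity)))
          (by positivity)
      have e1 : 2 * C * (n / s) * (K ^ 4 / n * s ^ 3) = 2 * C * K ^ 4 * s ^ 2 := by
        field_simp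
      have e2 : (n : ℝ) * (18 * n * C ^ 2 / (n / s) ^ 2) = 18 * C ^ 2 * s ^ 2 := by
        field_simp
      rw [hss]
      nlinarith
  have e' : ∑ k, T k * (S4 (X + Y k) - S4 X) =
      4 * ∑ k, T k * fp Z (Y k) + 3 * ∑ k, T k * Gn X (Y k) / 3 := by
    simp only [Finset.mul_sum, ← Finset.sum_add_distrib]
    exact Finset.sum_congr rfl fun k _ => by rw [Gn]; ring
  rw [e, e']
  simp only [Finset.sum_add_distrib]
  linarith

/-- Hadamard products with the couplings -/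
lemma had (t : ToolStmt) (hW : Nice W K) {c : ℝ} (M O : Mx n)
    (h : ∀ i k, |M i k| ≤ c * |W i k| * |O i k|) : S4 M ≤ c ^ 4 * K ^ 4 * S4 O := by
  have h1 : fp M M ≤ c ^ 2 * ∑ i, ∑ k, W i k ^ 2 * O i k ^ 2 := by
    rw [fp_self]
    simp only [Finset.mul_sum]
    refine Finset.sum_le_sum fun i _ => Finset.sum_le_sum fun k _ => ?_
    calc M i k ^ 2 = |M i k| ^ 2 := (sq_abs _).symm
      _ ≤ (c * |W i k| * |O i k|) ^ 2 := pow_le_pow_left₀ (abs_nonneg _) (h i k) 2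
      _ = _ := by rw [mul_pow, mul_pow, sq_abs, sq_abs, mul_assoc]
  have h2 : (∑ i, ∑ k, W i k ^ 2 * O i k ^ 2) ^ 2 ≤
      n * ∑ i, (∑ k, W i k ^ 2 * O i k ^ 2) ^ 2 := by
    simpa using sq_sum_le_card_mul_sum_sq (s := Finset.univ)
      (f := fun i => ∑ k, W i k ^ 2 * O i k ^ 2)
  have h3 : ∀ i, (∑ k, W i k ^ 2 * O i k ^ 2) ^ 2 ≤ K ^ 4 / n * (∑ k, O i k ^ 2) ^ 2 := fun i => by
    refine (Finset.sum_mul_sq_le_sq_mul_sq _ _ _).trans ?_
    refine mul_le_mul ?_ (Finset.sum_sq_le_sq_sum_of_nonneg fun _ _ => sq_nonneg _)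
      (Finset.sum_nonneg fun _ _ => sq_nonneg _) (by positivity)
    refine le_of_eq_of_le (Finset.sum_congr rfl fun k _ => by ring) (hW.2.2 i)
  have h4 : ∑ i, (∑ k, W i k ^ 2 * O i k ^ 2) ^ 2 ≤ K ^ 4 / n * S4 O := by
    refine (Finset.sum_le_sum fun i _ => h3 i).trans ?_
    rw [← Finset.mul_sum]
    exact mul_le_mul_of_nonneg_left (t.s4_row n O) (by positivity)
  have h5 : (n : ℝ) * (K ^ 4 / n * S4 O) ≤ K ^ 4 * S4 O := by
    have := s4_nonneg O
    rcases Nat.eq_zero_or_pos n with h | h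
    · subst h
      simp only [Nat.cast_zero, zero_mul]
      positivity
    · have : (n : ℝ) ≠ 0 := by positivity
      exact le_of_eq (by field_simp)
  have h6 := h2.trans ((mul_le_mul_of_nonneg_left h4 (Nat.cast_nonneg n)).trans h5)
  calc S4 M ≤ fp M M ^ 2 := (t.s4_fro n M).1
    _ ≤ (c ^ 2 * ∑ i, ∑ k, W i k ^ 2 * O i k ^ 2) ^ 2 :=
      pow_le_pow_left₀ (fp_self_nonneg M) h1 2
    _ = c ^ 4 * (∑ i, ∑ k, W i k ^ 2 * O i k ^ 2) ^ 2 := by ring
    _ ≤ c ^ 4 * (K ^ 4 * S4 O) := mul_le_mul_of_nonneg_left h6 (by positivity)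
    _ = _ := by ring

end nice

lemma s4_mul_le (t : ToolStmt) (M Q : Mx n) {c : ℝ} (h : opn Q ≤ c) :
    S4 (M * Q) ≤ c ^ 4 * S4 M := by
  have h1 := t.s4_mul n 1 M Q
  rw [Matrix.one_mul] at h1
  refine h1.trans (mul_le_mul_of_nonneg_right ?_ (s4_nonneg M))
  calc opn (1 : Mx n) ^ 4 * opn Q ^ 4 ≤ 1 ^ 4 * c ^ 4 :=
        mul_le_mul (pow_le_pow_left₀ (opn_nonneg _) opn_one_le 4)
          (pow_le_pow_left₀ (opn_nonneg _) h 4) (by have := opn_nonneg Q; positivity)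
          (by positivity)
    _ = c ^ 4 := by ring

lemma s4_off_le (M : Mx n) : S4 (off M) ≤ So M :=
  le_add_of_nonneg_right (Finset.sum_nonneg fun _ _ => by positivity)

lemma diag_le (M : Mx n) : ∑ i, M i i ^ 4 ≤ So M := le_add_of_nonneg_left (s4_nonneg _)

lemma pair0 (t : ToolStmt) (X N : Mx n) {c : ℝ} (h : S4 (off N) ≤ c) :
    4 * fp (X * Xᵀ * X) (off N) ≤ 3 * S4 X + c := by
  have := t.s4_pair n X (off N)
  have := le_abs_self (fp (X * Xᵀ * X) (off N))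
  linarith

lemma pair (t : ToolStmt) (X N : Mx n) {c : ℝ} (h : S4 N ≤ c) :
    4 * fp (X * Xᵀ * X) (off N) ≤ 3 * S4 X + 17 * c :=
  pair0 t X N ((s4_off_le N).trans ((t.so_le n N).1.trans (by linarith)))

/-- the constant of the zeroth-order terms -/
def Ec (C K : ℝ) : ℝ :=
  C ^ 4 + 2 * C ^ 8 * K ^ 4 + C ^ 12 * K ^ 4 + C ^ 4 * K ^ 16 + 16 + 16 * C ^ 4 * K ^ 4

lemma zeroth (t : ToolStmt) {W : Mx n} {K C : ℝ} (hW : Nice W K) (hC : 0 ≤ C) (X O Q a d P : Mx n)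
    (T q : V n) (m : Fin n → Fin n → Fin n → ℝ) (hT : ∀ k, 0 ≤ T k ∧ T k ≤ 1)
    (ha : ∀ i k, |a i k| ≤ C * |W i k|) (ha' : opn a ≤ C) (hd : opn d ≤ C) (hP : opn P ≤ C)
    (hdP : ∀ i k, |d i k| ≤ C * |W i k| ∧ |P i k| ≤ C * |W i k|) (hq : ∀ k, |q k| ≤ C)
    (hm : ∀ i j k, i ≠ j → |m i j k - (P i k * d j k + d i k * P j k + q k * (d i k * d j k))| ≤
      C * (W i k ^ 2 * W j k ^ 2)) :
    4 * fp (X * Xᵀ * X) (off (of fun i j => ∑ k, (a j k + m i j k) * O i k +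
        (2 * T j + 2 * a i j - 2) * O i j + Q i j)) ≤
      24 * S4 X + 17 * Ec C K * S4 O + 17 * S4 Q := by
  have hK := K_nonneg hW
  have hO := s4_nonneg O
  set R : Mx n := of fun i j =>
    ∑ k, (m i j k - (P i k * d j k + d i k * P j k + q k * (d i k * d j k))) * O i k with hR
  have e : (of fun i j => ∑ k, (a j k + m i j k) * O i k +
        (2 * T j + 2 * a i j - 2) * O i j + Q i j : Mx n) =
      O * aᵀ + (of fun i k => P i k * O i k) * dᵀ + (of fun i k => d i k * O i k) * Pᵀ +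
        (of fun i k => q k * d i k * O i k) * dᵀ + R + O * diagonal (fun j => 2 * T j - 2) +
        (of fun i j => 2 * a i j * O i j) + Q := by
    ext i j
    simp only [hR, Matrix.add_apply, mul_diagonal, of_apply]
    simp only [mul_apply, of_apply, transpose_apply, ← Finset.sum_add_distrib]
    rw [show ∀ u v : ℝ, u + (2 * T j + 2 * a i j - 2) * O i j + v =
      u + O i j * (2 * T j - 2) + 2 * a i j * O i j + v from fun u v => by ring]
    congr 3
    exact Finset.sum_congr rfl fun k _ => by ring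
  have p1 := pair t X _ (s4_mul_le t O aᵀ ((opn_transpose a).trans_le ha'))
  have p2 := pair t X _ ((s4_mul_le t (of fun i k => P i k * O i k) dᵀ
    ((opn_transpose d).trans_le hd)).trans (mul_le_mul_of_nonneg_left
      (had t hW (c := C) _ O fun i k => by
        rw [of_apply, abs_mul]
        exact mul_le_mul_of_nonneg_right (hdP i k).2 (abs_nonneg _)) (by positivity)))
  have p3 := pair t X _ ((s4_mul_le t (of fun i k => d i k * O i k) Pᵀ
    ((opn_transpose P).trans_le hP)).trans (mul_le_mul_of_nonneg_left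
      (had t hW (c := C) _ O fun i k => by
        rw [of_apply, abs_mul]
        exact mul_le_mul_of_nonneg_right (hdP i k).1 (abs_nonneg _)) (by positivity)))
  have p4 := pair t X _ ((s4_mul_le t (of fun i k => q k * d i k * O i k) dᵀ
    ((opn_transpose d).trans_le hd)).trans (mul_le_mul_of_nonneg_left
      (had t hW (c := C ^ 2) _ O fun i k => by
        rw [of_apply, abs_mul, abs_mul]
        refine mul_le_mul_of_nonneg_right ?_ (abs_nonneg _)
        calc |q k| * |d i k| ≤ C * (C * |W i k|) :=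
              mul_le_mul (hq k) (hdP i k).1 (abs_nonneg _) hC
          _ = _ := by ring) (by positivity)))
  have hWW : opn (of fun i k => W i k ^ 2 : Mx n) ≤ K ^ 2 :=
    t.op_schur n _ _ (by positivity)
      (fun i => by simpa only [of_apply, abs_pow, sq_abs] using row_sq t hW i)
      (fun j => by simpa only [of_apply, abs_pow, sq_abs] using col_sq t hW j)
  have p5 : 4 * fp (X * Xᵀ * X) (off R) ≤
      3 * S4 X + (K ^ 2) ^ 4 * ((C * K) ^ 4 * K ^ 4 * S4 O) := by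
    refine pair0 t X R ((t.s4_dom n _ ((of fun i k => C * W i k ^ 2 * |O i k|) *
      (of fun i k => W i k ^ 2 : Mx n)ᵀ) fun i j => ?_).trans ((s4_mul_le t _ _
        ((opn_transpose _).trans_le hWW)).trans (mul_le_mul_of_nonneg_left
          (had t hW _ O fun i k => ?_) (by positivity))))
    · simp only [off, mul_apply, of_apply, transpose_apply, hR]
      split_ifs with hij
      · rw [abs_zero]
        exact Finset.sum_nonneg fun k _ => by positivity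
      · refine (Finset.abs_sum_le_sum_abs _ _).trans (Finset.sum_le_sum fun k _ => ?_)
        rw [abs_mul]
        exact (mul_le_mul_of_nonneg_right (hm i j k hij) (abs_nonneg _)).trans_eq (by ring)
    · rw [of_apply, abs_of_nonneg (by positivity)]
      refine mul_le_mul_of_nonneg_right ?_ (abs_nonneg _)
      have h1 : |W i k| ≤ K := (abs_entry_le W i k).trans hW.2.1
      calc C * W i k ^ 2 = C * (|W i k| * |W i k|) := by rw [abs_mul_abs_self, sq]
        _ ≤ C * (K * |W i k|) :=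
          mul_le_mul_of_nonneg_left (mul_le_mul_of_nonneg_right h1 (abs_nonneg _)) hC
        _ = _ := by ring
  have p6 := pair t X _ (s4_mul_le t O (diagonal fun j => 2 * T j - 2) (c := 2)
    (opn_diagonal_le zero_le_two fun j => abs_le.2 ⟨by linarith [(hT j).1], by linarith [(hT j).2]⟩))
  have p7 := pair t X _ (had t hW (c := 2 * C) (of fun i j => 2 * a i j * O i j) O fun i k => by
    rw [of_apply, abs_mul, abs_mul, abs_two]
    refine mul_le_mul_of_nonneg_right ?_ (abs_nonneg _)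
    linarith [ha i k])
  have p8 := pair t X Q le_rfl
  have h5 : 0 ≤ C ^ 4 * K ^ 16 * S4 O := by positivity
  rw [e]
  simp only [fp_off_add, Ec]
  nlinarith

lemma pt_cvx (a y : ℝ) : 4 * (a ^ 3 * y) ≤ (a + y) ^ 4 - a ^ 4 := by
  nlinarith [sq_nonneg (y * (y + 2 * a)), sq_nonneg (a * y)]

lemma pt_young (a s : ℝ) : 4 * (a ^ 3 * s) ≤ 3 * a ^ 4 + s ^ 4 := by
  nlinarith [sq_nonneg (a ^ 2 - s ^ 2), sq_nonneg (a * (a - s))]

lemma diag_part (t : ToolStmt) {C : ℝ} (O Q a : Mx n) (B : Fin n → Mx n) (T : V n)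
    (hT : ∀ k, 0 ≤ T k ∧ T k ≤ 1) (ha : opn a ≤ C) :
    4 * ∑ i, O i i ^ 3 * (∑ k, T k * B k i i - ∑ k, a i k * O i k + (2 * T i - 2) * O i i +
        Q i i) ≤
      ∑ k, T k * (∑ i, (O i i + B k i i) ^ 4 - ∑ i, O i i ^ 4) + 6 * ∑ i, O i i ^ 4 +
        C ^ 4 * S4 O + 17 * S4 Q := by
  have h1 : ∀ i, 4 * (O i i ^ 3 * (∑ k, T k * B k i i - ∑ k, a i k * O i k +
      (2 * T i - 2) * O i i + Q i i)) ≤ ∑ k, T k * ((O i i + B k i i) ^ 4 - O i i ^ 4) +
        6 * O i i ^ 4 + C ^ 4 * (∑ k, O i k ^ 2) ^ 2 + Q i i ^ 4 := fun i => by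
    have q1 : 4 * (O i i ^ 3 * ∑ k, T k * B k i i) ≤
        ∑ k, T k * ((O i i + B k i i) ^ 4 - O i i ^ 4) := by
      simp only [Finset.mul_sum]
      refine Finset.sum_le_sum fun k _ => ?_
      have := mul_le_mul_of_nonneg_left (pt_cvx (O i i) (B k i i)) (hT k).1
      linarith
    have q2 := pt_young (O i i) (-∑ k, a i k * O i k)
    have q3 := pt_young (O i i) (Q i i)
    have q4 : (∑ k, a i k * O i k) ^ 2 ≤ C ^ 2 * ∑ k, O i k ^ 2 :=
      (Finset.sum_mul_sq_le_sq_mul_sq _ _ _).trans (mul_le_mul_of_nonneg_right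
        ((t.row_le n a i).1.trans (pow_le_pow_left₀ (opn_nonneg a) ha 2))
        (Finset.sum_nonneg fun _ _ => sq_nonneg _))
    have q5 : (-∑ k, a i k * O i k) ^ 4 ≤ C ^ 4 * (∑ k, O i k ^ 2) ^ 2 := by
      calc (-∑ k, a i k * O i k) ^ 4 = ((∑ k, a i k * O i k) ^ 2) ^ 2 := by ring
        _ ≤ (C ^ 2 * ∑ k, O i k ^ 2) ^ 2 := pow_le_pow_left₀ (sq_nonneg _) q4 2
        _ = _ := by ring
    have q6 : 0 ≤ (1 - T i) * O i i ^ 4 := by
      have : 0 ≤ 1 - T i := by linarith [(hT i).2]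
      positivity
    nlinarith
  have h2 := Finset.sum_le_sum fun i (_ : i ∈ Finset.univ) => h1 i
  simp only [Finset.sum_add_distrib, ← Finset.mul_sum] at h2
  rw [Finset.sum_comm] at h2
  simp only [← Finset.mul_sum, Finset.sum_sub_distrib] at h2
  have h3 := mul_le_mul_of_nonneg_left (t.s4_row n O) (by positivity : 0 ≤ C ^ 4)
  have h4 := (diag_le Q).trans (t.so_le n Q).1
  linarith

end Pt29

open Pt29 in
/-- **the pointwise inequality** -/
theorem ptGlue : PtGlue := by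
  intro t b j c K
  obtain ⟨C, hC, hc⟩ := c K
  have hC0 : 0 ≤ C := by linarith
  have hE : 0 ≤ Ec C K := by unfold Ec; positivity
  refine ⟨12 * C ^ 2 * K ^ 2 + 2 * C * K ^ 4 + 18 * C ^ 2 + 136 * Ec C K + 8 * C ^ 4 + 34, ?_,
    fun n W hW ω σ x => ?_⟩
  · have : 0 ≤ 12 * C ^ 2 * K ^ 2 + 2 * C * K ^ 4 + 18 * C ^ 2 + 136 * Ec C K + 8 * C ^ 4 := by
      positivity
    linarith
  obtain ⟨hT, -, ha, ha', -, hm, d, P, q, hd, hP, hdP, hq, hR⟩ := hc n W hW x
  have hT' : ∀ k, 0 ≤ Tk W x k ∧ Tk W x k ≤ 1 := fun k => ⟨(hT k).1.le, (hT k).2.le⟩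
  have hTT : ∀ k, Tk W x k * (1 - Tk W x k) ≤ Tk W x k := fun k => by
    nlinarith [(hT' k).1]
  have ha1 : ∀ i k, |al W x i k| ≤ C * |W i k| * Tk W x k := fun i k =>
    (ha i k).trans (mul_le_mul_of_nonneg_left (hTT k) (by positivity))
  have ha2 : ∀ i k, |al W x i k| ≤ C * |W i k| := fun i k =>
    (ha1 i k).trans (mul_le_of_le_one_right (by positivity) (hT' k).2)
  set O := jac ω x with hO
  set X := off O with hX
  set B : Fin n → Mx n := fun k => jac ω (fl x k) - O with hB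
  have h1 := third t hW hC0 X (fun k => off (B k)) (Tk W x) (al W x) (mx W x) hT' ha1
    fun i j k => by
      by_cases hij : i = j
      · simp [off, hij]
      · rw [abs_mul]
        exact mul_le_mul_of_nonneg_right ((hm i j k hij).trans
          (mul_le_mul_of_nonneg_left (hTT k) (by positivity))) (abs_nonneg _)
  have h2 := zeroth t hW hC0 X O (jac σ x) (al W x) d P (Tk W x) q (mx W x) hT' ha2 ha' hd hP hdP
    hq hR
  have h3 := diag_part t O (jac σ x) (al W x) B (Tk W x) hT' ha'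
  have e1 : fp (X * Xᵀ * X) (off (dj W ω σ x)) = ∑ i, ∑ j, (X * Xᵀ * X) i j *
      ∑ k, (Tk W x k + al W x i k + al W x j k + mx W x i j k) * off (B k) i j +
      fp (X * Xᵀ * X) (off (of fun i j => ∑ k, (al W x j k + mx W x i j k) * O i k +
        (2 * Tk W x j + 2 * al W x i j - 2) * O i j + jac σ x i j)) := by
    simp only [fp, ← Finset.sum_add_distrib, ← mul_add]
    refine Finset.sum_congr rfl fun i _ => Finset.sum_congr rfl fun l _ => ?_
    congr 1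
    by_cases hil : i = l
    · simp [off, hil]
    · simp only [off, of_apply, if_neg hil]
      rw [j.offd n W ω σ x i l hil]
      ring
  have e2 : ∑ i, O i i ^ 3 * dj W ω σ x i i = ∑ i, O i i ^ 3 * (∑ k, Tk W x k * B k i i -
      ∑ k, al W x i k * O i k + (2 * Tk W x i - 2) * O i i + jac σ x i i) :=
    Finset.sum_congr rfl fun i _ => by rw [j.diag n W ω σ x i]
  have e3 : gen (mu W) (fun z => So (jac ω z)) x =
      ∑ k, Tk W x k * (S4 (X + off (B k)) - S4 X) +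
        ∑ k, Tk W x k * (∑ i, (O i i + B k i i) ^ 4 - ∑ i, O i i ^ 4) := by
    rw [b.gen_eq n W hW.1, ← Finset.sum_add_distrib]
    refine Finset.sum_congr rfl fun k _ => ?_
    have f1 : X + off (B k) = off (jac ω (fl x k)) := by
      ext i l
      simp only [hX, hB, off, Matrix.add_apply, of_apply, Matrix.sub_apply]
      split_ifs <;> ring
    have f2 : ∀ i, O i i + B k i i = jac ω (fl x k) i i := fun i => by
      simp only [hB, Matrix.sub_apply]
      ring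
    simp only [f1, f2, So, ← hO, ← hX]
    ring
  have g1 : S4 X ≤ So O := s4_off_le O
  have g2 := diag_le O
  have g3 := (t.so_le n O).2
  have g4 := s4_nonneg (jac σ x)
  have g5 : 0 ≤ So O := (s4_nonneg X).trans g1
  have k1 := mul_le_mul_of_nonneg_left g1
    (by positivity : 0 ≤ 12 * C ^ 2 * K ^ 2 + 2 * C * K ^ 4 + 18 * C ^ 2)
  have k2 := mul_le_mul_of_nonneg_left g3 (by positivity : 0 ≤ 17 * Ec C K + C ^ 4)
  have k3 := mul_nonneg (by positivity :
    0 ≤ 12 * C ^ 2 * K ^ 2 + 2 * C * K ^ 4 + 18 * C ^ 2 + 136 * Ec C K + 8 * C ^ 4) g4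
  rw [e1, e2, e3]
  linarith

end Crest.Agent.T157.Reg

end
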