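import Crest.Agent.T157.RipA_25
import Crest.Agent.T157.UwC_98
import Crest.Agent.T157.ConcM_16
import Crest.Agent.T157.NrmS_84

/-!
# Row 157, part B (helper25): restricted isometry for Wick words of the GOE with fixed letters
-/

set_option autoImplicit false
set_option maxHeartbeats 400000
set_option linter.unusedSectionVars false
set_option linter.unusedVariables false

noncomputable section

namespace Crest.Agent.T157.Rip

open Matrix Finset MeasureTheory Filter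
open Crest.Agent.T157.Eig Crest.Agent.T157.Fr Crest.Agent.T157.Cond Crest.Agent.T157.Uw
open Crest.Agent.T157.Conc (en ELip ELipOn en_nonneg)
open Crest.Agent.T157.E (gv)
open Crest.Agent.T157.SL (EG Pt)

variable {ι : Type*} [Fintype ι] [DecidableEq ι] {s : ℝ}

lemma Q_le (hn : 1 ≤ Fintype.card ι) (x : ι × ι → ℝ) (k : ℕ) {Sg : ℝ} (Sg0 : 0 ≤ Sg)
    (b2 : Sg ≤ k * (Fintype.card ι * (Bn s x ^ k) ^ 2)) :
    (Bn s x ^ k) ^ 2 * (k ^ 2 + k * Sg + 2 * k) ≤ k * 16 ^ k * Sg + (k ^ 2 + 2 * k) * 16 ^ k +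
      (2 * k ^ 2 + 2 * k) * (4 * k).factorial * (Fintype.card ι * Tl s x) := by
  have n1 : (1 : ℝ) ≤ Fintype.card ι := by exact_mod_cast hn
  set n : ℝ := (Fintype.card ι : ℝ) with hn'
  set B := Bn s x ^ k with hB
  have B0 := one_le_Bn s x
  have B1 : 1 ≤ B := one_le_pow₀ B0
  have k0 : (0 : ℝ) ≤ k := by positivity
  have T0 : 0 ≤ ((4 * k).factorial : ℝ) * (n * Tl s x) := by unfold Tl; positivity
  rcases le_total (Bn s x) 4 with h5 | h5
  · have : B ^ 2 ≤ 16 ^ k := by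
      rw [hB, ← pow_mul, mul_comm, pow_mul]
      exact pow_le_pow_left₀ (by positivity) (by nlinarith) k
    nlinarith [mul_le_mul_of_nonneg_right this (show 0 ≤ (k : ℝ) ^ 2 + k * Sg + 2 * k by positivity),
      mul_nonneg (show 0 ≤ 2 * (k : ℝ) ^ 2 + 2 * k by positivity) T0]
  · have b1 : B ^ 4 ≤ (4 * k).factorial * Tl s x := by
      rw [hB, ← pow_mul, mul_comm k]; exact pow_Bn_le s x _ h5
    have b5 : n * B ^ 4 ≤ (4 * k).factorial * (n * Tl s x) := by
      rw [mul_left_comm]; exact mul_le_mul_of_nonneg_left b1 (by linarith)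
    have b6 : B ^ 2 ≤ n * B ^ 4 := by
      have : B ^ 2 ≤ B ^ 4 := pow_le_pow_right₀ B1 (by norm_num)
      nlinarith [pow_nonneg (zero_le_one.trans B1) 4]
    have b7 := mul_le_mul_of_nonneg_left b2 (show 0 ≤ B ^ 2 * k by positivity)
    have b8 := mul_le_mul_of_nonneg_left b5 (show 0 ≤ 2 * (k : ℝ) ^ 2 + 2 * k by positivity)
    have b9 := mul_le_mul_of_nonneg_left b6 (show 0 ≤ (k : ℝ) ^ 2 + 2 * k by positivity)
    have p1 : 0 ≤ (k : ℝ) * 16 ^ k * Sg := by positivity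
    have p2 : 0 ≤ ((k : ℝ) ^ 2 + 2 * k) * 16 ^ k := by positivity
    nlinarith

lemma Rm_le' (hs : s ^ 2 * Fintype.card ι ≤ 1) (hn : 1 ≤ Fintype.card ι) {a : ι → ℝ}
    {m : List (ι → ℝ)} (h : Bd (a :: m)) (x : ι × ι → ℝ) {k : ℕ} (hk : k = m.length + 1) (i : ι) :
    Rm s (symG s x) a m i ≤ Vk s (symG s x) (a :: m) i i ^ 2 / 2 + s ^ 2 * (k * 16 ^ k *
      ∑ q ∈ range (m.length - 1), Dq s (m.take (q + 1)) x + (k ^ 2 + 2 * k) * 16 ^ k +
        (2 * k ^ 2 + 2 * k) * (4 * k).factorial * (Fintype.card ι * Tl s x)) := by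
  have n1 : (1 : ℝ) ≤ Fintype.card ι := by exact_mod_cast hn
  have hQ := fun Sg => Q_le (s := s) hn x k (Sg := Sg)
  set n : ℝ := (Fintype.card ι : ℝ) with hn'
  set B := Bn s x ^ k with hB
  have B0 := one_le_Bn s x
  have B1 : 1 ≤ B := one_le_pow₀ B0
  set S := ∑ q ∈ range (m.length - 1), nrm (Vk s (symG s x) (m.take (q + 1))).diag with hS
  have S0 : 0 ≤ S := sum_nonneg fun _ _ => nrm_nonneg _
  have k1 : (k : ℝ) = m.length + 1 := by rw [hk]; push_cast; ring
  have k0 : (0 : ℝ) ≤ k := by positivity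
  have r0 : 0 ≤ √n := Real.sqrt_nonneg _
  have rr : √n * √n = n := Real.mul_self_sqrt (by linarith)
  have h2 := Rm_le hs h i (J := symG s x) (B := B) (by rw [hB, hk, Bn])
  rw [← hn', ← hS, mul_assoc 2, ← k1] at h2
  have h3 : S ^ 2 ≤ k * ∑ q ∈ range (m.length - 1), Dq s (m.take (q + 1)) x := by
    simp only [Dq_eq]
    refine (sq_sum_le_card_mul_sum_sq).trans (mul_le_mul_of_nonneg_right ?_
      (sum_nonneg fun _ _ => sq_nonneg _))
    rw [card_range, hk]; exact_mod_cast (by omega)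
  set Sg := ∑ q ∈ range (m.length - 1), Dq s (m.take (q + 1)) x with hSg
  have Sg0 : 0 ≤ Sg := sum_nonneg fun _ _ => sum_nonneg fun _ _ => sq_nonneg _
  have b2 : Sg ≤ k * (n * B ^ 2) := by
    refine (sum_le_card_nsmul _ _ (n * B ^ 2) fun q _ => ?_).trans ?_
    · have b3 := (opn_VU hs le_rfl (J := symG s x) ((bd_cons.1 h).2.take (q + 1))).1
      have b4 : opn (Vk s (symG s x) (m.take (q + 1))) ≤ B := b3.trans
        (pow_le_pow_right₀ B0 (by rw [List.length_take]; omega))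
      rw [Dq_eq, ← rr, ← sq, ← mul_pow]
      exact pow_le_pow_left₀ (nrm_nonneg _)
        ((dg_le _).trans (mul_le_mul_of_nonneg_left b4 r0)) 2
    · rw [card_range, nsmul_eq_mul]
      exact mul_le_mul_of_nonneg_right (by rw [hk]; exact_mod_cast (by omega)) (by positivity)
  have h4 := mul_le_mul_of_nonneg_left (hQ Sg Sg0 b2) (sq_nonneg s)
  set w := |Vk s (symG s x) (a :: m) i i| with hw
  rw [← sq_abs (Vk s (symG s x) (a :: m) i i), ← hw]
  have s1 : s ^ 2 ≤ 1 := by nlinarith [sq_nonneg s]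
  have h5 : (s ^ 2 * (B * (k + √n * S))) ^ 2 ≤ 2 * (s ^ 2 * (B ^ 2 * (k ^ 2 + k * Sg))) := by
    have e1 : (k + √n * S) ^ 2 ≤ 2 * (k ^ 2 + n * S ^ 2) := by
      have : (√n * S) ^ 2 = n * S ^ 2 := by rw [mul_pow, sq (√n), rr]
      nlinarith [sq_nonneg (k - √n * S)]
    have e2 : s ^ 2 * (k ^ 2 + n * S ^ 2) ≤ k ^ 2 + k * Sg := by
      nlinarith [mul_le_mul_of_nonneg_right s1 (sq_nonneg (k : ℝ)),
        mul_le_mul_of_nonneg_right hs (sq_nonneg S)]
    have e3 := mul_le_mul_of_nonneg_left e1 (show 0 ≤ s ^ 2 * s ^ 2 * B ^ 2 by positivity)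
    have e4 := mul_le_mul_of_nonneg_left e2 (show 0 ≤ 2 * s ^ 2 * B ^ 2 by positivity)
    nlinarith
  nlinarith [sq_nonneg (s ^ 2 * (B * (k + √n * S)) - w)]

universe u

/-- second moment of one diagonal entry -/
theorem diag_sq (k : ℕ) : ∃ M : ℝ, 0 ≤ M ∧ ∀ (ι : Type u) [Fintype ι] [DecidableEq ι] (s : ℝ),
    s ^ 2 * Fintype.card ι ≤ 1 → 1 ≤ Fintype.card ι → ∀ l : List (ι → ℝ), l.length = k + 1 →
      Bd l → ∀ i, ∫ x, Vk s (symG s x) l i i ^ 2 ∂gv (ι × ι) ≤ M * s ^ 2 := by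
  obtain ⟨M, M0, hM⟩ := mom.{u} k
  refine ⟨2 * ((k + 1 : ℕ) * 16 ^ (k + 1) * (k * M) + ((k + 1 : ℕ) ^ 2 + 2 * (k + 1 : ℕ)) *
    16 ^ (k + 1) + (2 * (k + 1 : ℕ) ^ 2 + 2 * (k + 1 : ℕ)) * (4 * (k + 1)).factorial *
      (8 * Real.exp 6)), by positivity, fun ι _ _ s hs hn l h3 h2 i => ?_⟩
  obtain ⟨a, m, rfl⟩ := List.exists_cons_of_length_eq_add_one h3
  have hk : k + 1 = m.length + 1 := by simpa using h3.symm
  obtain ⟨t1, t2⟩ := int_Tl hs hn
  have i1 : Integrable (fun x => Vk s (symG s x) (a :: m) i i ^ 2) (gv (ι × ι)) :=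
    Pg.int (EG.pow ((pm_VU s s _).1 i i) 2)
  have i2 : Integrable (fun x => ∑ q ∈ range (m.length - 1), Dq s (m.take (q + 1)) x)
      (gv (ι × ι)) := integrable_finsetSum _ fun q _ => (pg_Dq s _).int
  have b := integral_mono (int_sq_eq s a m i).1.int
    ((i1.div_const 2).add ((((i2.const_mul _).add (integrable_const _)).add
      ((t1.const_mul _).const_mul _)).const_mul _)) fun x => Rm_le' hs hn h2 x hk i
  rw [← (int_sq_eq s a m i).2, integral_add' (i1.div_const 2) ((((i2.const_mul _).add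
    (integrable_const _)).add ((t1.const_mul _).const_mul _)).const_mul _), integral_const_mul,
    integral_add' ((i2.const_mul _).add (integrable_const _)) ((t1.const_mul _).const_mul _),
    integral_add' (i2.const_mul _) (integrable_const _),
    integral_div, integral_const_mul, integral_const_mul, integral_const_mul, integral_const,
    probReal_univ, one_smul, integral_finsetSum _ fun q _ => (pg_Dq s _).int] at b
  simp only [integral_const_mul] at b
  have b2 : ∑ q ∈ range (m.length - 1), ∫ x, Dq s (m.take (q + 1)) x ∂gv (ι × ι) ≤ k * M := by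
    refine (sum_le_card_nsmul _ _ M fun q hq => hM ι s hs hn _ ?_ ?_
      ((bd_cons.1 h2).2.take _)).trans ?_
    · have := mem_range.1 hq
      exact List.ne_nil_of_length_pos (by rw [List.length_take]; omega)
    · rw [List.length_take]; omega
    · rw [card_range, nsmul_eq_mul]
      exact mul_le_mul_of_nonneg_right (by exact_mod_cast (by omega)) M0
  have b3 := mul_le_mul_of_nonneg_left b2
    (show 0 ≤ ((k + 1 : ℕ) : ℝ) * 16 ^ (k + 1) by positivity)
  have b4 := mul_le_mul_of_nonneg_left t2 (show 0 ≤ (2 * ((k + 1 : ℕ) : ℝ) ^ 2 + 2 * (k + 1 : ℕ)) *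
    (4 * (k + 1)).factorial by positivity)
  nlinarith [mul_le_mul_of_nonneg_left (add_le_add b3 b4) (sq_nonneg s)]

/-- the good set -/
def Gd (ι : Type*) [Fintype ι] [DecidableEq ι] : Set (Matrix ι ι ℝ) := {W | opn W ≤ 3}

lemma meas_Gd : MeasurableSet (Gd ι) :=
  measurableSet_le continuous_opn.measurable measurable_const

lemma cont_V (s : ℝ) (l : List (ι → ℝ)) : Continuous fun W : Matrix ι ι ℝ => Vk s W l :=
  (cont_VU continuous_id s l).1

lemma int_off (t : ℝ) (l : List (ι → ℝ)) {i j : ι} (hij : i ≠ j) :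
    ∫ W in Gd ι, Vk s W l i j ∂goe ι t = 0 := by
  set σ : ι → ℝ := fun a => if a = i then -1 else 1 with hσ
  have h1 : ∀ a, σ a * σ a = 1 := fun a => by by_cases h : a = i <;> simp [hσ, h]
  have h2 : diagonal σ * (diagonal σ)ᵀ = 1 := by
    rw [diagonal_transpose, diagonal_mul_diagonal]; simp [h1]
  have h3 := goe_conj t (diagonal σ) h2
  rw [diagonal_transpose] at h3
  have hb : ∀ a, |σ a| ≤ 1 := fun a => by by_cases h : a = i <;> simp [hσ, h]
  have h4 : ∀ W : Matrix ι ι ℝ, opn (diagonal σ * W * diagonal σ) ≤ opn W := fun W => by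
    simpa using opn_mul_le' (opn_mul_le' (opn_diagonal_le zero_le_one hb) (le_refl (opn W)))
      (opn_diagonal_le zero_le_one hb)
  have h5 : ∀ W : Matrix ι ι ℝ, diagonal σ * W * diagonal σ ∈ Gd ι ↔ W ∈ Gd ι := fun W => by
    refine ⟨fun h => le_trans (b := opn (diagonal σ * W * diagonal σ)) (c := 3) ?_ h,
      fun h => (h4 W).trans h⟩
    have := h4 (diagonal σ * W * diagonal σ)
    rw [diagonal_transpose] at h2
    rwa [← Matrix.mul_assoc, ← Matrix.mul_assoc, h2, Matrix.one_mul, Matrix.mul_assoc, h2,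
      Matrix.mul_one] at this
  have hm : Measurable fun W : Matrix ι ι ℝ => Vk s W l i j :=
    ((cont_V s l).matrix_elem i j).measurable
  rw [← integral_indicator meas_Gd]
  set f := (Gd ι).indicator fun W : Matrix ι ι ℝ => Vk s W l i j with hf
  have h6 : ∫ W, f W ∂goe ι t = ∫ W, f (diagonal σ * W * diagonal σ) ∂goe ι t := by
    conv_lhs => rw [← h3]
    exact integral_map (by fun_prop) (hm.indicator meas_Gd).aestronglyMeasurable
  have h7 : ∀ W, f (diagonal σ * W * diagonal σ) = -f W := fun W => by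
    by_cases hW : W ∈ Gd ι
    · rw [hf, Set.indicator_of_mem ((h5 W).2 hW), Set.indicator_of_mem hW, (VU_conj h1 W l).1]
      simp [hσ, hij.symm]
    · rw [hf, Set.indicator_of_notMem (mt (h5 W).1 hW), Set.indicator_of_notMem hW, neg_zero]
  simp only [h7, integral_neg] at h6
  linarith

lemma intOn_V (hs : s ^ 2 * Fintype.card ι ≤ 1) {l : List (ι → ℝ)} (hl : Bd l) (i j : ι) :
    IntegrableOn (fun W => Vk s W l i j) (Gd ι) (goe ι s) :=
  Measure.integrableOn_of_bounded (M := (1 + 3) ^ l.length) (measure_ne_top _ _)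
    ((cont_V s l).matrix_elem i j).measurable.aestronglyMeasurable
    ((ae_restrict_iff' meas_Gd).2 (ae_of_all _ fun W hW =>
      (abs_entry_le _ i j).trans (opn_VU hs hW hl).1))

lemma int_bil (hs : s ^ 2 * Fintype.card ι ≤ 1) {l : List (ι → ℝ)} (hl : Bd l) {c : ℝ} (hc : 0 < c)
    (hd : ∀ i, ∫ x, Vk s (symG s x) l i i ^ 2 ∂gv (ι × ι) ≤ c ^ 2) {u v : ι → ℝ} (hu : nrm u ≤ 1)
    (hv : nrm v ≤ 1) : ∫ W in Gd ι, v ⬝ᵥ Vk s W l *ᵥ u ∂goe ι s ≤ c := by
  have e : ∀ W : Matrix ι ι ℝ, v ⬝ᵥ Vk s W l *ᵥ u = ∑ i, ∑ j, v i * u j * Vk s W l i j := fun W => by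
    simp only [dotProduct, mulVec, mul_sum]
    exact sum_congr rfl fun i _ => sum_congr rfl fun j _ => by ring
  simp only [e]
  rw [integral_finsetSum _ fun i _ => integrable_finsetSum _ fun j _ =>
    (intOn_V hs hl i j).const_mul _]
  have h1 : ∀ i, ∫ W in Gd ι, ∑ j, v i * u j * Vk s W l i j ∂goe ι s ≤ |v i| * |u i| * c := fun i => by
    rw [integral_finsetSum _ fun j _ => (intOn_V hs hl i j).const_mul _, sum_eq_single i
      (fun j _ hj => by rw [integral_const_mul, int_off s l hj.symm, mul_zero]) (by simp),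
      integral_const_mul]
    refine (le_abs_self _).trans ?_
    rw [abs_mul, abs_mul]
    refine mul_le_mul_of_nonneg_left ?_ (by positivity)
    have hm : Measurable fun W : Matrix ι ι ℝ => Vk s W l i i ^ 2 :=
      ((cont_V s l).matrix_elem i i).measurable.pow_const 2
    have i1 : Integrable (fun W : Matrix ι ι ℝ => Vk s W l i i ^ 2) (goe ι s) := by
      rw [goe, integrable_map_measure hm.aestronglyMeasurable (measurable_symG s).aemeasurable]
      exact Pg.int (EG.pow ((pm_VU s s _).1 i i) 2)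
    have h2 : ∫ W, Vk s W l i i ^ 2 ∂goe ι s ≤ c ^ 2 := by
      rw [goe, integral_map (measurable_symG s).aemeasurable hm.aestronglyMeasurable]
      exact hd i
    have i2 : Integrable (fun W : Matrix ι ι ℝ => c / 2 + Vk s W l i i ^ 2 / (2 * c)) (goe ι s) :=
      (integrable_const _).add (i1.div_const _)
    calc _ ≤ ∫ W in Gd ι, |Vk s W l i i| ∂goe ι s := abs_integral_le_integral_abs
      _ ≤ ∫ W in Gd ι, (c / 2 + Vk s W l i i ^ 2 / (2 * c)) ∂goe ι s := by
        refine integral_mono (intOn_V hs hl i i).abs i2.integrableOn fun W => ?_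
        simp only
        rw [← sq_abs, div_add_div _ _ (by norm_num) (by positivity), le_div_iff₀ (by positivity)]
        nlinarith [sq_nonneg (c - |Vk s W l i i|)]
      _ ≤ ∫ W, (c / 2 + Vk s W l i i ^ 2 / (2 * c)) ∂goe ι s :=
        setIntegral_le_integral i2 (ae_of_all _ fun W => by positivity)
      _ ≤ c := by
        rw [integral_add (integrable_const _) (i1.div_const _), integral_const,
          probReal_univ, one_smul, integral_div]
        have : (∫ W, Vk s W l i i ^ 2 ∂goe ι s) / (2 * c) ≤ c / 2 := by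
          rw [div_le_iff₀ (by positivity)]; nlinarith
        linarith
  refine (sum_le_sum fun i _ => h1 i).trans ?_
  rw [← sum_mul]
  have h2 := dot_le (fun i => |v i|) fun i => |u i|
  have h3 : ∀ w : ι → ℝ, nrm (fun i => |w i|) = nrm w := fun w => by
    simp [nrm, dotProduct]
  rw [h3, h3] at h2
  have h4 : ∑ i, |v i| * |u i| ≤ 1 := h2.trans (mul_le_one₀ hv (nrm_nonneg _) hu)
  nlinarith

lemma opn_sub_J (hs : s ^ 2 * Fintype.card ι ≤ 1) {R : ℝ} {J J' : Matrix ι ι ℝ} (hR : opn J ≤ R)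
    (hR' : opn J' ≤ R) {l : List (ι → ℝ)} (hl : Bd l) :
    opn (Vk s J l - Vk s J' l) ≤ l.length * (1 + R) ^ l.length * opn (J - J') := by
  have R0 : 0 ≤ R := (opn_nonneg _).trans hR
  rw [(tele s J J' l).1, Tv]
  refine (opn_sum_le _ _).trans ((sum_le_card_nsmul _ _
    ((1 + R) ^ l.length * opn (J - J')) fun q hq => ?_).trans (by simp [mul_assoc]))
  have h1 := (opn_VU hs hR (hl.take q)).1
  have h2 := (opn_VU hs hR' (hl.drop q)).2
  have hq' := (mem_range.1 hq).le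
  rw [List.length_take, min_eq_left hq'] at h1
  rw [List.length_drop] at h2
  refine (opn_mul_le' (opn_mul_le' h1 le_rfl) h2).trans (le_of_eq ?_)
  rw [mul_right_comm, ← pow_add, Nat.add_sub_cancel' hq']

/-- **tail of a bilinear form of a Wick word** -/
theorem bil_tail (k : ℕ) {ε : ℝ} (hε : 0 < ε) : ∃ κ > (0 : ℝ), ∃ N : ℕ,
    ∀ (ι : Type u) [Fintype ι] [DecidableEq ι] (s : ℝ), 0 < s → s ^ 2 * Fintype.card ι ≤ 1 →
    N ≤ Fintype.card ι → ∀ l : List (ι → ℝ), l.length = k + 1 → Bd l → ∀ u v : ι → ℝ, nrm u ≤ 1 →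
    nrm v ≤ 1 → (goe ι s).real {W | opn W ≤ 3 ∧ ε ≤ v ⬝ᵥ Vk s W l *ᵥ u} ≤
      Real.exp (-(κ * Fintype.card ι)) := by
  obtain ⟨M, M0, hM⟩ := diag_sq.{u} k
  set C : ℝ := 4 ^ (k + 1) with hC
  have C0 : 0 < C := by positivity
  set D : ℝ := (k + 1 : ℕ) * C * √2 with hD
  have D0 : 0 < D := by positivity
  set p : ℝ := ε / 8 / (ε / 2 + C) with hp
  have p0 : 0 < p := by positivity
  set r : ℝ := √(2 / p) with hr
  have r0 : 0 < r := by positivity
  obtain ⟨N, hN⟩ := exists_nat_ge (16 + M * 64 / ε ^ 2 + (4 * D * r / ε) ^ 2)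
  refine ⟨(ε / (4 * D)) ^ 2 / 2, by positivity, N, fun ι _ _ s hs0 hs hn l hl hb u v hu hv => ?_⟩
  have n1 : 16 + M * 64 / ε ^ 2 + (4 * D * r / ε) ^ 2 ≤ Fintype.card ι :=
    hN.trans (by exact_mod_cast hn)
  have q1 : 0 ≤ M * 64 / ε ^ 2 := by positivity
  have q2 : 0 ≤ (4 * D * r / ε) ^ 2 := by positivity
  have hn1 : 1 ≤ Fintype.card ι := by
    have : (1 : ℝ) ≤ Fintype.card ι := by linarith
    exact_mod_cast this
  have hd := hM ι s hs hn1 l hl hb
  have hot := opn_tail hs0 hs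
  set n : ℝ := (Fintype.card ι : ℝ) with hn'
  have hF : Continuous fun W : Matrix ι ι ℝ => v ⬝ᵥ Vk s W l *ᵥ u :=
    continuous_const.dotProduct ((cont_V s l).matrix_mulVec continuous_const)
  have hbd : ∀ W ∈ Gd ι, |v ⬝ᵥ Vk s W l *ᵥ u| ≤ C := fun W hW => by
    have h1 := (opn_VU hs hW hb).1
    rw [hl, show (1 + 3 : ℝ) = 4 by norm_num] at h1
    refine (abs_bil_le _ _ _).trans ?_
    have := mul_le_mul h1 (mul_le_one₀ hv (nrm_nonneg _) hu)
      (mul_nonneg (nrm_nonneg _) (nrm_nonneg _)) C0.le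
    linarith
  have hI : ∫ W in Gd ι, v ⬝ᵥ Vk s W l *ᵥ u ∂goe ι s ≤ ε / 8 := by
    refine int_bil hs hb (by positivity) (fun i => (hd i).trans ?_) hu hv
    have h1 : M * 64 / ε ^ 2 * s ^ 2 ≤ 1 :=
      (mul_le_mul_of_nonneg_right (show _ ≤ n by linarith) (sq_nonneg s)).trans (by rwa [mul_comm])
    rw [div_mul_eq_mul_div, div_le_one (by positivity)] at h1
    nlinarith
  have hG : 3 / 4 ≤ (goe ι s).real (Gd ι) := by
    have h3 : Real.exp (-(n / 4)) ≤ 1 / 8 := by
      have h4 : (3 : ℝ) ≤ Real.exp 2 := by linarith [Real.add_one_le_exp (2 : ℝ)]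
      have h5 : Real.exp (2 + 2) ≤ Real.exp (n / 4) := Real.exp_le_exp.2 (by linarith)
      rw [Real.exp_add] at h5
      rw [Real.exp_neg, one_div]
      exact inv_anti₀ (by norm_num) (by nlinarith)
    have h4 := measureReal_add_measureReal_compl (μ := goe ι s) (meas_Gd (ι := ι))
    have h5 : (Gd ι)ᶜ = {W | 3 < opn W} := by ext W; simp [Gd]
    rw [h5, probReal_univ] at h4
    linarith
  set A : Set (Matrix ι ι ℝ) := {W | v ⬝ᵥ Vk s W l *ᵥ u ≤ ε / 2} with hA
  have mA : MeasurableSet A := measurableSet_le hF.measurable measurable_const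
  have hP : p ≤ (goe ι s).real (Gd ι ∩ A) := by
    have i0 : IntegrableOn (fun W => v ⬝ᵥ Vk s W l *ᵥ u) (Gd ι) (goe ι s) :=
      Measure.integrableOn_of_bounded (M := C) (measure_ne_top _ _)
        hF.measurable.aestronglyMeasurable ((ae_restrict_iff' meas_Gd).2 (ae_of_all _ hbd))
    have i1 : IntegrableOn (fun W => (ε / 2 + C) * A.indicator (fun _ => (1 : ℝ)) W) (Gd ι)
        (goe ι s) := ((integrable_const (1 : ℝ)).indicator mA).const_mul _
    have h1 : ∫ W in Gd ι, ε / 2 ∂goe ι s ≤ ∫ W in Gd ι, (v ⬝ᵥ Vk s W l *ᵥ u +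
        (ε / 2 + C) * A.indicator (fun _ => (1 : ℝ)) W) ∂goe ι s := by
      refine setIntegral_mono_on (integrable_const _).integrableOn (i0.add i1) meas_Gd
        fun W hW => ?_
      by_cases h : W ∈ A
      · rw [Set.indicator_of_mem h]
        linarith [(abs_le.1 (hbd W hW)).1]
      · rw [Set.indicator_of_notMem h]
        simp only [hA, Set.mem_ofPred_eq, not_le] at h
        linarith
    rw [integral_add i0 i1, integral_const_mul, integral_indicator mA, setIntegral_const,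
      setIntegral_const, measureReal_restrict_apply mA, Set.inter_comm, smul_eq_mul, smul_eq_mul,
      mul_one] at h1
    rw [hp, div_le_iff₀ (by positivity)]
    nlinarith
  have hms : MeasurableSet {W : Matrix ι ι ℝ | opn W ≤ 3 ∧ ε ≤ v ⬝ᵥ Vk s W l *ᵥ u} :=
    meas_Gd.inter (measurableSet_le measurable_const hF.measurable)
  rw [goe, map_measureReal_apply (measurable_symG s) (meas_Gd.inter mA)] at hP
  rw [goe, map_measureReal_apply (measurable_symG s) hms]
  have hL : ELipOn (D * s) (fun x => v ⬝ᵥ Vk s (symG s x) l *ᵥ u) {x | opn (symG s x) ≤ 3} :=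
    fun x hx y hy => by
      have h1 := opn_sub_J hs (R := 3) hx hy hb
      have h2 := hs_symG_le s (x - y)
      have h3 := cop_le_hs (cx (symG s (x - y)))
      rw [cop_cx] at h3
      rw [abs_of_pos hs0] at h2
      rw [Fr.symG_sub, hl, show (1 + 3 : ℝ) = 4 by norm_num] at h1
      rw [← dotProduct_sub, ← sub_mulVec]
      refine (abs_bil_le _ _ _).trans ?_
      have h4 := mul_le_mul h1 (mul_le_one₀ hv (nrm_nonneg _) hu)
        (mul_nonneg (nrm_nonneg _) (nrm_nonneg _)) (mul_nonneg (by positivity) (opn_nonneg _))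
      have h5 := mul_le_mul_of_nonneg_left (h3.trans h2)
        (show (0 : ℝ) ≤ (k + 1 : ℕ) * C by positivity)
      rw [hD]
      linarith
  have hpr : Real.exp (-r ^ 2 / 2) < p := by
    rw [hr, Real.sq_sqrt (by positivity), show -(2 / p) / 2 = -(1 / p) by ring, Real.exp_neg,
      inv_lt_comm₀ (Real.exp_pos _) p0, ← one_div]
    linarith [Real.add_one_le_exp (1 / p)]
  have ht := Conc.tail_of_prob (by positivity) hL (a := ε / 2) (t := ε / (4 * D * s)) r0.le
    (by positivity) (hpr.trans_le hP)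
  refine le_trans (measureReal_mono fun x hx => ?_) (ht.trans (Real.exp_le_exp.2 ?_))
  · refine ⟨hx.1, le_trans ?_ hx.2⟩
    have h1 : (4 * D * r / ε) ^ 2 * s ^ 2 ≤ 1 :=
      (mul_le_mul_of_nonneg_right (show _ ≤ n by linarith) (sq_nonneg s)).trans (by rwa [mul_comm])
    rw [← mul_pow, sq_le_one_iff₀ (by positivity), div_mul_eq_mul_div, div_le_one hε] at h1
    have h2 : D * s * (ε / (4 * D * s)) = ε / 4 := by field_simp
    rw [mul_add, h2]
    nlinarith
  · have h1 : (ε / (4 * D * s)) ^ 2 * s ^ 2 = (ε / (4 * D)) ^ 2 := by field_simp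
    rw [← h1]
    nlinarith [mul_le_mul_of_nonneg_left hs (sq_nonneg (ε / (4 * D * s)))]

theorem bil_tail' (k : ℕ) {ε : ℝ} (hε : 0 < ε) : ∃ κ > (0 : ℝ), ∃ N : ℕ,
    ∀ (ι : Type u) [Fintype ι] [DecidableEq ι] (s : ℝ), 0 < s → s ^ 2 * Fintype.card ι ≤ 1 →
    N ≤ Fintype.card ι → ∀ l : List (ι → ℝ), l.length ≤ k → Bd l → ∀ u v : ι → ℝ, nrm u ≤ 1 →
    nrm v ≤ 1 → (goe ι s).real {W | opn W ≤ 3 ∧ ε ≤ v ⬝ᵥ Wk s W l *ᵥ u} ≤
      Real.exp (-(κ * Fintype.card ι)) := by
  have one : ∀ k : ℕ, ∃ κ > (0 : ℝ), ∃ N : ℕ,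
      ∀ (ι : Type u) [Fintype ι] [DecidableEq ι] (s : ℝ), 0 < s → s ^ 2 * Fintype.card ι ≤ 1 →
      N ≤ Fintype.card ι → ∀ l : List (ι → ℝ), l.length = k → Bd l → ∀ u v : ι → ℝ, nrm u ≤ 1 →
      nrm v ≤ 1 → (goe ι s).real {W | opn W ≤ 3 ∧ ε ≤ v ⬝ᵥ Wk s W l *ᵥ u} ≤
        Real.exp (-(κ * Fintype.card ι)) := fun k => by
    obtain ⟨κ, h1, N, h2⟩ := bil_tail.{u} k hε
    exact ⟨κ, h1, N, fun ι _ _ s a b c l hl hb u v hu hv =>
      h2 ι s a b c _ (by simp [hl]) (bd_append.2 ⟨hb, bd_one⟩) u v hu hv⟩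
  induction k with
  | zero =>
    obtain ⟨κ, h1, N, h2⟩ := one 0
    exact ⟨κ, h1, N, fun ι _ _ s a b c l hl => h2 ι s a b c l (by omega)⟩
  | succ k ih =>
    obtain ⟨κ, h1, N, h2⟩ := ih
    obtain ⟨κ', h1', N', h2'⟩ := one (k + 1)
    refine ⟨min κ κ', lt_min h1 h1', max N N', fun ι _ _ s a b c l hl hb u v hu hv => ?_⟩
    rcases Nat.lt_or_eq_of_le hl with h | h
    · exact (h2 ι s a b (le_of_max_le_left c) l (by omega) hb u v hu hv).trans
        (Real.exp_le_exp.2 (neg_le_neg (mul_le_mul_of_nonneg_right (min_le_left _ _)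
          (Nat.cast_nonneg _))))
    · exact (h2' ι s a b (le_of_max_le_right c) l h hb u v hu hv).trans
        (Real.exp_le_exp.2 (neg_le_neg (mul_le_mul_of_nonneg_right (min_le_right _ _)
          (Nat.cast_nonneg _))))

/-- extension by zero -/
def ex0 (T : Finset ι) (c : T → ℝ) : ι → ℝ := fun i => if h : i ∈ T then c ⟨i, h⟩ else 0

lemma ex0_dot (T : Finset ι) (c : T → ℝ) (y : ι → ℝ) :
    ex0 T c ⬝ᵥ y = c ⬝ᵥ fun i : T => y i := by
  rw [dotProduct, ← sum_subset (subset_univ T) fun i _ hi => by simp [ex0, hi],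
    ← sum_coe_sort T]
  exact sum_congr rfl fun i _ => by simp [ex0]

lemma ex0_res {T : Finset ι} {v : ι → ℝ} (h : ∀ i ∉ T, v i = 0) :
    ex0 T (fun i : T => v i) = v := funext fun i => by
  by_cases hi : i ∈ T
  · simp [ex0, hi]
  · simp [ex0, hi, h i hi]

lemma nrm_ex0 (T : Finset ι) (c : T → ℝ) : nrm (ex0 T c) = nrm c := by
  rw [nrm, ex0_dot]
  simp [nrm, ex0]

lemma exists_words (A : Finset (ι → ℝ)) (k : ℕ) : ∃ Ws : Finset (List (ι → ℝ)),
    Ws.card ≤ (A.card + 1) ^ k ∧ ∀ l, l ∈ Ws ↔ l.length ≤ k ∧ In (A : Set (ι → ℝ)) l := by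
  classical
  induction k with
  | zero =>
    refine ⟨{[]}, by simp, fun l => ⟨fun h => ?_, fun h => ?_⟩⟩
    · rw [mem_singleton.1 h]; exact ⟨le_rfl, In.nil⟩
    · exact mem_singleton.2 (List.length_eq_zero_iff.1 (Nat.le_zero.1 h.1))
  | succ k ih =>
    obtain ⟨Ws, h1, h2⟩ := ih
    refine ⟨insert [] (image₂ List.cons A Ws), ?_, fun l => ?_⟩
    · have h3 := card_image₂_le List.cons A Ws
      have h4 : 1 ≤ (A.card + 1) ^ k := Nat.one_le_pow _ _ (by omega)
      refine (card_insert_le _ _).trans ?_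
      rw [pow_succ]
      nlinarith [Nat.mul_le_mul_left A.card h1]
    · rw [mem_insert, mem_image₂]
      constructor
      · rintro (rfl | ⟨a, ha, m, hm, rfl⟩)
        · exact ⟨by simp, In.nil⟩
        · exact ⟨by simpa using ((h2 m).1 hm).1, in_cons.2 ⟨ha, ((h2 m).1 hm).2⟩⟩
      · rintro ⟨h3, h4⟩
        cases l with
        | nil => exact Or.inl rfl
        | cons a m =>
          exact Or.inr ⟨a, (in_cons.1 h4).1, m, (h2 m).2 ⟨by simpa using h3, (in_cons.1 h4).2⟩, rfl⟩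

/-- weighted count of small sets -/
lemma sum_small {m t c : ℝ} (ht : 0 < t) (hc : t ≤ c) :
    ∑ T ∈ univ.filter fun T : Finset ι => (T.card : ℝ) ≤ m, c ^ T.card ≤
      Real.exp (t * Fintype.card ι + m * Real.log (c / t)) := by
  have h0 : 0 ≤ Real.log (c / t) := Real.log_nonneg ((one_le_div ht).2 hc)
  have c0 : 0 < c / t := div_pos (ht.trans_le hc) ht
  have h1 : ∑ T : Finset ι, t ^ T.card ≤ Real.exp (t * Fintype.card ι) := by
    have := prod_one_add (f := fun _ : ι => t) univ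
    simp only [prod_const, card_univ, powerset_univ] at this
    rw [← this, mul_comm, Real.exp_nat_mul]
    exact pow_le_pow_left₀ (by positivity) (by linarith [Real.add_one_le_exp t]) _
  rw [Real.exp_add]
  refine le_trans ?_ (mul_le_mul_of_nonneg_right h1 (Real.exp_pos _).le)
  rw [sum_mul]
  refine (sum_le_sum fun T hT => ?_).trans (sum_le_sum_of_subset_of_nonneg (filter_subset _ _)
    fun T _ _ => by positivity)
  have : c ^ T.card = t ^ T.card * Real.exp (T.card * Real.log (c / t)) := by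
    rw [Real.exp_nat_mul, Real.exp_log c0, ← mul_pow, mul_div_cancel₀ _ ht.ne']
  rw [this]
  exact mul_le_mul_of_nonneg_left (Real.exp_le_exp.2
    (mul_le_mul_of_nonneg_right (mem_filter.1 hT).2 h0)) (by positivity)

lemma ev_le (B : ℝ) {κ : ℝ} (hκ : 0 < κ) : ∃ N : ℕ, ∀ n : ℕ, N ≤ n → B ≤ Real.exp (κ * n) := by
  obtain ⟨N, hN⟩ := exists_nat_ge (B / κ)
  refine ⟨N, fun n hn => ?_⟩
  have : B / κ ≤ n := hN.trans (by exact_mod_cast hn)
  rw [div_le_iff₀' hκ] at this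
  linarith [Real.add_one_le_exp (κ * n)]

/-- **RIP for the GOE with fixed letters** -/
theorem rip_goe (k N : ℕ) {ε : ℝ} (hε : 0 < ε) : ∃ δ > (0 : ℝ), ∃ κ > (0 : ℝ), ∃ n0 : ℕ,
    ∀ (ι : Type u) [Fintype ι] [DecidableEq ι] (s : ℝ), 0 < s → s ^ 2 * Fintype.card ι ≤ 1 →
    n0 ≤ Fintype.card ι → ∀ A F : Finset (ι → ℝ), A.card ≤ N → F.card ≤ N →
    BdS (A : Set (ι → ℝ)) → (∀ f ∈ F, nrm f ≤ 1) →
    (goe ι s).real {W | ¬ (opn W ≤ 3 ∧
      RIP s W (A : Set (ι → ℝ)) (F : Set (ι → ℝ)) k (δ * Fintype.card ι) ε)} ≤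
      Real.exp (-(κ * Fintype.card ι)) := by
  classical
  obtain ⟨κ0, k0, N0, hb⟩ := bil_tail'.{u} k (show 0 < ε / 4 by positivity)
  set t : ℝ := min (κ0 / 4) 1 with ht
  have t0 : 0 < t := by positivity
  have t1 : t ≤ 1 := min_le_right _ _
  have t2 : t ≤ κ0 / 4 := min_le_left _ _
  have l0 : 0 < Real.log (25 / t) := Real.log_pos ((one_lt_div t0).2 (by linarith))
  set κ : ℝ := min (κ0 / 4) (1 / 8) with hκ
  have κ0' : 0 < κ := by positivity
  obtain ⟨N1, hN1⟩ := ev_le (((N + 1 : ℕ) : ℝ) ^ (k + 1) + 2) κ0'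
  refine ⟨κ0 / (8 * Real.log (25 / t)), by positivity, κ, κ0', max N0 N1,
    fun ι _ _ s hs0 hs hn A F hA hF bA bF => ?_⟩
  set δ : ℝ := κ0 / (8 * Real.log (25 / t)) with hδ
  obtain ⟨Ws, c1, hWs⟩ := exists_words A k
  choose Nt c2 c3 c4 using fun T : Finset ι => Nrm.exists_half_net T
  have hb' := hb ι s hs0 hs (le_of_max_le_left hn)
  have hN := hN1 _ (le_of_max_le_right hn)
  have hot := opn_tail hs0 hs
  set n : ℝ := (Fintype.card ι : ℝ) with hn'
  have n0 : 0 ≤ n := Nat.cast_nonneg _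
  set TT := univ.filter fun T : Finset ι => (T.card : ℝ) ≤ 2 * (δ * n) with hTT
  set P : Finset ι → Finset (List (ι → ℝ) × (ι → ℝ) × (ι → ℝ)) := fun T =>
    Ws ×ˢ ((Nt T).image (ex0 T) ×ˢ ((Nt T).image (ex0 T) ∪ F)) with hP
  have hsub : {W | ¬ (opn W ≤ 3 ∧ RIP s W (A : Set (ι → ℝ)) (F : Set (ι → ℝ)) k (δ * n) ε)} ⊆
      {W | 3 < opn W} ∪ ⋃ T ∈ TT, ⋃ p ∈ P T,
        {W | opn W ≤ 3 ∧ ε / 4 ≤ p.2.1 ⬝ᵥ Wk s W p.1 *ᵥ p.2.2} := by
    intro W hW
    by_contra h
    simp only [Set.mem_union, Set.mem_ofPred_eq, Set.mem_iUnion, not_or, not_lt, not_exists,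
      not_and, not_le] at h
    obtain ⟨h3, h4⟩ := h
    refine hW ⟨h3, fun l a1 a2 u ⟨T1, b1, b2⟩ v ⟨T2, b3, b4⟩ => ?_,
      fun l a1 a2 f hf v ⟨T, b1, b2⟩ => ?_⟩
    · have hT : T1 ∪ T2 ∈ TT := mem_filter.2 ⟨mem_univ _, by
        have : ((T1 ∪ T2).card : ℝ) ≤ T1.card + T2.card := by exact_mod_cast card_union_le T1 T2
        linarith⟩
      set T := T1 ∪ T2
      have e : ∀ c d : T → ℝ, ex0 T c ⬝ᵥ Wk s W l *ᵥ ex0 T d =
          c ⬝ᵥ (Wk s W l).submatrix Subtype.val Subtype.val *ᵥ d := fun c d => by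
        rw [ex0_dot]
        congr 1
        funext i
        change Wk s W l i ⬝ᵥ ex0 T d = _
        rw [dotProduct_comm, ex0_dot, dotProduct_comm]
        rfl
      have h5 := Nrm.opn_le_of_net (c4 T) (c4 T)
        (A := (Wk s W l).submatrix Subtype.val Subtype.val) (M := ε / 4) fun c hc d hd => by
          rw [← e]
          exact (h4 T hT (l, ex0 T c, ex0 T d) (mem_product.2 ⟨(hWs l).2 ⟨a1, a2⟩, mem_product.2
            ⟨mem_image_of_mem _ hc, mem_union_left _ (mem_image_of_mem _ hd)⟩⟩) h3).le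
      have e1 := ex0_res (T := T) (v := u) fun i hi => b2 i fun h => hi (mem_union_left _ h)
      have e2 := ex0_res (T := T) (v := v) fun i hi => b4 i fun h => hi (mem_union_right _ h)
      rw [← e1, ← e2, e, nrm_ex0, nrm_ex0]
      refine (abs_bil_le _ _ _).trans ?_
      nlinarith [mul_le_mul_of_nonneg_right h5 (mul_nonneg (nrm_nonneg fun i : T => v i)
        (nrm_nonneg fun i : T => u i))]
    · have hT : T ∈ TT := mem_filter.2 ⟨mem_univ _, by
        have : (0 : ℝ) ≤ T.card := Nat.cast_nonneg _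
        linarith⟩
      have h5 := Nrm.nrm_le_of_net (c4 T) (w := fun i : T => (Wk s W l *ᵥ f) i) (M := ε / 4)
        fun c hc => by
          rw [← ex0_dot]
          exact (h4 T hT (l, ex0 T c, f) (mem_product.2 ⟨(hWs l).2 ⟨a1, a2⟩, mem_product.2
            ⟨mem_image_of_mem _ hc, mem_union_right _ hf⟩⟩) h3).le
      rw [← ex0_res b2, ex0_dot, nrm_ex0]
      refine (abs_dot_le _ _).trans ?_
      nlinarith [mul_le_mul_of_nonneg_left h5 (nrm_nonneg fun i : T => v i),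
        nrm_nonneg fun i : T => v i]
  have hT : ∀ T ∈ TT, (goe ι s).real (⋃ p ∈ P T,
      {W | opn W ≤ 3 ∧ ε / 4 ≤ p.2.1 ⬝ᵥ Wk s W p.1 *ᵥ p.2.2}) ≤
      ((N + 1 : ℕ) : ℝ) ^ (k + 1) * Real.exp (-(κ0 * n)) * 25 ^ T.card := fun T _ => by
    have hn1 : ∀ y ∈ (Nt T).image (ex0 T), nrm y ≤ 1 := fun y hy => by
      obtain ⟨c, hc, rfl⟩ := mem_image.1 hy
      rw [nrm_ex0]; exact c3 T c hc
    refine (measureReal_biUnion_finset_le _ _).trans ((sum_le_card_nsmul _ _
      (Real.exp (-(κ0 * n))) fun p hp => ?_).trans ?_)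
    · obtain ⟨a1, a2⟩ := mem_product.1 hp
      obtain ⟨a2, a3⟩ := mem_product.1 a2
      exact hb' _ ((hWs _).1 a1).1 (((hWs _).1 a1).2.bd bA) _ _
        ((mem_union.1 a3).elim (hn1 _) (bF _)) (hn1 _ a2)
    · rw [nsmul_eq_mul, mul_right_comm]
      refine mul_le_mul_of_nonneg_right ?_ (Real.exp_pos _).le
      have a1 : ((Nt T).image (ex0 T)).card ≤ 5 ^ T.card :=
        card_image_le.trans (by simpa using c2 T)
      have a2 : 1 ≤ 5 ^ T.card := Nat.one_le_pow _ _ (by norm_num)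
      have a3 : ((Nt T).image (ex0 T) ∪ F).card ≤ (N + 1) * 5 ^ T.card :=
        (card_union_le _ _).trans (by nlinarith [Nat.mul_le_mul hF a2])
      have a4 : Ws.card ≤ (N + 1) ^ k := c1.trans (Nat.pow_le_pow_left (by omega) _)
      have a5 : (P T).card ≤ (N + 1) ^ (k + 1) * 25 ^ T.card := by
        rw [hP, card_product, card_product, show 25 = 5 * 5 by norm_num, mul_pow, pow_succ]
        refine (Nat.mul_le_mul a4 (Nat.mul_le_mul a1 a3)).trans (le_of_eq (by ring))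
      exact_mod_cast a5
  refine (measureReal_mono hsub).trans ((measureReal_union_le _ _).trans ((add_le_add hot
    ((measureReal_biUnion_finset_le _ _).trans (sum_le_sum hT))).trans ?_))
  rw [← mul_sum]
  have h1 := sum_small (ι := ι) (m := 2 * (δ * n)) t0 (show t ≤ 25 by linarith)
  have h2 : t * n + 2 * (δ * n) * Real.log (25 / t) ≤ κ0 / 2 * n := by
    have : 2 * (δ * n) * Real.log (25 / t) = κ0 / 4 * n := by rw [hδ]; field_simp; ring
    nlinarith
  have h3 := mul_le_mul_of_nonneg_left (h1.trans (Real.exp_le_exp.2 h2))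
    (show 0 ≤ ((N + 1 : ℕ) : ℝ) ^ (k + 1) * Real.exp (-(κ0 * n)) by positivity)
  rw [mul_assoc _ _ (Real.exp _), ← Real.exp_add] at h3
  have h4 : Real.exp (-(κ0 * n) + κ0 / 2 * n) ≤ Real.exp (-(2 * κ * n)) :=
    Real.exp_le_exp.2 (by nlinarith [min_le_left (κ0 / 4) (1 / 8 : ℝ)])
  have h5 : Real.exp (-(n / 4)) ≤ Real.exp (-(2 * κ * n)) :=
    Real.exp_le_exp.2 (by nlinarith [min_le_right (κ0 / 4) (1 / 8 : ℝ)])
  have h6 : Real.exp (-(κ * n)) = Real.exp (κ * n) * Real.exp (-(2 * κ * n)) := by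
    rw [← Real.exp_add]; congr 1; ring
  rw [h6]
  nlinarith [mul_le_mul_of_nonneg_right hN (Real.exp_pos (-(2 * κ * n))).le,
    mul_le_mul_of_nonneg_left h4 (show 0 ≤ ((N + 1 : ℕ) : ℝ) ^ (k + 1) by positivity)]

end Crest.Agent.T157.Rip
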