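import Crest.Agent.T157.RipB_25
import Crest.Agent.T157.ConcHW_16

/-!
# Row 157, part B (helper25): restricted isometry, perturbations, closedness, Gaussian vectors
-/

set_option autoImplicit false
set_option maxHeartbeats 400000
set_option linter.unusedSectionVars false
set_option linter.unusedVariables false

noncomputable section

namespace Crest.Agent.T157.Rip

open Matrix Finset MeasureTheory Filter
open Crest.Agent.T157.Eig Crest.Agent.T157.Cond Crest.Agent.T157.Uw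
open Crest.Agent.T157.E (gv)

variable {ι : Type*} [Fintype ι] [DecidableEq ι]
variable {s R m ε ε' δ : ℝ} {J J' : Matrix ι ι ℝ} {A F F' : Set (ι → ℝ)} {k : ℕ} {x y : ι → ℝ}

lemma FlV.mono (h : FlV s J A k m ε x) (he : ε ≤ ε') : FlV s J A k m ε' x :=
  fun l h1 h2 => (h l h1 h2).mono le_rfl he

lemma FlV.add (h : FlV s J A k m ε x) (h' : FlV s J A k m ε' y) :
    FlV s J A k m (ε + ε') (x + y) := fun l h1 h2 => by
  rw [mulVec_add]; exact (h l h1 h2).add (h' l h1 h2)

lemma FlV.smul (h : FlV s J A k m ε x) {c C : ℝ} (hc : |c| ≤ C) (he : 0 ≤ ε) :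
    FlV s J A k m (C * ε) (c • x) := fun l h1 h2 => by
  rw [mulVec_smul]; exact (h l h1 h2).smul hc he

/-- **a perturbation of small operator norm** (for example a small diagonal) -/
theorem RIP.small (h : RIP s J A F k m ε) (hs : s ^ 2 * Fintype.card ι ≤ 1) (hR : opn J ≤ R)
    (hR' : opn J' ≤ R) (hA : BdS A) (hF : ∀ f ∈ F, nrm f ≤ 1) (hd : opn (J' - J) ≤ δ) :
    RIP s J' A F k m (ε + (k + 1) * (1 + R) ^ (k + 1) * ((1 + R) ^ k * δ)) := by
  have R0 : 0 ≤ R := (opn_nonneg _).trans hR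
  have δ0 : 0 ≤ δ := (opn_nonneg _).trans hd
  refine h.perturb hs hR' hA hF (by positivity) fun y l h1 h2 => fl_of_nrm ?_
  refine (nrm_V hs hR (h2.bd hA) h1 _).1.trans ?_
  rw [mul_assoc]
  exact mul_le_mul_of_nonneg_left ((nrm_mulVec_le _ _).trans
    (mul_le_mul_of_nonneg_right hd (nrm_nonneg _))) (by positivity)

/-- **a perturbation of low rank** along flat vectors -/
theorem RIP.lowrank (h : RIP s J A F k m ε) (hs : s ^ 2 * Fintype.card ι ≤ 1) (hJ : opn J ≤ 3)
    (hA : BdS A) (he : 0 ≤ ε) {e z u : ι → ℝ} (fe : Fl m ε e) (fz : Fl m ε z) (fu : Fl m ε u)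
    (ne : nrm e ≤ 1) (nz : nrm z ≤ 1) (nu : nrm u ≤ 1) (me : e ∈ F)
    (mA : ∀ a ∈ A, a * e ∈ F ∧ a * z ∈ F ∧ a * u ∈ F) (hF' : F' ⊆ F) (nF : ∀ f ∈ F', nrm f ≤ 1)
    {C : ℝ} (C0 : 0 ≤ C) (hH : ∀ y, ∃ c1 c2 c3 c4 : ℝ, |c1| ≤ C * nrm y ∧ |c2| ≤ C * nrm y ∧
      |c3| ≤ C * nrm y ∧ |c4| ≤ C * nrm y ∧
      (J' - J) *ᵥ y = c1 • z + c2 • e + c3 • (J *ᵥ e) + c4 • u) :
    opn J' ≤ 3 + 6 * C ∧
      RIP s J' A F' k m (ε + (k + 1) * (1 + (3 + 6 * C)) ^ (k + 1) * (5 * C * ε)) := by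
  have hR : opn J' ≤ 3 + 6 * C := by
    have h1 : opn (J' - J) ≤ 6 * C := opn_le_of_nrm (by positivity) fun y => by
      obtain ⟨c1, c2, c3, c4, a1, a2, a3, a4, e1⟩ := hH y
      have b : ∀ {c r : ℝ} {w : ι → ℝ}, |c| ≤ C * nrm y → nrm w ≤ r →
          nrm (c • w) ≤ C * nrm y * r := fun h1 h2 => by
        rw [nrm_smul]; exact mul_le_mul h1 h2 (nrm_nonneg _) ((abs_nonneg _).trans h1)
      have b3 : nrm (J *ᵥ e) ≤ 3 := (nrm_mulVec_le _ _).trans
        (by nlinarith [nrm_nonneg e, opn_nonneg J])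
      rw [e1]
      linarith [nrm_add_le (c1 • z + c2 • e + c3 • (J *ᵥ e)) (c4 • u),
        nrm_add_le (c1 • z + c2 • e) (c3 • (J *ᵥ e)), nrm_add_le (c1 • z) (c2 • e),
        b a1 nz, b a2 ne, b a3 b3, b a4 nu]
    have h2 := opn_add_le (J' - J) J
    rw [sub_add_cancel] at h2
    linarith
  refine ⟨hR, (h.mono subset_rfl hF' le_rfl le_rfl le_rfl).perturb hs hR hA nF (by positivity)
    fun y => ?_⟩
  obtain ⟨c1, c2, c3, c4, a1, a2, a3, a4, e1⟩ := hH y
  have v2 := h.flV fe fun a ha => (mA a ha).1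
  rw [e1]
  refine (((((h.flV fz fun a ha => (mA a ha).2.1).smul a1 he).add (v2.smul a2 he)).add
    ((h.flV_J hs he hA v2 me).smul a3 (by positivity))).add
    ((h.flV fu fun a ha => (mA a ha).2.2).smul a4 he)).mono (le_of_eq (by ring))

/-! ### closedness -/

section closed
variable {X κ κ' : Type*} [TopologicalSpace X]

lemma cont_VU' {Jx : X → Matrix ι ι ℝ} (hJ : Continuous Jx) (s : ℝ) : ∀ l : List (X → ι → ℝ),
    (∀ a ∈ l, Continuous a) → (Continuous fun x => Vk s (Jx x) (l.map fun a => a x)) ∧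
      Continuous fun x => Uk s (Jx x) (l.map fun a => a x)
  | [], _ => ⟨continuous_const, continuous_const⟩
  | a :: l, h => by
    obtain ⟨h1, h2⟩ := cont_VU' hJ s l fun b hb => h b (List.mem_cons_of_mem _ hb)
    have ha := h a List.mem_cons_self
    have h3 : Continuous fun x => eta s (a x) := by unfold eta; fun_prop
    exact ⟨(hJ.matrix_mul (ha.matrix_diagonal.matrix_mul h1)).sub (h3.smul h2),
      ha.matrix_diagonal.matrix_mul h1⟩

lemma in_range {g : κ → ι → ℝ} {l : List (ι → ℝ)} (h : In (Set.range g) l) :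
    ∃ L : List κ, l = L.map g := by
  induction l with
  | nil => exact ⟨[], rfl⟩
  | cons a l ih =>
    obtain ⟨L, rfl⟩ := ih (in_cons.1 h).2
    obtain ⟨j, rfl⟩ := (in_cons.1 h).1
    exact ⟨j :: L, rfl⟩

lemma isClosed_RIP {Jx : X → Matrix ι ι ℝ} (hJ : Continuous Jx) {α : κ → X → ι → ℝ}
    {φ : κ' → X → ι → ℝ} (hα : ∀ j, Continuous (α j)) (hφ : ∀ j, Continuous (φ j)) (s : ℝ) (k : ℕ)
    (m ε : ℝ) : IsClosed {x | RIP s (Jx x) (Set.range fun j => α j x) (Set.range fun j => φ j x)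
      k m ε} := by
  have hW : ∀ L : List κ, Continuous fun x => Wk s (Jx x) (L.map fun j => α j x) := fun L => by
    have := (cont_VU' hJ s (L.map α ++ [fun _ => 1]) (by
      intro a ha
      rcases List.mem_append.1 ha with h | h
      · obtain ⟨j, -, rfl⟩ := List.mem_map.1 h
        exact hα j
      · rw [List.mem_singleton.1 h]; exact continuous_const)).1
    simpa [Wk, Function.comp_def] using this
  have e : {x | RIP s (Jx x) (Set.range fun j => α j x) (Set.range fun j => φ j x) k m ε} =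
      ⋂ (L : List κ) (_ : L.length ≤ k) (v : ι → ℝ) (_ : Sp m v),
        (⋂ (u : ι → ℝ) (_ : Sp m u),
          {x | |v ⬝ᵥ Wk s (Jx x) (L.map fun j => α j x) *ᵥ u| ≤ ε * nrm u * nrm v}) ∩
        ⋂ j, {x | |v ⬝ᵥ Wk s (Jx x) (L.map fun j => α j x) *ᵥ φ j x| ≤ ε * nrm v} := by
    ext x
    simp only [Set.mem_iInter, Set.mem_inter_iff, Set.mem_ofPred_eq]
    refine ⟨fun h L hL v hv => ?_, fun h => ⟨fun l h1 h2 u hu v hv => ?_,
      fun l h1 h2 f hf v hv => ?_⟩⟩
    · have h2 : In (Set.range fun j => α j x) (L.map fun j => α j x) := fun a ha => by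
        obtain ⟨j, -, rfl⟩ := List.mem_map.1 ha
        exact ⟨j, rfl⟩
      exact ⟨fun u hu => h.sp _ (by simpa using hL) h2 u hu v hv,
        fun j => h.fl _ (by simpa using hL) h2 _ ⟨j, rfl⟩ v hv⟩
    · obtain ⟨L, rfl⟩ := in_range h2
      exact (h L (by simpa using h1) v hv).1 u hu
    · obtain ⟨L, rfl⟩ := in_range h2
      obtain ⟨j, rfl⟩ := hf
      exact (h L (by simpa using h1) v hv).2 j
  rw [e]
  refine isClosed_iInter fun L => isClosed_iInter fun _ => isClosed_iInter fun v =>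
    isClosed_iInter fun _ => IsClosed.inter (isClosed_iInter fun u => isClosed_iInter fun _ =>
      isClosed_le (continuous_const.dotProduct ((hW L).matrix_mulVec continuous_const)).abs
        continuous_const) (isClosed_iInter fun j => isClosed_le
      (continuous_const.dotProduct ((hW L).matrix_mulVec (hφ j))).abs continuous_const)

end closed

universe u

/-- **a Gaussian vector is flat** -/
theorem gauss_fl (hε : 0 < ε) : ∃ δ > (0 : ℝ), ∀ (ι : Type u) [Fintype ι] [DecidableEq ι],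
    (gv ι).real {z | ¬ Fl (δ * Fintype.card ι) (ε * √(Fintype.card ι)) z} ≤
      2 * Real.exp (-(ε ^ 2 / 16 * Fintype.card ι)) := by
  classical
  set t : ℝ := min (ε ^ 2 / 32) 1 with ht
  have t0 : 0 < t := by positivity
  have t1 : t ≤ 1 := min_le_right _ _
  have t2 : t ≤ ε ^ 2 / 32 := min_le_left _ _
  have l0 : 0 < Real.log (5 / t) := Real.log_pos ((one_lt_div t0).2 (by linarith))
  refine ⟨ε ^ 2 / (32 * Real.log (5 / t)), by positivity, fun ι _ _ => ?_⟩
  set δ : ℝ := ε ^ 2 / (32 * Real.log (5 / t)) with hδ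
  choose Nt c2 c3 c4 using fun T : Finset ι => Nrm.exists_half_net T
  set n : ℝ := (Fintype.card ι : ℝ) with hn'
  have n0 : 0 ≤ n := Nat.cast_nonneg _
  set TT := univ.filter fun T : Finset ι => (T.card : ℝ) ≤ δ * n with hTT
  have hsub : {z : ι → ℝ | ¬ Fl (δ * n) (ε * √n) z} ⊆ ⋃ T ∈ TT, ⋃ c ∈ Nt T,
      {z | ε * √n / 2 ≤ |ex0 T c ⬝ᵥ z|} := by
    intro z hz
    by_contra h
    simp only [Set.mem_ofPred_eq, Set.mem_iUnion, not_exists, not_le] at h
    refine hz fun v ⟨T, b1, b2⟩ => ?_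
    have h5 := Nrm.nrm_le_of_net (c4 T) (w := fun i : T => z i) (M := ε * √n / 2) fun c hc => by
      rw [← ex0_dot]
      exact (le_abs_self _).trans (h T (mem_filter.2 ⟨mem_univ _, b1⟩) c hc).le
    rw [← ex0_res b2, ex0_dot, nrm_ex0]
    refine (abs_dot_le _ _).trans ?_
    nlinarith [mul_le_mul_of_nonneg_left h5 (nrm_nonneg fun i : T => v i)]
  have hT : ∀ T ∈ TT, (gv ι).real (⋃ c ∈ Nt T, {z | ε * √n / 2 ≤ |ex0 T c ⬝ᵥ z|}) ≤
      2 * Real.exp (-(ε ^ 2 / 8 * n)) * 5 ^ T.card := fun T _ => by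
    refine (measureReal_biUnion_finset_le _ _).trans ((sum_le_card_nsmul _ _
      (2 * Real.exp (-(ε ^ 2 / 8 * n))) fun c hc => ?_).trans ?_)
    · have h1 : ∑ i, ex0 T c i ^ 2 ≤ 1 := by
        have h2 := c3 T c hc
        rw [← nrm_ex0, nrm_le_iff zero_le_one, one_pow] at h2
        simpa [dotProduct, sq] using h2
      refine (Conc.lin_tail Conc.sg1_gauss _ h1 (by positivity)).trans (le_of_eq ?_)
      rw [div_pow, mul_pow, Real.sq_sqrt n0]
      congr 2
      ring
    · rw [nsmul_eq_mul, mul_comm]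
      refine mul_le_mul_of_nonneg_left ?_ (by positivity)
      exact_mod_cast (by simpa using c2 T : (Nt T).card ≤ 5 ^ T.card)
  refine (measureReal_mono hsub (measure_ne_top _ _)).trans
    (((measureReal_biUnion_finset_le _ _).trans (sum_le_sum hT)).trans ?_)
  rw [← mul_sum, mul_assoc]
  refine mul_le_mul_of_nonneg_left ((mul_le_mul_of_nonneg_left
    (sum_small (ι := ι) (m := δ * n) t0 (show t ≤ 5 by linarith)) (Real.exp_pos _).le).trans ?_)
    zero_le_two
  rw [← Real.exp_add]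
  have : δ * n * Real.log (5 / t) = ε ^ 2 / 32 * n := by rw [hδ]; field_simp
  exact Real.exp_le_exp.2 (by nlinarith)

end Crest.Agent.T157.Rip
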