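import Crest.Agent.T157.RipD_25

/-!
# Row 157, part B (helper25): restricted isometry along the localisation
-/

set_option autoImplicit false
set_option linter.unusedVariables false

noncomputable section

namespace Crest.Agent.T157.Rip

open MeasureTheory ProbabilityTheory Matrix Filter Set Topology
open Crest.ProbabilityR.SpinGlassDynamics
open Crest.Agent.T157.E Crest.Agent.T157.Eig Crest.Agent.T157.Cond Crest.Agent.T157.Tap
open Crest.Agent.T157.SL Crest.Agent.T157.Pos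

variable {n N : ℕ}

/-- the normalised vectors -/
def Fs {κ : Type*} (φ : κ → V n) : Set (V n) := range fun j => (√(n : ℝ))⁻¹ • φ j

lemma nrm_flat {x : V n} (h : ∀ i, |x i| ≤ 1) : nrm ((√(n : ℝ))⁻¹ • x) ≤ 1 := by
  have h1 : nrm x ≤ √n := by
    have := nrm_mul_le zero_le_one h (1 : V n)
    rwa [mul_one, one_mul, Cell.nrm_one] at this
  rw [nrm_smul, abs_of_nonneg (by positivity)]
  exact (mul_le_mul_of_nonneg_left h1 (by positivity)).trans inv_mul_le_one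

lemma fl_flat (hn : 0 < n) {x : V n} {c δ ε : ℝ} (hc : 0 ≤ c) (h : ∀ i, |x i| ≤ c / √n)
    (hδ : c * √δ ≤ ε) (δ0 : 0 ≤ δ) : Fl (δ * n) ε x := by
  refine (fl_of_sup (by positivity) h).mono le_rfl (le_trans (le_of_eq ?_) hδ)
  have : (0 : ℝ) < √n := by positivity
  rw [Real.sqrt_mul δ0]
  field_simp

lemma sq_card {β : ℝ} (hβ : β ∈ Ioc (0 : ℝ) 1) (hn : 0 < n) :
    (β / √(n : ℝ)) ^ 2 * Fintype.card (Fin n) ≤ 1 := by
  have : (0 : ℝ) < n := by positivity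
  rw [div_pow, Real.sq_sqrt this.le, Fintype.card_fin, div_mul_cancel₀ _ this.ne']
  exact pow_le_one₀ hβ.1.le hβ.2

/-- RIP for the scaled GOE -/
lemma rip_GOE (k N : ℕ) {ε : ℝ} (hε : 0 < ε) : ∃ δ > (0 : ℝ), ∃ κ > (0 : ℝ), ∀ᶠ n : ℕ in atTop,
    ∀ β ∈ Ioc (0 : ℝ) 1, ∀ A F : Finset (V n), A.card ≤ N → F.card ≤ N → BdS (A : Set (V n)) →
    (∀ f ∈ F, nrm f ≤ 1) → GOE n {W | ¬ (opn (β • W) ≤ 3 ∧
      RIP (β / √n) (β • W) (A : Set (V n)) (F : Set (V n)) k (δ * n) ε)} ≤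
      ENNReal.ofReal (Real.exp (-κ * n)) := by
  obtain ⟨δ, δ0, κ, κ0, n0, h⟩ := rip_goe.{0} k N hε
  refine ⟨δ, δ0, κ, κ0, ?_⟩
  filter_upwards [eventually_ge_atTop n0, eventually_gt_atTop 0] with n h1 hn β hβ A F a1 a2 a3 a4
  have := hβ.1
  have h2 := h (Fin n) (β / √n) (by positivity) (sq_card hβ hn) (by simpa using h1) A F a1 a2 a3 a4
  rw [Fintype.card_fin, div_eq_mul_one_div, ← goe_smul, ← neg_mul] at h2
  rw [div_eq_mul_one_div]
  refine le_trans (Measure.le_map_apply (f := fun W : Mx n => β • W) (by fun_prop) {W | ¬ (opn W ≤ 3 ∧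
    RIP (β * (1 / √n)) W (A : Set (V n)) (F : Set (V n)) k (δ * n) ε)}) ?_
  exact (ofReal_measureReal (measure_ne_top _ _)).symm.trans_le (ENNReal.ofReal_le_ofReal h2)

lemma P_th (x : V n) : nextR 1 (th x) *ᵥ th x = 0 := by
  rw [nextR, sub_mulVec, one_mulVec, vmv_mulVec, dirv, one_mulVec, unitv_dot_self, len_smul_unitv,
    sub_self]

lemma Ymap_glue (β : ℝ) (x Z : V n) (W : Mx n) :
    Ymap (β • plW β (glueW β x Z W) 1) (β ^ 2) x = Ymap (β • plW β (glueW β x Z 0) 1) (β ^ 2) x := by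
  simp only [Ymap, plW, glueW, smul_mulVec, add_mulVec, ← mulVec_mulVec, P_th, mulVec_zero]

lemma glue_H (hn : 0 < n) {β : ℝ} (hβ : β ∈ Ioc (0 : ℝ) 1) {x Z : V n} (ha : 0 < aS x)
    (hZ : nrm Z ≤ 2 * √n) {W : Mx n} (hW : opn (β • W) ≤ 3) (y : V n) : ∃ c1 c2 c3 c4 : ℝ,
    |c1| ≤ 13 * nrm y ∧ |c2| ≤ 13 * nrm y ∧ |c3| ≤ 13 * nrm y ∧ |c4| ≤ 13 * nrm y ∧
    (β • plW β (glueW β x Z W) 1 - β • W) *ᵥ y = c1 • ((2 * √(n : ℝ))⁻¹ • Z) +
      c2 • unitv (th x) + c3 • ((β • W) *ᵥ unitv (th x)) + c4 • ((√(n : ℝ))⁻¹ • (1 : V n)) := by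
  have hs : (0 : ℝ) < √n := by positivity
  have β0 := hβ.1
  have β1 := hβ.2
  rw [plW, glueW, ← Cell.shift_eq hn ha β]
  set e := unitv (th x) with he
  have e1 : nrm e ≤ 1 := nrm_unitv _
  have e0 := nrm_nonneg e
  have y0 := nrm_nonneg y
  set b := β * (1 - aS x) with hb
  have b0 : 0 ≤ b := mul_nonneg β0.le (by linarith [Cell.aS_le_one x])
  have b1 : b ≤ 1 := mul_le_one₀ β1 (by linarith [Cell.aS_le_one x]) (by linarith)
  set ω := (1 / √(n : ℝ)) • (Z + (b * √n) • e) with hω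
  have ωe : ω = (2 : ℝ) • ((2 * √(n : ℝ))⁻¹ • Z) + b • e := by
    rw [hω, smul_add, smul_smul, smul_smul]
    congr 2 <;> field_simp
  have ω1 : nrm ω ≤ 3 := by
    rw [hω, nrm_smul, abs_of_pos (by positivity), one_div, inv_mul_le_iff₀ hs]
    refine (nrm_add_le _ _).trans ?_
    rw [nrm_smul, abs_of_nonneg (by positivity)]
    have : b * √n * nrm e ≤ 1 * √n * 1 := by gcongr
    linarith
  have hP : ∀ v, nextR 1 (th x) *ᵥ v = v - (e ⬝ᵥ v) • e := fun v => by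
    rw [nextR, sub_mulVec, one_mulVec, vmv_mulVec, dirv, one_mulVec]
  set u : V n := (√(n : ℝ))⁻¹ • (1 : V n) with hu
  have u1 : nrm u ≤ 1 := nrm_flat fun _ => by simp
  have ue : ((β / n) • vecMulVec (1 : V n) (1 : V n)) *ᵥ y = (β * (u ⬝ᵥ y)) • u := by
    rw [smul_mulVec, vmv_mulVec, hu, smul_dotProduct, smul_smul, smul_smul, smul_eq_mul]
    congr 1
    have : (n : ℝ) = √n * √n := (Real.mul_self_sqrt (Nat.cast_nonneg n)).symm
    conv_lhs => rw [this]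
    field_simp
  have r1 : |e ⬝ᵥ y| ≤ nrm y := (abs_dot_le _ _).trans (by nlinarith)
  have r2 : |ω ⬝ᵥ y| ≤ 3 * nrm y := (abs_dot_le _ _).trans (by gcongr)
  have r3 : |e ⬝ᵥ ω| ≤ 3 := (abs_dot_le _ _).trans (by nlinarith [nrm_nonneg ω])
  have r4 : |e ⬝ᵥ (β • W) *ᵥ y| ≤ 3 * nrm y :=
    (abs_bil_le _ _ _).trans (mul_le_mul hW (mul_le_of_le_one_left y0 e1) (by positivity)
      (by norm_num))
  have r5 : |e ⬝ᵥ (β • W) *ᵥ e| ≤ 3 := (abs_bil_le _ _ _).trans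
    (by nlinarith [mul_le_one₀ e1 e0 e1, mul_nonneg e0 e0, opn_nonneg (β • W)])
  have r6 : |u ⬝ᵥ y| ≤ nrm y := (abs_dot_le _ _).trans (by nlinarith [nrm_nonneg u])
  have m : ∀ {p q P Q : ℝ}, |p| ≤ P → |q| ≤ Q → |p * q| ≤ P * Q := fun h1 h2 => by
    rw [abs_mul]; exact mul_le_mul h1 h2 (abs_nonneg _) ((abs_nonneg _).trans h1)
  have aβ : |β| ≤ 1 := by rwa [abs_of_pos β0]
  have ab : |b| ≤ 1 := by rwa [abs_of_nonneg b0]
  refine ⟨2 * (β * (e ⬝ᵥ y)), β * b * (e ⬝ᵥ y) + β * (ω ⬝ᵥ y) - β * (e ⬝ᵥ ω) * (e ⬝ᵥ y) -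
    e ⬝ᵥ (β • W) *ᵥ y + (e ⬝ᵥ (β • W) *ᵥ e) * (e ⬝ᵥ y), -(e ⬝ᵥ y), β * (β * (u ⬝ᵥ y)),
    ?_, ?_, ?_, ?_, ?_⟩
  · linarith [m (le_refl |(2 : ℝ)|) (m aβ r1), abs_two (α := ℝ), m (abs_two (α := ℝ)).le (m aβ r1)]
  · have t1 := abs_le.1 (m (m aβ ab) r1)
    have t2 := abs_le.1 (m aβ r2)
    have t3 := abs_le.1 (m (m aβ r3) r1)
    have t4 := abs_le.1 r4
    have t5 := abs_le.1 (m r5 r1)
    rw [abs_le]
    constructor <;> linarith [t1.1, t1.2, t2.1, t2.2, t3.1, t3.2, t4.1, t4.2, t5.1, t5.2]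
  · rw [abs_neg]; linarith
  · linarith [m aβ (m aβ r6)]
  · rw [sub_mulVec, smul_mulVec β, add_mulVec, add_mulVec, ue, ← mulVec_mulVec, ← mulVec_mulVec,
      hP, hP]
    simp only [rk2, sub_mulVec, add_mulVec, smul_mulVec, vmv_mulVec, mulVec_sub, mulVec_smul,
      dotProduct_sub, dotProduct_smul, smul_eq_mul]
    generalize ω ⬝ᵥ y = p, e ⬝ᵥ ω = q
    rw [ωe]
    module

/-- RIP for low rank perturbations of the GOE -/
lemma fix_gen (k N : ℕ) {ε : ℝ} (hε : 0 < ε) : ∃ e > (0 : ℝ), ∃ δ0 > (0 : ℝ),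
    ∃ κ > (0 : ℝ), ∀ᶠ n : ℕ in atTop, ∀ β ∈ Ioc (0 : ℝ) 1, ∀ δ ≤ δ0, ∀ p z u : V n, nrm p ≤ 1 →
    nrm z ≤ 1 → nrm u ≤ 1 → Fl (δ * n) e p → Fl (δ * n) e z → Fl (δ * n) e u →
    ∀ J' : Mx n → Mx n, (∀ W, opn (β • W) ≤ 3 → ∀ y, ∃ c1 c2 c3 c4 : ℝ, |c1| ≤ 13 * nrm y ∧
      |c2| ≤ 13 * nrm y ∧ |c3| ≤ 13 * nrm y ∧ |c4| ≤ 13 * nrm y ∧
      (J' W - β • W) *ᵥ y = c1 • z + c2 • p + c3 • ((β • W) *ᵥ p) + c4 • u) →
    ∀ α φ : Fin N → V n, (∀ j i, |α j i| ≤ 1) → (∀ j i, |φ j i| ≤ 1) →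
    GOE n {W | ¬ RIP (β / √n) (J' W) (range α) (Fs φ) k (δ * n) ε} ≤
      ENNReal.ofReal (Real.exp (-κ * n)) := by
  classical
  set C : ℝ := 1 + (k + 1) * (1 + (3 + 6 * 13)) ^ (k + 1) * (5 * 13) with hC
  have C0 : 0 < C := by positivity
  have e0 : 0 < ε / C := by positivity
  obtain ⟨δ1, δ10, κ, κ0, h⟩ := rip_GOE k (4 * N + 1) e0
  refine ⟨ε / C, e0, δ1, δ10, κ, κ0, ?_⟩
  filter_upwards [h, eventually_gt_atTop 0] with n h hn β hβ δ hδ e z u ne nz nu fe fz fu J' hJ'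
    α φ hα hφ
  set A := Finset.univ.image α with hA
  have cA : (A : Set (V n)) = range α := by simp [hA]
  have bA : BdS (range α) := by rintro _ ⟨j, rfl⟩; exact hα j
  set F := insert e ((Finset.univ.image fun j => (√(n : ℝ))⁻¹ • φ j) ∪ (A.image (· * e) ∪
    (A.image (· * z) ∪ A.image (· * u)))) with hF
  have c1 : A.card ≤ N := Finset.card_image_le.trans (by simp)
  have c2 : F.card ≤ 4 * N + 1 := by
    refine (Finset.card_insert_le _ _).trans (Nat.add_le_add_right ?_ 1)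
    have d1 : (Finset.univ.image fun j => (√(n : ℝ))⁻¹ • φ j).card ≤ N :=
      Finset.card_image_le.trans (by simp)
    have d2 : ∀ w : V n, (A.image (· * w)).card ≤ N := fun w => Finset.card_image_le.trans c1
    refine (Finset.card_union_le _ _).trans ((Nat.add_le_add d1 ((Finset.card_union_le _ _).trans
      (Nat.add_le_add (d2 e) ((Finset.card_union_le _ _).trans
        (Nat.add_le_add (d2 z) (d2 u)))))).trans (by omega))
  have nF : ∀ f ∈ F, nrm f ≤ 1 := by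
    have d : ∀ w : V n, nrm w ≤ 1 → ∀ f ∈ A.image (· * w), nrm f ≤ 1 := fun w hw f hf => by
      obtain ⟨a, ha, rfl⟩ := Finset.mem_image.1 hf
      simpa using (nrm_mul_le zero_le_one (bA a (cA ▸ ha)) w).trans (by linarith)
    intro f hf
    simp only [hF, Finset.mem_insert, Finset.mem_union] at hf
    rcases hf with rfl | hf | hf | hf | hf
    · exact ne
    · obtain ⟨j, -, rfl⟩ := Finset.mem_image.1 hf
      exact nrm_flat (hφ j)
    exacts [d e ne f hf, d z nz f hf, d u nu f hf]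
  refine le_trans (measure_mono fun W hW => ?_) (h β hβ A F (by omega) c2 (cA ▸ bA) nF)
  refine fun h1 => hW ?_
  have h2 := h1.2.mono (cA ▸ subset_rfl : range α ⊆ A) subset_rfl le_rfl
    (mul_le_mul_of_nonneg_right hδ (Nat.cast_nonneg n)) le_rfl
  refine (h2.lowrank (F' := Fs φ) (sq_card hβ hn) h1.1 bA e0.le fe fz fu ne nz nu (by simp [hF])
    (fun a ha => ?_) ?_ ?_ (by norm_num) (hJ' W h1.1)).2.mono subset_rfl subset_rfl
      le_rfl le_rfl (le_of_eq ?_)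
  · have ha' : a ∈ A := by rw [← Finset.mem_coe, cA]; exact ha
    simp only [hF, Finset.coe_insert, Finset.coe_union, mem_insert_iff, mem_union, Finset.mem_coe]
    exact ⟨Or.inr (Or.inr (Or.inl (Finset.mem_image_of_mem _ ha'))),
      Or.inr (Or.inr (Or.inr (Or.inl (Finset.mem_image_of_mem _ ha')))),
      Or.inr (Or.inr (Or.inr (Or.inr (Finset.mem_image_of_mem _ ha'))))⟩
  · rintro _ ⟨j, rfl⟩
    simp only [hF, Finset.coe_insert, Finset.coe_union, mem_insert_iff, mem_union, Finset.mem_coe]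
    exact Or.inr (Or.inl (Finset.mem_image_of_mem _ (Finset.mem_univ j)))
  · rintro _ ⟨j, rfl⟩
    exact nrm_flat (hφ j)
  · field_simp
    rw [hC]; ring

lemma fl_unit (hn : 0 < n) {σ : V n} (h : ∀ i, |σ i| ≤ 1) {δ e : ℝ} (δ0 : 0 ≤ δ) (hδ : δ ≤ e ^ 2)
    (e0 : 0 ≤ e) : Fl (δ * n) e ((√(n : ℝ))⁻¹ • σ) := fl_flat hn zero_le_one (fun i => by
  rw [Pi.smul_apply, smul_eq_mul, abs_mul, abs_of_nonneg (by positivity), one_div]
  exact mul_le_of_le_one_right (by positivity) (h i))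
    (by rw [one_mul]; exact Real.sqrt_le_iff.2 ⟨e0, hδ⟩) δ0

/-- RIP in the reference model, `x` and `Z` being fixed -/
lemma ref_fix (k N : ℕ) {ε am : ℝ} (hε : 0 < ε) (ham : 0 < am) : ∃ e > (0 : ℝ), ∃ δ0 > (0 : ℝ),
    ∃ κ > (0 : ℝ), ∀ᶠ n : ℕ in atTop, ∀ β ∈ Ioc (0 : ℝ) 1, ∀ δ ∈ Icc 0 δ0, ∀ x Z : V n, am ≤ aS x →
    nrm Z ≤ 2 * √n → Fl (δ * n) (e * √n) Z → ∀ α φ : Fin N → V n, (∀ j i, |α j i| ≤ 1) →
    (∀ j i, |φ j i| ≤ 1) → GOE n {W | ¬ RIP (β / √n) (β • plW β (glueW β x Z W) 1) (range α) (Fs φ)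
      k (δ * n) ε} ≤ ENNReal.ofReal (Real.exp (-κ * n)) := by
  obtain ⟨e, e0, δ1, δ10, κ, κ0, h⟩ := fix_gen k N hε
  refine ⟨e, e0, min δ1 (e ^ 2 * min am 1), by positivity, κ, κ0, ?_⟩
  filter_upwards [h, eventually_gt_atTop 0] with n h hn β hβ δ hδ x Z hx hZ fZ
  have hs : (0 : ℝ) < √n := by positivity
  have ax : 0 < aS x := ham.trans_le hx
  have δ2 : δ ≤ e ^ 2 * min am 1 := hδ.2.trans (min_le_right _ _)
  have δ3 : √δ ≤ e * √(min am 1) := by
    rw [← Real.sqrt_sq e0.le, ← Real.sqrt_mul (sq_nonneg _)]; exact Real.sqrt_le_sqrt δ2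
  have m0 : 0 < √(min am 1) := by positivity
  refine h β hβ δ (hδ.2.trans (min_le_left _ _)) _ _ _ (nrm_unitv _) ?_ (nrm_flat fun _ => by simp)
    ?_ ?_ (fl_unit hn (fun _ => by simp) hδ.1 (δ2.trans (mul_le_of_le_one_right (sq_nonneg _)
      (min_le_right _ _))) e0.le) _ fun W hW => glue_H hn hβ ax hZ hW
  · rw [nrm_smul, abs_of_pos (by positivity), inv_mul_le_iff₀ (by positivity)]; linarith
  · refine fl_flat hn (c := (√(min am 1))⁻¹) (by positivity) (fun i => ?_) (by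
      rw [inv_mul_le_iff₀ m0]; linarith) hδ.1
    have s1 : √(min am 1) ≤ √(aS x) := Real.sqrt_le_sqrt ((min_le_left _ _).trans hx)
    rw [unitv, Cell.len_th x hn, Pi.smul_apply, smul_eq_mul, abs_mul, abs_of_pos (by positivity),
      div_eq_mul_inv, mul_inv, mul_comm (√(min am 1))⁻¹]
    refine (mul_le_of_le_one_right (by positivity) (Cell.abs_th_le x i)).trans ?_
    gcongr
  · exact (fZ.smul (le_refl _) (by positivity)).mono le_rfl (by
      rw [abs_of_pos (by positivity), inv_mul_le_iff₀ (by positivity)]; nlinarith)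

/-- RIP in the planted model -/
lemma pl_fix (k N : ℕ) {ε : ℝ} (hε : 0 < ε) : ∃ δ > (0 : ℝ), ∃ κ > (0 : ℝ), ∀ᶠ n : ℕ in atTop,
    ∀ β ∈ Ioc (0 : ℝ) 1, ∀ σ : V n, (∀ i, |σ i| ≤ 1) → ∀ α φ : Fin N → V n, (∀ j i, |α j i| ≤ 1) →
    (∀ j i, |φ j i| ≤ 1) → GOE n {W | ¬ RIP (β / √n) (β • plW β W σ) (range α) (Fs φ)
      k (δ * n) ε} ≤ ENNReal.ofReal (Real.exp (-κ * n)) := by
  obtain ⟨e, e0, δ1, δ10, κ, κ0, h⟩ := fix_gen k N hε
  refine ⟨min δ1 (e ^ 2), by positivity, κ, κ0, ?_⟩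
  filter_upwards [h, eventually_gt_atTop 0] with n h hn β hβ σ hσ
  have u1 := nrm_flat hσ
  have fu := fl_unit hn hσ (δ := min δ1 (e ^ 2)) (by positivity) (min_le_right _ _) e0.le
  refine h β hβ _ (min_le_left _ _) _ _ _ u1 u1 u1 fu fu fu _ fun W hW y => ?_
  have y0 := nrm_nonneg y
  refine ⟨0, 0, 0, β ^ 2 * (((√(n : ℝ))⁻¹ • σ) ⬝ᵥ y), by simpa, by simpa, by simpa, ?_, ?_⟩
  · rw [abs_mul, abs_of_nonneg (sq_nonneg β)]
    nlinarith [abs_dot_le ((√(n : ℝ))⁻¹ • σ) y, pow_le_one₀ (n := 2) hβ.1.le hβ.2,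
      abs_nonneg (((√(n : ℝ))⁻¹ • σ) ⬝ᵥ y), mul_le_mul_of_nonneg_right u1 y0]
  · rw [plW, smul_add, add_sub_cancel_left, smul_mulVec, smul_mulVec, vmv_mulVec, smul_dotProduct]
    simp only [zero_smul, zero_add]
    simp only [smul_smul, smul_eq_mul]
    congr 1
    have : (n : ℝ) = √n * √n := (Real.mul_self_sqrt (Nat.cast_nonneg n)).symm
    have hs : (0 : ℝ) < √n := by positivity
    conv_lhs => rw [this]
    field_simp

/-- letters: bounded continuous functions of the spins, the TAP point and the field -/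
def Lt (N : ℕ) (α : ∀ n, Cube n → Fin N → V n × V n → V n) : Prop :=
  ∀ n σ j, Continuous (α n σ j) ∧ ∀ p i, |α n σ j p i| ≤ 1

open TapPl in
/-- **RIP along the localisation**, letters at the TAP solutions -/
theorem rip_tap (k N : ℕ) {ε t0 : ℝ} (hε : 0 < ε) (ht0 : 0 < t0) : ∃ δ > (0 : ℝ),
    ∀ β ∈ Ioc (0 : ℝ) 1, ∀ s, t0 ≤ s → ∃ κ > (0 : ℝ), ∀ α φ, Lt N α → Lt N φ →
      TypS β s κ fun n W y σ => ∀ x, Ymap (β • W) (β ^ 2) x = y → RIP (β / √n) (β • W)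
        (range fun j => α n σ j (x, y)) (Fs fun j => φ n σ j (x, y)) k (δ * n) ε := by
  obtain ⟨am, ham, hq0⟩ := SE.lower ht0
  obtain ⟨e, e0, δ1, δ10, κ1, κ10, h⟩ := ref_fix k N hε (half_pos ham)
  obtain ⟨δ2, δ20, hg⟩ := gauss_fl.{0} e0
  set δ := min δ1 δ2 with hδ
  have δ0 : 0 < δ := by positivity
  refine ⟨δ, δ0, fun β hβ s hs => ?_⟩
  have hs0 : 0 < s := ht0.trans_le hs
  obtain ⟨q, hq⟩ := SE.exists_isQ β s
  have hqa : am ≤ q := by
    have := hq0 (s + β ^ 2 * q) (s + β ^ 2 * q) (by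
      have := mul_nonneg (sq_nonneg β) hq.1.1
      linarith)
    rwa [← hq.2] at this
  set κ2 := min (min (1 / 2) (e ^ 2 / 16)) κ1 with hκ2
  have κ20 : 0 < κ2 := by positivity
  obtain ⟨κ, κ0, hT⟩ := tapS hβ hs0 hq (half_pos ham) (half_pos κ20)
  refine ⟨κ, κ0, fun α φ hα hφ => ?_⟩
  set B : ∀ n, Cube n → Set (Mx n × V n) := fun n σ => {z | RIP (β / √n) (β • z.1)
    (range fun j => α n σ j (z.2, Ymap (β • z.1) (β ^ 2) z.2))
    (Fs fun j => φ n σ j (z.2, Ymap (β • z.1) (β ^ 2) z.2)) k (δ * n) ε}ᶜ with hB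
  have hBo : ∀ n σ, IsOpen (B n σ) := fun n σ => by
    have hc : Continuous fun z : Mx n × V n => (z.2, Ymap (β • z.1) (β ^ 2) z.2) :=
      continuous_snd.prodMk (TapFrz.cont_Ymap (by fun_prop) continuous_const continuous_snd)
    exact (isClosed_RIP (Jx := fun z : Mx n × V n => β • z.1) (by fun_prop)
      (fun j => (hα n σ j).1.comp hc)
      (fun j => ((hφ n σ j).1.comp hc).const_smul (√(n : ℝ))⁻¹) _ _ _ _).isOpen_compl
  refine (hT B hBo ?_).mono' Top.whp_true (.of_forall fun n W y σ _ h1 x hx => ?_)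
  swap
  · have := h1 x hx
    simp only [hB, mem_compl_iff, not_not, mem_ofPred_eq, hx] at this
    exact this
  filter_upwards [h, Kr50.ev_exp 4 κ20, eventually_gt_atTop 0] with n h hev hn σ
  have hσ := Pl.isSign_sv σ
  have hmx : Measurable fun z : (V n × V n) × Mx n => xv β s q q z.1.1 z.1.2 := by
    unfold xv; fun_prop
  have m1 : Measurable fun x : V n => aS x := (TapFrz.cont_avg (continuous_pi fun i =>
    ((continuous_apply i).comp (TapFrz.cont_th continuous_id)).pow 2)).measurable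
  have m2 : Measurable fun x : V n => th x := (TapFrz.cont_th continuous_id).measurable
  have m3 := m1.comp hmx
  have m4 := m2.comp hmx
  have m5 : Measurable fun z : (V n × V n) × Mx n =>
      (glueW β (xv β s q q z.1.1 z.1.2) z.1.2 z.2, xv β s q q z.1.1 z.1.2) := by
    refine Measurable.prodMk ?_ hmx
    unfold glueW
    exact (Measurable.t157_rk2 (by fun_prop) m4.t157_unitv).t157_add
      (((measurable_const.t157_nextR m4).t157_mul measurable_snd).t157_mul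
        (measurable_const.t157_nextR m4))
  have hc : Continuous fun z : Mx n × V n => (cj (sv σ) (plW β z.1 1), sv σ * z.2) := by
    unfold cj plW; fun_prop
  refine (prod_le _ _ ((measurableSet_le (m3.sub_const q).abs measurable_const).inter
    (((hBo n σ).preimage hc).measurableSet.preimage m5))
    {z | 2 * √(n : ℝ) < nrm z.2 ∨ ¬ Fl (δ2 * n) (e * √n) z.2}
    (ENNReal.ofReal (Real.exp (-κ1 * n))) fun z hz => ⟨hz, ?_⟩).trans ?_
  · by_cases hb : 2 * √(n : ℝ) < nrm z.1.2 ∨ ¬ Fl (δ2 * n) (e * √n) z.1.2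
    · exact Or.inl hb
    right
    rw [not_or, not_lt, not_not] at hb
    set x := xv β s q q z.1.1 z.1.2 with hx
    set y := Ymap (β • plW β (glueW β x z.1.2 0) 1) (β ^ 2) x with hy
    refine le_trans (measure_mono fun W hW => ?_) (h β hβ δ ⟨δ0.le, min_le_left _ _⟩ x z.1.2
      (by have := (abs_le.1 (show |aS x - q| ≤ am / 2 from hz.1)).1; linarith) hb.1 (hb.2.mono (mul_le_mul_of_nonneg_right
        (min_le_right _ _) (Nat.cast_nonneg n)) le_rfl) (fun j => α n σ j (sv σ * x, sv σ * y))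
      (fun j => sv σ * φ n σ j (sv σ * x, sv σ * y)) (fun j => (hα n σ j).2 _) fun j i => by
        rw [Pi.mul_apply, abs_mul]
        rcases hσ i with e | e <;> simpa [e] using (hφ n σ j).2 _ i)
    refine fun h1 => hW.2 ?_
    simp only [mem_ofPred_eq]
    rw [← hx, ← cj_smul, Ymap_cj hσ, Ymap_glue, ← hy]
    refine h1.conj (fun i => sign_mul_self hσ i) ?_
    rintro _ ⟨j, rfl⟩
    exact ⟨j, (mul_smul_comm _ _ _).symm⟩
  · have h1 : ((gv (Fin n)).prod (gv (Fin n)))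
        {z | 2 * √(n : ℝ) < nrm z.2 ∨ ¬ Fl (δ2 * n) (e * √n) z.2} ≤
        ENNReal.ofReal (Real.exp (-n / 2) + 2 * Real.exp (-(e ^ 2 / 16 * n))) := by
      refine (Kr50.prod_snd_le _ _ (A := {z | 2 * √(n : ℝ) < nrm z} ∪
        {z | ¬ Fl (δ2 * n) (e * √n) z}) fun z hz => hz).trans
        ((ofReal_measureReal (measure_ne_top _ _)).symm.trans_le (ENNReal.ofReal_le_ofReal
          ((measureReal_union_le _ _).trans (add_le_add (SE.nrm_tail n) ?_))))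
      simpa using hg (Fin n)
    refine (add_le_add h1 le_rfl).trans ?_
    rw [← ENNReal.ofReal_add (by positivity) (by positivity)]
    refine ENNReal.ofReal_le_ofReal (le_trans ?_ hev)
    have n0 : (0 : ℝ) ≤ n := Nat.cast_nonneg n
    have a1 : κ2 ≤ 1 / 2 := (min_le_left _ _).trans (min_le_left _ _)
    have a2 : κ2 ≤ e ^ 2 / 16 := (min_le_left _ _).trans (min_le_right _ _)
    have a3 : κ2 ≤ κ1 := min_le_right _ _
    have b : ∀ {u : ℝ}, u ≤ -κ2 * n → Real.exp u ≤ Real.exp (-κ2 * n) := Real.exp_le_exp.2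
    linarith [b (u := -n / 2) (by nlinarith), b (u := -(e ^ 2 / 16 * n)) (by nlinarith),
      b (u := -κ1 * n) (by nlinarith)]

/-- **RIP along the localisation**, letters depending on the spins and the field, all times -/
theorem rip_pl (k N : ℕ) {ε : ℝ} (hε : 0 < ε) : ∃ δ > (0 : ℝ), ∃ κ > (0 : ℝ),
    ∀ β ∈ Ioc (0 : ℝ) 1, ∀ s, 0 ≤ s → ∀ α φ, Lt N α → Lt N φ →
      TypS β s κ fun n W y σ => RIP (β / √n) (β • W)
        (range fun j => α n σ j (0, y)) (Fs fun j => φ n σ j (0, y)) k (δ * n) ε := by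
  obtain ⟨δ, δ0, κ, κ0, h⟩ := pl_fix k N hε
  refine ⟨δ, δ0, κ / 4, by positivity, fun β hβ s hs α φ hα hφ => ?_⟩
  have hA : ∀ n σ, MeasurableSet {z : Mx n × V n | RIP (β / √n) (β • z.1)
      (range fun j => α n σ j (0, z.2)) (Fs fun j => φ n σ j (0, z.2)) k (δ * n) ε}ᶜ := fun n σ => by
    have hc : Continuous fun z : Mx n × V n => ((0 : V n), z.2) := by fun_prop
    exact (isClosed_RIP (Jx := fun z : Mx n × V n => β • z.1) (by fun_prop)
      (fun j => (hα n σ j).1.comp hc) (fun j => ((hφ n σ j).1.comp hc).const_smul (√(n : ℝ))⁻¹)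
        _ _ _ _).measurableSet.compl
  refine (joint' ⟨hβ.1.le, hβ.2⟩ hs κ0 hA ?_).mono' Top.whp_true
    (.of_forall fun n W y σ _ h1 => not_not.1 h1)
  filter_upwards [h] with n h σ
  refine (Measure.prod_apply_symm ((hA n σ).preimage (f := fun z : Mx n × V n =>
    (plW β z.1 (sv σ), s • sv σ + √s • z.2)) (by unfold plW; fun_prop))).trans_le ?_
  refine (lintegral_mono (g := fun _ => ENNReal.ofReal (Real.exp (-κ * n))) fun g => ?_).trans_eq
    (by rw [lintegral_const, measure_univ, mul_one])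
  exact h β hβ (sv σ) (fun i => by rcases Pl.isSign_sv σ i with e | e <;> simp [e])
    (fun j => α n σ j (0, s • sv σ + √s • g)) (fun j => φ n σ j (0, s • sv σ + √s • g))
    (fun j => (hα n σ j).2 _) fun j => (hφ n σ j).2 _

/-- local letters -/
def loc (a : Fin N → ℝ → ℝ → ℝ) (σ : Cube n) (x : V n) (j : Fin N) : V n :=
  fun i => a j (sv σ i) (x i)

lemma near_loc {a : Fin N → ℝ → ℝ → ℝ} (ha : ∀ j t, UniformContinuous (a j t))
    (hb : ∀ j t x, |a j t x| ≤ 1) {d m : ℝ} (hd : 0 < d) (hm : 0 < m) : ∃ r > (0 : ℝ),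
    ∀ n : ℕ, 0 < n → ∀ (σ : Cube n) (x ξ : V n), nrm (ξ - x) ≤ r * √n → ∀ j,
      Near (m * n) d (loc a σ x j) (loc a σ ξ j) ∧
      nrm ((√(n : ℝ))⁻¹ • loc a σ ξ j - (√(n : ℝ))⁻¹ • loc a σ x j) ≤ d + 2 * √m := by
  have h1 : ∀ p : Fin N × Bool, ∀ᶠ ρ in 𝓝[>] (0 : ℝ), ∀ u v, |u - v| ≤ ρ →
      |a p.1 (spin p.2) u - a p.1 (spin p.2) v| ≤ d := fun p => by
    obtain ⟨ρ, ρ0, h⟩ := Metric.uniformContinuous_iff.1 (ha p.1 (spin p.2)) d hd
    filter_upwards [Ioo_mem_nhdsGT ρ0] with ρ' h' u v huv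
    exact (h (show dist u v < ρ from huv.trans_lt h'.2)).le
  obtain ⟨ρ, h2, ρ0⟩ := ((eventually_all.2 h1).and self_mem_nhdsWithin).exists
  have ρ0 : 0 < ρ := ρ0
  refine ⟨√m * ρ, by positivity, fun n hn σ x ξ h j => ?_⟩
  have n0 : (0 : ℝ) < n := by positivity
  obtain ⟨T, hT, h3⟩ := near_of_sq (a := x) (a' := ξ) (m := m * n) ρ0 (by
    rw [← nrm_sq]
    refine (pow_le_pow_left₀ (nrm_nonneg _) h 2).trans (le_of_eq ?_)
    rw [mul_pow, mul_pow, Real.sq_sqrt hm.le, Real.sq_sqrt n0.le]; ring)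
  have h4 : ∀ i ∉ T, |loc a σ ξ j i - loc a σ x j i| ≤ d := fun i hi =>
    h2 (j, σ i) _ _ (h3 i hi)
  refine ⟨⟨T, hT, h4⟩, ?_⟩
  set v := loc a σ ξ j - loc a σ x j with hv
  have e : v = (fun i => if i ∈ T then 0 else v i) + fun i => if i ∈ T then v i else 0 :=
    funext fun i => by by_cases hi : i ∈ T <;> simp [hi]
  have b1 : nrm (fun i => if i ∈ T then 0 else v i) ≤ d * √n := by
    have := nrm_mul_le hd.le (a := fun i => if i ∈ T then 0 else v i) (fun i => by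
      by_cases hi : i ∈ T
      · simp [hi, hd.le]
      · simpa [hi, hv] using h4 i hi) (1 : V n)
    rwa [mul_one, Cell.nrm_one] at this
  have b2 : nrm (fun i => if i ∈ T then v i else 0) ≤ 2 * √(m * n) := by
    set w : V n := fun i => if i ∈ T then v i else 0 with hw
    have h5 := fl_of_sup (m := m * n) (x := w) zero_le_two (fun i => by
      by_cases hi : i ∈ T
      · simp only [hw, hi, if_true, hv, Pi.sub_apply, loc]
        exact (abs_sub _ _).trans (by linarith [hb j (sv σ i) (ξ i), hb j (sv σ i) (x i)])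
      · simp [hw, hi]) w ⟨T, hT, fun i hi => by simp [hw, hi]⟩
    rw [← nrm_mul_self, abs_of_nonneg (mul_self_nonneg _)] at h5
    rcases (nrm_nonneg w).eq_or_lt with h0 | h0
    · rw [← h0]; positivity
    · exact le_of_mul_le_mul_right h5 h0
  rw [← smul_sub, ← hv, nrm_smul, abs_of_nonneg (by positivity), inv_mul_le_iff₀ (by positivity), e]
  rw [Real.sqrt_mul hm.le] at b2
  linarith [nrm_add_le (fun i => if i ∈ T then 0 else v i) fun i => if i ∈ T then v i else 0]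

/-- **(RIP)** local letters of the spins and of any field close to the cavity field, all levels;
`T = id` or `T = offd` -/
theorem ripT {T : ∀ n, Mx n → Mx n} (hT : Adm T) (k N : ℕ) {ε t0 : ℝ} (hε : 0 < ε) (ht0 : 0 < t0) :
    ∃ δ > (0 : ℝ), ∀ β ∈ Ioc (0 : ℝ) 1, ∀ s, s = 0 ∨ t0 ≤ s → ∀ a : Fin N → ℝ → ℝ → ℝ,
      (∀ j t, UniformContinuous (a j t)) → (∀ j t x, |a j t x| ≤ 1) → ∃ r > (0 : ℝ), ∃ κ > (0 : ℝ),
      TypS β s κ fun n W y σ => opn (β • T n W) ≤ 4 ∧ ∀ ξ, nrm (ξ - fld β (T n W) y) ≤ r * √n →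
        RIP (β / √n) (β • T n W) (range (loc a σ ξ)) (Fs (loc a σ ξ)) k (δ * n) ε := by
  set P : ℝ := (1 + 4) ^ (k + 1) with hP
  set e : ℝ := ε / (1 + (11 * k + 3) * P + (k + 1) * P * (1 + 4) ^ k) with he
  have e0 : 0 < e := by positivity
  obtain ⟨δ1, δ10, h1⟩ := rip_tap k N e0 ht0
  obtain ⟨δ2, δ20, κ2, κ20, h2⟩ := rip_pl k N e0
  set δ := min (min δ1 δ2) (min e (e ^ 2)) with hδ
  have δ0 : 0 < δ := by positivity
  have d1 : δ ≤ δ1 := (min_le_left _ _).trans (min_le_left _ _)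
  have d2 : δ ≤ δ2 := (min_le_left _ _).trans (min_le_right _ _)
  have d3 : δ ≤ e := (min_le_right _ _).trans (min_le_left _ _)
  have d4 : √δ ≤ e := Real.sqrt_le_iff.2 ⟨e0.le, (min_le_right _ _).trans (min_le_right _ _)⟩
  refine ⟨δ, δ0, fun β hβ s hs a ha hb => ?_⟩
  obtain ⟨r, r0, hr⟩ := near_loc ha hb e0 δ0
  have hL : Lt N fun n σ j p => loc a σ p.1 j := fun n σ j =>
    ⟨continuous_pi fun i => (ha j _).continuous.comp (by fun_prop), fun p i => hb _ _ _⟩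
  have key : ∀ n : ℕ, 0 < n → ∀ (W : Mx n) (σ : Cube n) (x ξ : V n) (δ' : ℝ), δ ≤ δ' →
      Nd (min e 1) W (T n W) ∧ opn W ≤ 3 → nrm (ξ - x) ≤ r * √n →
      RIP (β / √n) (β • W) (range (loc a σ x)) (Fs (loc a σ x)) k (δ' * n) e →
      opn (β • T n W) ≤ 4 ∧ RIP (β / √n) (β • T n W) (range (loc a σ ξ)) (Fs (loc a σ ξ)) k (δ * n) ε := by
    rintro n hn W σ x ξ δ' hδ' ⟨⟨d, e1, -, e2⟩, hW⟩ hξ h
    have n0 : (0 : ℝ) < n := by positivity
    have bA : ∀ x : V n, BdS (range (loc a σ x)) := fun x => by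
      rintro _ ⟨j, rfl⟩ i; exact hb _ _ _
    have nF : ∀ f ∈ Fs (loc a σ ξ), nrm f ≤ 1 := by
      rintro _ ⟨j, rfl⟩; exact nrm_flat fun i => hb _ _ _
    have sm : ∀ {M : Mx n} {c : ℝ}, opn M ≤ c → opn (β • M) ≤ c := fun h => by
      rw [opn_smul, abs_of_pos hβ.1]; exact (mul_le_of_le_one_left (opn_nonneg _) hβ.2).trans h
    have o1 : opn (T n W - W) ≤ min e 1 := by
      rw [opn_sub_comm, sub_eq_iff_eq_add'.2 e1]
      exact opn_diagonal_le (by positivity) e2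
    have o2 : opn (T n W) ≤ 4 := by
      have := opn_add_le (T n W - W) W
      rw [sub_add_cancel] at this
      linarith [min_le_right e 1]
    have h3 := ((h.mono subset_rfl subset_rfl le_rfl (mul_le_mul_of_nonneg_right hδ' n0.le)
      le_rfl).near (R := 4) (δ := 3 * e) (F' := Fs (loc a σ ξ)) (sq_card hβ hn) (sm (by linarith))
      (bA x) (bA ξ) e0.le (by positivity) ?_ ?_ ?_).small (R := 4) (J' := β • T n W) (δ := e)
      (sq_card hβ hn) (sm (by linarith)) (sm o2) (bA ξ) nF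
      (by rw [← smul_sub]; exact sm (o1.trans (min_le_left _ _)))
    · refine ⟨sm o2, h3.mono subset_rfl subset_rfl le_rfl le_rfl (le_of_eq ?_)⟩
      rw [← hP, ← div_mul_cancel₀ ε (show 1 + (11 * k + 3) * P + (k + 1) * P * (1 + 4) ^ k ≠ 0 by
        positivity), ← he]
      ring
    · have := sq_card hβ hn
      rw [Fintype.card_fin] at this
      nlinarith [mul_le_mul_of_nonneg_left this δ0.le]
    · rintro _ ⟨j, rfl⟩
      obtain ⟨U, u1, u2⟩ := (hr n hn σ x ξ hξ j).1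
      exact ⟨_, ⟨j, rfl⟩, U, u1, fun i hi => (u2 i hi).trans (by linarith)⟩
    · rintro _ ⟨j, rfl⟩
      exact ⟨nF _ ⟨j, rfl⟩, _, ⟨j, rfl⟩, (hr n hn σ x ξ hξ j).2.trans (by linarith)⟩
  have hW := (hT (min e 1) (by positivity)).and TapPl.whp_opn
  have fin : ∀ {κ : ℝ} {δ' : ℝ} {R : ∀ n, Mx n → V n → V n → Prop}, 0 < κ → δ ≤ δ' →
      (Typ β s fun n W y => ∃ x, R n W y x ∧ nrm (fld β (T n W) y - x) ≤ r / 2 * √n) →
      (TypS β s κ fun n W y σ => ∀ x, R n W y x → RIP (β / √n) (β • W) (range (loc a σ x))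
        (Fs (loc a σ x)) k (δ' * n) e) → ∃ r > (0 : ℝ), ∃ κ > (0 : ℝ),
      TypS β s κ fun n W y σ => opn (β • T n W) ≤ 4 ∧ ∀ ξ, nrm (ξ - fld β (T n W) y) ≤ r * √n →
        RIP (β / √n) (β • T n W) (range (loc a σ ξ)) (Fs (loc a σ ξ)) k (δ * n) ε := by
    intro κ δ' R κ0 hd t1 t2
    refine ⟨r / 2, by positivity, t2.mono_typ κ0 (t1.mono' hW (Q := fun n W y =>
      (Nd (min e 1) W (T n W) ∧ opn W ≤ 3) ∧ ∃ x, R n W y x ∧
        nrm (fld β (T n W) y - x) ≤ r / 2 * √n) (.of_forall fun n W y a b => ⟨a, b⟩)) ?_⟩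
    filter_upwards [eventually_gt_atTop 0] with n hn W y σ ⟨g1, x, g2, g3⟩ g4
    refine ⟨(key n hn W σ x x δ' hd g1 (by rw [sub_self, nrm_zero]; positivity) (g4 x g2)).1,
      fun ξ hξ => (key n hn W σ x ξ δ' hd g1 ?_ (g4 x g2)).2⟩
    have := nrm_add_le (ξ - fld β (T n W) y) (fld β (T n W) y - x)
    rw [sub_add_sub_cancel] at this
    linarith
  rcases hs with rfl | hs
  · refine fin (R := fun _ _ _ x => x = 0) κ20 d2 (typ_zero (Top.whp_of_eventually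
      (.of_forall fun n W => ⟨0, rfl, ?_⟩))) ((h2 β hβ 0 le_rfl _ _ hL hL).mono' Top.whp_true
        (.of_forall fun n W y σ _ h x hx => hx ▸ h))
    simp only [fld, TopL.mag_ising_zero, Lp.cav, mulVec_zero, smul_zero, add_zero, sub_zero,
      nrm_zero]
    positivity
  · obtain ⟨κ, κ0, h⟩ := h1 β hβ s hs
    obtain ⟨M, M0, hM⟩ := accT hT hβ (ht0.trans_le hs)
    have h3 := h _ _ hL hL
    beta_reduce at h3
    refine fin (R := fun _ W y x => Ymap (β • W) (β ^ 2) x = y) κ0 d1 (hM.mono ?_) h3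
    filter_upwards [ev_sq (M := M ^ 2) (half_pos r0)] with n hn W y ⟨⟨x, hx⟩, g⟩
    exact ⟨x, hx, (g x hx).2.trans (abs_le_of_sq_le_sq' hn.2
      (mul_nonneg (half_pos r0).le (Real.sqrt_nonneg _))).2⟩

/-- **(RIP)** letters of the field only -/
theorem ripF {T : ∀ n, Mx n → Mx n} (hT : Adm T) (k N : ℕ) {ε t0 : ℝ} (hε : 0 < ε) (ht0 : 0 < t0) :
    ∃ δ > (0 : ℝ), ∀ β ∈ Ioc (0 : ℝ) 1, ∀ s, s = 0 ∨ t0 ≤ s → ∀ a : Fin N → ℝ → ℝ,
      (∀ j, UniformContinuous (a j)) → (∀ j x, |a j x| ≤ 1) → ∃ r > (0 : ℝ),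
      Typ β s fun n W y => opn (β • T n W) ≤ 4 ∧ ∀ ξ : V n, nrm (ξ - fld β (T n W) y) ≤ r * √n →
        RIP (β / √n) (β • T n W) (range fun j i => a j (ξ i)) (Fs fun j i => a j (ξ i))
          k (δ * n) ε := by
  obtain ⟨δ, δ0, h⟩ := ripT hT k N hε ht0
  refine ⟨δ, δ0, fun β hβ s hs a ha hb => ?_⟩
  obtain ⟨r, r0, κ, κ0, h⟩ := h β hβ s hs (fun j _ => a j) (fun j _ => ha j) fun j _ => hb j
  exact ⟨r, r0, TypS.typ κ0 h⟩

end Crest.Agent.T157.Rip

end
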