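import Crest.Agent.T157.RipE_25
import Crest.Agent.T157.TyF_23
import Crest.Agent.T157.Cav_35

/-!
# Row 157, part B (helper25): restricted isometry and cavity vectors at typical instances
-/

set_option autoImplicit false
set_option linter.unusedVariables false

noncomputable section

namespace Crest.Agent.T157.Rip

open MeasureTheory ProbabilityTheory Matrix Filter Set Topology
open Crest.ProbabilityR.SpinGlassDynamics
open Crest.Agent.T157.E Crest.Agent.T157.Eig Crest.Agent.T157.Cond Crest.Agent.T157.Tap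
open Crest.Agent.T157.SL Crest.Agent.T157.Pos Crest.Agent.T157.Uw

variable {n N : ℕ} {T : ∀ n, Mx n → Mx n} {β s : ℝ}

/-- tightness of the cavity field -/
theorem tightF (hT : Adm T) (hβ : β ∈ Ioc (0 : ℝ) 1) (hs : 0 ≤ s) {δ : ℝ} (hδ : 0 < δ) :
    ∃ M > (0 : ℝ), Typ β s fun n W y =>
      ((Finset.univ.filter fun i => M < |fld β (T n W) y i|).card : ℝ) ≤ δ * n := by
  obtain ⟨q, hq⟩ := exists_lv β hs
  have hc : ∀ M : ℝ, Continuous fun x : ℝ => min 1 (|x| / M) := fun M => by fun_prop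
  have hb : ∀ M : ℕ, ∀ x : ℝ, |min 1 (|x| / M)| ≤ 1 := fun M x => by
    rw [abs_of_nonneg (le_min zero_le_one (by positivity))]; exact min_le_left _ _
  have h : Tendsto (fun M : ℕ => gE (fun x => min 1 (|x| / M)) (s + β ^ 2 * q) (s + β ^ 2 * q))
      atTop (𝓝 (∫ _z, (0 : ℝ) ∂gaussianReal 0 1)) := by
    refine tendsto_integral_of_dominated_convergence (fun _ => 1) (fun M => ?_) (integrable_const _)
      (fun M => ae_of_all _ fun z => hb M _) (ae_of_all _ fun z => ?_)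
    · exact Continuous.aestronglyMeasurable (by fun_prop)
    · simpa using (tendsto_const_nhds (x := (1 : ℝ))).min (tendsto_const_div_atTop_nhds_zero_nat _)
  rw [integral_zero] at h
  obtain ⟨M, h1, h2⟩ := ((h.eventually (ge_mem_nhds (half_pos hδ))).and (eventually_gt_atTop 0)).exists
  have M0 : (0 : ℝ) < M := Nat.cast_pos.2 h2
  refine ⟨M, M0, (empF hT hβ hq (hc M) (fun x => by rw [abs_neg]) (hb M) (half_pos hδ)).mono ?_⟩
  filter_upwards [eventually_gt_atTop 0] with n hn W y h3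
  have h4 : avg (fun i => min 1 (|fld β (T n W) y i| / M)) ≤ δ := by linarith [(abs_le.1 h3).2]
  rw [avg, div_le_iff₀ (by positivity)] at h4
  refine le_trans ?_ h4
  rw [Finset.card_eq_sum_ones, Nat.cast_sum, Finset.sum_filter]
  refine Finset.sum_le_sum fun i _ => ?_
  split_ifs with hi
  · exact le_min (by simp) (by simpa using (one_le_div M0).2 hi.le)
  · exact le_min zero_le_one (by positivity)

lemma nrm_supp {v : V n} {S : Finset (Fin n)} {m c : ℝ} (hc : 0 ≤ c) (hS : (S.card : ℝ) ≤ m)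
    (h0 : ∀ i ∉ S, v i = 0) (h : ∀ i, |v i| ≤ c) : nrm v ≤ c * √m := by
  have h5 := fl_of_sup (m := m) (x := v) hc h v ⟨S, hS, h0⟩
  rw [← nrm_mul_self, abs_of_nonneg (mul_self_nonneg _)] at h5
  rcases (nrm_nonneg v).eq_or_lt with h1 | h1
  · rw [← h1]; positivity
  · exact le_of_mul_le_mul_right h5 h1

/-- **(RIP)** bounded continuous letters of the cavity field -/
theorem ripC (hT : Adm T) (k N : ℕ) {ε t0 : ℝ} (hε : 0 < ε) (ht0 : 0 < t0) :
    ∃ δ > (0 : ℝ), ∀ β ∈ Ioc (0 : ℝ) 1, ∀ s, s = 0 ∨ t0 ≤ s → ∀ a : Fin N → ℝ → ℝ,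
      (∀ j, Continuous (a j)) → (∀ j x, |a j x| ≤ 1) → Typ β s fun n W y => opn (β • T n W) ≤ 4 ∧
        RIP (β / √n) (β • T n W) (range fun j i => a j (fld β (T n W) y i))
          (Fs fun j i => a j (fld β (T n W) y i)) k (δ * n) ε := by
  set e : ℝ := ε / (1 + (5 * k + 1) * (1 + 4) ^ (k + 1)) with he
  have e0 : 0 < e := by positivity
  obtain ⟨δ1, δ10, h⟩ := ripF hT k N e0 ht0
  set δ := min δ1 (min e ((e / 2) ^ 2)) with hδ
  have δ0 : 0 < δ := by positivity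
  have d3 : δ ≤ e := (min_le_right _ _).trans (min_le_left _ _)
  have d4 : √δ ≤ e / 2 := Real.sqrt_le_iff.2 ⟨by positivity, (min_le_right _ _).trans (min_le_right _ _)⟩
  refine ⟨δ, δ0, fun β hβ s hs a ha hb => ?_⟩
  obtain ⟨M, M0, hM⟩ := tightF hT hβ (hs.elim (fun h => h.ge) ht0.le.trans) δ0
  have mM : -M ≤ M := by linarith
  obtain ⟨r, r0, h⟩ := h β hβ s hs (fun j x => a j (projIcc (-M) M mM x)) (fun j =>
    (CompactSpace.uniformContinuous_of_continuous ((ha j).comp continuous_subtype_val)).comp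
      (LipschitzWith.projIcc mM).uniformContinuous) fun j x => hb _ _
  refine (h.and hM).mono ?_
  filter_upwards [eventually_gt_atTop 0] with n hn W y ⟨⟨h1, h2⟩, h3⟩
  have n0 : (0 : ℝ) < n := by positivity
  have h4 := (h2 _ (by rw [sub_self, nrm_zero]; positivity)).mono subset_rfl subset_rfl le_rfl
    (mul_le_mul_of_nonneg_right (show δ ≤ δ1 from min_le_left _ _) n0.le) le_rfl
  have h5 : ∀ j, ∀ i ∉ Finset.univ.filter fun i => M < |fld β (T n W) y i|,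
      a j (fld β (T n W) y i) - a j (projIcc (-M) M mM (fld β (T n W) y i)) = 0 := fun j i hi => by
    rw [projIcc_of_mem mM (abs_le.1 (by simpa using hi)), sub_self]
  refine ⟨h1, (h4.near (sq_card hβ hn) h1 (by rintro _ ⟨j, rfl⟩ i; exact hb _ _)
    (by rintro _ ⟨j, rfl⟩ i; exact hb _ _) e0.le e0.le ?_ ?_ ?_).mono subset_rfl subset_rfl le_rfl
      le_rfl (le_of_eq ?_)⟩
  · rw [div_pow, Real.sq_sqrt n0.le, mul_comm δ, ← mul_assoc, div_mul_cancel₀ _ n0.ne']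
    exact (mul_le_of_le_one_left δ0.le (pow_le_one₀ hβ.1.le hβ.2)).trans d3
  · rintro _ ⟨j, rfl⟩
    exact ⟨_, ⟨j, rfl⟩, _, h3, fun i hi => by rw [h5 j i hi, abs_zero]; exact e0.le⟩
  · rintro _ ⟨j, rfl⟩
    refine ⟨nrm_flat fun i => hb _ _, _, ⟨j, rfl⟩, ?_⟩
    rw [← smul_sub, nrm_smul, abs_of_nonneg (by positivity), inv_mul_le_iff₀ (by positivity)]
    refine (nrm_supp zero_le_two h3 (h5 j) fun i => (abs_sub _ _).trans
      (by linarith [hb j (fld β (T n W) y i), hb j (projIcc (-M) M mM (fld β (T n W) y i))])).trans ?_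
    rw [Real.sqrt_mul δ0.le]
    nlinarith [Real.sqrt_nonneg (n : ℝ)]
  · rw [he]; field_simp; ring

/-- **(RIP)** in the filter of typical instances -/
theorem TF.rip (hβ : β ∈ Ioc (0 : ℝ) 1) (hs : 0 ≤ s) {ι : Type*} [Fintype ι] (k : ℕ) {ε : ℝ}
    (hε : 0 < ε) : ∃ δ > (0 : ℝ), ∀ a : ι → ℝ → ℝ, (∀ j, Continuous (a j)) → (∀ j x, |a j x| ≤ 1) →
      ∀ᶠ i in TF β s, RIP (β / √i.n) (i.J β) (range fun j k => a j (i.b β k))
        (Fs fun j k => a j (i.b β k)) k (δ * i.n) ε := by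
  obtain ⟨t0, t1, t2⟩ : ∃ t0 > (0 : ℝ), s = 0 ∨ t0 ≤ s :=
    hs.eq_or_lt.elim (fun h => ⟨1, one_pos, .inl h.symm⟩) fun h => ⟨s, h, .inr le_rfl⟩
  obtain ⟨δ, δ0, h⟩ := ripC adm_offd k (Fintype.card ι) hε t1
  refine ⟨δ, δ0, fun a ha hb => ?_⟩
  set e := Fintype.equivFin ι
  refine ((h β hβ s t2 (fun j => a (e.symm j)) (fun j => ha _) fun j => hb _).evJ
    (P := fun n J y => opn (β • J) ≤ 4 ∧ RIP (β / √n) (β • J) (range fun j i => a (e.symm j) (fld β J y i))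
      (Fs fun j i => a (e.symm j) (fld β J y i)) k (δ * n) ε)).mono fun i hi => hi.2.mono ?_ ?_
        le_rfl le_rfl le_rfl
  · rintro _ ⟨j, rfl⟩; exact ⟨e j, by simp [In.b]⟩
  · rintro _ ⟨j, rfl⟩; exact ⟨e j, by simp [In.b]⟩

lemma eta_avg (hn : 0 < n) (β : ℝ) (g : V n) : eta (β / √n) g = β ^ 2 * avg g := by
  rw [eta, avg, div_pow, Real.sq_sqrt (Nat.cast_nonneg n)]; ring

/-- **cavity vectors at typical instances** -/
theorem TF.cav (hβ : β ∈ Ioc (0 : ℝ) 1) {q0 : ℝ} (hL : Lv β s q0) {M ρ C2 e ε : ℝ} (hM : 1 ≤ M)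
    (hρ0 : 0 ≤ ρ) (hρ1 : ρ < 1) (hC2 : 1 ≤ C2) (he : 0 < e) (hε : 0 < ε) (κ : Type) [Fintype κ] :
    ∃ δ > (0 : ℝ), ∀ (g q : ℝ → ℝ) (d : κ → ℝ → ℝ), Continuous g → (∀ x, g (-x) = g x) →
      Continuous q → (∀ l, Continuous (d l)) → (∀ l x, |d l x| ≤ 1) →
      (∀ x, 0 < g x ∧ g x ≤ M ∧ β * g x ≤ ρ ∧ g x ≤ C2 * q x) → ∀ᶠ i in TF β s,
      |eta (β / √i.n) (fun k => g (i.b β k)) - β ^ 2 * gE g (s + β ^ 2 * q0) (s + β ^ 2 * q0)| ≤ ε ∧
      ∀ p α : V i.n, (∀ k, 0 ≤ p k ∧ p k ≤ C2 * q (i.b β k) ∧ p k ≤ C2 * g (i.b β k)) →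
        (∀ k, |α k - q (i.b β k) * (1 / g (i.b β k) + eta (β / √i.n) fun k => g (i.b β k))| ≤ e) →
        ∃ Wm, Cav (i.J β) p (fun k => q (i.b β k)) α (eta (β / √i.n) fun k => g (i.b β k))
          (2 * C2 / (1 - ρ)) (2 * C2 ^ 2 / (1 - ρ) ^ 2) ((2 * C2 / (1 - ρ) + 1) * e) ε (δ * i.n)
          (Fs fun l k => d l (i.b β k)) Wm := by
  obtain ⟨k, ε0, e0, h⟩ := Rip.cav hM hρ0 hρ1 hC2 he hε
  have M2 : M ≤ M ^ 2 := le_self_pow₀ hM two_ne_zero
  have m1 : M ^ 2 ≤ M ^ 2 * C2 := le_mul_of_one_le_right (sq_nonneg _) hC2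
  have m2 : C2 ≤ M ^ 2 * C2 := le_mul_of_one_le_left (by linarith) (hM.trans M2)
  have M0 : 0 < M := by linarith
  have C0 : 0 < C2 := by linarith
  obtain ⟨δ, δ0, hr⟩ := TF.rip hβ hL.1 (ι := Fin 3 ⊕ κ) k
    (ε := ε0 / (M ^ 2 * C2) ^ (k + 1)) (by positivity)
  refine ⟨δ, δ0, fun g q d cg eg cq cd bd hg => ?_⟩
  have q0 : ∀ x, 0 < q x := fun x => (mul_pos_iff_of_pos_left C0).1 ((hg x).1.trans_le (hg x).2.2.2)
  have b1 : ∀ x, |g x / M| ≤ 1 := fun x => by
    rw [abs_of_pos (div_pos (hg x).1 M0)]; exact (div_le_one M0).2 (hg x).2.1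
  have h1 := hr (Sum.elim ![fun x => g x / M, fun x => g x / M * (g x / M), fun _ => 1]
    fun l x => g x / q x / C2 * d l x) (by
      rintro (j | l)
      · fin_cases j <;> simp <;> fun_prop
      · exact ((cg.div cq fun x => (q0 x).ne').div_const _).mul (cd l)) (by
      rintro (j | l) x
      · fin_cases j
        exacts [b1 x, (abs_mul _ _).trans_le (mul_le_one₀ (b1 x) (abs_nonneg _) (b1 x)), abs_one.le]
      · refine (abs_mul _ _).trans_le (mul_le_one₀ ?_ (abs_nonneg _) (bd l x))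
        rw [abs_of_pos (div_pos (div_pos (hg x).1 (q0 x)) C0), div_le_one C0, div_le_iff₀ (q0 x)]
        exact (hg x).2.2.2)
  have h2 := ((TF.emp hβ hL cg eg (K := M) fun x => by
    rw [abs_of_pos (hg x).1]; exact (hg x).2.1).const_mul (β ^ 2)).eventually
      (Metric.closedBall_mem_nhds _ hε)
  filter_upwards [h1, h2, TF.lim.eventually (eventually_gt_atTop 0)] with i h1 h2 hn
  refine ⟨by rw [eta_avg hn]; exact h2, fun p α hp hα => ?_⟩
  have h3 := h1.scale (by positivity) (hC2.trans m2)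
  rw [mul_div_cancel₀ _ (by positivity)] at h3
  obtain ⟨Wm, hW⟩ := h _ _ _ _ _ _ (fun k => g (i.b β k)) p (fun k => q (i.b β k)) α h3
    i.symm (sq_card hβ hn)
    ⟨M, by rw [abs_of_pos M0]; linarith, _, ⟨.inl 0, rfl⟩, funext fun k => by simp; field_simp⟩
    ⟨M ^ 2, by rw [abs_of_nonneg (sq_nonneg _)]; exact m1, _, ⟨.inl 1, rfl⟩,
      funext fun k => by simp; field_simp⟩
    ⟨1, by rw [abs_one]; linarith, _, ⟨.inl 2, rfl⟩, funext fun k => by simp⟩
    (fun k => (hg _).1) (fun k => (hg _).2.1) (fun k => q0 _) (fun k => (hp k).1)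
    (fun k => (hg _).2.2.2) (fun k => (hp k).2.1) (fun k => (hp k).2.2) (by
      rw [eta_avg hn, avg, ← mul_div_assoc, div_le_iff₀ (by positivity), Finset.mul_sum]
      refine (Finset.sum_le_card_nsmul _ _ (ρ ^ 2) fun k _ => ?_).trans (by simp [mul_comm])
      have := pow_le_pow_left₀ (mul_pos hβ.1 (hg (i.b β k)).1).le (hg (i.b β k)).2.2.1 2
      rw [Pi.mul_apply]; linarith) hα
  refine ⟨Wm, { hW with ty := fun c hc f hf => hW.ty c hc f ?_ }⟩
  obtain ⟨l, rfl⟩ := hf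
  refine ⟨C2, by rw [abs_of_pos C0]; exact m2, _, ⟨.inr l, rfl⟩, funext fun k => ?_⟩
  simp
  field_simp

/-- gauge covariance of the cavity vectors -/
theorem Cav.conj {ι : Type*} [Fintype ι] [DecidableEq ι] {J Wm : Matrix ι ι ℝ} {p q α σ : ι → ℝ}
    {x C C0 e ε m : ℝ} {Ft : Set (ι → ℝ)} (h : Cav J p q α x C C0 e ε m Ft Wm)
    (hσ : ∀ i, σ i * σ i = 1) : Cav (diagonal σ * J * diagonal σ) p q α x C C0 e ε m
      {f | σ * f ∈ Ft} (diagonal σ * Wm * diagonal σ) := by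
  have e1 : ∀ (A : Matrix ι ι ℝ) c, (diagonal σ * A * diagonal σ) *ᵥ c = σ * A *ᵥ (σ * c) :=
    fun A c => by
      rw [← mulVec_mulVec, ← mulVec_mulVec,
        show diagonal σ *ᵥ c = σ * c from funext fun i => by simp [mulVec_diagonal]]
      exact funext fun i => by simp [mulVec_diagonal]
  have e2 : ∀ u v : ι → ℝ, σ * (u * (σ * v)) = u * v := fun u v => funext fun i => by
    simp only [Pi.mul_apply]; linear_combination (u i * v i) * hσ i
  have e3 : ∀ v : ι → ℝ, σ * (σ * v) = v := fun v => by simpa using e2 1 v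
  have e4 : ∀ u v : ι → ℝ, (σ * v) ⬝ᵥ (u * (σ * v)) = v ⬝ᵥ (u * v) := fun u v =>
    Finset.sum_congr rfl fun i _ => by
      simp only [Pi.mul_apply]; linear_combination (u i * v i * v i) * hσ i
  have e5 : ∀ v : ι → ℝ, (σ * v) ⬝ᵥ (σ * v) = v ⬝ᵥ v := fun v => by simpa using e4 1 v
  refine ⟨fun c hc => ?_, fun c hc => ?_, fun c hc => ?_, fun c hc => ?_, fun c hc => ?_,
    fun c hc f hf => ?_, fun c hc => ?_, fun c hc => ?_⟩ <;>
    simp only [e1, e2, e4, nrm_sign hσ] <;> have hc' := hc.mul_left σ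
  · exact nrm_sign hσ c ▸ h.nr _ hc'
  · exact e5 c ▸ h.en _ hc'
  · exact nrm_sign hσ c ▸ (h.fl _ hc').sign hσ
  · have := (h.fj _ hc').sign hσ
    rwa [nrm_sign hσ, mul_sub, mul_smul_comm, e3] at this
  · have := h.eq _ hc'
    rw [← nrm_sign hσ, nrm_sign hσ c] at this
    simpa only [mul_sub, mul_smul_comm, e3, mul_left_comm σ α] using this
  · have := h.ty _ hc' _ hf
    rw [nrm_sign hσ] at this
    refine le_trans (le_of_eq ?_) this
    congr 1
    exact Finset.sum_congr rfl fun i _ => by simp only [Pi.mul_apply]; ring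
  · exact nrm_sign hσ c ▸ (h.jj _ hc').sign hσ
  · exact e5 c ▸ h.je _ hc'

end Crest.Agent.T157.Rip

end
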