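import Crest.Agent.T157.TwDef_30
import Crest.Agent.T157.PlD_37
import Crest.Agent.T157.Top_97

/-!
# Row 157, block B/S4 (helper60): realisation of towers in SK by self-avoiding networks

See `docs/T157_B_R.md`.  Planted gauge: the planted configuration is `Pl.one`.
-/

set_option autoImplicit false

noncomputable section

namespace Crest.Agent.T157.Rn

open MeasureTheory ProbabilityTheory Real Matrix Filter Topology
open Crest.ProbabilityR.SpinGlassDynamics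
open Crest.Agent.R238.Gap Crest.Agent.R238.GapPc Crest.Agent.R253.Meh74
open Crest.Agent.T157.E (Cube gv mean gen dir2)
open Crest.Agent.T157.Tw
open Crest.Agent.T157.Pl (one cmul)
open scoped NNReal ENNReal

/-! ### orders of magnitude -/

section order
variable {Ω : ℕ → Type} [∀ n, MeasurableSpace (Ω n)] {T : ℕ → Type}

/-- `X = O(a)` in every `L^q`, uniformly over the indices satisfying `A` -/
def Ob (P : ∀ n, Measure (Ω n)) (a : ℕ → ℝ) (A : ∀ n, T n → Prop) (X : ∀ n, T n → Ω n → ℝ) : Prop :=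
  (∀ n t, Measurable (X n t)) ∧ ∀ q : ℕ, ∃ C : ℝ≥0, ∀ᶠ n in atTop, ∀ t, A n t →
    eLpNorm (X n t) q (P n) ≤ C * ‖a n‖ₑ

/-- `X = o(1)` in every `L^q`, uniformly -/
def Oo (P : ∀ n, Measure (Ω n)) (A : ∀ n, T n → Prop) (X : ∀ n, T n → Ω n → ℝ) : Prop :=
  ∃ d : ℕ → ℝ, Tendsto d atTop (𝓝 0) ∧ Ob P d A X

/-- the rate `n ^ (p / 2)` -/
def rt (p : ℤ) (n : ℕ) : ℝ := √n ^ p

end order

/-! ### temperate functions, the generator of the impurity -/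

/-- `C^k`, all derivatives up to order `k` of polynomial growth -/
def Tm {m : ℕ} : ℕ → (E m → ℝ) → Prop
  | 0, f => Continuous f ∧ PG f
  | k + 1, f => C1 f ∧ ∀ i, Tm k (pd i f)

/-- smooth temperate -/
def Sm {m : ℕ} (f : E m → ℝ) : Prop := ∀ k, Tm k f

/-- minus the generator of the impurity: `Π F + ⟨A ∇F, X - s g⟩ - tr (A ∇²F)` -/
def AA (b : Bath) (ξ : ℝ) (F : Bool → E b.m → ℝ) (s : Bool) (X : E b.m) : ℝ :=
  F s X - ∑ t, hb (fld b ξ X) t * F t X +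
    ∑ a, ∑ a', b.A a a' * (pd a' (F s) X * (X a - sg s * b.g a) - pd a (pd a' (F s)) X)

/-- the gradient takes its values in `U` -/
def UF {m : ℕ} (U : Submodule ℝ (Fin m → ℝ)) (F : Bool → E m → ℝ) : Prop :=
  ∀ s X, (fun a => pd a (F s) X) ∈ U

/-- twice the carré du champ of the impurity, at `s = +1` -/
def gm (b : Bath) (F G : Bool → E b.m → ℝ) (X : E b.m) : ℝ :=
  hb (fld b 0 X) false * ((F true X - F false X) * (G true X - G false X)) +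
    2 * ∑ a, ∑ a', b.A a a' * (pd a (F true) X * pd a' (G true) X)

/-! ### the planted environment -/

variable {n m : ℕ}

/-- couplings (off the diagonal) and site fields (on the diagonal) -/
abbrev Env (n : ℕ) : Type := Sym2 (Fin n) → ℝ
/-- planted means -/
def mn (β ρ : ℝ) (n : ℕ) (e : Sym2 (Fin n)) : ℝ := if e.IsDiag then ρ else β / √n
/-- the planted law; `ρ² =` level (time of the stochastic localisation) -/
def PP (β ρ : ℝ) (n : ℕ) : Measure (Env n) := Measure.pi fun e => gaussianReal (mn β ρ n e) 1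
/-- the law of row `i` -/
def PR (β ρ : ℝ) (i : Fin n) : Measure (Fin n → ℝ) :=
  Measure.pi fun l => gaussianReal (mn β ρ n s(i, l)) 1

instance (β ρ : ℝ) (n : ℕ) : IsProbabilityMeasure (PP β ρ n) := by rw [PP]; infer_instance
instance (β ρ : ℝ) (i : Fin n) : IsProbabilityMeasure (PR β ρ i) := by rw [PR]; infer_instance

/-- normalised coupling -/
def J (ω : Env n) (i l : Fin n) : ℝ := ω s(i, l) / √n
/-- replace row `i` -/
def rs (i : Fin n) (ω : Env n) (z : Fin n → ℝ) : Env n := Function.extend (fun l => s(i, l)) z ω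
/-- does not depend on row `i` -/
def RI {α : Type} (i : Fin n) (Y : Env n → α) : Prop :=
  ∀ ω ω', (∀ e, i ∉ e → ω e = ω' e) → Y ω = Y ω'
/-- average over row `i` -/
def Ei (β ρ : ℝ) (i : Fin n) (Y : Env n → ℝ) (ω : Env n) : ℝ := ∫ z, Y (rs i ω z) ∂PR β ρ i
/-- flip -/
def fl (σ : Cube n) (k : Fin n) : Cube n := Function.update σ k (!σ k)
/-- gauge transformation of the environment -/
def gz (z : Cube n) (ω : Env n) : Env n := fun e =>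
  Sym2.lift ⟨fun i l => if i = l then sg (z i) else sg (z i) * sg (z l), fun i l => by
    by_cases h : i = l
    · simp [h]
    · simp [h, Ne.symm h, mul_comm]⟩ e * ω e
/-- local field at `k` in the subsystem `I` -/
def hf (β ρ : ℝ) (I : Finset (Fin n)) (k : Fin n) (σ : Cube n) (ω : Env n) : ℝ :=
  ρ * ω s(k, k) + β * ∑ l ∈ I.erase k, J ω k l * sg (σ l)
/-- flip rate -/
def pk (β ρ : ℝ) (I : Finset (Fin n)) (k : Fin n) (σ : Cube n) (ω : Env n) : ℝ :=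
  hb (hf β ρ I k σ ω) (!σ k)
/-- minus the generator of the subsystem `I` -/
def nL (β ρ : ℝ) (I : Finset (Fin n)) (F : Cube n → ℝ) (σ : Cube n) (ω : Env n) : ℝ :=
  ∑ k ∈ I, pk β ρ I k σ ω * (F σ - F (fl σ k))
/-- twice the carré du champ of the subsystem `I` -/
def Gm (β ρ : ℝ) (I : Finset (Fin n)) (F G : Cube n → ℝ) (σ : Cube n) (ω : Env n) : ℝ :=
  ∑ k ∈ I, pk β ρ I k σ ω * ((F σ - F (fl σ k)) * (G σ - G (fl σ k)))

/-- indices: subsystem, configuration, three sites -/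
structure Ix (n : ℕ) where
  I : Finset (Fin n)
  σ : Cube n
  i : Fin n
  j : Fin n
  k : Fin n

/-- at most `N` sites are missing -/
def Big (N : ℕ) (I : Finset (Fin n)) : Prop := n ≤ I.card + N

/-- families of vertex variables -/
abbrev Fm (m : ℕ) : Type := ∀ n, Finset (Fin n) → Fin n → Cube n → Env n → E m

/-- the self-avoiding field `c y_i + ∑_{l ∈ I \ i} J_il u^{I \ i}_l` -/
def fieldOf (c : Fin m → ℝ) (u : Fm m) : Fm m := fun _ I i σ ω =>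
  WithLp.toLp 2 fun a => c a * ω s(i, i) + ∑ l ∈ I.erase i, J ω i l * u _ (I.erase i) l σ ω a
/-- the values `f (σ_l, X^I_l)` -/
def valOf {k : ℕ} (f : Fin k → CV m) (X : Fm m) : Fm k := fun _ I l σ ω =>
  WithLp.toLp 2 fun a => (f a).1 (σ l) (X _ I l σ ω)

/-- locality, gauge covariance, moments, stability under flips and deletions -/
structure Net (β ρ : ℝ) (u : Fm m) : Prop where
  meas : ∀ n I l σ, Measurable (u n I l σ)
  loc : ∀ n I l σ σ' ω ω', l ∈ I → (∀ k ∈ I, σ k = σ' k) →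
    (∀ a ∈ I, ∀ b ∈ I, a ≠ b ∨ ρ ≠ 0 → ω s(a, b) = ω' s(a, b)) → u n I l σ ω = u n I l σ' ω'
  gau : ∀ n I l σ z ω, u n I l (cmul z σ) (gz z ω) = sg (z l) • u n I l σ ω
  B : ∀ a, Ob (PP β ρ) (rt 0) (fun n (_ : Ix n) => True) fun n t ω => u n t.I t.i t.σ ω a
  F : ∀ a, Ob (PP β ρ) (rt (-1)) (fun n (t : Ix n) => t.k ≠ t.i) fun n t ω =>
    u n t.I t.i t.σ ω a - u n t.I t.i (fl t.σ t.k) ω a
  D : ∀ a, Ob (PP β ρ) (rt (-1)) (fun n (t : Ix n) => t.j ≠ t.i) fun n t ω =>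
    u n t.I t.i t.σ ω a - u n (t.I.erase t.j) t.i t.σ ω a
  FD : ∀ a, Ob (PP β ρ) (rt (-2)) (fun n (t : Ix n) => t.k ≠ t.i ∧ t.j ≠ t.i ∧ t.k ≠ t.j)
    fun n t ω => u n t.I t.i t.σ ω a - u n t.I t.i (fl t.σ t.k) ω a -
      (u n (t.I.erase t.j) t.i t.σ ω a - u n (t.I.erase t.j) t.i (fl t.σ t.k) ω a)

/-- values: orthonormal in the limit, the spin is in the span -/
structure V1 (β ρ : ℝ) (b : Bath) (c : Fin b.m → ℝ) (u : Fm b.m) : Prop where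
  net : Net β ρ u
  span : ∀ n I l σ ω, ∑ a, b.g a * u n I l σ ω a = β * sg (σ l)
  hc : b.g ⬝ᵥ c = ρ
  hc0 : ρ = 0 → c = 0
  gram : ∀ a a' N, Oo (PP β ρ) (fun n (t : Ix n) => Big N t.I) fun n t ω =>
    (∑ l ∈ t.I, u n t.I l (one n) ω a * u n t.I l (one n) ω a') / n + c a * c a' -
      if a = a' then 1 else 0
  mean : ∀ a N, Oo (PP β ρ) (fun n (t : Ix n) => Big N t.I) fun n t ω =>
    β * ((∑ l ∈ t.I, u n t.I l (one n) ω a) / n) + ρ * c a - b.g a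

/-- the law of large numbers -/
def Lln (β ρ : ℝ) (b : Bath) (X : Fm b.m) : Prop :=
  ∀ φ : E b.m → ℝ, Tm 1 φ → ∀ N, Oo (PP β ρ) (fun n (t : Ix n) => Big N t.I) fun n t ω =>
    (∑ l ∈ t.I, φ (X n t.I l (one n) ω)) / n - ∫ z, φ (z + b.v) ∂gam b.m

/-- fields -/
structure X0 (β ρ : ℝ) (b : Bath) (X : Fm b.m) : Prop where
  net : Net β ρ X
  ind : ∀ n I i σ ω, X n I i (fl σ i) ω = X n I i σ ω
  fld : ∀ n I i σ ω, fld b 0 (X n I i σ ω) = hf β ρ I i σ ω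

/-- values: energies -/
structure V2 (β ρ : ℝ) (b : Bath) (u : Fm b.m) : Prop where
  gl : ∀ a a' N, Oo (PP β ρ) (fun n (t : Ix n) => Big N t.I) fun n t ω =>
    (∑ l ∈ t.I, Gm β ρ t.I (fun σ => u n t.I l σ ω a) (fun σ => u n t.I l σ ω a') (one n) ω) / n -
      2 * b.A a a'
  go : ∀ a a' N, Oo (PP β ρ) (fun n (t : Ix n) => Big N t.I ∧ t.i ∈ t.I ∧ t.j ∈ t.I ∧ t.i ≠ t.j)
    fun n t ω => Gm β ρ t.I (fun σ => u n t.I t.i σ ω a) (fun σ => u n t.I t.j σ ω a') (one n) ω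
  dl : ∀ a N, Oo (PP β ρ) (fun n (t : Ix n) => Big N t.I) fun n t ω =>
    β * ((∑ l ∈ t.I, sech2 (hf β ρ t.I l (one n) ω) / 2 *
      (u n t.I l (one n) ω a - u n t.I l (fl (one n) l) ω a)) / n) - (b.A *ᵥ b.g) a

/-- fields: energies -/
structure X2 (β ρ : ℝ) (b : Bath) (X : Fm b.m) : Prop where
  gl : ∀ a a' N, Oo (PP β ρ) (fun n (t : Ix n) => Big N t.I ∧ t.i ∈ t.I) fun n t ω =>
    Gm β ρ t.I (fun σ => X n t.I t.i σ ω a) (fun σ => X n t.I t.i σ ω a') (one n) ω - 2 * b.A a a'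
  go : ∀ a a' N, Oo (PP β ρ) (fun n (t : Ix n) => Big N t.I ∧ t.i ∈ t.I ∧ t.j ∈ t.I ∧ t.i ≠ t.j)
    fun n t ω => Gm β ρ t.I (fun σ => X n t.I t.i σ ω a) (fun σ => X n t.I t.j σ ω a') (one n) ω

/-- values: the generator acts as `A` on `U` -/
def V3 (β ρ : ℝ) (b : Bath) (c : Fin b.m → ℝ) (U : Submodule ℝ (Fin b.m → ℝ)) (u : Fm b.m) : Prop :=
  ∀ v ∈ U, (b.A *ᵥ v) ⬝ᵥ c = 0 ∧ ∀ N,
    Oo (PP β ρ) (fun n (t : Ix n) => Big N t.I ∧ t.i ∈ t.I) fun n t ω =>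
      nL β ρ t.I (fun σ => ∑ a, v a * u n t.I t.i σ ω a) (one n) ω -
        ∑ a, (b.A *ᵥ v) a * u n t.I t.i (one n) ω a

/-- fields: the generator -/
def X3 (β ρ : ℝ) (b : Bath) (U : Submodule ℝ (Fin b.m → ℝ)) (X : Fm b.m) : Prop :=
  ∀ v ∈ U, ∀ N, Oo (PP β ρ) (fun n (t : Ix n) => Big N t.I ∧ t.i ∈ t.I) fun n t ω =>
    nL β ρ t.I (fun σ => ∑ a, v a * X n t.I t.i σ ω a) (one n) ω -
      ∑ a, (b.A *ᵥ v) a * (X n t.I t.i (one n) ω a - b.g a)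

/-- **(R3)** carré du champ of local functions -/
def Gam (β ρ : ℝ) (b : Bath) (X : Fm b.m) : Prop :=
  ∀ F G : Bool → E b.m → ℝ, (∀ s, Tm 2 (F s)) → (∀ s, Tm 2 (G s)) → ∀ N,
    (Oo (PP β ρ) (fun n (t : Ix n) => Big N t.I ∧ t.i ∈ t.I) fun n t ω =>
      Gm β ρ t.I (fun σ => F (σ t.i) (X n t.I t.i σ ω)) (fun σ => G (σ t.i) (X n t.I t.i σ ω))
        (one n) ω - gm b F G (X n t.I t.i (one n) ω)) ∧
    Oo (PP β ρ) (fun n (t : Ix n) => Big N t.I ∧ t.i ∈ t.I ∧ t.j ∈ t.I ∧ t.i ≠ t.j) fun n t ω =>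
      Gm β ρ t.I (fun σ => F (σ t.i) (X n t.I t.i σ ω)) (fun σ => G (σ t.j) (X n t.I t.j σ ω))
        (one n) ω

/-- **(R2)** generator of local functions -/
def Gen (β ρ : ℝ) (b : Bath) (U : Submodule ℝ (Fin b.m → ℝ)) (X : Fm b.m) : Prop :=
  ∀ F : Bool → E b.m → ℝ, (∀ s, Tm 3 (F s)) → UF U F → ∀ N,
    Oo (PP β ρ) (fun n (t : Ix n) => Big N t.I ∧ t.i ∈ t.I) fun n t ω =>
      nL β ρ t.I (fun σ => F (σ t.i) (X n t.I t.i σ ω)) (one n) ω -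
        AA b 0 F true (X n t.I t.i (one n) ω)

/-- the bath `b` is realised by `X`, the generator being exact on `U` -/
structure Rl (β ρ : ℝ) (b : Bath) (U : Submodule ℝ (Fin b.m → ℝ)) (X : Fm b.m) : Prop where
  x0 : X0 β ρ b X
  lln : Lln β ρ b X
  gam : Gam β ρ b X
  gen : Gen β ρ b U X

/-! ### extended towers -/

/-- first layer: the site field and the field of the spins -/
structure Base (β ρ : ℝ) (b : Bath) (c α : Fin b.m → ℝ) : Prop where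
  on : ∀ a a', c a * c a' + α a * α a' = if a = a' then 1 else 0
  g : ∀ a, ρ * c a + β * α a = b.g a
  sp : b.g ⬝ᵥ α = β
  hc : b.g ⬝ᵥ c = ρ
  hc0 : ρ = 0 → c = 0
  en : ∀ a a', b.A a a' = α a * α a' * (imp b 0).En (Tw.sp _) (Tw.sp _)

/-- a layer: field coordinate `a` is `c a * y_i + ∑ J_il f a (σ_l, X_l)` -/
structure Step (β ρ : ℝ) (b b' : Bath) (c : Fin b'.m → ℝ) (f : Fin b'.m → CV b.m) : Prop where
  sm : ∀ a s, Sm ((f a).1 s)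
  od : ∀ a, f a ∈ Od b.m
  on : ∀ a a', c a * c a' + (imp b 0).N (f a) (f a') = if a = a' then 1 else 0
  en : ∀ a a', (imp b 0).En (f a) (f a') = b'.A a a'
  g : ∀ a, ρ * c a + β * (imp b 0).N (Tw.sp _) (f a) = b'.g a
  sp : ∀ s X, ∑ a, b'.g a * (f a).1 s X = β * sg s
  hc : b'.g ⬝ᵥ c = ρ
  hc0 : ρ = 0 → c = 0

/-- `v` is an exact direction of the new layer -/
structure Exact (b b' : Bath) (U : Submodule ℝ (Fin b.m → ℝ)) (c : Fin b'.m → ℝ)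
    (f : Fin b'.m → CV b.m) (v : Fin b'.m → ℝ) : Prop where
  uf : UF U (∑ a, v a • f a).1
  hc : (b'.A *ᵥ v) ⬝ᵥ c = 0
  aa : ∀ s X, ∑ a, (b'.A *ᵥ v) a * (f a).1 s X = AA b 0 (∑ a, v a • f a).1 s X

/-- extended towers -/
inductive XT (β ρ : ℝ) : (b : Bath) → Submodule ℝ (Fin b.m → ℝ) → Prop
  | base {b : Bath} {c α : Fin b.m → ℝ} : Base β ρ b c α → XT β ρ b ⊥
  | step {b b' : Bath} {U : Submodule ℝ (Fin b.m → ℝ)} {U' : Submodule ℝ (Fin b'.m → ℝ)}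
      {c : Fin b'.m → ℝ} {f : Fin b'.m → CV b.m} : XT β ρ b U → Step β ρ b b' c f →
      (∀ v ∈ U', Exact b b' U c f v) → XT β ρ b' U'

/-- **(R)** in the planted gauge, any level -/
def RealStmt : Prop := ∀ β ρ b U, XT β ρ b U → ∃ X, Rl β ρ b U X

/-- **(R)** at level zero, under the law of the disorder -/
structure Out (β : ℝ) (b : Bath) (U : Submodule ℝ (Fin b.m → ℝ))
    (Y : ∀ n, (Pair n → ℝ) → Fin n → Cube n → E b.m) : Prop where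
  odd : ∀ n g i σ, Y n g i (fun k => !σ k) = -Y n g i σ
  N : ∀ F ∈ Od b.m, ∀ G ∈ Od b.m, (∀ s, Sm (F.1 s)) → (∀ s, Sm (G.1 s)) → ∀ ε > (0 : ℝ),
    Top.Whp disorderLaw fun n g => |(∑ i, mean (gibbsWeight n β g) fun σ =>
      F.1 (σ i) (Y n g i σ) * G.1 (σ i) (Y n g i σ)) / n - (imp b 0).N F G| ≤ ε
  En : ∀ F ∈ Od b.m, ∀ G ∈ Od b.m, (∀ s, Sm (F.1 s)) → (∀ s, Sm (G.1 s)) → ∀ ε > (0 : ℝ),
    Top.Whp disorderLaw fun n g => |(∑ i, dir2 (gibbsWeight n β g) (fun σ => F.1 (σ i) (Y n g i σ))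
      fun σ => G.1 (σ i) (Y n g i σ)) / n - (imp b 0).En F G| ≤ ε
  gen : ∀ F ∈ Od b.m, ∀ G ∈ Od b.m, (∀ s, Sm (F.1 s)) → UF U F.1 →
    (∀ s X, G.1 s X = AA b 0 F.1 s X) → ∀ ε > (0 : ℝ),
    Top.Whp disorderLaw fun n g => (∑ i, mean (gibbsWeight n β g) fun σ =>
      (gen (gibbsWeight n β g) (fun σ => F.1 (σ i) (Y n g i σ)) σ + G.1 (σ i) (Y n g i σ)) ^ 2) / n ≤ ε

def OutStmt : Prop := ∀ β, 0 ≤ β → β < 1 → ∀ b U, XT β 0 b U → ∃ Y, Out β b U Y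

/-- the rate is positive -/
def LamPos : Prop := ∀ 𝒞 : Cls, (∀ m, 𝒞.C m = PV m) → ∀ β, 0 ≤ β → β < 1 → 0 < lam 𝒞 β

/-! ### tools -/

/-- resampling a row; restriction to the couplings -/
def MpStmt : Prop := ∀ β ρ n,
  (∀ i : Fin n, MeasurePreserving (fun p : Env n × (Fin n → ℝ) => rs i p.1 p.2)
    ((PP β ρ n).prod (PR β ρ i)) (PP β ρ n)) ∧
  MeasurePreserving (fun (ω : Env n) (p : Pair n) => ω s(p.1.1, p.1.2)) (PP β ρ n) (Pl.pl false n β)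

/-- entries; linear forms in a row with coefficients independent of the row -/
def LinStmt : Prop := ∀ β ρ,
  (Ob (PP β ρ) (rt 0) (fun n (_ : Fin n × Fin n) => True) fun _ p ω => ω s(p.1, p.2)) ∧
  (Ob (PP β ρ) (rt (-1)) (fun n (_ : Fin n × Fin n) => True) fun _ p ω => J ω p.1 p.2) ∧
  ∀ (T : ℕ → Type) (A : ∀ n, T n → Prop) (a : ℕ → ℝ) (i : ∀ n, T n → Fin n)
    (S : ∀ n, T n → Finset (Fin n)) (w : ∀ n, T n → Fin n → Env n → ℝ),
    (∀ n t, A n t → i n t ∉ S n t ∧ ∀ l ∈ S n t, RI (i n t) (w n t l)) →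
    Ob (PP β ρ) a (fun n (p : T n × Fin n) => A n p.1 ∧ p.2 ∈ S n p.1) (fun n p => w n p.1 p.2) →
    Ob (PP β ρ) a A fun n t ω => ∑ l ∈ S n t, J ω (i n t) l * w n t l ω

/-- quadratic forms in a row -/
def QuadStmt : Prop := ∀ β ρ (T : ℕ → Type) (A : ∀ n, T n → Prop) (i : ∀ n, T n → Fin n)
    (S : ∀ n, T n → Finset (Fin n)) (M : ∀ n, T n → Fin n → Fin n → Env n → ℝ),
    (∀ n t, A n t → i n t ∉ S n t ∧ ∀ l ∈ S n t, ∀ k ∈ S n t, RI (i n t) (M n t l k)) →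
    Ob (PP β ρ) (rt 0) (fun n (p : T n × Fin n) => A n p.1 ∧ p.2 ∈ S n p.1)
      (fun n p => M n p.1 p.2 p.2) →
    Oo (PP β ρ) (fun n (p : T n × Fin n × Fin n) =>
      A n p.1 ∧ p.2.1 ∈ S n p.1 ∧ p.2.2 ∈ S n p.1 ∧ p.2.1 ≠ p.2.2) (fun n p => M n p.1 p.2.1 p.2.2) →
    Ob (PP β ρ) (rt 0) A (fun n t ω =>
      ∑ l ∈ S n t, ∑ k ∈ S n t, J ω (i n t) l * J ω (i n t) k * M n t l k ω) →
    Oo (PP β ρ) A fun n t ω => ∑ l ∈ S n t, ∑ k ∈ S n t, J ω (i n t) l * J ω (i n t) k * M n t l k ω -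
      (∑ l ∈ S n t, M n t l l ω) / n

/-- row averages; the cavity law of large numbers -/
def CavStmt : Prop := ∀ β ρ (T : ℕ → Type) (A : ∀ n, T n → Prop),
  (∀ (a : ℕ → ℝ) (i : ∀ n, T n → Fin n) (X : ∀ n, T n → Env n → ℝ), Ob (PP β ρ) a A X →
    Ob (PP β ρ) a A fun n t => Ei β ρ (i n t) (X n t)) ∧
  ∀ (S : ∀ n, T n → Finset (Fin n)) (X : ∀ n, T n → Fin n → Env n → ℝ)
    (X' : ∀ n, T n → Fin n → Fin n → Env n → ℝ),
    Ob (PP β ρ) (rt 0) (fun n (p : T n × Fin n) => A n p.1 ∧ p.2 ∈ S n p.1) (fun n p => X n p.1 p.2) →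
    (∀ n t, A n t → ∀ l ∈ S n t, ∀ k ∈ S n t, l ≠ k → RI k (X' n t l k)) →
    Oo (PP β ρ) (fun n (p : T n × Fin n × Fin n) =>
      A n p.1 ∧ p.2.1 ∈ S n p.1 ∧ p.2.2 ∈ S n p.1 ∧ p.2.1 ≠ p.2.2)
      (fun n p ω => X n p.1 p.2.1 ω - X' n p.1 p.2.1 p.2.2 ω) →
    Oo (PP β ρ) A fun n t ω => (∑ l ∈ S n t, (X n t l ω - Ei β ρ l (X n t l) ω)) / n

/-- continuity of Gaussian averages in the mean and the covariance -/
def GcStmt : Prop := ∀ (m : ℕ) (φ : E m → ℝ), Tm 1 φ → ∀ (g : E m), ∀ ε > (0 : ℝ), ∃ δ > (0 : ℝ),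
  ∀ (N : ℕ) (W : Matrix (Fin m) (Fin N) ℝ) (μ : E m), (∀ a, |μ a - g a| ≤ δ) →
    (∀ a a', |(W * Wᵀ) a a' - if a = a' then 1 else 0| ≤ δ) →
    |∫ z, φ (WithLp.toLp 2 (W *ᵥ z) + μ) ∂gv (Fin N) - ∫ z, φ (z + g) ∂gam m| ≤ ε

/-- Taylor formulas in the order calculus -/
def TayStmt : Prop := ∀ β ρ (T : ℕ → Type) (A : ∀ n, T n → Prop) (m : ℕ) (φ : E m → ℝ)
    (X : ∀ n, T n → Env n → E m), (∀ a, Ob (PP β ρ) (rt 0) A fun n t ω => X n t ω a) →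
    (Tm 0 φ → Ob (PP β ρ) (rt 0) A fun n t ω => φ (X n t ω)) ∧
    ∀ (Y : ∀ n, T n → Env n → E m) (d : ℕ → ℝ), (∀ a, Ob (PP β ρ) (rt 0) A fun n t ω => Y n t ω a) →
      (∀ a, Ob (PP β ρ) d A fun n t ω => Y n t ω a - X n t ω a) →
      (Tm 1 φ → Ob (PP β ρ) d A fun n t ω => φ (Y n t ω) - φ (X n t ω)) ∧
      (Tm 2 φ → Ob (PP β ρ) (fun n => d n ^ 2) A fun n t ω => φ (Y n t ω) - φ (X n t ω) -
        ∑ a, pd a φ (X n t ω) * (Y n t ω a - X n t ω a)) ∧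
      (Tm 3 φ → Ob (PP β ρ) (fun n => d n ^ 3) A fun n t ω => φ (Y n t ω) - φ (X n t ω) -
        ∑ a, pd a φ (X n t ω) * (Y n t ω a - X n t ω a) -
        (∑ a, ∑ a', pd a (pd a' φ) (X n t ω) * ((Y n t ω a - X n t ω a) * (Y n t ω a' - X n t ω a'))) / 2)

/-- closure properties of the temperate classes; the heat-bath weight -/
structure SmStmt : Prop where
  mono : ∀ m k (f : E m → ℝ), Tm (k + 1) f → Tm k f
  const : ∀ m k (c : ℝ), Tm k fun _ : E m => c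
  coord : ∀ m k (a : Fin m), Tm k fun X : E m => X a
  add : ∀ m k (f g : E m → ℝ), Tm k f → Tm k g → Tm k fun X => f X + g X
  mul : ∀ m k (f g : E m → ℝ), Tm k f → Tm k g → Tm k fun X => f X * g X
  sum : ∀ m k (ι : Type) (S : Finset ι) (f : ι → E m → ℝ), (∀ i ∈ S, Tm k (f i)) →
    Tm k fun X => ∑ i ∈ S, f i X
  pv : ∀ m, ∀ F ∈ PV m, ∀ s, Sm (F.1 s)
  hb : ∀ (b : Bath) ξ t, Sm fun X => hb (fld b ξ X) t
  sech : ∀ h, sech2 h = 4 * (Tw.hb h true * Tw.hb h false)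
  lip : ∀ h h' t, |Tw.hb h' t - Tw.hb h t| ≤ |h' - h|
  tay : ∀ h h' t, |Tw.hb h' t - Tw.hb h t - sg t * sech2 h / 2 * (h' - h)| ≤ (h' - h) ^ 2
  aa : ∀ (b : Bath) ξ k (F : Bool → E b.m → ℝ), (∀ s, Tm (k + 2) (F s)) → ∀ s, Tm k (AA b ξ F s)
  gm : ∀ (b : Bath) k (F G : Bool → E b.m → ℝ), (∀ s, Tm (k + 1) (F s)) → (∀ s, Tm (k + 1) (G s)) →
    Tm k (gm b F G)

/-- odd functions in the gauge `s = +1` -/
def ModelStmt : Prop := ∀ (b : Bath), ∀ F ∈ Od b.m,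
  ((imp b 0).N F F = 0 → F = 0) ∧
  (imp b 0).En (sp _) F = ∫ z, sech2 (fld b 0 (z + b.v)) / 2 *
    (F.1 true (z + b.v) - F.1 false (z + b.v)) ∂gam b.m ∧
  ∀ G ∈ Od b.m, (imp b 0).N F G = ∫ z, F.1 true (z + b.v) * G.1 true (z + b.v) ∂gam b.m ∧
    2 * (imp b 0).En F G = ∫ z, gm b F.1 G.1 (z + b.v) ∂gam b.m

/-! ### leaves -/

def X0Stmt : Prop := ∀ β ρ b c u, V1 β ρ b c u → X0 β ρ b (fieldOf c u)
def LlnStmt : Prop := ∀ β ρ b c u, V1 β ρ b c u → Lln β ρ b (fieldOf c u)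
def X2Stmt : Prop := ∀ β ρ b c u, V1 β ρ b c u → V2 β ρ b u → X2 β ρ b (fieldOf c u)
def X3Stmt : Prop := ∀ β ρ b c U u, V1 β ρ b c u → V2 β ρ b u → V3 β ρ b c U u →
  X3 β ρ b U (fieldOf c u)
def GamStmt : Prop := ∀ β ρ b X, X0 β ρ b X → X2 β ρ b X → Gam β ρ b X
def GenStmt : Prop := ∀ β ρ b U X, X0 β ρ b X → X2 β ρ b X → X3 β ρ b U X → Gen β ρ b U X
def V1Stmt : Prop := ∀ β ρ b b' c f X, X0 β ρ b X → Lln β ρ b X → Step β ρ b b' c f →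
  V1 β ρ b' c (valOf f X)
def V23Stmt : Prop := ∀ β ρ b b' U c f X, Rl β ρ b U X → Step β ρ b b' c f →
  V2 β ρ b' (valOf f X) ∧ ∀ U', (∀ v ∈ U', Exact b b' U c f v) → V3 β ρ b' c U' (valOf f X)
def BaseStmt : Prop := ∀ β ρ b c α, Base β ρ b c α → ∃ u, V1 β ρ b c u ∧ V2 β ρ b u

def LinGlue : Prop := MpStmt → LinStmt
def QuadGlue : Prop := MpStmt → QuadStmt
def CavGlue : Prop := MpStmt → CavStmt
def X0Glue : Prop := LinStmt → X0Stmt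
def LlnGlue : Prop := CavStmt → GcStmt → TayStmt → SmStmt → X0Stmt → LlnStmt
def X2Glue : Prop := LinStmt → QuadStmt → SmStmt → X0Stmt → X2Stmt
def X3Glue : Prop := LinStmt → QuadStmt → SmStmt → X0Stmt → X3Stmt
def GamGlue : Prop := TayStmt → SmStmt → GamStmt
def GenGlue : Prop := TayStmt → SmStmt → GenStmt
def V1Glue : Prop := TayStmt → SmStmt → ModelStmt → V1Stmt
def V23Glue : Prop := SmStmt → ModelStmt → V23Stmt
def BaseGlue : Prop := SmStmt → ModelStmt → X0Stmt → LlnStmt → BaseStmt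
def OutGlue : Prop := MpStmt → SmStmt → ModelStmt → RealStmt → OutStmt
def LamPosGlue : Prop := OkStmt → ZeroStmt → SmStmt → ModelStmt → OutStmt → Top.PoinHi → LamPos

theorem real_of (h0 : X0Stmt) (h1 : LlnStmt) (h2 : X2Stmt) (h3 : X3Stmt) (h4 : GamStmt)
    (h5 : GenStmt) (h6 : V1Stmt) (h7 : V23Stmt) (h8 : BaseStmt) : RealStmt := by
  have key : ∀ β ρ b c U u, V1 β ρ b c u → V2 β ρ b u → V3 β ρ b c U u →
      Rl β ρ b U (fieldOf c u) := fun β ρ b c U u a1 a2 a3 =>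
    ⟨h0 _ _ _ _ _ a1, h1 _ _ _ _ _ a1, h4 _ _ _ _ (h0 _ _ _ _ _ a1) (h2 _ _ _ _ _ a1 a2),
      h5 _ _ _ _ _ (h0 _ _ _ _ _ a1) (h2 _ _ _ _ _ a1 a2) (h3 _ _ _ _ _ _ a1 a2 a3)⟩
  intro β ρ b U h
  induction h with
  | @base b c α hb =>
    obtain ⟨u, a1, a2⟩ := h8 _ _ _ _ _ hb
    refine ⟨_, key β ρ b c ⊥ u a1 a2 fun v hv => ?_⟩
    obtain rfl : v = 0 := hv
    refine ⟨by simp, fun N => ⟨fun _ => 0, tendsto_const_nhds, fun n t => by simp [nL],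
      fun q => ⟨0, .of_forall fun n t _ => ?_⟩⟩⟩
    simp [nL]
  | step _ hs hU ih =>
    obtain ⟨X, hX⟩ := ih
    have a := h7 _ _ _ _ _ _ _ _ hX hs
    exact ⟨_, key _ _ _ _ _ _ (h6 _ _ _ _ _ _ _ hX.x0 hX.lln hs) a.1 (a.2 _ hU)⟩

end Crest.Agent.T157.Rn

end
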