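import Crest.Agent.T157.TwOk_42

/-!
# Row 157, block B/S4 (helper42): zero field is the slowest (`M2Stmt`), `ZeroStmt`
-/

set_option autoImplicit false
set_option linter.all false

noncomputable section

namespace Crest.Agent.T157.Tw

open MeasureTheory ProbabilityTheory Real Matrix Set Filter
open Crest.Agent.R238.Gap Crest.Agent.R238.GapPc Crest.Agent.R253.Meh74
open Crest.Agent.R285

namespace O42

variable {m : ℕ}

lemma pg_neg {f : E m → ℝ} (hf : PG f) : PG fun X => f (-X) := by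
  obtain ⟨K, k, h⟩ := hf
  exact ⟨K, k, fun X => by simpa using h (-X)⟩

lemma pd_neg (f : E m → ℝ) (i : Fin m) (X : E m) : pd i (fun X => f (-X)) X = -pd i f (-X) := by
  have := fderiv_comp_smul (𝕜 := ℝ) (f := f) (x := X) (-1 : ℝ)
  simp only [neg_smul, one_smul] at this
  simp only [pd, this, ContinuousLinearMap.neg_apply]

lemma c1_neg {f : E m → ℝ} (hf : C1 f) : C1 fun X => f (-X) :=
  ⟨hf.c.comp contDiff_neg, pg_neg hf.g, fun i => by
    have : pd i (fun X => f (-X)) = fun X => -pd i f (-X) := funext fun X => pd_neg f i X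
    rw [this]; exact (pg_neg (hf.p i)).neg⟩

lemma pd_lin {f g : E m → ℝ} (hf : C1 f) (hg : C1 g) (a c : ℝ) (i : Fin m) (X : E m) :
    pd i (fun X => a * f X + c * g X) X = a * pd i f X + c * pd i g X := by
  rw [(hf.smul a).pd_add (hg.smul c), (c1_const a).pd_mul hf, (c1_const c).pd_mul hg]
  simp [pd]

lemma int_neg (f : E m → ℝ) : ∫ z, f (-z) ∂gam m = ∫ z, f z ∂gam m := by
  have h := stdGaussian_map (E := E m) (LinearIsometryEquiv.neg ℝ)
  have h2 := (LinearIsometryEquiv.neg ℝ (E := E m)).toHomeomorph.measurableEmbedding.integral_map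
    (μ := gam m) f
  exact h2.symm.trans (congrArg (fun μ => ∫ z, f z ∂μ) h)

/-- folding the two spin values -/
def fo (ξ : ℝ) (Φ : Bool → E m → ℝ) (X : E m) : ℝ :=
  hb ξ true * Φ true X + hb ξ false * Φ false (-X)

lemma int_fo (ξ : ℝ) {Φ : Bool → E m → ℝ} (h : Φ ∈ CP m) (v : E m) :
    Integrable (fun z => fo ξ Φ (z + v)) (gam m) :=
  ((int_shift (h true).1 (h true).2 v).const_mul _).add
    ((int_shift ((h false).1.comp continuous_neg) (pg_neg (h false).2) v).const_mul _)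

lemma ex_fo (b : Bath) (ξ : ℝ) {Φ : Bool → E b.m → ℝ} (h : Φ ∈ CP b.m) :
    ex b ξ Φ = ∫ z, fo ξ Φ (z + b.v) ∂gam b.m := by
  unfold ex fo
  rw [integral_add ((int_shift (h true).1 (h true).2 _).const_mul _)
    ((int_shift (f := fun X => Φ false (-X)) ((h false).1.comp continuous_neg)
      (pg_neg (h false).2) _).const_mul _),
    integral_const_mul, integral_const_mul, Fintype.sum_bool,
    ← int_neg fun z => Φ false (z + sg false • b.v)]
  simp [sg, add_comm]

lemma ex_cmp (b : Bath) (ξ c : ℝ) {Φ Ψ : Bool → E b.m → ℝ} (hΦ : Φ ∈ CP b.m) (hΨ : Ψ ∈ CP b.m)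
    (k : E b.m → ℝ) (h : ∀ X, k X = fo ξ Φ X - c * fo 0 Ψ X) :
    ex b ξ Φ = c * ex b 0 Ψ + ∫ z, k (z + b.v) ∂gam b.m := by
  simp only [h]
  rw [integral_sub (int_fo ξ hΦ _) ((int_fo 0 hΨ _).const_mul c), integral_const_mul,
    ← ex_fo b ξ hΦ, ← ex_fo b 0 hΨ]
  ring

/-- the odd part -/
def od (m : ℕ) : CV m →ₗ[ℝ] CV m where
  toFun F := ⟨fun s X => 1 / 2 * F.1 s X + (-1 / 2) * F.1 (!s) (-X), fun s =>
    ((F.2 s).smul _).add ((c1_neg (F.2 (!s))).smul _)⟩
  map_add' F G := Subtype.ext (funext fun s => funext fun X => by simp; ring)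
  map_smul' c F := Subtype.ext (funext fun s => funext fun X => by simp; ring)

lemma od_apply (F : CV m) (s : Bool) (X : E m) :
    (od m F).1 s X = 1 / 2 * F.1 s X + (-1 / 2) * F.1 (!s) (-X) := rfl

lemma pd_od (F : CV m) (s : Bool) (i : Fin m) (X : E m) :
    pd i ((od m F).1 s) X = 1 / 2 * pd i (F.1 s) X + 1 / 2 * pd i (F.1 (!s)) (-X) := by
  have := pd_lin (F.2 s) (c1_neg (F.2 (!s))) (1 / 2) (-1 / 2) i X
  rw [pd_neg] at this
  exact this.trans (by ring)

lemma var_nonneg {f : E m → ℝ} (hf : C1 f) (v : E m) :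
    0 ≤ (∫ z, f (z + v) ^ 2 ∂gam m) - (∫ z, f (z + v) ∂gam m) ^ 2 := by
  have h := okStmt ⟨m, 0, 0, PosSemidef.zero⟩ 0
  have h1 := h.1.pN ⟨fun _ z => f (z + v), fun _ => c1_shift hf v⟩
  have h2 : Bath.v ⟨m, 0, 0, PosSemidef.zero⟩ = 0 := rfl
  rw [imp_N] at h1
  simp only [ex, h2, smul_zero, add_zero, hb_zero, Pi.mul_apply, Fintype.sum_bool] at h1
  simp only [sq]
  linarith

lemma m2 (b : Bath) (ξ : ℝ) (F : CV b.m) :
    sech2 ξ * (imp b 0).N (od _ F) (od _ F) ≤ (imp b ξ).N F F ∧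
    sech2 ξ * (imp b 0).N (sp _) (od _ F) = (imp b ξ).N (sp _) F ∧
    ∀ a, 0 ≤ a → b.Ge a → sech2 ξ * (imp b 0).Q a (od _ F) ≤ (imp b ξ).Q a F := by
  have hw : hb ξ false = 1 - hb ξ true := by linarith [hb_sum ξ]
  have hS : sech2 ξ = 4 * (hb ξ true * (1 - hb ξ true)) := by rw [← hb_mul, hw]
  have hF := cv_cp F
  have hO := cv_cp (od _ F)
  have hσ := cv_cp (sp b.m)
  have hh : C1 (fo ξ F.1) := ((F.2 true).smul _).add ((c1_neg (F.2 false)).smul _)
  have e0 : ex b 0 (od _ F).1 = 0 := by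
    rw [ex_fo b 0 hO]
    refine (integral_congr_ae (ae_of_all _ fun z => ?_)).trans (integral_zero _ _)
    simp only [fo, od_apply, hb_zero, neg_neg, Bool.not_true, Bool.not_false]
    ring
  have e1 : (imp b ξ).N F F = sech2 ξ * (imp b 0).N (od _ F) (od _ F) +
      ((∫ z, fo ξ F.1 (z + b.v) ^ 2 ∂gam b.m) - (∫ z, fo ξ F.1 (z + b.v) ∂gam b.m) ^ 2) := by
    rw [imp_N, imp_N, e0, ex_cmp b ξ (sech2 ξ) (cp_mul hF hF) (cp_mul hO hO)
      (fun X => fo ξ F.1 X ^ 2) fun X => ?_, ex_fo b ξ hF]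
    · ring
    · simp only [fo, od_apply, hb_zero, neg_neg, Bool.not_true, Bool.not_false, Pi.mul_apply, hw, hS]
      ring
  have e2 : bathL b ξ F F = sech2 ξ * bathL b 0 (od _ F) (od _ F) +
      ∫ z, be b.A (fo ξ F.1) (fo ξ F.1) (z + b.v) ∂gam b.m := by
    rw [bath_ex, bath_ex]
    refine ex_cmp b ξ _ (be_cp _ _ _) (be_cp _ _ _) _ fun X => ?_
    have h1 : ∀ i, pd i (fo ξ F.1) X =
        hb ξ true * pd i (F.1 true) X - hb ξ false * pd i (F.1 false) (-X) := fun i => by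
      have := pd_lin (F.2 true) (c1_neg (F.2 false)) (hb ξ true) (hb ξ false) i X
      rw [pd_neg] at this
      exact this.trans (by ring)
    simp only [fo, be, h1, pd_od, hb_zero, neg_neg, Bool.not_true, Bool.not_false, hw, hS,
      Finset.mul_sum, ← Finset.sum_add_distrib, ← Finset.sum_sub_distrib]
    exact Finset.sum_congr rfl fun i _ => Finset.sum_congr rfl fun j _ => by ring
  have e3 : sech2 ξ * spinL b 0 (inc _ (od _ F)) (inc _ (od _ F)) ≤
      spinL b ξ (inc _ F) (inc _ F) := by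
    have hM : (fun (_ : Bool) X => F.1 true X - (rsL b ξ (inc _ F)).1 true X) ∈ CP b.m :=
      fun _ => ⟨(hF true).1.sub ((rsL b ξ (inc _ F)).2 true).1,
        (hF true).2.sub ((rsL b ξ (inc _ F)).2 true).2⟩
    set M : E b.m → ℝ := fun X => F.1 true X - (rsL b ξ (inc _ F)).1 true X with hMd
    have hr : ∀ s X, (rsL b ξ (inc _ F)).1 s X = F.1 s X - M X := fun s X => by
      simp only [hMd, rs_apply, sub_sub_cancel]
      exact (by rw [show (inc b.m F).1 = F.1 from rfl]; ring)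
    have hc : Continuous fun X => 1 / 2 * (M X - M (-X)) :=
      continuous_const.mul ((hM true).1.sub ((hM true).1.comp continuous_neg))
    have hg : PG fun X => 1 / 2 * (M X - M (-X)) :=
      (pg_const _).mul ((hM true).2.sub (pg_neg (hM true).2))
    have h0 : 0 ≤ sech2 ξ := by unfold sech2; positivity
    refine (mul_le_mul_of_nonneg_left (spin_le b 0 _ hc hg) h0).trans ?_
    rw [spin_ex, ex_cmp b ξ (sech2 ξ) (cp_mul (rsL b ξ _).2 (rsL b ξ _).2)
      (cp_sq ((CP _).sub_mem (inc _ (od _ F)).2 (cp_of hc hg)))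
      (fun X => fo ξ (rsL b ξ (inc _ F)).1 X ^ 2) fun X => ?_]
    · exact le_add_of_nonneg_right (integral_nonneg fun _ => sq_nonneg _)
    · simp only [fo, hr, Pi.mul_apply, Pi.sub_apply, show (inc b.m (od _ F)).1 = (od _ F).1 from rfl,
        od_apply, hb_zero, neg_neg, Bool.not_true, Bool.not_false, hw, hS]
      ring
  refine ⟨by rw [e1]; exact le_add_of_nonneg_right (var_nonneg hh _), ?_, fun a ha hA => ?_⟩
  · have h2 : ex b ξ (sp b.m).1 = hb ξ true - hb ξ false := by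
      simp [ex, sp, sg, sub_eq_add_neg]
    rw [imp_N, imp_N, e0, h2, ex_cmp b ξ (sech2 ξ) (cp_mul hσ hF) (cp_mul hσ hO)
      (fun X => (hb ξ true - hb ξ false) * fo ξ F.1 X) fun X => ?_, integral_const_mul, ex_fo b ξ hF]
    · ring
    · simp only [fo, od_apply, hb_zero, neg_neg, Bool.not_true, Bool.not_false, Pi.mul_apply, hw, hS,
        sp, sg, if_true, Bool.false_eq_true, if_false]
      ring
  · have := poin ha hA hh b.v
    simp only [Pre.Q, imp_En]
    rw [e1, e2]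
    nlinarith

end O42

open O42

theorem m2Stmt : M2Stmt := fun m =>
  ⟨od m, fun F s X => by rw [od_apply]; ring, fun F s X => by
    simp only [od_apply, neg_neg, Bool.not_not]; ring, fun A g hA ξ F => m2 ⟨m, A, g, hA⟩ ξ F⟩

theorem zeroStmt : ZeroStmt := by
  intro b ξ hg hA F
  have hv : b.v = 0 := by simp [Bath.v, hg]
  have hw : hb ξ false = 1 - hb ξ true := by linarith [hb_sum ξ]
  have hF := cv_cp F
  have hf : ∀ X, fld b ξ X = ξ := fun X => by simp [fld, hv]
  set M : E b.m → ℝ := fun X => hb ξ true * F.1 true X + hb ξ false * F.1 false X with hMd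
  have hM : C1 M := ((F.2 true).smul _).add ((F.2 false).smul _)
  have hM' : (fun (_ : Bool) X => M X) ∈ CP b.m := cp_of hM.cont hM.g
  have hx : ∀ f : E b.m → ℝ, ex b ξ (fun _ => f) = ∫ z, f (z + 0) ∂gam b.m := fun f => by
    simp only [ex, hv, smul_zero, Fintype.sum_bool, hw]
    ring
  have hc : ∀ {Φ Ψ : Bool → E b.m → ℝ}, Φ ∈ CP b.m → Ψ ∈ CP b.m →
      (∀ X, hb ξ true * Φ true X + (1 - hb ξ true) * Φ false X ≤
        hb ξ true * Ψ true X + (1 - hb ξ true) * Ψ false X) → ex b ξ Φ ≤ ex b ξ Ψ :=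
    fun {Φ Ψ} h1 h2 h => by
      rw [← sub_nonneg, ← ex_sub b ξ h2 h1]
      refine ex_nonneg_cond b ξ ((CP _).sub_mem h2 h1) fun X => ?_
      simp only [hf, Fintype.sum_bool, Pi.sub_apply, hw]
      linarith [h X]
  have e1 : ex b ξ F.1 = ∫ z, M (z + 0) ∂gam b.m := by
    rw [← hx]
    refine le_antisymm (hc hF hM' fun X => ?_) (hc hM' hF fun X => ?_) <;>
      simp only [hMd, hw] <;> linarith
  have h2 := cp_mul (rsL b ξ (inc _ F)).2 (rsL b ξ (inc _ F)).2
  have e2 : ex b ξ (F.1 * F.1) ≤ spinL b ξ (inc _ F) (inc _ F) + ∫ z, M (z + 0) ^ 2 ∂gam b.m := by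
    rw [← hx fun X => M X ^ 2, spin_ex, ← ex_add b ξ h2 (cp_sq hM')]
    refine hc (cp_mul hF hF) ((CP _).add_mem h2 (cp_sq hM')) fun X => le_of_eq ?_
    simp only [Pi.add_apply, Pi.mul_apply, rs_apply, hf, hMd, hw,
      show (inc b.m F).1 = F.1 from rfl]
    ring
  have e3 : ∫ z, be b.A M M (z + 0) ∂gam b.m ≤ bathL b ξ F F := by
    rw [← hx, bath_ex]
    refine hc (be_cp b.A ⟨fun _ => M, fun _ => hM⟩ ⟨fun _ => M, fun _ => hM⟩) (be_cp _ _ _)
      fun X => ?_
    have h3 : 0 ≤ be b.A (fun X => 1 * F.1 true X + (-1) * F.1 false X)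
        (fun X => 1 * F.1 true X + (-1) * F.1 false X) X := by
      simpa using be_ge (ge_zero b) (fun X => 1 * F.1 true X + (-1) * F.1 false X) X
    have h4 : hb ξ true * be b.A (F.1 true) (F.1 true) X +
        (1 - hb ξ true) * be b.A (F.1 false) (F.1 false) X = be b.A M M X +
        hb ξ true * hb ξ false * be b.A (fun X => 1 * F.1 true X + (-1) * F.1 false X)
          (fun X => 1 * F.1 true X + (-1) * F.1 false X) X := by
      simp only [be, hMd, pd_lin (F.2 true) (F.2 false), hw, Finset.mul_sum,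
        ← Finset.sum_add_distrib]
      exact Finset.sum_congr rfl fun i _ => Finset.sum_congr rfl fun j _ => by ring
    have h5 := mul_nonneg (mul_pos (hb_pos ξ true) (hb_pos ξ false)).le h3
    show hb ξ true * be b.A M M X + (1 - hb ξ true) * be b.A M M X ≤ _
    linarith
  have := poin zero_le_one hA hM 0
  simp only [Pre.Q, imp_En, imp_N]
  rw [e1]
  nlinarith

end Crest.Agent.T157.Tw
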