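import Crest.Agent.T157.RnDef_60
import Crest.Agent.T157.TwM2_42

/-!
# Row 157, block B/S4 (helper54): odd functions in the gauge `s = +1` (`Rn.ModelStmt`)
-/

set_option autoImplicit false

noncomputable section

namespace Crest.Agent.T157.Rn

open MeasureTheory ProbabilityTheory Real Matrix Filter Topology
open Crest.Agent.R238.Gap Crest.Agent.R238.GapPc Crest.Agent.R253.Meh74
open Crest.Agent.T157.Tw Crest.Agent.T157.Tw.O42

namespace Mod54

/-- equal conditional means give equal expectations -/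
lemma ex_cond (b : Bath) (ξ : ℝ) {Φ Ψ : Bool → E b.m → ℝ} (hΦ : Φ ∈ CP b.m) (hΨ : Ψ ∈ CP b.m)
    (h : ∀ X, hb (fld b ξ X) true * Φ true X + hb (fld b ξ X) false * Φ false X =
      hb (fld b ξ X) true * Ψ true X + hb (fld b ξ X) false * Ψ false X) :
    ex b ξ Φ = ex b ξ Ψ := by
  have h1 := ex_nonneg_cond b ξ ((CP _).sub_mem hΦ hΨ) fun X => by
    simp only [Fintype.sum_bool, Pi.sub_apply]; linarith [h X]
  have h2 := ex_nonneg_cond b ξ ((CP _).sub_mem hΨ hΦ) fun X => by
    simp only [Fintype.sum_bool, Pi.sub_apply]; linarith [h X]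
  rw [ex_sub b ξ hΦ hΨ] at h1
  rw [ex_sub b ξ hΨ hΦ] at h2
  linarith

lemma ex_even (b : Bath) {Φ : Bool → E b.m → ℝ} (hΦ : Φ ∈ CP b.m)
    (h : ∀ X, Φ false (-X) = Φ true X) : ex b 0 Φ = ∫ z, Φ true (z + b.v) ∂gam b.m := by
  rw [ex_fo b 0 hΦ]
  refine integral_congr_ae (ae_of_all _ fun z => ?_)
  simp only [fo, hb_zero, h]
  ring

lemma ex_odd (b : Bath) {F : CV b.m} (hF : F ∈ Od b.m) : ex b 0 F.1 = 0 := by
  rw [ex_fo b 0 (cv_cp F)]
  refine (integral_congr_ae (ae_of_all _ fun z => ?_)).trans (integral_zero _ _)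
  have := hF true (z + b.v)
  simp only [Bool.not_true] at this
  simp only [fo, hb_zero, this]
  ring

lemma fld_neg (b : Bath) (X : E b.m) : fld b 0 (-X) = -fld b 0 X := by simp [fld]

lemma hb_neg (h : ℝ) : hb (-h) true = hb h false := by simp [hb, sg]

lemma sech2_neg (h : ℝ) : sech2 (-h) = sech2 h := by simp [sech2]

lemma dl_neg {m : ℕ} {F : CV m} (hF : F ∈ Od m) (X : E m) :
    F.1 true (-X) - F.1 false (-X) = F.1 true X - F.1 false X := by
  have h1 := hF true X
  have h2 := hF false X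
  simp only [Bool.not_true, Bool.not_false] at h1 h2
  rw [h1, h2]; ring

lemma pd_even {m : ℕ} {F : CV m} (hF : F ∈ Od m) (i : Fin m) (X : E m) :
    pd i (F.1 false) (-X) = pd i (F.1 true) X := by
  have h1 : (fun X => F.1 false (-X)) = fun X => (-1) * F.1 true X + 0 * F.1 true X := by
    funext X
    have := hF true X
    simp only [Bool.not_true] at this
    rw [this]; ring
  have h2 := pd_neg (F.1 false) i X
  rw [h1, pd_lin (F.2 true) (F.2 true)] at h2
  linarith

lemma dl_cp {m : ℕ} (F : CV m) : (fun (_ : Bool) X => F.1 true X - F.1 false X) ∈ CP m :=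
  cp_of ((F.2 true).cont.sub (F.2 false).cont) ((F.2 true).g.sub (F.2 false).g)

end Mod54

open Mod54

theorem modelStmt : ModelStmt := by
  intro b F hF
  have hw : ∀ h, hb h true = 1 - hb h false := fun h => by linarith [hb_sum h]
  refine ⟨fun h => ?_, ?_, fun G hG => ⟨?_, ?_⟩⟩
  · rw [var_eq, ex_odd b hF] at h
    refine Subtype.ext (funext fun s => funext fun X => ?_)
    have := eq_zero_of_ex b 0 (cp_sq ((CP _).sub_mem (cv_cp F) (cp_const 0)))
      (fun _ _ => sq_nonneg _) h s X
    simpa using this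
  · have h4 : (fun s => be b.A ((sp b.m).1 s) (F.1 s)) = fun _ _ => (0 : ℝ) := by
      funext s X
      simp [be, pd, sp]
    have hΨ : (fun (_ : Bool) X => sech2 (fld b 0 X) / 2 * (F.1 true X - F.1 false X)) ∈ CP b.m := by
      have := (CP _).smul_mem 2 (cp_mul (cp_mul (hb_cp b 0 true) (hb_cp b 0 false)) (dl_cp F))
      convert this using 1
      funext s X
      simp only [Pi.smul_apply, Pi.mul_apply, smul_eq_mul, ← hb_mul]
      ring
    rw [imp_En, bath_ex, h4, ex_const, add_zero, spin_ex,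
      ex_cond b 0 (cp_mul (rsL b 0 _).2 (rsL b 0 _).2) hΨ fun X => ?_, ex_even b hΨ fun X => ?_]
    · rw [fld_neg, sech2_neg, dl_neg hF]
    · simp only [Pi.mul_apply, rs_apply, ← hb_mul, hw, show (inc b.m F).1 = F.1 from rfl,
        show (inc b.m (sp b.m)).1 = fun s _ => sg s from rfl, sg, if_true, Bool.false_eq_true,
        if_false]
      ring
  · rw [imp_N, ex_odd b hF, zero_mul, sub_zero, ex_even b (cp_mul (cv_cp F) (cv_cp G)) fun X => ?_]
    · rfl
    · have h1 := hF true X
      have h2 := hG true X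
      simp only [Bool.not_true] at h1 h2
      simp only [Pi.mul_apply, h1, h2]
      ring
  · have h0 : (fun (s : Bool) X => hb (fld b 0 X) (!s)) ∈ CP b.m := fun s => hb_cp b 0 (!s) s
    have hΨ := (CP _).smul_mem (1 / 2) (cp_mul h0 (cp_mul (dl_cp F) (dl_cp G)))
    have hB := be_cp b.A F G
    rw [imp_En, bath_ex, spin_ex, ex_cond b 0 (cp_mul (rsL b 0 _).2 (rsL b 0 _).2) hΨ fun X => ?_,
      ← ex_add b 0 hΨ hB, ex_even b ((CP _).add_mem hΨ hB) fun X => ?_, ← integral_const_mul]
    · refine integral_congr_ae (ae_of_all _ fun z => ?_)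
      simp only [gm, be, Pi.add_apply, Pi.smul_apply, Pi.mul_apply, smul_eq_mul, Bool.not_true]
      ring
    · simp only [be, Pi.add_apply, Pi.smul_apply, Pi.mul_apply, smul_eq_mul, Bool.not_true,
        Bool.not_false, fld_neg, hb_neg, dl_neg hF, dl_neg hG, pd_even hF, pd_even hG]
    · simp only [Pi.mul_apply, Pi.smul_apply, smul_eq_mul, rs_apply, hw, Bool.not_true,
        Bool.not_false, show (inc b.m F).1 = F.1 from rfl, show (inc b.m G).1 = G.1 from rfl]
      ring

end Crest.Agent.T157.Rn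

end
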