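import Crest.Agent.T157.TwAll_30
import Crest.Agent.T157.HmB_3
import Crest.Agent.T157.RnMod_54

/-!
# Row 157, block B/R (helper60): the edge of the response function

`Gs` is not Lipschitz at `lam`:  `β γ(a) → 1` and `(1 - β γ(a))² ≥ (1 - β)² (1 - a / lam)`.
-/

set_option autoImplicit false

noncomputable section

namespace Crest.Agent.T157.Rn.Edge

open MeasureTheory ProbabilityTheory Real Matrix Set Filter
open Crest.Agent.R238.Gap Crest.Agent.R238.GapPc Crest.Agent.R253.Meh74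
open Crest.Agent.T157.Tw
open scoped MatrixOrder

variable {𝒞 : Cls} {β a : ℝ}

/-- the mean gradient -/
def dE (b : Bath) : CV b.m →ₗ[ℝ] (Fin b.m → ℝ) := LinearMap.pi fun i => exL b 0 ∘ₗ pdL b.m i

lemma dE_apply (b : Bath) (F : CV b.m) (i : Fin b.m) : dE b F i = ex b 0 (pdL b.m i F).1 := rfl

/-- overlap with the spin -/
def cc (b : Bath) (F : CV b.m) : ℝ := (imp b 0).N (sp _) F
/-- shifted energy, the spin component not being shifted -/
def BB (b : Bath) (a : ℝ) (F : CV b.m) : ℝ := (imp b 0).Q a F + a * cc b F ^ 2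

lemma N_lin (b : Bath) (u : Fin b.m → ℝ) (F : CV b.m) :
    (imp b 0).N (lin _ u) F = u ⬝ᵥ dE b F + u ⬝ᵥ b.g * cc b F := Lin84.N_lin b 0 u F

lemma En_lin (b : Bath) (u : Fin b.m → ℝ) (F : CV b.m) :
    (imp b 0).En (lin _ u) F = (b.A *ᵥ u) ⬝ᵥ dE b F := by
  rw [(linStmt b 0 u).2.2.2 F, N_lin, cc]; ring

lemma dE_lin (b : Bath) (u : Fin b.m → ℝ) : dE b (lin _ u) = u := by
  funext i; rw [dE_apply, Lin84.pd_lin, O42.ex_const]

lemma cc_lin (b : Bath) (u : Fin b.m → ℝ) : cc b (lin _ u) = u ⬝ᵥ b.g := by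
  rw [cc, (linStmt b 0 u).2.1, sech2_zero, one_mul]

lemma cc_smul (b : Bath) (c : ℝ) (F : CV b.m) : cc b (c • F) = c * cc b F := by simp [cc]

lemma BB_smul (b : Bath) (a c : ℝ) (F : CV b.m) : BB b a (c • F) = c ^ 2 * BB b a F := by
  simp only [BB, cc_smul, Pre.Q, map_smul, LinearMap.smul_apply, smul_eq_mul]; ring

lemma split (b : Bath) (a : ℝ) {F : CV b.m} (h : dE b F = 0) (u : Fin b.m → ℝ) :
    cc b (F + lin _ u) = cc b F + u ⬝ᵥ b.g ∧ BB b a (F + lin _ u) = BB b a F + b.pre.Q a u := by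
  have o := (okStmt b 0).1
  have h1 : cc b (F + lin _ u) = cc b F + u ⬝ᵥ b.g := by rw [← cc_lin]; simp [cc]
  refine ⟨h1, ?_⟩
  simp only [BB, h1, pre_Q]
  simp only [Pre.Q, map_add, LinearMap.add_apply, o.sN F (lin _ u), o.sE F (lin _ u), N_lin, En_lin,
    h, dE_lin, cc_lin, dotProduct_zero, dotProduct_comm (b.A *ᵥ u) u]
  ring

lemma cc_sq_le (b : Bath) (F : CV b.m) : cc b F ^ 2 ≤ (imp b 0).N F F := by
  have o := okStmt b 0
  have h := o.1.pN (F - cc b F • sp _)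
  simp only [map_sub, map_smul, LinearMap.sub_apply, LinearMap.smul_apply, smul_eq_mul,
    o.1.sN F (sp _), o.2.1, sech2_zero] at h
  unfold cc at h ⊢
  nlinarith

lemma BB_eq (b : Bath) (a : ℝ) (F : CV b.m) :
    BB b a F = (imp b 0).En F F - a * ((imp b 0).N F F - cc b F ^ 2) := by
  rw [BB, Pre.Q]; ring

/-- the irreducible part lives in the chaos of order at least two -/
lemma chaos {b : Bath} (ha : 0 ≤ a) (hb : b.Ge a) {F : CV b.m} (hF : F ∈ Od b.m) (h : dE b F = 0) :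
    2 * a * ((imp b 0).N F F - cc b F ^ 2) ≤ (imp b 0).En F F := by
  have h1 := O42.c1_shift (F.2 true) b.v
  have hc : cc b F = ∫ z, F.1 true (z + b.v) ∂gam b.m := by
    rw [cc, ((modelStmt b _ (sp_odd _)).2.2 F hF).1]; simp [sp, sg]
  set f : E b.m → ℝ := fun z => F.1 true (z + b.v) - cc b F with hf
  have hf1 : C1 f := h1.sub (c1_const _)
  have hp : ∀ i, pd i f = fun z => pd i (F.1 true) (z + b.v) := fun i => by
    funext z
    simp only [pd, hf]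
    rw [fderiv_sub_const, fderiv_comp_add_right]
  have i1 : Integrable (fun z => F.1 true (z + b.v)) (gam b.m) := integrable_of_PG h1.cont h1.g
  have i2 : Integrable (fun z => F.1 true (z + b.v) * F.1 true (z + b.v)) (gam b.m) :=
    integrable_of_PG (h1.mul h1).cont (h1.mul h1).g
  have m0 : ∫ z, f z ∂gam b.m = 0 := by
    rw [integral_sub i1 (integrable_const _), ← hc]; simp
  have m1 : ∀ j, ∫ z, f z * z j ∂gam b.m = 0 := fun j => by
    have h2 := Hm.ip_adj hf1 (c1_const 1) j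
    have h3 := congrFun h j
    rw [dE_apply, Mod54.ex_even b (pdL b.m j F).2 fun X => Mod54.pd_even hF j X] at h3
    simp only [Hm.ip, mul_one, hp] at h2
    rw [show (∫ z, pd j (F.1 true) (z + b.v) ∂gam b.m) = 0 from h3] at h2
    simpa [pd] using h2
  have ho : ∀ r ∈ Hm.Pl b.m 2, Hm.ip f r = 0 := by
    rintro _ ⟨c, r, hr, rfl⟩
    choose d s hs hr using hr
    have hs0 : ∀ j k, s j k = 0 := fun j k => Hm.mem_zero.1 (hs j k)
    have i3 : ∀ j, Integrable (fun z : E b.m => d j * (f z * z j)) (gam b.m) := fun j =>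
      (integrable_of_PG (hf1.mul (c1_coord j)).cont (hf1.mul (c1_coord j)).g).const_mul _
    have e : ∀ z : E b.m, f z * (c + ∑ j, z j * r j z) = c * f z + ∑ j, d j * (f z * z j) :=
      fun z => by
        rw [mul_add, Finset.mul_sum, mul_comm]
        congr 1
        exact Finset.sum_congr rfl fun j _ => by simp [hr j, hs0]; ring
    simp only [Hm.ip, e]
    rw [integral_add ((integrable_of_PG hf1.cont hf1.g).const_mul _)
      (integrable_finsetSum _ fun j _ => i3 j), integral_finsetSum _ fun j _ => i3 j]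
    simp [integral_const_mul, m0, m1]
  have h4 := Hm.le_en 2 hf1 ho
  have h5 : Hm.ip f f = (imp b 0).N F F - cc b F ^ 2 := by
    have e : ∀ z, f z * f z = F.1 true (z + b.v) * F.1 true (z + b.v) -
        (2 * cc b F * F.1 true (z + b.v) - cc b F ^ 2) := fun z => by simp only [hf]; ring
    simp only [Hm.ip, e]
    have i5 : Integrable (fun z => 2 * cc b F * F.1 true (z + b.v) - cc b F ^ 2) (gam b.m) :=
      (i1.const_mul _).sub (integrable_const _)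
    rw [integral_sub i2 i5,
      integral_sub (i1.const_mul _) (integrable_const _), integral_const_mul, ← hc,
      ((modelStmt b F hF).2.2 F hF).1]
    simp; ring
  have i4 : ∀ j, Integrable (fun z => pd j f z * pd j f z) (gam b.m) := fun j =>
    integrable_of_PG ((hf1.contp j).mul (hf1.contp j)) ((hf1.p j).mul (hf1.p j))
  have h6 : a * Hm.en f ≤ bathL b 0 F F := by
    rw [O42.bath_ex, Mod54.ex_even b (O42.be_cp b.A F F) fun X => by
      simp only [O42.be, Mod54.pd_even hF]]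
    simp only [Hm.en, Hm.ip]
    rw [← integral_finsetSum _ fun j _ => i4 j, ← integral_const_mul]
    refine integral_mono ((integrable_finsetSum _ fun j _ => i4 j).const_mul _)
      (int_shift (O42.be_cp b.A F F true).1 (O42.be_cp b.A F F true).2 _) fun z => ?_
    simpa only [hp, sq] using O42.be_ge hb (F.1 true) (z + b.v)
  have h7 : 0 ≤ spinL b 0 (inc _ F) (inc _ F) := O42.ex_nonneg b 0 fun _ _ => mul_self_nonneg _
  rw [O42.imp_En, ← h5]
  push_cast at h4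
  nlinarith [mul_le_mul_of_nonneg_left h4 ha]

/-- `(M1)` keeps irreducible odd functions irreducible and odd -/
lemma lift_irr (𝒞 : Cls) (ha : 0 ≤ a) {b1 b2 : Bath} {W : (Fin b1.m → ℝ) →ₗ[ℝ] (Fin b2.m → ℝ)}
    (hW : Mor a b1.pre b2.pre W) {F : CV b1.m} (hF : F ∈ 𝒞.D b1.m) (h : dE b1 F = 0) :
    ∃ G ∈ 𝒞.D b2.m, dE b2 G = 0 ∧ cc b2 G = cc b1 F ∧ (imp b2 0).Q a G ≤ (imp b1 0).Q a F ∧
      (imp b2 0).N G G ≤ (imp b1 0).N F F := by
  set P : Matrix (Fin b1.m) (Fin b2.m) ℝ := (LinearMap.toMatrix' W)ᵀ with hP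
  have hWu : ∀ u, W u = Pᵀ *ᵥ u := fun u => by
    rw [hP, transpose_transpose, ← toLin'_apply, toLin'_toMatrix']
  have hq : ∀ (A : Matrix (Fin b2.m) (Fin b2.m) ℝ) (u : Fin b1.m → ℝ),
      u ⬝ᵥ (P * A * Pᵀ) *ᵥ u = W u ⬝ᵥ A *ᵥ W u := fun A u => by
    rw [← mulVec_mulVec, ← mulVec_mulVec, dotProduct_mulVec, ← mulVec_transpose, hWu]
  have hn : ∀ u : Fin b1.m → ℝ, u ⬝ᵥ (P * Pᵀ) *ᵥ u = W u ⬝ᵥ W u := fun u => by
    simpa using hq 1 u
  have hpsd : (1 - P * Pᵀ).PosSemidef := by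
    refine .of_dotProduct_mulVec_nonneg ?_ fun u => ?_
    · simp [IsHermitian]
    · have := hW.N u
      simp only [pre_N] at this
      rw [star_trivial, sub_mulVec, one_mulVec, dotProduct_sub, hn]
      linarith
  obtain ⟨B, hB⟩ := CStarAlgebra.nonneg_iff_eq_star_mul_self.mp hpsd.nonneg
  have hR : Bᵀ * Bᵀᵀ = 1 - P * Pᵀ := by rw [hB]; rfl
  have h1 : P * Pᵀ + Bᵀ * Bᵀᵀ = 1 := by rw [hR]; abel
  have h2 : P *ᵥ b2.g = b1.g := by
    ext i
    have := hW.σ (Pi.single i 1)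
    simp only [pre_N, pre_σ, hWu] at this
    rw [dotProduct_mulVec, vecMul_transpose] at this
    simpa using this
  have hM : Mor a (imp b1 0) (imp b2 0) (M1.lift P Bᵀ) := M1.mor_lift ha h1 h2 (fun u => by
    have := hW.Q u
    simp only [pre_Q] at this
    rw [hR, hq, sub_mulVec, one_mulVec, dotProduct_sub, hn]
    linarith) 0
  refine ⟨M1.lift P Bᵀ F, ⟨𝒞.lift _ _ P Bᵀ F _ (fun s X => rfl) hF.1, fun s X => ?_⟩, ?_, hM.σ F,
    hM.Q F, hM.N F⟩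
  · change ∫ y, F.1 (!s) (mv P (-X) + mv Bᵀ y) ∂gam b1.m = -∫ y, F.1 s (mv P X + mv Bᵀ y) ∂gam b1.m
    rw [← integral_neg, ← O42.int_neg]
    refine integral_congr_ae (ae_of_all _ fun y => ?_)
    simp only [map_neg, ← neg_add]
    exact hF.2 s _
  · funext j
    have e : (pdL b2.m j (M1.lift P Bᵀ F)).1 = fun s => M1.av (mv P) (mv Bᵀ)
        ((∑ i, P i j • pdL b1.m i F).1 s) := by
      funext s X
      refine (M1.pd_av (F.2 s) P _ j X).trans ?_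
      congr 1
      funext x
      simp only [AddSubmonoidClass.coe_finsetSum, Finset.sum_apply, SetLike.val_smul, Pi.smul_apply,
        smul_eq_mul]
      rfl
    rw [dE_apply, e, M1.ex_av h1 h2 0 (∑ i, P i j • pdL b1.m i F).2]
    change exL b1 0 (∑ i, P i j • pdL b1.m i F) = 0
    rw [map_sum]
    refine Finset.sum_eq_zero fun i _ => ?_
    rw [map_smul, show exL b1 0 (pdL b1.m i F) = 0 from congrFun h i, smul_zero]

/-- response bound of a bath -/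
def Rb (t : Bath) (a R : ℝ) : Prop := ∀ u, 2 * (u ⬝ᵥ t.g) - t.pre.Q a u ≤ R
/-- bound on irreducible functions -/
def Irr (𝒞 : Cls) (t : Bath) (a p : ℝ) : Prop :=
  ∀ F ∈ 𝒞.D t.m, dE t F = 0 → cc t F ^ 2 ≤ p * BB t a F

lemma sq_le_of_quad {x q R : ℝ} (h : ∀ τ : ℝ, 2 * (τ * x) - τ ^ 2 * q ≤ R) : 0 ≤ q ∧ x ^ 2 ≤ R * q := by
  have := discrim_le_zero (a := q) (b := -2 * x) (c := R) fun τ => by linarith [h τ]
  refine ⟨?_, by rw [discrim] at this; linarith⟩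
  by_contra hq
  have hq' : 0 < -q := by linarith
  have h0 : 0 ≤ R := by simpa using h 0
  have h1 := h (√(R / -q) + 1)
  have h2 := h (-(√(R / -q) + 1))
  have h3 : √(R / -q) ^ 2 * -q = R := by
    rw [sq_sqrt (by positivity), div_mul_cancel₀ _ hq'.ne']
  nlinarith [sqrt_nonneg (R / -q)]

lemma Rb.sq {t : Bath} {R : ℝ} (h : Rb t a R) (u : Fin t.m → ℝ) :
    0 ≤ t.pre.Q a u ∧ (u ⬝ᵥ t.g) ^ 2 ≤ R * t.pre.Q a u :=
  sq_le_of_quad fun τ => by
    have := h (τ • u)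
    simp only [pre_Q, smul_dotProduct, dotProduct_smul, mulVec_smul, smul_eq_mul] at this ⊢
    linarith

/-- one level -/
lemma step {t : Bath} {R p : ℝ} (hR : 0 ≤ R) (hp : 0 < p) (h1 : Rb t a R) (h2 : Irr 𝒞 t a p)
    {F : CV t.m} (hF : F ∈ 𝒞.D t.m) : 0 ≤ BB t a F ∧ cc t F ^ 2 ≤ (R + p) * BB t a F := by
  have h0 : dE t (F - lin _ (dE t F)) = 0 := by rw [map_sub, dE_lin, sub_self]
  have h3 := split t a h0 (dE t F)
  have h4 := h2 _ (sub_mem hF (lin_mem linStmt 𝒞 t _)) h0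
  have h5 := h1.sq (dE t F)
  rw [sub_add_cancel] at h3
  rw [h3.1, h3.2]
  set x := cc t (F - lin _ (dE t F))
  set y := dE t F ⬝ᵥ t.g
  set B := BB t a (F - lin _ (dE t F))
  set A := t.pre.Q a (dE t F)
  have hB : 0 ≤ B := nonneg_of_mul_nonneg_right ((sq_nonneg x).trans h4) hp
  refine ⟨by linarith [h5.1], ?_⟩
  have h6 : (2 * (x * y)) ^ 2 ≤ (R * B + p * A) ^ 2 := by
    have := mul_le_mul h4 h5.2 (sq_nonneg y) (by positivity)
    nlinarith [sq_nonneg (R * B - p * A)]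
  have h7 := abs_le_of_sq_le_sq' h6 (by have := h5.1; positivity)
  nlinarith [h7.2, h5.2]

lemma Rb.step {b b' : Bath} {f : Fin b'.m → CV b.m} (hc : Comp (imp b 0) b' f)
    (hf : ∀ k, f k ∈ 𝒞.D b.m) {R : ℝ}
    (h : ∀ F ∈ 𝒞.D b.m, 2 * (β * cc b F) - (imp b 0).Q a F ≤ R) : Rb (b'.scale β) a R := by
  intro (u : Fin b'.m → ℝ)
  have h1 := h _ (emb_mem hf u)
  have h2 : cc b (emb f u) = b'.g ⬝ᵥ u := hc.σ_emb u
  rw [show (imp b 0).Q a (emb f u) = b'.pre.Q a u from hc.Q_emb a u, h2] at h1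
  change 2 * (u ⬝ᵥ β • b'.g) - b'.pre.Q a u ≤ R
  rwa [dotProduct_smul, dotProduct_comm, smul_eq_mul]

lemma Rb.nil {R : ℝ} (hR : 0 ≤ R) : Rb Bath.nil a R := fun u => by
  obtain rfl : u = 0 := funext fun i => i.elim0
  simpa [Pre.Q] using hR

lemma cc_le_Gs {t : Bath} (ht : Tw0 𝒞 β t) {F : CV t.m} (hF : F ∈ 𝒞.D t.m) (ha : a < lam 𝒞 β) :
    0 ≤ (imp t 0).Q a F ∧ cc t F ^ 2 ≤ Gs 𝒞 β a * (imp t 0).Q a F :=
  sq_le_of_quad fun τ => by
    have := le_Gs okStmt ht (Submodule.smul_mem _ τ hF) ha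
    simp only [Pre.Q, map_smul, LinearMap.smul_apply, smul_eq_mul, cc] at this ⊢
    linarith

lemma rb_Gs {t : Bath} (ht : Tw0 𝒞 β t) (ha : a ∈ Ico 0 (lam 𝒞 β)) :
    Rb t a (β ^ 2 * Gs 𝒞 β a) := by
  have hG := one_le_Gs okStmt ha
  cases ht with
  | nil => exact Rb.nil (by positivity)
  | step ht hf hc _ =>
    refine Rb.step hc hf fun F hF => ?_
    have h := cc_le_Gs ht hF ha.2
    have h2 : (2 * (β * cc _ F)) ^ 2 ≤ (β ^ 2 * Gs 𝒞 β a + (imp _ 0).Q a F) ^ 2 := by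
      nlinarith [sq_nonneg (β ^ 2 * Gs 𝒞 β a - (imp _ 0).Q a F),
        mul_le_mul_of_nonneg_left h.2 (sq_nonneg β)]
    have h3 := abs_le_of_sq_le_sq' h2 (by have := h.1; positivity)
    linarith [h3.2]

/-- the best constant for irreducible functions -/
def p1 (𝒞 : Cls) (β a : ℝ) : ℝ := Gs 𝒞 β a / (1 + a * Gs 𝒞 β a) - β ^ 2 * Gs 𝒞 β a

lemma K2 (ha : a ∈ Ico 0 (lam 𝒞 β)) {p : ℝ} (hp : 0 < p) (h : ∀ t, Tw0 𝒞 β t → Irr 𝒞 t a p) :
    p1 𝒞 β a ≤ p := by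
  have hG := one_le_Gs okStmt ha
  have h0 := ha.1
  set ρ := β ^ 2 * Gs 𝒞 β a + p with hρ
  have hρ0 : 0 < ρ := by positivity
  rw [p1, sub_le_iff_le_add', div_le_iff₀ (by positivity), ← hρ]
  rcases le_or_gt 1 (a * ρ) with h1 | h1
  · nlinarith
  have h2 : Gs 𝒞 β a ≤ ρ / (1 - a * ρ) := by
    refine csSup_le (Gs_ne _ _ _) ?_
    rintro _ ⟨t, ht, F, hF, rfl⟩
    have h3 := (step (by positivity) hp (rb_Gs ht ha) (h t ht) hF).2
    rw [← hρ, BB] at h3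
    rw [le_div_iff₀ (by linarith), ← mul_le_mul_iff_right₀ hρ0]
    change ρ * ((2 * cc t F - _) * _) ≤ _
    nlinarith [sq_nonneg (ρ - (1 - a * ρ) * cc t F), mul_le_mul_of_nonneg_left h3 (sub_pos.2 h1).le]
  rw [le_div_iff₀ (by linarith)] at h2
  linarith

lemma merge {b : Bath} (hb : Tw0 𝒞 β b) {t : Bath} (ht : Tw0 𝒞 β t) (hg : Good 𝒞 β t) :
    ∃ t', Tw0 𝒞 β t' ∧ Good 𝒞 β t' ∧ (∃ W, Mor (lam 𝒞 β) b.pre t'.pre W) ∧
      ∃ W, Mor (lam 𝒞 β) t.pre t'.pre W := by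
  induction hb with
  | nil =>
    refine ⟨t, ht, hg, ⟨0, ⟨fun u => ?_, fun u => ?_, fun u => ?_⟩⟩, _, Mor.refl _ _⟩ <;>
      obtain rfl : u = 0 := (funext fun i => i.elim0) <;> simp [Pre.Q]
  | @step b b' f _ hf hc _ ih =>
    obtain ⟨t', ht', hg', ⟨W, hW⟩, W', hW'⟩ := ih
    obtain ⟨Φ, hΦ, hΦ'⟩ := lift0 m1Stmt m2Stmt ht' hW
    obtain ⟨V, hV, hD⟩ := id hg'
    obtain ⟨b'', f'', hc'', hb'', -, hs, hg'', -⟩ := good_next okStmt m1Stmt m2Stmt ht' hg'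
      ((finite_range fun k => (Φ ∘ₗ emb f) (Pi.single k 1)).union
        (finite_range fun k => V (Pi.single k 1)))
      (union_subset (by rintro _ ⟨k, rfl⟩; exact hΦ' _ (emb_mem hf _).1)
        (by rintro _ ⟨k, rfl⟩; exact hD _))
    exact ⟨_, hb'', hg'', ⟨_, hc''.mor_co (okStmt t' 0).1 (((hc.mor _).comp hΦ).scale β) fun u =>
      hs _ (Submodule.span_mono subset_union_left (mem_span_range (Φ ∘ₗ emb f) u))⟩, _,
      hW'.comp (hc''.mor_co (okStmt t' 0).1 hV fun u =>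
        hs _ (Submodule.span_mono subset_union_right (mem_span_range V u)))⟩

/-- above every tower there is one with almost maximal response -/
lemma above (ha : a < lam 𝒞 β) {x : ℝ} (hx : x < Gs 𝒞 β a) {t : Bath} (ht : Tw0 𝒞 β t) :
    ∃ t', Tw0 𝒞 β t' ∧ (∃ W, Mor (lam 𝒞 β) t.pre t'.pre W) ∧
      ∃ r, t'.A *ᵥ r = t'.g + a • r ∧ β ^ 2 * x ≤ r ⬝ᵥ t'.g := by
  obtain ⟨_, ⟨t0, ht0, F0, hF0, rfl⟩, hx0⟩ := exists_lt_of_lt_csSup (Gs_ne 𝒞 β a) hx
  obtain ⟨t1, ht1, hg1, W1, hW1⟩ := exists_good okStmt m1Stmt m2Stmt ht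
  obtain ⟨t2, ht2, hg2, ⟨W0, hW0⟩, W2, hW2⟩ := merge ht0 ht1 hg1
  obtain ⟨Φ, hΦ, hΦ'⟩ := lift0 m1Stmt m2Stmt ht2 hW0
  obtain ⟨F, hF, hxF⟩ := Near.lift (𝒞 := 𝒞) ⟨F0, hF0, hx0.le⟩ ha.le hΦ hΦ'
  obtain ⟨V, hV, hD⟩ := id hg2
  obtain ⟨b, f, hc, hb, -, hs, -, -⟩ := good_next okStmt m1Stmt m2Stmt ht2 hg2
    ((finite_range fun k => V (Pi.single k 1)).insert F)
    (insert_subset hF (by rintro _ ⟨k, rfl⟩; exact hD _))
  have o := okStmt t2 0
  have hge : b.Ge (lam 𝒞 β) := hb.ge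
  obtain ⟨r, hr⟩ := solve b hge ha b.g
  have hy := hs F (Submodule.subset_span (mem_insert _ _))
  have h1 := gal (fun u => (mul_le_mul_of_nonneg_right ha.le (dot_nonneg u)).trans (hge u)) hr
    (co (imp t2 0) f F)
  rw [hc.σ_co o.1 hy, hc.Q_co o.1 hy] at h1
  refine ⟨_, hb, ⟨_, (hW1.comp hW2).comp (hc.mor_co o.1 hV fun u =>
    hs _ (Submodule.span_mono (subset_insert _ _) (mem_span_range V u)))⟩, β • r, ?_, ?_⟩
  · change b.A *ᵥ β • r = β • b.g + a • β • r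
    rw [mulVec_smul, hr, smul_add, smul_comm β a]
  · change _ ≤ (β • r) ⬝ᵥ β • b.g
    rw [smul_dotProduct, dotProduct_smul, smul_eq_mul, smul_eq_mul, ← mul_assoc, ← sq]
    exact mul_le_mul_of_nonneg_left (hxF.trans h1) (sq_nonneg β)

lemma p1_pos (h0 : 0 ≤ β) (h1 : β < 1) (ha : a ∈ Ico 0 (lam 𝒞 β)) : 0 < p1 𝒞 β a := by
  have hG := one_le_Gs okStmt ha
  have he := edge okStmt m1Stmt m2Stmt linStmt h0 h1 ha
  have h2 := ha.1
  rw [p1, sub_pos, lt_div_iff₀ (by positivity)]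
  nlinarith [mul_le_mul_of_nonneg_left he h0]

lemma K1 (ha : a ∈ Ico 0 (lam 𝒞 β)) {t : Bath} (ht : Tw0 𝒞 β t) :
    Irr 𝒞 t a (p1 𝒞 β a) := fun F hF hd => by
  have hG := one_le_Gs okStmt ha
  have h2 := ha.1
  have hγ : 0 < 1 + a * Gs 𝒞 β a := by positivity
  have hB : 0 ≤ BB t a F := add_nonneg (cc_le_Gs ht hF ha.2).1 (by positivity)
  have key : ∀ x ∈ Ioo 0 (Gs 𝒞 β a),
      cc t F ^ 2 + β ^ 2 * x * BB t a F ≤ Gs 𝒞 β a / (1 + a * Gs 𝒞 β a) * BB t a F := fun x hx => by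
    obtain ⟨t', ht', ⟨W, hW⟩, r, hr, hx'⟩ := above ha.2 hx.2 ht
    obtain ⟨G, hGm, hd', hc, hQ, -⟩ := lift_irr 𝒞 h2 (hW.mono ha.2.le) hF hd
    have hBG : BB t' a G ≤ BB t a F := by rw [BB, BB, hc]; linarith
    have hQr : t'.pre.Q a r = r ⬝ᵥ t'.g := by rw [pre_Q, hr]; simp
    set R := r ⬝ᵥ t'.g with hR
    have hR0 : 0 ≤ R := le_trans (by have := hx.1; positivity) hx'
    have h3 : ∀ α τ : ℝ, (α * cc t F + τ * R) ^ 2 ≤
        Gs 𝒞 β a / (1 + a * Gs 𝒞 β a) * (α ^ 2 * BB t a F + τ ^ 2 * R) := fun α τ => by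
      have h4 := split t' a (F := α • G) (by rw [map_smul, hd', smul_zero]) (τ • r)
      have h5 := (cc_le_Gs ht' (add_mem (Submodule.smul_mem _ α hGm)
        (lin_mem linStmt 𝒞 t' (τ • r))) ha.2).2
      have h6 : t'.pre.Q a (τ • r) = τ ^ 2 * R := by
        rw [← hQr]; simp only [Pre.Q, map_smul, LinearMap.smul_apply, smul_eq_mul]; ring
      rw [cc_smul, BB_smul, h6, smul_dotProduct, smul_eq_mul, hc, ← hR, BB] at h4
      rw [div_mul_eq_mul_div, le_div_iff₀ hγ, ← h4.1]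
      nlinarith [mul_le_mul_of_nonneg_left hBG (mul_nonneg (zero_le_one.trans hG) (sq_nonneg α)),
        h4.2]
    rcases hB.eq_or_lt with hB0 | hB0
    · simpa [← hB0] using h3 1 0
    · rcases (add_nonneg (sq_nonneg (cc t F)) (mul_nonneg hB hR0)).eq_or_lt with h7 | h7
      · have := mul_le_mul_of_nonneg_left hx' hB
        have : 0 ≤ Gs 𝒞 β a / (1 + a * Gs 𝒞 β a) * BB t a F := by positivity
        nlinarith
      · have h8 := h3 (cc t F) (BB t a F)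
        have h9 : cc t F ^ 2 + BB t a F * R ≤ Gs 𝒞 β a / (1 + a * Gs 𝒞 β a) * BB t a F :=
          le_of_mul_le_mul_left (by nlinarith) h7
        nlinarith [mul_le_mul_of_nonneg_left hx' hB]
  have h10 : cc t F ^ 2 + β ^ 2 * Gs 𝒞 β a * BB t a F ≤
      Gs 𝒞 β a / (1 + a * Gs 𝒞 β a) * BB t a F := by
    have hc : ContinuousWithinAt (fun x => cc t F ^ 2 + β ^ 2 * x * BB t a F) (Ioo 0 (Gs 𝒞 β a))
        (Gs 𝒞 β a) := by fun_prop
    exact ContinuousWithinAt.closure_le (by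
      rw [closure_Ioo (by linarith)]; exact right_mem_Icc.2 (by linarith)) hc
      continuousWithinAt_const key
  rw [p1]
  linarith

lemma p1_mono (h0 : 0 ≤ β) (h1 : β < 1) {a' : ℝ} (ha : 0 ≤ a) (h : a ≤ a') (ha' : a' < lam 𝒞 β) :
    p1 𝒞 β a ≤ p1 𝒞 β a' := by
  have hp := p1_pos h0 h1 ⟨ha.trans h, ha'⟩
  refine K2 ⟨ha, h.trans_lt ha'⟩ hp fun t ht F hF hd =>
    (K1 ⟨ha.trans h, ha'⟩ ht F hF hd).trans (mul_le_mul_of_nonneg_left ?_ hp.le)
  rw [BB_eq, BB_eq]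
  nlinarith [cc_sq_le t F]

lemma mul_p1 (ha : a ∈ Ico 0 (lam 𝒞 β)) : a * p1 𝒞 β a =
    (1 - β) ^ 2 - (1 - β * (1 + a * Gs 𝒞 β a)) ^ 2 / (1 + a * Gs 𝒞 β a) := by
  have hG := one_le_Gs okStmt ha
  have h2 := ha.1
  have hγ : 0 < 1 + a * Gs 𝒞 β a := by positivity
  rw [p1]; field_simp; ring

/-- **(E1)** square-root behaviour -/
lemma E1 (h0 : 0 ≤ β) (h1 : β < 1) {a' : ℝ} (ha : 0 ≤ a) (h : a ≤ a') (ha' : a' < lam 𝒞 β) :
    (1 - β) ^ 2 * (a' - a) ≤ a' * (1 - β * (1 + a * Gs 𝒞 β a)) ^ 2 := by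
  have m1 : a ∈ Ico 0 (lam 𝒞 β) := ⟨ha, h.trans_lt ha'⟩
  have m2 : a' ∈ Ico 0 (lam 𝒞 β) := ⟨ha.trans h, ha'⟩
  have hG := one_le_Gs okStmt m1
  have hG' := one_le_Gs okStmt m2
  have h2 := mul_p1 m1
  have h3 : a' * p1 𝒞 β a' ≤ (1 - β) ^ 2 := by
    rw [mul_p1 m2]; exact sub_le_self _ (by have := m2.1; positivity)
  have h4 : (1 - β * (1 + a * Gs 𝒞 β a)) ^ 2 / (1 + a * Gs 𝒞 β a) ≤
      (1 - β * (1 + a * Gs 𝒞 β a)) ^ 2 := div_le_self (sq_nonneg _) (by nlinarith)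
  have h5 := mul_le_mul_of_nonneg_left (p1_mono h0 h1 ha h ha') (mul_nonneg ha m2.1)
  nlinarith [mul_le_mul_of_nonneg_left h3 ha, mul_le_mul_of_nonneg_left h4 m2.1]

/-- **(E2)** the edge -/
lemma E2 (h0 : 0 < β) (h1 : β < 1) (hl : 0 < lam 𝒞 β) {η : ℝ} (hη : 0 < η) :
    ∃ a ∈ Ico 0 (lam 𝒞 β), 1 - η < β * (1 + a * Gs 𝒞 β a) := by
  by_contra hc
  push Not at hc
  set l := lam 𝒞 β with hl'
  have hd : 0 < 1 - β := sub_pos.2 h1
  set δ := min (l / 2) (η ^ 2 * β * l / 8) with hδ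
  have hδ0 : 0 < δ := lt_min (by positivity) (by positivity)
  have hδ1 : δ ≤ l / 2 := min_le_left _ _
  have hδ2 : δ ≤ η ^ 2 * β * l / 8 := min_le_right _ _
  have m : l - δ ∈ Ico 0 l := ⟨by linarith, by linarith⟩
  have hG := one_le_Gs okStmt m
  have hp := p1_pos h0.le h1 m
  set p := p1 𝒞 β (l - δ)
  have h2 : (l - δ) * p ≤ (1 - β) ^ 2 - η ^ 2 * β := by
    have h3 := hc _ m
    have h4 := m.1
    rw [mul_p1 m]
    refine sub_le_sub_left ?_ _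
    rw [le_div_iff₀ (by positivity)]
    have : η ^ 2 ≤ (1 - β * (1 + (l - δ) * Gs 𝒞 β (l - δ))) ^ 2 :=
      pow_le_pow_left₀ hη.le (by linarith) 2
    nlinarith [sq_nonneg η]
  have h3 : (l + 3 * δ) * p ≤ (1 - β) ^ 2 := by
    have h4 : l / 2 * p ≤ 1 := by nlinarith [mul_pos (pow_pos hη 2) h0]
    have h5 : δ * p ≤ η ^ 2 * β * l / 8 * p := mul_le_mul_of_nonneg_right hδ2 hp.le
    nlinarith [mul_le_mul_of_nonneg_left h4 (mul_pos (pow_pos hη 2) h0).le]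
  have ha : 0 < l + δ := by linarith
  have key : ∀ t, Tw0 𝒞 β t → Rb t (l + δ) (β * (1 - β) / (l + δ)) := fun t ht => by
    induction ht with
    | nil => exact Rb.nil (by positivity)
    | @step b b' f hb hf hc' _ ih =>
      have hge : b.Ge (l + δ) := (ge_iff _ _).2 fun u => (ih.sq u).1
      have hi : Irr 𝒞 b (l + δ) ((l + 3 * δ) * p / (l + δ)) := fun F hF hdF => by
        have h4 := K1 m hb F hF hdF
        have h5 := chaos ha.le hge hF.2 hdF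
        rw [div_mul_eq_mul_div, le_div_iff₀ ha]
        rw [BB_eq] at h4 ⊢
        nlinarith [mul_le_mul_of_nonneg_left h4 ha.le,
          mul_le_mul_of_nonneg_left h5 (mul_pos hδ0 hp).le]
      refine Rb.step hc' hf fun F hF => ?_
      obtain ⟨h4, h5⟩ := step (by positivity) (by positivity) ih hi hF
      have h6 : (l + δ) * cc b F ^ 2 ≤ (1 - β) * BB b (l + δ) F := by
        rw [← add_div, div_mul_eq_mul_div, le_div_iff₀ ha] at h5
        nlinarith [mul_le_mul_of_nonneg_right h3 h4]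
      rw [BB] at h6
      rw [le_div_iff₀ ha, ← mul_le_mul_iff_right₀ hd]
      nlinarith [mul_nonneg h0.le (sq_nonneg ((1 - β) - (l + δ) * cc b F)),
        mul_le_mul_of_nonneg_left h6 ha.le]
  have : l + δ ≤ l := by
    refine le_csInf (Set.nonempty_iff_ne_empty.2 fun he => ?_) ?_
    · rw [hl', lam, he, Real.sInf_empty] at hl; exact lt_irrefl _ hl
    · rintro _ ⟨t, ht, u, hu, rfl⟩
      have := ((key t ht).sq u).1
      rw [pre_Q, hu] at this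
      linarith
  linarith

/-- **the response is not Lipschitz at the edge** -/
theorem edge_gap (h0 : 0 < β) (h1 : β < 1) (hl : 0 < lam 𝒞 β) (K : ℝ) :
    ∃ a a', 0 ≤ a ∧ a < a' ∧ a' < lam 𝒞 β ∧ K * (lam 𝒞 β - a) < Gs 𝒞 β a' - Gs 𝒞 β a := by
  set l := lam 𝒞 β with hl'
  have hd : 0 < 1 - β := sub_pos.2 h1
  set s := min (1 / 2) ((1 - β) / (8 + 8 * (|K| * l ^ 2))) with hs
  have hs0 : 0 < s := lt_min (by norm_num) (by positivity)
  have hs1 : s ≤ 1 / 2 := min_le_left _ _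
  have hs2 : s * (8 + 8 * (|K| * l ^ 2)) ≤ 1 - β := (le_div_iff₀ (by positivity)).1 (min_le_right _ _)
  have hq : s ^ 2 ≤ 1 / 4 := by nlinarith
  have hls : 0 < l * s ^ 2 := by positivity
  have ha2 : l / 2 ≤ l - 2 * (l * s ^ 2) := by nlinarith
  set a := l - 2 * (l * s ^ 2) with ha
  have m : a ∈ Ico 0 l := ⟨by linarith, by linarith⟩
  have hG := one_le_Gs okStmt m
  have he := edge okStmt m1Stmt m2Stmt linStmt h0.le h1 m
  have h2 := E1 h0.le h1 m.1 (a' := l - l * s ^ 2) (by linarith) (by linarith)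
  have h3 : (1 - β) * s ≤ 1 - β * (1 + a * Gs 𝒞 β a) := by
    refine abs_le_of_sq_le_sq' (le_of_mul_le_mul_left ?_ hl) (by linarith) |>.2
    nlinarith [sq_nonneg (1 - β * (1 + a * Gs 𝒞 β a))]
  obtain ⟨a', m', h4⟩ := E2 h0 h1 hl (η := (1 - β) * s / 2) (by positivity)
  have hG' := one_le_Gs okStmt m'
  have h5 : a < a' := by
    by_contra h
    have h6 := Gs_mono okStmt (not_lt.1 h) m.2
    have h7 : a' * Gs 𝒞 β a' ≤ a * Gs 𝒞 β a := mul_le_mul (not_lt.1 h) h6 (by linarith) m.1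
    nlinarith [mul_le_mul_of_nonneg_left h7 h0.le, mul_pos hd hs0]
  have h6 := Gs_mono okStmt h5.le m'.2
  refine ⟨a, a', m.1, h5, m'.2, ?_⟩
  have h7 : β * (l * Gs 𝒞 β a) ≤ 2 := by
    nlinarith [mul_le_mul_of_nonneg_left (mul_le_mul_of_nonneg_right ha2 (zero_le_one.trans hG)) h0.le]
  have h8 : a' * Gs 𝒞 β a' - a * Gs 𝒞 β a ≤
      l * (Gs 𝒞 β a' - Gs 𝒞 β a) + 2 * s ^ 2 * (l * Gs 𝒞 β a) := by
    nlinarith [mul_le_mul_of_nonneg_right m'.2.le (zero_le_one.trans hG')]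
  have h9 : (1 - β) * s / 2 - 4 * s ^ 2 < β * (l * (Gs 𝒞 β a' - Gs 𝒞 β a)) := by
    nlinarith [mul_le_mul_of_nonneg_left h8 h0.le, mul_le_mul_of_nonneg_left h7 (sq_nonneg s)]
  have h10 : β * (l * (Gs 𝒞 β a' - Gs 𝒞 β a)) ≤ l * (Gs 𝒞 β a' - Gs 𝒞 β a) :=
    mul_le_of_le_one_left (mul_nonneg hl.le (sub_nonneg.2 h6)) h1.le
  have h11 : K * (l - a) ≤ |K| * (2 * (l * s ^ 2)) := by
    rw [show l - a = 2 * (l * s ^ 2) by rw [ha]; ring]
    exact mul_le_mul_of_nonneg_right (le_abs_self K) (by positivity)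
  refine h11.trans_lt (lt_of_mul_lt_mul_left ?_ hl.le)
  nlinarith [mul_le_mul_of_nonneg_left hs2 hs0.le, mul_nonneg (abs_nonneg K) (sq_nonneg (l * s))]

end Crest.Agent.T157.Rn.Edge

end
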