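import Crest.Agent.T157.RnEdge_60
import Crest.Agent.T157.RnSm_16
import Crest.Agent.T157.LowA_85

/-!
# Row 157, block B/R (helper60): the lower bound on the autocorrelation

Approximate solutions of `(-L - a) φ = s` at two values of `a` near the edge force spectral mass
of the spins near `lam`.
-/

set_option autoImplicit false

noncomputable section

namespace Crest.Agent.T157.Rn

open MeasureTheory Real Matrix Set Filter
open Crest.ProbabilityR.SpinGlassDynamics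
open Crest.Agent.T157.E (Cube mean gen prob sv)
open Crest.Agent.T157.Tw
open Crest.Agent.T157.Chain22 (ip hbRC sg_eq gen_eq ip_smul_left ip_sub_left ip_add_left isP_prob')

/-- approximate local solutions of `(-L - a) φ = s` with the maximal response -/
def Loc0 : Prop := ∀ 𝒞 : Cls, (∀ m, 𝒞.C m = PV m) → ∀ β, 0 < β → β < 1 →
  ∀ a ∈ Ico 0 (lam 𝒞 β), ∀ e > (0 : ℝ), ∃ b U, XT β 0 b U ∧ ∃ φ ∈ Od b.m, ∃ G ∈ Od b.m,
    (∀ s, Sm (φ.1 s)) ∧ (∀ s, Sm (G.1 s)) ∧ UF U φ.1 ∧ (∀ s X, G.1 s X = AA b 0 φ.1 s X) ∧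
    (imp b 0).N (G - a • φ - sp _) (G - a • φ - sp _) ≤ e ∧
    |(imp b 0).N (sp _) φ - Gs 𝒞 β a| ≤ e ∧ (imp b 0).N φ φ ≤ 1 / (lam 𝒞 β - a) ^ 2

/-- approximate resolvent in SK: overlap `x`, squared norm at most `M` -/
def Res (β a x M : ℝ) : Prop := ∀ ε > (0 : ℝ), Top.Whp disorderLaw fun n g =>
  ∃ φ : Fin n → Cube n → ℝ,
    |(∑ i, mean (gibbsWeight n β g) fun σ => sv σ i * φ i σ) / n - x| ≤ ε ∧
    (∑ i, mean (gibbsWeight n β g) fun σ =>
      (gen (gibbsWeight n β g) (φ i) σ + a * φ i σ + sv σ i) ^ 2) / n ≤ ε ∧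
    (∑ i, mean (gibbsWeight n β g) fun σ => φ i σ * φ i σ) / n ≤ M + ε

namespace LB

lemma mode {x s p p' a a' l e δ τ T : ℝ} (haa : a ≤ a') (ha' : a' ≤ l) (he : 0 < e) (hδ : 0 < δ)
    (hτ : 0 < τ) (hT : 0 ≤ T) : s * p' - s * p ≤ ((l - a) / e ^ 2 + δ) * (s * s) +
      (((x - a) * p - s) ^ 2 + ((x - a') * p' - s) ^ 2) / (2 * δ * e ^ 2) +
      τ * (p * p + p' * p') / 2 + exp ((l + e) * T) / τ * (exp (-(x * T)) * (s * s)) := by
  have s0 := mul_self_nonneg s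
  have h0 : 0 ≤ (l - a) / e ^ 2 := div_nonneg (by linarith) (sq_nonneg e)
  rcases le_total x (l + e) with hx | hx
  · have h1 : 1 / τ * (s * s) ≤ exp ((l + e) * T) / τ * (exp (-(x * T)) * (s * s)) := by
      rw [← mul_assoc (_ / τ) (exp _), div_mul_eq_mul_div (exp _), ← exp_add]
      exact mul_le_mul_of_nonneg_right (div_le_div_of_nonneg_right
        (one_le_exp (by nlinarith)) hτ.le) s0
    have h2 : s * p' - s * p ≤ τ * (p * p + p' * p') / 2 + 1 / τ * (s * s) := by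
      rw [← mul_le_mul_iff_right₀ hτ, mul_add, ← mul_assoc τ (1 / τ), mul_one_div_cancel hτ.ne']
      nlinarith [sq_nonneg (τ * p' - s), sq_nonneg (τ * p + s)]
    have h3 : 0 ≤ (((x - a) * p - s) ^ 2 + ((x - a') * p' - s) ^ 2) / (2 * δ * e ^ 2) := by
      positivity
    nlinarith [mul_nonneg (add_nonneg h0 hδ.le) s0]
  · have k : ∀ r u, e ≤ u → s * (r / u) ≤ δ / 2 * (s * s) + r ^ 2 / (2 * δ * e ^ 2) := fun r u hu => by
      have u0 := he.trans_le hu
      have h1 : (r / u) ^ 2 / (2 * δ) ≤ r ^ 2 / (2 * δ * e ^ 2) := by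
        rw [div_pow, div_div, mul_comm]; gcongr
      refine le_trans ?_ (add_le_add le_rfl h1)
      rw [← sub_le_iff_le_add', le_div_iff₀ (by positivity)]
      nlinarith [sq_nonneg (δ * s - r / u)]
    have u0 : 0 < x - a := by linarith
    have u1 : 0 < x - a' := by linarith
    have k1 := k (-((x - a) * p - s)) (x - a) (by linarith)
    have k2 := k ((x - a') * p' - s) (x - a') (by linarith)
    have k3 : (a' - a) / ((x - a) * (x - a')) ≤ (l - a) / e ^ 2 := by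
      rw [sq]; gcongr <;> linarith
    have e1 : s * p' - s * p = (a' - a) / ((x - a) * (x - a')) * (s * s) +
        s * (-((x - a) * p - s) / (x - a)) + s * (((x - a') * p' - s) / (x - a')) := by
      field_simp; ring
    have h3 : 0 ≤ τ * (p * p + p' * p') / 2 := by
      have := mul_self_nonneg p; have := mul_self_nonneg p'; positivity
    have h4 : 0 ≤ exp ((l + e) * T) / τ * (exp (-(x * T)) * (s * s)) := by positivity
    rw [neg_sq] at k1
    rw [e1, add_div]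
    nlinarith [mul_le_mul_of_nonneg_right k3 s0]

variable {n : ℕ} {w : Cube n → ℝ}

lemma res_sq (hn : 0 < n) (hw : ∀ x, 0 < w x) (a : ℝ) (f φ : Cube n → ℝ) :
    mean w (fun σ => (gen w φ σ + a * φ σ + f σ) ^ 2) = ∑ j, ((n * (1 - (hbRC hn hw).ev j) - a) *
      ip (prob w) φ ((hbRC hn hw).φ j) - ip (prob w) f ((hbRC hn hw).φ j)) ^ 2 := by
  have e : (fun σ => gen w φ σ + a * φ σ + f σ) =
      (n : ℝ) • ((hbRC hn hw).P *ᵥ φ - φ) + a • φ + f := funext fun σ => by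
    rw [gen_eq hn hw]; rfl
  have h := (hbRC hn hw).parseval (fun σ => gen w φ σ + a * φ σ + f σ)
    fun σ => gen w φ σ + a * φ σ + f σ
  simp only [sq]
  refine h.trans (Finset.sum_congr rfl fun j _ => ?_)
  rw [e, ip_add_left, ip_add_left, ip_smul_left, ip_smul_left, ip_sub_left, (hbRC hn hw).ip_P_φ]
  change _ = (_ * ip (hbRC hn hw).π _ _ - ip (hbRC hn hw).π _ _) *
    (_ * ip (hbRC hn hw).π _ _ - ip (hbRC hn hw).π _ _)
  ring

/-- **spectral inequality** -/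
lemma spec (hn : 0 < n) (hw : ∀ x, 0 < w x) (f φ φ' : Cube n → ℝ) {a a' l e δ τ T : ℝ} (haa : a ≤ a')
    (ha' : a' ≤ l) (he : 0 < e) (hδ : 0 < δ) (hτ : 0 < τ) (hT : 0 ≤ T) :
    ip (prob w) f φ' - ip (prob w) f φ ≤ ((l - a) / e ^ 2 + δ) * ip (prob w) f f +
      (mean w (fun σ => (gen w φ σ + a * φ σ + f σ) ^ 2) +
        mean w fun σ => (gen w φ' σ + a' * φ' σ + f σ) ^ 2) / (2 * δ * e ^ 2) +
      τ * (ip (prob w) φ φ + ip (prob w) φ' φ') / 2 +
      exp ((l + e) * T) / τ * ip (prob w) f (Chain22.sg w T f) := by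
  have p : ∀ f g, ip (prob w) f g = ∑ j, ip (prob w) f ((hbRC hn hw).φ j) *
    ip (prob w) g ((hbRC hn hw).φ j) := (hbRC hn hw).parseval
  have q : ip (prob w) f (Chain22.sg w T f) = ∑ j, exp (-(n * T * (1 - (hbRC hn hw).ev j))) *
      (ip (prob w) f ((hbRC hn hw).φ j) * ip (prob w) f ((hbRC hn hw).φ j)) := by
    rw [sg_eq hn hw]; exact (hbRC hn hw).ip_H_spec _ f f
  rw [q, res_sq hn hw, res_sq hn hw, p f φ', p f φ, p f f, p φ φ, p φ' φ']
  simp only [← Finset.sum_add_distrib, ← Finset.sum_sub_distrib, Finset.mul_sum, Finset.sum_div]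
  refine Finset.sum_le_sum fun j _ => ?_
  have := mode (x := n * (1 - (hbRC hn hw).ev j)) (s := ip (prob w) f ((hbRC hn hw).φ j))
    (p := ip (prob w) φ ((hbRC hn hw).φ j)) (p' := ip (prob w) φ' ((hbRC hn hw).φ j))
    haa ha' he hδ hτ hT
  rwa [mul_right_comm (n : ℝ) _ T] at this

end LB

open LB

/-- realisation of the local solutions -/
theorem res_of (hL : Loc0) (hO : OutStmt) {𝒞 : Cls} (h𝒞 : ∀ m, 𝒞.C m = PV m) {β a : ℝ} (h0 : 0 < β)
    (h1 : β < 1) (ha : a ∈ Ico 0 (lam 𝒞 β)) : Res β a (Gs 𝒞 β a) (1 / (lam 𝒞 β - a) ^ 2) := by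
  intro ε hε
  have he : 0 < ε / 6 := by positivity
  obtain ⟨b, U, hx, φ, o1, G, o2, s1, s2, uf, hG, k1, k2, k3⟩ := hL 𝒞 h𝒞 β h0 h1 a ha _ he
  obtain ⟨Y, hY⟩ := hO β h0.le h1 b U hx
  have s0 : ∀ s, Sm ((sp b.m).1 s) := fun s k => smStmt.const _ k _
  have o3 : G - a • φ - sp _ ∈ Od b.m := sub_mem (sub_mem o2 (Submodule.smul_mem _ _ o1)) (sp_odd _)
  have e3 : ∀ s X, (G - a • φ - sp b.m).1 s X = G.1 s X + (-a * φ.1 s X + -1 * sg s) := fun s X => by
    change G.1 s X - a * φ.1 s X - sg s = _; ring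
  have s3 : ∀ s, Sm ((G - a • φ - sp b.m).1 s) := fun s k => by
    rw [funext (e3 s)]
    exact smStmt.add _ _ _ _ (s2 s k) (smStmt.add _ _ _ _
      (smStmt.mul _ _ _ _ (smStmt.const _ _ _) (s1 s k)) (smStmt.const _ _ _))
  refine ((((hY.N _ (sp_odd _) φ o1 s0 s1 _ he).and (hY.N φ o1 φ o1 s1 s1 _ he)).and
    (hY.N _ o3 _ o3 s3 s3 _ he)).and (hY.gen φ o1 G o2 s1 uf hG _ he)).imp ?_
  rintro n g ⟨⟨⟨a1, a2⟩, a3⟩, a4⟩
  refine ⟨fun i σ => φ.1 (σ i) (Y n g i σ), ?_, ?_, by linarith [(abs_le.1 a2).2]⟩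
  · have := (abs_sub_le _ _ _).trans (add_le_add a1 k2)
    exact this.trans (by linarith)
  · have a5 := add_le_add (mul_le_mul_of_nonneg_left ((sub_le_iff_le_add.1 (abs_le.1 a3).2).trans
      (add_le_add le_rfl k1)) zero_le_two) (mul_le_mul_of_nonneg_left a4 zero_le_two)
    refine le_trans ?_ (a5.trans (by linarith))
    rw [← mul_add, ← add_div, ← mul_div_assoc, ← Finset.sum_add_distrib, Finset.mul_sum]
    refine div_le_div_of_nonneg_right (Finset.sum_le_sum fun i _ => ?_) n.cast_nonneg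
    simp only [mean, ← Finset.sum_add_distrib, Finset.mul_sum, ← mul_add]
    refine Finset.sum_le_sum fun σ _ => ?_
    rw [mul_left_comm]
    refine mul_le_mul_of_nonneg_left ?_ ((isP_prob' fun _ => exp_pos _).nn σ)
    rw [e3, show sv σ i = sg (σ i) from rfl]
    nlinarith [sq_nonneg (gen (gibbsWeight n β g) (fun σ => φ.1 (σ i) (Y n g i σ)) σ +
      2 * G.1 (σ i) (Y n g i σ) - a * φ.1 (σ i) (Y n g i σ) - sg (σ i))]

/-- **the lower bound** from approximate resolvents -/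
theorem lb_of_res {𝒞 : Cls} {β : ℝ} (h0 : 0 < β) (h1 : β < 1) (hl : 0 < lam 𝒞 β)
    (h : ∀ a ∈ Ico 0 (lam 𝒞 β), Res β a (Gs 𝒞 β a) (1 / (lam 𝒞 β - a) ^ 2)) :
    Low.LB β (lam 𝒞 β) := by
  intro e2 he2
  obtain ⟨e, rfl⟩ : ∃ e, e2 = 2 * e := ⟨e2 / 2, by ring⟩
  have he : 0 < e := by linarith
  obtain ⟨a, a', a0, haa, ha', hK⟩ := Edge.edge_gap h0 h1 hl (2 / e ^ 2)
  set l := lam 𝒞 β
  have c0 : 0 < l - a' := sub_pos.2 ha'
  have c1 : 0 < l - a := by linarith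
  set m := (l - a) / e ^ 2 with hm
  have m0 : 0 < m := by positivity
  set M := 1 / (l - a') ^ 2
  have hM : 1 / (l - a) ^ 2 ≤ M := by
    refine one_div_le_one_div_of_le (by positivity) (pow_le_pow_left₀ c0.le (by linarith) 2)
  have M0 : 0 < M := by positivity
  set τ := m / (8 * (M + 1)) with hτ
  have τ0 : 0 < τ := by positivity
  set ε := min (min 1 (m / 16)) (m ^ 2 * e ^ 2 / 64)
  have ε0 : 0 < ε := lt_min (lt_min one_pos (by positivity)) (by positivity)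
  have ε1 : ε ≤ 1 := (min_le_left _ _).trans (min_le_left _ _)
  have ε2 : ε ≤ m / 16 := (min_le_left _ _).trans (min_le_right _ _)
  have ε3 : ε ≤ m ^ 2 * e ^ 2 / 64 := min_le_right _ _
  set T := (|log (τ * m / 2)| + 1) / e with hT
  have T0 : 0 < T := by positivity
  have hT' : exp (-(e * T)) ≤ τ * m / 2 := by
    rw [← exp_log (show 0 < τ * m / 2 by positivity), hT, mul_div_cancel₀ _ he.ne']
    exact exp_le_exp.2 (by linarith [neg_abs_le (log (τ * m / 2))])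
  refine ⟨T, T0, ((h a ⟨a0, by linarith⟩ ε ε0).and (h a' ⟨by linarith, ha'⟩ ε ε0)).mono ?_⟩
  filter_upwards [eventually_gt_atTop 0]
  rintro n hn g ⟨⟨φ, b1, b2, b3⟩, φ', d1, d2, d3⟩
  have n0 : (0 : ℝ) < n := by exact_mod_cast hn
  set w := gibbsWeight n β g
  have hw : ∀ x, 0 < w x := fun _ => exp_pos _
  have k := Finset.sum_le_sum fun i (_ : i ∈ Finset.univ) =>
    spec hn hw (fun σ => sv σ i) (φ i) (φ' i) haa.le ha'.le he (show 0 < m / 8 by positivity) τ0 T0.le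
  have e1 : ∀ i, ip (prob w) (fun σ => sv σ i) (fun σ => sv σ i) = 1 := fun i => by
    have : ∀ σ : Cube n, sv σ i * sv σ i = 1 := fun σ => by
      unfold sv spin; split_ifs <;> norm_num
    simp only [ip, this, mul_one]; exact (isP_prob' hw).sum1
  rw [← hm] at k
  clear_value m
  simp only [e1, Finset.sum_add_distrib, Finset.sum_sub_distrib, ← Finset.mul_sum, ← Finset.sum_div,
    Finset.sum_const, Finset.card_univ, Fintype.card_fin, nsmul_eq_mul, mul_one] at k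
  rw [← Low.Bf_eq, ← Low.B1_eq] at k
  rw [abs_le, le_sub_iff_add_le, sub_le_iff_le_add, le_div_iff₀ n0, div_le_iff₀ n0] at b1 d1
  rw [div_le_iff₀ n0] at b2 b3 d2 d3
  have k1 : (_ + _) / (2 * (m / 8) * e ^ 2) ≤ m / 8 * n :=
    (div_le_div_of_nonneg_right (add_le_add b2 d2) (by positivity)).trans (by
      rw [div_le_iff₀ (by positivity)]; nlinarith)
  have k2 : τ * (_ + _) / 2 ≤ m / 8 * n :=
    (div_le_div_of_nonneg_right (mul_le_mul_of_nonneg_left (add_le_add b3 d3) τ0.le)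
      zero_le_two).trans (by
        have : τ * (M + 1) = m / 8 := by rw [hτ]; field_simp
        nlinarith [mul_le_mul_of_nonneg_left (add_le_add hM ε1) (mul_pos τ0 n0).le,
          mul_le_mul_of_nonneg_left ε1 (mul_pos τ0 n0).le])
  have hK' : 2 * m < Gs 𝒞 β a' - Gs 𝒞 β a := by rwa [hm, ← mul_div_assoc, ← div_mul_eq_mul_div]
  have k3 : m / 2 * n ≤ exp ((l + e) * T) / τ * Low.B1 w T := by
    have b : ∑ i, ip (prob w) (fun σ => sv σ i) (φ i) ≤ _ := b1.2
    have d : _ ≤ ∑ i, ip (prob w) (fun σ => sv σ i) (φ' i) := d1.1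
    have k4 : τ * (∑ i, ip (prob w) (φ i) (φ i) + ∑ i, ip (prob w) (φ' i) (φ' i)) / 2 ≤ _ := k2
    linarith [mul_le_mul_of_nonneg_right hK'.le n0.le, mul_le_mul_of_nonneg_right ε2 n0.le]
  rw [div_mul_eq_mul_div, div_mul_eq_mul_div, le_div_iff₀ τ0] at k3
  rw [← mul_le_mul_iff_right₀ (exp_pos ((l + e) * T)), mul_left_comm, ← exp_add,
    show (l + e) * T + -((l + 2 * e) * T) = -(e * T) by ring]
  linarith [mul_le_mul_of_nonneg_left hT' n0.le]

/-- **the lower bound** -/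
theorem lb_of (hL : Loc0) (hO : OutStmt) (hP : LamPos) {𝒞 : Cls} (h𝒞 : ∀ m, 𝒞.C m = PV m) {β : ℝ}
    (h0 : 0 < β) (h1 : β < 1) : Low.LB β (lam 𝒞 β) :=
  lb_of_res h0 h1 (hP 𝒞 h𝒞 β h0.le h1) fun _ ha => res_of hL hO h𝒞 h0 h1 ha

end Crest.Agent.T157.Rn

end
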