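import Crest.Agent.T157.RnLB_60
import Crest.Agent.T157.LcLoc_30
import Crest.Agent.T157.LcPol_3

/-!
# Row 157, block B/R (helper60): local solutions at level zero from the contraction
-/

set_option autoImplicit false

noncomputable section

namespace Crest.Agent.T157.Rn

open MeasureTheory Real Matrix Set
open Crest.Agent.R238.Gap Crest.Agent.R253.Meh74
open Crest.Agent.T157.Tw

namespace Loc

variable {m : ℕ} {β : ℝ}

lemma sm_of_tw {f : E m → ℝ} (h : Tw.Sm f) : Sm f := fun k => by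
  induction k generalizing f with
  | zero => exact ⟨h.c1.cont, h.c1.g⟩
  | succ k ih => exact ⟨h.c1, fun i => ih (h.pd i)⟩

lemma hb_eq (h : ℝ) (s : Bool) : hb h s = (1 + sg s * tanh h) / 2 := by
  have := cosh_pos h
  rw [hb, tanh_eq_sinh_div_cosh]
  cases s
  · simp only [sg, Bool.false_eq_true, if_false, neg_mul, one_mul, ← cosh_sub_sinh]
    field_simp; ring
  · simp only [sg, if_true, one_mul, ← cosh_add_sinh]
    field_simp

lemma gen_AA (b : Bath) (ξ : ℝ) (F : SV b.m) (s : Bool) (X : E b.m) :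
    (Tw.gen b ξ F).1 s X = AA b ξ F.1 s X := by
  have h1 : (rsS b ξ F).1 s X = F.1 s X - ∑ t, hb (fld b ξ X) t * F.1 t X := by
    change 1 / 2 * (1 - sg s * tanh (fld b ξ X)) * (F.1 s X - F.1 (!s) X) = _
    cases s <;> simp [hb_eq, sg] <;> ring
  have h2 : (ouS b F).1 s X = ∑ a, ∑ a', b.A a a' *
      (pd a' (F.1 s) X * (X a - sg s * b.g a) - pd a (pd a' (F.1 s)) X) := by
    simp only [ouS, LinearMap.sum_apply, LinearMap.smul_apply, LinearMap.sub_apply,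
      LinearMap.comp_apply, LinearMap.mul_apply', AddSubmonoidClass.coe_finsetSum, Finset.sum_apply]
    refine Finset.sum_congr rfl fun i _ => Finset.sum_congr rfl fun j _ => ?_
    show b.A i j * ((X i - b.g i * sg s) * pd j (F.1 s) X - pd i (pd j (F.1 s)) X) = _
    ring
  rw [AA, ← h1, ← h2]; rfl

lemma st_zero (m : ℕ) : stS m 0 = sS m := by simp [stS]

lemma odd0 {F : ℝ → SV m} (h : OddF F) : cv m (F 0) ∈ Od m := fun s X => by
  have := h 0 s X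
  rwa [neg_zero] at this

lemma uf_pull (c : Cal) {k : ℕ} (ι : Matrix (Fin k) (Fin m) ℝ) (F : SV m) :
    UF (LinearMap.range ι.mulVecLin) (pull ι F).1 := fun s X =>
  ⟨fun i => (pull ι (dd i F)).1 s X, funext fun j => by
    have := congrArg (fun G : SV k => G.1 s X) (c.p_d ι j F)
    simp only [AddSubmonoidClass.coe_finsetSum, Finset.sum_apply] at this
    exact this.symm⟩

section step
variable {D : ℕ} {e e' : Ext} {f0 : Fin e'.b.m → ℝ → SV e.b.m} {f : Fin e'.bt.m → ℝ → SV e.bt.m}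

lemma emb_pull (h : Tw.Step β (.dirac 0) D e e' f0 f) (u : Fin e'.b.m → ℝ) :
    pull e.ι (emb (fun l => f0 l 0) u) = emb (fun k => f k 0) (e'.ι *ᵥ u) ∧
    Tw.gen e.bt 0 (pull e.ι (emb (fun l => f0 l 0) u)) =
      emb (fun k => f k 0) (e'.bt.A *ᵥ e'.ι *ᵥ u) := by
  have k : ∀ M : Matrix (Fin e'.bt.m) (Fin e'.b.m) ℝ,
      ∑ l, u l • ∑ k, M k l • f k 0 = emb (fun k => f k 0) (M *ᵥ u) := fun M => by
    simp only [emb_apply, Finset.smul_sum, smul_smul, mulVec, dotProduct, Finset.sum_smul]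
    rw [Finset.sum_comm]
    simp only [mul_comm]
  have h1 := fun l => (h.inc l)
  have h2 := fun l => (h.cl l)
  simp only [ae_dirac_eq, Filter.eventually_pure] at h1 h2
  rw [mulVec_mulVec, ← k, ← k, emb_apply]
  simp only [map_sum, map_smul, h2]
  simp only [h1, and_self]

lemma st_emb (h : Tw.Step β (.dirac 0) D e e' f0 f) : emb (fun l => f0 l 0) e'.b.g = β • sS _ := by
  have h1 := h.st
  simp only [ae_dirac_eq, Filter.eventually_pure, st_zero] at h1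
  rw [h1, emb_apply]

lemma comp_t (h : Tw.Step β (.dirac 0) D e e' f0 f) :
    Comp ((imS e.bt 0).scale β) e'.bt fun k => f k 0 :=
  ⟨fun k l => by rw [← h.on, Nb, integral_dirac]; rfl,
    fun k l => by rw [← h.en, Eb, integral_dirac]; rfl, fun k => by
      rw [← h.g, Nb, integral_dirac]; simp [Pre.scale, imS]⟩

lemma single_emb {V : Type} [AddCommGroup V] [Module ℝ V] {k : ℕ} (f : Fin k → V) (l : Fin k) :
    emb f (Pi.single l 1) = f l := by simp [emb]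

lemma comp_u (c : Cal) (h : Tw.Step β (.dirac 0) D e e' f0 f) :
    Comp ((imp e.b 0).scale β) e'.b fun l => cv _ (f0 l 0) := by
  have h1 : ∀ l, pull e.ι (f0 l 0) = emb (fun k => f k 0) (e'.ι *ᵥ Pi.single l 1) := fun l => by
    rw [← (emb_pull h _).1, single_emb]
  have h2 : ∀ (M : Matrix (Fin e'.bt.m) (Fin e'.bt.m) ℝ) k l,
      (e'.ι *ᵥ Pi.single k 1) ⬝ᵥ M *ᵥ e'.ι *ᵥ Pi.single l 1 = (e'.ιᵀ * M * e'.ι) k l := fun M k l => by
    rw [mulVec_mulVec, dotProduct_comm, dotProduct_mulVec, ← mulVec_transpose, mulVec_mulVec,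
      Matrix.mul_assoc]
    simp
  have on : ∀ k l, (imS e.b 0).N (f0 k 0) (f0 l 0) = if k = l then 1 else 0 := fun k l => by
    rw [← c.p_N, h1, h1]
    refine ((comp_t h).N_emb _ _).trans ?_
    have := h2 1 k l
    rwa [one_mulVec, Matrix.mul_one, e'.iso, one_apply] at this
  refine ⟨on, fun k l => ?_, fun k => ?_⟩
  · change (imS e.b 0).En (f0 k 0) (f0 l 0) = _
    rw [← c.p_En, h1, h1, e'.hA, ← h2]
    exact (comp_t h).En_emb _ _
  · change (imS e.b 0).N (β • sS _) (f0 k 0) = _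
    rw [← st_emb h, (c.ok _ _).sN, bil_emb]
    simp [on, dotProduct]

lemma xt_step {U : Submodule ℝ (Fin e.bt.m → ℝ)} (hx : XT β 0 e.bt U)
    (h : Tw.Step β (.dirac 0) D e e' f0 f) (hU : ∀ u, UF U (pull e.ι (emb (fun l => f0 l 0) u)).1) :
    XT β 0 e'.bt (LinearMap.range e'.ι.mulVecLin) := by
  have k : ∀ v, (∑ a, v a • cv _ (f a 0)).1 = (emb (fun k => f k 0) v).1 := fun v => by
    rw [emb_apply]; simp only [← map_smul, ← map_sum]; rfl
  have k' : ∀ (v : Fin e'.bt.m → ℝ) s X,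
      ∑ a, v a * (cv _ (f a 0)).1 s X = (emb (fun k => f k 0) v).1 s X := fun v s X => by
    rw [← k]; simp
  refine .step (c := 0) (f := fun k => cv _ (f k 0)) hx ⟨fun a s => sm_of_tw ((f a 0).2 s),
    fun a => odd0 (h.c1 a).2.1, fun a a' => ?_, (comp_t h).en, fun a => ?_, fun s X => ?_,
    dotProduct_zero _, fun _ => rfl⟩ ?_
  · rw [← (comp_t h).on]; simp [Pre.scale, imS]
  · rw [← h.g, Nb, integral_dirac, zero_mul, zero_add]; rfl
  · rw [k', e'.hg, ← (emb_pull h _).1, st_emb h]; rfl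
  · rintro _ ⟨u, rfl⟩
    refine ⟨?_, dotProduct_zero _, fun s X => ?_⟩
    · rw [k, mulVecLin_apply, ← (emb_pull h _).1]; exact hU u
    · rw [k', k, mulVecLin_apply, ← (emb_pull h _).1, ← (emb_pull h _).2, gen_AA]

end step

/-- a polynomial as an element of the smooth algebra -/
lemma exists_pol {G : CV m} (h : G ∈ PV m) : ∃ D, ∃ P ∈ PolS m D, cv m P = G := by
  choose p hp using h
  have hs : ∀ s, Tw.Sm (G.1 s) := fun s => by
    rw [funext (hp s)]; exact Pol3.sm_pl (Hm.eval_mem (p s) (Nat.lt_succ_self _))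
  exact ⟨Finset.univ.sup fun s => (p s).totalDegree, ⟨G.1, hs⟩, fun s =>
    ⟨p s, Finset.le_sup (f := fun s => (p s).totalDegree) (Finset.mem_univ s), hp s⟩, rfl⟩

/-- an odd polynomial as a family -/
lemma exists_fam (c : Cal) (fa : FamApi) (b : Bath) {D : ℕ} {P : SV b.m} (hP : P ∈ PolS b.m D)
    (ho : cv _ P ∈ Od b.m) : ∃ v, Cl0 b D v ∧ v 0 = P := by
  obtain ⟨ρ, h1, -, -, h2⟩ := fa.refl b.m
  have hρ : ρ P = -P := Subtype.ext (funext fun s => funext fun X => (h1 P s X).trans (ho s X))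
  have he : ∀ ξ, exS b (-ξ) P = -exS b ξ P := fun ξ => by
    have := (h2 b.A b.g b.psd ξ P P).1
    rw [hρ, map_neg] at this
    exact neg_eq_iff_eq_neg.1 this
  have h0 : exS b 0 P = 0 := by have := he 0; rw [neg_zero] at this; linarith
  refine ⟨fun ξ => P - algebraMap ℝ _ (exS b ξ P), ⟨sub_mem (fa.cst hP) (fa.ex0 b _ (fa.cst hP)),
    fun ξ s X => ?_, fun ξ => ?_, fun ξ => ?_⟩, by simp [h0]⟩
  · change P.1 (!s) (-X) - exS b (-ξ) P = -(P.1 s X - exS b ξ P)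
    rw [he, show P.1 (!s) (-X) = -P.1 s X from ho s X]; ring
  · rw [map_sub, Algebra.algebraMap_eq_smul_one, map_smul, c.ex1, smul_eq_mul, mul_one, sub_self]
  · simp only [Algebra.algebraMap_eq_smul_one]
    exact sub_mem hP (Submodule.smul_mem _ _ (polApi.one _ _))

lemma s_mem (m D : ℕ) : sS m ∈ PolS m D := by simpa using polApi.s (polApi.one m D)

/-- Galerkin solutions at zero field are odd -/
lemma gal_odd (c : Cal) (fa : FamApi) (ga : GalStmt) {b : Bath} {l y : ℝ} (hb : Coer b l)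
    (hy : -l < y) {D : ℕ} {φ : SV b.m} (h : Gal b 0 y D φ) : cv _ φ ∈ Od b.m := by
  obtain ⟨ρ, h1, h3, -, h2⟩ := fa.refl b.m
  have hs : ρ (sS _) = -sS _ := Subtype.ext (funext fun s => funext fun X =>
    (h1 _ s X).trans (sp_odd _ s X))
  have k := fun F G => h2 b.A b.g b.psd 0 F G
  simp only [neg_zero] at k
  have hm := neg_mem (h3 D φ h.1)
  have h4 := ((ga b l hb D y hy).2 0 φ h).2 _ hm
  have h5 : Jf b 0 y (-ρ φ) = Jf b 0 y φ := by
    have := (k (sS _) φ).2.1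
    rw [hs] at this
    simp only [Jf, Mf, map_neg, LinearMap.neg_apply, neg_neg] at this ⊢
    rw [← this, ← (k φ φ).2.1, ← (k φ φ).2.2]
  have h6 := hb.2 0 D _ (sub_mem hm h.1)
  have h7 := (c.ok b 0).pN (-ρ φ - φ)
  have h8 : (imS b 0).N (-ρ φ - φ) (-ρ φ - φ) = 0 := by
    rw [h5, Mf] at h4; nlinarith
  have h9 : exS b 0 (-ρ φ - φ) = 0 := by
    rw [map_sub, map_neg, show exS b 0 (ρ φ) = exS b 0 φ from (k φ φ).1, h.2.1]; simp
  rw [c.N, h9, mul_zero, sub_zero] at h8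
  intro s X
  have := congrArg (fun F : SV b.m => F.1 s X) (c.defn _ _ _ h8)
  change -(ρ φ).1 s X - φ.1 s X = 0 at this
  rw [h1] at this
  change φ.1 (!s) (-X) = -φ.1 s X
  linarith

/-- the one-dimensional bath -/
def b1 (t : Bath) : Bath := ⟨1, (imp t 0).En (sp _) (sp _) • 1, fun _ => 1,
  PosSemidef.one.smul ((okStmt t 0).1.pE _)⟩

lemma tw_b1 {𝒞 : Cls} {t : Bath} (ht : Tw0 𝒞 β t) : Tw0 𝒞 β ((b1 t).scale β) := by
  have n1 : (imp t 0).N (sp _) (sp _) = 1 := (okStmt t 0).2.1.trans sech2_zero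
  refine ht.step (f := fun _ => sp _) (fun _ => sp_mem _ _) ⟨fun (k l : Fin 1) => ?_,
    fun (k l : Fin 1) => ?_, fun _ => n1⟩ ?_
  · exact n1.trans (if_pos (Subsingleton.elim k l)).symm
  · obtain rfl := Subsingleton.elim k l
    simp [b1]
  · change (imp t 0).N (sp _ - ∑ _k : Fin 1, _) (sp _ - ∑ _k : Fin 1, _) = 0
    simp [n1]

lemma xt_b1 (t : Bath) : XT β 0 ((b1 ((b1 t).scale β)).scale β) ⊥ := by
  refine .base (c := 0) (α := fun _ => 1) ⟨fun (k l : Fin 1) => ?_, fun _ => ?_, ?_,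
    dotProduct_zero _, fun _ => rfl, fun (k l : Fin 1) => ?_⟩
  · exact Eq.trans (show (0 : ℝ) * 0 + 1 * 1 = 1 by ring) (if_pos (Subsingleton.elim k l)).symm
  · change 0 * 0 + β * 1 = β * 1; ring
  · change ∑ _k : Fin 1, β * 1 * 1 = β; simp
  · obtain rfl := Subsingleton.elim k l
    rw [one_mul, one_mul, (modelStmt _ _ (sp_odd _)).2.1]
    change (imp ((b1 t).scale β) 0).En (sp _) (sp _) * (1 : Matrix (Fin 1) (Fin 1) ℝ) k k = _
    rw [one_apply_eq, mul_one, (modelStmt _ _ (sp_odd _)).2.1]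
    rfl

lemma inSp_emb {V : Type} [AddCommGroup V] [Module ℝ V] {H : Pre V} {b : Bath} {f : Fin b.m → V}
    (h : Comp H b f) (ok : H.Ok) (u : Fin b.m → ℝ) : InSp H f (emb f u) := by
  have : co H f (emb f u) = u := funext fun k => by
    rw [co_apply, ok.sN, bil_emb]; simp [h.on, dotProduct]
  rw [inSp_iff, this, sub_self]; simp

lemma mor_co {V V1 : Type} [AddCommGroup V] [Module ℝ V] [AddCommGroup V1] [Module ℝ V1] {H : Pre V}
    {b : Bath} {f : Fin b.m → V} (h : Comp H b f) (ok : H.Ok) {a : ℝ} {H1 : Pre V1} {W : V1 →ₗ[ℝ] V}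
    (hW : Mor a H1 H W) (hy : ∀ u, InSp H f (W u)) : Mor a H1 b.pre (co H f ∘ₗ W) :=
  ⟨fun u => (h.N_co ok (hy u)).le.trans (hW.N u), fun u => (h.σ_co ok (hy u)).trans (hW.σ u),
    fun u => (h.Q_co ok (hy u) a).le.trans (hW.Q u)⟩

lemma base (c : Cal) (tw : TwStep) (ex : ExtStmt) {𝒞 : Cls} (h𝒞 : ∀ m, 𝒞.C m = PV m) (hβ : β ≠ 0) :
    ∃ e : Ext, XT β 0 e.bt (LinearMap.range e.ι.mulVecLin) ∧ TwL admStmt 𝒞 β e.b := by
  obtain ⟨t, t1, t2⟩ : ∃ t, TwL admStmt 𝒞 β t ∧ XT β 0 t ⊥ :=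
    ⟨_, .base (tw_b1 (tw_b1 .nil)), xt_b1 _⟩
  obtain ⟨e, f0, f, hs, -, -⟩ := ex β (.dirac 0) 0 ⟨t, t, 1, by simp, by simp, by simp⟩ ∅ ∅
    finite_empty finite_empty (fun _ h => h.elim) fun _ h => h.elim
  refine ⟨e, xt_step t2 hs fun u s X => funext fun j => ?_, tw 𝒞 h𝒞 β hβ _ _ _ _ _ _ hs t1⟩
  have h1 := fun j => polApi.d0 j (emb_mem (fun l => (hs.c0 l).2.2.2 0) u)
  have := congrArg (fun G : SV t.m => G.1 s X) (c.p_d 1 j (emb (fun l => f0 l 0) u))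
  simp only [h1, map_zero, smul_zero, Finset.sum_const_zero] at this
  exact this

lemma arith {l a G x N E γ : ℝ} (a0 : 0 ≤ a) (c0 : 0 < l - a) (hG : G ≤ 1 / (l - a)) (N0 : 0 ≤ N)
    (g1 : -a * N + E = x) (g2 : -a * x + γ = 1) (g3 : l * N ≤ E) (g4 : -(-a * N + E - 2 * x) ≤ 1 * G) :
    N ≤ 1 / (l - a) ^ 2 ∧ γ ^ 2 ≤ (1 + a * G) ^ 2 ∧ E ≤ G + a * (1 / (l - a) ^ 2) := by
  have g9 : N ≤ 1 / (l - a) ^ 2 := by
    rw [le_div_iff₀ c0] at hG
    rw [le_div_iff₀ (by positivity)]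
    nlinarith [mul_le_mul_of_nonneg_left (show (l - a) * N ≤ G by linarith) c0.le]
  have x0 : 0 ≤ x := by linarith [mul_nonneg c0.le N0]
  exact ⟨g9, pow_le_pow_left₀ (by linarith [mul_nonneg a0 x0]) (by
    linarith [mul_le_mul_of_nonneg_left (show x ≤ G by linarith) a0]) 2,
    by linarith [mul_le_mul_of_nonneg_left g9 a0]⟩

/-- the output at a level with small residual functional -/
lemma fin (c : Cal) (fa : FamApi) (fx : FixStmt) (ga : GalStmt) {l a G ε : ℝ} (a0 : 0 ≤ a) (ha : a < l)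
    (hε : 0 < ε) (hG1 : 1 ≤ G) (hG2 : G ≤ 1 / (l - a)) {e : Ext} (co' : Coer e.b l) (re : Resp e.b a G)
    {D0 : ℕ} {P : SV e.b.m} (hP : P ∈ PolS e.b.m D0)
    (hxF : G - ε ≤ 2 * (imp e.b 0).N (sp _) (cv _ P) - (imp e.b 0).Q a (cv _ P))
    (eps : ∀ y ≥ -a, e.Eps l y (ε * (l - a) / 4 / ((1 + a * G) ^ 2 + (G + a * (1 / (l - a) ^ 2))))) :
    ∃ φ ∈ Od e.bt.m, ∃ F ∈ Od e.bt.m, (∀ s, Sm (φ.1 s)) ∧ (∀ s, Sm (F.1 s)) ∧
      UF (LinearMap.range e.ι.mulVecLin) φ.1 ∧ (∀ s X, F.1 s X = AA e.bt 0 φ.1 s X) ∧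
      (imp e.bt 0).N (F - a • φ - sp _) (F - a • φ - sp _) ≤ ε ∧
      |(imp e.bt 0).N (sp _) φ - G| ≤ ε ∧ (imp e.bt 0).N φ φ ≤ 1 / (l - a) ^ 2 := by
  have c0 : 0 < l - a := sub_pos.2 ha
  set K := (1 + a * G) ^ 2 + (G + a * (1 / (l - a) ^ 2)) with hK
  have K0 : 0 < K := by positivity
  set η := ε * (l - a) / 4 / K with hη
  obtain ⟨C, C0, fx⟩ := fx e l a a0 ha co'
  obtain ⟨D1, hD1⟩ := exists_nat_gt (C / (ε * (l - a) / 4))
  obtain ⟨⟨_, _, _, -, hφ⟩, ga'⟩ := ga e.b l co' (D0 + D1 + 1) (-a) (by linarith)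
  obtain ⟨φ, hφ⟩ : ∃ φ, Gal e.b 0 (-a) (D0 + D1 + 1) φ := ⟨_, hφ 0⟩
  obtain ⟨u, hu⟩ := exists_sol co'.1 (y := -a) (by linarith)
  obtain ⟨-, r1, r2, er, k1, -, k2⟩ := fx (D0 + D1 + 1) (by omega) 0 (-a) le_rfl φ hφ η
    (fun y hy => eps y (by linarith)) u hu
  obtain ⟨v, hv, rfl⟩ := exists_fam c fa e.b hφ.1 (gal_odd c fa ga co' (by linarith) hφ)
  have o := c.ok e.b 0
  have o' := c.ok e.bt 0
  have g1 := hφ.2.2 _ hφ.1
  have g2 := hφ.2.2 _ (s_mem _ _)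
  have g3 := co'.2 0 _ _ hφ.1
  have g4 := re 0 _ _ hφ.1 (-a) le_rfl (by linarith)
  have hP' := polApi.mono _ (show D0 ≤ D0 + D1 + 1 by omega) hP
  have g5 := (ga' 0 _ hφ).2 P hP'
  have g6 := co'.2 0 _ _ (sub_mem hP' hφ.1)
  have g7 := mul_nonneg c0.le (o.pN (P - v 0))
  have g8 : G - ε ≤ -Jf e.b 0 (-a) P := hxF.trans (le_of_eq (by
    change _ = -(-a * (imp e.b 0).N (cv _ P) (cv _ P) + (imp e.b 0).En (cv _ P) (cv _ P) -
      2 * (imp e.b 0).N (sp _) (cv _ P))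
    rw [Pre.Q]; ring))
  rw [g5] at g8
  rw [c.Ns, o.sN, o.sE, sech2_zero] at g2
  simp only [Jf, Mf, sech2_zero] at g4 g8
  obtain ⟨g9, q2, q3⟩ := arith a0 c0 hG2 (o.pN _) g1 g2 g3 g4
  have p1 := fa.pull e _ v hv
  refine ⟨cv _ (pull e.ι (v 0)), odd0 p1.2.1, cv _ (Tw.gen e.bt 0 (pull e.ι (v 0))),
    odd0 (fa.gen _ _ p1).2.1, fun s => sm_of_tw ((pull e.ι (v 0)).2 s),
    fun s => sm_of_tw ((Tw.gen e.bt 0 (pull e.ι (v 0))).2 s), uf_pull c _ _, gen_AA _ _ _, ?_, ?_,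
    (c.p_N e 0 _ _).trans_le g9⟩
  · set r3 := (imS e.b 0).En (sS _) (v 0) • linS _ (e.w u) + r2
    have e1 : cv _ (Tw.gen e.bt 0 (pull e.ι (v 0))) - a • cv _ (pull e.ι (v 0)) - sp _ =
        cv _ (r1 + r3) := by
      rw [← er, st_zero]
      refine Subtype.ext (funext fun s => funext fun X => ?_)
      change _ - a * _ - sg s = -a * (pull e.ι (v 0)).1 s X + _ - sg s
      exact congrArg (· - sg s) (by rw [neg_mul, neg_add_eq_sub]; rfl)
    rw [e1]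
    change (imS e.bt 0).N (r1 + r3) (r1 + r3) ≤ ε
    have q1 : C / ((D0 + D1 + 1 : ℕ) : ℝ) ≤ ε * (l - a) / 4 := by
      rw [div_lt_iff₀ (by positivity)] at hD1
      rw [div_le_iff₀ (by positivity)]
      push_cast
      nlinarith [mul_pos hε c0, mul_nonneg (mul_pos hε c0).le (Nat.cast_nonneg (α := ℝ) D0)]
    have η0 : 0 ≤ η := by positivity
    have q4 : K * η = ε * (l - a) / 4 := by rw [hη]; field_simp
    have q5 := k2.trans (add_le_add ((mul_le_mul_of_nonneg_left (eps _ le_rfl u hu) (sq_nonneg _)).trans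
      (mul_le_mul_of_nonneg_right q2 η0)) (mul_le_mul_of_nonneg_right q3 η0))
    rw [← add_mul, ← hK, q4] at q5
    have q6 := o'.pN (r1 - r3)
    simp only [map_add, map_sub, LinearMap.add_apply, LinearMap.sub_apply, Mf] at q5 q6 k1 ⊢
    refine le_of_mul_le_mul_left ?_ c0
    linarith [o'.pE r1, o'.pE r3, mul_nonneg c0.le q6]
  · rw [show (imp e.bt 0).N (sp _) (cv _ (pull e.ι (v 0))) = _ from c.p_N e 0 (sS _) (v 0), abs_le]
    constructor <;> linarith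
end Loc

open Loc

/-- **local solutions at level zero** -/
theorem loc0_of (c : Cal) (fa : FamApi) (fx : FixStmt) (ga : GalStmt) (one : OneStmt) (tw : TwStep)
    (ex : ExtStmt) : Loc0 := by
  intro 𝒞 h𝒞 β hβ hβ1 a ha ε hε
  obtain ⟨hG1, hG2, hG⟩ := (lamStmt 𝒞 β hβ.le hβ1).2.2.2 a ha
  obtain ⟨_, ⟨t0, ht0, F0, hF0, rfl⟩, hx0⟩ :=
    exists_lt_of_lt_csSup (Gs_ne 𝒞 β a) (sub_lt_self (Gs 𝒞 β a) hε)
  set l := lam 𝒞 β
  set G := Gs 𝒞 β a
  have c0 : 0 < l - a := sub_pos.2 ha.2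
  have a0 := ha.1
  have cr := fun b (hb : TwL admStmt 𝒞 β b) => coer_resp polApi h𝒞 ha.2 hb
  obtain ⟨ω, Ω, θ, θ0, θ1, hω, one⟩ := one β l a G hβ ha.1 ha.2 (by linarith)
    (by nlinarith [mul_pos hβ c0])
  have Ω0 : 0 < Ω := by linarith [hω 0]
  set T := ε * (l - a) / 4 / ((1 + a * G) ^ 2 + (G + a * (1 / (l - a) ^ 2))) / Ω
  have T0 : 0 < T := by positivity
  let St : Ext → ℝ → Prop := fun e S => XT β 0 e.bt (LinearMap.range e.ι.mulVecLin) ∧
    TwL admStmt 𝒞 β e.b ∧ ∀ y ≥ -a, e.Eps l y (S * ω y)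
  have mono : ∀ e S S', St e S → S ≤ S' → St e S' := fun e S S' h hS => ⟨h.1, h.2.1,
    fun y hy => (h.2.2 y hy).mono (mul_le_mul_of_nonneg_right hS (by linarith [hω y]))⟩
  have ok : ∀ b, ((imp b 0).scale β).Ok := fun b =>
    have o := (okStmt b 0).1
    ⟨o.sN, o.sE, o.pN, o.pE, o.null⟩
  have step : ∀ e S, St e S → 0 ≤ S → ∀ δ > (0 : ℝ), ∀ (k : ℕ) (F : Fin k → CV e.b.m),
      (∀ i, F i ∈ 𝒞.D e.b.m) → ∃ e', St e' (θ * S + δ) ∧ ∃ f,
        Comp ((imp e.b 0).scale β) e'.b f ∧ ∀ i, InSp ((imp e.b 0).scale β) f (F i) := by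
    intro e S h S0 δ δ0 k F hF
    obtain ⟨D0, h0⟩ := one (.dirac 0) e (cr _ h.2.1).1 (cr _ h.2.1).2 S S0 h.2.2 δ δ0
    choose D1 P hP eP using fun i => exists_pol (h𝒞 _ ▸ (hF i).1)
    obtain ⟨𝒱, hf, hc, h0⟩ := h0 (D0 + Finset.univ.sup D1) (by omega)
    choose v hv ev using fun i => exists_fam c fa e.b (polApi.mono _ (le_add_left
      (Finset.le_sup (f := D1) (Finset.mem_univ i)) : _ ≤ D0 + _) (hP i)) ((eP i).symm ▸ (hF i).2)
    obtain ⟨e', f0, f, hs, hin, -⟩ := ex β (.dirac 0) _ e (𝒱 ∪ range v) ∅ (hf.union (finite_range v))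
      finite_empty (fun w hw => hw.elim (hc w) (by rintro ⟨i, rfl⟩; exact hv i)) fun _ h => h.elim
    refine ⟨e', ⟨xt_step h.1 hs fun u => uf_pull c _ _, tw 𝒞 h𝒞 β hβ.ne' _ _ _ _ _ _ hs h.2.1,
      (h0 e' f0 f hs fun w hw => hin w (.inl hw)).1⟩, _, comp_u c hs, fun i => ?_⟩
    obtain ⟨u, hu⟩ := hin _ (.inr ⟨i, rfl⟩)
    simp only [ae_dirac_eq, Filter.eventually_pure] at hu
    have : F i = emb (fun l => cv _ (f0 l 0)) u := by
      rw [← eP, ← ev, hu, emb_apply, map_sum]; simp only [map_smul]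
    rw [this]
    exact inSp_emb (comp_u c hs) (ok _) u
  obtain ⟨e0, X1, T1⟩ := base c tw ex h𝒞 hβ.ne'
  obtain ⟨S0, S00, hS0⟩ := e0.eps0 (cr _ T1).1.1 ha.2
  have ph1 : ∀ k : ℕ, ∃ e, St e (θ ^ k * S0 + T / 2) := fun k => by
    induction k with
    | zero => exact ⟨e0, X1, T1, fun y hy => (hS0 y hy).mono (by nlinarith [hω y])⟩
    | succ k ih =>
      obtain ⟨e, he⟩ := ih
      obtain ⟨e', he', -⟩ := step e _ he (by positivity) ((1 - θ) * (T / 2))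
        (mul_pos (by linarith) (by linarith)) 0 Fin.elim0 fun i => i.elim0
      exact ⟨e', mono _ _ _ he' (le_of_eq (by ring))⟩
  obtain ⟨k, hk⟩ := exists_pow_lt_of_lt_one (show 0 < T / 2 / (S0 + 1) by positivity) θ1
  rw [lt_div_iff₀ (by positivity)] at hk
  obtain ⟨e1, he1⟩ := ph1 k
  replace he1 := mono _ _ T he1 (by nlinarith [pow_nonneg θ0 k])
  have lift : ∀ (t : Bath) (e : Ext) W, TwL admStmt 𝒞 β e.b → Mor l t.pre e.b.pre W →
      ∃ Φ, Mor l (imp t 0) (imp e.b 0) Φ ∧ ∀ F ∈ 𝒞.C t.m, Φ F ∈ 𝒞.D e.b.m := fun t e W h hW => by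
    obtain ⟨Φ, hΦ, hM⟩ := lift_odd m1Stmt m2Stmt 𝒞 (lam_nonneg 𝒞 β) (cr _ h).1.1 hW
    refine ⟨Φ, ⟨fun F => ?_, fun F => ?_, fun F => ?_⟩, hΦ⟩
    · simpa [sech2_zero] using (hM 0 F).1
    · exact ((one_mul _).symm.trans (by rw [sech2_zero]; rfl)).trans (hM 0 F).2.1
    · simpa [sech2_zero] using (hM 0 F).2.2 _ ⟨lam_nonneg 𝒞 β, le_rfl⟩
  have dom : ∀ t, Tw0 𝒞 β t → ∃ e, St e T ∧ ∃ W, Mor l t.pre e.b.pre W := fun t ht => by
    induction ht with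
    | nil =>
      refine ⟨e1, he1, 0, fun u => ?_, fun u => ?_, fun u => ?_⟩ <;>
        obtain rfl : u = 0 := (funext fun i => i.elim0) <;> simp [Pre.Q]
    | @step b b' g _ hg hc _ ih =>
      obtain ⟨e, he, W, hW⟩ := ih
      obtain ⟨Φ, hΦ, hΦ'⟩ := lift b e W he.2.1 hW
      obtain ⟨e', he', g', hc', hs'⟩ := step e T he T0.le ((1 - θ) * T) (mul_pos (by linarith) T0) _
        (fun k => (Φ ∘ₗ emb g) (Pi.single k 1)) fun k => hΦ' _ (emb_mem hg _).1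
      exact ⟨e', mono _ _ _ he' (le_of_eq (by ring)), _, mor_co hc' (ok _)
        (((hc.mor l).comp hΦ).scale β) fun u => (Submodule.span_le (p := spn (ok _) g')).2
          (by rintro _ ⟨k, rfl⟩; exact hs' k) (mem_span_range (Φ ∘ₗ emb g) u)⟩
  obtain ⟨e, he, W, hW⟩ := dom t0 ht0
  obtain ⟨Φ, hΦ, hΦ'⟩ := lift t0 e W he.2.1 hW
  obtain ⟨F, hF, hxF⟩ := Near.lift (𝒞 := 𝒞) ⟨F0, hF0, hx0.le⟩ ha.2.le hΦ hΦ'
  obtain ⟨D0, P, hP, rfl⟩ := exists_pol (h𝒞 _ ▸ hF.1)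
  exact ⟨e.bt, _, he.1, fin c fa fx ga a0 ha.2 hε hG1 hG2 (cr _ he.2.1).1 (cr _ he.2.1).2 hP hxF
    fun y hy => (he.2.2 y hy).mono (by
      have := mul_le_mul_of_nonneg_left (hω y).2 T0.le
      rwa [div_mul_cancel₀ _ Ω0.ne'] at this)⟩

end Crest.Agent.T157.Rn

end
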