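import Crest.Agent.T157.RnDef_60

/-!
# Row 157, block B/R (helper66): the value layer (`Rn.V1Glue`, `Rn.V23Glue`)
-/

set_option autoImplicit false

noncomputable section

namespace Crest.Agent.T157.Rn

open MeasureTheory ProbabilityTheory Real Matrix Filter Topology
open Crest.Agent.R238.Gap Crest.Agent.R238.GapPc Crest.Agent.R253.Meh74
open Crest.Agent.T157.E (Cube)
open Crest.Agent.T157.Tw
open Crest.Agent.T157.Pl (one cmul)
open scoped NNReal ENNReal

namespace V66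

section order
variable {Ω : ℕ → Type} [∀ n, MeasurableSpace (Ω n)] {T T' : ℕ → Type} {P : ∀ n, Measure (Ω n)}
  {a b : ℕ → ℝ} {A : ∀ n, T n → Prop} {A' : ∀ n, T' n → Prop} {X Y : ∀ n, T n → Ω n → ℝ}

lemma ob_reindex (h : Ob P a A X) (r : ∀ n, T' n → T n) (hA : ∀ n t, A' n t → A n (r n t)) :
    Ob P a A' fun n t => X n (r n t) :=
  ⟨fun n _ => h.1 n _, fun q => (h.2 q).imp fun _ hC => hC.mono fun n hn t ht => hn _ (hA n t ht)⟩

lemma ob_congr (h : Ob P a A X) (hY : ∀ n t, Measurable (Y n t))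
    (e : ∀ n t, A n t → ∀ ω, Y n t ω = X n t ω) : Ob P a A Y :=
  ⟨hY, fun q => (h.2 q).imp fun _ hC => hC.mono fun n hn t ht => by
    rw [funext (e n t ht)]; exact hn t ht⟩

lemma ob_mono (h : Ob P a A X) (e : ∀ᶠ n in atTop, |a n| ≤ |b n|) : Ob P b A X :=
  ⟨h.1, fun q => (h.2 q).imp fun _ hC => (hC.and e).mono fun n hn t ht => (hn.1 t ht).trans <| by
    gcongr
    rw [enorm_eq_nnnorm, enorm_eq_nnnorm]
    exact_mod_cast hn.2⟩

lemma ob_add (h : Ob P a A X) (h' : Ob P a A Y) : Ob P a A fun n t ω => X n t ω + Y n t ω := by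
  refine ⟨fun n t => (h.1 n t).add (h'.1 n t), fun q => ?_⟩
  obtain ⟨C, hC⟩ := h.2 q
  obtain ⟨C', hC'⟩ := h'.2 q
  refine ⟨C + C', (hC.and hC').mono fun n hn t ht => ?_⟩
  rcases Nat.eq_zero_or_pos q with rfl | hq
  · simp
  refine (eLpNorm_add_le (h.1 n t).aestronglyMeasurable (h'.1 n t).aestronglyMeasurable
    (by exact_mod_cast hq)).trans ?_
  rw [ENNReal.coe_add, add_mul]
  exact add_le_add (hn.1 t ht) (hn.2 t ht)

lemma ob_smul (c : ℝ) (h : Ob P a A X) : Ob P a A fun n t ω => c * X n t ω := by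
  refine ⟨fun n t => (h.1 n t).const_mul c, fun q => ?_⟩
  obtain ⟨C, hC⟩ := h.2 q
  refine ⟨‖c‖₊ * C, hC.mono fun n hn t ht => ?_⟩
  refine (eLpNorm_const_smul_le (c := c) (f := X n t)).trans ?_
  rw [ENNReal.coe_mul, mul_assoc]
  exact mul_le_mul_right (hn t ht) _

lemma ob_sub (h : Ob P a A X) (h' : Ob P a A Y) : Ob P a A fun n t ω => X n t ω - Y n t ω := by
  simpa [sub_eq_add_neg] using ob_add h (ob_smul (-1) h')

lemma ob_mul (h : Ob P a A X) (h' : Ob P b A Y) :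
    Ob P (fun n => a n * b n) A fun n t ω => X n t ω * Y n t ω := by
  refine ⟨fun n t => (h.1 n t).mul (h'.1 n t), fun q => ?_⟩
  obtain ⟨C, hC⟩ := h.2 (2 * q)
  obtain ⟨C', hC'⟩ := h'.2 (2 * q)
  refine ⟨C * C', (hC.and hC').mono fun n hn t ht => ?_⟩
  have : ENNReal.HolderTriple ((2 * q : ℕ) : ℝ≥0∞) ((2 * q : ℕ) : ℝ≥0∞) (q : ℝ≥0∞) := ⟨by
    rw [Nat.cast_mul, Nat.cast_ofNat, ENNReal.mul_inv (by simp) (by simp), ← add_mul,
      ENNReal.inv_two_add_inv_two, one_mul]⟩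
  refine (eLpNorm_smul_le_mul_eLpNorm (p := ((2 * q : ℕ) : ℝ≥0∞)) (q := ((2 * q : ℕ) : ℝ≥0∞))
    (h'.1 n t).aestronglyMeasurable (h.1 n t).aestronglyMeasurable).trans ?_
  rw [ENNReal.coe_mul, enorm_mul, mul_mul_mul_comm]
  exact mul_le_mul' (hn.1 t ht) (hn.2 t ht)

lemma ob_zero : Ob P a A fun _ _ _ => 0 :=
  ⟨fun _ _ => measurable_const, fun _ => ⟨0, .of_forall fun _ _ _ => by simp⟩⟩

lemma ob_fsum {ι : Type} (S : Finset ι) {X : ι → ∀ n, T n → Ω n → ℝ}
    (h : ∀ i, Ob P a A (X i)) : Ob P a A fun n t ω => ∑ i ∈ S, X i n t ω := by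
  classical
  induction S using Finset.induction_on with
  | empty => simpa using ob_zero
  | insert k s hk ih => simpa [Finset.sum_insert hk] using ob_add (h k) ih

lemma ob_bool (s : ∀ n, T n → Bool) {X : Bool → ∀ n, T n → Ω n → ℝ} (h : ∀ u, Ob P a A (X u)) :
    Ob P a A fun n t => X (s n t) n t := by
  refine ⟨fun n t => (h _).1 n t, fun q => ?_⟩
  obtain ⟨C, hC⟩ := (h true).2 q
  obtain ⟨C', hC'⟩ := (h false).2 q
  refine ⟨C + C', (hC.and hC').mono fun n hn t ht => ?_⟩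
  rw [ENNReal.coe_add, add_mul]
  beta_reduce
  cases s n t
  · exact (hn.2 t ht).trans le_add_self
  · exact (hn.1 t ht).trans le_self_add

lemma ob_avg (S : ∀ n, T n → Finset (Fin n)) {X : ∀ n, T n → Fin n → Ω n → ℝ}
    (h : Ob P a (fun n (p : T n × Fin n) => A n p.1 ∧ p.2 ∈ S n p.1) fun n p => X n p.1 p.2) :
    Ob P a A fun n t ω => (∑ l ∈ S n t, X n t l ω) / n := by
  refine ⟨fun n t => (Finset.measurable_sum _ fun l _ => h.1 n (t, l)).div_const _, fun q => ?_⟩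
  obtain ⟨C, hC⟩ := h.2 q
  refine ⟨C, (hC.and (eventually_gt_atTop 0)).mono fun n hn t ht => ?_⟩
  rcases Nat.eq_zero_or_pos q with rfl | hq
  · simp
  have e : (fun ω => (∑ l ∈ S n t, X n t l ω) / n) = (n : ℝ)⁻¹ • ∑ l ∈ S n t, X n t l := by
    funext ω; simp [div_eq_inv_mul]
  beta_reduce
  rw [e]
  refine eLpNorm_const_smul_le.trans ?_
  have h1 : eLpNorm (∑ l ∈ S n t, X n t l) q (P n) ≤ n * (C * ‖a n‖ₑ) := by
    refine (eLpNorm_sum_le (fun l _ => (h.1 n (t, l)).aestronglyMeasurable)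
      (by exact_mod_cast hq)).trans ?_
    refine (Finset.sum_le_card_nsmul _ _ _ fun l hl => hn.1 (t, l) ⟨ht, hl⟩).trans ?_
    rw [nsmul_eq_mul]
    gcongr
    simpa using Finset.card_le_univ (S n t)
  refine (mul_le_mul_right h1 _).trans (le_of_eq ?_)
  have n0 : (n : ℝ) ≠ 0 := by exact_mod_cast hn.2.ne'
  rw [← mul_assoc, enorm_inv n0, Real.enorm_natCast,
    ENNReal.inv_mul_cancel (by exact_mod_cast hn.2.ne') (by simp), one_mul]

lemma oo_reindex (h : Oo P A X) (r : ∀ n, T' n → T n) (hA : ∀ n t, A' n t → A n (r n t)) :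
    Oo P A' fun n t => X n (r n t) := h.imp fun _ h => ⟨h.1, ob_reindex h.2 r hA⟩

lemma oo_eq (h : Oo P A X) (e : ∀ n t ω, Y n t ω = X n t ω) : Oo P A Y := by
  rwa [show Y = X from funext fun n => funext fun t => funext (e n t)]

lemma oo_smul (c : ℝ) (h : Oo P A X) : Oo P A fun n t ω => c * X n t ω :=
  h.imp fun _ h => ⟨h.1, ob_smul c h.2⟩

lemma oo_add (h : Oo P A X) (h' : Oo P A Y) : Oo P A fun n t ω => X n t ω + Y n t ω := by
  obtain ⟨d, hd, h⟩ := h
  obtain ⟨d', hd', h'⟩ := h'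
  refine ⟨fun n => |d n| + |d' n|, by simpa using hd.abs.add hd'.abs,
    ob_add (ob_mono h (.of_forall fun n => ?_)) (ob_mono h' (.of_forall fun n => ?_))⟩
  · exact (le_add_of_nonneg_right (abs_nonneg _)).trans (le_abs_self _)
  · exact (le_add_of_nonneg_left (abs_nonneg _)).trans (le_abs_self _)

lemma oo_avg (S : ∀ n, T n → Finset (Fin n)) {X : ∀ n, T n → Fin n → Ω n → ℝ}
    (h : Oo P (fun n (p : T n × Fin n) => A n p.1 ∧ p.2 ∈ S n p.1) fun n p => X n p.1 p.2) :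
    Oo P A fun n t ω => (∑ l ∈ S n t, X n t l ω) / n := h.imp fun _ h => ⟨h.1, ob_avg S h.2⟩

end order

lemma rt_mul (p q : ℤ) : ∀ᶠ n in atTop, |rt p n * rt q n| ≤ |rt (p + q) n| :=
  (eventually_gt_atTop 0).mono fun n hn => by
    have : √(n : ℝ) ≠ 0 := (sqrt_pos.2 (by exact_mod_cast hn)).ne'
    rw [rt, rt, rt, zpow_add₀ this]

lemma rt_sq : ∀ᶠ n in atTop, |rt (-1) n ^ 2| ≤ |rt (-2) n| := by
  simp only [sq]; exact rt_mul (-1) (-1)

variable {β ρ : ℝ} {b b' : Bath} {c : Fin b'.m → ℝ} {f : Fin b'.m → CV b.m} {X : Fm b.m}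

lemma fl_ne {n : ℕ} (σ : Cube n) {k i : Fin n} (h : k ≠ i) : fl σ k i = σ i :=
  Function.update_of_ne h.symm _ _

lemma one_apply {n : ℕ} (l : Fin n) : Pl.one n l = true := rfl

lemma sp_od (m : ℕ) : Tw.sp m ∈ Od m := fun s _ => by cases s <;> simp [Tw.sp, sg]

lemma meas_val (hX : Net β ρ X) (f : Fin b'.m → CV b.m) (a : Fin b'.m) (s : Bool) (n : ℕ)
    (I : Finset (Fin n)) (l : Fin n) (σ : Cube n) : Measurable fun ω => (f a).1 s (X n I l σ ω) :=
  ((f a).2 s).cont.measurable.comp (hX.meas n I l σ)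

/-- the flipped index -/
def tF (n : ℕ) (t : Ix n) : Ix n := { t with σ := fl t.σ t.k }
/-- the index with a deleted site -/
def tD (n : ℕ) (t : Ix n) : Ix n := { t with I := t.I.erase t.j }

lemma net_val (hT : TayStmt) (hX : Net β ρ X) (hs : Step β ρ b b' c f) :
    Net β ρ (valOf f X) := by
  have B : ∀ (A : ∀ n, Ix n → Prop) (r : ∀ n, Ix n → Ix n) (a : Fin b.m), Ob (PP β ρ) (rt 0) A
      fun n t ω => X n (r n t).I (r n t).i (r n t).σ ω a := fun A r a =>
    ob_reindex (hX.B a) r fun _ _ _ => trivial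
  refine ⟨fun n I l σ => ?_, fun n I l σ σ' ω ω' hl h1 h2 => ?_, fun n I l σ z ω => ?_,
    fun a => ?_, fun a => ?_, fun a => ?_, fun a => ?_⟩
  · exact (WithLp.measurable_toLp _ _).comp
      (measurable_pi_lambda _ fun a => meas_val hX f a _ n I l σ)
  · simp only [valOf, hX.loc n I l σ σ' ω ω' hl h1 h2, h1 l hl]
  · ext a
    simp only [valOf, hX.gau, cmul, PiLp.smul_apply, smul_eq_mul]
    cases z l
    · have := hs.od a (σ l) (X n I l σ ω)
      simpa [sg] using this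
    · simp [sg]
  · exact ob_bool (T := Ix) (fun _ t => t.σ t.i)
      (X := fun s n t ω => (f a).1 s (X n t.I t.i t.σ ω)) fun s =>
      (hT β ρ Ix _ b.m ((f a).1 s) (fun n t ω => X n t.I t.i t.σ ω) hX.B).1 (hs.sm a s 0)
  · refine ob_congr (ob_bool (T := Ix) (fun _ t => t.σ t.i) (X := fun s n t ω =>
      (f a).1 s (X n t.I t.i t.σ ω) - (f a).1 s (X n t.I t.i (fl t.σ t.k) ω)) fun s =>
      ((hT β ρ Ix _ b.m ((f a).1 s) (fun n t ω => X n t.I t.i (fl t.σ t.k) ω) (B _ tF)).2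
        (fun n t ω => X n t.I t.i t.σ ω) _ (B _ fun _ t => t) hX.F).1 (hs.sm a s 1))
      (fun n t => (meas_val hX f a _ n _ _ _).sub (meas_val hX f a _ n _ _ _)) fun n t ht ω => ?_
    simp only [valOf, fl_ne t.σ ht]
  · exact ob_bool (T := Ix) (fun _ t => t.σ t.i) (X := fun s n t ω =>
      (f a).1 s (X n t.I t.i t.σ ω) - (f a).1 s (X n (t.I.erase t.j) t.i t.σ ω)) fun s =>
      ((hT β ρ Ix _ b.m ((f a).1 s) (fun n t ω => X n (t.I.erase t.j) t.i t.σ ω) (B _ tD)).2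
        (fun n t ω => X n t.I t.i t.σ ω) _ (B _ fun _ t => t) hX.D).1 (hs.sm a s 1)
  · refine ob_congr (ob_bool (T := Ix) (fun _ t => t.σ t.i) (X := fun s n t ω =>
      (f a).1 s (X n t.I t.i t.σ ω) - (f a).1 s (X n t.I t.i (fl t.σ t.k) ω) -
      ((f a).1 s (X n (t.I.erase t.j) t.i t.σ ω) -
        (f a).1 s (X n (t.I.erase t.j) t.i (fl t.σ t.k) ω))) fun s => ?_)
      (fun n t => ((meas_val hX f a _ n _ _ _).sub (meas_val hX f a _ n _ _ _)).sub
        ((meas_val hX f a _ n _ _ _).sub (meas_val hX f a _ n _ _ _))) fun n t ht ω => ?_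
    swap
    · simp only [valOf, fl_ne t.σ ht.1]
    set A : ∀ n, Ix n → Prop := fun n t => t.k ≠ t.i ∧ t.j ≠ t.i ∧ t.k ≠ t.j with hA
    have F1 : ∀ e, Ob (PP β ρ) (rt (-1)) A fun n t ω =>
        X n t.I t.i t.σ ω e - X n t.I t.i (fl t.σ t.k) ω e := fun e =>
      ob_reindex (hX.F e) (fun _ t => t) fun _ _ h => h.1
    have F2 : ∀ e, Ob (PP β ρ) (rt (-1)) A fun n t ω =>
        X n (t.I.erase t.j) t.i t.σ ω e - X n (t.I.erase t.j) t.i (fl t.σ t.k) ω e := fun e =>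
      ob_reindex (hX.F e) tD fun _ _ h => h.1
    have D2 : ∀ e, Ob (PP β ρ) (rt (-1)) A fun n t ω => X n t.I t.i (fl t.σ t.k) ω e -
        X n (t.I.erase t.j) t.i (fl t.σ t.k) ω e := fun e =>
      ob_reindex (hX.D e) tF fun _ _ h => h.2.1
    have R1 := ob_mono (((hT β ρ Ix A b.m ((f a).1 s) (fun n t ω => X n t.I t.i (fl t.σ t.k) ω)
      (B _ tF)).2 (fun n t ω => X n t.I t.i t.σ ω) _ (B _ fun _ t => t) F1).2.1
      (hs.sm a s 2)) rt_sq
    have R2 := ob_mono (((hT β ρ Ix A b.m ((f a).1 s)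
      (fun n t ω => X n (t.I.erase t.j) t.i (fl t.σ t.k) ω) (B _ fun n t => tF n (tD n t))).2
      (fun n t ω => X n (t.I.erase t.j) t.i t.σ ω) _ (B _ tD) F2).2.1 (hs.sm a s 2)) rt_sq
    have G1 : ∀ e, Ob (PP β ρ) (rt 0) A fun n t ω =>
        pd e ((f a).1 s) (X n t.I t.i (fl t.σ t.k) ω) := fun e =>
      (hT β ρ Ix A b.m (pd e ((f a).1 s)) (fun n t ω => X n t.I t.i (fl t.σ t.k) ω) (B _ tF)).1
        ((hs.sm a s 1).2 e)
    have G2 : ∀ e, Ob (PP β ρ) (rt (-1)) A fun n t ω =>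
        pd e ((f a).1 s) (X n t.I t.i (fl t.σ t.k) ω) -
          pd e ((f a).1 s) (X n (t.I.erase t.j) t.i (fl t.σ t.k) ω) := fun e =>
      ((hT β ρ Ix A b.m (pd e ((f a).1 s)) (fun n t ω => X n (t.I.erase t.j) t.i (fl t.σ t.k) ω)
        (B _ fun n t => tF n (tD n t))).2 (fun n t ω => X n t.I t.i (fl t.σ t.k) ω) _ (B _ tF)
        D2).1 ((hs.sm a s 2).2 e)
    have S1 := ob_fsum Finset.univ fun e => ob_add (ob_mono (ob_mul (G1 e) (hX.FD e)) (rt_mul _ _))
      (ob_mono (ob_mul (G2 e) (F2 e)) (rt_mul _ _))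
    have S2 := ob_add (ob_sub R1 R2) S1
    refine ob_congr S2 (fun n t => ((meas_val hX f a _ n _ _ _).sub (meas_val hX f a _ n _ _ _)).sub
        ((meas_val hX f a _ n _ _ _).sub (meas_val hX f a _ n _ _ _))) fun n t _ ω => ?_
    simp only [mul_sub, sub_mul, Finset.sum_add_distrib, Finset.sum_sub_distrib]
    ring

end V66

open V66

/-- **task 762, first part** -/
theorem v1Glue : V1Glue := by
  intro hT hS hM β ρ b b' c f X h0 hL hs
  refine ⟨net_val hT h0.net hs, fun n I l σ ω => hs.sp _ _, hs.hc, hs.hc0, fun a a' N => ?_,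
    fun a N => ?_⟩
  · refine oo_eq (hL (fun z => (f a).1 true z * (f a').1 true z)
      (hS.mul _ _ _ _ (hs.sm a true 1) (hs.sm a' true 1)) N) fun n t ω => ?_
    rw [← ((hM b _ (hs.od a)).2.2 _ (hs.od a')).1, ← hs.on a a']
    simp only [valOf, one_apply]
    ring
  · refine oo_eq (oo_smul β (hL ((f a).1 true) (hs.sm a true 1) N)) fun n t ω => ?_
    have h1 := ((hM b _ (sp_od b.m)).2.2 _ (hs.od a)).1
    simp only [Tw.sp, sg, if_true, one_mul] at h1
    rw [← h1, ← hs.g a]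
    simp only [valOf, one_apply, Tw.sp, sg]
    ring

/-- **task 762, second part** -/
theorem v23Glue : V23Glue := by
  intro hS hM β ρ b b' U c f X hX hs
  have G := fun a a' N => hX.gam (f a).1 (f a').1 (fun s => hs.sm a s 2) (fun s => hs.sm a' s 2) N
  refine ⟨⟨fun a a' N => ?_, fun a a' N => (G a a' N).2, fun a N => ?_⟩, fun U' hU v hv => ?_⟩
  · have h1 := oo_avg (A := fun n (t : Ix n) => Big N t.I) (fun _ t => t.I)
      (X := fun n t l ω => Gm β ρ t.I (fun σ => (f a).1 (σ l) (X n t.I l σ ω))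
        (fun σ => (f a').1 (σ l) (X n t.I l σ ω)) (one n) ω -
          gm b (f a).1 (f a').1 (X n t.I l (one n) ω))
      (oo_reindex (T' := fun n => Ix n × Fin n) (G a a' N).1
        (fun n p => ⟨p.1.I, p.1.σ, p.2, p.1.j, p.1.k⟩) fun _ _ h => h)
    have h2 := hX.lln (gm b (f a).1 (f a').1)
      (hS.gm b 1 _ _ (fun s => hs.sm a s 2) fun s => hs.sm a' s 2) N
    refine oo_eq (oo_add h1 h2) fun n t ω => ?_
    rw [← ((hM b _ (hs.od a)).2.2 _ (hs.od a')).2, hs.en, Finset.sum_sub_distrib]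
    simp only [valOf]
    ring
  · have hφ : Tm 1 fun z : E b.m => sech2 (fld b 0 z) / 2 * ((f a).1 true z - (f a).1 false z) := by
      have := hS.mul _ 1 _ _ (hS.mul _ 1 _ _ (hS.const _ 1 2)
        (hS.mul _ 1 _ _ (hS.hb b 0 true 1) (hS.hb b 0 false 1)))
        (hS.add _ 1 _ _ (hs.sm a true 1) (hS.mul _ 1 _ _ (hS.const _ 1 (-1)) (hs.sm a false 1)))
      convert this using 2 with z
      rw [hS.sech]; ring
    refine oo_eq (oo_smul β (hX.lln _ hφ N)) fun n t ω => ?_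
    have e1 : ∑ a', b'.g a' • f a' = β • Tw.sp b.m := by
      refine Subtype.ext (funext fun s => funext fun z => ?_)
      simpa [Tw.sp, Finset.sum_apply] using hs.sp s z
    have e2 : β * (imp b 0).En (Tw.sp _) (f a) = (b'.A *ᵥ b'.g) a := by
      have := congrArg (fun F => (imp b 0).En F (f a)) e1
      simp only [map_sum, map_smul, LinearMap.sum_apply, LinearMap.smul_apply, smul_eq_mul,
        hs.en] at this
      rw [← this, Matrix.mulVec, dotProduct]
      refine Finset.sum_congr rfl fun a' _ => ?_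
      have h3 := b'.psd.isHermitian.apply a a'
      rw [star_trivial] at h3
      rw [h3, mul_comm]
    rw [← (hM b _ (hs.od a)).2.1, mul_sub, e2]
    simp only [valOf, hX.x0.ind, hX.x0.fld]
    simp [fl, one_apply]
  · have hE := hU v hv
    refine ⟨hE.hc, fun N => ?_⟩
    have e1 : ∀ s z, (∑ a, v a • f a).1 s z = ∑ a, v a * (f a).1 s z := fun s z => by
      simp [Finset.sum_apply]
    have hF : ∀ s, Tm 3 ((∑ a, v a • f a).1 s) := fun s => by
      rw [funext (e1 s)]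
      exact hS.sum _ 3 _ _ _ fun a _ => hS.mul _ 3 _ _ (hS.const _ 3 _) (hs.sm a s 3)
    refine oo_eq (hX.gen _ hF hE.uf N) fun n t ω => ?_
    rw [← hE.aa]
    simp only [e1, valOf, one_apply]

end Crest.Agent.T157.Rn

end
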