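import Crest.Agent.T157.LowDef_85
import Crest.Agent.T157.EntF_34
import Crest.Agent.T157.RecB_77

/-!
# Row 157, part B (helper32): the words of the top of the upper half

Densities `f` with respect to `μ = prob w`; `sg w t f` is the density at time `t`.
-/

set_option autoImplicit false

noncomputable section

namespace Crest.Agent.T157.Rv

open Matrix Real Filter
open Crest.ProbabilityR.SpinGlassDynamics
open Crest.Agent.T157.E Crest.Agent.T157.Top
open Crest.Agent.T157.Chain22 (sg)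
open Crest.Agent.T157.Low (tn)
open Crest.Agent.T157.Rec (grad)

variable {n : ℕ}

/-- a positive density bounded by `exp m` -/
def Warm (w : Cube n → ℝ) (m : ℝ) (f : Cube n → ℝ) : Prop :=
  (∀ x, 0 < f x) ∧ mean w f = 1 ∧ ∀ x, f x ≤ exp m

/-- entropy production -/
def II (w f : Cube n → ℝ) : ℝ := dir2 w f fun x => log (f x)

/-- tight approximate tensorisation (the words of `Glue.AtTight`) -/
def At0 : Prop := ∀ β : ℝ, 0 ≤ β → β < 1 → ∃ K > (0 : ℝ),
  Whp disorderLaw fun n g => Ent.AT (gibbsWeight n β g) K 0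

/-- **(UW)** entropy upper bound from warm starts -/
def UW (β lam : ℝ) : Prop := ∀ c > (0 : ℝ), ∀ e > (0 : ℝ), Whp disorderLaw fun n g =>
  ∀ f, Warm (gibbsWeight n β g) ((n : ℝ) ^ (1 - c)) f → ∀ t, 0 ≤ t → t ≤ tn lam n →
    ent (gibbsWeight n β g) (sg (gibbsWeight n β g) t f) ≤ (n : ℝ) ^ (1 + e) * exp (-(2 * lam * t))

/-- **(UB)** one block of length `δ log n` -/
def UB (β lam : ℝ) : Prop := ∀ c > (0 : ℝ), ∀ e > (0 : ℝ), ∃ δ > (0 : ℝ), δ ≤ e ∧
  Whp disorderLaw fun n g => ∀ f, Warm (gibbsWeight n β g) ((n : ℝ) ^ (1 - c)) f →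
    ent (gibbsWeight n β g) (sg (gibbsWeight n β g) (δ * log n) f) ≤
      (n : ℝ) ^ (e * δ) * exp (-(2 * lam * (δ * log n))) * ent (gibbsWeight n β g) f + (n : ℝ) ^ e

/-- **(MW)** sharp modified logarithmic Sobolev inequality for warm densities -/
def MW (β lam : ℝ) : Prop := ∀ a > (0 : ℝ), a < lam → ∀ c > (0 : ℝ), ∀ e > (0 : ℝ),
  Whp disorderLaw fun n g => ∀ f, Warm (gibbsWeight n β g) ((n : ℝ) ^ (1 - c)) f →
    2 * a * ent (gibbsWeight n β g) f ≤ II (gibbsWeight n β g) f + (n : ℝ) ^ e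

/-- **(DW)** the same with a delayed deficit -/
def DW (β lam : ℝ) : Prop := ∀ a > (0 : ℝ), a < lam → ∀ d > (0 : ℝ), ∀ c > (0 : ℝ), ∀ e > (0 : ℝ),
  ∃ τ κ : ℕ → ℝ,
    (∀ᶠ n : ℕ in atTop, 0 < τ n ∧ τ n ≤ e * log n ∧ 0 ≤ κ n ∧ κ n * exp (2 * a * τ n) ≤ d) ∧
    Whp disorderLaw fun n g => ∀ f, Warm (gibbsWeight n β g) ((n : ℝ) ^ (1 - c)) f →
      2 * a * ent (gibbsWeight n β g) (sg (gibbsWeight n β g) (τ n) f) ≤
        II (gibbsWeight n β g) (sg (gibbsWeight n β g) (τ n) f) +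
          κ n * ent (gibbsWeight n β g) f + (n : ℝ) ^ e

/-- **(DI)** the deficit may contain the delayed entropy production -/
def DI (β lam : ℝ) : Prop := ∀ a > (0 : ℝ), a < lam → ∀ d > (0 : ℝ), ∀ c > (0 : ℝ), ∀ e > (0 : ℝ),
  ∃ τ κ : ℕ → ℝ,
    (∀ᶠ n : ℕ in atTop, 0 ≤ τ n ∧ τ n ≤ e * log n ∧ 0 ≤ κ n ∧ κ n * exp (2 * a * τ n) ≤ d) ∧
    Whp disorderLaw fun n g => ∀ f, Warm (gibbsWeight n β g) ((n : ℝ) ^ (1 - c)) f →
      ∀ s, τ n ≤ s → s ≤ τ n + 1 →
      2 * a * ent (gibbsWeight n β g) (sg (gibbsWeight n β g) s f) ≤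
        II (gibbsWeight n β g) (sg (gibbsWeight n β g) s f) +
          κ n * (ent (gibbsWeight n β g) f + II (gibbsWeight n β g) f) + (n : ℝ) ^ e

/-- `1`-Lipschitz for the unweighted gradient -/
def Lip1 (F : Cube n → ℝ) : Prop := ∀ x, grad F x ⬝ᵥ grad F x ≤ 1

/-- the density `f` moves the mean of every `1`-Lipschitz function by at most `d` -/
def DLe (w f : Cube n → ℝ) (d : ℝ) : Prop :=
  ∀ F, Lip1 F → mean w (fun x => f x * F x) - mean w F ≤ d

/-- **(UD)** first-order (transport) upper bound at the cutoff time -/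
def UD (β lam : ℝ) : Prop := ∀ e > (0 : ℝ), Whp disorderLaw fun n g => ∀ F, Lip1 F → ∀ x,
  sg (gibbsWeight n β g) (tn lam n) F x - mean (gibbsWeight n β g) F ≤ (n : ℝ) ^ e

/-- **(DB)** one transport block of length `δ log n` from warm starts -/
def DB (β lam : ℝ) : Prop := ∀ c > (0 : ℝ), ∀ e > (0 : ℝ), ∃ δ > (0 : ℝ), δ ≤ e ∧
  Whp disorderLaw fun n g => ∀ f, Warm (gibbsWeight n β g) ((n : ℝ) ^ (1 - c)) f →
    DLe (gibbsWeight n β g) (sg (gibbsWeight n β g) (δ * log n) f)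
      (√((n : ℝ) ^ (e * δ) * exp (-(2 * lam * (δ * log n))) * ent (gibbsWeight n β g) f + (n : ℝ) ^ e))

end Crest.Agent.T157.Rv

end
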