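import Crest.Agent.T157.RyDef_70
import Crest.Agent.T157.RegBas_66
import Crest.Agent.T157.RegJac_75
import Crest.Agent.T157.RegCoef_54
import Crest.Agent.T157.RegBo_13

/-!
# Row 157, part B (helper70): `BasStmt`, `JacStmt`, `CoefStmt`, `BoGlue` with a field (ports of 66, 75, 54, 13)
-/

set_option autoImplicit false

noncomputable section

namespace Crest.Agent.T157.RegY

section bas

open Matrix Real Filter Topology Function
open Crest.Agent.T157.E hiding mean
open Crest.Agent.T157.Tap (V Mx)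
open Crest.Agent.T157.Rec (grad fl grad_eq sv_mul_self grad_update)
open Crest.Agent.T157.Da.Gr
open Crest.Agent.T157.Chain22 (sg IsP mean hbRC RC)
open Crest.Agent.T157.Reg
open Crest.Agent.T157.Reg.Bas66 (site_eq lim_pow tt_fl grad_fl sv_fl_self)

namespace Bas

variable {n : ℕ} [Fy n] {W : Mx n}

theorem mu_pos (W : Mx n) (x : Cube n) : 0 < mu W x := ising_pos W Fy.y x

theorem grad_gen (hW : Wᵀ = W) (F : Cube n → ℝ) (x : Cube n) (i : Fin n) :
    grad (gen (mu W) F) x i = ∑ k, (Tk W x k + al W x i k) * jac (grad F) x i k - grad F x i +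
      bb W (grad F) x i := by
  rw [mu, funext (gen_ising hW Fy.y F), grad_sum]
  have : grad F x i = ∑ k, if i = k then grad F x k -
      2 * sv x i * grad (fun z => grad F z i) x k else 0 := by
    rw [Finset.sum_ite_eq, if_pos (Finset.mem_univ i), grad_self]; ring
  rw [bb, mulVec, dotProduct, this, ← Finset.sum_sub_distrib, ← Finset.sum_add_distrib]
  refine Finset.sum_congr rfl fun k _ => ?_
  rw [grad_mul, congrFun (Rec.grad_sub _ _ x) i, Pi.sub_apply, grad_sv, grad_comm F x k i]
  simp only [Tk, al, jac, am, of_apply]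
  rw [val_fl (fun z => grad F z i) x k, val_fl (fun z => tt W Fy.y z k) x i]
  have hk := sv_mul_self x k
  split_ifs
  · linear_combination (-(tt W Fy.y x k) + 2 * sv x i * grad (fun z => tt W Fy.y z k) x i) *
      grad (fun z => grad F z i) x k * hk
  · linear_combination (-(tt W Fy.y x k) + 2 * sv x i * grad (fun z => tt W Fy.y z k) x i) *
      grad (fun z => grad F z i) x k * hk

theorem int (hW : Wᵀ = W) (h : ℝ) (f : Cube n → ℝ) :
    grad (Qh W h f) = stp W h (grad f) (bb W (grad f)) := by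
  funext x i
  have e := congrFun (Rec.grad_add f (fun x => h * gen (mu W) f x) x) i
  rw [Rec.grad_const_mul, Pi.add_apply, Pi.smul_apply, smul_eq_mul, grad_gen hW] at e
  exact e

theorem gen_eq (hW : Wᵀ = W) (f : Cube n → ℝ) (x : Cube n) :
    gen (mu W) f x = ∑ k, Tk W x k * (f (fl x k) - f x) := by
  rw [mu, gen_ising hW]
  refine Finset.sum_congr rfl fun k _ => ?_
  rw [val_fl f, Tk]
  linear_combination -(tt W Fy.y x k) * grad f x k * sv_mul_self x k

theorem wm (W : Mx n) {h H : ℝ} {v : Cube n → ℝ} (h0 : 0 ≤ h) (h1 : h * n ≤ 1)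
    (hv : Wm (mu W) H v) : ∃ v', Wm (mu W) H v' ∧ ∀ f, mean v (Qh W h f) = mean v' f := by
  rcases Nat.eq_zero_or_pos n with rfl | hn
  · exact ⟨v, hv, fun f => by congr 1; funext x; simp [Qh, gen]⟩
  set c := hbRC hn (mu_pos W) with hc
  have a0 : 0 ≤ h * n := by positivity
  have p0 : ∀ y, 0 ≤ ∑ x, v x * c.P x y := fun y =>
    Finset.sum_nonneg fun x _ => mul_nonneg (hv.1.nn x) (c.nn x y)
  have key : ∀ f, mean v (Qh W h f) =
      mean (fun y => (1 - h * n) * v y + h * n * ∑ x, v x * c.P x y) f := fun f => by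
    simp only [mean, Qh, Chain22.gen_eq hn (mu_pos W), ← hc, add_mul, Finset.sum_add_distrib,
      mulVec, dotProduct, mul_add, mul_sub, sub_mul, Finset.sum_sub_distrib, Finset.mul_sum,
      Finset.sum_mul, one_mul]
    rw [Finset.sum_comm (f := fun y x => h * n * (v x * c.P x y) * f y)]
    have e1 : ∑ x, ∑ y, v x * (h * (n * (c.P x y * f y))) =
        ∑ x, ∑ y, h * n * (v x * c.P x y) * f y :=
      Finset.sum_congr rfl fun x _ => Finset.sum_congr rfl fun y _ => by ring
    have e2 : ∑ x, v x * (h * (n * f x)) = ∑ x, h * n * v x * f x :=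
      Finset.sum_congr rfl fun x _ => by ring
    rw [e1, e2]
    ring
  refine ⟨_, ⟨⟨fun y => add_nonneg (mul_nonneg (sub_nonneg.2 h1) (hv.1.nn y))
    (mul_nonneg a0 (p0 y)), ?_⟩, fun y => ?_⟩, key⟩
  · rw [Finset.sum_add_distrib, ← Finset.mul_sum, ← Finset.mul_sum, Finset.sum_comm]
    simp only [← Finset.mul_sum, c.row, mul_one, hv.1.sum1]
    ring
  · have h2 : ∑ x, v x * c.P x y ≤ exp H * prob (mu W) y := by
      rw [show prob (mu W) y = ∑ x, c.π x * c.P x y from (c.stat y).symm, Finset.mul_sum]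
      refine Finset.sum_le_sum fun x _ => ?_
      rw [← mul_assoc]
      exact mul_le_mul_of_nonneg_right (hv.2 x) (c.nn x y)
    nlinarith [mul_le_mul_of_nonneg_left h2 a0,
      mul_le_mul_of_nonneg_left (hv.2 y) (sub_nonneg.2 h1)]

theorem iter_spec (hn : 0 < n) (W : Mx n) (h : ℝ) (f : Cube n → ℝ) (m : ℕ) :
    (Qh W h)^[m] f = ∑ j, ((1 - h * (n * (1 - (hbRC hn (mu_pos W)).ev j))) ^ m *
      Chain22.ip (hbRC hn (mu_pos W)).π f ((hbRC hn (mu_pos W)).φ j)) •
        (hbRC hn (mu_pos W)).φ j := by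
  set c := hbRC hn (mu_pos W) with hc
  induction m with
  | zero => simpa using c.expand f
  | succ m ih =>
    rw [iterate_succ_apply', ih]
    funext x
    rw [Qh, Chain22.gen_eq hn (mu_pos W), ← hc, mulVec_sum]
    simp only [mulVec_smul, c.P_φ, Finset.sum_apply, Pi.smul_apply, smul_eq_mul,
      ← Finset.sum_sub_distrib, Finset.mul_sum, ← Finset.sum_add_distrib]
    exact Finset.sum_congr rfl fun j _ => by ring

theorem lim (hn : 0 < n) (W : Mx n) {u : ℝ} (hu : 0 ≤ u) (f : Cube n → ℝ) (x : Cube n) :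
    Tendsto (fun h : ℝ => (Qh W h)^[⌊u / h⌋₊] f x) (𝓝[>] 0) (𝓝 (sg (mu W) u f x)) := by
  simp only [iter_spec hn, Finset.sum_apply, Pi.smul_apply, smul_eq_mul, mul_assoc]
  rw [Chain22.sg_eq hn (mu_pos W), RC.H_mulVec_spec]
  refine tendsto_finsetSum _ fun j _ => Tendsto.mul_const _ ?_
  rw [mul_comm (n : ℝ) u, mul_assoc]
  exact lim_pow _ hu

/-- the spin may be replaced by its conditional mean -/
theorem mean_sv_mul (hW : Wᵀ = W) (i : Fin n) {G : Cube n → ℝ} (hG : ∀ x, G (fl x i) = G x) :
    mean (prob (mu W)) (fun x => sv x i * G x) =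
      mean (prob (mu W)) fun x => tt W Fy.y x i * G x := by
  rw [← Chain22.mean_siteM (mu_pos W) i]
  congr 1
  funext x
  have := site_eq hW Fy.y (fun x => sv x i * G x) x i
  rw [grad_eq, hG, sv_fl_self] at this
  rw [mu]
  linear_combination this + (tt W Fy.y x i - sv x i) * G x * sv_mul_self x i

theorem dir_eq (hW : Wᵀ = W) (f : Cube n → ℝ) :
    dir (mu W) f = mean (prob (mu W)) fun x => ∑ k, (1 - tt W Fy.y x k ^ 2) * grad f x k ^ 2 := by
  simp only [mean, Finset.mul_sum]
  rw [Finset.sum_comm]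
  refine Finset.sum_congr rfl fun i _ => ?_
  have h := mean_sv_mul hW i (G := fun x => tt W Fy.y x i * grad f x i ^ 2) fun x => by
    rw [tt_fl, grad_fl]
  have e : ∀ x, prob (mu W) x * (f x - siteM (mu W) f i x) ^ 2 =
      prob (mu W) x * ((1 - tt W Fy.y x i ^ 2) * grad f x i ^ 2) -
      2 * (prob (mu W) x * (sv x i * (tt W Fy.y x i * grad f x i ^ 2))) +
      2 * (prob (mu W) x * (tt W Fy.y x i * (tt W Fy.y x i * grad f x i ^ 2))) := fun x => by
    rw [← neg_sub, mu, site_eq hW]
    linear_combination prob (ising W Fy.y) x * grad f x i ^ 2 * sv_mul_self x i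
  simp only [e, Finset.sum_add_distrib, Finset.sum_sub_distrib, ← Finset.mul_sum]
  simp only [mean] at h
  rw [h]
  ring

end Bas

open Bas in
theorem basStmt : BasStmt :=
  ⟨fun _ _ _ hW => int hW, fun _ _ _ hW => gen_eq hW,
    fun _ _ W _ _ _ _ h0 h1 hv => wm W (by exact_mod_cast h0) (by exact_mod_cast h1) hv,
    fun _ _ W hn _ hu => lim hn W hu, fun _ _ _ hW => dir_eq hW⟩

end bas

section jac

open Matrix Real
open Crest.Agent.T157.E hiding mean
open Crest.Agent.T157.Eig
open Crest.Agent.T157.Tap (V Mx)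
open Crest.Agent.T157.Rec (grad fl sv_mul_self sv_fl_ne grad_eq grad_update)
open Crest.Agent.T157.Da.Gr (loc tt loc_fl sv_fl mvt tanh_lip hasDerivAt_tanh sech_nonneg)
open Crest.Agent.T157.Reg
open Crest.Agent.T157.Reg.J75 (fl_fl fl_comm sv_fl_self)

namespace Jc

variable {n : ℕ} [Fy n]

lemma tt_fl (W : Mx n) (x : Cube n) (i : Fin n) : tt W Fy.y (fl x i) i = tt W Fy.y x i := by
  simp [tt, loc_fl]

lemma al_self (W : Mx n) (x : Cube n) (i : Fin n) : al W x i i = 0 := by simp [al, tt_fl]

lemma mx_self (W : Mx n) (x : Cube n) (i j : Fin n) : mx W x i j j = 0 := by simp [mx, tt_fl]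

/-- the rate of `k` seen from the flipped site `i` -/
lemma rate (W : Mx n) (x : Cube n) (i k : Fin n) :
    Tk W x k + al W x i k = (1 - sv x k * tt W Fy.y (fl x i) k) / 2 := by
  simp only [Tk, al, of_apply]; ring

lemma dj_eq (W : Mx n) (ω σ : VF n) (x : Cube n) (i j : Fin n) : dj W ω σ x i j =
    ∑ k, ((Tk W (fl x j) k + al W (fl x j) i k) * jac ω (fl x j) i k -
      (Tk W x k + al W x i k) * jac ω x i k) - jac ω x i j + jac σ x i j := by
  rw [Finset.sum_sub_distrib]
  change stp W 1 ω σ (fl x j) i - stp W 1 ω σ x i - (ω (fl x j) i - ω x i) =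
    _ - (ω (fl x j) i - ω x i) + (σ (fl x j) i - σ x i)
  simp only [stp]
  ring

end Jc

open Jc

/-- **exact evolution of the Jacobian** -/
theorem jacStmt : JacStmt where
  lin n _ W h ω σ x := by
    ext i j
    simp only [dj, Matrix.add_apply, Matrix.sub_apply, Matrix.smul_apply, smul_eq_mul]
    rw [jac, jac.eq_1 (stp W 1 ω σ), jac.eq_1 ω x]
    simp only [stp, of_apply]
    ring
  offd n _ W ω σ x i j hij := by
    have key : ∀ k, (Tk W (fl x j) k + al W (fl x j) i k) * jac ω (fl x j) i k -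
        (Tk W x k + al W x i k) * jac ω x i k =
        (Tk W x k + al W x i k + al W x j k + mx W x i j k) * (jac ω (fl x k) - jac ω x) i j +
          (al W x j k + mx W x i j k) * jac ω x i k +
          if j = k then (2 * Tk W x j + 2 * al W x i j - 1) * jac ω x i j else 0 := fun k => by
      split_ifs with h
      · subst h
        rw [rate W (fl x j), al_self, mx_self, ← mul_add, add_zero, add_zero, rate, fl_comm, tt_fl,
          sv_fl_self]
        simp only [jac, of_apply, Matrix.sub_apply, fl_fl]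
        ring
      · rw [rate W (fl x j), sv_fl_ne x (Ne.symm h), fl_comm x j i]
        simp only [jac, of_apply, Matrix.sub_apply, Tk, al, mx, fl_comm x k j]
        ring
    rw [dj_eq]
    simp only [key, Finset.sum_add_distrib, Finset.sum_ite_eq, Finset.mem_univ, if_true]
    ring
  diag n _ W ω σ x i := by
    have key : ∀ k, (Tk W (fl x i) k + al W (fl x i) i k) * jac ω (fl x i) i k -
        (Tk W x k + al W x i k) * jac ω x i k =
        Tk W x k * (jac ω (fl x k) - jac ω x) i i - al W x i k * jac ω x i k +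
          if i = k then (2 * Tk W x i - 1) * jac ω x i i else 0 := fun k => by
      split_ifs with h
      · subst h
        rw [rate W (fl x i), al_self, fl_fl, sv_fl_self]
        simp only [jac, of_apply, Matrix.sub_apply, fl_fl, Tk]
        ring
      · rw [rate W (fl x i), sv_fl_ne x (Ne.symm h), fl_fl]
        simp only [jac, of_apply, Matrix.sub_apply, Tk, al, fl_comm x k i]
        ring
    rw [dj_eq]
    simp only [key, Finset.sum_add_distrib, Finset.sum_sub_distrib, Finset.sum_ite_eq,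
      Finset.mem_univ, if_true]
    ring
  ydiag n ω x i k _ := by
    simp only [jac, of_apply, Matrix.sub_apply, fl_comm x k i]
    ring
  jb n _ W ω x i j := by
    have e : jac (bb W ω) x i j = (am W x * jac ω x) i j +
        ∑ k, (am W (fl x j) i k - am W x i k) * (jac ω x k j + ω x k) := by
      simp only [jac, bb, of_apply, mul_apply, mulVec, dotProduct, ← Finset.sum_add_distrib,
        ← Finset.sum_sub_distrib]
      exact Finset.sum_congr rfl fun k _ => by ring
    rw [e]
    congr 1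
    split_ifs with h
    · subst h
      refine Finset.sum_eq_zero fun k _ => ?_
      simp only [am, of_apply, fl, grad_update, sub_self, zero_mul]
    · refine Finset.sum_congr rfl fun k _ => ?_
      congr 1
      simp only [am, of_apply, grad_eq, mx, sv_fl_ne x h, fl_comm x j i]
      linear_combination -(sv x i * (tt W Fy.y (fl (fl x i) j) k - tt W Fy.y (fl x i) k -
        tt W Fy.y (fl x j) k + tt W Fy.y x k) / 2) * -sv_mul_self x k

end jac

section coef

open Matrix Real
open Crest.Agent.T157.E hiding mean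
open Crest.Agent.T157.Eig
open Crest.Agent.T157.Tap (V Mx)
open Crest.Agent.T157.Rec (grad fl grad_eq sv_mul_self sv_fl_ne)
open Crest.Agent.T157.Da.Gr
open Crest.Agent.T157.Reg Crest.Agent.T157.Reg.Coef54

theorem coefStmt : CoefStmt := by
  intro K
  have e0 := exp_pos (8 * K)
  refine ⟨16 * exp (8 * K) + 4 * |K| + 8 * K ^ 2 + 320, by
    nlinarith [abs_nonneg K, sq_nonneg K], fun n _ W hN x => ?_⟩
  obtain ⟨hW, hK, -⟩ := hN
  have K0 : 0 ≤ K := (opn_nonneg W).trans hK
  have K2 := sq_nonneg K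
  rw [abs_of_nonneg K0]
  set C := 16 * exp (8 * K) + 4 * K + 8 * K ^ 2 + 320 with hC
  have hs : ∀ i, |sv x i| = 1 := fun i =>
    (abs_eq zero_le_one).2 (mul_self_eq_one_iff.1 (sv_mul_self x i))
  set c : Mx n := of fun i k => 2 * sv x i * off W i k with hc
  set h := loc W Fy.y x with hh
  have c1 : ∀ i k, |c i k| ≤ 2 * |W i k| := fun i k => by
    simp only [hc, of_apply, off, abs_mul, hs]
    split_ifs <;> simp
  have c2 : ∀ i k, |c i k| ≤ 2 * K := fun i k =>
    (c1 i k).trans (by linarith [abs_entry_le W i k])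
  have c3 : ∀ i k, c i k ^ 2 ≤ 4 * W i k ^ 2 := fun i k => by
    have := pow_le_pow_left₀ (abs_nonneg _) (c1 i k) 2
    rwa [mul_pow, sq_abs, sq_abs, show (2 : ℝ) ^ 2 = 4 by norm_num] at this
  have l1 : ∀ i k, tt W Fy.y (fl x i) k = tanh (h k - c i k) := fun i k => by
    simp only [tt, loc_fl, hc, of_apply, off, herm_apply (herm_iff.2 hW) k i]
    split_ifs <;> simp [hh]
  have l2 : ∀ i j k, i ≠ j → tt W Fy.y (fl (fl x i) j) k = tanh (h k - c i k - c j k) :=
    fun i j k e => by
    simp only [tt, loc_fl, hc, of_apply, off, herm_apply (herm_iff.2 hW) k, sv_fl_ne x e.symm]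
    split_ifs <;> simp [hh]
  have l0 : ∀ k, tt W Fy.y x k = tanh (h k) := fun k => rfl
  have T1 : ∀ k, Tk W x k * (1 - Tk W x k) = t1 (h k) / 4 := fun k => by
    rw [Tk, t1, l0]; linear_combination (-(tanh (h k)) ^ 2 / 4) * sv_mul_self x k
  have st : ∀ k y, |sv x k * tanh y| < 1 := fun k y => by
    rw [abs_mul, hs, one_mul]; exact abs_tanh_lt_one y
  have hf : ∀ (k : Fin n) (y : ℝ), |sv x k * y / 2| = |y| / 2 := fun k y => by
    rw [abs_div, abs_mul, hs, one_mul, abs_two]
  refine ⟨fun k => ?_, fun i k => ?_, fun i k => ?_, ?_, ?_, fun i j k e => ?_,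
    c, of fun i k => sv x k * (t1 (h k - c i k) - t1 (h k)) / 2, fun k => sv x k * t2 (h k) / 2,
    ?_, ?_, fun i k => ⟨?_, ?_⟩, fun k => ?_, fun i j k e => ?_⟩
  · have := abs_lt.1 (st k (h k))
    rw [Tk, l0]; constructor <;> linarith
  · have := abs_lt.1 (st k (h k - c i k))
    simp only [Tk, al, of_apply, l1]; constructor <;> linarith
  · simp only [al, of_apply, l1, l0, T1, neg_div, abs_neg, hf]
    have h1 : exp (2 * |c i k|) ≤ exp (8 * K) := exp_le_exp.2 (by linarith [c2 i k])
    have h2 := (a1 (h k) (c i k)).trans (mul_le_mul (c1 i k) (mul_le_mul_of_nonneg_right h1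
      (t1_nn _)) (mul_nonneg (exp_pos _).le (t1_nn _)) (by positivity))
    have h3 := mul_nonneg (abs_nonneg (W i k)) (t1_nn (h k))
    nlinarith [mul_le_mul_of_nonneg_right (show 4 * exp (8 * K) ≤ C by nlinarith) h3]
  · refine (op_main hW hK (sv x) (fun k => sv x k * t1 (h k)) (a := 1) (b := 4) zero_le_one
      (by norm_num) (fun i => (hs i).le) (fun k => ?_) fun i k => ?_).trans (by nlinarith)
    · rw [abs_mul, hs, one_mul, abs_of_nonneg (t1_nn _)]; exact t1_le _
    · rw [show al W x i k - sv x i * off W i k * (sv x k * t1 (h k)) = -(sv x k *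
        (tanh (h k - c i k) - tanh (h k) + c i k * t1 (h k)) / 2) by
          simp only [al, of_apply, l1, l0]; simp only [hc, of_apply]; ring, abs_neg, hf]
      linarith [a2 (h k) (c i k), c3 i k]
  · refine (op_main hW hK (fun _ => 1) (fun k => t1 (h k)) (a := 1) (b := 4) zero_le_one
      (by norm_num) (fun i => by simp) (fun k => ?_) fun i k => ?_).trans (by nlinarith)
    · rw [abs_of_nonneg (t1_nn _)]; exact t1_le _
    · rw [show am W x i k - 1 * off W i k * t1 (h k) = -(sv x i *
        (tanh (h k - c i k) - tanh (h k) + c i k * t1 (h k)) / 2) by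
          simp only [am, of_apply, grad_eq, l1, l0]; simp only [hc, of_apply]
          linear_combination (off W i k * t1 (h k)) * sv_mul_self x i, abs_neg, hf]
      linarith [a2 (h k) (c i k), c3 i k]
  · simp only [mx, l2 i j k e, l1, l0, T1, neg_div, abs_neg, hf]
    have h1 : exp (2 * (|c i k| + |c j k|)) ≤ exp (8 * K) :=
      exp_le_exp.2 (by linarith [c2 i k, c2 j k])
    have h0 := t1_nn (h k)
    have h2 : _ ≤ 2 * (exp (8 * K) * t1 (h k)) * (2 * |W j k|) * (2 * |W i k|) :=
      (a5 (h k) (c i k) (c j k)).trans (by gcongr; exacts [c1 j k, c1 i k])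
    have h3 := mul_nonneg (mul_nonneg (abs_nonneg (W i k)) (abs_nonneg (W j k))) h0
    nlinarith [mul_le_mul_of_nonneg_right (show 16 * exp (8 * K) ≤ C by nlinarith) h3]
  · refine (op_main hW hK (sv x) (fun _ => 2) (a := 2) (b := 0) zero_le_two le_rfl
      (fun i => (hs i).le) (fun k => by simp) fun i k => ?_).trans (by nlinarith)
    rw [show c i k - sv x i * off W i k * 2 = 0 by simp only [hc, of_apply]; ring]
    simp
  · refine (op_main hW hK (sv x) (fun k => -(sv x k * t2 (h k))) (a := 2) (b := 8) zero_le_two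
      (by norm_num) (fun i => (hs i).le) (fun k => ?_) fun i k => ?_).trans (by nlinarith)
    · rw [abs_neg, abs_mul, hs, one_mul]; exact t2_le _
    · rw [of_apply, show sv x k * (t1 (h k - c i k) - t1 (h k)) / 2 -
        sv x i * off W i k * -(sv x k * t2 (h k)) =
        sv x k * (t1 (h k - c i k) - t1 (h k) + c i k * t2 (h k)) / 2 by
          simp only [hc, of_apply]; ring, hf]
      linarith [a4 (h k) (c i k), c3 i k]
  · exact (c1 i k).trans (mul_le_mul_of_nonneg_right (by nlinarith) (abs_nonneg _))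
  · rw [of_apply, hf]
    refine le_trans (by linarith [a3 (h k) (c i k), c1 i k] : _ ≤ 2 * |W i k|)
      (mul_le_mul_of_nonneg_right (by nlinarith) (abs_nonneg _))
  · rw [hf]
    nlinarith [t2_le (h k)]
  · rw [show mx W x i j k - _ = -(sv x k * (tanh (h k - c i k - c j k) - tanh (h k - c i k) -
        tanh (h k - c j k) + tanh (h k) + (c j k * (t1 (h k - c i k) - t1 (h k)) +
        c i k * (t1 (h k - c j k) - t1 (h k)) + c i k * c j k * t2 (h k))) / 2) by
      simp only [mx, of_apply, l2 i j k e, l1, l0]; ring, abs_neg, hf]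
    have h1 := mul_le_mul (c3 j k) (c3 i k) (sq_nonneg _) (by positivity)
    have h2 := mul_nonneg (sq_nonneg (W i k)) (sq_nonneg (W j k))
    nlinarith [a6 (h k) (c i k) (c j k),
      mul_le_mul_of_nonneg_right (show 320 ≤ C by nlinarith) h2]

end coef

section bo

open Matrix Real Filter Topology Finset
open Crest.Agent.T157.E hiding mean
open Crest.Agent.T157.Tap (V Mx)
open Crest.Agent.T157.Rec (grad fl)
open Crest.Agent.T157.Reg Crest.Agent.T157.Reg.Bo13

/-- **`BoGlue`** -/
theorem boGlue : BoGlue := by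
  intro b cf K
  obtain ⟨c, hc, H⟩ := cf K
  have c0 : 0 ≤ c := by linarith
  have k0 := abs_nonneg K
  have ck := mul_nonneg c0 k0
  have q0 : 0 ≤ 2 * c ^ 2 * |K| ^ 2 := by positivity
  refine ⟨6 * (1 + c * |K|) + 2 * c ^ 2 * |K| ^ 2, by linarith, fun n _ W hW h h0 h1 ξ σ => ?_⟩
  have hn : 0 ≤ h * (n + 1) := by positivity
  have h2 : 6 * (1 + c * |K|) * h * (n + 1) ≤ 1 := by nlinarith [mul_nonneg q0 hn]
  have h3 : h * (n + 1) ≤ 1 := by nlinarith [mul_nonneg ck hn]
  refine ⟨fun x => ?_, fun y z hy hz x i => ?_⟩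
  · obtain ⟨t1, t2, t3, -⟩ := H n W hW x
    have key := fun i => site (Tk W x) (al W x i) (jac ξ x i) (W i) (ξ := ξ x i) (σ := σ x i)
      (fun j => ⟨(t1 j).1.le, (t1 j).2.le⟩) (t2 i) (fun j => (t3 i j).trans
        (mul_le_mul_of_nonneg_left (mul_le_of_le_one_right (t1 j).1.le (by linarith [(t1 j).1]))
          (mul_nonneg c0 (abs_nonneg _)))) (row hW i) c0 k0 h0 h2
    have e1 : sq2 (stp W h ξ σ) x = ∑ i, (ξ x i +
        h * (∑ j, (Tk W x j + al W x i j) * jac ξ x i j - ξ x i + σ x i)) ^ 2 := by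
      simp only [sq2, dotProduct, stp, sq]
    have e2 : ∀ ω : VF n, ∀ z, sq2 ω z = ∑ i, ω z i ^ 2 := fun ω z => by
      simp only [sq2, dotProduct, sq]
    have e3 : gen (mu W) (sq2 ξ) x =
        ∑ i, ∑ j, Tk W x j * (2 * ξ x i * jac ξ x i j + jac ξ x i j ^ 2) := by
      rw [b.gen_eq n W hW.1, sum_comm]
      refine sum_congr rfl fun j _ => ?_
      rw [e2, e2, ← sum_sub_distrib, ← mul_sum]
      congr 1
      exact sum_congr rfl fun i _ => by simp only [jac, of_apply]; ring
    rw [e1, Qh, e3]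
    refine (sum_le_sum fun i _ => key i).trans ?_
    rw [sum_add_distrib, sum_add_distrib, ← mul_sum, ← mul_sum, sum_add_distrib, ← mul_sum,
      ← mul_sum, ← e2, ← e2]
    have s0 : 0 ≤ sq2 ξ x := by rw [e2]; positivity
    have : 0 ≤ h * (6 * (1 + c * |K|) * sq2 ξ x) := by positivity
    nlinarith
  · exact sup (fun j => Tk W x j + al W x i j) (fun j => ξ (fl x j) i) ((H n W hW x).2.1 i) h0 h3
      (hy x i) (fun j => hy _ i) (hz x i)

end bo

end Crest.Agent.T157.RegY

end
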