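import Crest.Agent.T157.RyDef_70
import Crest.Agent.T157.RegOp_34
import Crest.Agent.T157.RegPt_29
import Crest.Agent.T157.RegS4_2

/-!
# Row 157, part B (helper70): `OpGlue`, `PtGlue`, `S4Glue` with a field (ports of 34, 29, 2)
-/

set_option autoImplicit false

noncomputable section

namespace Crest.Agent.T157.RegY

section op

open Matrix Real Finset
open Crest.Agent.T157.Eig
open Crest.Agent.T157.Tap (V Mx)
open Crest.Agent.T157.Rec (fl)
open Crest.Agent.T157.Reg Crest.Agent.T157.Reg.Op34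

theorem opGlue : OpGlue := by
  intro t J hC K
  obtain ⟨C, C1, hC⟩ := hC K
  have C0 : 0 ≤ C := by linarith
  refine ⟨1 + (2 * (C * K) ^ 2 + (2 + 2 * (6 * (C * C * K) ^ 2 + 3 * (C * |K| * C * C) + C +
    2 * (C * |K|)) + 3 * C * K ^ 4 + 3 * (C * |K|))), le_add_of_nonneg_right (by positivity),
    fun n _ W hW h h0 hn ω σ M₀ N hM₀ hN x => ?_⟩
  have K0 : 0 ≤ K := (opn_nonneg W).trans hW.2.1
  rw [abs_of_nonneg K0]
  set c := 2 * (C * K) ^ 2 + (2 + 2 * (6 * (C * C * K) ^ 2 + 3 * (C * K * C * C) + C +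
    2 * (C * K)) + 3 * C * K ^ 4 + 3 * (C * K)) with hc
  have c0 : 0 ≤ c := by positivity
  suffices H : ∀ M, 0 < M → (∀ x, opn (jac ω x) ≤ M) →
      opn (jac (stp W h ω σ) x) ≤ (1 + c * h) * M + h * N by
    have M0 : 0 ≤ M₀ := (opn_nonneg _).trans (hM₀ x)
    refine le_of_forall_pos_le_add fun ε hε => ?_
    have p : 0 < 1 + c * h := by positivity
    refine (H (M₀ + ε / (1 + c * h)) (by positivity) fun x => (hM₀ x).trans
      (le_add_of_nonneg_right (by positivity))).trans ?_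
    rw [mul_add, mul_div_cancel₀ _ p.ne']
    nlinarith [mul_nonneg h0 M0]
  intro M M0 hM
  obtain ⟨hT, -, hA, a1, -, -, d, P, q, d1, P1, dP, q1, hR⟩ := hC n W hW x
  set O := jac ω x with hO
  set Y : Fin n → Mx n := fun k => jac ω (fl x k) - O with hY
  set T := Tk W x
  set A := al W x
  have S0 : ∀ k, 0 < T k * (1 - T k) := fun k => mul_pos (hT k).1 (sub_pos.2 (hT k).2)
  have S1 : ∀ k, T k * (1 - T k) ≤ 1 := fun k => by nlinarith [(hT k).1, (hT k).2]
  have w1 : ∀ i, ∑ k, W i k ^ 2 ≤ K ^ 2 := fun i =>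
    (t.row_le n W i).1.trans (pow_le_pow_left₀ (opn_nonneg W) hW.2.1 2)
  have w2 : ∀ i, ∑ k, W k i ^ 2 ≤ K ^ 2 := fun i =>
    (t.row_le n W i).2.trans (pow_le_pow_left₀ (opn_nonneg W) hW.2.1 2)
  have o1 : ∀ z i, ∑ k, jac ω z i k ^ 2 ≤ M ^ 2 := fun z i =>
    (t.row_le n _ i).1.trans (pow_le_pow_left₀ (opn_nonneg _) (hM z) 2)
  have o2 : ∀ i, ∑ k, O k i ^ 2 ≤ M ^ 2 := fun i =>
    (t.row_le n _ i).2.trans (pow_le_pow_left₀ (opn_nonneg _) (hM x) 2)
  have y1 : ∀ k, opn (Y k) ≤ 2 * M := fun k =>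
    (opn_sub_le _ _).trans (by linarith [hM x, hM (fl x k)])
  have cw : ∀ i k, 0 ≤ C * |W i k| := fun i k => by positivity
  have A1 : ∀ i k, |A i k| ≤ C * |W i k| := fun i k =>
    (hA i k).trans (mul_le_of_le_one_right (cw i k) (S1 k))
  have up : ∀ i k, C * |W i k| ≤ C * C * |W i k| := fun i k => by
    rw [mul_assoc]; exact le_mul_of_one_le_left (cw i k) C1
  have rd := rows w1 fun i k => (dP i k).1.trans (up i k)
  have rP := rows w1 fun i k => (dP i k).2.trans (up i k)
  have rq := rows (X := of fun i k => q k * d i k) (c := C * C) w1 fun i k => by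
    rw [of_apply, abs_mul, mul_assoc]
    exact mul_le_mul (q1 k) (dP i k).1 (abs_nonneg _) C0
  have had : ∀ X : Mx n, (∀ i k, |X i k| ≤ C * |W i k|) →
      opn (of fun i k => X i k * O i k : Mx n) ≤ C * K * M := fun X hX =>
    t.op_had n X O _ _ _ (by positivity) M0.le (rows w1 hX) o2 fun i k => (abs_mul _ _).le
  let G : Mx n := (of fun i j => ∑ k, P i k * d j k * Y k i j) +
    (of fun i j => ∑ k, d i k * P j k * Y k i j) +
    (of fun i j => ∑ k, (of fun i k => q k * d i k : Mx n) i k * d j k * Y k i j) +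
    ((of fun i k => P i k * O i k) * dᵀ + (of fun i k => d i k * O i k) * Pᵀ +
      (of fun i k => d i k * O i k) * diagonal q * dᵀ) + O * Aᵀ +
    ((of fun i k => A i k * O i k) + of fun i k => A i k * O i k)
  let E : Mx n := of fun i j => if i = j then 0 else ∑ k, (mx W x i j k -
    (P i k * d j k + d i k * P j k + q k * (d i k * d j k))) * (Y k i j + O i k)
  let δ : V n := fun i => ∑ k, A i k * O i k - 2 * ∑ k, A i k * jac ω (fl x i) i k
  have g1 : opn G ≤ (6 * (C * C * K) ^ 2 + 3 * (C * K * C * C) + C + 2 * (C * K)) * M := by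
    have s := fun {P Q : Mx n} => sandwich (P := P) (Q := Q) (by positivity : 0 ≤ 2 * M)
      (sq_nonneg (C * C * K)) y1
    have hd : opn dᵀ ≤ C := by rwa [opn_transpose]
    have h1 := had d fun i k => (dP i k).1
    refine (opn_add_le' (opn_add_le' (opn_add_le' (opn_add_le' (opn_add_le' (s rP rd) (s rd rP))
      (s rq rd)) (opn_add_le' (opn_add_le' (opn_mul_le' (had P fun i k => (dP i k).2) hd)
        (opn_mul_le' h1 ((opn_transpose _).trans_le P1))) (opn_mul_le' (opn_mul_le' h1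
          (opn_diagonal_le C0 q1)) hd))) (opn_mul_le' (hM x) ((opn_transpose _).trans_le a1)))
      (opn_add_le' (had A A1) (had A A1))).trans ?_
    have : C * K * M * C ≤ C * K * M * C * C := le_mul_of_one_le_right (by positivity) C1
    linarith
  have eb : ∀ i j, |E i j| ≤ 3 * C * M * ∑ k, W i k ^ 2 * W j k ^ 2 := fun i j => by
    simp only [E, of_apply]
    split_ifs with hij
    · rw [abs_zero]; positivity
    rw [mul_sum]
    refine (abs_sum_le_sum_abs _ _).trans (sum_le_sum fun k _ => ?_)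
    have : |Y k i j + O i k| ≤ 3 * M := (abs_add_le _ _).trans (by
      linarith [(abs_entry_le (Y k) i j).trans (y1 k), (abs_entry_le O i k).trans (hM x)])
    rw [abs_mul]
    exact (mul_le_mul (hR i j k hij) this (abs_nonneg _) (by positivity)).trans_eq (by ring)
  have nb : ∀ i, ∑ j, 3 * C * M * ∑ k, W i k ^ 2 * W j k ^ 2 ≤ 3 * C * K ^ 4 * M := fun i => by
    rw [← mul_sum, sum_comm]
    simp only [← mul_sum]
    have : ∑ k, W i k ^ 2 * ∑ j, W j k ^ 2 ≤ K ^ 2 * K ^ 2 :=
      (sum_le_sum fun k _ => mul_le_mul_of_nonneg_left (w2 k) (sq_nonneg _)).trans (by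
        rw [← sum_mul]; exact mul_le_mul_of_nonneg_right (w1 i) (sq_nonneg K))
    exact (mul_le_mul_of_nonneg_left this (by positivity)).trans_eq (by ring)
  have e1 : opn E ≤ 3 * C * K ^ 4 * M :=
    t.op_schur n E _ (by positivity) (fun i => (sum_le_sum fun j _ => eb i j).trans (nb i))
      fun j => (sum_le_sum fun i _ => (eb i j).trans_eq (by simp only [mul_comm])).trans (nb j)
  have d2 : opn (diagonal δ) ≤ 3 * (C * K) * M :=
    opn_diagonal_le (by positivity) fun i => (abs_sub _ _).trans (by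
      rw [abs_mul, abs_two]
      linarith [cs (by positivity) M0.le (rows w1 A1 i) (o1 x i),
        cs (by positivity) M0.le (rows w1 A1 i) (o1 (fl x i) i)])
  have t2 : opn (O * diagonal fun j => 2 * T j - 2) ≤ M * 2 :=
    opn_mul_le' (hM x) (opn_diagonal_le zero_le_two fun j =>
      abs_le.2 ⟨by linarith [(hT j).1], by linarith [(hT j).2]⟩)
  have key : dj W ω σ x = ∑ k, (T k • Y k + diagonal (fun i => A i k) * Y k +
      Y k * diagonal fun i => A i k) +
      ((O * diagonal fun j => 2 * T j - 2) + off G + E + diagonal δ + jac σ x) := by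
    ext i j
    simp only [Matrix.add_apply, Matrix.sum_apply, Matrix.smul_apply, smul_eq_mul, mul_diagonal,
      diagonal_mul, off, of_apply, E]
    by_cases hij : i = j
    · subst hij
      have yd : ∀ k, Y k i i = jac ω (fl x i) i k - O i k := fun k => by
        by_cases hk : i = k
        · subst hk; rfl
        · exact J.ydiag n ω x i k hk
      rw [J.diag, diagonal_apply_eq, if_pos rfl, if_pos rfl]
      change ∑ k, T k * Y k i i - ∑ k, A i k * O i k + (2 * T i - 2) * O i i + _ = _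
      simp only [sum_add_distrib, δ, mul_comm (Y _ i i)]
      simp only [yd, mul_sub (A i _), sum_sub_distrib]
      ring
    · rw [J.offd n W ω σ x i j hij, diagonal_apply_ne _ hij, if_neg hij, if_neg hij]
      change ∑ k, (T k + A i k + A j k + mx W x i j k) * Y k i j +
        ∑ k, (A j k + mx W x i j k) * O i k + (2 * T j + 2 * A i j - 2) * O i j + _ = _
      simp only [G, Matrix.add_apply, of_apply, mul_apply (N := dᵀ), mul_apply (N := Pᵀ),
        mul_apply (N := Aᵀ), transpose_apply, mul_diagonal]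
      have : ∀ a b c : ℝ, a = b + c → ∀ u v, a + (2 * T j + 2 * A i j - 2) * O i j + u =
          b + (O i j * (2 * T j - 2) + (c - v + (A i j * O i j + A i j * O i j)) + v + 0 + u) := by
        intro a b c e u v; rw [e]; ring
      refine (this _ _ _ ?_ _ _).trans (by congr 6; rw [sub_eq_iff_eq_add])
      simp only [← sum_add_distrib]
      exact sum_congr rfl fun k _ => by ring
  rw [J.lin, key, smul_add, ← add_assoc]
  refine (opn_add_le' (main M0 (hM x) (fun k => by rw [hY, add_sub_cancel]; exact hM _) hT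
    (sq_nonneg (C * K)) (rows (X := of fun i k => A i k / √(T k * (1 - T k))) w1 fun i k => ?_)
    h0 hn) ((opn_smul _ _).trans_le (mul_le_mul_of_nonneg_left (opn_add_le' (opn_add_le'
      (opn_add_le' (opn_add_le' t2 ((t.op_off n G).trans
        (mul_le_mul_of_nonneg_left g1 zero_le_two))) e1) d2) (hN x)) (abs_nonneg h)))).trans_eq ?_
  · have s0 := sqrt_pos.2 (S0 k)
    rw [of_apply, abs_div, abs_of_pos s0, div_le_iff₀ s0]
    refine (hA i k).trans (mul_le_mul_of_nonneg_left ?_ (cw i k))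
    exact le_sqrt_of_sq_le (by nlinarith [S0 k, S1 k])
  · rw [abs_of_nonneg h0, hc]; ring

end op

section pt

open Matrix Real
open Crest.Agent.T157.E hiding mean
open Crest.Agent.T157.Eig
open Crest.Agent.T157.Tap (V Mx)
open Crest.Agent.T157.Rec (grad fl)
open Crest.Agent.T157.Reg Crest.Agent.T157.Reg.Pt29

/-- **the pointwise inequality** -/
theorem ptGlue : PtGlue := by
  intro t b j c K
  obtain ⟨C, hC, hc⟩ := c K
  have hC0 : 0 ≤ C := by linarith
  have hE : 0 ≤ Ec C K := by unfold Ec; positivity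
  refine ⟨12 * C ^ 2 * K ^ 2 + 2 * C * K ^ 4 + 18 * C ^ 2 + 136 * Ec C K + 8 * C ^ 4 + 34, ?_,
    fun n _ W hW ω σ x => ?_⟩
  · have : 0 ≤ 12 * C ^ 2 * K ^ 2 + 2 * C * K ^ 4 + 18 * C ^ 2 + 136 * Ec C K + 8 * C ^ 4 := by
      positivity
    linarith
  obtain ⟨hT, -, ha, ha', -, hm, d, P, q, hd, hP, hdP, hq, hR⟩ := hc n W hW x
  have hT' : ∀ k, 0 ≤ Tk W x k ∧ Tk W x k ≤ 1 := fun k => ⟨(hT k).1.le, (hT k).2.le⟩
  have hTT : ∀ k, Tk W x k * (1 - Tk W x k) ≤ Tk W x k := fun k => by
    nlinarith [(hT' k).1]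
  have ha1 : ∀ i k, |al W x i k| ≤ C * |W i k| * Tk W x k := fun i k =>
    (ha i k).trans (mul_le_mul_of_nonneg_left (hTT k) (by positivity))
  have ha2 : ∀ i k, |al W x i k| ≤ C * |W i k| := fun i k =>
    (ha1 i k).trans (mul_le_of_le_one_right (by positivity) (hT' k).2)
  set O := jac ω x with hO
  set X := off O with hX
  set B : Fin n → Mx n := fun k => jac ω (fl x k) - O with hB
  have h1 := third t hW hC0 X (fun k => off (B k)) (Tk W x) (al W x) (mx W x) hT' ha1
    fun i j k => by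
      by_cases hij : i = j
      · simp [off, hij]
      · rw [abs_mul]
        exact mul_le_mul_of_nonneg_right ((hm i j k hij).trans
          (mul_le_mul_of_nonneg_left (hTT k) (by positivity))) (abs_nonneg _)
  have h2 := zeroth t hW hC0 X O (jac σ x) (al W x) d P (Tk W x) q (mx W x) hT' ha2 ha' hd hP hdP
    hq hR
  have h3 := diag_part t O (jac σ x) (al W x) B (Tk W x) hT' ha'
  have e1 : fp (X * Xᵀ * X) (off (dj W ω σ x)) = ∑ i, ∑ j, (X * Xᵀ * X) i j *
      ∑ k, (Tk W x k + al W x i k + al W x j k + mx W x i j k) * off (B k) i j +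
      fp (X * Xᵀ * X) (off (of fun i j => ∑ k, (al W x j k + mx W x i j k) * O i k +
        (2 * Tk W x j + 2 * al W x i j - 2) * O i j + jac σ x i j)) := by
    simp only [fp, ← Finset.sum_add_distrib, ← mul_add]
    refine Finset.sum_congr rfl fun i _ => Finset.sum_congr rfl fun l _ => ?_
    congr 1
    by_cases hil : i = l
    · simp [off, hil]
    · simp only [off, of_apply, if_neg hil]
      rw [j.offd n W ω σ x i l hil]
      ring
  have e2 : ∑ i, O i i ^ 3 * dj W ω σ x i i = ∑ i, O i i ^ 3 * (∑ k, Tk W x k * B k i i -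
      ∑ k, al W x i k * O i k + (2 * Tk W x i - 2) * O i i + jac σ x i i) :=
    Finset.sum_congr rfl fun i _ => by rw [j.diag n W ω σ x i]
  have e3 : gen (mu W) (fun z => So (jac ω z)) x =
      ∑ k, Tk W x k * (S4 (X + off (B k)) - S4 X) +
        ∑ k, Tk W x k * (∑ i, (O i i + B k i i) ^ 4 - ∑ i, O i i ^ 4) := by
    rw [b.gen_eq n W hW.1, ← Finset.sum_add_distrib]
    refine Finset.sum_congr rfl fun k _ => ?_
    have f1 : X + off (B k) = off (jac ω (fl x k)) := by
      ext i l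
      simp only [hX, hB, off, Matrix.add_apply, of_apply, Matrix.sub_apply]
      split_ifs <;> ring
    have f2 : ∀ i, O i i + B k i i = jac ω (fl x k) i i := fun i => by
      simp only [hB, Matrix.sub_apply]
      ring
    simp only [f1, f2, So, ← hO, ← hX]
    ring
  have g1 : S4 X ≤ So O := s4_off_le O
  have g2 := diag_le O
  have g3 := (t.so_le n O).2
  have g4 := s4_nonneg (jac σ x)
  have g5 : 0 ≤ So O := (s4_nonneg X).trans g1
  have k1 := mul_le_mul_of_nonneg_left g1
    (by positivity : 0 ≤ 12 * C ^ 2 * K ^ 2 + 2 * C * K ^ 4 + 18 * C ^ 2)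
  have k2 := mul_le_mul_of_nonneg_left g3 (by positivity : 0 ≤ 17 * Ec C K + C ^ 4)
  have k3 := mul_nonneg (by positivity :
    0 ≤ 12 * C ^ 2 * K ^ 2 + 2 * C * K ^ 4 + 18 * C ^ 2 + 136 * Ec C K + 8 * C ^ 4) g4
  rw [e1, e2, e3]
  linarith

end pt

section s4

open Matrix Real Filter Topology Finset
open Crest.Agent.T157.E hiding mean
open Crest.Agent.T157.Eig
open Crest.Agent.T157.Tap (V Mx)
open Crest.Agent.T157.Rec (grad fl)
open Crest.Agent.T157.Da.Gr (loc tt)
open Crest.Agent.T157.Chain22 (sg IsP mean isP_prob' prob_pos' hbRC)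
open Crest.Agent.T157.Reg
open Crest.Agent.T157.Reg.S42 hiding mu_pos isP_mu abs_tt coef_le dj_le crude

namespace S4y

variable {n : ℕ} [Fy n]

theorem mu_pos (W : Mx n) (x : Cube n) : 0 < mu W x := exp_pos _

theorem isP_mu (W : Mx n) : IsP (prob (mu W)) := isP_prob' (mu_pos W)

theorem abs_tt (W : Mx n) (x : Cube n) (k : Fin n) : |tt W Fy.y x k| ≤ 1 :=
  abs_le.2 ⟨(neg_one_lt_tanh _).le, (tanh_lt_one _).le⟩

theorem coef_le (W : Mx n) (x : Cube n) (i k : Fin n) : |Tk W x k + al W x i k| ≤ 1 := by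
  have e : Tk W x k + al W x i k = (1 - sv x k * tt W Fy.y (fl x i) k) / 2 := by
    simp only [Tk, al, of_apply]; ring
  have h : |sv x k * tt W Fy.y (fl x i) k| ≤ 1 := by
    rw [abs_mul, abs_sv, one_mul]; exact abs_tt _ _ _
  rw [e, abs_le]
  constructor <;> linarith [abs_le.1 h]

theorem dj_le (W : Mx n) (ω σ : VF n) {m s : ℝ} (hm : ∀ z i k, |jac ω z i k| ≤ m)
    (hs : ∀ z i k, |jac σ z i k| ≤ s) (x : Cube n) (i j : Fin n) :
    |dj W ω σ x i j| ≤ (2 * n + 1) * m + s := by
  have k : ∀ z, |∑ k, (Tk W z k + al W z i k) * jac ω z i k| ≤ n * m := fun z => by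
    refine (abs_sum_le_sum_abs _ _).trans ?_
    have : ∑ k, |(Tk W z k + al W z i k) * jac ω z i k| ≤ ∑ _k : Fin n, m :=
      sum_le_sum fun k _ => by
        rw [abs_mul]
        exact (mul_le_of_le_one_left (abs_nonneg _) (coef_le W z i k)).trans (hm z i k)
    simpa using this
  have e : dj W ω σ x i j = ∑ k, (Tk W (fl x j) k + al W (fl x j) i k) * jac ω (fl x j) i k -
      ∑ k, (Tk W x k + al W x i k) * jac ω x i k - jac ω x i j + jac σ x i j := by
    simp only [dj, Matrix.sub_apply, jac, stp, of_apply]; ring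
  have h1 := abs_le.1 (k (fl x j))
  have h2 := abs_le.1 (k x)
  have h3 := abs_le.1 (hm x i j)
  have h4 := abs_le.1 (hs x i j)
  rw [e, abs_le]
  constructor <;> linarith [h1.1, h1.2, h2.1, h2.2, h3.1, h3.2, h4.1, h4.2]

theorem crude (t : ToolStmt) (W : Mx n) : ∃ B > (0 : ℝ), ∀ ω σ : VF n,
    mean (prob (mu W)) (fun x => So (dj W ω σ x)) ≤
      B * (mean (prob (mu W)) (fun x => So (jac ω x)) +
        mean (prob (mu W)) fun x => S4 (jac σ x)) := by
  obtain ⟨B, B0, hB⟩ := ex_pmin (prob_pos' (mu_pos W))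
  refine ⟨136 * (n ^ 4 + 1) * (2 * n + 1) ^ 4 * B, by positivity, fun ω σ => ?_⟩
  set a := mean (prob (mu W)) (fun x => So (jac ω x))
  set b := mean (prob (mu W)) (fun x => S4 (jac σ x))
  have a0 : 0 ≤ a := (isP_mu W).mean_nonneg fun _ => So_nonneg _
  have b0 : 0 ≤ b := (isP_mu W).mean_nonneg fun _ => S4_nonneg _
  obtain ⟨m, m0, m4, hm⟩ := ex_root (mul_nonneg B0.le a0)
  obtain ⟨s, s0, s4, hs⟩ := ex_root (mul_nonneg B0.le b0)
  have k := dj_le W ω σ
    (fun z i k => hm _ ((entry_le_So t _ i k).trans (hB _ (fun _ => So_nonneg _) z)))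
    (fun z i k => hs _ ((entry_le_S4 t _ i k).trans (hB _ (fun _ => S4_nonneg _) z)))
  refine ((isP_mu W).mean_mono fun x => So_le_of_entry t _ (k x)).trans ?_
  rw [(isP_mu W).mean_const]
  set r : ℝ := 2 * n + 1 with hr
  have r1 : 1 ≤ r := by rw [hr]; linarith [Nat.cast_nonneg (α := ℝ) n]
  have r4 : 1 ≤ r ^ 4 := one_le_pow₀ r1
  have e1 : (r * m + s) ^ 4 ≤ 8 * ((r * m) ^ 4 + s ^ 4) := by
    nlinarith [sq_nonneg ((r * m) ^ 2 - s ^ 2), sq_nonneg (r * m - s), sq_nonneg (r * m + s),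
      mul_nonneg (sq_nonneg (r * m - s)) (sq_nonneg (r * m + s)),
      mul_nonneg (sq_nonneg (r * m - s)) (add_nonneg (sq_nonneg (r * m)) (sq_nonneg s))]
  rw [mul_pow, m4, s4] at e1
  have e2 : B * b ≤ r ^ 4 * (B * b) := le_mul_of_one_le_left (by positivity) r4
  have e3 : (r * m + s) ^ 4 ≤ 8 * (r ^ 4 * B * (a + b)) := by nlinarith
  have e4 : (n : ℝ) ^ 4 * (r * m + s) ^ 4 ≤ (n ^ 4 + 1) * (8 * (r ^ 4 * B * (a + b))) :=
    mul_le_mul (by linarith) e3 (by positivity) (by positivity)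
  nlinarith

end S4y

open S4y

theorem s4Glue : S4Glue := fun t j p K => by
  obtain ⟨C, C1, hC⟩ := p K
  refine ⟨C + 1, by linarith, fun n _ W hW => ?_⟩
  obtain ⟨B, B0, hB⟩ := crude t W
  have ev : ∀ᶠ h : ℝ in 𝓝[>] 0, h ∈ Set.Ioo 0 (1 / (20 * (1 + B))) :=
    Ioo_mem_nhdsGT (by positivity)
  filter_upwards [ev] with h hh ω σ
  obtain ⟨h0, h1⟩ := hh
  rw [lt_div_iff₀ (by positivity)] at h1
  have h2 : h ≤ 1 := by nlinarith
  have key : mean (prob (mu W)) (fun x => So (jac (stp W h ω σ) x)) ≤ mean (prob (mu W)) fun x =>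
      So (jac ω x) + h * (gen (mu W) (fun z => So (jac ω z)) x +
        C * (So (jac ω x) + S4 (jac σ x))) + 20 * h ^ 2 * (So (jac ω x) + So (dj W ω σ x)) :=
    (isP_mu W).mean_mono fun x => by
      rw [j.lin]
      refine (So_taylor t _ _ h0.le h2).trans ?_
      have := mul_le_mul_of_nonneg_left (hC n W hW ω σ x) h0.le
      linarith
  rw [Ent.mean_add', Ent.mean_add', Ent.mean_const_mul, Ent.mean_const_mul, Ent.mean_add',
    Ent.mean_add', Ent.mean_const_mul, Ent.mean_add', mean_gen (mu_pos W)] at key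
  have k := hB ω σ
  set a := mean (prob (mu W)) (fun x => So (jac ω x))
  set b := mean (prob (mu W)) (fun x => S4 (jac σ x))
  set c := mean (prob (mu W)) (fun x => So (dj W ω σ x))
  have a0 : 0 ≤ a := (isP_mu W).mean_nonneg fun _ => So_nonneg _
  have b0 : 0 ≤ b := (isP_mu W).mean_nonneg fun _ => S4_nonneg _
  have e1 : a + c ≤ (1 + B) * (a + b) := by nlinarith
  have e2 : 20 * h ^ 2 * (a + c) ≤ h * (h * (20 * (1 + B))) * (a + b) := by
    nlinarith [mul_le_mul_of_nonneg_left e1 (by positivity : 0 ≤ 20 * h ^ 2)]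
  have e3 : h * (h * (20 * (1 + B))) * (a + b) ≤ h * 1 * (a + b) :=
    mul_le_mul_of_nonneg_right (mul_le_mul_of_nonneg_left h1.le h0.le) (by positivity)
  nlinarith

end s4

end Crest.Agent.T157.RegY

end
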