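import Crest.Agent.T157.RyA_70
import Crest.Agent.T157.RyB_70
import Crest.Agent.T157.RegJb_45
import Crest.Agent.T157.RegTool_31

/-!
# Row 157, part B (helper70): `JbGlue` with a field (port of 45) and the unconditional leaves
-/

set_option autoImplicit false

noncomputable section

namespace Crest.Agent.T157.RegY

open Matrix Real Finset
open Crest.Agent.T157.E hiding mean
open Crest.Agent.T157.Eig
open Crest.Agent.T157.Tap (V Mx)
open Crest.Agent.T157.Rec (grad fl)
open Crest.Agent.T157.Reg Crest.Agent.T157.Reg.Jb45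

theorem jbGlue : JbGlue := by
  intro t j cf K
  obtain ⟨C, hC, cf⟩ := cf K
  obtain ⟨c, h1, h2, h3⟩ : ∃ c : ℝ, C ≤ c ∧ K ≤ c ∧ K ^ 2 ≤ c :=
    ⟨C + K ^ 2, by nlinarith, by nlinarith [sq_nonneg (K - 1)], by linarith⟩
  have hc : 1 ≤ c := hC.trans h1
  have c16 : ∀ k ≤ 16, c ^ k ≤ c ^ 16 := fun k hk => pow_le_pow_right₀ hc hk
  refine ⟨1200000 * c ^ 16, by nlinarith [one_le_pow₀ (n := 16) hc], fun n _ W hW ω x => ?_⟩
  obtain ⟨-, -, -, -, ham, -, d, P, q, hd, hP, he, hq, hr⟩ := cf n W hW x
  have K0 := Pt29.K_nonneg hW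
  have c2 : c ≤ c ^ 2 := by nlinarith
  set J := jac ω x with hJ
  set G : Mx n := of fun i k => W i k ^ 2 with hG
  have hs : ∀ k, |sv x k| ≤ c := fun k => (abs_sv x k).trans_le hc
  have L1 := op_sand hc x (hP.trans h1) hs
  have L2 := op_sand hc x (hd.trans h1) hs
  have L3 := op_sand hc x (hd.trans h1) (q := fun k => sv x k * q k) fun k => by
    rw [abs_mul, abs_sv, one_mul]; exact (hq k).trans h1
  have oG : opn G ≤ c := (t.op_schur n G (K ^ 2) (by positivity)
    (fun i => by simpa [hG] using Pt29.row_sq t hW i)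
    (fun i => by simpa [hG] using Pt29.col_sq t hW i)).trans h3
  have eG : ∀ i k, |G i k| ≤ c * |W i k| := fun i k => by
    rw [hG, of_apply, sq, abs_mul]
    exact mul_le_mul_of_nonneg_right (((abs_entry_le W i k).trans hW.2.1).trans h2) (abs_nonneg _)
  have L4 : opn (c • G) ≤ c ^ 2 := by
    rw [opn_smul, abs_of_nonneg (by linarith), sq]; gcongr
  have ed : ∀ i k, |d i k| ≤ c * |W i k| := fun i k => (he i k).1.trans (by gcongr)
  have eP : ∀ i k, |P i k| ≤ c * |W i k| := fun i k => (he i k).2.trans (by gcongr)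
  set T : Mx n := diagonal (sv x) * P * diagonal (sv x) * NN d J (ω x) +
    diagonal (sv x) * d * diagonal (sv x) * NN P J (ω x) +
    (diagonal (sv x) * d * diagonal fun k => sv x k * q k) * NN d J (ω x) with hT
  set R : Mx n := jac (bb W ω) x - (am W x * J + off T) with hR
  have eq : jac (bb W ω) x = am W x * J + off T + R := by rw [hR]; abel
  have dom : ∀ a b, |R a b| ≤
      (c • G * NN G (of fun k j => |J k j|) fun k => |ω x k|) a b := fun a b => by
    have eT : T a b = ∑ k, sv x a * sv x k * (P a k * d b k + d a k * P b k + q k * (d a k * d b k)) *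
        (J k b + ω x k) := by
      simp only [hT, Matrix.add_apply, Matrix.mul_apply (M := _ * _ * _), mul_diagonal,
        diagonal_mul, NN, of_apply, ← sum_add_distrib]
      exact sum_congr rfl fun k _ => by ring
    have nn : ∀ k, 0 ≤ c * W a k ^ 2 * (W b k ^ 2 * (|J k b| + |ω x k|)) := fun k => by positivity
    have eR : (c • G * NN G (of fun k j => |J k j|) fun k => |ω x k|) a b =
        ∑ k, c * W a k ^ 2 * (W b k ^ 2 * (|J k b| + |ω x k|)) := by
      rw [Matrix.mul_apply]
      simp only [Matrix.smul_apply, hG, NN, smul_eq_mul, of_apply]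
    rw [eR]
    simp only [hR, Matrix.sub_apply, Matrix.add_apply, j.jb, off, of_apply, ← hJ]
    split_ifs with hab
    · simpa using sum_nonneg fun k _ => nn k
    · rw [eT, add_sub_add_left_eq_sub, ← sum_sub_distrib]
      refine (abs_sum_le_sum_abs _ _).trans (sum_le_sum fun k _ => ?_)
      rw [← sub_mul, ← mul_sub, abs_mul, abs_mul, abs_mul, abs_sv, abs_sv, one_mul, one_mul]
      calc _ ≤ c * (W a k ^ 2 * W b k ^ 2) * (|J k b| + |ω x k|) :=
            mul_le_mul ((hr a b k hab).trans (by gcongr)) (abs_add_le _ _) (abs_nonneg _)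
              (by positivity)
        _ = _ := by ring
  refine ⟨fun y hy hω => ?_, ?_, ?_⟩
  · have n1 := NN_op t (J := J) hc (hd.trans h1) (fun _ _ => le_rfl) hy hω
    have n2 := NN_op t (J := J) hc (hP.trans h1) (fun _ _ => le_rfl) hy hω
    have n3 := NN_op t (J := J) (J' := of fun k j => |J k j|) (θ := fun k => |ω x k|) hc oG
      (fun _ _ => by simp) hy fun k => by simpa using hω k
    have a1 := op_mul (ham.trans h1) (le_add_of_nonneg_right hy : opn J ≤ opn J + y)
    have a2 : opn T ≤ 3 * (c ^ 2 * (c * (opn J + y))) := by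
      have := op_mul L1 n1; have := op_mul L2 n2; have := op_mul L3 n1
      refine (opn_add_le _ _).trans ((add_le_add (opn_add_le _ _) le_rfl).trans ?_)
      linarith
    have a3 := (t.op_dom n _ _ dom).trans (op_mul L4 n3)
    have a4 := t.op_off n T
    have X0 : 0 ≤ opn J + y := add_nonneg (opn_nonneg _) hy
    have b1 : c * (opn J + y) ≤ c ^ 16 * (opn J + y) := by
      gcongr; simpa using c16 1 (by norm_num)
    have b2 : c ^ 3 * (opn J + y) ≤ c ^ 16 * (opn J + y) := by gcongr; norm_num
    have b3 : 0 ≤ c ^ 16 * (opn J + y) := by positivity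
    rw [eq]
    refine (opn_add_le _ _).trans ((add_le_add (opn_add_le _ _) le_rfl).trans ?_)
    nlinarith
  · have n1 := NN_s4 t hW h2 (J := J) (ω := ω x) hc (hd.trans h1) ed (fun _ _ => le_rfl)
      fun _ => rfl
    have n2 := NN_s4 t hW h2 (J := J) (ω := ω x) hc (hP.trans h1) eP (fun _ _ => le_rfl)
      fun _ => rfl
    have n3 := NN_s4 t hW h2 (J := J) (J' := of fun k j => |J k j|) (θ := fun k => |ω x k|)
      (ω := ω x) hc oG eG (fun _ _ => by simp) fun k => by
        rw [show (4 : ℕ) = 2 * 2 from rfl, pow_mul, pow_mul, sq_abs]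
    have w0 : 0 ≤ ∑ k, ω x k ^ 4 := by positivity
    have a1 := s4_mul t (ham.trans h1) (le_add_of_nonneg_right w0 : S4 J ≤ S4 J + ∑ k, ω x k ^ 4)
    have X0 : 0 ≤ S4 J + ∑ k, ω x k ^ 4 := add_nonneg (Pt29.s4_nonneg _) w0
    generalize S4 J + ∑ k, ω x k ^ 4 = X at *
    have e8 : (c ^ 2) ^ 4 * (8 * c ^ 8 * X) = 8 * (c ^ 16 * X) := by ring
    have a2 : S4 T ≤ 1088 * (c ^ 16 * X) := by
      have := s4_mul t L1 n1; have := s4_mul t L2 n2; have := s4_mul t L3 n1
      have := t.s4_add n (diagonal (sv x) * P * diagonal (sv x) * NN d J (ω x))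
        (diagonal (sv x) * d * diagonal (sv x) * NN P J (ω x))
      refine (t.s4_add n _ _).trans ?_
      linarith
    have a3 := (t.s4_dom n _ _ dom).trans (s4_mul t L4 n3)
    have a4 : S4 (off T) ≤ 17 * S4 T :=
      le_trans (le_add_of_nonneg_right (by positivity)) (t.so_le n T).1
    have b1 : c ^ 4 * X ≤ c ^ 16 * X := by gcongr; norm_num
    have b3 : 0 ≤ c ^ 16 * X := by positivity
    have := t.s4_add n (am W x * J) (off T)
    rw [eq]
    refine (t.s4_add n _ _).trans ?_
    linarith
  · have := mulVec_dot_le (am W x) (ω x)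
    have h0 : 0 ≤ ω x ⬝ᵥ ω x := dotProduct_self_star_nonneg _
    have h4 := opn_nonneg (am W x)
    have h5 : opn (am W x) ^ 2 ≤ c ^ 16 :=
      (pow_le_pow_left₀ h4 (ham.trans h1) 2).trans (c16 2 (by norm_num))
    have h6 : 0 ≤ c ^ 16 := by positivity
    refine this.trans (mul_le_mul_of_nonneg_right (by linarith) h0)

theorem jbStmt : JbStmt := jbGlue toolStmt jacStmt coefStmt
theorem boStmt : BoStmt := boGlue basStmt coefStmt
theorem opStmt : OpStmt := opGlue toolStmt jacStmt coefStmt
theorem ptStmt : PtStmt := ptGlue toolStmt basStmt jacStmt coefStmt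
theorem s4Stmt : S4Stmt := s4Glue toolStmt jacStmt ptStmt

end Crest.Agent.T157.RegY

end
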