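import Crest.Agent.T157.RegDef_94

/-!
# Row 157, part B (helper70): the words and leaves of `RegDef_94` with an arbitrary field

The field is the instance argument `[Fy n]`; the constants are uniform in it.
-/

set_option autoImplicit false

noncomputable section

namespace Crest.Agent.T157.RegY

open Matrix Real Filter Topology
open Crest.Agent.T157.E hiding mean
open Crest.Agent.T157.Eig
open Crest.Agent.T157.Tap (V Mx)
open Crest.Agent.T157.Rec (grad fl)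
open Crest.Agent.T157.Da.Gr (loc tt)
open Crest.Agent.T157.Chain22 (sg IsP mean)
open Crest.Agent.T157.Reg

/-- the external field -/
class Fy (n : ℕ) where
  y : V n

section words

variable {n : ℕ} [Fy n]

/-- the Gibbs weight -/
def mu (W : Mx n) : Cube n → ℝ := ising W Fy.y
/-- flip rate -/
def Tk (W : Mx n) (x : Cube n) (k : Fin n) : ℝ := (1 - sv x k * tt W Fy.y x k) / 2
/-- change of the rate of `k` when `i` is flipped -/
def al (W : Mx n) (x : Cube n) : Mx n :=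
  of fun i k => -(sv x k * (tt W Fy.y (fl x i) k - tt W Fy.y x k)) / 2
/-- mixed second difference of the rate of `k` -/
def mx (W : Mx n) (x : Cube n) (i j k : Fin n) : ℝ :=
  -(sv x k * (tt W Fy.y (fl (fl x i) j) k - tt W Fy.y (fl x i) k - tt W Fy.y (fl x j) k + tt W Fy.y x k)) / 2
/-- gradient of the conditional means -/
def am (W : Mx n) (x : Cube n) : Mx n := of fun i k => grad (fun z => tt W Fy.y z k) x i
/-- the source of the intertwined equation -/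
def bb (W : Mx n) (ω : VF n) : VF n := fun x => am W x *ᵥ ω x
/-- one step of the intertwined equation with source `σ` -/
def stp (W : Mx n) (h : ℝ) (ω σ : VF n) : VF n := fun x i =>
  ω x i + h * (∑ k, (Tk W x k + al W x i k) * jac ω x i k - ω x i + σ x i)
/-- the linear flow -/
def lin (W : Mx n) (h : ℝ) (ω0 : VF n) : ℕ → VF n
  | 0 => ω0
  | m + 1 => stp W h (lin W h ω0 m) (bb W (lin W h ω0 m))
/-- the clipped flow, level `η r ^ m` at step `m` -/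
def clf (W : Mx n) (h η r : ℝ) (ω0 : VF n) : ℕ → VF n
  | 0 => ω0
  | m + 1 => stp W h (clf W h η r ω0 m) fun x i => clip (η * r ^ m) (bb W (clf W h η r ω0 m) x i)
/-- Euler step of the semigroup -/
def Qh (W : Mx n) (h : ℝ) (f : Cube n → ℝ) : Cube n → ℝ := fun x => f x + h * gen (mu W) f x
/-- velocity of the Jacobian: `jac (stp W h ω σ) x = jac ω x + h • dj W ω σ x` -/
def dj (W : Mx n) (ω σ : VF n) (x : Cube n) : Mx n := jac (stp W 1 ω σ) x - jac ω x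

end words

/-- intertwining, warm vectors, the limit `h → 0`, oddness -/
structure BasStmt : Prop where
  int : ∀ (n : ℕ) [Fy n] (W : Mx n), Wᵀ = W → ∀ h f, grad (Qh W h f) = stp W h (grad f) (bb W (grad f))
  gen_eq : ∀ (n : ℕ) [Fy n] (W : Mx n), Wᵀ = W → ∀ f x,
    gen (mu W) f x = ∑ k, Tk W x k * (f (fl x k) - f x)
  wm : ∀ (n : ℕ) [Fy n] (W : Mx n), Wᵀ = W → ∀ h H v, 0 ≤ h → h * n ≤ 1 → Wm (mu W) H v →
    ∃ v', Wm (mu W) H v' ∧ ∀ f, mean v (Qh W h f) = mean v' f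
  lim : ∀ (n : ℕ) [Fy n] (W : Mx n), 0 < n → ∀ u, 0 ≤ u → ∀ f x,
    Tendsto (fun h : ℝ => (Qh W h)^[⌊u / h⌋₊] f x) (𝓝[>] 0) (𝓝 (sg (mu W) u f x))
  dir_eq : ∀ (n : ℕ) [Fy n] (W : Mx n), Wᵀ = W → ∀ f,
    dir (mu W) f = mean (prob (mu W)) fun x => ∑ k, (1 - tt W Fy.y x k ^ 2) * grad f x k ^ 2

/-- exact evolution of the Jacobian -/
structure JacStmt : Prop where
  lin : ∀ (n : ℕ) [Fy n] (W : Mx n) (h : ℝ) (ω σ : VF n) (x : Cube n),
    jac (stp W h ω σ) x = jac ω x + h • dj W ω σ x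
  offd : ∀ (n : ℕ) [Fy n] (W : Mx n) (ω σ : VF n) (x : Cube n) (i j : Fin n), i ≠ j → dj W ω σ x i j =
    ∑ k, (Tk W x k + al W x i k + al W x j k + mx W x i j k) * (jac ω (fl x k) - jac ω x) i j +
      ∑ k, (al W x j k + mx W x i j k) * jac ω x i k +
      (2 * Tk W x j + 2 * al W x i j - 2) * jac ω x i j + jac σ x i j
  diag : ∀ (n : ℕ) [Fy n] (W : Mx n) (ω σ : VF n) (x : Cube n) (i : Fin n), dj W ω σ x i i =
    ∑ k, Tk W x k * (jac ω (fl x k) - jac ω x) i i - ∑ k, al W x i k * jac ω x i k +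
      (2 * Tk W x i - 2) * jac ω x i i + jac σ x i i
  ydiag : ∀ (n : ℕ) (ω : VF n) (x : Cube n) (i k : Fin n), i ≠ k →
    (jac ω (fl x k) - jac ω x) i i = jac ω (fl x i) i k - jac ω x i k
  jb : ∀ (n : ℕ) [Fy n] (W : Mx n) (ω : VF n) (x : Cube n) (i j : Fin n), jac (bb W ω) x i j =
    (am W x * jac ω x) i j + if i = j then 0 else
      ∑ k, sv x i * sv x k * mx W x i j k * (jac ω x k j + ω x k)

/-- bounds on the coefficients -/
def CoefStmt : Prop := ∀ K : ℝ, ∃ C ≥ (1 : ℝ), ∀ (n : ℕ) [Fy n] (W : Mx n), Nice W K → ∀ x,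
  (∀ k, 0 < Tk W x k ∧ Tk W x k < 1) ∧
  (∀ i k, 0 ≤ Tk W x k + al W x i k ∧ Tk W x k + al W x i k ≤ 1) ∧
  (∀ i k, |al W x i k| ≤ C * |W i k| * (Tk W x k * (1 - Tk W x k))) ∧
  opn (al W x) ≤ C ∧ opn (am W x) ≤ C ∧
  (∀ i j k, i ≠ j → |mx W x i j k| ≤ C * |W i k| * |W j k| * (Tk W x k * (1 - Tk W x k))) ∧
  ∃ (d P : Mx n) (q : V n), opn d ≤ C ∧ opn P ≤ C ∧
    (∀ i k, |d i k| ≤ C * |W i k| ∧ |P i k| ≤ C * |W i k|) ∧ (∀ k, |q k| ≤ C) ∧
    ∀ i j k, i ≠ j → |mx W x i j k - (P i k * d j k + d i k * P j k + q k * (d i k * d j k))| ≤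
      C * (W i k ^ 2 * W j k ^ 2)

/-- Jacobian of the source -/
def JbStmt : Prop := ∀ K : ℝ, ∃ C ≥ (1 : ℝ), ∀ (n : ℕ) [Fy n] (W : Mx n), Nice W K → ∀ (ω : VF n) x,
  (∀ y, 0 ≤ y → (∀ k, |ω x k| ≤ y) → opn (jac (bb W ω) x) ≤ C * (opn (jac ω x) + y)) ∧
  S4 (jac (bb W ω) x) ≤ C * (S4 (jac ω x) + ∑ k, ω x k ^ 4) ∧ sq2 (bb W ω) x ≤ C * sq2 ω x

/-- Bochner inequality and maximum principle for one step -/
def BoStmt : Prop := ∀ K : ℝ, ∃ C ≥ (1 : ℝ), ∀ (n : ℕ) [Fy n] (W : Mx n), Nice W K → ∀ h : ℝ, 0 ≤ h →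
  C * h * (n + 1) ≤ 1 → ∀ ξ σ : VF n,
  (∀ x, sq2 (stp W h ξ σ) x ≤ Qh W h (sq2 ξ) x + h * (C * sq2 ξ x + 2 * sq2 σ x)) ∧
  ∀ y z, (∀ x i, |ξ x i| ≤ y) → (∀ x i, |σ x i| ≤ z) →
    ∀ x i, |stp W h ξ σ x i| ≤ (1 - h) * y + h * z

/-- maximum principle for the operator norm of the Jacobian -/
def OpStmt : Prop := ∀ K : ℝ, ∃ C ≥ (1 : ℝ), ∀ (n : ℕ) [Fy n] (W : Mx n), Nice W K → ∀ h : ℝ, 0 ≤ h →
  h * n ≤ 1 → ∀ (ω σ : VF n) (M N : ℝ), (∀ x, opn (jac ω x) ≤ M) → (∀ x, opn (jac σ x) ≤ N) →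
  ∀ x, opn (jac (stp W h ω σ) x) ≤ (1 + C * h) * M + h * N

/-- pointwise first-order inequality for `So` -/
def PtStmt : Prop := ∀ K : ℝ, ∃ C ≥ (1 : ℝ), ∀ (n : ℕ) [Fy n] (W : Mx n), Nice W K → ∀ (ω σ : VF n) x,
  4 * fp (off (jac ω x) * (off (jac ω x))ᵀ * off (jac ω x)) (off (dj W ω σ x)) +
      4 * ∑ i, jac ω x i i ^ 3 * dj W ω σ x i i ≤
    gen (mu W) (fun z => So (jac ω z)) x + C * (So (jac ω x) + S4 (jac σ x))

/-- one step of `So` under the Gibbs measure -/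
def S4Stmt : Prop := ∀ K : ℝ, ∃ C ≥ (1 : ℝ), ∀ (n : ℕ) [Fy n] (W : Mx n), Nice W K →
  ∀ᶠ h : ℝ in 𝓝[>] 0, ∀ ω σ : VF n,
  mean (prob (mu W)) (fun x => So (jac (stp W h ω σ) x)) ≤
    (1 + C * h) * mean (prob (mu W)) (fun x => So (jac ω x)) +
      C * h * mean (prob (mu W)) fun x => S4 (jac σ x)

def JbGlue : Prop := ToolStmt → JacStmt → CoefStmt → JbStmt
def BoGlue : Prop := BasStmt → CoefStmt → BoStmt
def OpGlue : Prop := ToolStmt → JacStmt → CoefStmt → OpStmt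
def PtGlue : Prop := ToolStmt → BasStmt → JacStmt → CoefStmt → PtStmt
def S4Glue : Prop := ToolStmt → JacStmt → PtStmt → S4Stmt

end Crest.Agent.T157.RegY

end
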