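import Crest.Agent.T157.RyC_70
import Crest.Agent.T157.RegGl_45

/-!
# Row 157, part B (helper70): `RegS` with a field (port of 45)

Oddness is replaced by a bound on the time integral of the fourth moment of the source.
-/

set_option autoImplicit false

noncomputable section

namespace Crest.Agent.T157.RegY

open Matrix Real Filter Topology Finset
open Crest.Agent.T157.E hiding mean
open Crest.Agent.T157.Eig
open Crest.Agent.T157.Tap (V Mx)
open Crest.Agent.T157.Rec (grad fl)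
open Crest.Agent.T157.Chain22 (sg IsP mean)
open Crest.Agent.T157.Reg
open Crest.Agent.T157.Reg.G45 (sq2_eq sq2_nn mean_le2 mean_le4 jac_sub cmb cmb_sq2 cmb_op cmb_sub
  grad_cmb et sq_add_le qq exF cmb_sup near)

variable {n : ℕ}

/-- squared lengths at warm vectors -/
def Vc (w : Cube n → ℝ) (K : ℝ) : Prop := ∀ (ω : VF n) (M : ℝ), 0 < M →
  (∀ x, opn (jac ω x) ≤ M) → ∀ H v, Wm w H v →
    mean v (sq2 ω) ≤ 2 * mean (prob w) (sq2 ω) + 4 * K * M ^ 2 * (H + 1)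

/-- `Reg.Fld` without oddness -/
structure Fl0 (w Φ : Cube n → ℝ) (ω : VF n) (e ρ H : ℝ) : Prop where
  sup : ∀ x i, |ω x i| ≤ e
  op : ∀ x, opn (jac ω x) ≤ e
  cl : ∀ v, Wm w H v → mean v (sq2 (grad Φ - ω)) ≤ ρ

/-- fourth moment of the source -/
def b4 [Fy n] (W : Mx n) (ω : VF n) : ℝ := mean (prob (mu W)) fun x => ∑ i, bb W ω x i ^ 4

/-- **REG with a field** -/
def RegS : Prop := ∀ K > (0 : ℝ), ∃ C ≥ (1 : ℝ), ∀ (n : ℕ) [Fy n] (W : Mx n), 0 < n → Nice W K →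
  Vc (mu W) K → ∀ (Φ : Cube n → ℝ) (ω0 : VF n) (y ρ H U B : ℝ), 0 < y → 0 ≤ U →
  Fl0 (mu W) Φ ω0 y ρ H →
  (∀ᶠ h : ℝ in 𝓝[>] 0, h * ∑ m ∈ range ⌊U / h⌋₊, b4 W (lin W h ω0 m) ≤ B) →
  ∀ (d : ℕ) (u α : Fin d → ℝ) (a : ℝ), (∀ j, 0 ≤ u j ∧ u j ≤ U) → ∑ j, |α j| ≤ a →
  ∀ ε > (0 : ℝ), ∃ ω : VF n, Fl0 (mu W) (fun x => ∑ j, α j * sg (mu W) (u j) Φ x) ω
    (C * exp (C * U) * a * y) (C * exp (C * U) * a ^ 2 * (ρ + B / y ^ 2 + y ^ 2 * (H + 1)) + ε) H

namespace Gl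

open S4y (mu_pos isP_mu)

variable [Fy n]

theorem b4_nn (W : Mx n) (ω : VF n) : 0 ≤ b4 W ω :=
  (isP_mu W).mean_nonneg fun x => by positivity

theorem wm_mu (W : Mx n) {H : ℝ} (hH : 0 ≤ H) : Wm (mu W) H (prob (mu W)) :=
  ⟨isP_mu W, fun x => le_mul_of_one_le_left ((isP_mu W).nn x) (one_le_exp hH)⟩

theorem wm_zero {W : Mx n} {v : Cube n → ℝ} (h : Wm (mu W) 0 v) : v = prob (mu W) := by
  have h1 : ∀ x ∈ univ, 0 ≤ prob (mu W) x - v x := fun x _ => by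
    have := h.2 x; rw [exp_zero, one_mul] at this; linarith
  have h2 : ∑ x, (prob (mu W) x - v x) = 0 := by
    rw [sum_sub_distrib, (isP_mu W).sum1, h.1.sum1, sub_self]
  ext x
  have := (sum_eq_zero_iff_of_nonneg h1).1 h2 x (mem_univ x); linarith

theorem wm_H {W : Mx n} {H : ℝ} {v : Cube n → ℝ} (hv : Wm (mu W) H v) : 0 ≤ H := by
  have : ∑ x, v x ≤ ∑ x, exp H * prob (mu W) x := sum_le_sum fun x _ => hv.2 x
  rw [← mul_sum, hv.1.sum1, (isP_mu W).sum1, mul_one] at this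
  exact one_le_exp_iff.1 this

theorem bb_sub (W : Mx n) (ω ω' : VF n) : bb W (ω - ω') = bb W ω - bb W ω' := by
  ext x i; simp [bb, mulVec_sub]

theorem stp_sub (W : Mx n) (h : ℝ) (ω σ ω' σ' : VF n) :
    stp W h ω σ - stp W h ω' σ' = stp W h (ω - ω') (σ - σ') := by
  ext x i
  have : ∑ k, (Tk W x k + al W x i k) * jac (ω - ω') x i k =
      ∑ k, (Tk W x k + al W x i k) * jac ω x i k - ∑ k, (Tk W x k + al W x i k) * jac ω' x i k := by
    rw [← sum_sub_distrib]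
    exact sum_congr rfl fun k _ => by rw [jac_sub, Matrix.sub_apply]; ring
  simp only [stp, Pi.sub_apply, this]; ring

/-- everything the leaves give at a fixed step `h` -/
structure Hy (W : Mx n) (K C h : ℝ) : Prop where
  C1 : 1 ≤ C
  K0 : 0 < K
  h0 : 0 ≤ h
  int : ∀ f, grad (Qh W h f) = stp W h (grad f) (bb W (grad f))
  wm : ∀ H v, Wm (mu W) H v → ∃ v', Wm (mu W) H v' ∧ ∀ f, mean v (Qh W h f) = mean v' f
  jb1 : ∀ (ω : VF n) x y, 0 ≤ y → (∀ k, |ω x k| ≤ y) →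
    opn (jac (bb W ω) x) ≤ C * (opn (jac ω x) + y)
  jb3 : ∀ (ω : VF n) x, sq2 (bb W ω) x ≤ C * sq2 ω x
  bo1 : ∀ (ξ σ : VF n) x,
    sq2 (stp W h ξ σ) x ≤ Qh W h (sq2 ξ) x + h * (C * sq2 ξ x + 2 * sq2 σ x)
  bo2 : ∀ (ξ σ : VF n) y z, (∀ x i, |ξ x i| ≤ y) → (∀ x i, |σ x i| ≤ z) →
    ∀ x i, |stp W h ξ σ x i| ≤ (1 - h) * y + h * z
  op : ∀ (ω σ : VF n) (M N : ℝ), (∀ x, opn (jac ω x) ≤ M) → (∀ x, opn (jac σ x) ≤ N) →
    ∀ x, opn (jac (stp W h ω σ) x) ≤ (1 + C * h) * M + h * N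
  vec : Vc (mu W) K

variable {W : Mx n} {K C h : ℝ}

theorem cl : ClStmt := clGlue toolStmt

theorem Hy.r1 (c : Hy W K C h) : 1 ≤ 1 + 5 * C * h := by
  have := c.C1; have := c.h0; have : 0 ≤ 5 * C * h := by positivity
  linarith

theorem Hy.flow (c : Hy W K C h) (H : ℝ) (ξ σ : ℕ → VF n)
    (hr : ∀ m, ξ (m + 1) = stp W h (ξ m) (σ m)) (M : ℕ) {a : ℝ} {b : ℕ → ℝ} (hb : ∀ m, 0 ≤ b m)
    (h0 : ∀ v, Wm (mu W) H v → mean v (sq2 (ξ 0)) ≤ a)
    (hσ : ∀ m < M, ∀ v, Wm (mu W) H v → mean v (sq2 (σ m)) ≤ 2 * C * mean v (sq2 (ξ m)) + b m) :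
    ∀ m ≤ M, ∀ v, Wm (mu W) H v →
      mean v (sq2 (ξ m)) ≤ (1 + 5 * C * h) ^ m * (a + 2 * (h * ∑ k ∈ range m, b k)) := by
  intro m
  have hC := c.C1
  have hh := c.h0
  induction m with
  | zero => intro _ v hv; simpa using h0 v hv
  | succ m ih =>
    intro hm v hv
    obtain ⟨v', hv', e⟩ := c.wm H v hv
    have i1 := ih (by omega) v hv
    have i2 := ih (by omega) v' hv'
    have i3 := hσ m (by omega) v hv
    have i4 : mean v (sq2 (ξ (m + 1))) ≤ 1 * mean v (Qh W h (sq2 (ξ m))) +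
        h * C * mean v (sq2 (ξ m)) + 2 * h * mean v (sq2 (σ m)) + 0 * mean v (sq2 (σ m)) :=
      mean_le4 hv.1 fun x => by rw [hr]; have := c.bo1 (ξ m) (σ m) x; linarith
    rw [e] at i4
    have r1 : 1 ≤ (1 + 5 * C * h) ^ (m + 1) := one_le_pow₀ c.r1
    have e2 : (1 + 5 * C * h) ^ (m + 1) * (a + 2 * (h * ∑ k ∈ range (m + 1), b k)) =
        (1 + 5 * C * h) * ((1 + 5 * C * h) ^ m * (a + 2 * (h * ∑ k ∈ range m, b k))) +
          (1 + 5 * C * h) ^ (m + 1) * (h * (2 * b m)) := by rw [sum_range_succ]; ring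
    rw [e2]
    generalize (1 + 5 * C * h) ^ m * (a + 2 * (h * ∑ k ∈ range m, b k)) = R at *
    have b0 := hb m
    have j1 : h * C * mean v (sq2 (ξ m)) ≤ h * C * R := by gcongr
    have j2 : 2 * h * mean v (sq2 (σ m)) ≤ 2 * h * (2 * C * R + b m) := by
      refine mul_le_mul_of_nonneg_left (i3.trans ?_) (by positivity); gcongr
    have j3 : 1 * (h * (2 * b m)) ≤ (1 + 5 * C * h) ^ (m + 1) * (h * (2 * b m)) := by gcongr
    nlinarith

/-- the clipped flow with our parameters -/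
def cf (W : Mx n) (C h y : ℝ) (ω0 : VF n) : ℕ → VF n := clf W h (2 * C * y) (1 + 5 * C * h) ω0
/-- the clipped source -/
def cs (W : Mx n) (C h y : ℝ) (ω0 : VF n) (m : ℕ) : VF n := fun x i =>
  clip (et C h y m) (bb W (cf W C h y ω0 m) x i)

theorem cf_succ (y : ℝ) (ω0 : VF n) (m : ℕ) :
    cf W C h y ω0 (m + 1) = stp W h (cf W C h y ω0 m) (cs W C h y ω0 m) := rfl

theorem Hy.et_pos (c : Hy W K C h) {y : ℝ} (hy : 0 < y) (m : ℕ) : 0 < et C h y m := by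
  have := c.C1; have := c.r1; unfold et; positivity

theorem Hy.src (c : Hy W K C h) {ω0 : VF n} {y : ℝ} (hy : 0 < y) {m : ℕ}
    (h1 : ∀ x i, |cf W C h y ω0 m x i| ≤ y * (1 + 5 * C * h) ^ m)
    (h2 : ∀ x, opn (jac (cf W C h y ω0 m) x) ≤ y * (1 + 5 * C * h) ^ m) (x : Cube n) :
    opn (jac (bb W (cf W C h y ω0 m)) x) ≤ et C h y m ∧
      opn (jac (cs W C h y ω0 m) x) ≤ 2 * et C h y m := by
  have hC := c.C1
  have hr := c.r1
  have he := c.et_pos hy m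
  have a1 : opn (jac (bb W (cf W C h y ω0 m)) x) ≤ et C h y m := by
    refine (c.jb1 _ x _ (by positivity) (h1 x)).trans ?_
    calc _ ≤ C * (y * (1 + 5 * C * h) ^ m + y * (1 + 5 * C * h) ^ m) := by gcongr; exact h2 x
      _ = _ := by unfold et; ring
  refine ⟨a1, ((cl _ he).2.2 n _ x _ a1).trans_eq ?_⟩
  field_simp; ring

theorem Hy.inv (c : Hy W K C h) {ω0 : VF n} {y : ℝ} (hy : 0 < y) (h1 : ∀ x i, |ω0 x i| ≤ y)
    (h2 : ∀ x, opn (jac ω0 x) ≤ y) (m : ℕ) :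
    (∀ x i, |cf W C h y ω0 m x i| ≤ y * (1 + 5 * C * h) ^ m) ∧
      ∀ x, opn (jac (cf W C h y ω0 m) x) ≤ y * (1 + 5 * C * h) ^ m := by
  have hC := c.C1
  have hr := c.r1
  have hh := c.h0
  induction m with
  | zero => simpa [cf, clf] using ⟨h1, h2⟩
  | succ m ih =>
    have hY : 0 ≤ y * (1 + 5 * C * h) ^ m := by positivity
    have ee : et C h y m = 2 * C * (y * (1 + 5 * C * h) ^ m) := by unfold et; ring
    have e2 : y * (1 + 5 * C * h) ^ (m + 1) = (1 + 5 * C * h) * (y * (1 + 5 * C * h) ^ m) := by ring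
    rw [cf_succ, e2]
    refine ⟨fun x i => ?_, fun x => ?_⟩
    · refine (c.bo2 _ _ _ (et C h y m) ih.1
        (fun x i => ((cl _ (c.et_pos hy m)).1 _).1) x i).trans ?_
      rw [ee]
      generalize y * (1 + 5 * C * h) ^ m = Y at *
      have : 0 ≤ h * Y := by positivity
      have : 0 ≤ C * (h * Y) := by positivity
      nlinarith
    · refine (c.op _ _ _ _ ih.2 (fun x => (c.src hy ih.1 ih.2 x).2) x).trans_eq ?_
      rw [ee]; ring

/-- the data of the fixed-step estimate -/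
structure Dt (W : Mx n) (K C h : ℝ) (ω0 : VF n) (y Z q : ℝ) (M : ℕ) : Prop where
  y0 : 0 < y
  Cq : C ≤ q
  Kq : K ≤ q
  Mq : M * h ≤ q
  gq : (1 + 5 * C * h) ^ M ≤ q
  sm : h * ∑ m ∈ range M, b4 W (lin W h ω0 m) / y ^ 2 ≤ Z
  sup : ∀ x i, |ω0 x i| ≤ y
  op : ∀ x, opn (jac ω0 x) ≤ y

variable {ω0 : VF n} {y H Z q : ℝ} {M : ℕ}

theorem Hy.gq (c : Hy W K C h) (t : Dt W K C h ω0 y Z q M) {m : ℕ} (hm : m ≤ M) :
    (1 + 5 * C * h) ^ m ≤ q ∧ m * h ≤ q ∧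
      h * ∑ k ∈ range m, b4 W (lin W h ω0 k) / y ^ 2 ≤ Z := by
  have hh := c.h0
  refine ⟨(pow_le_pow_right₀ c.r1 hm).trans t.gq, le_trans (by gcongr) t.Mq, le_trans ?_ t.sm⟩
  exact mul_le_mul_of_nonneg_left (sum_le_sum_of_subset_of_nonneg (range_subset_range.2 hm)
    fun k _ _ => div_nonneg (b4_nn _ _) (sq_nonneg _)) hh

theorem Hy.Z0 (c : Hy W K C h) (t : Dt W K C h ω0 y Z q M) : 0 ≤ Z := by
  simpa using (c.gq t (Nat.zero_le M)).2.2

theorem Hy.b4_le (c : Hy W K C h) (hy : 0 < y) (m : ℕ) (ω : VF n) :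
    1 / et C h y m ^ 2 * b4 W ω ≤ b4 W ω / y ^ 2 := by
  have hC := c.C1
  have h4 : 2 * C * y ≤ et C h y m :=
    le_mul_of_one_le_right (by positivity) (one_le_pow₀ c.r1)
  have h5 : y ≤ et C h y m := le_trans (le_mul_of_one_le_left hy.le (by linarith)) h4
  rw [one_div_mul_eq_div]
  have := b4_nn W ω
  gcongr

theorem Hy.pt (c : Hy W K C h) (l k σ : VF n) {η : ℝ} (hη : 0 < η) (x : Cube n)
    (hs : ∀ i, |σ x i| ≤ |bb W l x i - bb W k x i| + bb W l x i ^ 2 / η) :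
    sq2 σ x ≤ 2 * C * sq2 (l - k) x + 2 * (1 / η ^ 2) * ∑ i, bb W l x i ^ 4 := by
  have h1 := c.jb3 (l - k) x
  rw [bb_sub, sq2_eq] at h1
  have h2 : sq2 σ x ≤ ∑ i, (2 * (bb W l - bb W k) x i ^ 2 + 2 * (1 / η ^ 2 * bb W l x i ^ 4)) := by
    rw [sq2_eq]; exact sum_le_sum fun i _ => sq_add_le hη (hs i)
  rw [sum_add_distrib, ← mul_sum, ← mul_sum, ← mul_sum] at h2
  linarith

theorem Hy.dl (c : Hy W K C h) (t : Dt W K C h ω0 y Z q M) {m : ℕ} (hm : m ≤ M) :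
    mean (prob (mu W)) (sq2 (lin W h ω0 m - cf W C h y ω0 m)) ≤ 4 * q * Z := by
  have hq := c.C1.trans t.Cq
  have hh := c.h0
  have := c.flow 0 (fun m => lin W h ω0 m - cf W C h y ω0 m)
    (fun m => bb W (lin W h ω0 m) - cs W C h y ω0 m) (fun m => by rw [← stp_sub]; rfl) M
    (a := 0) (b := fun m => 2 * (b4 W (lin W h ω0 m) / y ^ 2))
    (fun m => by have := b4_nn W (lin W h ω0 m); positivity)
    (fun v hv => by simp [lin, cf, clf, mean, sq2]) (fun m hm v hv => by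
      rw [wm_zero hv]
      have he := c.et_pos t.y0 m
      have h1 := mean_le2 (isP_mu W) fun x =>
        c.pt (lin W h ω0 m) (cf W C h y ω0 m) (bb W (lin W h ω0 m) - cs W C h y ω0 m) he x
          fun i => by
            have a1 := ((cl _ he).1 (bb W (lin W h ω0 m) x i)).2
            have a2 := ((cl _ he).2.1 (bb W (lin W h ω0 m) x i) (bb W (cf W C h y ω0 m) x i)).1
            have a3 := abs_sub_le (bb W (lin W h ω0 m) x i)
              (clip (et C h y m) (bb W (lin W h ω0 m) x i))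
              (clip (et C h y m) (bb W (cf W C h y ω0 m) x i))
            simp only [Pi.sub_apply, cs]
            linarith
      have h2 := c.b4_le t.y0 m (lin W h ω0 m)
      rw [b4] at h2 ⊢
      linarith) m hm _ (wm_mu W le_rfl)
  refine this.trans ?_
  obtain ⟨g1, -, g3⟩ := c.gq t hm
  have g4 : 0 ≤ h * ∑ k ∈ range m, b4 W (lin W h ω0 k) / y ^ 2 :=
    mul_nonneg hh (sum_nonneg fun k _ => div_nonneg (b4_nn _ _) (sq_nonneg _))
  rw [← mul_sum, zero_add, mul_left_comm h]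
  calc _ ≤ q * (2 * (2 * Z)) := by gcongr
    _ = _ := by ring

theorem Hy.ex (c : Hy W K C h) (t : Dt W K C h ω0 y Z q M) {m : ℕ} (hm : m ≤ M)
    {v : Cube n → ℝ} (hv : Wm (mu W) H v) :
    mean v (sq2 (bb W (cf W C h y ω0 m) - cs W C h y ω0 m)) ≤
      144 * q ^ 5 * (Z + y ^ 2 * (H + 1)) + 4 * (b4 W (lin W h ω0 m) / y ^ 2) := by
  have hC := c.C1
  have hq := c.C1.trans t.Cq
  have hZ := c.Z0 t
  have hy := t.y0
  have hK := c.K0
  have hH := wm_H hv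
  have hr := c.r1
  have he := c.et_pos t.y0 m
  have hi := c.inv t.y0 t.sup t.op m
  have h0 := c.vec (bb W (cf W C h y ω0 m) - cs W C h y ω0 m) (3 * et C h y m) (by positivity)
    (fun x => by
      have := c.src t.y0 hi.1 hi.2 x
      rw [jac_sub]
      refine (opn_sub_le _ _).trans ?_
      linarith) H v hv
  have h1 := mean_le2 (isP_mu W) fun x =>
    c.pt (lin W h ω0 m) (cf W C h y ω0 m) (bb W (cf W C h y ω0 m) - cs W C h y ω0 m) he x
      fun i => by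
        have a1 := ((cl _ he).1 (bb W (lin W h ω0 m) x i)).2
        have a2 := ((cl _ he).2.1 (bb W (lin W h ω0 m) x i) (bb W (cf W C h y ω0 m) x i)).2
        have a3 := abs_sub_abs_le_abs_sub
          (bb W (cf W C h y ω0 m) x i - clip (et C h y m) (bb W (cf W C h y ω0 m) x i))
          (bb W (lin W h ω0 m) x i - clip (et C h y m) (bb W (lin W h ω0 m) x i))
        rw [abs_sub_comm (bb W (cf W C h y ω0 m) x i - _)] at a3
        simp only [Pi.sub_apply, cs]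
        linarith
  have h2 := c.b4_le t.y0 m (lin W h ω0 m)
  have h3 : C * mean (prob (mu W)) (sq2 (lin W h ω0 m - cf W C h y ω0 m)) ≤ q * (4 * q * Z) :=
    mul_le_mul t.Cq (c.dl t hm) ((isP_mu W).mean_nonneg (sq2_nn _)) (by positivity)
  have h4 : q ^ 2 * Z ≤ q ^ 5 * Z := by gcongr; norm_num
  have h5 : 4 * K * (3 * et C h y m) ^ 2 * (H + 1) ≤ 144 * (q ^ 5 * (y ^ 2 * (H + 1))) := by
    calc _ = 144 * (K * C ^ 2 * ((1 + 5 * C * h) ^ m) ^ 2 * (y ^ 2 * (H + 1))) := by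
          unfold et; ring
      _ ≤ 144 * (q * q ^ 2 * q ^ 2 * (y ^ 2 * (H + 1))) := by
          gcongr
          exacts [t.Kq, t.Cq, (c.gq t hm).1]
      _ = _ := by ring
  have h6 : 0 ≤ q ^ 5 * Z := by positivity
  rw [b4] at h2 ⊢
  nlinarith

theorem Hy.gm (c : Hy W K C h) (t : Dt W K C h ω0 y Z q M) (Φ : Cube n → ℝ) {ρ : ℝ}
    (hρ : ∀ v, Wm (mu W) H v → mean v (sq2 (grad Φ - ω0)) ≤ ρ) {m : ℕ} (hm : m ≤ M)
    {v : Cube n → ℝ} (hv : Wm (mu W) H v) :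
    mean v (sq2 (grad ((Qh W h)^[m] Φ) - cf W C h y ω0 m)) ≤
      600 * q ^ 7 * (ρ + Z + y ^ 2 * (H + 1)) := by
  have hC := c.C1
  have hq := c.C1.trans t.Cq
  have hZ := c.Z0 t
  have hh := c.h0
  have hH := wm_H hv
  have hρ0 : 0 ≤ ρ := (hv.1.mean_nonneg (sq2_nn _)).trans (hρ v hv)
  have := c.flow H (fun m => grad ((Qh W h)^[m] Φ) - cf W C h y ω0 m)
    (fun m => bb W (grad ((Qh W h)^[m] Φ)) - cs W C h y ω0 m)
    (fun m => by rw [← stp_sub, Function.iterate_succ_apply', c.int]; rfl) M (a := ρ)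
    (b := fun m => 288 * q ^ 5 * (Z + y ^ 2 * (H + 1)) + 8 * (b4 W (lin W h ω0 m) / y ^ 2))
    (fun m => by have := b4_nn W (lin W h ω0 m); positivity) hρ (fun m hm v hv => by
      have h1 : mean v (sq2 (bb W (grad ((Qh W h)^[m] Φ)) - cs W C h y ω0 m)) ≤
          2 * C * mean v (sq2 (grad ((Qh W h)^[m] Φ) - cf W C h y ω0 m)) +
          2 * mean v (sq2 (bb W (cf W C h y ω0 m) - cs W C h y ω0 m)) :=
        mean_le2 hv.1 fun x => by
          have a1 := c.jb3 (grad ((Qh W h)^[m] Φ) - cf W C h y ω0 m) x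
          rw [bb_sub] at a1
          generalize bb W (grad ((Qh W h)^[m] Φ)) = A at *
          generalize bb W (cf W C h y ω0 m) = B at *
          have a2 : sq2 (A - cs W C h y ω0 m) x ≤
              2 * sq2 (A - B) x + 2 * sq2 (B - cs W C h y ω0 m) x := by
            simp only [sq2_eq, mul_sum, ← sum_add_distrib, Pi.sub_apply]
            exact sum_le_sum fun i _ => by
              nlinarith [sq_nonneg (A x i - B x i - (B x i - cs W C h y ω0 m x i))]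
          linarith
      have h2 := c.ex t hm.le hv
      linarith) m hm v hv
  refine this.trans ?_
  obtain ⟨g1, g2, g3⟩ := c.gq t hm
  have g4 : 0 ≤ h * ∑ k ∈ range m, b4 W (lin W h ω0 k) / y ^ 2 :=
    mul_nonneg hh (sum_nonneg fun k _ => div_nonneg (b4_nn _ _) (sq_nonneg _))
  have e : h * ∑ k ∈ range m, (288 * q ^ 5 * (Z + y ^ 2 * (H + 1)) +
      8 * (b4 W (lin W h ω0 k) / y ^ 2)) = m * h * (288 * q ^ 5 * (Z + y ^ 2 * (H + 1))) +
      8 * (h * ∑ k ∈ range m, b4 W (lin W h ω0 k) / y ^ 2) := by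
    rw [sum_add_distrib, sum_const, card_range, nsmul_eq_mul, ← mul_sum]; ring
  rw [e]
  have y2 : 0 ≤ y ^ 2 * (H + 1) := by positivity
  generalize y ^ 2 * (H + 1) = Y at *
  have h1 : q ≤ q ^ 7 := by simpa using pow_le_pow_right₀ hq (show 1 ≤ 7 by norm_num)
  have h2 : q * ρ ≤ q ^ 7 * ρ := by gcongr
  have h3 : q * Z ≤ q ^ 7 * Z := by gcongr
  have h4 : 0 ≤ q ^ 7 * ρ := by positivity
  have h5 : 0 ≤ q ^ 7 * Z := by positivity
  have h6 : 0 ≤ q ^ 7 * Y := by positivity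
  calc _ ≤ q * (ρ + 2 * (q * (288 * q ^ 5 * (Z + Y)) + 8 * Z)) := by gcongr
    _ ≤ _ := by nlinarith

theorem setup {K : ℝ} (hK : 0 < K) : ∃ C ≥ (1 : ℝ), ∀ (n : ℕ) [Fy n] (W : Mx n), Nice W K →
    Vc (mu W) K → ∀ᶠ h : ℝ in 𝓝[>] 0, 0 < h ∧ Hy W K C h := by
  obtain ⟨Cb, b1, jb⟩ := jbStmt K
  obtain ⟨Co, o1, bo⟩ := boStmt K
  obtain ⟨Cp, p1, op⟩ := opStmt K
  obtain ⟨C, hb, ho, hp⟩ : ∃ C : ℝ, Cb ≤ C ∧ Co ≤ C ∧ Cp ≤ C :=
    ⟨Cb + Co + Cp, by linarith, by linarith, by linarith⟩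
  have hC : 1 ≤ C := b1.trans hb
  refine ⟨C, hC, fun n _ W hW hV => ?_⟩
  filter_upwards [Ioo_mem_nhdsGT (show (0 : ℝ) < 1 / (C * (n + 1)) by positivity)] with h hh
  have h0 : 0 < h := hh.1
  have h1 : C * h * (n + 1) ≤ 1 := by
    have := hh.2.le
    rw [le_div_iff₀ (by positivity)] at this
    linarith
  have h2 : Co * h * (n + 1) ≤ 1 := le_trans (by gcongr) h1
  have h3 : h * n ≤ 1 := by
    have : 1 * h * (n + 1) ≤ C * h * (n + 1) := by gcongr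
    nlinarith
  exact ⟨h0,
    { C1 := hC
      K0 := hK
      h0 := h0.le
      int := basStmt.int n W hW.1 h
      wm := fun H v hv => Bas.wm W h0.le h3 hv
      jb1 := fun ω x y hy h1 => ((jb n W hW ω x).1 y hy h1).trans (by
        have := opn_nonneg (jac ω x); gcongr)
      jb3 := fun ω x => (jb n W hW ω x).2.2.trans (by have := sq2_nn ω x; gcongr)
      bo1 := fun ξ σ x => ((bo n W hW h h0.le h2 ξ σ).1 x).trans (by
        have := sq2_nn ξ x; gcongr)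
      bo2 := fun ξ σ => (bo n W hW h h0.le h2 ξ σ).2
      op := fun ω σ M N h5 h6 x => (op n W hW h h0.le h3 ω σ M N h5 h6 x).trans (by
        have := (opn_nonneg _).trans (h5 x); gcongr)
      vec := hV }⟩

theorem Hy.dt (c : Hy W K C h) (h0 : 0 < h) {U B : ℝ} (hU : 0 ≤ U) (hy : 0 < y)
    (hB : h * ∑ m ∈ range ⌊U / h⌋₊, b4 W (lin W h ω0 m) ≤ B)
    (sup : ∀ x i, |ω0 x i| ≤ y) (op : ∀ x, opn (jac ω0 x) ≤ y) :
    Dt W K C h ω0 y (B / y ^ 2) (qq K C U) ⌊U / h⌋₊ := by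
  have hC := c.C1
  have hK := c.K0
  have x1 : 1 ≤ exp ((17 * C ^ 3 + 1) * U) := one_le_exp (by positivity)
  have q1 : exp ((17 * C ^ 3 + 1) * U) ≤ qq K C U :=
    le_mul_of_one_le_left (by positivity) (by linarith)
  have q2 : C + K ≤ qq K C U := le_mul_of_one_le_right (by positivity) x1
  have hM : (⌊U / h⌋₊ : ℝ) * h ≤ U := by
    have := Nat.floor_le (show 0 ≤ U / h by positivity)
    rwa [le_div_iff₀ h0] at this
  have hC3 : 0 ≤ 17 * C ^ 3 * U := by positivity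
  have h6 : C ≤ C ^ 3 := by simpa using pow_le_pow_right₀ hC (show 1 ≤ 3 by norm_num)
  refine ⟨hy, by linarith, by linarith, ?_, ?_, ?_, sup, op⟩
  · have := add_one_le_exp ((17 * C ^ 3 + 1) * U)
    nlinarith
  · refine le_trans ?_ q1
    calc _ ≤ exp (5 * C * h) ^ ⌊U / h⌋₊ := by
          gcongr; rw [add_comm]; exact add_one_le_exp _
      _ = exp (5 * C * (⌊U / h⌋₊ * h)) := by rw [← exp_nat_mul]; congr 1; ring
      _ ≤ exp (5 * C * U) := by gcongr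
      _ ≤ _ := by gcongr; linarith
  · rw [← sum_div, ← mul_div_assoc]; gcongr

end Gl

open Gl in
theorem regS : RegS := by
  intro K hK
  obtain ⟨C, hC, st⟩ := setup hK
  obtain ⟨F, F3, hF⟩ := exF hK hC
  refine ⟨F, by linarith, ?_⟩
  intro n _ W hn hW hV Φ ω0 y ρ H U B hy hU fd hB d u α a hu ha ε hε
  have lim : Tendsto (fun (h : ℝ) (j : Fin d) => (Qh W h)^[⌊u j / h⌋₊] Φ) (𝓝[>] 0)
      (𝓝 fun j => sg (mu W) (u j) Φ) :=
    tendsto_pi_nhds.2 fun j => tendsto_pi_nhds.2 fun x => basStmt.lim n W hn (u j) (hu j).1 Φ x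
  obtain ⟨h, ⟨⟨h0, c⟩, hB⟩, hn⟩ := (((st n W hW hV).and hB).and (near α lim (half_pos hε))).exists
  obtain ⟨q1, q7⟩ := hF U hU
  have a0 : 0 ≤ ∑ j, |α j| := by positivity
  have a1 : 0 ≤ a := a0.trans ha
  have hm : ∀ j, ⌊u j / h⌋₊ ≤ ⌊U / h⌋₊ := fun j =>
    Nat.floor_le_floor (by gcongr; exact (hu j).2)
  have t := c.dt h0 hU hy hB fd.sup fd.op
  have hi := c.inv hy fd.sup fd.op
  have qk : ∀ (k : ℕ) (b : ℝ), k ≤ 7 → 0 ≤ b → b ≤ 63000 →
      b * qq K C U ^ k ≤ F * exp (F * U) := fun k b hk b0 hb =>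
    le_trans (by gcongr) q7
  have hY : ∀ j, y * (1 + 5 * C * h) ^ ⌊u j / h⌋₊ ≤ y * qq K C U :=
    fun j => by gcongr; exact (c.gq t (hm j)).1
  have hZ : (∑ j, |α j|) * (y * qq K C U) ≤ F * exp (F * U) * a * y := by
    have := qk 1 1 (by norm_num) zero_le_one (by norm_num)
    rw [one_mul, pow_one] at this
    calc _ ≤ a * (y * (F * exp (F * U))) := by gcongr
      _ = _ := by ring
  refine ⟨cmb α fun j => cf W C h y ω0 ⌊u j / h⌋₊, fun x i => ?_, fun x => ?_, fun v hv => ?_⟩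
  · exact (cmb_sup α _ x i fun j => ((hi _).1 x i).trans (hY j)).trans hZ
  · exact (cmb_op α _ x fun j => ((hi _).2 x).trans (hY j)).trans hZ
  have hH := wm_H hv
  have hZ0 := c.Z0 t
  have hρ0 : 0 ≤ ρ := (hv.1.mean_nonneg (sq2_nn _)).trans (fd.cl v hv)
  have g1 := cmb_sq2 α _ hv.1 fun j => c.gm t Φ fd.cl (hm j) hv
  have s1 := cmb_sub α (fun j => grad ((Qh W h)^[⌊u j / h⌋₊] Φ))
    fun j => cf W C h y ω0 ⌊u j / h⌋₊
  rw [grad_cmb α fun j => (Qh W h)^[⌊u j / h⌋₊] Φ] at hn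
  have g2 : mean v (sq2 ((grad fun x => ∑ j, α j * sg (mu W) (u j) Φ x) -
      cmb α fun j => cf W C h y ω0 ⌊u j / h⌋₊)) ≤ 2 * mean v (fun _ => ε / 2) +
      2 * mean v (sq2 (cmb α fun j =>
        grad ((Qh W h)^[⌊u j / h⌋₊] Φ) - cf W C h y ω0 ⌊u j / h⌋₊)) :=
    mean_le2 hv.1 fun x => by
      have b1 := hn x
      generalize (grad fun x => ∑ j, α j * sg (mu W) (u j) Φ x) = G at *
      generalize (cmb α fun j =>
        grad ((Qh W h)^[⌊u j / h⌋₊] Φ) - cf W C h y ω0 ⌊u j / h⌋₊) = Γ at *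
      generalize (cmb α fun j => grad ((Qh W h)^[⌊u j / h⌋₊] Φ)) = g at *
      generalize (cmb α fun j => cf W C h y ω0 ⌊u j / h⌋₊) = B at *
      have b2 : sq2 (G - B) x ≤ 2 * sq2 (G - g) x + 2 * sq2 Γ x := by
        simp only [sq2_eq, mul_sum, ← sum_add_distrib, s1, Pi.sub_apply]
        exact sum_le_sum fun i _ => by nlinarith [sq_nonneg (G x i - g x i - (g x i - B x i))]
      linarith
  rw [hv.1.mean_const] at g2
  have g3 : 2 * ((∑ j, |α j|) ^ 2 * (600 * qq K C U ^ 7 * (ρ + B / y ^ 2 + y ^ 2 * (H + 1)))) ≤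
      F * exp (F * U) * a ^ 2 * (ρ + B / y ^ 2 + y ^ 2 * (H + 1)) := by
    calc _ = 1200 * qq K C U ^ 7 * (∑ j, |α j|) ^ 2 * (ρ + B / y ^ 2 + y ^ 2 * (H + 1)) := by ring
      _ ≤ _ := by
        have := qk 7 1200 le_rfl (by norm_num) (by norm_num)
        have : 0 ≤ F := by linarith
        gcongr
  linarith

end Crest.Agent.T157.RegY

end
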