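import Crest.Agent.T157.RyGl_70
import Crest.Agent.T157.RegSb_51
import Crest.Agent.T157.S3Hd_39

/-!
# Row 157, part B (helper70): the hypotheses of `RegY.RegS` in continuous time
-/

set_option autoImplicit false

noncomputable section

namespace Crest.Agent.T157.RegY

open Matrix Real Filter Topology Finset MeasureTheory
open Crest.Agent.T157.E hiding mean
open Crest.Agent.T157.Eig
open Crest.Agent.T157.Tap (V Mx)
open Crest.Agent.T157.Rec (grad fl)
open Crest.Agent.T157.Chain22 (sg IsP mean)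
open Crest.Agent.T157.Reg

variable {n : ℕ}

theorem vc_of_at {w : Cube n → ℝ} (hw : ∀ x, 0 < w x) {K : ℝ} (hK : 0 < K) (h : Ent.AT w K 0) :
    Vc w K := fun ω M hM hJ H v hv => (sbStmt.vec n w hw K hK h ω M hM hJ H v hv).trans (by
  have : 0 ≤ 4 * K * M ^ 2 := by positivity
  linarith [mul_add (4 * K * M ^ 2) H 1])

theorem vc_of_ad {w : Cube n → ℝ} (hw : ∀ x, 0 < w x) {K ε : ℝ} (h : S3.Hd.AD w K ε) :
    Vc w (16 * K) := fun ω M hM hJ H v hv => by
  have h0 := S3.Hd.sb hw h (c := 4 * M ^ 2) (Z := sq2 ω) (by positivity) (G45.sq2_nn ω)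
    (fun x => by
      refine (Sb51.sq2_flip ω x).trans ?_
      have h1 := mulVec_dot_le (jac ω x)ᵀ (ω x)
      rw [opn_transpose] at h1
      have h2 : opn (jac ω x) ^ 2 ≤ M ^ 2 := pow_le_pow_left₀ (opn_nonneg _) (hJ x) 2
      have h3 := mul_le_mul_of_nonneg_right h2 (Eig.dot_self_nonneg (ω x))
      rw [sq2]; linarith) hv.1
  have hK := h.pos
  have h2 := mul_le_mul_of_nonneg_left (add_le_add_left (Sb51.kl_le hw hv) 1)
    (show 0 ≤ 16 * K * (4 * M ^ 2) by positivity)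
  linarith

theorem Vc.mono {w : Cube n → ℝ} (hw : ∀ x, 0 < w x) {K K' : ℝ} (h : Vc w K) (hK : K ≤ K') :
    Vc w K' := fun ω M hM hJ H v hv => (h ω M hM hJ H v hv).trans (by
  have hp := Chain22.isP_prob' hw
  have h1 : ∑ x, v x ≤ ∑ x, exp H * prob w x := sum_le_sum fun x _ => hv.2 x
  rw [← mul_sum, hv.1.sum1, hp.sum1, mul_one, one_le_exp_iff] at h1
  gcongr)

/-- Riemann sums of step functions -/
theorem riem_sum {g : ℕ → ℝ} (g0 : ∀ m, 0 ≤ g m) {h U R : ℝ} (h0 : 0 < h) (hU : 0 ≤ U)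
    (hR : ∀ m, g m ≤ R) : h * ∑ m ∈ range ⌊U / h⌋₊, g m ≤ ∫ u in (0 : ℝ)..U, g ⌊u / h⌋₊ := by
  have me : Measurable fun u : ℝ => g ⌊u / h⌋₊ :=
    (measurable_from_nat (f := g)).comp (Nat.measurable_floor.comp (measurable_id.div_const h))
  have ii : ∀ a b, IntervalIntegrable (fun u : ℝ => g ⌊u / h⌋₊) volume a b := fun a b =>
    (intervalIntegrable_const (c := R)).mono_fun' me.aestronglyMeasurable
      (Eventually.of_forall fun u => by
        simp only [Real.norm_eq_abs, abs_of_nonneg (g0 _)]; exact hR _)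
  have hM : (⌊U / h⌋₊ : ℝ) * h ≤ U := by
    have := Nat.floor_le (show 0 ≤ U / h by positivity)
    rwa [le_div_iff₀ h0] at this
  have e := intervalIntegral.sum_integral_adjacent_intervals (μ := volume)
    (f := fun u : ℝ => g ⌊u / h⌋₊) (a := fun k : ℕ => k * h) (n := ⌊U / h⌋₊) fun k _ => ii _ _
  simp only [Nat.cast_zero, zero_mul] at e
  refine le_trans (le_of_eq ?_) (intervalIntegral.integral_mono_interval le_rfl (by positivity) hM
    (Eventually.of_forall fun u => g0 _) (ii _ _))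
  rw [← e, mul_sum]
  refine sum_congr rfl fun k _ => ?_
  have hk : (k : ℝ) * h ≤ ((k + 1 : ℕ) : ℝ) * h := by push_cast; nlinarith
  rw [intervalIntegral.integral_congr_ae (g := fun _ => g k), intervalIntegral.integral_const]
  · push_cast; rw [smul_eq_mul]; ring
  filter_upwards [compl_mem_ae_iff.2 (measure_singleton (((k + 1 : ℕ) : ℝ) * h))] with u hu hu'
  rw [Set.uIoc_of_le hk] at hu'
  congr 1
  have h1 : (k : ℝ) ≤ u / h := by rw [le_div_iff₀ h0]; exact hu'.1.le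
  rw [Nat.floor_eq_iff ((Nat.cast_nonneg k).trans h1)]
  refine ⟨h1, ?_⟩
  rw [div_lt_iff₀ h0]
  exact_mod_cast lt_of_le_of_ne hu'.2 hu

variable [Fy n] {W : Mx n}

theorem lin_grad (hW : Wᵀ = W) (h : ℝ) (Φ : Cube n → ℝ) (m : ℕ) :
    lin W h (grad Φ) m = grad ((Qh W h)^[m] Φ) := by
  induction m with
  | zero => rfl
  | succ m ih => rw [Function.iterate_succ_apply', basStmt.int n W hW, ← ih]; rfl

theorem Qh_sup (W : Mx n) {h R : ℝ} (h0 : 0 ≤ h) (h1 : h * n ≤ 1) {f : Cube n → ℝ}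
    (hf : ∀ x, |f x| ≤ R) (x : Cube n) : |Qh W h f x| ≤ R := by
  have hp := S4y.mu_pos W
  have hq := Chain22.prob_pos' hp x
  obtain ⟨v, hv, e⟩ := Bas.wm W (H := -log (prob (mu W) x)) (v := Pi.single x 1) h0 h1
    ⟨⟨fun z => by rw [Pi.single_apply]; split_ifs <;> norm_num, by simp⟩, fun z => by
      rw [Pi.single_apply]
      split_ifs with hz
      · rw [hz, exp_neg, exp_log hq, inv_mul_cancel₀ hq.ne']
      · exact mul_nonneg (exp_pos _).le (Chain22.prob_pos' hp z).le⟩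
  have e1 : mean (Pi.single x 1) (Qh W h f) = Qh W h f x := by
    simp [mean, Pi.single_apply]
  rw [← e1, e, abs_le]
  exact ⟨(hv.1.mean_const (-R)).symm.trans_le (hv.1.mean_mono fun z => (abs_le.1 (hf z)).1),
    (hv.1.mean_mono fun z => (abs_le.1 (hf z)).2).trans_eq (hv.1.mean_const R)⟩

theorem cont_b4 (W : Mx n) : Continuous fun f : Cube n → ℝ => b4 W (grad f) := by
  simp only [b4, mean, bb, mulVec, dotProduct, Rec.grad_eq]
  fun_prop

/-- the hypothesis of `RegS` for an exact gradient, in continuous time -/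
theorem riem (hW : Wᵀ = W) (hn : 0 < n) (Φ : Cube n → ℝ) {U B : ℝ} (hU : 0 ≤ U)
    (hB : ∫ u in (0 : ℝ)..U, b4 W (grad (sg (mu W) u Φ)) < B) :
    ∀ᶠ h : ℝ in 𝓝[>] 0, h * ∑ m ∈ range ⌊U / h⌋₊, b4 W (lin W h (grad Φ) m) ≤ B := by
  obtain ⟨R, hR⟩ := ((isCompact_closedBall (0 : Cube n → ℝ) ‖Φ‖).image (cont_b4 W)).bddAbove
  have ev : ∀ᶠ h : ℝ in 𝓝[>] 0, 0 < h ∧ ∀ m, b4 W (grad ((Qh W h)^[m] Φ)) ≤ R := by
    filter_upwards [Ioo_mem_nhdsGT (show (0 : ℝ) < 1 / n by positivity)] with h hh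
    refine ⟨hh.1, fun m => hR ⟨_, ?_, rfl⟩⟩
    rw [mem_closedBall_zero_iff, pi_norm_le_iff_of_nonneg (norm_nonneg _)]
    induction m with
    | zero => exact fun x => norm_le_pi_norm Φ x
    | succ m ih =>
      rw [Function.iterate_succ_apply']
      exact Qh_sup W hh.1.le ((le_div_iff₀ (by positivity)).1 hh.2.le) ih
  have t := intervalIntegral.tendsto_integral_filter_of_dominated_convergence (μ := volume)
    (l := 𝓝[>] (0 : ℝ)) (a := 0) (b := U)
    (F := fun h u => b4 W (grad ((Qh W h)^[⌊u / h⌋₊] Φ)))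
    (f := fun u => b4 W (grad (sg (mu W) u Φ))) (fun _ => R)
    (Eventually.of_forall fun h => ((measurable_from_nat
      (f := fun m => b4 W (grad ((Qh W h)^[m] Φ)))).comp
        (Nat.measurable_floor.comp (measurable_id.div_const h))).aestronglyMeasurable)
    (ev.mono fun h hh => Eventually.of_forall fun u _ => by
      rw [Real.norm_eq_abs, abs_of_nonneg (Gl.b4_nn _ _)]; exact hh.2 _)
    intervalIntegrable_const (Eventually.of_forall fun u hu => by
      rw [Set.uIoc_of_le hU] at hu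
      exact ((cont_b4 W).tendsto _).comp
        (tendsto_pi_nhds.2 fun x => basStmt.lim n W hn u hu.1.le Φ x))
  filter_upwards [ev, t.eventually (gt_mem_nhds hB)] with h hh h2
  simp only [lin_grad hW]
  exact (riem_sum (g := fun m => b4 W (grad ((Qh W h)^[m] Φ))) (fun _ => Gl.b4_nn _ _) hh.1 hU
    hh.2).trans h2.le

/-- **REG with a field for an exact gradient** -/
theorem regG (K : ℝ) (hK : 0 < K) : ∃ C ≥ (1 : ℝ), ∀ (n : ℕ) [Fy n] (W : Mx n), 0 < n → Nice W K →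
    Vc (mu W) K → ∀ (Φ : Cube n → ℝ) (y U B : ℝ), 0 < y → 0 ≤ U → (∀ x i, |grad Φ x i| ≤ y) →
    (∀ x, opn (jac (grad Φ) x) ≤ y) → ∫ u in (0 : ℝ)..U, b4 W (grad (sg (mu W) u Φ)) < B →
    ∀ (H : ℝ) (d : ℕ) (u α : Fin d → ℝ) (a : ℝ), (∀ j, 0 ≤ u j ∧ u j ≤ U) → ∑ j, |α j| ≤ a →
    ∀ ε > (0 : ℝ), ∃ ω : VF n, Fl0 (mu W) (fun x => ∑ j, α j * sg (mu W) (u j) Φ x) ω
      (C * exp (C * U) * a * y) (C * exp (C * U) * a ^ 2 * (B / y ^ 2 + y ^ 2 * (H + 1)) + ε) H := by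
  obtain ⟨C, hC, h⟩ := regS K hK
  refine ⟨C, hC, fun n _ W hn hW hV Φ y U B hy hU h1 h2 hB H d u α a hu ha ε hε => ?_⟩
  simpa only [zero_add] using h n W hn hW hV Φ (grad Φ) y 0 H U B hy hU
    ⟨h1, h2, fun v _ => by simp [mean, sq2]⟩ (riem hW.1 hn Φ hU hB) d u α a hu ha ε hε

end Crest.Agent.T157.RegY

end
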