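import Crest.Agent.T157.S1Par_97

/-!
# Row 157, part B, block S1 (helper59): the act, `S1.ActGlue`
-/

set_option autoImplicit false

noncomputable section

namespace Crest.Agent.T157.S1

open Real Matrix Finset
open Crest.Agent.T157.E Crest.Agent.T157.SL
open Crest.Agent.T157.Eig (nrm opn)
open Crest.Agent.T157.S3 (V Mx)

namespace Act59

variable {n : ℕ}

/-- the pigeonhole on two disjoint bands -/
theorem bands (S : Finset (Fin n)) (z : V n) (a b c : ℝ) :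
    ∃ lo hi, (lo = b ∧ hi = a ∨ lo = c ∧ hi = b) ∧ ∑ j ∈ Sᶜ, z j ^ 2 ≤
      2 * ((fun j => if j ∉ S ∧ |z j| < lo then z j else 0) ⬝ᵥ
        (fun j => if j ∉ S ∧ |z j| < lo then z j else 0) +
      ∑ j ∈ univ.filter fun j => j ∉ S ∧ hi ≤ |z j|, z j ^ 2) := by
  have key : ∀ lo hi : ℝ, ∑ j ∈ Sᶜ, z j ^ 2 ≤ (fun j => if j ∉ S ∧ |z j| < lo then z j else 0) ⬝ᵥ
      (fun j => if j ∉ S ∧ |z j| < lo then z j else 0) +
      ∑ j ∈ univ.filter fun j => j ∉ S ∧ hi ≤ |z j|, z j ^ 2 +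
      ∑ j ∈ Sᶜ, if lo ≤ |z j| ∧ |z j| < hi then z j ^ 2 else 0 := fun lo hi => by
    rw [dotProduct, sum_filter, ← sum_add_distrib, ← univ_inter Sᶜ, ← sum_ite_mem, ← sum_ite_mem,
      ← sum_add_distrib]
    refine sum_le_sum fun j _ => ?_
    have := sq_nonneg (z j)
    by_cases h : j ∈ S
    · simp [h]
    simp only [h, not_false_eq_true, true_and, mem_compl, if_true, ← not_lt]
    by_cases h1 : |z j| < lo <;> by_cases h2 : |z j| < hi <;> simp [h1, h2, ← pow_two, this]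
  have h : (∑ j ∈ Sᶜ, if b ≤ |z j| ∧ |z j| < a then z j ^ 2 else 0) +
      (∑ j ∈ Sᶜ, if c ≤ |z j| ∧ |z j| < b then z j ^ 2 else 0) ≤ ∑ j ∈ Sᶜ, z j ^ 2 := by
    rw [← sum_add_distrib]
    refine sum_le_sum fun j _ => ?_
    have := sq_nonneg (z j)
    split_ifs with h1 h2
    · exact absurd h1.1 h2.2.not_ge
    all_goals linarith
  rcases le_total (∑ j ∈ Sᶜ, if b ≤ |z j| ∧ |z j| < a then z j ^ 2 else 0)
    (∑ j ∈ Sᶜ, if c ≤ |z j| ∧ |z j| < b then z j ^ 2 else 0) with h' | h'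
  · exact ⟨b, a, .inl ⟨rfl, rfl⟩, by linarith [key b a]⟩
  · exact ⟨c, b, .inr ⟨rfl, rfl⟩, by linarith [key c b]⟩

theorem bt_mid (p : Par) {m : ℕ} (h : m < p.N) (i : ℕ) :
    p.bt (m + 1) (i + 2 ^ (p.N - (m + 1))) = p.bt m i := by
  rw [Par.bt, Par.bt, show p.N - m = p.N - (m + 1) + 1 by omega, pow_succ]; ring

theorem bt_le (p : Par) {m i0 i : ℕ} (h : m < p.N) (hi : p.Nx m i0 i) :
    i0 ≤ i ∧ i + 1 ≤ p.bt (m + 1) i ∧ p.bt (m + 1) i ≤ p.bt m i0 := by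
  have h1 := bt_mid p h i0
  have h2 : 1 ≤ 2 ^ (p.N - (m + 1)) := Nat.one_le_two_pow
  rw [Par.bt] at h1
  rcases hi with rfl | rfl <;> simp only [Par.bt] at h1 ⊢ <;> omega

theorem mode_le (J : Mx n) (y0 a0 q : V n) (k : ℕ) (v : ℕ → V n) (Δ : V n) :
    0 ≤ Mod J y0 a0 q k v Δ ∧ (mag (ising J y0) ⬝ᵥ Δ) ^ 2 / (mag (ising J y0) ⬝ᵥ mag (ising J y0)) ≤
      Mod J y0 a0 q k v Δ := by
  have h1 : 0 ≤ ∑ a ∈ range k, (v a ⬝ᵥ (q * (a0 * Δ - J *ᵥ Δ))) ^ 2 := sum_nonneg fun _ _ => sq_nonneg _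
  have h2 := div_nonneg (sq_nonneg (mag (ising J y0) ⬝ᵥ Δ)) (Eig.dot_self_nonneg (mag (ising J y0)))
  exact ⟨add_nonneg h1 h2, le_add_of_nonneg_left h1⟩

variable {p : Par}

theorem CZ_ge (h : p.Ok) : 1 ≤ p.CZ ∧ 4 * p.C1 * p.c1 + 1 / (2 * p.lq) ≤ p.CZ := by
  have h1 : 1 / p.lq ≤ p.CZ := (div_le_iff₀ h.lq0).2 h.CZ1
  have h2 : 1 ≤ 1 / p.lq := (le_div_iff₀ h.lq0).2 (by linarith [h.lq1])
  have h3 : 1 ≤ p.C * p.C0 ^ 2 := one_le_mul_of_one_le_of_one_le h.C1' (one_le_pow₀ h.C01)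
  have h4 : p.τ' ≤ 1 := by nlinarith [h.t1, h.t0, h.lq1]
  have h5 : p.τ' * p.lq ≤ 1 := mul_le_one₀ h4 h.lq0.le h.lq1
  have h6 : 1 / (2 * p.lq) = 1 / p.lq / 2 := by rw [div_div, mul_comm]
  exact ⟨h2.trans h1, by linarith [h.c1T]⟩

theorem g2_le (h : p.Ok) {m i0 i : ℕ} (hm : m < p.N) (hi : p.Nx m i0 i) :
    4 * p.g2 (m + 1) i + 2 * p.M (i + 1) ≤ p.g2 m i0 := by
  obtain ⟨-, h1, h2⟩ := bt_le p hm hi
  have a1 := h.Mm h1
  have a2 := h.Mm h2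
  have a3 : (1 : ℝ) ≤ 8 ^ (p.N - (m + 1)) := one_le_pow₀ (by norm_num)
  have a4 := h.M1 (p.bt (m + 1) i)
  rw [Par.g2, Par.g2, show p.N - m = p.N - (m + 1) + 1 by omega, pow_succ]
  nlinarith [mul_le_mul_of_nonneg_left a2 (zero_le_one.trans a3)]

theorem Λ_le (h : p.Ok) : (p.C / p.κ + 1 / p.c1 + (p.Cu / p.κ + 3 / 2 * p.Λ)) / 2 + p.CZ * p.CM ≤ p.Λ := by
  have a1 : 0 ≤ p.C / p.κ := div_nonneg (by linarith [h.C1']) h.κ0'.le
  have a2 : 0 ≤ 1 / p.c1 := div_nonneg zero_le_one h.c10.le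
  have a3 : 0 ≤ p.Cu / p.κ := div_nonneg (by linarith [h.Cu1]) h.κ0'.le
  linarith [h.hΛ]

theorem cl_up (hcl : ClStmt) {X : Cx n} (hX : X.Ok) {m i0 i : ℕ} {s : St n} {F : ℕ → Fy n}
    (hm : m < X.p.N) (hi : X.p.Nx m i0 i) (hs : X.In m i0 s F) :
    Cl (X.p.ec (m + 1) i) (X.p.ec (m + 1) i) s := by
  have a1 : X.p.e1 m i0 ≤ X.p.e1 (m + 1) i := hX.ok.ea (bt_le X.p hm hi).2.2
  have a2 : 0 ≤ X.p.e1 m i0 := (hX.ok.e0 _).le
  have a3 : (m : ℝ) ≤ X.p.N := Nat.cast_le.2 hm.le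
  have a4 : (1 : ℝ) ≤ X.p.N := Nat.one_le_cast.2 hX.ok.N1
  have a5 : (0 : ℝ) ≤ m := Nat.cast_nonneg m
  exact (hcl n X.D s hX.dok).1 _ _ _ _ hs.cl (mul_le_mul (by nlinarith) a1 a2 (sq_nonneg _))
    (mul_le_mul (by nlinarith) a1 a2 (sq_nonneg _))

theorem sz {X : Cx n} (hX : X.Ok) {m : ℕ} {s : St n} {y0 : V n} (hm : m < X.p.N)
    (hN : X.Near m s y0) : Sz X.D s (X.z.t m) ∧ nrm (s.y - y0) ^ 2 ≤ X.z.t m := by
  obtain ⟨-, -, h1, h2, h3⟩ := hN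
  have a1 := hX.cap.h1 m hm.le 0 (Nat.zero_le _)
  have a2 : 0 ≤ 4 * X.z.T m + lg n + 1 := (Eig.dot_self_nonneg _).trans h2
  have a3 : 1 ≤ X.p.C * X.p.C1 ^ 2 := one_le_mul_of_one_le_of_one_le hX.ok.C1' (one_le_pow₀ hX.ok.C11)
  have a4 : 4 * X.z.T m + lg n + 1 ≤ X.p.η 0 ^ 2 * X.z.t m := by nlinarith
  have a5 : 0 ≤ X.z.t m := nonneg_of_mul_nonneg_right (a2.trans a4) (pow_pos (hX.ok.h0 0) 2)
  have a6 := mul_le_of_le_one_left a5 (pow_le_one₀ (n := 2) (hX.ok.h0 0).le (hX.ok.h1 0))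
  have a7 := sq_nonneg s.L
  have a8 := sq_nonneg (nrm (s.y - y0))
  have a9 : (0 : ℝ) ≤ #s.S := Nat.cast_nonneg _
  exact ⟨⟨by linarith, by linarith, by linarith, by linarith⟩, by linarith⟩

/-- the martingale terms -/
theorem fu_le (hf : FuStmt) {X : Cx n} (hX : X.Ok) {m i0 i : ℕ} {s : St n} {F : ℕ → Fy n}
    (hm : m < X.p.N) (hF : ∀ m', XF (F m')) (hγ : X.p.γ (m + 1) i ≤ X.p.γ m i0) (hw : Wt (nu X.D s)) :
    X.p.γ m i0 * dG (X.O.G m) s.y ^ 2 + X.p.CZ * ((mean (nu X.D s) fun σ => X.O.zn m σ s.y) +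
      mean (nu X.D s) fun σ => F m σ s.y) +
      (mean (nu X.D s) fun σ => X.Fu (m + 1) m (X.Ft (m + 1) i F) σ s.y) ≤
      mean (nu X.D s) fun σ => X.Fu m m (X.Ft m i0 F) σ s.y := by
  obtain ⟨-, -, -, h1, h2, -⟩ := hf n X hX m i0 F hF
  rw [← mean_add, ← mean_const_mul, ← hw.mean_const (X.p.γ m i0 * dG (X.O.G m) s.y ^ 2), ← mean_add,
    ← mean_add, h1 m hm.le]
  refine hw.mean_mono fun σ => add_le_add ?_ (h2 (m + 1) i (m + 1) m (Nat.le_succ m) hγ σ s.y)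
  have a1 : 0 ≤ big n * far (X.O.G m) (X.z.T m) s.y :=
    mul_nonneg (by unfold big; positivity) (by unfold far; split_ifs <;> norm_num)
  simp only [Cx.Ft, if_neg hm.ne]
  linarith

/-- one window -/
theorem one (hc : CrudeStmt) (hcl : ClStmt) (hf : FuStmt) (hT : BrTStmt) (hB : BrBStmt) {X : Cx n}
    (hX : X.Ok) {m i0 i : ℕ} {s : St n} {F : ℕ → Fy n} {y0 pv a0 : V n} (m1 : 1 ≤ m) (mN : m < X.p.N)
    (hV : X.p.Val m i0) (hi : X.p.Nx m i0 i) (hU : X.Upd m i) (hs : X.In m i0 s F)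
    (hN : X.Near m s y0) (hG : X.p.Val (m + 1) i → Good X.p X.z X.D.J X.O m i y0 pv a0) {zs : V n}
    (hz : zs = fun j => if j ∉ s.S ∧ |zv X.D.J pv a0 (Del X.D s) j| < X.p.η (X.p.bt (m + 1) i) then
      zv X.D.J pv a0 (Del X.D s) j else 0)
    (hb : ∑ j ∈ s.Sᶜ, zv X.D.J pv a0 (Del X.D s) j ^ 2 ≤ 2 * (zs ⬝ᵥ zs +
      ∑ j ∈ univ.filter fun j => j ∉ s.S ∧ X.p.η i ≤ |zv X.D.J pv a0 (Del X.D s) j|,
        zv X.D.J pv a0 (Del X.D s) j ^ 2)) : X.ActAt m i0 s F := by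
  have h := hX.ok
  obtain ⟨i1, -, i3⟩ := bt_le X.p mN hi
  have hV' : X.p.Val (m + 1) i := i3.trans hV
  obtain ⟨pA, al, q, k, v, ε, Ad, φ, e0, e1, hA, hL, t1, t2, hb', hM⟩ := hG hV'
  have b1 := hT n X hX m i0 i s F y0 m1 mN hV' hi hU hs hN pv pA a0 al q zs k v ε e0 e1 hA hL t1 hz
  have b2 := hB n X hX m i0 i s F y0 m1 mN hV' hi hU hs hN pv pA a0 al q Ad φ
    (univ.filter fun j => j ∉ s.S ∧ X.p.η i ≤ |zv X.D.J pv a0 (Del X.D s) j|) (fun j => (hA j).1)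
    hL.hp (fun j => (hL.ha j).1) t2 hb' fun j => by simp
  obtain ⟨c1, -, -, -, -, c2, c3, c4, -, c5, -, -, c6, -⟩ := hc n X.D s hX.dok
  have b3 := hL.pos s.S _ c6
  have b4 := hM X.D s i0 F hX.dok rfl hX.hP hi (cl_up hcl hX mN hi hs) hs.pv (sz hX mN hN).1
    (sz hX mN hN).2
  obtain ⟨d1, d2⟩ := mode_le X.D.J y0 a0 q k v (Del X.D s)
  obtain ⟨z1, z2⟩ := CZ_ge h
  have g1 := h.lγ m i mN
  have g2 := h.γa m i1
  have g3 := h.γ0 (m + 1) i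
  have g4 := h.ω0 m i
  have g5 : X.p.γ (m + 1) i ≤ X.p.CP * X.p.γ (m + 1) i := le_mul_of_one_le_left g3.le h.CP1
  have g6 : X.p.ω m i ≤ X.p.CZ * X.p.ω m i := le_mul_of_one_le_left g4.le z1
  have b5 := fu_le hf hX (i := i) mN hs.xf (by linarith) c1.hv
  have n1 := Eig.dot_self_nonneg (del s)
  have n2 := Eig.dot_self_nonneg (Del X.D s)
  have n3 : 0 ≤ Bd X.D s := by unfold Bd; positivity
  have n4 : Bb X.D s y0 ≤ Bd X.D s + dG (X.O.G m) s.y ^ 2 + 1 := by unfold Bb; linarith [hN.2.1]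
  have n5 : 0 ≤ Bb X.D s y0 := add_nonneg n3 (sq_nonneg _)
  have k1 : (8 : ℝ) ≤ 8 * X.p.C * 8 ^ X.p.N * X.p.M (2 ^ X.p.N) * X.z.K := by
    have := one_le_mul_of_one_le_of_one_le (one_le_mul_of_one_le_of_one_le
      (one_le_mul_of_one_le_of_one_le h.C1' (one_le_pow₀ (n := X.p.N) (show (1 : ℝ) ≤ 8 by norm_num)))
      (h.M1 (2 ^ X.p.N))) hX.cap.K1
    linarith
  have k2 : X.R m = X.R (m + 1) + X.z.Kb := by simp only [Cx.R, Nat.cast_add, Nat.cast_one]; ring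
  have k3 := hX.cap.Kb
  have c10 := h.c10
  have C10 : 0 ≤ X.p.C1 := by linarith [h.C11]
  have p1 := mul_le_mul_of_nonneg_left hb (show 0 ≤ 8 * X.p.C1 * X.p.c1 by positivity)
  have p2 := mul_le_mul_of_nonneg_left (b3.trans (add_le_add_right
    (mul_le_mul_of_nonneg_left d2 C10) _)) (show 0 ≤ 8 * X.p.c1 by positivity)
  have p3 := mul_le_mul_of_nonneg_right z2 d1
  have p4 := mul_le_mul_of_nonneg_left b4 (zero_le_one.trans z1)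
  have p5 := mul_le_mul_of_nonneg_right (Λ_le h) n1
  have p6 := mul_le_mul_of_nonneg_right (show 4 * X.p.g2 (m + 1) i + X.p.M (i + 1) +
    X.p.CZ * X.p.CN m i ≤ X.p.g2 m i0 by linarith [g2_le h mN hi, (h.lM m i mN).2.2.1]) c5
  have p7 := mul_le_mul_of_nonneg_right (show 15 * X.p.CP * X.p.γ (m + 1) i + X.p.ω m i +
    X.p.CZ * X.p.ω m i ≤ X.p.γ m i0 by linarith) n5
  have p8 := mul_le_mul_of_nonneg_right (show 15 * X.p.CP * X.p.γ (m + 1) i + X.p.ω m i ≤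
    X.p.γ m i0 by linarith) c4
  have p9 := mul_le_mul_of_nonneg_left n4 (h.γ0 m i0).le
  have q1 : Mod X.D.J y0 a0 q k v (Del X.D s) / X.p.lq =
      2 * (1 / (2 * X.p.lq) * Mod X.D.J y0 a0 q k v (Del X.D s)) := by
    have := h.lq0; field_simp
  have q2 := h.γ1 m i0
  have q3 := mul_nonneg c10.le n2
  simp only [Cx.Br] at b1 b2
  simp only [Cx.ActAt, Pot, Cx.cf]
  linarith

end Act59

open Act59

theorem actGlue : ActGlue := by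
  intro hc hcl hf hp hT hB n X hX m i0 m1 mN hV hU s F hs
  rcases hp n X hX m i0 s F m1 mN.le hs with h | ⟨y0, hN⟩
  · exact h
  obtain ⟨pv, a0, hG⟩ := hX.es.good m m1 mN y0 hN.1
  obtain ⟨lo, hi, ⟨rfl, rfl⟩ | ⟨rfl, rfl⟩, h⟩ := bands s.S (zv X.D.J pv a0 (Del X.D s)) (X.p.η i0)
    (X.p.η (X.p.bt (m + 1) i0)) (X.p.η (X.p.bt (m + 1) (X.p.bt (m + 1) i0)))
  · exact one hc hcl hf hT hB hX m1 mN hV (.inl rfl) (hU _ (.inl rfl)) hs hN (hG _) rfl h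
  · exact one hc hcl hf hT hB hX m1 mN hV (.inr rfl) (hU _ (.inr rfl)) hs hN (hG _) rfl h

end Crest.Agent.T157.S1

end
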