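import Crest.Agent.T157.S1SupDef_30
import Crest.Agent.T157.S1Par_97

/-!
# Row 157, block S1 (helper30): the burst part of the supply; words
-/

set_option autoImplicit false

noncomputable section

namespace Crest.Agent.T157.S1

open Real Matrix Finset
open Crest.Agent.T157.E Crest.Agent.T157.SL
open Crest.Agent.T157.Eig (nrm opn)
open Crest.Agent.T157.S3 (V Mx)

/-- the act B with a polynomial threshold for the precision -/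
def ActP : Prop := ∀ mg C0 : ℝ, 0 < mg → 0 ≤ C0 → ∃ c0 > (0 : ℝ), ∃ Cu ≥ (1 : ℝ), ∀ k P K1 η : ℝ,
  0 < k → k ≤ 1 → (Cu / k) ^ 8 ≤ P → 0 < η → ∃ Ms ≥ (1 : ℝ), ∀ CV : ℝ, ∃ M ≥ (1 : ℝ),
    ActAt mg C0 c0 k P K1 η Ms CV M

/-- thresholds for the constants of the two families: soft `es`, hard `δ`, large `X` -/
structure FC.Th (c : FC) (n : ℕ) (es δ X ηA t K Kb R : ℝ) : Prop where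
  e0 : 0 ≤ c.e
  e1 : c.e ≤ es
  w0 : 0 ≤ c.ew
  w1 : c.ew ≤ es
  f0 : 0 ≤ c.e1
  f1 : c.e1 ≤ δ
  η0 : 0 < c.η
  C1 : 0 ≤ c.C1
  g0 : 0 ≤ c.εw
  g1 : (c.C1 + 1) * c.εw ≤ δ
  K0 : 0 ≤ c.K0
  K1 : c.K0 ≤ Kb
  K2 : c.K' ≤ Kb
  b1 : 1 ≤ Kb
  bK : X * Kb ≤ K
  t0 : 0 ≤ t
  R1 : X * (t + √(n * t) + Kb) ≤ R
  R2 : X * R ≤ n
  m1 : 2 * R ≤ c.m
  m2 : 2 * c.Cw ^ 2 * R ≤ c.m * c.η ^ 2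
  A0 : 0 < ηA
  m3 : c.Cw ^ 2 * R ≤ c.m * ηA ^ 2

/-- **the burst part**, one instance -/
def BPart : Prop := ∀ K0 κ0 a0 ab a' xb C0 C' Cw Cp : ℝ, 0 < κ0 → 0 < a0 → ab < a' → 0 ≤ xb →
  xb < 1 - a' → 0 ≤ C0 → 0 ≤ C' → 1 ≤ Cw → 0 ≤ Cp → ∃ c0 > (0 : ℝ), ∃ gP > (0 : ℝ), ∃ Cu ≥ (1 : ℝ),
  ∀ w : P2, w.Ok → w.c0 ≤ c0 → w.gP ≤ gP → Cu ≤ w.Cu → w.a0 = a0 → w.ab = ab → w.θ = Ue.th a' →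
  ∃ CP ≥ (1 : ℝ), ∃ gW > (0 : ℝ), ∀ ω > (0 : ℝ), ∃ es > (0 : ℝ), ∀ CN ≥ (1 : ℝ), ∃ δ > (0 : ℝ),
  ∃ X ≥ (1 : ℝ), ∀ p : Par, p.Ok → p.toP2 = w → CP ≤ p.CP → p.gW ≤ gW →
  ∀ m i : ℕ, m < p.N → ω ≤ p.ω m i → X ≤ p.CN m i →
  ∀ (n : ℕ) (J : Mx n) (y0 pA pp p0 : V n) (Ad : V n → ℝ → Prop) (φ : V n → Cube n → ℝ) (c : FC)
    (Ft F0 : Set (V n)) (ψ ψ0 : Cube n → V n) (T T0 : Cube n → Mx n) (Wm W0 : Mx n)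
    (xa b0 ηA t K Kb R : ℝ), c.CN = CN → c.C0 = C0 → c.C' = C' → c.Cw = Cw → c.Cp = Cp →
    c.Th n es δ X ηA t K Kb R → Bas J K0 κ0 y0 → Fa c J y0 (p.ah m) xa 0 pp Ft ψ T Wm →
    Fa c J y0 0 b0 0 p0 F0 ψ0 T0 W0 → xa ≤ xb → (∀ j, pA j ≤ 2 * pp j) →
    (∀ v l, ‖v‖ ≤ ηA → nrm v ≤ l → l ^ 2 ≤ 4 * Cw ^ 2 * R → (∀ f ∈ Ft, |v ⬝ᵥ f| ≤ c.εw * l) →
      Ad v l ∧ φ v = fun x => v ⬝ᵥ ψ x) →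
    BurstOK J p.P p.η0 p.θ y0 pA Ad φ (p.l m) (p.am m) (p.lb m) (p.am (m + 1)) p.c0 p.gW p.gP
      (p.Cu / p.κ) p.CP (p.CN m i) (p.ω m i) (p.ec (m + 1) i) t K

def BpGlue : Prop := ActP → BuStmt → SupStmt → BPart

end Crest.Agent.T157.S1

end
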