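import Crest.Agent.T157.S1SupB_60

/-!
# Row 157, block S1 (helper60): the families of the supply
-/

set_option autoImplicit false

noncomputable section

namespace Crest.Agent.T157.S1.SA

open Matrix Filter Finset MeasureTheory
open Crest.Agent.T157.Eig Crest.Agent.T157.E
open Crest.Agent.T157.S3 (V Mx)
open Crest.Agent.T157.S3.Gg (gM)
open Crest.Agent.T157.S3.T60 (MO DO a0 alf)
open Crest.Agent.T157.Nt (Fn Ix)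
open Crest.Agent.T157.Pos (In TF Lv fam)
open Crest.Agent.T157.Tw (sech2 sech2_pos Cls PV lam)

/-- matrix fields on the instances -/
abbrev Mf : Type := ∀ i : In, Cube i.n → Mx i.n

/-- the family of rate `a` at the level `s`; `X` : what is known on the linked fields -/
def FamT (β l a s q0 C0 C' : ℝ) (X : Mf → Prop) (g : ℝ → ℝ) : Prop :=
  MO β l a (S3P.nu (s + β ^ 2 * q0)) g ∧ ∀ e > (0 : ℝ), ∃ (s0 : ℝ) (ρ : ℝ → ℝ) (Tg : Mf),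
    DO l a e s0 (a0 β (S3P.nu (s + β ^ 2 * q0)) g) ρ ∧ X Tg ∧
      AnsT β s a C0 C' e (fun x => sech2 x + e) (qf ρ) (fun x => alf s0 a ρ x * qf ρ x) Tg

/-- **the part A of the supply** -/
def AStmt (β l : ℝ) (X : ℝ → Mf → Prop) : Prop := ∀ a' < l, ∀ K0 κ0 : ℝ, 0 < κ0 →
  (∀ s ≥ (0 : ℝ), ∀ᶠ i in TF β s, Bas (i.J β) K0 κ0 i.y) → ∃ C0 ≥ (0 : ℝ), ∃ C' ≥ (0 : ℝ),
    ∀ s q0, Lv β s q0 → ∀ a, 0 ≤ a → a ≤ a' → ∃ g, FamT β l a s q0 C0 C' (X s) g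

/-- **the link on a family** -/
def FamLk (β : ℝ) (X : ℝ → Mf → Prop) : Prop := ∀ K0 κ0 : ℝ, 0 < κ0 → ∃ C' ≥ (0 : ℝ),
  ∀ (s q0 : ℝ) (G : In → Prop), Lv β s q0 → (fam β s G).Ok →
    (∀ i, G i → Bas (i.J β) K0 κ0 i.y ∧ opn (i.J β) ≤ 3) → Nt.STStmt β (S3P.nu (s + β ^ 2 * q0)) →
    ∀ (n : ℕ) (N : Nt.Net n) (l a e : ℝ) (al0 : ℝ → ℝ) (ψ : Fn (Ix n)) (m : Ix n → Fn (Ix n))
      (ρ : ℝ → ℝ), 0 < l → 0 < e → N.Ok β (S3P.nu (s + β ^ 2 * q0)) → N.TopW l a e al0 ψ m ρ →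
      ∃ Tg : Mf, X s Tg ∧ (∀ (i : In) (σ : Cube i.n), gM σ (Tg (i.gg σ)) = Tg i) ∧
        AnsL (fam β s G) a (2 * (8 / (l - a) ^ 2 + 2)) C' e (fun i k => sech2 (i.1.b β k) + e)
          (fun i k => qf ρ (i.1.b β k)) (fun i k => alf (N.S 0 0) a ρ (i.1.b β k) * qf ρ (i.1.b β k))
          fun i => Tg i.1

theorem AnsT.mono {β s a C0 D0 C' e : ℝ} {p q α : ℝ → ℝ} {Tg : Mf} (h : AnsT β s a C0 C' e p q α Tg)
    (hC : C0 ≤ D0) (hp : ∀ x, 0 ≤ p x) : AnsT β s a D0 C' e p q α Tg := by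
  obtain ⟨C, c1, H⟩ := h
  refine ⟨C, c1, fun e1 he => ?_⟩
  obtain ⟨η, η0, k, d, C1, h1, h2, h3⟩ := H e1 he
  have m1 : ∀ (i : In) (w : V i.n), C0 * (w ⬝ᵥ ((fun l => p (i.b β l)) * w)) ≤
      D0 * (w ⬝ᵥ ((fun l => p (i.b β l)) * w)) := fun i w => mul_le_mul_of_nonneg_right hC
    (sum_nonneg fun l _ => by
      rw [Pi.mul_apply, mul_left_comm]; exact mul_nonneg (hp _) (mul_self_nonneg _))
  refine ⟨η, η0, k, d, C1, h1, h2, h3.mono fun i hi => ⟨?_, fun w => ?_⟩⟩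
  · obtain ⟨ψ, T, h⟩ := hi.all
    exact ⟨ψ, T, h.mono le_rfl (m1 i) le_rfl le_rfl le_rfl fun _ => le_rfl⟩
  · obtain ⟨E, ψ, T, h, h'⟩ := hi.odd w
    exact ⟨E, ψ, T, h.mono le_rfl (m1 i) le_rfl le_rfl le_rfl fun _ => le_rfl, h'⟩

theorem aStmt_of (𝒞 : Cls) (h𝒞 : ∀ m, 𝒞.C m = PV m) {β : ℝ} (h0 : 0 < β) (h1 : β < 1)
    {X : ℝ → Mf → Prop} (h : FamLk β X) : AStmt β (lam 𝒞 β) X := by
  intro a' ha' K0 κ0 hκ hB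
  obtain ⟨C', c0, H⟩ := h K0 κ0 hκ
  refine ⟨2 * (8 / (lam 𝒞 β - a') ^ 2 + 2), by positivity, C', c0, fun s q0 hL a a0' aa => ?_⟩
  have ha : a ∈ Set.Ico 0 (lam 𝒞 β) := ⟨a0', aa.trans_lt ha'⟩
  have hl := ha.1.trans_lt ha.2
  obtain ⟨g, g1, g2⟩ := S3.T60.modelOut 𝒞 h𝒞 h0 h1 ha (S3P.nu (s + β ^ 2 * q0))
  refine ⟨g, g1, fun e he => ?_⟩
  obtain ⟨N0, o0⟩ := Nt.All.trivStmt β h0 (S3P.nu (s + β ^ 2 * q0))
  obtain ⟨n, N, -, o, -, ψ, m, ρ, t⟩ := g2 e he 0 N0 o0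
  obtain ⟨G, hG, hF, K, -, r, -, κ, -, C, hg⟩ := Pos.exists_good ⟨h0, h1⟩ hL.1 (hB s hL.1)
  obtain ⟨Tg, t1, t2, t3⟩ := H s q0 G hL hF (fun i hi => ⟨(hg i hi).1, (hg i hi).2.op⟩)
    (Nt.All.stAll 𝒞 h𝒞 β h0 h1 hl _).2 n N _ a e _ ψ m ρ hl he o t
  have d := S3.T60.do_of t.1
  refine ⟨_, ρ, Tg, d, t1, (ansT_of hG (fun x => by rw [sech2_neg]) (qf_neg d)
    (fun x => by rw [alf_neg d, qf_neg d]) t2 t3).mono ?_ fun x => by positivity [sech2_pos x]⟩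
  have := div_le_div_of_nonneg_left (show (0 : ℝ) ≤ 8 by norm_num) (pow_pos (sub_pos.2 ha') 2)
    (pow_le_pow_left₀ (sub_pos.2 ha').le (show lam 𝒞 β - a' ≤ lam 𝒞 β - a by linarith) 2)
  linarith

end Crest.Agent.T157.S1.SA

end
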