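import Crest.Agent.T157.S1BpDef_30
import Crest.Agent.T157.S1SupC_60
import Crest.Agent.T157.RipG_25
import Crest.Agent.T157.S1PSc_71

/-!
# Row 157, block S1 (helper30): the burst part of the supply along the typical filter
-/

set_option autoImplicit false
set_option maxHeartbeats 800000

noncomputable section

namespace Crest.Agent.T157.S1

open Real Matrix Filter Finset MeasureTheory
open Crest.Agent.T157.Eig Crest.Agent.T157.E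
open Crest.Agent.T157.S3 (V Mx AnsAt)
open Crest.Agent.T157.S3.T60 (MO DO a0 alf)
open Crest.Agent.T157.Pos (In TF Lv)
open Crest.Agent.T157.Tw (sech2 sech2_pos)
open Crest.Agent.T157.Rip (Cav Fs FlW)
open Crest.Agent.T157.Uw (eta)
open SA

namespace BpT30

lemma cav_half {n : ℕ} {J Wm : Mx n} {p p' q α : V n} {x C C0 e ε m R d : ℝ} {Ft : Set (V n)}
    (h : Cav J p q α x C C0 e ε m Ft Wm) (hR : opn J ≤ R) (hC : C ≤ R) (hd : 0 ≤ d)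
    (hp : ∀ i, p' i ≤ p i + d) (hx : d * R ^ 2 ≤ x) : Cav J p' q α x C (C0 + 1) e ε m Ft Wm :=
  have h' := h.weight hR hC hd hp
  ⟨h.nr, fun c hc => (h'.en c hc).trans
      (mul_le_mul_of_nonneg_right (by linarith) (Eig.dot_self_nonneg c)), h.fl, h.fj, h.eq, h.ty, h.jj,
    fun c hc => (h'.je c hc).trans (mul_le_mul_of_nonneg_right (by linarith) (Eig.dot_self_nonneg c))⟩

lemma cont_sech2 : Continuous sech2 := by
  unfold sech2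
  exact continuous_const.div (by fun_prop) fun x => by positivity [Real.cosh_pos x]

/-- the constants of the cavity vectors -/
def r0 (β l a' : ℝ) : ℝ := max (1 - β * (l - a')) 0
def C2 (β l : ℝ) : ℝ := 6 / (l * β) + 4
def Cw (β l a' : ℝ) : ℝ := 2 * C2 β l / (1 - r0 β l a')
def Cq (β l a' : ℝ) : ℝ := 2 * C2 β l ^ 2 / (1 - r0 β l a') ^ 2 + 1

variable {β l a' : ℝ}

lemma r0_lt (hβ : β ∈ Set.Ioo (0 : ℝ) 1) (h : a' < l) : r0 β l a' < 1 :=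
  max_lt (by linarith [mul_pos hβ.1 (sub_pos.2 h)]) one_pos

lemma C2_ge (hβ : β ∈ Set.Ioo (0 : ℝ) 1) (hl : 0 < l) : 4 ≤ C2 β l :=
  le_add_of_nonneg_left (by have := hβ.1; positivity)

lemma Cw_ge (hβ : β ∈ Set.Ioo (0 : ℝ) 1) (hl : 0 < l) (h : a' < l) : 3 ≤ Cw β l a' := by
  rw [Cw, le_div_iff₀ (sub_pos.2 (r0_lt hβ h))]
  have : 0 ≤ r0 β l a' := le_max_right _ _
  linarith [C2_ge hβ hl]

lemma int_pos {a : ℝ} {ν : Measure ℝ} [IsProbabilityMeasure ν] {g : ℝ → ℝ} (hβ : 0 < β)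
    (ha : a ≤ l) (hg : MO β l a ν g) : 0 < ∫ y, g y ∂ν := by
  rw [integral_pos_iff_support_of_nonneg (fun y => (hg.pos y).le) ((integrable_const (1 / β)).mono'
    hg.cont.aestronglyMeasurable (.of_forall fun y => by
      rw [Real.norm_eq_abs, abs_of_pos (hg.pos y), le_div_iff₀' hβ]
      exact (mo_le hg hβ ha y).trans (sech2_le y))),
    show Function.support g = Set.univ from Set.eq_univ_of_forall fun y => (hg.pos y).ne']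
  simp

/-- **one family at typical instances** -/
lemma faT (hβ : β ∈ Set.Ioo (0 : ℝ) 1) (hl : 0 < l) (hl1 : l ≤ 1) (ha' : a' < l) {s q0 a C0 C' : ℝ}
    (hL : Lv β s q0) (h0 : 0 ≤ a) (ha : a ≤ a') (c1 : 0 ≤ C') {g : ℝ → ℝ}
    (hg : MO β l a (S3P.nu (s + β ^ 2 * q0)) g) : ∃ e0 > (0 : ℝ),
    ∀ (e s0 : ℝ) (ρ : ℝ → ℝ), 0 < e → e ≤ e0 → DO l a e s0 (a0 β (S3P.nu (s + β ^ 2 * q0)) g) ρ →
    ∀ (k : ℕ) (d : Fin k → ℝ → ℝ), (∀ j, Continuous (d j) ∧ ∀ x, |d j x| ≤ 1) →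
    ∀ Vf, FlW β s g (qf ρ) Vf → (∀ᶠ i in TF β s, ∀ f ∈ Vf i, nrm f ≤ 1) → ∀ ε > (0 : ℝ), ε ≤ e →
    ∃ μ > (0 : ℝ), ∀ᶠ i in TF β s, ∃ x Wm, x ≤ β ∧ ∀ (c : FC) (C e1 η C1 : ℝ) ψ T, c.C0 = 2 * C0 →
      c.C' = C' → c.e = e → c.Cw = Cw β l a' → c.Cp = Cq β l a' → c.ew = (Cw β l a' + 1) * (4 * e) →
      c.εw = ε → c.m ≤ μ * i.n → C ≤ c.CN → 10 ≤ c.CN → e1 ≤ c.e1 → c.η ≤ η → log i.n ≤ c.K0 →
      C1 * log i.n ≤ c.K' → 0 ≤ C1 → C1 * k ≤ c.C1 →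
      AnsAt (i.J β) i.y a C C0 C' e e1 η (log i.n) (Ety e1 C1 (C1 * log i.n) fun j => fv β (d j) i)
        (fun k => sech2 (i.b β k) + e) (fun k => qf ρ (i.b β k))
        (fun k => alf s0 a ρ (i.b β k) * qf ρ (i.b β k)) ψ T →
      Fa c (i.J β) i.y a x 0 (fun k => (sech2 (i.b β k) + e) / 2)
        ((Fs fun j k => d j (i.b β k)) ∪ Vf i) ψ T Wm := by
  have b0 := hβ.1
  have al : a ≤ l := by linarith
  have w3 := Cw_ge hβ hl ha'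
  have c4 := C2_ge hβ hl
  obtain ⟨z, hz⟩ : ∃ z, z = β ^ 2 * ∫ y, g y ∂S3P.nu (s + β ^ 2 * q0) := ⟨_, rfl⟩
  have z0 : 0 < z := hz ▸ mul_pos (pow_pos b0 2) (int_pos b0 al hg)
  have w1 : 1 ≤ Cw β l a' ^ 2 := one_le_pow₀ (by linarith)
  have D1 : 1 ≤ (C' + 1) * Cw β l a' ^ 2 := one_le_mul_of_one_le_of_one_le (by linarith) w1
  refine ⟨min 1 (z / (2 * ((C' + 1) * Cw β l a' ^ 2))), by positivity,
    fun e s0 ρ e0 he hd k d cd Vf hV nV ε ε0 εe => ?_⟩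
  have e1 : e ≤ 1 := he.trans (min_le_left _ _)
  have e2 : e * (2 * ((C' + 1) * Cw β l a' ^ 2)) ≤ z :=
    (le_div_iff₀ (by positivity)).1 (he.trans (min_le_right _ _))
  have gb : ∀ x, β * g x ≤ 1 := fun x => (mo_le hg b0 al x).trans (sech2_le x)
  have sq : ∀ x, sech2 x / β ≤ C2 β l * qf ρ x := fun x => by
    have h1 := (qf_mem hd x).1
    have h2 : 0 ≤ qf ρ x := le_trans (by positivity [sech2_pos x]) h1
    calc sech2 x / β = 6 / (l * β) * (l / 6 * sech2 x) := by field_simp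
      _ ≤ 6 / (l * β) * qf ρ x := mul_le_mul_of_nonneg_left h1 (by positivity)
      _ ≤ _ := mul_le_mul_of_nonneg_right (le_add_of_nonneg_right (by norm_num)) h2
  obtain ⟨μ, μ0, H⟩ := Rip.TF.cavV ⟨b0, hβ.2.le⟩ hL (M := 1 / β) (ρ := r0 β l a') (C2 := C2 β l)
    (e := 4 * e) (one_le_one_div b0 hβ.2.le) (le_max_right _ _) (r0_lt hβ ha') (by linarith)
    (by positivity) ε0 hg.cont hg.even (q := qf ρ)
    ((continuous_const.mul (hd.cb 0).1.continuous).mul cont_sech2) (fun j => (cd j).1)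
    (fun j => (cd j).2) (fun x => ⟨hg.pos x, (le_div_iff₀' b0).2 (gb x),
      (mo_hi hg b0 ha x).trans ((mul_le_of_le_one_left (mo_r0 hg b0 ha).le (sech2_le x)).trans
        (le_max_left _ _)), ((le_div_iff₀' b0).2 (mo_le hg b0 al x)).trans (sq x)⟩) hV
  refine ⟨μ, μ0, ?_⟩
  filter_upwards [H, nV, Pos.TF.opn ⟨b0, hβ.2.le⟩, Pos.TF.lim.eventually (eventually_gt_atTop 0)]
    with i ⟨h1, h2⟩ h3 h4 hn
  rw [← S3P.int_nu _ hg.cont, ← hz] at h1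
  obtain ⟨x, hx⟩ : ∃ x, x = eta (β / √i.n) fun k => g (i.b β k) := ⟨_, rfl⟩
  rw [← hx] at h1 h2
  have q1 : ∀ y, 0 ≤ qf ρ y ∧ qf ρ y ≤ 2 * sech2 y := fun y =>
    ⟨le_trans (by positivity [sech2_pos y]) (qf_mem hd y).1, (qf_mem hd y).2⟩
  have q2 : ∀ y, qf ρ y ≤ 2 := fun y => by linarith [(q1 y).2, sech2_le y]
  have q3 : ∀ y, qf ρ y * |alf s0 a ρ y - a0 β (S3P.nu (s + β ^ 2 * q0)) g y| ≤ 2 * e := fun y => by
    linarith [mul_le_mul_of_nonneg_right (q1 y).2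
      (abs_nonneg (alf s0 a ρ y - a0 β (S3P.nu (s + β ^ 2 * q0)) g y)), hd.al y]
  obtain ⟨Wm, hW⟩ := h2 (fun k => sech2 (i.b β k))
    (fun k => alf s0 a ρ (i.b β k) * qf ρ (i.b β k)) (fun k => ⟨(sech2_pos _).le,
      (le_div_self (sech2_pos _).le b0 hβ.2.le).trans (sq _), by
        linarith [hg.lo (i.b β k), mul_le_mul_of_nonneg_right c4 (hg.pos (i.b β k)).le]⟩) fun k => by
    have e3 : alf s0 a ρ (i.b β k) * qf ρ (i.b β k) - qf ρ (i.b β k) * (1 / g (i.b β k) + x) =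
        qf ρ (i.b β k) * (alf s0 a ρ (i.b β k) - a0 β (S3P.nu (s + β ^ 2 * q0)) g (i.b β k)) -
          qf ρ (i.b β k) * (x - z) := by rw [a0, ← hz]; ring
    rw [e3]
    refine (abs_sub _ _).trans ?_
    rw [abs_mul, abs_mul, abs_of_nonneg (q1 _).1]
    linarith [q3 (i.b β k), mul_le_mul (q2 (i.b β k)) h1 (abs_nonneg _) zero_le_two]
  have x1 : e * ((C' + 1) * Cw β l a' ^ 2) ≤ x := by
    linarith [(abs_le.1 h1).1, mul_le_mul_of_nonneg_left D1 e0.le]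
  have x2 : x ≤ β := by
    have n0 : (0 : ℝ) < i.n := Nat.cast_pos.2 hn
    rw [hx, Rip.eta_avg hn, Tap.avg, ← mul_div_assoc, div_le_iff₀ n0, mul_sum]
    refine (sum_le_card_nsmul _ _ β fun k _ => ?_).trans (by simp [mul_comm])
    linarith [mul_le_mul_of_nonneg_left (gb (i.b β k)) b0.le]
  have y1 : 0 ≤ e * Cw β l a' ^ 2 := by positivity
  have y2 : 0 ≤ C' * e * Cw β l a' ^ 2 := by positivity
  refine ⟨x, Wm, x2, fun c C f η C1 ψ T k1 k2 k3 k4 k5 k6 k7 k8 k9 k10 k11 k12 k13 k14 k15 k16 hA =>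
    ⟨h0, by linarith, by linarith, by linarith [hβ.2], by rw [k2, k3, k4]; linarith, ?_,
      Ety f C1 (C1 * log i.n) fun j => fv β (d j) i, fun k => qf ρ (i.b β k),
      fun k => alf s0 a ρ (i.b β k) * qf ρ (i.b β k), ?_, ?_, fun w t t0 ht => ?_, fun k => ⟨by positivity [sech2_pos (i.b β k)],
        by linarith [sech2_le (i.b β k)], (abs_of_nonneg (q1 _).1).trans_le (q2 _), ?_⟩⟩⟩
  · rintro f (⟨j, rfl⟩ | hf)
    exacts [Rip.nrm_flat fun k => (cd j).2 _, h3 f hf]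
  · rw [k1, k2, k3]
    refine amono hA k9 (fun w => le_of_eq ?_) k11 k12 k13 fun _ => le_rfl
    simp only [dotProduct, Pi.mul_apply, mul_sum]
    exact sum_congr rfl fun _ _ => by ring
  · rw [k4, k5, k6, k7]
    exact (cav_half hW (h4.trans w3) le_rfl e0.le
      (fun k => by linarith [sech2_pos (i.b β k)]) (by linarith)).mono (by linarith) le_rfl le_rfl
        le_rfl le_rfl k8 subset_rfl
  · have h5 : ∑ j, (w ⬝ᵥ fv β (d j) i) ^ 2 ≤ k * t ^ 2 :=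
      (sum_le_card_nsmul _ _ (t ^ 2) fun j _ => sq_le_sq' (abs_le.1 (ht _ (.inl ⟨j, rfl⟩))).1
        (abs_le.1 (ht _ (.inl ⟨j, rfl⟩))).2).trans (by simp)
    rw [Ety]
    linarith [mul_le_mul_of_nonneg_left h5 k15, mul_le_mul_of_nonneg_right k16 (sq_nonneg t),
      mul_le_mul_of_nonneg_right k11 (Eig.dot_self_nonneg w)]
  · have h5 := abs_sub_abs_le_abs_sub (alf s0 a ρ (i.b β k))
      (a0 β (S3P.nu (s + β ^ 2 * q0)) g (i.b β k))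
    rw [abs_of_pos (hg.a0 _).1] at h5
    rw [abs_mul, abs_of_nonneg (q1 _).1]
    linarith [mul_le_mul_of_nonneg_left h5 (q1 (i.b β k)).1, q3 (i.b β k), (hg.a0 (i.b β k)).2,
      mul_le_mul_of_nonneg_right (q1 (i.b β k)).2 (hg.a0 (i.b β k)).1.le]

/-- the scales -/
lemma scales {γ e A X B : ℝ} (h0 : 0 < γ) (h1 : γ ≤ 1) (he : 0 < e) (hA : 1 ≤ A) (hX : 0 ≤ X)
    (hB : 0 ≤ B) : ∀ᶠ n : ℕ in atTop, ∃ Kb R : ℝ, 0 ≤ R ∧ 1 ≤ Kb ∧ A * log n ≤ Kb ∧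
      X * Kb ≤ (n : ℝ) ^ e ∧ X * ((n : ℝ) ^ (1 - γ / 2) + √(n * (n : ℝ) ^ (1 - γ / 2)) + Kb) ≤ R ∧
      B * R ≤ (n : ℝ) ^ (1 - γ / 8) ∧ (n : ℝ) ^ (1 - γ / 8) ≤ n := by
  filter_upwards [Sc71.ev (X * A) he, Sc71.ev (X * (2 + A)) (show 1 - γ / 4 < 1 - γ / 6 by linarith),
    Sc71.ev B (show 1 - γ / 6 < 1 - γ / 8 by linarith), eventually_ge_atTop 1] with n a1 a2 a3 hn
  have n1 : (1 : ℝ) ≤ n := by exact_mod_cast hn
  have n0 : (0 : ℝ) < n := by linarith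
  have L1 : 1 ≤ log (n + 2) := (le_log_iff_exp_le (by linarith)).2
    (by linarith [exp_one_lt_d9])
  have u1 : 1 ≤ (n : ℝ) ^ (1 - γ / 4) := one_le_rpow n1 (by linarith)
  have u2 : (n : ℝ) ^ (1 - γ / 2) ≤ (n : ℝ) ^ (1 - γ / 4) :=
    rpow_le_rpow_of_exponent_le n1 (by linarith)
  have u3 : √(n * (n : ℝ) ^ (1 - γ / 2)) = (n : ℝ) ^ (1 - γ / 4) := by
    rw [sqrt_eq_iff_mul_self_eq (by positivity) (by positivity), ← rpow_add n0, mul_comm,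
      ← rpow_add_one n0.ne']
    congr 1; ring
  have r0 : 0 ≤ (n : ℝ) ^ (1 - γ / 6) := by positivity
  refine ⟨A * log (n + 2), (n : ℝ) ^ (1 - γ / 6), r0, one_le_mul_of_one_le_of_one_le hA L1,
    mul_le_mul_of_nonneg_left (log_le_log n0 (by linarith)) (by linarith),
    by simpa [mul_assoc] using a1, le_trans ?_ a2,
    (mul_le_mul_of_nonneg_left (le_mul_of_one_le_right r0 L1) hB).trans a3,
    (rpow_le_rpow_of_exponent_le n1 (by linarith)).trans (rpow_one _).le⟩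
  rw [u3, mul_assoc]
  refine mul_le_mul_of_nonneg_left ?_ hX
  linarith [le_mul_of_one_le_right (zero_le_one.trans u1) L1,
    mul_le_mul_of_nonneg_left (le_mul_of_one_le_left (zero_le_one.trans L1) u1) (zero_le_one.trans hA)]

end BpT30

open BpT30

/-- **the burst part along the typical filter** -/
theorem bT (hB : BPart) {β l K0 κ0 a00 ab a' C0 C' : ℝ} (hβ : β ∈ Set.Ioo (0 : ℝ) 1)
    (hl : l ≤ (1 - β) ^ 2) (hκ : 0 < κ0) (hK : ∀ s ≥ (0 : ℝ), ∀ᶠ i in TF β s, Bas (i.J β) K0 κ0 i.y)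
    (h0 : 0 < a00) (h1 : ab < a') (h2 : 0 ≤ a') (h3 : a' < l) (c0 : 0 ≤ C0) (c1 : 0 ≤ C')
    {X0 : ℝ → Mf → Prop} (H0 : ∀ s q0, Lv β s q0 → ∃ g, FamT β l 0 s q0 C0 C' (X0 s) g) :
    ∃ c0 > (0 : ℝ), ∃ gP > (0 : ℝ), ∃ Cu ≥ (1 : ℝ), ∀ w : P2, w.Ok → w.c0 ≤ c0 → w.gP ≤ gP →
    Cu ≤ w.Cu → w.a0 = a00 → w.ab = ab → w.θ = Ue.th a' → ∃ CP ≥ (1 : ℝ), ∃ gW > (0 : ℝ),
    ∀ (s q0 a : ℝ) (g : ℝ → ℝ), Lv β s q0 → 0 ≤ a → a ≤ a' → MO β l a (S3P.nu (s + β ^ 2 * q0)) g →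
    ∀ ω > (0 : ℝ), ∃ eB > (0 : ℝ), ∀ (e s0 : ℝ) (ρ : ℝ → ℝ), 0 < e → e ≤ eB →
    DO l a e s0 (a0 β (S3P.nu (s + β ^ 2 * q0)) g) ρ → ∀ C : ℝ, ∃ X ≥ (1 : ℝ), ∃ δB > (0 : ℝ),
    ∀ (e1 η C1 : ℝ) (k : ℕ) (d : Fin k → ℝ → ℝ) (Vf : ∀ i : In, Set (V i.n)), e1 ≤ δB → 0 < η →
    0 ≤ C1 → (∀ j, Continuous (d j) ∧ ∀ x, |d j x| ≤ 1) → FlW β s g (qf ρ) Vf →
    (∀ᶠ i in TF β s, ∀ f ∈ Vf i, nrm f ≤ 1) → ∀ ηA > (0 : ℝ), ∀ εA > (0 : ℝ),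
    ∀ p : Par, p.Ok → p.toP2 = w → CP ≤ p.CP → p.gW ≤ gW → ∀ m j : ℕ, m < p.N → p.ah m = a →
    ω ≤ p.ω m j → X ≤ p.CN m j → ∀ c ∈ Set.Ioc (0 : ℝ) 1, ∀ e' > (0 : ℝ), ∀ᶠ i in TF β s, ∀ ψ T,
      AnsAt (i.J β) i.y a C C0 C' e e1 η (log i.n) (Ety e1 C1 (C1 * log i.n) fun j => fv β (d j) i)
        (fun k => sech2 (i.b β k) + e) (fun k => qf ρ (i.b β k))
        (fun k => alf s0 a ρ (i.b β k) * qf ρ (i.b β k)) ψ T →
      ∀ (Ad : V i.n → ℝ → Prop) (φ : V i.n → Cube i.n → ℝ),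
      (∀ v u, ‖v‖ ≤ ηA → nrm v ≤ u → u ^ 2 ≤ (capOf p c e' i.n).t' m →
        (∀ f ∈ (Fs fun j k => d j (i.b β k)) ∪ Vf i, |v ⬝ᵥ f| ≤ εA * u) →
          Ad v u ∧ φ v = fun x => v ⬝ᵥ ψ x) →
      BurstOK (i.J β) p.P p.η0 p.θ i.y (fun k => sech2 (i.b β k) + e) Ad φ (p.l m) (p.am m) (p.lb m)
        (p.am (m + 1)) p.c0 p.gW p.gP (p.Cu / p.κ) p.CP (p.CN m j) (p.ω m j) (p.ec (m + 1) j)
        ((capOf p c e' i.n).t m) (capOf p c e' i.n).K := by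
  have l0 : 0 < l := h2.trans_lt h3
  have b1 : 0 < 1 - β := sub_pos.2 hβ.2
  have l1 : l ≤ 1 - β := hl.trans (by rw [sq]; exact mul_le_of_le_one_left b1.le (by linarith [hβ.1]))
  have l2 : l ≤ 1 := by linarith [hβ.1]
  have w3 := Cw_ge hβ l0 h3
  obtain ⟨c0, p1, gP, p2, Cu, p3, H⟩ := hB K0 κ0 a00 ab a' β (2 * C0) C' (Cw β l a') (Cq β l a') hκ h0
    h1 hβ.1.le (by linarith) (by positivity) c1 (by linarith) (by rw [Cq]; positivity)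
  refine ⟨c0, p1, gP, p2, Cu, p3, fun w u1 u2 u3 u4 u5 u6 u7 => ?_⟩
  obtain ⟨CP, p4, gW, p5, H⟩ := H w u1 u2 u3 u4 u5 u6 u7
  refine ⟨CP, p4, gW, p5, fun s q0 a g hL a0' aa hg ω ω0 => ?_⟩
  obtain ⟨es, s0', H⟩ := H ω ω0
  obtain ⟨g0, hg0, G0⟩ := H0 s q0 hL
  obtain ⟨x1, x10, F1⟩ := faT (C0 := C0) hβ l0 l2 h3 hL a0' aa c1 hg
  obtain ⟨x0, x00, F0⟩ := faT (C0 := C0) hβ l0 l2 h3 hL le_rfl h2 c1 hg0
  refine ⟨min (min x1 x0) (es / ((Cw β l a' + 1) * 4)), by positivity,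
    fun e s0 ρ e0 he hd C => ?_⟩
  have he1 : e * ((Cw β l a' + 1) * 4) ≤ es :=
    (le_div_iff₀ (by positivity)).1 (he.trans (min_le_right _ _))
  obtain ⟨s1, ρ0, Tg, hd0, -, D, -, A0⟩ := G0 e e0
  obtain ⟨δ, δ0, X, X1, H⟩ := H (max (max C D) 10) (le_trans (by norm_num) (le_max_right _ _))
  refine ⟨X, X1, δ, δ0, fun e1 η C1 k d Vf v1 v2 v3 v4 v5 v6 ηA v7 εA v8 p hp hw v9 v10 m j hm ha v11
    v12 c hc e' v13 => ?_⟩
  obtain ⟨η0, η00, k0, d0, D1, cd0, D0, A0⟩ := A0 δ δ0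
  obtain ⟨E, hE⟩ : ∃ E : ℝ, E = C1 * k + D1 * k0 := ⟨_, rfl⟩
  have E1 : 0 ≤ C1 * k := by positivity
  have E2 : 0 ≤ D1 * k0 := by positivity
  have E0 : 0 < E + 1 := by linarith
  obtain ⟨ε, ε0, ε1, ε2, ε3⟩ : ∃ ε > (0 : ℝ), ε ≤ e ∧ ε ≤ εA ∧ ε ≤ δ / (E + 1) :=
    ⟨min (min e εA) (δ / (E + 1)), by positivity, (min_le_left _ _).trans (min_le_left _ _),
      (min_le_left _ _).trans (min_le_right _ _), min_le_right _ _⟩
  obtain ⟨μ1, μ10, F1⟩ := F1 e s0 ρ e0 (he.trans ((min_le_left _ _).trans (min_le_left _ _))) hd k d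
    v4 Vf v5 v6 ε ε0 ε1
  obtain ⟨μ0, μ00, F0⟩ := F0 e s1 ρ0 e0 (he.trans ((min_le_left _ _).trans (min_le_right _ _))) hd0 k0
    d0 cd0 (fun _ => ∅) (fun _ _ _ => ⟨1, one_pos, .of_forall fun _ _ h => h.elim⟩)
    (.of_forall fun _ _ h => h.elim) ε ε0 ε1
  obtain ⟨μ, μp, m1, m0⟩ : ∃ μ > (0 : ℝ), μ ≤ μ1 ∧ μ ≤ μ0 :=
    ⟨_, lt_min μ10 μ00, min_le_left _ _, min_le_right _ _⟩
  obtain ⟨ζ, ζp, z1, z0⟩ : ∃ ζ > (0 : ℝ), ζ ≤ η ∧ ζ ≤ η0 :=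
    ⟨_, lt_min v2 η00, min_le_left _ _, min_le_right _ _⟩
  have γ0 : 0 < c / 16 ^ m := by positivity [hc.1]
  have y1 : 0 ≤ 2 / μ := by positivity
  have y2 : 0 ≤ 2 * Cw β l a' ^ 2 / (μ * ζ ^ 2) := by positivity
  have y3 : 0 ≤ Cw β l a' ^ 2 / (μ * ηA ^ 2) := by positivity
  have y4 : 0 ≤ 4 * Cw β l a' ^ 2 := by positivity
  filter_upwards [F1, F0, A0, hK s hL.1, Pos.TF.lim.eventually (scales (A := C1 + D1 + 1) (X := X)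
    (B := X + 2 / μ + 2 * Cw β l a' ^ 2 / (μ * ζ ^ 2) + Cw β l a' ^ 2 / (μ * ηA ^ 2) +
      4 * Cw β l a' ^ 2) γ0 ((div_le_self hc.1.le (one_le_pow₀ (by norm_num))).trans hc.2) v13
    (by linarith) (by linarith) (by linarith))]
    with i ⟨xa, Wm, xβ, f1⟩ ⟨b0, W0, _, f0⟩ ⟨⟨ψ0, T0, a0⟩, _⟩ bas ⟨Kb, R, r0, r1, r2, r3, r4, r5, r6⟩
    ψ T hA Ad φ hAd
  have n0 : (0 : ℝ) ≤ i.n := Nat.cast_nonneg _
  have L0 : 0 ≤ log i.n := log_natCast_nonneg _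
  have L1 := mul_nonneg v3 L0
  have L2 := mul_nonneg D0 L0
  have r7 : ∀ B, B ≤ X + 2 / μ + 2 * Cw β l a' ^ 2 / (μ * ζ ^ 2) + Cw β l a' ^ 2 / (μ * ηA ^ 2) +
      4 * Cw β l a' ^ 2 → B * R ≤ (i.n : ℝ) ^ (1 - c / 16 ^ m / 8) := fun B h =>
    (mul_le_mul_of_nonneg_right h r0).trans r5
  have r8 : ∀ B r, 0 < r → B / r ≤ X + 2 / μ + 2 * Cw β l a' ^ 2 / (μ * ζ ^ 2) +
      Cw β l a' ^ 2 / (μ * ηA ^ 2) + 4 * Cw β l a' ^ 2 → B * R ≤ i.n * r := fun B r hr h => by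
    rw [← div_le_iff₀ hr, mul_div_right_comm]; exact (r7 _ h).trans r6
  subst ha
  refine H p hp hw v9 v10 m j hm v11 v12 i.n (i.J β) i.y _ _ _ Ad φ ⟨max (max C D) 10, 2 * C0, C', e,
    δ, ζ, log i.n, (C1 + D1) * log i.n, E, Cw β l a', Cq β l a', (Cw β l a' + 1) * (4 * e), ε,
    μ * i.n⟩ _ _ ψ ψ0 T T0 Wm W0 xa b0 ηA _ _ Kb R rfl rfl rfl rfl rfl
    ⟨e0.le, ?_, by positivity, ?_, δ0.le, le_rfl, ζp, ?_, ε0.le, (le_div_iff₀' E0).1 ε3, L0, ?_, ?_, r1,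
      r3, rpow_nonneg n0 _, r4, (r7 _ (by linarith)).trans r6, ?_, ?_, v7, ?_⟩ bas
    (f1 _ C e1 η C1 ψ T rfl rfl rfl rfl rfl rfl rfl (mul_le_mul_of_nonneg_right m1 n0)
      ((le_max_left _ _).trans (le_max_left _ _)) (le_max_right _ _) v1 z1 le_rfl ?_ v3 ?_ hA)
    (f0 _ D δ η0 D1 ψ0 T0 rfl rfl rfl rfl rfl rfl rfl (mul_le_mul_of_nonneg_right m0 n0)
      ((le_max_right _ _).trans (le_max_left _ _)) (le_max_right _ _) le_rfl z0 le_rfl ?_ D0 ?_ a0.ans)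
    xβ (fun k => by linarith) fun v u g1 g2 g3 g4 => hAd v u g1 g2 (g3.trans (r7 _ (by linarith)))
      fun f hf => (g4 f hf).trans (mul_le_mul_of_nonneg_right ε2 ((nrm_nonneg v).trans g2))
  all_goals dsimp only
  · linarith [mul_nonneg e0.le (show 0 ≤ Cw β l a' by linarith)]
  · linarith
  · linarith
  · linarith
  · linarith
  · linarith [r8 2 μ μp (by linarith)]
  · linarith [r8 _ _ (show 0 < μ * ζ ^ 2 by positivity) (show 2 * Cw β l a' ^ 2 / _ ≤ _ by linarith)]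
  · linarith [r8 _ _ (show 0 < μ * ηA ^ 2 by positivity) (show Cw β l a' ^ 2 / _ ≤ _ by linarith)]
  all_goals linarith

end Crest.Agent.T157.S1

end
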