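import Crest.Agent.T157.BrTail_44

/-!
# Row 157, block S1 (helper83): expectations over a reveal followed by a channel
-/

set_option autoImplicit false
set_option linter.unusedSectionVars false

noncomputable section

namespace Crest.Agent.T157.S1.Bu83

open Real Matrix MeasureTheory ProbabilityTheory Finset
open Crest.Agent.T157.E Crest.Agent.T157.SL Crest.Agent.T157.Ta

variable {Ω A κ : Type} [Fintype Ω] [Fintype A] [DecidableEq A] [Fintype κ] [DecidableEq κ]
  {φ : Ω → κ → ℝ} {v μ : Ω → ℝ} {ρ : Ω → A} {P : ℝ}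

theorem g1 {β : ℝ} (hβ : 0 < β) :
    Integrable (fun x : ℝ => exp ((1 / 2 - β) * x ^ 2)) (gaussianReal 0 1) ∧
      ∫ x, exp ((1 / 2 - β) * x ^ 2) ∂gaussianReal 0 1 = √(1 / (2 * β)) := by
  have e : ∫ x, exp ((1 / 2 - β) * x ^ 2) ∂gaussianReal 0 1 = √(1 / (2 * β)) := by
    rw [integral_gaussianReal_eq_integral_smul one_ne_zero]
    have : ∀ x : ℝ, gaussianPDFReal 0 1 x • exp ((1 / 2 - β) * x ^ 2) =
        (√(2 * π))⁻¹ * exp (-β * x ^ 2) := fun x => by
      simp only [gaussianPDFReal, smul_eq_mul, NNReal.coe_one, mul_one, sub_zero, mul_assoc, ← exp_add]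
      congr 2; ring
    simp only [this]
    rw [integral_const_mul, integral_gaussian, ← sqrt_inv, ← sqrt_mul (by positivity)]
    congr 1
    field_simp
  exact ⟨.of_integral_ne_zero (by rw [e]; positivity), e⟩

theorem g6 (k : κ) : ∫ g : κ → ℝ, g k ^ 6 ∂gv κ ≤ 768 := by
  obtain ⟨i1, e1⟩ := g1 (β := 1 / 4) (by norm_num)
  rw [integral_comp_eval (μ := fun _ : κ => gaussianReal 0 1) (i := k) (f := fun x : ℝ => x ^ 6)
    (by fun_prop)]
  refine (integral_mono_of_nonneg (.of_forall fun x => by positivity) (i1.const_mul 384)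
    (.of_forall fun x => ?_)).trans ?_
  · have := pow_div_factorial_le_exp (x := (1 / 2 - 1 / 4) * x ^ 2) (by positivity) 3
    simp only [Nat.factorial, Nat.succ_eq_add_one] at this
    norm_num at this ⊢
    linarith
  · rw [integral_const_mul, e1]
    have : √(1 / (2 * (1 / 4))) ≤ 2 := sqrt_le_iff.2 ⟨by norm_num, by norm_num⟩
    linarith

theorem cut_post (φ : Ω → κ → ℝ) (v : Ω → ℝ) (ρ : Ω → A) (P : ℝ) (u : κ → ℝ) (σ : A) :
    cut (post φ v P u) ρ σ = post φ (cut v ρ σ) P u := by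
  ext x; simp only [cut, post]; split_ifs <;> simp

theorem rv_eq (hv : Wt v) (Y : A → (κ → ℝ) → ℝ) : slE φ v P (fun x u => Y (ρ x) u) =
    ∑ σ, push v ρ σ * slE φ (cut v ρ σ) P fun _ => Y σ :=
  (sum_push_mean hv ρ fun σ x => ∫ z, Y σ (P • φ x + √P • z) ∂gv κ).symm

theorem rv_mean (hv : Wt v) (hw : ∀ σ, Wt (cut v ρ σ)) (hP : 0 ≤ P) {F : Ω → (κ → ℝ) → ℝ}
    (hF : ∀ x, XG (F x)) : slE φ v P (fun x u => mean (post φ (cut v ρ (ρ x)) P u) fun y => F y u) =
      slE φ v P F := by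
  rw [rv_eq hv fun σ u => mean (post φ (cut v ρ σ) P u) fun y => F y u]
  simp only [← bayes (hw _) hP (.of_mg fun x => (hF x).mg)]
  exact sum_push_mean hv ρ fun _ x => ∫ z, F x (P • φ x + √P • z) ∂gv κ

theorem cut_kl (hv : Wt v) (hw : ∀ σ, Wt (cut v ρ σ)) (hμ : ∀ x, 0 < μ x) :
    ∑ σ, push v ρ σ * kl (cut v ρ σ) μ ≤ kl v μ + log (Fintype.card A) := by
  have hp : ∀ σ, 0 < push v ρ σ := fun σ => by rw [push_eq]; exact div_pos (hw σ).pos hv.pos
  have hW := (Br.Sm54.pr hv hμ).hw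
  have e1 : ∑ σ, push v ρ σ * kl (cut v ρ σ) μ =
      kl v μ + mean v fun x => -log (push v ρ (ρ x)) := by
    refine (sum_push_mean hv ρ fun σ x => log (prob (cut v ρ σ) x / prob μ x)).trans ?_
    rw [show kl v μ = mean v fun x => log (prob v x / prob μ x) from rfl, ← mean_add]
    refine mean_congr_supp fun x hx => ?_
    have h1 : 0 < prob v x := div_pos (hv.pos_of_ne x hx) hv.pos
    have h2 : 0 < prob μ x := div_pos (hμ x) hW.pos
    rw [prob_cut hv, div_right_comm, log_div (div_pos h1 h2).ne' (hp _).ne', sub_eq_add_neg]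
  have e2 : mean v (fun x => exp (-log (push v ρ (ρ x)))) = Fintype.card A := by
    rw [← sum_push_mean hv ρ fun σ _ => exp (-log (push v ρ σ))]
    simp only [(hw _).mean_const, exp_neg, exp_log (hp _), mul_inv_cancel₀ (hp _).ne', sum_const,
      card_univ, nsmul_eq_mul, mul_one]
  have := mean_le_log hv fun x => -log (push v ρ (ρ x))
  rw [e2] at this
  linarith

theorem rv_kl (hv : Wt v) (hw : ∀ σ, Wt (cut v ρ σ)) (hP : 0 ≤ P) (hμ : ∀ x, 0 < μ x) (a : κ → ℝ) :
    slE φ v P (fun x u => kl (post φ (cut v ρ (ρ x)) P u) μ) ≤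
      kl v μ + log (Fintype.card A) + P / 2 * mean v fun x => Br.sq (φ x - a) := by
  rw [rv_eq hv fun σ u => kl (post φ (cut v ρ σ) P u) μ,
    ← sum_push_mean hv ρ fun _ x => Br.sq (φ x - a), mul_sum]
  refine le_trans ?_ (add_le_add (cut_kl hv hw hμ) le_rfl)
  rw [← sum_add_distrib]
  refine sum_le_sum fun σ _ => ?_
  have := mul_le_mul_of_nonneg_left (Br.Sm54.kl_ge (φ := φ) (Br.Sm54.pr (hw σ) hμ) hP a)
    (push_nonneg hv ρ σ)
  simp only [Br.sq]
  linarith

theorem rv_cnt {n : ℕ} {φ : Cube n → κ → ℝ} {v : Cube n → ℝ} {ρ : Cube n → A}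
    {r : Fin n → Cube n → ℝ} (hv : Wt v) (hw : ∀ σ, Wt (cut v ρ σ)) (hP : 0 ≤ P) (hr : Off r)
    (h0 : ∀ i x, 0 ≤ r i x) :
    slE φ v P (fun x u => Cnt r (post φ (cut v ρ (ρ x)) P u)) ≤ Cnt r v := by
  rw [rv_eq hv fun σ u => Cnt r (post φ (cut v ρ σ) P u)]
  refine (sum_le_sum fun σ _ => mul_le_mul_of_nonneg_left (Cnt_chan_le (hw σ) hP hr h0)
    (push_nonneg hv ρ σ)).trans ?_
  simp only [Cnt, mul_sum]
  rw [sum_comm]
  exact sum_le_sum fun i _ => Cs_cut_le hv (hr i) (h0 i) ρ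

/-- the normalised likelihood of the observation -/
def mm (φ : Ω → κ → ℝ) (v : Ω → ℝ) (ρ : Ω → A) (P : ℝ) (σ : A) (u : κ → ℝ) : ℝ :=
  mean v fun x => (if ρ x = σ then 1 else 0) * exp (-(P / 2 * Br.sq (φ x - P⁻¹ • u)))

theorem meas_mm (σ : A) : Measurable (mm φ v ρ P σ) := by
  unfold mm mean Br.sq dotProduct
  refine Finset.measurable_sum _ fun x _ => ?_
  fun_prop

theorem xg_min {c M : ℝ} (hc : 0 ≤ c) (hM : 0 ≤ M) (σ : A) :
    XG fun u => min (c * (√(mm φ v ρ P σ u))⁻¹) M :=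
  .of_bdd (((meas_mm σ).sqrt.inv.const_mul c).min measurable_const) M fun u => by
    rw [abs_of_nonneg (le_min (by positivity) hM)]; exact min_le_right _ _

theorem rv_exp (hv : Wt v) (hP : 0 < P) {a c M : ℝ} (ha : 0 ≤ a) (hb : ∀ x k, P * φ x k ^ 2 ≤ a)
    (hc : 0 ≤ c) (hM : 0 ≤ M) : slE φ v P (fun x u => min (c * (√(mm φ v ρ P (ρ x) u))⁻¹) M) ≤
      c * Fintype.card A * (4 * √(a + 1)) ^ Fintype.card κ := by
  obtain ⟨i1, e1⟩ := g1 (β := 1 / (8 * (a + 1))) (by positivity)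
  set β := 1 / (8 * (a + 1)) with hβ
  have sP := mul_self_sqrt hP.le
  have sP0 := sqrt_pos.2 hP
  rw [slE_eq_ref' hP.le (.of_mg fun x => (xg_min hc hM (ρ x)).mg), ← integral_div]
  have key : ∀ z : κ → ℝ, (∑ x, post φ v P (√P • z) x *
      min (c * (√(mm φ v ρ P (ρ x) (√P • z)))⁻¹) M) / ∑ x, v x ≤
      c * Fintype.card A * ∏ k, 2 * exp ((1 / 2 - β) * z k ^ 2) := fun z => by
    set E : Ω → ℝ := fun x => exp (-(P / 2 * Br.sq (φ x - P⁻¹ • √P • z))) with hE
    have e2 : ∀ x, -(P / 2 * Br.sq (φ x - P⁻¹ • √P • z)) = -(∑ k, (√P * φ x k - z k) ^ 2) / 2 :=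
      fun x => by
        simp only [Br.sq, dotProduct, mul_sum, Pi.sub_apply, Pi.smul_apply, smul_eq_mul, neg_div,
          sum_div, neg_inj]
        refine sum_congr rfl fun k _ => ?_
        have : φ x k - P⁻¹ * (√P * z k) = (√P * φ x k - z k) / √P := by
          field_simp
          linear_combination (-z k) * sP
        rw [this, div_mul_div_comm, sP]
        field_simp
    have e3 : ∀ x, post φ v P (√P • z) x = v x * (E x * exp (∑ k, z k ^ 2 / 2)) := fun x => by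
      rw [post_sqrt hP.le, hE]
      simp only [e2, ← exp_add, dotProduct, Pi.smul_apply, smul_eq_mul, neg_div, sum_div,
        ← sum_neg_distrib, ← sum_add_distrib, ← sum_sub_distrib]
      congr 2
      exact sum_congr rfl fun k _ => by ring
    have b1 : ∀ σ, √(mm φ v ρ P σ (√P • z)) ≤ ∏ k, 2 * exp (-β * z k ^ 2) := fun σ => by
      refine sqrt_le_iff.2 ⟨by positivity, hv.mean_le fun x => ?_⟩
      refine (mul_le_of_le_one_left (exp_pos _).le (by split_ifs <;> norm_num)).trans ?_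
      rw [e2, ← prod_pow, neg_div, sum_div, ← sum_neg_distrib, exp_sum]
      refine prod_le_prod (fun _ _ => (exp_pos _).le) fun k _ => ?_
      have h1 : (√P * φ x k) ^ 2 ≤ a := by rw [mul_pow, sq_sqrt hP.le]; exact hb x k
      have h2 : 4 * β * z k ^ 2 ≤ (√P * φ x k - z k) ^ 2 + 1 := by
        rw [hβ, show 4 * (1 / (8 * (a + 1))) * z k ^ 2 = z k ^ 2 / (2 * (a + 1)) by field_simp; ring,
          div_le_iff₀ (by positivity)]
        nlinarith [sq_nonneg (2 * (√P * φ x k) - z k), mul_nonneg ha (sq_nonneg (√P * φ x k - z k))]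
      have h3 : exp (1 / 2) ≤ 4 := by
        have := exp_one_lt_d9
        have := exp_le_exp.2 (show (1 : ℝ) / 2 ≤ 1 by norm_num)
        linarith
      rw [mul_pow, ← exp_nat_mul]
      calc _ ≤ exp (1 / 2) * exp ((2 : ℕ) * (-β * z k ^ 2)) := by
            rw [← exp_add]; exact exp_le_exp.2 (by push_cast; linarith)
        _ ≤ _ := mul_le_mul_of_nonneg_right (by linarith) (exp_pos _).le
    simp only [e3, mul_assoc]
    rw [← mean_eq_div, ← sum_push_mean hv ρ fun σ x => E x * (exp (∑ k, z k ^ 2 / 2) *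
      min (c * (√(mm φ v ρ P σ (√P • z)))⁻¹) M)]
    simp only [push_mul_mean hv, ← mul_assoc, mean_mul_const]
    rw [mul_comm c, mul_assoc, ← nsmul_eq_mul, ← card_univ]
    refine sum_le_card_nsmul _ _ _ fun σ _ => ?_
    have m0 : 0 ≤ mm φ v ρ P σ (√P • z) :=
      hv.mean_nonneg fun x => mul_nonneg (by split_ifs <;> norm_num) (exp_pos _).le
    calc _ ≤ mm φ v ρ P σ (√P • z) * exp (∑ k, z k ^ 2 / 2) * (c * (√(mm φ v ρ P σ (√P • z)))⁻¹) :=
          mul_le_mul_of_nonneg_left (min_le_left _ _) (mul_nonneg m0 (exp_pos _).le)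
      _ = c * (√(mm φ v ρ P σ (√P • z)) * exp (∑ k, z k ^ 2 / 2)) := by
          conv_rhs => rw [← div_sqrt]
          ring
      _ ≤ c * ((∏ k, 2 * exp (-β * z k ^ 2)) * exp (∑ k, z k ^ 2 / 2)) := by gcongr; exact b1 σ
      _ = _ := by
          rw [exp_sum, ← prod_mul_distrib]
          congr 1
          refine prod_congr rfl fun k _ => ?_
          rw [mul_assoc, ← exp_add]; congr 2; ring
  refine (integral_mono_of_nonneg (.of_forall fun z => div_nonneg (sum_nonneg fun x _ => mul_nonneg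
    ((hv.post _ _ _).nn x) (le_min (by positivity) hM)) hv.pos.le)
    ((Integrable.fintype_prod fun _ => i1.const_mul 2).const_mul _) (.of_forall key)).trans ?_
  rw [integral_const_mul, integral_fintype_prod_eq_pow fun x : ℝ => 2 * exp ((1 / 2 - β) * x ^ 2),
    integral_const_mul, e1, hβ, show 1 / (2 * (1 / (8 * (a + 1)))) = 2 ^ 2 * (a + 1) by field_simp; ring,
    sqrt_mul (by positivity), sqrt_sq (by norm_num), ← mul_assoc]
  norm_num

end Crest.Agent.T157.S1.Bu83

end
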