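import Crest.Agent.T157.S1BuB_83

/-!
# Row 157, block S1 (helper83): the continuation value of the burst
-/

set_option autoImplicit false

noncomputable section

namespace Crest.Agent.T157.S1.Bu83

open Real Matrix Finset MeasureTheory
open Crest.Agent.T157.E Crest.Agent.T157.SL Crest.Agent.T157.Ta
open Crest.Agent.T157.Rec (grad)
open Crest.Agent.T157.Eig (nrm opn)
open Crest.Agent.T157.S3 (V Mx)

variable {n : ℕ}

theorem untilt {v w ψ : Cube n → ℝ} {r : Fin n → Cube n → ℝ} {b k : ℝ} (p : Pr v w) (hr : Off r)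
    (r0 : ∀ j x, 0 ≤ r j x ∧ r j x ≤ 1) (hψ : ∀ x, nrm (grad ψ x) ≤ b) (k0 : 0 < k) (k1 : k ≤ 1) :
    Ar r v (wt w ψ) ≤ (1 + k) * Ar r v w + b ^ 2 / k := by
  have h1 : ∀ j, As (r j) v (wt w ψ) j ≤
      (1 + k) * As (r j) v w j + mean v fun x => grad ψ x j ^ 2 / k := fun j => by
    refine (As_wt_le p (hr j) (fun x => (r0 j x).1) ψ).trans ?_
    rw [As, ← mean_sub, ← mean_add, ← mean_const_mul, ← mean_add]
    refine mean_mono_supp p.hv fun x hx => ?_
    have h2 := chi_sq_le p j hx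
    have h3 : -(grad ψ x j * chi v w j x) + grad ψ x j ^ 2 / 2 ≤
        k * kls v w j x + grad ψ x j ^ 2 / k := by
      rw [← sub_le_iff_le_add', le_div_iff₀ k0]
      nlinarith [sq_nonneg (k * chi v w j x + grad ψ x j), mul_le_mul_of_nonneg_left h2 (sq_nonneg k),
        mul_le_mul_of_nonneg_left k1 (sq_nonneg (grad ψ x j))]
    have h4 := mul_le_mul_of_nonneg_left h3 (r0 j x).1
    have h5 := mul_le_of_le_one_left (div_nonneg (sq_nonneg (grad ψ x j)) k0.le) (r0 j x).2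
    linarith
  refine (sum_le_sum fun j _ => h1 j).trans ?_
  rw [sum_add_distrib, ← mul_sum, ← mean_sum]
  refine add_le_add le_rfl (p.hv.mean_le fun x => ?_)
  rw [← sum_div]
  refine div_le_div_of_nonneg_right ?_ k0.le
  have := pow_le_pow_left₀ (Eig.nrm_nonneg _) (hψ x) 2
  rwa [Eig.nrm_sq, dotProduct, ← sum_congr rfl fun j _ => sq _] at this

theorem kl_wt_le {v G : Cube n → ℝ} {β : ℝ} (hv : Wt v) (hG : ∀ x, |G x| ≤ β) :
    kl v (wt v G) ≤ 2 * β := by
  have h0 : kl v v ≤ 0 := sum_nonpos fun x _ => mul_nonpos_of_nonneg_of_nonpos (hv.prob_nonneg x)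
    (log_nonpos (div_nonneg (hv.prob_nonneg x) (hv.prob_nonneg x)) (div_self_le_one _))
  have h1 := abs_le.1 (hv.abs_mean_le hG)
  have h2 : log (mean v fun x => exp (G x)) ≤ β :=
    (log_le_iff_le_exp (mean_pos' hv fun _ => exp_pos _)).2
      (hv.mean_le fun x => exp_le_exp.2 (abs_le.1 (hG x)).2)
  rw [kl_wt (.refl hv)]
  linarith [h1.1]

variable (D : Dat n) (s : St n) (B : Finset (Fin n)) (y0 : V n) (xb : B → ℝ) (ξ : Cube n → ℝ)
  (γ g1 θ B0 c M : ℝ)

/-- the part of the continuation value which is a posterior mean -/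
def FF (x : Cube n) (u : B → ℝ) : ℝ :=
  ξ x + γ * (U D s x + U6 D s x) + θ * (B0 + U D s x + Br.sq (hB D s B x - xb)) +
    γ * (D.P / 2 * Br.sq (hB D s B x - D.P⁻¹ • u) +
      ∑ k : B, (D.P * (hB D s B x - D.P⁻¹ • u) k ^ 2) ^ 3) + θ * Br.sq (u - D.P • xb)

/-- the continuation value -/
def xi (σ : B → Bool) (u : B → ℝ) : ℝ :=
  mean (vB D s B σ u) (fun x => FF D s B xb ξ γ θ B0 x u) + γ * kl (vB D s B σ u) (ising D.J s.y) +
    θ * kl (vB D s B σ u) (ising D.J y0) + g1 * Cnt (fun i x => grad s.Th x i ^ 2) (vB D s B σ u) +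
    min (c * (√(mm (hB D s B) (nu D s) (bB B) D.P σ u))⁻¹) M

theorem xg_FF (x : Cube n) : XG (FF D s B xb ξ γ θ B0 x) := by
  have l : ∀ k, XG fun u : B → ℝ => (hB D s B x - D.P⁻¹ • u) k := fun k =>
    ((LG.const _).sub ((LG.coord k).const_mul _)).xg
  refine ((XG.const _).add (XG.const_mul _ ((XG.const_mul _ (XG.sum _ fun k _ =>
    (l k).mul (l k))).add (XG.sum _ fun k _ => ?_)))).add ((Br.Sm54.xg_sq _).const_mul _)
  simpa only [pow_three] using ((l k).sq.const_mul D.P).mul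
    (((l k).sq.const_mul D.P).mul ((l k).sq.const_mul D.P))

variable {D s B γ g1 θ c M}

theorem xg_parts (h : D.Ok) (hd : Disjoint B s.S) (hc : 0 ≤ c) (hM : 0 ≤ M) (σ : B → Bool) :
    XG (fun u => mean (vB D s B σ u) fun x => FF D s B xb ξ γ θ B0 x u) ∧
    XG (fun u => γ * kl (vB D s B σ u) (ising D.J s.y)) ∧
    XG (fun u => θ * kl (vB D s B σ u) (ising D.J y0)) ∧
    XG (fun u => g1 * Cnt (fun i x => grad s.Th x i ^ 2) (vB D s B σ u)) ∧
    XG fun u => min (c * (√(mm (hB D s B) (nu D s) (bB B) D.P σ u))⁻¹) M :=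
  have hw := wt_cut_nu h hd σ
  ⟨.of_mg (mg_mean hw _ fun x => (xg_FF D s B xb ξ γ θ B0 x).mg),
    (Br.Sm54.xg_klp (Br.Sm54.pr hw (C89.is_pos _ _)) _).const_mul _,
    (Br.Sm54.xg_klp (Br.Sm54.pr hw (C89.is_pos _ _)) _).const_mul _,
    XG.const_mul _ (.sum _ fun i _ => xg_Cs hw (fun x => (lg_lk _ _ x).meas) _ i), xg_min hc hM σ⟩

theorem xg_xi (h : D.Ok) (hd : Disjoint B s.S) (hc : 0 ≤ c) (hM : 0 ≤ M) (σ : B → Bool) :
    XG (xi D s B y0 xb ξ γ g1 θ B0 c M σ) :=
  have ⟨a, b, c, d, e⟩ := xg_parts y0 xb ξ B0 (γ := γ) (g1 := g1) (θ := θ) h hd hc hM σ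
  (((a.add b).add c).add d).add e

theorem int_FF (h : D.Ok) (hγ : 0 ≤ γ) (x : Cube n) :
    ∫ g, FF D s B xb ξ γ θ B0 x (D.P • hB D s B x + √D.P • g) ∂gv B ≤
      ξ x + γ * (U D s x + U6 D s x) + θ * (B0 + U D s x + Br.sq (hB D s B x - xb)) +
        γ * (769 * #B) + θ * (D.P ^ 2 * Br.sq (hB D s B x - xb) + D.P * #B) := by
  have P0 : 0 < D.P := by linarith [h.P1]
  have e0 : ∀ (g : B → ℝ) k, D.P * (hB D s B x - D.P⁻¹ • (D.P • hB D s B x + √D.P • g)) k ^ 2 =
      g k ^ 2 := fun g k => by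
    simp only [Pi.sub_apply, Pi.smul_apply, Pi.add_apply, smul_eq_mul]
    field_simp
    linear_combination (g k ^ 2) * mul_self_sqrt P0.le
  have e1 : ∀ g : B → ℝ, FF D s B xb ξ γ θ B0 x (D.P • hB D s B x + √D.P • g) =
      ξ x + γ * (U D s x + U6 D s x) + θ * (B0 + U D s x + Br.sq (hB D s B x - xb)) +
        γ * (∑ k, (g k * g k / 2 + g k ^ 6)) + θ * ((D.P • (hB D s B x - xb) + √D.P • g) ⬝ᵥ
          (D.P • (hB D s B x - xb) + √D.P • g)) := fun g => by
    rw [FF, smul_sub, sub_add_eq_add_sub, sum_add_distrib]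
    congr 4
    · rw [Br.sq, dotProduct, mul_sum]
      exact sum_congr rfl fun k _ => by linear_combination e0 g k / 2
    · exact sum_congr rfl fun k _ => by rw [e0, ← pow_mul]
  have l : ∀ k, XG fun g : B → ℝ => g k := fun k => (LG.coord k).xg
  have l6 : ∀ k, XG fun g : B → ℝ => g k ^ 6 := fun k => by
    simpa only [← pow_add] using (l k).sq.mul ((l k).sq.mul (l k).sq)
  have l2 : ∀ k, XG fun g : B → ℝ => g k * g k / 2 := fun k => by
    simpa only [div_eq_mul_inv] using ((l k).mul (l k)).mul (XG.const 2⁻¹)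
  have i1 := (XG.sum univ fun k _ => (l2 k).add (l6 k)).const_mul γ
  have i2 : MG fun g : B → ℝ => θ * ((D.P • (hB D s B x - xb) + √D.P • g) ⬝ᵥ
      (D.P • (hB D s B x - xb) + √D.P • g)) := by
    simpa only [sub_zero] using (((Br.Sm54.xg_sq (0 : B → ℝ)).const_mul θ).mg.affine
      (D.P • (hB D s B x - xb)) √D.P)
  simp only [e1]
  rw [integral_add ((XG.const _).add i1).mg.int i2.int, integral_add (integrable_const _) i1.mg.int,
    integral_const_mul, integral_const_mul, Br.Sm54.int_sq, sq_sqrt P0.le,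
    integral_finsetSum _ fun k _ => ((l2 k).add (l6 k)).mg.int]
  have b : ∑ k : B, ∫ g : B → ℝ, (g k * g k / 2 + g k ^ 6) ∂gv B ≤ (769 : ℝ) * #B := by
    rw [← Fintype.card_coe, mul_comm, ← nsmul_eq_mul, ← card_univ]
    refine sum_le_card_nsmul _ _ _ fun k _ => ?_
    rw [integral_add (l2 k).mg.int (l6 k).mg.int, integral_div, Rec.int_coord_mul, if_pos rfl]
    linarith [g6 k]
  have := mul_le_mul_of_nonneg_left b hγ
  rw [← Br.Tail44.sq_smul, Fintype.card_coe]
  simp only [integral_const, probReal_univ, one_smul, Br.sq]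
  linarith

theorem sl_xi (h : D.Ok) (hd : Disjoint B s.S) (hγ : 0 ≤ γ) (hg : 0 ≤ g1) (hθ : 0 ≤ θ) (hc : 0 ≤ c)
    (hM : 0 ≤ M) : slE (hB D s B) (nu D s) D.P (fun x u => xi D s B y0 xb ξ γ g1 θ B0 c M (bB B x) u) ≤
      mean (nu D s) ξ + γ * (Hy D s + mean (nu D s) (U D s) + mean (nu D s) (U6 D s) + 770 * #B +
        D.P / 2 * mean (nu D s) fun x => Br.sq (hB D s B x - xb)) +
      θ * (B0 + kl (nu D s) (ising D.J y0) + mean (nu D s) (U D s) + (1 + D.P) * #B +
        (1 + D.P + D.P ^ 2) * mean (nu D s) fun x => Br.sq (hB D s B x - xb)) +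
      g1 * Eg D s s.Th + c * exp ((2 * D.P + 10) * #B * log (n + 2) / 2) := by
  have P1 := h.P1
  have P0 : 0 < D.P := by linarith
  have hv := (C89.pr1 (s := s) h).hv
  have hw := wt_cut_nu h hd
  have X := fun x => xg_parts y0 xb ξ B0 (γ := γ) (g1 := g1) (θ := θ) h hd hc hM (bB B x)
  have lc : log (Fintype.card (B → Bool)) ≤ #B := by
    rw [Fintype.card_fun, Fintype.card_bool, Fintype.card_coe, Nat.cast_pow, log_pow]
    exact mul_le_of_le_one_right (Nat.cast_nonneg _) (by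
      have := log_two_lt_d9; norm_num at this ⊢; linarith)
  have a1 := (rv_mean hv hw P0.le (xg_FF D s B xb ξ γ θ B0)).trans_le
    (hv.mean_mono fun x => int_FF xb ξ B0 (θ := θ) h hγ x)
  simp only [mean_add, mean_const_mul, hv.mean_const] at a1
  have a2 := mul_le_mul_of_nonneg_left ((rv_kl (φ := hB D s B) hv hw P0.le (C89.is_pos D.J s.y)
    xb).trans (add_le_add (add_le_add le_rfl lc) le_rfl)) hγ
  have a3 := mul_le_mul_of_nonneg_left ((rv_kl (φ := hB D s B) hv hw P0.le (C89.is_pos D.J y0)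
    xb).trans (add_le_add (add_le_add le_rfl lc) le_rfl)) hθ
  have a4 := mul_le_mul_of_nonneg_left (rv_cnt (φ := hB D s B) (r := fun i x => grad s.Th x i ^ 2)
    hv hw P0.le (fun i => (off_grad _ i).comp (· ^ 2)) fun _ _ => sq_nonneg _) hg
  have a5 := rv_exp (φ := hB D s B) (ρ := bB B) hv P0 (a := 9 * D.P * n) (by positivity)
    (fun x k => by
      have h1 := sum_mul_sq_le_sq_mul_sq univ (Br.rw D.J (s.S ∪ B)ᶜ Subtype.val k) (sv x)
      have h2 : ∑ j, Br.rw D.J (s.S ∪ B)ᶜ Subtype.val k j ^ 2 ≤ 9 :=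
        ((sum_le_sum fun j _ => by unfold Br.rw; split_ifs <;> simp [sq_nonneg]).trans
          (S3F.row_sq_le D.J k)).trans (by nlinarith [h.op, Eig.opn_nonneg D.J])
      have h3 : ∑ j, sv x j ^ 2 = n := by simpa only [dotProduct, sq] using sv_dot_self x
      rw [h3] at h1
      have h4 : hB D s B x k ^ 2 ≤ 9 * n :=
        h1.trans (mul_le_mul_of_nonneg_right h2 (Nat.cast_nonneg _))
      nlinarith) hc hM
  have a6 : (Fintype.card (B → Bool) : ℝ) * (4 * √(9 * D.P * n + 1)) ^ Fintype.card B ≤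
      exp ((2 * D.P + 10) * #B * log (n + 2) / 2) := by
    rw [Fintype.card_fun, Fintype.card_bool, Fintype.card_coe, Nat.cast_pow, ← mul_pow,
      show (2 * D.P + 10) * #B * log (n + 2) / 2 = (#B : ℕ) * ((D.P + 5) * log (n + 2)) by ring,
      exp_nat_mul]
    refine pow_le_pow_left₀ (by positivity) ?_ _
    have n0 : (0 : ℝ) ≤ n := Nat.cast_nonneg _
    have b1 : √(9 * D.P * n + 1) ≤ 3 * D.P * (n + 2) :=
      sqrt_le_iff.2 ⟨by positivity, by nlinarith [mul_nonneg n0 n0, mul_nonneg P0.le n0]⟩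
    have b2 : 69 / 100 ≤ log (n + 2 : ℝ) :=
      le_trans (by have := log_two_gt_d9; linarith) (log_le_log two_pos (by linarith))
    have b3 := quadratic_le_exp_of_nonneg (x := D.P * log (n + 2)) (by positivity)
    have b4 : 69 / 100 * D.P ≤ D.P * log (n + 2) := by nlinarith
    have b5 := pow_le_pow_left₀ (by positivity) b4 2
    have b6 : 3 / 2 * D.P ≤ exp (D.P * log (n + 2)) := by nlinarith [sq_nonneg (D.P - 7 / 4)]
    have b7 : (2 : ℝ) ^ 4 ≤ (n + 2) ^ 4 := pow_le_pow_left₀ (by norm_num) (by linarith) 4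
    rw [add_mul, exp_add, show (5 : ℝ) * log (n + 2) = (5 : ℕ) * log (n + 2) by norm_num,
      exp_nat_mul, exp_log (by positivity), pow_succ]
    have b8 := mul_le_mul b6 (mul_le_mul_of_nonneg_right b7 (by positivity : (0 : ℝ) ≤ n + 2))
      (by positivity) (exp_pos _).le
    push_cast
    linarith
  have m0 : 0 ≤ mean (nu D s) fun x => Br.sq (hB D s B x - xb) :=
    hv.mean_nonneg fun x => Br.Tail44.sq_nn _
  unfold xi
  rw [slE_add (.of_mg fun x => ((((X x).1.add (X x).2.1).add (X x).2.2.1).add (X x).2.2.2.1).mg)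
      (.of_mg fun x => (X x).2.2.2.2.mg),
    slE_add (.of_mg fun x => (((X x).1.add (X x).2.1).add (X x).2.2.1).mg)
      (.of_mg fun x => (X x).2.2.2.1.mg),
    slE_add (.of_mg fun x => ((X x).1.add (X x).2.1).mg) (.of_mg fun x => (X x).2.2.1.mg),
    slE_add (.of_mg fun x => (X x).1.mg) (.of_mg fun x => (X x).2.1.mg), slE_const_mul,
    slE_const_mul, slE_const_mul]
  have a7 := mul_le_mul_of_nonneg_left a6 hc
  have a8 := mul_nonneg hθ (mul_nonneg P0.le m0)
  simp only [vB, Hy, Eg]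
  linarith

end Crest.Agent.T157.S1.Bu83

end
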