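import Crest.Agent.T157.S1BuC_83

/-!
# Row 157, block S1 (helper83): the act B gives `BurstOK`
-/

set_option autoImplicit false

noncomputable section

namespace Crest.Agent.T157.S1

open Real Matrix Finset
open Crest.Agent.T157.E Crest.Agent.T157.SL Crest.Agent.T157.Ta
open Crest.Agent.T157.Rec (grad)
open Crest.Agent.T157.Eig (nrm opn)
open Crest.Agent.T157.S3 (V Mx)
open Crest.Agent.T157.Br.Tail44 (sq_nn)

namespace Bu83

variable {n : ℕ} {D : Dat n} {s : St n} {y0 : V n} {B : Finset (Fin n)} {a0 a' e ε : ℝ} {X : BX n B}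
  {σ : B → Bool} {z c : B → ℝ}

theorem vp_eq (hd : Disjoint B s.S) : cut ((mkB D s y0 B a0 a' e ε X).vp D.P z)
    (mkB D s y0 B a0 a' e ε X).bT σ = vB D s B σ z := by
  rw [Br.Dat.vp, nu_eq hd, cut_post]; rfl

theorem W_eq (h : D.Ok) (hd : Disjoint B s.S) : cut ((mkB D s y0 B a0 a' e ε X).W D.P z c 0)
    (mkB D s y0 B a0 a' e ε X).bT σ =
      wt (vB D s B σ z) fun x => del s ⬝ᵥ sv x + s.Th x - log (D.f x) + c ⬝ᵥ X.φ x := by
  rw [Br.Dat.W, pw_eq hd]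
  ext x
  have := (h.fpos x).ne'
  show (if bB B x = σ then loc D s x * exp _ * exp (z ⬝ᵥ hB D s B x - D.P / 2 *
    (hB D s B x ⬝ᵥ hB D s B x)) * exp (c ⬝ᵥ X.φ x + 0 ⬝ᵥ _) else 0) =
    (if bB B x = σ then loc D s x * D.f x else 0) * exp _ * exp _
  split_ifs
  · rw [zero_dotProduct, add_zero, exp_add _ (c ⬝ᵥ X.φ x), exp_sub _ (log _), exp_log (h.fpos x)]
    field_simp
  · simp

theorem loc_eq (h : D.Ok) (hd : Disjoint B s.S) : loc D (sc D s B σ z) = fun x =>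
    cut ((mkB D s y0 B a0 a' e ε X).lp D.P z) (mkB D s y0 B a0 a' e ε X).bT σ x *
      exp (-(Br.sq z / (2 * D.P))) := by
  rw [Br.Dat.lp, l_eq hd, cut_post]
  have := loc_sc (σ := σ) (z := z) h hd fun _ => 1
  simp only [mul_one] at this
  exact this

theorem pi_eq (h : D.Ok) (hd : Disjoint B s.S) (ψ : Cube n → ℝ) :
    pi D ((sc D s B σ z).tl ψ 0 0 0) = fun x => wt (wt (vB D s B σ z) fun x =>
      del s ⬝ᵥ sv x + s.Th x - log (D.f x) + c ⬝ᵥ X.φ x) (fun x => ψ x - c ⬝ᵥ X.φ x) x *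
        exp (-(Br.sq z / (2 * D.P))) := by
  ext x
  have h1 := congrFun (nu_sc (σ := σ) (z := z) h hd) x
  have := (h.fpos x).ne'
  rw [wt_add, wt, mul_right_comm, ← h1, show del s ⬝ᵥ sv x + s.Th x - log (D.f x) + c ⬝ᵥ X.φ x +
    (ψ x - c ⬝ᵥ X.φ x) = del s ⬝ᵥ sv x + (s.Th x + ψ x) - log (D.f x) by ring, exp_sub,
    exp_log (h.fpos x), nu]
  show loc D (sc D s B σ z) x * exp (del s ⬝ᵥ sv x + (s.Th x + ψ x)) = _
  field_simp

theorem xi_eq (h : D.Ok) (hd : Disjoint B s.S) (ξ : Cube n → ℝ) (γ g1 θ T M : ℝ) :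
    xi D s B y0 (mkB D s y0 B a0 a' e ε X).xb ξ γ g1 θ X.B0 (exp ((Dz D s - T) / 2)) M σ z =
      mean (nu D (sc D s B σ z)) ξ + γ * (Hy D (sc D s B σ z) +
        mean (nu D (sc D s B σ z)) (U D (sc D s B σ z)) +
        mean (nu D (sc D s B σ z)) (U6 D (sc D s B σ z))) + g1 * Eg D (sc D s B σ z) s.Th +
      min (exp ((Dz D (sc D s B σ z) - T) / 2)) M +
      θ * (mkB D s y0 B a0 a' e ε X).bv D.P z (vB D s B σ z) := by
  have hv : Wt (vB D s B σ z) := (wt_cut_nu h hd σ).post _ _ _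
  have e0 := (exp_pos (-(Br.sq z / (2 * D.P)))).ne'
  have e1 := kl_sc (vB D s B σ z) (ising D.J s.y) e0 one_ne_zero
  simp only [mul_one] at e1
  rw [xi, Hy, Eg, Dz_sc h hd, nu_sc h hd, mean_sc _ e0, Cnt_sc _ e0, Br.Dat.bv, U_eq hd,
    mean_congr_supp (f := U D (sc D s B σ z)) fun x hx => U_sc hd (vB_supp hd hx),
    mean_congr_supp (f := U6 D (sc D s B σ z)) fun x hx => U6_sc hd (vB_supp hd hx)]
  simp only [FF, mean_add, mean_const_mul, hv.mean_const]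
  rw [show kl _ (ising D.J (sc D s B σ z).y) = _ from e1]
  show _ = _ + θ * (X.B0 + kl _ (ising D.J y0) + _ + (_ + mean _ fun x => Br.sq (hB D s B x - _)))
  ring

theorem bdd (D : Dat n) (s : St n) (X : BX n B) : ∃ β, 0 ≤ β ∧ ∀ c : B → ℝ, Br.sq c ≤ X.R → ∀ x,
    |del s ⬝ᵥ sv x + s.Th x - log (D.f x) + c ⬝ᵥ X.φ x| ≤ β := by
  set F : Cube n → ℝ := fun x => |del s ⬝ᵥ sv x + s.Th x - log (D.f x)| + Br.sq (X.φ x) with hF
  refine ⟨‖F‖ + |X.R|, by positivity, fun c hc x => (abs_add_le _ _).trans ?_⟩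
  have h1 : F x ≤ ‖F‖ := (le_abs_self _).trans (norm_le_pi_norm F x)
  have h2 := sq_nn (c - X.φ x)
  have h3 := sq_nn (c + X.φ x)
  have h4 := sq_nn c
  have h5 := sq_nn (X.φ x)
  simp only [Br.sq, add_dotProduct, dotProduct_add, sub_dotProduct, dotProduct_sub,
    dotProduct_comm (X.φ x) c, hF] at *
  have h6 : |c ⬝ᵥ X.φ x| ≤ X.φ x ⬝ᵥ X.φ x + |X.R| :=
    abs_le.2 ⟨by linarith [le_abs_self X.R], by linarith [le_abs_self X.R]⟩
  linarith

end Bu83

open Bu83 in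
/-- **the seam** -/
theorem buGlue : BuGlue := fun hC _ hK P K1 => by
  obtain ⟨Mb, Mb1, hKb⟩ := hK P K1
  obtain ⟨M1, hM1⟩ : ∃ M1, M1 = 1 + 4 * |K1| * (28 + 16 * Mb) := ⟨_, rfl⟩
  obtain ⟨M2, hM2⟩ : ∃ M2, M2 = Mb * (1 + |P| + P ^ 2) + (1 + |P|) := ⟨_, rfl⟩
  have M11 : 1 ≤ M1 := by rw [hM1]; exact le_add_of_nonneg_right (by positivity)
  have M20 : 0 ≤ M2 := by rw [hM2]; positivity
  obtain ⟨Mk, hMk⟩ : ∃ Mk, Mk = M1 * M2 + M1 + |P| * Mb + 2 * |P| + 800 := ⟨_, rfl⟩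
  have q1 : 0 ≤ M1 * M2 := by positivity
  have q2 : 0 ≤ |P| * Mb := by positivity
  have q3 := abs_nonneg P
  refine ⟨Mk, by linarith, ?_⟩
  intro mg C0 c0 k η Ms CV M hA n J y0 p Ad φ a0 a' e ε CB CE CW C2 δ ec t K' lm l a lb ab gW gP CP
    CN ω K hS c00 k0 k1 Ms0 M0 e0 hMs hMe lm0 lm1 hl lb0 hlb ha hab ab1 CB0 CE0 CW0 C20 δ0 δk K'0 gW0
    gP0 hγ1 hγ2 hω hCP hCN hK' D s B ξ γ g1 T T' R h hJ hP hη hθ hcl hsz hy hd hBt hξ γ0 γ1 g10 hT hc
  subst hJ hP hη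
  obtain ⟨X, ok, hR, hB0, hw⟩ := hS D s B h rfl rfl rfl hcl hsz hy hd hBt
  obtain ⟨β, β0, hβ⟩ := bdd D s X
  have P1 := h.P1
  have P0 : 0 < D.P := one_pos.trans_le P1
  rw [abs_of_pos P0] at hM2 hMk q2
  have K10 := ok.K0
  rw [abs_of_pos K10] at hM1
  have b1 : 1 ≤ X.B0 := ok.b1
  have xa0 : 0 ≤ X.xa := ok.xa0
  have a00 : 0 ≤ a0 * (1 - 2 * D.η0) :=
    mul_nonneg (ok.mg0.le.trans ok.a0) (by linarith only [h.e1])
  have li := inv_pos.2 lm0
  have Mk0 : 0 ≤ Mk := by linarith only [hMk, q1, q2, P0, M11]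
  have lb1 : lb ≤ 1 := by
    linarith only [hlb, lm1, mul_nonneg lb0 k0.le, mul_nonneg lm0.le k0.le]
  have key := hA n B _ ok rfl rfl hMs hMe hR (lm⁻¹ * R) (lm⁻¹ * (gW * CW ^ 2 + (gP + Mk) * δ))
    (lm⁻¹ * (gP * C2)) (fun σ u => lm⁻¹ * xi D s B y0 (mkB D s y0 B a0 a' e ε X).xb ξ γ g1 (δ * M1)
      X.B0 (exp ((Dz D s - T') / 2)) (|R| + 2 * β) σ u) (by positivity)
    (by rw [mul_left_comm, inv_mul_le_iff₀ lm0]; exact hγ1) (by positivity)
    (by rw [inv_mul_le_iff₀ lm0]; exact hγ2)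
    (fun σ => (xg_xi y0 _ ξ _ h hd (exp_pos _).le (by positivity) σ).const_mul _) ?_
  · obtain ⟨-, -, -, A0, H0, Hy0, U0, -, -, Ex0, -, -, hS0, -⟩ := hC n D s h
    have s1 := sl_xi y0 (mkB D s y0 B a0 a' e ε X).xb ξ X.B0 (θ := δ * M1) h hd γ0 g10 (by positivity)
      (exp_pos ((Dz D s - T') / 2)).le (M := |R| + 2 * β) (by positivity)
    have s2 := (hKb n B _ mg C0 CV ok rfl 0 0 0 0 1 0 _ _ le_rfl P0.le zero_le_one le_rfl (.inl rfl)
      (by
        have := mul_nonneg M0 ((zero_le_one.trans b1).trans ok.bD)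
        simp only [Br.sq, zero_dotProduct]
        exact this.trans hR) (.inl rfl) (.refl (wt_wt (Br.Cv11.pr_W ok 0 0 0 0).hw _))).2.2
    rw [Br.Dat.bud, Br.Dat.bv, Br.Dat.vp, post_zero, nu_eq hd, U_eq hd, mean_add] at s2
    rw [slE_const_mul, nu_eq hd, pw_eq hd, l_eq hd] at key
    have s3 := dM_le (B := B) h hS0
    have s4 : (#B : ℝ) ≤ X.B0 := le_trans (Nat.cast_le.2 (card_le_card fun i hi => by
      simp only [mkB, compl_compl, mem_union]; exact .inr hi)) ok.bU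
    have s5 : exp ((Dz D s - T') / 2) * exp ((2 * D.P + 10) * #B * log (n + 2) / 2) ≤
        exp ((Dz D s - T) / 2) := by
      rw [← exp_add, exp_le_exp]
      have : 0 ≤ (#B : ℝ) * log (n + 2) := mul_nonneg (Nat.cast_nonneg _)
        (log_nonneg (by linarith only [(Nat.cast_nonneg n : (0 : ℝ) ≤ n)]))
      have h2 : 2 * D.P + 10 ≤ CP := by linarith only [hCP, hMk, mul_nonneg Mk0 CB0, q1, q2, M11]
      linarith only [mul_le_mul_of_nonneg_right h2 this, hT]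
    have s6 : M * exp (-X.Dh) ≤ M := mul_le_of_le_one_right M0
      (exp_le_one_iff.2 (by linarith only [b1, show X.B0 ≤ X.Dh from ok.bD]))
    have s7 : Hy D s + mean (nu D s) (U D s) ≤ Bb D s y0 := by
      have : 0 ≤ del s ⬝ᵥ del s := sq_nn _
      unfold Bb Bd
      linarith only [this, sq_nonneg s.L, sq_nonneg (nrm (s.y - y0)),
        (Nat.cast_nonneg #s.S : (0 : ℝ) ≤ _)]
    have s8 := (Br.Sm54.pr (C89.pr1 (s := s) h).hv (C89.is_pos D.J y0)).kl_nonneg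
    have s9 : 0 ≤ mean (nu D s) fun x => Br.sq (hB D s B x - (mkB D s y0 B a0 a' e ε X).xb) :=
      (C89.pr1 h).hv.mean_nonneg fun x => sq_nn _
    have k2 : -R ≤ lm * ((1 + k) * AA D s) - lm * (a0 * (1 - 2 * D.η0)) * HH D s -
        lm * c0 * (Br.sq (Br.dM (nu D s) (pi D s) (hB D s B)) +
          Br.sq (Br.dM (nu D s) (pi D s) (Br.sT (Subtype.val : B → Fin n)))) +
        lm * (del s ⬝ᵥ del s / c0 + Ms * e * X.B0 + M * exp (-X.Dh)) +
        slE (hB D s B) (nu D s) D.P fun x u => xi D s B y0 (mkB D s y0 B a0 a' e ε X).xb ξ γ g1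
          (δ * M1) X.B0 (exp ((Dz D s - T') / 2)) (|R| + 2 * β) (bB B x) u := by
      have := mul_le_mul_of_nonneg_left key lm0.le
      rw [mul_add lm, mul_neg, mul_inv_cancel_left₀ lm0.ne', mul_inv_cancel_left₀ lm0.ne'] at this
      refine this.trans (le_of_eq ?_)
      rw [AA, hθ, HH]
      show lm * ((1 + k) * (Ar (Ue.rw D.η0 (Ue.th a') D.f) _ _ + (1 - Ue.th a') / 2 *
        Ue.El (Ue.Lw D.η0 D.f) _ _) - a0 * _ * _ - c0 * (Br.sq (Br.dM _ _ (hB D s B)) +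
        Br.sq (Br.dM _ _ (Br.sT (Subtype.val : B → Fin n)))) + del s ⬝ᵥ del s / c0 + Ms * e * X.B0 +
        M * exp (-X.Dh)) + slE (hB D s B) _ _ (fun x u => xi _ _ _ _ _ _ _ _ _ _ _ _ (bB B x) u) = _
      ring
    generalize Br.sq (Br.dM (nu D s) (pi D s) (hB D s B)) +
      Br.sq (Br.dM (nu D s) (pi D s) (Br.sT (Subtype.val : B → Fin n))) = Q at s3 k2
    change X.B0 + kl (nu D s) (ising D.J y0) + Br.sq (0 - (0 : ℝ) • _) + (mean (nu D s) (U D s) +
      mean (nu D s) fun x => Br.sq (hB D s B x - (mkB D s y0 B a0 a' e ε X).xb)) ≤ Mb * X.B0 at s2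
    have z0 := sq_nn ((0 : B → ℝ) - (0 : ℝ) • (mkB D s y0 B a0 a' e ε X).xb)
    generalize (mean (nu D s) fun x => Br.sq (hB D s B x - (mkB D s y0 B a0 a' e ε X).xb)) = E
      at s1 s2 s9
    have d0 : 0 ≤ del s ⬝ᵥ del s / c0 := div_nonneg (sq_nn _) c00.le
    have t1 := mul_le_mul_of_nonneg_right hl A0
    have t2 := mul_le_mul_of_nonneg_right ha H0
    have t3 := mul_le_mul_of_nonneg_left s3 (by positivity : 0 ≤ lm * c0 / 19)
    have t4 := mul_le_of_le_one_left (a := lm) (b := del s ⬝ᵥ del s / c0 + Ms * e * X.B0 +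
      M * exp (-X.Dh)) (by positivity) lm1
    have t5 : E ≤ Mb * X.B0 := by linarith only [s2, z0, s8, U0, b1]
    have t6 : X.B0 + kl (nu D s) (ising D.J y0) + mean (nu D s) (U D s) + (1 + D.P) * #B +
        (1 + D.P + D.P ^ 2) * E ≤ M2 * X.B0 := by
      have u1 := mul_le_mul_of_nonneg_left t5 (by positivity : 0 ≤ D.P + D.P ^ 2)
      have u2 := mul_le_mul_of_nonneg_left s4 (by positivity : 0 ≤ 1 + D.P)
      rw [hM2]; linarith only [u1, u2, s2, z0]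
    have t7 := mul_le_mul_of_nonneg_left t6 (by positivity : 0 ≤ δ * M1)
    have B0' : 0 ≤ (#B : ℝ) := Nat.cast_nonneg _
    have Bb0 : 0 ≤ Bb D s y0 := by linarith only [s7, Hy0, U0]
    have t8 : δ * (M1 * M2) * X.B0 ≤ δ * Mk * X.B0 := by gcongr; linarith only [hMk, q2, P0, M11]
    have t9 : Bb D s y0 + 770 * #B + D.P / 2 * E ≤ Mk * (Bb D s y0 + #B) + Mk * X.B0 := by
      have u1 := mul_le_mul_of_nonneg_left t5 (by positivity : 0 ≤ D.P / 2)
      have u2 : D.P / 2 * Mb * X.B0 ≤ Mk * X.B0 := by gcongr; linarith only [hMk, q1, q2, P0, M11]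
      have u3 : 770 * (Bb D s y0 + #B) ≤ Mk * (Bb D s y0 + #B) := by
        gcongr; linarith only [hMk, q1, q2, P0, M11]
      linarith only [u1, u2, u3, Bb0]
    have t10 := mul_le_mul_of_nonneg_left t9 γ0
    have t11 := mul_le_mul_of_nonneg_left hB0 (by positivity : 0 ≤ Ms * e + Mk * δ + γ * Mk)
    have t12 := mul_le_mul_of_nonneg_right hω (by positivity : 0 ≤ Bb D s y0 + #B + K')
    have t13 := mul_le_mul_of_nonneg_right (mul_le_mul_of_nonneg_left hCP γ0)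
      (by positivity : 0 ≤ Bb D s y0 + #B + K')
    have t14 := mul_le_mul_of_nonneg_right hCN Ex0
    have t15 : γ * (Mk * CE * Ex D s) ≤ Mk * CE * Ex D s := mul_le_of_le_one_left (by positivity) γ1
    have t16 : γ * (CP * K') ≤ CP * K' := mul_le_of_le_one_left
      (mul_nonneg (le_trans (by positivity) hCP) K'0) γ1
    have t17 := mul_le_mul_of_nonneg_left s7 γ0
    have t18 : 0 ≤ γ * (Mk * K') := by positivity
    rw [one_div_mul_eq_div]
    linarith only [k2, s1, s5, s6, t1, t2, t3, t4, t7, t8, t10, t11, t12, t13, t14, t15, t16, t17, t18,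
      hK']
  · intro z c σ v w hcR hv hw'
    rw [vp_eq hd] at hv
    rw [W_eq h hd] at hw'
    have hW : Wt v := hv ▸ (wt_cut_nu h hd σ).post _ _ _
    rw [← hv] at hw'
    have pr : Pr v w := hw' ▸ (Pr.refl hW).wt _
    obtain ⟨w0, ad, pw0, gr⟩ := hw c hcR
    have h1 := hc _ _ w0 _ _ (old (D := D) (σ := σ) (z := z) hd) ad rfl
    obtain ⟨-, p1, p2, -, -, Hy0, U0, U60, Eg0, -⟩ := hC n D (sc D s B σ z) h
    have e0' := (exp_pos (-(Br.sq z / (2 * D.P)))).ne'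
    have en : nu D (sc D s B σ z) = _ := nu_sc h hd
    have el := loc_eq (y0 := y0) (a0 := a0) (a' := a') (e := e) (ε := ε) (X := X) (σ := σ) (z := z) h hd
    have ep := pi_eq (X := X) (σ := σ) (z := z) (c := c) h hd (φ w0)
    rw [← hv] at en ep
    rw [← hw'] at ep
    have r0 := Ue.rw_mem h.e0.le (by linarith only [h.e1]) h.t0 (by linarith only [h.t1, h.e0]) D.f
    have El0 := Ue.El_nonneg p1 p2 fun i x => (Ue.Lw_mem D.η0 D.f i x).1
    rw [en, el, El_sc _ _ e0'] at El0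
    have A0 := pr.Ar_nonneg fun i x => (r0 i x).1
    have θ1 : 0 ≤ (1 - D.θ) / 2 := by linarith only [h.t1, h.e0]
    have c0' := sq_nn c
    have nc : nrm c ^ 2 = Br.sq c := Eig.nrm_sq c
    have u1 := untilt pr (Ue.off_rw D.η0 D.θ D.f) r0 gr k0 k1
    have u2 : (δ * nrm c) ^ 2 / k ≤ δ * Br.sq c := by
      rw [mul_pow, nc, div_le_iff₀ k0]
      linarith only [mul_le_mul_of_nonneg_left δk (mul_nonneg δ0 c0')]
    have u3 := kl_wt_ge pr fun y => φ w0 y - c ⬝ᵥ X.φ y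
    have kb := (hKb n B _ mg C0 CV ok rfl D.P z c 0 1 0 w v P0.le le_rfl zero_le_one le_rfl (.inl rfl)
      hcR (.inr ⟨σ, by
        rw [hw', hv, ← W_eq (y0 := y0) (a0 := a0) (a' := a') (e := e) (ε := ε) h hd]
        simp only [Br.Dat.Wp, sub_self, zero_mul, wt_zero]⟩) pr).1
    have H0 := pr.kl_nonneg
    have v0 := (Br.Sm54.pr hW (C89.is_pos D.J y0)).kl_nonneg
    have bv1 : X.B0 + kl v (ising D.J y0) ≤ (mkB D s y0 B a0 a' e ε X).bv D.P z v := by
      rw [Br.Dat.bv, U_eq hd, add_assoc (_ + _)]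
      exact le_add_of_nonneg_right (add_nonneg (sq_nn _)
        (hW.mean_nonneg fun x => add_nonneg (C89.U_nn h x) (sq_nn _)))
    have kb' : kl w (ising D.J y0) ≤ Mb * ((mkB D s y0 B a0 a' e ε X).bv D.P z v + Br.sq c) := by
      refine le_trans ?_ (kb.trans (le_of_eq (by simp [Br.sq])))
      simp only [add_assoc]
      exact le_add_of_nonneg_right (add_nonneg H0 (add_nonneg (pr.hw.mean_nonneg fun x =>
        add_nonneg (sq_nn _) (sq_nn _)) (add_nonneg (hW.mean_nonneg fun x => sq_nn _)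
          (add_nonneg (sq_nn _) (sq_nn _)))))
    have u4 := ok.h1.sub_sq (C89.is_pos D.J y0) K10 (Xt.lip2_of_grad gr) hW.isP pr.hw.isP
    have hx := xi_eq (y0 := y0) (a0 := a0) (a' := a') (e := e) (ε := ε) (X := X) (σ := σ) (z := z)
      h hd ξ γ g1 (δ * M1) T' (|R| + 2 * β)
    rw [← hv] at hx
    generalize (mkB D s y0 B a0 a' e ε X).bv D.P z v = bv at bv1 kb' hx
    have u5 : mean v (fun y => φ w0 y - c ⬝ᵥ X.φ y) - mean w (fun y => φ w0 y - c ⬝ᵥ X.φ y) ≤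
        δ * M1 * (bv + Br.sq c) := by
      have w1 : 0 ≤ bv := by linarith only [bv1, b1, v0]
      refine (abs_le_of_sq_le_sq' (u4.trans ?_) (by positivity)).2
      have w2 : 16 * kl v (ising D.J y0) + 16 * kl w (ising D.J y0) + 12 ≤
          (28 + 16 * Mb) * (bv + Br.sq c) := by linarith only [kb', bv1, b1, v0, c0']
      have w3 : 4 * K1 * (28 + 16 * Mb) ≤ M1 ^ 2 := by
        nlinarith only [hM1, M11]
      calc _ ≤ K1 * (2 * (δ * nrm c)) ^ 2 * ((28 + 16 * Mb) * (bv + Br.sq c)) :=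
            mul_le_mul_of_nonneg_left w2 (by positivity)
        _ = 4 * K1 * (28 + 16 * Mb) * (δ ^ 2 * (Br.sq c * (bv + Br.sq c))) := by rw [← nc]; ring
        _ ≤ M1 ^ 2 * (δ ^ 2 * ((bv + Br.sq c) * (bv + Br.sq c))) := by
            gcongr; linarith only [w1]
        _ = _ := by ring
    have w1 : 0 ≤ bv := by linarith only [bv1, b1, v0]
    have ξ0 : 0 ≤ mean (nu D (sc D s B σ z)) ξ := p1.hv.mean_nonneg hξ
    have eA : AA D ((sc D s B σ z).tl (φ w0) 0 0 0) = Ar (Ue.rw D.η0 D.θ D.f) v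
        (wt w fun x => φ w0 x - c ⬝ᵥ X.φ x) + (1 - D.θ) / 2 * Ue.El (Ue.Lw D.η0 D.f) v
          (cut ((mkB D s y0 B a0 a' e ε X).lp D.P z) (mkB D s y0 B a0 a' e ε X).bT σ) := by
      rw [AA, ep, ← Ar_sc v _ e0', ← El_sc v _ e0', ← en, ← el]; rfl
    have eH : HH D ((sc D s B σ z).tl (φ w0) 0 0 0) = kl v (wt w fun x => φ w0 x - c ⬝ᵥ X.φ x) := by
      rw [HH, ep, ← kl_sc v _ e0' e0', ← en]; rfl
    have eB : (mkB D s y0 B a0 a' e ε X).AA v w (cut ((mkB D s y0 B a0 a' e ε X).lp D.P z)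
        (mkB D s y0 B a0 a' e ε X).bT σ) = Ar (Ue.rw D.η0 D.θ D.f) v w + (1 - D.θ) / 2 *
          Ue.El (Ue.Lw D.η0 D.f) v (cut ((mkB D s y0 B a0 a' e ε X).lp D.P z)
            (mkB D s y0 B a0 a' e ε X).bT σ) := by rw [hθ]; rfl
    rw [show s.pin B (sg s B σ) (xc D s B σ z) = sc D s B σ z from rfl, eA, eH, mul_pow, nc] at h1
    change -R ≤ _ - _ + γ * (Hy D (sc D s B σ z) + mean (nu D (sc D s B σ z)) (U D (sc D s B σ z)) +
      mean (nu D (sc D s B σ z)) (U6 D (sc D s B σ z))) + g1 * Eg D (sc D s B σ z) s.Th +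
      exp ((Dz D (sc D s B σ z) - T') / 2) + mean (nu D (sc D s B σ z)) ξ + _ + _ at h1
    have kw : kl v w ≤ 2 * β := hw' ▸ kl_wt_le hW (hβ c hcR)
    rw [eB, hx]
    generalize Ue.El _ v _ = El at El0 h1
    generalize Ar _ v w = A at A0 u1
    generalize Ar _ v (wt w _) = A' at u1 h1
    generalize kl v (wt w _) = H' at u3 h1
    generalize mean v _ - mean w _ = d at u3 u5
    have g0 := mul_nonneg γ0 (add_nonneg (add_nonneg Hy0 U0) U60)
    have g2 := mul_nonneg g10 (Eg0 s.Th)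
    generalize γ * _ = G at g0 h1
    generalize g1 * _ = G1 at g2 h1
    have y1 := mul_nonneg θ1 El0
    generalize (1 - D.θ) / 2 * El = F at y1 h1
    show _ ≤ (1 - k) * (A + F) - a0 * (1 - 2 * D.η0) * kl v w + _ + _ * (X.xa * _) + _
    have fin : -R ≤ lm * ((1 - k) * (A + F) - a0 * (1 - 2 * D.η0) * kl v w) +
        (gW * CW ^ 2 + (gP + Mk) * δ) * Br.sq c + gP * C2 * (X.xa * Br.sq c) +
        (mean (nu D (sc D s B σ z)) ξ + G + G1 +
          min (exp ((Dz D (sc D s B σ z) - T') / 2)) (|R| + 2 * β) + δ * M1 * bv) := by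
      have y2 := mul_le_mul_of_nonneg_right hab H0
      have y3 : 0 ≤ δ * M1 * bv := by positivity
      rcases le_total (exp ((Dz D (sc D s B σ z) - T') / 2)) (|R| + 2 * β) with hm | hm
      · have y4 := mul_le_mul_of_nonneg_left (u1.trans (add_le_add le_rfl u2)) lb0
        have y5 := mul_le_mul_of_nonneg_right hlb (add_nonneg A0 y1)
        have y6 := mul_le_of_le_one_left (mul_nonneg δ0 c0') lb1
        have ab0 : 0 ≤ ab := (mul_nonneg lm0.le a00).trans hab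
        have y7 := mul_le_mul_of_nonneg_left (show kl v w - δ * M1 * (bv + Br.sq c) ≤ H' by
          linarith only [u3, u5]) ab0
        have y8 := mul_le_of_le_one_left (by positivity : 0 ≤ δ * M1 * (bv + Br.sq c)) ab1
        have y9 := mul_le_mul_of_nonneg_left pw0 gP0
        have y10 : (M1 + 1) * (δ * Br.sq c) ≤ Mk * (δ * Br.sq c) := by
          gcongr; linarith only [hMk, q1, q2, P0]
        have y11 := mul_nonneg (mul_nonneg lb0 k0.le) y1
        rw [min_eq_left hm]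
        linarith only [h1, y2, y4, y5, y6, y7, y8, y9, y10, y11]
      · have y4 := mul_le_of_le_one_left H0 ab1
        have y5 : 0 ≤ lm * ((1 - k) * (A + F)) :=
          mul_nonneg lm0.le (mul_nonneg (sub_nonneg.2 k1) (add_nonneg A0 y1))
        have y6 : 0 ≤ (gW * CW ^ 2 + (gP + Mk) * δ) * Br.sq c := by positivity
        have y7 : 0 ≤ gP * C2 * (X.xa * Br.sq c) := by positivity
        rw [min_eq_right hm]
        linarith only [y2, y3, y4, y5, y6, y7, kw, ξ0, g0, g2, neg_le_abs R]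
    have := mul_le_mul_of_nonneg_left fin li.le
    rw [mul_add, mul_add, mul_add, inv_mul_cancel_left₀ lm0.ne'] at this
    linarith only [this]

/-- monotonicity in the gain and in the price of `del` -/
theorem BurstOK.mono {n : ℕ} {J : Mx n} {P η0 θ : ℝ} {y0 p : V n} {Ad : V n → ℝ → Prop}
    {φ : V n → Cube n → ℝ} {l a lb ab c0 c0' gW gP Λ Λ' CP CN ω ec t K : ℝ}
    (h : BurstOK J P η0 θ y0 p Ad φ l a lb ab c0 gW gP Λ CP CN ω ec t K) (hc : c0' ≤ c0)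
    (hΛ : Λ ≤ Λ') : BurstOK J P η0 θ y0 p Ad φ l a lb ab c0' gW gP Λ' CP CN ω ec t K := by
  intro D s B ξ γ g1 T T' R h1 h2 h3 h4 h5 h6 h7 h8 h9 h10 h11 h12 h13 h14 h15 h16
  have := h D s B ξ γ g1 T T' R h1 h2 h3 h4 h5 h6 h7 h8 h9 h10 h11 h12 h13 h14 h15 h16
  have a := mul_le_mul_of_nonneg_right hc (sum_nonneg fun k (_ : k ∈ B) =>
    add_nonneg (sq_nonneg (Del D s k)) (sq_nonneg ((J *ᵥ Del D s) k)))
  have b := mul_le_mul_of_nonneg_right hΛ (show 0 ≤ del s ⬝ᵥ del s from sq_nn _)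
  linarith only [this, a, b]

end Crest.Agent.T157.S1

end
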