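import Crest.Agent.T157.Cav_35

/-!
# Row 157, part B, block S1 (helper35): orthonormal modes by Gram–Schmidt with a cut
-/

set_option autoImplicit false
set_option linter.unusedVariables false
set_option linter.unusedSectionVars false

noncomputable section

namespace Crest.Agent.T157.Rip

open Real Matrix Finset
open Crest.Agent.T157.Eig

variable {σ ι : Type} [Fintype σ] [DecidableEq σ] [Fintype ι]

/-- orthonormal bounded combinations `v a`, `a < k`, of the `h b` -/
structure Gs (h : ι → σ → ℝ) (R : ℝ) (k : ℕ) (v : ℕ → σ → ℝ) (T : ℕ → ι → ℝ) : Prop where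
  on : ∀ a < k, ∀ b < k, v a ⬝ᵥ v b = if a = b then 1 else 0
  co : ∀ a < k, v a = ∑ b, T a b • h b
  bd : ∀ a < k, ∑ b, |T a b| ≤ R

variable {h : ι → σ → ℝ} {R : ℝ} {k : ℕ} {v : ℕ → σ → ℝ} {T : ℕ → ι → ℝ}

lemma Gs.nrm_v (g : Gs h R k v T) {a : ℕ} (ha : a < k) : nrm (v a) = 1 := by
  rw [nrm, g.on a ha a ha, if_pos rfl, sqrt_one]

lemma Gs.mono (g : Gs h R k v T) {R' : ℝ} (hR : R ≤ R') : Gs h R' k v T :=
  ⟨g.on, g.co, fun a ha => (g.bd a ha).trans hR⟩

lemma Gs.dot_sum (g : Gs h R k v T) (x : ℕ → ℝ) {a : ℕ} (ha : a < k) :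
    v a ⬝ᵥ ∑ c ∈ range k, x c • v c = x a := by
  rw [dotProduct_sum, sum_eq_single a (fun c hc hne => by
    rw [dotProduct_smul, g.on a ha c (mem_range.1 hc), if_neg hne.symm, smul_zero])
    (fun hn => absurd (mem_range.2 ha) hn), dotProduct_smul, g.on a ha a ha, if_pos rfl, smul_eq_mul,
    mul_one]

/-- a seminorm-type bound passes to the modes -/
lemma Gs.abs_le (g : Gs h R k v T) {w : σ → ℝ} {c : ℝ} (hc : 0 ≤ c) (hw : ∀ b, |w ⬝ᵥ h b| ≤ c)
    {a : ℕ} (ha : a < k) : |w ⬝ᵥ v a| ≤ R * c := by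
  rw [g.co a ha, dotProduct_sum]
  refine (abs_sum_le_sum_abs _ _).trans (le_trans (sum_le_sum fun b _ => ?_)
    ((sum_mul _ _ _).ge.trans (mul_le_mul_of_nonneg_right (g.bd a ha) hc)))
  rw [dotProduct_smul, smul_eq_mul, abs_mul]
  exact mul_le_mul_of_nonneg_left (hw b) (abs_nonneg _)

lemma Gs.sup (g : Gs h R k v T) {c : ℝ} (hc : 0 ≤ c) (hw : ∀ b i, |h b i| ≤ c) {a : ℕ} (ha : a < k)
    (i : σ) : |v a i| ≤ R * c := by
  simpa using g.abs_le (w := Pi.single i 1) hc (fun b => by simpa using hw b i) ha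

lemma Gs.op (g : Gs h R k v T) (x : ℕ → ℝ) :
    ∑ b, (∑ a ∈ range k, x a * T a b) ^ 2 ≤ k * R ^ 2 * ∑ a ∈ range k, x a ^ 2 := by
  refine (sum_le_sum fun b _ => sum_mul_sq_le_sq_mul_sq _ _ _).trans ?_
  rw [← mul_sum, mul_comm, sum_comm]
  refine mul_le_mul_of_nonneg_right ((sum_le_card_nsmul _ _ (R ^ 2) fun a ha => ?_).trans_eq
    (by rw [card_range, nsmul_eq_mul])) (sum_nonneg fun _ _ => sq_nonneg _)
  refine le_trans ?_ (pow_le_pow_left₀ (sum_nonneg fun _ _ => abs_nonneg _) (g.bd a (mem_range.1 ha)) 2)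
  simp only [← sq_abs (T a _)]
  exact sum_sq_le_sq_sum_of_nonneg fun _ _ => abs_nonneg _

/-- **Gram–Schmidt with a cut** -/
theorem gs {δ B : ℝ} (hδ : 0 < δ) (hB : 0 ≤ B) (N : ℕ) : ∃ R ≥ (1 : ℝ), ∀ (σ ι : Type) [Fintype σ]
    [DecidableEq σ] [Fintype ι] (h : ι → σ → ℝ) (s : Finset ι), #s ≤ N → (∀ b, nrm (h b) ≤ B) →
    ∃ k ≤ N, ∃ v T, Gs h R k v T ∧
      ∀ b ∈ s, ∀ w, |w ⬝ᵥ h b| ≤ δ * nrm w + B * ∑ a ∈ range k, |v a ⬝ᵥ w| := by
  classical
  induction N with
  | zero =>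
    exact ⟨1, le_rfl, fun σ ι _ _ _ h s hs _ => ⟨0, le_rfl, 0, 0, ⟨by simp, by simp, by simp⟩,
      by simp [card_eq_zero.1 (Nat.le_zero.1 hs)]⟩⟩
  | succ N ih =>
    obtain ⟨R, R1, ih⟩ := ih
    have q0 : 0 ≤ (1 + N * (B * R)) / δ := by positivity
    refine ⟨R + (1 + N * (B * R)) / δ, by linarith, fun σ ι _ _ _ h s hs hh => ?_⟩
    rcases s.eq_empty_or_nonempty with rfl | ⟨b0, hb0⟩
    · exact ⟨0, Nat.zero_le _, 0, 0, ⟨by simp, by simp, by simp⟩, by simp⟩
    obtain ⟨k, hk, v, T, g, H⟩ := ih σ ι h (s.erase b0) (by rw [card_erase_of_mem hb0]; omega) hh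
    obtain ⟨r, hr⟩ : ∃ r, r = h b0 - ∑ a ∈ range k, (v a ⬝ᵥ h b0) • v a := ⟨_, rfl⟩
    have cB : ∀ a < k, |v a ⬝ᵥ h b0| ≤ B := fun a ha =>
      (abs_dot_le _ _).trans (by rw [g.nrm_v ha, one_mul]; exact hh b0)
    have ro : ∀ a < k, v a ⬝ᵥ r = 0 := fun a ha => by
      rw [hr, dotProduct_sub, g.dot_sum _ ha, sub_self]
    have key : ∀ w, |w ⬝ᵥ h b0| ≤ |w ⬝ᵥ r| + B * ∑ a ∈ range k, |v a ⬝ᵥ w| := fun w => by
      rw [show h b0 = r + ∑ a ∈ range k, (v a ⬝ᵥ h b0) • v a by rw [hr]; abel, dotProduct_add,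
        dotProduct_sum, mul_sum]
      refine (abs_add_le _ _).trans (add_le_add le_rfl ((abs_sum_le_sum_abs _ _).trans
        (sum_le_sum fun a ha => ?_)))
      rw [dotProduct_smul, smul_eq_mul, abs_mul, dotProduct_comm w]
      exact mul_le_mul_of_nonneg_right (cB a (mem_range.1 ha)) (abs_nonneg _)
    rcases le_or_gt (nrm r) δ with h1 | h1
    · refine ⟨k, by omega, v, T, g.mono (by linarith), fun b hb w => ?_⟩
      rcases eq_or_ne b b0 with rfl | hne
      · have := (abs_dot_le w r).trans (mul_le_mul_of_nonneg_left h1 (nrm_nonneg w))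
        linarith [key w]
      · exact H b (mem_erase.2 ⟨hne, hb⟩) w
    have r0 : 0 < nrm r := hδ.trans h1
    have rB : nrm r ≤ B := by
      have e : r ⬝ᵥ r = r ⬝ᵥ h b0 := by
        nth_rewrite 2 [hr]
        rw [dotProduct_sub, dotProduct_sum, sum_eq_zero fun a ha => by
          rw [dotProduct_smul, dotProduct_comm r, ro a (mem_range.1 ha), smul_zero], sub_zero]
      have := (dot_le r (h b0)).trans (mul_le_mul_of_nonneg_left (hh b0) r0.le)
      rw [← e, ← nrm_mul_self] at this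
      exact le_of_mul_le_mul_left this r0
    have vo : ∀ a ∈ range k, Function.update v k ((nrm r)⁻¹ • r) a = v a := fun a ha =>
      Function.update_of_ne (mem_range.1 ha).ne _ _
    have lt : ∀ {a}, a < k + 1 → a = k ∨ a < k := fun ha => by omega
    refine ⟨k + 1, by omega, Function.update v k ((nrm r)⁻¹ • r), Function.update T k
      fun b => (nrm r)⁻¹ * ((if b = b0 then 1 else 0) - ∑ a ∈ range k, (v a ⬝ᵥ h b0) * T a b),
      ⟨fun a ha b hb => ?_, fun a ha => ?_, fun a ha => ?_⟩, fun b hb w => ?_⟩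
    · rcases lt ha with rfl | ha <;> rcases lt hb with hb | hb
      · rw [hb, Function.update_self, if_pos rfl, smul_dotProduct, dotProduct_smul, ← nrm_mul_self]
        simp only [smul_eq_mul]; field_simp
      · rw [Function.update_self, vo b (mem_range.2 hb), if_neg hb.ne', smul_dotProduct,
          dotProduct_comm, ro b hb, smul_zero]
      · rw [hb, Function.update_self, vo a (mem_range.2 ha), if_neg ha.ne, dotProduct_smul, ro a ha,
          smul_zero]
      · rw [vo a (mem_range.2 ha), vo b (mem_range.2 hb), g.on a ha b hb]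
    · rcases lt ha with rfl | ha
      · simp only [Function.update_self, mul_smul, ← smul_sum, sub_smul, sum_sub_distrib, ite_smul,
          one_smul, zero_smul, sum_ite_eq', mem_univ, if_true, sum_smul]
        rw [sum_comm, hr]
        congr 2
        exact sum_congr rfl fun c hc => by rw [g.co c (mem_range.1 hc), ← smul_sum]
      · rw [vo a (mem_range.2 ha), Function.update_of_ne ha.ne, g.co a ha]
    · rcases lt ha with rfl | ha
      · simp only [Function.update_self, abs_mul, ← mul_sum, abs_of_pos (inv_pos.2 r0)]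
        have e : ∑ b, |(if b = b0 then (1 : ℝ) else 0) - ∑ c ∈ range a, (v c ⬝ᵥ h b0) * T c b| ≤
            1 + N * (B * R) := by
          refine (sum_le_sum fun b _ => (abs_sub _ _).trans (add_le_add le_rfl
            (abs_sum_le_sum_abs _ _))).trans ?_
          rw [sum_add_distrib, sum_comm]
          refine add_le_add (by simp [apply_ite abs]) ((sum_le_card_nsmul _ _ (B * R)
            fun c hc => ?_).trans ?_)
          · simp only [abs_mul, ← mul_sum]
            exact mul_le_mul (cB c (mem_range.1 hc)) (g.bd c (mem_range.1 hc))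
              (sum_nonneg fun _ _ => abs_nonneg _) hB
          · rw [card_range, nsmul_eq_mul]
            exact mul_le_mul_of_nonneg_right (by exact_mod_cast hk) (by positivity)
        have := mul_le_mul (inv_anti₀ hδ h1.le) e (sum_nonneg fun _ _ => abs_nonneg _)
          (inv_pos.2 hδ).le
        rw [div_eq_inv_mul]
        linarith
      · rw [Function.update_of_ne ha.ne]
        linarith [g.bd a ha]
    · rw [sum_range_succ, sum_congr rfl fun a ha => by rw [vo a ha], Function.update_self, mul_add]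
      have w0 := mul_nonneg hδ.le (nrm_nonneg w)
      rcases eq_or_ne b b0 with rfl | hne
      · have : |w ⬝ᵥ r| ≤ B * |((nrm r)⁻¹ • r) ⬝ᵥ w| := by
          rw [smul_dotProduct, smul_eq_mul, abs_mul, abs_of_pos (inv_pos.2 r0), dotProduct_comm r,
            ← mul_assoc]
          exact le_mul_of_one_le_left (abs_nonneg _) ((le_mul_inv_iff₀ r0).2 (by linarith))
        linarith [key w]
      · linarith [H b (mem_erase.2 ⟨hne, hb⟩) w,
          mul_nonneg hB (abs_nonneg (((nrm r)⁻¹ • r) ⬝ᵥ w))]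

/-- the cavity vectors are orthogonal to the modes -/
lemma Cav.gs {J Wm : Matrix σ σ ℝ} {p q α : σ → ℝ} {x C C0 e ε m : ℝ} {Ft : Set (σ → ℝ)}
    (H : Cav J p q α x C C0 e ε m Ft Wm) (hx : 0 ≤ x) (hε : 0 ≤ ε) (hR : 1 ≤ R) (g : Gs h R k v T)
    (hF : ∀ b, h b ∈ Ft) : Cav J p q α x C C0 e (R * ε) m (Ft ∪ v '' Set.Iio k) Wm := by
  have H' := H.mono hx le_rfl le_rfl le_rfl (le_mul_of_one_le_left hε hR) le_rfl subset_rfl
  refine ⟨H'.nr, H'.en, H'.fl, H'.fj, H'.eq, fun c hc f hf => ?_, H'.jj, H'.je⟩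
  rcases hf with hf | ⟨a, ha, rfl⟩
  · exact H'.ty c hc f hf
  · rw [mul_assoc]
    exact g.abs_le (mul_nonneg hε (nrm_nonneg _)) (fun b => H.ty c hc _ (hF b)) ha

end Crest.Agent.T157.Rip

end
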