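import Crest.Agent.T157.S1Pin_33
import Crest.Agent.T157.Xtr_25

/-!
# Row 157, part B, block S1: the increments of the energy and of the excess (helper33)
-/

set_option autoImplicit false

noncomputable section

namespace Crest.Agent.T157.S1

open Real Matrix Finset Function
open Crest.Agent.T157.E Crest.Agent.T157.SL
open Crest.Agent.T157.Ta (kls)
open Crest.Agent.T157.Ue (Lw es)
open Crest.Agent.T157.Rec (grad)
open Crest.Agent.T157.Eig (nrm opn)
open Crest.Agent.T157.S3 (V Mx hf Dg TS)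
open Pin33

namespace Inc33

variable {n : ℕ} {D : Dat n} {s : St n} {x : Cube n}

/-- the site term of `AA` -/
def aa (D : Dat n) (s : St n) (i : Fin n) (x : Cube n) : ℝ :=
  Ue.rw D.η0 D.θ D.f i x * kls (nu D s) (pi D s) i x +
    (1 - D.θ) / 2 * (Lw D.η0 D.f i x * es (nu D s) (loc D s) i x)

lemma mean_aa : (mean (nu D s) fun x => ∑ i, aa D s i x) = AA D s := by
  simp only [aa, mean_sum, mean_add, mean_const_mul, sum_add_distrib, ← mul_sum]
  rfl

lemma Dg_nonneg (J : Mx n) (y : V n) (x : Cube n) (i : Fin n) : 0 ≤ Dg J y x i := by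
  rw [Dg, ← Ue.sq2_eq]; exact (Ue.sq2_pos _).le

/-- at a free site the conditional mean of `ν` is close to the one of the base point -/
lemma cm_nu_sub (hD : D.Ok) (hw : Wt (loc D s)) (hx : nu D s x ≠ 0) (y0 : V n) (i : Fin n) :
    0 ≤ aa D s i x ∧ (Ta.cm (nu D s) i x ^ 2 = 1 ∨
      (Ta.cm (nu D s) i x - tanh (hf D.J y0 x i)) ^ 2 ≤ 2 / D.η0 * aa D s i x + 8 * sh D s y0 x i) := by
  have e0 := hD.e0
  have e1 := hD.e1
  have t0 := hD.t0
  have t1 := hD.t1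
  rcases Ue.site_dict hw hD.fpos (v := nu D s) rfl (fun σ => del s ⬝ᵥ sv σ + s.Th σ) i hx with
    ⟨p, h, k, k1, -, -, k4, k5, k6, k7, -, -⟩ | ⟨k1, -, -, k4, b, k5, -, -⟩
  · have k1' : kls (nu D s) (pi D s) i x = _ := k1
    have k7' : Ta.cm (pi D s) i x = _ := k7
    have a1 := Ue.pinsker p k
    have a2 := Ue.sq_le_ee h k
    have a3 := Ue.klr_nonneg p k
    have a4 := Ue.ee_nonneg h k
    have key : ∀ u : ℝ, D.η0 * (tanh k - u) ^ 2 ≤ aa D s i x →
        (u - tanh (hf D.J y0 x i)) ^ 2 ≤ 4 * sh D s y0 x i →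
        (tanh k - tanh (hf D.J y0 x i)) ^ 2 ≤ 2 / D.η0 * aa D s i x + 8 * sh D s y0 x i :=
      fun u h1 h2 => by
        have h3 : (tanh k - u) ^ 2 ≤ 1 / D.η0 * aa D s i x := by
          rw [one_div, inv_mul_eq_div, le_div_iff₀ e0]; linarith
        have h4 : 2 / D.η0 * aa D s i x = 2 * (1 / D.η0 * aa D s i x) := by ring
        nlinarith [sq_nonneg (tanh k - u - (u - tanh (hf D.J y0 x i)))]
    by_cases hl : Ue.Ld D.η0 D.f i x
    · have ea : aa D s i x = D.θ * Hd.klr p k + (1 - D.θ) / 2 * Ue.ee h k := by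
        rw [aa, k1', k4, Ue.rw_of hl, Ue.Lw_of hl, one_mul]
      have b1 := mul_nonneg t0 a3
      have b2 : D.η0 * Ue.ee h k ≤ (1 - D.θ) / 2 * Ue.ee h k :=
        mul_le_mul_of_nonneg_right (by linarith) a4
      refine ⟨by rw [ea]; nlinarith, ?_⟩
      by_cases hi : i ∈ s.S
      · left; rw [cm_nu_pin hD (loc_of_nu hx) hi, sq, Rec.sv_mul_self]
      · right
        rw [k5]
        refine key (tanh h) ?_ (k6 ▸ c_loc hD (loc_of_nu hx) hi y0)
        rw [ea]; nlinarith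
    · have ea : aa D s i x = (1 - 2 * D.η0) * Hd.klr p k := by
        rw [aa, k1', k4, Ue.rw_of_not hl, Ue.Lw_of_not hl, zero_mul, mul_zero, add_zero]
      refine ⟨by rw [ea]; exact mul_nonneg (by linarith) a3, ?_⟩
      by_cases hi : i ∈ s.S
      · left; rw [cm_nu_pin hD (loc_of_nu hx) hi, sq, Rec.sv_mul_self]
      · right
        rw [k5]
        refine key (tanh p) ?_ (k7' ▸ c_pi hD (loc_of_nu hx) hi y0)
        rw [ea]; nlinarith [sq_nonneg (tanh k - tanh p)]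
  · have k1' : kls (nu D s) (pi D s) i x = _ := k1
    refine ⟨by rw [aa, k1', k4]; simp, .inl ?_⟩
    rw [k5, sq, spin_mul_self]

lemma pt {g o c t e A : ℝ} (hc : |c| ≤ 1) (ht : |t| ≤ 1) (ho : |o| ≤ e) (hA : 0 ≤ A)
    (h : c ^ 2 = 1 ∨ (c - t) ^ 2 ≤ A) :
    g ^ 2 * (1 - c ^ 2) ≤ 2 * (g - o) ^ 2 + 2 * ((1 - t ^ 2) * (o * o)) + 2 * e * o ^ 2 + 2 * e * A := by
  have he : 0 ≤ e := (abs_nonneg _).trans ho
  have c1 : c ^ 2 ≤ 1 := by rwa [← sq_abs, sq_le_one_iff₀ (abs_nonneg _)]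
  have t1 : t ^ 2 ≤ 1 := by rwa [← sq_abs, sq_le_one_iff₀ (abs_nonneg _)]
  have p1 := mul_nonneg (sub_nonneg.2 t1) (mul_self_nonneg o)
  have p2 := mul_nonneg he (sq_nonneg o)
  have p3 := mul_nonneg he hA
  rcases h with h | h
  · rw [h, sub_self, mul_zero]; nlinarith [sq_nonneg (g - o)]
  · have h1 : 1 - c ^ 2 ≤ 1 - t ^ 2 + 2 * |c - t| := by
      have : t ^ 2 - c ^ 2 = -(c - t) * (c + t) := by ring
      have h2 : -(c - t) * (c + t) ≤ |c - t| * |c + t| := by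
        rw [← abs_mul, neg_mul]; exact neg_le_abs _
      have h3 : |c + t| ≤ 2 := (abs_add_le _ _).trans (by linarith)
      nlinarith [abs_nonneg (c - t)]
    have h2 : g ^ 2 * (1 - c ^ 2) ≤ 2 * (g - o) ^ 2 + 2 * (o ^ 2 * (1 - c ^ 2)) := by
      have : g ^ 2 ≤ 2 * (g - o) ^ 2 + 2 * o ^ 2 := by nlinarith [sq_nonneg (g - 2 * o)]
      nlinarith [mul_le_mul_of_nonneg_right this (sub_nonneg.2 c1),
        mul_nonneg (sq_nonneg (g - o)) (sq_nonneg c)]
    have h3 := mul_le_mul_of_nonneg_left h1 (sq_nonneg o)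
    have h4 : o ^ 2 * (2 * |c - t|) ≤ e * o ^ 2 + e * A := by
      have h5 : |o| * (2 * |c - t|) ≤ o ^ 2 + A := by
        nlinarith [sq_nonneg (|o| - |c - t|), sq_abs o, sq_abs (c - t)]
      calc _ = |o| * (|o| * (2 * |c - t|)) := by rw [← mul_assoc |o|, ← sq, sq_abs]
        _ ≤ e * (o ^ 2 + A) := mul_le_mul ho h5 (by positivity) he
        _ = _ := by ring
    nlinarith

/-- the energy of `φ` through a small field `Ω` -/
theorem Eg_le (hD : D.Ok) {ec A : ℝ} (hc : Cl ec A s) (hw : Wt (loc D s)) (hv : Wt (nu D s))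
    (hH : 0 ≤ Hy D s) (y0 : V n) {φ G : Cube n → ℝ} {Ω : Cube n → V n} {e L : ℝ} (he : 0 ≤ e)
    (hs : ∀ x, ‖Ω x‖ ≤ e) (hL : ∀ x, nrm (Ω x) ≤ L) (hG : ∀ x, nrm (grad φ x - Ω x) ≤ G x) :
    Eg D s φ ≤ 2 * (mean (nu D s) fun x => G x ^ 2) +
      2 * (mean (nu D s) fun x => Dg D.J y0 x ⬝ᵥ (Ω x * Ω x)) +
      2 * e * (L ^ 2 + 2 / D.η0 * AA D s + 1296 * D.P ^ 2 * Bb D s y0) := by
  have e0 := hD.e0
  have h1 : Eg D s φ = mean (nu D s) fun x =>
      ∑ i, grad φ x i ^ 2 * (1 - Ta.cm (nu D s) i x ^ 2) := by rw [mean_sum]; rfl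
  have h2 := Ta.mean_mono_supp hv (f := fun x => ∑ i, grad φ x i ^ 2 * (1 - Ta.cm (nu D s) i x ^ 2))
    (g := fun x => 2 * G x ^ 2 + 2 * (Dg D.J y0 x ⬝ᵥ (Ω x * Ω x)) + 2 * e * (L ^ 2 +
      2 / D.η0 * ∑ i, aa D s i x + 8 * ∑ i, sh D s y0 x i)) fun x hx => by
    have a1 := sum_le_sum fun i (_ : i ∈ univ) => pt (g := grad φ x i) (o := Ω x i)
      (Ta.abs_cm_le hv.nn i x) (abs_tanh_lt_one (hf D.J y0 x i)).le
      ((norm_le_pi_norm (Ω x) i).trans (hs x))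
      (add_nonneg (mul_nonneg (by positivity) (cm_nu_sub hD hw hx y0 i).1)
        (mul_nonneg (by norm_num) (sh_nonneg y0 x i))) (cm_nu_sub hD hw hx y0 i).2
    have a2 : ∑ i, (grad φ x i - Ω x i) ^ 2 ≤ G x ^ 2 := by
      have := pow_le_pow_left₀ (Eig.nrm_nonneg _) (hG x) 2
      rw [Eig.nrm_sq] at this
      simpa only [sq (_ - _ : ℝ), dotProduct, Pi.sub_apply] using this
    have a3 : ∑ i, Ω x i ^ 2 ≤ L ^ 2 := by
      have := pow_le_pow_left₀ (Eig.nrm_nonneg _) (hL x) 2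
      rw [Eig.nrm_sq] at this
      simpa only [sq (Ω _ _), dotProduct] using this
    simp only [sum_add_distrib, ← mul_sum] at a1
    have a4 : Dg D.J y0 x ⬝ᵥ (Ω x * Ω x) =
      ∑ i, (1 - tanh (hf D.J y0 x i) ^ 2) * (Ω x i * Ω x i) := rfl
    have a5 := mul_le_mul_of_nonneg_left a3 he
    simp only [a4]
    linarith
  simp only [mean_add, mean_const_mul, hv.mean_const, mean_aa] at h2
  have h3 := mul_le_mul_of_nonneg_left (mean_sh_le hD hc hv hH y0) he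
  rw [h1]
  linarith

/-- second moments of two-sided Lipschitz functions -/
theorem sq_le {K0 κ0 : ℝ} (hκ : 0 < κ0) {J : Mx n} {y0 : V n} (hB : Bas J K0 κ0 y0)
    {v G : Cube n → ℝ} (hv : Wt v) {e : ℝ} (he : 0 ≤ e) (hG : TS e G) :
    (mean v fun x => G x ^ 2) ≤ 2 * (mean (ising J y0) fun x => G x ^ 2) +
      2 * ((|K0| + 8 / κ0) * e * (8 * kl v (ising J y0) + 3)) := by
  have hw : ∀ x, 0 < ising J y0 x := fun _ => exp_pos _
  have h1 := (Xt.h1_of_atd (Atd.ATd.mono hB hw (le_abs_self K0) le_rfl) hw (abs_nonneg _) hκ).cen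
    hw (by positivity) ((Xt.lip2_iff (sqrt_nonneg e)).2 fun x => by rw [sq_sqrt he]; exact hG x)
    hv.isP
  rw [sq_sqrt he] at h1
  have h2 := S3.Rg.mean_sq (Chain22.isP_prob' hw) G
  set m := Chain22.mean (prob (ising J y0)) G
  have h3 := hv.mean_mono (f := fun x => G x ^ 2) (g := fun x => 2 * (G x - m) ^ 2 + 2 * m ^ 2)
    fun x => by nlinarith [sq_nonneg (G x - 2 * m)]
  simp only [mean_add, mean_const_mul, hv.mean_const] at h3
  have h4 : (mean v fun x => (G x - m) ^ 2) ≤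
    (|K0| + 8 / κ0) * e * (8 * kl v (ising J y0) + 3) := h1
  have h5 : m ^ 2 ≤ mean (ising J y0) fun x => G x ^ 2 := h2
  linarith

lemma Bb_nonneg (hH : 0 ≤ Hy D s) (hU : 0 ≤ mean (nu D s) (U D s)) (y0 : V n) : 0 ≤ Bb D s y0 := by
  have := Eig.dot_self_nonneg (del s)
  unfold Bb Bd; positivity

/-- arithmetic of the large constant -/
lemma Mx'_facts {C P CN η ω e : ℝ} (hC : 1 ≤ C) (hP : 1 ≤ P) (hN : 1 ≤ CN) (h0 : 0 < η) (h1 : η ≤ 1)
    (w0 : 0 < ω) (w1 : ω ≤ 1) (he : 0 ≤ e) (h : Mx' C P CN 1 η ω ^ 2 * e ≤ 1) :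
    C ≤ Mx' C P CN 1 η ω ∧ e ≤ 1 ∧ e * C ≤ ω ∧ e * (C * CN ^ 2) ≤ ω ∧ e * (C * P ^ 2) ≤ ω ∧
      e * (C / η) ≤ ω := by
  set m := P * CN / (1 * η * ω) with hm
  have hηω : 0 < 1 * η * ω := by positivity
  have g : ∀ t, t * (1 * η * ω) ≤ P * CN → t ≤ m := fun t ht => (le_div_iff₀ hηω).2 ht
  have k0 : 1 * η * ω ≤ 1 := by nlinarith
  have pc : 1 ≤ P * CN := by nlinarith
  have m1 : 1 ≤ m := g 1 (by linarith)
  have mP : P ≤ m := g P (by nlinarith)
  have mN : CN ≤ m := g CN (by nlinarith)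
  have mη : 1 / η ≤ m := g _ (by
    have : 1 / η * (1 * η * ω) = ω := by field_simp
    linarith)
  have mω : 1 ≤ m * ω := by
    have := g (1 / ω) (by
      have : 1 / ω * (1 * η * ω) = η := by field_simp
      linarith)
    rwa [div_le_iff₀ w0] at this
  have m2 : m ≤ m ^ 2 := by nlinarith
  have hM : Mx' C P CN 1 η ω = C * m ^ 2 := rfl
  rw [hM] at h ⊢
  have M1 : m ≤ C * m ^ 2 := by nlinarith
  have key : e * (C * m ^ 2) ≤ ω := by
    have a : 0 ≤ e * (C * m ^ 2) := by positivity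
    have b : e * (C * m ^ 2) * m ≤ 1 := by nlinarith [mul_le_mul_of_nonneg_left M1 a]
    nlinarith [mul_le_mul_of_nonneg_left mω a]
  have f : ∀ t, t ≤ m ^ 2 → e * (C * t) ≤ ω := fun t ht =>
    (mul_le_mul_of_nonneg_left (mul_le_mul_of_nonneg_left ht (by linarith)) he).trans key
  have eC : e * C ≤ ω := by simpa using f 1 (by linarith)
  refine ⟨by nlinarith, by nlinarith, eC, f _ (by gcongr), f _ (by gcongr), ?_⟩
  rw [div_eq_mul_one_div]
  exact f _ (mη.trans m2)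

end Inc33

open Inc33 in
theorem incGlue (hCr : CrudeStmt) (hB1 : B1Stmt) : IncStmt := by
  intro K0 κ0 hκ
  obtain ⟨CB, hCB, hB⟩ := hB1 K0 κ0 hκ
  set K1 := |K0| + 8 / κ0 with hK1
  have K10 : 0 ≤ K1 := by positivity
  set C2 := 2 + 16 * K1 * CB + 6 * K1 with hC2
  have C20 : 0 ≤ 16 * K1 * CB := by positivity
  refine ⟨8 * C2 + 8 * CB + 20000, by linarith, ?_⟩
  intro n D s y0 p al q w a e e1 ec CN C0 K l ω φ W Ω G hD hc hBas hA hp he1 hec hN hC0 hK hl w0 w1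
    hM
  set C := 8 * C2 + 8 * CB + 20000 with hC
  obtain ⟨h1, h2, -, hAA, -, hH, hU, -, -, hEx, -⟩ := hCr n D s hD
  have hv := h1.hv
  have hb := Bb_nonneg hH hU y0
  have hkl := (hB n D s y0 ec ec hD hc hBas).1
  obtain ⟨m1, m2, m3, m4, m5, m6⟩ := Mx'_facts (e := e1) (show 1 ≤ C by linarith) hD.P1 hN hD.e0
    (by linarith [hD.e1]) w0 w1 he1 ((mul_le_mul_of_nonneg_left hec (sq_nonneg _)).trans hM)
  have l2 := sq_nonneg l
  have g1 : (mean (nu D s) fun x => G x ^ 2) ≤ C2 * (e1 * (Bb D s y0 + l ^ 2) + K) := by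
    have a1 := sq_le hκ hBas hv he1 hA.ts
    have a2 := hA.g2
    have a3 : K1 * e1 * (8 * kl (nu D s) (ising D.J y0) + 3) ≤
        K1 * e1 * (8 * (CB * Bb D s y0) + 3) := by gcongr
    have a4 : K1 * e1 ≤ K1 * K := by gcongr; linarith
    have a5 := mul_nonneg he1 hb
    have a6 := mul_nonneg he1 l2
    rw [hC2]
    nlinarith [mul_nonneg C20 a6, mul_nonneg C20 (zero_le_one.trans hK), mul_nonneg K10 a5,
      mul_nonneg K10 a6]
  have z : 0 ≤ e1 * (Bb D s y0 + l ^ 2) + K := by positivity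
  refine ⟨?_, g1.trans (mul_le_mul_of_nonneg_right (by linarith) z)⟩
  have g2 := Eg_le hD hc h2.hw hv hH y0 he1 (fun x => (hA.rg x).1) (fun x => (hA.rg x).2.2.1) hA.ex
  have g3 := hA.g _ hv
  have pw : 0 ≤ p ⬝ᵥ (w * w) := sum_nonneg fun i _ => mul_nonneg (hp i) (mul_self_nonneg _)
  have e0 := hD.e0
  have b1 : 2 * (C0 * (p ⬝ᵥ (w * w))) ≤ C * C0 * (p ⬝ᵥ (w * w)) := by
    rw [mul_assoc]; exact mul_le_mul_of_nonneg_right (by linarith) (mul_nonneg hC0 pw)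
  have b2 : (2 * C2 + 2) * K ≤ Mx' C D.P CN 1 D.η0 ω * (Ex D s + K) :=
    mul_le_mul (by linarith) (by linarith) (by linarith) (by linarith)
  have b3 : e1 * kl (nu D s) (ising D.J y0) ≤ e1 * (CB * Bb D s y0) := by gcongr
  have c1 : e1 * (2 * C2 + 2 * CB + 2) ≤ ω / 4 := by nlinarith
  have c2 : e1 * (2 * CN ^ 2) ≤ ω / 4 := by
    nlinarith [mul_nonneg he1 (sq_nonneg CN)]
  have c3 : e1 * (2592 * D.P ^ 2) ≤ ω / 4 := by
    nlinarith [mul_nonneg he1 (sq_nonneg D.P)]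
  have c4 : e1 * (4 / D.η0) ≤ ω := by
    refine le_trans ?_ m6; gcongr; linarith
  have d1 := mul_le_mul_of_nonneg_right c1 (add_nonneg hb l2)
  have d2 := mul_le_mul_of_nonneg_right c2 l2
  have d3 := mul_le_mul_of_nonneg_right c3 hb
  have d4 := mul_le_mul_of_nonneg_right c4 hAA
  have d5 : 2 * e1 * (2 / D.η0 * AA D s) = e1 * (4 / D.η0) * AA D s := by ring
  have d6 := mul_nonneg w0.le hb
  have d7 := mul_nonneg w0.le l2
  have d8 := mul_nonneg he1 hb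
  have d9 := mul_nonneg (mul_nonneg he1 l2) (zero_le_one.trans hCB)
  nlinarith

end Crest.Agent.T157.S1

end
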