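import Crest.Agent.T157.S1Def_97

/-!
# Row 157, part B, block S1 (helper97): `LinOK` with two tolerances

The equation of the pin correction is only `e`-accurate (accuracy of the ansatz), the tolerance `ε` of
the modes is much smaller.
-/

set_option autoImplicit false

noncomputable section

namespace Crest.Agent.T157.S1

open Real Matrix Finset
open Crest.Agent.T157.E Crest.Agent.T157.SL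
open Crest.Agent.T157.Eig (nrm opn)
open Crest.Agent.T157.S3 (V Mx)

variable {n : ℕ}

/-- `LinOK`, the last clause of `pin` with `e ^ 2` in place of `ε` -/
structure LinOK2 (J : Mx n) (P : ℝ) (y0 p a0 al q : V n) (k : ℕ) (v : ℕ → V n)
    (lq C0 C1 CP e η t ε : ℝ) : Prop where
  hp : ∀ i, 0 < p i ∧ p i ≤ 1
  hq : ∀ i, lq * p i ≤ q i ∧ q i ≤ 2 * p i
  ha : ∀ i, p i * |a0 i| ≤ C1 ∧ p i * |al i - a0 i| ≤ e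
  pos : ∀ (S : Finset (Fin n)) (Δ : V n), (∀ i ∈ S, Δ i = 0) →
    Δ ⬝ᵥ Δ ≤ C1 * ∑ i ∈ Sᶜ, zv J p a0 Δ i ^ 2 +
      C1 * ((mag (ising J y0) ⬝ᵥ Δ) ^ 2 / (mag (ising J y0) ⬝ᵥ mag (ising J y0)))
  on : ∀ a < k, ∀ b < k, v a ⬝ᵥ v b = if a = b then 1 else 0
  sup : ∀ u : V n, u ⬝ᵥ u ≤ t → ‖∑ a ∈ range k, (v a ⬝ᵥ u) • v a‖ ≤ η
  sp : ∀ S : Finset (Fin n), (#S : ℝ) ≤ t → ∑ a ∈ range k, ∑ i ∈ S, v a i ^ 2 ≤ ε / 4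
  pin : ∀ (S : Finset (Fin n)) (u : V n), (#S : ℝ) ≤ t → (∀ i ∈ S, u i = 0) → ‖u‖ ≤ 2 * η →
    u ⬝ᵥ u ≤ t → ∃ w : V n, ‖w‖ ≤ 3 * η ∧ nrm w ≤ CP * nrm u ∧ p ⬝ᵥ (w * w) ≤ C0 * (u ⬝ᵥ u) ∧
      ∑ a ∈ range k, (v a ⬝ᵥ (w - u)) ^ 2 ≤ ε / 4 * (u ⬝ᵥ u) ∧
      ∑ i ∈ Sᶜ, (Mq J P S al (q * w) - (al * (q * u) - J *ᵥ (q * u))) i ^ 2 ≤ e ^ 2 * (u ⬝ᵥ u)

/-- **T6** for `LinOK2` -/
def T6Stmt2 : Prop := ∃ C ≥ (1 : ℝ), ∀ (n : ℕ) (J : Mx n) (P : ℝ) (y0 p a0 al q : V n) (k : ℕ)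
  (v : ℕ → V n) (lq C0 C1 CP e η t t' ε τ : ℝ) (S : Finset (Fin n)) (Δ zs : V n),
  Jᵀ = J → opn J ≤ 3 → LinOK2 J P y0 p a0 al q k v lq C0 C1 CP e η t ε → 0 < lq → lq ≤ 1 → 0 ≤ C0 →
  1 ≤ C1 → 1 ≤ CP → 0 ≤ e → 0 < η → 0 ≤ ε → 0 < τ → τ ≤ 1 → (#S : ℝ) ≤ t → (∀ i ∈ S, Δ i = 0) →
  (zs = fun i => if i ∉ S ∧ |zv J p a0 Δ i| < η then zv J p a0 Δ i else 0) → zs ⬝ᵥ zs ≤ t →
  CP ^ 2 * t ≤ t' → ∃ w : V n, Adm k v η t' ε w (CP * τ * nrm zs) ∧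
    p ⬝ᵥ (w * w) ≤ C0 * τ ^ 2 * (zs ⬝ᵥ zs) ∧
    τ * (lq / 2 * (zs ⬝ᵥ zs) - Mod J y0 a0 q k v Δ / lq -
      C * C1 * (e + √ε) * (zs ⬝ᵥ zs + Δ ⬝ᵥ Δ)) ≤ (q * w) ⬝ᵥ Mq J P S al Δ

end Crest.Agent.T157.S1

end
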