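import Crest.Agent.T157.S1LocDef_60
import Crest.Agent.T157.KFl_25
import Crest.Agent.T157.S1PSc_71

/-!
# Row 157, block S1 (helper60): assembly of the local supply
-/

set_option autoImplicit false

noncomputable section

namespace Crest.Agent.T157.S1.SA

open Matrix Filter Finset MeasureTheory
open Crest.Agent.T157.Eig Crest.Agent.T157.E
open Crest.Agent.T157.S3 (V Mx)
open Crest.Agent.T157.S3.An90
open Crest.Agent.T157.S3.T60 (MO DO a0 alf)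
open Crest.Agent.T157.Pos (In TF Lv)
open Crest.Agent.T157.Tw (sech2 sech2_pos)
open Crest.Agent.T157.K (TY bf ty_iff ty_bf)
open Crest.Agent.T157.Kz (Vy Be Mu TokA)

/-- **one tilt** -/
theorem tokA_of (K0 κ0 : ℝ) (hκ : 0 < κ0) : ∃ Cb ≥ (1 : ℝ), ∀ (n : ℕ) (p : Par) (z : Cap) (J : Mx n)
    (m i : ℕ) (y0 pA al q w : V n) (u ei C C0 C' e e1 η K C1 K1 δ : ℝ) (E : V n → ℝ)
    (Tg T : Cube n → Mx n) (ψ : Cube n → V n) (k : ℕ) (d : Fin k → V n) (ι : Type) (f : ι → V n),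
    0 < n → opn J ≤ 3 → Bas J K0 κ0 y0 →
    Cp J y0 (p.ah m) C C0 C' e e1 η K E pA q (al * q) Tg ψ T → (∀ j, 0 ≤ pA j) → 0 ≤ C' → 0 ≤ e →
    e1 ≤ 1 → ‖w‖ ≤ η → nrm w ≤ u → u ^ 2 ≤ z.t' m → E w ≤ Ety e1 C1 K1 d w →
    (∀ j, |w ⬝ᵥ d j| ≤ δ * u) → (∀ b, |w ⬝ᵥ (√(n : ℝ))⁻¹ • f b| ≤ δ * u) → 0 ≤ C1 → 0 ≤ K1 →
    C1 * k * δ ^ 2 ≤ e1 → δ ^ 2 ≤ ei → Cb * (C' * (e + √e) + 3 * e1) ≤ p.ω m i ^ 4 →
    Cb * (3 * e1) ≤ ei → ei ≤ p.e1 (m + 1) i → C ≤ p.CN m i → 2 * C0 ≤ p.C0 →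
    Cb * (K1 + 1) ≤ z.K → K1 ≤ ei * z.K →
    TokA p z J m i y0 pA al q w u ei Tg f fun σ => w ⬝ᵥ ψ σ := by
  obtain ⟨Cb, b1, H⟩ := ansW K0 κ0 hκ
  refine ⟨Cb, b1, fun n p z J m i y0 pA al q w u ei C C0 C' e e1 η K C1 K1 δ E Tg T ψ k d ι f n0 hJ hB h
    hp c' e0 e11 hw hu ut hE hd hf c1 k1 d1 d2 a1 a2 a3 a4 a5 a6 a7 => ?_⟩
  obtain ⟨Ω, ⟨hr, hx, -⟩, -⟩ := h.ans.vg w hw
  have f0 := Rg.e0 hr
  have u0 := (nrm_nonneg w).trans hu
  have sq' : ∀ {t : ℝ}, |t| ≤ δ * u → t ^ 2 ≤ δ ^ 2 * u ^ 2 := fun ht => by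
    rw [← mul_pow, ← sq_abs]; exact pow_le_pow_left₀ (abs_nonneg _) ht 2
  have q0 := sq_nonneg u
  have hE' : E w ≤ 2 * e1 * u ^ 2 + K1 := by
    have s1 := sum_le_card_nsmul univ _ _ fun j _ => sq' (hd j)
    rw [card_univ, Fintype.card_fin, nsmul_eq_mul] at s1
    have := mul_le_mul_of_nonneg_left s1 c1
    have := mul_le_mul_of_nonneg_left ((nrm_le_iff u0).1 hu) f0
    have := mul_le_mul_of_nonneg_right d1 q0
    rw [Ety] at hE
    linarith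
  have g1 : 3 * e1 ≤ ei := (le_mul_of_one_le_left (by linarith) b1).trans a2
  have hE2 : E w ≤ ei * (u ^ 2 + z.K) := by nlinarith
  have c0 : 0 ≤ C := (opn_nonneg _).trans (h.ans.opψ default)
  obtain ⟨Ω', G, H⟩ := H n J y0 _ C (p.C0 / 2) C' e e1 η K E pA q al ψ T hJ hB
    (amono h.ans le_rfl (fun v => mul_le_mul_of_nonneg_right (by linarith) (sum_nonneg fun l _ => by
      rw [Pi.mul_apply, mul_left_comm]; exact mul_nonneg (hp _) (mul_self_nonneg _)))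
      le_rfl le_rfl le_rfl fun _ => le_rfl) c' e0 e11 w hw
  have H1 := H u (2 * e1) K1 (p.ω m i ^ 4) (p.e1 (m + 1) i) (p.CN m i) z.K hu hE' (by linarith) k1
    (by linarith) (by linarith) a4 a6
  rw [mul_div_cancel₀ _ two_ne_zero] at H1
  refine ⟨⟨_, _, _, H1⟩, u0, ut, hu, ⟨Ω, Rg.mono hr (by linarith)
    (mul_le_mul a4 hu (nrm_nonneg w) (c0.trans a4)), Exc.mono hx (by linarith) hE2 fun _ => le_rfl⟩,
    Exc.mono (h.lk w hw) (by linarith) hE2 fun _ => le_rfl, fun b => ?_⟩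
  have n1 : (0 : ℝ) < n := Nat.cast_pos.2 n0
  have := sq' (hf b)
  rw [dotProduct_smul, smul_eq_mul, mul_pow, inv_pow, Real.sq_sqrt n1.le, inv_mul_le_iff₀ n1] at this
  nlinarith [mul_le_mul_of_nonneg_right d2 (mul_nonneg n1.le q0)]

variable {β s : ℝ}

lemma mu_of (hβ : β ∈ Set.Ioo (0 : ℝ) 1) (hs : 0 ≤ s) {ψ : ℝ → ℝ} {M : ℝ} (hc : Continuous ψ)
    (he : ∀ x, ψ (-x) = ψ x) (hb : ∀ x, |ψ x| ≤ M) : Mu β s fun n J y k => ψ (bf β n J y k) :=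
  fun _ h => ty_iff.2 (Z.ap_ev0 ⟨hβ.1.le, hβ.2.le⟩ (ty_iff.1 (ty_bf hβ hs)) (ty_iff.1 h) hc he hb)

lemma ty_od (hβ : β ∈ Set.Ioo (0 : ℝ) 1) (hs : 0 ≤ s) {ψ : ℝ → ℝ} (hc : Continuous ψ)
    (hb : ∀ x, |ψ x| ≤ 1) : (TY β s fun n J y k => od ψ (bf β n J y k)) ∧
      Be fun n J y k => od ψ (bf β n J y k) := by
  have h1 : ∀ x, |od ψ x| ≤ 1 := fun x => by
    have h1 := abs_le.1 (hb x)
    have h2 := abs_le.1 (hb (-x))
    exact abs_le.2 ⟨by rw [od]; linarith, by rw [od]; linarith⟩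
  exact ⟨ty_iff.2 (Z.ap_od0 ⟨hβ.1.le, hβ.2.le⟩ (ty_iff.1 (ty_bf hβ hs))
    (show Continuous (od ψ) by unfold od; fun_prop) (fun x => by simp only [od, neg_neg]; ring) h1),
    1, fun _ _ _ _ => h1 _⟩

lemma ah_le60 {w : P2} (h : w.Ok) {m : ℕ} (hm : m < w.N) : 0 ≤ ah w m ∧ ah w m ≤ w.ab := by
  have d0 : 0 < 1 - 2 * w.η0 := by linarith [h.η01]
  have a0 : 0 < w.a := h.a00.trans h.a0a
  have k0 := h.κ0'
  refine ⟨by rw [ah]; positivity, (div_le_iff₀ d0).2 (le_trans (mul_le_mul_of_nonneg_left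
    (pow_le_pow_right₀ (by linarith) (by omega)) a0.le) h.ra)⟩

lemma small {f : ℝ → ℝ} (hf : Continuous f) (h0 : f 0 = 0) {a : ℝ} (ha : 0 < a) :
    ∀ᶠ x in nhdsWithin (0 : ℝ) (Set.Ioi 0), f x ≤ a :=
  ((hf.tendsto' 0 0 h0).eventually (eventually_le_nhds ha)).filter_mono nhdsWithin_le_nhds

lemma sizes (A : ℝ) {e : ℝ} (he : 0 < e) (hA : 0 ≤ A) :
    ∀ᶠ n : ℕ in atTop, 0 < n ∧ A * (Real.log n + 1) ≤ (n : ℝ) ^ e := by
  filter_upwards [Sc71.ev (2 * A) he, eventually_ge_atTop 1] with n h n1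
  have l1 := Sc71.one_le_log n1
  have n2 : (1 : ℝ) ≤ n := by exact_mod_cast n1
  have l2 : Real.log n ≤ Real.log (n + 2) := Real.log_le_log (by linarith) (by linarith)
  rw [Real.rpow_zero, one_mul] at h
  exact ⟨n1, by nlinarith⟩

set_option maxHeartbeats 1000000 in
/-- **the assembly** -/
theorem locGlue : LocGlue := by
  intro β hβ l l1 hA hB hL b0 ab a' h0 h1 h2 h3
  have a'0 : 0 ≤ a' := by linarith
  obtain ⟨K0, -, r, r0, κ0, κp, W0, hb⟩ := tf_ball hβ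
  have hBas : ∀ s ≥ (0 : ℝ), ∀ᶠ i in TF β s, Bas (i.J β) K0 κ0 i.y := fun s hs =>
    (hb s hs).mono fun i h => h.bas r0.le
  obtain ⟨C0, c0', C', c', HA⟩ := hA a' h3 K0 κ0 κp hBas
  obtain ⟨c0, c00, gP, gP0, Cu, Cu1, HB⟩ := hB K0 κ0 b0 ab a' C0 C' κp h0 h1 h2 h3 c0' c' hBas
    fun s q0 hq => (HA s q0 hq 0 le_rfl a'0).imp fun g h => ⟨h.1, fun e he =>
      let ⟨s0, ρ, Tg, d, _, t⟩ := h.2 e he
      ⟨s0, ρ, Tg, d, trivial, t⟩⟩
  obtain ⟨D0, C1, C11, HL⟩ := hL a' h3 a'0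
  obtain ⟨Cb, Cb1, HT⟩ := tokA_of K0 κ0 κp
  refine ⟨⟨K0, κ0, l / 6, max (max (2 * C0) D0) 1, C1, 0, c0, min gP 1, Cu⟩,
    ⟨κp, by show 0 < l / 6; linarith, by show l / 6 ≤ 1; linarith, le_max_right _ _, C11, le_rfl, c00,
      lt_min gP0 one_pos, min_le_right _ _, Cu1⟩,
    ⟨W0, fun s hs => ⟨r, r0, (hb s hs).mono fun x hx y hy => by simpa using (hx _ hy).1⟩⟩,
    fun w wk hw w1 w2 w3 => ?_⟩
  have v1 : w.lq = l / 6 := congrArg P1.lq hw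
  have v2 : w.C0 = max (max (2 * C0) D0) 1 := congrArg P1.C0 hw
  have v3 : w.C1 = C1 := congrArg P1.C1 hw
  obtain ⟨CP, CP1, gW, gW0, HB⟩ := HB w wk (congrArg P1.c0 hw).le
    ((congrArg P1.gP hw).le.trans (min_le_left _ _)) (congrArg P1.Cu hw).ge w1 w2 w3
  obtain ⟨DP, HL⟩ := HL w.P wk.P1
  obtain ⟨eT, eT0, HL⟩ := HL w.eL wk.eL0
  refine ⟨max CP DP, gW, le_max_of_le_left CP1, gW0, fun m m1 mN => ?_⟩
  have s0' : 0 ≤ m * w.τ := mul_nonneg (Nat.cast_nonneg m) wk.τ0.le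
  obtain ⟨q0, hq⟩ := Pos.exists_lv β s0'
  have ah0 := (ah_le60 wk mN).1
  have ah1 : ah w m ≤ a' := by linarith [(ah_le60 wk mN).2]
  obtain ⟨g, hg, HA⟩ := HA _ q0 hq _ ah0 ah1
  refine ⟨fun n J y k => sech2 (bf β n J y k),
    fun n J y k => a0 β (S3P.nu (m * w.τ + β ^ 2 * q0)) g (bf β n J y k), fun ω ω0 ω1 => ?_⟩
  obtain ⟨eB, eB0, HB⟩ := HB m mN m1 q0 hq g hg ω ω0
  have o4 : 0 < ω ^ 4 := by positivity
  obtain ⟨e, ⟨⟨⟨eB', eT'⟩, eω⟩, eC⟩, e0⟩ := ((((small continuous_id rfl eB0).and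
    (small continuous_id rfl eT0)).and (small continuous_id rfl o4)).and
    (small (f := fun e => Cb * (C' * (e + √e))) (by fun_prop) (by simp) (half_pos o4))).and
    self_mem_nhdsWithin |>.exists
  replace e0 : 0 < e := e0
  obtain ⟨s0, ρ, Tg, hd, ⟨T, hT, rT⟩, C, C1', HA⟩ := HA e e0
  obtain ⟨X, δB, δB0, HB⟩ := HB e e0 eB' s0 ρ hd C C1'
  have cs : Continuous sech2 := by
    unfold sech2; fun_prop (disch := intro x; positivity [Real.cosh_pos x])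
  have cq : Continuous (qf ρ) := by
    have := (hd.cb 0).1.continuous
    unfold qf; fun_prop
  have q0' : ∀ x, 0 ≤ qf ρ x := fun x =>
    (mul_nonneg (by linarith) (sech2_pos x).le).trans (qf_mem hd x).1
  refine ⟨max C X, fun n J y k => qf ρ (bf β n J y k), T, mu_of (M := 2) hβ s0' cq (qf_neg hd)
    fun x => by rw [abs_of_nonneg (q0' x)]; linarith [(qf_mem hd x).2, sech2_le x],
    mu_of (M := 8) (ψ := fun x => a0 β (S3P.nu (m * w.τ + β ^ 2 * q0)) g x * qf ρ x) hβ s0'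
      (((continuous_const.div hg.cont fun x => (hg.pos x).ne').add continuous_const).mul cq)
      (fun x => by rw [a0, a0, hg.even, qf_neg hd]) fun x => by
        rw [abs_of_nonneg (mul_nonneg (hg.a0 x).1.le (q0' x))]
        linarith [mul_le_mul_of_nonneg_left (qf_mem hd x).2 (hg.a0 x).1.le, (hg.a0 x).2],
    hT, fun ei ei0 ι _ f hf => ?_⟩
  obtain ⟨e1, ⟨⟨⟨f1, f2⟩, f3⟩, f4⟩, f0⟩ := ((((small continuous_id rfl δB0).and
    (small continuous_id rfl one_pos)).and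
    (small (f := fun e => Cb * (3 * e)) (by fun_prop) (by simp) ei0)).and
    (small (f := fun e => Cb * (3 * e)) (by fun_prop) (by simp) (half_pos o4))).and
    self_mem_nhdsWithin |>.exists
  obtain ⟨η, η0, k, d, A, hd', A0, HA⟩ := HA e1 f0
  obtain ⟨δ, ⟨δ1, δ2⟩, δ0⟩ := ((small (f := fun x => A * k * x ^ 2) (by fun_prop) (by simp) f0).and
    (small (f := fun x => x ^ 2) (by fun_prop) (by simp) ei0)).and self_mem_nhdsWithin |>.exists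
  set ev := Fintype.equivFin (Fin k ⊕ ι)
  set h : Fin k ⊕ ι → Vy := Sum.elim (fun j n J y l => od (d j) (bf β n J y l)) f with hh
  have th : ∀ b, TY β (m * w.τ) (h b) ∧ Be (h b) := by
    rintro (j | b)
    exacts [ty_od hβ s0' (hd' j).1 (hd' j).2, hf b]
  obtain ⟨ε, R, ε0, ε1, HL⟩ := HL _ q0 hq _ ah0 ah1 g hg e s0 ρ eT' hd _ (fun b => h (ev.symm b))
    (fun b => th _) δ δ0
  refine ⟨η / 3, by positivity, _, fun b => h (ev.symm b), R, fun b => (th _).1,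
    fun p i hp hei c e' c0 c1 e'0 => ?_⟩
  obtain ⟨pk, rfl, hP, hW, -, rfl, hC, hη⟩ := hp
  have cm : 0 < c / 16 ^ m / 2 := by positivity
  filter_upwards [HA, HB e1 f0 f1 η η0 k d A hd' A0 ι f hf δ δ0 p i pk rfl
    (hP ▸ le_max_left _ _) hW.le le_rfl ((le_max_right _ _).trans hC) c e' c0 c1 e'0,
    HL _ (pk.h0 (p.bt (m + 1) i)) (1 - c / 16 ^ m / 2) (by linarith) p.C0
      (v2 ▸ le_max_of_le_left (le_max_right _ _)) p.CP (hP ▸ le_max_right _ _),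
    hBas _ s0', Pos.TF.opn ⟨hβ.1, hβ.2.le⟩, Pos.TF.lim.eventually
      (sizes (Cb * (A + 1) + A / ei) e'0 (by positivity))]
    with x hA hB ⟨k', v, l1, l2, l3⟩ hb hJ ⟨n0, hn⟩
  obtain ⟨ψ, T', hc⟩ := hA.all
  have l0 : 0 ≤ Real.log x.n := Real.log_natCast_nonneg _
  have key : ∀ (w : V x.n) (u : ℝ) (E : V x.n → ℝ) ψ T' (d : Fin k → V x.n),
      Cp (x.J β) x.y (p.ah m) C C0 C' e e1 η (Real.log x.n) E (fun l => sech2 (x.b β l) + e)
        (fun l => qf ρ (x.b β l)) (fun l => alf s0 (p.ah m) ρ (x.b β l) * qf ρ (x.b β l)) (Tg x) ψ T' →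
      E w ≤ Ety e1 A (A * Real.log x.n) d w →
      AdS η δ ((capOf p c e' x.n).t' m) d (fun b => wv β (f b) x) w u →
      TokA p (capOf p c e' x.n) (x.J β) m i x.y (fun l => sech2 (x.b β l) + e)
        (fun l => alf s0 (p.ah m) ρ (x.b β l)) (fun l => qf ρ (x.b β l)) w u ei
        (T x.n (x.J β) x.y) (fun b => f b x.n (x.J β) x.y) fun σ => w ⬝ᵥ ψ σ :=
    fun w u E ψ T' d hc hE ⟨a1, a2, a3, a4, a5⟩ => by
      have b1 : 0 ≤ A / ei * (Real.log x.n + 1) := by positivity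
      have b2 : 0 ≤ Cb * (A + 1) * (Real.log x.n + 1) := by positivity
      refine rT x ▸ HT _ p _ _ m i _ _ _ _ w u ei C C0 C' e e1 η _ A _ δ E _ T' ψ k d ι _ n0 hJ hb hc
        (fun j => by positivity [sech2_pos (x.b β j)]) c' e0.le f2 a1 a2 a3 hE a4 a5 A0
        (by positivity) δ1 δ2 (by linarith) f3 hei ((le_max_left _ _).trans hC)
        (v2 ▸ le_max_of_le_left (le_max_left _ _)) ?_ ?_
      · refine le_trans ?_ (show Cb * (A + 1) * (Real.log x.n + 1) ≤ (x.n : ℝ) ^ e' by linarith)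
        rw [mul_assoc]
        exact mul_le_mul_of_nonneg_left (by nlinarith) (by linarith)
      · refine le_trans ?_ (mul_le_mul_of_nonneg_left
          (show A / ei * (Real.log x.n + 1) ≤ (x.n : ℝ) ^ e' by linarith) ei0.le)
        rw [← mul_assoc, mul_div_cancel₀ _ ei0.ne']
        linarith
  refine ⟨fun l => sech2 (x.b β l) + e, fun l => alf s0 (p.ah m) ρ (x.b β l), k', v, ε, _,
    fun v σ => v ⬝ᵥ ψ σ, ε0, ε1, fun j => ⟨by positivity [sech2_pos (x.b β j)],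
      add_le_add le_rfl eω⟩, by rw [v1, v3]; exact l1, fun w u hw => ?_,
    fun w u hw => key w u _ ψ T' _ hc le_rfl hw, hB ψ T' hc.ans, l2⟩
  obtain ⟨E, ψ', T'', h1, h2⟩ := hA.odd w
  refine ⟨_, key w u E ψ' T'' _ h1 h2 ⟨hw.1.trans (by linarith), hw.2.1, hw.2.2.1, fun j => ?_,
    fun b => ?_⟩⟩
  · have := l3 _ w u hw (ev (.inl j))
    rw [Equiv.symm_apply_apply] at this
    exact this
  · have := l3 _ w u hw (ev (.inr b))
    rw [Equiv.symm_apply_apply] at this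
    exact this

end Crest.Agent.T157.S1.SA

end
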