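import Crest.Agent.T157.S1Pn_35
import Crest.Agent.T157.S1Gs_35

/-!
# Row 157, part B, block S1 (helper35): `LinOK2` from the cavity vectors and bounded generators
-/

set_option autoImplicit false
set_option linter.unusedVariables false
set_option maxHeartbeats 1600000

noncomputable section

namespace Crest.Agent.T157.S1

open Real Matrix Finset
open Crest.Agent.T157.E Crest.Agent.T157.SL
open Crest.Agent.T157.Eig
open Crest.Agent.T157.S3 (V Mx)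
open Crest.Agent.T157.Rip

variable {n : ℕ}

/-- the modes `v a`, `a < k`, of the generators `f b`: the data of `Md.LinStmt`, and orthogonality -/
structure Gen {ι : Type} [Fintype ι] (f : ι → V n) (R δ B : ℝ) (k : ℕ) (v : ℕ → V n)
    (T : ℕ → ι → ℝ) : Prop where
  on : ∀ a < k, ∀ b < k, v a ⬝ᵥ v b = if a = b then 1 else 0
  co : ∀ a < k, v a = (√(n : ℝ))⁻¹ • ∑ b, T a b • f b
  op : ∀ x : ℕ → ℝ, ∑ b, (∑ a ∈ range k, x a * T a b) ^ 2 ≤ R ^ 2 * ∑ a ∈ range k, x a ^ 2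
  ort : ∀ η t ε w l, 0 ≤ ε → Adm k v η t ε w l → ∀ b,
    |w ⬝ᵥ (√(n : ℝ))⁻¹ • f b| ≤ (δ + B * √ε) * l

lemma Md35.ar {k N R B : ℝ} (k0 : 0 ≤ k) (kN : k ≤ N) (R0 : 0 ≤ R) (hB : 0 ≤ B) :
    k * (R * B) ≤ 2 * (N + 1) * (B + 1) * R / 2 ∧ (k + 1) * R ≤ 2 * (N + 1) * (B + 1) * R / 2 := by
  have N0 := k0.trans kN
  constructor <;> linarith [mul_le_mul_of_nonneg_right kN (mul_nonneg R0 hB),
    mul_le_mul_of_nonneg_right kN R0, mul_nonneg N0 R0, mul_nonneg R0 hB,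
    mul_nonneg N0 (mul_nonneg R0 hB)]

lemma Md35.al {p q al a0 C e : ℝ} (hp : 0 < p) (q0 : 0 ≤ q) (hq : q ≤ 2 * p) (h1 : p * |a0| ≤ C)
    (h2 : p * |al - a0| ≤ e) : |al * q| ≤ 2 * (C + e) := by
  have a1 : |al| ≤ |a0| + |al - a0| := by simpa using abs_add_le a0 (al - a0)
  rw [abs_mul, abs_of_nonneg q0]
  linarith [mul_le_mul_of_nonneg_left hq (abs_nonneg al), mul_le_mul_of_nonneg_left a1 hp.le]

/-- **`LinOK2`** -/
theorem linOK2_of {δ B : ℝ} (hδ : 0 < δ) (hB : 0 ≤ B) (N : ℕ) : ∃ R ≥ (1 : ℝ), ∀ (n : ℕ) (ι : Type)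
    [Fintype ι] (f : ι → V n) (J Wm : Mx n) (y0 p a0 al q : V n) (Ft : Set (V n))
    (P x lq C0 C1 CP Cw Cp ew εw m e η t ε : ℝ), Fintype.card ι ≤ N → 0 < n →
    (∀ b i, |f b i| ≤ B) → (∀ b, (√(n : ℝ))⁻¹ • f b ∈ Ft) → (∀ i, 0 < p i ∧ p i ≤ 1) →
    (∀ i, lq * p i ≤ q i ∧ q i ≤ 2 * p i) → (∀ i, p i * |a0 i| ≤ C1 ∧ p i * |al i - a0 i| ≤ e) →
    (∀ (S : Finset (Fin n)) (Δ : V n), (∀ i ∈ S, Δ i = 0) →
      Δ ⬝ᵥ Δ ≤ C1 * ∑ i ∈ Sᶜ, zv J p a0 Δ i ^ 2 +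
        C1 * ((mag (ising J y0) ⬝ᵥ Δ) ^ 2 / (mag (ising J y0) ⬝ᵥ mag (ising J y0)))) →
    Cav J p q (al * q) x Cw Cp ew εw m Ft Wm → Jᵀ = J → opn J ≤ 3 → 0 ≤ lq → 1 ≤ P → 0 ≤ x →
    0 ≤ Cw → 0 ≤ Cp → 0 ≤ ew → 0 ≤ εw → 0 < η → 1 + 6 * P * (Cw + 1) ≤ CP →
    111 + 12 * (Cp + 1) ^ 2 ≤ C0 → R * εw * P ≤ 1 → (24 * P * (R * εw)) ^ 2 ≤ ε →
    6 * P * (ew + (2 * (C1 + e) + 6 + 21 * P) * (R * εw)) ≤ e → 0 ≤ t → t ≤ m →
    36 * P ^ 2 * Cw ^ 2 * t ≤ m * η ^ 2 → R ^ 2 * t ≤ η ^ 2 * n → R ^ 2 * t ≤ ε * n →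
    ∃ k ≤ N, ∃ v T, LinOK2 J P y0 p a0 al q k v lq C0 C1 CP e η t ε ∧ Gen f R δ (N * B) k v T := by
  obtain ⟨R, R1, H⟩ := gs hδ hB N
  have N0 : (0 : ℝ) ≤ N := Nat.cast_nonneg _
  have RR : R ≤ 2 * (N + 1) * (B + 1) * R := by
    refine le_mul_of_one_le_left (by linarith) ?_
    linarith [mul_nonneg N0 hB]
  refine ⟨2 * (N + 1) * (B + 1) * R, R1.trans RR, fun n ι _ f J Wm y0 p a0 al q Ft P x lq C0 C1 CP Cw Cp
    ew εw m e η t ε hι hn hf hF Ap Aq Aa Ao h hJ hO hlq hP hx hCw hCp hew hε hη hCP hC0 h1 h2 h3 t0 h4 h5 h6 h7 => ?_⟩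
  generalize hR' : 2 * (N + 1) * (B + 1) * R = R' at *
  have n0 : (0 : ℝ) < n := Nat.cast_pos.2 hn
  have s0 : 0 < √(n : ℝ) := sqrt_pos.2 n0
  have hs : ∀ b i, |((√(n : ℝ))⁻¹ • f b) i| ≤ B / √n := fun b i => by
    rw [Pi.smul_apply, smul_eq_mul, abs_mul, abs_of_pos (inv_pos.2 s0), div_eq_inv_mul]
    exact mul_le_mul_of_nonneg_left (hf b i) (inv_pos.2 s0).le
  obtain ⟨k, hk, v, T, g, ho⟩ := H (Fin n) ι (fun b => (√(n : ℝ))⁻¹ • f b) univ hι fun b => by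
    rw [nrm_le_iff hB, dotProduct]
    refine (sum_le_card_nsmul _ _ ((B / √n) ^ 2) fun i _ => ?_).trans_eq ?_
    · rw [← sq, ← sq_abs]; exact pow_le_pow_left₀ (abs_nonneg _) (hs b i) 2
    · rw [card_univ, Fintype.card_fin, nsmul_eq_mul, div_pow, sq_sqrt n0.le]; field_simp
  have kN : (k : ℝ) ≤ N := Nat.cast_le.2 hk
  have k0 : (0 : ℝ) ≤ k := Nat.cast_nonneg _
  have R0 : 0 ≤ R := by linarith
  have kR : k * (R * B) ≤ R' / 2 ∧ (k + 1) * R ≤ R' / 2 := hR' ▸ Md35.ar k0 kN R0 hB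
  have kk : (k : ℝ) ≤ k ^ 2 := by exact_mod_cast Nat.le_self_pow two_ne_zero k
  have vs := fun a ha => g.sup (by positivity) hs (a := a) ha
  have hq0 : ∀ i, 0 ≤ q i ∧ q i ≤ 2 * p i := fun i =>
    ⟨(mul_nonneg hlq (Ap i).1.le).trans (Aq i).1, (Aq i).2⟩
  have hα : ∀ i, |al i * q i| ≤ 2 * (C1 + e) := fun i =>
    Md35.al (Ap i).1 (hq0 i).1 (hq0 i).2 (Aa i).1 (Aa i).2
  have Ce : 0 ≤ 2 * (C1 + e) := (abs_nonneg _).trans (hα ⟨0, hn⟩)
  have Rε : R * εw ≤ R' * εw := mul_le_mul_of_nonneg_right RR hε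
  have Rε0 : 0 ≤ R * εw := mul_nonneg R0 hε
  refine ⟨k, hk, v, T, ⟨Ap, Aq, Aa, Ao, g.on, fun u hu => ?_, fun S hS => ?_,
    fun S u hS _ hu hut => ?_⟩, g.on, fun a ha => ?_, fun z => (g.op z).trans ?_,
    fun η t ε w l hε hA b => (ho b (mem_univ _) w).trans ?_⟩
  · have b1 : ‖∑ a ∈ range k, (v a ⬝ᵥ u) • v a‖ ≤ k * (nrm u * (R * (B / √n))) := by
      refine (norm_sum_le _ _).trans ((sum_le_card_nsmul _ _ _ fun a ha => ?_).trans_eq
        (by rw [card_range, nsmul_eq_mul]))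
      rw [norm_smul]
      exact mul_le_mul ((abs_dot_le _ _).trans_eq (by rw [g.nrm_v (mem_range.1 ha), one_mul]))
        ((pi_norm_le_iff_of_nonneg (by positivity)).2 (vs a (mem_range.1 ha))) (norm_nonneg _)
        (nrm_nonneg _)
    have b2 : R' * nrm u ≤ η * √n := by
      refine abs_le_of_sq_le_sq' ?_ (by positivity) |>.2
      rw [mul_pow, mul_pow, nrm_sq, sq_sqrt n0.le]
      exact (mul_le_mul_of_nonneg_left hu (sq_nonneg _)).trans h6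
    refine b1.trans ?_
    rw [show k * (nrm u * (R * (B / √n))) = k * (R * B) * nrm u / √n by ring, div_le_iff₀ s0]
    linarith [mul_le_mul_of_nonneg_right kR.1 (nrm_nonneg u), mul_nonneg hη.le s0.le]
  · refine (sum_le_card_nsmul _ _ (t * (R * (B / √n)) ^ 2) fun a ha => ?_).trans ?_
    · refine (sum_le_card_nsmul _ _ ((R * (B / √n)) ^ 2) fun i _ => ?_).trans ?_
      · rw [← sq_abs]; exact pow_le_pow_left₀ (abs_nonneg _) (vs a (mem_range.1 ha) i) 2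
      · rw [nsmul_eq_mul]; exact mul_le_mul_of_nonneg_right hS (sq_nonneg _)
    · rw [card_range, nsmul_eq_mul, mul_pow, div_pow, sq_sqrt n0.le,
        show k * (t * (R ^ 2 * (B ^ 2 / n))) = k * (R * B) ^ 2 * t / n by ring, div_le_iff₀ n0]
      have b1 := pow_le_pow_left₀ (by positivity) kR.1 2
      have b2 := mul_le_mul_of_nonneg_right kk (sq_nonneg (R * B))
      have b3 : k * (R * B) ^ 2 ≤ R' ^ 2 / 4 := by linarith [mul_pow (k : ℝ) (R * B) 2]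
      linarith [mul_le_mul_of_nonneg_right b3 t0]
  · obtain ⟨w, w1, w2, w3, w4⟩ := pin_of_cav (k := k) (v := v) (h.gs hx hε R1 g hF) hJ hO Ap hq0 hα
      (fun a ha => ⟨.inr ⟨a, ha, rfl⟩, (g.nrm_v ha).le⟩) hP hx hCw hCp hew Rε0 Ce hη
      ((mul_le_mul_of_nonneg_right Rε (by linarith)).trans h1) h4 h5 (ε := ε) (e := e) (by
        have b1 : k * (R * εw) ≤ R' * εw := by
          linarith [mul_le_mul_of_nonneg_right kR.2 hε]
        have b2 := pow_le_pow_left₀ (by positivity) (mul_le_mul_of_nonneg_left b1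
          (show 0 ≤ 12 * P by linarith)) 2
        have b3 := mul_le_mul_of_nonneg_right kk (sq_nonneg (12 * P * (R * εw)))
        linarith)
      (le_trans (mul_le_mul_of_nonneg_left (add_le_add le_rfl (mul_le_mul_of_nonneg_left Rε
        (by linarith))) (by linarith)) h3) S u hS hu hut
    exact ⟨w, w1, w2.trans (mul_le_mul_of_nonneg_right hCP (nrm_nonneg _)),
      w3.trans (mul_le_mul_of_nonneg_right hC0 (Eig.dot_self_nonneg _)), w4⟩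
  · rw [g.co a ha, smul_sum]
    exact sum_congr rfl fun b _ => smul_comm _ _ _
  · refine mul_le_mul_of_nonneg_right ?_ (sum_nonneg fun _ _ => sq_nonneg _)
    have b1 := pow_le_pow_left₀ (by positivity) (kR.2.trans (half_le_self (R0.trans RR))) 2
    linarith [sq_nonneg R, mul_nonneg k0 (sq_nonneg R), mul_nonneg (sq_nonneg (k : ℝ)) (sq_nonneg R)]
  · have l0 := (nrm_nonneg w).trans hA.2.1
    have b1 : ∑ a ∈ range k, |v a ⬝ᵥ w| ≤ k * (√ε * l) := by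
      refine (sum_le_card_nsmul _ _ _ fun a ha => ?_).trans_eq (by rw [card_range, nsmul_eq_mul])
      refine abs_le_of_sq_le_sq ?_ (by positivity)
      rw [mul_pow, sq_sqrt hε]
      exact (single_le_sum (f := fun a => (v a ⬝ᵥ w) ^ 2) (fun _ _ => sq_nonneg _) ha).trans hA.2.2.2
    have b2 := mul_le_mul_of_nonneg_left (b1.trans (mul_le_mul_of_nonneg_right kN (by positivity))) hB
    linarith [mul_le_mul_of_nonneg_left hA.2.1 hδ.le]

end Crest.Agent.T157.S1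

end
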