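import Crest.Agent.T157.S1TiL_56
import Crest.Agent.T157.S1F1_25

/-!
# Row 157, part B, block S1 (helper25): the mismatch (T4)
-/

set_option autoImplicit false
set_option linter.unusedVariables false

noncomputable section

namespace Crest.Agent.T157.S1

open Real Matrix Finset
open Crest.Agent.T157.E Crest.Agent.T157.SL Crest.Agent.T157.Ta
open Crest.Agent.T157.Rec (grad)
open Crest.Agent.T157.Eig (nrm nrm_sq nrm_nonneg abs_dot_le)
open Crest.Agent.T157.S3 (V Mx hf Dg)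
open Crest.Agent.T157.S3.Rg (nrm_mono nrm_le_of_sq)
open Pin33 F25 Ti56

variable {n : ℕ}

/-- `cm π - tanh h₀` off the pins -/
def cc (D : Dat n) (s : St n) (y0 : V n) (x : Cube n) (j : Fin n) : ℝ :=
  tanh (hf D.J s.y' x j - grad (U D s) x j + grad s.Th x j) - tanh (hf D.J y0 x j)

namespace F25

lemma amgm (a b : ℝ) {t : ℝ} (ht : 0 < t) : a * b ≤ t * a ^ 2 + b ^ 2 / (4 * t) := by
  have : t * a ^ 2 + b ^ 2 / (4 * t) - a * b = (2 * t * a - b) ^ 2 / (4 * t) := by field_simp; ring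
  linarith [show 0 ≤ (2 * t * a - b) ^ 2 / (4 * t) by positivity]

lemma site (h a g o : ℝ) {e : ℝ} (ho : |o| ≤ e) :
    |(tanh (h + a - g) - tanh (h + a)) * o + (1 - tanh h ^ 2) * o * g| ≤ e * (3 * g ^ 2 + a ^ 2) := by
  have h1 := tay1 (h + a) (-g)
  have h2 := sq_lip (h + a) h
  rw [add_sub_cancel_left] at h2
  have h3 := mul_le_mul_of_nonneg_right h2 (abs_nonneg g)
  rw [← abs_mul] at h3
  have h4 := (abs_add_le _ _).trans (add_le_add h1 h3)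
  have h5 : 2 * (-g) ^ 2 + 2 * |a| * |g| ≤ 3 * g ^ 2 + a ^ 2 := by
    nlinarith [sq_nonneg (|a| - |g|), sq_abs a, sq_abs g]
  have h6 := mul_le_mul ho (h4.trans h5) (abs_nonneg _) ((abs_nonneg _).trans ho)
  rw [← abs_mul] at h6
  refine le_trans (le_of_eq ?_) h6
  rw [sub_eq_add_neg (h + a) g]; congr 1; ring

lemma pins {D : Dat n} {s : St n} (ok : D.Ok) (y0 u Ω : V n) {e g t : ℝ} (x : Cube n) (e0 : 0 ≤ e)
    (ht : 0 < t) (hΩ : ∀ j, |Ω j| ≤ e)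
    (hg : nrm (fun i => max (|(D.J *ᵥ (Dg D.J y0 x * Ω - u)) i| - e) 0) ≤ g) :
    |D.P * (um D s x ⬝ᵥ D.J *ᵥ u) - ∑ j ∈ s.Sᶜ, Dg D.J y0 x j * Ω j * grad (U D s) x j| ≤
      e * (∑ j, grad (U D s) x j ^ 2 + U D s x + 11 * D.P * #s.S) + t * U D s x +
        D.P * g ^ 2 / (2 * t) := by
  have P0 : 0 < D.P := by linarith [ok.P1]
  have d1 : ∀ j, |Dg D.J y0 x j * Ω j| ≤ e := fun j => by
    rw [abs_mul]
    refine (mul_le_of_le_one_left (abs_nonneg _) (abs_le.2 ⟨?_, ?_⟩)).trans (hΩ j) <;>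
      (unfold Dg; nlinarith [abs_le.1 (abs_tanh (hf D.J y0 x j))])
  have h1 : |∑ j ∈ s.S, Dg D.J y0 x j * Ω j * grad (U D s) x j| ≤
      e * (∑ j, grad (U D s) x j ^ 2 + #s.S) := by
    refine (abs_sum_le_sum_abs _ _).trans ((sum_le_sum (g := fun j => e * (grad (U D s) x j ^ 2 + 1))
      fun j _ => ?_).trans ?_)
    · rw [abs_mul]
      refine mul_le_mul (d1 j) ?_ (abs_nonneg _) e0
      nlinarith [sq_abs (grad (U D s) x j), sq_nonneg (|grad (U D s) x j| - 1)]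
    · rw [← mul_sum, sum_add_distrib, sum_const, nsmul_one]
      exact mul_le_mul_of_nonneg_left (add_le_add (sum_le_sum_of_subset_of_nonneg (subset_univ _)
        fun _ _ _ => sq_nonneg _) le_rfl) e0
  have h2 : |∑ j, Dg D.J y0 x j * Ω j * (D.P * sv x j * ∑ k ∈ s.S, D.J k j ^ 2)| ≤
      e * (D.P * (9 * #s.S)) := by
    refine (abs_sum_le_sum_abs _ _).trans ((sum_le_sum
      (g := fun j => e * (D.P * ∑ k ∈ s.S, D.J k j ^ 2)) fun j _ => ?_).trans ?_)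
    · rw [abs_mul, abs_mul (D.P * _), abs_mul D.P, S3.Rg.abs_sv, mul_one, abs_of_pos P0,
        abs_of_nonneg (a := ∑ k ∈ s.S, D.J k j ^ 2) (sum_nonneg fun _ _ => sq_nonneg _)]
      exact mul_le_mul_of_nonneg_right (d1 j) (by positivity)
    · rw [← mul_sum, ← mul_sum]
      exact mul_le_mul_of_nonneg_left (mul_le_mul_of_nonneg_left (sum_colS_le ok) P0.le) e0
  set X := D.J *ᵥ (Dg D.J y0 x * Ω - u) with hX
  have h3 : |D.P * (um D s x ⬝ᵥ X)| ≤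
      e * (U D s x + D.P * #s.S) + t * U D s x + D.P * g ^ 2 / (2 * t) := by
    have b1 : |um D s x ⬝ᵥ X| ≤ ∑ k, (e * (um D s x k ^ 2 / 2 + if k ∈ s.S then 1 else 0) +
        (t / 2 * um D s x k ^ 2 + max (|X k| - e) 0 ^ 2 / (4 * (t / 2)))) := by
      refine (abs_sum_le_sum_abs _ _).trans (sum_le_sum fun k _ => ?_)
      have a1 := amgm |um D s x k| (max (|X k| - e) 0) (half_pos ht)
      have a2 : |um D s x k| ≤ um D s x k ^ 2 / 2 + if k ∈ s.S then 1 else 0 := by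
        unfold um; split_ifs
        · nlinarith [sq_abs (uu D s x k), sq_nonneg (|uu D s x k| - 1)]
        · simp
      rw [sq_abs] at a1
      rw [abs_mul]
      nlinarith [mul_le_mul_of_nonneg_left (le_max_left (|X k| - e) 0) (abs_nonneg (um D s x k)),
        mul_le_mul_of_nonneg_left a2 e0]
    have b2 := sq_le hg
    have b3 := um_dot (D := D) (s := s) x
    simp only [sum_add_distrib, ← mul_sum, ← sum_div, sum_ite_mem, univ_inter, sum_const,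
      nsmul_one] at b1
    simp only [dotProduct, ← sq] at b3
    have b4 := div_le_div_of_nonneg_right b2 (show 0 ≤ 4 * (t / 2) by positivity)
    rw [abs_mul, abs_of_pos P0, ← b3]
    refine (mul_le_mul_of_nonneg_left (b1.trans (add_le_add le_rfl (add_le_add le_rfl b4)))
      P0.le).trans (le_of_eq ?_)
    field_simp
    ring
  have e1 : ∑ j, Dg D.J y0 x j * Ω j * (D.P * (D.J *ᵥ um D s x) j) =
      D.P * (um D s x ⬝ᵥ D.J *ᵥ (Dg D.J y0 x * Ω)) := by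
    rw [dotProduct_mulVec, ← mulVec_transpose, ok.symm, dotProduct, mul_sum]
    exact sum_congr rfl fun j _ => by rw [Pi.mul_apply]; ring
  have e2 := sum_add_sum_compl s.S fun j => Dg D.J y0 x j * Ω j * grad (U D s) x j
  conv_rhs at e2 => simp only [grad_U ok, mul_sub, sum_sub_distrib, e1]
  rw [hX, mulVec_sub, dotProduct_sub, mul_sub] at h3
  have S0 : (0 : ℝ) ≤ #s.S := Nat.cast_nonneg _
  have b5 := mul_le_mul_of_nonneg_left (le_mul_of_one_le_left S0 ok.P1) e0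
  rw [abs_le] at h1 h2 h3 ⊢
  constructor <;> linarith [h1.1, h1.2, h2.1, h2.2, h3.1, h3.2]

lemma point {D : Dat n} {s : St n} {ec : ℝ} (ok : D.Ok) (cl : Cl ec ec s) (y0 u : V n)
    {Ω : Cube n → V n} {e g t r M : ℝ} (x : Cube n) (e0 : 0 ≤ e) (ht : 0 < t) (hr : 0 < r)
    (hΩ : ∀ j, |Ω x j| ≤ e) (hM : nrm (Ω x) ≤ M)
    (hg : nrm (fun i => max (|(D.J *ᵥ (Dg D.J y0 x * Ω x - u)) i| - e) 0) ≤ g) :
    |∑ j ∈ s.Sᶜ, cc D s y0 x j * Ω x j - F1 D.J y0 (s.y' - y0) s.Sᶜ s.Om Ω x +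
      D.P * (um D s x ⬝ᵥ D.J *ᵥ u)| ≤ r * M ^ 2 + 1 / (4 * r) * s.G x ^ 2 +
      (t + 145 * D.P * e) * U D s x + D.P / (2 * t) * g ^ 2 +
      e * (2 * nrm (s.y' - y0) ^ 2 + 2 * s.L ^ 2 + 659 * D.P ^ 2 * #s.S) := by
  have h1 := pins (s := s) ok y0 u (Ω x) x e0 ht hΩ hg
  have h2 := (c2_le s.Sᶜ (hf D.J s.y' x - grad (U D s) x) (grad s.Th x) (s.Om x) (Ω x)).trans
    (mul_le_mul (cl.ex x) hM (nrm_nonneg _) ((nrm_nonneg _).trans (cl.ex x)))
  have h3 := (abs_sum_le_sum_abs _ _).trans ((sum_le_sum fun j (_ : j ∈ s.Sᶜ) => site (hf D.J y0 x j)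
    ((s.y' - y0) j + s.Om x j) (grad (U D s) x j) (Ω x j) (hΩ j)).trans
      (sum_le_sum_of_subset_of_nonneg (subset_univ _) fun _ _ _ => by positivity))
  have h4 : ∑ j, ((s.y' - y0) j + s.Om x j) ^ 2 ≤ 2 * nrm (s.y' - y0) ^ 2 + 2 * s.L ^ 2 := by
    have := sq_le (cl.rg x).2.2.1
    rw [nsq]
    refine le_trans ?_ (add_le_add le_rfl (mul_le_mul_of_nonneg_left this zero_le_two))
    rw [mul_sum, mul_sum, ← sum_add_distrib]
    exact sum_le_sum fun j _ => by nlinarith [sq_nonneg ((s.y' - y0) j - s.Om x j)]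
  rw [← mul_sum, sum_add_distrib (f := fun j => 3 * _), ← mul_sum] at h3
  have h5 := mul_le_mul_of_nonneg_left (sum_grad_U_le (s := s) ok x) e0
  have h6 := mul_le_mul_of_nonneg_left h4 e0
  have h7 := amgm M (s.G x) hr
  have h8 := (abs_add_three _ _ _).trans (add_le_add_three h1 h2 h3)
  have S0 : (0 : ℝ) ≤ #s.S := Nat.cast_nonneg _
  have P1 := ok.P1
  have h9 := mul_le_mul_of_nonneg_left (le_mul_of_one_le_left (U_nonneg (s := s) ok x) P1) e0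
  have h10 : e * (D.P * #s.S) ≤ e * (D.P ^ 2 * #s.S) := by gcongr; nlinarith
  refine le_trans (le_of_eq ?_) (h8.trans ?_)
  · simp only [F1, cc, Dg, sub_mul, sum_add_distrib, sum_sub_distrib, hf, Pi.add_apply,
      Pi.sub_apply]
    congr 1
    have e1 : ∀ j, (D.J *ᵥ sv x) j + y0 j + (s.y' j - y0 j + s.Om x j) - grad (U D s) x j =
      (D.J *ᵥ sv x) j + s.y' j - grad (U D s) x j + s.Om x j := fun j => by ring
    simp only [e1]
    simp only [add_assoc]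
    ring
  · have e1 : s.G x ^ 2 / (4 * r) = 1 / (4 * r) * s.G x ^ 2 := by ring
    have e2 : D.P * g ^ 2 / (2 * t) = D.P / (2 * t) * g ^ 2 := by ring
    linarith

lemma arith {C N z e P CN ω t : ℝ} (N1 : 1 ≤ N) (hC : 10 ^ 7 * N ≤ C) (P1 : 1 ≤ P) (CN1 : 1 ≤ CN)
    (o0 : 0 < ω) (o1 : ω ≤ 1) (hz : P * CN ≤ z * ω) (e0 : 0 ≤ e) (hc : (C * z ^ 2) ^ 2 * e ≤ 1) :
    e ≤ 1 ∧ 1 ≤ z ^ 2 ∧ P ^ 2 ≤ z ^ 2 ∧ CN ^ 2 ≤ z ^ 2 ∧ CN ^ 2 / ω ≤ z ^ 2 ∧ P / ω ≤ z ^ 2 ∧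
      10 ^ 14 * N * (e * z ^ 2) ≤ ω := by
  have a1 : 1 ≤ P * CN := one_le_mul_of_one_le_of_one_le P1 CN1
  have z0 : 0 < z := (mul_pos_iff_of_pos_right o0).1 (by linarith)
  have a2 : z * ω ≤ z := mul_le_of_le_one_right z0.le o1
  have a3 : P ≤ P * CN := le_mul_of_one_le_right (by linarith) CN1
  have a4 : CN ≤ P * CN := le_mul_of_one_le_left (by linarith) P1
  have z2 : z ≤ z ^ 2 := le_self_pow₀ (by linarith) two_ne_zero
  have a5 : 1 ≤ z ^ 2 * ω := by nlinarith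
  have a6 : 10 ^ 14 * N ≤ C ^ 2 := by nlinarith
  have a7 : C ^ 2 * (e * z ^ 2) ≤ ω := by
    have := mul_le_mul_of_nonneg_left a5 (show 0 ≤ C ^ 2 * (e * z ^ 2) by positivity)
    nlinarith [mul_le_mul_of_nonneg_right hc o0.le]
  have a8 := (mul_le_mul_of_nonneg_right a6 (show 0 ≤ e * z ^ 2 by positivity)).trans a7
  refine ⟨?_, by linarith, pow_le_pow_left₀ (by linarith) (by linarith) 2,
    pow_le_pow_left₀ (by linarith) (by linarith) 2, (div_le_iff₀ o0).2 ?_,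
    (div_le_iff₀ o0).2 (by nlinarith), a8⟩
  · nlinarith [mul_le_mul_of_nonneg_left (show 1 ≤ z ^ 2 by linarith) e0,
      mul_le_mul_of_nonneg_right N1 (show 0 ≤ e * z ^ 2 by positivity)]
  · nlinarith [mul_le_mul (a4.trans hz) (a4.trans (hz.trans a2)) (by linarith) (by positivity)]

end F25

set_option maxHeartbeats 1000000 in
/-- **the mismatch** -/
theorem mis (cr : CrudeStmt) (b1 : B1Stmt) (K0 κ0 : ℝ) (hκ0 : 0 < κ0) :
    ∃ C ≥ (1 : ℝ), ∀ (n : ℕ) (D : Dat n) (s : St n) (y0 p al q w : V n) (a e e1 ec CN C0 K l κ ω : ℝ)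
    (φ : Cube n → ℝ) (W Ω : Cube n → V n) (G : Cube n → ℝ),
    TiH K0 κ0 C D s y0 p al q w a e e1 ec CN C0 K l κ ω φ W Ω G →
    |(mean (nu D s) fun x => ∑ j ∈ s.Sᶜ, cc D s y0 x j * Ω x j) -
        (mean (pi D s) fun x => ∑ j ∈ s.Sᶜ, cc D s y0 x j * Ω x j) +
        D.P * ∑ k ∈ s.S, (D.J *ᵥ Del D s) k * (D.J *ᵥ (q * w)) k| ≤
      ω * (Bb D s y0 + l ^ 2) + Mx' C D.P CN κ D.η0 ω * (Ex D s + K) := by
  obtain ⟨C1, c1, b1⟩ := b1 K0 κ0 hκ0
  obtain ⟨K1, hK1, k1⟩ : ∃ K1, K1 = max K0 1 + 8 / κ0 ∧ 1 ≤ K1 :=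
    ⟨_, rfl, (le_max_right _ _).trans (le_add_of_nonneg_right (by positivity))⟩
  obtain ⟨N, hN, n1, n2, n3, N1⟩ : ∃ N, N = K1 * C1 * C1 ∧ K1 * C1 ≤ N ∧ K1 ≤ N ∧ C1 ≤ N ∧ 1 ≤ N := by
    have a1 : K1 ≤ K1 * C1 := le_mul_of_one_le_right (by linarith) c1
    have a2 : K1 * C1 ≤ K1 * C1 * C1 := le_mul_of_one_le_right (by linarith) c1
    have a3 : C1 ≤ K1 * C1 := le_mul_of_one_le_left (by linarith) k1
    exact ⟨_, rfl, a2, by linarith, by linarith, by linarith⟩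
  refine ⟨10 ^ 7 * N, by linarith,
    fun n D s y0 p al q w a e e1 ec CN C0 K l κ ω φ W Ω G h => ?_⟩
  have ok := h.ok
  have ⟨k0, o0, η0, P1⟩ := And.intro h.k0 <| And.intro h.o0 <| And.intro ok.e0 ok.P1
  have ⟨K1', l0, CN1, e10⟩ := And.intro h.K1 <| And.intro h.l0 <| And.intro h.CN1 h.e10
  have ec0 := e10.trans h.e1c
  obtain ⟨pr, -, -, -, -, y1, y2, -, -, x0, -⟩ := cr n D s ok
  obtain ⟨k2, k3, k4, -⟩ := b1 n D s y0 ec ec ok h.cl h.bas
  obtain ⟨z, hz⟩ : ∃ z, z = D.P * CN / (κ * D.η0 * ω) := ⟨_, rfl⟩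
  obtain ⟨a1, a2, a3, a4, a5, a6, a7⟩ := arith (t := 0) (z := z) N1 le_rfl P1 CN1 o0 h.o1 (by
    rw [hz, div_mul_eq_mul_div, le_div_iff₀ (by positivity)]
    exact mul_le_mul_of_nonneg_left (mul_le_of_le_one_left o0.le (mul_le_one₀ h.k1 η0.le
      (by linarith [ok.e1]))) (by positivity)) ec0 (hz ▸ h.hc)
  have hw : ∀ x, 0 < ising D.J y0 x := fun x => exp_pos _
  have H := hK1 ▸ Xt.h1_of_atd (Atd.ATd.mono h.bas hw (le_max_left K0 1) le_rfl) hw (by positivity) hκ0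
  have d0 := dot_self_nonneg (del s)
  have S0 : (0 : ℝ) ≤ #s.S := Nat.cast_nonneg _
  set B := Bb D s y0 with hB
  have B1 : del s ⬝ᵥ del s + s.L ^ 2 + mean (nu D s) (U D s) + #s.S + nrm (s.y - y0) ^ 2 ≤ B := by
    rw [hB]; unfold Bb Bd; linarith
  have B0 : 0 ≤ B := le_trans (by positivity) B1
  have B2 : nrm (s.y' - y0) ^ 2 + s.L ^ 2 ≤ 2 * B := by
    have := pow_le_pow_left₀ (nrm_nonneg _) (Eig.nrm_add_le (s.y - y0) (del s)) 2
    rw [del, sub_add_sub_cancel', ← del] at this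
    nlinarith [nrm_sq (del s), sq_nonneg (nrm (s.y - y0) - nrm (del s)), sq_nonneg s.L]
  obtain ⟨Gf, f1, f2, f3, f4⟩ := h.ans.f
  have t0 : 0 < ω / (16 * C1) := by positivity
  have r0 : 0 < ω / (8 * CN ^ 2) := by positivity
  have hp := fun x => point ok h.cl y0 (q * w) x e10 t0 r0 (fun j => (norm_le_pi_norm (Ω x) j).trans
    (h.ans.rg x).1) (h.ans.rg x).2.2.1 (f1 x)
  obtain ⟨ζ, hζ⟩ : ∃ ζ, ζ = ec * z ^ 2 := ⟨_, rfl⟩
  have ζ0 : 0 ≤ ζ := by rw [hζ]; positivity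
  rw [← hζ] at a7
  have q0 : ζ ≤ N * ζ := le_mul_of_one_le_left (by positivity) N1
  have q1 : e1 * z ^ 2 ≤ ζ := hζ ▸ mul_le_mul_of_nonneg_right h.e1c (sq_nonneg z)
  have q2 : e1 * D.P ^ 2 ≤ ζ := (mul_le_mul_of_nonneg_left a3 e10).trans q1
  have q3 : e1 * D.P ≤ ζ := (mul_le_mul_of_nonneg_left (le_self_pow₀ P1 two_ne_zero) e10).trans q2
  have q5 : ec ≤ ζ := hζ ▸ le_mul_of_one_le_right ec0 a2
  have q4 : e1 ≤ ζ := h.e1c.trans q5
  have w1 := mul_le_mul_of_nonneg_right a7 B0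
  have w2 := mul_le_mul_of_nonneg_right a7 (sq_nonneg l)
  have w3 : 0 ≤ ω * B := by positivity
  have w4 : 0 ≤ ω * l ^ 2 := by positivity
  have w5 : 0 ≤ N * z ^ 2 * K := by positivity
  have hm : ∀ v, Wt v → kl v (ising D.J y0) ≤ C1 * B → mean v (U D s) ≤ C1 * B →
      |(mean v fun x => ∑ j ∈ s.Sᶜ, cc D s y0 x j * Ω x j) - mean v (F1 D.J y0 (s.y' - y0) s.Sᶜ s.Om Ω) +
        D.P * mean v fun x => um D s x ⬝ᵥ D.J *ᵥ (q * w)| ≤ ω / 4 * (B + l ^ 2) +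
        2 * z ^ 2 * (mean v fun x => s.G x ^ 2) + 200 * N * z ^ 2 * K := fun v hv b2 b3 => by
    have m1 := hv.mean_mono fun x => (le_abs_self _).trans (hp x)
    have m2 := hv.mean_mono fun x => neg_le.1 ((neg_le_abs _).trans (hp x))
    have m3 := xferE H hw (by linarith) e10 f3 (Wt.of_pos hw) hv
    rw [show kl (ising D.J y0) (ising D.J y0) = 0 from Ent.kl_self _] at m3
    simp only [mean_add, mean_sub, mean_neg, mean_const_mul, hv.mean_const] at m1 m2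
    refine (abs_le.2 ⟨m2, m1⟩).trans ?_
    have g0 : 0 ≤ mean v fun x => s.G x ^ 2 := hv.mean_nonneg fun _ => sq_nonneg _
    have u0 : 0 ≤ mean v (U D s) := hv.mean_nonneg (U_nonneg ok)
    have p1 : ω / (8 * CN ^ 2) * (CN * l) ^ 2 = ω / 8 * l ^ 2 := by field_simp
    have p2 : 1 / (4 * (ω / (8 * CN ^ 2))) * (mean v fun x => s.G x ^ 2) ≤
        2 * z ^ 2 * mean v fun x => s.G x ^ 2 := mul_le_mul_of_nonneg_right (by
      rw [show 1 / (4 * (ω / (8 * CN ^ 2))) = 2 * (CN ^ 2 / ω) by field_simp; norm_num]; linarith) g0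
    have p3 : (ω / (16 * C1) + 145 * D.P * e1) * mean v (U D s) ≤ ω / 16 * B + 145 * (N * ζ * B) := by
      refine (mul_le_mul_of_nonneg_left b3 (by positivity)).trans ?_
      rw [add_mul, show ω / (16 * C1) * (C1 * B) = ω / 16 * B by field_simp,
        show 145 * D.P * e1 * (C1 * B) = 145 * (C1 * (e1 * D.P) * B) by ring]
      gcongr
    have p4 : D.P / (2 * (ω / (16 * C1))) * (mean v fun x => Gf x ^ 2) ≤ 8 * C1 * z ^ 2 *
        (4 * (e1 * l ^ 2 + K) + K1 * e1 * (16 * (C1 * B) + 18)) := by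
      refine mul_le_mul (by
        rw [show D.P / (2 * (ω / (16 * C1))) = 8 * C1 * (D.P / ω) by field_simp; norm_num]; gcongr)
        (m3.trans ?_) (hv.mean_nonneg fun _ => sq_nonneg _) (by positivity)
      gcongr
      linarith
    have p5 : e1 * (D.P ^ 2 * #s.S) ≤ N * ζ * B := by
      rw [← mul_assoc]
      exact mul_le_mul (q2.trans q0) (by linarith [sq_nonneg s.L, sq_nonneg (nrm (s.y - y0))]) S0
        (by positivity)
    have p6 : e1 * B ≤ N * ζ * B := mul_le_mul_of_nonneg_right (q4.trans q0) B0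
    have p7 := mul_le_mul_of_nonneg_left B2 e10
    have p8 : C1 * (e1 * z ^ 2) * l ^ 2 ≤ N * ζ * l ^ 2 := by gcongr
    have p9 : N * (e1 * z ^ 2) * B ≤ N * ζ * B := by gcongr
    have p10 : C1 * z ^ 2 * K ≤ N * z ^ 2 * K := by gcongr
    have p11 : K1 * C1 * z ^ 2 * e1 ≤ N * z ^ 2 * K := by gcongr; linarith [h.e1c]
    have p12 : K1 * C1 * C1 * (e1 * z ^ 2) * B ≤ N * ζ * B := hN ▸ p9
    linarith
  have hu : ∀ v, Wt v → (mean v fun x => um D s x ⬝ᵥ D.J *ᵥ (q * w)) =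
      ∑ k ∈ s.S, ((D.J *ᵥ mag v) k - s.x k) * (D.J *ᵥ (q * w)) k := fun v hv => by
    have e : ∀ x, um D s x ⬝ᵥ D.J *ᵥ (q * w) = ∑ k ∈ s.S, (D.J k ⬝ᵥ sv x - s.x k) * (D.J *ᵥ (q * w)) k :=
      fun x => by simp only [um, dotProduct, ite_mul, zero_mul, sum_ite_mem, univ_inter]; rfl
    simp only [e, mean_sum, mean_mul_const, mean_sub, hv.mean_const, ← meanV_dot]
    rfl
  have h1 := hm _ pr.hv k2 (by nlinarith [sq_nonneg s.L, sq_nonneg (nrm (s.y - y0))])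
  have h2 := hm _ pr.hw k3 k4
  have h3 := f1_sub ok.op y0 (s.y' - y0) s.Sᶜ h.cl.rg h.ans.rg h.e1c a1 H hw (by linarith) pr.hv pr.hw
  have h4 := xferE H hw (by linarith) ec0 h.cl.ts pr.hv pr.hw
  rw [hu _ pr.hv] at h1
  rw [hu _ pr.hw] at h2
  have h5 : ∑ k ∈ s.S, (D.J *ᵥ Del D s) k * (D.J *ᵥ (q * w)) k =
      ∑ k ∈ s.S, ((D.J *ᵥ mag (nu D s)) k - s.x k) * (D.J *ᵥ (q * w)) k -
        ∑ k ∈ s.S, ((D.J *ᵥ mag (pi D s)) k - s.x k) * (D.J *ᵥ (q * w)) k := by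
    rw [← sum_sub_distrib, Del, Dm, mulVec_sub]
    exact sum_congr rfl fun k _ => by rw [Pi.sub_apply]; ring
  have r1 : z ^ 2 * (mean (pi D s) fun x => s.G x ^ 2) ≤
      z ^ 2 * (4 * Ex D s + K1 * ec * (48 * (C1 * B) + 18)) :=
    mul_le_mul_of_nonneg_left (h4.trans (by unfold Ex; gcongr; linarith)) (by positivity)
  have r2 : K1 * C1 * (ec * z ^ 2) * B ≤ N * ζ * B := by rw [← hζ]; gcongr
  have r3 : K1 * z ^ 2 * ec ≤ N * z ^ 2 * K := by gcongr; linarith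
  have r4 : K1 * ec * (nrm (s.y' - y0) ^ 2 + s.L ^ 2) ≤ N * ζ * (2 * B) := by gcongr
  have r5 : K1 * (ec * CN ^ 2) * l ^ 2 ≤ N * ζ * l ^ 2 := by rw [hζ]; gcongr
  have r6 : ec * (4 * kl (nu D s) (ising D.J y0) + 4 * kl (pi D s) (ising D.J y0) + 3) ≤
      ec * (8 * (C1 * B) + 3) := mul_le_mul_of_nonneg_left (by linarith) ec0
  have r7 : C1 * ec * B ≤ N * ζ * B := by gcongr
  have r8 : ec ≤ N * z ^ 2 * K := a1.trans (one_le_mul_of_one_le_of_one_le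
    (one_le_mul_of_one_le_of_one_le N1 a2) K1')
  have r9 : z ^ 2 * Ex D s ≤ N * z ^ 2 * Ex D s := by
    rw [mul_assoc]; exact le_mul_of_one_le_left (by positivity) N1
  have r10 : 0 ≤ N * z ^ 2 * Ex D s := by positivity
  rw [h5, Mx', ← hz, abs_le]
  rw [abs_le] at h1 h2 h3
  unfold Ex at *
  constructor <;> linarith [h1.1, h1.2, h2.1, h2.2, h3.1, h3.2]

end Crest.Agent.T157.S1

end
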