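import Crest.Agent.T157.TaDef_40

/-!
# Row 157, block B, S1 (T-a): static identities (helper40)

Tower property for nonnegative weights, tilt identities for `kl` and `As`, pins.
-/

set_option autoImplicit false
set_option linter.unusedSectionVars false

noncomputable section

namespace Crest.Agent.T157.Ta

open MeasureTheory Real Matrix Function
open Crest.Agent.T157.E Crest.Agent.T157.SL
open Crest.Agent.T157.Ent (cnd)
open Crest.Agent.T157.Rec (grad)
open Crest.ProbabilityR.SpinGlassDynamics (spin)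

section fin
variable {Ω : Type*} [Fintype Ω] {v w f g : Ω → ℝ}

theorem mean_congr_supp (h : ∀ x, v x ≠ 0 → f x = g x) : mean v f = mean v g :=
  Finset.sum_congr rfl fun x _ => by
    by_cases hx : v x = 0
    · simp [prob, hx]
    · rw [h x hx]

theorem mean_mono_supp (hv : Wt v) (h : ∀ x, v x ≠ 0 → f x ≤ g x) : mean v f ≤ mean v g :=
  Finset.sum_le_sum fun x _ => by
    by_cases hx : v x = 0
    · simp [prob, hx]
    · exact mul_le_mul_of_nonneg_left (h x hx) (hv.prob_nonneg x)

theorem Pr.pos (h : Pr v w) {x : Ω} (hx : v x ≠ 0) : 0 < v x ∧ 0 < w x :=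
  ⟨h.hv.pos_of_ne x hx, h.hw.pos_of_ne x fun e => hx (h.ac x e)⟩

theorem Pr.of_pos [Nonempty Ω] (hv : ∀ x, 0 < v x) (hw : ∀ x, 0 < w x) : Pr v w :=
  ⟨.of_pos hv, .of_pos hw, fun x e => absurd e (hw x).ne'⟩

theorem Pr.refl (hv : Wt v) : Pr v v := ⟨hv, hv, fun _ e => e⟩

theorem Pr.mul (h : Pr v w) (hf : ∀ x, 0 < f x) (hg : ∀ x, 0 < g x) :
    Pr (fun x => v x * f x) fun x => w x * g x :=
  ⟨h.hv.mul_pos hf, h.hw.mul_pos hg, fun x e => by
    rw [h.ac x ((mul_eq_zero.1 e).resolve_right (hg x).ne'), zero_mul]⟩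

theorem wt_wt (hw : Wt w) (G : Ω → ℝ) : Wt (wt w G) := hw.mul_pos fun _ => exp_pos _

theorem Pr.wt (h : Pr v w) (G : Ω → ℝ) : Pr v (wt w G) := by
  have := h.mul (f := fun _ => 1) (fun _ => one_pos) fun x => exp_pos (G x)
  simp only [mul_one] at this
  exact this

theorem Pr.wt2 (h : Pr v w) (F G : Ω → ℝ) : Pr (Ta.wt v F) (Ta.wt w G) :=
  h.mul (fun _ => exp_pos _) fun _ => exp_pos _

theorem Pr.post {ι : Type*} [Fintype ι] (h : Pr v w) (φ : Ω → ι → ℝ) (s s' : ℝ) (y y' : ι → ℝ) :
    Pr (post φ v s y) (post φ w s' y') := h.mul (fun _ => exp_pos _) fun _ => exp_pos _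

theorem Pr.ac_prob (h : Pr v w) : Ent.AC (prob v) (prob w) := fun x e => by
  rw [prob, div_eq_zero_iff] at e
  rw [prob, h.ac x (e.resolve_right h.hw.pos.ne'), zero_div]

theorem Pr.kl_nonneg (h : Pr v w) : 0 ≤ kl v w := Ent.kl_nonneg h.hv.isP h.hw.isP h.ac_prob

theorem wt_add (w F G : Ω → ℝ) : wt (wt w F) G = wt w fun x => F x + G x := by
  ext x; simp only [wt, exp_add, mul_assoc]

theorem wt_zero (w : Ω → ℝ) : wt w (fun _ => 0) = w := by ext x; simp [wt]

theorem mean_pos' (hw : Wt w) (hf : ∀ x, 0 < f x) : 0 < mean w f := by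
  rw [mean_eq_div]; exact div_pos (hw.mul_pos hf).pos hw.pos

theorem kl_eq_mean (h : Pr v w) :
    kl v w = mean v (fun x => log (v x) - log (w x)) - log (∑ x, v x) + log (∑ x, w x) := by
  have e : kl v w = mean v fun x => (log (v x) - log (w x)) + (log (∑ x, w x) - log (∑ x, v x)) := by
    refine mean_congr_supp (f := fun x => log (prob v x / prob w x)) fun x hx => ?_
    obtain ⟨h1, h2⟩ := h.pos hx
    have h3 := h.hv.pos
    have h4 := h.hw.pos
    rw [prob, prob, log_div (by positivity) (by positivity), log_div h1.ne' h3.ne',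
      log_div h2.ne' h4.ne']
    ring
  rw [e, mean_add, h.hv.mean_const]; ring

/-- both weights multiplied by positive factors -/
theorem kl_mul2 (h : Pr v w) (hf : ∀ x, 0 < f x) (hg : ∀ x, 0 < g x) :
    kl (fun x => v x * f x) (fun x => w x * g x) =
      mean (fun x => v x * f x) (fun x => log (prob v x / prob w x) + log (f x) - log (g x)) -
        log (mean v f) + log (mean w g) := by
  have h' := h.mul hf hg
  have h3 := h.hv.pos
  have h4 := h.hw.pos
  rw [kl_eq_mean h', mean_eq_div v f, mean_eq_div w g, log_div h'.hv.pos.ne' h3.ne',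
    log_div h'.hw.pos.ne' h4.ne',
    mean_congr_supp (f := fun x => log (prob v x / prob w x) + log (f x) - log (g x))
      (g := fun x => (log (v x * f x) - log (w x * g x)) + (log (∑ x, w x) - log (∑ x, v x)))
      fun x hx => ?_, mean_add, h'.hv.mean_const]
  · ring
  obtain ⟨h1, h2⟩ := h.pos (left_ne_zero_of_mul hx)
  rw [prob, prob, log_div (by positivity) (by positivity), log_div h1.ne' h3.ne',
    log_div h2.ne' h4.ne', log_mul h1.ne' (hf x).ne', log_mul h2.ne' (hg x).ne']
  ring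

/-- **tilt identity for `H`** -/
theorem kl_wt (h : Pr v w) (G : Ω → ℝ) :
    kl v (wt w G) = kl v w - mean v G + log (mean w fun x => exp (G x)) := by
  have := kl_mul2 h (f := fun _ => 1) (fun _ => one_pos) fun x => exp_pos (G x)
  simp only [mul_one, log_one, add_zero, log_exp, h.hv.mean_const, sub_zero, mean_sub] at this
  exact this

theorem mean_le_log (hw : Wt w) (G : Ω → ℝ) : mean w G ≤ log (mean w fun x => exp (G x)) :=
  Ent.mean_le_log_mean_exp hw.isP G

theorem kl_wt_ge (h : Pr v w) (G : Ω → ℝ) : kl v w - (mean v G - mean w G) ≤ kl v (wt w G) := by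
  rw [kl_wt h]; linarith [mean_le_log h.hw G]

/-- variational formula -/
theorem mean_le_kl (h : Pr v w) (G : Ω → ℝ) :
    mean v G ≤ kl v w + log (mean w fun x => exp (G x)) := by
  linarith [kl_wt h G, (h.wt G).kl_nonneg]

/-- tangent form of the joint convexity of `kl` -/
theorem kl_tangent {v' w' : Ω → ℝ} (h : Pr v w) (h' : Pr v' w') (hs : ∀ x, v x = 0 → v' x = 0) :
    mean v' (fun x => log (prob v x / prob w x)) + 1 - mean w' (fun x => prob v x / prob w x) ≤
      kl v' w' := by
  have e : (1 : ℝ) = ∑ x, prob v' x := h'.hv.sum_prob.symm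
  rw [e, mean, mean, kl, ← Finset.sum_add_distrib, ← Finset.sum_sub_distrib]
  refine Finset.sum_le_sum fun x _ => ?_
  by_cases hx : v' x = 0
  · have : 0 ≤ prob w' x * (prob v x / prob w x) :=
      mul_nonneg (h'.hw.prob_nonneg x) (div_nonneg (h.hv.prob_nonneg x) (h.hw.prob_nonneg x))
    simp only [prob, hx, zero_div, zero_mul] at this ⊢
    linarith
  obtain ⟨h1, h2⟩ := h'.pos hx
  obtain ⟨h3, h4⟩ := h.pos fun e => hx (hs x e)
  have a1 : 0 < prob v' x := div_pos h1 h'.hv.pos
  have a2 : 0 < prob w' x := div_pos h2 h'.hw.pos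
  have a3 : 0 < prob v x / prob w x := div_pos (div_pos h3 h.hv.pos) (div_pos h4 h.hw.pos)
  set a := prob v' x
  set b := prob w' x
  set r := prob v x / prob w x
  have := log_le_sub_one_of_pos (x := b * r / a) (by positivity)
  rw [log_div (by positivity) a1.ne', log_mul a2.ne' a3.ne'] at this
  rw [log_div a1.ne' a2.ne']
  have h5 := mul_le_mul_of_nonneg_left this a1.le
  rw [mul_sub a (_ / _), mul_div_cancel₀ _ a1.ne'] at h5
  linarith

theorem mean_ratio_le (h : Pr v w) : mean w (fun x => prob v x / prob w x) = 1 :=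
  h.ac_prob.mean_div h.hv.isP

/-- Hoeffding's lemma -/
theorem log_mean_exp_le (hw : Wt w) {G : Ω → ℝ} {B : ℝ} (hG : ∀ x, |G x| ≤ B) :
    log (mean w fun x => exp (G x)) ≤ mean w G + B ^ 2 / 2 :=
  log_mgf_le hw G fun t _ => by
    refine ((hw.mul_pos fun x => exp_pos _).var_le_mean _ 0).trans
      ((hw.mul_pos fun x => exp_pos _).mean_le fun x => ?_)
    rw [sub_zero]
    exact sq_le_sq' (abs_le.1 (hG x)).1 (abs_le.1 (hG x)).2

/-! ### pins -/

variable {A : Type*} [Fintype A] [DecidableEq A] {ρ : Ω → A}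

theorem cut_eq (w : Ω → ℝ) (ρ : Ω → A) (a : A) :
    cut w ρ a = fun x => w x * if ρ x = a then 1 else 0 := by ext x; simp [cut]

theorem cut_nonneg (hw : Wt w) (ρ : Ω → A) (a : A) (x : Ω) : 0 ≤ cut w ρ a x := by
  unfold cut; split_ifs; exacts [hw.nn x, le_rfl]

theorem push_nonneg (hw : Wt w) (ρ : Ω → A) (a : A) : 0 ≤ push w ρ a :=
  hw.mean_nonneg fun x => by split_ifs <;> norm_num

theorem push_eq (w : Ω → ℝ) (ρ : Ω → A) (a : A) : push w ρ a = (∑ x, cut w ρ a x) / ∑ x, w x := by
  rw [push, mean_eq_div, cut_eq]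

theorem sum_push (hw : Wt w) (ρ : Ω → A) : ∑ a, push w ρ a = 1 := by
  simp only [push, ← mean_sum, Finset.sum_ite_eq, Finset.mem_univ, if_true, hw.mean_const]

theorem isP_push (hw : Wt w) (ρ : Ω → A) : Chain22.IsP (push w ρ) := ⟨push_nonneg hw ρ, sum_push hw ρ⟩

theorem wt_cut (hw : Wt w) {a : A} (h : push w ρ a ≠ 0) : Wt (cut w ρ a) :=
  ⟨cut_nonneg hw ρ a, (Finset.sum_nonneg fun x _ => cut_nonneg hw ρ a x).lt_of_ne' fun e => h (by
    rw [push_eq, e, zero_div])⟩

theorem Pr.cut (h : Pr v w) {a : A} (ha : push v ρ a ≠ 0) : Pr (cut v ρ a) (cut w ρ a) := by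
  have h1 := wt_cut h.hv ha
  have h2 : ∀ x, Ta.cut w ρ a x = 0 → Ta.cut v ρ a x = 0 := fun x e => by
    unfold Ta.cut at e ⊢
    split_ifs at e ⊢
    exacts [h.ac x e, rfl]
  refine ⟨h1, ⟨cut_nonneg h.hw ρ a, ?_⟩, h2⟩
  obtain ⟨x, hx⟩ := h1.exists_pos
  exact Finset.sum_pos' (fun x _ => cut_nonneg h.hw ρ a x)
    ⟨x, Finset.mem_univ _, (cut_nonneg h.hw ρ a x).lt_of_ne' fun e => hx.ne' (h2 x e)⟩

theorem Pr.push_ac (h : Pr v w) (ρ : Ω → A) : Ent.AC (push v ρ) (push w ρ) := fun a e => by
  by_contra ha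
  have := (h.cut ha).hw.pos
  rw [push_eq, div_eq_zero_iff] at e
  exact e.elim this.ne' h.hw.pos.ne'

theorem push_mul_mean (hv : Wt v) (ρ : Ω → A) (a : A) (F : Ω → ℝ) :
    push v ρ a * mean (cut v ρ a) F = mean v fun x => (if ρ x = a then 1 else 0) * F x := by
  by_cases ha : push v ρ a = 0
  · rw [ha, zero_mul]
    rw [push_eq, div_eq_zero_iff, or_iff_left hv.pos.ne',
      Finset.sum_eq_zero_iff_of_nonneg fun x _ => cut_nonneg hv ρ a x] at ha
    rw [mean_eq_div, Finset.sum_eq_zero, zero_div]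
    intro x hx
    have : (v x * if ρ x = a then 1 else 0) = 0 := by simpa only [cut_eq] using ha x hx
    rw [← mul_assoc, this, zero_mul]
  · rw [cut_eq, mean_mul_weight _ _ _ hv.pos.ne']
    exact mul_div_cancel₀ _ ha

/-- **means are martingales under reveals** -/
theorem sum_push_mean (hv : Wt v) (ρ : Ω → A) (F : A → Ω → ℝ) :
    ∑ a, push v ρ a * mean (cut v ρ a) (F a) = mean v fun x => F (ρ x) x := by
  simp only [push_mul_mean hv, ← mean_sum, ite_mul, one_mul, zero_mul, Finset.sum_ite_eq,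
    Finset.mem_univ, if_true]

theorem prob_cut (hv : Wt v) (x : Ω) :
    prob (cut v ρ (ρ x)) x = prob v x / push v ρ (ρ x) := by
  rw [cut_eq, prob_mul_weight _ _ hv.pos.ne', if_pos rfl, mul_one, push]

theorem push_pos (hv : Wt v) {x : Ω} (hx : v x ≠ 0) : 0 < push v ρ (ρ x) := by
  rw [push_eq]
  refine div_pos (Finset.sum_pos' (fun x _ => cut_nonneg hv ρ _ x) ⟨x, Finset.mem_univ _, ?_⟩) hv.pos
  rw [cut, if_pos rfl]; exact hv.pos_of_ne x hx

/-- **chain rule** -/
theorem kl_cut (h : Pr v w) (ρ : Ω → A) :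
    kl v w = Ent.kl (push v ρ) (push w ρ) + ∑ a, push v ρ a * kl (cut v ρ a) (cut w ρ a) := by
  have e1 : Ent.kl (push v ρ) (push w ρ) =
      mean v fun x => log (push v ρ (ρ x) / push w ρ (ρ x)) := by
    rw [← sum_push_mean h.hv ρ fun a _ => log (push v ρ a / push w ρ a), Ent.kl]
    refine Finset.sum_congr rfl fun a _ => ?_
    by_cases ha : push v ρ a = 0
    · simp [ha]
    · rw [(wt_cut h.hv ha).mean_const]
  have e2 := sum_push_mean h.hv ρ fun a x => log (prob (cut v ρ a) x / prob (cut w ρ a) x)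
  rw [e1, show (∑ a, push v ρ a * kl (cut v ρ a) (cut w ρ a)) = _ from e2, ← mean_add]
  refine mean_congr_supp (f := fun x => log (prob v x / prob w x)) fun x hx => ?_
  obtain ⟨h1, h2⟩ := h.pos hx
  have a1 := push_pos (ρ := ρ) h.hv hx
  have a2 := push_pos (ρ := ρ) h.hw h2.ne'
  have a3 : 0 < prob v x := div_pos h1 h.hv.pos
  have a4 : 0 < prob w x := div_pos h2 h.hw.pos
  rw [prob_cut h.hv, prob_cut h.hw, ← log_mul (by positivity) (by positivity)]
  congr 1; field_simp

end fin

/-! ### the cube -/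

variable {n : ℕ} {v w u f g F G : Cube n → ℝ} {i j : Fin n} {x : Cube n}

/-- mass of the edge -/
def den (w : Cube n → ℝ) (i : Fin n) (x : Cube n) : ℝ := w (update x i true) + w (update x i false)

theorem OffAt.const {α : Type*} (i : Fin n) (c : α) : OffAt i fun _ : Cube n => c := fun _ _ => rfl

theorem OffAt.comp {α β : Type*} {u : Cube n → α} (h : OffAt i u) (k : α → β) :
    OffAt i fun x => k (u x) := fun x b => by simp only [h x b]

theorem OffAt.comp2 {α β γ : Type*} {u : Cube n → α} {u' : Cube n → β} (h : OffAt i u)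
    (h' : OffAt i u') (k : α → β → γ) : OffAt i fun x => k (u x) (u' x) := fun x b => by
  simp only [h x b, h' x b]

theorem OffAt.mul (h : OffAt i u) (h' : OffAt i f) : OffAt i fun x => u x * f x := h.comp2 h' _

theorem off_siteM (w F : Cube n → ℝ) (i : Fin n) : OffAt i (siteM w F i) := fun x b => by
  simp only [siteM, update_idem]

theorem off_den (w : Cube n → ℝ) (i : Fin n) : OffAt i (den w i) := fun x b => by
  simp only [den, update_idem]

theorem off_cm (w : Cube n → ℝ) (i : Fin n) : OffAt i (cm w i) := off_siteM _ _ _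

theorem off_chi (v w : Cube n → ℝ) (i : Fin n) : OffAt i (chi v w i) :=
  (off_cm v i).comp2 (off_cm w i) _

theorem off_kls (v w : Cube n → ℝ) (i : Fin n) : OffAt i (kls v w i) := fun x b => by
  simp only [kls, Ent.cnd_update]

theorem off_grad (G : Cube n → ℝ) (i : Fin n) : OffAt i fun x => grad G x i := fun x b =>
  Rec.grad_update G x i b

theorem le_den (hw : ∀ x, 0 ≤ w x) (i : Fin n) (x : Cube n) : w x ≤ den w i x := by
  have h1 := hw (update x i true)
  have h2 := hw (update x i false)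
  have e : w x = w (update x i (x i)) := by rw [update_eq_self]
  rw [e, den]
  cases x i <;> linarith

theorem den_pos (hw : Wt w) (i : Fin n) (hx : w x ≠ 0) : 0 < den w i x :=
  (hw.pos_of_ne x hx).trans_le (le_den hw.nn i x)

theorem wt_edge (hw : Wt w) (i : Fin n) (hx : w x ≠ 0) : Wt fun b => w (update x i b) :=
  ⟨fun _ => hw.nn _, by rw [Fintype.sum_bool]; exact den_pos hw i hx⟩

theorem siteM_eq_mean (w F : Cube n → ℝ) (i : Fin n) (x : Cube n) :
    siteM w F i x = mean (fun b => w (update x i b)) fun b => F (update x i b) := by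
  rw [mean_eq_div, Fintype.sum_bool, Fintype.sum_bool, siteM]

theorem cnd_eq_prob (w : Cube n → ℝ) (i : Fin n) (x : Cube n) :
    cnd w i x = prob fun b => w (update x i b) := by
  ext b; rw [cnd, prob, Fintype.sum_bool]

theorem kls_eq_kl (v w : Cube n → ℝ) (i : Fin n) (x : Cube n) :
    kls v w i x = kl (fun b => v (update x i b)) fun b => w (update x i b) := by
  rw [kls, cnd_eq_prob, cnd_eq_prob]; rfl

theorem Pr.edge (h : Pr v w) (i : Fin n) (hx : v x ≠ 0) :
    Pr (fun b => v (update x i b)) fun b => w (update x i b) :=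
  ⟨wt_edge h.hv i hx, wt_edge h.hw i (h.pos hx).2.ne', fun _ => h.ac _⟩

theorem Pr.kls_nonneg (h : Pr v w) (i : Fin n) (hx : v x ≠ 0) : 0 ≤ kls v w i x := by
  rw [kls_eq_kl]; exact (h.edge i hx).kl_nonneg

theorem Pr.As_nonneg (h : Pr v w) (hu : ∀ x, 0 ≤ u x) (i : Fin n) : 0 ≤ As u v w i := by
  have := mean_mono_supp h.hv (f := fun _ => 0) (g := fun x => u x * kls v w i x)
    fun x hx => mul_nonneg (hu x) (h.kls_nonneg i hx)
  rwa [h.hv.mean_const] at this

theorem Pr.As_mono (h : Pr v w) (hu : ∀ x, u x ≤ f x) (i : Fin n) : As u v w i ≤ As f v w i :=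
  mean_mono_supp h.hv fun x hx => mul_le_mul_of_nonneg_right (hu x) (h.kls_nonneg i hx)

theorem Pr.Ar_nonneg (h : Pr v w) {r : Fin n → Cube n → ℝ} (hr : ∀ i x, 0 ≤ r i x) : 0 ≤ Ar r v w :=
  Finset.sum_nonneg fun i _ => h.As_nonneg (hr i) i

theorem sum_off (hv : ∀ x, 0 ≤ v x) (hu : OffAt i u) (F : Cube n → ℝ) :
    ∑ x, v x * (u x * siteM v F i x) = ∑ x, v x * (u x * F x) := by
  rw [sum_flip i, sum_flip i fun x => v x * (u x * F x)]
  congr 1
  refine Finset.sum_congr rfl fun x _ => ?_
  simp only [hu x, off_siteM v F i x]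
  rcases eq_or_ne (v (update x i true) + v (update x i false)) 0 with h | h
  · have h1 : v (update x i true) = 0 := by linarith [hv (update x i true), hv (update x i false)]
    have h2 : v (update x i false) = 0 := by linarith
    simp [h1, h2]
  · rw [siteM]; field_simp

/-- **tower property** -/
theorem mean_off (hv : Wt v) (hu : OffAt i u) (F : Cube n → ℝ) :
    mean v (fun x => u x * siteM v F i x) = mean v fun x => u x * F x := by
  rw [mean_eq_div, mean_eq_div, sum_off hv.nn hu]

theorem siteM_lin (hw : Wt w) (hx : w x ≠ 0) (G : Cube n → ℝ) (i : Fin n) :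
    siteM w G i x = (G (update x i true) + G (update x i false)) / 2 + grad G x i * cm w i x := by
  have := (den_pos hw i hx).ne'
  simp only [cm, siteM, grad, incr, sv, update_self, spin, den] at this ⊢
  field_simp
  simp
  ring

theorem siteM_sub_siteM (h : Pr v w) (hx : v x ≠ 0) (G : Cube n → ℝ) (i : Fin n) :
    siteM v G i x - siteM w G i x = grad G x i * chi v w i x := by
  rw [siteM_lin h.hv hx, siteM_lin h.hw (h.pos hx).2.ne', chi]; ring

theorem abs_cm_le (hw : ∀ x, 0 ≤ w x) (i : Fin n) (x : Cube n) : |cm w i x| ≤ 1 := by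
  have h1 := hw (update x i true)
  have h2 := hw (update x i false)
  simp only [cm, siteM, sv, update_self, spin, if_true, Bool.false_eq_true, if_false, abs_div]
  refine div_le_one_of_le₀ ?_ (abs_nonneg _)
  rw [abs_of_nonneg (add_nonneg h1 h2), abs_le]
  constructor <;> linarith

theorem abs_chi_le (h : Pr v w) (i : Fin n) (x : Cube n) : |chi v w i x| ≤ 2 := by
  have := abs_sub (cm v i x) (cm w i x)
  linarith [abs_cm_le h.hv.nn i x, abs_cm_le h.hw.nn i x, show |chi v w i x| = |cm v i x - cm w i x| from rfl]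

theorem mean_cm (hv : Wt v) (hu : OffAt i u) :
    mean v (fun x => u x * cm v i x) = mean v fun x => u x * sv x i := mean_off hv hu _

/-- pointwise log-ratio of the conditional laws -/
def lr (v w : Cube n → ℝ) (i : Fin n) (x : Cube n) : ℝ := log (cnd v i x (x i) / cnd w i x (x i))

theorem kls_eq (v w : Cube n → ℝ) (i : Fin n) (x : Cube n) : kls v w i x = siteM v (lr v w i) i x := by
  rw [← Ent.mean_cnd, kls, Ent.kl, Chain22.mean]
  simp only [lr, Ent.cnd_update, update_self]

theorem As_eq (hv : Wt v) (hu : OffAt i u) (w : Cube n → ℝ) :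
    As u v w i = mean v fun x => u x * lr v w i x := by
  simp only [As, kls_eq, mean_off hv hu]

theorem lr_eq (h : Pr v w) (hx : v x ≠ 0) (i : Fin n) :
    lr v w i x = log (v x) - log (w x) - log (den v i x) + log (den w i x) := by
  obtain ⟨h1, h2⟩ := h.pos hx
  have h3 := den_pos h.hv i hx
  have h4 := den_pos h.hw i h2.ne'
  rw [lr, cnd, cnd, update_eq_self]
  change log (v x / den v i x / (w x / den w i x)) = _
  rw [log_div (by positivity) (by positivity), log_div h1.ne' h3.ne', log_div h2.ne' h4.ne']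
  ring

theorem den_mul (hw : Wt w) (hx : w x ≠ 0) (f : Cube n → ℝ) (i : Fin n) :
    den (fun x => w x * f x) i x = den w i x * siteM w f i x := by
  have := (den_pos hw i hx).ne'
  rw [siteM, den] at *
  rw [den, mul_div_cancel₀ _ this]

theorem siteM_pos (hw : Wt w) (hx : w x ≠ 0) (hf : ∀ x, 0 < f x) (i : Fin n) : 0 < siteM w f i x := by
  rw [siteM_eq_mean]; exact mean_pos' (wt_edge hw i hx) fun _ => hf _

theorem lr_mul (h : Pr v w) (hf : ∀ x, 0 < f x) (hg : ∀ x, 0 < g x) (hx : v x ≠ 0) (i : Fin n) :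
    lr (fun x => v x * f x) (fun x => w x * g x) i x = lr v w i x + log (f x) - log (g x) -
      log (siteM v f i x) + log (siteM w g i x) := by
  obtain ⟨h1, h2⟩ := h.pos hx
  rw [lr_eq (h.mul hf hg) (mul_pos h1 (hf x)).ne', lr_eq h hx, den_mul h.hv hx, den_mul h.hw h2.ne',
    log_mul h1.ne' (hf x).ne', log_mul h2.ne' (hg x).ne',
    log_mul (den_pos h.hv i hx).ne' (siteM_pos h.hv hx hf i).ne',
    log_mul (den_pos h.hw i h2.ne').ne' (siteM_pos h.hw h2.ne' hg i).ne']
  ring

theorem siteM_const (hw : Wt w) (hx : w x ≠ 0) (c : ℝ) (i : Fin n) : siteM w (fun _ => c) i x = c := by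
  rw [siteM_eq_mean]; exact (wt_edge hw i hx).mean_const c

/-- **tilt identity for `A`** -/
theorem As_wt (h : Pr v w) (hu : OffAt i u) (G : Cube n → ℝ) : As u v (wt w G) i =
    As u v w i - mean v fun x => u x * (G x - log (siteM w (fun x => exp (G x)) i x)) := by
  rw [As_eq h.hv hu, As_eq h.hv hu, ← mean_sub]
  refine mean_congr_supp fun x hx => ?_
  have := lr_mul h (f := fun _ => 1) (fun _ => one_pos) (fun x => exp_pos (G x)) hx i
  simp only [mul_one, log_one, add_zero, log_exp, siteM_const h.hv hx, sub_zero] at this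
  rw [show lr v (wt w G) i x = _ from this]
  ring

/-- cumulant generating function of a spin with mean `q` -/
def cg (q g : ℝ) : ℝ := log (cosh g + q * sinh g) - q * g

theorem log_siteM_exp (hw : Wt w) (hx : w x ≠ 0) (G : Cube n → ℝ) (i : Fin n) :
    log (siteM w (fun x => exp (G x)) i x) = siteM w G i x + cg (cm w i x) (grad G x i) := by
  have e : siteM w (fun x => exp (G x)) i x = exp ((G (update x i true) + G (update x i false)) / 2) *
      (cosh (grad G x i) + cm w i x * sinh (grad G x i)) := by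
    rw [siteM_lin hw hx, cosh_eq, sinh_eq]
    have e1 : exp (G (update x i true)) = exp ((G (update x i true) + G (update x i false)) / 2) *
        exp (grad G x i) := by rw [← exp_add, grad, incr]; congr 1; ring
    have e2 : exp (G (update x i false)) = exp ((G (update x i true) + G (update x i false)) / 2) *
        exp (-grad G x i) := by rw [← exp_add, grad, incr]; congr 1; ring
    have e3 : grad (fun x => exp (G x)) x i =
        (exp (G (update x i true)) - exp (G (update x i false))) / 2 := rfl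
    rw [e3, e1, e2]; ring
  have h0 := siteM_pos hw hx (fun x => exp_pos (G x)) i
  have h1 : 0 < cosh (grad G x i) + cm w i x * sinh (grad G x i) := by
    rw [e] at h0; exact (mul_pos_iff_of_pos_left (exp_pos _)).1 h0
  rw [e, log_mul (exp_pos _).ne' h1.ne', log_exp, siteM_lin hw hx, cg]
  ring

/-- **tilt identity for `A`**, gradient form -/
theorem As_wt' (h : Pr v w) (hu : OffAt i u) (G : Cube n → ℝ) : As u v (wt w G) i =
    As u v w i - mean v (fun x => u x * (grad G x i * chi v w i x)) +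
      mean v fun x => u x * cg (cm w i x) (grad G x i) := by
  have e1 : mean v (fun x => u x * (G x - log (siteM w (fun x => exp (G x)) i x))) =
      mean v (fun x => u x * G x) - mean v fun x => u x * log (siteM w (fun x => exp (G x)) i x) := by
    simp only [mul_sub, mean_sub]
  rw [As_wt h hu, e1, ← mean_off h.hv hu G, ← mean_sub, sub_add, ← mean_sub]
  congr 1
  refine mean_congr_supp fun x hx => ?_
  rw [log_siteM_exp h.hw (h.pos hx).2.ne', ← siteM_sub_siteM h hx]
  ring

theorem cg_den_pos {q : ℝ} (hq : |q| ≤ 1) (g : ℝ) : 0 < cosh g + q * sinh g := by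
  have h1 := abs_le.1 hq
  rw [cosh_eq, sinh_eq]
  have a := exp_pos g
  have b := exp_pos (-g)
  rcases le_total 0 q with h | h <;> nlinarith

theorem hasDerivAt_cg {q : ℝ} (hq : |q| ≤ 1) (g : ℝ) :
    HasDerivAt (cg q) ((sinh g + q * cosh g) / (cosh g + q * sinh g) - q) g := by
  have := (((hasDerivAt_cosh g).add ((hasDerivAt_sinh g).const_mul q)).log
    (cg_den_pos hq g).ne').sub ((hasDerivAt_id g).const_mul q)
  exact this.congr_deriv (by simp)

theorem hasDerivAt_cg' {q : ℝ} (hq : |q| ≤ 1) (g : ℝ) :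
    HasDerivAt (fun g => (sinh g + q * cosh g) / (cosh g + q * sinh g) - q)
      ((1 - q ^ 2) / (cosh g + q * sinh g) ^ 2) g := by
  have := (((hasDerivAt_sinh g).add ((hasDerivAt_cosh g).const_mul q)).div
    ((hasDerivAt_cosh g).add ((hasDerivAt_sinh g).const_mul q)) (cg_den_pos hq g).ne').sub_const q
  refine this.congr_deriv ?_
  simp only [Pi.add_apply]
  congr 1
  linear_combination (1 - q ^ 2) * cosh_sq g

theorem cg_le_of {q g B : ℝ} (hq : |q| ≤ 1)
    (hB : ∀ t, |t| ≤ |g| → (1 - q ^ 2) / (cosh t + q * sinh t) ^ 2 ≤ B) : cg q g ≤ B * g ^ 2 / 2 := by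
  have key : ∀ e : ℝ, (e = 1 ∨ e = -1) → 0 ≤ e * g → cg q g ≤ B * g ^ 2 / 2 := by
    intro e he hg
    have he2 : e * e = 1 := by rcases he with rfl | rfl <;> norm_num
    have hab : ∀ t, |e * t| = |t| := fun t => by rcases he with rfl | rfl <;> simp
    have d1 : ∀ t, HasDerivAt (fun t => B * t - e * ((sinh (e * t) + q * cosh (e * t)) /
        (cosh (e * t) + q * sinh (e * t)) - q))
        (B - (1 - q ^ 2) / (cosh (e * t) + q * sinh (e * t)) ^ 2) t := fun t => by
      have := ((hasDerivAt_id t).const_mul B).sub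
        (((hasDerivAt_cg' hq (e * t)).comp t ((hasDerivAt_id t).const_mul e)).const_mul e)
      refine this.congr_deriv ?_
      rw [mul_one, mul_one, mul_left_comm, he2, mul_one]
    have d2 : ∀ t, HasDerivAt (fun t => B * t ^ 2 / 2 - cg q (e * t))
        (B * t - e * ((sinh (e * t) + q * cosh (e * t)) / (cosh (e * t) + q * sinh (e * t)) - q)) t :=
      fun t => by
      have := (((hasDerivAt_pow 2 t).const_mul B).div_const 2).sub
        ((hasDerivAt_cg hq (e * t)).comp t ((hasDerivAt_id t).const_mul e))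
      refine this.congr_deriv ?_
      simp; ring
    have m1 := monotoneOn_of_deriv_nonneg (convex_Icc 0 (e * g))
      (fun t _ => (d1 t).continuousAt.continuousWithinAt)
      (fun t _ => (d1 t).differentiableAt.differentiableWithinAt) fun t ht => by
        rw [(d1 t).deriv, sub_nonneg]
        rw [interior_Icc] at ht
        refine hB _ ?_
        rw [hab, ← hab g, abs_of_nonneg ht.1.le, abs_of_nonneg hg]
        exact ht.2.le
    have m2 := monotoneOn_of_deriv_nonneg (convex_Icc 0 (e * g))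
      (fun t _ => (d2 t).continuousAt.continuousWithinAt)
      (fun t _ => (d2 t).differentiableAt.differentiableWithinAt) fun t ht => by
        rw [(d2 t).deriv]
        rw [interior_Icc] at ht
        have := m1 ⟨le_rfl, hg⟩ ⟨ht.1.le, ht.2.le⟩ ht.1.le
        simpa using this
    have := m2 ⟨le_rfl, hg⟩ ⟨hg, le_rfl⟩ hg
    simp only [← mul_assoc, he2, one_mul, mul_zero, cg, cosh_zero, sinh_zero, add_zero, log_one] at this
    have e3 : (e * g) ^ 2 = g ^ 2 := by rw [mul_pow, sq e, he2, one_mul]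
    rw [e3] at this
    rw [cg]
    nlinarith
  rcases le_total 0 g with h | h
  · exact key 1 (.inl rfl) (by linarith)
  · exact key (-1) (.inr rfl) (by linarith)

theorem cg_le {q : ℝ} (hq : |q| ≤ 1) (g : ℝ) : cg q g ≤ g ^ 2 / 2 := by
  simpa using cg_le_of (g := g) (B := 1) hq fun t _ => by
    rw [div_le_one (pow_pos (cg_den_pos hq t) 2)]
    nlinarith [sq_nonneg (sinh t + q * cosh t), cosh_sq t]

theorem cg_le' {q : ℝ} (hq : |q| ≤ 1) (g : ℝ) : cg q g ≤ (1 - q ^ 2) * exp (2 * |g|) * g ^ 2 / 2 := by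
  refine cg_le_of hq fun t ht => ?_
  have h0 : 0 ≤ 1 - q ^ 2 := by nlinarith [abs_le.1 hq]
  have h1 : exp (-|g|) ≤ cosh t + q * sinh t := by
    have a := exp_le_exp.2 ((neg_le_neg ht).trans (neg_abs_le t))
    have b := exp_le_exp.2 ((neg_le_neg ht).trans (neg_le_neg (le_abs_self t)))
    rw [cosh_eq, sinh_eq]
    nlinarith [abs_le.1 hq]
  rw [div_eq_mul_inv]
  refine mul_le_mul_of_nonneg_left ?_ h0
  rw [inv_le_comm₀ (pow_pos (cg_den_pos hq t) 2) (exp_pos _), ← exp_neg,
    show -(2 * |g|) = -|g| + -|g| by ring, exp_add, ← sq]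
  exact pow_le_pow_left₀ (exp_pos _).le h1 2

theorem cg_nonneg {q : ℝ} (hq : |q| ≤ 1) (g : ℝ) : 0 ≤ cg q g := by
  have h := abs_le.1 hq
  have := convexOn_exp.2 (Set.mem_univ g) (Set.mem_univ (-g)) (show 0 ≤ (1 + q) / 2 by linarith)
    (show 0 ≤ (1 - q) / 2 by linarith) (by ring)
  simp only [smul_eq_mul] at this
  rw [cg, sub_nonneg, le_log_iff_exp_le (cg_den_pos hq g), cosh_eq, sinh_eq]
  rw [show (1 + q) / 2 * g + (1 - q) / 2 * -g = q * g by ring] at this
  linarith

theorem As_wt_le (h : Pr v w) (hu : OffAt i u) (h0 : ∀ x, 0 ≤ u x) (G : Cube n → ℝ) :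
    As u v (wt w G) i ≤ As u v w i - mean v (fun x => u x * (grad G x i * chi v w i x)) +
      mean v fun x => u x * (grad G x i ^ 2 / 2) := by
  rw [As_wt' h hu]
  exact add_le_add le_rfl (h.hv.mean_mono fun x =>
    mul_le_mul_of_nonneg_left (cg_le (abs_cm_le h.hw.nn i x) _) (h0 x))

theorem As_wt_le' (h : Pr v w) (hu : OffAt i u) (h0 : ∀ x, 0 ≤ u x) (G : Cube n → ℝ) :
    As u v (wt w G) i ≤ As u v w i - mean v (fun x => u x * (grad G x i * chi v w i x)) +
      mean v fun x => u x * ((1 - cm w i x ^ 2) * exp (2 * |grad G x i|) * grad G x i ^ 2 / 2) := by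
  rw [As_wt' h hu]
  exact add_le_add le_rfl (h.hv.mean_mono fun x =>
    mul_le_mul_of_nonneg_left (cg_le' (abs_cm_le h.hw.nn i x) _) (h0 x))

theorem As_wt_ge (h : Pr v w) (hu : OffAt i u) (h0 : ∀ x, 0 ≤ u x) (G : Cube n → ℝ) :
    As u v w i - mean v (fun x => u x * (grad G x i * chi v w i x)) ≤ As u v (wt w G) i := by
  rw [As_wt' h hu]
  exact le_add_of_nonneg_right (h.hv.mean_nonneg fun x =>
    mul_nonneg (h0 x) (cg_nonneg (abs_cm_le h.hw.nn i x) _))

/-- Pinsker at a site -/
theorem chi_sq_le (h : Pr v w) (i : Fin n) (hx : v x ≠ 0) : chi v w i x ^ 2 / 2 ≤ kls v w i x := by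
  have h1 := mean_le_kl (h.edge i hx) fun b => chi v w i x * sv (update x i b) i
  rw [← kls_eq_kl, ← siteM_eq_mean v (fun z => chi v w i x * sv z i),
    ← siteM_eq_mean w (fun z => exp (chi v w i x * sv z i)),
    log_siteM_exp h.hw (h.pos hx).2.ne'] at h1
  have h2 := siteM_sub_siteM h hx (fun z => chi v w i x * sv z i) i
  have h3 : grad (fun z => chi v w i x * sv z i) x i = chi v w i x := by
    simp only [grad, incr, sv, update_self, spin]; simp
  rw [h3] at h1 h2
  nlinarith [cg_le (abs_cm_le h.hw.nn i x) (chi v w i x)]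

/-! ### reveals that do not involve the site -/

variable {A : Type*} [Fintype A] [DecidableEq A] {ρ : Cube n → A}

theorem cnd_cut (hρ : OffAt j ρ) (w : Cube n → ℝ) (x : Cube n) :
    cnd (cut w ρ (ρ x)) j x = cnd w j x := by
  ext b; simp only [cnd, cut, hρ x, if_true]

theorem siteM_cut (hρ : OffAt j ρ) (w F : Cube n → ℝ) (x : Cube n) :
    siteM (cut w ρ (ρ x)) F j x = siteM w F j x := by simp only [siteM, cut, hρ x, if_true]

/-- `A_j` is a martingale under a reveal which does not involve `j` (weights may be re-chosen) -/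
theorem As_cut (hv : Wt v) (hρ : OffAt j ρ) (u : A → Cube n → ℝ) (w : Cube n → ℝ) :
    ∑ a, push v ρ a * As (u a) (cut v ρ a) (cut w ρ a) j = As (fun x => u (ρ x) x) v w j := by
  refine (sum_push_mean hv ρ fun a x => u a x * kls (cut v ρ a) (cut w ρ a) j x).trans ?_
  simp only [As, kls, cnd_cut hρ]

theorem Cs_cut (hv : Wt v) (hρ : OffAt j ρ) (u : A → Cube n → ℝ) :
    ∑ a, push v ρ a * Cs (u a) (cut v ρ a) j = Cs (fun x => u (ρ x) x) v j := by
  refine (sum_push_mean hv ρ fun a x => u a x * (1 - cm (cut v ρ a) j x ^ 2)).trans ?_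
  simp only [Cs, cm, siteM_cut hρ]

/-- a pinned site carries nothing -/
theorem As_pinned (h : Pr v w) {b : Bool} (hb : ∀ x, w x ≠ 0 → x i = b) (u : Cube n → ℝ) :
    As u v w i = 0 := by
  rw [As, mean_congr_supp (g := fun _ => 0), h.hv.mean_const]
  intro x hx
  have h2 := (h.pos hx).2.ne'
  have e : ∀ z : Cube n → ℝ, z x ≠ 0 → z (update x i (!b)) = 0 → ∀ c, cnd z i x c = if c = b then 1 else 0 := by
    intro z h1 h0 c
    have h3 : z (update x i b) ≠ 0 := by rwa [← hb x h2, update_eq_self]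
    cases b <;> cases c <;> simp_all [cnd]
  have h0 : w (update x i (!b)) = 0 := by
    by_contra h0
    simpa using hb _ h0
  have : cnd v i x = cnd w i x := by
    ext c; rw [e v hx (h.ac _ h0), e w h2 h0]
  rw [kls, this, Ent.kl_self, mul_zero]

theorem Cs_eq (hv : Wt v) (hu : OffAt i u) :
    Cs u v i = mean v fun x => u x * (sv x i - cm v i x) ^ 2 := by
  have e : ∀ x, u x * (sv x i - cm v i x) ^ 2 =
      u x * (1 + cm v i x ^ 2) - 2 * (u x * cm v i x * sv x i) := fun x => by
    linear_combination u x * Rec.sv_mul_self x i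
  simp only [e, mean_sub, mean_const_mul, ← mean_cm hv (hu.mul (off_cm v i))]
  rw [← mean_const_mul, ← mean_sub, Cs]
  congr 1; ext x; ring

theorem Cs_le (hv : Wt v) (hu : OffAt i u) (h0 : ∀ x, 0 ≤ u x) {c : Cube n → ℝ} (hc : OffAt i c) :
    Cs u v i ≤ mean v fun x => u x * (sv x i - c x) ^ 2 := by
  have e : ∀ x, u x * (sv x i - c x) ^ 2 =
      u x * (1 + c x ^ 2) - 2 * (u x * c x * sv x i) := fun x => by
    linear_combination u x * Rec.sv_mul_self x i
  simp only [e, mean_sub, mean_const_mul, ← mean_cm hv (hu.mul hc)]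
  rw [← mean_const_mul, ← mean_sub, Cs]
  exact hv.mean_mono fun x => by nlinarith [mul_nonneg (h0 x) (sq_nonneg (c x - cm v i x))]

theorem Cs_nonneg (hv : Wt v) (h0 : ∀ x, 0 ≤ u x) (i : Fin n) : 0 ≤ Cs u v i :=
  hv.mean_nonneg fun x => mul_nonneg (h0 x) (by nlinarith [abs_le.1 (abs_cm_le hv.nn i x)])

/-- `Cs` is a supermartingale under every reveal -/
theorem Cs_cut_le (hv : Wt v) (hu : OffAt i u) (h0 : ∀ x, 0 ≤ u x) (ρ : Cube n → A) :
    ∑ a, push v ρ a * Cs u (cut v ρ a) i ≤ Cs u v i := by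
  rw [Cs_eq hv hu, ← sum_push_mean hv ρ fun _ x => u x * (sv x i - cm v i x) ^ 2]
  refine Finset.sum_le_sum fun a _ => ?_
  by_cases ha : push v ρ a = 0
  · simp [ha]
  · exact mul_le_mul_of_nonneg_left (Cs_le (wt_cut hv ha) hu h0 (off_cm v i)) (push_nonneg hv ρ a)

end Crest.Agent.T157.Ta
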