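import Crest.Agent.T157.Xtr_25
import Crest.Agent.T157.TaA_40
import Crest.Agent.T157.ConcM_16

/-!
# Row 157, block B/S1, section 4 (helper6): (N), the distance of the field to a set of mass `1/2`
-/

set_option autoImplicit false

noncomputable section

namespace Crest.Agent.T157.S1n

open MeasureTheory ProbabilityTheory Real Matrix
open Crest.Agent.T157.E Crest.Agent.T157.SL Crest.Agent.T157.Conc
open Crest.Agent.T157.Rec (grad fl sv_fl_sub sv_mul_self)
open Crest.Agent.T157.Xt (H1 Lip2 lip2_iff)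

variable {n : ℕ} {d F : (Fin n → ℝ) → ℝ} {r K L : ℝ} {v w : Cube n → ℝ}

lemma sum_abs_le (z : Fin n → ℝ) : ∑ i, |z i| ≤ n * ‖z‖ := by
  simpa using Finset.sum_le_card_nsmul Finset.univ (fun i => |z i|) ‖z‖ fun i _ => norm_le_pi_norm z i

lemma mg_exp (h : ELip L F) (s : ℝ) : MG fun z => exp (s * F z) := by
  have hc := h.continuous
  refine ⟨by fun_prop, exp (|s| * |F 0|), |s| * (|L| * n), by positivity, by positivity, fun z => ?_⟩
  rw [abs_of_pos (exp_pos _), ← exp_add, exp_le_exp, mul_assoc, ← mul_add]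
  refine (le_abs_self _).trans ((abs_mul _ _).trans_le (mul_le_mul_of_nonneg_left ?_ (abs_nonneg s)))
  refine (h.abs_le z).trans ?_
  rw [mul_assoc]
  gcongr
  exact sum_abs_le z

lemma mg_lip (h : ELip L F) : MG F :=
  ((mg_exp h 1).add (mg_exp h (-1))).of_le h.continuous.measurable fun z => by
    have h1 := add_one_le_exp (1 * F z)
    have h2 := add_one_le_exp (-1 * F z)
    have h3 := exp_pos (1 * F z)
    have h4 := exp_pos (-1 * F z)
    exact (abs_le.2 ⟨by linarith, by linarith⟩).trans (le_abs_self _)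

/-- Cameron–Martin density -/
def lk (h z : Fin n → ℝ) : ℝ := exp (z ⬝ᵥ h - h ⬝ᵥ h / 2)

lemma mg_lk (h : Fin n → ℝ) : MG (lk h) := by
  have := mg_exp ((elip_dot h).sub_const (h ⬝ᵥ h / 2)) 1
  simp only [one_mul] at this
  convert this using 3 with z
  rw [lk, dotProduct_comm]; rfl

lemma int_lk (h h' : Fin n → ℝ) : ∫ z, lk h (h' + z) ∂Gs (Fin n) = exp (h' ⬝ᵥ h) := by
  have e : ∀ z, lk h (h' + z) = exp (h' ⬝ᵥ h) * (exp (z ⬝ᵥ h - h ⬝ᵥ h / 2) * 1) := fun z => by
    rw [lk, mul_one, ← exp_add, add_dotProduct]; congr 1; ring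
  simp only [e, integral_const_mul, ← cm h fun _ => 1]
  simp

/-- Bessel's inequality for shifts along orthogonal directions -/
lemma bessel (hF : MG F) (h : Fin n → Fin n → ℝ) {c : ℝ}
    (hh : ∀ j k, h j ⬝ᵥ h k = if j = k then c else 0) :
    ∑ j, (∫ z, F (h j + z) ∂Gs (Fin n) - ∫ z, F z ∂Gs (Fin n)) ^ 2 ≤
      exp c * ∫ z, F z ^ 2 ∂Gs (Fin n) := by
  set a : Fin n → ℝ := fun j => ∫ z, F (h j + z) ∂Gs (Fin n) - ∫ z, F z ∂Gs (Fin n) with ha
  set Y : (Fin n → ℝ) → ℝ := fun z => ∑ j, a j * (lk (h j) z - 1) with hY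
  have mY : MG Y := .sum _ fun j _ => ((mg_lk _).sub (.const 1)).const_mul _
  have key : ∀ G, MG G → ∫ z, Y z * G z ∂Gs (Fin n) =
      ∑ j, a j * (∫ z, G (h j + z) ∂Gs (Fin n) - ∫ z, G z ∂Gs (Fin n)) := fun G hG => by
    simp only [hY, Finset.sum_mul, mul_assoc]
    rw [integral_finsetSum _ fun j _ => ((((mg_lk _).sub (.const 1)).mul hG).const_mul _).int]
    refine Finset.sum_congr rfl fun j _ => ?_
    simp only [integral_const_mul, sub_mul, one_mul]
    rw [integral_sub ((mg_lk _).mul hG).int hG.int, cm]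
    rfl
  have e : ∀ h', ∫ z, Y (h' + z) ∂Gs (Fin n) = ∑ k, a k * (exp (h' ⬝ᵥ h k) - 1) := fun h' => by
    have m : ∀ k, Integrable (fun z => lk (h k) (h' + z)) (Gs (Fin n)) := fun k => by
      simpa using ((mg_lk (h k)).affine h' 1).int
    simp only [hY]
    rw [integral_finsetSum (f := fun k z => a k * (lk (h k) (h' + z) - 1)) _
      fun k _ => ((m k).sub (integrable_const _)).const_mul _]
    refine Finset.sum_congr rfl fun k _ => ?_
    rw [integral_const_mul, integral_sub (m k) (integrable_const _), int_lk]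
    simp
  have h1 := key F hF
  have h2 := key Y mY
  have e0 := e 0
  simp only [zero_add, zero_dotProduct, exp_zero, sub_self, mul_zero, Finset.sum_const_zero] at e0
  simp only [e, e0, hh, apply_ite exp, exp_zero, ite_sub, sub_self, mul_ite, mul_zero,
    Finset.sum_ite_eq, Finset.mem_univ, if_true, sub_zero, ← mul_assoc, ← Finset.sum_mul] at h2
  have c0 := exp_pos c
  have h3 := integral_mono (μ := Gs (Fin n)) (f := fun z => 2 * exp c * (Y z * F z))
    (g := fun z => Y z * Y z + exp c ^ 2 * (F z * F z)) ((mY.mul hF).const_mul _).int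
    ((mY.mul mY).add ((hF.mul hF).const_mul _)).int fun z => by
      simp only
      nlinarith [sq_nonneg (Y z - exp c * F z)]
  rw [integral_add (mY.mul mY).int ((hF.mul hF).const_mul _).int, integral_const_mul,
    integral_const_mul, h1, h2] at h3
  have h4 : 0 ≤ ∑ j, a j * a j := Finset.sum_nonneg fun _ _ => mul_self_nonneg _
  simp only [sq]
  refine le_of_mul_le_mul_left ?_ c0
  change _ * ∑ j, a j * a j ≤ _ at h3 ⊢
  nlinarith

/-- the average over the noise -/
def gm (r : ℝ) (d : (Fin n → ℝ) → ℝ) (x : Cube n) : ℝ := ∫ z, d (r • sv x + √r • z) ∂Gs (Fin n)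

lemma elip_aff (hd : ELip 1 d) (u : Fin n → ℝ) (r : ℝ) : ELip √r fun z => d (u + √r • z) :=
  fun z z' => (hd _ _).trans_eq (by
    rw [add_sub_add_left_eq_sub, ← smul_sub, en_smul, abs_of_nonneg (sqrt_nonneg r), one_mul])

lemma sq_le (hd : ELip 1 d) (hr : 0 ≤ r) (x : Cube n) (c : ℝ) :
    ∫ z, (d (r • sv x + √r • z) - c) ^ 2 ∂Gs (Fin n) ≤ r + (gm r d x - c) ^ 2 := by
  have h := elip_aff hd (r • sv x) r
  have h1 : ∫ z, (d (r • sv x + √r • z) - gm r d x) ^ 2 ∂Gs (Fin n) ≤ √r ^ 2 := subG_sq_le (subG_lip h)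
  have m := mg_lip (h.sub_const (gm r d x))
  have e : ∀ z, (d (r • sv x + √r • z) - c) ^ 2 = (d (r • sv x + √r • z) - gm r d x) ^ 2 +
      (2 * (gm r d x - c) * (d (r • sv x + √r • z) - gm r d x) + (gm r d x - c) ^ 2) := fun z => by ring
  have i1 : Integrable (fun z => (d (r • sv x + √r • z) - gm r d x) ^ 2) (Gs (Fin n)) := by
    simpa only [sq] using (m.mul m).int
  have i2 := (m.const_mul (2 * (gm r d x - c))).int
  have i3 : Integrable (fun z => 2 * (gm r d x - c) * (d (r • sv x + √r • z) - gm r d x) +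
      (gm r d x - c) ^ 2) (Gs (Fin n)) := i2.add (integrable_const _)
  simp only [e]
  rw [integral_add i1 i3, integral_add i2 (integrable_const _), integral_const_mul,
    integral_sub h.integrable (integrable_const _)]
  rw [sq_sqrt hr] at h1
  simpa [gm] using h1

/-- the square gradient of the average -/
lemma flip_le (hd : ELip 1 d) (hr : 0 ≤ r) (x : Cube n) :
    ∑ j, (gm r d (fl x j) - gm r d x) ^ 2 ≤ r * exp (4 * r) := by
  have h := elip_aff hd (r • sv x) r
  have h1 := bessel (mg_lip (h.sub_const (gm r d x))) (fun j => Pi.single j (-2 * √r * sv x j))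
    (c := 4 * r) fun j k => by
      rw [single_dotProduct, Pi.single_apply]
      split_ifs with e
      · subst e
        linear_combination 4 * (sv x j * sv x j) * mul_self_sqrt hr + 4 * r * sv_mul_self x j
      · exact mul_zero _
  have h2 := sq_le hd hr x (gm r d x)
  have e : ∀ j z, r • sv x + √r • (Pi.single j (-2 * √r * sv x j) + z) =
      r • sv (fl x j) + √r • z := fun j z => by
    rw [eq_add_of_sub_eq' (sv_fl_sub x j), smul_add, smul_add, add_assoc, ← Pi.single_smul,
      ← Pi.single_smul, smul_eq_mul, smul_eq_mul]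
    congr 3
    linear_combination -2 * sv x j * mul_self_sqrt hr
  have e2 : ∀ y c, ∫ z, (d (r • sv y + √r • z) - c) ∂Gs (Fin n) = gm r d y - c := fun y c => by
    rw [integral_sub (elip_aff hd _ r).integrable (integrable_const _)]
    simp [gm]
  simp only [e, e2, sub_self, sub_zero] at h1
  rw [sub_self] at h2
  refine h1.trans ?_
  rw [mul_comm]
  exact mul_le_mul_of_nonneg_right (by simpa using h2) (exp_pos _).le

lemma lip2_gm (hd : ELip 1 d) (hr : 0 ≤ r) : Lip2 √(r * exp (4 * r)) (gm r d) :=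
  (lip2_iff (sqrt_nonneg _)).2 fun x => by
    rw [sq_sqrt (by positivity)]
    exact le_trans (le_of_eq (Finset.sum_congr rfl fun j _ => by ring)) (flip_le hd hr x)

/-- the constant of (N) -/
def CN (K r : ℝ) : ℝ := K * (r * exp (4 * r)) + r + 1

lemma CN_mono {K r S : ℝ} (hK : 0 ≤ K) (hr : 0 ≤ r) (h : r ≤ S) : CN K r ≤ CN K S := by
  have := hr.trans h
  unfold CN; gcongr

lemma one_le_CN (hK : 0 ≤ K) (hr : 0 ≤ r) : 1 ≤ CN K r := le_add_of_nonneg_left (by positivity)

/-- Euclidean distance to a set -/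
def dS (G : Set (Fin n → ℝ)) (y : Fin n → ℝ) : ℝ :=
  Metric.infDist (WithLp.toLp 2 y : EuclideanSpace ℝ (Fin n)) (WithLp.toLp 2 '' G)

lemma dS_nonneg (G : Set (Fin n → ℝ)) (y : Fin n → ℝ) : 0 ≤ dS G y := Metric.infDist_nonneg

lemma dS_zero {G : Set (Fin n → ℝ)} : ∀ y ∈ G, dS G y = 0 := fun _ hy =>
  Metric.infDist_zero_of_mem (Set.mem_image_of_mem _ hy)

lemma elip_dS (G : Set (Fin n → ℝ)) : ELip 1 (dS G) := fun y y' => by
  have := (Metric.lipschitz_infDist_pt (WithLp.toLp 2 '' G : Set (EuclideanSpace ℝ (Fin n)))).dist_le_mul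
    (WithLp.toLp 2 y) (WithLp.toLp 2 y')
  rw [Real.dist_eq, dist_eq_norm] at this
  simpa only [dS, en_eq_norm, WithLp.toLp_sub, NNReal.coe_one] using this

/-- a near point of the set -/
lemma exists_near {G : Set (Fin n → ℝ)} (hG : G.Nonempty) (y : Fin n → ℝ) :
    ∃ y0 ∈ G, (y - y0) ⬝ᵥ (y - y0) ≤ 2 * dS G y ^ 2 + 1 := by
  obtain ⟨_, ⟨y0, h0, rfl⟩, h⟩ := (Metric.infDist_lt_iff (hG.image (WithLp.toLp 2))).1
    (lt_add_of_pos_right (dS G y) one_half_pos)
  rw [dist_eq_norm, ← WithLp.toLp_sub, ← en_eq_norm] at h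
  have h1 := pow_le_pow_left₀ (en_nonneg _) h.le 2
  rw [en_sq] at h1
  refine ⟨y0, h0, ?_⟩
  simp only [dotProduct, ← sq]
  nlinarith [sq_nonneg (dS G y - 1 / 2)]

variable (hw : ∀ x, 0 < w x) (h : H1 w K) (hK : 0 < K) (hd : ELip 1 d) (hr : 0 ≤ r)
  {G : Set (Fin n → ℝ)} (hG : ∀ y ∈ G, d y = 0) (hm : 1 / 2 ≤ (law sv w r).real G)
include hw h hK hd hr

lemma cen (hv : Wt v) : mean v (fun x => (gm r d x - mean w (gm r d)) ^ 2) ≤
    K * (r * exp (4 * r)) * (8 * kl v w + 3) := by
  have := h.cen hw hK (lip2_gm hd hr) hv.isP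
  rwa [sq_sqrt (by positivity)] at this

omit hK in
lemma mgf {s : ℝ} (hs : 0 ≤ s) : slE sv w r (fun _ y => exp (s * d y)) ≤
    exp (s * mean w (gm r d) + CN K r * s ^ 2) := by
  have wt : Wt w := .of_pos hw
  have h1 : ∀ x, ∫ z, exp (s * d (r • sv x + √r • z)) ∂Gs (Fin n) ≤
      exp (r * s ^ 2 / 2) * exp (s * gm r d x) := fun x => by
    have h2 := mgf_lip (elip_aff hd (r • sv x) r) s
    simp only [mul_sub, exp_sub, integral_div, sq_sqrt hr] at h2
    exact (div_le_iff₀ (exp_pos _)).1 h2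
  have h3 : mean w (fun x => exp (s * gm r d x)) ≤ _ := (log_le_iff_le_exp
    (Ent.mean_exp_pos wt.isP _)).1 (h _ _ (sqrt_nonneg _) (lip2_gm hd hr).vp s hs)
  rw [sq_sqrt (by positivity)] at h3
  refine (wt.mean_mono h1).trans ?_
  rw [mean_const_mul]
  refine (mul_le_mul_of_nonneg_left h3 (exp_pos _).le).trans ?_
  rw [← exp_add, exp_le_exp, CN]
  change _ + (s * mean w (gm r d) + _) ≤ _
  nlinarith [mul_nonneg hr (sq_nonneg s)]

include hG hm

lemma mean_sq : mean w (gm r d) ^ 2 ≤ 2 * (r + 3 * (K * (r * exp (4 * r)))) := by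
  have wt : Wt w := .of_pos hw
  have := isProb_law (φ := sv) (s := r) wt
  have h4 := cen hw h hK hd hr wt
  rw [show kl w w = 0 from Ent.kl_self _] at h4
  set m := mean w (gm r d) with hm'
  have ms : MeasurableSet {y | d y = 0} := hd.continuous.measurable (measurableSet_singleton 0)
  have h1 := hm.trans (measureReal_mono (s₂ := {y | d y = 0}) hG)
  have m2 := mg_lip (hd.sub_const m)
  have h2 := slE_mono (φ := sv) (s := r) (F := fun _ => {y | d y = 0}.indicator fun _ => m ^ 2)
    (F' := fun _ y => (d y - m) * (d y - m)) wt (.of_mg fun _ => (MG.const _).indicator ms)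
    (.of_mg fun _ => m2.mul m2) fun _ y => by
      by_cases e : d y = 0
      · rw [Set.indicator_of_mem (by exact e), e]; linarith
      · rw [Set.indicator_of_notMem (by exact e)]; exact mul_self_nonneg _
  rw [slE_indicator ms, mean_const_mul, ← law_real wt ms, slE_eq_mean] at h2
  have h3 := wt.mean_mono fun x => sq_le hd hr x m
  rw [mean_add, wt.mean_const] at h3
  simp only [sq (d _ - m)] at h3
  nlinarith [mul_le_mul_of_nonneg_left h1 (sq_nonneg m)]

/-- **(N)**, second moment under every law -/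
theorem n_sq (hv : Wt v) : slE sv v r (fun _ y => d y ^ 2) ≤ 20 * CN K r * (kl v w + 1) := by
  have h1 := mean_sq hw h hK hd hr hG hm
  have h2 := cen hw h hK hd hr hv
  have h3 := hv.mean_mono fun x => (sq_le hd hr x 0).trans (show _ ≤ (r + 2 * mean w (gm r d) ^ 2) +
    2 * (gm r d x - mean w (gm r d)) ^ 2 by nlinarith [sq_nonneg (gm r d x - 2 * mean w (gm r d))])
  have h4 : 0 ≤ kl v w := Ta.Pr.kl_nonneg ⟨hv, .of_pos hw, fun x e => absurd e (hw x).ne'⟩
  have h5 : 0 ≤ K * (r * exp (4 * r)) := by positivity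
  simp only [sub_zero] at h3
  rw [mean_add, hv.mean_const, mean_const_mul] at h3
  rw [slE_eq_mean, CN]
  nlinarith [mul_nonneg h5 h4, mul_nonneg hr h4]

/-- **(N)**, tail under the reference law -/
theorem n_tail (d0 : ∀ y, 0 ≤ d y) (t : ℝ) :
    (law sv w r).real {y | t ≤ d y ^ 2} ≤ exp (2 - t / (8 * CN K r)) := by
  have wt : Wt w := .of_pos hw
  have := isProb_law (φ := sv) (s := r) wt
  have C1 := one_le_CN hK.le hr
  rcases le_total t 0 with t0 | t0
  · exact measureReal_le_one.trans (one_le_exp (by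
      linarith [div_nonpos_of_nonpos_of_nonneg t0 (show 0 ≤ 8 * CN K r by linarith)]))
  set C := CN K r with hC
  set s := √t / (4 * C) with hs
  have s0 : 0 ≤ s := by positivity
  have h1 := measure_ge_le_exp_mul_mgf (X := d) (μ := law sv w r) √t s0 (mg_exp hd s).int_law
  rw [ProbabilityTheory.mgf, integral_law wt (mg_exp hd s).meas (.of_mg fun _ => mg_exp hd s)] at h1
  refine (measureReal_mono fun y hy => ?_).trans (h1.trans ?_)
  · exact sqrt_le_iff.2 ⟨d0 y, hy⟩
  refine (mul_le_mul_of_nonneg_left (mgf hw h hd hr s0) (exp_pos _).le).trans ?_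
  rw [← exp_add, exp_le_exp, ← hC]
  have h2 : mean w (gm r d) ^ 2 ≤ 8 * C := by
    have := mean_sq hw h hK hd hr hG hm
    have e : C = K * (r * exp (4 * r)) + r + 1 := hC
    have : 0 ≤ K * (r * exp (4 * r)) := by positivity
    linarith
  have e1 : √t = 4 * C * s := by rw [hs]; field_simp
  have e2 : t / (8 * C) = 2 * C * s ^ 2 := by
    rw [← mul_self_sqrt t0, e1]; field_simp; ring
  have h3 : s * mean w (gm r d) ≤ C * s ^ 2 + 2 := by
    refine le_of_mul_le_mul_left ?_ (show 0 < 4 * C by linarith)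
    nlinarith [sq_nonneg (2 * C * s - mean w (gm r d))]
  rw [e2, e1]
  linarith

end Crest.Agent.T157.S1n
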