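import Crest.Agent.T157.S1Par_97

/-!
# Row 157, block S1 (helper22): basic facts on the constants of `S1Par_97`
-/

set_option autoImplicit false
set_option linter.unusedSectionVars false
set_option linter.unusedVariables false

noncomputable section

namespace Crest.Agent.T157.S1

open Real

namespace Par.Ok
variable {p : Par} (h : p.Ok)
include h

lemma k1 : 1 ≤ 1 + p.κ := by linarith [h.κ0']
lemma pw1 (k : ℕ) : 1 ≤ (1 + p.κ) ^ k := one_le_pow₀ h.k1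
lemma pw0 (k : ℕ) : 0 < (1 + p.κ) ^ k := lt_of_lt_of_le one_pos (h.pw1 k)
lemma pw2 {k : ℕ} (hk : k ≤ 2 * p.N + 1) : (1 + p.κ) ^ k ≤ 2 :=
  (pow_le_pow_right₀ h.k1 hk).trans h.rl
lemma a0' : 0 < p.a := h.a00.trans h.a0a
lemma h2η : 1 / 2 ≤ 1 - 2 * p.η0 := by linarith [h.η01]
lemma h2η0 : 0 < 1 - 2 * p.η0 := by linarith [h.η01]
lemma h2η1 : 1 - 2 * p.η0 ≤ 1 := by linarith [h.η00]
lemma l_pos (m : ℕ) : 0 < p.l m := inv_pos.2 (h.pw0 _)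
lemma l_le (m : ℕ) : p.l m ≤ 1 := inv_le_one_of_one_le₀ (h.pw1 _)
lemma lb_pos (m : ℕ) : 0 < p.lb m := inv_pos.2 (h.pw0 _)
lemma lb_le (m : ℕ) : p.lb m ≤ 1 := inv_le_one_of_one_le₀ (h.pw1 _)
lemma l_ge {m : ℕ} (hm : m ≤ p.N) : 1 / 2 ≤ p.l m := by
  rw [one_div]; exact inv_anti₀ (h.pw0 _) (h.pw2 (by omega))
lemma lb_ge {m : ℕ} (hm : m ≤ p.N) : 1 / 2 ≤ p.lb m := by
  rw [one_div]; exact inv_anti₀ (h.pw0 _) (h.pw2 (by omega))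
lemma l_zero : p.l 0 = 1 := by simp [Par.l]
lemma l_eq (m : ℕ) : p.l m = (1 + p.κ) * p.lb m := by
  have := h.pw0 (2 * m); have := h.k1
  unfold Par.l Par.lb; rw [pow_succ]; field_simp
lemma lb_eq (m : ℕ) : p.lb m = (1 + p.κ) * p.l (m + 1) := by
  have := h.pw0 (2 * m + 1); have := h.k1
  unfold Par.l Par.lb
  rw [show 2 * (m + 1) = 2 * m + 1 + 1 by ring, pow_succ _ (2 * m + 1)]; field_simp
lemma lb_sub (m : ℕ) : p.lb m - p.l (m + 1) = p.κ * p.l (m + 1) := by rw [h.lb_eq]; ring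
lemma l_sub (m : ℕ) : p.l m - p.lb m = p.κ * p.lb m := by rw [h.l_eq]; ring
lemma lb_le_l (m : ℕ) : p.lb m ≤ p.l m := by
  nlinarith [h.l_sub m, mul_pos h.κ0' (h.lb_pos m)]
lemma l_le_lb (m : ℕ) : p.l (m + 1) ≤ p.lb m := by
  nlinarith [h.lb_sub m, mul_pos h.κ0' (h.l_pos (m + 1))]
lemma am_pos (m : ℕ) : 0 < p.am m := mul_pos h.a0' (h.pw0 _)
lemma am_succ (m : ℕ) : p.am (m + 1) = (1 + p.κ) * p.am m := by unfold Par.am; ring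
lemma am_mono {m m' : ℕ} (hm : m ≤ m') : p.am m ≤ p.am m' :=
  mul_le_mul_of_nonneg_left (pow_le_pow_right₀ h.k1 hm) h.a0'.le
lemma a_le_am (m : ℕ) : p.a ≤ p.am m := le_mul_of_one_le_right h.a0'.le (h.pw1 m)
lemma ab_pos : 0 < p.ab := by
  have := mul_pos h.a0' (h.pw0 (3 * p.N + 1))
  exact (pos_iff_pos_of_mul_pos (this.trans_le h.ra)).2 h.h2η0
/-- `am m ≤ ab (1 - 2 η0)` up to the level `3 N + 1` -/
lemma am_le' {m : ℕ} (hm : m ≤ 3 * p.N + 1) : p.am m ≤ p.ab * (1 - 2 * p.η0) :=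
  (h.am_mono hm).trans h.ra
lemma am_le_ab {m : ℕ} (hm : m ≤ 3 * p.N + 1) : p.am m ≤ p.ab :=
  (h.am_le' hm).trans (mul_le_of_le_one_right h.ab_pos.le h.h2η1)
lemma am_le {m : ℕ} (hm : m ≤ 3 * p.N + 1) : p.am m ≤ 1 := (h.am_le_ab hm).trans h.ab1
lemma ah_pos (m : ℕ) : 0 < p.ah m := div_pos (mul_pos h.a0' (h.pw0 _)) h.h2η0
lemma ah_le_ab {m : ℕ} (hm : m ≤ p.N) : p.ah m ≤ p.ab := by
  unfold Par.ah; rw [div_le_iff₀ h.h2η0]; exact h.am_le' (m := 3 * m + 1) (by omega)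
lemma ah_le {m : ℕ} (hm : m ≤ p.N) : p.ah m ≤ 1 := (h.ah_le_ab hm).trans h.ab1
lemma lb_ah (m : ℕ) : p.lb m * (1 - 2 * p.η0) * p.ah m = p.am m := by
  have := h.pw0 (2 * m + 1); have := h.h2η0
  unfold Par.lb Par.ah Par.am
  rw [show 3 * m + 1 = 2 * m + 1 + m by ring, pow_add _ (2 * m + 1)]; field_simp
/-- the rate at the end: `am N ≤ l N * ab` -/
lemma am_le_l_ab {m : ℕ} (hm : m ≤ p.N) : p.am m ≤ p.l m * p.ab := by
  have h1 := h.lb_ah m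
  have h2 := h.ah_le_ab hm
  have h3 : p.lb m * (1 - 2 * p.η0) ≤ p.l m :=
    (mul_le_of_le_one_right (h.lb_pos m).le h.h2η1).trans (h.lb_le_l m)
  rw [← h1]
  exact mul_le_mul h3 h2 (h.ah_pos m).le (h.l_pos m).le
lemma N0 : (0 : ℝ) < p.N := by exact_mod_cast h.N1
lemma N1' : (1 : ℝ) ≤ p.N := by exact_mod_cast h.N1
lemma gg0 (m : ℕ) : 0 ≤ p.gg m := by
  have := h.N0; exact mul_nonneg h.g10 (by positivity)
lemma gg_N : p.gg p.N = p.g1 := by simp [Par.gg]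
lemma gg_succ {m : ℕ} (hm : m < p.N) : p.gg m = (1 + 1 / p.N) * p.gg (m + 1) := by
  unfold Par.gg; rw [show p.N - m = p.N - (m + 1) + 1 by omega, pow_succ]; ring
lemma gg_le (m : ℕ) : p.gg m ≤ p.g1 * (1 + 1 / p.N) ^ p.N := by
  have := h.N0
  exact mul_le_mul_of_nonneg_left (pow_le_pow_right₀ (le_add_of_nonneg_right (by positivity))
    (Nat.sub_le _ _)) h.g10
lemma M0 (j : ℕ) : 0 < p.M j := lt_of_lt_of_le one_pos (h.M1 j)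
lemma g2_ge (m i : ℕ) : p.M (p.bt m i) ≤ p.g2 m i :=
  le_mul_of_one_le_left (h.M0 _).le (one_le_pow₀ (by norm_num))
lemma g21 (m i : ℕ) : 1 ≤ p.g2 m i := (h.M1 _).trans (h.g2_ge m i)
lemma g20 (m i : ℕ) : 0 ≤ p.g2 m i := zero_le_one.trans (h.g21 m i)
lemma g2_le {m i : ℕ} (hv : p.Val m i) : p.g2 m i ≤ 8 ^ p.N * p.M (2 ^ p.N) :=
  mul_le_mul (pow_le_pow_right₀ (by norm_num) (Nat.sub_le _ _)) (h.Mm hv) (h.M0 _).le
    (by positivity)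
lemma e1_pos (m i : ℕ) : 0 < p.e1 m i := h.e0 _
lemma e1_le_ec (m i : ℕ) : p.e1 m i ≤ p.ec m i :=
  le_mul_of_one_le_left (h.e1_pos m i).le (one_le_pow₀ h.N1')
lemma ec_pos (m i : ℕ) : 0 < p.ec m i := (h.e1_pos m i).trans_le (h.e1_le_ec m i)
lemma C0 : 0 < p.C := lt_of_lt_of_le one_pos h.C1'
lemma CZ1' : 1 ≤ p.CZ := by
  have h1 := h.CZ1; have h2 := h.lq0; have h3 := h.lq1
  have h0 : 0 < p.CZ := (pos_iff_pos_of_mul_pos (one_pos.trans_le h1)).2 h2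
  nlinarith
lemma CZ0 : 0 ≤ p.CZ := zero_le_one.trans h.CZ1'
lemma inv_lq : 1 / p.lq ≤ p.CZ := by rw [div_le_iff₀ h.lq0]; exact h.CZ1
lemma τ'_le : p.τ' ≤ 1 / 128 := by
  have h1 := h.t1; have h2 := h.lq1; have h3 := h.t0
  have h4 : 1 ≤ p.C * p.C0 ^ 2 := one_le_mul_of_one_le_of_one_le h.C1' (one_le_pow₀ h.C01)
  nlinarith
lemma c1_le' : 256 * p.c1 ≤ p.τ' * p.lq := by nlinarith [h.c1T, h.C11, h.c10]
lemma c1_le : p.c1 ≤ 1 := by nlinarith [h.c1_le', h.τ'_le, h.lq1, h.t0, h.lq0]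
lemma C_le_div : p.C ≤ p.C / p.κ := by
  rw [le_div_iff₀ h.κ0']; exact mul_le_of_le_one_right h.C0.le h.κ1
lemma Cu_le_div : p.Cu ≤ p.Cu / p.κ := by
  rw [le_div_iff₀ h.κ0']; exact mul_le_of_le_one_right (zero_le_one.trans h.Cu1) h.κ1
lemma Λ4 : 4 * p.C ≤ p.Λ := by
  have h1 := h.hΛ; have h2 := h.C_le_div; have h3 := h.Cu_le_div; have h4 := h.Cu1
  have h5 : 0 < 1 / p.c1 := one_div_pos.2 h.c10
  have h6 := mul_nonneg h.CZ0 h.CM0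
  linarith
lemma Λ1 : 4 ≤ p.Λ := by linarith [h.Λ4, h.C1']
lemma Λ0 : 0 ≤ p.Λ := by linarith [h.Λ1]
end Par.Ok

namespace Par
variable {p : Par}
lemma lt_bt (m i : ℕ) : i + 1 ≤ p.bt m i := by
  unfold Par.bt; have := Nat.one_le_two_pow (n := p.N - m); omega
lemma bt_N (i : ℕ) : p.bt p.N i = i + 1 := by simp [Par.bt]
lemma two_pow_sub {m : ℕ} (hm : m < p.N) :
    2 ^ (p.N - m) = 2 ^ (p.N - (m + 1)) + 2 ^ (p.N - (m + 1)) := by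
  rw [show p.N - m = p.N - (m + 1) + 1 by omega, pow_succ]; ring
lemma Nx.le {m i0 i : ℕ} (hx : p.Nx m i0 i) : i0 ≤ i := by
  rcases hx with h | h
  · exact h.ge
  · exact h ▸ Nat.le_add_right _ _
lemma Nx.bt_le {m i0 i : ℕ} (hx : p.Nx m i0 i) (hm : m < p.N) : p.bt (m + 1) i ≤ p.bt m i0 := by
  unfold Par.bt; rw [two_pow_sub hm]
  rcases hx with h | h
  · rw [h, ← add_assoc]; exact Nat.le_add_right _ _
  · rw [h, add_assoc]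
lemma Nx.val {m i0 i : ℕ} (hx : p.Nx m i0 i) (hm : m < p.N) (hv : p.Val m i0) :
    p.Val (m + 1) i := (hx.bt_le hm).trans hv
lemma nx_self (m i : ℕ) : p.Nx m i i := Or.inl rfl
lemma nx_bt (m i : ℕ) : p.Nx m i (p.bt (m + 1) i) := Or.inr rfl
lemma bt_bt {m : ℕ} (hm : m < p.N) (i : ℕ) : p.bt (m + 1) (p.bt (m + 1) i) = p.bt m i := by
  unfold Par.bt; rw [two_pow_sub hm]; omega
lemma Val.lt {m i : ℕ} (hv : p.Val m i) : i + 1 ≤ 2 ^ p.N := (lt_bt m i).trans hv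
lemma Val.le {m i : ℕ} (hv : p.Val m i) : i ≤ 2 ^ p.N := by have := hv.lt; omega
lemma val_zero (m : ℕ) : p.Val m 0 := by
  unfold Par.Val Par.bt; rw [zero_add]; exact Nat.pow_le_pow_right (by norm_num) (Nat.sub_le _ _)
end Par

namespace Par.Ok
variable {p : Par} (h : p.Ok)
include h
/-- the accuracy of the next window is worse -/
lemma e1_le {m i0 i : ℕ} (hx : p.Nx m i0 i) (hm : m < p.N) : p.e1 m i0 ≤ p.e1 (m + 1) i :=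
  h.ea (hx.bt_le hm)
lemma g2_nx {m i0 i : ℕ} (hx : p.Nx m i0 i) (hm : m < p.N) : 8 * p.g2 (m + 1) i ≤ p.g2 m i0 := by
  unfold Par.g2
  rw [show p.N - m = p.N - (m + 1) + 1 by omega, pow_succ]
  have := mul_le_mul_of_nonneg_left (h.Mm (hx.bt_le hm))
    (show (0 : ℝ) ≤ 8 ^ (p.N - (m + 1)) * 8 by positivity)
  linarith
lemma M_le_g2 (m i : ℕ) : p.M (i + 1) ≤ p.g2 m i := (h.Mm (Par.lt_bt m i)).trans (h.g2_ge m i)
lemma γ_nx {m i0 i : ℕ} (hx : p.Nx m i0 i) (k : ℕ) : p.γ k i ≤ p.γ k i0 := h.γa k hx.le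
lemma γ_succ {m : ℕ} (i : ℕ) (hm : m < p.N) : 15 * p.γ (m + 1) i ≤ p.γ m i := by
  have h1 := h.lγ m i hm; have h2 := h.γ0 (m + 1) i; have h3 := h.CP1
  have h4 := mul_nonneg h.CZ0 (h.ω0 m i).le
  nlinarith
end Par.Ok

lemma lg0 (n : ℕ) : 0 ≤ lg n := by
  have : (0 : ℝ) ≤ n := Nat.cast_nonneg n
  exact mul_nonneg (by norm_num) (log_nonneg (by linarith))
lemma big1 (n : ℕ) : 1 ≤ big n := by
  have : (0 : ℝ) ≤ n := Nat.cast_nonneg n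
  exact one_le_pow₀ (by linarith)

namespace Cap.Ok
variable {z : Cap} {p : Par} {n : ℕ} (hz : z.Ok p n)
include hz
lemma T0' {m : ℕ} (hm : m ≤ p.N) : 0 ≤ z.T m := (hz.Tn m hm).1
/-- `40 C C1² (4 T + lg + 1) ≤ t` -/
lemma t_ge' (h : p.Ok) {m : ℕ} (hm : m ≤ p.N) :
    40 * p.C * p.C1 ^ 2 * (4 * z.T m + lg n + 1) ≤ z.t m := by
  have h1 := hz.h1 m hm 0 (Nat.zero_le _)
  have h2 := h.h0 0; have h3 := h.h1 0; have h4 := hz.T0' hm; have h5 := lg0 n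
  have h6 := h.C0; have h7 : 0 < p.C1 := one_pos.trans_le h.C11
  have h8 : 0 < p.η 0 ^ 2 * z.t m := lt_of_lt_of_le (by positivity) h1
  have h9 : 0 < z.t m := (pos_iff_pos_of_mul_pos h8).1 (by positivity)
  have h10 : p.η 0 ^ 2 ≤ 1 := pow_le_one₀ h2.le h3
  nlinarith
lemma t_ge40 (h : p.Ok) {m : ℕ} (hm : m ≤ p.N) : 40 * (4 * z.T m + lg n + 1) ≤ z.t m := by
  have h1 := hz.t_ge' h hm; have h4 := hz.T0' hm; have h5 := lg0 n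
  have h2 : 1 ≤ p.C * p.C1 ^ 2 := one_le_mul_of_one_le_of_one_le h.C1' (one_le_pow₀ h.C11)
  nlinarith
lemma t_ge (h : p.Ok) {m : ℕ} (hm : m ≤ p.N) : 4 * z.T m + lg n + 1 ≤ z.t m := by
  linarith [hz.t_ge40 h hm, hz.T0' hm, lg0 n]
lemma t1 (h : p.Ok) {m : ℕ} (hm : m ≤ p.N) : 1 ≤ z.t m := by
  linarith [hz.t_ge h hm, hz.T0' hm, lg0 n]
lemma T_le_t (h : p.Ok) {m : ℕ} (hm : m ≤ p.N) : z.T m ≤ z.t m := by
  linarith [hz.t_ge h hm, hz.T0' hm, lg0 n]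
lemma t_le_t' (h : p.Ok) {m : ℕ} (hm : m ≤ p.N) : z.t m ≤ z.t' m :=
  (le_mul_of_one_le_left (zero_le_one.trans (hz.t1 h hm)) (one_le_pow₀ h.CP1)).trans (hz.h2 m hm)
lemma t_le_T (h : p.Ok) {m : ℕ} (hm : m < p.N) : z.t m ≤ z.T (m + 1) := by
  linarith [(hz.h4 m hm).1, hz.T0' hm.le]
lemma T_le_T (h : p.Ok) {m : ℕ} (hm : m < p.N) : z.T m ≤ z.T (m + 1) := by
  linarith [(hz.h4 m hm).1, hz.t1 h hm.le]
lemma K0 : 0 ≤ z.K := zero_le_one.trans hz.K1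
/-- `16 K ≤ Kb` -/
lemma K_le (h : p.Ok) : 16 * z.K ≤ z.Kb := by
  have h1 := hz.Kb; have h2 := hz.K1
  have h3 : 1 ≤ p.C * 8 ^ p.N * p.M (2 ^ p.N) := one_le_mul_of_one_le_of_one_le
    (one_le_mul_of_one_le_of_one_le h.C1' (one_le_pow₀ (by norm_num))) (h.M1 _)
  nlinarith
lemma Kb0 (h : p.Ok) : 0 ≤ z.Kb := by linarith [hz.K_le h, hz.K1]
end Cap.Ok

lemma Cx.R_succ {n : ℕ} (X : Cx n) (m : ℕ) : X.R m = X.R (m + 1) + X.z.Kb := by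
  unfold Cx.R; push_cast; ring
lemma Cx.R_N {n : ℕ} (X : Cx n) : X.R X.p.N = X.z.Kb := by unfold Cx.R; ring
lemma Cx.R0 {n : ℕ} {X : Cx n} (hX : X.Ok) {m : ℕ} (hm : m ≤ X.p.N + 1) : 0 ≤ X.R m := by
  have : (m : ℝ) ≤ X.p.N + 1 := by exact_mod_cast hm
  exact mul_nonneg (by linarith) (hX.cap.Kb0 hX.ok)

end Crest.Agent.T157.S1

end
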