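import Crest.Agent.T157.S1Lin_97
import Crest.Agent.T157.Cav_35

/-!
# Row 157, part B, block S1 (helper35): the correction for the pins from the cavity vectors
-/

set_option autoImplicit false
set_option linter.unusedVariables false
set_option maxHeartbeats 800000

noncomputable section

namespace Crest.Agent.T157.S1

open Real Matrix Finset
open Crest.Agent.T157.Eig
open Crest.Agent.T157.S3 (V Mx)
open Crest.Agent.T157.Rip

variable {n : ℕ}

namespace Pn35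

/-- restriction -/
def rs (S : Finset (Fin n)) (u : V n) : V n := fun k => if k ∈ S then u k else 0

lemma rs_sp {S : Finset (Fin n)} {m : ℝ} (h : (#S : ℝ) ≤ m) (u : V n) : Sp m (rs S u) :=
  ⟨S, h, fun i hi => if_neg hi⟩

lemma rs_dot (S : Finset (Fin n)) (u : V n) : rs S u ⬝ᵥ u = rs S u ⬝ᵥ rs S u :=
  sum_congr rfl fun i _ => by simp only [rs]; split_ifs <;> simp

lemma nrm_rs_le (S : Finset (Fin n)) (u : V n) : nrm (rs S u) ≤ nrm u :=
  sqrt_le_sqrt (sum_le_sum fun i _ => by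
    simp only [rs]; split_ifs; exacts [le_rfl, by rw [mul_zero]; exact mul_self_nonneg _])

lemma le_of_sq {a b : ℝ} (ha : 0 ≤ a) (hb : 0 ≤ b) (h : a * a ≤ b * a) : a ≤ b := by
  rcases ha.eq_or_lt with h0 | h0
  · linarith
  · exact le_of_mul_le_mul_right h h0

lemma nrm_rs_fl {S : Finset (Fin n)} {m ε : ℝ} {u : V n} (h : Fl m ε u) (hS : (#S : ℝ) ≤ m)
    (he : 0 ≤ ε) : nrm (rs S u) ≤ ε := by
  have := (le_abs_self _).trans (h _ (rs_sp hS u))
  rw [rs_dot, ← nrm_mul_self] at this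
  exact le_of_sq (nrm_nonneg _) he this

lemma sum_compl_le (S : Finset (Fin n)) {u w : V n} (h : ∀ i ∉ S, u i = w i) :
    ∑ i ∈ Sᶜ, u i ^ 2 ≤ nrm w ^ 2 := by
  rw [nrm_sq, dotProduct]
  refine le_trans (le_of_eq (sum_congr rfl fun i hi => by rw [h i (mem_compl.1 hi), sq]))
    (sum_le_sum_of_subset_of_nonneg (subset_univ _) fun i _ _ => mul_self_nonneg _)

lemma wsq (p u : V n) : p ⬝ᵥ (u * u) = u ⬝ᵥ (p * u) :=
  sum_congr rfl fun i _ => by simp only [Pi.mul_apply]; ring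

/-- the field of a bounded weight on a small set -/
lemma dual {J : Mx n} (hJ : Jᵀ = J) {p q u : V n} (hp : ∀ i, 0 < p i ∧ p i ≤ 1)
    (hq : ∀ i, 0 ≤ q i ∧ q i ≤ 2 * p i) (S : Finset (Fin n)) {b : ℝ} (hb : 0 ≤ b)
    (h : (J *ᵥ rs S (J *ᵥ (q * u))) ⬝ᵥ (p * J *ᵥ rs S (J *ᵥ (q * u))) ≤
      b ^ 2 * (rs S (J *ᵥ (q * u)) ⬝ᵥ rs S (J *ᵥ (q * u)))) :
    nrm (rs S (J *ᵥ (q * u))) ≤ 2 * b * nrm u := by
  set c := rs S (J *ᵥ (q * u)) with hc
  have e1 : c ⬝ᵥ c = ((fun i => √(p i)) * J *ᵥ c) ⬝ᵥ ((fun i => q i / √(p i)) * u) := by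
    rw [hc, ← rs_dot, ← hc, dotProduct_mulVec, ← mulVec_transpose, hJ]
    refine sum_congr rfl fun i _ => ?_
    have := (sqrt_pos.2 (hp i).1).ne'
    simp only [Pi.mul_apply]
    field_simp
  have h1 : nrm ((fun i => √(p i)) * J *ᵥ c) ≤ b * nrm c := by
    rw [nrm_le_iff (mul_nonneg hb (nrm_nonneg _)), mul_pow, nrm_sq]
    refine le_trans (le_of_eq (sum_congr rfl fun i _ => ?_)) h
    simp only [Pi.mul_apply]
    linear_combination ((J *ᵥ c) i) ^ 2 * mul_self_sqrt (hp i).1.le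
  have h2 : nrm ((fun i => q i / √(p i)) * u) ≤ 2 * nrm u :=
    nrm_mul_le zero_le_two (fun i => by
      have s0 := sqrt_pos.2 (hp i).1
      have s1 : √(p i) ≤ 1 := sqrt_le_one.2 (hp i).2
      rw [abs_of_nonneg (div_nonneg (hq i).1 s0.le), div_le_iff₀ s0]
      nlinarith [mul_self_sqrt (hp i).1.le, (hq i).2]) u
  refine le_of_sq (nrm_nonneg _) (by have := nrm_nonneg u; positivity) ?_
  rw [nrm_mul_self, e1]
  refine (dot_le _ _).trans ((mul_le_mul h1 h2 (nrm_nonneg _)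
    (mul_nonneg hb (nrm_nonneg _))).trans_eq ?_)
  ring

end Pn35

open Pn35

/-- **the clause `pin` of `LinOK2`** -/
theorem pin_of_cav {J Wm : Mx n} {p al q : V n} {P x Cw Cp ew εw m Cα e η t ε : ℝ} {k : ℕ}
    {v : ℕ → V n} {Ft : Set (V n)} (h : Cav J p q (al * q) x Cw Cp ew εw m Ft Wm) (hJ : Jᵀ = J)
    (hR : opn J ≤ 3) (hp : ∀ i, 0 < p i ∧ p i ≤ 1) (hq : ∀ i, 0 ≤ q i ∧ q i ≤ 2 * p i)
    (hα : ∀ i, |al i * q i| ≤ Cα) (hv : ∀ a < k, v a ∈ Ft ∧ nrm (v a) ≤ 1) (hP : 1 ≤ P)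
    (hx : 0 ≤ x) (hCw : 0 ≤ Cw) (hCp : 0 ≤ Cp) (hew : 0 ≤ ew) (hε : 0 ≤ εw) (hCα : 0 ≤ Cα)
    (hη : 0 < η) (h1 : εw * P ≤ 1) (h2 : t ≤ m) (h3 : 36 * P ^ 2 * Cw ^ 2 * t ≤ m * η ^ 2)
    (h4 : k * (12 * P * εw) ^ 2 ≤ ε / 4) (h5 : 6 * P * (ew + (Cα + 6 + 21 * P) * εw) ≤ e)
    (S : Finset (Fin n)) (u : V n) (hS : (#S : ℝ) ≤ t) (hu : ‖u‖ ≤ 2 * η) (hut : u ⬝ᵥ u ≤ t) :
    ∃ w : V n, ‖w‖ ≤ 3 * η ∧ nrm w ≤ (1 + 6 * P * (Cw + 1)) * nrm u ∧
      p ⬝ᵥ (w * w) ≤ (111 + 12 * (Cp + 1) ^ 2) * (u ⬝ᵥ u) ∧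
      ∑ a ∈ range k, (v a ⬝ᵥ (w - u)) ^ 2 ≤ ε / 4 * (u ⬝ᵥ u) ∧
      ∑ i ∈ Sᶜ, (Mq J P S al (q * w) - (al * (q * u) - J *ᵥ (q * u))) i ^ 2 ≤ e ^ 2 * (u ⬝ᵥ u) := by
  have Sm := hS.trans h2
  have u0 := nrm_nonneg u
  have P0 : 0 < P := by linarith
  have d0 : 0 < 1 + P * x := by positivity
  have ε1 : εw ≤ 1 := by nlinarith
  have q2 : ∀ i, |q i| ≤ 2 := fun i => by
    rw [abs_of_nonneg (hq i).1]; linarith [(hq i).2, (hp i).2]
  have jq : ∀ z, nrm (J *ᵥ (q * z)) ≤ 6 * nrm z := fun z =>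
    (nrm_mulVec_le _ _).trans ((mul_le_mul hR (nrm_mul_le zero_le_two q2 z) (nrm_nonneg _)
      (by norm_num)).trans_eq (by ring))
  have j3 : ∀ z, nrm (J *ᵥ z) ≤ 3 * nrm z := fun z =>
    (nrm_mulVec_le _ _).trans (mul_le_mul_of_nonneg_right hR (nrm_nonneg _))
  set c' := rs S (J *ᵥ (q * u)) with hc'
  obtain ⟨r, hr⟩ : ∃ r, r = P / (1 + P * x) := ⟨_, rfl⟩
  have r0 : 0 ≤ r := by rw [hr]; positivity
  have rP : r ≤ P := by rw [hr]; exact div_le_self P0.le (by nlinarith)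
  have rx : r * (1 + P * x) = P := by rw [hr]; field_simp
  have sc : Sp m (r • c') := (rs_sp Sm _).smul r
  have nc : nrm (r • c') ≤ 6 * P * nrm u := by
    rw [nrm_smul, abs_of_nonneg r0]
    exact (mul_le_mul rP ((nrm_rs_le _ _).trans (jq u)) (nrm_nonneg _) P0.le).trans_eq (by ring)
  have c0 := nrm_nonneg (r • c')
  have nW : nrm (Wm *ᵥ (r • c')) ≤ Cw * (6 * P * nrm u) :=
    (h.nr _ sc).trans (mul_le_mul_of_nonneg_left nc hCw)
  obtain ⟨z, -, nz, hz⟩ := (h.fl _ sc).split (mul_nonneg hε c0) hη (by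
    have := pow_le_pow_left₀ (nrm_nonneg _) nW 2
    rw [nrm_sq, mul_pow, mul_pow, nrm_sq] at this
    have h6 := mul_le_mul_of_nonneg_left hut (show 0 ≤ Cw ^ 2 * (6 * P) ^ 2 by positivity)
    linarith)
  have nz' : nrm z ≤ εw * (6 * P * nrm u) := nz.trans (mul_le_mul_of_nonneg_left nc hε)
  have z0 := nrm_nonneg z
  refine ⟨u - (Wm *ᵥ (r • c') - z), ?_, ?_, ?_, ?_, ?_⟩
  · refine (norm_sub_le _ _).trans ?_
    have : ‖Wm *ᵥ (r • c') - z‖ ≤ η := (pi_norm_le_iff_of_nonneg hη.le).2 hz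
    linarith
  · have := mul_le_mul_of_nonneg_right ε1 (show 0 ≤ 6 * P * nrm u by positivity)
    linarith [nrm_sub_le u (Wm *ᵥ (r • c') - z), nrm_sub_le (Wm *ᵥ (r • c')) z]
  · have b0 : 0 ≤ Cp * x + εw := by positivity
    have d := dual (u := u) hJ hp hq S (sqrt_nonneg (Cp * x + εw)) (by
      rw [sq_sqrt b0]; exact h.je c' (rs_sp Sm _))
    have d2 := pow_le_pow_left₀ (nrm_nonneg _) d 2
    rw [mul_pow, mul_pow, sq_sqrt b0, nrm_sq, nrm_sq, ← hc'] at d2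
    have en := h.en _ sc
    rw [smul_dotProduct, dotProduct_smul, smul_eq_mul, smul_eq_mul] at en
    have rb : r * (Cp * x + εw) ≤ Cp + 1 := by
      have a1 : r * x ≤ 1 := by
        refine le_of_mul_le_mul_left ?_ P0
        nlinarith
      nlinarith [mul_le_mul_of_nonneg_left a1 hCp, mul_le_mul_of_nonneg_right rP hε]
    have uu := dot_self_nonneg u
    have en2 : (Wm *ᵥ (r • c')) ⬝ᵥ (p * Wm *ᵥ (r • c')) ≤ 4 * (Cp + 1) ^ 2 * (u ⬝ᵥ u) := by
      have a2 := pow_le_pow_left₀ (mul_nonneg r0 b0) rb 2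
      have a3 := mul_le_mul_of_nonneg_left d2 (show 0 ≤ (Cp * x + εw) * (r * r) by positivity)
      nlinarith [mul_le_mul_of_nonneg_right a2 uu]
    have zz : z ⬝ᵥ z ≤ 36 * (u ⬝ᵥ u) := by
      have a4 : nrm z ≤ 6 * nrm u := by nlinarith
      have := pow_le_pow_left₀ z0 a4 2
      rw [mul_pow, nrm_sq, nrm_sq] at this
      linarith
    have sp : p ⬝ᵥ ((u - (Wm *ᵥ (r • c') - z)) * (u - (Wm *ᵥ (r • c') - z))) ≤
        3 * (u ⬝ᵥ u) + 3 * ((Wm *ᵥ (r • c')) ⬝ᵥ (p * Wm *ᵥ (r • c'))) + 3 * (z ⬝ᵥ z) := by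
      simp only [dotProduct, mul_sum, ← sum_add_distrib, Pi.mul_apply, Pi.sub_apply]
      refine sum_le_sum fun i _ => ?_
      generalize (Wm *ᵥ (r • c')) i = W
      have a5 : (u i - (W - z i)) * (u i - (W - z i)) ≤ 3 * (u i * u i + W * W + z i * z i) := by
        nlinarith [sq_nonneg (u i + W), sq_nonneg (u i - z i), sq_nonneg (W + z i)]
      nlinarith [mul_le_mul_of_nonneg_left a5 (hp i).1.le,
        mul_le_mul_of_nonneg_right (hp i).2 (mul_self_nonneg (u i)),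
        mul_le_mul_of_nonneg_right (hp i).2 (mul_self_nonneg (z i))]
    linarith
  · have : ∀ a ∈ range k, (v a ⬝ᵥ (u - (Wm *ᵥ (r • c') - z) - u)) ^ 2 ≤
        (12 * P * εw) ^ 2 * (u ⬝ᵥ u) := fun a ha => by
      obtain ⟨a1, a2⟩ := hv a (mem_range.1 ha)
      have b1 := (h.ty _ sc _ a1).trans (mul_le_mul_of_nonneg_left nc hε)
      have b2 := (abs_dot_le (v a) z).trans (mul_le_mul a2 nz' z0 zero_le_one)
      rw [show u - (Wm *ᵥ (r • c') - z) - u = z - Wm *ᵥ (r • c') by abel, dotProduct_sub,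
        dotProduct_comm (v a) (Wm *ᵥ _), ← nrm_sq, ← mul_pow, ← sq_abs]
      exact pow_le_pow_left₀ (abs_nonneg _) ((abs_sub _ _).trans (by linarith)) 2
    refine (sum_le_card_nsmul _ _ _ this).trans ?_
    rw [card_range, nsmul_eq_mul, ← mul_assoc]
    exact mul_le_mul_of_nonneg_right h4 (dot_self_nonneg u)
  · set W := Wm *ᵥ (r • c') with hW
    have f1 := nrm_rs_fl (h.fj _ sc) Sm (mul_nonneg hε c0)
    have f2 := h.eq _ sc
    rw [← hW] at f1 f2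
    have cS : ∀ i ∉ S, c' i = 0 := fun i hi => if_neg hi
    have e1 : (fun k => if k ∈ S then (J *ᵥ (q * (u - (W - z)))) k else 0) =
        c' - x • r • c' - rs S (J *ᵥ (q * W) - x • r • c') + rs S (J *ᵥ (q * z)) := by
      funext i
      simp only [mul_sub, mulVec_sub, hc', rs, Pi.sub_apply, Pi.add_apply, Pi.smul_apply,
        smul_eq_mul]
      split_ifs <;> ring
    have key := sum_compl_le S
      (u := Mq J P S al (q * (u - (W - z))) - (al * (q * u) - J *ᵥ (q * u)))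
      (w := -(al * q * W - J *ᵥ (q * W) - (J *ᵥ (r • c') - x • r • c')) +
        (al * q * z - J *ᵥ (q * z)) - P • J *ᵥ rs S (J *ᵥ (q * W) - x • r • c') +
        P • J *ᵥ rs S (J *ᵥ (q * z))) fun i hi => by
          rw [Mq, e1]
          simp only [mul_sub, mulVec_sub, mulVec_add, mulVec_smul, Pi.sub_apply, Pi.add_apply,
            Pi.smul_apply, Pi.mul_apply, Pi.neg_apply, smul_eq_mul, cS i hi]
          linear_combination (-(J *ᵥ c') i) * rx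
    refine key.trans ?_
    rw [← nrm_sq u, ← mul_pow]
    refine pow_le_pow_left₀ (nrm_nonneg _) ?_ 2
    have g1 := nrm_mul_le hCα (a := al * q) hα z
    have g2 := jq z
    have g3 := (j3 _).trans (mul_le_mul_of_nonneg_left f1 zero_le_three)
    have g4 := (j3 _).trans (mul_le_mul_of_nonneg_left ((nrm_rs_le S _).trans g2) zero_le_three)
    have g5 := nrm_add_le (-(al * q * W - J *ᵥ (q * W) - (J *ᵥ (r • c') - x • r • c')) +
        (al * q * z - J *ᵥ (q * z)) - P • J *ᵥ rs S (J *ᵥ (q * W) - x • r • c'))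
      (P • J *ᵥ rs S (J *ᵥ (q * z)))
    have g6 := nrm_sub_le (-(al * q * W - J *ᵥ (q * W) - (J *ᵥ (r • c') - x • r • c')) +
        (al * q * z - J *ᵥ (q * z))) (P • J *ᵥ rs S (J *ᵥ (q * W) - x • r • c'))
    have g7 := nrm_add_le (-(al * q * W - J *ᵥ (q * W) - (J *ᵥ (r • c') - x • r • c')))
      (al * q * z - J *ᵥ (q * z))
    have g8 := nrm_sub_le (al * q * z) (J *ᵥ (q * z))
    rw [nrm_smul, abs_of_pos P0] at g5 g6
    rw [nrm_neg] at g7
    have g9 := mul_le_mul_of_nonneg_left g3 P0.le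
    have g10 := mul_le_mul_of_nonneg_left g4 P0.le
    have g11 : (Cα + 6 + 18 * P) * nrm z ≤ (Cα + 6 + 18 * P) * (εw * nrm (r • c')) :=
      mul_le_mul_of_nonneg_left nz (by positivity)
    have g12 : (ew + (Cα + 6 + 21 * P) * εw) * nrm (r • c') ≤
        (ew + (Cα + 6 + 21 * P) * εw) * (6 * P * nrm u) :=
      mul_le_mul_of_nonneg_left nc (by positivity)
    linarith [mul_le_mul_of_nonneg_right h5 u0]

end Crest.Agent.T157.S1

end
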