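import Crest.Agent.T157.S3Ans_69
import Crest.Agent.T157.PlB_37

/-!
# Row 157, part B, block S3 (helper96): the ansatz at a gauge transformed instance
-/

set_option autoImplicit false

noncomputable section

namespace Crest.Agent.T157.S3.Gg

open Matrix Finset
open Crest.Agent.T157.E (Cube sv ising mean prob mag)
open Crest.Agent.T157.Rec (grad fl grad_eq sv_mul_self)
open Crest.Agent.T157.Eig (nrm opn opn_mul_le opn_diagonal_le opn_nonneg)
open Crest.Agent.T157.Chain22 (IsP)
open Crest.Agent.T157.S3F (jac hsJ)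
open Crest.Agent.T157.Pl (cmul gauge sv_cmul cmul_cmul cmul_update ising_gauge mean_comp prob_comp)

variable {n : ℕ} (z : Cube n)

/-- conjugation of a matrix -/
def cj (A : Mx n) : Mx n := diagonal (sv z) * A * diagonal (sv z)
/-- transport of a vector field -/
def gV (U : Cube n → V n) : Cube n → V n := fun x => sv z * U (cmul z x)
/-- transport of a matrix field -/
def gM (T : Cube n → Mx n) : Cube n → Mx n := fun x => cj z (T (cmul z x))

lemma sv_cases (i : Fin n) : sv z i = 1 ∨ sv z i = -1 := mul_self_eq_one_iff.1 (sv_mul_self z i)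
lemma abs_g (i : Fin n) (a : ℝ) : |sv z i * a| = |a| := by
  rcases sv_cases z i with h | h <;> simp [h]
lemma sq_g (i : Fin n) (a : ℝ) : (sv z i * a) ^ 2 = a ^ 2 := by rw [← sq_abs, abs_g, sq_abs]
lemma gg (u : V n) : sv z * (sv z * u) = u := by
  funext i; simp only [Pi.mul_apply]; rw [← mul_assoc, sv_mul_self, one_mul]
lemma dot_g (u v : V n) : u ⬝ᵥ (sv z * v) = (sv z * u) ⬝ᵥ v :=
  sum_congr rfl fun i _ => by simp only [Pi.mul_apply]; ring
lemma dot_gg (u v : V n) : (sv z * u) ⬝ᵥ (sv z * v) = u ⬝ᵥ v := by rw [dot_g, gg]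
lemma nrm_g (u : V n) : nrm (sv z * u) = nrm u := by rw [nrm, nrm, dot_gg]
lemma norm_g (u : V n) : ‖sv z * u‖ = ‖u‖ := by
  simp only [Pi.norm_def, Pi.mul_apply]
  congr 2
  funext i
  ext
  simpa only [coe_nnnorm, Real.norm_eq_abs] using abs_g z i (u i)
lemma mul_g (u v : V n) : u * (sv z * v) = sv z * (u * v) := mul_left_comm _ _ _
lemma exs_g (e : ℝ) (u : V n) : exs e (sv z * u) = exs e u := by
  simp only [exs, Pi.mul_apply, abs_g]

lemma cj_apply (A : Mx n) (i j : Fin n) : cj z A i j = sv z i * A i j * sv z j := by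
  rw [cj, mul_diagonal, diagonal_mul]
lemma cj_mulVec (A : Mx n) (u : V n) : cj z A *ᵥ u = sv z * A *ᵥ (sv z * u) := by
  funext i
  simp only [mulVec, dotProduct, cj_apply, Pi.mul_apply, mul_sum]
  exact sum_congr rfl fun j _ => by ring
lemma cj_mulVec_g (A : Mx n) (u : V n) : cj z A *ᵥ (sv z * u) = sv z * A *ᵥ u := by
  rw [cj_mulVec, gg]
lemma cj_transpose (A : Mx n) : (cj z A)ᵀ = cj z Aᵀ := by
  ext i j; simp only [transpose_apply, cj_apply]; ring
lemma cj_cj (A : Mx n) : cj z (cj z A) = A := by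
  ext i j
  simp only [cj_apply]
  calc _ = (sv z i * sv z i) * A i j * (sv z j * sv z j) := by ring
    _ = _ := by rw [sv_mul_self, sv_mul_self, one_mul, mul_one]
lemma opn_cj_le (A : Mx n) : opn (cj z A) ≤ opn A := by
  have h : opn (diagonal (sv z)) ≤ 1 := opn_diagonal_le zero_le_one fun i => by
    simpa using (abs_g z i 1).le
  have h0 := opn_nonneg A
  calc _ ≤ opn (diagonal (sv z) * A) * opn (diagonal (sv z)) := opn_mul_le _ _
    _ ≤ opn (diagonal (sv z)) * opn A * 1 := by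
      gcongr
      · exact opn_nonneg _
      · exact mul_nonneg (opn_nonneg _) h0
      · exact opn_mul_le _ _
    _ ≤ 1 * opn A * 1 := by gcongr
    _ = _ := by ring
lemma opn_cj (A : Mx n) : opn (cj z A) = opn A :=
  (opn_cj_le z A).antisymm (by simpa only [cj_cj] using opn_cj_le z (cj z A))

lemma sv_eq (x : Cube n) : sv x = sv z * sv (cmul z x) := by rw [sv_cmul, gg]
lemma cmul_fl (x : Cube n) (j : Fin n) : cmul z (fl x j) = fl (cmul z x) j := by
  rw [fl, fl, cmul_update]
  congr 1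
  unfold cmul; cases z j <;> cases x j <;> rfl
lemma grad_g (f : Cube n → ℝ) (x : Cube n) :
    grad (fun y => f (cmul z y)) x = sv z * grad f (cmul z x) := by
  funext j
  rw [Pi.mul_apply, grad_eq, grad_eq, cmul_fl, congrFun (sv_eq z x) j, Pi.mul_apply]; ring
lemma grad_smul (c : ℝ) (f : Cube n → ℝ) (x : Cube n) (j : Fin n) :
    grad (fun y => c * f y) x j = c * grad f x j := by rw [grad_eq, grad_eq]; ring
lemma jac_gV (U : Cube n → V n) (x : Cube n) : jac (gV z U) x = cj z (jac U (cmul z x)) := by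
  ext k j
  have := congrFun (grad_g z (fun y => U y k) x) j
  simp only [jac, of_apply, cj_apply, gV, Pi.mul_apply, grad_smul] at this ⊢
  rw [this]; ring
lemma hsJ_gV (U : Cube n → V n) (x : Cube n) : hsJ (gV z U) x = hsJ U (cmul z x) := by
  simp only [hsJ, jac_gV, cj_apply]
  refine sum_congr rfl fun k _ => sum_congr rfl fun j _ => ?_
  rw [mul_comm _ (sv z j), sq_g, sq_g]
lemma grad_dot (w : V n) (ψ : Cube n → V n) :
    grad (fun x => w ⬝ᵥ gV z ψ x) = gV z (grad fun x => (sv z * w) ⬝ᵥ ψ x) := by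
  funext x
  simp only [gV, dot_g]
  exact grad_g z (fun x => (sv z * w) ⬝ᵥ ψ x) x
lemma flow_g (w : V n) (T : Cube n → Mx n) :
    (fun x => (gM z T x)ᵀ *ᵥ w) = gV z fun x => (T x)ᵀ *ᵥ (sv z * w) := by
  funext x; rw [gM, cj_transpose, cj_mulVec, gV]

variable (J : Mx n) (y : V n)

lemma hf_g (x : Cube n) : hf (cj z J) (sv z * y) x = sv z * hf J y (cmul z x) := by
  rw [hf, hf, mul_add, ← cj_mulVec_g, ← sv_eq]
lemma tanh_g (i : Fin n) (a : ℝ) : Real.tanh (sv z i * a) = sv z i * Real.tanh a := by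
  rcases sv_cases z i with h | h <;> simp [h, Real.tanh_neg]
lemma tau_g (x : Cube n) : tau (cj z J) (sv z * y) x = sv z * tau J y (cmul z x) := by
  funext j
  simp only [tau, hf_g, Pi.mul_apply, tanh_g]
  rw [congrFun (sv_eq z x) j, Pi.mul_apply]; ring
lemma Dg_g (x : Cube n) : Dg (cj z J) (sv z * y) x = Dg J y (cmul z x) := by
  funext j
  simp only [Dg, hf_g, Pi.mul_apply, tanh_g, sq_g]
lemma ising_g : ising (cj z J) (sv z * y) = fun x => ising J y (cmul z x) := ising_gauge z J y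
lemma mean_g (f : Cube n → ℝ) :
    mean (ising (cj z J) (sv z * y)) (fun x => f (cmul z x)) = mean (ising J y) f := by
  rw [ising_g]; exact mean_comp (gauge z) _ f
lemma mag_g : mag (ising (cj z J) (sv z * y)) = sv z * mag (ising J y) := by
  rw [ising_g]; exact Pl.mag_gauge z _
lemma isP_g {ν : Cube n → ℝ} (h : IsP ν) : IsP fun x => ν (cmul z x) :=
  ⟨fun _ => h.nn _, (Equiv.sum_comp (gauge z) ν).trans h.sum1⟩
lemma cmean_g (ν f : Cube n → ℝ) :
    Chain22.mean ν (fun x => f (cmul z x)) = Chain22.mean (fun x => ν (cmul z x)) f := by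
  rw [Chain22.mean, Chain22.mean, ← Equiv.sum_comp (gauge z)]
  simp only [Pl.gauge_apply, cmul_cmul]
lemma kl_g (ν : Cube n → ℝ) : Ent.kl ν (prob (ising (cj z J) (sv z * y))) =
    Ent.kl (fun x => ν (cmul z x)) (prob (ising J y)) := by
  rw [Ent.kl, Ent.kl, ← Equiv.sum_comp (gauge z), ising_g]
  refine sum_congr rfl fun x _ => ?_
  rw [show prob (fun x => ising J y (cmul z x)) (gauge z x) = prob (ising J y) x from
    (prob_comp (gauge z) _ _).trans (by simp only [Pl.gauge_apply, cmul_cmul])]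
  rfl

variable {J y}

lemma ts_g {A : ℝ} {G : Cube n → ℝ} (h : TS A G) : TS A fun x => G (cmul z x) := fun x => by
  simpa only [cmul_fl] using h (cmul z x)
lemma exc_g {e B : ℝ} {g : Cube n → ℝ} (h : Exc (ising J y) e B g) :
    Exc (ising (cj z J) (sv z * y)) e B fun x => g (cmul z x) := by
  obtain ⟨G, h1, h2, h3, h4⟩ := h
  exact ⟨fun x => G (cmul z x), fun x => h1 _, fun x => h2 _, ts_g z h3,
    (mean_g z J y fun x => G x ^ 2).trans_le h4⟩
lemma rg_g {e L : ℝ} {Ω : Cube n → V n} (h : Rg e L Ω) : Rg e L (gV z Ω) := fun x => by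
  rw [jac_gV, opn_cj, hsJ_gV, gV, norm_g, nrm_g]; exact h _
lemma ver_g {e1 L B : ℝ} {u : V n} {U Ω : Cube n → V n} (h : Ver J y e1 L B (sv z * u) U Ω) :
    Ver (cj z J) (sv z * y) e1 L B u (gV z U) (gV z Ω) := by
  refine ⟨rg_g z h.1, ?_, ?_⟩
  · simpa only [gV, ← mul_sub, nrm_g] using exc_g z h.2.1
  · have := exc_g z h.2.2
    refine (congrArg (Exc _ e1 B) (funext fun x => ?_)).mpr this
    rw [gV, Dg_g, mul_g, cj_mulVec, exs_g, mul_sub, gg]

/-- **(G1)** the ansatz is transported by the gauge `z` -/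
theorem ansAt {a C C0 C' e e1 η K : ℝ} {E : V n → ℝ} {p q α : V n} {ψ : Cube n → V n}
    {T : Cube n → Mx n} (h : AnsAt J y a C C0 C' e e1 η K E p q α ψ T) :
    AnsAt (cj z J) (sv z * y) a C C0 C' e e1 η K (fun w => E (sv z * w)) p q α (gV z ψ)
      (gM z T) where
  free x k j b := by
    simp only [gM, cj_apply, cmul_update]; rw [h.free]
  opψ x := by rw [jac_gV, opn_cj]; exact h.opψ _
  opT x := by rw [gM, opn_cj]; exact h.opT _
  dv w ν hν := by
    have := h.dv (sv z * w) _ (isP_g z hν)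
    rw [← cmean_g, ← kl_g, nrm_g] at this
    simpa only [gM, tau_g, cj_mulVec_g, dot_g] using this
  vg w hw := by
    obtain ⟨Ω, h1, h2⟩ := h.vg (sv z * w) (by rwa [norm_g])
    rw [nrm_g, mul_g] at h1
    refine ⟨gV z Ω, by rw [grad_dot]; exact ver_g z h1, ?_⟩
    rw [← mean_g z, mul_g, dot_gg] at h2
    simpa only [gV, Dg_g, mul_g, dot_gg] using h2
  vf w hw := by
    obtain ⟨Ω, h1⟩ := h.vf (sv z * w) (by rwa [norm_g])
    rw [nrm_g, mul_g] at h1
    exact ⟨gV z Ω, by rw [flow_g]; exact ver_g z h1⟩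
  gf w hw := by
    have := exc_g z (h.gf (sv z * w) (by rwa [norm_g]))
    rw [dot_gg] at this
    refine (congrArg (Exc _ e1 _) (funext fun x => ?_)).mpr this
    rw [grad_dot, congrFun (flow_g z w T) x, gV, gV, ← mul_sub, nrm_g]
  eq w hw ν hν G hG := by
    have := h.eq (sv z * w) (by rwa [norm_g]) _ (isP_g z hν) (fun x => G (cmul z x)) fun x => by
      rw [hG, gM, tau_g, cj_mulVec_g, gV, cmul_cmul, dot_g, dot_g, sv_cmul, dot_g, mul_sub,
        cj_mulVec, gg, mul_g, mul_g]
    rw [← cmean_g, ← kl_g, ← mean_g z, dot_gg] at this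
    simpa only [cmul_cmul] using this
  rs w hw u ν hν := by
    have := h.rs (sv z * w) (by rwa [norm_g]) (sv z * u) _ (isP_g z hν)
    rw [← cmean_g, ← kl_g, dot_gg] at this
    refine le_of_eq_of_le ?_ this
    congr 2
    funext x
    rw [congrFun (flow_g z w T) x, gV, Dg_g, mul_g, mul_g, ← dot_g, mul_sub, gg]
  en w hw := by
    have := h.en (sv z * w) (by rwa [norm_g])
    rw [← mean_g z, mul_g, dot_gg] at this
    rw [grad_dot]
    simpa only [gV, Dg_g, mul_g, dot_gg] using this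

/-- the pull-back form -/
theorem ansAt' {a C C0 C' e e1 η K : ℝ} {E : V n → ℝ} {p q α : V n} {ψ : Cube n → V n}
    {T : Cube n → Mx n} (h : AnsAt (cj z J) (sv z * y) a C C0 C' e e1 η K E p q α ψ T) :
    AnsAt J y a C C0 C' e e1 η K (fun w => E (sv z * w)) p q α (gV z ψ) (gM z T) := by
  simpa only [cj_cj, gg] using ansAt z h

end Crest.Agent.T157.S3.Gg

end
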