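import Crest.Agent.T157.TyF_23

/-!
# Row 157, part B (S1, G2): typical tuples of gauges (helper23)
-/

set_option autoImplicit false

noncomputable section

namespace Crest.Agent.T157.Pos

open MeasureTheory ProbabilityTheory Matrix Filter Set Topology
open Crest.ProbabilityR.SpinGlassDynamics
open Crest.Agent.T157.E Crest.Agent.T157.Eig Crest.Agent.T157.Cond Crest.Agent.T157.Tap
open Crest.Agent.T157.SL
open Crest.Agent.T157.Pl (tau cmul isSign_sv)

variable {n : ℕ} {β s : ℝ}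

/-- the gauged instance -/
def In.gg (i : In) (σ : Cube i.n) : In := ⟨i.n, tau σ * i.g, i.d, sv σ * i.y⟩

lemma In.gg_J (i : In) (σ : Cube i.n) :
    (i.gg σ).J β = diagonal (sv σ) * i.J β * diagonal (sv σ) := by
  simp only [In.J, In.gg, Pl.Jmat_gauge, Matrix.mul_smul, Matrix.smul_mul]
  rfl

lemma In.gg_mag (i : In) (σ : Cube i.n) :
    mag (ising ((i.gg σ).J β) (i.gg σ).y) = sv σ * mag (ising (i.J β) i.y) := by
  rw [In.gg_J]; exact (congrArg mag (Pl.ising_gauge σ _ _)).trans (Pl.mag_gauge σ _)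

lemma In.gg_b (i : In) (σ : Cube i.n) : (i.gg σ).b β = sv σ * i.b β := by
  rw [In.b_eq, In.b_eq, In.gg_mag, In.gg_J]
  have h := isSign_sv σ
  have e := TapPl.cj_mulVec h (i.J β) (mag (ising (i.J β) i.y))
  rw [TapPl.cj] at e
  rw [mul_sub, mul_add, mul_smul_comm, ← e, ← TapPl.DD_sign h (mag (ising (i.J β) i.y))]
  rfl

lemma mp_law (σ : Cube n) (g : Pair n → ℝ) : MeasurePreserving (fun y => sv σ * y)
    (law sv (gibbsWeight n β g) s) (law sv (gibbsWeight n β (tau σ * g)) s) := by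
  have hm : Measurable fun y : V n => sv σ * y := (isSign_sv σ).emb.measurable
  refine ⟨hm, ?_⟩
  rw [law, law, Measure.map_finset_sum' hm.aemeasurable, ← Equiv.sum_comp (Pl.gauge σ)]
  refine Finset.sum_congr rfl fun x _ => ?_
  have e : (Gs (Fin n)).map (fun z => sv σ * z) = Gs (Fin n) :=
    (Pl.mp_sign_law false (isSign_sv σ)).map_eq
  rw [Measure.map_smul, Pl.prob_gauge, Measure.map_map hm (by fun_prop)]
  conv_rhs => rw [← e, Measure.map_map (by fun_prop) hm]
  congr 2; funext z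
  simp only [Function.comp_apply, Pl.gauge_apply, Pl.sv_cmul, mul_add, mul_smul_comm,
    (isSign_sv σ).mul_self]

/-- number of the events which occur -/
def cnt {X I : Type*} [Fintype I] (A : I → Set X) (x : X) : ℝ := ∑ i, (A i).indicator 1 x

lemma markov_cnt {X I : Type*} [MeasurableSpace X] [Fintype I] (μ : Measure X) [IsFiniteMeasure μ]
    (A : I → Set X) (t : ℝ) : t * μ.real {x | ¬ cnt A x < t} ≤ ∑ i, μ.real (A i) := by
  have hi : ∀ i, Integrable ((toMeasurable μ (A i)).indicator (1 : X → ℝ)) μ := fun i =>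
    (integrable_const _).indicator (measurableSet_toMeasurable μ _)
  rcases le_total t 0 with ht | ht
  · exact (mul_nonpos_of_nonpos_of_nonneg ht measureReal_nonneg).trans
      (Finset.sum_nonneg fun _ _ => measureReal_nonneg)
  have h := mul_meas_ge_le_integral_of_nonneg (μ := μ)
    (f := fun x => ∑ i, (toMeasurable μ (A i)).indicator (1 : X → ℝ) x)
    (ae_of_all _ fun x => Finset.sum_nonneg fun i _ =>
    indicator_nonneg (fun _ _ => zero_le_one) x) (integrable_finsetSum Finset.univ fun i _ => hi i) t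
  rw [integral_finsetSum _ fun i _ => hi i] at h
  simp only [integral_indicator_one (measurableSet_toMeasurable μ _), Measure.real,
    measure_toMeasurable] at h
  refine le_trans (mul_le_mul_of_nonneg_left (measureReal_mono fun x hx => ?_) ht) h
  exact (not_lt.1 hx).trans (Finset.sum_le_sum fun i _ => indicator_le_indicator_of_subset
    (subset_toMeasurable μ _) (fun _ => zero_le_one) x)

/-- most gauges of a typical instance are typical -/
theorem TF.most {P : In → Prop} (h : ∀ᶠ i in TF β s, P i) {δ : ℝ} (hδ : 0 < δ) :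
    ∀ᶠ i in TF β s, cnt (fun σ : Cube i.n => {_u : Unit | ¬ P (i.gg σ)}) () < δ * 2 ^ i.n := by
  refine ev_TF.2 fun ε hε => ?_
  have h1 := (ev_TF.1 h (δ * ε / 2) (by positivity)).real.const_mul (2 / (δ * ε))
  rw [mul_zero] at h1
  refine Top.Whp.imp (P := fun n p => cnt (fun σ : Cube n => {p : (Pair n → ℝ) × V n |
    ¬ bad β s P n (tau σ * p.1, p.2) ≤ δ * ε / 2}) p < δ * ε / 2 * 2 ^ n)
      (Top.whp_of_real_le h1 (.of_forall fun n => ?_)) fun n p hp => ?_
  · refine le_of_mul_le_mul_left ((markov_cnt (GD n) _ _).trans ((Finset.sum_le_card_nsmul _ _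
      ((GD n).real {p | ¬ bad β s P n p ≤ δ * ε / 2}) fun σ _ => ENNReal.toReal_mono
        (measure_ne_top _ _) (((Pl.mp_gauge false σ).prod (.id (gv (Fin n)))).measure_preimage_le
          {p | ¬ bad β s P n p ≤ δ * ε / 2})).trans_eq ?_)) (by positivity)
    simp only [Finset.card_univ, Fintype.card_fun, Fintype.card_bool, Fintype.card_fin,
      nsmul_eq_mul]
    generalize (GD n).real _ = r
    push_cast; field_simp
  have := prob_law β s n p.1
  refine le_of_mul_le_mul_left (a := δ * 2 ^ n) (le_trans (markov_cnt (law sv (gibbsWeight n β p.1) s)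
    (fun σ : Cube n => {y | ¬ P ⟨n, tau σ * p.1, p.2, sv σ * y⟩}) _) ?_) (by positivity)
  refine (Finset.sum_le_sum (g := fun σ => δ * ε / 2 + {p : (Pair n → ℝ) × V n |
    ¬ bad β s P n (tau σ * p.1, p.2) ≤ δ * ε / 2}.indicator 1 p) fun σ _ => ?_).trans ?_
  · have := prob_law β s n (tau σ * p.1)
    by_cases hc : bad β s P n (tau σ * p.1, p.2) ≤ δ * ε / 2
    · rw [indicator_of_notMem (by exact not_not.2 hc), add_zero]
      exact le_trans (ENNReal.toReal_mono (measure_ne_top _ _)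
        ((mp_law σ p.1).measure_preimage_le {y | ¬ P ⟨n, tau σ * p.1, p.2, y⟩})) hc
    · rw [indicator_of_mem (by exact hc)]
      exact measureReal_le_one.trans (le_add_of_nonneg_left (by positivity))
  rw [Finset.sum_add_distrib, Finset.sum_const, Finset.card_univ, Fintype.card_fun,
    Fintype.card_bool, Fintype.card_fin, nsmul_eq_mul]
  unfold cnt at hp
  push_cast; linarith

lemma sum_dot_sq (u : V n) : ∑ x : Cube n, (sv x ⬝ᵥ u) ^ 2 = 2 ^ n * (u ⬝ᵥ u) := by
  have e : ∀ i j, ∑ x : Cube n, sv x i * sv x j = if i = j then 2 ^ n else 0 := fun i j => by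
    split_ifs with h
    · subst h; simp [sv, spin_mul_self]
    · have := Equiv.sum_comp (Pl.gauge (Function.update (Pl.one n) i false))
        fun x : Cube n => sv x i * sv x j
      simp only [Pl.gauge_apply, Pl.sv_cmul, Pi.mul_apply] at this
      simp only [sv, Function.update_self, Function.update_of_ne (Ne.symm h), Pl.one, spin,
        if_true, Bool.false_eq_true, if_false, neg_mul, one_mul, Finset.sum_neg_distrib] at this ⊢
      linarith
  simp only [sq, dotProduct, Finset.sum_mul_sum, mul_mul_mul_comm _ (u _)]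
  rw [Finset.sum_comm, Finset.mul_sum]
  refine Finset.sum_congr rfl fun i _ => ?_
  rw [Finset.sum_comm]
  simp [← Finset.sum_mul, e]

lemma greedy {ι : Type*} [Fintype ι] {R : Cube n → Prop} {f : ι → V n} {B T : ℝ} (hT : 0 < T)
    (hR : cnt (fun σ : Cube n => {_u : Unit | ¬ R σ}) () < 1 / 2 * 2 ^ n)
    (hf : ∀ l, f l ⬝ᵥ f l ≤ B) (N : ℕ) (hN : 2 * (N * (Fintype.card ι * B)) ≤ T ^ 2) :
    ∀ k ≤ N, ∃ σ : Fin k → Cube n, (∀ a, R (σ a)) ∧
      ∀ a b, a ≠ b → ∀ l, |sv (σ a) ⬝ᵥ (sv (σ b) * f l)| ≤ T := by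
  intro k
  induction k with
  | zero => exact fun _ => ⟨Fin.elim0, fun a => a.elim0, fun a => a.elim0⟩
  | succ k ih =>
    intro hk
    obtain ⟨σ, h1, h2⟩ := ih (by omega)
    obtain ⟨x, -, hx⟩ := Finset.exists_lt_of_sum_lt (s := Finset.univ) (g := fun _ => T ^ 2)
      (f := fun x : Cube n => ∑ a, ∑ l, (sv x ⬝ᵥ (sv (σ a) * f l)) ^ 2 +
        T ^ 2 * {_u : Unit | ¬ R x}.indicator 1 ()) (by
      rw [Finset.sum_add_distrib, ← Finset.mul_sum, Finset.sum_comm, Finset.sum_const,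
        Finset.card_univ, Fintype.card_fun, Fintype.card_bool, Fintype.card_fin, nsmul_eq_mul]
      have t1 : ∑ a, ∑ x : Cube n, ∑ l, (sv x ⬝ᵥ (sv (σ a) * f l)) ^ 2 ≤
          k * (2 ^ n * ∑ l, f l ⬝ᵥ f l) := by
        refine (Finset.sum_le_card_nsmul _ _ (2 ^ n * ∑ l, f l ⬝ᵥ f l) fun a _ => ?_).trans_eq
          (by simp)
        rw [Finset.sum_comm, Finset.mul_sum]
        exact Finset.sum_le_sum fun l _ => by
          rw [sum_dot_sq, TapPl.dot_sign (isSign_sv _)]
      have t2 : ∑ l, f l ⬝ᵥ f l ≤ Fintype.card ι * B := by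
        simpa using Finset.sum_le_card_nsmul Finset.univ _ _ fun l _ => hf l
      have t0 : 0 ≤ ∑ l, f l ⬝ᵥ f l := Finset.sum_nonneg fun l _ => Eig.dot_self_nonneg _
      have t3 : (k : ℝ) * ∑ l, f l ⬝ᵥ f l ≤ N * (Fintype.card ι * B) :=
        mul_le_mul (by exact_mod_cast (by omega)) t2 t0 (Nat.cast_nonneg N)
      have t4 := mul_lt_mul_of_pos_left hR (pow_pos hT 2)
      have t5 := mul_le_mul_of_nonneg_left (show k * ∑ l, f l ⬝ᵥ f l ≤ T ^ 2 / 2 by linarith)
        (show (0 : ℝ) ≤ 2 ^ n by positivity)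
      unfold cnt at t4
      push_cast; linarith)
    have s0 : ∀ a, 0 ≤ ∑ l, (sv x ⬝ᵥ (sv (σ a) * f l)) ^ 2 := fun a => by positivity
    have hR' : R x := by
      by_contra hc
      rw [indicator_of_mem (by exact hc), Pi.one_apply, mul_one] at hx
      linarith [Finset.sum_nonneg fun a (_ : a ∈ Finset.univ) => s0 a]
    rw [indicator_of_notMem (by exact not_not.2 hR'), mul_zero, add_zero] at hx
    have h3 : ∀ a l, |sv x ⬝ᵥ (sv (σ a) * f l)| ≤ T := fun a l => abs_le_of_sq_le_sq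
      (((Finset.single_le_sum (f := fun l => (sv x ⬝ᵥ (sv (σ a) * f l)) ^ 2)
        (fun _ _ => sq_nonneg _) (Finset.mem_univ l)).trans (Finset.single_le_sum
          (fun a _ => s0 a) (Finset.mem_univ a))).trans hx.le) hT.le
    refine ⟨Fin.cons x σ, fun a => Fin.cases hR' h1 a, fun a b => ?_⟩
    refine Fin.cases ?_ (fun a => ?_) a <;> refine Fin.cases ?_ (fun b => ?_) b <;> intro hab l
    · exact absurd rfl hab
    · exact h3 b l
    · have := h3 a l
      rwa [show sv x ⬝ᵥ (sv (σ a) * f l) = sv (σ a) ⬝ᵥ (sv x * f l) from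
        Finset.sum_congr rfl fun _ _ => by simp only [Pi.mul_apply]; ring] at this
    · exact h2 a b (fun e => hab (congrArg _ e)) l

lemma bessel {N : ℕ} {u : Fin N → V n} {A T : ℝ} (hT : 0 ≤ T) (hA : 0 ≤ A)
    (h1 : ∀ a, u a ⬝ᵥ u a ≤ A) (h2 : ∀ a b, a ≠ b → |u a ⬝ᵥ u b| ≤ T) (w : V n) :
    ∑ a, (u a ⬝ᵥ w) ^ 2 ≤ (A + N * T) * (w ⬝ᵥ w) := by
  set c : Fin N → ℝ := fun a => u a ⬝ᵥ w with hc
  set z := ∑ a, c a • u a with hz
  have e1 : z ⬝ᵥ w = ∑ a, c a ^ 2 := by
    simp only [hz, sum_dotProduct, smul_dotProduct, smul_eq_mul, sq, hc]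
  have e2 : z ⬝ᵥ z ≤ (A + N * T) * ∑ a, c a ^ 2 := by
    have : z ⬝ᵥ z ≤ ∑ a, ∑ b, ((if a = b then A * c a ^ 2 else 0) + T / 2 * (c a ^ 2 + c b ^ 2)) := by
      simp only [hz, sum_dotProduct, dotProduct_sum, smul_dotProduct, dotProduct_smul, smul_eq_mul,
        Finset.mul_sum]
      refine Finset.sum_le_sum fun a _ => Finset.sum_le_sum fun b _ => ?_
      split_ifs with h
      · subst h; nlinarith [h1 a, sq_nonneg (c a)]
      · have t := h2 b a (Ne.symm h)
        have t2 : c a * (c b * (u b ⬝ᵥ u a)) ≤ |c a| * |c b| * T := by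
          rw [← mul_assoc, ← abs_mul]
          exact (le_abs_self _).trans ((abs_mul _ _).trans_le
            (mul_le_mul_of_nonneg_left t (abs_nonneg _)))
        nlinarith [sq_nonneg (|c a| - |c b|), sq_abs (c a), sq_abs (c b)]
    refine this.trans_eq ?_
    simp only [Finset.sum_add_distrib, Finset.sum_ite_eq, Finset.mem_univ, if_true, mul_add,
      Finset.sum_const, Finset.card_univ, Fintype.card_fin, nsmul_eq_mul, ← Finset.mul_sum]
    ring
  have e3 : (z ⬝ᵥ w) ^ 2 ≤ z ⬝ᵥ z * (w ⬝ᵥ w) := by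
    rw [← sq_abs, ← nrm_sq, ← nrm_sq, ← mul_pow]
    exact pow_le_pow_left₀ (abs_nonneg _) (abs_dot_le _ _) 2
  have w0 := Eig.dot_self_nonneg w
  rcases (Finset.sum_nonneg fun a (_ : a ∈ Finset.univ) => sq_nonneg (c a)).eq_or_lt with h | h
  · rw [← h]; positivity
  · rw [e1] at e3
    refine le_of_mul_le_mul_left ?_ h
    nlinarith [mul_le_mul_of_nonneg_right e2 w0]

/-- **(G2)** a typical instance has `N` typical gauged copies with nearly orthogonal gauges -/
theorem TF.tuple {P : In → Prop} (h : ∀ᶠ i in TF β s, P i) {ι : Type*} [Fintype ι]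
    (f : ι → ∀ i : In, V i.n) {B : ℝ} (hf : ∀ l i k, |f l i k| ≤ B) (N : ℕ) {ε : ℝ} (hε : 0 < ε) :
    ∀ᶠ i in TF β s, ∃ σ : Fin N → Cube i.n, (∀ a, P (i.gg (σ a))) ∧
      ∀ a b, a ≠ b → ∀ l, |sv (σ a) ⬝ᵥ (sv (σ b) * f l i)| ≤ ε * i.n := by
  filter_upwards [TF.most h one_half_pos, TF.lim.eventually ((eventually_gt_atTop 0).and
    (tendsto_natCast_atTop_atTop.eventually_ge_atTop (2 * (N * (Fintype.card ι * B ^ 2)) / ε ^ 2)))]
    with i h1 ⟨h2, h3⟩
  have hn : (0 : ℝ) < i.n := by positivity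
  rw [div_le_iff₀ (by positivity)] at h3
  refine greedy (B := B ^ 2 * i.n) (by positivity) h1 (fun l => ?_) N (by nlinarith) N le_rfl
  rw [dot_eq, mul_comm, ← nsmul_eq_mul, ← Fin.sum_const]
  exact Finset.sum_le_sum fun k _ => sq_le_sq' (abs_le.1 (hf l i k)).1 (abs_le.1 (hf l i k)).2

/-- **(G2)** for every vector `w` some typical gauged copy is nearly orthogonal to the types -/
theorem TF.gauge {ι : Type*} [Fintype ι] (B : ℝ) {e : ℝ} (he : 0 < e) : ∃ N : ℕ, 0 < N ∧
    ∀ (β s : ℝ) (P : In → Prop), (∀ᶠ i in TF β s, P i) → ∀ d : ι → ∀ i : In, V i.n,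
      (∀ l i k, |d l i k| ≤ B) → ∀ᶠ i in TF β s, ∃ σ : Fin N → Cube i.n, (∀ a, P (i.gg (σ a))) ∧
        ∀ w : V i.n, ∃ a, ∑ l, ((sv (σ a) * d l i) ⬝ᵥ w) ^ 2 ≤ e * i.n * (w ⬝ᵥ w) := by
  set c : ℝ := Fintype.card ι + 1 with hc
  have c0 : 0 < c := by positivity
  obtain ⟨N, hN⟩ := exists_nat_gt (2 * c * B ^ 2 / e)
  have N0 : (0 : ℝ) < N := lt_of_le_of_lt (by positivity) hN
  rw [div_lt_iff₀ he] at hN
  refine ⟨N, by exact_mod_cast N0, fun β s P h d hd => (TF.tuple h (fun l i => d l i * d l i)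
    (B := B ^ 2) (fun l i k => by
      rw [Pi.mul_apply, abs_mul_self, ← sq]
      exact sq_le_sq' (abs_le.1 (hd l i k)).1 (abs_le.1 (hd l i k)).2) N
        (show 0 < e / (2 * c) by positivity)).mono fun i ⟨σ, h1, h2⟩ => ⟨σ, h1, fun w => ?_⟩⟩
  have w0 := Eig.dot_self_nonneg w
  have : Nonempty (Fin N) := ⟨⟨0, by exact_mod_cast N0⟩⟩
  obtain ⟨a, -, ha⟩ := Finset.exists_le_of_sum_le (s := Finset.univ) Finset.univ_nonempty
    (f := fun a => ∑ l, ((sv (σ a) * d l i) ⬝ᵥ w) ^ 2) (g := fun _ => e * i.n * (w ⬝ᵥ w)) (by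
    rw [Finset.sum_comm, Fin.sum_const, nsmul_eq_mul]
    refine (Finset.sum_le_card_nsmul _ _ _ fun l _ => bessel (A := B ^ 2 * i.n)
      (T := e / (2 * c) * i.n) (by positivity) (by positivity) (fun a => ?_)
        (fun a b hab => ?_) w).trans ?_
    · rw [TapPl.dot_sign (isSign_sv _), dot_eq, mul_comm, ← nsmul_eq_mul, ← Fin.sum_const]
      exact Finset.sum_le_sum fun k _ => sq_le_sq' (abs_le.1 (hd l i k)).1 (abs_le.1 (hd l i k)).2
    · convert h2 a b hab l using 2
      exact Finset.sum_congr rfl fun _ _ => by simp only [Pi.mul_apply]; ring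
    · rw [Finset.card_univ, nsmul_eq_mul]
      refine (mul_le_mul_of_nonneg_right (show _ ≤ c by linarith) (by positivity)).trans ?_
      rw [show c * ((B ^ 2 * i.n + N * (e / (2 * c) * i.n)) * (w ⬝ᵥ w)) =
        (c * B ^ 2 + N * e / 2) * (i.n * (w ⬝ᵥ w)) by field_simp, mul_assoc e, ← mul_assoc]
      rw [← mul_assoc (N : ℝ), mul_assoc _ (i.n : ℝ)]
      exact mul_le_mul_of_nonneg_right (by linarith) (by positivity))
  exact ⟨a, ha⟩

end Crest.Agent.T157.Pos

end
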