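import Crest.Agent.T157.S3Fam_60
import Crest.Agent.T157.S3Gg_96
import Crest.Agent.T157.TyG_23

/-!
# Row 157, block S1 (helper60): the ansatz along the typical filter; only odd types remain
-/

set_option autoImplicit false

noncomputable section

namespace Crest.Agent.T157.S1.SA

open Matrix Filter Finset
open Crest.Agent.T157.Eig
open Crest.Agent.T157.E (Cube sv ising prob)
open Crest.Agent.T157.Rec (grad)
open Crest.Agent.T157.S3 Crest.Agent.T157.S3.Fam Crest.Agent.T157.S3.An90 Crest.Agent.T157.S3.Gg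
open Crest.Agent.T157.S3.T60 (TyB bv)
open Crest.Agent.T157.Pos (In TF fam)

section inst
variable {n : ℕ}

/-- the gradient of `w · ψ` is `Tgᵀ w` up to an excess -/
def Lk (J : Mx n) (y : V n) (e1 η : ℝ) (E : V n → ℝ) (ψ : Cube n → V n) (Tg : Cube n → Mx n) : Prop :=
  ∀ w, ‖w‖ ≤ η → Exc (ising J y) e1 (E w) fun x => nrm (grad (fun z => w ⬝ᵥ ψ z) x - (Tg x)ᵀ *ᵥ w)

/-- one copy of the ansatz with its link -/
structure Cp (J : Mx n) (y : V n) (a C C0 C' e e1 η K : ℝ) (E : V n → ℝ) (p q α : V n)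
    (Tg : Cube n → Mx n) (ψ : Cube n → V n) (T : Cube n → Mx n) : Prop where
  ans : AnsAt J y a C C0 C' e e1 η K E p q α ψ T
  lk : Lk J y e1 η E ψ Tg

/-- the error for the test vectors `f` -/
def Ety (e1 C1 K : ℝ) {k : ℕ} (f : Fin k → V n) (w : V n) : ℝ :=
  e1 * (w ⬝ᵥ w) + K + C1 * ∑ j, (w ⬝ᵥ f j) ^ 2

variable {J : Mx n} {y p q α p' : V n} {a C C0 C' e e1 η K D D0 f1 η' K' : ℝ} {E E' : V n → ℝ}
  {ψ : Cube n → V n} {T Tg : Cube n → Mx n}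

theorem amono (h : AnsAt J y a C C0 C' e e1 η K E p q α ψ T) (hC : C ≤ D)
    (hp : ∀ w, C0 * (w ⬝ᵥ (p * w)) ≤ D0 * (w ⬝ᵥ (p' * w))) (he : e1 ≤ f1) (hη : η' ≤ η) (hK : K ≤ K')
    (hE : ∀ w, E w ≤ E' w) : AnsAt J y a D D0 C' e f1 η' K' E' p' q α ψ T := by
  have c0 : 0 ≤ C := (opn_nonneg _).trans (h.opψ default)
  have n1 : ∀ w : V n, C * nrm w ≤ D * nrm w := fun w =>
    mul_le_mul_of_nonneg_right hC (nrm_nonneg w)
  have k1 : ∀ ν, Chain22.IsP ν → e1 * Ent.kl ν (prob (ising J y)) ≤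
      f1 * Ent.kl ν (prob (ising J y)) := fun ν hν =>
    mul_le_mul_of_nonneg_right he (Ent.kl_nonneg hν
      (Chain22.isP_prob' (Da.Gr.ising_pos J y)) (.of_pos _ (Chain22.prob_pos' (Da.Gr.ising_pos J y))))
  refine ⟨h.free, fun x => (h.opψ x).trans hC, fun x => (h.opT x).trans hC, fun w ν hν => ?_,
    fun w hw => ?_, fun w hw => ?_, fun w hw => ?_, fun w hw ν hν G hG => ?_,
    fun w hw z ν hν => ?_, fun w hw => ?_⟩
  · exact (h.dv w ν hν).trans (mul_le_mul (n1 w) (Real.sqrt_le_sqrt (by linarith))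
      (Real.sqrt_nonneg _) ((mul_nonneg c0 (nrm_nonneg w)).trans (n1 w)))
  · obtain ⟨Ω, h1, h2⟩ := h.vg w (hw.trans hη)
    exact ⟨Ω, Ver.mono h1 he (n1 w) (hE w), by linarith [hp w, hE w]⟩
  · obtain ⟨Ω, h1⟩ := h.vf w (hw.trans hη)
    exact ⟨Ω, Ver.mono h1 he (n1 w) (hE w)⟩
  · exact Exc.mono (h.gf w (hw.trans hη)) he (by linarith [hE w]) fun _ => le_rfl
  · linarith [h.eq w (hw.trans hη) ν hν G hG, hE w, k1 ν hν]
  · linarith [h.rs w (hw.trans hη) z ν hν, hE w, k1 ν hν,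
      mul_le_mul_of_nonneg_right he (dot_self_nonneg z)]
  · linarith [h.en w (hw.trans hη), hp w, hE w]

theorem Lk.mono (h : Lk J y e1 η E ψ Tg) (he : e1 ≤ f1) (hη : η' ≤ η) (hE : ∀ w, E w ≤ E' w) :
    Lk J y f1 η' E' ψ Tg := fun w hw => Exc.mono (h w (hw.trans hη)) he (hE w) fun _ => le_rfl

theorem Cp.mono (h : Cp J y a C C0 C' e e1 η K E p q α Tg ψ T) (hC : C ≤ D)
    (hp : ∀ w, C0 * (w ⬝ᵥ (p * w)) ≤ D0 * (w ⬝ᵥ (p' * w))) (he : e1 ≤ f1) (hη : η' ≤ η) (hK : K ≤ K')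
    (hE : ∀ w, E w ≤ E' w) : Cp J y a D D0 C' e f1 η' K' E' p' q α Tg ψ T :=
  ⟨amono h.ans hC hp he hη hK hE, h.lk.mono he hη hE⟩

/-- pull-back along a gauge transformation -/
theorem Cp.back (z : Cube n) (h : Cp (cj z J) (sv z * y) a C C0 C' e e1 η K E p q α Tg ψ T) :
    Cp J y a C C0 C' e e1 η K (fun w => E (sv z * w)) p q α (gM z Tg) (gV z ψ) (gM z T) := by
  refine ⟨ansAt' z h.ans, fun w hw => ?_⟩
  have := exc_g z (h.lk (sv z * w) ((norm_g z w).trans_le hw))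
  rw [cj_cj, gg] at this
  convert this using 2
  rw [Gg.grad_dot, congrFun (flow_g z w Tg), gV, gV, ← mul_sub, nrm_g]

end inst

/-- a flat test vector -/
def fv (β : ℝ) (u : ℝ → ℝ) (i : In) : V i.n := (√(i.n : ℝ))⁻¹ • fun k => u (i.b β k)
/-- odd part -/
def od (u : ℝ → ℝ) (x : ℝ) : ℝ := (u x - u (-x)) / 2

/-- the ansatz at one instance: one copy for all types, and for each weight a copy for the odd types -/
structure AnsI (β a C C0 C' e e1 η C1 : ℝ) {k : ℕ} (d : Fin k → ℝ → ℝ) (p q α : ℝ → ℝ)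
    (Tg : ∀ i : In, Cube i.n → Mx i.n) (i : In) : Prop where
  all : ∃ ψ T, Cp (i.J β) i.y a C C0 C' e e1 η (Real.log i.n)
    (Ety e1 C1 (C1 * Real.log i.n) fun j => fv β (d j) i) (fun l => p (i.b β l))
    (fun l => q (i.b β l)) (fun l => α (i.b β l)) (Tg i) ψ T
  odd : ∀ w, ∃ E ψ T, Cp (i.J β) i.y a C C0 C' e e1 η (Real.log i.n) E (fun l => p (i.b β l))
    (fun l => q (i.b β l)) (fun l => α (i.b β l)) (Tg i) ψ T ∧
    E w ≤ Ety e1 C1 (C1 * Real.log i.n) (fun j => fv β (od (d j)) i) w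

/-- **the ansatz along the typical filter** -/
def AnsT (β s a C0 C' e : ℝ) (p q α : ℝ → ℝ) (Tg : ∀ i : In, Cube i.n → Mx i.n) : Prop :=
  ∃ C ≥ (1 : ℝ), ∀ e1 > (0 : ℝ), ∃ η > (0 : ℝ), ∃ (k : ℕ) (d : Fin k → ℝ → ℝ) (C1 : ℝ),
    (∀ j, Continuous (d j) ∧ ∀ x, |d j x| ≤ 1) ∧ 0 ≤ C1 ∧
      ∀ᶠ i in TF β s, AnsI β a C C0 C' e e1 η C1 d p q α Tg i

/-- the same on a family -/
def AnsL (F : Fam) (a C0 C' e : ℝ) (p q α : F.Df) (Tg : ∀ i, Cube (F.n i) → Mx (F.n i)) : Prop :=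
  ∃ C ≥ (1 : ℝ), ∀ e1 > (0 : ℝ), ∃ η > (0 : ℝ), ∃ D : List F.Df, (∀ t ∈ D, t ∈ TyB F) ∧ ∃ C1 : ℝ,
    0 ≤ C1 ∧ ∀ᶠ i in F.l, ∃ ψ T, Cp (F.J i) (F.y i) a C C0 C' e e1 η (F.K i) (E0 e1 C1 D i) (p i)
      (q i) (α i) (Tg i) ψ T

variable {β s : ℝ} {G : In → Prop}

/-- normalisation of the types -/
lemma types (D : List (fam β s G).Df) (hD : ∀ t ∈ D, t ∈ TyB (fam β s G)) :
    ∃ (k : ℕ) (d : Fin k → ℝ → ℝ) (B : ℝ), (∀ j, Continuous (d j) ∧ ∀ x, |d j x| ≤ 1) ∧ 0 ≤ B ∧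
      ∀ i w, Fam.Pi D i w ^ 2 ≤ B * ∑ j, (w ⬝ᵥ fv β (d j) i.1) ^ 2 := by
  choose u u1 u2 u3 using fun j : Fin D.length => hD D[j.1] (List.getElem_mem _)
  choose B hB using u2
  set M : ℝ := 1 + ∑ j, |B j| with hM
  have M0 : 0 < M := by positivity
  have hM' : ∀ j x, |u j x| ≤ M := fun j x => ((hB j x).trans (le_abs_self _)).trans
    ((single_le_sum (f := fun j => |B j|) (fun _ _ => abs_nonneg _) (mem_univ j)).trans (by linarith))
  refine ⟨D.length, fun j x => u j x / M, M ^ 2 * D.length, fun j => ⟨(u1 j).div_const _, fun x => by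
    rw [abs_div, abs_of_pos M0, div_le_one M0]; exact hM' j x⟩, by positivity, fun i w => ?_⟩
  have e : Fam.Pi D i w = M * ∑ j, |w ⬝ᵥ fv β (fun x => u j x / M) i.1| := by
    rw [Fam.Pi, ← Fin.sum_univ_fun_getElem, sum_div, mul_sum]
    refine sum_congr rfl fun j _ => ?_
    have : D[j.1] i = M • fun k => u j (i.1.b β k) / M := by
      rw [u3 j]; funext k
      have e : bv (fam β s G) i = i.1.b β := S3P.bF_fam i
      simp only [e, Pi.smul_apply, smul_eq_mul]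
      field_simp
    rw [this, fv, dotProduct_smul, dotProduct_smul, smul_eq_mul, smul_eq_mul, abs_mul, abs_mul,
      abs_of_pos M0, abs_of_nonneg (inv_nonneg.2 (Real.sqrt_nonneg _))]
    ring
  have := sq_sum_le_card_mul_sum_sq (s := univ)
    (f := fun j => |w ⬝ᵥ fv β (fun x => u j x / M) i.1|)
  simp only [sq_abs, card_univ, Fintype.card_fin] at this
  rw [e, mul_pow, mul_assoc]
  exact mul_le_mul_of_nonneg_left this (sq_nonneg M)

lemma ev_g {u : ℝ → ℝ} (h : ∀ x, u (-x) = u x) (i : In) (σ : Cube i.n) :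
    (fun l => u ((i.gg σ).b β l)) = fun l => u (i.b β l) := by
  funext l
  refine (congrArg u (congrFun (Pos.In.gg_b (β := β) i σ) l)).trans ?_
  change u (sv σ l * i.b β l) = _
  rcases sv_cases σ l with e | e <;> simp [e, h]

lemma fv_g (u : ℝ → ℝ) (i : In) (σ : Cube i.n) (w : V i.n) : (sv σ * w) ⬝ᵥ fv β u (i.gg σ) =
    w ⬝ᵥ fv β (od u) i + (√(i.n : ℝ))⁻¹ *
      ((sv σ * fun l => (u (i.b β l) + u (-i.b β l)) / 2) ⬝ᵥ w) := by
  have e0 : fv β u (i.gg σ) = ((√(i.n : ℝ))⁻¹ • fun l => u (sv σ l * i.b β l) : V i.n) := by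
    rw [fv, Pos.In.gg_b]; rfl
  rw [e0]
  simp only [fv, dotProduct, Pi.smul_apply, smul_eq_mul, Pi.mul_apply, mul_sum, ← sum_add_distrib]
  refine sum_congr rfl fun l _ => ?_
  rcases sv_cases σ l with e | e <;> simp only [e, od, one_mul, neg_mul] <;> ring

/-- **the gauge step** -/
theorem ansT_of {a C0 C' e : ℝ} {p q α : ℝ → ℝ} {Tg : ∀ i : In, Cube i.n → Mx i.n}
    (hG : ∀ᶠ i in TF β s, G i) (hp : ∀ x, p (-x) = p x) (hq : ∀ x, q (-x) = q x)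
    (hα : ∀ x, α (-x) = α x) (hT : ∀ (i : In) (σ : Cube i.n), gM σ (Tg (i.gg σ)) = Tg i)
    (h : AnsL (fam β s G) a C0 C' e (fun i l => p (i.1.b β l)) (fun i l => q (i.1.b β l))
      (fun i l => α (i.1.b β l)) fun i => Tg i.1) : AnsT β s a C0 C' e p q α Tg := by
  obtain ⟨C, hC, H⟩ := h
  refine ⟨C, hC, fun e1 he => ?_⟩
  obtain ⟨η, η0, D, hD, C1, c1, H⟩ := H (e1 / 2) (half_pos he)
  obtain ⟨k, d, B, hd, B0, hB⟩ := types D hD
  set A : ℝ := C1 * (B + 1) with hA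
  have A0 : 0 ≤ A := by positivity
  have H1 : ∀ᶠ i in TF β s, 1 ≤ i.n ∧ ∃ ψ T, Cp (i.J β) i.y a C C0 C' e e1 η (Real.log i.n)
      (Ety (e1 / 2) A (A * Real.log i.n) fun j => fv β (d j) i) (fun l => p (i.b β l))
      (fun l => q (i.b β l)) (fun l => α (i.b β l)) (Tg i) ψ T := by
    filter_upwards [Pos.fam_out hG H, Pos.TF.lim.eventually (eventually_ge_atTop 1)]
      with i ⟨hi, ψ, T, h⟩ h1
    refine ⟨h1, ψ, T, h.mono le_rfl (fun _ => le_rfl) (half_le_self he.le) le_rfl le_rfl fun w => ?_⟩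
    have l0 : 0 ≤ Real.log i.n := Real.log_natCast_nonneg _
    have := mul_le_mul_of_nonneg_left (hB ⟨i, hi⟩ w) c1
    have s0 : 0 ≤ ∑ j, (w ⬝ᵥ fv β (d j) i) ^ 2 := sum_nonneg fun _ _ => sq_nonneg _
    simp only [E0, Ety, hA]
    nlinarith [mul_nonneg c1 s0, mul_nonneg (mul_nonneg c1 B0) l0]
  obtain ⟨N, -, hN⟩ := Pos.TF.gauge (ι := Fin k) 1 (e := e1 / (4 * (A + 1))) (by positivity)
  refine ⟨η, η0, k, d, 2 * A, hd, by positivity, ?_⟩
  filter_upwards [H1, hN β s _ H1 (fun j i l => (d j (i.b β l) + d j (-i.b β l)) / 2) fun j i l => by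
    have h1 := abs_le.1 ((hd j).2 (i.b β l))
    have h2 := abs_le.1 ((hd j).2 (-i.b β l))
    exact abs_le.2 ⟨by linarith, by linarith⟩] with i ⟨n1, ψ, T, h⟩ ⟨σ, h1, h2⟩
  have l0 : 0 ≤ Real.log i.n := Real.log_natCast_nonneg _
  refine ⟨⟨ψ, T, h.mono le_rfl (fun _ => le_rfl) le_rfl le_rfl le_rfl fun w => ?_⟩, fun w => ?_⟩
  · have s0 : 0 ≤ ∑ j, (w ⬝ᵥ fv β (d j) i) ^ 2 := sum_nonneg fun _ _ => sq_nonneg _
    simp only [Ety]
    nlinarith [mul_nonneg A0 s0, mul_nonneg A0 l0, mul_nonneg he.le (dot_self_nonneg w)]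
  obtain ⟨j, hj⟩ := h2 w
  obtain ⟨-, ψ', T', h3⟩ := h1 j
  rw [ev_g hp, ev_g hq, ev_g hα, Pos.In.gg_J] at h3
  have h4 := Cp.back (σ j) h3
  rw [hT] at h4
  refine ⟨_, _, _, h4, ?_⟩
  have n0 : (0 : ℝ) < i.n := by exact_mod_cast n1
  have e1' : ∀ t : ℝ, ((√(i.n : ℝ))⁻¹ * t) ^ 2 = t ^ 2 / i.n := fun t => by
    rw [mul_pow, inv_pow, Real.sq_sqrt n0.le]; ring
  have h5 : ∑ l, ((sv (σ j) * w) ⬝ᵥ fv β (d l) (i.gg (σ j))) ^ 2 ≤
      2 * ∑ l, (w ⬝ᵥ fv β (od (d l)) i) ^ 2 + 2 * (e1 / (4 * (A + 1)) * (w ⬝ᵥ w)) := by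
    have h6 := div_le_div_of_nonneg_right hj n0.le
    rw [mul_right_comm, mul_div_cancel_right₀ _ n0.ne', sum_div] at h6
    refine le_trans ?_ (add_le_add_right (mul_le_mul_of_nonneg_left h6 zero_le_two) _)
    rw [mul_sum, mul_sum, ← sum_add_distrib]
    refine sum_le_sum fun l _ => ?_
    rw [fv_g, ← e1']
    exact add_sq_le.trans_eq (mul_add _ _ _)
  have h7 : A * (e1 / (4 * (A + 1))) ≤ e1 / 4 := by
    rw [← mul_div_assoc, div_le_div_iff₀ (by positivity) (by norm_num)]; nlinarith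
  have h8 := mul_le_mul_of_nonneg_right h7 (dot_self_nonneg w)
  have h9 := mul_le_mul_of_nonneg_left h5 A0
  simp only [Ety]
  change e1 / 2 * ((sv (σ j) * w) ⬝ᵥ (sv (σ j) * w)) + A * Real.log i.n + _ ≤ _
  rw [dot_gg]
  refine (add_le_add_right h9 _).trans ?_
  nlinarith [mul_nonneg A0 l0]

end Crest.Agent.T157.S1.SA

end
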