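import Crest.Agent.T157.S1SupA_60
import Crest.Agent.T157.S1Par_97
import Crest.Agent.T157.S1An_90
import Crest.Agent.T157.AtC_39
import Crest.Agent.T157.PosN_23

/-!
# Row 157, block S1 (helper60): base points, diagonals, exit from the typical filter
-/

set_option autoImplicit false

noncomputable section

namespace Crest.Agent.T157.S1.SA

open Matrix Filter Finset MeasureTheory
open Crest.ProbabilityR.SpinGlassDynamics
open Crest.Agent.T157.Eig Crest.Agent.T157.E Crest.Agent.T157.SL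
open Crest.Agent.T157.S3 (V Mx)
open Crest.Agent.T157.S3.T60 (MO DO a0 alf)
open Crest.Agent.T157.Pos (In TF Lv)
open Crest.Agent.T157.Top (Whp)
open Crest.Agent.T157.Tw (sech2 sech2_pos)

variable {β : ℝ}

/-- base hypothesis and covariance bound on a macroscopic ball -/
def Ball (β K ρ κ : ℝ) (i : In) : Prop := ∀ v : V i.n, nrm v ≤ ρ * √i.n →
  Bas (i.J β) K κ (i.y + v) ∧ ∀ u : V i.n, u ⬝ᵥ covM (ising (i.J β) (i.y + v)) *ᵥ u ≤ K * (u ⬝ᵥ u)

theorem Ball.bas {K ρ κ : ℝ} {i : In} (h : Ball β K ρ κ i) (hρ : 0 ≤ ρ) : Bas (i.J β) K κ i.y := by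
  simpa using (h 0 (by rw [nrm_zero]; positivity)).1

/-- **level-uniform base points** -/
theorem tf_ball (hβ : β ∈ Set.Ioo (0 : ℝ) 1) : ∃ K > (0 : ℝ), ∃ ρ > (0 : ℝ), ∃ κ > (0 : ℝ),
    (Whp disorderLaw fun n g => Bas (β • Jmat n g) K κ 0) ∧
      ∀ s ≥ (0 : ℝ), ∀ᶠ i in TF β s, Ball β K ρ κ i := by
  obtain ⟨K, hK, ρ, hρ, κ, hκ, h⟩ := Atd.atyC β hβ
  refine ⟨K, hK, ρ, hρ, κ, hκ, h.mono ?_, fun s hs => Pos.TF.of_dis
    (P := fun n g y => Ball β K ρ κ ⟨n, g, 0, y⟩) fun ε hε => h.mono ?_⟩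
  · filter_upwards [eventually_ge_atTop 1] with n hn g hg
    by_contra hc
    have h2 := hg 0 le_rfl
    simp only [gibbsWeight_eq_ising, Tap.Cov15.tilt0] at h2
    have n0 : (0 : ℝ) < n := by exact_mod_cast hn
    have h3 : Real.exp (-(κ * n)) < 1 := Real.exp_lt_one_iff.2 (by nlinarith)
    refine absurd (le_trans (TopL.law_zero _ (Da.Gr.ising_pos _ _) ?_) h2) (not_le.2 h3)
    exact fun h => hc (by simpa [Bas] using (h 0 (by rw [nrm_zero]; positivity)).1)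
  · filter_upwards [(TapPl.tendsto_exp_neg hκ).eventually (ge_mem_nhds hε)] with n hn g hg
    have := hg s hs
    simp only [gibbsWeight_eq_ising, Tap.Cov15.tilt0] at this ⊢
    rw [neg_mul] at hn
    exact this.trans hn

lemma sech2_le (b : ℝ) : sech2 b ≤ 1 := by
  rw [sech2, div_le_one (by positivity [Real.cosh_pos b])]
  exact one_le_pow₀ (Real.one_le_cosh b)

lemma sech2_neg (b : ℝ) : sech2 (-b) = sech2 b := by simp [sech2]

/-- the rescaled weight of the ansatz -/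
def qf (ρ : ℝ → ℝ) (b : ℝ) : ℝ := 2 / 3 * ρ b * sech2 b

section model
variable {l a a' e s0 : ℝ} {ν : Measure ℝ} {g al0 ρ : ℝ → ℝ}

theorem mo_hi (h : MO β l a ν g) (h0 : 0 < β) (ha : a ≤ a') (b : ℝ) :
    β * g b ≤ sech2 b * (1 - β * (l - a')) :=
  (h.hi b).trans (mul_le_mul_of_nonneg_left (by nlinarith) (sech2_pos b).le)

theorem mo_r0 (h : MO β l a ν g) (h0 : 0 < β) (ha : a ≤ a') : 0 < 1 - β * (l - a') :=
  (mul_pos_iff_of_pos_left (sech2_pos 0)).1 ((mul_pos h0 (h.pos 0)).trans_le (mo_hi h h0 ha 0))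

/-- `β g ≤ sech²` -/
theorem mo_le (h : MO β l a ν g) (h0 : 0 < β) (ha : a ≤ l) (b : ℝ) : β * g b ≤ sech2 b := by
  simpa using mo_hi h h0 ha b

theorem qf_mem (h : DO l a e s0 al0 ρ) (b : ℝ) :
    l / 6 * sech2 b ≤ qf ρ b ∧ qf ρ b ≤ 2 * sech2 b :=
  ⟨mul_le_mul_of_nonneg_right (by linarith [h.lo b]) (sech2_pos b).le,
    mul_le_mul_of_nonneg_right (by linarith [h.hi b]) (sech2_pos b).le⟩

theorem qf_neg (h : DO l a e s0 al0 ρ) (b : ℝ) : qf ρ (-b) = qf ρ b := by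
  rw [qf, qf, h.even, sech2_neg]

theorem alf_neg (h : DO l a e s0 al0 ρ) (b : ℝ) : alf s0 a ρ (-b) = alf s0 a ρ b := by
  rw [alf, alf, h.even, sech2_neg]

end model

/-- the clauses of `LinOK2` on the diagonals -/
structure LinA {n : ℕ} (J : Mx n) (y0 p a0 al q : V n) (lq C1 e : ℝ) : Prop where
  hp : ∀ i, 0 < p i ∧ p i ≤ 1
  hq : ∀ i, lq * p i ≤ q i ∧ q i ≤ 2 * p i
  ha : ∀ i, p i * |a0 i| ≤ C1 ∧ p i * |al i - a0 i| ≤ e
  pos : ∀ (S : Finset (Fin n)) (Δ : V n), (∀ i ∈ S, Δ i = 0) →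
    Δ ⬝ᵥ Δ ≤ C1 * ∑ i ∈ Sᶜ, zv J p a0 Δ i ^ 2 +
      C1 * ((mag (ising J y0) ⬝ᵥ Δ) ^ 2 / (mag (ising J y0) ⬝ᵥ mag (ising J y0)))

/-- **the diagonals**, with a constant which does not depend on the level -/
theorem linA (hβ : β ∈ Set.Ioo (0 : ℝ) 1) {l a' : ℝ} (ha' : a' < l) : ∃ C1 ≥ (4 : ℝ),
    ∀ s q, Lv β s q → ∀ a ≤ a', ∀ g, MO β l a (S3P.nu (s + β ^ 2 * q)) g → ∀ᶠ i in TF β s,
      ∀ e s0 ρ, DO l a e s0 (a0 β (S3P.nu (s + β ^ 2 * q)) g) ρ →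
        LinA (i.J β) i.y (fun k => sech2 (i.b β k))
          (fun k => a0 β (S3P.nu (s + β ^ 2 * q)) g (i.b β k)) (fun k => alf s0 a ρ (i.b β k))
          (fun k => qf ρ (i.b β k)) (l / 6) C1 e := by
  set r : ℝ := max (1 - β * (l - a')) (1 / 2) with hr
  have r0 : 0 < r := lt_max_of_lt_right one_half_pos
  have r1 : r < 1 := max_lt (by nlinarith [hβ.1]) (by norm_num)
  obtain ⟨C1, c1, η, η0, H⟩ := Pos.TF.linPos ⟨hβ.1, hβ.2.le⟩ (a0 := β / r) (c := β)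
    (by rw [lt_div_iff₀ r0]; nlinarith [hβ.1]) hβ.1
  refine ⟨max C1 4, le_max_right _ _, fun s q hL a ha g hg => ?_⟩
  have e1 : ∫ x, g x ∂S3P.nu (s + β ^ 2 * q) = Tap.gE (fun x => 1 / (1 / g x)) (s + β ^ 2 * q)
      (s + β ^ 2 * q) := by simpa only [one_div_one_div] using S3P.int_nu _ hg.cont
  have i0 : 0 ≤ ∫ x, g x ∂S3P.nu (s + β ^ 2 * q) := integral_nonneg fun x => (hg.pos x).le
  filter_upwards [H s q hL (fun x => 1 / g x) (continuous_const.div hg.cont fun x => (hg.pos x).ne')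
    (fun x => by rw [hg.even]) fun x => by
      rw [div_le_div_iff₀ r0 (hg.pos x), one_mul]
      exact (mo_hi hg hβ.1 ha x).trans ((mul_le_of_le_one_left (mo_r0 hg hβ.1 ha).le
        (sech2_le x)).trans (le_max_left _ _))] with i hi e s0 ρ hd
  refine ⟨fun k => ⟨sech2_pos _, sech2_le _⟩, fun k => qf_mem hd _, fun k => ⟨?_, hd.al _⟩,
    fun S Δ hS => ?_⟩
  · rw [abs_of_pos (hg.a0 _).1]; exact (hg.a0 _).2.trans (le_max_right _ _)
  · refine (hi (fun k => a0 β (S3P.nu (s + β ^ 2 * q)) g (i.b β k)) (fun k => sech2 (i.b β k))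
      (fun k => by rw [a0, e1]; linarith) (fun k => ?_) S Δ hS).trans (add_le_add
        (mul_le_mul_of_nonneg_right (le_max_left _ _) (sum_nonneg fun _ _ => sq_nonneg _))
        (mul_le_mul_of_nonneg_right (le_max_left _ _) (Pos.md_nn _ _)))
    have h1 : β ≤ sech2 (i.b β k) * (1 / g (i.b β k)) := by
      rw [mul_one_div, le_div_iff₀ (hg.pos _)]; exact mo_le hg hβ.1 (by linarith) _
    rw [a0, mul_add]
    linarith [mul_nonneg (sech2_pos (i.b β k)).le (mul_nonneg (sq_nonneg β) i0)]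

/-! ### exit -/

section exit
variable {n : ℕ} {p : Par} {z : Cap} {J : Mx n} {O : Orc n} {m i : ℕ}

theorem tok_G {y0 pA al q w : V n} {u : ℝ} {t : Tt n} (G : ℕ → Set (V n))
    (h : Tok p z J O m i y0 pA al q w u t) : Tok p z J { O with G := G } m i y0 pA al q w u t :=
  ⟨h.ans, h.u0, h.ut, h.xf, h.pred, h.pv⟩

theorem good_G {y0 pv a0 : V n} (G : ℕ → Set (V n)) (h : Good p z J O m i y0 pv a0) :
    Good p z J { O with G := G } m i y0 pv a0 :=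
  let ⟨pA, al, q, k, v, ε, Ad, φ, h1, h2, h3, h4, h5, h6, h7, h8⟩ := h
  ⟨pA, al, q, k, v, ε, Ad, φ, h1, h2, h3, h4, fun w u hw => (h5 w u hw).imp fun _ => tok_G G,
    fun w u hw => (h6 w u hw).imp fun _ h => ⟨tok_G G h.1, h.2⟩, h7, h8⟩

end exit

/-- **exit**: typical good base points give the environment -/
theorem envS_of (p : Par) (z : ℕ → Cap) (O : ∀ n, (Pair n → ℝ) → Orc n)
    (Dq : ∀ n, (Pair n → ℝ) → (Cube n → ℝ) → ℝ)
    (h0 : Whp disorderLaw fun n g => Bas (β • Jmat n g) p.K0 p.κ0 0)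
    (hB : ∀ m : ℕ, 1 ≤ m → m ≤ p.N → ∀ᶠ i in TF β (m * p.τ), Bas (i.J β) p.K0 p.κ0 i.y)
    (hG : ∀ m : ℕ, 1 ≤ m → m < p.N → ∀ᶠ i in TF β (m * p.τ), ∃ pv a0, ∀ j, p.Val (m + 1) j →
      Good p (z i.n) (i.J β) (O i.n i.g) m j i.y pv a0)
    (hZ : Whp disorderLaw fun n g => (O n g).PV 1 0 0 0 0 ∧ (∀ m, XF ((O n g).zn m)) ∧
      ∀ f, Rv.Warm (ising (β • Jmat n g) 0) (z n).T0 f → ∑ m ∈ Icc 1 p.N,
        (mean (ising (β • Jmat n g) 0) fun σ => f σ * Ew (m * p.τ) ((O n g).zn m) σ 0) ≤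
          Dq n g f + (z n).K) :
    Whp disorderLaw fun n g => ∃ O', EnvS p (z n) (β • Jmat n g) O' (Dq n g) := by
  set P : ℕ → ∀ n, (Pair n → ℝ) → V n → Prop := fun m n g y => Bas (β • Jmat n g) p.K0 p.κ0 y ∧
    (m < p.N → ∃ pv a0, ∀ j, p.Val (m + 1) j → Good p (z n) (β • Jmat n g) (O n g) m j y pv a0)
    with hP
  have h1 := Top.Whp.finset (μ := disorderLaw) (Icc 1 p.N) (R := fun m n g =>
    (law sv (gibbsWeight n β g) (m * p.τ)).real {y | ¬ P m n g y} ≤ 1 / 2) fun m hm => by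
      have hm := mem_Icc.1 hm
      refine Pos.TF.out ?_ one_half_pos
      rcases hm.2.eq_or_lt with e | e
      · exact (hB m hm.1 hm.2).mono fun i hi => ⟨hi, fun h => absurd e h.ne⟩
      · exact ((hB m hm.1 hm.2).and (hG m hm.1 e)).mono fun i hi => ⟨hi.1, fun _ => hi.2⟩
  refine ((h0.and h1).and hZ).imp fun n g ⟨⟨a, b⟩, c⟩ =>
    ⟨{ O n g with G := fun m => {y | P m n g y} }, a, fun m m1 m2 => ?_, fun m _ _ y hy => hy.1,
      fun m _ m2 y hy => ?_, c.1, c.2.1, c.2.2⟩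
  · rw [← gibbsWeight_eq_ising]; exact b m (mem_Icc.2 ⟨m1, m2⟩)
  · obtain ⟨pv, a0, h⟩ := hy.2 m2
    exact ⟨pv, a0, fun j hj => good_G _ (h j hj)⟩

end Crest.Agent.T157.S1.SA

end
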