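import Crest.Agent.T157.S1BuDef_83
import Crest.Agent.T157.OkDef_35

/-!
# Row 157, block S1 (helper30): the supply `BSup` of the act B from two families; words
-/

set_option autoImplicit false

noncomputable section

namespace Crest.Agent.T157.S1

open Real Matrix Finset
open Crest.Agent.T157.E Crest.Agent.T157.SL
open Crest.Agent.T157.Eig (nrm opn)
open Crest.Agent.T157.S3 (V Mx AnsAt)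
open Crest.Agent.T157.Rip (Cav)

/-- the constants of the ansatz (`AnsAt`) and of the cavity vectors (`Cav`) -/
structure FC where
  CN : ℝ
  C0 : ℝ
  C' : ℝ
  e : ℝ
  e1 : ℝ
  η : ℝ
  K0 : ℝ
  K' : ℝ
  C1 : ℝ
  Cw : ℝ
  Cp : ℝ
  ew : ℝ
  εw : ℝ
  m : ℝ

def FC.Ce (c : FC) : ℝ := 100 * (c.C0 * c.Cp + 1)
def FC.CV (c : FC) : ℝ := 2 * c.CN * c.Cw

/-- the arithmetic of `Br.DirStmt`; `δ` hard, `es` soft, `Kb` the additive constant of the budget -/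
structure FC.Ok (c : FC) (K δ es Kb R : ℝ) : Prop where
  CN : 1 ≤ c.CN
  C0 : 0 ≤ c.C0
  C' : 0 ≤ c.C'
  e0 : 0 ≤ c.e
  e1 : c.e ≤ 1
  e10 : 0 ≤ c.e1
  η : 0 < c.η
  K0 : 0 ≤ c.K0
  C1 : 0 ≤ c.C1
  Cw : 1 ≤ c.Cw
  Cp : 0 ≤ c.Cp
  ew : 0 ≤ c.ew
  w0 : 0 ≤ c.εw
  w1 : c.εw ≤ 1
  d0 : 0 < δ
  ds : δ ≤ es
  s1 : es ≤ 1
  b1 : 1 ≤ Kb
  bK : c.K0 ≤ Kb
  bK' : 1000 * c.K' ≤ δ ^ 2 * Kb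
  m1 : 2 * R ≤ c.m
  m2 : 2 * c.Cw ^ 2 * R ≤ c.m * c.η ^ 2
  h1 : 1000 * K * c.Cw ^ 2 * c.e1 ≤ δ ^ 2
  h2 : 1000 * K * (c.CN + c.C0 + c.C1 + 1) * c.εw ≤ δ ^ 2
  h3 : 100 * K * (c.C' * √c.e * c.Cw ^ 2 + c.ew + δ) ≤ es

/-- one family at the base point: ansatz of rate `a`, cavity vectors of response `x`, types `Ft` -/
def Fa {n : ℕ} (c : FC) (J : Mx n) (y : V n) (a x δ : ℝ) (p : V n) (Ft : Set (V n))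
    (ψ : Cube n → V n) (T : Cube n → Mx n) (Wm : Mx n) : Prop :=
  0 ≤ a ∧ a ≤ 1 ∧ 0 ≤ x ∧ x ≤ 1 ∧ c.C' * c.e * c.Cw ^ 2 ≤ x + δ / 100 ∧ (∀ f ∈ Ft, nrm f ≤ 1) ∧
    ∃ (E : V n → ℝ) (q α : V n), AnsAt J y a c.CN c.C0 c.C' c.e c.e1 c.η c.K0 E p q α ψ T ∧
      Cav J p q α x c.Cw c.Cp c.ew c.εw c.m Ft Wm ∧
      (∀ w t, 0 ≤ t → (∀ f ∈ Ft, |w ⬝ᵥ f| ≤ t) → E w ≤ c.e1 * (w ⬝ᵥ w) + c.K' + c.C1 * t ^ 2) ∧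
      ∀ i, 0 ≤ p i ∧ p i ≤ 1 ∧ |q i| ≤ 2 ∧ |α i| ≤ c.CN

/-- **the supply** -/
def SupStmt : Prop := ∀ K0 κ0 : ℝ, 0 < κ0 → ∃ K ≥ (1 : ℝ), ∃ CB ≥ (1 : ℝ), ∀ (n : ℕ) (J : Mx n)
    (y0 pB p p0 : V n) (Ad : V n → ℝ → Prop) (φ : V n → Cube n → ℝ) (c : FC) (Ft F0 : Set (V n))
    (ψ ψ0 : Cube n → V n) (T T0 : Cube n → Mx n) (Wm W0 : Mx n)
    (P η0 a a' mg xa b0 e ε δ es M Dh R δB ηA ec t Kb : ℝ),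
  Bas J K0 κ0 y0 → Fa c J y0 a xa δ p Ft ψ T Wm → Fa c J y0 0 b0 δ p0 F0 ψ0 T0 W0 →
  c.Ok K δ es Kb R → (∀ i, pB i ≤ 2 * p i) →
  -- the admissible weights
  (∀ w l, ‖w‖ ≤ ηA → nrm w ≤ l → l ^ 2 ≤ 4 * c.Cw ^ 2 * R → (∀ f ∈ Ft, |w ⬝ᵥ f| ≤ c.εw * l) →
    Ad w l ∧ φ w = fun x => w ⬝ᵥ ψ x) → 0 < ηA → c.Cw ^ 2 * R ≤ c.m * ηA ^ 2 →
  -- margins
  0 < mg → mg ≤ 1 / 2 → mg ≤ a → a * (1 - 2 * η0) + mg ≤ a' → a' + mg ≤ 1 → 2 * η0 ≤ mg →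
  (1 + a / ((1 - a') * (1 - mg))) * xa ≤ 1 - mg →
  -- accuracies
  10 ^ 7 * K * c.CV * δ ≤ ε → 100 * ε ≤ e → e ≤ 1 → 100 * es ≤ e → 3 * c.CV * P * c.εw ≤ ε →
  32 * K * ec ≤ δ ^ 2 → 8 * c.CN * c.εw ≤ δB →
  -- sizes
  CB * (6 * t + Kb) + 16 * t / δ ^ 2 ≤ Dh → t + 2 * √(n * t) ≤ Dh → 1 ≤ M → M * Dh ≤ R →
  2 * K * c.CV * √R ≤ √n →
  BSup J P η0 y0 pB Ad φ a a' mg (16 * c.Ce) c.CV (K * (2 * c.Ce + 6)) e ε M CB (4 / δ ^ 2)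
    (2 * c.Cw) (4 * c.Cp) δB ec t Kb

def SupGlue : Prop := Br.HbStmt → Br.DirStmt → Br.OkStmt → SupStmt

end Crest.Agent.T157.S1

end
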