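import Crest.Agent.T157.S1TiDef_56

/-!
# Row 157, part B, block S1 (helper56): assembly of `TiltStmt` (T5)
-/

set_option autoImplicit false

noncomputable section

namespace Crest.Agent.T157.S1

open MeasureTheory Real Matrix Finset
open Crest.Agent.T157.E Crest.Agent.T157.SL
open Crest.Agent.T157.S3 (V Mx tau)

namespace Ti56

variable {n : ℕ}

theorem mean_lin (v : Cube n → ℝ) (u : V n) : (mean v fun σ => u ⬝ᵥ sv σ) = u ⬝ᵥ mag v :=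
  (meanV_dot v sv u).symm

theorem pi_tl (D : Dat n) (s : St n) (φ : Cube n → ℝ) (l : ℝ) (Ω : Cube n → V n) (G : Cube n → ℝ) :
    pi D (s.un.tl φ l Ω G) = Ta.wt (pi D s) fun σ => φ σ - del s ⬝ᵥ sv σ := by
  funext σ
  change loc D s σ * exp ((s.y - s.y) ⬝ᵥ sv σ + (s.Th σ + φ σ)) =
    loc D s σ * exp (del s ⬝ᵥ sv σ + s.Th σ) * exp (φ σ - del s ⬝ᵥ sv σ)
  rw [mul_assoc, ← exp_add, sub_self, zero_dotProduct]; congr 2; ring

theorem HH_tl {D : Dat n} {s : St n} (h : Ta.Pr (nu D s) (pi D s)) (φ : Cube n → ℝ) (l : ℝ)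
    (Ω : Cube n → V n) (G : Cube n → ℝ) : HH D s ≤ HH D (s.un.tl φ l Ω G) +
      (mean (nu D s) φ - mean (pi D s) φ) - del s ⬝ᵥ Del D s := by
  have := Ta.kl_wt_ge h fun σ => φ σ - del s ⬝ᵥ sv σ
  rw [← pi_tl D s φ l Ω G, mean_sub, mean_sub, mean_lin, mean_lin] at this
  rw [Del, Ta.Dm, dotProduct_sub]
  change kl _ _ ≤ kl (nu D s) _ + _ - _
  linarith

theorem Mq_dot {J : Mx n} (hJ : Jᵀ = J) (P : ℝ) (S : Finset (Fin n)) (al u Δ : V n) :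
    u ⬝ᵥ Mq J P S al Δ = (al * u - J *ᵥ u) ⬝ᵥ Δ + P * ∑ k ∈ S, (J *ᵥ Δ) k * (J *ᵥ u) k := by
  have e : ∀ v, u ⬝ᵥ J *ᵥ v = J *ᵥ u ⬝ᵥ v := fun v => by
    rw [dotProduct_mulVec, ← mulVec_transpose, hJ]
  rw [Mq, dotProduct_add, dotProduct_sub, dotProduct_smul, e, e, sub_dotProduct, smul_eq_mul]
  congr 2
  · exact Finset.sum_congr rfl fun i _ => by simp only [Pi.mul_apply]; ring
  · simp only [dotProduct, mul_ite, mul_zero, Finset.sum_ite_mem, Finset.univ_inter, mul_comm]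

theorem Mx_mul (C P CN κ η ω : ℝ) : Mx' C P CN κ η (ω / 3) = Mx' (9 * C) P CN κ η ω := by
  unfold Mx'
  rw [show κ * η * (ω / 3) = κ * η * ω / 3 by ring, div_div_eq_mul_div, mul_div_right_comm]; ring

theorem err {C C1 P e κ ω B l k k' : ℝ} (c1 : 1 ≤ C1) (hC : 6 * C1 ≤ C) (P1 : 1 ≤ P) (e0 : 0 ≤ e)
    (k1 : κ ≤ 1) (o0 : 0 < ω) (o1 : ω ≤ 1) (he : C * P * √e ≤ κ * ω) (B0 : 0 ≤ B) (h : k ≤ C1 * B)
    (h' : k' ≤ C1 * B) : e * (l ^ 2 + k) + e * (l ^ 2 + k') ≤ ω / 3 * (B + l ^ 2) := by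
  have se := sqrt_nonneg e
  have h0 : 0 ≤ C * √e := mul_nonneg (by linarith) se
  have h1 : C * √e ≤ ω := by nlinarith
  have h2 : √e ≤ 1 := by nlinarith
  have e2 : 6 * C1 * e ≤ ω := by nlinarith [sq_sqrt e0, mul_le_mul_of_nonneg_right hC se]
  nlinarith [mul_le_mul_of_nonneg_left h e0, mul_le_mul_of_nonneg_left h' e0,
    mul_le_mul_of_nonneg_right e2 B0, mul_le_mul_of_nonneg_right e2 (sq_nonneg l),
    mul_le_mul_of_nonneg_right c1 (show 0 ≤ e * l ^ 2 by positivity)]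

theorem young {t c : ℝ} (t0 : 0 ≤ t) (t1 : t ≤ 1) (c0 : 0 < c) (u v : V n) :
    -(t * (u ⬝ᵥ v)) ≤ c * (v ⬝ᵥ v) + 1 / c * (u ⬝ᵥ u) := by
  simp only [dotProduct, Finset.mul_sum, ← Finset.sum_neg_distrib, ← Finset.sum_add_distrib]
  refine Finset.sum_le_sum fun i _ => le_of_mul_le_mul_left ?_ c0
  have h2 : t ^ 2 ≤ 1 := pow_le_one₀ t0 t1
  rw [show c * (c * (v i * v i) + 1 / c * (u i * u i)) = (c * v i) ^ 2 + u i ^ 2 by field_simp]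
  nlinarith [sq_nonneg (c * v i + t * u i / 2), mul_le_mul_of_nonneg_right h2 (sq_nonneg (u i))]

end Ti56

open Ti56

theorem tiltC (cr : CrudeStmt) (b1 : B1Stmt) (hA : TiltA) (hB : TiltB) : TiltStmt := by
  intro K0 κ0 hκ0
  obtain ⟨C1, c1, b1⟩ := b1 K0 κ0 hκ0
  obtain ⟨CA, cA, hA⟩ := hA K0 κ0 hκ0
  obtain ⟨CB, cB, hB⟩ := hB K0 κ0 hκ0
  obtain ⟨C, hC⟩ : ∃ C, C = 9 * CA + 9 * CB + 6 * C1 := ⟨_, rfl⟩
  refine ⟨C, by linarith, ?_⟩
  intro n D s y0 p al q w a e e1 ec CN C0 K l κ c ω φ W Ω G ok cl bas ans p0 a0 a1 e0 e10 e1c CN1 C00 K1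
    l0 k0 k1 c0 o0 o1 he hc
  have P1 := ok.P1
  have η0 := ok.e0
  have η1 := ok.e1
  obtain ⟨x, hx, x1⟩ : ∃ x, (∀ C, Mx' C D.P CN κ D.η0 ω = C * x) ∧ 1 ≤ x := by
    refine ⟨_, fun _ => rfl, one_le_pow₀ ((one_le_div (by positivity)).2 ?_)⟩
    exact (mul_le_one₀ (mul_le_one₀ k1 η0.le (by linarith)) o0.le o1).trans (one_le_mul_of_one_le_of_one_le P1 CN1)
  have H : ∀ C', 1 ≤ C' → 9 * C' ≤ C →
      TiH K0 κ0 C' D s y0 p al q w a e e1 ec CN C0 K l κ (ω / 3) φ W Ω G := fun C' h1 h2 => by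
    refine ⟨ok, cl, bas, ans, p0, e0, e10, e1c, CN1, C00, K1, l0, k0, k1, by linarith, by linarith, ?_, ?_⟩
    · linarith [mul_le_mul_of_nonneg_right h2 (show 0 ≤ D.P * √e by positivity),
        show 0 ≤ C' * (D.P * √e) by positivity]
    · rw [Mx_mul, hx]
      rw [hx] at hc
      refine le_trans ?_ hc
      have : 0 ≤ ec := e10.trans e1c
      gcongr
  have A := hA n D s y0 p al q w a e e1 ec CN C0 K l κ _ φ W Ω G (H CA cA (by linarith))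
  have B := hB n D s y0 p al q w a e e1 ec CN C0 K l κ _ φ W Ω G (H CB cB (by linarith))
  clear H hA hB
  obtain ⟨pr, -, -, -, -, y1, y2, -, -, x0, -⟩ := cr n D s ok
  obtain ⟨k2, k3, -⟩ := b1 n D s y0 ec ec ok cl bas
  have B0 : 0 ≤ Bb D s y0 := by
    have := dot_self_nonneg (del s)
    unfold Bb Bd; positivity
  have d1 := abs_le.1 (ans.d _ pr.hv _ rfl)
  have d2 := abs_le.1 (ans.d _ pr.hw _ rfl)
  simp only [mean_sub, mean_const_mul, mean_lin] at d1 d2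
  have T := HH_tl pr φ (CN * l) Ω G
  rw [Mq_dot ok.symm, hx]
  rw [Mx_mul, hx] at A B
  have e3 : (al * (q * w) - D.J *ᵥ (q * w)) ⬝ᵥ Del D s =
      (al * (q * w) - D.J *ᵥ (q * w)) ⬝ᵥ mag (nu D s) - (al * (q * w) - D.J *ᵥ (q * w)) ⬝ᵥ mag (pi D s) :=
    dotProduct_sub _ _ _
  have e4 := err (l := l) c1 (by linarith) P1 e0 k1 o0 o1 he B0 k2 k3
  obtain ⟨r, hr, r0, r1⟩ : ∃ r, r = 1 - 2 * D.η0 ∧ 0 ≤ r ∧ r ≤ 1 := ⟨_, rfl, by linarith, by linarith⟩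
  rw [← hr] at A ⊢
  have ra0 : 0 ≤ r * a := mul_nonneg r0 a0
  have e5 := young ra0 (mul_le_one₀ r1 a0 a1) c0 (del s) (Del D s)
  have X1 : K ≤ x * (Ex D s + K) :=
    (le_add_of_nonneg_left x0).trans (le_mul_of_one_le_left (by positivity) x1)
  have X2 := mul_le_mul_of_nonneg_right c1 (show 0 ≤ x * (Ex D s + K) by positivity)
  have f1 : r * (a * (mean (nu D s) φ - mean (pi D s) φ) +
      ((al * (q * w) - D.J *ᵥ (q * w)) ⬝ᵥ Del D s +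
        D.P * ∑ k ∈ s.S, (D.J *ᵥ Del D s) k * (D.J *ᵥ (q * w)) k) - chW D s W) ≤
      2 * (ω / 3 * (Bb D s y0 + l ^ 2)) + (9 * CB + 6 * C1) * (x * (Ex D s + K)) :=
    (mul_le_mul_of_nonneg_left (by linarith) r0).trans (mul_le_of_le_one_left (by positivity) r1)
  have f2 := mul_le_mul_of_nonneg_left T ra0
  have f3 : CA * C0 * (p ⬝ᵥ (w * w)) ≤ C * C0 * (p ⬝ᵥ (w * w)) := by
    have : 0 ≤ p ⬝ᵥ (w * w) := Finset.sum_nonneg fun i _ => mul_nonneg (p0 i) (mul_self_nonneg _)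
    gcongr; linarith
  have f4 : CA / κ * (del s ⬝ᵥ del s) ≤ C / κ * (del s ⬝ᵥ del s) := by
    have := dot_self_nonneg (del s)
    gcongr; linarith
  have f5 : C * x * (Ex D s + K) = (9 * CA + 9 * CB + 6 * C1) * (x * (Ex D s + K)) := by rw [hC]; ring
  linarith

/-- **task 937** -/
theorem tiltGlue (hA : TiltAGlue) (hB : TiltBGlue) (cr : CrudeStmt) (b1 : B1Stmt) : TiltStmt :=
  tiltC cr b1 (hA cr b1) (hB cr b1)

end Crest.Agent.T157.S1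

end
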