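import Crest.Agent.T157.S1TiDef_56
import Crest.Agent.T157.S1Pin_33

/-!
# Row 157, part B, block S1 (helper56): the loud edges in a tilt (T2)
-/

set_option autoImplicit false

noncomputable section

namespace Crest.Agent.T157.S1

open MeasureTheory Real Matrix Finset
open Crest.Agent.T157.E Crest.Agent.T157.SL
open Crest.Agent.T157.Ta Crest.Agent.T157.Ue
open Crest.Agent.T157.Rec (grad)
open Crest.Agent.T157.Eig (nrm nrm_sq nrm_nonneg)
open Crest.Agent.T157.S3 (V Mx tau)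

variable {n : ℕ}

section hy
variable {K0 κ0 C : ℝ} {D : Dat n} {s : St n} {y0 p al q w : V n} {a e e1 ec CN C0 K l κ ω : ℝ}
  {φ : Cube n → ℝ} {W Ω : Cube n → V n} {G : Cube n → ℝ}
  (h : TiH K0 κ0 C D s y0 p al q w a e e1 ec CN C0 K l κ ω φ W Ω G)
include h

/-- `Mx' C = C * (z ^ 2)` with `z` above `1 / (κ η0)`, `1 / κ`, `1 / ω`, `P`, `CN` -/
theorem TiH.z : ∃ z : ℝ, (∀ C', Mx' C' D.P CN κ D.η0 ω = C' * z ^ 2) ∧ 1 ≤ z ∧ 1 ≤ z * (κ * D.η0 * ω) := by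
  have := h.k0; have := h.o0; have := h.ok.e0
  have h1 := one_le_mul_of_one_le_of_one_le h.ok.P1 h.CN1
  refine ⟨_, fun _ => rfl, (one_le_div (by positivity)).2 ?_, by rwa [div_mul_cancel₀ _ (by positivity)]⟩
  exact (mul_le_one₀ (mul_le_one₀ h.k1 h.ok.e0.le (by linarith [h.ok.e1])) h.o0.le h.o1).trans h1

theorem Mx_div (C' m : ℝ) : Mx' C' D.P CN (κ / m) D.η0 (ω / m) = Mx' (m ^ 4 * C') D.P CN κ D.η0 ω := by
  have := h.k0; have := h.o0; have := h.ok.e0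
  rcases eq_or_ne m 0 with rfl | hm
  · simp [Mx']
  · unfold Mx'; field_simp

/-- smaller constant, smaller rates -/
theorem TiH.scale {C' m : ℝ} (c0 : 0 ≤ C') (m1 : 1 ≤ m) (hm : m ^ 4 * C' ≤ C) :
    TiH K0 κ0 C' D s y0 p al q w a e e1 ec CN C0 K l (κ / m) (ω / m) φ W Ω G := by
  have m0 : 0 < m := by linarith
  have P0 : 0 ≤ D.P * √e := mul_nonneg (by linarith [h.ok.P1]) (sqrt_nonneg e)
  refine ⟨h.ok, h.cl, h.bas, h.ans, h.p0, h.e0, h.e10, h.e1c, h.CN1, h.C00, h.K1, h.l0, div_pos h.k0 m0,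
    (div_le_self h.k0.le m1).trans h.k1, div_pos h.o0 m0, (div_le_self h.o0.le m1).trans h.o1, ?_, ?_⟩
  · rw [div_mul_div_comm, le_div_iff₀ (by positivity)]
    have : m ^ 2 * C' ≤ m ^ 4 * C' := by gcongr; norm_num
    linarith [h.he, mul_le_mul_of_nonneg_right (this.trans hm) P0]
  · obtain ⟨z, hz, -⟩ := h.z
    have hc := h.hc
    have : 0 ≤ ec := h.e10.trans h.e1c
    rw [hz] at hc
    rw [Mx_div h, hz]
    refine le_trans ?_ hc
    gcongr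

end hy

namespace Ti56

theorem site {v w f G : Cube n → ℝ} {η ρ t o o' : ℝ} (hw : Wt w) (hf : ∀ x, 0 < f x)
    (hv : v = fun x => w x * f x) (h0 : 0 < η) (h1 : η ≤ 1) (r0 : 0 < ρ) (r1 : ρ ≤ 1) (t0 : 0 < t)
    (ho : |o| ≤ ρ * η / 2) (ho' : |o'| ≤ ρ * η / 2) (g W : ℝ) (i : Fin n) {x : Cube n} (hx : v x ≠ 0) :
    Lw η f i x * (|chi v (wt w G) i x| * |W|) ≤ 407 * ρ * (Lw η f i x * es v w i x) +
      4 / ρ * (g - o) ^ 2 + 4 * (grad G x i - o') ^ 2 + (1 / ρ + 1 / t) * (g - W) ^ 2 +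
      t * grad G x i ^ 2 := by
  have a1 := tilt_err_site hw hf hv G h0 h1 r0 r1 g i hx
  have a2 := mul_le_mul_of_nonneg_left (xs_le_sq (t := g) ho) (one_div_pos.2 r0).le
  have a3 := xs_le_sq (t := grad G x i) ho'
  obtain ⟨u, u1, u2⟩ : ∃ u, |chi v (wt w G) i x| ≤ |u| + |grad G x i| ∧ u ^ 2 ≤ es v w i x := by
    rcases site_dict hw hf hv G i hx with ⟨p, h, k, -, -, -, e1, e2, -, e3, e4, -⟩ | ⟨-, -, -, e1, b, e2, -, e3⟩
    · refine ⟨tanh k - tanh h, ?_, e1 ▸ sq_le_ee h k⟩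
      have := abs_tanh_sub_le h p
      rw [e4, abs_neg] at this
      rw [chi, e2, e3]
      linarith [abs_sub_le (tanh k) (tanh h) (tanh p)]
    · exact ⟨0, by rw [chi, e2, e3, sub_self, abs_zero, zero_add]; exact abs_nonneg _, by rw [e1]; norm_num⟩
  have a4 := amgm_abs (u := u) (τ := g - W) r0
  have a5 := amgm_abs (u := grad G x i) (τ := g - W) t0
  have a6 : |W| ≤ |g| + |g - W| := by linarith [abs_sub_abs_le_abs_sub W g, abs_sub_comm W g]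
  have a7 := mul_le_mul_of_nonneg_left a6 (abs_nonneg (chi v (wt w G) i x))
  have a8 := mul_le_mul_of_nonneg_right u1 (abs_nonneg (g - W))
  have b1 : 0 ≤ 1 / ρ * (g - W) ^ 2 := by positivity
  have b2 : 0 ≤ 1 / t * (g - W) ^ 2 := by positivity
  have b3 : 0 ≤ t * grad G x i ^ 2 := by positivity
  have b4 := mul_le_mul_of_nonneg_left u2 r0.le
  have b5 : exp 6 * ρ ^ 2 ≤ 405 * ρ := by nlinarith [exp_six, exp_pos 6]
  have b6 := mul_le_mul_of_nonneg_right b5 ((sq_nonneg u).trans u2)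
  have b7 : 0 ≤ ρ * u ^ 2 := by positivity
  have b8 : 4 / ρ * (g - o) ^ 2 = 1 / ρ * (4 * (g - o) ^ 2) := by ring
  unfold Lw at *
  split_ifs at *
  · linarith
  · simp only [zero_mul, mul_zero, zero_add]; positivity

theorem nsq (u : V n) : nrm u ^ 2 = ∑ i, u i ^ 2 := by rw [nrm_sq]; simp only [dotProduct, sq]

theorem sq_le {u : V n} {b : ℝ} (h : nrm u ≤ b) : ∑ i, u i ^ 2 ≤ b ^ 2 :=
  nsq u ▸ pow_le_pow_left₀ (nrm_nonneg u) h 2

theorem point {D : Dat n} {s : St n} {ec ρ t : ℝ} (ok : D.Ok) (cl : Cl ec ec s) (hw : Wt (loc D s))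
    (r0 : 0 < ρ) (r1 : ρ ≤ 1) (t0 : 0 < t) (hρ : ec ≤ ρ * D.η0 / 2) {g W o : V n} {b : ℝ} (ho : ‖o‖ ≤ ec)
    (hb : nrm (g - o) ≤ b) {x : Cube n} (hx : nu D s x ≠ 0) :
    ∑ i, Lw D.η0 D.f i x * (|chi (nu D s) (pi D s) i x| * |W i|) ≤
      407 * ρ * ∑ i, Lw D.η0 D.f i x * es (nu D s) (loc D s) i x + 4 / ρ * b ^ 2 + 8 * s.G x ^ 2 +
      (1 / ρ + 1 / t) * nrm (g - W) ^ 2 + (8 * (del s ⬝ᵥ del s) + 2 * t * (del s ⬝ᵥ del s + s.L ^ 2)) := by
  refine (Finset.sum_le_sum fun i _ => site hw ok.fpos rfl ok.e0 (by linarith [ok.e1]) r0 r1 t0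
    (((norm_le_pi_norm o i).trans ho).trans hρ)
    (((norm_le_pi_norm (s.Om x) i).trans (cl.rg x).1).trans hρ) (g i) (W i) i hx).trans ?_
  simp only [Finset.sum_add_distrib, ← Finset.mul_sum, Pin33.grad_tilt, Pi.add_apply, nsq, Pi.sub_apply]
  have c1 := mul_le_mul_of_nonneg_left (sq_le hb) (show 0 ≤ 4 / ρ by positivity)
  have c2 := sq_le (cl.ex x)
  have c3 := sq_le (cl.gr x)
  have c4 : ∑ i, (del s i + grad s.Th x i - s.Om x i) ^ 2 ≤
      2 * (del s ⬝ᵥ del s) + 2 * ∑ i, (grad s.Th x - s.Om x) i ^ 2 := by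
    simp only [dotProduct, Finset.mul_sum, ← Finset.sum_add_distrib, Pi.sub_apply]
    exact Finset.sum_le_sum fun i _ => by nlinarith [sq_nonneg (del s i - (grad s.Th x i - s.Om x i))]
  have c5 : ∑ i, (del s i + grad s.Th x i) ^ 2 ≤ 2 * (del s ⬝ᵥ del s) + 2 * ∑ i, grad s.Th x i ^ 2 := by
    simp only [dotProduct, Finset.mul_sum, ← Finset.sum_add_distrib]
    exact Finset.sum_le_sum fun i _ => by nlinarith [sq_nonneg (del s i - grad s.Th x i)]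
  have c6 := mul_le_mul_of_nonneg_left (c5.trans (add_le_add le_rfl
    (mul_le_mul_of_nonneg_left c3 two_pos.le))) t0.le
  simp only [Pi.sub_apply] at c1
  change 407 * ρ * ∑ i, Lw D.η0 D.f i x * es (nu D s) (loc D s) i x + _ + _ + _ + _ ≤ _
  linarith

theorem arith {C C1 C2 z κ η ω e e1 ec P B l K k : ℝ} (c1 : 1 ≤ C1) (c2 : 1 ≤ C2)
    (hC : 10 ^ 5 * (C1 + C2) ≤ C) (z1 : 1 ≤ z) (hz : 1 ≤ z * (κ * η * ω)) (k0 : 0 < κ) (k1 : κ ≤ 1)
    (η0 : 0 < η) (η1 : η ≤ 1) (o0 : 0 < ω) (o1 : ω ≤ 1) (e0 : 0 ≤ e) (e10 : 0 ≤ e1) (e1c : e1 ≤ ec)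
    (P1 : 1 ≤ P) (he : C * P * √e ≤ κ * ω) (hc : (C * z ^ 2) ^ 2 * ec ≤ 1) (B0 : 0 ≤ B) (K0 : 0 ≤ K)
    (hk : k ≤ C1 * B) : ec ≤ κ / 814 * η / 2 ∧
    4 / (κ / 814) * (C2 * (e1 * (B + l ^ 2) + K)) + (1 / (κ / 814) + 1 / (ω / 6)) * (e * (l ^ 2 + k) + K) ≤
      2 * ω / 3 * (B + l ^ 2) + C / 2 * z ^ 2 * K := by
  have m : ∀ {x y : ℝ}, 0 ≤ x → y ≤ 1 → x * y ≤ x := fun hx hy => mul_le_of_le_one_right hx hy
  have z2 : z ≤ z ^ 2 := le_self_pow₀ z1 two_ne_zero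
  have C0 : 0 < C := by linarith
  have a1 : 1 ≤ z * κ * ω := by linarith [m (show 0 ≤ z * κ * ω by positivity) η1]
  have a2 : 1 ≤ z * κ * η := by linarith [m (show 0 ≤ z * κ * η by positivity) o1]
  have a3 : 1 / κ ≤ z := by rw [div_le_iff₀ k0]; linarith [m (show 0 ≤ z * κ by positivity) o1]
  have a4 : 1 / ω ≤ z := by rw [div_le_iff₀ o0]; linarith [m (show 0 ≤ z * ω by positivity) k1]
  have C1' : 1 ≤ C * z ^ 2 := one_le_mul_of_one_le_of_one_le (by linarith) (z1.trans z2)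
  have ec0 : 0 ≤ ec := e10.trans e1c
  have a5 : C * z ^ 2 * ec ≤ 1 := (mul_le_mul_of_nonneg_right (le_self_pow₀ C1' two_ne_zero) ec0).trans hc
  have a6 : C * z * ec ≤ κ * η := by
    have := mul_le_mul_of_nonneg_left a2 (show 0 ≤ C * z * ec by positivity)
    linarith [mul_le_mul_of_nonneg_right a5 (show 0 ≤ κ * η by positivity)]
  have a7 : C * z * e1 ≤ ω := by
    have b1 := mul_le_mul_of_nonneg_left a1 (show 0 ≤ C * z * ec by positivity)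
    have b2 := mul_le_mul_of_nonneg_right a5 (show 0 ≤ κ * ω by positivity)
    have b3 : C * z * e1 ≤ C * z * ec := by gcongr
    linarith [m o0.le k1]
  have se := sqrt_nonneg e
  have b1 : C * √e ≤ κ * ω := by linarith [mul_le_mul_of_nonneg_left P1 (show 0 ≤ C * √e by positivity)]
  have b2 : C * e ≤ κ * ω * (κ * ω) := by
    have := mul_self_le_mul_self (by positivity) b1
    rw [mul_mul_mul_comm, mul_self_sqrt e0] at this
    linarith [mul_le_mul_of_nonneg_right (show C ≤ C * C by nlinarith) e0]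
  have b3 : (1 / (κ / 814) + 1 / (ω / 6)) * (C * e) ≤ 820 * ω := by
    refine (mul_le_mul_of_nonneg_left b2 (by positivity)).trans ?_
    rw [show (1 / (κ / 814) + 1 / (ω / 6)) * (κ * ω * (κ * ω)) = ω * (814 * (κ * ω) + 6 * (κ * κ)) by field_simp]
    nlinarith [m k0.le o1, m k0.le k1]
  refine ⟨?_, ?_⟩
  · have : 1628 * ec ≤ C * z * ec := by gcongr; nlinarith
    linarith
  · obtain ⟨u, hu, u0, u1⟩ : ∃ u, u = 1 / (κ / 814) + 1 / (ω / 6) ∧ 0 ≤ u ∧ u ≤ 820 * z :=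
      ⟨_, rfl, by positivity, by rw [one_div_div, one_div_div, div_eq_mul_one_div, div_eq_mul_one_div 6]; linarith⟩
    rw [← hu] at b3 ⊢
    have d1 : 4 / (κ / 814) ≤ 3256 * z := by rw [div_div_eq_mul_div, div_eq_mul_one_div]; linarith
    have d2 : l ^ 2 + k ≤ C1 * (B + l ^ 2) := by nlinarith [sq_nonneg l]
    have d3 : 3 * (u * e * C1) ≤ ω := by
      have := mul_le_mul_of_nonneg_left c1 (mul_nonneg u0 e0)
      linarith [mul_nonneg u0 e0, mul_le_mul_of_nonneg_left (show 10 ^ 5 * C1 ≤ C by linarith) (mul_nonneg u0 e0)]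
    have d4 : 3 * (3256 * z * C2 * e1) ≤ ω := by
      have : 0 ≤ z * C2 * e1 := by positivity
      linarith [mul_le_mul_of_nonneg_left (show 10 ^ 5 * C2 ≤ C by linarith) (show 0 ≤ z * e1 by positivity)]
    have d5 : 0 ≤ B + l ^ 2 := by positivity
    have d6 := mul_le_mul_of_nonneg_right d1 (show 0 ≤ C2 * (e1 * (B + l ^ 2) + K) by positivity)
    have d7 := mul_le_mul_of_nonneg_left d2 (mul_nonneg u0 e0)
    have d8 : 3256 * z * C2 + u ≤ C / 2 * z ^ 2 := by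
      have := mul_le_mul_of_nonneg_left c1 (show 0 ≤ z by linarith)
      have : 0 ≤ z * C2 := by positivity
      linarith [mul_le_mul hC z2 (by linarith) (by linarith)]
    linarith [mul_le_mul_of_nonneg_right d3 d5, mul_le_mul_of_nonneg_right d4 d5,
      mul_le_mul_of_nonneg_right d8 K0]

end Ti56

open Ti56

/-- **the loud edges** -/
theorem loud (cr : CrudeStmt) (b1 : B1Stmt) (inc : IncStmt) (K0 κ0 : ℝ) (hκ0 : 0 < κ0) :
    ∃ C ≥ (1 : ℝ), ∀ (n : ℕ) (D : Dat n) (s : St n) (y0 p al q w : V n) (a e e1 ec CN C0 K l κ ω : ℝ)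
    (φ : Cube n → ℝ) (W Ω : Cube n → V n) (G : Cube n → ℝ),
    TiH K0 κ0 C D s y0 p al q w a e e1 ec CN C0 K l κ ω φ W Ω G →
    (1 - D.θ) * (mean (nu D s) fun σ => ∑ i, Lw D.η0 D.f i σ * (|chi (nu D s) (pi D s) i σ| * |W σ i|)) ≤
      κ * AA D s + 8 * (del s ⬝ᵥ del s) + ω * (Bb D s y0 + l ^ 2) +
        Mx' C D.P CN κ D.η0 ω * (Ex D s + K) := by
  obtain ⟨C1, c1, b1⟩ := b1 K0 κ0 hκ0
  obtain ⟨C2, c2, inc⟩ := inc K0 κ0 hκ0
  obtain ⟨C, hC⟩ : ∃ C, C = 10 ^ 5 * (C1 + C2) := ⟨_, rfl⟩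
  refine ⟨C, by linarith, fun n D s y0 p al q w a e e1 ec CN C0 K l κ ω φ W Ω G h => ?_⟩
  obtain ⟨z, hz, z1, z2⟩ := h.z
  have ok := h.ok
  have ⟨k0, o0, η0, θ0⟩ := And.intro h.k0 <| And.intro h.o0 <| And.intro ok.e0 ok.t0
  obtain ⟨pr, p1, p2, -, -, y1, y2, -, -, x0, -⟩ := cr n D s ok
  obtain ⟨k2, -⟩ := b1 n D s y0 ec ec ok h.cl h.bas
  have d0 := dot_self_nonneg (del s)
  have B1 : del s ⬝ᵥ del s + s.L ^ 2 ≤ Bb D s y0 := by
    have : (0 : ℝ) ≤ #s.S := Nat.cast_nonneg _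
    unfold Bb Bd; linarith [sq_nonneg (nrm (s.y - y0))]
  have B0 : 0 ≤ Bb D s y0 := le_trans (by positivity) B1
  obtain ⟨a1, a2⟩ := arith (l := l) c1 c2 hC.ge z1 z2 k0 h.k1 η0 (by linarith [ok.e1]) o0 h.o1 h.e0 h.e10
    h.e1c ok.P1 h.he (hz C ▸ h.hc) B0 (zero_le_one.trans h.K1) k2
  have g2 := (inc n D s y0 p al q w a e e1 ec CN C0 K l ω φ W Ω G ok h.cl h.bas h.ans h.p0 h.e10 h.e1c h.CN1
    h.C00 h.K1 h.l0 o0 h.o1 (le_trans (by
      have := h.e10.trans h.e1c; have := h.CN1; have := ok.P1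
      unfold Mx'; gcongr; exacts [by linarith, by linarith, h.k1]) h.hc)).2
  have m1 := mean_mono_supp pr.hv fun x hx => point ok h.cl p1.hw (ρ := κ / 814) (t := ω / 6) (by positivity)
    (by linarith [h.k1]) (by positivity) a1 (W := W x) ((h.ans.rg x).1.trans h.e1c) (h.ans.ex x) hx
  simp only [mean_add, mean_const_mul, pr.hv.mean_const] at m1
  rw [mean_sum _ _ fun i x => Lw D.η0 D.f i x * es (nu D s) (loc D s) i x] at m1
  have m2 := mul_le_mul_of_nonneg_left g2 (show 0 ≤ 4 / (κ / 814) by positivity)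
  have m3 := mul_le_mul_of_nonneg_left (h.ans.c _ pr.hv) (show 0 ≤ 1 / (κ / 814) + 1 / (ω / 6) by positivity)
  have m4 := mul_le_mul_of_nonneg_left B1 o0.le
  have A0 := pr.Ar_nonneg fun i x => (rw_mem η0.le (by linarith [ok.e1]) θ0 (by linarith [ok.t1]) D.f i x).1
  have C16 : 16 ≤ C * z ^ 2 := by nlinarith [one_le_pow₀ (n := 2) z1]
  have m5 := mul_le_mul_of_nonneg_right C16 x0
  have m6 : 0 ≤ C * z ^ 2 * K := mul_nonneg (by linarith) (by linarith [h.K1])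
  have m7 : 0 ≤ ω * l ^ 2 := by positivity
  obtain ⟨R, hR, R0⟩ : ∃ R, R = 8 * (del s ⬝ᵥ del s) + ω * (Bb D s y0 + l ^ 2) + C * z ^ 2 * (Ex D s + K) ∧
    0 ≤ R := ⟨_, rfl, by have := h.K1; positivity⟩
  have m8 : (mean (nu D s) fun σ => ∑ i, Lw D.η0 D.f i σ * (|chi (nu D s) (pi D s) i σ| * |W σ i|)) ≤
      κ / 2 * El (Lw D.η0 D.f) (nu D s) (loc D s) + R := by
    unfold El Es; unfold Ex at *; linarith
  have m9 := mul_le_mul_of_nonneg_left m8 (show 0 ≤ 1 - D.θ by linarith [ok.t1])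
  rw [hz, AA]
  linarith [mul_nonneg θ0 R0, mul_nonneg k0.le A0]

end Crest.Agent.T157.S1

end
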