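import Mathlib

/-!
# Row 157, part B, S2 (helper51): the linear algebra of the pinned phase

`B` symmetric positive definite on `C`, `G : S × C`, `M = B + P Gᵀ G`, `w = M⁻¹ B w₀`.
-/

set_option autoImplicit false

noncomputable section

namespace Crest.Agent.T157.S2t

open Matrix

variable {C S : Type*} [Fintype C] [DecidableEq C] [Fintype S] [DecidableEq S]
  {B : Matrix C C ℝ} {G : Matrix S C ℝ} {P : ℝ}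

/-- `M = B + P Gᵀ G` -/
def Mp (B : Matrix C C ℝ) (G : Matrix S C ℝ) (P : ℝ) : Matrix C C ℝ := B + P • (Gᵀ * G)

/-- `w = M⁻¹ B w₀` -/
def wp (B : Matrix C C ℝ) (G : Matrix S C ℝ) (P : ℝ) (w0 : C → ℝ) : C → ℝ :=
  (Mp B G P)⁻¹ *ᵥ (B *ᵥ w0)

/-- `X = G B⁻¹ Gᵀ` -/
def Xc (B : Matrix C C ℝ) (G : Matrix S C ℝ) : Matrix S S ℝ := G * B⁻¹ * Gᵀ

omit [DecidableEq C] [DecidableEq S] in
lemma dot_self_nn {ι : Type*} [Fintype ι] (v : ι → ℝ) : 0 ≤ v ⬝ᵥ v :=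
  Finset.sum_nonneg fun i _ => mul_self_nonneg (v i)

omit [DecidableEq C] [DecidableEq S] in
lemma Mp_mulVec (v : C → ℝ) : Mp B G P *ᵥ v = B *ᵥ v + P • (Gᵀ *ᵥ (G *ᵥ v)) := by
  rw [Mp, add_mulVec, smul_mulVec, mulVec_mulVec]

omit [DecidableEq C] [DecidableEq S] in
lemma dot_tr (u : C → ℝ) (a : S → ℝ) : u ⬝ᵥ Gᵀ *ᵥ a = G *ᵥ u ⬝ᵥ a := by
  rw [dotProduct_mulVec, vecMul_transpose]

omit [DecidableEq C] [DecidableEq S] in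
lemma dot_Mp (u v : C → ℝ) : u ⬝ᵥ Mp B G P *ᵥ v = u ⬝ᵥ B *ᵥ v + P * (G *ᵥ u ⬝ᵥ G *ᵥ v) := by
  rw [Mp_mulVec, dotProduct_add, dotProduct_smul, dot_tr, smul_eq_mul]

omit [DecidableEq C] in
lemma dot_symm (hB : B.IsSymm) (u v : C → ℝ) : u ⬝ᵥ B *ᵥ v = B *ᵥ u ⬝ᵥ v := by
  rw [dotProduct_mulVec, ← vecMul_transpose, hB.eq]

omit [Fintype C] [DecidableEq C] in
lemma symm_of_pd (hB : B.PosDef) : B.IsSymm := by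
  have := hB.isHermitian.eq
  rwa [conjTranspose_eq_transpose_of_trivial] at this

omit [DecidableEq C] in
lemma pd_nn (hB : B.PosDef) (v : C → ℝ) : 0 ≤ v ⬝ᵥ B *ᵥ v := by
  simpa using hB.posSemidef.dotProduct_mulVec_nonneg v

omit [DecidableEq C] [DecidableEq S] in
lemma Mp_pd (hB : B.PosDef) (hP : 0 ≤ P) : (Mp B G P).PosDef := by
  refine hB.add_posSemidef (PosSemidef.smul ?_ hP)
  simpa using posSemidef_conjTranspose_mul_self G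

lemma mul_inv_vec (hB : B.PosDef) (v : C → ℝ) : B *ᵥ (B⁻¹ *ᵥ v) = v := by
  rw [mulVec_mulVec, mul_nonsing_inv _ (isUnit_iff_isUnit_det _ |>.1 hB.isUnit), one_mulVec]

lemma inv_mul_vec (hB : B.PosDef) (v : C → ℝ) : B⁻¹ *ᵥ (B *ᵥ v) = v := by
  rw [mulVec_mulVec, nonsing_inv_mul _ (isUnit_iff_isUnit_det _ |>.1 hB.isUnit), one_mulVec]

omit [DecidableEq S] in
theorem Mp_wp (hB : B.PosDef) (hP : 0 ≤ P) (w0 : C → ℝ) : Mp B G P *ᵥ wp B G P w0 = B *ᵥ w0 :=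
  mul_inv_vec (Mp_pd hB hP) _

omit [DecidableEq S] in
/-- the exact gain -/
theorem gain (hB : B.PosDef) (hP : 0 ≤ P) (D w0 : C → ℝ) :
    D ⬝ᵥ Mp B G P *ᵥ wp B G P w0 = B *ᵥ D ⬝ᵥ w0 := by
  rw [Mp_wp hB hP, dot_symm (symm_of_pd hB)]

omit [DecidableEq C] in
lemma two_dot_le (hB : B.PosDef) (u v : C → ℝ) :
    2 * (u ⬝ᵥ B *ᵥ v) ≤ u ⬝ᵥ B *ᵥ u + v ⬝ᵥ B *ᵥ v := by
  have h := pd_nn hB (u - v)
  have e : v ⬝ᵥ B *ᵥ u = u ⬝ᵥ B *ᵥ v := by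
    rw [dot_symm (symm_of_pd hB), dotProduct_comm]
  rw [mulVec_sub, sub_dotProduct, dotProduct_sub, dotProduct_sub, e] at h
  linarith

omit [DecidableEq S] in
/-- the energy of `w` is below that of `w₀` (with the pin term twice) -/
theorem energy_le (hB : B.PosDef) (hP : 0 ≤ P) (w0 : C → ℝ) :
    wp B G P w0 ⬝ᵥ B *ᵥ wp B G P w0 + 2 * P * (G *ᵥ wp B G P w0 ⬝ᵥ G *ᵥ wp B G P w0) ≤
      w0 ⬝ᵥ B *ᵥ w0 := by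
  have h1 := dot_Mp (B := B) (G := G) (P := P) (wp B G P w0) (wp B G P w0)
  rw [Mp_wp hB hP] at h1
  have h2 := two_dot_le hB (wp B G P w0) w0
  linarith

omit [DecidableEq S] in
theorem energy_le' (hB : B.PosDef) (hP : 0 ≤ P) (w0 : C → ℝ) :
    wp B G P w0 ⬝ᵥ B *ᵥ wp B G P w0 ≤ w0 ⬝ᵥ B *ᵥ w0 := by
  have := energy_le (G := G) hB hP w0
  have h := mul_nonneg hP (dot_self_nn (G *ᵥ wp B G P w0))
  linarith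

omit [DecidableEq S] in
/-- the correction is a cavity vector -/
theorem wp_eq (hB : B.PosDef) (hP : 0 ≤ P) (w0 : C → ℝ) :
    wp B G P w0 = w0 - B⁻¹ *ᵥ (Gᵀ *ᵥ (P • (G *ᵥ wp B G P w0))) := by
  have h := congrArg (B⁻¹ *ᵥ ·) (Mp_wp (G := G) hB hP w0)
  simp only [Mp_mulVec, mulVec_add, inv_mul_vec hB] at h
  rw [mulVec_smul]
  exact eq_sub_of_add_eq h

/-- Woodbury: `a' = P G w` solves `(1 + P X) a' = P G w₀` -/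
theorem woodbury (hB : B.PosDef) (hP : 0 ≤ P) (w0 : C → ℝ) :
    (1 + P • Xc B G) *ᵥ (P • (G *ᵥ wp B G P w0)) = P • (G *ᵥ w0) := by
  have h := congrArg (G *ᵥ ·) (wp_eq (G := G) hB hP w0)
  simp only [mulVec_sub] at h
  rw [add_mulVec, one_mulVec, smul_mulVec, Xc, ← mulVec_mulVec, ← mulVec_mulVec, ← smul_add]
  congr 1
  rw [eq_sub_iff_add_eq] at h
  exact h

omit [DecidableEq S] in
lemma dot_Xc (a b : S → ℝ) : a ⬝ᵥ Xc B G *ᵥ b = Gᵀ *ᵥ a ⬝ᵥ B⁻¹ *ᵥ (Gᵀ *ᵥ b) := by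
  rw [Xc, ← mulVec_mulVec, ← mulVec_mulVec, dotProduct_mulVec, ← mulVec_transpose]

omit [DecidableEq S] in
lemma Xc_nn (hB : B.PosDef) (a : S → ℝ) : 0 ≤ a ⬝ᵥ Xc B G *ᵥ a := by
  rw [dot_Xc]; exact pd_nn hB.inv _

omit [DecidableEq S] in
/-- `|G w| ≤ |G w₀|`, and `P |G w| ≤ |G w₀| / x` if `X ≥ x` -/
theorem G_wp_le (hB : B.PosDef) (hP : 0 ≤ P) {x : ℝ} (hx : 0 ≤ x)
    (hX : ∀ a, x * (a ⬝ᵥ a) ≤ a ⬝ᵥ Xc B G *ᵥ a) (w0 : C → ℝ) :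
    (1 + P * x) ^ 2 * (G *ᵥ wp B G P w0 ⬝ᵥ G *ᵥ wp B G P w0) ≤ G *ᵥ w0 ⬝ᵥ G *ᵥ w0 := by
  set a := G *ᵥ wp B G P w0 with ha
  set b := G *ᵥ w0 with hb
  have h := congrArg (G *ᵥ ·) (wp_eq (G := G) hB hP w0)
  simp only [mulVec_sub] at h
  rw [← ha, ← hb, mulVec_smul, mulVec_smul, mulVec_smul] at h
  have h1 : a ⬝ᵥ b = a ⬝ᵥ a + P * (a ⬝ᵥ Xc B G *ᵥ a) := by
    rw [Xc, ← mulVec_mulVec, ← mulVec_mulVec, ← smul_eq_mul, ← dotProduct_smul, ← dotProduct_add,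
      ← eq_sub_iff_add_eq.1 h]
  have h2 : (1 + P * x) * (a ⬝ᵥ a) ≤ a ⬝ᵥ b := by nlinarith [mul_le_mul_of_nonneg_left (hX a) hP]
  have h3 := dot_self_nn ((1 + P * x) • a - b)
  simp only [sub_dotProduct, dotProduct_sub, smul_dotProduct, dotProduct_smul, smul_eq_mul,
    dotProduct_comm b a] at h3
  have h4 : 0 ≤ 1 + P * x := by positivity
  nlinarith [mul_le_mul_of_nonneg_left h2 h4]

/-- forms bounded below have bounded inverses -/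
theorem inv_le (hB : B.PosDef) {c : ℝ} (hc : 0 ≤ c) (h : ∀ v, c * (v ⬝ᵥ v) ≤ v ⬝ᵥ B *ᵥ v)
    (u : C → ℝ) : c ^ 2 * (B⁻¹ *ᵥ u ⬝ᵥ B⁻¹ *ᵥ u) ≤ u ⬝ᵥ u := by
  have h1 := h (B⁻¹ *ᵥ u)
  rw [mul_inv_vec hB] at h1
  set x := B⁻¹ *ᵥ u
  have h3 := dot_self_nn (c • x - u)
  simp only [sub_dotProduct, dotProduct_sub, smul_dotProduct, dotProduct_smul, smul_eq_mul,
    dotProduct_comm u x] at h3
  nlinarith [mul_le_mul_of_nonneg_left h1 hc]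

/-- `B⁻¹ α = 1 + B⁻¹ N` for `B = α - N` -/
theorem inv_mul_eq (hB : B.PosDef) {A N : Matrix C C ℝ} (e : B = A - N) (v : C → ℝ) :
    B⁻¹ *ᵥ (A *ᵥ v) = v + B⁻¹ *ᵥ (N *ᵥ v) := by
  have : A *ᵥ v = B *ᵥ v + N *ᵥ v := by rw [e, sub_mulVec, sub_add_cancel]
  rw [this, mulVec_add, inv_mul_vec hB]

/-- `|B⁻¹ α v|² ≤ 2 (1 + K / c²) |v|²` -/
theorem inv_mul_le (hB : B.PosDef) {A N : Matrix C C ℝ} (e : B = A - N) {c K : ℝ} (hc : 0 < c)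
    (h : ∀ v, c * (v ⬝ᵥ v) ≤ v ⬝ᵥ B *ᵥ v) (hN : ∀ v, N *ᵥ v ⬝ᵥ N *ᵥ v ≤ K * (v ⬝ᵥ v))
    (v : C → ℝ) : B⁻¹ *ᵥ (A *ᵥ v) ⬝ᵥ B⁻¹ *ᵥ (A *ᵥ v) ≤ 2 * (1 + K / c ^ 2) * (v ⬝ᵥ v) := by
  rw [inv_mul_eq hB e]
  have h1 := (inv_le hB hc.le h (N *ᵥ v)).trans (hN v)
  set x := B⁻¹ *ᵥ (N *ᵥ v)
  have h2 : x ⬝ᵥ x ≤ K / c ^ 2 * (v ⬝ᵥ v) := by
    rw [div_mul_eq_mul_div, le_div_iff₀ (by positivity)]; linarith
  have h3 := dot_self_nn (v - x)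
  simp only [sub_dotProduct, dotProduct_sub, add_dotProduct, dotProduct_add,
    dotProduct_comm x v] at h3 ⊢
  linarith

/-- `|Δ|² ≤ 2 (1 + K / c²) |t|²` for `t = α⁻¹ B Δ`, `α` diagonal -/
theorem le_disp (hB : B.PosDef) {al : C → ℝ} (hal : ∀ j, al j ≠ 0) {N : Matrix C C ℝ}
    (e : B = diagonal al - N) {c K : ℝ} (hc : 0 < c)
    (h : ∀ v, c * (v ⬝ᵥ v) ≤ v ⬝ᵥ B *ᵥ v) (hN : ∀ v, N *ᵥ v ⬝ᵥ N *ᵥ v ≤ K * (v ⬝ᵥ v))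
    (D : C → ℝ) : D ⬝ᵥ D ≤ 2 * (1 + K / c ^ 2) * ∑ j, ((B *ᵥ D) j / al j) ^ 2 := by
  have h1 := inv_mul_le hB e hc h hN fun j => (B *ᵥ D) j / al j
  have e1 : (diagonal al *ᵥ fun j => (B *ᵥ D) j / al j) = B *ᵥ D := by
    ext j; rw [mulVec_diagonal, mul_div_cancel₀ _ (hal j)]
  rw [e1, inv_mul_vec hB] at h1
  simpa only [dotProduct, sq] using h1

omit [DecidableEq S] in
/-- Schur complement: `G B⁻¹ Gᵀ ≤ A` iff the block form is nonnegative -/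
theorem schur_iff (hB : B.PosDef) (q : (S → ℝ) → ℝ) :
    (∀ a, a ⬝ᵥ Xc B G *ᵥ a ≤ q a) ↔
      ∀ a v, 2 * (a ⬝ᵥ G *ᵥ v) ≤ q a + v ⬝ᵥ B *ᵥ v := by
  constructor
  · intro h a v
    have h1 := two_dot_le hB v (B⁻¹ *ᵥ (Gᵀ *ᵥ a))
    rw [mul_inv_vec hB, dot_tr, dotProduct_comm (B⁻¹ *ᵥ _), ← dot_Xc, dotProduct_comm] at h1
    linarith [h a]
  · intro h a
    have h1 := h a (B⁻¹ *ᵥ (Gᵀ *ᵥ a))
    rw [mul_inv_vec hB, dotProduct_comm (B⁻¹ *ᵥ _), ← dot_Xc, mulVec_mulVec, mulVec_mulVec] at h1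
    rw [Xc] at h1 ⊢
    linarith

end Crest.Agent.T157.S2t

end
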