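import Crest.Agent.T157.S2Ps_51

/-!
# Row 157, part B, S2 (helper51): Gaussian averages of `tanh`, the test function of the reveal
-/

set_option autoImplicit false

noncomputable section

namespace Crest.Agent.T157.S2t

open Real MeasureTheory ProbabilityTheory
open Crest.Agent.T157.Hd

lemma bc_tanh : BC tanh 1 := ⟨continuous_tanh', fun x => (abs_tanh_lt x).le⟩

/-- slope of the spin dependence of `E tanh (u + s² σ + s Z)` -/
def be1 (u s : ℝ) : ℝ := (Ep tanh (u + s ^ 2) s - Ep tanh (u - s ^ 2) s) / 2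

lemma be1_nonneg (u s : ℝ) : 0 ≤ be1 u s :=
  div_nonneg (sub_nonneg.2 (integral_mono (bc_tanh.int _ _) (bc_tanh.int _ _) fun z =>
    tanh_mono (by nlinarith [sq_nonneg s]))) zero_le_two

lemma be1_le (u s : ℝ) : be1 u s ≤ s ^ 2 := by
  have h := integral_mono ((bc_tanh.int (u + s ^ 2) s).sub (bc_tanh.int (u - s ^ 2) s))
    (integrable_const (2 * s ^ 2)) fun z => (tanh_lip
      (show u - s ^ 2 + s * z ≤ u + s ^ 2 + s * z by nlinarith [sq_nonneg s])).trans_eq (by ring)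
  simp only [Pi.sub_apply] at h
  rw [integral_sub (bc_tanh.int _ _) (bc_tanh.int _ _)] at h
  simp only [integral_const, probReal_univ, one_smul] at h
  rw [be1, Ep, Ep]; linarith

lemma int_sinh (w s : ℝ) :
    ∫ z, sinh (w + s * z) ∂gaussianReal 0 1 = sinh w * exp (s ^ 2 / 2) := by
  have e : ∀ z, sinh (w + s * z) = exp w / 2 * exp (s * z) - exp (-w) / 2 * exp (-s * z) :=
    fun z => by rw [sinh_eq, neg_add, exp_add, exp_add, neg_mul]; ring
  simp only [e]
  rw [integral_sub ((integrable_exp_mul_gaussianReal s).const_mul _)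
    ((integrable_exp_mul_gaussianReal (-s)).const_mul _), integral_const_mul, integral_const_mul,
    int_exp, int_exp, neg_sq, sinh_eq]
  ring

/-- the fixed point -/
theorem tanh_fix (u s : ℝ) :
    (1 + tanh u) / 2 * Ep tanh (u + s ^ 2) s + (1 - tanh u) / 2 * Ep tanh (u - s ^ 2) s = tanh u := by
  rw [spin_out bc_tanh]
  have e : ∀ z, cosh (u + s * z) / cosh u * tanh (u + s * z) = sinh (u + s * z) / cosh u := fun z => by
    have := (cosh_pos (u + s * z)).ne'
    rw [tanh_eq_sinh_div_cosh]; field_simp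
  simp only [e]
  rw [integral_div, int_sinh, tanh_eq_sinh_div_cosh, mul_comm, mul_div_right_comm, mul_assoc,
    ← exp_add]
  simp

/-- `E tanh (u + s² σ + s Z) = tanh u + β' (σ - tanh u)` for `σ = ±1` -/
theorem Ep_tanh_pm (u s σ : ℝ) (hσ : σ = 1 ∨ σ = -1) :
    Ep tanh (u + s ^ 2 * σ) s = tanh u + be1 u s * (σ - tanh u) := by
  have h := tanh_fix u s
  rcases hσ with rfl | rfl
  · rw [mul_one, be1]; linear_combination h
  · rw [mul_neg_one, ← sub_eq_add_neg, be1]; linear_combination h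

lemma Ep_comp_add (p : ℝ → ℝ) (b m s : ℝ) : Ep (fun h => p (b + h)) m s = Ep p (b + m) s := by
  simp only [Ep, add_assoc]

lemma Ep_add {p q : ℝ → ℝ} {M N : ℝ} (hp : BC p M) (hq : BC q N) (a b m s : ℝ) :
    Ep (fun h => a * p h + b * q h) m s = a * Ep p m s + b * Ep q m s := by
  rw [Ep, integral_add ((hp.int m s).const_mul a) ((hq.int m s).const_mul b), integral_const_mul,
    integral_const_mul]; rfl

lemma BC.lin {p q : ℝ → ℝ} {M N : ℝ} (hp : BC p M) (hq : BC q N) (a b : ℝ) :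
    BC (fun h => a * p h + b * q h) (|a| * M + |b| * N) :=
  ⟨(continuous_const.mul hp.cont).add (continuous_const.mul hq.cont), fun x =>
    (abs_add_le _ _).trans (by
      rw [abs_mul, abs_mul]
      exact add_le_add (mul_le_mul_of_nonneg_left (hp.bd x) (abs_nonneg _))
        (mul_le_mul_of_nonneg_left (hq.bd x) (abs_nonneg _)))⟩

lemma BC.mono {p : ℝ → ℝ} {M N : ℝ} (hp : BC p M) (h : M ≤ N) : BC p N :=
  ⟨hp.cont, fun x => (hp.bd x).trans h⟩

lemma BC.shift {p : ℝ → ℝ} {M : ℝ} (hp : BC p M) (b : ℝ) : BC (fun h => p (b + h)) M :=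
  ⟨hp.cont.comp (by fun_prop), fun _ => hp.bd _⟩

/-- `tanh'` -/
def T1 (u : ℝ) : ℝ := 1 - tanh u ^ 2
/-- `tanh''` -/
def T2 (u : ℝ) : ℝ := -2 * (tanh u - tanh u ^ 3)
/-- third derivative of `tanh` -/
def T3 (u : ℝ) : ℝ := -2 * (1 - 3 * tanh u ^ 2) * (1 - tanh u ^ 2)

lemma d_T1 (u : ℝ) : HasDerivAt T1 (T2 u) u :=
  (((hasDerivAt_tanh2 u).pow 2).const_sub 1).congr_deriv (by simp [T2]; ring)

lemma d_T2 (u : ℝ) : HasDerivAt T2 (T3 u) u :=
  (((hasDerivAt_tanh2 u).sub ((hasDerivAt_tanh2 u).pow 3)).const_mul (-2)).congr_deriv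
    (by simp [T3]; ring)

lemma tanh_sq_le (u : ℝ) : tanh u ^ 2 ≤ 1 := by
  have := abs_lt.1 (abs_tanh_lt u); nlinarith

lemma bc_T1 : BC T1 1 := ⟨by have := continuous_tanh'; unfold T1; fun_prop, fun u =>
  abs_le.2 ⟨by unfold T1; linarith [tanh_sq_le u], by unfold T1; nlinarith [sq_nonneg (tanh u)]⟩⟩

lemma bc_T2 : BC T2 2 := ⟨by have := continuous_tanh'; unfold T2; fun_prop, fun u => by
  rw [show T2 u = -2 * (tanh u * T1 u) by rw [T2, T1]; ring, abs_mul, abs_mul]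
  have := mul_le_one₀ (abs_tanh_lt u).le (abs_nonneg _) (bc_T1.bd u)
  norm_num; linarith⟩

lemma bc_T3 : BC T3 4 := ⟨by have := continuous_tanh'; unfold T3; fun_prop, fun u => by
  rw [show T3 u = -2 * (1 - 3 * tanh u ^ 2) * T1 u by rw [T3, T1], abs_mul]
  have h : |-2 * (1 - 3 * tanh u ^ 2)| ≤ 4 :=
    abs_le.2 ⟨by nlinarith [sq_nonneg (tanh u)], by linarith [tanh_sq_le u]⟩
  simpa using mul_le_mul h (bc_T1.bd u) (abs_nonneg _) (by norm_num)⟩

/-- third-order Taylor bound -/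
lemma taylor3 {p p1 p2 p3 : ℝ → ℝ} {M : ℝ} (d : ∀ x, HasDerivAt p (p1 x) x)
    (d1 : ∀ x, HasDerivAt p1 (p2 x) x) (d2 : ∀ x, HasDerivAt p2 (p3 x) x) (h : ∀ x, |p3 x| ≤ M)
    (u x : ℝ) : |p (u + x) - (p u + p1 u * x + p2 u * x ^ 2 / 2)| ≤ M * |x| ^ 3 := by
  have M0 : 0 ≤ M := (abs_nonneg _).trans (h 0)
  have key : ∀ {f f' : ℝ → ℝ} {B : ℝ} (y : ℝ), (∀ t, HasDerivAt f (f' t) t) → f 0 = 0 →
      (∀ t, |t| ≤ |y| → |f' t| ≤ B) → |f y| ≤ B * |y| := fun {f f' B} y hf h0 hB => by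
    have := (convex_Icc (-|y|) |y|).norm_image_sub_le_of_norm_hasDerivWithin_le (f := f) (f' := f')
      (C := B) (x := 0) (y := y) (fun t _ => (hf t).hasDerivWithinAt)
      (fun t ht => hB t (abs_le.2 ht)) ⟨by simp, abs_nonneg y⟩ ⟨neg_abs_le y, le_abs_self y⟩
    simpa [h0] using this
  have a2 : ∀ y, |p2 (u + y) - p2 u| ≤ M * |y| := fun y =>
    key (f := fun t => p2 (u + t) - p2 u) y (fun t => ((d2 _).comp_const_add u t).sub_const _)
      (by simp) fun t _ => h _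
  have a1 : ∀ y, |p1 (u + y) - (p1 u + p2 u * y)| ≤ M * |y| * |y| := fun y =>
    key (f := fun t => p1 (u + t) - (p1 u + p2 u * t)) (f' := fun t => p2 (u + t) - p2 u) y
      (fun t => (((d1 _).comp_const_add u t).sub
        (((hasDerivAt_id t).const_mul (p2 u)).const_add _)).congr_deriv (by simp)) (by simp)
      fun t ht => (a2 t).trans (mul_le_mul_of_nonneg_left ht M0)
  have a0 := key (f := fun t => p (u + t) - (p u + p1 u * t + p2 u * t ^ 2 / 2))
    (f' := fun t => p1 (u + t) - (p1 u + p2 u * t)) (B := M * |x| * |x|) x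
    (fun t => (((d _).comp_const_add u t).sub ((((hasDerivAt_id t).const_mul (p1 u)).const_add _).add
      (((hasDerivAt_pow 2 t).const_mul (p2 u)).div_const 2))).congr_deriv (by simp; ring)) (by simp)
    fun t ht => (a1 t).trans (by gcongr)
  exact a0.trans_eq (by ring)

lemma int_sq : ∫ z : ℝ, z ^ 2 ∂gaussianReal 0 1 = 1 := by
  have := variance_fun_id_gaussianReal (μ := 0) (v := 1)
  rwa [variance_of_integral_eq_zero aemeasurable_id' (by simp)] at this

lemma integrable_id' : Integrable (fun z : ℝ => z) (gaussianReal 0 1) :=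
  memLp_one_iff_integrable.1 (memLp_id_gaussianReal' 1 (by simp))

lemma integrable_sq : Integrable (fun z : ℝ => z ^ 2) (gaussianReal 0 1) :=
  (memLp_id_gaussianReal' 2 (by simp)).integrable_sq

lemma abs_cube_le (z : ℝ) : |z| ^ 3 ≤ 12 * cosh (0 + 1 * z) := by
  have h := pow_div_factorial_le_exp |z| (abs_nonneg z) 3
  have h2 := exp_abs_le_cosh z
  rw [zero_add, one_mul]
  norm_num [Nat.factorial] at h
  linarith

/-- one Gaussian step of a `C³` function -/
theorem Ep_taylor {p p1 p2 p3 : ℝ → ℝ} {M0 M2 M : ℝ} (hp : BC p M0) (d : ∀ x, HasDerivAt p (p1 x) x)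
    (d1 : ∀ x, HasDerivAt p1 (p2 x) x) (d2 : ∀ x, HasDerivAt p2 (p3 x) x) (h2 : ∀ x, |p2 x| ≤ M2)
    (h : ∀ x, |p3 x| ≤ M) (u a b : ℝ) :
    |Ep p (u + a) b - (p u + p1 u * a + p2 u * b ^ 2 / 2)| ≤
      M2 * a ^ 2 / 2 + M * (4 * |a| ^ 3 + 96 * |b| ^ 3) := by
  have M0' : 0 ≤ M := (abs_nonneg _).trans (h 0)
  have i1 : Integrable (fun z : ℝ => (p u + p1 u * a + p2 u * a ^ 2 / 2) +
      (p1 u * b + p2 u * a * b) * z) (gaussianReal 0 1) :=
    (integrable_const _).add (integrable_id'.const_mul _)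
  have i2 := integrable_sq.const_mul (p2 u * b ^ 2 / 2)
  have e : ∫ z, ((p u + p1 u * a + p2 u * a ^ 2 / 2) + (p1 u * b + p2 u * a * b) * z +
      p2 u * b ^ 2 / 2 * z ^ 2) ∂gaussianReal 0 1 =
      p u + p1 u * a + p2 u * a ^ 2 / 2 + p2 u * b ^ 2 / 2 := by
    rw [integral_add i1 i2, integral_add (integrable_const _) (integrable_id'.const_mul _),
      integral_const_mul, integral_const_mul, int_sq]
    simp
  have i3 : Integrable (fun z : ℝ => M * (4 * |a| ^ 3) + M * (48 * |b| ^ 3) * cosh (0 + 1 * z))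
      (gaussianReal 0 1) := (integrable_const _).add ((integrable_cosh 0 1).const_mul _)
  have k := norm_integral_le_of_norm_le (f := fun z => p (u + a + b * z) -
    ((p u + p1 u * a + p2 u * a ^ 2 / 2) + (p1 u * b + p2 u * a * b) * z + p2 u * b ^ 2 / 2 * z ^ 2))
    i3 (.of_forall fun z => by
      have t := taylor3 d d1 d2 h u (a + b * z)
      rw [Real.norm_eq_abs, add_assoc u, show p u + p1 u * a + p2 u * a ^ 2 / 2 +
        (p1 u * b + p2 u * a * b) * z + p2 u * b ^ 2 / 2 * z ^ 2 =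
        p u + p1 u * (a + b * z) + p2 u * (a + b * z) ^ 2 / 2 by ring]
      refine t.trans ?_
      have c1 : |a + b * z| ^ 3 ≤ (|a| + |b| * |z|) ^ 3 :=
        pow_le_pow_left₀ (abs_nonneg _) ((abs_add_le _ _).trans_eq (by rw [abs_mul])) 3
      have c2 : (|a| + |b| * |z|) ^ 3 ≤ 4 * |a| ^ 3 + 4 * (|b| * |z|) ^ 3 := by
        have := mul_nonneg (add_nonneg (abs_nonneg a) (mul_nonneg (abs_nonneg b) (abs_nonneg z)))
          (sq_nonneg (|a| - |b| * |z|))
        nlinarith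
      have c3 := mul_le_mul_of_nonneg_left (abs_cube_le z) (show 0 ≤ 4 * |b| ^ 3 by positivity)
      rw [mul_assoc M, ← mul_add]
      exact mul_le_mul_of_nonneg_left (by rw [mul_pow] at c2; linarith) M0')
  have i12 : Integrable (fun z : ℝ => (p u + p1 u * a + p2 u * a ^ 2 / 2) +
      (p1 u * b + p2 u * a * b) * z + p2 u * b ^ 2 / 2 * z ^ 2) (gaussianReal 0 1) := i1.add i2
  rw [integral_sub (hp.int (u + a) b) i12, e, integral_add (integrable_const _)
    ((integrable_cosh 0 1).const_mul _), integral_const, integral_const_mul, int_cosh, cosh_zero,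
    Real.norm_eq_abs] at k
  simp only [probReal_univ, one_smul] at k
  have x2 : exp ((1 : ℝ) ^ 2 / 2) ≤ 2 := by
    have h1 : exp ((1 : ℝ) ^ 2 / 2) ^ 2 = exp 1 := by rw [← exp_nat_mul]; norm_num
    nlinarith [exp_one_lt_d9, exp_pos ((1 : ℝ) ^ 2 / 2)]
  have q : |p2 u * a ^ 2 / 2| ≤ M2 * a ^ 2 / 2 := by
    rw [abs_div, abs_mul, abs_of_nonneg (sq_nonneg a), abs_two]
    gcongr; exact h2 u
  have r := mul_le_mul_of_nonneg_left x2 (show 0 ≤ M * (48 * |b| ^ 3) by positivity)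
  have := abs_add_le (Ep p (u + a) b - (p u + p1 u * a + p2 u * a ^ 2 / 2 + p2 u * b ^ 2 / 2))
    (p2 u * a ^ 2 / 2)
  rw [show Ep p (u + a) b - (p u + p1 u * a + p2 u * a ^ 2 / 2 + p2 u * b ^ 2 / 2) +
    p2 u * a ^ 2 / 2 = Ep p (u + a) b - (p u + p1 u * a + p2 u * b ^ 2 / 2) by ring] at this
  change |Ep p (u + a) b - _| ≤ _ at k
  linarith

/-- one Gaussian step of `tanh` -/
theorem Ep_tanh_taylor (u a b : ℝ) :
    |Ep tanh (u + a) b - (tanh u + (1 - tanh u ^ 2) * (a - tanh u * b ^ 2))| ≤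
      a ^ 2 + 16 * |a| ^ 3 + 384 * |b| ^ 3 := by
  have := Ep_taylor bc_tanh hasDerivAt_tanh2 d_T1 d_T2 bc_T2.bd bc_T3.bd u a b
  rw [show tanh u + (1 - tanh u ^ 2) * (a - tanh u * b ^ 2) =
    tanh u + (1 - tanh u ^ 2) * a + T2 u * b ^ 2 / 2 by rw [T2]; ring]
  linarith

/-- Stein solution for `tanh (b + ·)` and `N (m, s²)` -/
theorem stein_tanh (b m s : ℝ) :
    ∃ f f1 f2 : ℝ → ℝ, (∀ x, HasDerivAt f (f1 x) x) ∧ (∀ x, HasDerivAt f1 (f2 x) x) ∧
      BC f 1 ∧ BC f1 2 ∧ BC f2 4 ∧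
      ∀ x, (x - m) * f x - s ^ 2 * f1 x = tanh (b + x) - Ep tanh (b + m) s := by
  obtain ⟨f, f1, f2, a1, a2, a3, a4, a5, a6, -⟩ := exists_stein (bc_tanh.shift b) (bc_T1.shift b)
    (bc_T2.shift b) (bc_T3.shift b) (fun x => (hasDerivAt_tanh2 (b + x)).comp_const_add b x)
    (fun x => (d_T1 (b + x)).comp_const_add b x) (fun x => (d_T2 (b + x)).comp_const_add b x) m s
  exact ⟨f, f1, f2, a1, a2, a3, a4, a5, fun x => by rw [a6, Ep_comp_add]⟩

end Crest.Agent.T157.S2t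

end
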