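import Crest.Agent.T157.S2Rev_51
import Crest.Agent.T157.S2Th_51

/-!
# Row 157, part B, S1 (helper51): the reveal through the Stein equation, side of `ν`
-/

set_option autoImplicit false

noncomputable section

namespace Crest.Agent.T157.S2t

open Real Function Finset
open Crest.Agent.T157.E Crest.Agent.T157.SL Crest.Agent.T157.Ta
open Crest.Agent.T157.Ent (cnd)
open Crest.Agent.T157.Rec (grad)
open Crest.Agent.T157.Hd (abs_tanh_lt)
open Crest.ProbabilityR.SpinGlassDynamics (spin)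

variable {n : ℕ} {v w : Cube n → ℝ} {T : Finset (Fin n)} {k : Fin n}

/-- `C²` test function, bounded by `M` with two derivatives -/
def Tst (M : ℝ) (f f1 : ℝ → ℝ) : Prop :=
  ∃ f2 : ℝ → ℝ, (∀ t, HasDerivAt f (f1 t) t) ∧ (∀ t, HasDerivAt f1 (f2 t) t) ∧
    ∀ t, |f t| ≤ M ∧ |f1 t| ≤ M ∧ |f2 t| ≤ M

lemma Tst.lip {M : ℝ} {f f1 : ℝ → ℝ} (h : Tst M f f1) (t u : ℝ) : |f1 t - f1 u| ≤ M * |t - u| := by
  obtain ⟨f2, -, d, b⟩ := h
  exact convex_univ.norm_image_sub_le_of_norm_hasDerivWithin_le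
    (fun x _ => (d x).hasDerivWithinAt) (fun x _ => (b x).2.2) (Set.mem_univ u) (Set.mem_univ t)

lemma Tst.smul {M : ℝ} {f f1 : ℝ → ℝ} (h : Tst M f f1) (a : ℝ) :
    Tst (|a| * M) (fun t => a * f t) fun t => a * f1 t := by
  obtain ⟨f2, d0, d, b⟩ := h
  refine ⟨fun t => a * f2 t, fun t => (d0 t).const_mul a, fun t => (d t).const_mul a, fun t => ?_⟩
  simp only [abs_mul]
  exact ⟨by gcongr; exact (b t).1, by gcongr; exact (b t).2.1, by gcongr; exact (b t).2.2⟩

lemma Tst.mono {M N : ℝ} {f f1 : ℝ → ℝ} (h : Tst M f f1) (hM : M ≤ N) : Tst N f f1 := by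
  obtain ⟨f2, d0, d, b⟩ := h
  exact ⟨f2, d0, d, fun t => ⟨(b t).1.trans hM, (b t).2.1.trans hM, (b t).2.2.trans hM⟩⟩

/-- the features `h k` are `N (c k + V s k, V)` given the spins in `T`, in the sense of Stein -/
def SteinH (v : Cube n → ℝ) (T : Finset (Fin n)) (h : Fin n → Cube n → ℝ) (c : Fin n → ℝ)
    (V E γ : ℝ) : Prop :=
  ∀ F F1 : Fin n → Cube n → ℝ → ℝ, (∀ k y, Tst 1 (F k y) (F1 k y)) →
    |mean v fun x => ∑ k ∈ T, ((h k x - c k - V * sv x k) * F k (rT T x) (h k x) -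
      V * F1 k (rT T x) (h k x))| ≤ E + γ * mean v fun x => ∑ k ∈ T, F k (rT T x) (h k x) ^ 2

variable {h : Fin n → Cube n → ℝ} {c : Fin n → ℝ} {V E γ s : ℝ}

lemma rT_apply (hk : k ∈ T) (x : Cube n) : rT T x k = x k := piecewise_eq_of_mem _ _ _ hk

lemma sv_rT (hk : k ∈ T) (x : Cube n) : sv (rT T x) k = sv x k := by rw [sv, sv, rT_apply hk]

lemma rT_rT (x : Cube n) : rT T (rT T x) = rT T x := rT_eq_iff.2 fun _ hi => rT_apply hi x

lemma rT_update (hk : k ∈ T) (x : Cube n) (b : Bool) :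
    rT T (update x k b) = update (rT T x) k b := by
  funext i
  by_cases hi : i = k
  · rw [hi, rT_apply hk, update_self, update_self]
  · rw [update_of_ne hi]
    by_cases h : i ∈ T
    · rw [rT_apply h, rT_apply h, update_of_ne hi]
    · rw [rT, rT, piecewise_eq_of_notMem _ _ _ h, piecewise_eq_of_notMem _ _ _ h]

lemma off_rT_comp (hk : k ∈ T) {α : Type*} {g : Cube n → α} (hg : OffAt k g) :
    OffAt k fun x => g (rT T x) := fun x b => by
  simp only [rT_update hk, hg _ b]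

lemma wt_push {Ω A : Type*} [Fintype Ω] [Fintype A] [DecidableEq A] {v : Ω → ℝ} (hv : Wt v)
    (ρ : Ω → A) : Wt (push v ρ) :=
  ⟨push_nonneg hv ρ, by rw [sum_push hv]; exact one_pos⟩

lemma mean_push {Ω A : Type*} [Fintype Ω] [Fintype A] [DecidableEq A] {v : Ω → ℝ} (hv : Wt v)
    (ρ : Ω → A) (F : A → ℝ) : mean (push v ρ) F = mean v fun x => F (ρ x) := by
  rw [mean_eq_div, sum_push hv, div_one, ← sum_push_mean hv ρ fun a _ => F a]
  refine sum_congr rfl fun a _ => ?_
  by_cases ha : push v ρ a = 0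
  · rw [ha, zero_mul, zero_mul]
  · rw [(wt_cut hv ha).mean_const]

lemma SteinH.nn (hS : SteinH v T h c V E γ) : 0 ≤ E := by
  have := hS (fun _ _ _ => 0) (fun _ _ _ => 0) fun _ _ =>
    ⟨fun _ => 0, fun t => hasDerivAt_const t 0, fun t => hasDerivAt_const t 0, fun _ => by simp⟩
  simpa [mean] using this

/-- the Stein hypothesis applied to a family of solutions -/
lemma SteinH.sol (hS : SteinH v T h c V E γ) (hv : Wt v) (hγ : 0 ≤ γ) {M : ℝ} (hM : 0 < M)
    (p g : Fin n → Cube n → ℝ → ℝ) (H : ∀ k y, ∃ f f1 : ℝ → ℝ, Tst M f f1 ∧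
      (∀ t, (t - (c k + V * sv y k)) * f t - V * f1 t = p k y t) ∧ ∀ t, f t ^ 2 ≤ g k y t) :
    |∑ k ∈ T, mean v fun x => p k (rT T x) (h k x)| ≤
      M * E + γ / M * ∑ k ∈ T, mean v fun x => g k (rT T x) (h k x) := by
  choose f f1 a1 a2 a3 using H
  have b := hS (fun k y t => M⁻¹ * f k y t) (fun k y t => M⁻¹ * f1 k y t) fun k y =>
    ((a1 k y).smul M⁻¹).mono (by rw [abs_of_pos (inv_pos.2 hM), inv_mul_cancel₀ hM.ne'])
  have e : (fun x => ∑ k ∈ T, ((h k x - c k - V * sv x k) * (M⁻¹ * f k (rT T x) (h k x)) -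
      V * (M⁻¹ * f1 k (rT T x) (h k x)))) = fun x => M⁻¹ * ∑ k ∈ T, p k (rT T x) (h k x) := by
    funext x
    rw [mul_sum]
    exact sum_congr rfl fun k hk => by rw [← a2, sv_rT hk]; ring
  have l : mean v (fun x => ∑ k ∈ T, (M⁻¹ * f k (rT T x) (h k x)) ^ 2) ≤
      mean v fun x => M⁻¹ ^ 2 * ∑ k ∈ T, g k (rT T x) (h k x) := hv.mean_mono fun x => by
    rw [mul_sum]
    exact sum_le_sum fun k _ => by
      rw [mul_pow]; exact mul_le_mul_of_nonneg_left (a3 _ _ _) (sq_nonneg _)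
  rw [e, mean_const_mul, mean_sum, abs_mul, abs_of_pos (inv_pos.2 hM)] at b
  rw [mean_const_mul, mean_sum v T fun k x => g k (rT T x) (h k x)] at l
  have := mul_le_mul_of_nonneg_left (b.trans (add_le_add_right (mul_le_mul_of_nonneg_left l hγ) E))
    hM.le
  rw [← mul_assoc, mul_inv_cancel₀ hM.ne', one_mul] at this
  refine this.trans_eq ?_
  field_simp

lemma abs_sv (y : Cube n) (k : Fin n) : |sv y k| = 1 := abs_spin _

lemma abs_shift (hs : s ^ 2 ≤ 1) (a : ℝ) (y : Cube n) (k : Fin n) :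
    |a + s ^ 2 * sv y k - a| ≤ 1 := by
  rw [add_sub_cancel_left, abs_mul, abs_sv, mul_one, abs_of_nonneg (sq_nonneg s)]; exact hs

lemma le_min_mul {x A K z : ℝ} (hA : x ≤ A) (hK : x ≤ K * z) (h : A ≤ K) (h0 : 0 ≤ K) :
    x ≤ K * min 1 z := by
  rw [mul_min_of_nonneg _ _ h0, mul_one]; exact le_min (hA.trans h) hK

/-- **self-bounding** -/
theorem SteinH.ps (hS : SteinH v T h c (s ^ 2) E γ) (hv : Wt v) (hγ : 0 ≤ γ) (hs : s ^ 2 ≤ 1)
    (hK : γ * exp 16 ≤ 1) (a : Fin n → Cube n → ℝ) (ha : ∀ k y, 0 ≤ a k y) :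
    ∑ k ∈ T, mean v (fun x => Ps (a k (rT T x)) (c k) (h k x)) ≤
      2 * exp 12 * ∑ k ∈ T, mean v (fun x => a k (rT T x)) + 1664 * E := by
  have b := hS.sol hv hγ (M := 832) (by norm_num)
    (fun k y t => Ps (a k y) (c k) t - Ep (Ps (a k y) (c k)) (c k + s ^ 2 * sv y k) s)
    (fun k y t => 128 * exp 16 * Ps (a k y) (c k) t) fun k y => by
      obtain ⟨f, f1, f2, d0, d1, b0, b1, b2, e, l⟩ :=
        stein_Ps (c := c k) (ha k y) (c k + s ^ 2 * sv y k) s
      refine ⟨f, f1, ⟨f2, d0, d1, fun t => ⟨(b0.bd t).trans (by norm_num),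
        (b1.bd t).trans (by norm_num), b2.bd t⟩⟩, e, fun t => ?_⟩
      have x1 : exp (8 * s ^ 2 + 8 * |c k + s ^ 2 * sv y k - c k|) ≤ exp 16 :=
        exp_le_exp.2 (by linarith [abs_shift hs (c k) y k])
      have x2 : |f t| ≤ 8 * exp 16 * min 1 (a k y * exp (4 * |t - c k|)) :=
        le_min_mul (b0.bd t) ((l t).trans (by have := ha k y; gcongr))
          (by linarith [add_one_le_exp (16 : ℝ)]) (by positivity)
      have x3 := mul_le_mul_of_nonneg_left (min_le_Ps (c := c k) (x := t) (ha k y))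
        (show 0 ≤ 8 * exp 16 by positivity)
      have x4 := mul_le_mul (b0.bd t) (x2.trans x3) (abs_nonneg _) (by norm_num)
      rw [← sq, sq_abs] at x4
      linarith
  have m : ∀ k ∈ T, mean v (fun x => Ps (a k (rT T x)) (c k) (h k x)) -
      exp 12 * mean v (fun x => a k (rT T x)) ≤ mean v fun x => Ps (a k (rT T x)) (c k) (h k x) -
        Ep (Ps (a k (rT T x)) (c k)) (c k + s ^ 2 * sv (rT T x) k) s := fun k _ => by
    rw [← mean_const_mul, ← mean_sub]
    refine hv.mean_mono fun x => sub_le_sub_left ((Ep_Ps_le (ha k _) _ _ _).trans ?_) _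
    exact mul_le_mul_of_nonneg_right
      (exp_le_exp.2 (by linarith [abs_shift hs (c k) (rT T x) k])) (ha k _)
  have m1 := (sum_le_sum m).trans ((le_abs_self _).trans b)
  simp only [mean_const_mul] at m1
  rw [sum_sub_distrib, ← mul_sum, ← mul_sum] at m1
  have p : 0 ≤ ∑ k ∈ T, mean v (fun x => Ps (a k (rT T x)) (c k) (h k x)) :=
    sum_nonneg fun k _ => hv.mean_nonneg fun x => Ps_nn (ha k _) _ _
  have := mul_le_mul_of_nonneg_right hK p
  linarith

/-- the Stein step for `Λ` -/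
theorem SteinH.lam (hS : SteinH v T h c (s ^ 2) E γ) (hv : Wt v) (hγ : 0 ≤ γ) (hs : s ^ 2 ≤ 1)
    (hK : γ * exp 16 ≤ 1) (b : Fin n → ℝ) (l : Fin n → Cube n → ℝ) :
    ∑ k ∈ T, mean v (fun x => Lam (l k (rT T x)) (b k + h k x) -
      Ep (Lam (l k (rT T x))) (b k + c k + s ^ 2 * sv (rT T x) k) s) ≤
      3336 * E + 4 * exp 24 * γ * ∑ k ∈ T, mean v fun x => L1 (l k (rT T x)) (b k + c k) ^ 2 := by
  have q := hS.sol hv hγ (M := 8) (by norm_num)
    (fun k y t => Lam (l k y) (b k + t) - Ep (Lam (l k y)) (b k + c k + s ^ 2 * sv y k) s)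
    (fun k y t => 16 * exp 12 * Ps (L1 (l k y) (b k + c k) ^ 2) (c k) t) fun k y => by
      obtain ⟨f, f1, f2, d0, d1, b0, b1, b2, e, o⟩ :=
        stein_Lam (l k y) (b k) (c k + s ^ 2 * sv y k) s (c k)
      refine ⟨f, f1, ⟨f2, d0, d1, fun t => ⟨(b0.bd t).trans (by norm_num),
        (b1.bd t).trans (by norm_num), b2.bd t⟩⟩, fun t => by rw [e, Ep_comp_add, add_assoc],
        fun t => ?_⟩
      have x1 : exp (2 * s ^ 2 + 4 * |c k + s ^ 2 * sv y k - c k|) ≤ exp 6 :=
        exp_le_exp.2 (by linarith [abs_shift hs (c k) y k])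
      have x0 : |f t| ≤ 2 * exp 6 * (|L1 (l k y) (b k + c k)| * exp (2 * |t - c k|)) :=
        (o t).trans (by gcongr)
      have y0 := pow_le_pow_left₀ (abs_nonneg _) x0 2
      have y1 := pow_le_pow_left₀ (abs_nonneg _) (b0.bd t) 2
      simp only [mul_pow, sq_abs, ← exp_nat_mul] at y0 y1
      have x2 : f t ^ 2 ≤ 4 * exp 12 * min 1 (L1 (l k y) (b k + c k) ^ 2 * exp (4 * |t - c k|)) :=
        le_min_mul y1 (y0.trans_eq (by norm_num; left; ring))
          (by linarith [add_one_le_exp (12 : ℝ)]) (by positivity)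
      have x3 := mul_le_mul_of_nonneg_left
        (min_le_Ps (c := c k) (x := t) (sq_nonneg (L1 (l k y) (b k + c k))))
        (show 0 ≤ 4 * exp 12 by positivity)
      linarith
  have p := mul_le_mul_of_nonneg_left (hS.ps hv hγ hs hK (fun k y => L1 (l k y) (b k + c k) ^ 2)
    fun _ _ => sq_nonneg _) (show 0 ≤ 2 * exp 12 * γ by positivity)
  simp only [mean_const_mul] at q
  rw [← mul_sum] at q
  have e : exp 24 = exp 12 * exp 12 := by rw [← exp_add]; norm_num
  have k1 : γ * exp 12 ≤ 1 :=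
    (mul_le_mul_of_nonneg_left (exp_le_exp.2 (by norm_num)) hγ).trans hK
  have k2 := mul_le_mul_of_nonneg_right k1 hS.nn
  rw [e]
  linarith [le_abs_self (∑ k ∈ T, mean v (fun x => Lam (l k (rT T x)) (b k + h k x) -
      Ep (Lam (l k (rT T x))) (b k + c k + s ^ 2 * sv (rT T x) k) s))]

/-- the Stein step for `μ tanh` -/
theorem SteinH.th (hS : SteinH v T h c (s ^ 2) E γ) (hv : Wt v) (hγ : 0 ≤ γ) (b : Fin n → ℝ)
    (μ : Fin n → Cube n → ℝ) (hμ : ∀ k y, |μ k y| ≤ 2) :
    |∑ k ∈ T, mean v (fun x => μ k (rT T x) * (tanh (b k + h k x) -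
      Ep tanh (b k + c k + s ^ 2 * sv (rT T x) k) s))| ≤
      8 * E + γ / 8 * ∑ k ∈ T, mean v fun x => μ k (rT T x) ^ 2 :=
  hS.sol hv hγ (M := 8) (by norm_num)
    (fun k y t => μ k y * (tanh (b k + t) - Ep tanh (b k + c k + s ^ 2 * sv y k) s))
    (fun k y _ => μ k y ^ 2) fun k y => by
      obtain ⟨f, f1, f2, d0, d1, b0, b1, b2, e⟩ := stein_tanh (b k) (c k + s ^ 2 * sv y k) s
      have t : Tst 4 f f1 := ⟨f2, d0, d1, fun t => ⟨(b0.bd t).trans (by norm_num),
        (b1.bd t).trans (by norm_num), b2.bd t⟩⟩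
      refine ⟨_, _, (t.smul (μ k y)).mono (by linarith [hμ k y]), fun t => ?_, fun t => ?_⟩
      · rw [add_assoc, ← e]; ring
      · rw [mul_pow]
        exact mul_le_of_le_one_right (sq_nonneg _) ((sq_le_one_iff_abs_le_one _).2 (b0.bd t))

/-- the variational lower bound of the site terms -/
lemma As_ge (hp : Pr v w) (he : EdgePos T v w) (hk : k ∈ T) {l : Cube n → ℝ} (hl : OffAt k l) :
    mean v (fun x => l x * sv x k - Lam (l x) (uf w k x)) ≤ As (fun _ => 1) v w k := by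
  have a := (hp.wt fun x => l x * sv x k).As_nonneg (u := fun _ => 1) (fun _ => zero_le_one) k
  rw [As_wt hp (OffAt.const k 1), sub_nonneg] at a
  refine le_of_eq_of_le (mean_congr_supp fun x hx => ?_) a
  have p := he k hk x hx
  have p1 := p true
  have p2 := p false
  have e := cm_eq p
  have c0 := (cosh_pos (uf w k x)).ne'
  rw [one_mul, Lam, lc, lc, ← log_div (cosh_pos _).ne' c0, cosh_div, ← e, Ta.cm, siteM, siteM,
    hl x true, hl x false, cosh_eq, sinh_eq]
  congr 2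
  simp only [sv, update_self, spin, if_true, Bool.false_eq_true, if_false, mul_one, mul_neg]
  field_simp; ring

lemma chi_ge (hp : Pr v w) (he : EdgePos T v w) (hk : k ∈ T) {μ : Cube n → ℝ} (hμ : OffAt k μ) :
    mean v (fun x => 2 * (μ x * (sv x k - tanh (uf w k x))) - μ x ^ 2) ≤
      mean v fun x => chi v w k x ^ 2 := by
  have e : mean v (fun x => 2 * (μ x * (sv x k - tanh (uf w k x))) - μ x ^ 2) =
      mean v fun x => 2 * (μ x * (cm v k x - tanh (uf w k x))) - μ x ^ 2 := by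
    simp only [mul_sub, mean_sub, mean_const_mul, mean_cm hp.hv hμ]
  rw [e]
  refine mean_mono_supp hp.hv fun x hx => ?_
  rw [chi, cm_eq (he k hk x hx)]
  nlinarith [sq_nonneg (cm v k x - tanh (uf w k x) - μ x)]

/-- regularised half log-odds of the conditional law -/
def kap (η : ℝ) (v : Cube n → ℝ) (k : Fin n) (x : Cube n) : ℝ :=
  (log (cnd v k x true + η) - log (cnd v k x false + η)) / 2

lemma off_kap (η : ℝ) (v : Cube n → ℝ) (k : Fin n) : OffAt k (kap η v k) := fun x b => by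
  simp only [kap, Ent.cnd_update]

lemma kap_spec (hv : Wt v) {η : ℝ} (hη : 0 < η) {x : Cube n} (hx : v x ≠ 0) (k : Fin n) :
    log (cnd v k x (x k)) ≤ lb (kap η v k x) (x k) + 2 * η ∧
      |cm v k x - tanh (kap η v k x)| ≤ 2 * η := by
  have pA := cnd_nonneg hv k x true
  have pB := cnd_nonneg hv k x false
  have d := Ta.den_pos hv k hx
  have s1 : cnd v k x true + cnd v k x false = 1 := by
    rw [cnd, cnd, ← add_div]; exact div_self d.ne'
  have s2 : cm v k x = cnd v k x true - cnd v k x false := by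
    simp only [Ta.cm, siteM, cnd, sv, update_self, spin, if_true, Bool.false_eq_true, if_false]
    ring
  obtain ⟨t1, t2, t3⟩ := two_pt (add_pos_of_nonneg_of_pos pA hη) (add_pos_of_nonneg_of_pos pB hη)
  have s3 : cnd v k x true + η + (cnd v k x false + η) = 1 + 2 * η := by linarith
  rw [s3] at t1 t2 t3
  have p : 0 < 1 + 2 * η := by linarith
  constructor
  · have t : lb (kap η v k x) (x k) = log ((cnd v k x (x k) + η) / (1 + 2 * η)) := by
      cases x k
      · exact t2.symm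
      · exact t1.symm
    have q := cnd_self_pos hv hx k
    rw [t, log_div (by positivity) p.ne']
    have := log_le_log q (show cnd v k x (x k) ≤ cnd v k x (x k) + η by linarith)
    linarith [log_le_sub_one_of_pos p]
  · have a := abs_cm_le hv.nn k x
    rw [kap, ← t3, show (cnd v k x true + η) * 1 + (cnd v k x false + η) * -1 = cm v k x by
      rw [s2]; ring, show cm v k x - cm v k x / (1 + 2 * η) = cm v k x * (2 * η / (1 + 2 * η)) by
      field_simp; ring, abs_mul, abs_of_pos (show 0 < 2 * η / (1 + 2 * η) by positivity)]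
    exact (mul_le_of_le_one_left (by positivity) a).trans (div_le_self (by positivity) (by linarith))

lemma abs_Ep_Lam (l u : ℝ) (hs : s ^ 2 ≤ 1) :
    |Ep (Lam l) (u + s ^ 2) s - Ep (Lam l) (u - s ^ 2) s| ≤ 4 := by
  have b : BC (Lam l) |l| := by simpa using bc_Lam l 0
  rw [Ep, Ep, ← MeasureTheory.integral_sub (b.int _ _) (b.int _ _)]
  have := MeasureTheory.norm_integral_le_of_norm_le_const (μ := ProbabilityTheory.gaussianReal 0 1)
    (f := fun z => Lam l (u + s ^ 2 + s * z) - Lam l (u - s ^ 2 + s * z)) (C := 4)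
    (.of_forall fun z => by
      have := abs_Lam_sub' l (u - s ^ 2 + s * z) (2 * s ^ 2)
      rw [show u - s ^ 2 + s * z + 2 * s ^ 2 = u + s ^ 2 + s * z by ring,
        abs_of_nonneg (show 0 ≤ 2 * s ^ 2 by positivity)] at this
      exact this.trans (by linarith))
  simpa using this

/-- the algebra of one site -/
lemma site_alg {α β c1 c2 δ η m u l q e0 e1 b1 V C : ℝ} (hα : 0 ≤ α) (hβ : 0 ≤ β) (h1 : 0 < c1)
    (h2 : 0 ≤ c2) (hq : |q| ≤ 1) (hd : |q - tanh (u + l)| ≤ 2 * η) (he : |e1| ≤ 2)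
    (hb : 0 ≤ b1) (hbV : b1 ≤ V) (hV : V ≤ 1)
    (hc : e0 + e1 * tanh (u + l) ≤ Lam l u + C * V * L1 l u ^ 2)
    (hs : c1 + c2 + δ + (α * C + β) * V ≤ β / 2) :
    α * (l * q - Lam l u - m * q + m * tanh u + m ^ 2 / 2 + 2 * η) + c2 * (q - tanh u) ^ 2 ≤
      α * (l * q - (e0 + e1 * q)) + β * (L1 l u * ((1 - b1) * (q - tanh u))) -
        (β / 2 + δ) * L1 l u ^ 2 + α / 2 * (1 + α / (2 * c1)) * m ^ 2 +
        (6 * α + 2 * α * |m| + 4 * β + 8 * c2) * η := by
  obtain ⟨d, rfl⟩ : ∃ d, q = tanh u + L1 l u + d := ⟨q - tanh (u + l), by rw [L1]; ring⟩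
  have t : tanh (u + l) = tanh u + L1 l u := by rw [L1]; ring
  rw [t] at hc hd
  rw [add_sub_cancel_left] at hd
  have m2 := abs_L1_le l u
  generalize L1 l u = μ at *
  have a0 := abs_lt.1 (abs_tanh_lt u)
  have a1 : e1 * d ≤ 2 * (2 * η) :=
    (le_abs_self _).trans ((abs_mul _ _).trans_le (mul_le_mul he hd (abs_nonneg _) zero_le_two))
  have a2 : -(m * d) ≤ |m| * (2 * η) :=
    (neg_le_abs _).trans ((abs_mul _ _).trans_le (mul_le_mul_of_nonneg_left hd (abs_nonneg _)))
  have a3 : -(μ * (1 - b1) * d) ≤ 2 * 1 * (2 * η) := by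
    refine (neg_le_abs _).trans ?_
    rw [abs_mul, abs_mul]
    have : |1 - b1| ≤ 1 := abs_le.2 ⟨by linarith, by linarith⟩
    gcongr
  have a4 : d * (2 * μ + d) ≤ 2 * η * 4 := by
    refine (le_abs_self _).trans ?_
    rw [abs_mul]
    have := abs_le.1 hq
    have := abs_le.1 m2
    exact mul_le_mul hd (abs_le.2 ⟨by linarith, by linarith⟩) (abs_nonneg _)
      ((abs_nonneg _).trans hd)
  have a5 : -(α * (m * μ)) ≤ c1 * μ ^ 2 + α ^ 2 / (4 * c1) * m ^ 2 := by
    have : 0 ≤ (2 * c1 * μ + α * m) ^ 2 / (4 * c1) := by positivity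
    rw [show (2 * c1 * μ + α * m) ^ 2 / (4 * c1) =
      c1 * μ ^ 2 + α ^ 2 / (4 * c1) * m ^ 2 + α * (m * μ) by field_simp; ring] at this
    linarith
  have a6 := mul_le_mul_of_nonneg_right hs (sq_nonneg μ)
  have a7 := mul_le_mul_of_nonneg_left (mul_le_mul_of_nonneg_right hbV (sq_nonneg μ)) hβ
  have e : α / 2 * (1 + α / (2 * c1)) * m ^ 2 = α * (m ^ 2 / 2) + α ^ 2 / (4 * c1) * m ^ 2 := by
    field_simp; ring
  rw [e]
  nlinarith [mul_le_mul_of_nonneg_left hc hα, mul_le_mul_of_nonneg_left a1 hα,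
    mul_le_mul_of_nonneg_left a2 hα, mul_le_mul_of_nonneg_left a3 hβ,
    mul_le_mul_of_nonneg_left a4 h2]

lemma sv_pm (y : Cube n) (k : Fin n) : sv y k = 1 ∨ sv y k = -1 := by
  rw [sv]; cases y k <;> simp [spin]

/-- one site of the marginal law against the model -/
lemma site_le (hv : Wt v) (k : Fin n) {α β c1 c2 δ η : ℝ} (m u : ℝ) (hα : 0 ≤ α) (hβ : 0 ≤ β)
    (h1 : 0 < c1) (h2 : 0 ≤ c2) (hη : 0 < η) (hs0 : 0 ≤ s) (hs1 : s ≤ 1)
    (hs : c1 + c2 + δ + (α * Ctp + β) * s ^ 2 ≤ β / 2) :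
    α * (mean v (fun y => log (cnd v k y (y k))) - mean v fun y => lb (u + m) (y k)) +
      c2 * (mag v k - tanh u) ^ 2 ≤
      mean v (fun y => α * ((kap η v k y - u) * sv y k -
          Ep (Lam (kap η v k y - u)) (u + s ^ 2 * sv y k) s) +
        β * (L1 (kap η v k y - u) u * (sv y k - Ep tanh (u + s ^ 2 * sv y k) s)) -
        (β / 2 + δ) * L1 (kap η v k y - u) u ^ 2) + α / 2 * (1 + α / (2 * c1)) * m ^ 2 +
        (6 * α + 2 * α * |m| + 4 * β + 8 * c2) * η := by
  set l : Cube n → ℝ := fun y => kap η v k y - u with hl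
  have ol : OffAt k l := (off_kap η v k).comp fun t => t - u
  set e0 : Cube n → ℝ := fun y =>
    (Ep (Lam (l y)) (u + s ^ 2) s + Ep (Lam (l y)) (u - s ^ 2) s) / 2 with he0
  set e1 : Cube n → ℝ := fun y =>
    (Ep (Lam (l y)) (u + s ^ 2) s - Ep (Lam (l y)) (u - s ^ 2) s) / 2 with he1
  have s2 : s ^ 2 ≤ 1 := by nlinarith
  have r1 : mean v (fun y => log (cnd v k y (y k))) - mean v (fun y => lb (u + m) (y k)) ≤
      mean v fun y => l y * cm v k y - Lam (l y) u - m * cm v k y + m * tanh u + m ^ 2 / 2 +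
        2 * η := by
    have e : mean v (fun y => l y * cm v k y - Lam (l y) u - m * cm v k y + m * tanh u +
        m ^ 2 / 2 + 2 * η) = mean v fun y => l y * sv y k - Lam (l y) u - m * sv y k +
          m * tanh u + m ^ 2 / 2 + 2 * η := by
      simp only [mean_add, mean_sub, mean_cm hv ol, mean_cm hv (OffAt.const k m)]
    rw [e, ← mean_sub]
    refine mean_mono_supp hv fun y hy => ?_
    have a := (kap_spec hv hη hy k).1
    have b := lc_le u m
    simp only [lb, Lam, hl, sv, add_sub_cancel] at a ⊢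
    linarith
  have r2 : (mag v k - tanh u) ^ 2 ≤ mean v fun y => (cm v k y - tanh u) ^ 2 := by
    have e : mag v k - tanh u = mean v fun x => cm v k x - tanh u := by
      have := mean_cm (i := k) hv (OffAt.const k (1 : ℝ))
      simp only [one_mul] at this
      rw [mean_sub, hv.mean_const, this]; rfl
    rw [e]
    exact le_trans (hv.isP.mean_sq_le _) (hv.mean_mono
      (f := fun x => (cm v k x - tanh u) * (cm v k x - tanh u)) fun y => (sq _).ge)
  have r3 : mean v (fun y => α * (l y * sv y k - Ep (Lam (l y)) (u + s ^ 2 * sv y k) s) +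
      β * (L1 (l y) u * (sv y k - Ep tanh (u + s ^ 2 * sv y k) s)) -
      (β / 2 + δ) * L1 (l y) u ^ 2) = mean v fun y =>
      α * (l y * cm v k y - (e0 y + e1 y * cm v k y)) +
      β * (L1 (l y) u * ((1 - be1 u s) * (cm v k y - tanh u))) - (β / 2 + δ) * L1 (l y) u ^ 2 := by
    have o : OffAt k fun y => α * (l y - e1 y) + β * L1 (l y) u * (1 - be1 u s) :=
      ol.comp fun t => α * (t - (Ep (Lam t) (u + s ^ 2) s - Ep (Lam t) (u - s ^ 2) s) / 2) +
        β * L1 t u * (1 - be1 u s)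
    have z := congrArg (fun t => t + mean v fun y => -(α * e0 y) -
      β * L1 (l y) u * (1 - be1 u s) * tanh u - (β / 2 + δ) * L1 (l y) u ^ 2) (mean_cm hv o)
    simp only [← mean_add] at z
    refine Eq.trans (congrArg _ (funext fun y => ?_)) (z.symm.trans (congrArg _ (funext fun y => ?_)))
    · rw [Ep_tanh_pm _ _ _ (sv_pm y k)]
      rcases sv_pm y k with e | e <;> simp only [e, he0, he1, mul_one, mul_neg, ← sub_eq_add_neg] <;>
        ring
    · ring
  have r4 := mul_le_mul_of_nonneg_left r1 hα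
  have r5 := mul_le_mul_of_nonneg_left r2 h2
  refine (add_le_add r4 r5).trans ?_
  rw [r3, ← mean_const_mul, ← mean_const_mul, ← mean_add, add_assoc,
    ← hv.mean_const (α / 2 * (1 + α / (2 * c1)) * m ^ 2 +
      (6 * α + 2 * α * |m| + 4 * β + 8 * c2) * η), ← mean_add]
  refine mean_mono_supp hv fun y hy => ?_
  rw [← add_assoc]
  refine site_alg (C := Ctp) hα hβ h1 h2 (abs_cm_le hv.nn k y) ?_ ?_ (be1_nonneg u s) (be1_le u s)
    s2 ?_ hs
  · rw [hl, add_sub_cancel]; exact (kap_spec hv hη hy k).2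
  · rw [he1, abs_div, abs_two]; linarith [abs_Ep_Lam (l y) u s2]
  · refine le_of_eq_of_le ?_ (channel u (l y) hs0 hs1)
    rw [he0, he1]; ring

/-- **the reveal, side of `ν`** -/
theorem revNu (hp : Pr v w) (he : EdgePos T v w) (hS : SteinH v T h c V E γ) (hV0 : 0 ≤ V)
    (hV1 : V ≤ 1) (hγ : 0 ≤ γ) (hK : γ * exp 16 ≤ 1) (b m : Fin n → ℝ) {α β c1 c2 : ℝ}
    (hα : 0 ≤ α) (hβ : 0 ≤ β) (h1 : 0 < c1) (h2 : 0 ≤ c2)
    (hc : c1 + c2 + Ctp * (α + β) * (V + γ) ≤ β / 2) :
    α * mean v (fun x => log (mT T v x) - LB T (b + c + m) x) +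
      c2 * ∑ k ∈ T, (mag v k - tanh (b k + c k)) ^ 2 ≤
      ∑ k ∈ T, (α * As (fun _ => 1) v w k + β / 2 * mean v fun x => chi v w k x ^ 2) +
      α / 2 * (1 + α / (2 * c1)) * ∑ k ∈ T, m k ^ 2 +
      2 * (α + β) * ∑ k ∈ T, mean v (fun x => |uf w k x - (b k + h k x)|) +
      3336 * (α + β) * E := by
  obtain ⟨s, hs0, rfl⟩ : ∃ s, 0 ≤ s ∧ V = s ^ 2 := ⟨√V, sqrt_nonneg _, (sq_sqrt hV0).symm⟩
  have hs1 : s ≤ 1 := by nlinarith
  have hv := hp.hv
  have hv' := wt_push hv (rT T)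
  set v' := push v (rT T) with hv''
  refine le_of_forall_pos_le_add fun ε hε => ?_
  set K := ∑ k ∈ T, (6 * α + 2 * α * |m k| + 4 * β + 8 * c2) with hKd
  have K0 : 0 ≤ K := sum_nonneg fun k _ => by positivity
  obtain ⟨η, hη, hηK⟩ : ∃ η, 0 < η ∧ K * η ≤ ε := ⟨ε / (K + 1), by positivity, by
    rw [← mul_div_assoc, div_le_iff₀ (by positivity)]; nlinarith⟩
  set l : Fin n → Cube n → ℝ := fun k y => kap η v' k y - (b k + c k) with hl
  set δ := 4 * exp 24 * γ * α + γ / 8 * β with hδ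
  have C1 : 4 * exp 24 ≤ Ctp := by rw [Ctp]; gcongr; norm_num
  have C2 : 1 ≤ Ctp := by rw [Ctp]; linarith [add_one_le_exp (32 : ℝ)]
  have hs : c1 + c2 + δ + (α * Ctp + β) * s ^ 2 ≤ β / 2 := by
    have x1 := mul_le_mul_of_nonneg_right C1 (mul_nonneg hγ hα)
    have x2 := mul_le_mul_of_nonneg_right C2 (mul_nonneg hγ hβ)
    have x3 := mul_le_mul_of_nonneg_right C2 (mul_nonneg hβ hV0)
    have x4 := mul_nonneg hγ hβ
    rw [hδ]; linarith
  have H := han hv' T
  have e1 : mean v' (fun x => log (mT T v' x)) = mean v fun x => log (mT T v x) := by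
    rw [mean_push hv]
    refine congrArg _ (funext fun x => congrArg _ ?_)
    simp only [mT, rT_rT]
    rw [push, mean_push hv]
    simp only [rT_rT]; rfl
  have S1 := mul_le_mul_of_nonneg_left (hS.lam hv hγ hV1 hK b l) hα
  have S2 := mul_le_mul_of_nonneg_left ((le_abs_self _).trans
    (hS.th hv hγ b (fun k y => L1 (l k y) (b k + c k)) fun _ _ => abs_L1_le _ _)) hβ
  have Z : ∀ k ∈ T, α * (mean v' (fun y => log (cnd v' k y (y k))) -
      mean v fun y => lb ((b + c + m) k) (y k)) + c2 * (mag v k - tanh (b k + c k)) ^ 2 ≤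
      α * As (fun _ => 1) v w k + β / 2 * mean v (fun x => chi v w k x ^ 2) +
      α / 2 * (1 + α / (2 * c1)) * m k ^ 2 +
      2 * (α + β) * mean v (fun x => |uf w k x - (b k + h k x)|) +
      (6 * α + 2 * α * |m k| + 4 * β + 8 * c2) * η +
      (α * mean v (fun x => Lam (l k (rT T x)) (b k + h k x) -
        Ep (Lam (l k (rT T x))) (b k + c k + s ^ 2 * sv (rT T x) k) s) +
      β * mean v (fun x => L1 (l k (rT T x)) (b k + c k) * (tanh (b k + h k x) -
        Ep tanh (b k + c k + s ^ 2 * sv (rT T x) k) s)) -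
      δ * mean v fun x => L1 (l k (rT T x)) (b k + c k) ^ 2) := fun k hk => by
    have a := site_le hv' k (m k) (b k + c k) hα hβ h1 h2 hη hs0 hs1 hs
    have g1 : mean v' (fun y => lb (b k + c k + m k) (y k)) =
        mean v fun y => lb ((b + c + m) k) (y k) := by
      rw [mean_push hv]; simp only [rT_apply hk]; rfl
    have g2 : mag v' k = mag v k :=
      (mean_push hv _ fun y => sv y k).trans (congrArg _ (funext (sv_rT hk)))
    have ol : OffAt k fun x => l k (rT T x) :=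
      off_rT_comp hk ((off_kap η v' k).comp fun t => t - (b k + c k))
    have a1 := mul_le_mul_of_nonneg_left (As_ge hp he hk ol) hα
    have a2 := mul_le_mul_of_nonneg_left (chi_ge hp he hk (ol.comp fun t => L1 t (b k + c k)))
      (show 0 ≤ β / 2 by positivity)
    rw [g1, g2, mean_push hv (rT T) fun y => α * _ + β * _ - _] at a
    have a3 : mean v (fun x => α * (l k (rT T x) * sv (rT T x) k -
          Ep (Lam (l k (rT T x))) (b k + c k + s ^ 2 * sv (rT T x) k) s) +
        β * (L1 (l k (rT T x)) (b k + c k) * (sv (rT T x) k -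
          Ep tanh (b k + c k + s ^ 2 * sv (rT T x) k) s)) -
        (β / 2 + δ) * L1 (l k (rT T x)) (b k + c k) ^ 2) ≤ mean v fun x =>
        α * (l k (rT T x) * sv x k - Lam (l k (rT T x)) (uf w k x)) +
        β / 2 * (2 * (L1 (l k (rT T x)) (b k + c k) * (sv x k - tanh (uf w k x))) -
          L1 (l k (rT T x)) (b k + c k) ^ 2) + 2 * (α + β) * |uf w k x - (b k + h k x)| +
        (α * (Lam (l k (rT T x)) (b k + h k x) -
          Ep (Lam (l k (rT T x))) (b k + c k + s ^ 2 * sv (rT T x) k) s) +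
        β * (L1 (l k (rT T x)) (b k + c k) * (tanh (b k + h k x) -
          Ep tanh (b k + c k + s ^ 2 * sv (rT T x) k) s)) -
        δ * L1 (l k (rT T x)) (b k + c k) ^ 2) := hv.mean_mono fun x => by
      have q1 := abs_Lam_sub' (l k (rT T x)) (b k + h k x) (uf w k x - (b k + h k x))
      rw [add_sub_cancel] at q1
      have q2 : L1 (l k (rT T x)) (b k + c k) * (tanh (uf w k x) - tanh (b k + h k x)) ≤
          2 * |uf w k x - (b k + h k x)| := (le_abs_self _).trans ((abs_mul _ _).trans_le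
        (mul_le_mul (abs_L1_le _ _) (abs_tanh_sub _ _) (abs_nonneg _) zero_le_two))
      have q3 := mul_le_mul_of_nonneg_left ((le_abs_self _).trans q1) hα
      have q4 := mul_le_mul_of_nonneg_left q2 hβ
      rw [show sv x k = sv (rT T x) k from (sv_rT hk x).symm]
      linarith
    rw [mean_add, mean_add, mean_add, mean_sub v _ fun x => δ * _, mean_add, mean_const_mul,
      mean_const_mul, mean_const_mul, mean_const_mul, mean_const_mul, mean_const_mul] at a3
    linarith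
  have Z1 := sum_le_sum Z
  simp only [sum_add_distrib, sum_sub_distrib, ← mul_sum, ← sum_mul] at Z1
  have e2 : mean v (fun x => log (mT T v x) - LB T (b + c + m) x) =
      mean v (fun x => log (mT T v x)) - ∑ k ∈ T, mean v fun y => lb ((b + c + m) k) (y k) := by
    rw [mean_sub, ← mean_sum v T fun k y => lb ((b + c + m) k) (y k)]; rfl
  have H1 := mul_le_mul_of_nonneg_left (e1 ▸ H) hα
  have E0 := mul_nonneg hβ hS.nn
  simp only [hKd, sum_add_distrib, ← mul_sum] at hηK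
  rw [e2, sum_add_distrib, ← mul_sum, ← mul_sum]
  rw [hδ] at Z1
  linarith

end Crest.Agent.T157.S2t

end
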