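import Crest.Agent.T157.S2Two_51
import Crest.Agent.T157.SLA_23

/-!
# Row 157, part B, S2 (helper51): the one-dimensional Stein equation, the channel inequality

`ou k p m s x = ∫_0^{π/2} cos θ sin^k θ E p (m + sin θ (x - m) + cos θ s Z) dθ`.
`f = -ou 0 φ' m s` solves `s² f' x - (x - m) f x = φ x - E φ (m + s Z)`.
-/

set_option autoImplicit false

noncomputable section

namespace Crest.Agent.T157.S2t

open Real MeasureTheory ProbabilityTheory Filter Topology
open Crest.Agent.T157.Hd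

/-- bounded and continuous -/
structure BC (p : ℝ → ℝ) (M : ℝ) : Prop where
  cont : Continuous p
  bd : ∀ x, |p x| ≤ M

/-- `E p (a + c Z)` -/
def Ep (p : ℝ → ℝ) (a c : ℝ) : ℝ := ∫ z, p (a + c * z) ∂gaussianReal 0 1

/-- Ornstein–Uhlenbeck resolvent and its derivatives -/
def ou (k : ℕ) (p : ℝ → ℝ) (m s x : ℝ) : ℝ :=
  ∫ θ in (0 : ℝ)..π / 2, cos θ * sin θ ^ k * Ep p (m + sin θ * (x - m)) (cos θ * s)

variable {p p1 p2 p3 : ℝ → ℝ} {M M1 M2 M3 : ℝ}

lemma BC.nn (h : BC p M) : 0 ≤ M := (abs_nonneg _).trans (h.bd 0)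

lemma BC.int (h : BC p M) (a c : ℝ) : Integrable (fun z => p (a + c * z)) (gaussianReal 0 1) :=
  (integrable_const M).mono' (h.cont.comp (by fun_prop)).aestronglyMeasurable
    (.of_forall fun _ => h.bd _)

lemma int_abs : Integrable (fun z : ℝ => |z|) (gaussianReal 0 1) :=
  (memLp_one_iff_integrable.1 (memLp_id_gaussianReal' 1 (by simp))).abs

lemma BC.int_mul (h : BC p M) (a c : ℝ) :
    Integrable (fun z => z * p (a + c * z)) (gaussianReal 0 1) :=
  (int_abs.mul_const M).mono'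
    (continuous_id.mul (h.cont.comp (by fun_prop))).aestronglyMeasurable
    (.of_forall fun z => by
      rw [Real.norm_eq_abs, abs_mul]; exact mul_le_mul_of_nonneg_left (h.bd _) (abs_nonneg _))

lemma BC.abs_Ep (h : BC p M) (a c : ℝ) : |Ep p a c| ≤ M := by
  simpa [Ep] using norm_integral_le_of_norm_le_const (μ := gaussianReal 0 1)
    (f := fun z => p (a + c * z)) (C := M) (.of_forall fun _ => h.bd _)

lemma BC.cont_Ep (h : BC p M) {X : Type*} [TopologicalSpace X] [FirstCountableTopology X]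
    {a c : X → ℝ} (ha : Continuous a) (hc : Continuous c) : Continuous fun t => Ep p (a t) (c t) :=
  continuous_of_dominated (bound := fun _ => M)
    (fun t => (h.int _ _).aestronglyMeasurable) (fun _ => .of_forall fun _ => h.bd _)
    (integrable_const M) (.of_forall fun z => h.cont.comp (by fun_prop))

lemma Ep_zero (p : ℝ → ℝ) (a : ℝ) : Ep p a 0 = p a := by simp [Ep]

lemma Ep_stein (h1 : BC p1 M1) (h2 : BC p2 M2) (d : ∀ x, HasDerivAt p1 (p2 x) x) (a c : ℝ) :
    ∫ z, z * p1 (a + c * z) ∂gaussianReal 0 1 = c * Ep p2 a c := by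
  rw [Ep, ← integral_const_mul]
  exact SL.stein1 (f := fun z => p1 (a + c * z)) (f' := fun z => c * p2 (a + c * z))
    (fun z => ((d _).comp z (((hasDerivAt_id z).const_mul c).const_add a)).congr_deriv
      (by simp [mul_comm])) (h1.int a c) ((h2.int a c).const_mul c) (h1.int_mul a c)

lemma hasDerivAt_Ep (h : BC p M) (h1 : BC p1 M1) (d : ∀ x, HasDerivAt p (p1 x) x)
    {a c a' c' : ℝ → ℝ} {A C : ℝ} (ha : ∀ t, HasDerivAt a (a' t) t) (hc : ∀ t, HasDerivAt c (c' t) t)
    (hA : ∀ t, |a' t| ≤ A) (hC : ∀ t, |c' t| ≤ C) (t : ℝ) :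
    HasDerivAt (fun t => Ep p (a t) (c t))
      (a' t * Ep p1 (a t) (c t) + c' t * ∫ z, z * p1 (a t + c t * z) ∂gaussianReal 0 1) t := by
  have i1 := (h1.int (a t) (c t)).const_mul (a' t)
  have i2 := (h1.int_mul (a t) (c t)).const_mul (c' t)
  have := (hasDerivAt_integral_of_dominated_loc_of_deriv_le (μ := gaussianReal 0 1)
    (F := fun t z => p (a t + c t * z))
    (F' := fun t z => a' t * p1 (a t + c t * z) + c' t * (z * p1 (a t + c t * z)))
    (x₀ := t) (s := Set.univ) (bound := fun z => A * M1 + C * (|z| * M1)) univ_mem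
    (.of_forall fun t => (h.int _ _).aestronglyMeasurable) (h.int _ _)
    (i1.add i2).aestronglyMeasurable
    (.of_forall fun z t _ => by
      have b := h1.bd (a t + c t * z)
      have hA0 : 0 ≤ A := (abs_nonneg _).trans (hA t)
      have hC0 : 0 ≤ C := (abs_nonneg _).trans (hC t)
      refine (abs_add_le _ _).trans (add_le_add ?_ ?_)
      · rw [abs_mul]; exact mul_le_mul (hA t) b (abs_nonneg _) hA0
      · rw [abs_mul, abs_mul]
        exact mul_le_mul (hC t) (mul_le_mul_of_nonneg_left b (abs_nonneg _)) (by positivity) hC0)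
    ((integrable_const _).add ((int_abs.mul_const M1).const_mul C))
    (.of_forall fun z t _ => ((d _).comp t ((ha t).add ((hc t).mul_const z))).congr_deriv
      (by simp only [Pi.add_apply]; ring))).2
  rwa [integral_add i1 i2, integral_const_mul, integral_const_mul] at this

lemma BC.cont_ou (h : BC p M) (k : ℕ) (m s x : ℝ) :
    Continuous fun θ => cos θ * sin θ ^ k * Ep p (m + sin θ * (x - m)) (cos θ * s) :=
  (continuous_cos.mul (continuous_sin.pow k)).mul (h.cont_Ep (by fun_prop) (by fun_prop))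

lemma abs_cs_le (k : ℕ) (θ : ℝ) : |cos θ * sin θ ^ k| ≤ |cos θ| := by
  rw [abs_mul, abs_pow]
  exact mul_le_of_le_one_right (abs_nonneg _) (pow_le_one₀ (abs_nonneg _) (abs_sin_le_one θ))

/-- bound from a bound along the segment -/
theorem abs_ou_le (k : ℕ) {m s x B : ℝ}
    (hB : ∀ θ, |Ep p (m + sin θ * (x - m)) (cos θ * s)| ≤ B) : |ou k p m s x| ≤ B := by
  have := intervalIntegral.norm_integral_le_of_norm_le (a := 0) (b := π / 2) (μ := volume)
    (f := fun θ => cos θ * sin θ ^ k * Ep p (m + sin θ * (x - m)) (cos θ * s))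
    (g := fun θ => cos θ * B) (by positivity) (.of_forall fun θ hθ => by
      have hc : 0 ≤ cos θ := cos_nonneg_of_mem_Icc ⟨by linarith [hθ.1, pi_pos], hθ.2⟩
      rw [Real.norm_eq_abs, abs_mul]
      exact mul_le_mul ((abs_cs_le k θ).trans_eq (abs_of_nonneg hc)) (hB θ) (abs_nonneg _) hc)
    ((continuous_cos.mul continuous_const).intervalIntegrable _ _)
  rw [intervalIntegral.integral_mul_const, integral_cos] at this
  simpa [ou] using this

theorem BC.abs_ou (h : BC p M) (k : ℕ) (m s x : ℝ) : |ou k p m s x| ≤ M :=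
  abs_ou_le k fun _ => h.abs_Ep _ _

lemma int_exp_abs (c : ℝ) : Integrable (fun z : ℝ => exp |c * z|) (gaussianReal 0 1) :=
  ((integrable_cosh 0 c).const_mul 2).mono' (Continuous.aestronglyMeasurable (by fun_prop))
    (.of_forall fun z => by
      rw [Real.norm_eq_abs, abs_of_pos (exp_pos _), zero_add]; exact exp_abs_le_cosh _)

lemma abs_Ep_loc {m μ κ : ℝ} (hμ : 0 ≤ μ) (hκ : 0 ≤ κ) (hp : ∀ y, |p (m + y)| ≤ μ * exp (κ * |y|))
    (y c : ℝ) : |Ep p (m + y) c| ≤ 2 * exp (κ ^ 2 * c ^ 2 / 2) * (μ * exp (κ * |y|)) := by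
  have i := ((integrable_cosh 0 (κ * c)).const_mul 2).const_mul (μ * exp (κ * |y|))
  refine (norm_integral_le_of_norm_le (f := fun z => p (m + y + c * z)) i
    (.of_forall fun z => ?_)).trans_eq ?_
  · rw [Real.norm_eq_abs, add_assoc]
    refine (hp _).trans ?_
    rw [mul_assoc μ, zero_add]
    refine mul_le_mul_of_nonneg_left ?_ hμ
    refine le_trans ?_ (mul_le_mul_of_nonneg_left (exp_abs_le_cosh _) (exp_pos _).le)
    rw [← exp_add, exp_le_exp, mul_assoc, abs_mul κ, abs_of_nonneg hκ, ← mul_add]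
    exact mul_le_mul_of_nonneg_left (abs_add_le _ _) hκ
  · rw [integral_const_mul, integral_const_mul, int_cosh, cosh_zero, mul_pow]; ring

/-- local bound -/
theorem abs_ou_loc (k : ℕ) {m μ κ : ℝ} (hμ : 0 ≤ μ) (hκ : 0 ≤ κ)
    (hp : ∀ y, |p (m + y)| ≤ μ * exp (κ * |y|)) (s x : ℝ) :
    |ou k p m s x| ≤ 2 * exp (κ ^ 2 * s ^ 2 / 2) * (μ * exp (κ * |x - m|)) := by
  refine abs_ou_le k fun θ => (abs_Ep_loc hμ hκ hp _ _).trans ?_
  have h1 : (cos θ * s) ^ 2 ≤ s ^ 2 := by
    rw [mul_pow]; exact mul_le_of_le_one_left (sq_nonneg _) (cos_sq_le_one θ)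
  have h2 : |sin θ * (x - m)| ≤ |x - m| := by
    rw [abs_mul]; exact mul_le_of_le_one_left (abs_nonneg _) (abs_sin_le_one θ)
  gcongr

theorem hasDerivAt_ou (h : BC p M) (h1 : BC p1 M1) (d : ∀ x, HasDerivAt p (p1 x) x) (k : ℕ)
    (m s x : ℝ) : HasDerivAt (ou k p m s) (ou (k + 1) p1 m s x) x :=
  (intervalIntegral.hasDerivAt_integral_of_dominated_loc_of_deriv_le (μ := volume) (a := 0)
    (b := π / 2)
    (F := fun x θ => cos θ * sin θ ^ k * Ep p (m + sin θ * (x - m)) (cos θ * s))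
    (F' := fun x θ => cos θ * sin θ ^ (k + 1) * Ep p1 (m + sin θ * (x - m)) (cos θ * s))
    (x₀ := x) (s := Set.univ) (bound := fun _ => M1) univ_mem
    (.of_forall fun x => (h.cont_ou k m s x).aestronglyMeasurable)
    ((h.cont_ou k m s x).intervalIntegrable _ _) (h1.cont_ou (k + 1) m s x).aestronglyMeasurable
    (.of_forall fun θ _ x _ => by
      rw [Real.norm_eq_abs, abs_mul, ← one_mul M1]
      exact mul_le_mul ((abs_cs_le _ θ).trans (abs_cos_le_one θ)) (h1.abs_Ep _ _) (abs_nonneg _)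
        zero_le_one)
    intervalIntegrable_const
    (.of_forall fun θ _ x _ => by
      have := hasDerivAt_Ep h h1 d (a := fun x => m + sin θ * (x - m)) (c := fun _ => cos θ * s)
        (a' := fun _ => sin θ) (c' := fun _ => 0) (A := 1) (C := 0)
        (fun t => ((((hasDerivAt_id t).sub_const m).const_mul (sin θ)).const_add m).congr_deriv
          (mul_one _)) (fun t => hasDerivAt_const t _) (fun _ => abs_sin_le_one θ) (by simp) x
      exact (this.const_mul (cos θ * sin θ ^ k)).congr_deriv (by ring))).2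

theorem BC.ou (h : BC p M) (k : ℕ) (m s : ℝ) : BC (ou k p m s) M where
  cont := by
    refine intervalIntegral.continuous_parametric_intervalIntegral_of_continuous' (μ := volume)
      (f := fun x θ => cos θ * sin θ ^ k * Ep p (m + sin θ * (x - m)) (cos θ * s)) ?_ _ _
    exact (Continuous.mul (by fun_prop) (by fun_prop)).mul
      (h.cont_Ep (a := fun q : ℝ × ℝ => m + sin q.2 * (q.1 - m)) (c := fun q => cos q.2 * s)
        (by fun_prop) (by fun_prop))
  bd := h.abs_ou k m s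

/-- **the Stein equation** of `N (m, s²)` -/
theorem ou_stein (h : BC p M) (h1 : BC p1 M1) (h2 : BC p2 M2) (d : ∀ x, HasDerivAt p (p1 x) x)
    (d1 : ∀ x, HasDerivAt p1 (p2 x) x) (m s x : ℝ) :
    (x - m) * ou 0 p1 m s x - s ^ 2 * ou 1 p2 m s x = p x - Ep p m s := by
  have i0 := (h1.cont_ou 0 m s x).intervalIntegrable (μ := volume) 0 (π / 2)
  have i1 := (h2.cont_ou 1 m s x).intervalIntegrable (μ := volume) 0 (π / 2)
  have := intervalIntegral.integral_eq_sub_of_hasDerivAt (a := 0) (b := π / 2)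
    (f := fun θ => Ep p (m + sin θ * (x - m)) (cos θ * s))
    (f' := fun θ => (x - m) * (cos θ * sin θ ^ 0 * Ep p1 (m + sin θ * (x - m)) (cos θ * s)) -
      s ^ 2 * (cos θ * sin θ ^ 1 * Ep p2 (m + sin θ * (x - m)) (cos θ * s)))
    (fun θ _ => by
      have := hasDerivAt_Ep h h1 d (a := fun θ => m + sin θ * (x - m)) (c := fun θ => cos θ * s)
        (a' := fun θ => cos θ * (x - m)) (c' := fun θ => -sin θ * s) (A := |x - m|) (C := |s|)
        (fun t => ((hasDerivAt_sin t).mul_const _).const_add m)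
        (fun t => (hasDerivAt_cos t).mul_const _)
        (fun t => by rw [abs_mul]; exact mul_le_of_le_one_left (abs_nonneg _) (abs_cos_le_one t))
        (fun t => by
          rw [abs_mul, abs_neg]; exact mul_le_of_le_one_left (abs_nonneg _) (abs_sin_le_one t)) θ
      rw [Ep_stein h1 h2 d1] at this
      exact this.congr_deriv (by ring))
    ((i0.const_mul _).sub (i1.const_mul _))
  rw [intervalIntegral.integral_sub (i0.const_mul _) (i1.const_mul _),
    intervalIntegral.integral_const_mul, intervalIntegral.integral_const_mul] at this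
  simpa [ou, Ep_zero] using this

/-- packaged form: a `C²` solution with global and local bounds -/
theorem exists_stein (h : BC p M) (h1 : BC p1 M1) (h2 : BC p2 M2) (h3 : BC p3 M3)
    (d : ∀ x, HasDerivAt p (p1 x) x) (d1 : ∀ x, HasDerivAt p1 (p2 x) x)
    (d2 : ∀ x, HasDerivAt p2 (p3 x) x) (m s : ℝ) :
    ∃ f f1 f2 : ℝ → ℝ, (∀ x, HasDerivAt f (f1 x) x) ∧ (∀ x, HasDerivAt f1 (f2 x) x) ∧
      BC f M1 ∧ BC f1 M2 ∧ BC f2 M3 ∧ (∀ x, (x - m) * f x - s ^ 2 * f1 x = p x - Ep p m s) ∧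
      ∀ μ κ, 0 ≤ μ → 0 ≤ κ → (∀ y, |p1 (m + y)| ≤ μ * exp (κ * |y|)) →
        ∀ x, |f x| ≤ 2 * exp (κ ^ 2 * s ^ 2 / 2) * (μ * exp (κ * |x - m|)) :=
  ⟨ou 0 p1 m s, ou 1 p2 m s, ou 2 p3 m s, hasDerivAt_ou h1 h2 d1 0 m s, hasDerivAt_ou h2 h3 d2 1 m s,
    h1.ou 0 m s, h2.ou 1 m s, h3.ou 2 m s, ou_stein h h1 h2 d d1 m s,
    fun _ _ hμ hκ hp x => abs_ou_loc 0 hμ hκ hp s x⟩

/-! ### the test function `Λ` -/

lemma hasDerivAt_tanh2 (x : ℝ) : HasDerivAt tanh (1 - tanh x ^ 2) x :=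
  (hasDerivAt_tanh' x).congr_deriv (by
    have := (cosh_pos x).ne'
    rw [tanh_eq_sinh_div_cosh]; field_simp; linear_combination -cosh_sq x)

lemma continuous_tanh' : Continuous tanh :=
  continuous_iff_continuousAt.2 fun x => (hasDerivAt_tanh' x).continuousAt

/-- `Λ'` -/
def L1 (l u : ℝ) : ℝ := tanh (u + l) - tanh u
/-- `Λ''` -/
def L2 (l u : ℝ) : ℝ := tanh u ^ 2 - tanh (u + l) ^ 2
/-- `Λ'''` -/
def L3 (l u : ℝ) : ℝ := 2 * (tanh u - tanh u ^ 3) - 2 * (tanh (u + l) - tanh (u + l) ^ 3)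

lemma d_L1 (l u : ℝ) : HasDerivAt (L1 l) (L2 l u) u := by
  have h := (hasDerivAt_tanh2 (u + l)).comp u ((hasDerivAt_id u).add_const l)
  exact (h.sub (hasDerivAt_tanh2 u)).congr_deriv (by simp [L2])

lemma d_L2 (l u : ℝ) : HasDerivAt (L2 l) (L3 l u) u := by
  have h := (hasDerivAt_tanh2 (u + l)).comp u ((hasDerivAt_id u).add_const l)
  exact (((hasDerivAt_tanh2 u).pow 2).sub (h.pow 2)).congr_deriv (by simp [L3]; ring)

lemma abs_L1_le (l u : ℝ) : |L1 l u| ≤ 2 := by
  have h1 := abs_lt.1 (abs_tanh_lt u)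
  have h2 := abs_lt.1 (abs_tanh_lt (u + l))
  rw [L1, abs_le]; constructor <;> linarith [h1.1, h1.2, h2.1, h2.2]

lemma abs_L2_le (l u : ℝ) : |L2 l u| ≤ 2 * |L1 l u| := by
  have h1 := abs_lt.1 (abs_tanh_lt u)
  have h2 := abs_lt.1 (abs_tanh_lt (u + l))
  rw [show L2 l u = -(tanh (u + l) + tanh u) * L1 l u by rw [L2, L1]; ring, abs_mul, abs_neg]
  refine mul_le_mul_of_nonneg_right (abs_le.2 ⟨?_, ?_⟩) (abs_nonneg _) <;>
    linarith [h1.1, h1.2, h2.1, h2.2]

lemma abs_L3_le (l u : ℝ) : |L3 l u| ≤ 4 * |L1 l u| := by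
  have h1 := abs_lt.1 (abs_tanh_lt u)
  have h2 := abs_lt.1 (abs_tanh_lt (u + l))
  rw [show L3 l u = 2 * (tanh (u + l) ^ 2 + tanh (u + l) * tanh u + tanh u ^ 2 - 1) * L1 l u by
    rw [L3, L1]; ring, abs_mul]
  refine mul_le_mul_of_nonneg_right (abs_le.2 ⟨?_, ?_⟩) (abs_nonneg _)
  · nlinarith [sq_nonneg (tanh (u + l) + tanh u), sq_nonneg (tanh u), sq_nonneg (tanh (u + l))]
  · nlinarith [h1.1, h1.2, h2.1, h2.2, sq_nonneg (tanh (u + l) - tanh u)]

lemma bc_Lam (l b : ℝ) : BC (fun h => Lam l (b + h)) |l| :=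
  ⟨(continuous_Lam l).comp (by fun_prop), fun _ => abs_lc_sub _ _⟩
lemma bc_L1 (l b : ℝ) : BC (fun h => L1 l (b + h)) 2 :=
  ⟨by have := continuous_tanh'; unfold L1; fun_prop, fun _ => abs_L1_le _ _⟩
lemma bc_L2 (l b : ℝ) : BC (fun h => L2 l (b + h)) 4 :=
  ⟨by have := continuous_tanh'; unfold L2; fun_prop,
    fun x => (abs_L2_le _ _).trans (by linarith [abs_L1_le l (b + x)])⟩
lemma bc_L3 (l b : ℝ) : BC (fun h => L3 l (b + h)) 8 :=
  ⟨by have := continuous_tanh'; unfold L3; fun_prop,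
    fun x => (abs_L3_le _ _).trans (by linarith [abs_L1_le l (b + x)])⟩

/-- Stein solution for `Λ (b + ·)` and `N (m, s²)`; `μ` is measured at any centre `c` -/
theorem stein_Lam (l b m s c : ℝ) :
    ∃ f f1 f2 : ℝ → ℝ, (∀ x, HasDerivAt f (f1 x) x) ∧ (∀ x, HasDerivAt f1 (f2 x) x) ∧
      BC f 2 ∧ BC f1 4 ∧ BC f2 8 ∧
      (∀ x, (x - m) * f x - s ^ 2 * f1 x = Lam l (b + x) - Ep (fun h => Lam l (b + h)) m s) ∧
      ∀ x, |f x| ≤ 2 * exp (2 * s ^ 2 + 4 * |m - c|) * (|L1 l (b + c)| * exp (2 * |x - c|)) := by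
  obtain ⟨f, f1, f2, a1, a2, a3, a4, a5, a6, a7⟩ := exists_stein (bc_Lam l b) (bc_L1 l b) (bc_L2 l b)
    (bc_L3 l b) (fun x => (hasDerivAt_Lam l (b + x)).comp_const_add b x)
    (fun x => (d_L1 l (b + x)).comp_const_add b x) (fun x => (d_L2 l (b + x)).comp_const_add b x) m s
  refine ⟨f, f1, f2, a1, a2, a3, a4, a5, a6, fun x => ?_⟩
  refine (a7 (|L1 l (b + c)| * exp (2 * |m - c|)) 2 (by positivity) zero_le_two (fun y => ?_) x).trans ?_
  · have := abs_dLam_le l (b + c) (m - c + y)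
    rw [show b + c + (m - c + y) = b + (m + y) by ring] at this
    refine this.trans ?_
    rw [mul_assoc, ← exp_add]
    exact mul_le_mul_of_nonneg_left (exp_le_exp.2 (by linarith [abs_add_le (m - c) y]))
      (abs_nonneg _)
  · have : |x - m| ≤ |x - c| + |m - c| := by
      have := abs_sub_le x c m
      rwa [abs_sub_comm c m] at this
    have e : ∀ a b' : ℝ, 2 * exp a * (|L1 l (b + c)| * exp b') = 2 * |L1 l (b + c)| * exp (a + b') :=
      fun a b' => by rw [exp_add]; ring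
    rw [mul_assoc (|L1 l (b + c)|), ← exp_add, e, e]
    exact mul_le_mul_of_nonneg_left (exp_le_exp.2 (by linarith)) (by positivity)

/-! ### the channel inequality -/

lemma shift_gauss {F : ℝ → ℝ} (c : ℝ) :
    ∫ z, F (c + z) ∂gaussianReal 0 1 = ∫ z, exp (c * z - c ^ 2 / 2) * F z ∂gaussianReal 0 1 := by
  have h := pin_shift (P := 0) le_rfl c 0 1 F
  simp only [mh, sh, kp, zero_mul, zero_div, neg_zero, zero_add, one_mul, add_zero, sqrt_one,
    div_one, one_pow, sub_zero, mul_zero, mul_one] at h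
  simp only [exp_sub, div_mul_eq_mul_div]
  rw [integral_div, h, mul_div_cancel_left₀ _ (exp_pos _).ne']

/-- summing out the spin: the law of `h = s² σ + s Z`, `σ` with half log-odds `w` -/
theorem spin_out (h : BC p M) (w m s : ℝ) :
    (1 + tanh w) / 2 * Ep p (m + s ^ 2) s + (1 - tanh w) / 2 * Ep p (m - s ^ 2) s =
      exp (-(s ^ 2 / 2)) * ∫ z, cosh (w + s * z) / cosh w * p (m + s * z) ∂gaussianReal 0 1 := by
  have i : ∀ c, Integrable (fun z => exp (c * z - c ^ 2 / 2) * p (m + s * z)) (gaussianReal 0 1) :=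
    fun c => by
      simp only [exp_sub]
      exact (((integrable_exp_mul_gaussianReal c).div_const _).bdd_mul
        (h.int m s).aestronglyMeasurable (c := M) (.of_forall fun _ => h.bd _)).congr
          (.of_forall fun z => mul_comm _ _)
  have e1 : Ep p (m + s ^ 2) s = ∫ z, exp (s * z - s ^ 2 / 2) * p (m + s * z) ∂gaussianReal 0 1 := by
    rw [← shift_gauss (F := fun z => p (m + s * z)), Ep]
    congr 1; funext z; congr 1; ring
  have e2 : Ep p (m - s ^ 2) s =
      ∫ z, exp (-s * z - (-s) ^ 2 / 2) * p (m + s * z) ∂gaussianReal 0 1 := by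
    rw [← shift_gauss (F := fun z => p (m + s * z)), Ep]
    congr 1; funext z; congr 1; ring
  rw [e1, e2, ← integral_const_mul, ← integral_const_mul, ← integral_const_mul,
    ← integral_add ((i s).const_mul _) ((i (-s)).const_mul _)]
  congr 1; funext z
  rw [cosh_div, cosh_eq, sinh_eq, neg_sq, sub_eq_add_neg (s * z), sub_eq_add_neg (-s * z), exp_add,
    exp_add, neg_mul]
  ring

lemma pt_channel (u l z : ℝ) {s : ℝ} (hs : 0 ≤ s) (hs1 : s ≤ 1) :
    cosh (u + l + s * z) / cosh (u + l) * Lam l (u + s * z) ≤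
      (1 + Lam l u) * (cosh (u + l + s * z) / cosh (u + l)) - cosh (u + s * z) / cosh u +
        s ^ 2 * L1 l u ^ 2 * (4 * cosh (0 + 8 * z)) := by
  set X := Lam l (u + s * z) - Lam l u with hX
  set e := exp |z| with he
  have he1 : 1 ≤ e := one_le_exp (abs_nonneg _)
  have hz : |s * z| ≤ |z| := by
    rw [abs_mul, abs_of_nonneg hs]; exact mul_le_of_le_one_left (abs_nonneg _) hs1
  have hsz : |s * z| = s * |z| := by rw [abs_mul, abs_of_nonneg hs]
  have e2 : exp (2 * |z|) = e ^ 2 := by rw [← exp_nat_mul]; norm_num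
  have hX1 : |X| ≤ |L1 l u| * e ^ 2 * (s * |z|) := by
    refine (abs_Lam_sub l u (s * z)).trans ?_
    rw [← hsz, ← e2, L1]
    gcongr
  set r := cosh (u + l + s * z) / cosh (u + l) with hr
  set r0 := cosh (u + s * z) / cosh u with hr0
  have hr0p : 0 < r0 := div_pos (cosh_pos _) (cosh_pos _)
  have hdiff : |r - r0| ≤ |L1 l u| * (s * |z| * e) := by
    rw [hr, hr0, cosh_div, cosh_div, show cosh (s * z) + tanh (u + l) * sinh (s * z) -
      (cosh (s * z) + tanh u * sinh (s * z)) = L1 l u * sinh (s * z) by rw [L1]; ring, abs_mul]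
    refine mul_le_mul_of_nonneg_left ((abs_sinh_le _).trans ?_) (abs_nonneg _)
    rw [← hsz]
    exact mul_le_mul_of_nonneg_left (exp_le_exp.2 hz) (abs_nonneg _)
  have hex : r0 * exp X = r := by
    rw [hX, Lam, Lam, exp_sub, exp_sub, exp_sub, lc, lc, lc, lc, exp_log (cosh_pos _),
      exp_log (cosh_pos _), exp_log (cosh_pos _), exp_log (cosh_pos _), hr0, hr,
      show u + s * z + l = u + l + s * z by ring]
    have := (cosh_pos u).ne'
    have := (cosh_pos (u + l)).ne'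
    have := (cosh_pos (u + s * z)).ne'
    field_simp
  have hz2 : |z| ^ 2 * e ^ 3 ≤ 4 * cosh (0 + 8 * z) := by
    have h1 : |z| ^ 2 ≤ 2 * e := by
      have := quadratic_le_exp_of_nonneg (abs_nonneg z)
      linarith [abs_nonneg z]
    have h2 := exp_abs_le_cosh (8 * z)
    have h3 : exp |8 * z| = e ^ 8 := by
      rw [abs_mul, he, ← exp_nat_mul]; norm_num
    have h4 : e ^ 4 ≤ e ^ 8 := pow_le_pow_right₀ he1 (by norm_num)
    rw [zero_add]
    calc |z| ^ 2 * e ^ 3 ≤ 2 * e * e ^ 3 := by gcongr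
      _ = 2 * e ^ 4 := by ring
      _ ≤ _ := by linarith
  have a1 : r0 * X ≤ r - r0 := by nlinarith [add_one_le_exp X]
  have a2 : (r - r0) * X ≤ |L1 l u| * (s * |z| * e) * (|L1 l u| * e ^ 2 * (s * |z|)) := by
    refine (le_abs_self _).trans ?_
    rw [abs_mul]
    exact mul_le_mul hdiff hX1 (abs_nonneg _) (by positivity)
  have a3 : |L1 l u| * (s * |z| * e) * (|L1 l u| * e ^ 2 * (s * |z|)) =
      s ^ 2 * L1 l u ^ 2 * (|z| ^ 2 * e ^ 3) := by rw [← sq_abs (L1 l u)]; ring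
  have a4 := mul_le_mul_of_nonneg_left hz2 (show 0 ≤ s ^ 2 * L1 l u ^ 2 by positivity)
  have a5 : r * Lam l (u + s * z) = r * X + Lam l u * r := by rw [hX]; ring
  linarith

/-- **channel inequality**: the relative entropy after the Gaussian channel -/
theorem channel (u l : ℝ) {s : ℝ} (hs : 0 ≤ s) (hs1 : s ≤ 1) :
    (1 + tanh (u + l)) / 2 * Ep (Lam l) (u + s ^ 2) s +
      (1 - tanh (u + l)) / 2 * Ep (Lam l) (u - s ^ 2) s ≤ Lam l u + Ctp * s ^ 2 * L1 l u ^ 2 := by
  have hb : BC (Lam l) |l| := ⟨continuous_Lam l, fun _ => abs_lc_sub _ _⟩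
  rw [spin_out hb]
  have i1 := ((integrable_cosh (u + l) s).div_const (cosh (u + l)))
  have i2 := (integrable_cosh u s).div_const (cosh u)
  have i3 := ((integrable_cosh 0 8).const_mul 4).const_mul (s ^ 2 * L1 l u ^ 2)
  have i0 : Integrable (fun z => cosh (u + l + s * z) / cosh (u + l) * Lam l (u + s * z))
      (gaussianReal 0 1) :=
    (i1.bdd_mul (hb.int u s).aestronglyMeasurable (c := |l|) (.of_forall fun _ => hb.bd _)).congr
      (.of_forall fun z => mul_comm _ _)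
  have h := integral_mono i0 (((i1.const_mul (1 + Lam l u)).sub i2).add i3) fun z =>
    pt_channel u l z hs hs1
  have e1 := integral_add ((i1.const_mul (1 + Lam l u)).sub i2) i3
  have e2 := integral_sub (i1.const_mul (1 + Lam l u)) i2
  simp only [Pi.add_apply, Pi.sub_apply] at h e1 e2
  rw [e1, e2, integral_const_mul, integral_const_mul, integral_const_mul, integral_div, integral_div,
    int_cosh, int_cosh, int_cosh, mul_div_cancel_left₀ _ (cosh_pos _).ne',
    mul_div_cancel_left₀ _ (cosh_pos _).ne', cosh_zero] at h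
  refine (mul_le_mul_of_nonneg_left h (exp_pos _).le).trans ?_
  have h1 : exp (-(s ^ 2 / 2)) * exp (s ^ 2 / 2) = 1 := by rw [← exp_add]; simp
  have h2 : exp (-(s ^ 2 / 2)) ≤ 1 := exp_le_one_iff.2 (neg_nonpos.2 (by positivity))
  have h3 : s ^ 2 * L1 l u ^ 2 * (4 * (1 * exp (8 ^ 2 / 2))) = Ctp * s ^ 2 * L1 l u ^ 2 := by
    rw [Ctp]; norm_num; ring
  have h4 : 0 ≤ Ctp * s ^ 2 * L1 l u ^ 2 := by have := Ctp_pos; positivity
  have h5 : exp (-(s ^ 2 / 2)) * ((1 + Lam l u) * exp (s ^ 2 / 2) - exp (s ^ 2 / 2)) = Lam l u := by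
    linear_combination Lam l u * h1
  rw [h3, mul_add, h5]
  linarith [mul_le_mul_of_nonneg_right h2 h4]

/-- the channel inequality against the relative entropy -/
theorem channel_kl (u k : ℝ) {s : ℝ} (hs : 0 ≤ s) (hs1 : s ≤ 1) :
    (1 + tanh k) / 2 * Ep (Lam (k - u)) (u + s ^ 2) s +
      (1 - tanh k) / 2 * Ep (Lam (k - u)) (u - s ^ 2) s ≤
        Lam (k - u) u + 2 * Ctp * s ^ 2 * klr u k := by
  have h := channel u (k - u) hs hs1
  rw [L1, add_sub_cancel] at h
  have h2 := mul_le_mul_of_nonneg_left (pinsker u k)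
    (show 0 ≤ 2 * Ctp * s ^ 2 by have := Ctp_pos; positivity)
  linarith

/-! ### the linear path -/

theorem lin_path {F F' : ℝ → ℝ} (hF : ∀ t, HasDerivAt F (F' t) t) {a c e : ℝ}
    (h : ∀ t ∈ Set.Icc (0 : ℝ) 1, |F' t - (a + t * c)| ≤ e) : |F 1 - F 0 - (a + c / 2)| ≤ e := by
  have := (convex_Icc (0 : ℝ) 1).norm_image_sub_le_of_norm_hasDerivWithin_le
    (f := fun t => F t - (a * t + c * t ^ 2 / 2)) (f' := fun t => F' t - (a + t * c)) (C := e)
    (x := 0) (y := 1)
    (fun t _ => (((hF t).sub (((hasDerivAt_id t).const_mul a).add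
      (((hasDerivAt_pow 2 t).const_mul c).div_const 2))).congr_deriv (by simp; ring)).hasDerivWithinAt)
    h ⟨le_rfl, zero_le_one⟩ ⟨zero_le_one, le_rfl⟩
  rw [Real.norm_eq_abs] at this
  convert this using 2 <;> simp
  ring

/-- two positive weights whose logarithms differ by a constant up to `e` -/
theorem log_prob_near {Ω : Type*} [Fintype Ω] [Nonempty Ω] {v w : Ω → ℝ} (hv : ∀ x, 0 < v x)
    (hw : ∀ x, 0 < w x) {c e : ℝ} (h : ∀ x, |log (v x) - log (w x) - c| ≤ e) (x : Ω) :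
    |log (v x / ∑ y, v y) - log (w x / ∑ y, w y)| ≤ 2 * e := by
  have sv : 0 < ∑ y, v y := Finset.sum_pos (fun y _ => hv y) Finset.univ_nonempty
  have sw : 0 < ∑ y, w y := Finset.sum_pos (fun y _ => hw y) Finset.univ_nonempty
  have k1 : log (∑ y, v y) ≤ log (∑ y, w y) + (c + e) := by
    rw [log_le_iff_le_exp sv, exp_add, exp_log sw, Finset.sum_mul]
    refine Finset.sum_le_sum fun y _ => ?_
    rw [← exp_log (hv y), ← exp_log (hw y), ← exp_add, exp_le_exp]
    linarith [(abs_le.1 (h y)).2]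
  have k2 : log (∑ y, w y) ≤ log (∑ y, v y) + (e - c) := by
    rw [log_le_iff_le_exp sw, exp_add, exp_log sv, Finset.sum_mul]
    refine Finset.sum_le_sum fun y _ => ?_
    rw [← exp_log (hv y), ← exp_log (hw y), ← exp_add, exp_le_exp]
    linarith [(abs_le.1 (h y)).1]
  rw [log_div (hv x).ne' sv.ne', log_div (hw x).ne' sw.ne', abs_le]
  constructor <;> linarith [(abs_le.1 (h x)).1, (abs_le.1 (h x)).2]

end Crest.Agent.T157.S2t

end
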