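import Crest.Agent.T157.S2Nu_51

/-!
# Row 157, part B, S1 (helper51): the reveal through the Stein equation, side of `π`, and the sum
-/

set_option autoImplicit false

noncomputable section

namespace Crest.Agent.T157.S2t

open Real Function Finset
open Crest.Agent.T157.E Crest.Agent.T157.SL Crest.Agent.T157.Ta

section path
variable {Ω : Type*} [Fintype Ω] {W : Ω → ℝ}

/-- the interpolating weight -/
def wP (W S : Ω → ℝ) (t : ℝ) : Ω → ℝ := wt W fun x => (t - 1) * S x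

omit [Fintype Ω] in
lemma wP_one (W S : Ω → ℝ) : wP W S 1 = W := by
  funext x; simp [wP, wt]

lemma wt_wP (hw : Wt W) (S : Ω → ℝ) (t : ℝ) : Wt (wP W S t) := wt_wt hw _

lemma hasDerivAt_logZ (hw : Wt W) (S : Ω → ℝ) (t : ℝ) :
    HasDerivAt (fun t => log (∑ x, wP W S t x)) (mean (wP W S t) S) t := by
  rw [mean_eq_div]
  refine HasDerivAt.log (HasDerivAt.fun_sum fun x _ => ?_) (wt_wt hw _).pos.ne'
  have := ((((hasDerivAt_id t).sub_const 1).mul_const (S x)).exp).const_mul (W x)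
  refine this.congr_deriv ?_
  simp only [wP, wt, id, one_mul, mul_assoc]

lemma path_le {F F' : ℝ → ℝ} (hF : ∀ t, HasDerivAt F (F' t) t) {a E : ℝ}
    (h : ∀ t ∈ Set.Icc (0 : ℝ) 1, F' t ≤ t * a + E) : F 1 - F 0 ≤ a / 2 + E := by
  have d : ∀ t, HasDerivAt (fun t => F t - (t ^ 2 / 2 * a + t * E)) (F' t - (t * a + E)) t :=
    fun t => ((hF t).sub ((((hasDerivAt_pow 2 t).div_const 2).mul_const a).add
      ((hasDerivAt_id t).mul_const E))).congr_deriv (by simp)
  have := antitoneOn_of_deriv_nonpos (convex_Icc (0 : ℝ) 1)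
    (fun t _ => (d t).continuousAt.continuousWithinAt)
    (fun t _ => (d t).differentiableAt.differentiableWithinAt)
    (fun t ht => by rw [(d t).deriv]; linarith [h t (interior_subset ht)])
    ⟨le_rfl, zero_le_one⟩ ⟨zero_le_one, le_rfl⟩ zero_le_one
  norm_num at this
  linarith

end path

variable {n : ℕ} {v w W : Cube n → ℝ} {T : Finset (Fin n)}

lemma cut_wP {A : Type*} [DecidableEq A] (W S : Cube n → ℝ) (ρ : Cube n → A) (a : A) (t : ℝ) :
    cut (wP W S t) ρ a = wP (cut W ρ a) S t := by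
  funext x; simp only [cut, wP, wt]; split_ifs <;> simp

lemma FibPos.wt (hf : FibPos T W) (G : Cube n → ℝ) : FibPos T (wt W G) := fun x hx s =>
  mul_pos (hf x (left_ne_zero_of_mul hx) s) (exp_pos _)

/-- the marginal along the interpolation -/
theorem marg_path (hp : Pr v W) (S : Cube n → ℝ) {a E : ℝ} {Es : Cube n → ℝ}
    (h1 : ∀ t ∈ Set.Icc (0 : ℝ) 1, mean (wP W S t) S ≤ t * a + E)
    (h2 : ∀ x, v x ≠ 0 → ∀ t ∈ Set.Icc (0 : ℝ) 1,
      t * a - Es x ≤ mean (wP (cut W (rT T) (rT T x)) S t) S) :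
    mean v (fun x => log (mT T (wP W S 0) x) - log (mT T W x)) ≤ E + mean v Es := by
  rw [← hp.hv.mean_const E, ← mean_add]
  refine mean_mono_supp hp.hv fun x hx => ?_
  have p := push_pos (ρ := rT T) hp.hw (hp.pos hx).2.ne'
  have hc := wt_cut hp.hw p.ne'
  have a1 := path_le (hasDerivAt_logZ hp.hw S) h1
  have a2 := path_le (a := -a) (E := Es x) (fun t => (hasDerivAt_logZ hc S t).neg)
    fun t ht => by linarith [h2 x hx t ht]
  simp only [wP_one, Pi.neg_apply] at a1 a2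
  rw [mT, mT, push_eq, push_eq, cut_wP, log_div (wt_wP hc _ _).pos.ne' (wt_wP hp.hw _ _).pos.ne',
    log_div hc.pos.ne' hp.hw.pos.ne']
  linarith

/-- **the reveal, side of `π`** -/
theorem revPi (hp : Pr v W) (hf : FibPos T W) (U : Fin n → ℝ) (S : Cube n → ℝ) {a E : ℝ}
    {Es O : Cube n → ℝ} (h1 : ∀ t ∈ Set.Icc (0 : ℝ) 1, mean (wP W S t) S ≤ t * a + E)
    (h2 : ∀ x, v x ≠ 0 → ∀ t ∈ Set.Icc (0 : ℝ) 1,
      t * a - Es x ≤ mean (wP (cut W (rT T) (rT T x)) S t) S)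
    (h3 : ∀ x, W x ≠ 0 → ∀ s, (log (W x) - S x - LB T U x) - (log (W (T.piecewise s x)) -
      S (T.piecewise s x) - LB T U (T.piecewise s x)) ≤ O x) :
    mean v (fun x => LB T U x - log (mT T W x)) ≤ E + mean v Es + mean (wP W S 0) O := by
  have hw : Wt (wP W S 0) := wt_wt hp.hw _
  have a1 := marg_path hp S h1 h2
  have a2 := pi_side (T := T) hp.hv hw (hf.wt _) U
  have e : ∀ x, W x ≠ 0 → log (wP W S 0 x) = log (W x) - S x := fun x hx => by
    rw [wP, wt, log_mul hx (exp_pos _).ne', log_exp]; ring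
  have a3 : mean (wP W S 0) (fun x => log (wP W S 0 x) - LB T U x) -
      pm T v (wP W S 0) (fun x => log (wP W S 0 x) - LB T U x) ≤ mean (wP W S 0) O := by
    rw [pm, ← mean_sub]
    refine mean_mono_supp hw fun x hx => ?_
    have hx' : W x ≠ 0 := left_ne_zero_of_mul hx
    rw [← hp.hv.mean_const (log (wP W S 0 x) - LB T U x), ← mean_sub]
    refine hp.hv.mean_le fun s => ?_
    rw [e x hx', e _ (hf x hx' s).ne']
    exact h3 x hx' s
  rw [mean_sub] at a1 a2 ⊢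
  linarith

/-- **the reveal** (HS4) -/
theorem revS {h : Fin n → Cube n → ℝ} {c : Fin n → ℝ} {V E γ : ℝ} (hp : Pr v w)
    (he : EdgePos T v w) (hW : Pr v W) (hS : SteinH v T h c V E γ) (hV0 : 0 ≤ V)
    (hV1 : V ≤ 1) (hγ : 0 ≤ γ) (hK : γ * exp 16 ≤ 1) (b m : Fin n → ℝ) {α β c1 c2 E' : ℝ}
    (hα : 0 ≤ α) (hβ : 0 ≤ β) (h1 : 0 < c1) (h2 : 0 ≤ c2)
    (hc : c1 + c2 + Ctp * (α + β) * (V + γ) ≤ β / 2)
    (hE : mean v (fun x => LB T (b + c + m) x - log (mT T W x)) ≤ E') :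
    α * Ent.kl (push v (rT T)) (push W (rT T)) +
      c2 * ∑ k ∈ T, (mag v k - tanh (b k + c k)) ^ 2 ≤
      ∑ k ∈ T, (α * As (fun _ => 1) v w k + β / 2 * mean v fun x => chi v w k x ^ 2) +
      α / 2 * (1 + α / (2 * c1)) * ∑ k ∈ T, m k ^ 2 +
      2 * (α + β) * ∑ k ∈ T, mean v (fun x => |uf w k x - (b k + h k x)|) +
      3336 * (α + β) * E + α * E' := by
  have a1 := revNu hp he hS hV0 hV1 hγ hK b m hα hβ h1 h2 hc
  have a2 := mul_le_mul_of_nonneg_left hE hα
  rw [kl_push hW]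
  rw [mean_sub] at a1 a2 ⊢
  change α * (mean v (fun x => log (mT T v x)) - mean v fun x => log (mT T W x)) + _ ≤ _
  linarith

end Crest.Agent.T157.S2t

end
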