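import Crest.Agent.T157.S2Ou_51

/-!
# Row 157, part B, S2 (helper51): the self-bounding test function

`Ψ = g / (1 + g)`, `g = a cosh (4 (x - c))`.
-/

set_option autoImplicit false

noncomputable section

namespace Crest.Agent.T157.S2t

open Real MeasureTheory ProbabilityTheory

/-- `1 / (1 + a cosh (4 (x - c)))` -/
def rr (a c x : ℝ) : ℝ := (1 + a * cosh (4 * (x - c)))⁻¹
/-- `Ψ` -/
def Ps (a c x : ℝ) : ℝ := 1 - rr a c x
/-- first derivative -/
def Ps1 (a c x : ℝ) : ℝ := 4 * (a * sinh (4 * (x - c))) * rr a c x ^ 2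
/-- second derivative -/
def Ps2 (a c x : ℝ) : ℝ :=
  16 * (a * cosh (4 * (x - c))) * rr a c x ^ 2 - 32 * (a * sinh (4 * (x - c))) ^ 2 * rr a c x ^ 3
/-- third derivative -/
def Ps3 (a c x : ℝ) : ℝ := 64 * (a * sinh (4 * (x - c))) * rr a c x ^ 2 -
  384 * ((a * cosh (4 * (x - c))) * (a * sinh (4 * (x - c)))) * rr a c x ^ 3 +
  384 * (a * sinh (4 * (x - c))) ^ 3 * rr a c x ^ 4

variable {a : ℝ} (ha : 0 ≤ a) (c x : ℝ)

lemma d_ch : HasDerivAt (fun x => a * cosh (4 * (x - c))) (4 * (a * sinh (4 * (x - c)))) x :=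
  ((((hasDerivAt_id x).sub_const c).const_mul 4).cosh.const_mul a).congr_deriv (by simp; ring)

lemma d_sh : HasDerivAt (fun x => a * sinh (4 * (x - c))) (4 * (a * cosh (4 * (x - c)))) x :=
  ((((hasDerivAt_id x).sub_const c).const_mul 4).sinh.const_mul a).congr_deriv (by simp; ring)

include ha

lemma den_pos : 0 < 1 + a * cosh (4 * (x - c)) := by have := cosh_pos (4 * (x - c)); positivity

lemma rr_pos : 0 < rr a c x := inv_pos.2 (den_pos ha c x)

lemma rr_mul : rr a c x * (1 + a * cosh (4 * (x - c))) = 1 := inv_mul_cancel₀ (den_pos ha c x).ne'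

lemma Ps_eq : Ps a c x = a * cosh (4 * (x - c)) * rr a c x := by
  rw [Ps]; linear_combination -rr_mul ha c x

lemma Ps_nn : 0 ≤ Ps a c x := by
  rw [Ps_eq ha]; have := cosh_pos (4 * (x - c)); have := rr_pos ha c x; positivity

lemma rr_le : rr a c x ≤ 1 := sub_nonneg.1 (Ps_nn ha c x)

lemma Ps_le_one : Ps a c x ≤ 1 := sub_le_self _ (rr_pos ha c x).le

lemma Ps_le : Ps a c x ≤ a * cosh (4 * (x - c)) := by
  rw [Ps_eq ha]
  exact mul_le_of_le_one_right (mul_nonneg ha (cosh_pos _).le) (rr_le ha c x)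

lemma min_le_Ps : min 1 (a * exp (4 * |x - c|)) ≤ 4 * Ps a c x := by
  have h1 := exp_abs_le_cosh (4 * (x - c))
  rw [abs_mul, abs_of_pos (by norm_num : (0 : ℝ) < 4)] at h1
  have h2 := mul_le_mul_of_nonneg_left h1 ha
  rcases le_total (rr a c x) (1 / 2) with h | h
  · exact (min_le_left _ _).trans (by rw [Ps]; linarith)
  · refine (min_le_right _ _).trans ?_
    rw [Ps_eq ha]
    nlinarith [mul_nonneg (mul_nonneg ha (cosh_pos (4 * (x - c))).le) (sub_nonneg.2 h)]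

lemma abs_sr_le : |a * sinh (4 * (x - c)) * rr a c x| ≤ Ps a c x := by
  rw [Ps_eq ha, abs_mul, abs_mul, abs_of_nonneg ha, abs_of_pos (rr_pos ha c x), abs_sinh,
    ← cosh_abs]
  exact mul_le_mul_of_nonneg_right (mul_le_mul_of_nonneg_left (sinh_lt_cosh _).le ha)
    (rr_pos ha c x).le

lemma d_rr : HasDerivAt (rr a c) (-(4 * (a * sinh (4 * (x - c))) * rr a c x ^ 2)) x :=
  (((d_ch c x).const_add 1).inv (den_pos ha c x).ne').congr_deriv (by rw [rr]; field_simp)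

lemma d_Ps : HasDerivAt (Ps a c) (Ps1 a c x) x :=
  ((d_rr ha c x).const_sub 1).congr_deriv (by rw [Ps1, neg_neg])

lemma d_Ps1 : HasDerivAt (Ps1 a c) (Ps2 a c x) x :=
  (((d_sh c x).const_mul 4).mul ((d_rr ha c x).pow 2)).congr_deriv (by
    simp only [Ps2, Pi.pow_apply]; push_cast; ring)

lemma d_Ps2 : HasDerivAt (Ps2 a c) (Ps3 a c x) x :=
  ((((d_ch c x).const_mul 16).mul ((d_rr ha c x).pow 2)).sub
    ((((d_sh c x).pow 2).const_mul 32).mul ((d_rr ha c x).pow 3))).congr_deriv (by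
    simp only [Ps3, Pi.pow_apply]; push_cast; ring)

lemma abs_Ps1_le : |Ps1 a c x| ≤ 4 * Ps a c x := by
  rw [show Ps1 a c x = 4 * rr a c x * (a * sinh (4 * (x - c)) * rr a c x) by rw [Ps1]; ring, abs_mul,
    abs_of_pos (by have := rr_pos ha c x; positivity)]
  exact mul_le_mul (by linarith [rr_le ha c x]) (abs_sr_le ha c x) (abs_nonneg _) (by norm_num)

lemma abs_Ps2_le : |Ps2 a c x| ≤ 48 := by
  have h1 := abs_le.1 ((abs_sr_le ha c x).trans (Ps_le_one ha c x))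
  have h2 := Ps_nn ha c x
  have h3 := Ps_le_one ha c x
  have h4 := rr_pos ha c x
  have h5 := rr_le ha c x
  rw [show Ps2 a c x = rr a c x * (16 * Ps a c x - 32 * (a * sinh (4 * (x - c)) * rr a c x) ^ 2) by
    rw [Ps2, Ps_eq ha]; ring, abs_mul, abs_of_pos h4]
  refine (mul_le_of_le_one_left (abs_nonneg _) h5).trans (abs_le.2 ⟨?_, ?_⟩) <;> nlinarith

lemma abs_Ps3_le : |Ps3 a c x| ≤ 832 := by
  have h0 := (abs_sr_le ha c x).trans (Ps_le_one ha c x)
  have h1 := abs_le.1 h0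
  have h2 := Ps_nn ha c x
  have h3 := Ps_le_one ha c x
  have h4 := rr_pos ha c x
  have h5 := rr_le ha c x
  rw [show Ps3 a c x = rr a c x * (a * sinh (4 * (x - c)) * rr a c x) *
    (64 - 384 * Ps a c x + 384 * (a * sinh (4 * (x - c)) * rr a c x) ^ 2) by
      rw [Ps3, Ps_eq ha]; ring, abs_mul, abs_mul, abs_of_pos h4]
  refine (mul_le_of_le_one_left (abs_nonneg _) (mul_le_one₀ h5 (abs_nonneg _) h0)).trans
    (abs_le.2 ⟨?_, ?_⟩) <;> nlinarith

lemma cont_rr : Continuous (rr a c) :=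
  continuous_iff_continuousAt.2 fun x => (d_rr ha c x).continuousAt

lemma bc_Ps : BC (Ps a c) 1 := ⟨by have := cont_rr ha c; unfold Ps; fun_prop,
  fun x => abs_le.2 ⟨by linarith [Ps_nn ha c x], Ps_le_one ha c x⟩⟩

lemma Ep_Ps_le (m s : ℝ) : Ep (Ps a c) m s ≤ exp (8 * s ^ 2 + 4 * |m - c|) * a := by
  have h := integral_mono ((bc_Ps ha c).int m s)
    ((integrable_cosh (4 * (m - c)) (4 * s)).const_mul a)
    fun z => (Ps_le ha c (m + s * z)).trans_eq (by congr 2; ring)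
  rw [integral_const_mul, int_cosh] at h
  refine h.trans ?_
  have h1 := cosh_le_exp (4 * (m - c))
  rw [abs_mul, abs_of_pos (by norm_num : (0 : ℝ) < 4)] at h1
  rw [mul_comm _ a, add_comm, exp_add, show (4 * s) ^ 2 / 2 = 8 * s ^ 2 by ring]
  gcongr

/-- Stein solution for `Ψ` and `N (m, s²)` -/
theorem stein_Ps (m s : ℝ) :
    ∃ f f1 f2 : ℝ → ℝ, (∀ x, HasDerivAt f (f1 x) x) ∧ (∀ x, HasDerivAt f1 (f2 x) x) ∧
      BC f 4 ∧ BC f1 48 ∧ BC f2 832 ∧
      (∀ x, (x - m) * f x - s ^ 2 * f1 x = Ps a c x - Ep (Ps a c) m s) ∧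
      ∀ x, |f x| ≤ 8 * exp (8 * s ^ 2 + 8 * |m - c|) * (a * exp (4 * |x - c|)) := by
  have hr := cont_rr ha c
  obtain ⟨f, f1, f2, a1, a2, a3, a4, a5, a6, a7⟩ := exists_stein (bc_Ps ha c)
    (p1 := Ps1 a c) (M1 := 4) ⟨by unfold Ps1; fun_prop,
      fun x => (abs_Ps1_le ha c x).trans (by linarith [Ps_le_one ha c x])⟩
    (p2 := Ps2 a c) ⟨by unfold Ps2; fun_prop, abs_Ps2_le ha c⟩
    (p3 := Ps3 a c) ⟨by unfold Ps3; fun_prop, abs_Ps3_le ha c⟩
    (d_Ps ha c) (d_Ps1 ha c) (d_Ps2 ha c) m s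
  refine ⟨f, f1, f2, a1, a2, a3, a4, a5, a6, fun x => ?_⟩
  refine (a7 (4 * a * exp (4 * |m - c|)) 4 (by positivity) (by norm_num) (fun y => ?_) x).trans ?_
  · refine (abs_Ps1_le ha c _).trans ?_
    have h1 := (Ps_le ha c (m + y)).trans (mul_le_mul_of_nonneg_left (cosh_le_exp _) ha)
    have h2 : exp |4 * (m + y - c)| ≤ exp (4 * |m - c|) * exp (4 * |y|) := by
      rw [← exp_add, exp_le_exp, abs_mul, abs_of_pos (by norm_num : (0 : ℝ) < 4),
        show m + y - c = m - c + y by ring]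
      linarith [abs_add_le (m - c) y]
    nlinarith [mul_le_mul_of_nonneg_left h2 ha]
  · have : |x - m| ≤ |x - c| + |m - c| := by
      have := abs_sub_le x c m
      rwa [abs_sub_comm c m] at this
    have e1 : 2 * exp (4 ^ 2 * s ^ 2 / 2) * (4 * a * exp (4 * |m - c|) * exp (4 * |x - m|)) =
        8 * a * exp (4 ^ 2 * s ^ 2 / 2 + 4 * |m - c| + 4 * |x - m|) := by
      rw [exp_add, exp_add]; ring
    have e2 : 8 * exp (8 * s ^ 2 + 8 * |m - c|) * (a * exp (4 * |x - c|)) =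
        8 * a * exp (8 * s ^ 2 + 8 * |m - c| + 4 * |x - c|) := by
      rw [exp_add _ (4 * |x - c|)]; ring
    rw [e1, e2]
    exact mul_le_mul_of_nonneg_left (exp_le_exp.2 (by linarith)) (by positivity)

end Crest.Agent.T157.S2t

end
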