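import Crest.Agent.T157.HdK_20

/-!
# Row 157, part B, S2 (helper51): two-point inequalities

`klr h k = KL(ν|μ)`, `ν± ∝ e^{±k}`, `μ± ∝ e^{±h}`.
-/

set_option autoImplicit false

noncomputable section

namespace Crest.Agent.T157.S2t

open Real MeasureTheory ProbabilityTheory
open Crest.Agent.T157.Hd

/-- `log cosh` -/
def lc (x : ℝ) : ℝ := log (cosh x)

/-- `Λ(u) = log cosh (u + λ) - log cosh u` -/
def Lam (l u : ℝ) : ℝ := lc (u + l) - lc u

lemma min_of_deriv {f f' : ℝ → ℝ} (hf : ∀ x, HasDerivAt f (f' x) x) {a : ℝ}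
    (h1 : ∀ x, a ≤ x → 0 ≤ f' x) (h2 : ∀ x, x ≤ a → f' x ≤ 0) (x : ℝ) : f a ≤ f x := by
  rcases lt_trichotomy x a with h | h | h
  · obtain ⟨c, hc, e⟩ := exists_hasDerivAt_eq_slope f f' h
      (fun y _ => (hf y).continuousAt.continuousWithinAt) (fun y _ => hf y)
    have := h2 c hc.2.le
    rw [e, div_le_iff₀ (sub_pos.2 h)] at this
    linarith
  · rw [h]
  · obtain ⟨c, hc, e⟩ := exists_hasDerivAt_eq_slope f f' h
      (fun y _ => (hf y).continuousAt.continuousWithinAt) (fun y _ => hf y)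
    have := h1 c hc.1.le
    rw [e, le_div_iff₀ (sub_pos.2 h)] at this
    linarith

lemma hasDerivAt_lc (x : ℝ) : HasDerivAt lc (tanh x) x := hasDerivAt_logcosh x

lemma inv_cosh_sq_le (x : ℝ) : 1 / cosh x ^ 2 ≤ 1 := by
  rw [div_le_one (by have := cosh_pos x; positivity)]
  nlinarith [one_le_cosh x]

lemma tanh_lip {x y : ℝ} (h : x ≤ y) : tanh y - tanh x ≤ y - x := by
  rcases h.eq_or_lt with h | h
  · rw [h]; simp
  · obtain ⟨c, -, e⟩ := exists_hasDerivAt_eq_slope tanh (fun c => 1 / cosh c ^ 2) h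
      (fun y _ => (hasDerivAt_tanh' y).continuousAt.continuousWithinAt)
      (fun y _ => hasDerivAt_tanh' y)
    have := inv_cosh_sq_le c
    rw [e, div_le_one (sub_pos.2 h)] at this
    exact this

lemma abs_tanh_sub (x y : ℝ) : |tanh x - tanh y| ≤ |x - y| := by
  rcases le_total x y with h | h
  · rw [abs_sub_comm, abs_sub_comm x, abs_of_nonneg (sub_nonneg.2 (tanh_mono h)),
      abs_of_nonneg (sub_nonneg.2 h)]
    exact tanh_lip h
  · rw [abs_of_nonneg (sub_nonneg.2 (tanh_mono h)), abs_of_nonneg (sub_nonneg.2 h)]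
    exact tanh_lip h

lemma lc_ge (u v : ℝ) : lc u + v * tanh u ≤ lc (u + v) := by
  have := min_of_deriv (f := fun v => lc (u + v) - v * tanh u)
    (f' := fun v => tanh (u + v) - tanh u) (a := 0)
    (fun x => (((hasDerivAt_lc (u + x)).comp x ((hasDerivAt_id x).const_add u)).sub
        ((hasDerivAt_id x).mul_const (tanh u))).congr_deriv (by simp))
    (fun x hx => sub_nonneg.2 (tanh_mono (by linarith)))
    (fun x hx => sub_nonpos.2 (tanh_mono (by linarith))) v
  simp only [add_zero, zero_mul, sub_zero] at this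
  linarith

lemma lc_le (u v : ℝ) : lc (u + v) ≤ lc u + v * tanh u + v ^ 2 / 2 := by
  have := min_of_deriv (f := fun v => v * tanh u + v ^ 2 / 2 - lc (u + v))
    (f' := fun v => tanh u + v - tanh (u + v)) (a := 0)
    (fun x => by
      have h1 := ((hasDerivAt_lc (u + x)).comp x ((hasDerivAt_id x).const_add u))
      have h2 := ((hasDerivAt_id x).mul_const (tanh u))
      have h3 := (hasDerivAt_pow 2 x).div_const 2
      exact ((h2.add h3).sub h1).congr_deriv (by simp))
    (fun x hx => by have := tanh_lip (show u ≤ u + x by linarith); linarith)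
    (fun x hx => by have := tanh_lip (show u + x ≤ u by linarith); linarith) v
  simp only [add_zero, zero_mul] at this
  linarith

lemma abs_lc_sub (u v : ℝ) : |lc (u + v) - lc u| ≤ |v| := by
  have h1 := lc_ge u v
  have h2 := lc_ge (u + v) (-v)
  rw [add_neg_cancel_right] at h2
  have a1 : |v * tanh u| ≤ |v| := by
    rw [abs_mul]; exact mul_le_of_le_one_right (abs_nonneg _) (abs_tanh_lt u).le
  have a2 : |v * tanh (u + v)| ≤ |v| := by
    rw [abs_mul]; exact mul_le_of_le_one_right (abs_nonneg _) (abs_tanh_lt _).le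
  rw [abs_le] at a1 a2 ⊢
  constructor <;> linarith [a1.1, a2.2]

lemma klr_eq (h k : ℝ) : klr h k = (k - h) * tanh k - lc k + lc h := rfl

theorem klr_nonneg (h k : ℝ) : 0 ≤ klr h k := by
  have := lc_ge k (h - k)
  rw [add_sub_cancel] at this
  rw [klr_eq]; linarith

theorem klr_le (h k : ℝ) : klr h k ≤ (k - h) ^ 2 / 2 := by
  have := lc_le k (h - k)
  rw [add_sub_cancel] at this
  rw [klr_eq]; nlinarith

/-- **Pinsker** for two points -/
theorem pinsker (h k : ℝ) : (tanh k - tanh h) ^ 2 / 2 ≤ klr h k := by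
  have := min_of_deriv (f := fun k => klr h k - (tanh k - tanh h) ^ 2 / 2)
    (f' := fun k => 1 / cosh k ^ 2 * ((k - h) - (tanh k - tanh h))) (a := h)
    (fun x => by
      have h1 := ((hasDerivAt_id x).sub_const h).mul (hasDerivAt_tanh' x)
      have h2 := (((hasDerivAt_tanh' x).sub_const (tanh h)).pow 2).div_const 2
      exact (((h1.sub (hasDerivAt_lc x)).add_const (lc h)).sub h2).congr_deriv
        (by simp only [id]; push_cast; ring))
    (fun x hx => mul_nonneg (by positivity) (sub_nonneg.2 (tanh_lip hx)))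
    (fun x hx => mul_nonpos_of_nonneg_of_nonpos (by positivity)
      (by have := tanh_lip hx; linarith)) k
  simp only [klr_eq, sub_self, zero_mul] at this
  rw [klr_eq]; linarith

/-- moving the reference field -/
theorem shift (u v k : ℝ) :
    klr (u + v) k ≤ klr u k + |v| * |tanh k - tanh u| + v ^ 2 / 2 := by
  have h1 := lc_le u v
  have h2 : -(v * (tanh k - tanh u)) ≤ |v| * |tanh k - tanh u| := by
    rw [← abs_mul]; exact neg_le_abs _
  rw [klr_eq, klr_eq]; linarith

theorem shift_ge (u v k : ℝ) : klr u k - |v| * |tanh k - tanh u| ≤ klr (u + v) k := by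
  have h1 := lc_ge u v
  have h2 : v * (tanh k - tanh u) ≤ |v| * |tanh k - tanh u| := by
    rw [← abs_mul]; exact le_abs_self _
  rw [klr_eq, klr_eq]; linarith

/-- variational formula on two points: `λ tanh k - Λ(u) ≤ kl(k | u)` -/
theorem variational (l u k : ℝ) : l * tanh k - Lam l u ≤ klr u k := by
  have := klr_nonneg (u + l) k
  rw [klr_eq] at this
  rw [klr_eq, Lam]; linarith

theorem variational_eq (u k : ℝ) : klr u k = (k - u) * tanh k - Lam (k - u) u := by
  rw [klr_eq, Lam, add_sub_cancel]; ring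

/-- the algebra of the reveal step -/
theorem alg {r a k kl mu v : ℝ} (hr : 0 < r - a - k) (hkl : mu ^ 2 / 2 ≤ kl) :
    -(a / 2 * ((r - k) / (r - a - k)) * v ^ 2) ≤
      (r - a - k) * kl - a * (|v| * mu) - a * (v ^ 2 / 2) := by
  have h1 : (r - a - k) * (mu ^ 2 / 2) ≤ (r - a - k) * kl := mul_le_mul_of_nonneg_left hkl hr.le
  have e : a / 2 * ((r - k) / (r - a - k)) * v ^ 2 =
      a * (v ^ 2 / 2) + (a * |v|) ^ 2 / (2 * (r - a - k)) := by
    rw [mul_pow, sq_abs]; field_simp; ring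
  have h2 : a * |v| * mu ≤ (r - a - k) * (mu ^ 2 / 2) + (a * |v|) ^ 2 / (2 * (r - a - k)) := by
    have : (r - a - k) * (mu ^ 2 / 2) + (a * |v|) ^ 2 / (2 * (r - a - k)) - a * |v| * mu =
        ((r - a - k) * mu - a * |v|) ^ 2 / (2 * (r - a - k)) := by
      field_simp; ring
    have : 0 ≤ ((r - a - k) * mu - a * |v|) ^ 2 / (2 * (r - a - k)) := by positivity
    linarith
  rw [e]; nlinarith

/-- the margins exist exactly when `a < r (1 - x)` -/
theorem exists_margin {r a x : ℝ} (hr0 : 0 ≤ r) (hx : 0 ≤ x) (h : a < r * (1 - x)) :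
    ∃ k1 > (0 : ℝ), ∃ k2 > (0 : ℝ), 0 < r - a - k2 ∧
      (1 + k1) ^ 2 * x * (r - k2) ≤ r - a - k2 := by
  have hc : Continuous fun k : ℝ => (r - a - k) - (1 + k) ^ 2 * x * (r - k) := by fun_prop
  have hc2 : Continuous fun k : ℝ => r - a - k := by fun_prop
  have hr : a < r := by nlinarith [mul_nonneg hr0 hx]
  have e1 : ∀ᶠ k in nhdsWithin (0 : ℝ) (Set.Ioi 0),
      0 < (r - a - k) - (1 + k) ^ 2 * x * (r - k) :=
    nhdsWithin_le_nhds (hc.continuousAt.eventually (lt_mem_nhds (by nlinarith)))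
  have e2 : ∀ᶠ k in nhdsWithin (0 : ℝ) (Set.Ioi 0), 0 < r - a - k :=
    nhdsWithin_le_nhds (hc2.continuousAt.eventually (lt_mem_nhds (by linarith)))
  obtain ⟨k, ⟨h1, h2⟩, h3⟩ := ((e1.and e2).and self_mem_nhdsWithin).exists
  exact ⟨k, h3, k, h3, h2, by linarith⟩

/-- `∫ x_p² dp ≤ x`, `x_p = x / (1 + p x)`; grid form with right end points -/
theorem sum_xp_sq {x h : ℝ} (hx : 0 ≤ x) (hh : 0 ≤ h) (N : ℕ) :
    ∑ j ∈ Finset.range N, h * (x / (1 + (j + 1) * h * x)) ^ 2 ≤ x - x / (1 + N * h * x) := by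
  induction N with
  | zero => simp
  | succ N ih =>
    rw [Finset.sum_range_succ]
    have hN : (0 : ℝ) ≤ N * h * x := by positivity
    have p1 : 0 < 1 + N * h * x := by linarith
    have p2 : 0 < 1 + ((N : ℝ) + 1) * h * x := by positivity
    have e : x / (1 + N * h * x) - x / (1 + ((N : ℝ) + 1) * h * x) =
        h * (x / (1 + N * h * x) * (x / (1 + ((N : ℝ) + 1) * h * x))) := by
      field_simp; ring
    have l : x / (1 + ((N : ℝ) + 1) * h * x) ≤ x / (1 + N * h * x) :=
      div_le_div_of_nonneg_left hx p1 (by nlinarith [mul_nonneg hh hx])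
    have l2 : h * (x / (1 + ((N : ℝ) + 1) * h * x)) ^ 2 ≤
        h * (x / (1 + N * h * x) * (x / (1 + ((N : ℝ) + 1) * h * x))) := by
      rw [sq]
      exact mul_le_mul_of_nonneg_left (mul_le_mul_of_nonneg_right l (by positivity)) hh
    push_cast
    linarith

theorem int_xp_sq {x P : ℝ} (hx : 0 ≤ x) (hP : 0 ≤ P) :
    ∫ p in (0 : ℝ)..P, (x / (1 + p * x)) ^ 2 = x - x / (1 + P * x) := by
  have hpos : ∀ p ∈ Set.uIcc (0 : ℝ) P, 0 < 1 + p * x := fun p hp => by
    rw [Set.uIcc_of_le hP] at hp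
    have := mul_nonneg hp.1 hx
    linarith
  have := intervalIntegral.integral_eq_sub_of_hasDerivAt (f := fun p => -(x / (1 + p * x)))
    (f' := fun p => (x / (1 + p * x)) ^ 2) (a := 0) (b := P)
    (fun p hp => by
      have h0 := (hpos p hp).ne'
      have := ((hasDerivAt_const p x).div (((hasDerivAt_id p).mul_const x).const_add 1) h0).neg
      exact this.congr_deriv (by simp only [id]; field_simp; ring))
    (ContinuousOn.intervalIntegrable (by
      refine ContinuousOn.pow (ContinuousOn.div continuousOn_const (by fun_prop) ?_) 2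
      exact fun p hp => (hpos p hp).ne'))
  rw [this]; simp; ring

/-! ### the two-point lemma -/

lemma cosh_le_mul (a x : ℝ) : cosh a ≤ cosh (a + x) * exp |x| := by
  have h := abs_lc_sub a x
  have h2 : lc a ≤ lc (a + x) + |x| := by linarith [(abs_le.1 h).1]
  have := exp_le_exp.2 h2
  rwa [exp_add, lc, lc, exp_log (cosh_pos _), exp_log (cosh_pos _)] at this

lemma abs_dLam_le (l u x : ℝ) :
    |tanh (u + x + l) - tanh (u + x)| ≤ |tanh (u + l) - tanh u| * exp (2 * |x|) := by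
  rw [tanh_sub_tanh, tanh_sub_tanh, show u + x + l - (u + x) = l by ring,
    show u + l - u = l by ring, abs_div, abs_div,
    abs_of_pos (mul_pos (cosh_pos _) (cosh_pos _)), abs_of_pos (mul_pos (cosh_pos _) (cosh_pos _)),
    div_mul_eq_mul_div, div_le_div_iff₀ (mul_pos (cosh_pos _) (cosh_pos _))
      (mul_pos (cosh_pos _) (cosh_pos _)), mul_assoc]
  refine mul_le_mul_of_nonneg_left ?_ (abs_nonneg _)
  have h1 := cosh_le_mul (u + l) x
  have h2 := cosh_le_mul u x
  rw [show u + l + x = u + x + l by ring] at h1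
  calc cosh (u + l) * cosh u ≤ (cosh (u + x + l) * exp |x|) * (cosh (u + x) * exp |x|) :=
        mul_le_mul h1 h2 (cosh_pos _).le (by have := cosh_pos (u + x + l); positivity)
    _ = _ := by rw [two_mul, exp_add]; ring

lemma hasDerivAt_Lam (l u : ℝ) : HasDerivAt (Lam l) (tanh (u + l) - tanh u) u := by
  have h := (hasDerivAt_lc (u + l)).comp u ((hasDerivAt_id u).add_const l)
  exact (h.sub (hasDerivAt_lc u)).congr_deriv (by simp)

lemma abs_Lam_sub (l u x : ℝ) :
    |Lam l (u + x) - Lam l u| ≤ |tanh (u + l) - tanh u| * exp (2 * |x|) * |x| := by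
  have := (convex_Icc (u - |x|) (u + |x|)).norm_image_sub_le_of_norm_hasDerivWithin_le
    (f := Lam l) (f' := fun y => tanh (y + l) - tanh y)
    (C := |tanh (u + l) - tanh u| * exp (2 * |x|)) (x := u) (y := u + x)
    (fun y _ => (hasDerivAt_Lam l y).hasDerivWithinAt)
    (fun y hy => by
      have := abs_dLam_le l u (y - u)
      rw [add_sub_cancel] at this
      refine this.trans (mul_le_mul_of_nonneg_left (exp_le_exp.2 ?_) (abs_nonneg _))
      have : |y - u| ≤ |x| := abs_le.2 ⟨by linarith [hy.1], by linarith [hy.2]⟩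
      linarith)
    ⟨by linarith [abs_nonneg x], by linarith [abs_nonneg x]⟩
    ⟨by linarith [neg_abs_le x], by linarith [le_abs_self x]⟩
  simpa using this

lemma abs_Lam_sub' (l u x : ℝ) : |Lam l (u + x) - Lam l u| ≤ 2 * |x| := by
  have h1 := abs_le.1 (abs_lc_sub (u + l) x)
  have h2 := abs_le.1 (abs_lc_sub u x)
  rw [Lam, Lam, show u + x + l = u + l + x by ring, abs_le]
  constructor <;> linarith [h1.1, h1.2, h2.1, h2.2]

lemma exp_le_quad (y : ℝ) : exp y ≤ 1 + y + y ^ 2 * exp |y| := by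
  have h1 : exp y - 1 ≤ y * exp y := by
    have := add_one_le_exp (-y)
    have h := mul_le_mul_of_nonneg_right this (exp_pos y).le
    rw [← exp_add, neg_add_cancel, exp_zero] at h
    linarith
  rcases le_total 0 y with h | h
  · rw [abs_of_nonneg h]; nlinarith
  · have h2 := add_one_le_exp y
    have h3 : 1 ≤ exp |y| := one_le_exp (abs_nonneg _)
    nlinarith [sq_nonneg y]

lemma int_exp (t : ℝ) : ∫ z, exp (t * z) ∂gaussianReal 0 1 = exp (t ^ 2 / 2) := by
  have := congrFun (mgf_fun_id_gaussianReal (μ := 0) (v := 1)) t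
  simpa [mgf] using this

lemma cosh_eq' (w s z : ℝ) :
    cosh (w + s * z) = exp w / 2 * exp (s * z) + exp (-w) / 2 * exp (-s * z) := by
  rw [cosh_eq, neg_add, exp_add, exp_add, neg_mul]; ring

lemma integrable_cosh (w s : ℝ) : Integrable (fun z => cosh (w + s * z)) (gaussianReal 0 1) := by
  simp only [cosh_eq']
  exact ((integrable_exp_mul_gaussianReal s).const_mul _).add
    ((integrable_exp_mul_gaussianReal (-s)).const_mul _)

lemma int_cosh (w s : ℝ) :
    ∫ z, cosh (w + s * z) ∂gaussianReal 0 1 = cosh w * exp (s ^ 2 / 2) := by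
  simp only [cosh_eq']
  rw [integral_add ((integrable_exp_mul_gaussianReal s).const_mul _)
    ((integrable_exp_mul_gaussianReal (-s)).const_mul _), integral_const_mul, integral_const_mul,
    int_exp, int_exp, neg_sq, cosh_eq]
  ring

lemma exp_abs_le_cosh (x : ℝ) : exp |x| ≤ 2 * cosh x := by
  rw [← cosh_abs, cosh_eq]
  linarith [exp_pos (-|x|)]

lemma abs_sinh_le (x : ℝ) : |sinh x| ≤ |x| * exp |x| := by
  rw [abs_sinh, sinh_eq]
  have h1 := add_one_le_exp (-(2 * |x|))
  have h2 : exp (-|x|) = exp |x| * exp (-(2 * |x|)) := by rw [← exp_add]; congr 1; ring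
  rw [h2]
  nlinarith [exp_pos |x|]

lemma cosh_le_exp (x : ℝ) : cosh x ≤ exp |x| := by
  simpa using cosh_le_mul x (-x)

lemma cosh_div (w x : ℝ) : cosh (w + x) / cosh w = cosh x + tanh w * sinh x := by
  rw [cosh_add, tanh_eq_sinh_div_cosh]
  have := (cosh_pos w).ne'
  field_simp

lemma pt_bound (u l v s θ z : ℝ) (hs : 0 ≤ s) (hs1 : s ≤ 1) (hθ : 0 ≤ θ) (hθs : θ * s ≤ 1) :
    cosh (u + v + s * z) / cosh (u + v) * exp (θ * (Lam l (u + s * z) - Lam l u)) ≤
      cosh (u + v + s * z) / cosh (u + v) +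
        θ * (cosh (u + l + s * z) / cosh (u + l) - cosh (u + s * z) / cosh u) +
        (θ ^ 2 * |tanh (u + l) - tanh u| ^ 2 * s ^ 2 + θ * |tanh (u + l) - tanh u| * s ^ 2 * |v|) *
          (4 * cosh (0 + 8 * z)) := by
  set X := Lam l (u + s * z) - Lam l u with hX
  set m := |tanh (u + l) - tanh u| with hm
  have hm0 : 0 ≤ m := abs_nonneg _
  set e := exp |z| with he
  have he1 : 1 ≤ e := one_le_exp (abs_nonneg _)
  have hz : |s * z| ≤ |z| := by
    rw [abs_mul, abs_of_nonneg hs]; exact mul_le_of_le_one_left (abs_nonneg _) hs1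
  have hsz : |s * z| = s * |z| := by rw [abs_mul, abs_of_nonneg hs]
  have e2 : exp (2 * |z|) = e ^ 2 := by rw [← exp_nat_mul]; norm_num
  have hX1 : |X| ≤ m * e ^ 2 * (s * |z|) := by
    refine (abs_Lam_sub l u (s * z)).trans ?_
    rw [← hsz, ← e2]
    gcongr
  have hX2 : exp |θ * X| ≤ e ^ 2 := by
    rw [← e2]
    refine exp_le_exp.2 ?_
    rw [abs_mul, abs_of_nonneg hθ]
    have := abs_Lam_sub' l u (s * z)
    rw [hsz] at this
    nlinarith [mul_le_mul_of_nonneg_left this hθ, abs_nonneg z]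
  set r := cosh (u + v + s * z) / cosh (u + v) with hr
  set r0 := cosh (u + s * z) / cosh u with hr0
  have hrp : 0 < r := div_pos (cosh_pos _) (cosh_pos _)
  have hr0p : 0 < r0 := div_pos (cosh_pos _) (cosh_pos _)
  have hre : r ≤ e := by
    rw [hr, div_le_iff₀ (cosh_pos _)]
    have := cosh_le_mul (u + v + s * z) (-(s * z))
    rw [add_neg_cancel_right, abs_neg] at this
    have h3 : exp |s * z| ≤ e := exp_le_exp.2 hz
    nlinarith [cosh_pos (u + v)]
  have hdiff : |r - r0| ≤ |v| * (s * |z| * e) := by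
    rw [hr, hr0, cosh_div, cosh_div, show cosh (s * z) + tanh (u + v) * sinh (s * z) -
      (cosh (s * z) + tanh u * sinh (s * z)) = (tanh (u + v) - tanh u) * sinh (s * z) by ring,
      abs_mul]
    refine mul_le_mul (by simpa using abs_tanh_sub (u + v) u) ?_ (abs_nonneg _) (abs_nonneg _)
    refine (abs_sinh_le _).trans ?_
    rw [← hsz]
    exact mul_le_mul_of_nonneg_left (exp_le_exp.2 hz) (abs_nonneg _)
  have hex : r0 * exp X = cosh (u + l + s * z) / cosh (u + l) := by
    rw [hX, Lam, Lam, exp_sub, exp_sub, exp_sub, lc, lc, lc, lc, exp_log (cosh_pos _),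
      exp_log (cosh_pos _), exp_log (cosh_pos _), exp_log (cosh_pos _), hr0,
      show u + s * z + l = u + l + s * z by ring]
    have := (cosh_pos u).ne'
    have := (cosh_pos (u + l)).ne'
    have := (cosh_pos (u + s * z)).ne'
    field_simp
  have hz2 : |z| ^ 2 * e ^ 7 ≤ 4 * cosh (0 + 8 * z) := by
    have h1 : |z| ^ 2 ≤ 2 * e := by
      have := quadratic_le_exp_of_nonneg (abs_nonneg z)
      linarith [abs_nonneg z]
    have h2 := exp_abs_le_cosh (8 * z)
    have h3 : exp |8 * z| = e ^ 8 := by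
      rw [abs_mul, he, ← exp_nat_mul]; norm_num
    rw [zero_add]
    calc |z| ^ 2 * e ^ 7 ≤ 2 * e * e ^ 7 := by gcongr
      _ = 2 * e ^ 8 := by ring
      _ ≤ _ := by linarith
  have t1 : r * exp (θ * X) ≤ r * (1 + θ * X + (θ * X) ^ 2 * e ^ 2) := by
    refine mul_le_mul_of_nonneg_left ((exp_le_quad _).trans ?_) hrp.le
    gcongr
  have t2 : r * X ≤ r0 * exp X - r0 + |v| * m * s ^ 2 * (|z| ^ 2 * e ^ 7) := by
    have a1 : r0 * X ≤ r0 * exp X - r0 := by nlinarith [add_one_le_exp X]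
    have a2 : (r - r0) * X ≤ |v| * (s * |z| * e) * (m * e ^ 2 * (s * |z|)) := by
      refine (le_abs_self _).trans ?_
      rw [abs_mul]
      exact mul_le_mul hdiff hX1 (abs_nonneg _) (by positivity)
    have a3 : |v| * (s * |z| * e) * (m * e ^ 2 * (s * |z|)) =
        |v| * m * s ^ 2 * (|z| ^ 2 * e ^ 3) := by ring
    have a4 : |v| * m * s ^ 2 * (|z| ^ 2 * e ^ 3) ≤ |v| * m * s ^ 2 * (|z| ^ 2 * e ^ 7) := by
      have : e ^ 3 ≤ e ^ 7 := pow_le_pow_right₀ he1 (by norm_num)
      gcongr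
    linarith
  have t3 : r * ((θ * X) ^ 2 * e ^ 2) ≤ θ ^ 2 * m ^ 2 * s ^ 2 * (|z| ^ 2 * e ^ 7) := by
    have a1 : X ^ 2 ≤ (m * e ^ 2 * (s * |z|)) ^ 2 := by
      rw [← sq_abs X]; exact pow_le_pow_left₀ (abs_nonneg _) hX1 2
    calc r * ((θ * X) ^ 2 * e ^ 2) = r * (θ ^ 2 * X ^ 2 * e ^ 2) := by ring
      _ ≤ e * (θ ^ 2 * (m * e ^ 2 * (s * |z|)) ^ 2 * e ^ 2) := by gcongr
      _ = _ := by ring
  have t4 : (θ ^ 2 * m ^ 2 * s ^ 2 + θ * m * s ^ 2 * |v|) * (|z| ^ 2 * e ^ 7) ≤
      (θ ^ 2 * m ^ 2 * s ^ 2 + θ * m * s ^ 2 * |v|) * (4 * cosh (0 + 8 * z)) := by gcongr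
  rw [← hex]
  nlinarith [mul_le_mul_of_nonneg_left t2 hθ]

lemma continuous_Lam (l : ℝ) : Continuous (Lam l) :=
  continuous_iff_continuousAt.2 fun u => (hasDerivAt_Lam l u).continuousAt

lemma integrable_tp (w u l s θ : ℝ) :
    Integrable (fun z => cosh (w + s * z) * exp (θ * (Lam l (u + s * z) - Lam l u)))
      (gaussianReal 0 1) := by
  have hc := continuous_Lam l
  refine ((integrable_cosh w s).mul_const (exp (|θ| * (2 * |l|)))).mono'
    (Continuous.aestronglyMeasurable (by fun_prop)) (Filter.Eventually.of_forall fun z => ?_)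
  rw [Real.norm_eq_abs, abs_of_pos (mul_pos (cosh_pos _) (exp_pos _))]
  refine mul_le_mul_of_nonneg_left (exp_le_exp.2 ((le_abs_self _).trans ?_)) (cosh_pos _).le
  rw [abs_mul]
  refine mul_le_mul_of_nonneg_left ?_ (abs_nonneg _)
  have h1 := abs_le.1 (abs_lc_sub (u + s * z) l)
  have h2 := abs_le.1 (abs_lc_sub u l)
  rw [Lam, Lam, abs_le]
  constructor <;> linarith [h1.1, h1.2, h2.1, h2.2]

/-- the constant of the two-point lemma -/
def Ctp : ℝ := 4 * exp 32

lemma Ctp_pos : 0 < Ctp := by unfold Ctp; positivity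

/-- **two-point lemma** (spin summed out; `s = √V`) -/
theorem two_point (u l v s θ : ℝ) (hs : 0 ≤ s) (hs1 : s ≤ 1) (hθ : 0 ≤ θ) (hθs : θ * s ≤ 1) :
    ∫ z, cosh (u + v + s * z) * exp (θ * (Lam l (u + s * z) - Lam l u)) ∂gaussianReal 0 1 ≤
      exp (Ctp * (θ ^ 2 * |tanh (u + l) - tanh u| ^ 2 * s ^ 2 +
        θ * |tanh (u + l) - tanh u| * s ^ 2 * |v|)) *
        ∫ z, cosh (u + v + s * z) ∂gaussianReal 0 1 := by
  set K := θ ^ 2 * |tanh (u + l) - tanh u| ^ 2 * s ^ 2 +
    θ * |tanh (u + l) - tanh u| * s ^ 2 * |v| with hK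
  have hK0 : 0 ≤ K := by positivity
  have i1 := (integrable_cosh (u + v) s).div_const (cosh (u + v))
  have i2 := (((integrable_cosh (u + l) s).div_const (cosh (u + l))).sub
    ((integrable_cosh u s).div_const (cosh u))).const_mul θ
  have i3 := ((integrable_cosh 0 8).const_mul 4).const_mul K
  have h := integral_mono ((integrable_tp (u + v) u l s θ).div_const (cosh (u + v)))
    ((i1.add i2).add i3) fun z => by
      have := pt_bound u l v s θ z hs hs1 hθ hθs
      simp only [Pi.add_apply, Pi.sub_apply]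
      rw [mul_div_right_comm]
      exact this
  have e1 := integral_add (i1.add i2) i3
  have e2 := integral_add i1 i2
  have e3 := integral_sub ((integrable_cosh (u + l) s).div_const (cosh (u + l)))
    ((integrable_cosh u s).div_const (cosh u))
  simp only [Pi.add_apply, Pi.sub_apply] at h e1 e2
  rw [e1, e2, integral_const_mul, e3, integral_const_mul, integral_const_mul, integral_div,
    integral_div, integral_div, integral_div, int_cosh, int_cosh, int_cosh, int_cosh,
    mul_div_cancel_left₀ _ (cosh_pos _).ne', mul_div_cancel_left₀ _ (cosh_pos _).ne',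
    mul_div_cancel_left₀ _ (cosh_pos _).ne', div_le_iff₀ (cosh_pos _)] at h
  rw [int_cosh]
  refine h.trans ?_
  have h1 : 1 ≤ exp (s ^ 2 / 2) := one_le_exp (by positivity)
  have h2 := add_one_le_exp (Ctp * K)
  have h3 : K * (4 * (cosh 0 * exp (8 ^ 2 / 2))) = Ctp * K := by
    rw [cosh_zero, Ctp]; norm_num; ring
  have h4 : 0 ≤ Ctp * K := mul_nonneg Ctp_pos.le hK0
  rw [h3, sub_self, mul_zero, add_zero]
  have h5 : exp (s ^ 2 / 2) + Ctp * K ≤ exp (Ctp * K) * exp (s ^ 2 / 2) := by nlinarith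
  nlinarith [cosh_pos (u + v)]

/-! ### completing the square: the pin `exp (-P h²/2 + y h)` on `h = m + s Z` -/

/-- centre after the pin -/
def mh (P y m s : ℝ) : ℝ := (m + s ^ 2 * y) / (1 + P * s ^ 2)

/-- standard deviation after the pin -/
def sh (P s : ℝ) : ℝ := s / √(1 + P * s ^ 2)

/-- total mass of the pin -/
def kp (P y m s : ℝ) : ℝ :=
  exp ((s * (y - P * m)) ^ 2 / (2 * (1 + P * s ^ 2)) + y * m - P * m ^ 2 / 2) / √(1 + P * s ^ 2)

lemma kp_pos {P : ℝ} (hP : 0 ≤ P) (y m s : ℝ) : 0 < kp P y m s :=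
  div_pos (exp_pos _) (sqrt_pos.2 (by positivity))

lemma sh_sq {P : ℝ} (hP : 0 ≤ P) (s : ℝ) : sh P s ^ 2 = s ^ 2 / (1 + P * s ^ 2) := by
  rw [sh, div_pow, sq_sqrt (by positivity)]

lemma sh_nonneg (P : ℝ) {s : ℝ} (hs : 0 ≤ s) : 0 ≤ sh P s := div_nonneg hs (sqrt_nonneg _)

lemma sh_le {P s : ℝ} (hP : 0 ≤ P) (hs : 0 ≤ s) : sh P s ≤ s :=
  div_le_self hs (one_le_sqrt.2 (by nlinarith [mul_nonneg hP (sq_nonneg s)]))

lemma mul_sh_sq_le {P : ℝ} (hP : 0 ≤ P) (s : ℝ) : P * sh P s ^ 2 ≤ 1 := by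
  rw [sh_sq hP, ← mul_div_assoc, div_le_one (by positivity)]; linarith

theorem pin_shift {P : ℝ} (hP : 0 ≤ P) (y m s : ℝ) (F : ℝ → ℝ) :
    ∫ z, exp (-(P * (m + s * z) ^ 2 / 2) + y * (m + s * z)) * F (m + s * z) ∂gaussianReal 0 1 =
      kp P y m s * ∫ z, F (mh P y m s + sh P s * z) ∂gaussianReal 0 1 := by
  have hD : 0 < 1 + P * s ^ 2 := by positivity
  set q := √(1 + P * s ^ 2) with hq
  have hq0 : 0 < q := sqrt_pos.2 hD
  have hqq : q ^ 2 = 1 + P * s ^ 2 := sq_sqrt hD.le
  rw [integral_gaussianReal_eq_integral_smul one_ne_zero,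
    integral_gaussianReal_eq_integral_smul one_ne_zero,
    ← integral_add_left_eq_self _ (s * (y - P * m) / (1 + P * s ^ 2))]
  have h := Measure.integral_comp_mul_left
    (fun w => gaussianPDFReal 0 1 w • F (mh P y m s + sh P s * w)) q
  rw [abs_of_pos (inv_pos.2 hq0), smul_eq_mul] at h
  rw [kp, ← hq, div_eq_mul_inv _ q, mul_assoc, ← h, ← integral_const_mul]
  refine integral_congr_ae (Filter.Eventually.of_forall fun z => ?_)
  have e : m + s * (s * (y - P * m) / (1 + P * s ^ 2) + z) = mh P y m s + sh P s * (q * z) := by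
    rw [mh, sh, ← hq]; field_simp; ring
  simp only [smul_eq_mul, gaussianPDFReal_def]
  rw [← e, ← mul_assoc, ← mul_assoc, mul_assoc _ (exp _) (exp _), ← exp_add,
    mul_left_comm (exp _), ← exp_add]
  congr 3
  rw [sub_zero, sub_zero, mul_pow q, hqq, NNReal.coe_one]
  field_simp
  ring

/-- **two-point lemma** in the form used with the cavity lemma -/
theorem two_point_pin {P s θ : ℝ} (hP : 0 ≤ P) (hs : 0 ≤ s) (hs1 : s ≤ 1) (hθ : 0 ≤ θ)
    (hθs : θ * sh P s ≤ 1) (y m b l v : ℝ) :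
    ∫ z, exp (-(P * (m + s * z) ^ 2 / 2) + y * (m + s * z)) * (cosh (b + v + (m + s * z)) *
        exp (θ * (Lam l (b + (m + s * z)) - Lam l (b + mh P y m s)))) ∂gaussianReal 0 1 ≤
      exp (Ctp * (θ ^ 2 * |tanh (b + mh P y m s + l) - tanh (b + mh P y m s)| ^ 2 * sh P s ^ 2 +
        θ * |tanh (b + mh P y m s + l) - tanh (b + mh P y m s)| * sh P s ^ 2 * |v|)) *
        ∫ z, exp (-(P * (m + s * z) ^ 2 / 2) + y * (m + s * z)) * cosh (b + v + (m + s * z))
          ∂gaussianReal 0 1 := by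
  rw [pin_shift hP y m s fun h => cosh (b + v + h) * exp (θ * (Lam l (b + h) -
    Lam l (b + mh P y m s))), pin_shift hP y m s fun h => cosh (b + v + h), mul_left_comm]
  refine mul_le_mul_of_nonneg_left ?_ (kp_pos hP y m s).le
  have := two_point (b + mh P y m s) l v (sh P s) θ (sh_nonneg P hs) ((sh_le hP hs).trans hs1) hθ hθs
  have e : ∀ x, b + v + (mh P y m s + x) = b + mh P y m s + v + x := fun x => by ring
  simp only [e, ← add_assoc b]
  exact this

/-- the spin marginal of the model has half log-odds `b + mh` -/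
theorem pin_spin {P : ℝ} (hP : 0 ≤ P) (y m s t : ℝ) :
    ∫ z, exp (-(P * (m + s * z) ^ 2 / 2) + y * (m + s * z)) * exp (t * (m + s * z))
      ∂gaussianReal 0 1 = kp P y m s * exp (t * mh P y m s + t ^ 2 * sh P s ^ 2 / 2) := by
  rw [pin_shift hP y m s fun h => exp (t * h)]
  congr 1
  simp only [mul_add, exp_add, ← mul_assoc]
  rw [integral_const_mul, int_exp, mul_pow]

lemma sqrt_mul_sh_le {P : ℝ} (hP : 0 ≤ P) {s : ℝ} (hs : 0 ≤ s) : √P * sh P s ≤ 1 := by
  have h := mul_sh_sq_le hP s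
  have h0 : 0 ≤ √P * sh P s := mul_nonneg (sqrt_nonneg _) (sh_nonneg P hs)
  have : (√P * sh P s) ^ 2 ≤ 1 := by rw [mul_pow, sq_sqrt hP]; exact h
  nlinarith

end Crest.Agent.T157.S2t

end
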