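import Crest.Agent.T157.TaA_40
import Crest.Agent.T157.S2Two_51

/-!
# Row 157, part B, S2 (helper51): the reveal of a set of spins
-/

set_option autoImplicit false

noncomputable section

namespace Crest.Agent.T157.S2t

open Real Function Finset
open Crest.Agent.T157.E Crest.Agent.T157.SL Crest.Agent.T157.Ta
open Crest.Agent.T157.Ent (cnd)
open Crest.Agent.T157.Rec (grad)
open Crest.Agent.T157.Hd (abs_tanh_lt)
open Crest.ProbabilityR.SpinGlassDynamics (spin)

variable {n : ℕ} {v w : Cube n → ℝ} {T : Finset (Fin n)} {k : Fin n}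

/-- the spins in `T` -/
def rT (T : Finset (Fin n)) (x : Cube n) : Cube n := T.piecewise x fun _ => true

/-- the marginal on `T` -/
def mT (T : Finset (Fin n)) (w : Cube n → ℝ) (x : Cube n) : ℝ := push w (rT T) (rT T x)

/-- logarithm of the two-point law with half log-odds `u` -/
def lb (u : ℝ) (b : Bool) : ℝ := u * spin b - log 2 - lc u

/-- logarithm of the product law on `T` -/
def LB (T : Finset (Fin n)) (U : Fin n → ℝ) (x : Cube n) : ℝ := ∑ k ∈ T, lb (U k) (x k)

/-- the local field of a weight -/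
def uf (w : Cube n → ℝ) (k : Fin n) (x : Cube n) : ℝ := grad (fun y => log (w y)) x k

/-- positive along the edges of `T` starting in the support of `v` -/
def EdgePos (T : Finset (Fin n)) (v w : Cube n → ℝ) : Prop :=
  ∀ k ∈ T, ∀ x, v x ≠ 0 → ∀ b, 0 < w (update x k b)

/-- mean under `v_T ⊗ w_bath` -/
def pm (T : Finset (Fin n)) (v w G : Cube n → ℝ) : ℝ :=
  mean w fun x => mean v fun s => G (T.piecewise s x)

lemma rT_eq_iff {x y : Cube n} : rT T y = rT T x ↔ ∀ i ∈ T, y i = x i := by
  constructor
  · intro h i hi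
    have := congrFun h i
    rwa [rT, rT, piecewise_eq_of_mem _ _ _ hi, piecewise_eq_of_mem _ _ _ hi] at this
  · intro h; funext i
    by_cases hi : i ∈ T
    · rw [rT, rT, piecewise_eq_of_mem _ _ _ hi, piecewise_eq_of_mem _ _ _ hi, h i hi]
    · rw [rT, rT, piecewise_eq_of_notMem _ _ _ hi, piecewise_eq_of_notMem _ _ _ hi]

lemma off_rT (hk : k ∉ T) : OffAt k (rT T) := fun _ _ =>
  rT_eq_iff.2 fun _ hi => update_of_ne (ne_of_mem_of_not_mem hi hk) _ _

lemma off_mT (hk : k ∉ T) (w : Cube n → ℝ) : OffAt k (mT T w) := (off_rT hk).comp _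

lemma mT_pos (hv : Wt v) {x : Cube n} (hx : v x ≠ 0) : 0 < mT T v x := push_pos hv hx

lemma mT_nonneg (hv : Wt v) (x : Cube n) : 0 ≤ mT T v x := push_nonneg hv _ _

lemma mT_insert (hk : k ∉ T) (w : Cube n → ℝ) (x : Cube n) :
    mT (insert k T) w (update x k true) + mT (insert k T) w (update x k false) = mT T w x := by
  simp only [mT, push]
  rw [← mean_add]
  congr 1; funext y
  have e : ∀ b, rT (insert k T) y = rT (insert k T) (update x k b) ↔
      y k = b ∧ rT T y = rT T x := fun b => by
    simp only [rT_eq_iff, forall_mem_insert, update_self]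
    exact and_congr_right fun _ => forall₂_congr fun i hi => by
      rw [update_of_ne (ne_of_mem_of_not_mem hi hk)]
  simp only [e]
  by_cases h : rT T y = rT T x <;> cases y k <;> simp [h]

lemma kl_push {Ω A : Type*} [Fintype Ω] [Fintype A] [DecidableEq A] {v w : Ω → ℝ} (h : Pr v w)
    (ρ : Ω → A) : Ent.kl (push v ρ) (push w ρ) =
      mean v fun x => log (push v ρ (ρ x)) - log (push w ρ (ρ x)) := by
  rw [mean_congr_supp (g := fun x => log (push v ρ (ρ x) / push w ρ (ρ x))) fun x hx =>
    (log_div (push_pos h.hv hx).ne' (push_pos h.hw (h.pos hx).2.ne').ne').symm,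
    ← sum_push_mean h.hv ρ fun a _ => log (push v ρ a / push w ρ a)]
  refine sum_congr rfl fun a _ => ?_
  by_cases ha : push v ρ a = 0
  · rw [ha, zero_mul, zero_mul]
  · rw [(wt_cut h.hv ha).mean_const]

lemma cnd_self_pos (hv : Wt v) {x : Cube n} (hx : v x ≠ 0) (k : Fin n) : 0 < cnd v k x (x k) := by
  rw [cnd, update_eq_self]
  exact div_pos (hv.pos_of_ne x hx) (den_pos hv k hx)

lemma cnd_nonneg (hv : Wt v) (k : Fin n) (x : Cube n) (b : Bool) : 0 ≤ cnd v k x b :=
  div_nonneg (hv.nn _) (add_nonneg (hv.nn _) (hv.nn _))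

/-- **Han's inequality** on a subset -/
theorem han (hv : Wt v) (T : Finset (Fin n)) :
    mean v (fun x => log (mT T v x)) ≤ ∑ k ∈ T, mean v fun x => log (cnd v k x (x k)) := by
  induction T using Finset.induction_on with
  | empty =>
    have : ∀ x, mT ∅ v x = 1 := fun x => by
      simp only [mT, push, rT_eq_iff, notMem_empty, false_imp_iff, implies_true, if_true]
      exact hv.mean_const 1
    simp only [this, log_one, sum_empty]
    exact (hv.mean_const 0).le
  | insert k T hk ih =>
    rw [sum_insert hk]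
    set F : Cube n → ℝ := fun x => mT (insert k T) v x / (mT T v x * cnd v k x (x k)) with hF
    have h1 : mean v F ≤ 1 := by
      have := mean_off hv (OffAt.const k (1 : ℝ)) F
      simp only [one_mul] at this
      rw [← this, ← hv.mean_const 1]
      refine mean_mono_supp hv fun x hx => ?_
      have p := mT_pos (T := T) hv hx
      have t : ∀ b, cnd v k x b * F (update x k b) ≤ mT (insert k T) v (update x k b) / mT T v x :=
        fun b => by
          simp only [hF, off_mT hk v x b, Ent.cnd_update, update_self]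
          rcases (cnd_nonneg hv k x b).eq_or_lt with h0 | h0
          · rw [← h0, zero_mul]; exact div_nonneg (mT_nonneg hv _) p.le
          · exact le_of_eq (by field_simp)
      rw [← Ent.mean_cnd, Chain22.mean, Fintype.sum_bool]
      refine (add_le_add (t true) (t false)).trans ?_
      rw [← add_div, mT_insert hk, div_self p.ne']
    have h2 : mean v (fun x => log (mT (insert k T) v x)) ≤
        mean v fun x => log (cnd v k x (x k)) + log (mT T v x) + (F x - 1) :=
      mean_mono_supp hv fun x hx => by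
        have p1 := mT_pos (T := T) hv hx
        have p2 := mT_pos (T := insert k T) hv hx
        have p3 := cnd_self_pos hv hx k
        have := log_le_sub_one_of_pos (show 0 < F x from div_pos p2 (mul_pos p1 p3))
        rw [hF, log_div p2.ne' (mul_pos p1 p3).ne', log_mul p1.ne' p3.ne'] at this
        linarith
    rw [mean_add, mean_add, mean_sub, hv.mean_const] at h2
    linarith

lemma exp_lb (u : ℝ) (b : Bool) : exp (lb u b) = exp (u * spin b) / (2 * cosh u) := by
  rw [lb, lc, exp_sub, exp_sub, exp_log two_pos, exp_log (cosh_pos u), div_div]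

lemma sum_exp_lb (u : ℝ) : exp (lb u true) + exp (lb u false) = 1 := by
  have := (cosh_pos u).ne'
  rw [exp_lb, exp_lb, ← add_div, div_eq_one_iff_eq (by positivity), cosh_eq]
  simp [spin]; ring

lemma abs_spin (b : Bool) : |spin b| = 1 := by cases b <;> simp [spin]

lemma lb_le (u U : ℝ) (b : Bool) : lb u b ≤ lb U b + 2 * |u - U| := by
  have h1 := abs_le.1 (abs_lc_sub U (u - U))
  rw [add_sub_cancel] at h1
  have h2 : (u - U) * spin b ≤ |u - U| := by
    refine (le_abs_self _).trans ?_
    rw [abs_mul, abs_spin, mul_one]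
  rw [lb, lb]; linarith [h1.1]

lemma two_pt {A B : ℝ} (hA : 0 < A) (hB : 0 < B) :
    log (A / (A + B)) = lb ((log A - log B) / 2) true ∧
    log (B / (A + B)) = lb ((log A - log B) / 2) false ∧
      (A * 1 + B * -1) / (A + B) = tanh ((log A - log B) / 2) := by
  set u := (log A - log B) / 2 with hu
  have e : A = B * exp u ^ 2 := by
    rw [← exp_nat_mul, hu, show ((2 : ℕ) : ℝ) * ((log A - log B) / 2) = log A - log B by
      push_cast; ring, exp_sub, exp_log hA, exp_log hB]; field_simp
  have p := exp_pos u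
  refine ⟨?_, ?_, ?_⟩
  · rw [← log_exp (lb u true), exp_lb, cosh_eq, exp_neg]
    congr 1; rw [e]; simp only [spin, if_true, mul_one]; field_simp
  · rw [← log_exp (lb u false), exp_lb, cosh_eq, exp_neg]
    congr 1; rw [e]; simp only [spin, Bool.false_eq_true, if_false, mul_neg, mul_one, exp_neg]
    field_simp
  · rw [tanh_eq_sinh_div_cosh, sinh_eq, cosh_eq, exp_neg, e]; field_simp; ring

lemma log_cnd {x : Cube n} (h : ∀ b, 0 < w (update x k b)) (b : Bool) :
    log (cnd w k x b) = lb (uf w k x) b := by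
  cases b
  · exact (two_pt (h true) (h false)).2.1
  · exact (two_pt (h true) (h false)).1

lemma cm_eq {x : Cube n} (h : ∀ b, 0 < w (update x k b)) : cm w k x = tanh (uf w k x) := by
  have := (two_pt (h true) (h false)).2.2
  simpa [Ta.cm, siteM, sv, spin, uf, grad, incr] using this

lemma As_one (h : Pr v w) (k : Fin n) : As (fun _ => 1) v w k =
    mean v (fun x => log (cnd v k x (x k))) - mean v fun x => log (cnd w k x (x k)) := by
  rw [As_eq h.hv (OffAt.const k 1), ← mean_sub]
  refine mean_congr_supp fun x hx => ?_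
  rw [one_mul, lr, log_div (cnd_self_pos h.hv hx k).ne' (cnd_self_pos h.hw (h.pos hx).2.ne' k).ne']

lemma mean_lb (hv : Wt v) (u : ℝ) (k : Fin n) :
    mean v (fun x => lb u (x k)) = u * mag v k - log 2 - lc u := by
  simp only [lb]
  rw [mean_sub, mean_sub, hv.mean_const, hv.mean_const, mean_const_mul]; rfl

/-- the entropy of the marginals against the site entropies -/
theorem kl_marg_le (h : Pr v w) (hp : EdgePos T v w) (U a : Fin n → ℝ) :
    Ent.kl (push v (rT T)) (push w (rT T)) ≤
      ∑ k ∈ T, (As (fun _ => 1) v w k + 2 * mean v (fun x => |uf w k x - U k|) +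
        (|a k| * |mag v k - tanh (U k)| + a k ^ 2 / 2)) +
      mean v fun x => LB T (U + a) x - log (mT T w x) := by
  rw [kl_push h, mean_sub, mean_sub]
  have h1 := han h.hv T
  have h2 : ∑ k ∈ T, mean v (fun x => log (cnd v k x (x k))) ≤
      ∑ k ∈ T, ((As (fun _ => 1) v w k + 2 * mean v (fun x => |uf w k x - U k|) +
        (|a k| * |mag v k - tanh (U k)| + a k ^ 2 / 2)) + mean v fun x => lb ((U + a) k) (x k)) := by
    refine sum_le_sum fun k hk => ?_
    have b1 : mean v (fun x => log (cnd w k x (x k))) ≤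
        mean v fun x => lb (U k) (x k) + 2 * |uf w k x - U k| :=
      mean_mono_supp h.hv fun x hx => by rw [log_cnd (hp k hk x hx)]; exact lb_le _ _ _
    rw [mean_add, mean_const_mul, mean_lb h.hv] at b1
    have b2 := lc_le (U k) (a k)
    have b3 : -(a k * (mag v k - tanh (U k))) ≤ |a k| * |mag v k - tanh (U k)| := by
      rw [← abs_mul]; exact neg_le_abs _
    rw [As_one h, mean_lb h.hv, Pi.add_apply]
    linarith
  rw [sum_add_distrib, ← mean_sum v T fun k x => lb ((U + a) k) (x k)] at h2
  change mean v (fun x => log (mT T v x)) - mean v (fun x => log (mT T w x)) ≤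
    _ + (mean v (fun x => ∑ k ∈ T, lb ((U + a) k) (x k)) - _)
  linarith

lemma mag_sq_le (h : Pr v w) (hp : EdgePos T v w) (hk : k ∈ T) (U : ℝ) :
    (mag v k - tanh U) ^ 2 ≤ mean v (fun x => chi v w k x ^ 2) + 4 * mean v fun x => |uf w k x - U| := by
  have e : mag v k - tanh U = mean v fun x => cm v k x - tanh U := by
    have := mean_cm (i := k) h.hv (OffAt.const k (1 : ℝ))
    simp only [one_mul] at this
    rw [mean_sub, h.hv.mean_const, this]; rfl
  have j := h.hv.isP.mean_sq_le fun x => cm v k x - tanh U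
  rw [e, ← mean_const_mul, ← mean_add]
  refine le_trans j (mean_mono_supp (f := fun x => (cm v k x - tanh U) * (cm v k x - tanh U))
    h.hv fun x hx => ?_)
  have a1 := abs_le.1 (abs_chi_le h k x)
  have a2 := abs_le.1 (abs_cm_le h.hv.nn k x)
  have a3 := abs_lt.1 (abs_tanh_lt U)
  have a4 := abs_tanh_sub (uf w k x) U
  have a5 : |chi v w k x + (cm v k x - tanh U)| ≤ 4 := abs_le.2 ⟨by linarith, by linarith⟩
  have a6 : (tanh (uf w k x) - tanh U) * (chi v w k x + (cm v k x - tanh U)) ≤
      |uf w k x - U| * 4 := by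
    refine (le_abs_self _).trans ?_
    rw [abs_mul]; exact mul_le_mul a4 a5 (abs_nonneg _) (abs_nonneg _)
  rw [chi, cm_eq (hp k hk x hx)] at a6 ⊢
  linarith

/-- **the reveal inequality** -/
theorem reveal (h : Pr v w) (hp : EdgePos T v w) (U a : Fin n → ℝ) {α c1 c2 : ℝ} (hα : 0 ≤ α)
    (h1 : 0 < c1) (h2 : 0 ≤ c2) :
    α * Ent.kl (push v (rT T)) (push w (rT T)) + c2 * ∑ k ∈ T, (mag v k - tanh (U k)) ^ 2 ≤
      ∑ k ∈ T, (α * As (fun _ => 1) v w k + (c1 + c2) * mean v fun x => chi v w k x ^ 2) +
      α / 2 * (1 + α / (2 * c1)) * ∑ k ∈ T, a k ^ 2 +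
      (2 * α + 4 * (c1 + c2)) * ∑ k ∈ T, mean v (fun x => |uf w k x - U k|) +
      α * mean v fun x => LB T (U + a) x - log (mT T w x) := by
  have b := mul_le_mul_of_nonneg_left (kl_marg_le h hp U a) hα
  rw [mul_add, mul_sum] at b
  rw [mul_sum, mul_sum, mul_sum, ← sum_add_distrib, ← sum_add_distrib]
  have : ∑ k ∈ T, α * (As (fun _ => 1) v w k + 2 * mean v (fun x => |uf w k x - U k|) +
      (|a k| * |mag v k - tanh (U k)| + a k ^ 2 / 2)) + ∑ k ∈ T, c2 * (mag v k - tanh (U k)) ^ 2 ≤
      ∑ k ∈ T, (α * As (fun _ => 1) v w k + (c1 + c2) * mean v (fun x => chi v w k x ^ 2) +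
        α / 2 * (1 + α / (2 * c1)) * a k ^ 2 +
        (2 * α + 4 * (c1 + c2)) * mean v fun x => |uf w k x - U k|) := by
    rw [← sum_add_distrib]
    refine sum_le_sum fun k hk => ?_
    have m := mul_le_mul_of_nonneg_left (mag_sq_le h hp hk (U k)) (add_nonneg h1.le h2)
    have q : α * (|a k| * |mag v k - tanh (U k)|) ≤
        c1 * (mag v k - tanh (U k)) ^ 2 + α ^ 2 / (4 * c1) * a k ^ 2 := by
      rw [← sq_abs (mag v k - _), ← sq_abs (a k)]
      have : c1 * |mag v k - tanh (U k)| ^ 2 + α ^ 2 / (4 * c1) * |a k| ^ 2 -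
          α * (|a k| * |mag v k - tanh (U k)|) =
          (2 * c1 * |mag v k - tanh (U k)| - α * |a k|) ^ 2 / (4 * c1) := by field_simp; ring
      have : 0 ≤ (2 * c1 * |mag v k - tanh (U k)| - α * |a k|) ^ 2 / (4 * c1) := by positivity
      linarith
    have e : α / 2 * (1 + α / (2 * c1)) * a k ^ 2 =
        α * (a k ^ 2 / 2) + α ^ 2 / (4 * c1) * a k ^ 2 := by field_simp; ring
    rw [e]; linarith
  linarith

/-! ### the side of the reference law -/

lemma piece_iff {s x y : Cube n} :
    y = T.piecewise s x ↔ rT T y = rT T s ∧ rT Tᶜ y = rT Tᶜ x := by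
  simp only [rT_eq_iff, mem_compl]
  constructor
  · rintro rfl
    exact ⟨fun i hi => piecewise_eq_of_mem _ _ _ hi, fun i hi => piecewise_eq_of_notMem _ _ _ hi⟩
  · rintro ⟨h1, h2⟩
    funext i
    by_cases hi : i ∈ T
    · rw [piecewise_eq_of_mem _ _ _ hi, h1 i hi]
    · rw [piecewise_eq_of_notMem _ _ _ hi, h2 i hi]

lemma mT_congr {x y : Cube n} (h : rT T y = rT T x) (w : Cube n → ℝ) : mT T w y = mT T w x := by
  rw [mT, mT, h]

lemma tower_le (hw : Wt w) (s : Cube n) :
    mean w (fun x => prob w (T.piecewise s x) / mT Tᶜ w x) ≤ mT T w s := by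
  have e : ∀ x, prob w (T.piecewise s x) / mT Tᶜ w x = ∑ y, (if rT T y = rT T s then 1 else 0) *
      (prob w y / mT Tᶜ w y) * if rT Tᶜ x = rT Tᶜ y then 1 else 0 := fun x => by
    rw [sum_eq_single (T.piecewise s x)]
    · have := piece_iff.1 (rfl : T.piecewise s x = _)
      rw [if_pos this.1, if_pos this.2.symm, mT_congr this.2, one_mul, mul_one]
    · intro y _ hy
      by_cases h1 : rT T y = rT T s
      · rw [if_neg (c := rT Tᶜ x = rT Tᶜ y) fun h2 => hy (piece_iff.2 ⟨h1, h2.symm⟩), mul_zero]
      · rw [if_neg h1, zero_mul, zero_mul]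
    · simp
  simp only [e]
  rw [mean_sum]
  refine sum_le_sum fun y _ => ?_
  rw [mean_const_mul, mul_assoc, mul_comm]
  refine mul_le_mul_of_nonneg_right ?_ (by split_ifs <;> norm_num)
  change prob w y / mT Tᶜ w y * mT Tᶜ w y ≤ _
  rcases eq_or_ne (mT Tᶜ w y) 0 with h | h
  · rw [h, mul_zero]; exact hw.prob_nonneg y
  · rw [div_mul_cancel₀ _ h]

lemma sum_fibre (U : Fin n → ℝ) (y : Cube n) :
    ∑ x, (if rT Tᶜ y = rT Tᶜ x then 1 else 0) * exp (LB T U x) = 1 := by
  have hp : ∀ i, Chain22.IsP fun b => if i ∈ T then exp (lb (U i) b) else if y i = b then 1 else 0 :=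
    fun i => ⟨fun b => by split_ifs <;> positivity, by
      rw [Fintype.sum_bool]
      split_ifs with h1 h2 h3 h3
      · exact sum_exp_lb _
      · rw [h2] at h3; exact absurd h3 (by simp)
      · norm_num
      · norm_num
      · cases hy : y i <;> simp_all⟩
  refine Eq.trans (sum_congr rfl fun x _ => ?_) (Ent.isP_ppi hp).sum1
  rw [Ent.ppi, ← prod_mul_prod_compl T, LB, exp_sum, mul_comm]
  congr 1
  · exact prod_congr rfl fun i hi => (if_pos hi).symm
  · rw [prod_congr rfl fun i hi => if_neg (mem_compl.1 hi), prod_ite_zero, prod_const_one]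
    by_cases h : rT Tᶜ y = rT Tᶜ x
    · rw [if_pos h, if_pos (rT_eq_iff.1 h)]
    · rw [if_neg h, if_neg fun h' => h (rT_eq_iff.2 h')]

lemma gibbs_le (hw : Wt w) (U : Fin n → ℝ) :
    mean w (fun x => log (mT Tᶜ w x)) ≤ mean w fun x => log (prob w x) - LB T U x := by
  have h1 : mean w (fun x => mT Tᶜ w x * exp (LB T U x) / prob w x) ≤ 1 := by
    have e : ∑ x, mT Tᶜ w x * exp (LB T U x) = 1 := by
      simp only [mT, push, ← mean_mul_const]
      rw [← mean_sum]
      simp only [sum_fibre]
      exact hw.mean_const 1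
    rw [← e]
    refine sum_le_sum fun x _ => ?_
    rcases eq_or_ne (prob w x) 0 with h | h
    · rw [h, zero_mul]; exact mul_nonneg (mT_nonneg hw x) (exp_pos _).le
    · rw [mul_div_cancel₀ _ h]
  have h2 : mean w (fun x => log (mT Tᶜ w x)) ≤ mean w fun x =>
      log (prob w x) - LB T U x + (mT Tᶜ w x * exp (LB T U x) / prob w x - 1) :=
    mean_mono_supp hw fun x hx => by
      have p1 := mT_pos (T := Tᶜ) hw hx
      have p2 : 0 < prob w x := div_pos (hw.pos_of_ne x hx) hw.pos
      have := log_le_sub_one_of_pos (show 0 < mT Tᶜ w x * exp (LB T U x) / prob w x by positivity)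
      rw [log_div (by positivity) p2.ne', log_mul p1.ne' (exp_pos _).ne', log_exp] at this
      linarith
  rw [mean_add, mean_sub w _ fun _ => 1, hw.mean_const] at h2
  linarith

/-- positive on the `T`-fibres of its support -/
def FibPos (T : Finset (Fin n)) (w : Cube n → ℝ) : Prop :=
  ∀ x, w x ≠ 0 → ∀ s, 0 < w (T.piecewise s x)

lemma FibPos.edge (h : Pr v w) (hf : FibPos T w) : EdgePos T v w := fun k hk x hx b => by
  have := hf x (h.pos hx).2.ne' (update x k b)
  rwa [show T.piecewise (update x k b) x = update x k b from funext fun i => by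
    by_cases hi : i ∈ T
    · exact piecewise_eq_of_mem _ _ _ hi
    · rw [piecewise_eq_of_notMem _ _ _ hi, update_of_ne (ne_of_mem_of_not_mem hk hi).symm]] at this

lemma LB_piece (U : Fin n → ℝ) (s x : Cube n) : LB T U (T.piecewise s x) = LB T U s :=
  sum_congr rfl fun i hi => by rw [piecewise_eq_of_mem _ _ _ hi]

theorem marg_ge (hw : Wt w) (hf : FibPos T w) (U : Fin n → ℝ) (s : Cube n) :
    LB T U s - log (mT T w s) ≤ mean w (fun x => log (w x) - LB T U x) -
      mean w fun x => log (w (T.piecewise s x)) - LB T U (T.piecewise s x) := by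
  have pp : ∀ x, w x ≠ 0 → 0 < prob w (T.piecewise s x) / mT Tᶜ w x := fun x hx =>
    div_pos (div_pos (hf x hx s) hw.pos) (mT_pos hw hx)
  have h1 := mean_le_log hw fun x => log (prob w (T.piecewise s x) / mT Tᶜ w x)
  rw [mean_congr_supp (v := w) (f := fun x => exp (log _)) fun x hx => exp_log (pp x hx)] at h1
  have h0 : 0 < mean w fun x => prob w (T.piecewise s x) / mT Tᶜ w x := by
    rw [← mean_congr_supp (v := w) (f := fun x => exp (log _)) fun x hx => exp_log (pp x hx)]
    exact mean_pos' hw fun _ => exp_pos _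
  have h2 := h1.trans (log_le_log h0 (tower_le hw s))
  rw [mean_congr_supp (v := w) (g := fun x => log (w (T.piecewise s x)) - log (∑ y, w y) -
    log (mT Tᶜ w x)) fun x hx => by
      rw [prob, log_div (div_pos (hf x hx s) hw.pos).ne' (mT_pos hw hx).ne',
        log_div (hf x hx s).ne' hw.pos.ne'], mean_sub, mean_sub, hw.mean_const] at h2
  have h3 := gibbs_le (T := T) hw U
  rw [mean_congr_supp (v := w) (f := fun x => log (prob w x) - LB T U x)
    (g := fun x => log (w x) - LB T U x - log (∑ y, w y)) fun x hx => by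
      rw [prob, log_div hx hw.pos.ne']; ring, mean_sub, hw.mean_const] at h3
  simp only [LB_piece]
  rw [mean_sub w _ fun _ => LB T U s, hw.mean_const]
  linarith

lemma mean_swap {A B : Type*} [Fintype A] [Fintype B] (μ : A → ℝ) (ν : B → ℝ) (F : A → B → ℝ) :
    mean μ (fun a => mean ν fun b => F a b) = mean ν fun b => mean μ fun a => F a b :=
  Ent.mean_comm (prob μ) (prob ν) F

/-- **the error of the reveal on the side of the reference law** -/
theorem pi_side (hv : Wt v) (hw : Wt w) (hf : FibPos T w) (U : Fin n → ℝ) :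
    mean v (fun x => LB T U x - log (mT T w x)) ≤
      mean w (fun x => log (w x) - LB T U x) - pm T v w fun x => log (w x) - LB T U x := by
  refine (hv.mean_mono fun s => marg_ge hw hf U s).trans ?_
  rw [mean_sub, hv.mean_const, pm, mean_swap]

end Crest.Agent.T157.S2t

end
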