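import Crest.Agent.T157.S3W_43

/-!
# Row 157, part B, block S3 (helper43): closure properties of the classes ((A4), (U1), (U2))
-/

set_option autoImplicit false
set_option linter.unusedSectionVars false
set_option linter.unusedTactic false

noncomputable section

namespace Crest.Agent.T157.S3W

open Matrix Finset
open Crest.Agent.T157.Eig Crest.Agent.T157.Fr Crest.Agent.T157.Uw

namespace Cx

variable {Ω : Type*} {c : Cx Ω} {P : (Ω → ℝ) → Prop} {A B M : c.MF} {u v d : c.VF} {σ : Ω → ℝ}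

/-! ### products -/

theorem Sp.zero (h : c.Ok) (m : c.Md P) : c.Sp P fun _ => 0 :=
  cg (Sp.word m.zero h.one lt_nil) fun _ => zero_smul _ _
theorem Sp.mono {Q : (Ω → ℝ) → Prop} (e : ∀ {σ}, P σ → Q σ) (hA : c.Sp P A) : c.Sp Q A := by
  induction hA with
  | word h1 h2 h3 => exact .word (e h1) h2 h3
  | add _ _ h1 h2 => exact h1.add h2
theorem Sp.pr (m : c.Md P) (hA : c.Sp P A) : c.PR A := hA.mono m.sc
theorem Sp.smul (m : c.Md P) (hσ : c.Sc σ) (hA : c.Sp P A) : c.Sp P fun ω => σ ω • A ω := by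
  induction hA with
  | word h1 h2 h3 => exact cg (Sp.word (m.mul hσ h1) h2 h3) fun _ => mul_smul _ _ _
  | add _ _ h1 h2 => exact cg (h1.add h2) fun _ => (smul_add _ _ _).symm
theorem Sp.smulP (m : c.Md P) (hσ : P σ) (hA : c.PR A) : c.Sp P fun ω => σ ω • A ω := by
  induction hA with
  | word h1 h2 h3 => exact cg (Sp.word (m.mul h1 hσ) h2 h3) fun _ => by beta_reduce; rw [mul_comm, mul_smul]
  | add _ _ h1 h2 => exact cg (h1.add h2) fun _ => (smul_add _ _ _).symm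
theorem Sp.neg (h : c.Ok) (m : c.Md P) (hA : c.Sp P A) : c.Sp P fun ω => -A ω :=
  cg (hA.smul m (h.sc_const (-1))) fun ω => neg_one_smul ℝ (A ω)
theorem Sp.sub (h : c.Ok) (m : c.Md P) (hA : c.Sp P A) (hB : c.Sp P B) :
    c.Sp P fun ω => A ω - B ω := cg (hA.add (hB.neg h m)) fun ω => (sub_eq_add_neg (A ω) _).symm
theorem Sp.sum (h : c.Ok) (m : c.Md P) {κ : Type*} (t : Finset κ) {A : κ → c.MF}
    (hA : ∀ k ∈ t, c.Sp P (A k)) : c.Sp P fun ω => ∑ k ∈ t, A k ω := sumP (Sp.zero h m) Sp.add t hA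
theorem pr_word (h : c.Ok) {l : List c.VF} (hd : c.BL d) (hl : c.Lt l) :
    c.PR fun ω => diagonal (d ω) * c.vk l ω :=
  cg (Sp.word (h.sc_const 1) hd hl) fun _ => one_smul _ _
theorem pr_vk (h : c.Ok) {l : List c.VF} (hl : c.Lt l) : c.PR (c.vk l) :=
  cg (pr_word h h.one hl) fun _ => by beta_reduce; rw [Pi.one_apply, diagonal_one', Matrix.one_mul]
theorem pr_uk (h : c.Ok) : ∀ {l : List c.VF}, c.Lt l → c.PR (c.uk l)
  | [], _ => Sp.zero h h.md
  | _ :: _, hl => pr_word h (lt_cons.1 hl).1 (lt_cons.1 hl).2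
theorem pr_wk (h : c.Ok) {l : List c.VF} (hl : c.Lt l) : c.PR (c.wk l) :=
  cg (pr_vk h (hl.snoc h.one)) fun ω => (wk_eq l ω).symm
theorem pr_one (h : c.Ok) : c.PR fun _ => 1 := pr_vk h lt_nil
theorem pr_diag (h : c.Ok) (hd : c.BL d) : c.PR fun ω => diagonal (d ω) :=
  cg (pr_word h hd lt_nil) fun _ => Matrix.mul_one _
theorem pr_J (h : c.Ok) : c.PR c.J := cg (pr_wk h lt_nil) fun _ => Wk_nil

theorem Sp.dmul (h : c.Ok) (hd : c.BL d) (hA : c.Sp P A) :
    c.Sp P fun ω => diagonal (d ω) * A ω := by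
  induction hA with
  | word h1 h2 h3 =>
    exact cg (Sp.word h1 (h.bl_mul hd h2) h3) fun _ => by
      beta_reduce; rw [Matrix.mul_smul, ← Matrix.mul_assoc, diagonal_mul_diagonal]; rfl
  | add _ _ h1 h2 => exact cg (h1.add h2) fun _ => (Matrix.mul_add _ _ _).symm

theorem Sp.Jmul (h : c.Ok) (m : c.Md P) (hA : c.Sp P A) : c.Sp P fun ω => c.J ω * A ω := by
  induction hA with
  | word h1 h2 h3 =>
    exact cg ((Sp.smulP m h1 (pr_vk h (lt_cons.2 ⟨h2, h3⟩))).add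
      (Sp.smulP m (m.mul (h.sc_et h2) h1) (pr_uk h h3))) fun _ => by
        beta_reduce; rw [vk_cons, uk_cons, Matrix.mul_smul]; module
  | add _ _ h1 h2 => exact cg (h1.add h2) fun _ => (Matrix.mul_add _ _ _).symm

theorem Sp.vu_mul (h : c.Ok) (m : c.Md P) (hB : c.Sp P B) : ∀ {l : List c.VF}, c.Lt l →
    (c.Sp P fun ω => c.vk l ω * B ω) ∧ c.Sp P fun ω => c.uk l ω * B ω
  | [], _ => ⟨cg hB fun _ => (Matrix.one_mul _).symm,
      cg (Sp.zero h m) fun _ => (Matrix.zero_mul _).symm⟩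
  | a :: l, hl => by
    obtain ⟨h1, h2⟩ := Sp.vu_mul h m hB (lt_cons.1 hl).2
    have h3 : c.Sp P fun ω => c.uk (a :: l) ω * B ω :=
      cg (h1.dmul h (lt_cons.1 hl).1) fun _ => (Matrix.mul_assoc _ _ _).symm
    exact ⟨cg ((h3.Jmul h m).sub h m (h2.smul m (h.sc_et (lt_cons.1 hl).1))) fun _ => by
      beta_reduce; rw [vk_cons, Matrix.sub_mul, Matrix.smul_mul, Matrix.mul_assoc], h3⟩

/-- **(A4)** -/
theorem Sp.lmul (h : c.Ok) (m : c.Md P) (hA : c.PR A) (hB : c.Sp P B) :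
    c.Sp P fun ω => A ω * B ω := by
  induction hA with
  | word h1 h2 h3 =>
    exact cg ((((hB.vu_mul h m h3).1).dmul h h2).smul m h1) fun _ => by
      beta_reduce; rw [Matrix.smul_mul, Matrix.mul_assoc]
  | add _ _ h1 h2 => exact cg (h1.add h2) fun _ => (Matrix.add_mul _ _ _).symm

theorem Sp.rmul (h : c.Ok) (m : c.Md P) (hA : c.Sp P A) (hB : c.PR B) :
    c.Sp P fun ω => A ω * B ω := by
  induction hA with
  | word h1 h2 h3 =>
    exact cg (Sp.smulP m h1 ((pr_word h h2 h3).lmul h h.md hB)) fun _ =>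
      (Matrix.smul_mul _ _ _).symm
  | add _ _ h1 h2 => exact cg (h1.add h2) fun _ => (Matrix.add_mul _ _ _).symm

theorem pr_vu_t (h : c.Ok) : ∀ {l : List c.VF}, c.Lt l →
    (c.PR fun ω => (c.vk l ω)ᵀ) ∧ c.PR fun ω => (c.uk l ω)ᵀ
  | [], _ => ⟨cg (pr_one h) fun _ => transpose_one.symm,
      cg (Sp.zero h h.md) fun _ => transpose_zero.symm⟩
  | a :: l, hl => by
    obtain ⟨h1, h2⟩ := pr_vu_t h (lt_cons.1 hl).2
    have h3 : c.PR fun ω => (c.uk (a :: l) ω)ᵀ :=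
      cg (h1.rmul h h.md (pr_diag h (lt_cons.1 hl).1)) fun _ => by
        beta_reduce; rw [uk_cons, transpose_mul, diagonal_transpose]
    exact ⟨cg ((h3.rmul h h.md (pr_J h)).sub h h.md (h2.smul h.md (h.sc_et (lt_cons.1 hl).1)))
      fun ω => by beta_reduce; rw [vk_cons, transpose_sub, transpose_mul, transpose_smul, h.symm], h3⟩

theorem Sp.transpose (h : c.Ok) (m : c.Md P) (hA : c.Sp P A) : c.Sp P fun ω => (A ω)ᵀ := by
  induction hA with
  | word h1 h2 h3 =>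
    exact cg (Sp.smulP m h1 ((pr_vu_t h h3).1.rmul h h.md (pr_diag h h2)))
      fun _ => by beta_reduce; rw [transpose_smul, transpose_mul, diagonal_transpose]
  | add _ _ h1 h2 => exact cg (h1.add h2) fun _ => (transpose_add _ _).symm

theorem Sp.op (h : c.Ok) (m : c.Md P) (hA : c.Sp P A) : c.Op A := by
  induction hA with
  | word h1 h2 h3 => exact ((BdV.op (h.bl_bd h2)).mul (op_vu h h3).1).smul h (m.sc h1)
  | add _ _ h1 h2 => exact h1.add h2

theorem CW.pr (h : c.Ok) (hA : c.CW A) : c.PR A := by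
  induction hA with
  | right h1 h2 h3 => exact ((pr_wk h h3).rmul h h.md (pr_diag h h2)).smul h.md h1
  | left h1 h2 h3 => exact ((pr_wk h h3).dmul h h2).smul h.md h1
  | add _ _ h1 h2 => exact h1.add h2
theorem CW.zero (h : c.Ok) : c.CW fun _ => 0 :=
  cg (CW.left (h.sc_const 0) h.one lt_nil) fun _ => zero_smul _ _
theorem CW.smul (h : c.Ok) (hσ : c.Sc σ) (hA : c.CW A) : c.CW fun ω => σ ω • A ω := by
  induction hA with
  | right h1 h2 h3 => exact cg (CW.right (h.sc_mul hσ h1) h2 h3) fun _ => mul_smul _ _ _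
  | left h1 h2 h3 => exact cg (CW.left (h.sc_mul hσ h1) h2 h3) fun _ => mul_smul _ _ _
  | add _ _ h1 h2 => exact cg (h1.add h2) fun _ => (smul_add _ _ _).symm
theorem CW.sum (h : c.Ok) {κ : Type*} (t : Finset κ) {A : κ → c.MF} (hA : ∀ k ∈ t, c.CW (A k)) :
    c.CW fun ω => ∑ k ∈ t, A k ω := sumP (CW.zero h) CW.add t hA
theorem cw_vk (h : c.Ok) {l : List c.VF} (hl : c.Lt l) (h0 : l ≠ []) : c.CW (c.vk l) := by
  obtain ⟨l, a, rfl⟩ := (List.eq_nil_or_concat' l).resolve_left h0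
  exact cg (CW.right (h.sc_const 1) (lt_cons.1 (lt_append.1 hl).2).1 (lt_append.1 hl).1) fun ω => by
    rw [one_smul, vk_snoc]

/-! ### vectors -/

theorem Sv.zero (h : c.Ok) (m : c.Md P) : c.Sv P fun _ => 0 :=
  cg (Sv.term m.zero h.one) fun _ => zero_smul _ _
theorem Sv.mono {Q : (Ω → ℝ) → Prop} (e : ∀ {σ}, P σ → Q σ) (hu : c.Sv P u) : c.Sv Q u := by
  induction hu with
  | term h1 h2 => exact .term (e h1) h2
  | add _ _ h1 h2 => exact h1.add h2
theorem sv_bl (h : c.Ok) (hd : c.BL d) : c.SV d := cg (Sv.term (h.sc_const 1) hd) fun _ => one_smul _ _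
theorem Sv.smul (m : c.Md P) (hσ : c.Sc σ) (hu : c.Sv P u) : c.Sv P fun ω => σ ω • u ω := by
  induction hu with
  | term h1 h2 => exact cg (Sv.term (m.mul hσ h1) h2) fun _ => mul_smul _ _ _
  | add _ _ h1 h2 => exact cg (h1.add h2) fun _ => (smul_add _ _ _).symm
theorem Sv.blmul (h : c.Ok) (hd : c.BL d) (hu : c.Sv P u) : c.Sv P fun ω => d ω * u ω := by
  induction hu with
  | term h1 h2 => exact cg (Sv.term h1 (h.bl_mul hd h2)) fun _ => (mul_smul_comm _ _ _).symm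
  | add _ _ h1 h2 => exact cg (h1.add h2) fun _ => (mul_add _ _ _).symm
theorem Sv.mul (h : c.Ok) (m : c.Md P) (hu : c.SV u) (hv : c.Sv P v) :
    c.Sv P fun ω => u ω * v ω := by
  induction hu with
  | term h1 h2 => exact cg ((hv.blmul h h2).smul m h1) fun _ => (smul_mul_assoc _ _ _).symm
  | add _ _ h1 h2 => exact cg (h1.add h2) fun _ => (add_mul _ _ _).symm
theorem Sv.bd (h : c.Ok) (m : c.Md P) (hu : c.Sv P u) : c.BdV u := by
  induction hu with
  | term h1 h2 =>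
    obtain ⟨C, hC⟩ := h.sc_bd (m.sc h1)
    obtain ⟨D, hD⟩ := h.bl_bd h2
    exact ⟨C * D, fun ω i => by
      beta_reduce
      rw [Pi.smul_apply, smul_eq_mul, abs_mul]
      exact mul_le_mul (hC ω) (hD ω i) (abs_nonneg _) ((abs_nonneg _).trans (hC ω))⟩
  | add _ _ h1 h2 => exact h1.add h2
theorem Sv.diagonal (h : c.Ok) (m : c.Md P) (hu : c.Sv P u) :
    c.Sp P fun ω => diagonal (u ω) := by
  induction hu with
  | term h1 h2 => exact cg (Sp.smulP m h1 (pr_diag h h2)) fun _ => (diagonal_smul _ _).symm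
  | add _ _ h1 h2 => exact cg (h1.add h2) fun _ => diagonal_add _ _
theorem Sv.l4 (h : c.Ok) (hu : c.TV u) : c.L4 u := by
  induction hu with
  | @term θ d h1 h2 =>
    obtain ⟨D, D1, hD⟩ := BdV.nn (h.bl_bd h2)
    refine (sm_th h h1).le (C := D ^ 4) (by positivity) fun ω => ?_
    refine (sum_le_card_nsmul _ _ (D ^ 4 * θ ω ^ 4) fun i _ => ?_).trans (le_of_eq (by simp; ring))
    have := pow_le_pow_left₀ (abs_nonneg _) (hD ω i) 4
    rw [Even.pow_abs (by decide)] at this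
    beta_reduce
    rw [Pi.smul_apply, smul_eq_mul, mul_pow, mul_comm]
    exact mul_le_mul_of_nonneg_right this (by positivity)
  | @add u v _ _ h1 h2 =>
    refine Sm.le2 h h1 h2 (C := 8) (by norm_num) fun ω => ?_
    rw [← sum_add_distrib, mul_sum]
    exact sum_le_sum fun i _ => by
      simp only [Pi.add_apply]
      nlinarith [sq_nonneg (u ω i ^ 2 - v ω i ^ 2), sq_nonneg (u ω i - v ω i),
        sq_nonneg ((u ω i - v ω i) ^ 2), mul_nonneg (sq_nonneg (u ω i - v ω i))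
        (sq_nonneg (u ω i + v ω i))]

/-! ### small vectors and matrices -/

theorem O2.of_le (hv : c.O2 v) {C : ℝ} (e : ∀ ω i, |u ω i| ≤ C * |v ω i|) : c.O2 u :=
  Sm.le hv (sq_nonneg C) fun ω => by
    rw [mul_sum]
    exact sum_le_sum fun i _ => by
      have := pow_le_pow_left₀ (abs_nonneg _) (e ω i) 2
      rwa [mul_pow, sq_abs, sq_abs] at this
theorem o2_zero (h : c.Ok) : c.O2 fun _ => 0 := (sm_const h 0).mono fun _ => by simp
theorem O2.add (h : c.Ok) (hu : c.O2 u) (hv : c.O2 v) : c.O2 fun ω => u ω + v ω :=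
  Sm.le2 h hu hv (C := 2) (by norm_num) fun ω => by
    rw [← sum_add_distrib, mul_sum]
    exact sum_le_sum fun i _ => by simp only [Pi.add_apply]; nlinarith [sq_nonneg (u ω i - v ω i)]
theorem O2.bmul (hd : c.BdV d) (hv : c.O2 v) : c.O2 fun ω => d ω * v ω :=
  let ⟨C, _, hC⟩ := hd.nn
  hv.of_le (C := C) fun ω i => by
    rw [Pi.mul_apply, abs_mul]; exact mul_le_mul_of_nonneg_right (hC ω i) (abs_nonneg _)
theorem O2.smul (h : c.Ok) (hσ : c.Sc σ) (hv : c.O2 v) : c.O2 fun ω => σ ω • v ω :=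
  let ⟨C, hC⟩ := h.sc_bd hσ
  O2.bmul (d := fun ω _ => σ ω) ⟨C, fun ω _ => hC ω⟩ hv
theorem O2.neg (hv : c.O2 v) : c.O2 fun ω => -v ω := Sm.mono hv fun ω => by simp
theorem O2.sub (h : c.Ok) (hu : c.O2 u) (hv : c.O2 v) : c.O2 fun ω => u ω - v ω :=
  cg (hu.add h hv.neg) fun ω => (sub_eq_add_neg (u ω) _).symm
theorem O2.sum (h : c.Ok) {κ : Type*} (t : Finset κ) {v : κ → c.VF} (hv : ∀ k ∈ t, c.O2 (v k)) :
    c.O2 fun ω => ∑ k ∈ t, v k ω := sumP (o2_zero h) (O2.add h) t hv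
theorem O2.mulVec (hA : c.Op A) (hv : c.O2 v) : c.O2 fun ω => A ω *ᵥ v ω :=
  let ⟨C, hC⟩ := hA
  Sm.le hv (sq_nonneg C) fun ω => by
    have h1 := mulVec_dot_le (A ω) (v ω)
    simp only [dotProduct, ← sq] at h1
    exact h1.trans (mul_le_mul_of_nonneg_right
      (pow_le_pow_left₀ (opn_nonneg _) (hC ω) 2) (by positivity))
theorem O2.l4 (hb : c.BdV v) (hv : c.O2 v) : c.L4 v :=
  let ⟨C, _, hC⟩ := hb.nn
  Sm.le hv (sq_nonneg C) fun ω => by
    rw [mul_sum]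
    exact sum_le_sum fun i _ => by
      have := pow_le_pow_left₀ (abs_nonneg _) (hC ω i) 2
      rw [sq_abs] at this
      nlinarith [mul_le_mul_of_nonneg_right this (sq_nonneg (v ω i))]
theorem L4.add (h : c.Ok) (hu : c.L4 u) (hv : c.L4 v) : c.L4 fun ω => u ω + v ω :=
  Sm.le2 h hu hv (C := 8) (by norm_num) fun ω => by
    rw [← sum_add_distrib, mul_sum]
    exact sum_le_sum fun i _ => by
      simp only [Pi.add_apply]
      nlinarith [sq_nonneg (u ω i ^ 2 - v ω i ^ 2), sq_nonneg (u ω i - v ω i),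
        sq_nonneg ((u ω i - v ω i) ^ 2), mul_nonneg (sq_nonneg (u ω i - v ω i))
        (sq_nonneg (u ω i + v ω i))]

theorem hs_zero (h : c.Ok) : c.HS fun _ => 0 := (sm_const h 0).mono fun _ => by simp
theorem HS.add (h : c.Ok) (hA : c.HS A) (hB : c.HS B) : c.HS fun ω => A ω + B ω :=
  Sm.le2 h hA hB (C := 2) (by norm_num) fun ω => by
    simp only [← sum_add_distrib, mul_sum]
    exact sum_le_sum fun i _ => sum_le_sum fun j _ => by
      simp only [Matrix.add_apply]; nlinarith [sq_nonneg (A ω i j - B ω i j)]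
theorem HS.transpose (hA : c.HS A) : c.HS fun ω => (A ω)ᵀ := Sm.mono hA fun _ => sum_comm.le
theorem HS.lmul (hA : c.Op A) (hM : c.HS M) : c.HS fun ω => A ω * M ω :=
  let ⟨C, hC⟩ := hA
  Sm.le hM (sq_nonneg C) fun ω => by
    rw [sum_comm, sum_comm (f := fun i j => M ω i j ^ 2), mul_sum]
    refine sum_le_sum fun j _ => ?_
    have h1 := mulVec_dot_le (A ω) (fun i => M ω i j)
    simp only [dotProduct, ← sq] at h1
    exact h1.trans (mul_le_mul_of_nonneg_right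
      (pow_le_pow_left₀ (opn_nonneg _) (hC ω) 2) (by positivity))
theorem HS.rmul (hM : c.HS M) (hA : c.Op A) : c.HS fun ω => M ω * A ω :=
  cg (HS.lmul hA.transpose hM.transpose).transpose fun _ => by
    beta_reduce; rw [transpose_mul, transpose_transpose, transpose_transpose]
theorem HS.smul (h : c.Ok) (hσ : c.Sc σ) (hM : c.HS M) : c.HS fun ω => σ ω • M ω :=
  cg (HS.lmul (op_one.smul h hσ) hM) fun _ => by beta_reduce; rw [Matrix.smul_mul, Matrix.one_mul]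
theorem HS.neg (hA : c.HS A) : c.HS fun ω => -A ω := Sm.mono hA fun ω => by simp
theorem HS.sub (h : c.Ok) (hA : c.HS A) (hB : c.HS B) : c.HS fun ω => A ω - B ω :=
  cg (hA.add h hB.neg) fun ω => (sub_eq_add_neg (A ω) _).symm
theorem HS.diag (hA : c.HS A) : c.O2 fun ω => (A ω).diag :=
  Sm.mono hA fun ω => sum_le_sum fun i _ =>
    single_le_sum (f := fun j => A ω i j ^ 2) (fun _ _ => sq_nonneg _) (mem_univ i)
theorem HS.mulVec (hA : c.HS A) (hv : c.BdV v) : c.O2 fun ω => (A ω * diagonal (v ω)).diag :=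
  (hA.rmul hv.op).diag
theorem O2.diagonal (hv : c.O2 v) : c.HS fun ω => diagonal (v ω) :=
  Sm.mono hv fun ω => le_of_eq (sum_congr rfl fun i _ => by
    beta_reduce
    rw [sum_eq_single i (fun j _ hj => by rw [diagonal_apply_ne' _ hj]; simp) (by simp),
      diagonal_apply_eq])

theorem Of4.of_le (hB : c.Of4 B) {C : ℝ} (e : ∀ ω i j, i ≠ j → |A ω i j| ≤ C * |B ω i j|) :
    c.Of4 A :=
  Sm.le hB (C := C ^ 4) (by positivity) fun ω => by
    simp only [mul_sum]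
    exact sum_le_sum fun i _ => sum_le_sum fun j _ => by
      split_ifs with hij
      · simp
      · have := pow_le_pow_left₀ (abs_nonneg _) (e ω i j hij) 4
        rwa [mul_pow, Even.pow_abs (by decide), Even.pow_abs (by decide)] at this
theorem Of4.add (h : c.Ok) (hA : c.Of4 A) (hB : c.Of4 B) : c.Of4 fun ω => A ω + B ω :=
  Sm.le2 h hA hB (C := 8) (by norm_num) fun ω => by
    simp only [← sum_add_distrib, mul_sum]
    exact sum_le_sum fun i _ => sum_le_sum fun j _ => by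
      split_ifs
      · simp
      · simp only [Matrix.add_apply]
        nlinarith [sq_nonneg (A ω i j ^ 2 - B ω i j ^ 2), sq_nonneg (A ω i j - B ω i j),
          sq_nonneg ((A ω i j - B ω i j) ^ 2), mul_nonneg (sq_nonneg (A ω i j - B ω i j))
          (sq_nonneg (A ω i j + B ω i j))]
theorem Of4.transpose (hA : c.Of4 A) : c.Of4 fun ω => (A ω)ᵀ :=
  Sm.mono hA fun _ => by beta_reduce; rw [sum_comm]; simp only [eq_comm, transpose_apply, le_refl]
theorem HS.of4 (hb : c.BdE A) (hA : c.HS A) : c.Of4 A :=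
  let ⟨C, _, hC⟩ := hb.nn
  Sm.le hA (sq_nonneg C) fun ω => by
    simp only [mul_sum]
    exact sum_le_sum fun i _ => sum_le_sum fun j _ => by
      have := pow_le_pow_left₀ (abs_nonneg _) (hC ω i j) 2
      rw [sq_abs] at this
      split_ifs
      · positivity
      · nlinarith [mul_le_mul_of_nonneg_right this (sq_nonneg (A ω i j))]

theorem of4_vk (h : c.Ok) {l : List c.VF} (hl : c.Lt l) : c.Of4 (c.vk l) := by
  rcases List.eq_nil_or_concat' l with rfl | ⟨l, a, rfl⟩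
  · refine (sm_const h 0).mono fun ω => le_of_eq (sum_eq_zero fun i _ => sum_eq_zero fun j _ => ?_)
    split_ifs with hij
    · rfl
    · simp [hij]
  · obtain ⟨C, -, hC⟩ := BdV.nn (h.bl_bd (lt_cons.1 (lt_append.1 hl).2).1)
    have h1 : c.Of4 (c.wk l) := (four_wk h (lt_append.1 hl).1).mono fun ω =>
      sum_le_sum fun i _ => sum_le_sum fun j _ => by
        split_ifs
        · positivity
        · exact le_rfl
    exact h1.of_le (C := C) fun ω i j _ => by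
      rw [vk_snoc, mul_diagonal, abs_mul, mul_comm]
      exact mul_le_mul_of_nonneg_right (hC ω j) (abs_nonneg _)

/-- **(U2)** -/
theorem Sp.of4 (h : c.Ok) (m : c.Md P) (hA : c.Sp P A) : c.Of4 A := by
  induction hA with
  | word h1 h2 h3 =>
    obtain ⟨C, hC⟩ := (Sv.term h1 h2).bd h m
    exact (of4_vk h h3).of_le (C := C) fun ω i j _ => by
      rw [Matrix.smul_apply, diagonal_mul, smul_eq_mul, ← mul_assoc, abs_mul]
      exact mul_le_mul_of_nonneg_right (hC ω i) (abs_nonneg _)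
  | add _ _ h1 h2 => exact h1.add h h2

theorem o2_word (h : c.Ok) {l : List c.VF} (hσ : c.Sc σ) (hd : c.BL d) (hl : c.Lt l) (h0 : l ≠ []) :
    c.O2 fun ω => (σ ω • (diagonal (d ω) * c.vk l ω)).diag :=
  cg ((O2.bmul (h.bl_bd hd) (o2_vk h hl h0)).smul h hσ) fun _ => by
    ext i; simp [diagonal_mul]

theorem CW.o2 (h : c.Ok) (hA : c.CW A) : c.O2 fun ω => (A ω).diag := by
  induction hA with
  | right h1 h2 h3 =>
    exact cg ((o2_vk h (h3.snoc h2) (by simp)).smul h h1) fun ω => by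
      beta_reduce; rw [vk_snoc, diag_smul]
  | left h1 h2 h3 => exact cg (o2_word h h1 h2 (h3.snoc h.one) (by simp)) fun ω => by beta_reduce; rw [wk_eq]
  | add _ _ h1 h2 => exact h1.add h h2

/-! ### structured part plus small part -/

variable (c) in
/-- `MK = Kp Th`, `PK = Kp Sc` -/
def Kp (P : (Ω → ℝ) → Prop) (M : c.MF) : Prop := ∃ B, c.Sp P B ∧ c.HS fun ω => M ω - B ω
variable (c) in
/-- `VK = Kv Th`, `SK = Kv Sc` -/
def Kv (P : (Ω → ℝ) → Prop) (v : c.VF) : Prop := ∃ u, c.Sv P u ∧ c.O2 fun ω => v ω - u ω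

theorem Sv.kv (h : c.Ok) (hu : c.Sv P u) : c.Kv P u := ⟨u, hu, cg (o2_zero h) fun _ => (sub_self _).symm⟩
theorem O2.kv (h : c.Ok) (m : c.Md P) (hu : c.O2 u) : c.Kv P u :=
  ⟨_, Sv.zero h m, cg hu fun _ => (sub_zero _).symm⟩
theorem Kv.add (h : c.Ok) (hu : c.Kv P u) (hv : c.Kv P v) : c.Kv P fun ω => u ω + v ω :=
  let ⟨_, a1, a2⟩ := hu; let ⟨_, b1, b2⟩ := hv
  ⟨_, a1.add b1, cg (a2.add h b2) fun _ => by beta_reduce; abel⟩
theorem Kv.smul (h : c.Ok) (m : c.Md P) (hσ : c.Sc σ) (hu : c.Kv P u) : c.Kv P fun ω => σ ω • u ω :=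
  let ⟨_, a1, a2⟩ := hu; ⟨_, a1.smul m hσ, cg (a2.smul h hσ) fun _ => smul_sub _ _ _⟩
theorem Kv.neg (h : c.Ok) (m : c.Md P) (hu : c.Kv P u) : c.Kv P fun ω => -u ω :=
  cg (hu.smul h m (h.sc_const (-1))) fun ω => neg_one_smul ℝ (u ω)
theorem Kv.sub (h : c.Ok) (m : c.Md P) (hu : c.Kv P u) (hv : c.Kv P v) :
    c.Kv P fun ω => u ω - v ω := cg (hu.add h (hv.neg h m)) fun ω => (sub_eq_add_neg (u ω) _).symm
theorem Kv.sum (h : c.Ok) (m : c.Md P) {κ : Type*} (t : Finset κ) {v : κ → c.VF}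
    (hv : ∀ k ∈ t, c.Kv P (v k)) : c.Kv P fun ω => ∑ k ∈ t, v k ω :=
  sumP ((Sv.zero h m).kv h) (Kv.add h) t hv
theorem Kv.blmul (h : c.Ok) (hd : c.BL d) (hu : c.Kv P u) : c.Kv P fun ω => d ω * u ω :=
  let ⟨_, a1, a2⟩ := hu; ⟨_, a1.blmul h hd, cg (O2.bmul (h.bl_bd hd) a2) fun _ => mul_sub _ _ _⟩
theorem Kv.mul (h : c.Ok) (m : c.Md P) (hu : c.Kv c.Sc u) (hb : c.BdV v) (hv : c.Kv P v) :
    c.Kv P fun ω => u ω * v ω :=
  let ⟨_, a1, a2⟩ := hu; let ⟨_, b1, b2⟩ := hv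
  ⟨_, a1.mul h m b1, cg ((O2.bmul hb a2).add h (O2.bmul (a1.bd h h.md) b2)) fun _ => by ring⟩
theorem Kv.sk (m : c.Md P) (hu : c.Kv P u) : c.Kv c.Sc u :=
  let ⟨_, a1, a2⟩ := hu; ⟨_, a1.mono m.sc, a2⟩
theorem Kv.l4 (h : c.Ok) (hb : c.BdV v) (hv : c.Kv c.Th v) : c.L4 v :=
  let ⟨_, a1, a2⟩ := hv
  cg ((a1.l4 h).add h (O2.l4 (hb.sub (a1.bd h h.th)) a2)) fun _ => by abel

/-- **(U1)** -/
theorem Sp.diag (h : c.Ok) (m : c.Md P) (hA : c.Sp P A) : c.Kv P fun ω => (A ω).diag := by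
  induction hA with
  | @word σ d l h1 h2 h3 =>
    by_cases h0 : l = []
    · subst h0
      exact cg ((Sv.term h1 h2).kv h) fun _ => by ext i; simp
    · exact (o2_word h (m.sc h1) h2 h3 h0).kv h m
  | add _ _ h1 h2 => exact h1.add h h2

theorem Sp.kp (h : c.Ok) (hA : c.Sp P A) : c.Kp P A := ⟨A, hA, cg (hs_zero h) fun _ => (sub_self _).symm⟩
theorem HS.kp (h : c.Ok) (m : c.Md P) (hA : c.HS A) : c.Kp P A :=
  ⟨_, Sp.zero h m, cg hA fun _ => (sub_zero _).symm⟩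
theorem Kp.add (h : c.Ok) (hA : c.Kp P A) (hB : c.Kp P B) : c.Kp P fun ω => A ω + B ω :=
  let ⟨_, a1, a2⟩ := hA; let ⟨_, b1, b2⟩ := hB
  ⟨_, a1.add b1, cg (a2.add h b2) fun _ => by beta_reduce; abel⟩
theorem Kp.smul (h : c.Ok) (m : c.Md P) (hσ : c.Sc σ) (hA : c.Kp P A) : c.Kp P fun ω => σ ω • A ω :=
  let ⟨_, a1, a2⟩ := hA; ⟨_, a1.smul m hσ, cg (a2.smul h hσ) fun _ => smul_sub _ _ _⟩
theorem Kp.neg (h : c.Ok) (m : c.Md P) (hA : c.Kp P A) : c.Kp P fun ω => -A ω :=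
  cg (hA.smul h m (h.sc_const (-1))) fun ω => neg_one_smul ℝ (A ω)
theorem Kp.sub (h : c.Ok) (m : c.Md P) (hA : c.Kp P A) (hB : c.Kp P B) :
    c.Kp P fun ω => A ω - B ω := cg (hA.add h (hB.neg h m)) fun ω => (sub_eq_add_neg (A ω) _).symm
theorem Kp.sum (h : c.Ok) (m : c.Md P) {κ : Type*} (t : Finset κ) {A : κ → c.MF}
    (hA : ∀ k ∈ t, c.Kp P (A k)) : c.Kp P fun ω => ∑ k ∈ t, A k ω :=
  sumP ((Sp.zero h m).kp h) (Kp.add h) t hA
theorem Kp.pk (m : c.Md P) (hA : c.Kp P A) : c.Kp c.Sc A :=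
  let ⟨_, a1, a2⟩ := hA; ⟨_, a1.pr m, a2⟩
theorem Kp.transpose (h : c.Ok) (m : c.Md P) (hA : c.Kp P A) : c.Kp P fun ω => (A ω)ᵀ :=
  let ⟨_, a1, a2⟩ := hA; ⟨_, a1.transpose h m, a2.transpose⟩
theorem Kp.kmul (h : c.Ok) (m : c.Md P) (hA : c.Kp c.Sc A) (ho : c.Op A) (hM : c.Kp P M) :
    c.Kp P fun ω => A ω * M ω :=
  let ⟨_, a1, a2⟩ := hA; let ⟨_, b1, b2⟩ := hM
  ⟨_, a1.lmul h m b1, cg ((HS.lmul ho b2).add h (a2.rmul (b1.op h m))) fun _ => by
    simp only [Matrix.mul_sub, Matrix.sub_mul]; abel⟩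
theorem Kp.mulk (h : c.Ok) (m : c.Md P) (hM : c.Kp P M) (hA : c.Kp c.Sc A) (ho : c.Op A) :
    c.Kp P fun ω => M ω * A ω :=
  cg (((hA.transpose h h.md).kmul h m ho.transpose (hM.transpose h m)).transpose h m) fun _ => by
    beta_reduce; rw [transpose_mul, transpose_transpose, transpose_transpose]
theorem Kp.lmul (h : c.Ok) (m : c.Md P) (hA : c.PR A) (hM : c.Kp P M) : c.Kp P fun ω => A ω * M ω :=
  (hA.kp h).kmul h m (hA.op h h.md) hM
theorem Kp.rmul (h : c.Ok) (m : c.Md P) (hM : c.Kp P M) (hA : c.PR A) : c.Kp P fun ω => M ω * A ω :=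
  hM.mulk h m (hA.kp h) (hA.op h h.md)
theorem Kp.diag (h : c.Ok) (m : c.Md P) (hA : c.Kp P A) : c.Kv P fun ω => (A ω).diag :=
  let ⟨_, a1, a2⟩ := hA
  cg ((a1.diag h m).add h (a2.diag.kv h m)) fun _ => by beta_reduce; rw [diag_sub]; abel
theorem Kv.diagonal (h : c.Ok) (m : c.Md P) (hv : c.Kv P v) : c.Kp P fun ω => diagonal (v ω) :=
  let ⟨_, a1, a2⟩ := hv
  ⟨_, a1.diagonal h m, cg a2.diagonal fun _ => (diagonal_sub _ _).symm⟩
theorem Kp.of4 (h : c.Ok) (m : c.Md P) (hb : c.BdE A) (hA : c.Kp P A) : c.Of4 A :=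
  let ⟨_, a1, a2⟩ := hA
  cg ((a1.of4 h m).add h (HS.of4 (hb.sub (a1.op h m).bdE) a2)) fun _ => by abel

/-- a matrix whose off-diagonal part is small -/
theorem Kp.of_off (h : c.Ok) (m : c.Md P) (hd : c.Kv P fun ω => (A ω).diag)
    (ho : c.Sm fun ω => ∑ i, ∑ j, if i = j then 0 else A ω i j ^ 2) : c.Kp P A := by
  have h1 : c.HS fun ω => A ω - diagonal (A ω).diag := ho.mono fun ω =>
    le_of_eq (sum_congr rfl fun i _ => sum_congr rfl fun j _ => by
      split_ifs with hij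
      · subst hij; simp
      · simp only [Matrix.sub_apply, diagonal_apply_ne _ hij, sub_zero])
  exact cg ((hd.diagonal h m).add h (h1.kp h m)) fun _ => by abel

/-- entrywise products -/
theorem Kp.had (h : c.Ok) (m : c.Md P) (hA : c.Of4 A) (hB : c.Of4 B)
    (ha : c.Kv c.Sc fun ω => (A ω).diag) (hb : c.BdE B) (hb' : c.Kv P fun ω => (B ω).diag) :
    c.Kp P fun ω => A ω ⊙ B ω :=
  Kp.of_off h m (ha.mul h m hb.diag hb') (Sm.le2 h hA hB zero_le_one fun ω => by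
    simp only [← sum_add_distrib, one_mul]
    exact sum_le_sum fun i _ => sum_le_sum fun j _ => by
      split_ifs
      · simp
      · rw [hadamard_apply]; nlinarith [sq_nonneg (A ω i j ^ 2 - B ω i j ^ 2)])

end Cx

end Crest.Agent.T157.S3W

end
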