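import Crest.Agent.T157.S3BilB_89
import Crest.Agent.T157.S3X_43

/-!
# Row 157, block S3 (helper89): (BIL) for a multiplier which is close to a divergence
-/

set_option autoImplicit false
set_option linter.unusedSectionVars false

noncomputable section

namespace Crest.Agent.T157.S3B

open Matrix Finset
open Crest.Agent.T157.E (Cube sv prob)
open Crest.Agent.T157.Eig Crest.Agent.T157.Uw Crest.Agent.T157.S3F Crest.Agent.T157.S3W
open Crest.Agent.T157.Rec (grad fl)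
open Crest.Agent.T157.Chain22 (mean IsP)

section ex
variable {ι : Type*} [Fintype ι] [DecidableEq ι]

/-- the excess over the level `η` -/
def ex (η : ℝ) (r : ι → ℝ) : ℝ := ∑ k, max (|r k| - η) 0 ^ 2

lemma ex_nonneg (η : ℝ) (r : ι → ℝ) : 0 ≤ ex η r := sum_nonneg fun _ _ => sq_nonneg _

lemma nrm_mono {u v : ι → ℝ} (h : ∀ i, |u i| ≤ |v i|) : nrm u ≤ nrm v := by
  refine Real.sqrt_le_sqrt (sum_le_sum fun i _ => ?_)
  rw [← sq, ← sq]
  exact sq_le_sq.2 (h i)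

lemma nrm_mul_le {w : ι → ℝ} {b : ℝ} (hb : 0 ≤ b) (hw : ∀ i, |w i| ≤ b) (u : ι → ℝ) :
    nrm (w * u) ≤ b * nrm u := by
  refine (nrm_mono (v := b • u) fun i => ?_).trans (le_of_eq ?_)
  · rw [Pi.mul_apply, Pi.smul_apply, smul_eq_mul, abs_mul, abs_mul, abs_of_nonneg hb]
    exact mul_le_mul_of_nonneg_right (hw i) (abs_nonneg _)
  · rw [nrm_smul, abs_of_nonneg hb]

lemma nrm_mul_ex {w : ι → ℝ} {b η : ℝ} (hb : 0 ≤ b) (hw : ∀ i, |w i| ≤ b) (hη : 0 ≤ η) (r : ι → ℝ) :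
    nrm (w * r) ≤ η * nrm w + b * √(ex η r) := by
  have h1 : nrm (w * r) ≤ nrm (η • (fun i => |w i|) + w * fun i => max (|r i| - η) 0 * SignType.sign (w i)) :=
    nrm_mono fun i => by
      have h2 : w i * (max (|r i| - η) 0 * SignType.sign (w i)) = |w i| * max (|r i| - η) 0 := by
        rw [← sign_mul_self (w i)]; ring
      simp only [Pi.mul_apply, Pi.add_apply, Pi.smul_apply, smul_eq_mul, h2, abs_mul]
      refine le_trans ?_ (le_abs_self _)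
      nlinarith [mul_le_mul_of_nonneg_left (le_max_left (|r i| - η) 0) (abs_nonneg (w i))]
  refine h1.trans ((nrm_add_le _ _).trans (add_le_add ?_ ((nrm_mul_le hb hw _).trans ?_)))
  · rw [nrm_smul, abs_of_nonneg hη]
    exact mul_le_mul_of_nonneg_left (nrm_mono fun i => (abs_abs _).le) hη
  · refine mul_le_mul_of_nonneg_left (Real.sqrt_le_sqrt (sum_le_sum fun i _ => ?_)) hb
    rw [← sq, mul_pow]
    refine mul_le_of_le_one_right (sq_nonneg _) ?_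
    rcases lt_trichotomy (w i) 0 with h | h | h <;> simp [h]

lemma abs_dot_ex {η : ℝ} (hη : 0 ≤ η) (w r : ι → ℝ) :
    |w ⬝ᵥ r| ≤ nrm w * (η * √(Fintype.card ι) + √(ex η r)) := by
  have := nrm_mul_ex (w := 1) zero_le_one (fun i => by simp) hη r
  rw [one_mul, one_mul, nrm_one] at this
  exact (abs_dot_le _ _).trans (mul_le_mul_of_nonneg_left this (nrm_nonneg w))

lemma mean_nrm_mul {Ω : Type*} [Fintype Ω] {π : Ω → ℝ} (h : IsP π) {w : ι → ℝ} {b η : ℝ} (hb : 0 ≤ b)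
    (hw : ∀ i, |w i| ≤ b) (hη : 0 ≤ η) (u : Ω → ι → ℝ) : mean π (fun x => nrm (w * u x)) ≤
      η * nrm w + b * √(ex η fun k => √(mean π fun x => u x k ^ 2)) := by
  refine le_trans ?_ (nrm_mul_ex hb hw hη _)
  refine mean_le_sqrt h (le_of_eq ?_)
  simp only [nrm_sq, dotProduct, Pi.mul_apply]
  rw [Ent.mean_sum']
  refine sum_congr rfl fun k _ => ?_
  rw [mul_mul_mul_comm _ (√_), Real.mul_self_sqrt (h.mean_nonneg fun x => sq_nonneg _),
    ← Ent.mean_const_mul]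
  exact Ent.mean_congr fun x => by ring

end ex

variable {I : Type*} {n : I → ℕ} {s K : I → ℝ} {J : ∀ a, Matrix (Fin (n a)) (Fin (n a)) ℝ}
  {BL : (∀ ω : Pt n, Fin (n ω.1) → ℝ) → Prop} {Sc Th : (Pt n → ℝ) → Prop} {μ : ∀ a, Cube (n a) → ℝ}

/-- the divergences of the rows -/
def dvF (μ : ∀ a, Cube (n a) → ℝ) (T : ∀ ω : Pt n, Matrix (Fin (n ω.1)) (Fin (n ω.1)) ℝ) (ω : Pt n) :
    Fin (n ω.1) → ℝ := fun i => dv (μ ω.1) (fun y k => T ⟨ω.1, y⟩ i k) ω.2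

/-- the mean norm of an `O₂` vector -/
theorem mean_o2 (h : (mkC n s K J BL Sc Th).Ok) (hμ : ∀ a x, 0 < μ a x)
    (hTh : ∀ θ, Th θ → ∃ C, ∀ a, n a * mean (prob (μ a)) (fun x => θ ⟨a, x⟩ ^ 4) ≤ C)
    {u : (mkC n s K J BL Sc Th).VF} (hu : (mkC n s K J BL Sc Th).O2 u) :
    ∃ C, 0 ≤ C ∧ ∀ a, mean (prob (μ a)) (fun x => nrm (u ⟨a, x⟩)) ≤ C * √(K a) := by
  obtain ⟨C, C0, hC⟩ := mean_sm h hμ hTh hu
  refine ⟨√C, Real.sqrt_nonneg _, fun a => ?_⟩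
  rw [← Real.sqrt_mul C0]
  refine mean_le_sqrt (Chain22.isP_prob' (hμ a)) (le_trans (le_of_eq ?_) (hC a))
  simp only [nrm_sq]
  simp only [dotProduct, sq]

/-- **(BIL)** for a multiplier `ρ` which is close to `A`, where `A` is close to a divergence -/
theorem bil_R (h : (mkC n s K J BL Sc Th).Ok) (hμ : ∀ a x, 0 < μ a x)
    (hTh : ∀ θ, Th θ → ∃ C, ∀ a, n a * mean (prob (μ a)) (fun x => θ ⟨a, x⟩ ^ 4) ≤ C) (hP : LP μ)
    {T : (mkC n s K J BL Sc Th).MF} (hF : ∀ a (i : Fin (n a)), Free fun x k => T ⟨a, x⟩ i k)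
    (hT : (mkC n s K J BL Sc Th).Op T) (hT0 : (mkC n s K J BL Sc Th).PK T) (hD : BL (DF μ))
    (hj : ∀ u, BL u → (mkC n s K J BL Sc Th).Op (jacF u) ∧ (mkC n s K J BL Sc Th).PK (jacF u))
    {A : (mkC n s K J BL Sc Th).VF}
    (hA : ∃ C, ∀ a, mean (prob (μ a)) (fun x => nrm (dvF μ T ⟨a, x⟩ - A ⟨a, x⟩)) ≤ C * √(K a))
    {m : List (mkC n s K J BL Sc Th).VF} (hm : (mkC n s K J BL Sc Th).Lt m) {C0 : ℝ} (c0 : 0 ≤ C0)
    (hC0 : ∀ ω, opn ((mkC n s K J BL Sc Th).vk m ω) ≤ C0) {e : ℝ} (he : 0 < e) :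
    ∃ (C : ℝ) (D : List (mkC n s K J BL Sc Th).VF), 0 ≤ C ∧ (mkC n s K J BL Sc Th).Lt D ∧
      ∀ a (ρ : Cube (n a) → Fin (n a) → ℝ) (w z : Fin (n a) → ℝ) (b η : ℝ), 0 ≤ b → (∀ i, |w i| ≤ b) →
        0 ≤ η → |mean (prob (μ a)) fun x => (w * ρ x) ⬝ᵥ (mkC n s K J BL Sc Th).vk m ⟨a, x⟩ *ᵥ z| ≤
          nrm z * (e * nrm w +
            C * (√(K a) * b + |s a| * nrm w + |s a| * (D.map fun d => |w ⬝ᵥ mF μ d a|).sum) +
            C0 * (η * nrm w + b * √(ex η fun k =>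
              √(mean (prob (μ a)) fun x => (A ⟨a, x⟩ k - ρ x k) ^ 2)))) := by
  have hTD : (mkC n s K J BL Sc Th).PK fun ω => T ω * diagonal (DF μ ω) :=
    Cx.Kp.rmul h h.md hT0 (Cx.pr_diag h hD)
  obtain ⟨C, D, c1, hD', hC⟩ := bil_T h hμ hTh hP hF hT hTD (fun u hu => ⟨(hj u hu).1,
    Cx.Kp.of4 h h.md (hj u hu).1.bdE (hj u hu).2,
    Cx.Kp.mulk h h.md hTD (Cx.Kp.transpose h h.md (hj u hu).2) (hj u hu).1.transpose⟩) hm he
  obtain ⟨C1, hC1⟩ := hA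
  refine ⟨C + C0 * |C1|, D, by positivity, hD', fun a ρ w z b η hb hw hη => ?_⟩
  have hP := Chain22.isP_prob' (hμ a)
  have h1 := hC a w z b hb hw
  have h2 := mean_nrm_mul hP hb hw hη fun x => A ⟨a, x⟩ - ρ x
  have h3 := (hC1 a).trans (mul_le_mul_of_nonneg_right (le_abs_self C1) (Real.sqrt_nonneg _))
  have z0 := nrm_nonneg z
  have h4 : |mean (prob (μ a)) fun x => (w * (dvF μ T ⟨a, x⟩ - ρ x)) ⬝ᵥ
      (mkC n s K J BL Sc Th).vk m ⟨a, x⟩ *ᵥ z| ≤ mean (prob (μ a)) fun x => C0 * nrm z *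
        (b * nrm (dvF μ T ⟨a, x⟩ - A ⟨a, x⟩) + nrm (w * (A ⟨a, x⟩ - ρ x))) := by
    refine (abs_sum_le_sum_abs _ _).trans (sum_le_sum fun x _ => ?_)
    rw [abs_mul, abs_of_nonneg (hP.nn x)]
    refine mul_le_mul_of_nonneg_left ((abs_dot_le _ _).trans ?_) (hP.nn x)
    rw [mul_comm]
    refine mul_le_mul ((nrm_mulVec_le _ _).trans (mul_le_mul_of_nonneg_right (hC0 _) z0)) ?_
      (nrm_nonneg _) (mul_nonneg c0 z0)
    refine le_trans (le_of_eq ?_) ((nrm_add_le _ _).trans (add_le_add (nrm_mul_le hb hw _) le_rfl))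
    rw [← mul_add, sub_add_sub_cancel]
  rw [Ent.mean_const_mul, Ent.mean_add', Ent.mean_const_mul] at h4
  have e1 : (mean (prob (μ a)) fun x => (w * ρ x) ⬝ᵥ (mkC n s K J BL Sc Th).vk m ⟨a, x⟩ *ᵥ z) =
      (mean (prob (μ a)) fun x => ∑ i, w i * dv (μ a) (fun y k => T ⟨a, y⟩ i k) x *
        ((mkC n s K J BL Sc Th).vk m ⟨a, x⟩ *ᵥ z) i) - mean (prob (μ a)) fun x =>
        (w * (dvF μ T ⟨a, x⟩ - ρ x)) ⬝ᵥ (mkC n s K J BL Sc Th).vk m ⟨a, x⟩ *ᵥ z := by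
    rw [← Ent.mean_sub']
    refine Ent.mean_congr fun x => ?_
    rw [dotProduct, dotProduct, ← sum_sub_distrib]
    exact sum_congr rfl fun i _ => by simp only [dvF, Pi.mul_apply, Pi.sub_apply]; ring
  rw [e1]
  refine (abs_sub _ _).trans ((add_le_add h1 (h4.trans (mul_le_mul_of_nonneg_left
    (add_le_add (mul_le_mul_of_nonneg_left h3 hb) h2) (mul_nonneg c0 z0)))).trans ?_)
  have p2 : 0 ≤ |s a| * nrm w := mul_nonneg (abs_nonneg _) (nrm_nonneg w)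
  have p3 := mul_nonneg (abs_nonneg (s a)) (sum_abs_nonneg D fun d => w ⬝ᵥ mF μ d a)
  have q : 0 ≤ nrm z * (C0 * |C1|) := by positivity
  simp only [Pi.sub_apply]
  nlinarith [mul_nonneg q p2, mul_nonneg q p3]

end Crest.Agent.T157.S3B
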