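import Crest.Agent.T157.S3Def_69
import Crest.Agent.T157.S3BilC_89

/-!
# Row 157, block S3 (helper89): **(BIL)**
-/

set_option autoImplicit false

noncomputable section

namespace Crest.Agent.T157.S3.Bil89

open Matrix Filter Finset
open Crest.Agent.T157.E (Cube sv ising prob)
open Crest.Agent.T157.Rec (grad fl)
open Crest.Agent.T157.Eig Crest.Agent.T157.S3B
open Crest.Agent.T157.Chain22 (IsP mean)
open Crest.Agent.T157.S3F (tm dv Free tm_ising)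
open Crest.Agent.T157.S3W (Cx)
open Crest.Agent.T157.S3.Fam

variable {F : Fam} {N : ℕ} {R : Net F N}

lemma w_pos (i : F.I) (x : Cube (F.n i)) : 0 < F.w i x := Real.exp_pos _

lemma isP (i : F.I) : IsP (prob (F.w i)) := Chain22.isP_prob' (w_pos i)

lemma n_pos (hF : F.Ok) (i : F.I) : (0 : ℝ) < F.n i := Nat.cast_pos.2 (hF.pos i)

lemma tm_w (hF : F.Ok) (ω : F.Ω) (j : Fin (F.n ω.1)) :
    tm (F.w ω.1) ω.2 j = Real.tanh (hf (F.J ω.1) (F.y ω.1) ω.2 j) := by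
  rw [Fam.w, tm_ising (hF.symm _)]
  simp [Da.Gr.tt, Da.Gr.loc, hf, hF.diag]

lemma DF_eq (hF : F.Ok) (hR : R.Ok) : DF F.w = R.ev R.D := by
  funext ω k
  simp only [DF, tm_w hF, Net.ev, Net.D, Net.th, Pi.sub_apply, Pi.mul_apply, Pi.one_apply, hR.X0, sq,
    add_sub_cancel]

lemma D_mem (hR : R.Ok) : R.D ∈ R.C := by
  have := hR.add _ hR.one _ (hR.smul (-1) _ (hR.mul _ hR.th _ hR.th))
  rwa [neg_one_smul, ← sub_eq_add_neg] at this

lemma dvF_eq (hF : F.Ok) (T : F.Mf) (ω : F.Ω) : dvF F.w T ω = T ω *ᵥ F.τ ω := by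
  funext i
  simp only [dvF, dv, tm_w hF ω, mulVec, dotProduct, Fam.τ, tau]
  exact sum_congr rfl fun j _ => mul_comm _ _

lemma dsn {n : ℕ} (v : V n) : 0 ≤ v ⬝ᵥ v := sum_nonneg fun _ _ => mul_self_nonneg _

lemma sq_fl {n : ℕ} (f : Cube n → ℝ) (x : Cube n) (i : Fin n) :
    (f x - f (fl x i)) ^ 2 = 4 * (grad f x i * grad f x i) := by
  rw [Rec.grad_eq]
  linear_combination (-(f x - f (fl x i)) ^ 2) * Rec.sv_mul_self x i

/-- Poincare's inequality for Lipschitz functions -/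
theorem lp (hb : HBStmt) (hF : F.Ok) : LP F.w := by
  obtain ⟨K0, κ0, hκ, h⟩ := hF.hAT
  obtain ⟨C, c, c0, hC⟩ := hb K0 κ0 0 hκ
  refine ⟨5 * |C|, fun i G A hA => ?_⟩
  have h1 := ((hC _ _ (w_pos i) (h i)).2.1 G (4 * A) fun x => by
    simp only [sq_fl, ← mul_sum]
    exact mul_le_mul_of_nonneg_left (hA x) (by norm_num)).1
  have A0 : 0 ≤ A := (dsn _).trans (hA default)
  have h2 : E.mean (F.w i) (fun x => grad G x ⬝ᵥ grad G x) ≤ A :=
    ((isP i).mean_mono hA).trans_eq ((isP i).mean_const A)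
  have h3 : 0 ≤ E.mean (F.w i) fun x => grad G x ⬝ᵥ grad G x :=
    (isP i).mean_nonneg fun x => dsn _
  have h4 : Real.exp (-(c * F.n i)) ≤ 1 := Real.exp_le_one_iff.2 (neg_nonpos.2 (by positivity))
  have h5 := (Real.exp_pos (-(c * F.n i))).le
  have h6 := mul_le_mul (le_abs_self C) h2 h3 (abs_nonneg C)
  have h7 := mul_le_mul (le_abs_self C) (mul_le_of_le_one_right A0 h4) (mul_nonneg A0 h5) (abs_nonneg C)
  refine le_trans (le_of_eq rfl) (h1.trans ?_)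
  linarith

theorem th_sq (hc : ClsStmt) (hF : F.Ok) {θ : F.Sf} (hθ : Th θ) :
    ∃ C, ∀ i, F.n i * mean (prob (F.w i)) (fun x => θ ⟨i, x⟩ ^ 2) ≤ C := by
  obtain ⟨C, hC⟩ := (hc F hF).2.2.1 θ hθ
  refine ⟨C, fun i => ?_⟩
  have := hC i _ (isP i)
  rwa [Fam.H, Ent.kl_self, zero_add, mul_one, le_div_iff₀ (n_pos hF i), mul_comm] at this

theorem th_four (hc : ClsStmt) (hF : F.Ok) (θ : F.Sf) (hθ : Th θ) :
    ∃ C, ∀ i, F.n i * mean (prob (F.w i)) (fun x => θ ⟨i, x⟩ ^ 4) ≤ C := by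
  obtain ⟨C, hC⟩ := th_sq hc hF ((hc F hF).2.1 θ θ hθ.1 hθ)
  refine ⟨C, fun i => le_trans (le_of_eq ?_) (hC i)⟩
  congr 2
  funext x
  ring

/-- mean norm of order `√K` -/
def Mn (u : F.Vf) : Prop := ∃ C, ∀ i, mean (prob (F.w i)) (fun x => nrm (u ⟨i, x⟩)) ≤ C * √(F.K i)

theorem Mn.add {u v : F.Vf} (hu : Mn u) (hv : Mn v) : Mn fun ω => u ω + v ω := by
  obtain ⟨C, hC⟩ := hu
  obtain ⟨C', hC'⟩ := hv
  refine ⟨C + C', fun i => ((isP i).mean_mono fun x => nrm_add_le _ _).trans ?_⟩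
  rw [Ent.mean_add', add_mul]
  exact add_le_add (hC i) (hC' i)

theorem Mn.mul {d u : F.Vf} (hd : R.cx.BdV d) (hu : Mn u) : Mn fun ω => d ω * u ω := by
  obtain ⟨C, hC⟩ := hu
  obtain ⟨B, B1, hB⟩ := hd.nn
  refine ⟨B * C, fun i => ((isP i).mean_mono fun x =>
    nrm_mul_le (by linarith) (hB ⟨i, x⟩) _).trans ?_⟩
  rw [Ent.mean_const_mul, mul_assoc]
  exact mul_le_mul_of_nonneg_left (hC i) (by linarith)

theorem mn_zero : Mn (F := F) fun _ => 0 := ⟨0, fun i => by simp [mean]⟩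

theorem mn_sq (hc : ClsStmt) (hF : F.Ok) {u : F.Vf} (hu : Sq fun ω => u ω ⬝ᵥ u ω) : Mn u := by
  obtain ⟨C, hC⟩ := (hc F hF).2.2.2.1 _ hu
  refine ⟨√|C|, fun i => ?_⟩
  have := hC i _ (isP i)
  rw [Fam.H, Ent.kl_self, add_zero] at this
  rw [← Real.sqrt_mul (abs_nonneg C)]
  refine mean_le_sqrt (isP i) ?_
  simp only [nrm_sq]
  exact this.trans (mul_le_mul_of_nonneg_right (le_abs_self C) (by linarith [hF.K1 i]))

theorem mn_tv (hc : ClsStmt) (hF : F.Ok) (h : R.cx.Ok) {u : R.cx.VF} (hu : R.cx.Sv R.cx.Th u) :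
    Mn u := by
  induction hu with
  | @term θ d hθ hd =>
    obtain ⟨C, hC⟩ := th_sq hc hF hθ
    obtain ⟨B, B1, hB⟩ := Cx.BdV.nn (c := R.cx) (h.bl_bd hd)
    refine ⟨B * √C, fun i => ?_⟩
    have h1 := mean_le_sqrt (isP i) (f := fun x => √(F.n i) * |θ ⟨i, x⟩|) (A := C) (by
      simp only [mul_pow, sq_abs, Real.sq_sqrt (n_pos hF i).le]
      rw [Ent.mean_const_mul]
      exact hC i)
    have h2 : 1 ≤ √(F.K i) := Real.one_le_sqrt.2 (hF.K1 i)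
    refine ((isP i).mean_mono (g := fun x => B * (√(F.n i) * |θ ⟨i, x⟩|)) fun x => ?_).trans ?_
    · have := nrm_mul_le (by linarith) (hB ⟨i, x⟩) 1
      rw [mul_one, nrm_one, Fintype.card_fin] at this
      beta_reduce
      rw [nrm_smul]
      exact (mul_le_mul_of_nonneg_left this (abs_nonneg _)).trans_eq (by ring)
    · rw [Ent.mean_const_mul, mul_assoc]
      exact mul_le_mul_of_nonneg_left (h1.trans (le_mul_of_one_le_right (Real.sqrt_nonneg _) h2))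
        (by linarith)
  | add _ _ h1 h2 => exact h1.add h2

theorem small (hF : F.Ok) (C : ℝ) {η : ℝ} (hη : 0 < η) : ∀ᶠ i in F.l, √(C * F.K i) ≤ η * √(F.n i) := by
  have h1 : Tendsto (fun i => √(F.n i : ℝ)) F.l atTop :=
    Real.tendsto_sqrt_atTop.comp (tendsto_natCast_atTop_atTop.comp hF.lim)
  filter_upwards [hF.Ko (1 / 2) (by norm_num), h1.eventually_ge_atTop (|C| / η ^ 2)] with i h2 h3
  rw [← Real.sqrt_eq_rpow] at h2
  rw [div_le_iff₀ (by positivity)] at h3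
  refine Real.sqrt_le_iff.2 ⟨by positivity, ?_⟩
  have h4 := mul_le_mul (le_abs_self C) h2 (by linarith [hF.K1 i]) (abs_nonneg C)
  have h5 := mul_le_mul_of_nonneg_right h3 (Real.sqrt_nonneg (F.n i : ℝ))
  linarith

lemma abs_s_le (hF : F.Ok) (i : F.I) : |F.s i| ≤ 1 / √(F.n i) := by
  rw [Fam.s, abs_div, abs_of_nonneg hF.beta.1, abs_of_nonneg (Real.sqrt_nonneg _)]
  exact div_le_div_of_nonneg_right hF.beta.2 (Real.sqrt_nonneg _)

lemma pi_nonneg (D : List F.Df) (i : F.I) (w : V (F.n i)) : 0 ≤ Fam.Pi D i w :=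
  div_nonneg (sum_abs_nonneg D fun d => w ⬝ᵥ d i) (Real.sqrt_nonneg _)

/-- from the means of the letters to the types -/
theorem types (hF : F.Ok) {𝒯 : Set F.Df} (hT : R.Ty 𝒯) : ∀ {D : List F.Vf}, R.cx.Lt D → ∀ {η : ℝ}, 0 < η →
    ∃ D' : List F.Df, (∀ d ∈ D', d ∈ 𝒯) ∧ ∀ᶠ i in F.l, ∀ w : V (F.n i),
      |F.s i| * (D.map fun d => |w ⬝ᵥ mF F.w d i|).sum ≤ Fam.Pi D' i w + η * nrm w
  | [], _, η, hη => ⟨[], by simp, Eventually.of_forall fun i w => by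
      simpa [Fam.Pi] using mul_nonneg hη.le (nrm_nonneg w)⟩
  | d :: D, hD, η, hη => by
    obtain ⟨⟨g, hg, rfl⟩, hD'⟩ := Cx.lt_cons.1 hD
    obtain ⟨D', h1, h2⟩ := types hF hT hD' (half_pos hη)
    obtain ⟨t, ht, h3⟩ := hT g hg
    obtain ⟨C, hC⟩ := h3 (η / 4) (by positivity)
    refine ⟨t :: D', List.forall_mem_cons.2 ⟨ht, h1⟩, ?_⟩
    filter_upwards [h2, hC, small hF C (by positivity : 0 < η / 4)] with i h2 hC h4 w
    have q0 : 0 < √(F.n i : ℝ) := Real.sqrt_pos.2 (n_pos hF i)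
    have h5 := abs_dot_ex (by positivity : 0 ≤ η / 4) w (F.EV (R.ev g) i - t i)
    rw [Fintype.card_fin, dotProduct_sub] at h5
    have h6 := mul_le_mul_of_nonneg_left ((Real.sqrt_le_sqrt hC).trans h4) (nrm_nonneg w)
    have h7 : |w ⬝ᵥ mF F.w (R.ev g) i| ≤ |w ⬝ᵥ t i| + η / 2 * nrm w * √(F.n i) := by
      have := abs_add_le (w ⬝ᵥ t i) (w ⬝ᵥ F.EV (R.ev g) i - w ⬝ᵥ t i)
      rw [add_sub_cancel] at this
      refine le_trans (le_of_eq rfl) (this.trans ?_)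
      rw [ex] at h5
      linarith
    have h8 := mul_le_mul (abs_s_le hF i) h7 (abs_nonneg _) (by positivity)
    have e : 1 / √(F.n i : ℝ) * (|w ⬝ᵥ t i| + η / 2 * nrm w * √(F.n i)) =
      |w ⬝ᵥ t i| / √(F.n i) + η / 2 * nrm w := by field_simp
    have := h2 w
    simp only [Fam.Pi, List.map_cons, List.sum_cons, add_div, mul_add] at this ⊢
    linarith

/-- **(BIL)** -/
theorem bil (hb : HBStmt) (hc : ClsStmt) (h1 : J1Stmt) (h2 : J2Stmt) (h3 : CLStmt) : BILStmt := by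
  intro F N R 𝒯 ρ hF hR hS al0 l hal hl e he
  set m : List F.Vf := (l.map R.ev).reverse ++ [R.ev al0] with hm
  have hm0 : ∀ u ∈ m, ∃ g ∈ R.C, u = R.ev g := fun u hu => by
    rcases List.mem_append.1 hu with hu | hu
    · obtain ⟨g, hg, rfl⟩ := List.mem_map.1 (List.mem_reverse.1 hu)
      exact ⟨g, hl g hg, rfl⟩
    · exact ⟨al0, hal, List.mem_singleton.1 hu⟩
  have cx0 := (h1 F N R hF hR).1
  obtain ⟨C0, c0, hC0⟩ := Cx.nn (Cx.op_vu cx0 (l := m) hm0).1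
  have e1 : 0 < e / 4 / (C0 + 1) := by positivity
  obtain ⟨N', P, R', Φ, Γ, Pb, Z, al, a, hR', hE, hT, hΦ, hD, hL, C1, hC1⟩ := hS _ e1
  obtain ⟨cx, -, top, -, j1⟩ := h1 F N' R' hF hR'
  obtain ⟨j2, j3⟩ := h2 F N' R' hF hR'
  obtain ⟨g, c, c', -, k1, k2⟩ := h3 F N' P R' Φ Γ Pb Z hF hR' hΦ hD
  obtain ⟨g0, k2, k3⟩ := k2 al a hL
  have k4 := ((j2 P Φ hΦ).2 al a hL).2.2
  have hA : Mn fun ω => dvF F.w (Φ.tTb al a) ω - Φ.tA Pb Z al a ω := by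
    obtain ⟨C, -, hC⟩ := mean_o2 (μ := F.w) cx w_pos (th_four hc hF) k3
    have a1 : Mn fun ω => Φ.tTb al a ω *ᵥ F.τ ω - Φ.tA Pb Z al a ω -
      (g0 ω + ∑ p, R'.ev (a p) ω * c' p ω) := ⟨C, hC⟩
    have a2 : ∀ p, Mn fun ω => R'.ev (a p) ω * c' p ω := fun p =>
      Mn.mul (R := R') (cx.bl_bd ⟨a p, hL.2.2 p, rfl⟩) (mn_sq hc hF (k1 p))
    have a3 : Mn fun ω => ∑ p, R'.ev (a p) ω * c' p ω :=
      Cx.sumP (P := Mn) (A := fun p ω => R'.ev (a p) ω * c' p ω) mn_zero Mn.add univ fun p _ => a2 p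
    simpa only [sub_add_cancel, dvF_eq hF] using a1.add ((mn_tv hc hF cx k2).add a3)
  obtain ⟨C, D, c1, hD, hC⟩ := bil_R (μ := F.w) cx w_pos (th_four hc hF) (lp hb hF)
    (T := Φ.tTb al a) (fun i k x j b => (((j1 P Φ hΦ).2 al a hL).2.2 i x k j b)) k4.1 k4.2
    ⟨_, D_mem hR', DF_eq hF hR'⟩ (by
      rintro _ ⟨g, hg, rfl⟩
      exact ((j3 Γ hD.1).2 g (top g hg)).2.1) hA (m := m) (fun u hu => by
      obtain ⟨g, hg, rfl⟩ := hm0 u hu
      obtain ⟨g', hg', e⟩ := hE g hg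
      exact ⟨g', hg', e.symm⟩) c0 hC0 (by positivity : 0 < e / 4)
  have e2 : 0 < e / 4 / (C + 1) := by positivity
  obtain ⟨D', d1, d2⟩ := types hF hT hD e2
  refine ⟨D', d1, C + C0 * √|C1|, ?_⟩
  filter_upwards [hC1, d2, small hF 1 e2] with i hC1 d2 d3 z w
  have q0 : 0 < √(F.n i : ℝ) := Real.sqrt_pos.2 (n_pos hF i)
  have b1 := hC i (fun x => ρ ⟨i, x⟩) w z ‖w‖ _ (norm_nonneg w) (norm_le_pi_norm w) e1.le
  have e3 : ∀ x, (z * R.ev al0 ⟨i, x⟩) ⬝ᵥ R.W l ⟨i, x⟩ *ᵥ (w * ρ ⟨i, x⟩) =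
      (w * ρ ⟨i, x⟩) ⬝ᵥ R.cx.vk m ⟨i, x⟩ *ᵥ z := fun x => by
    rw [hm, Cx.vk_snoc, ← Cx.wk_transpose cx0, ← mulVec_mulVec, dotProduct_mulVec (w * _),
      vecMul_transpose, dotProduct_comm, Cx.wk, List.map_map]
    congr 1
    ext k
    rw [mulVec_diagonal, Pi.mul_apply, mul_comm]
  simp only [e3]
  refine le_trans (le_of_eq rfl) (b1.trans (mul_le_mul_of_nonneg_left ?_ (nrm_nonneg z)))
  have w0 := nrm_nonneg w
  have b2 : √(ex (e / 4 / (C0 + 1)) fun k : Fin (F.n i) => √(mean (prob (F.w i)) fun x =>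
      (Φ.tA Pb Z al a ⟨i, x⟩ k - ρ ⟨i, x⟩ k) ^ 2)) ≤ √|C1| * √(F.K i) := by
    rw [← Real.sqrt_mul (abs_nonneg _)]
    exact Real.sqrt_le_sqrt (le_trans hC1
      (mul_le_mul_of_nonneg_right (le_abs_self _) (by linarith [hF.K1 i])))
  have b3 : |F.s i| ≤ e / 4 / (C + 1) := by
    refine (abs_s_le hF i).trans ?_
    rw [div_le_iff₀ q0]
    exact (Real.one_le_sqrt.2 (by linarith [hF.K1 i])).trans d3
  have b4 : ∀ A : ℝ, 0 ≤ A → A * (e / 4 / (A + 1)) ≤ e / 4 := fun A hA => by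
    rw [← mul_div_assoc, div_le_iff₀ (by positivity)]
    nlinarith
  have b5 := mul_le_mul_of_nonneg_right (b4 C c1) w0
  have b6 := mul_le_mul_of_nonneg_right (b4 C0 c0) w0
  have b7 := mul_le_mul_of_nonneg_left (mul_le_mul_of_nonneg_right b3 w0) c1
  have b8 := mul_le_mul_of_nonneg_left (d2 w) c1
  have b9 := mul_le_mul_of_nonneg_left (mul_le_mul_of_nonneg_left b2 (norm_nonneg w)) c0
  have b0 := mul_nonneg (mul_nonneg c0 (Real.sqrt_nonneg |C1|)) (pi_nonneg D' i w)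
  linarith

end Bil89

theorem bilGlue : BILGlue := fun hb _ hc h1 h2 _ h3 => Bil89.bil hb hc h1 h2 h3

end Crest.Agent.T157.S3
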