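import Crest.Agent.T157.S3X_43

/-!
# Row 157, part B, block S3 (helper43): (WX), the Gram formula
-/

set_option autoImplicit false
set_option linter.unusedSectionVars false
set_option linter.unusedTactic false

noncomputable section

namespace Crest.Agent.T157.S3W

open Matrix Finset
open Crest.Agent.T157.Eig Crest.Agent.T157.Fr Crest.Agent.T157.Uw

section paths
variable {N α M : Type*} (pre : N → Finset N) (al : N → α) (a : N → N → α)

/-- sum of `F` over the words of the paths which start at `l` -/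
def ps [AddCommMonoid M] : ℕ → N → (List α → M) → M
  | 0, _, _ => 0
  | k + 1, l, F => F [al l] + ∑ m ∈ pre l, ps k m fun u => F (a l m :: u)

variable {pre al a}

theorem ps_hom {M' : Type*} [AddCommMonoid M] [AddCommMonoid M'] (g : M →+ M') :
    ∀ (k : ℕ) (l : N) (F : List α → M), ps pre al a k l (fun u => g (F u)) = g (ps pre al a k l F)
  | 0, _, _ => (map_zero g).symm
  | k + 1, l, F => by simp only [ps, map_add, map_sum, ← ps_hom g k]

theorem ps_add [AddCommMonoid M] : ∀ (k : ℕ) (l : N) (F G : List α → M),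
    ps pre al a k l (fun u => F u + G u) = ps pre al a k l F + ps pre al a k l G
  | 0, _, _, _ => (add_zero _).symm
  | k + 1, l, F, G => by simp only [ps, ps_add k, sum_add_distrib]; abel

theorem ps_zero [AddCommMonoid M] (k : ℕ) (l : N) : ps pre al a k l (fun _ => (0 : M)) = 0 :=
  ps_hom (0 : M →+ M) k l fun _ => 0

theorem ps_sum [AddCommMonoid M] {κ : Type*} (t : Finset κ) (k : ℕ) (l : N) (F : κ → List α → M) :
    ps pre al a k l (fun u => ∑ q ∈ t, F q u) = ∑ q ∈ t, ps pre al a k l (F q) := by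
  classical
  induction t using Finset.induction_on with
  | empty => simp [ps_zero]
  | insert q t hq ih => simp only [sum_insert hq, ps_add, ih]

theorem ps_congr [AddCommMonoid M] : ∀ (k : ℕ) (l : N) {F G : List α → M},
    (∀ u, u ≠ [] → F u = G u) → ps pre al a k l F = ps pre al a k l G
  | 0, _, _, _, _ => rfl
  | k + 1, l, F, G, h => by
    rw [ps, ps, h _ (by simp)]
    exact congrArg _ (sum_congr rfl fun m _ => ps_congr k m fun u _ => h _ (by simp))

theorem ps_mul [Semiring M] (x : M) (k : ℕ) (l : N) (F : List α → M) :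
    ps pre al a k l (fun u => x * F u) = x * ps pre al a k l F :=
  ps_hom (AddMonoidHom.mulLeft x) k l F

theorem ps_mul' [Semiring M] (x : M) (k : ℕ) (l : N) (F : List α → M) :
    ps pre al a k l (fun u => F u * x) = ps pre al a k l F * x :=
  ps_hom (AddMonoidHom.mulRight x) k l F

theorem ps_smul [AddCommGroup M] [Module ℝ M] (x : ℝ) (k : ℕ) (l : N) (F : List α → M) :
    ps pre al a k l (fun u => x • F u) = x • ps pre al a k l F :=
  ps_hom (DistribSMul.toAddMonoidHom M x) k l F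

theorem ps_smul' [AddCommGroup M] [Module ℝ M] (x : M) (k : ℕ) (l : N) (F : List α → ℝ) :
    ps pre al a k l (fun u => F u • x) = ps pre al a k l F • x :=
  ps_hom ((LinearMap.toSpanSingleton ℝ M x).toAddMonoidHom) k l F

theorem ps_sub [AddCommGroup M] (k : ℕ) (l : N) (F G : List α → M) :
    ps pre al a k l (fun u => F u - G u) = ps pre al a k l F - ps pre al a k l G := by
  have := ps_add (pre := pre) (al := al) (a := a) k l (fun u => F u - G u) G
  simp only [sub_add_cancel] at this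
  rw [this, add_sub_cancel_right]

end paths

namespace Cx

variable {Ω : Type*} {c : Cx Ω} {P : (Ω → ℝ) → Prop} {N N' : Type*}

variable (c) in
/-- the letters and constants of a flow family; `pre l` is the set of nodes below `l` -/
structure Fm (pre : N → Finset N) (rk : N → ℕ) (a : N → N → c.VF) (ot : N → N → Ω → ℝ) : Prop where
  rk : ∀ l, ∀ m ∈ pre l, rk m < rk l
  bl : ∀ l, ∀ m ∈ pre l, c.BL (a l m)
  th : ∀ l, ∀ m ∈ pre l, c.Th fun ω => c.et (a l m) ω - ot l m ω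

variable (c) in
/-- the recursion with sources `S` -/
structure Rc (pre : N → Finset N) (a : N → N → c.VF) (ot : N → N → Ω → ℝ) (S T Y : N → c.MF) :
    Prop where
  eT : ∀ l ω, T l ω = S l ω + ∑ m ∈ pre l, diagonal (a l m ω) * Y m ω
  eY : ∀ l ω, Y l ω = c.J ω * T l ω - ∑ m ∈ pre l, ot l m ω • T m ω

variable {pre : N → Finset N} {rk : N → ℕ} {a : N → N → c.VF} {ot : N → N → Ω → ℝ}
  {al : N → c.VF} {S T Y : N → c.MF}
  {pre' : N' → Finset N'} {rk' : N' → ℕ} {a' : N' → N' → c.VF} {ot' : N' → N' → Ω → ℝ}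
  {al' : N' → c.VF} {T' Y' : N' → c.MF}

theorem Fm.sc (h : c.Ok) (f : c.Fm pre rk a ot) (l : N) (m : N) (hm : m ∈ pre l) : c.Sc (ot l m) :=
  cg (h.md.sub h (h.sc_et (f.bl l m hm)) (h.th.sc (f.th l m hm))) fun _ => sub_sub_cancel _ _

theorem rk_ind {Q : N → Prop} (hrk : ∀ l, ∀ m ∈ pre l, rk m < rk l)
    (h : ∀ l, (∀ m ∈ pre l, Q m) → Q l) (l : N) : Q l := by
  induction hl : rk l using Nat.strong_induction_on generalizing l with
  | _ k ih => exact h l fun m hm => ih _ (hl ▸ hrk l m hm) m rfl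

/-- a class which is closed under the operations of the recursion -/
theorem Rc.ind (h : c.Ok) (f : c.Fm pre rk a ot) (r : c.Rc pre a ot S T Y) (m : c.Md P)
    (hS : ∀ l, (∀ q ∈ pre l, c.Kp P (T q) ∧ c.Kp P (Y q)) → c.Kp P (S l)) (l : N) :
    c.Kp P (T l) ∧ c.Kp P (Y l) := by
  refine rk_ind (Q := fun l => c.Kp P (T l) ∧ c.Kp P (Y l)) f.rk (fun l ih => ?_) l
  have h1 : c.Kp P (T l) := cg ((hS l ih).add h (Kp.sum h m _ fun q hq =>
    (ih q hq).2.lmul h m (pr_diag h (f.bl l q hq)))) fun ω => (r.eT l ω).symm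
  exact ⟨h1, cg ((h1.lmul h m (pr_J h)).sub h m (Kp.sum h m _ fun q hq =>
    (ih q hq).1.smul h m (f.sc h l q hq))) fun ω => (r.eY l ω).symm⟩

theorem Rc.sp (h : c.Ok) (f : c.Fm pre rk a ot) (r : c.Rc pre a ot S T Y) (m : c.Md P)
    (hS : ∀ l, c.Sp P (S l)) (l : N) : c.Sp P (T l) ∧ c.Sp P (Y l) := by
  refine rk_ind (Q := fun l => c.Sp P (T l) ∧ c.Sp P (Y l)) f.rk (fun l ih => ?_) l
  have h1 : c.Sp P (T l) := cg ((hS l).add (Sp.sum h m _ fun q hq =>
    (ih q hq).2.dmul h (f.bl l q hq))) fun ω => (r.eT l ω).symm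
  exact ⟨h1, cg ((h1.Jmul h m).sub h m (Sp.sum h m _ fun q hq =>
    (ih q hq).1.smul m (f.sc h l q hq))) fun ω => (r.eY l ω).symm⟩

theorem Rc.op (h : c.Ok) (f : c.Fm pre rk a ot) (r : c.Rc pre a ot S T Y)
    (hS : ∀ l, (∀ q ∈ pre l, c.Op (T q) ∧ c.Op (Y q)) → c.Op (S l)) (l : N) :
    c.Op (T l) ∧ c.Op (Y l) := by
  refine rk_ind (Q := fun l => c.Op (T l) ∧ c.Op (Y l)) f.rk (fun l ih => ?_) l
  have h1 : c.Op (T l) := cg ((hS l ih).add (Op.sum _ fun q hq =>
    (BdV.op (h.bl_bd (f.bl l q hq))).mul (ih q hq).2)) fun ω => (r.eT l ω).symm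
  exact ⟨h1, cg (((op_J h).mul h1).sub (Op.sum _ fun q hq =>
    (ih q hq).1.smul h (f.sc h l q hq))) fun ω => (r.eY l ω).symm⟩

theorem Rc.sub {S₂ T₂ Y₂ : N → c.MF} (r : c.Rc pre a ot S T Y) (r₂ : c.Rc pre a ot S₂ T₂ Y₂) :
    c.Rc pre a ot (fun l ω => S l ω - S₂ l ω) (fun l ω => T l ω - T₂ l ω)
      fun l ω => Y l ω - Y₂ l ω :=
  ⟨fun l ω => by simp only [r.eT l, r₂.eT l, Matrix.mul_sub, sum_sub_distrib]; abel,
    fun l ω => by simp only [r.eY l, r₂.eY l, Matrix.mul_sub, smul_sub, sum_sub_distrib]; abel⟩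

theorem Rc.rmul (r : c.Rc pre a ot S T Y) (B : c.MF) :
    c.Rc pre a ot (fun l ω => S l ω * B ω) (fun l ω => T l ω * B ω) fun l ω => Y l ω * B ω :=
  ⟨fun l ω => by simp only [r.eT l, Matrix.add_mul, Matrix.sum_mul, Matrix.mul_assoc],
    fun l ω => by simp only [r.eY l, Matrix.sub_mul, Matrix.sum_mul, Matrix.mul_assoc,
      Matrix.smul_mul]⟩

theorem ps_cl {β : Ω → Type*} [∀ ω, AddCommMonoid (β ω)] {Q : (∀ ω, β ω) → Prop}
    (h0 : Q fun _ => 0) (ha : ∀ {A B}, Q A → Q B → Q fun ω => A ω + B ω)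
    (hal : ∀ l, c.BL (al l)) (hbl : ∀ l, ∀ m ∈ pre l, c.BL (a l m)) :
    ∀ (k : ℕ) (l : N) {F : List c.VF → ∀ ω, β ω}, (∀ u, u ≠ [] → c.Lt u → Q (F u)) →
      Q fun ω => ps pre al a k l fun u => F u ω
  | 0, _, _, _ => h0
  | k + 1, l, _, hF => ha (hF _ (by simp) (lt_cons.2 ⟨hal l, lt_nil⟩)) (sumP h0 ha _ fun m hm =>
      ps_cl h0 ha hal hbl k m fun _ _ hu => hF _ (by simp) (lt_cons.2 ⟨hbl l m hm, hu⟩))

/-- **(WX)** the words are sums of Wick words up to `∑ θ B` -/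
theorem wx_ps (h : c.Ok) (f : c.Fm pre rk a ot) (hal : ∀ l, c.BL (al l))
    (r : c.Rc pre a ot (fun l ω => diagonal (al l ω)) T Y) : ∀ (k : ℕ) (l : N), rk l < k →
    (c.TP fun ω => T l ω - ps pre al a k l fun u => c.uk u ω) ∧
      c.TP fun ω => Y l ω - ps pre al a k l fun u => c.vk u ω
  | 0, _, hk => absurd hk (Nat.not_lt_zero _)
  | k + 1, l, hk => by
    have ih := fun m (hm : m ∈ pre l) => wx_ps h f hal r k m (by have := f.rk l m hm; omega)
    have h1 : c.TP fun ω => T l ω - ps pre al a (k + 1) l fun u => c.uk u ω :=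
      cg (Sp.sum h h.th _ fun m hm => (ih m hm).2.dmul h (f.bl l m hm)) fun ω => by
        simp only [r.eT l, ps, uk_cons, vk_nil, ps_mul, Matrix.mul_one, Matrix.mul_sub,
          sum_sub_distrib, add_sub_add_left_eq_sub]
    refine ⟨h1, cg (((h1.Jmul h h.th).sub h h.th (Sp.sum h h.th _ fun m hm =>
      (ih m hm).1.smul h.th (h.sc_et (f.bl l m hm)))).add (Sp.sum h h.th _ fun m hm =>
      Sp.smulP h.th (f.th l m hm) (r.sp h f h.md (fun l => pr_diag h (hal l)) m).1)) fun ω => ?_⟩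
    simp only [r.eY l, ps, vk_cons, uk_nil, smul_zero, sub_zero, ps_sub, ps_mul, ps_smul,
      Matrix.mul_sub, Matrix.mul_add, Matrix.mul_sum, smul_sub, sub_smul, sum_sub_distrib]
    abel

/-- **(WX)** -/
theorem wx (h : c.Ok) (f : c.Fm pre rk a ot) (hal : ∀ l, c.BL (al l))
    (r : c.Rc pre a ot (fun l ω => diagonal (al l ω)) T Y) (l : N) :
    ∃ A B, c.CW A ∧ c.TP B ∧ ∀ ω, Y l ω = A ω + B ω :=
  ⟨_, _, ps_cl (CW.zero h) CW.add hal f.bl (rk l + 1) l fun _ h0 hu => cw_vk h hu h0,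
    (wx_ps h f hal r _ l (Nat.lt_succ_self _)).2, fun _ => (add_sub_cancel _ _).symm⟩

theorem cw_tp_diag (h : c.Ok) {A B : c.MF} (hA : c.CW A) (hB : c.TP B) :
    c.Kv c.Th fun ω => (A ω + B ω).diag := ((hA.o2 h).kv h h.th).add h (hB.diag h h.th)

theorem diag_Y (h : c.Ok) (f : c.Fm pre rk a ot) (hal : ∀ l, c.BL (al l))
    (r : c.Rc pre a ot (fun l ω => diagonal (al l ω)) T Y) (l : N) :
    c.Kv c.Th fun ω => (Y l ω).diag :=
  let ⟨_, _, h1, h2, e⟩ := wx h f hal r l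
  cg (cw_tp_diag h h1 h2) fun ω => by rw [e]

variable (c) in
/-- the full contraction of two words -/
def pr : List c.VF → List c.VF → Ω → ℝ
  | [], [], _ => 1
  | x :: u, y :: v, ω => c.et (fun ω => x ω * y ω) ω * pr u v ω
  | [], _ :: _, _ => 0
  | _ :: _, [], _ => 0

theorem pr_nil {v : List c.VF} (hv : v ≠ []) (ω : Ω) : c.pr [] v ω = 0 ∧ c.pr v [] ω = 0 := by
  obtain ⟨y, v, rfl⟩ := List.exists_cons_of_ne_nil hv
  exact ⟨rfl, rfl⟩

theorem pr_snoc (x y : c.VF) (ω : Ω) : ∀ u v : List c.VF,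
    c.pr (u ++ [x]) (v ++ [y]) ω = c.et (fun ω => x ω * y ω) ω * c.pr u v ω
  | [], [] => rfl
  | [], z :: v => by
    simp only [List.nil_append, List.cons_append, pr, (pr_nil (v := v ++ [y]) (by simp) ω).1,
      mul_zero]
  | z :: u, [] => by
    simp only [List.nil_append, List.cons_append, pr, (pr_nil (v := u ++ [x]) (by simp) ω).2,
      mul_zero]
  | z :: u, z' :: v => by
    simp only [List.cons_append, pr, pr_snoc x y ω u v]; ring

theorem cw_word (h : c.Ok) {u : List c.VF} (hu : c.Lt u) : ∀ {v : List c.VF}, c.Lt v →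
    c.CW fun ω => c.vk u ω * (c.vk v ω)ᵀ - c.pr u v ω • 1 := by
  induction u using List.reverseRecOn with
  | nil =>
    intro v hv
    rcases List.eq_nil_or_concat' v with rfl | ⟨v, y, rfl⟩
    · exact cg (CW.zero h) fun _ => by simp [pr]
    · exact cg (CW.left (h.sc_const 1) (lt_cons.1 (lt_append.1 hv).2).1
        (lt_append.1 hv).1.reverse) fun ω => by
          rw [(pr_nil (by simp) ω).1, vk_snoc, transpose_mul, wk_transpose h, diagonal_transpose]
          simp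
  | append_singleton u x ih =>
    intro v hv
    have hx := (lt_cons.1 (lt_append.1 hu).2).1
    rcases List.eq_nil_or_concat' v with rfl | ⟨v, y, rfl⟩
    · exact cg (cw_vk h hu (by simp)) fun ω => by rw [(pr_nil (by simp) ω).2]; simp
    · have hxy := h.bl_mul hx (lt_cons.1 (lt_append.1 hv).2).1
      refine cg ((cw_vk h (l := u ++ (fun ω => x ω * y ω) :: (v.reverse ++ [1])) (lt_append.2
        ⟨(lt_append.1 hu).1, lt_cons.2 ⟨hxy, (lt_append.1 hv).1.reverse.snoc h.one⟩⟩)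
        (by simp)).add ((ih (lt_append.1 hu).1 (lt_append.1 hv).1).smul h (h.sc_et hxy)))
        fun ω => ?_
      have e1 := Wk_mul (s := c.s ω) (J := c.J ω) (u.map fun a => a ω)
        ((v.map fun a => a ω).reverse ++ [1]) (x ω * y ω)
      have e2 := (rev (s := c.s ω) (h.symm ω) (v.map fun a => a ω).reverse).2
      rw [List.reverse_reverse] at e2
      have e3 : c.wk u ω * diagonal (x ω) * (diagonal (y ω) * c.wk v.reverse ω) =
          c.vk (u ++ (fun ω => x ω * y ω) :: (v.reverse ++ [1])) ω +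
            c.et (fun ω => x ω * y ω) ω • (c.vk u ω * (c.vk v ω)ᵀ) := by
        rw [← Matrix.mul_assoc, Matrix.mul_assoc (c.wk u ω), diagonal_mul_diagonal]
        simp only [vk, wk, et, List.map_append, List.map_cons, List.map_nil, List.map_reverse,
          ← e2, transpose_transpose]
        exact e1
      beta_reduce
      rw [pr_snoc, vk_snoc, vk_snoc, transpose_mul, wk_transpose h, diagonal_transpose, e3,
        smul_sub, mul_smul, add_sub_assoc]

theorem ps_pr (f : c.Fm pre rk a ot) (f' : c.Fm pre' rk' a' ot') {Q : N → N' → Ω → ℝ}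
    (hQ : ∀ l m ω, Q l m ω = c.et (fun ω => al l ω * al' m ω) ω +
      ∑ p ∈ pre l, ∑ q ∈ pre' m, c.et (fun ω => a l p ω * a' m q ω) ω * Q p q ω) (ω : Ω) :
    ∀ (k k' : ℕ) (l : N) (m : N'), rk l < k → rk' m < k' →
      (ps pre al a k l fun u => ps pre' al' a' k' m fun v => c.pr u v ω) = Q l m ω
  | 0, _, _, _, hk, _ => absurd hk (Nat.not_lt_zero _)
  | _ + 1, 0, _, _, _, hk => absurd hk (Nat.not_lt_zero _)
  | k + 1, k' + 1, l, m, hk, hk' => by
    rw [hQ, ps]
    congr 1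
    · rw [ps, sum_eq_zero fun q _ => (ps_congr k' q fun v hv => ?_).trans (ps_zero k' q)]
      · simp [pr]
      · rw [pr, (pr_nil hv ω).1, mul_zero]
    · refine sum_congr rfl fun p hp => (ps_congr (G := fun u => ∑ q ∈ pre' m,
        c.et (fun ω => a l p ω * a' m q ω) ω * ps pre' al' a' k' q fun v => c.pr u v ω) k p
        fun u hu => ?_).trans ?_
      · simp only [ps, pr, (pr_nil hu ω).2, mul_zero, zero_add, ps_mul]
      · rw [ps_sum]
        refine sum_congr rfl fun q hq => ?_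
        rw [ps_mul, ps_pr f f' hQ ω k k' p q (by have := f.rk l p hp; omega)
          (by have := f'.rk m q hq; omega)]

/-- **the Gram formula** `Y d Y'ᵀ = P_d + (clean words) + ∑ θ B` -/
theorem gram (h : c.Ok) (f : c.Fm pre rk a ot) (f' : c.Fm pre' rk' a' ot')
    (hal : ∀ l, c.BL (al l)) (hal' : ∀ l, c.BL (al' l))
    (r : c.Rc pre a ot (fun l ω => diagonal (al l ω)) T Y)
    (r' : c.Rc pre' a' ot' (fun l ω => diagonal (al' l ω)) T' Y') {d : c.VF} (hd : c.BL d)
    {Q : N → N' → Ω → ℝ} (hQ : ∀ l m ω, Q l m ω = c.et (fun ω => al l ω * d ω * al' m ω) ω +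
      ∑ p ∈ pre l, ∑ q ∈ pre' m, c.et (fun ω => a l p ω * a' m q ω) ω * Q p q ω) (l : N) (m : N') :
    ∃ A B, c.CW A ∧ c.TP B ∧
      ∀ ω, Y l ω * diagonal (d ω) * (Y' m ω)ᵀ = Q l m ω • 1 + A ω + B ω := by
  have r1 : c.Rc pre a ot (fun l ω => diagonal (al l ω * d ω)) _ _ :=
    (funext fun l => funext fun ω => diagonal_mul_diagonal (al l ω) (d ω)) ▸
      r.rmul fun ω => diagonal (d ω)
  have hb := fun l => h.bl_mul (hal l) hd
  have w1 := (wx_ps h f hb r1 _ l (Nat.lt_succ_self _)).2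
  have w2 := (wx_ps h f' hal' r' _ m (Nat.lt_succ_self _)).2
  have p1 := ps_cl (Sp.zero h h.md) Sp.add hb f.bl (rk l + 1) l fun _ _ hu => pr_vk h hu
  have p2 := (r'.sp h f' h.md (fun l => pr_diag h (hal' l)) m).2
  refine ⟨_, _, ps_cl (CW.zero h) CW.add hb f.bl (rk l + 1) l fun _ _ hu =>
    ps_cl (CW.zero h) CW.add hal' f'.bl (rk' m + 1) m fun _ _ hv => cw_word h hu hv,
    (w1.rmul h h.th (p2.transpose h h.md)).add (p1.lmul h h.th (w2.transpose h h.th)),
    fun ω => ?_⟩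
  have t : ∀ F : List c.VF → Matrix (Fin (c.n ω)) (Fin (c.n ω)) ℝ,
      (ps pre' al' a' (rk' m + 1) m fun v => (F v)ᵀ) = (ps pre' al' a' (rk' m + 1) m F)ᵀ :=
    ps_hom (transposeAddEquiv _ _ ℝ).toAddMonoidHom _ _
  simp only [ps_sub, ps_mul, ps_mul', ps_smul', t,
    ps_pr f f' hQ ω _ _ l m (Nat.lt_succ_self _) (Nat.lt_succ_self _), transpose_sub,
    Matrix.mul_sub, Matrix.sub_mul]
  abel

theorem gram_diag (h : c.Ok) (f : c.Fm pre rk a ot) (f' : c.Fm pre' rk' a' ot')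
    (hal : ∀ l, c.BL (al l)) (hal' : ∀ l, c.BL (al' l))
    (r : c.Rc pre a ot (fun l ω => diagonal (al l ω)) T Y)
    (r' : c.Rc pre' a' ot' (fun l ω => diagonal (al' l ω)) T' Y') {d : c.VF} (hd : c.BL d)
    {Q : N → N' → Ω → ℝ} (hQ : ∀ l m ω, Q l m ω = c.et (fun ω => al l ω * d ω * al' m ω) ω +
      ∑ p ∈ pre l, ∑ q ∈ pre' m, c.et (fun ω => a l p ω * a' m q ω) ω * Q p q ω) (l : N) (m : N') :
    c.Kv c.Th fun ω => (Y l ω * diagonal (d ω) * (Y' m ω)ᵀ).diag - fun _ => Q l m ω :=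
  let ⟨_, _, h1, h2, e⟩ := gram h f f' hal hal' r r' hd hQ l m
  cg (cw_tp_diag h h1 h2) fun ω => by rw [e]; ext i; simp; ring

theorem gram_sc (h : c.Ok) (f : c.Fm pre rk a ot) (f' : c.Fm pre' rk' a' ot')
    (hal : ∀ l, c.BL (al l)) (hal' : ∀ l, c.BL (al' l)) {d : c.VF} (hd : c.BL d)
    {Q : N → N' → Ω → ℝ} (hQ : ∀ l m ω, Q l m ω = c.et (fun ω => al l ω * d ω * al' m ω) ω +
      ∑ p ∈ pre l, ∑ q ∈ pre' m, c.et (fun ω => a l p ω * a' m q ω) ω * Q p q ω) (l : N) :
    ∀ m, c.Sc (Q l m) :=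
  rk_ind (Q := fun l => ∀ m, c.Sc (Q l m)) f.rk (fun l ih m => cg (h.sc_add
    (h.sc_et (h.bl_mul (h.bl_mul (hal l) hd) (hal' m))) (h.md.sum _ fun p hp => h.md.sum _ fun q hq =>
      h.sc_mul (h.sc_et (h.bl_mul (f.bl l p hp) (f'.bl m q hq))) (ih p hp q)))
    fun ω => (hQ l m ω).symm) l

end Cx

end Crest.Agent.T157.S3W

end
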