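import Crest.Agent.T157.S3K_71
import Crest.Agent.T157.S3Y_43

/-!
# Row 157, part B, block S3 (helper71): the closure (CL)
-/

set_option autoImplicit false
set_option linter.unusedVariables false
set_option linter.unusedSectionVars false

noncomputable section

namespace Crest.Agent.T157.S3

open Matrix Filter Finset
open Crest.Agent.T157.E (Cube sv)
open Crest.Agent.T157.S3W Crest.Agent.T157.S3W.Cx
open Fam K71

namespace Cl71

variable {F : Fam} {N P : ℕ} {R : Net F N} {Φ : Flow R P} {Γ : Flow R (N + 1)}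
  {Pb : Fin P → Fin (N + 1) → F.I → ℝ} {Z : Fin P → F.Vf} {g al : F.Lf (N + 1)}
  {a : Fin P → F.Lf (N + 1)}

/-- the diagonal of the Jacobian of a letter which is free of the spin -/
lemma diag_jc (h1 : J1Stmt) (h2 : J2Stmt) (hF : F.Ok) (hR : R.Ok) (hΓ : Γ.IsGrad) (hg : g ∈ R.C)
    (h0 : R.gs g = 0) : R.cx.Kv Th fun ω => (F.jc (R.ev g) ω).diag := by
  obtain ⟨h, -, hT, -, -⟩ := h1 F N R hF hR
  obtain ⟨a1, a2⟩ := h2 F N R hF hR
  refine cg (P := R.cx.Kv Th) ((Kp.diag h h.th ((a2 Γ hΓ).2 g (hT g hg)).1).add h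
    (Kv.sum h h.th univ fun m _ => (BK_diag h ((a1 _ Γ hΓ.1).1 m).2.1).blmul h
      (bl (hR.pd g hg m)))) fun ω => ?_
  simp only [Flow.tT, h0, dg_zero, zero_add]
  simp only [diag_sub, diag_sum, Net.dg, diag_dmul, sub_add_cancel]

/-- the contraction of the Jacobian of a letter with a field -/
lemma diag_pair (h1 : J1Stmt) (hW : WXStmt) (h2 : J2Stmt) (hF : F.Ok) (hR : R.Ok) (hΦ : Φ.Ok)
    (hΓ : Γ.IsGrad) (hP : Φ.IsP Γ R.Dt Pb) (hg : g ∈ R.C) (m : Fin P) :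
    R.cx.Kv Th fun ω => (F.jc (R.ev g) ω * R.dg R.Dt ω * (Φ.Yb m ω)ᵀ).diag -
      ∑ p, Pb m p ω.1 • R.ev (R.pd p g) ω := by
  obtain ⟨h, -, hT, -, -⟩ := h1 F N R hF hR
  obtain ⟨a1, a2⟩ := h2 F N R hF hR
  obtain ⟨m2, bY, bYb⟩ := (a1 _ Φ hΦ).1 m
  have m1 := ((a2 Γ hΓ).2 g (hT g hg)).1
  have kT := ((a1 _ Γ hΓ.1).2 _ _ (let_grad hR Γ (hT g hg) (hR.pd g hg))).2.1
  have kD := AK_dg h (Dt_mem hR)
  have e1 := MK_mul h m1 (AK_mul h kD (AK_transpose h (BK_ak h bYb)))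
  have e2 := mul_MK h (AK_mul h kT kD) (Kp.transpose h h.th m2)
  have e3 := ((BK_diag h bY).blmul h (bl (Dt_mem hR))).blmul h (bl (hR.gs g hg))
  have e4 : ∀ p, R.cx.Kv Th fun ω => (Γ.Y p ω * R.dg R.Dt ω * (Φ.Y m ω)ᵀ).diag -
      fun _ => Pb m p ω.1 := fun p => by
    obtain ⟨-, B, b1, b2⟩ := (hW F N P R Φ hF hR hΦ).2 _ Γ _ Pb hΓ.1 (Dt_mem hR) hP m p
    refine cg (P := R.cx.Kv Th) (cw_tp_diag h b1 b2) fun ω => ?_
    rw [← diag_transpose (Γ.Y p ω * _ * _), transpose_mul, transpose_mul, transpose_transpose,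
      Net.dg, diagonal_transpose, ← Matrix.mul_assoc]
    ext k; simp
  refine cg (P := R.cx.Kv Th) (((Kp.diag h h.th (Kp.add h e1 e2)).add h e3).add h
    (Kv.sum h h.th univ fun p _ => (e4 p).blmul h (bl (hR.pd g hg p)))) fun ω => ?_
  have e5 : (Γ.tT (R.gs g) (fun p => R.pd p g) ω * R.dg R.Dt ω * (Φ.Y m ω)ᵀ).diag =
      R.ev (R.gs g) ω * (R.ev R.Dt ω * (Φ.Y m ω).diag) +
        ∑ p, R.ev (R.pd p g) ω * (Γ.Y p ω * R.dg R.Dt ω * (Φ.Y m ω)ᵀ).diag := by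
    simp only [Flow.tT, Matrix.add_mul, Matrix.sum_mul, diag_add, diag_sum, Matrix.mul_assoc,
      Net.dg, diag_dmul, diag_transpose]
  have e6 : ∀ p, R.ev (R.pd p g) ω * (fun _ => Pb m p ω.1) = Pb m p ω.1 • R.ev (R.pd p g) ω :=
    fun p => funext fun k => mul_comm _ _
  simp only [mul_sub, e6, sum_sub_distrib, ← add_sub_assoc, add_assoc, ← e5]
  simp only [transpose_sub, Matrix.sub_mul, Matrix.mul_sub, Matrix.mul_assoc, diag_add, diag_sub]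
  abel

/-- one step of the recursion -/
lemma step (h1 : J1Stmt) (hW : WXStmt) (h2 : J2Stmt) (hF : F.Ok) (hR : R.Ok) (hΦ : Φ.Ok)
    (hD : Φ.IsDrift Γ Pb Z) (hL : Φ.Let al a) :
    R.cx.Kv Th fun ω => Φ.tTb al a ω *ᵥ F.τ ω - Φ.tA Pb Z al a ω -
      ∑ m, R.ev (a m) ω * (Φ.Yb m ω *ᵥ F.τ ω - Z m ω) := by
  have h := (h1 F N R hF hR).1
  refine cg (P := R.cx.Kv Th) ((((diag_jc h1 h2 hF hR hD.1 hL.1 hL.2.1).blmul h
    (bl (Dt_mem hR))).add h (Kv.sum h h.th univ fun m _ =>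
      diag_pair h1 hW h2 hF hR hΦ hD.1 hD.2.1 (hL.2.2 m) m)).neg h h.th) fun ω => ?_
  have e : ∀ d t : V (F.n ω.1), diagonal d *ᵥ t = d * t := fun d t =>
    funext fun k => mulVec_diagonal d t k
  simp only [Flow.tTb, Flow.tA, add_mulVec, Matrix.sum_mulVec, bm_had_mulVec, e, bm_diag, Net.dg,
    Dt_eq hR, sum_sub_distrib, mul_sub]
  ring

end Cl71

open Cl71 in
theorem clGlue : CLGlue := by
  intro hE hC h1 hW h2 F N P R Φ Γ Pb Z hF hR hΦ hD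
  obtain ⟨h, -, -, -, hO⟩ := h1 F N R hF hR
  choose g g1 g2 using fun l => step h1 hW h2 hF hR hΦ hD (hΦ.lt l)
  choose c c' hc using fun ω => ((hE F N P R).2.2.2 Φ hΦ ω).2 fun l => g l ω
  have fT : ∀ l i, FreeM fun x => Φ.Tb l ⟨i, x⟩ := fun l => ((hO P Φ hΦ).2 _ _ (hΦ.lt l)).2.2
  have fY : ∀ l i, FreeM fun x => Φ.Yb l ⟨i, x⟩ := fun l i x k j b => by
    simp only [hΦ.hYb, Matrix.sub_apply, Matrix.mul_apply, Matrix.sum_apply, Matrix.smul_apply]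
    congr 1
    · exact sum_congr rfl fun q _ => congrArg _ (fT l i x q j b)
    · exact sum_congr rfl fun q _ => congrArg _ (fT q i x k j b)
  have bA := fun l m => h.bl_bd (bl ((hΦ.lt l).2.2 m))
  -- the collective vectors
  have H1 : ∀ l, SqV (fun ω => c ω l) ∧ SqV fun ω => c' ω l := by
    intro l
    induction l using WellFoundedLT.induction with
    | _ l ih =>
    have k1 : SqV fun ω => c ω l := cg (P := SqV) (SqV_add (TV_sq hF h (g1 l))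
      (SqV_sum univ (v := fun m ω => Φ.av ω l m * c' ω m) fun m _ => by
        rcases lt_or_ge m l with hm | hm
        · exact SqV_bmul (bA l m) (ih m hm).2
        · exact cg (P := SqV) SqV_zero fun ω => by rw [Flow.av, av_zero hΦ hm, zero_mul]))
      fun ω => (hc ω l).1.symm
    refine ⟨k1, cg (P := SqV) (SqV_sub (SqV_mulVec (op_J h) k1)
      (SqV_sum univ (v := fun m ω => Φ.ot ω.1 l m • c ω m) fun m _ => ?_)) fun ω => (hc ω l).2.symm⟩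
    rcases lt_or_ge m l with hm | hm
    · exact SqV_smul h (sc_ot h hΦ l m) (ih m hm).1
    · exact cg (P := SqV) SqV_zero fun ω => by rw [ot_zero hΦ hm, zero_smul]
  -- the errors
  have top : ∀ {al a} {g0 : F.Vf}, Φ.Let al a → (R.cx.O2 fun ω => Φ.tTb al a ω *ᵥ F.τ ω -
      Φ.tA Pb Z al a ω - ∑ m, R.ev (a m) ω * (Φ.Yb m ω *ᵥ F.τ ω - Z m ω) - g0 ω) →
      (∀ m, a m = 0 ∨ R.cx.O2 fun ω => Φ.Yb m ω *ᵥ F.τ ω - Z m ω - c' ω m) →
      R.cx.O2 fun ω => Φ.tTb al a ω *ᵥ F.τ ω - Φ.tA Pb Z al a ω -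
        (g0 ω + ∑ m, R.ev (a m) ω * c' ω m) := by
    intro al a g0 hL k1 k2
    refine cg (P := R.cx.O2) (k1.add h (O2.sum h univ
      (v := fun m ω => R.ev (a m) ω * (Φ.Yb m ω *ᵥ F.τ ω - Z m ω - c' ω m)) fun m _ => ?_))
      fun ω => ?_
    · rcases k2 m with hm | hm
      · exact cg (P := R.cx.O2) (o2_zero h) fun ω => by rw [hm, ev_zero, zero_mul]
      · exact O2.bmul (h.bl_bd (bl (hL.2.2 m))) hm
    · simp only [mul_sub, sum_sub_distrib]; abel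
  have H2 : ∀ l, (R.cx.O2 fun ω => Φ.Tb l ω *ᵥ F.τ ω - Φ.tA Pb Z (Φ.al l) (Φ.a l) ω - c ω l) ∧
      R.cx.O2 fun ω => Φ.Yb l ω *ᵥ F.τ ω - Z l ω - c' ω l := by
    intro l
    induction l using WellFoundedLT.induction with
    | _ l ih =>
    have k1 : R.cx.O2 fun ω => Φ.Tb l ω *ᵥ F.τ ω - Φ.tA Pb Z (Φ.al l) (Φ.a l) ω - c ω l :=
      cg (P := R.cx.O2) (top (hΦ.lt l) (g2 l) fun m => (lt_or_ge m l).elim
        (fun hm => .inr (ih m hm).2) fun hm => .inl (hΦ.tri l m hm)) fun ω => by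
          rw [(hc ω l).1]; rfl
    refine ⟨k1, ?_⟩
    set e : F.Vf := fun ω =>
      F.J ω.1 *ᵥ (Φ.Tb l ω *ᵥ F.τ ω - Φ.tA Pb Z (Φ.al l) (Φ.a l) ω - c ω l) - ∑ m,
        Φ.ot ω.1 l m • (Φ.Tb m ω *ᵥ F.τ ω - Φ.tA Pb Z (Φ.al m) (Φ.a m) ω - c ω m) with he
    have k2 : R.cx.O2 e := (O2.mulVec (op_J h) k1).sub h (O2.sum h univ fun m _ => by
      rcases lt_or_ge m l with hm | hm
      · exact (ih m hm).1.smul h (sc_ot h hΦ l m)
      · exact cg (P := R.cx.O2) (o2_zero h) fun ω => by rw [ot_zero hΦ hm, zero_smul])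
    have k3 : ∀ ω, Φ.Yb l ω *ᵥ F.τ ω = Φ.U Pb Z l ω + (c' ω l + e ω) := fun ω => by
      rw [hΦ.hYb, (hc ω l).2, he, Flow.U]
      simp only [sub_mulVec, ← mulVec_mulVec, Matrix.sum_mulVec, smul_mulVec, mulVec_sub, smul_sub,
        sum_sub_distrib]
      abel
    refine cg (P := R.cx.O2) (k2.sub h (O2_EV hC hF (SqV_add (H1 l).2 (O2_sq hC hF k2)))) fun ω => ?_
    have k4 := EV_div hF (fY l) ω.1
    rw [funext k3, EV_add] at k4
    rw [k3, hD.2.2, eq_neg_of_add_eq_zero_left k4]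
    abel
  refine ⟨g, fun l ω => c ω l, fun l ω => c' ω l, ⟨g1, hc⟩, fun l => (H1 l).2, fun al a hL => ?_⟩
  obtain ⟨g0, k1, k2⟩ := step h1 hW h2 hF hR hΦ hD hL
  exact ⟨g0, k1, top hL k2 fun m => .inr (H2 m).2⟩

end Crest.Agent.T157.S3
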