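import Crest.Agent.T157.S3BilA_89
import Crest.Agent.T157.S3W_43

/-!
# Row 157, block S3 (helper89): (BIL) for one flow, in the classes of `S3W_43`
-/

set_option autoImplicit false
set_option linter.unusedSectionVars false

noncomputable section

namespace Crest.Agent.T157.S3B

open Matrix Finset
open Crest.Agent.T157.E (Cube sv prob)
open Crest.Agent.T157.Eig Crest.Agent.T157.Uw Crest.Agent.T157.S3F Crest.Agent.T157.S3W
open Crest.Agent.T157.Rec (grad fl)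
open Crest.Agent.T157.Chain22 (mean IsP)

section cls
variable {Ω : Type*} {c : Cx Ω}

/-- functionals bounded by `γ |w|_∞ + C |s| ∑ |w·d|` -/
def Bl (c : Cx Ω) (Φ : ∀ ω, (Fin (c.n ω) → ℝ) → ℝ) : Prop :=
  ∃ (γ : Ω → ℝ) (D : List c.VF) (C : ℝ), (∀ ω, 0 ≤ γ ω) ∧ c.Sm (fun ω => γ ω ^ 2) ∧ c.Lt D ∧ 0 ≤ C ∧
    ∀ ω w b, 0 ≤ b → (∀ i, |w i| ≤ b) →
      Φ ω w ≤ γ ω * b + C * (|c.s ω| * (D.map fun d => |w ⬝ᵥ d ω|).sum)

lemma sum_abs_nonneg {α : Type*} (D : List α) (f : α → ℝ) : 0 ≤ (D.map fun d => |f d|).sum :=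
  List.sum_nonneg fun x hx => by obtain ⟨d, -, rfl⟩ := List.mem_map.1 hx; exact abs_nonneg _

variable {Φ Ψ : ∀ ω, (Fin (c.n ω) → ℝ) → ℝ}

theorem Bl.mono (h : Bl c Ψ) (e : ∀ ω w, Φ ω w ≤ Ψ ω w) : Bl c Φ :=
  let ⟨γ, D, C, h1, h2, h3, h4, h5⟩ := h
  ⟨γ, D, C, h1, h2, h3, h4, fun ω w b hb hw => (e ω w).trans (h5 ω w b hb hw)⟩

theorem Bl.add (h : c.Ok) (h1 : Bl c Φ) (h2 : Bl c Ψ) : Bl c fun ω w => Φ ω w + Ψ ω w := by
  obtain ⟨γ, D, C, a1, a2, a3, a4, a5⟩ := h1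
  obtain ⟨γ', D', C', b1, b2, b3, b4, b5⟩ := h2
  refine ⟨fun ω => γ ω + γ' ω, D ++ D', C + C', fun ω => add_nonneg (a1 ω) (b1 ω),
    Cx.Sm.le2 h a2 b2 zero_le_two fun ω => by nlinarith [sq_nonneg (γ ω - γ' ω)],
    Cx.lt_append.2 ⟨a3, b3⟩, add_nonneg a4 b4, fun ω w b hb hw => ?_⟩
  have p1 := mul_nonneg (abs_nonneg (c.s ω)) (sum_abs_nonneg D fun d => w ⬝ᵥ d ω)
  have p2 := mul_nonneg (abs_nonneg (c.s ω)) (sum_abs_nonneg D' fun d => w ⬝ᵥ d ω)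
  rw [List.map_append, List.sum_append]
  nlinarith [a5 ω w b hb hw, b5 ω w b hb hw, mul_nonneg a4 p2, mul_nonneg b4 p1]

theorem Bl.of_sm {γ : Ω → ℝ} (h0 : ∀ ω, 0 ≤ γ ω) (h : c.Sm fun ω => γ ω ^ 2)
    (e : ∀ ω w b, 0 ≤ b → (∀ i, |w i| ≤ b) → Φ ω w ≤ γ ω * b) : Bl c Φ :=
  ⟨γ, [], 0, h0, h, Cx.lt_nil, le_rfl, fun ω w b hb hw => by simpa using e ω w b hb hw⟩

theorem Bl.zero (h : c.Ok) : Bl c fun _ _ => 0 :=
  Bl.of_sm (γ := fun _ => 0) (fun _ => le_rfl) (Cx.sm_const h _) fun _ _ _ _ _ => by simp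

lemma vu_smul' {ι : Type*} [Fintype ι] [DecidableEq ι] (s r : ℝ) (J : Matrix ι ι ℝ) (t : List (ι → ℝ)) :
    ∀ l : List (ι → ℝ), Vk s J (l.map (r • ·) ++ t) = r ^ l.length • Vk s J (l ++ t) ∧
      Uk s J (l.map (r • ·) ++ t) = r ^ l.length • Uk s J (l ++ t)
  | [] => by simp
  | a :: l => by
    obtain ⟨h1, h2⟩ := vu_smul' s r J t l
    simp only [List.map_cons, List.cons_append, Vk_cons, Uk_cons, h1, h2, diagonal_smul, eta_smul,
      Matrix.smul_mul, Matrix.mul_smul, List.length_cons, pow_succ]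
    constructor <;> module

/-- the diagonal of `Wᵀ w B` for a product `B` -/
theorem bl_PR (h : c.Ok) {l : List c.VF} (hl : c.Lt l) {B : c.MF} (hB : c.PR B) :
    Bl c fun ω w => nrm ((c.wk l ω)ᵀ * diagonal w * B ω).diag := by
  induction hB with
  | @word σ d m hσ hd hm =>
    obtain ⟨r1, g1, s1⟩ := hl.scale h
    obtain ⟨r2, g2, s2⟩ := hm.scale h
    obtain ⟨r3, g3, s3⟩ := Cx.BdV.nn (c := c) (h.bl_bd hd)
    obtain ⟨r4, g4, s4⟩ := Cx.nn (h.sc_bd hσ)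
    obtain ⟨R, hR⟩ := h.uw
    obtain ⟨C, hC⟩ := hR (l.length + m.length + 1)
    set A : ℝ := r4 * (r1 ^ l.length * (r2 ^ m.length * r3)) with hA
    have A0 : 0 ≤ A := by positivity
    refine ⟨fun ω => A * ((l.length + 2) * (|C| * √(c.K ω))), [d], A, fun ω => by positivity,
      Cx.sm_K.le (sq_nonneg (A * ((l.length + 2) * |C|))) fun ω => le_of_eq ?_,
      Cx.lt_cons.2 ⟨hd, Cx.lt_nil⟩, A0, fun ω w b hb hw => ?_⟩
    · beta_reduce
      rw [← mul_assoc _ |C|, ← mul_assoc, mul_pow, Real.sq_sqrt (by linarith [h.K1 ω])]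
    obtain ⟨m1, a1, a2, a3⟩ := s1 ω
    obtain ⟨m2, b1, b2, b3⟩ := s2 ω
    have r30 : 0 < r3 := by linarith
    have h1 := dg_W ((hC ω).mono le_rfl le_rfl (mul_le_mul_of_nonneg_right (le_abs_self C)
      (Real.sqrt_nonneg _))) (h.symm ω) (by positivity) (h.hs ω) (l := m1) (m := m2) (by omega) a1 b1
      hb hw (d := r3⁻¹ • d ω) fun i => by
        rw [Pi.smul_apply, smul_eq_mul, abs_mul, abs_of_pos (inv_pos.2 r30), inv_mul_le_iff₀ r30,
          mul_one]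
        exact s3 ω i
    have e : (c.wk l ω)ᵀ * diagonal w * (σ ω • (diagonal (d ω) * c.vk m ω)) =
        (σ ω * (r1 ^ l.length * (r2 ^ m.length * r3))) • ((Wk (c.s ω) (c.J ω) m1)ᵀ * diagonal w *
          (diagonal (r3⁻¹ • d ω) * Vk (c.s ω) (c.J ω) m2)) := by
      rw [Cx.wk, Cx.vk, a3, b3, Wk, (vu_smul' _ _ _ _ _).1, (Cx.vu_smul _ _ _ _).1, a2, b2, ← Wk]
      simp only [diagonal_smul, transpose_smul, Matrix.smul_mul, Matrix.mul_smul, smul_smul]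
      congr 1
      field_simp
    have h2 : |w ⬝ᵥ r3⁻¹ • d ω| ≤ |w ⬝ᵥ d ω| := by
      rw [dotProduct_smul, smul_eq_mul, abs_mul, abs_of_pos (inv_pos.2 r30)]
      exact mul_le_of_le_one_left (abs_nonneg _) (inv_le_one_of_one_le₀ g3)
    have h3 : |σ ω * (r1 ^ l.length * (r2 ^ m.length * r3))| ≤ A := by
      rw [abs_mul, abs_of_nonneg (by positivity : 0 ≤ r1 ^ l.length * (r2 ^ m.length * r3))]
      exact mul_le_mul_of_nonneg_right (s4 ω) (by positivity)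
    rw [a2] at h1
    beta_reduce
    rw [e, diag_smul, nrm_smul]
    refine (mul_le_mul h3 (h1.trans (add_le_add le_rfl (mul_le_mul_of_nonneg_left h2 (abs_nonneg _))))
      (nrm_nonneg _) A0).trans (le_of_eq ?_)
    simp only [List.map_cons, List.map_nil, List.sum_cons, List.sum_nil, add_zero]
    ring
  | add _ _ h1 h2 =>
    refine (h1.add h h2).mono fun ω w => ?_
    rw [Matrix.mul_add, diag_add]
    exact nrm_add_le _ _

theorem bl_PK (h : c.Ok) {l : List c.VF} (hl : c.Lt l) {B : c.MF} (hB : c.PK B) :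
    Bl c fun ω w => nrm ((c.wk l ω)ᵀ * diagonal w * B ω).diag := by
  obtain ⟨B', h1, h2⟩ := hB
  obtain ⟨C, C0, hC⟩ := Cx.nn (Cx.op_vu h (hl.snoc h.one)).1
  have h3 : Bl c fun ω w => nrm ((c.wk l ω)ᵀ * diagonal w * (B ω - B' ω)).diag := by
    refine Bl.of_sm (γ := fun ω => C * fn (B ω - B' ω)) (fun ω => mul_nonneg C0 (fn_nonneg _))
      (Cx.Sm.le h2 (sq_nonneg C) fun ω => by rw [mul_pow, fn_sq]) fun ω w b hb hw => ?_
    refine (nrm_diag_le _).trans ((fn_mul_le _ _).trans ?_)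
    rw [mul_right_comm]
    refine mul_le_mul_of_nonneg_right (opn_mul_le' ?_ (opn_diagonal_le hb hw)) (fn_nonneg _)
    rw [opn_transpose, Cx.wk_eq]
    exact hC ω
  refine ((bl_PR h hl h1).add h h3).mono fun ω w => ?_
  refine le_trans (le_of_eq ?_) (nrm_add_le _ _)
  rw [← diag_add, ← Matrix.mul_add, add_sub_cancel]

end cls

/-! ### instances with configurations -/

variable {I : Type*} {n : I → ℕ}

/-- instance and configuration -/
abbrev Pt (n : I → ℕ) : Type _ := Σ a, Cube (n a)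

/-- the context of a family of instances -/
abbrev mkC (n : I → ℕ) (s K : I → ℝ) (J : ∀ a, Matrix (Fin (n a)) (Fin (n a)) ℝ)
    (BL : (∀ ω : Pt n, Fin (n ω.1) → ℝ) → Prop) (Sc Th : (Pt n → ℝ) → Prop) : Cx (Pt n) :=
  ⟨fun ω => n ω.1, fun ω => s ω.1, fun ω => K ω.1, fun ω => J ω.1, BL, Sc, Th⟩

/-- the Jacobian of a family -/
def jacF (u : ∀ ω : Pt n, Fin (n ω.1) → ℝ) (ω : Pt n) : Matrix (Fin (n ω.1)) (Fin (n ω.1)) ℝ :=
  jac (fun x => u ⟨ω.1, x⟩) ω.2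

/-- `D = 1 - t²` -/
def DF (μ : ∀ a, Cube (n a) → ℝ) (ω : Pt n) : Fin (n ω.1) → ℝ := fun k => 1 - tm (μ ω.1) ω.2 k ^ 2

/-- the letters of one instance -/
def sf (l : List (∀ ω : Pt n, Fin (n ω.1) → ℝ)) (a : I) : List (SF (n a)) :=
  l.map fun u x => u ⟨a, x⟩

lemma ev_sf (l : List (∀ ω : Pt n, Fin (n ω.1) → ℝ)) (a : I) (x : Cube (n a)) :
    ev (sf l a) x = l.map fun u => u ⟨a, x⟩ := List.map_map

variable {s K : I → ℝ} {J : ∀ a, Matrix (Fin (n a)) (Fin (n a)) ℝ}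
  {BL : (∀ ω : Pt n, Fin (n ω.1) → ℝ) → Prop} {Sc Th : (Pt n → ℝ) → Prop} {μ : ∀ a, Cube (n a) → ℝ}

lemma abs_DF_le (hμ : ∀ a x, 0 < μ a x) (ω : Pt n) (k : Fin (n ω.1)) : |DF μ ω k| ≤ 1 := by
  rw [DF, abs_of_pos (D_pos (hμ _) _ _)]
  nlinarith [sq_nonneg (tm (μ ω.1) ω.2 k)]

theorem bl_Sw (h : (mkC n s K J BL Sc Th).Ok) (hμ : ∀ a x, 0 < μ a x) {T : (mkC n s K J BL Sc Th).MF}
    {CT : ℝ} (C0 : 0 ≤ CT) (hT : ∀ ω, opn (T ω) ≤ CT)
    (hT0 : (mkC n s K J BL Sc Th).PK fun ω => T ω * diagonal (DF μ ω)) {e : ℝ} (he : 0 < e) :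
    ∀ {m l : List (mkC n s K J BL Sc Th).VF}, (mkC n s K J BL Sc Th).Lt l →
      (mkC n s K J BL Sc Th).Lt m → (∀ u ∈ m, (mkC n s K J BL Sc Th).Of4 (jacF u) ∧
        (mkC n s K J BL Sc Th).PK fun ω => T ω * diagonal (DF μ ω) * (jacF u ω)ᵀ) →
      Bl (mkC n s K J BL Sc Th) fun ω w =>
        Sw (s ω.1) (J ω.1) (diagonal w * T ω * diagonal (DF μ ω)) ω.2 e (sf l ω.1) (sf m ω.1) -
          m.length * ((e + |s ω.1|) * (nrm w * CT))
  | [], _, _, _, _ => (Bl.zero h).mono fun ω w => by simp [sf, Sw]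
  | u :: m, l, hl, hm, hj => by
    obtain ⟨hu, hm⟩ := Cx.lt_cons.1 hm
    obtain ⟨ju, hj⟩ := List.forall_mem_cons.1 hj
    have ih := bl_Sw h hμ C0 hT hT0 he (hl.snoc hu) hm hj
    have b1 := bl_PK h hl ju.2
    have b2 := bl_PK h hl hT0
    have b3 : Bl (mkC n s K J BL Sc Th) fun ω w =>
        opn (diagonal w * T ω * diagonal (DF μ ω)) * √(off4 (jacF u ω)) / e := by
      refine Bl.of_sm (γ := fun ω => CT / e * √(off4 (jacF u ω))) (fun ω => by positivity)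
        (Cx.Sm.le ju.1 (sq_nonneg (CT / e)) fun ω => by
          rw [mul_pow, Real.sq_sqrt (off4_nonneg _)]; rfl) fun ω w b hb hw => ?_
      have := opn_mul_le' (opn_mul_le' (opn_diagonal_le hb hw) (hT ω))
        (opn_diagonal_le zero_le_one (abs_DF_le hμ ω))
      calc _ ≤ b * CT * 1 * √(off4 (jacF u ω)) / e := by gcongr
        _ = _ := by ring
    refine ((((b1.add h b2).add h b3)).add h ih).mono fun ω w => ?_
    have f1 : fn (diagonal w * T ω * diagonal (DF μ ω)) ≤ nrm w * CT :=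
      (fn_mul_le' _ _).trans ((mul_le_of_le_one_right (fn_nonneg _)
        (opn_diagonal_le zero_le_one (abs_DF_le hμ ω))).trans ((fn_diag_mul _ _).trans
          (mul_le_mul_of_nonneg_left (hT ω) (nrm_nonneg _))))
    have f2 := mul_le_mul_of_nonneg_left f1 (add_nonneg he.le (abs_nonneg (s ω.1)))
    have e1 : sf (l ++ [u]) ω.1 = sf l ω.1 ++ [fun x => u ⟨ω.1, x⟩] := List.map_append
    have e2 : sf (u :: m) ω.1 = (fun x => u ⟨ω.1, x⟩) :: sf m ω.1 := rfl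
    simp only [e1, e2, Sw, Bw, ev_sf, Cx.wk, jacF, Matrix.mul_assoc, List.length_cons] at f2 ⊢
    push_cast
    linarith

lemma mean_le_sqrt {Ω : Type*} [Fintype Ω] {π f : Ω → ℝ} (h : IsP π) {A : ℝ}
    (hA : mean π (fun x => f x ^ 2) ≤ A) : mean π f ≤ √A := by
  refine Real.le_sqrt_of_sq_le ((h.mean_sq_le f).trans (le_trans (le_of_eq ?_) hA))
  simp only [Chain22.ip, mean, sq]

/-- the mean of a small function -/
theorem mean_sm (h : (mkC n s K J BL Sc Th).Ok) (hμ : ∀ a x, 0 < μ a x)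
    (hTh : ∀ θ, Th θ → ∃ C, ∀ a, n a * mean (prob (μ a)) (fun x => θ ⟨a, x⟩ ^ 4) ≤ C)
    {f : Pt n → ℝ} (hf : (mkC n s K J BL Sc Th).Sm f) :
    ∃ C, 0 ≤ C ∧ ∀ a, mean (prob (μ a)) (fun x => f ⟨a, x⟩) ≤ C * K a := by
  obtain ⟨C, L, C0, hL, hf⟩ := hf
  have : ∃ C', 0 ≤ C' ∧ ∀ a, mean (prob (μ a))
      (fun x => n a * (L.map fun θ => θ ⟨a, x⟩ ^ 4).sum) ≤ C' := by
    clear hf
    induction L with
    | nil => exact ⟨0, le_rfl, fun a => by simp [mean]⟩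
    | cons θ L ih =>
      obtain ⟨C1, g1, h1⟩ := ih (List.forall_mem_cons.1 hL).2
      obtain ⟨C2, g2, h2⟩ := Cx.nn (hTh θ (List.forall_mem_cons.1 hL).1)
      refine ⟨C2 + C1, add_nonneg g2 g1, fun a => ?_⟩
      simp only [List.map_cons, List.sum_cons, mul_add]
      rw [Ent.mean_add', Ent.mean_const_mul]
      exact add_le_add (h2 a) (h1 a)
  obtain ⟨C', g, h'⟩ := this
  refine ⟨C * (1 + C'), by positivity, fun a => ?_⟩
  have hP := Chain22.isP_prob' (hμ a)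
  refine (hP.mean_mono fun x => hf ⟨a, x⟩).trans ?_
  rw [Ent.mean_const_mul, Ent.mean_add', mul_assoc]
  refine mul_le_mul_of_nonneg_left ?_ C0
  have k1 : 1 ≤ K a := h.K1 ⟨a, default⟩
  have := hP.mean_const (K a)
  nlinarith [h' a, mul_le_mul_of_nonneg_left k1 g]

/-- the mean of a site function -/
def mF (μ : ∀ a, Cube (n a) → ℝ) (d : ∀ ω : Pt n, Fin (n ω.1) → ℝ) (a : I) : Fin (n a) → ℝ :=
  fun i => mean (prob (μ a)) fun x => d ⟨a, x⟩ i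

lemma mean_dot (d : ∀ ω : Pt n, Fin (n ω.1) → ℝ) (a : I) (w : Fin (n a) → ℝ) :
    mean (prob (μ a)) (fun x => w ⬝ᵥ d ⟨a, x⟩) = w ⬝ᵥ mF μ d a := by
  simp only [dotProduct, mF]
  rw [Ent.mean_sum']
  exact sum_congr rfl fun i _ => Ent.mean_const_mul _ _

lemma grad_dot (u : ∀ ω : Pt n, Fin (n ω.1) → ℝ) (a : I) (w : Fin (n a) → ℝ) (x : Cube (n a)) :
    grad (fun y => w ⬝ᵥ u ⟨a, y⟩) x = (jacF u ⟨a, x⟩)ᵀ *ᵥ w := by
  ext k
  simp only [jacF, jac, mulVec, dotProduct, transpose_apply, of_apply, Rec.grad_eq, ← sum_sub_distrib,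
    mul_sum, sum_div]
  exact sum_congr rfl fun i _ => by ring

/-- Poincare's inequality for Lipschitz functions, uniformly -/
def LP (μ : ∀ a, Cube (n a) → ℝ) : Prop := ∃ K0, ∀ a (F : Cube (n a) → ℝ) (A : ℝ),
  (∀ x, grad F x ⬝ᵥ grad F x ≤ A) → Chain22.var (prob (μ a)) F ≤ K0 * A

theorem mean_abs_dot (hμ : ∀ a x, 0 < μ a x) (hP : LP μ) {d : ∀ ω : Pt n, Fin (n ω.1) → ℝ}
    (hd : ∃ C, ∀ ω, opn (jacF d ω) ≤ C) : ∃ C, 0 ≤ C ∧ ∀ a w,
      mean (prob (μ a)) (fun x => |w ⬝ᵥ d ⟨a, x⟩|) ≤ |w ⬝ᵥ mF μ d a| + C * nrm w := by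
  obtain ⟨K0, hK⟩ := hP
  obtain ⟨C, C0, hC⟩ := Cx.nn hd
  refine ⟨√|K0| * C, by positivity, fun a w => ?_⟩
  have hP := Chain22.isP_prob' (hμ a)
  have h1 := hK a (fun x => w ⬝ᵥ d ⟨a, x⟩) ((C * nrm w) ^ 2) fun x => by
    rw [grad_dot, ← nrm_le_iff (mul_nonneg C0 (nrm_nonneg w))]
    exact (nrm_mulVec_le _ _).trans (mul_le_mul_of_nonneg_right
      ((opn_transpose _).trans_le (hC _)) (nrm_nonneg w))
  have h2 := mean_le_sqrt hP (f := fun x => |w ⬝ᵥ d ⟨a, x⟩ - w ⬝ᵥ mF μ d a|)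
    (A := |K0| * (C * nrm w) ^ 2) (by
      simp only [sq_abs, ← mean_dot]
      exact h1.trans (mul_le_mul_of_nonneg_right (le_abs_self _) (sq_nonneg _)))
  rw [Real.sqrt_mul (abs_nonneg _), Real.sqrt_sq (mul_nonneg C0 (nrm_nonneg w)), ← mul_assoc] at h2
  refine le_trans (hP.mean_mono (g := fun x => |w ⬝ᵥ mF μ d a| + |w ⬝ᵥ d ⟨a, x⟩ - w ⬝ᵥ mF μ d a|)
    fun x => ?_) ?_
  · have := abs_add_le (w ⬝ᵥ mF μ d a) (w ⬝ᵥ d ⟨a, x⟩ - w ⬝ᵥ mF μ d a)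
    rwa [add_sub_cancel] at this
  · rw [Ent.mean_add', hP.mean_const]
    exact add_le_add le_rfl h2

/-- the mean of a functional of the class `Bl` -/
theorem bl_mean (h : (mkC n s K J BL Sc Th).Ok) (hμ : ∀ a x, 0 < μ a x)
    (hTh : ∀ θ, Th θ → ∃ C, ∀ a, n a * mean (prob (μ a)) (fun x => θ ⟨a, x⟩ ^ 4) ≤ C) (hP : LP μ)
    (hj : ∀ u, BL u → (mkC n s K J BL Sc Th).Op (jacF u))
    {Φ : ∀ ω : Pt n, (Fin (n ω.1) → ℝ) → ℝ} (hΦ : Bl (mkC n s K J BL Sc Th) Φ) :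
    ∃ (C : ℝ) (D : List (mkC n s K J BL Sc Th).VF), 0 ≤ C ∧ (mkC n s K J BL Sc Th).Lt D ∧
      ∀ a w b, 0 ≤ b → (∀ i, |w i| ≤ b) → mean (prob (μ a)) (fun x => Φ ⟨a, x⟩ w) ≤
        C * (√(K a) * b + |s a| * nrm w + |s a| * (D.map fun d => |w ⬝ᵥ mF μ d a|).sum) := by
  obtain ⟨γ, D, C, g0, g1, hD, C0, hΦ⟩ := hΦ
  obtain ⟨C1, c1, h1⟩ := mean_sm h hμ hTh g1
  have : ∃ C2, 0 ≤ C2 ∧ ∀ a w, mean (prob (μ a)) (fun x => (D.map fun d => |w ⬝ᵥ d ⟨a, x⟩|).sum) ≤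
      (D.map fun d => |w ⬝ᵥ mF μ d a|).sum + C2 * nrm w := by
    clear hΦ
    induction D with
    | nil => exact ⟨0, le_rfl, fun a w => by simp [Chain22.mean]⟩
    | cons d D ih =>
      obtain ⟨C2, c2, h2⟩ := ih (Cx.lt_cons.1 hD).2
      obtain ⟨C3, c3, h3⟩ := mean_abs_dot hμ hP (hj d (Cx.lt_cons.1 hD).1)
      refine ⟨C3 + C2, add_nonneg c3 c2, fun a w => ?_⟩
      simp only [List.map_cons, List.sum_cons]
      rw [Ent.mean_add']
      linarith [h2 a w, h3 a w]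
  obtain ⟨C2, c2, h2⟩ := this
  refine ⟨√C1 + C * C2 + C, D, by positivity, hD, fun a w b hb hw => ?_⟩
  have hP := Chain22.isP_prob' (hμ a)
  have h3 := mean_le_sqrt hP (h1 a)
  rw [Real.sqrt_mul c1] at h3
  refine (hP.mean_mono fun x => hΦ ⟨a, x⟩ w b hb hw).trans ?_
  rw [Ent.mean_add', Ent.mean_mul_const, Ent.mean_const_mul]
  erw [Ent.mean_const_mul (a := |s a|)]
  have p1 : 0 ≤ √(K a) * b := by positivity
  have p2 : 0 ≤ |s a| * nrm w := mul_nonneg (abs_nonneg _) (nrm_nonneg w)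
  have p3 := mul_nonneg (abs_nonneg (s a)) (sum_abs_nonneg D fun d => w ⬝ᵥ mF μ d a)
  have p4 := mul_le_mul_of_nonneg_left (mul_le_mul_of_nonneg_left (h2 a w) (abs_nonneg (s a))) C0
  have p5 := mul_le_mul_of_nonneg_right h3 hb
  have q1 := Real.sqrt_nonneg C1
  have q2 := mul_nonneg C0 c2
  nlinarith [mul_nonneg q1 p2, mul_nonneg q1 p3, mul_nonneg q2 p1, mul_nonneg q2 p3,
    mul_nonneg C0 p1, mul_nonneg C0 p2]

lemma jacF_smul (r : ℝ) (u : ∀ ω : Pt n, Fin (n ω.1) → ℝ) (ω : Pt n) :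
    jacF (fun ω => r • u ω) ω = r • jacF u ω := by
  ext q k
  simp only [jacF, jac, of_apply, Rec.grad_eq, Pi.smul_apply, smul_eq_mul, Matrix.smul_apply]
  ring

/-- **(BIL) for one flow** -/
theorem bil_T (h : (mkC n s K J BL Sc Th).Ok) (hμ : ∀ a x, 0 < μ a x)
    (hTh : ∀ θ, Th θ → ∃ C, ∀ a, n a * mean (prob (μ a)) (fun x => θ ⟨a, x⟩ ^ 4) ≤ C) (hP : LP μ)
    {T : (mkC n s K J BL Sc Th).MF} (hF : ∀ a (i : Fin (n a)), Free fun x k => T ⟨a, x⟩ i k)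
    (hT : (mkC n s K J BL Sc Th).Op T)
    (hT0 : (mkC n s K J BL Sc Th).PK fun ω => T ω * diagonal (DF μ ω))
    (hj : ∀ u, BL u → (mkC n s K J BL Sc Th).Op (jacF u) ∧ (mkC n s K J BL Sc Th).Of4 (jacF u) ∧
      (mkC n s K J BL Sc Th).PK fun ω => T ω * diagonal (DF μ ω) * (jacF u ω)ᵀ)
    {m : List (mkC n s K J BL Sc Th).VF} (hm : (mkC n s K J BL Sc Th).Lt m) {e : ℝ} (he : 0 < e) :
    ∃ (C : ℝ) (D : List (mkC n s K J BL Sc Th).VF), 0 ≤ C ∧ (mkC n s K J BL Sc Th).Lt D ∧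
      ∀ a (w z : Fin (n a) → ℝ) (b : ℝ), 0 ≤ b → (∀ i, |w i| ≤ b) →
        |mean (prob (μ a)) fun x => ∑ i, w i * dv (μ a) (fun y k => T ⟨a, y⟩ i k) x *
          ((mkC n s K J BL Sc Th).vk m ⟨a, x⟩ *ᵥ z) i| ≤ nrm z * (e * nrm w +
          C * (√(K a) * b + |s a| * nrm w + |s a| * (D.map fun d => |w ⬝ᵥ mF μ d a|).sum)) := by
  have : ∃ r : ℝ, 1 ≤ r ∧ ∀ u ∈ m, (∀ ω i, |u ω i| ≤ r) ∧ ∀ ω, opn (jacF u ω) ≤ r := by
    induction m with
    | nil => exact ⟨1, le_rfl, by simp⟩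
    | cons u m ih =>
      obtain ⟨r, r1, hr⟩ := ih (Cx.lt_cons.1 hm).2
      obtain ⟨C1, h1⟩ := h.bl_bd (Cx.lt_cons.1 hm).1
      obtain ⟨C2, h2⟩ := (hj u (Cx.lt_cons.1 hm).1).1
      have a1 : r ≤ max r (max C1 C2) := le_max_left _ _
      refine ⟨_, r1.trans a1, List.forall_mem_cons.2 ⟨⟨fun ω i => (h1 ω i).trans
        ((le_max_left _ _).trans (le_max_right _ _)), fun ω => (h2 ω).trans
        ((le_max_right _ _).trans (le_max_right _ _))⟩, fun v hv =>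
          ⟨fun ω i => ((hr v hv).1 ω i).trans a1, fun ω => ((hr v hv).2 ω).trans a1⟩⟩⟩
  obtain ⟨r, r1, hr⟩ := this
  have r0 : 0 < r := by linarith
  obtain ⟨R, hR⟩ := Cx.op_J h
  obtain ⟨CT, C0, hT⟩ := Cx.nn hT
  set m' : List (mkC n s K J BL Sc Th).VF := m.map fun u ω => r⁻¹ • u ω with hm'
  have lm : (mkC n s K J BL Sc Th).Lt m' := fun v hv => by
    obtain ⟨u, hu, rfl⟩ := List.mem_map.1 hv
    exact h.bl_smul _ (hm u hu)
  have len : m'.length = m.length := List.length_map _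
  set A : ℝ := r ^ m.length * Cw |R| 1 m.length with hA
  have A0 : 0 ≤ A := by rw [hA, Cw]; positivity
  set e' : ℝ := e / (A * m.length * CT + 1) with he'
  have e0 : 0 < e' := by positivity
  obtain ⟨C, D, c0, hD, hC⟩ := bl_mean h hμ hTh hP (fun u hu => (hj u hu).1)
    (bl_Sw h hμ C0 hT hT0 e0 Cx.lt_nil lm fun u hu => (hj u (lm u hu)).2)
  refine ⟨A * C + A * m.length * CT, D, by positivity, hD, fun a w z b hb hw => ?_⟩
  have hP := Chain22.isP_prob' (hμ a)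
  have h1 := ibp_le (G := 1) (hμ a) (h.hs ⟨a, default⟩) ((hR ⟨a, default⟩).trans (le_abs_self R))
    (m := sf m' a) (fun v hv => by
      obtain ⟨u', hu', rfl⟩ := List.mem_map.1 hv
      obtain ⟨u, hu, rfl⟩ := List.mem_map.1 hu'
      refine ⟨fun x i => ?_, fun x => ?_⟩
      · beta_reduce
        rw [Pi.smul_apply, smul_eq_mul, abs_mul, abs_of_pos (inv_pos.2 r0), inv_mul_le_iff₀ r0, mul_one]
        exact (hr u hu).1 ⟨a, x⟩ i
      · refine (congrArg opn (jacF_smul r⁻¹ u ⟨a, x⟩)).trans_le ?_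
        rw [opn_smul, abs_of_pos (inv_pos.2 r0), inv_mul_le_iff₀ r0, mul_one]
        exact (hr u hu).2 _) (T := fun x => T ⟨a, x⟩) (hF a) w z e0
  have h2 := hC a w b hb hw
  dsimp only at h1 h2
  rw [Ent.mean_sub', hP.mean_const (m'.length * ((e' + |s a|) * (nrm w * CT))), len] at h2
  have e1 : ∀ x, (mkC n s K J BL Sc Th).vk m ⟨a, x⟩ = r ^ m.length • Vk (s a) (J a) (ev (sf m' a) x) :=
    fun x => by
      have := (Cx.vu_smul (s a) r (J a) (ev (sf m' a) x)).1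
      rw [length_ev, sf, List.length_map, len, ← sf] at this
      rw [← this, ev_sf, hm', List.map_map, List.map_map, Cx.vk]
      congr 1
      exact List.map_congr_left fun u _ => by simp [smul_smul, r0.ne']
  have e2 : (mean (prob (μ a)) fun x => ∑ i, w i * dv (μ a) (fun y k => T ⟨a, y⟩ i k) x *
      ((mkC n s K J BL Sc Th).vk m ⟨a, x⟩ *ᵥ z) i) = r ^ m.length * mean (prob (μ a)) fun x =>
        ∑ i, w i * dv (μ a) (fun y k => T ⟨a, y⟩ i k) x * (Vk (s a) (J a) (ev (sf m' a) x) *ᵥ z) i := by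
    rw [← Ent.mean_const_mul]
    refine Ent.mean_congr fun x => ?_
    rw [e1, smul_mulVec, mul_sum]
    exact sum_congr rfl fun i _ => by rw [Pi.smul_apply, smul_eq_mul]; ring
  rw [sf, List.length_map, len, ← sf] at h1
  rw [e2, abs_mul, abs_of_pos (pow_pos r0 _)]
  refine (mul_le_mul_of_nonneg_left h1 (pow_pos r0 _).le).trans ?_
  rw [← mul_assoc, ← mul_assoc, ← hA, mul_comm A, mul_assoc]
  refine mul_le_mul_of_nonneg_left ?_ (nrm_nonneg z)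
  have h3 := mul_le_mul_of_nonneg_left (sub_le_iff_le_add.1 h2) A0
  refine le_trans (le_of_eq rfl) (h3.trans ?_)
  have h4 : A * m.length * CT * e' ≤ e := by
    rw [he', ← mul_div_assoc, div_le_iff₀ (by positivity)]
    nlinarith
  have p1 : 0 ≤ √(K a) * b := by positivity
  have p3 := mul_nonneg (abs_nonneg (s a)) (sum_abs_nonneg D fun d => w ⬝ᵥ mF μ d a)
  have q : 0 ≤ A * m.length * CT := by positivity
  nlinarith [mul_le_mul_of_nonneg_right h4 (nrm_nonneg w), mul_nonneg q p1, mul_nonneg q p3]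

end Crest.Agent.T157.S3B
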