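import Crest.Agent.T157.S3Def_69
import Crest.Agent.T157.S3BilB_89
import Crest.Agent.T157.S3X_43

/-!
# Row 157, part B, block S3 (helper98): (DG)
-/

set_option autoImplicit false
set_option maxHeartbeats 400000

noncomputable section

namespace Crest.Agent.T157.S3

open Matrix Finset
open Crest.Agent.T157.Eig Crest.Agent.T157.Fr Crest.Agent.T157.Uw Crest.Agent.T157.S3W
open Crest.Agent.T157.S3B
open Fam

namespace Dg98

variable {F : Fam} {N : ℕ} {R : Net F N} {f g : F.Sf}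

lemma g2_nonneg (L : List F.Sf) (ω : F.Ω) : 0 ≤ (F.n ω.1 : ℝ) * (L.map fun θ => θ ω ^ 2).sum :=
  mul_nonneg (Nat.cast_nonneg _) (List.sum_nonneg fun x hx => by
    obtain ⟨θ, -, rfl⟩ := List.mem_map.1 hx; positivity)

theorem sq_le (hg : Sq g) {C : ℝ} (hC : 0 ≤ C) (h : ∀ ω, f ω ≤ C * g ω) : Sq f :=
  let ⟨D, L, h0, h1, h2⟩ := hg
  ⟨C * D, L, mul_nonneg hC h0, h1, fun ω => (h ω).trans (by
    rw [mul_assoc]; exact mul_le_mul_of_nonneg_left (h2 ω) hC)⟩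

theorem sq_add (hK : ∀ ω : F.Ω, 1 ≤ F.K ω.1) (hf : Sq f) (hg : Sq g) : Sq fun ω => f ω + g ω := by
  obtain ⟨C, L, c0, c1, c2⟩ := hf
  obtain ⟨D, M, d0, d1, d2⟩ := hg
  refine ⟨C + D, L ++ M, add_nonneg c0 d0, List.forall_mem_append.2 ⟨c1, d1⟩, fun ω => ?_⟩
  have h1 := g2_nonneg L ω
  have h2 := g2_nonneg M ω
  rw [List.map_append, List.sum_append]
  nlinarith [c2 ω, d2 ω, mul_nonneg c0 h2, mul_nonneg d0 h1]

theorem sq_th (hK : ∀ ω : F.Ω, 1 ≤ F.K ω.1) {θ : F.Sf} (hθ : Th θ) :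
    Sq fun ω => F.n ω.1 * θ ω ^ 2 :=
  ⟨1, [θ], zero_le_one, by simpa using hθ, fun ω => by simpa using (hK ω).trans' zero_le_one⟩

theorem sq_of_sm (hK : ∀ ω : F.Ω, 1 ≤ F.K ω.1) (h : R.cx.Sm f) : Sq f := by
  obtain ⟨C, L, c0, c1, c2⟩ := h
  have h1 : Sq fun ω => F.K ω.1 + F.n ω.1 * (L.map fun θ => θ ω ^ 4).sum := by
    clear c2
    induction L with
    | nil => exact ⟨1, [], zero_le_one, by simp, fun ω => by simp⟩
    | cons θ L ih =>
      obtain ⟨hθ, hL⟩ := List.forall_mem_cons.1 c1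
      obtain ⟨B, hB⟩ := hθ.1
      refine sq_le (sq_add hK (ih hL) (sq_le (f := fun ω => F.n ω.1 * θ ω ^ 4) (sq_th hK hθ)
        (sq_nonneg B) fun ω => ?_)) zero_le_one fun ω => le_of_eq ?_
      · have h2 : θ ω ^ 2 ≤ B ^ 2 := by
          rw [← sq_abs]; exact pow_le_pow_left₀ (abs_nonneg _) ((hB ω.1).1 ω.2) 2
        have := mul_le_mul_of_nonneg_right h2
          (mul_nonneg (Nat.cast_nonneg (α := ℝ) (F.n ω.1)) (sq_nonneg (θ ω)))
        nlinarith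
      · simp only [List.map_cons, List.sum_cons]; ring
  exact sq_le h1 c0 c2

/-- operator norm of `∑ ϑ B` -/
theorem tp_op (h : R.cx.Ok) {A : R.cx.MF} (hA : R.cx.Sp R.cx.Th A) :
    Sq fun ω => F.n ω.1 * opn (A ω) ^ 2 := by
  induction hA with
  | @word σ d l hσ hd hl =>
    obtain ⟨C, -, hC⟩ := Cx.nn (Cx.Sp.op h h.md (Cx.pr_word h hd hl))
    refine sq_le (sq_th h.K1 hσ) (sq_nonneg C) fun ω => ?_
    have := pow_le_pow_left₀ (opn_nonneg _) (opn_smul_le (le_refl |σ ω|) (hC ω)) 2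
    rw [mul_pow, sq_abs] at this
    exact (mul_le_mul_of_nonneg_left this (Nat.cast_nonneg _)).trans (le_of_eq (by ring))
  | @add A B _ _ h1 h2 =>
    refine sq_le (sq_add h.K1 h1 h2) zero_le_two fun ω => ?_
    have := pow_le_pow_left₀ (opn_nonneg _) (opn_add_le (A ω) (B ω)) 2
    have h3 : opn (A ω + B ω) ^ 2 ≤ 2 * (opn (A ω) ^ 2 + opn (B ω) ^ 2) := by
      nlinarith [sq_nonneg (opn (A ω) - opn (B ω))]
    exact (mul_le_mul_of_nonneg_left h3 (Nat.cast_nonneg _)).trans (le_of_eq (by ring))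

lemma nrm_diag_opn {n : ℕ} (M : Mx n) : nrm M.diag ≤ √n * opn M := by
  refine (nrm_le_iff (mul_nonneg (Real.sqrt_nonneg _) (opn_nonneg _))).2 ?_
  rw [mul_pow, Real.sq_sqrt (Nat.cast_nonneg _)]
  refine (sum_le_card_nsmul _ _ (opn M ^ 2) fun i _ => ?_).trans (by simp)
  rw [← sq, ← sq_abs]
  exact pow_le_pow_left₀ (abs_nonneg _) (abs_entry_le M i i) 2

section
variable {Ω : Type*} {c : Cx Ω}

theorem bl_cmul {Φ Ψ : ∀ ω, (Fin (c.n ω) → ℝ) → ℝ} (h : Bl c Ψ) {r : ℝ} (hr : 0 ≤ r)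
    (e : ∀ ω w, Φ ω w ≤ r * Ψ ω w) : Bl c Φ := by
  obtain ⟨γ, D, C, h1, h2, h3, h4, h5⟩ := h
  refine ⟨fun ω => r * γ ω, D, r * C, fun ω => mul_nonneg hr (h1 ω),
    h2.le (sq_nonneg r) fun ω => (mul_pow _ _ _).le, h3, mul_nonneg hr h4, fun ω w b hb hw =>
    (e ω w).trans ((mul_le_mul_of_nonneg_left (h5 ω w b hb hw) hr).trans (le_of_eq (by ring)))⟩

theorem bl_CW (h : c.Ok) {A B : c.MF} (hA : c.CW A) (hB : c.PK B) :
    Bl c fun ω w => nrm (A ω * diagonal w * B ω).diag := by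
  induction hA with
  | @right σ d l hσ hd hl =>
    refine (bl_PK h hl.reverse (Cx.Kp.smul h h.md hσ
      (Cx.Kp.lmul h h.md (Cx.pr_diag h hd) hB))).mono fun ω w => le_of_eq ?_
    rw [Cx.wk_transpose h, List.reverse_reverse]
    simp only [Matrix.smul_mul, Matrix.mul_smul, Matrix.mul_assoc]
    rw [← Matrix.mul_assoc (diagonal _), ← Matrix.mul_assoc (diagonal _), diagonal_mul_diagonal,
      diagonal_mul_diagonal]
    simp only [mul_comm]
  | @left σ d l hσ hd hl =>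
    obtain ⟨C, c1, hC⟩ := Cx.BdV.nn (c := c) (h.bl_bd hd)
    refine bl_cmul (bl_PK h hl.reverse (Cx.Kp.smul h h.md hσ hB)) (r := C) (by linarith)
      fun ω w => ?_
    rw [Cx.wk_transpose h, List.reverse_reverse]
    simp only [Matrix.smul_mul, Matrix.mul_smul, Matrix.mul_assoc]
    rw [← Matrix.mul_smul]
    refine (nrm_le_iff (mul_nonneg (by linarith) (nrm_nonneg _))).2 ?_
    rw [mul_pow, nrm_sq, dotProduct, dotProduct, mul_sum]
    refine sum_le_sum fun i _ => ?_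
    rw [diag_apply, diag_apply, diagonal_mul, ← sq, ← sq, mul_pow]
    refine mul_le_mul_of_nonneg_right ?_ (sq_nonneg _)
    rw [← sq_abs]; exact pow_le_pow_left₀ (abs_nonneg _) (hC ω i) 2
  | add _ _ h1 h2 =>
    refine (h1.add h h2).mono fun ω w => ?_
    rw [Matrix.add_mul, Matrix.add_mul, diag_add]
    exact nrm_add_le _ _

theorem bl_HS {A B : c.MF} (hA : c.HS A) (hB : c.Op B) :
    Bl c fun ω w => nrm (A ω * diagonal w * B ω).diag := by
  obtain ⟨C, C0, hC⟩ := Cx.nn hB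
  refine Bl.of_sm (γ := fun ω => C * fn (A ω)) (fun ω => mul_nonneg C0 (fn_nonneg _))
    (Cx.Sm.le hA (sq_nonneg C) fun ω => by rw [mul_pow, fn_sq]) fun ω w b hb hw => ?_
  rw [Matrix.mul_assoc]
  refine (nrm_diag_le _).trans ((fn_mul_le' _ _).trans ((mul_le_mul_of_nonneg_left
    (opn_mul_le' (opn_diagonal_le hb hw) (hC ω)) (fn_nonneg _)).trans (le_of_eq (by ring))))

end

theorem lt_ev {D : List F.Vf} (h : R.cx.Lt D) :
    ∃ D' : List (F.Lf (N + 1)), (∀ d ∈ D', d ∈ R.C) ∧ D = D'.map R.ev := by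
  induction D with
  | nil => exact ⟨[], by simp, rfl⟩
  | cons d D ih =>
    obtain ⟨⟨g, h1, rfl⟩, h2⟩ := Cx.lt_cons.1 h
    obtain ⟨D', h3, rfl⟩ := ih h2
    exact ⟨g :: D', List.forall_mem_cons.2 ⟨h1, h3⟩, rfl⟩

theorem abs_s_le (h : R.cx.Ok) (ω : F.Ω) : |F.s ω.1| ≤ 1 / √(F.n ω.1) := by
  rcases Nat.eq_zero_or_pos (F.n ω.1) with e | e
  · simp [Fam.s, e]
  · have h1 : F.s ω.1 ^ 2 * F.n ω.1 ≤ 1 := by simpa using h.hs ω
    rw [le_div_iff₀ (by positivity), ← Real.sqrt_sq_eq_abs, ← Real.sqrt_mul (sq_nonneg _)]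
    exact Real.sqrt_le_one.2 h1

end Dg98

open Dg98

theorem dgStmt : DGStmt := by
  rintro F N R h A B ⟨-, A1, h1, A2, h2, h3⟩ ⟨hB, hB'⟩
  obtain ⟨γ, D, C, g0, g1, g2, C0, g3⟩ := (bl_CW h h1 hB').add h (bl_HS h3 hB)
  obtain ⟨D', d1, rfl⟩ := lt_ev g2
  obtain ⟨E, E0, hE⟩ := Cx.nn hB
  refine ⟨D', fun ω => (γ ω + E * (√(F.n ω.1) * opn (A2 ω))) ^ 2, C, d1,
    sq_le (sq_add h.K1 (sq_of_sm h.K1 g1) (sq_le (f := fun ω => (E * (√(F.n ω.1) * opn (A2 ω))) ^ 2)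
      (tp_op h h2) (sq_nonneg E) fun ω => le_of_eq ?_)) zero_le_two fun ω => ?_, fun ω v => ?_⟩
  · rw [mul_pow, mul_pow, Real.sq_sqrt (Nat.cast_nonneg _)]
  · nlinarith [sq_nonneg (γ ω - E * (√(F.n ω.1) * opn (A2 ω)))]
  have hv : ∀ i, |v i| ≤ ‖v‖ := fun i => norm_le_pi_norm v i
  have k1 := g3 ω v ‖v‖ (norm_nonneg _) hv
  have k2 := (nrm_diag_opn (A2 ω * diagonal v * B ω)).trans (mul_le_mul_of_nonneg_left (opn_mul_le'
    (opn_mul_le' le_rfl (opn_diagonal_le (norm_nonneg _) hv)) (hE ω)) (Real.sqrt_nonneg _))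
  have e : A ω * diagonal v * B ω = A1 ω * diagonal v * B ω +
      (A ω - A1 ω - A2 ω) * diagonal v * B ω + A2 ω * diagonal v * B ω := by
    simp only [Matrix.sub_mul]; abel
  have k3 := mul_le_mul_of_nonneg_left (mul_le_mul_of_nonneg_right (abs_s_le h ω)
    (sum_abs_nonneg D' fun d => v ⬝ᵥ R.ev d ω)) C0
  rw [List.map_map] at k1
  beta_reduce
  rw [e, diag_add, diag_add, Real.sqrt_sq (add_nonneg (g0 ω)
    (mul_nonneg E0 (mul_nonneg (Real.sqrt_nonneg _) (opn_nonneg _))))]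
  refine (nrm_add_le _ _).trans ((add_le_add ((nrm_add_le _ _).trans (k1.trans
    (add_le_add le_rfl k3))) k2).trans (le_of_eq (by ring)))

end Crest.Agent.T157.S3

end
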