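import Crest.Agent.T157.S3GrA_7

/-!
# Row 157, B, block S3: the Gram bound for a sum of flows, neutral words (helper7)
-/

set_option autoImplicit false
set_option linter.unusedSectionVars false

noncomputable section

namespace Crest.Agent.T157.S3.Gr7

open Matrix Finset
open Crest.Agent.T157.Eig Crest.Agent.T157.Uw Crest.Agent.T157.Chain22

variable {Ω ι : Type*} [Fintype Ω] [Fintype ι] [DecidableEq ι] {μ : Ω → ℝ}

lemma nrm_mul_le {w ρ : ι → ℝ} {c : ℝ} (hc : 0 ≤ c) (h : ∀ i, |ρ i| ≤ c) :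
    nrm (w * ρ) ≤ c * nrm w := by
  rw [mul_comm w, ← diag_mulVec]
  exact (nrm_mulVec_le _ _).trans
    (mul_le_mul_of_nonneg_right (opn_diagonal_le hc h) (nrm_nonneg _))

lemma uv_le {w ρ ρ' : ι → ℝ} {c : ℝ} (hc : 0 ≤ c) (h : ∀ i, |ρ i| ≤ c) (h' : ∀ i, |ρ' i| ≤ c) :
    nrm (w * ρ) * nrm (w * ρ') ≤ c ^ 2 * (w ⬝ᵥ w) :=
  (mul_le_mul (nrm_mul_le hc h) (nrm_mul_le hc h') (nrm_nonneg _)
    (mul_nonneg hc (nrm_nonneg _))).trans (le_of_eq (by rw [← nrm_mul_self]; ring))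

lemma mean_sum' {σ : Type*} (t : Finset σ) (g : σ → Ω → ℝ) :
    mean μ (fun x => ∑ j ∈ t, g j x) = ∑ j ∈ t, mean μ (g j) := by
  rw [← mean_sum]; congr 1; ext x; simp

lemma mean_const_mul (r : ℝ) (g : Ω → ℝ) : mean μ (fun x => r * g x) = r * mean μ g :=
  mean_smul μ r g

/-- weighted sums of negligible vectors -/
lemma neg_sum {w z r : ι → ℝ} {e η K : ℝ} (he : 0 < e) (hw : ∀ i, |w i| ≤ η)
    (hr : ∑ i, r i ^ 4 ≤ K) (hz : ∀ i, |z i| ≤ e + r i) :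
    |∑ i, w i ^ 2 * z i| ≤ 2 * e * (w ⬝ᵥ w) + η ^ 2 * K / e ^ 3 := by
  have h1 : ∀ i, |w i ^ 2 * z i| ≤ 2 * e * (w i * w i) + η ^ 2 / e ^ 3 * r i ^ 4 := fun i => by
    have h2 : r i ≤ e + r i ^ 4 / e ^ 3 := by
      rcases le_total (r i) e with h | h
      · exact h.trans (le_add_of_nonneg_right (by positivity))
      · refine le_trans ?_ (le_add_of_nonneg_left he.le)
        rw [le_div_iff₀ (by positivity), pow_succ' (r i) 3]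
        exact mul_le_mul_of_nonneg_left (pow_le_pow_left₀ he.le h 3) (he.le.trans h)
    have h3 : w i ^ 2 ≤ η ^ 2 := by
      rw [← sq_abs]; exact pow_le_pow_left₀ (abs_nonneg _) (hw i) 2
    have h4 := mul_le_mul_of_nonneg_right h3 (show 0 ≤ r i ^ 4 / e ^ 3 by positivity)
    rw [abs_mul, abs_of_nonneg (sq_nonneg _)]
    calc w i ^ 2 * |z i| ≤ w i ^ 2 * (2 * e + r i ^ 4 / e ^ 3) :=
          mul_le_mul_of_nonneg_left (by linarith [hz i]) (sq_nonneg _)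
      _ ≤ _ := by rw [div_mul_eq_mul_div, mul_div_assoc]; linarith
  refine (abs_sum_le_sum_abs _ _).trans ((sum_le_sum fun i _ => h1 i).trans ?_)
  rw [sum_add_distrib, ← mul_sum, ← mul_sum, dotProduct, mul_div_right_comm]
  gcongr

/-- the scalar part against the local law -/
lemma scal (hμ : IsP μ) {p : Ω → ℝ} {w : ι → ℝ} {ρ ρ' : Ω → ι → ℝ} {c γ B p₀ e η K : ℝ}
    {mo r : ι → ℝ} (hc : 0 ≤ c) (h : ∀ x i, |ρ x i| ≤ c) (h' : ∀ x i, |ρ' x i| ≤ c)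
    (hp : mean μ (fun x => |p x - p₀|) ≤ γ) (hB : |p₀| ≤ B) (he : 0 < e) (hw : ∀ i, |w i| ≤ η)
    (hr : ∑ i, r i ^ 4 ≤ K) (hz : ∀ i, |mean μ (fun x => ρ x i * ρ' x i) - mo i| ≤ e + r i) :
    |mean μ (fun x => p x * ((w * ρ x) ⬝ᵥ (w * ρ' x))) - p₀ * ∑ i, w i ^ 2 * mo i| ≤
      γ * (c ^ 2 * (w ⬝ᵥ w)) + B * (2 * e * (w ⬝ᵥ w) + η ^ 2 * K / e ^ 3) := by
  have M0 : 0 ≤ c ^ 2 * (w ⬝ᵥ w) := mul_nonneg (sq_nonneg _) (dot_self_nonneg w)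
  have e1 : mean μ (fun x => p x * ((w * ρ x) ⬝ᵥ (w * ρ' x))) - p₀ * ∑ i, w i ^ 2 * mo i =
      mean μ (fun x => (p x - p₀) * ((w * ρ x) ⬝ᵥ (w * ρ' x))) +
        p₀ * ∑ i, w i ^ 2 * (mean μ (fun x => ρ x i * ρ' x i) - mo i) := by
    have e2 : mean μ (fun x => (w * ρ x) ⬝ᵥ (w * ρ' x)) =
        ∑ i, w i ^ 2 * mean μ fun x => ρ x i * ρ' x i := by
      simp only [← mean_const_mul, ← mean_sum', dotProduct, Pi.mul_apply]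
      congr 1; ext x; exact sum_congr rfl fun i _ => by ring
    have e3 := mean_lin (μ := μ) (fun x => (p x - p₀) * ((w * ρ x) ⬝ᵥ (w * ρ' x)))
      (fun x => (w * ρ x) ⬝ᵥ (w * ρ' x)) 1 p₀
    simp only [one_mul, ← add_mul, sub_add_cancel] at e3
    simp only [e3, e2, mul_sub, sum_sub_distrib]
    ring
  rw [e1]
  refine (abs_add_le _ _).trans (add_le_add ?_ ?_)
  · refine (abs_mean_le' hμ (g := fun x => c ^ 2 * (w ⬝ᵥ w) * |p x - p₀|) fun x => ?_).trans ?_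
    · rw [abs_mul, mul_comm]
      exact mul_le_mul_of_nonneg_right ((abs_dot_le _ _).trans (uv_le hc (h x) (h' x)))
        (abs_nonneg _)
    · rw [mean_const_mul, mul_comm]; exact mul_le_mul_of_nonneg_right hp M0
  · rw [abs_mul]
    exact mul_le_mul hB (neg_sum he hw hr hz) (abs_nonneg _) ((abs_nonneg _).trans hB)

lemma sq_expand {σ : Type*} (t : Finset σ) (d : ι → ℝ) (Y : σ → Matrix ι ι ℝ) (u : σ → ι → ℝ) :
    ∑ k, d k * (∑ j ∈ t, (Y j)ᵀ *ᵥ u j) k ^ 2 =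
      ∑ j ∈ t, ∑ j' ∈ t, u j ⬝ᵥ (Y j * diagonal d * (Y j')ᵀ) *ᵥ u j' := by
  have e : ∀ j j', u j ⬝ᵥ (Y j * diagonal d * (Y j')ᵀ) *ᵥ u j' =
      ∑ k, d k * (((Y j)ᵀ *ᵥ u j) k * ((Y j')ᵀ *ᵥ u j') k) := fun j j' => by
    rw [← mulVec_mulVec, ← mulVec_mulVec, dotProduct_mulVec, ← mulVec_transpose, diag_mulVec,
      dotProduct]
    exact sum_congr rfl fun k _ => by rw [Pi.mul_apply]; ring
  simp only [e, Finset.sum_apply, sq, sum_mul_sum]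
  simp only [mul_sum]
  rw [sum_comm]
  exact sum_congr rfl fun j _ => sum_comm

/-- **(GRAM)** for a finite sum of flows -/
theorem gram_sum {σ : Type*} (t : Finset σ) {s R c δ β γ B e η K : ℝ} {J : Matrix ι ι ℝ} {N : ℕ}
    {P Q : (Ω → ι → ℝ) → Prop} {al : σ → ℕ → Ω → ι → ℝ} {a : σ → ℕ → ℕ → Ω → ι → ℝ}
    {T Y : σ → ℕ → Ω → Matrix ι ι ℝ} {lv : σ → ℕ} {ρ : σ → Ω → ι → ℝ} {d : Ω → ι → ℝ} {w : ι → ℝ}
    {p₀ : σ → σ → ℝ} {mo : σ → σ → ι → ℝ}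
    (h : ∀ j ∈ t, ∀ j' ∈ t, Hyp μ s J R c δ β (c ^ 2 * (w ⬝ᵥ w)) (2 * N + 1) P Q
      (fun x => w * ρ j x) fun x => w * ρ j' x)
    (f : ∀ j ∈ t, Fl μ s J c P N (al j) (a j) (T j) (Y j)) (hlv : ∀ j ∈ t, lv j ≤ N)
    (hd : ∀ x i, |d x i| ≤ c)
    (hQ : ∀ j ∈ t, ∀ j' ∈ t, ∀ l ≤ N, ∀ m ≤ N, Q (al j l * d * al j' m))
    (hρ : ∀ j ∈ t, ∀ x i, |ρ j x i| ≤ c)
    (hp : ∀ j ∈ t, ∀ j' ∈ t, mean μ (fun x =>
      |P0 s (al j) (a j) (al j') (a j') d (lv j) (lv j') x - p₀ j j'|) ≤ γ ∧ |p₀ j j'| ≤ B)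
    (he : 0 < e) (hw : ∀ i, |w i| ≤ η)
    (hz : ∀ j ∈ t, ∀ j' ∈ t, ∃ r : ι → ℝ, ∑ i, r i ^ 4 ≤ K ∧
      ∀ i, |mean μ (fun x => ρ j x i * ρ j' x i) - mo j j' i| ≤ e + r i) :
    |mean μ (fun x => ∑ k, d x k * (∑ j ∈ t, (Y j (lv j) x)ᵀ *ᵥ (w * ρ j x)) k ^ 2) -
      ∑ j ∈ t, ∑ j' ∈ t, p₀ j j' * ∑ i, w i ^ 2 * mo j j' i| ≤
      t.card ^ 2 * (gC N R c * (β + δ * (c ^ 2 * (w ⬝ᵥ w))) + (γ * (c ^ 2 * (w ⬝ᵥ w)) +
        B * (2 * e * (w ⬝ᵥ w) + η ^ 2 * K / e ^ 3))) := by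
  simp only [sq_expand, mean_sum', ← sum_sub_distrib]
  refine (abs_sum_le_sum_abs _ _).trans ((sum_le_card_nsmul _ _ _ fun j hj =>
    (abs_sum_le_sum_abs _ _).trans (sum_le_card_nsmul _ _ _ fun j' hj' => ?_)).trans
      (le_of_eq (by rw [nsmul_eq_mul, nsmul_eq_mul, sq (t.card : ℝ), mul_assoc])))
  obtain ⟨r, hr, hz⟩ := hz j hj j' hj'
  exact (abs_sub_le _ _ _).trans (add_le_add
    (gram (h j hj j' hj') (f j hj) (f j' hj') hd (hQ j hj j' hj') (hlv j hj) (hlv j' hj'))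
    (scal (h j hj j' hj').isP (h j hj j' hj').c0 (hρ j hj) (hρ j' hj') (hp j hj j' hj').1
      (hp j hj j' hj').2 he hw hr hz))

end Crest.Agent.T157.S3.Gr7
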