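import Crest.Agent.T157.S3Def_69
import Crest.Agent.T157.S3GrB_7

/-!
# Row 157, B, block S3: (GRAM) (helper7)

`S3.gramGlue : GRAMGlue`.
-/

set_option autoImplicit false

noncomputable section

namespace Crest.Agent.T157.S3

open Matrix Filter Finset
open Crest.Agent.T157.E (Cube mean meanV prob)
open Crest.Agent.T157.Eig
open Crest.Agent.T157.Uw (Vk Wk Wk_mul_diag rev)
open Crest.Agent.T157.S3W (Cx)
open Gr7 (diag_mulVec dot_diag uv_le abs_mean_le' mean_sum' mean_const_mul)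

namespace Gm7

variable {F : Fam} {N : ℕ} {R : Net F N} {𝒯 : Set F.Df} {f g h : ∀ i, V (F.n i) → ℝ}

/-- quadratic errors `e |w|² + C K |w|_∞² + C |Π w|²` -/
def Sml (𝒯 : Set F.Df) (f : ∀ i, V (F.n i) → ℝ) : Prop := ∀ e > (0 : ℝ),
  ∃ D : List F.Df, (∀ t ∈ D, t ∈ 𝒯) ∧ ∃ C : ℝ, ∀ᶠ i in F.l, ∀ w : V (F.n i),
    |f i w| ≤ e * (w ⬝ᵥ w) + C * F.K i * ‖w‖ ^ 2 + C * Fam.Pi D i w ^ 2

lemma Pi_nonneg (D : List F.Df) (i : F.I) (w : V (F.n i)) : 0 ≤ Fam.Pi D i w :=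
  div_nonneg (List.sum_nonneg fun x hx => by
    obtain ⟨d, -, rfl⟩ := List.mem_map.1 hx; exact abs_nonneg _) (Real.sqrt_nonneg _)

lemma Pi_append (D D' : List F.Df) (i : F.I) (w : V (F.n i)) :
    Fam.Pi (D ++ D') i w = Fam.Pi D i w + Fam.Pi D' i w := by
  simp only [Fam.Pi, List.map_append, List.sum_append, add_div]

lemma Sml.le2 (hF : F.Ok) (hf : Sml 𝒯 f) (hg : Sml 𝒯 g) {A : ℝ} (hA : 0 ≤ A)
    (H : ∀ᶠ i in F.l, ∀ w, |h i w| ≤ A * (|f i w| + |g i w|)) : Sml 𝒯 h := by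
  intro e he
  obtain ⟨D, d1, C, d2⟩ := hf (e / (2 * (A + 1))) (by positivity)
  obtain ⟨D', e1, C', e2⟩ := hg (e / (2 * (A + 1))) (by positivity)
  refine ⟨D ++ D', List.forall_mem_append.2 ⟨d1, e1⟩, A * (|C| + |C'|), ?_⟩
  filter_upwards [H, d2, e2] with i H d2 e2 w
  have p1 := Pi_nonneg D i w
  have p2 := Pi_nonneg D' i w
  have k0 : 0 ≤ F.K i * ‖w‖ ^ 2 := mul_nonneg (zero_le_one.trans (hF.K1 i)) (sq_nonneg _)
  have q1 : C * Fam.Pi D i w ^ 2 ≤ |C| * (Fam.Pi D i w + Fam.Pi D' i w) ^ 2 :=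
    (mul_le_mul_of_nonneg_right (le_abs_self C) (sq_nonneg _)).trans (by gcongr; linarith)
  have q2 : C' * Fam.Pi D' i w ^ 2 ≤ |C'| * (Fam.Pi D i w + Fam.Pi D' i w) ^ 2 :=
    (mul_le_mul_of_nonneg_right (le_abs_self C') (sq_nonneg _)).trans (by gcongr; linarith)
  have q3 : 2 * A * (e / (2 * (A + 1))) ≤ e := by
    rw [← mul_div_assoc, div_le_iff₀ (by positivity)]; linarith
  have r1 := mul_le_mul_of_nonneg_right (le_abs_self C) k0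
  have r2 := mul_le_mul_of_nonneg_right (le_abs_self C') k0
  have q4 : A * (|f i w| + |g i w|) ≤ A * (2 * (e / (2 * (A + 1))) * (w ⬝ᵥ w) +
      (|C| + |C'|) * (F.K i * ‖w‖ ^ 2) + (|C| + |C'|) * (Fam.Pi D i w + Fam.Pi D' i w) ^ 2) :=
    mul_le_mul_of_nonneg_left (by linarith [d2 w, e2 w]) hA
  rw [Pi_append]
  linarith [H w, mul_le_mul_of_nonneg_right q3 (dot_self_nonneg w)]

lemma Sml.of_unif (H : ∀ e > (0 : ℝ), ∀ᶠ i in F.l, ∀ w, |f i w| ≤ e * (w ⬝ᵥ w)) : Sml 𝒯 f :=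
  fun e he => ⟨[], by simp, 0, (H e he).mono fun i hi w => by linarith [hi w]⟩

lemma Sml.zero : Sml 𝒯 fun _ _ => 0 := .of_unif fun e he => .of_forall fun i w => by
  rw [abs_zero]; exact mul_nonneg he.le (dot_self_nonneg w)

lemma Sml.add (hF : F.Ok) (hf : Sml 𝒯 f) (hg : Sml 𝒯 g) : Sml 𝒯 fun i w => f i w + g i w :=
  hf.le2 hF hg zero_le_one (.of_forall fun _ _ => (abs_add_le _ _).trans_eq (one_mul _).symm)

lemma Sml.congr (hf : Sml 𝒯 f) (H : ∀ i w, g i w = f i w) : Sml 𝒯 g :=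
  (funext₂ H : g = f) ▸ hf

lemma Sml.cmul (hF : F.Ok) (hf : Sml 𝒯 f) {c : F.I → ℝ} {C : ℝ} (hc : ∀ i, |c i| ≤ C) :
    Sml 𝒯 fun i w => c i * f i w :=
  hf.le2 hF .zero (abs_nonneg C) (.of_forall fun i w => by
    rw [abs_mul, abs_zero, add_zero]
    exact mul_le_mul_of_nonneg_right ((hc i).trans (le_abs_self C)) (abs_nonneg _))

lemma Sml.sum (hF : F.Ok) {σ : Type*} (t : Finset σ) {f : σ → ∀ i, V (F.n i) → ℝ}
    (hf : ∀ j ∈ t, Sml 𝒯 (f j)) : Sml 𝒯 fun i w => ∑ j ∈ t, f j i w := by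
  classical
  induction t using Finset.induction_on with
  | empty => simpa using Sml.zero
  | insert j t hj ih =>
    simp only [sum_insert hj]
    exact (hf j (mem_insert_self _ _)).add hF (ih fun k hk => hf k (mem_insert_of_mem hk))

lemma Sml.of_bil (hF : F.Ok) {ρ : F.Vf} (hb : Bil R 𝒯 ρ) {al : F.Lf (N + 1)}
    {l : List (F.Lf (N + 1))} (ha : al ∈ R.C) (hl : ∀ a ∈ l, a ∈ R.C) :
    Sml 𝒯 fun i w => mean (F.w i) fun x =>
      (w * R.ev al ⟨i, x⟩) ⬝ᵥ R.W l ⟨i, x⟩ *ᵥ (w * ρ ⟨i, x⟩) := by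
  intro e he
  obtain ⟨D, d1, C, d2⟩ := hb al l ha hl (e / 3) (by positivity)
  refine ⟨D, d1, 3 / e * C ^ 2, ?_⟩
  filter_upwards [d2] with i d2 w
  have am : ∀ a b : ℝ, a * b ≤ e / 3 * a ^ 2 + 3 / e * b ^ 2 := fun a b => by
    have h1 : 0 ≤ 3 / e * (e / 3 * a - b) ^ 2 := by positivity
    have h2 : 3 / e * (e / 3 * a - b) ^ 2 = e / 3 * a ^ 2 + 3 / e * b ^ 2 - 2 * (a * b) := by
      field_simp; ring
    have h3 : 0 ≤ e / 3 * a ^ 2 + 3 / e * b ^ 2 := by positivity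
    linarith
  have h1 := am (nrm w) (C * √(F.K i) * ‖w‖)
  have h2 := am (nrm w) (C * Fam.Pi D i w)
  rw [mul_pow, mul_pow, Real.sq_sqrt (zero_le_one.trans (hF.K1 i))] at h1
  rw [← nrm_sq]
  linarith [d2 w w]

/-- the bilinear form of a matrix family -/
def bf (R : Net F N) (ρ ρ' : F.Lf (N + 1)) (A : F.Mf) (i : F.I) (w : V (F.n i)) : ℝ :=
  mean (F.w i) fun x => (w * R.ev ρ ⟨i, x⟩) ⬝ᵥ A ⟨i, x⟩ *ᵥ (w * R.ev ρ' ⟨i, x⟩)

lemma isP (i : F.I) : Chain22.IsP (prob (F.w i)) := Chain22.isP_prob' fun _ => Real.exp_pos _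

lemma ev_bd (hR : R.Ok) {ρ : F.Lf (N + 1)} (h : ρ ∈ R.C) :
    ∃ C : ℝ, 0 ≤ C ∧ ∀ ω k, |R.ev ρ ω k| ≤ C :=
  let ⟨C, h⟩ := hR.bd ρ h
  ⟨|C|, abs_nonneg C, fun _ _ => (h _ _ _ _).trans (le_abs_self C)⟩

variable {ρ ρ' : F.Lf (N + 1)}

lemma bf_sum {σ : Type*} (t : Finset σ) (A : σ → F.Mf) (i : F.I) (w : V (F.n i)) :
    bf R ρ ρ' (fun ω => ∑ a ∈ t, A a ω) i w = ∑ a ∈ t, bf R ρ ρ' (A a) i w := by
  simp only [bf, sum_mulVec, dotProduct_sum]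
  exact mean_sum' _ _

lemma bf_smul (c : F.I → ℝ) (A : F.Mf) (i : F.I) (w : V (F.n i)) :
    bf R ρ ρ' (fun ω => c ω.1 • A ω) i w = c i * bf R ρ ρ' A i w := by
  simp only [bf, smul_mulVec, dotProduct_smul, smul_eq_mul]
  exact mean_const_mul _ _

lemma bf_add (A B : F.Mf) (i : F.I) (w : V (F.n i)) :
    bf R ρ ρ' (fun ω => A ω + B ω) i w = bf R ρ ρ' A i w + bf R ρ ρ' B i w := by
  simp only [bf, add_mulVec, dotProduct_add]
  exact Chain22.mean_add _ _ _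

lemma bf_sub (A B : F.Mf) (i : F.I) (w : V (F.n i)) :
    bf R ρ ρ' (fun ω => A ω - B ω) i w = bf R ρ ρ' A i w - bf R ρ ρ' B i w := by
  simp only [bf, sub_mulVec, dotProduct_sub]
  exact Chain22.mean_sub _ _ _

lemma bf_dg (A : F.Mf) (d : F.Lf (N + 1)) (i : F.I) (w : V (F.n i)) :
    bf R ρ ρ' (fun ω => A ω * R.dg d ω) i w = bf R ρ (d * ρ') A i w ∧
      bf R ρ ρ' (fun ω => R.dg d ω * A ω) i w = bf R (d * ρ) ρ' A i w := by
  refine ⟨congrArg (mean (F.w i)) (funext fun x => ?_), congrArg (mean (F.w i)) (funext fun x => ?_)⟩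
  · beta_reduce
    rw [← mulVec_mulVec, Net.dg, diag_mulVec, mul_left_comm]
    rfl
  · beta_reduce
    rw [← mulVec_mulVec, Net.dg, dot_diag, mul_left_comm]
    rfl

lemma lift : ∀ {l : List R.cx.VF}, R.cx.Lt l →
    ∃ l' : List (F.Lf (N + 1)), (∀ a ∈ l', a ∈ R.C) ∧ l = l'.map R.ev
  | [], _ => ⟨[], by simp, rfl⟩
  | _ :: _, h => by
    obtain ⟨⟨g, hg, rfl⟩, h2⟩ := Cx.lt_cons.1 h
    obtain ⟨l', h3, rfl⟩ := lift h2
    exact ⟨g :: l', List.forall_mem_cons.2 ⟨hg, h3⟩, rfl⟩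

lemma wk_map (l : List (F.Lf (N + 1))) : R.cx.wk (l.map R.ev) = R.W l :=
  funext fun ω => by rw [Cx.wk, Net.W, List.map_map]; rfl

lemma w_left (hF : F.Ok) (hb : Bil R 𝒯 (R.ev ρ)) (h2 : ρ' ∈ R.C) {l : List (F.Lf (N + 1))}
    (hl : ∀ e ∈ l, e ∈ R.C) : Sml 𝒯 (bf R ρ ρ' (R.W l)) := by
  refine (Sml.of_bil hF hb h2 (l := l.reverse) fun a ha => hl a (List.mem_reverse.1 ha)).congr
    fun i w => congrArg (mean (F.w i)) (funext fun x => ?_)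
  rw [Net.W, Net.W, List.map_reverse, ← (rev (hF.symm i) _).1, mulVec_transpose, dotProduct_mulVec,
    dotProduct_comm]

variable (hc : ClsStmt) (hF : F.Ok) (hR : R.Ok) (h1 : ρ ∈ R.C) (h2 : ρ' ∈ R.C)
include hc hF hR h1 h2

lemma th_sml {ϑ : F.Sf} (hϑ : Fam.Th ϑ) {B : F.Mf} (hB : R.cx.Op B) :
    Sml 𝒯 (bf R ρ ρ' fun ω => ϑ ω • B ω) := by
  obtain ⟨C, hC⟩ := (hc F hF).2.2.1 ϑ hϑ
  obtain ⟨C', hC'⟩ := hB
  obtain ⟨c, c0, k1⟩ := ev_bd hR h1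
  obtain ⟨c', c0', k2⟩ := ev_bd hR h2
  refine .of_unif fun e he => ?_
  set A := |C'| * (c + c') ^ 2 + 1 with hA
  have A0 : 0 < A := by positivity
  set ε := e / (2 * A) with hε
  have ε0 : 0 < ε := by positivity
  filter_upwards [(tendsto_natCast_atTop_atTop.comp hF.lim).eventually_ge_atTop
    (|C| / ε ^ 2 + 1)] with i hn w
  have n0 : (0 : ℝ) < F.n i := lt_of_lt_of_le (by positivity) hn
  have m1 := hC i _ (isP i)
  rw [Fam.H, Ent.kl_self, zero_add, mul_one, le_div_iff₀ n0] at m1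
  have m2 : Chain22.mean (prob (F.w i)) (fun x => ϑ ⟨i, x⟩ ^ 2) ≤ ε ^ 2 := by
    refine le_of_mul_le_mul_right (m1.trans ((le_abs_self C).trans ?_)) n0
    have := (div_le_iff₀ (pow_pos ε0 2)).1 ((le_add_of_nonneg_right zero_le_one).trans hn)
    exact this.trans_eq (mul_comm _ _)
  have w0 := dot_self_nonneg w
  refine (abs_mean_le' (isP i) (g := fun x => A * (w ⬝ᵥ w) / ε * ϑ ⟨i, x⟩ ^ 2 +
    A * (w ⬝ᵥ w) * ε * 1) fun x => ?_).trans ?_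
  · have b1 := (abs_bil_le (B ⟨i, x⟩) _ _).trans (mul_le_mul ((hC' ⟨i, x⟩).trans (le_abs_self C'))
      (uv_le (w := w) (add_nonneg c0 c0')
        (fun k => (k1 ⟨i, x⟩ k).trans (le_add_of_nonneg_right c0'))
        fun k => (k2 ⟨i, x⟩ k).trans (le_add_of_nonneg_left c0))
      (mul_nonneg (nrm_nonneg _) (nrm_nonneg _)) (abs_nonneg _))
    have b2 : |ϑ ⟨i, x⟩| ≤ ϑ ⟨i, x⟩ ^ 2 / ε + ε := by
      rw [div_add' _ _ _ ε0.ne', le_div_iff₀ ε0, ← sq_abs]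
      nlinarith [sq_nonneg (|ϑ ⟨i, x⟩| - ε), mul_nonneg (abs_nonneg (ϑ ⟨i, x⟩)) ε0.le]
    rw [smul_mulVec, dotProduct_smul, smul_eq_mul, abs_mul]
    refine (mul_le_mul b2 (b1.trans (show _ ≤ A * (w ⬝ᵥ w) by rw [hA]; linarith)) (abs_nonneg _)
      (by positivity)).trans (le_of_eq (by ring))
  · rw [Gr7.mean_lin, (isP i).mean_const]
    calc _ ≤ A * (w ⬝ᵥ w) / ε * ε ^ 2 + A * (w ⬝ᵥ w) * ε * 1 := by gcongr
      _ = _ := by rw [hε]; field_simp; ring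

lemma sc_sml {σ : F.Sf} (hσ : Fam.Sb σ) {B : F.Mf} (hB : R.cx.Op B) (h : Sml 𝒯 (bf R ρ ρ' B)) :
    Sml 𝒯 (bf R ρ ρ' fun ω => σ ω • B ω) := by
  obtain ⟨C, hC⟩ := id hσ
  refine ((th_sml hc hF hR h1 h2 ((hc F hF).1 σ hσ) hB).add hF (h.cmul hF (c := F.E σ) fun i =>
    (isP i).abs_mean_le (hC i).1)).congr fun i w => ?_
  rw [← bf_smul, ← bf_add]
  simp only [← add_smul, sub_add_cancel]

lemma tp_sml (hx : R.cx.Ok) {A : R.cx.MF} (hA : R.cx.TP A) : Sml 𝒯 (bf R ρ ρ' A) := by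
  induction hA with
  | word a1 a2 a3 =>
    exact th_sml hc hF hR h1 h2 a1 (Cx.Op.mul (Cx.BdV.op (hx.bl_bd a2)) (Cx.op_vu hx a3).1)
  | add _ _ a1 a2 => exact (a1.add hF a2).congr (bf_add _ _)

lemma cw_sml (hx : R.cx.Ok) (hb : Bil R 𝒯 (R.ev ρ)) (hb' : Bil R 𝒯 (R.ev ρ')) {A : R.cx.MF}
    (hA : R.cx.CW A) : Sml 𝒯 (bf R ρ ρ' A) := by
  have op := fun {l} (hl : R.cx.Lt l) =>
    Cx.cg (Cx.op_vu hx (hl.snoc hx.one)).1 fun ω => (Cx.wk_eq l ω).symm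
  induction hA with
  | right a1 a2 a3 =>
    refine sc_sml hc hF hR h1 h2 a1 (Cx.Op.mul (op a3) (Cx.BdV.op (hx.bl_bd a2))) ?_
    obtain ⟨g, hg, rfl⟩ := a2
    obtain ⟨l, hl, rfl⟩ := lift a3
    rw [wk_map]
    exact (w_left hF hb (hR.mul g hg _ h2) hl).congr fun i w => (bf_dg _ g i w).1
  | left a1 a2 a3 =>
    refine sc_sml hc hF hR h1 h2 a1 (Cx.Op.mul (Cx.BdV.op (hx.bl_bd a2)) (op a3)) ?_
    obtain ⟨g, hg, rfl⟩ := a2
    obtain ⟨l, hl, rfl⟩ := lift a3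
    rw [wk_map]
    exact (Sml.of_bil hF hb' (hR.mul g hg _ h1) hl).congr fun i w => (bf_dg _ g i w).2
  | add _ _ a1 a2 => exact (a1.add hF a2).congr (bf_add _ _)

omit hc hR h1 in
lemma ws_sml (hb : Bil R 𝒯 (R.ev ρ)) : ∀ {L : List (List (F.Lf (N + 1)))},
    (∀ u ∈ L, ∀ a ∈ u, a ∈ R.C) → Sml 𝒯 (bf R ρ ρ' fun ω => (L.map fun u => R.W u ω).sum)
  | [], _ => Sml.zero.congr fun i w => by simp [bf, mean]
  | u :: L, h => ((w_left hF hb h2 (List.forall_mem_cons.1 h).1).add hF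
      (ws_sml hb (List.forall_mem_cons.1 h).2)).congr fun i w => bf_add _ _ i w

lemma y_sml (hx : R.cx.Ok) (hw : WXStmt) (hb : Bil R 𝒯 (R.ev ρ)) {P : ℕ} {Φ : Flow R P}
    (hΦ : Φ.Ok) (l : Fin P) : Sml 𝒯 (bf R ρ ρ' (Φ.Y l)) := by
  obtain ⟨Ω, L, a1, a2⟩ := (hw F N P R Φ hF hR hΦ).1
  have e : Φ.Y l = fun ω => ∑ m, Ω l m ω * R.dg (Φ.al m) ω := funext fun ω =>
    a2 ω (fun m => R.dg (Φ.al m) ω) (fun m => Φ.T m ω) (fun m => Φ.Y m ω)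
      (fun m => ⟨rfl, hΦ.hY m ω⟩) l
  refine (Sml.sum hF univ fun m _ => (tp_sml hc hF hR h1 (hR.mul _ (hΦ.lt m).1 _ h2) hx
    (a1 l m).2).add hF (ws_sml hF (hR.mul _ (hΦ.lt m).1 _ h2) hb (a1 l m).1)).congr fun i w => ?_
  rw [e, bf_sum]
  exact sum_congr rfl fun m _ => by rw [(bf_dg _ _ i w).1, bf_sub, sub_add_cancel]

omit hc hF hR h1 h2 in
lemma expand {n P P' : ℕ} (w d al al' : V n) (a : Fin P → V n) (a' : Fin P' → V n)
    (Y : Fin P → Mx n) (Y' : Fin P' → Mx n) :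
    ((diagonal al + ∑ m, diagonal (a m) * Y m)ᵀ *ᵥ w) ⬝ᵥ
        (d * (diagonal al' + ∑ m, diagonal (a' m) * Y' m)ᵀ *ᵥ w) =
      (w * w) ⬝ᵥ (al * d * al') + (∑ l, (w * a l) ⬝ᵥ Y l *ᵥ (w * (d * al')) +
        ∑ m, (w * a' m) ⬝ᵥ Y' m *ᵥ (w * (d * al)) +
        ∑ l, ∑ m, (w * a l) ⬝ᵥ (Y l * diagonal d * (Y' m)ᵀ) *ᵥ (w * a' m)) := by
  have t : ∀ (Y : Mx n) (u v : V n), u ⬝ᵥ Y *ᵥ v = (Yᵀ *ᵥ u) ⬝ᵥ v := fun Y u v => by
    rw [mulVec_transpose, dotProduct_mulVec]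
  simp only [transpose_add, transpose_sum, transpose_mul, diagonal_transpose, add_mulVec,
    sum_mulVec, ← mulVec_mulVec, diag_mulVec, mul_add, mul_sum, add_dotProduct, dotProduct_add,
    sum_dotProduct, dotProduct_sum, t (Y _), t (Y' _), mul_comm w (a _), mul_comm w (a' _)]
  have e1 : (al * w) ⬝ᵥ (d * (al' * w)) = (w * w) ⬝ᵥ (al * d * al') :=
    sum_congr rfl fun k _ => by simp only [Pi.mul_apply]; ring
  have e2 : ∀ u : V n, (al * w) ⬝ᵥ (d * u) = u ⬝ᵥ (w * (d * al)) := fun u =>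
    sum_congr rfl fun k _ => by simp only [Pi.mul_apply]; ring
  have e3 : d * (al' * w) = w * (d * al') := by ring
  rw [e1, e3, sum_comm (s := univ) (t := univ)]
  simp only [e2, sum_add_distrib]
  ring

end Gm7

open Gm7

theorem gramGlue : GRAMGlue := by
  intro hc hj hw F N P P' R 𝒯 Φ Φ' d al al' a a' Pb hF hR hΦ hΦ' hd hP hl hl' hb hb'
  have hx := (hj F N R hF hR).1
  have s1 := Sml.sum hF univ fun l _ =>
    y_sml hc hF hR (hl.2.2 l) (hR.mul d hd _ hl'.1) hx hw (hb l) hΦ l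
  have s2 := Sml.sum hF univ fun l _ =>
    y_sml hc hF hR (hl'.2.2 l) (hR.mul d hd _ hl.1) hx hw (hb' l) hΦ' l
  have s3 := Sml.sum (𝒯 := 𝒯) hF univ fun l _ => Sml.sum hF univ
    (f := fun m => bf R (a l) (a' m) fun ω => Φ.Y l ω * R.dg d ω * (Φ'.Y m ω)ᵀ - Pb l m ω.1 • 1)
    fun m _ => by
      obtain ⟨-, B, b1, b2⟩ := (hw F N P R Φ hF hR hΦ).2 P' Φ' d Pb hΦ' hd hP l m
      exact ((tp_sml hc hF hR (hl.2.2 l) (hl'.2.2 m) hx b2).add hF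
        (cw_sml hc hF hR (hl.2.2 l) (hl'.2.2 m) hx (hb l) (hb' m) b1)).congr fun i w => by
          rw [bf_sub _ B, sub_add_cancel]
  refine Sml.congr ((s1.add hF s2).add hF s3) fun i w => ?_
  have m1 : ∀ {σ : Type} [Fintype σ] (g : σ → Cube (F.n i) → ℝ),
      mean (F.w i) (fun x => ∑ j, g j x) = ∑ j, mean (F.w i) (g j) := fun g => mean_sum' _ _
  have m2 : ∀ f g : Cube (F.n i) → ℝ, mean (F.w i) (fun x => f x + g x) =
      mean (F.w i) f + mean (F.w i) g := fun f g => Chain22.mean_add _ _ _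
  have e0 : ∀ u : F.Vf, (w * w) ⬝ᵥ F.EV u i = mean (F.w i) fun x => (w * w) ⬝ᵥ u ⟨i, x⟩ := fun u =>
    ((m1 _).trans (sum_congr rfl fun k _ => mean_const_mul _ _)).symm
  have e1 : ∀ (ρ ρ' : F.Lf (N + 1)), bf R ρ ρ' (fun _ => 1) i w =
      mean (F.w i) fun x => (w * w) ⬝ᵥ R.ev (ρ * ρ') ⟨i, x⟩ := fun ρ ρ' =>
    congrArg (mean (F.w i)) (funext fun x => by
      rw [one_mulVec]
      exact sum_congr rfl fun k _ => mul_mul_mul_comm _ _ _ _)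
  simp only [bf_sub, bf_smul (Pb _ _), e1, dotProduct_add, dotProduct_sum, dotProduct_smul,
    smul_eq_mul, e0, sum_sub_distrib, Flow.tT, Net.dg, expand, m1, m2]
  exact (add_sub_add_left_eq_sub _ _ _).trans (add_sub_assoc _ _ _)

end Crest.Agent.T157.S3
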