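import Crest.Agent.T157.S3Def_69
import Crest.Agent.T157.S3Jb_82

/-!
# Row 157, part B, block S3 (helper82): the leaf (J1)
-/

set_option autoImplicit false

noncomputable section

namespace Crest.Agent.T157.S3

open Matrix Finset Function
open Crest.Agent.T157.E (Cube sv mean prob)
open Crest.Agent.T157.Rec (grad fl)
open Crest.Agent.T157.Eig
open Crest.Agent.T157.Uw (eta)
open Crest.Agent.T157.S3F
open Crest.Agent.T157.S3W (Cx)
open Fam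

namespace J82

/-- one constant for finitely many bounds -/
lemma fin_bd {σ : Type*} [Fintype σ] {p : σ → ℝ → Prop} (h : ∀ m, ∃ C, p m C)
    (mono : ∀ m C D, C ≤ D → p m C → p m D) : ∃ C, 0 ≤ C ∧ ∀ m, p m C := by
  choose C hC using h
  exact ⟨∑ m, |C m|, sum_nonneg fun m _ => abs_nonneg _, fun m => mono m _ _ ((le_abs_self _).trans
    (single_le_sum (f := fun m => |C m|) (fun m _ => abs_nonneg _) (mem_univ m))) (hC m)⟩

lemma tay_mono {σ : Type*} [Fintype σ] {L L' : ℝ} {g : (σ → ℝ) → ℝ} {g' : (σ → ℝ) → σ → ℝ}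
    (h : Tay L g g') (hL : L ≤ L') : Tay L' g g' := fun ξ v =>
  (h ξ v).trans (mul_le_mul_of_nonneg_right hL (by positivity))

lemma cube_le {σ : Type*} [Fintype σ] (a : σ → ℝ) :
    (∑ m, a m ^ 2) * ∑ m, |a m| ≤ 2 * Fintype.card σ * ∑ m, |a m| ^ 3 := by
  have h : ∀ m p, a m ^ 2 * |a p| ≤ |a m| ^ 3 + |a p| ^ 3 := fun m p => by
    rw [← sq_abs (a m)]
    have h1 := abs_nonneg (a m)
    have h2 := abs_nonneg (a p)
    nlinarith [mul_nonneg (add_nonneg h1 h2) (sq_nonneg (|a m| - |a p|)),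
      mul_nonneg h1 (mul_nonneg h2 h2)]
  rw [sum_mul_sum]
  refine (sum_le_sum fun m _ => sum_le_sum fun p _ => h m p).trans (le_of_eq ?_)
  simp only [sum_add_distrib, sum_const, card_univ, nsmul_eq_mul, ← mul_sum]
  ring

lemma pd_dep {n N : ℕ} {l m : Fin N} {g : LF n N} (hd : Dep l g)
    (hg : ∀ k s, Differentiable ℝ (g k s)) (hm : l ≤ m) : pd m g = 0 := by
  funext k s ξ
  have h1 := line_of_fderiv (hg k s) ξ (Pi.single m 1) 0
  have h2 : (fun t : ℝ => g k s (ξ + t • Pi.single m 1)) = fun _ => g k s ξ := funext fun t =>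
    hd k s _ _ fun p hp => by simp [Pi.single_eq_of_ne (hp.trans_le hm).ne]
  rw [h2] at h1
  simpa [pd] using h1.unique (hasDerivAt_const _ _)

lemma ts_eq {n : ℕ} (G : Cube n → ℝ) (x : Cube n) :
    ∑ j, (G x - G (fl x j)) ^ 2 = 4 * (grad G x ⬝ᵥ grad G x) := by
  rw [dotProduct, mul_sum]
  refine sum_congr rfl fun j _ => ?_
  rw [Da.Gr.val_fl G]
  linear_combination (4 * grad G x j ^ 2) * Rec.sv_mul_self x j

lemma grad_eta {n : ℕ} (s : ℝ) (u : Cube n → V n) (x : Cube n) :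
    grad (fun y => eta s (u y)) x = s ^ 2 • (jac u x)ᵀ *ᵥ 1 := by
  funext j
  simp only [eta, Rec.grad_const_mul, Da.Gr.grad_sum, Pi.smul_apply, mulVec, dotProduct,
    transpose_apply, jac_apply, Pi.one_apply, mul_one, smul_eq_mul]

variable {F : Fam} {N : ℕ} {R : Net F N}

lemma hs (hF : F.Ok) (i : F.I) : F.s i ^ 2 * Fintype.card (Fin (F.n i)) ≤ 1 := by
  have h0 : (0 : ℝ) < F.n i := by exact_mod_cast hF.pos i
  rw [Fam.s, div_pow, Real.sq_sqrt h0.le, Fintype.card_fin, div_mul_cancel₀ _ h0.ne']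
  exact pow_le_one₀ hF.beta.1 hF.beta.2

lemma isP_w (i : F.I) : Chain22.IsP (prob (F.w i)) :=
  ⟨fun x => div_nonneg (Real.exp_pos _).le (sum_nonneg fun y _ => (Real.exp_pos _).le), by
    simp only [prob, ← sum_div]
    exact div_self (sum_pos (fun y _ => Real.exp_pos _) univ_nonempty).ne'⟩

lemma bd_ev (hR : R.Ok) {g : F.Lf (N + 1)} (hg : g ∈ R.C) :
    ∃ C, 0 ≤ C ∧ ∀ ω k, |R.ev g ω k| ≤ C :=
  let ⟨C, h⟩ := hR.bd g hg
  ⟨max C 0, le_max_right _ _, fun _ _ => (h _ _ _ _).trans (le_max_left _ _)⟩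

lemma me_bd (hF : F.Ok) (hR : R.Ok) {g : F.Lf (N + 1)} (hg : g ∈ R.C) :
    ∃ C, ∀ i, |F.me (R.ev g) i| ≤ C :=
  let ⟨C, h0, h⟩ := bd_ev hR hg
  ⟨C, fun i => (isP_w i).abs_mean_le fun x => Uw.abs_eta_le (hs hF i) h0 (h ⟨i, x⟩)⟩

lemma me_zero (i : F.I) : F.me (R.ev 0) i = 0 := by simp [Fam.me, Fam.E, Net.ev, eta, mean]

lemma top_of_mem (hR : R.Ok) {g : F.Lf (N + 1)} (hg : g ∈ R.C) : R.Top g :=
  ⟨hR.diff g hg, hR.gs g hg, hR.pd g hg⟩

lemma pd_bd (hR : R.Ok) {g : F.Lf (N + 1)} (hg : R.Top g) :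
    ∃ C, 0 ≤ C ∧ ∀ m i k s ξ, |R.pd m g i k s ξ| ≤ C :=
  fin_bd (fun m => hR.bd _ (hg.2.2 m)) fun _ _ _ e h i k s ξ => (h i k s ξ).trans e

lemma pd_lip (hR : R.Ok) {g : F.Lf (N + 1)} (hg : R.Top g) : ∃ C, 0 ≤ C ∧ ∀ m i k s a h,
    |R.pd m g i k s (a + h) - R.pd m g i k s a| ≤ C * ∑ p, |h p| :=
  fin_bd (fun m => let ⟨C, _, hC⟩ := pd_bd hR (top_of_mem hR (hg.2.2 m))
    ⟨C, fun i k s => lip_of_bd (line_of_fderiv (hR.diff _ (hg.2.2 m) i k s))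
      fun a p => hC p i k s a⟩)
    fun _ _ _ e h i k s a v => (h i k s a v).trans (mul_le_mul_of_nonneg_right e (by positivity))

lemma tay (hR : R.Ok) {g : F.Lf (N + 1)} (hg : R.Top g) :
    ∃ L, 0 ≤ L ∧ ∀ i k s, Tay L (g i k s) fun ξ m => R.pd m g i k s ξ :=
  let ⟨C, h0, hC⟩ := pd_lip hR hg
  ⟨_, by positivity, fun i k s => tay_of_lip h0 (line_of_fderiv (hg.1 i k s))
    fun a h m => hC m i k s a h⟩

lemma opn_inst {n M : ℕ} {L C A : ℝ} (hL : 0 ≤ L) (hC : 0 ≤ C) {g : LF n M}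
    {g' : Fin n → Bool → (Fin M → ℝ) → Fin M → ℝ} (hT : ∀ k b, Tay L (g k b) (g' k b))
    (h1 : ∀ k b ξ m, |g' k b ξ m| ≤ C) (h2 : ∀ k ξ, |gs g k true ξ| ≤ C) (S : Fin M → Prop)
    (hd : ∀ k s ξ ξ', (∀ m, S m → ξ m = ξ' m) → g k s ξ = g k s ξ') (hA : 0 ≤ A)
    (X : Fin M → Cube n → V n) (x : Cube n) (hX : ∀ m, S m → opn (jac (X m) x) ≤ A) :
    opn (jac (fun y k => g k (y k) fun m => X m y k) x) ≤
      C + 3 * C * ∑ _m : Fin M, A + 2 * L * ∑ _m : Fin M, A ^ 2 := by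
  classical
  set X' : Fin M → Cube n → V n := fun m => if S m then X m else fun _ => 0 with hX'
  have e : (fun (y : Cube n) k => g k (y k) fun m => X m y k) =
      fun y k => g k (y k) fun m => X' m y k :=
    funext fun y => funext fun k => hd _ _ _ _ fun m hm => by simp only [hX', if_pos hm]
  have b : ∀ m, opn (jac (X' m) x) ≤ A := fun m => by
    by_cases h : S m
    · simp only [hX', if_pos h, hX m h]
    · simp only [hX', if_neg h, jac_const, opn_zero, hA]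
  rw [e]
  refine (opn_jac_loc hL hC hT h1 (fun k ξ => ?_) X' x).trans ?_
  · have := h2 k ξ
    rw [gs, abs_div, abs_two] at this
    linarith
  · exact add_le_add (add_le_add le_rfl (mul_le_mul_of_nonneg_left (sum_le_sum fun m _ => b m)
      (by positivity))) (mul_le_mul_of_nonneg_left (sum_le_sum fun m _ =>
        pow_le_pow_left₀ (opn_nonneg _) (b m) 2) (by positivity))

/-- the Jacobian of a local function of the fields in `S` -/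
lemma op_ev (hR : R.Ok) {g : F.Lf (N + 1)} (hg : R.Top g) (S : Fin (N + 1) → Prop)
    (hd : ∀ i k s ξ ξ', (∀ m, S m → ξ m = ξ' m) → g i k s ξ = g i k s ξ')
    (hX : ∀ m, S m → R.cx.Op (F.jc (R.X m))) : R.cx.Op (F.jc (R.ev g)) := by
  obtain ⟨L, l0, hL⟩ := tay hR hg
  obtain ⟨C, c0, hC⟩ := pd_bd hR hg
  obtain ⟨D, hD⟩ := hR.bd _ hg.2.1
  obtain ⟨A, a0, hA⟩ := fin_bd (p := fun m A => S m → ∀ ω, opn (F.jc (R.X m) ω) ≤ A)
    (fun m => (em (S m)).elim (fun h => let ⟨A, hA⟩ := hX m h; ⟨A, fun _ => hA⟩)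
      fun h => ⟨0, fun h' => (h h').elim⟩) fun _ _ _ e h h' ω => (h h' ω).trans e
  exact ⟨_, fun ω => opn_inst l0 (c0.trans (le_max_left C D)) (hL ω.1)
    (fun k b ξ m => (hC m _ k b ξ).trans (le_max_left _ _))
    (fun k ξ => (hD ω.1 k true ξ).trans (le_max_right _ _)) S (hd ω.1) a0
    (fun m y => R.X m ⟨ω.1, y⟩) ω.2 fun m hm => hA m hm ω⟩

lemma op_J (hF : F.Ok) : R.cx.Op fun ω => F.J ω.1 :=
  let ⟨r, h⟩ := hF.uw; let ⟨_, h⟩ := h 0; ⟨r, fun ω => (h ω.1).op⟩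

/-- triangular sums -/
lemma op_tri {P : ℕ} {l : Fin P} {c : Fin P → F.I → ℝ} {A : Fin P → F.Mf}
    (hc : ∀ m, ∃ C, ∀ i, |c m i| ≤ C) (h0 : ∀ m i, l ≤ m → c m i = 0)
    (hA : ∀ m < l, R.cx.Op (A m)) : R.cx.Op fun ω => ∑ m, c m ω.1 • A m ω :=
  Cx.Op.sum _ fun m _ => by
    rcases lt_or_ge m l with h | h
    · obtain ⟨C, hC⟩ := hc m
      obtain ⟨D, hD⟩ := hA m h
      exact ⟨C * D, fun ω => Uw.opn_smul_le (hC _) (hD ω)⟩
    · exact ⟨0, fun ω => by simp only [h0 m _ h, zero_smul, opn_zero, le_refl]⟩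

lemma op_X (hF : F.Ok) (hR : R.Ok) (l : Fin (N + 1)) : R.cx.Op (F.jc (R.X l)) := by
  induction l using WellFoundedLT.induction with
  | _ l ih =>
  have h1 : ∀ m ≤ l, R.cx.Op (F.jc (R.ev (R.f m))) := fun m hm =>
    op_ev hR (top_of_mem hR (hR.fC m)) (· < m) (hR.dep m) fun p hp => ih p (hp.trans_le hm)
  obtain ⟨κ, hκ⟩ := hR.hX l
  refine Cx.cg (((op_J hF).mul (h1 l le_rfl)).sub (op_tri (l := l) (c := R.o l)
    (fun m => me_bd hF hR (hR.pd _ (hR.fC l) m)) (fun m i hm => ?_) fun m hm => h1 m hm.le))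
    fun ω => ?_
  · have : R.pd m (R.f l) = 0 := funext fun i => pd_dep (hR.dep l i) (hR.diff _ (hR.fC l) i) hm
    rw [Net.o, this, me_zero]
  · simp only [Fam.jc, hκ, jac_sub, jac_sum, jac_smul, jac_const, sub_zero]
    exact congrArg (· - _) (jac_mulVec (F.J ω.1) (fun x => R.ev (R.f l) ⟨ω.1, x⟩) ω.2).symm

lemma op_top (hF : F.Ok) (hR : R.Ok) {g : F.Lf (N + 1)} (hg : R.Top g) :
    R.cx.Op (F.jc (R.ev g)) :=
  op_ev hR hg (fun _ => True) (fun i k s ξ ξ' h => by rw [funext fun m => h m trivial])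
    fun m _ => op_X hF hR m

lemma rem_le (hR : R.Ok) {g : F.Lf (N + 1)} (hg : R.Top g) : ∃ C : ℝ, ∀ ω k j,
    |R.rem g ω k j| ≤ C * ∑ m, |F.jc (R.X m) ω k j| ^ (if k = j then 2 else 3) := by
  obtain ⟨L, l0, hL⟩ := tay hR hg
  obtain ⟨C, c0, hC⟩ := pd_lip hR hg
  obtain ⟨M, m0, hM⟩ := fin_bd (p := fun m M => ∀ i k s, Tay M (R.pd m g i k s)
      fun ξ p => R.pd p (R.pd m g) i k s ξ)
    (fun m => let ⟨M, _, h⟩ := tay hR (top_of_mem hR (hg.2.2 m)); ⟨M, h⟩)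
    fun _ _ _ e h i k s => tay_mono (h i k s) e
  set c : ℝ := (Fintype.card (Fin (N + 1)) : ℝ)
  have hc : 0 ≤ c := Nat.cast_nonneg _
  refine ⟨L + C * c + 2 * M * (2 * c), fun ω k j => ?_⟩
  by_cases h : k = j
  · subst h
    have h1 := chain_diag (hL ω.1) (fun k b a h m => hC m _ k b a h)
      (fun m y => R.X m ⟨ω.1, y⟩) ω.2 k
    have h2 := sq_sum_le_card_mul_sum_sq (s := univ) (f := fun m => |F.jc (R.X m) ω k k|)
    have h3 := mul_le_mul_of_nonneg_left h2 c0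
    have h4 : 0 ≤ 2 * M * (2 * c) * ∑ m, F.jc (R.X m) ω k k ^ 2 := by positivity
    simp only [if_true, sq_abs, card_univ] at h3 ⊢
    refine le_trans (le_of_eq ?_) (h1.trans ?_)
    · simp only [Net.rem, Matrix.sub_apply, Matrix.add_apply, Matrix.sum_apply, hadamard_apply,
        diagonal_apply_eq]
      rfl
    · simp only [Fam.jc] at h3 h4 ⊢
      linarith
  · have h1 := chain3 m0 (hL ω.1) (fun k b m => hM m ω.1 k b) (fun m y => R.X m ⟨ω.1, y⟩) ω.2 h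
    have h2 := mul_le_mul_of_nonneg_left (cube_le fun m => F.jc (R.X m) ω k j)
      (by positivity : 0 ≤ 2 * M)
    have h4 : 0 ≤ (L + C * c) * ∑ m, |F.jc (R.X m) ω k j| ^ 3 := by positivity
    simp only [if_neg h]
    refine le_trans (le_of_eq ?_) (h1.trans ?_)
    · simp only [Net.rem, Matrix.sub_apply, Matrix.add_apply, Matrix.sum_apply, hadamard_apply,
        diagonal_apply_ne _ h, zero_add]
      rfl
    · simp only [Fam.jc] at h2 h4 ⊢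
      linarith

/-! ### the scalar classes -/

lemma sb_const (r : ℝ) : Sb (F := F) fun _ => r :=
  ⟨|r|, fun i => ⟨fun _ => le_rfl, fun x => by simp; positivity⟩⟩

lemma sb_add {s t : F.Sf} (hs : Sb s) (ht : Sb t) : Sb fun ω => s ω + t ω := by
  obtain ⟨C, hs⟩ := hs
  obtain ⟨D, ht⟩ := ht
  refine ⟨2 * C + 2 * D, fun i => ⟨fun x => ?_, fun x => ?_⟩⟩
  · linarith [abs_add_le (s ⟨i, x⟩) (t ⟨i, x⟩), (hs i).1 x, (ht i).1 x, abs_nonneg (s ⟨i, x⟩),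
      abs_nonneg (t ⟨i, x⟩)]
  · have h1 := (hs i).2 x
    have h2 := (ht i).2 x
    refine (sum_le_sum (g := fun j => 2 * (s ⟨i, x⟩ - s ⟨i, fl x j⟩) ^ 2 +
      2 * (t ⟨i, x⟩ - t ⟨i, fl x j⟩) ^ 2) fun j _ => ?_).trans ?_
    · nlinarith [sq_nonneg (s ⟨i, x⟩ - s ⟨i, fl x j⟩ - (t ⟨i, x⟩ - t ⟨i, fl x j⟩))]
    · rw [sum_add_distrib, ← mul_sum, ← mul_sum, add_div, mul_div_assoc, mul_div_assoc]
      linarith

lemma sb_mul {s t : F.Sf} (hs : Sb s) (ht : Sb t) : Sb fun ω => s ω * t ω := by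
  obtain ⟨C, hs⟩ := hs
  obtain ⟨D, ht⟩ := ht
  refine ⟨C * D + (2 * C ^ 2 * D + 2 * D ^ 2 * C), fun i => ?_⟩
  have c0 : 0 ≤ C := (abs_nonneg _).trans ((hs i).1 fun _ => true)
  have d0 : 0 ≤ D := (abs_nonneg _).trans ((ht i).1 fun _ => true)
  refine ⟨fun x => ?_, fun x => ?_⟩
  · rw [abs_mul]
    exact (mul_le_mul ((hs i).1 x) ((ht i).1 x) (abs_nonneg _) c0).trans
      (le_add_of_nonneg_right (by positivity))
  · have h1 := mul_le_mul_of_nonneg_left ((hs i).2 x) (by positivity : 0 ≤ 2 * D ^ 2)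
    have h2 := mul_le_mul_of_nonneg_left ((ht i).2 x) (by positivity : 0 ≤ 2 * C ^ 2)
    refine (sum_le_sum (g := fun j => 2 * D ^ 2 * (s ⟨i, x⟩ - s ⟨i, fl x j⟩) ^ 2 +
      2 * C ^ 2 * (t ⟨i, x⟩ - t ⟨i, fl x j⟩) ^ 2) fun j _ => ?_).trans ?_
    · have e1 := mul_le_mul_of_nonneg_right (sq_le_sq' (abs_le.1 ((hs i).1 x)).1
        (abs_le.1 ((hs i).1 x)).2) (sq_nonneg (t ⟨i, x⟩ - t ⟨i, fl x j⟩))
      have e2 := mul_le_mul_of_nonneg_right (sq_le_sq' (abs_le.1 ((ht i).1 (fl x j))).1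
        (abs_le.1 ((ht i).1 (fl x j))).2) (sq_nonneg (s ⟨i, x⟩ - s ⟨i, fl x j⟩))
      nlinarith [sq_nonneg (s ⟨i, x⟩ * (t ⟨i, x⟩ - t ⟨i, fl x j⟩) -
        t ⟨i, fl x j⟩ * (s ⟨i, x⟩ - s ⟨i, fl x j⟩))]
    · have : 0 ≤ C * D / F.n i := by positivity
      rw [sum_add_distrib, ← mul_sum, ← mul_sum, add_div, add_div, mul_div_assoc (2 * C ^ 2),
        mul_div_assoc (2 * D ^ 2)]
      linarith

/-- `η(u)` for a bounded field with bounded Jacobian -/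
lemma sb_eta (hF : F.Ok) {u : F.Vf} (hb : ∃ C, 0 ≤ C ∧ ∀ ω k, |u ω k| ≤ C)
    (hj : R.cx.Op (F.jc u)) : Sb fun ω => eta (F.s ω.1) (u ω) := by
  obtain ⟨C, c0, hC⟩ := hb
  obtain ⟨D, hD⟩ := hj
  refine ⟨C + 4 * D ^ 2, fun i => ⟨fun x => (Uw.abs_eta_le (hs hF i) c0 (hC ⟨i, x⟩)).trans
    (le_add_of_nonneg_right (by positivity)), fun x => ?_⟩⟩
  have n0 : (0 : ℝ) < F.n i := by exact_mod_cast hF.pos i
  have h1 := mulVec_dot_le (F.jc u ⟨i, x⟩)ᵀ 1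
  have h2 : opn (F.jc u ⟨i, x⟩)ᵀ ^ 2 ≤ D ^ 2 := by
    rw [opn_transpose]; exact pow_le_pow_left₀ (opn_nonneg _) (hD _) 2
  have h3 := hs hF i
  have h4 : (1 : V (F.n i)) ⬝ᵥ 1 = F.n i := by simp [dotProduct]
  rw [Fintype.card_fin] at h3
  rw [h4] at h1
  have h5 := mul_le_mul (pow_le_one₀ (n := 2) (by positivity) h3) h2 (sq_nonneg _) zero_le_one
  have h6 := mul_le_mul_of_nonneg_left h1 (by positivity : 0 ≤ F.s i ^ 2 * F.s i ^ 2 * F.n i)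
  refine (ts_eq (fun y => eta (F.s i) (u ⟨i, y⟩)) x).trans_le ?_
  rw [grad_eta, smul_dotProduct, dotProduct_smul, le_div_iff₀ n0, smul_eq_mul, smul_eq_mul]
  simp only [Fam.jc] at h5 h6
  linarith

lemma cx_ok (hC : ClsStmt) (hF : F.Ok) (hR : R.Ok) : R.cx.Ok where
  symm ω := hF.symm ω.1
  hs ω := hs hF ω.1
  K1 ω := hF.K1 ω.1
  uw := let ⟨r, h⟩ := hF.uw; ⟨r, fun k => let ⟨C, h⟩ := h k; ⟨C, fun ω => h ω.1⟩⟩
  bl_bd := by rintro _ ⟨g, hg, rfl⟩; exact let ⟨C, _, h⟩ := bd_ev hR hg; ⟨C, h⟩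
  bl_const r := ⟨r • 1, hR.smul r 1 hR.one, by funext ω k; simp [Net.ev]⟩
  bl_add := by rintro _ _ ⟨g, hg, rfl⟩ ⟨g', hg', rfl⟩; exact ⟨g + g', hR.add g hg g' hg', rfl⟩
  bl_mul := by rintro _ _ ⟨g, hg, rfl⟩ ⟨g', hg', rfl⟩; exact ⟨g * g', hR.mul g hg g' hg', rfl⟩
  sc_bd := fun ⟨C, h⟩ => ⟨C, fun ω => (h ω.1).1 ω.2⟩
  sc_const := sb_const
  sc_add := sb_add
  sc_mul := sb_mul
  sc_et := by
    rintro _ ⟨g, hg, rfl⟩
    exact sb_eta hF (bd_ev hR hg) (op_top hF hR (top_of_mem hR hg))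
  th := ⟨fun h => h.1, ⟨sb_const 0, 0, fun i => by simp [Fam.E, mean]⟩,
    fun {s t} ⟨h1, C, hC⟩ ⟨h2, D, hD⟩ => ⟨sb_add h1 h2, C + D, fun i => by
      have e : F.E (fun ω => s ω + t ω) i = F.E s i + F.E t i := by
        simp only [Fam.E, mean, mul_add, sum_add_distrib]
      rw [e, add_div]
      exact (abs_add_le _ _).trans (add_le_add (hC i) (hD i))⟩,
    fun h1 h2 => (hC F hF).2.1 _ _ h1 h2⟩

/-! ### flows -/

variable {P : ℕ} {Φ : Flow R P}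

lemma op_dg (hR : R.Ok) {g : F.Lf (N + 1)} (hg : g ∈ R.C) : R.cx.Op (R.dg g) :=
  let ⟨C, c0, h⟩ := bd_ev hR hg; ⟨C, fun ω => opn_diagonal_le c0 (h ω)⟩

lemma op_bm_diag (hR : R.Ok) {g : F.Lf (N + 1)} (hg : g ∈ R.C) :
    R.cx.Op fun ω => diagonal (F.bm (R.ev g) ω).diag :=
  let ⟨C, c0, h⟩ := bd_ev hR hg
  ⟨C, fun ω => opn_diagonal_le c0 fun k => abs_bar_le (fun x => h ⟨ω.1, x⟩ k) ω.2 k⟩

lemma op_bm_had (hF : F.Ok) (hR : R.Ok) {g : F.Lf (N + 1)} (hg : g ∈ R.C) {A : F.Mf}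
    (hA : R.cx.Op A) : R.cx.Op fun ω => F.bm (R.ev g) ω ⊙ A ω :=
  let ⟨C, c0, h⟩ := bd_ev hR hg
  let ⟨D, hD⟩ := op_top hF hR (top_of_mem hR hg)
  let ⟨B, hB⟩ := hA
  ⟨(C + D) * B, fun ω => (opn_barM_had c0 (h ω) _).trans (mul_le_mul (add_le_add le_rfl (hD ω))
    (hB ω) (opn_nonneg _) (add_nonneg c0 ((opn_nonneg _).trans (hD ω))))⟩

lemma bm_zero (ω : F.Ω) : F.bm (R.ev 0) ω = 0 := by
  ext k j; simp [Fam.bm, barM, bar_eq, Net.ev]

lemma op_tT (hF : F.Ok) (hR : R.Ok) {al : F.Lf (N + 1)} {a : Fin P → F.Lf (N + 1)}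
    (h : Φ.Let al a) (hY : ∀ m, a m = 0 ∨ R.cx.Op (Φ.Y m) ∧ R.cx.Op (Φ.Yb m)) :
    R.cx.Op (Φ.tT al a) ∧ R.cx.Op (Φ.tTb al a) := by
  refine ⟨(op_dg hR h.1).add (Cx.Op.sum _ fun m _ => ?_),
    (op_bm_diag hR h.1).add (Cx.Op.sum _ fun m _ => ?_)⟩ <;> rcases hY m with e | e
  · exact ⟨0, fun ω => by
      simp only [e, show R.dg 0 ω = 0 from diagonal_zero, Matrix.zero_mul, opn_zero, le_refl]⟩
  · exact (op_dg hR (h.2.2 m)).mul e.1
  · exact ⟨0, fun ω => by simp only [e, bm_zero, zero_hadamard, opn_zero, le_refl]⟩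
  · exact op_bm_had hF hR (h.2.2 m) e.2

lemma ot_zero (hΦ : Φ.Ok) {l m : Fin P} (h : l ≤ m) (i : F.I) : Φ.ot i l m = 0 := by
  rw [Flow.ot, hΦ.tri l m h, me_zero]

lemma op_Y (hF : F.Ok) (hR : R.Ok) (hΦ : Φ.Ok) (l : Fin P) :
    R.cx.Op (Φ.Y l) ∧ R.cx.Op (Φ.Yb l) := by
  induction l using WellFoundedLT.induction with
  | _ l ih =>
  have h1 : ∀ m ≤ l, R.cx.Op (Φ.T m) ∧ R.cx.Op (Φ.Tb m) := fun m hm =>
    op_tT hF hR (hΦ.lt m) fun p => (le_or_gt m p).imp (hΦ.tri m p) fun hp => ih p (hp.trans_le hm)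
  have h2 := fun m => me_bd hF hR ((hΦ.lt l).2.2 m)
  exact ⟨Cx.cg (((op_J hF).mul (h1 l le_rfl).1).sub (op_tri (c := fun m i => Φ.ot i l m) h2
      (fun m i hm => ot_zero hΦ hm i) fun m hm => (h1 m hm.le).1)) fun ω => (hΦ.hY l ω).symm,
    Cx.cg (((op_J hF).mul (h1 l le_rfl).2).sub (op_tri (c := fun m i => Φ.ot i l m) h2
      (fun m i hm => ot_zero hΦ hm i) fun m hm => (h1 m hm.le).2)) fun ω => (hΦ.hYb l ω).symm⟩

lemma free_tTb {al : F.Lf (N + 1)} {a : Fin P → F.Lf (N + 1)} {i : F.I}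
    (hY : ∀ m, a m = 0 ∨ FreeM fun x => Φ.Yb m ⟨i, x⟩) : FreeM fun x => Φ.tTb al a ⟨i, x⟩ := by
  intro x k j b
  simp only [Flow.tTb, Matrix.add_apply, Matrix.sum_apply, hadamard_apply]
  congr 1
  · by_cases h : k = j
    · subst h
      simp only [diagonal_apply_eq, Matrix.diag_apply, Fam.bm, barM, of_apply, bar_update]
    · simp only [diagonal_apply_ne _ h]
  · refine sum_congr rfl fun m _ => ?_
    rcases hY m with e | e
    · simp only [e, bm_zero, Matrix.zero_apply, zero_mul]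
    · rw [show Φ.Yb m ⟨i, update x j b⟩ k j = Φ.Yb m ⟨i, x⟩ k j from e x k j b]
      simp only [Fam.bm, barM, of_apply, bar_update]

lemma free_Yb (hΦ : Φ.Ok) (i : F.I) (l : Fin P) : FreeM fun x => Φ.Yb l ⟨i, x⟩ := by
  induction l using WellFoundedLT.induction with
  | _ l ih =>
  have h1 : ∀ m ≤ l, ∀ x k j b, Φ.Tb m ⟨i, update x j b⟩ k j = Φ.Tb m ⟨i, x⟩ k j := fun m hm =>
    free_tTb fun p => (le_or_gt m p).imp (hΦ.tri m p) fun hp => ih p (hp.trans_le hm)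
  intro x k j b
  simp only [hΦ.hYb l, Matrix.sub_apply, mul_apply, Matrix.sum_apply, Matrix.smul_apply,
    h1 l le_rfl]
  congr 1
  refine sum_congr rfl fun m _ => ?_
  rcases le_total l m with h | h
  · simp only [ot_zero hΦ h, zero_smul]
  · rw [h1 m h]

end J82

open J82 in
theorem j1Glue : J1Glue := fun hC _ _ _ hF hR =>
  ⟨cx_ok hC hF hR, op_X hF hR, fun _ => top_of_mem hR, fun _ hg => ⟨op_top hF hR hg, rem_le hR hg⟩,
    fun _ _ hΦ => ⟨op_Y hF hR hΦ, fun _ _ h =>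
      have := op_tT hF hR h fun m => Or.inr (op_Y hF hR hΦ m)
      ⟨this.1, this.2, fun i => free_tTb fun m => Or.inr (free_Yb hΦ i m)⟩⟩⟩

end Crest.Agent.T157.S3

end
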