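import Crest.Agent.T157.S3Wx_43
import Crest.Agent.T157.S3Jb_82

/-!
# Row 157, part B, block S3 (helper43): the leaf (J2), (J3)
-/

set_option autoImplicit false
set_option linter.unusedSectionVars false
set_option linter.unusedVariables false
set_option linter.unusedTactic false

noncomputable section

namespace Crest.Agent.T157.S3W.Cx

open Matrix Finset
open Crest.Agent.T157.Eig

variable {Ω : Type*} {c : Cx Ω} {A B M : c.MF}

variable (c) in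
/-- bounded, a clean word up to `M_K` -/
def Bk (A : c.MF) : Prop := c.Op A ∧ ∃ B, c.CW B ∧ c.Kp c.Th fun ω => A ω - B ω

theorem Bk.pk (h : c.Ok) (hA : c.Bk A) : c.Kp c.Sc A :=
  let ⟨_, _, h1, h2⟩ := hA
  cg (((h1.pr h).kp h).add h (h2.pk h.th)) fun _ => add_sub_cancel _ _

theorem Bk.diag (h : c.Ok) (hA : c.Bk A) : c.Kv c.Th fun ω => (A ω).diag :=
  let ⟨_, _, h1, h2⟩ := hA
  cg (((h1.o2 h).kv h h.th).add h (h2.diag h h.th)) fun _ => by
    beta_reduce; rw [diag_sub]; abel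

theorem Bk.of4 (h : c.Ok) (hA : c.Bk A) : c.Of4 A := (hA.pk h).of4 h h.md hA.1.bdE

theorem Bk.four (h : c.Ok) (hA : c.Bk A) : c.Sm fun ω => ∑ i, ∑ j, A ω i j ^ 4 :=
  (Sm.add h (hA.of4 h) ((hA.diag h).l4 h hA.1.bdE.diag)).mono fun ω => by
    rw [← sum_add_distrib]
    refine sum_le_sum fun i _ => le_of_eq ?_
    have e : (A ω).diag i ^ 4 = ∑ j, if i = j then A ω i j ^ 4 else 0 := by simp
    rw [e, ← sum_add_distrib]
    exact sum_congr rfl fun j _ => by split_ifs <;> simp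

theorem Bk.of_mk (h : c.Ok) (hB : c.Bk B) (ho : c.Op A) (hA : c.Kp c.Th fun ω => A ω - B ω) :
    c.Bk A :=
  let ⟨_, D, h1, h2⟩ := hB
  ⟨ho, D, h1, cg (hA.add h h2) fun _ => sub_add_sub_cancel _ _ _⟩

theorem quad_hs (h : c.Ok) {σ : Type*} (S : Finset σ) {G : σ → c.MF} (hG : ∀ m ∈ S, c.Bk (G m))
    {L : ℝ} (e : ∀ ω k j, |A ω k j| ≤ L * ∑ m ∈ S, G m ω k j ^ 2) : c.HS A :=
  (Sm.sum h S fun m hm => (hG m hm).four h).le (C := L ^ 2 * S.card) (by positivity) fun ω => by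
    rw [sum_comm (s := S), mul_sum]
    refine sum_le_sum fun k _ => ?_
    rw [sum_comm (s := S), mul_sum]
    refine sum_le_sum fun j _ => ?_
    have h1 := pow_le_pow_left₀ (abs_nonneg _) (e ω k j) 2
    have h2 := sq_sum_le_card_mul_sum_sq (s := S) (f := fun m => G m ω k j ^ 2)
    simp only [← pow_mul] at h2
    rw [sq_abs, mul_pow] at h1
    rw [mul_assoc]
    exact h1.trans (mul_le_mul_of_nonneg_left h2 (sq_nonneg L))

theorem col3 {ι : Type*} [Fintype ι] [DecidableEq ι] {G : Matrix ι ι ℝ} {b : ℝ} (hb : opn G ≤ b)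
    (j : ι) : (∑ k, |G k j| ^ (if k = j then 2 else 3)) ^ 2 ≤ (2 + 2 * b ^ 2) * ∑ k, G k j ^ 4 := by
  have h1 : ∑ k, |G k j| ^ (if k = j then 2 else 3) ≤ G j j ^ 2 + ∑ k, |G k j| * G k j ^ 2 := by
    have e : G j j ^ 2 = ∑ k, if k = j then G k j ^ 2 else 0 := by simp
    rw [e, ← sum_add_distrib]
    refine sum_le_sum fun k _ => ?_
    split_ifs
    · rw [sq_abs]; exact le_add_of_nonneg_right (by positivity)
    · rw [← sq_abs (G k j)]; exact le_of_eq (by ring)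
  have h2 := sum_mul_sq_le_sq_mul_sq univ (fun k => |G k j|) fun k => G k j ^ 2
  simp only [sq_abs, ← pow_mul] at h2
  have h3 := (S3F.col_sq_le G j).trans (pow_le_pow_left₀ (opn_nonneg _) hb 2)
  have h4 : G j j ^ 4 ≤ ∑ k, G k j ^ 4 :=
    single_le_sum (f := fun k => G k j ^ 4) (fun _ _ => by positivity) (mem_univ j)
  have h5 := mul_le_mul_of_nonneg_right h3 (show 0 ≤ ∑ k, G k j ^ 4 by positivity)
  have h6 := pow_le_pow_left₀ (by positivity) h1 2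
  nlinarith [sq_nonneg (G j j ^ 2 - ∑ k, |G k j| * G k j ^ 2)]

/-- **(J3)** -/
theorem cub (h : c.Ok) {σ : Type*} [Fintype σ] {G : σ → c.MF} (hG : ∀ m, c.Bk (G m)) {L : ℝ}
    (e : ∀ ω k j, |A ω k j| ≤ L * ∑ m, |G m ω k j| ^ (if k = j then 2 else 3)) :
    c.Op A ∧ c.Sm fun ω => ∑ j, (∑ k, |A ω k j|) ^ 2 := by
  choose b hb using fun m => (hG m).1
  have e' : ∀ ω k j, |A ω k j| ≤ |L| * ∑ m, |G m ω k j| ^ (if k = j then 2 else 3) :=
    fun ω k j => (e ω k j).trans (mul_le_mul_of_nonneg_right (le_abs_self L) (by positivity))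
  obtain ⟨B, B1, hB⟩ : ∃ B : ℝ, 1 ≤ B ∧ ∀ m ω, opn (G m ω) ≤ B :=
    ⟨1 + ∑ m, |b m|, le_add_of_nonneg_right (by positivity), fun m ω =>
      ((hb m ω).trans (le_abs_self _)).trans ((single_le_sum (f := fun m => |b m|)
        (fun _ _ => abs_nonneg _) (mem_univ m)).trans (le_add_of_nonneg_left zero_le_one))⟩
  constructor
  · refine ⟨|L| * B * ∑ _m : σ, B ^ 2, fun ω => (S3F.opn_le_of_sq_entries (G := fun m => G m ω)
      (L := |L| * B) (by positivity) fun k j => (e' ω k j).trans ?_).trans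
      (mul_le_mul_of_nonneg_left (sum_le_sum fun m _ =>
        pow_le_pow_left₀ (opn_nonneg _) (hB m ω) 2) (by positivity))⟩
    rw [mul_assoc, mul_sum univ _ B]
    refine mul_le_mul_of_nonneg_left (sum_le_sum fun m _ => ?_) (abs_nonneg L)
    have h1 := (abs_entry_le _ k j).trans (hB m ω)
    rw [← sq_abs (G m ω k j)]
    split_ifs
    · exact le_mul_of_one_le_left (by positivity) B1
    · rw [pow_succ']; exact mul_le_mul_of_nonneg_right h1 (by positivity)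
  · refine (Sm.sum h univ fun m _ => (hG m).four h).le
      (C := |L| ^ 2 * ((univ : Finset σ).card * (2 + 2 * B ^ 2))) (by positivity) fun ω => ?_
    simp only [fun m => sum_comm (s := univ) (t := univ) (f := fun i j => G m ω i j ^ 4)]
    rw [sum_comm (s := (univ : Finset σ)), mul_sum]
    refine sum_le_sum fun j _ => ?_
    have h1 : ∑ k, |A ω k j| ≤ |L| * ∑ m, ∑ k, |G m ω k j| ^ (if k = j then 2 else 3) := by
      rw [sum_comm, mul_sum]; exact sum_le_sum fun k _ => e' ω k j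
    have h2 := sq_sum_le_card_mul_sum_sq (s := univ)
      (f := fun m => ∑ k, |G m ω k j| ^ (if k = j then 2 else 3))
    refine (pow_le_pow_left₀ (by positivity) h1 2).trans ?_
    rw [mul_pow, mul_assoc, mul_assoc, mul_sum univ _ (2 + 2 * B ^ 2)]
    exact mul_le_mul_of_nonneg_left (h2.trans (mul_le_mul_of_nonneg_left
      (sum_le_sum fun m _ => col3 (hB m ω) j) (by positivity))) (by positivity)

end Crest.Agent.T157.S3W.Cx

namespace Crest.Agent.T157.S3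

open Matrix Finset
open Crest.Agent.T157.E (Cube sv)
open Crest.Agent.T157.S3W Crest.Agent.T157.S3W.Cx Crest.Agent.T157.S3F
open Ex98 Fam W43

namespace J43

variable {F : Fam} {N P : ℕ} {R : Net F N} {Φ : Flow R P} {Γ : Flow R (N + 1)}
  {g al : F.Lf (N + 1)}

theorem tay (hR : R.Ok) (hg : R.Top g) :
    ∃ L, ∀ i k b, Tay L (g i k b) fun ξ m => R.pd m g i k b ξ := by
  choose C hC using fun m p => hR.bd _ (hR.pd _ (hg.2.2 m) p)
  refine ⟨_, fun i k b => tay_of_lip (L := ∑ m, ∑ p, |C m p|) (by positivity)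
    (line_of_fderiv (hg.1 i k b)) fun a h m => lip_of_bd (g' := fun ξ p => R.pd p (R.pd m g) i k b ξ)
      (line_of_fderiv (hR.diff _ (hg.2.2 m) i k b)) (fun a p => ?_) a h⟩
  refine ((hC m p i k b a).trans (le_abs_self _)).trans ((single_le_sum (f := fun p => |C m p|)
    (fun _ _ => abs_nonneg _) (mem_univ p)).trans (single_le_sum (f := fun m => ∑ p, |C m p|)
    (fun _ _ => by positivity) (mem_univ m)))

/-- the chain rule up to `M_K` -/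
theorem jac_mk (h : R.cx.Ok) (hR : R.Ok) (hg : R.Top g) (S : Finset (Fin (N + 1)))
    (hd : ∀ i k s ξ ξ', (∀ m ∈ S, ξ m = ξ' m) → g i k s ξ = g i k s ξ')
    (hG : ∀ m ∈ S, R.cx.Bk (F.jc (R.X m))) : R.cx.Kp R.cx.Th fun ω => F.jc (R.ev g) ω -
      (R.dg (R.gs g) ω + ∑ m ∈ S, R.dg (R.pd m g) ω * F.jc (R.X m) ω) := by
  obtain ⟨L, hL⟩ := tay hR hg
  have h1 := (Kv.sum h h.th S fun m hm => ((hG m hm).diag h).blmul h (h.bl_mul (h.bl_smul (-2)
    (bl hR.sp)) (bl (hR.gs _ (hg.2.2 m))))).diagonal h h.th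
  refine cg (h1.add h ((quad_hs h S hG (L := 2 * L) (A := fun ω => _ - _) fun ω k j => ?_).kp h h.th))
    fun ω => add_sub_cancel _ _
  obtain ⟨i, x⟩ := ω
  have h2 := chain (hL i) (fun m y => if m ∈ S then R.X m ⟨i, y⟩ else R.X m ⟨i, x⟩) x k j
  have e1 : (fun (y : Cube (F.n i)) k => g i k (y k) fun m =>
      (if m ∈ S then R.X m ⟨i, y⟩ else R.X m ⟨i, x⟩) k) = fun y => R.ev g ⟨i, y⟩ :=
    funext fun y => funext fun k => hd i k _ _ _ fun m hm => by rw [if_pos hm]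
  have e2 : ∀ m, jac (fun y => if m ∈ S then R.X m ⟨i, y⟩ else R.X m ⟨i, x⟩) x k j =
      if m ∈ S then F.jc (R.X m) ⟨i, x⟩ k j else 0 := fun m => by
    split_ifs
    · rfl
    · rw [jac_const]; rfl
  simp only [e1, e2, ite_self, mul_ite, mul_zero, ite_pow, sum_ite_mem, univ_inter,
    zero_pow two_ne_zero] at h2
  refine le_of_eq_of_le (congrArg _ ?_) h2
  simp only [Matrix.sub_apply, Matrix.add_apply, Matrix.sum_apply, Net.dg, diagonal_mul]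
  rw [sub_sub]
  refine congrArg₂ _ rfl ?_
  by_cases hj : j = k
  · subst hj
    simp only [diagonal_apply_eq, if_true, Finset.sum_apply, add_assoc, ← sum_add_distrib]
    refine congrArg₂ _ rfl (sum_congr rfl fun m _ => ?_)
    simp only [Pi.mul_apply, Pi.smul_apply, diag_apply, Net.ev, Net.gs, Net.sp, S3.gs, Rec.fl,
      Function.update_self, smul_eq_mul]
    cases x j <;> simp [Crest.ProbabilityR.SpinGlassDynamics.spin] <;> ring
  · simp only [diagonal_apply_ne' _ hj, if_neg hj, add_zero, Rec.fl,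
      Function.update_of_ne (Ne.symm hj), Net.ev]

theorem bk_Y (hC : ClsStmt) (hF : F.Ok) (h : R.cx.Ok) (hΦ : Φ.Ok) (l : Fin P) :
    R.cx.Bk (Φ.Y l) :=
  have f := fm hC hF h hΦ
  let ⟨A, _, h1, h2, e⟩ := wx h f (fun l => bl (hΦ.lt l).1) (rcY hΦ) l
  ⟨(((rcY hΦ).sp h f h.md (fun l => pr_diag h (bl (hΦ.lt l).1)) l).2).op h h.md, A, h1,
    cg (h2.kp h) fun ω => by rw [e, add_sub_cancel_left]⟩

theorem pr_tT (hC : ClsStmt) (hF : F.Ok) (h : R.cx.Ok) (hΦ : Φ.Ok) (hal : al ∈ R.C)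
    {a : Fin P → F.Lf (N + 1)} (ha : ∀ m, a m ∈ R.C) : R.cx.PR (Φ.tT al a) :=
  (pr_diag h (bl hal)).add (Sp.sum h h.md univ fun m _ => (((rcY hΦ).sp h (fm hC hF h hΦ) h.md
    (fun l => pr_diag h (bl (hΦ.lt l).1)) m).2).dmul h (bl (ha m)))

theorem grad_mk (hC : ClsStmt) (hJ : J1Stmt) (hF : F.Ok) (hR : R.Ok) (hΓ : Γ.IsGrad)
    (l : Fin (N + 1)) : R.cx.Kp R.cx.Th fun ω => F.jc (R.X l) ω - Γ.Y l ω := by
  obtain ⟨h, oX, tp, -⟩ := hJ F N R hF hR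
  have r : R.cx.Rc Iio (aa Γ) (oo Γ) (fun l ω => F.jc (R.ev (R.f l)) ω -
      ∑ m ∈ Iio l, diagonal (aa Γ l m ω) * F.jc (R.X m) ω) (fun l => F.jc (R.ev (R.f l)))
      fun l => F.jc (R.X l) := ⟨fun l ω => (sub_add_cancel _ _).symm, fun l ω => by
    obtain ⟨κ, hκ⟩ := hR.hX l
    rw [← sum_Iio l fun m hm => by simp [ot_zero hΓ.1.tri ω.1 l m hm]]
    simp only [Fam.jc, hκ, jac_sub, jac_const, sub_zero, jac_sum, jac_smul, oo, Flow.ot,
      hΓ.2.2, Net.o]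
    exact congrArg₂ _ (jac_mulVec _ _ _) rfl⟩
  refine ((r.sub (rcY hΓ.1)).ind h (fm hC hF h hΓ.1) h.th (fun l ih => ?_) l).2
  refine cg (jac_mk h hR (tp _ (hR.fC l)) (Iio l) (fun i k s ξ ξ' e => hR.dep l i k s ξ ξ'
    fun m hm => e m (mem_Iio.2 hm)) fun m hm => (bk_Y hC hF h hΓ.1 m).of_mk h (oX m) (ih m hm).2)
    fun ω => ?_
  simp only [aa, hΓ.2.1, hΓ.2.2, Net.dg]
  abel

theorem bk_X (hC : ClsStmt) (hJ : J1Stmt) (hF : F.Ok) (hR : R.Ok) (l : Fin (N + 1)) :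
    R.cx.Bk (F.jc (R.X l)) :=
  let ⟨h, oX, _⟩ := hJ F N R hF hR
  let ⟨_, hΓ⟩ := (exStmt F N 0 R).2.1 hR
  (bk_Y hC hF h hΓ.1 l).of_mk h (oX l) (grad_mk hC hJ hF hR hΓ l)

theorem top_mk (hC : ClsStmt) (hJ : J1Stmt) (hF : F.Ok) (hR : R.Ok) (hΓ : Γ.IsGrad) (hg : R.Top g) :
    R.cx.Kp R.cx.Th fun ω => F.jc (R.ev g) ω - Γ.tT (R.gs g) (fun m => R.pd m g) ω :=
  have h := (hJ F N R hF hR).1
  cg ((jac_mk h hR hg univ (fun i k s ξ ξ' e => congrArg _ (funext fun m => e m (mem_univ m)))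
    fun m _ => bk_X hC hJ hF hR m).add h (Kp.sum h h.th univ fun m _ =>
      (grad_mk hC hJ hF hR hΓ m).lmul h h.th (pr_diag h (bl (hg.2.2 m))))) fun ω => by
    simp only [Flow.tT, Net.dg, Matrix.mul_sub, sum_sub_distrib]
    abel

theorem top_pk (hC : ClsStmt) (hJ : J1Stmt) (hF : F.Ok) (hR : R.Ok) (hg : R.Top g) :
    R.cx.Kp R.cx.Sc (F.jc (R.ev g)) :=
  have h := (hJ F N R hF hR).1
  let ⟨_, hΓ⟩ := (exStmt F N 0 R).2.1 hR
  cg (((pr_tT hC hF h hΓ.1 hg.2.1 hg.2.2).kp h).add h ((top_mk hC hJ hF hR hΓ hg).pk h.th))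
    fun _ => add_sub_cancel _ _

/-- **(D1)** -/
theorem diag_jc (hC : ClsStmt) (hJ : J1Stmt) (hF : F.Ok) (hR : R.Ok) (hg : R.Top g)
    (h0 : R.gs g = 0) : R.cx.Kv R.cx.Th fun ω => (F.jc (R.ev g) ω).diag :=
  have h := (hJ F N R hF hR).1
  cg (((jac_mk h hR hg univ (fun i k s ξ ξ' e => congrArg _ (funext fun m => e m (mem_univ m)))
    fun m _ => bk_X hC hJ hF hR m).diag h h.th).add h (Kv.sum h h.th univ fun m _ =>
      ((bk_X hC hJ hF hR m).diag h).blmul h (bl (hg.2.2 m)))) fun ω => by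
    funext k
    simp [h0, Net.dg, ev_zero, diagonal_mul]

/-- a flow against the word with the same fields -/
theorem src_mk (hC : ClsStmt) (hJ : J1Stmt) (hF : F.Ok) (hR : R.Ok) {σ : Type*} (S : Finset σ)
    (hal : al ∈ R.C) (h0 : R.gs al = 0) {a : σ → F.Lf (N + 1)} (ha : ∀ m, a m ∈ R.C)
    {Y : σ → F.Mf} (hY : ∀ m ∈ S, R.cx.Bk (Y m)) : R.cx.Kp R.cx.Th fun ω =>
      diagonal (F.bm (R.ev al) ω).diag + ∑ m ∈ S, F.bm (R.ev (a m)) ω ⊙ Y m ω -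
        (R.dg al ω + ∑ m ∈ S, R.dg (a m) ω * Y m ω) := by
  obtain ⟨h, -, tp, oj, -⟩ := hJ F N R hF hR
  have p := fun m => top_pk hC hJ hF hR (tp _ (ha m))
  refine cg (((((diag_jc hC hJ hF hR (tp _ hal) h0).blmul h (bl hR.sp)).diagonal h h.th).add h
    (Kp.sum h h.th S fun m hm => (Kp.had h h.th ((p m).of4 h h.md (oj _ (tp _ (ha m))).1.bdE)
      ((hY m hm).of4 h) ((p m).diag h h.md) (hY m hm).1.bdE ((hY m hm).diag h)).rmul h h.th
      (pr_diag h (bl hR.sp)))).neg h h.th) fun ω => ?_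
  have e : diagonal (F.bm (R.ev al) ω).diag =
      R.dg al ω - diagonal (R.ev R.sp ω * (F.jc (R.ev al) ω).diag) :=
    (diagonal_sub (R.ev al ω) (R.ev R.sp ω * (F.jc (R.ev al) ω).diag)).symm
  rw [e]
  simp only [Fam.bm, barM_had, sum_sub_distrib]
  change _ = _ + (∑ m ∈ S, R.dg (a m) ω * Y m ω -
    ∑ m ∈ S, (F.jc (R.ev (a m)) ω ⊙ Y m ω) * diagonal (R.ev R.sp ω)) - _
  abel

theorem fld_mk (hC : ClsStmt) (hJ : J1Stmt) (hF : F.Ok) (hR : R.Ok) (hΦ : Φ.Ok) (l : Fin P) :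
    R.cx.Kp R.cx.Th fun ω => Φ.Yb l ω - Φ.Y l ω := by
  obtain ⟨h, -, -, -, oY⟩ := hJ F N R hF hR
  have r : R.cx.Rc Iio (aa Φ) (oo Φ) (fun l ω => Φ.Tb l ω -
      ∑ m ∈ Iio l, diagonal (aa Φ l m ω) * Φ.Yb m ω) Φ.Tb Φ.Yb :=
    ⟨fun l ω => (sub_add_cancel _ _).symm, fun l ω => (hΦ.hYb l ω).trans
      (congrArg _ (sum_Iio l fun m hm => by simp [ot_zero hΦ.tri ω.1 l m hm]))⟩
  refine ((r.sub (rcY hΦ)).ind h (fm hC hF h hΦ) h.th (fun l ih => ?_) l).2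
  refine cg (src_mk hC hJ hF hR (Iio l) (hΦ.lt l).1 (hΦ.lt l).2.1 (hΦ.lt l).2.2 fun m hm =>
    (bk_Y hC hF h hΦ m).of_mk h ((oY P Φ hΦ).1 m).2 (ih m hm).2) fun ω => ?_
  simp only [Flow.Tb, Flow.tTb, Net.dg, aa]
  rw [sum_Iio l (f := fun m => F.bm (R.ev (Φ.a l m)) ω ⊙ Φ.Yb m ω) fun m hm => by
    simp [hΦ.tri l m hm, bm_zero]]
  abel

theorem bk_Yb (hC : ClsStmt) (hJ : J1Stmt) (hF : F.Ok) (hR : R.Ok) (hΦ : Φ.Ok) (l : Fin P) :
    R.cx.Bk (Φ.Yb l) :=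
  let ⟨h, _, _, _, oY⟩ := hJ F N R hF hR
  (bk_Y hC hF h hΦ l).of_mk h ((oY P Φ hΦ).1 l).2 (fld_mk hC hJ hF hR hΦ l)

theorem tb_mk (hC : ClsStmt) (hJ : J1Stmt) (hF : F.Ok) (hR : R.Ok) (hΦ : Φ.Ok)
    {a : Fin P → F.Lf (N + 1)} (hl : Φ.Let al a) :
    R.cx.Kp R.cx.Th fun ω => Φ.tTb al a ω - Φ.tT al a ω :=
  have h := (hJ F N R hF hR).1
  cg ((src_mk hC hJ hF hR univ hl.1 hl.2.1 hl.2.2 fun m _ => bk_Yb hC hJ hF hR hΦ m).add h
    (Kp.sum h h.th univ fun m _ =>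
      (fld_mk hC hJ hF hR hΦ m).lmul h h.th (pr_diag h (bl (hl.2.2 m))))) fun ω => by
    simp only [Flow.tT, Flow.tTb, Net.dg, Matrix.mul_sub, sum_sub_distrib]
    abel

end J43

open J43

theorem j2_of (hC : ClsStmt) (hJ : J1Stmt) : J2Stmt := fun F N R hF hR => by
  obtain ⟨h, oX, tp, oj, oY⟩ := hJ F N R hF hR
  refine ⟨fun P Φ hΦ => ⟨fun l => ⟨fld_mk hC hJ hF hR hΦ l, bk_Y hC hF h hΦ l,
    bk_Yb hC hJ hF hR hΦ l⟩, fun al a hl => ?_⟩, fun Γ hΓ => ⟨fun l =>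
      ⟨grad_mk hC hJ hF hR hΓ l, bk_X hC hJ hF hR l⟩, fun g hg => ⟨top_mk hC hJ hF hR hΓ hg,
        ⟨(oj g hg).1, top_pk hC hJ hF hR hg⟩, ?_⟩⟩⟩
  · have h1 := tb_mk hC hJ hF hR hΦ hl
    have h2 := (pr_tT hC hF h hΦ hl.1 hl.2.2).kp h
    have h3 := (oY P Φ hΦ).2 al a hl
    exact ⟨h1, ⟨h3.1, h2⟩, h3.2.1, cg (h2.add h (h1.pk h.th)) fun _ => add_sub_cancel _ _⟩
  · obtain ⟨C, e⟩ := (oj g hg).2
    exact cub h (bk_X hC hJ hF hR) e

theorem j2Glue : J2Glue := fun hC hJ _ => j2_of hC hJ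

end Crest.Agent.T157.S3

end
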