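import Crest.Agent.T157.S3HbS_80
import Crest.Agent.T157.S3J1_82
import Crest.Agent.T157.S3J2_43
import Crest.Agent.T157.S3Dg_98
import Crest.Agent.T157.S3Cl_71
import Crest.Agent.T157.S3Bil_89
import Crest.Agent.T157.S3Gr_7

/-!
# Row 157, part B, block S3 (helper43): the deterministic leaves, unconditionally
-/

namespace Crest.Agent.T157.S3

theorem j1Stmt : J1Stmt := j1Glue clsStmt
theorem wxStmt : WXStmt := wxGlue clsStmt j1Stmt
theorem j2Stmt : J2Stmt := j2Glue clsStmt j1Stmt wxStmt
theorem clStmt : CLStmt := clGlue exStmt clsStmt j1Stmt wxStmt j2Stmt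
theorem bilStmt : BILStmt := bilGlue hbStmt exStmt clsStmt j1Stmt j2Stmt dgStmt clStmt
theorem gramStmt : GRAMStmt := gramGlue clsStmt j1Stmt wxStmt

end Crest.Agent.T157.S3
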