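import Crest.Agent.T157.S3AnA_90
import Crest.Agent.T157.S3Ans_69
import Crest.Agent.T157.S3K_71

/-!
# Row 157, block B/S3 (helper90): the fields `dv`, `gf`, `eq`, `en` of the ansatz
-/

set_option autoImplicit false

noncomputable section

namespace Crest.Agent.T157.S3.An90

open Matrix Filter Finset
open Crest.Agent.T157.E (Cube sv ising prob)
open Crest.Agent.T157.Rec (grad fl)
open Crest.Agent.T157.Eig
open Crest.Agent.T157.Chain22 (IsP mean isP_prob' emean_eq)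
open Crest.Agent.T157.Ent (mean_add' mean_sub' mean_const_mul mean_mul_const mean_congr mean_sum')
open Crest.Agent.T157.S3F (jac hsJ)
open Fam Cls80

variable {F : Fam} {n N P P' : ℕ} {R : Net F N} {𝒯 : Set F.Df}

theorem gram_qs (hG : GRAMStmt) (hF : F.Ok) (hR : R.Ok) {Φ : Flow R P} {Φ' : Flow R P'}
    {d al al' : F.Lf (N + 1)} {a : Fin P → F.Lf (N + 1)} {a' : Fin P' → F.Lf (N + 1)}
    {Pb : Fin P → Fin P' → F.I → ℝ} (hΦ : Φ.Ok) (hΦ' : Φ'.Ok) (hd : d ∈ R.C) (hP : Φ.IsP Φ' d Pb)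
    (hl : Φ.Let al a) (hl' : Φ'.Let al' a') (hb : ∀ m, Bil R 𝒯 (R.ev (a m)))
    (hb' : ∀ m, Bil R 𝒯 (R.ev (a' m))) :
    Qs 𝒯 fun _ B i w => |mean (prob (F.w i)) (fun x => ((Φ.tT al a ⟨i, x⟩)ᵀ *ᵥ w) ⬝ᵥ
      (R.ev d ⟨i, x⟩ * (Φ'.tT al' a' ⟨i, x⟩)ᵀ *ᵥ w)) -
        (w * w) ⬝ᵥ (F.EV (R.ev (al * d * al')) i + en R Pb a a' i)| ≤ B := fun e he => by
  obtain ⟨D, hD, C, H⟩ := hG F N P P' R 𝒯 Φ Φ' d al al' a a' Pb hF hR hΦ hΦ' hd hP hl hl' hb hb' e he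
  refine ⟨1, one_pos, D, hD, |C|, H.mono fun i h w hw => (h w).trans ?_⟩
  have k0 : 0 ≤ F.K i := zero_le_one.trans (hF.K1 i)
  have h1 : C * F.K i * ‖w‖ ^ 2 ≤ |C| * F.K i * 1 :=
    mul_le_mul (mul_le_mul_of_nonneg_right (le_abs_self C) k0) (pow_le_one₀ (norm_nonneg _) hw)
      (sq_nonneg _) (by positivity)
  have h2 := mul_le_mul_of_nonneg_right (le_abs_self C) (sq_nonneg (Fam.Pi D i w))
  unfold E0
  linarith

theorem le_qs {u c : F.Df} (h : Le u c) :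
    Qs 𝒯 fun _ B i w => (w * w) ⬝ᵥ u i - (w * w) ⬝ᵥ c i ≤ B := fun e he => by
  obtain ⟨η, η0, D, hD, C, H⟩ := neg_dot (𝒯 := 𝒯) h e he
  refine ⟨η, η0, D, hD, C, H.mono fun i a w hw => le_trans ?_ ((le_abs_self _).trans (a w hw))⟩
  rw [← dotProduct_sub]
  exact sum_le_sum fun k _ => mul_le_mul_of_nonneg_left (le_max_left _ _) (mul_self_nonneg _)

theorem mo_abs (f : ∀ i : F.I, V (F.n i) → ℝ) : Mo fun _ B i w => |f i w| ≤ B := mo_le _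

theorem mo_reg (C0 : ℝ) (U U' : ∀ i : F.I, V (F.n i) → Cube (F.n i) → V (F.n i)) :
    Mo fun e B i w => ∃ Ω, Rg e (C0 * nrm w) Ω ∧ Exc (F.w i) e B (fun x => nrm (U i w x - Ω x)) ∧
      Exc (F.w i) e B fun x => nrm (U' i w x - Ω x) :=
  fun _ _ _ _ _ h ⟨Ω, h1, h2, h3⟩ =>
    ⟨Ω, h1, Exc.mono h2 le_rfl h fun _ => le_rfl, Exc.mono h3 le_rfl h fun _ => le_rfl⟩

theorem qd_le {d : V n} (hd : ∀ j, 0 ≤ d j ∧ d j ≤ 1) (u t o : V n) :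
    u ⬝ᵥ (d * u) ≤ 2 * (t ⬝ᵥ (d * t)) + (4 * nrm (t - o) ^ 2 + 4 * nrm (u - o) ^ 2) := by
  simp only [nrm_sq, dotProduct, mul_sum, ← sum_add_distrib, Pi.mul_apply, Pi.sub_apply]
  refine sum_le_sum fun j _ => ?_
  have h1 : u j ^ 2 ≤ 2 * t j ^ 2 + 2 * (u j - t j) ^ 2 := by nlinarith [sq_nonneg (u j - 2 * t j)]
  have h2 : (u j - t j) ^ 2 ≤ 2 * (t j - o j) ^ 2 + 2 * (u j - o j) ^ 2 := by
    nlinarith [sq_nonneg (u j + t j - 2 * o j)]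
  nlinarith [mul_le_mul_of_nonneg_left h1 (hd j).1,
    mul_le_mul_of_nonneg_right (hd j).2 (sq_nonneg (u j - t j))]

section top
variable {Γ : Flow R (N + 1)} {g : F.Lf (N + 1)} {PD : Fin (N + 1) → Fin (N + 1) → F.I → ℝ}
  {c : F.Df}

/-- the energy of a top family -/
theorem energy (hG : GRAMStmt) (hE : REGgStmt) (hF : F.Ok) (hR : R.Ok) (hT : R.Ty 𝒯)
    (hΓ : Γ.IsGrad) (hg : R.Top g) (hb : ∀ m, Bil R 𝒯 (R.ev (R.pd m g))) (hP : Γ.IsP Γ R.D PD)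
    (hc : Le (fun i => F.EV (R.ev (R.gs g * R.D * R.gs g)) i +
      en R PD (fun m => R.pd m g) (fun m => R.pd m g) i) c) :
    Qs 𝒯 fun _ B i w => mean (prob (F.w i)) (fun x => grad (fun z => w ⬝ᵥ R.ev g ⟨i, z⟩) x ⬝ᵥ
      (Dg (F.J i) (F.y i) x * grad (fun z => w ⬝ᵥ R.ev g ⟨i, z⟩) x)) -
        2 * ((w * w) ⬝ᵥ c i) ≤ B := by
  obtain ⟨C0, h1⟩ := hE F N R 𝒯 Γ g hF hR hT hΓ hg hb
  have hl := K71.let_grad hR Γ hg hg.2.2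
  have h2 := gram_qs hG hF hR hΓ.1 hΓ.1 (K71.D_mem hR) hP hl hl hb hb
  have m1 := mo_reg C0 (fun i w x => (Γ.tT (R.gs g) (fun m => R.pd m g) ⟨i, x⟩)ᵀ *ᵥ w)
    fun i w x => grad (fun z => w ⬝ᵥ R.ev g ⟨i, z⟩) x
  refine Qs.imp hF (m1.and ((mo_abs _).and (mo_le _))) (mo_le _)
    (Qs.and hF m1 ((mo_abs _).and (mo_le _)) h1 (Qs.and hF (mo_abs _) (mo_le _) h2 (le_qs hc)))
    fun e he => ⟨e / 12, by positivity, 1, one_pos, 12, 0, by norm_num, by linarith,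
      Eventually.of_forall fun i w B _ _ ⟨⟨Ω, _, a1, a2⟩, a3, a4⟩ => ?_⟩
  have b1 := Exc.mean (wpos F i) a1 fun x => nrm_nonneg _
  have b2 := Exc.mean (wpos F i) a2 fun x => nrm_nonneg _
  have b3 := (isP F i).mean_mono fun x => qd_le (Dg_mem (F.J i) (F.y i) x)
    (grad (fun z => w ⬝ᵥ R.ev g ⟨i, z⟩) x)
    ((Γ.tT (R.gs g) (fun m => R.pd m g) ⟨i, x⟩)ᵀ *ᵥ w) (Ω x)
  rw [mean_add', mean_add', mean_const_mul, mean_const_mul, mean_const_mul] at b3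
  simp only [K71.D_eq hR] at a3
  have b4 := (abs_le.1 a3).2
  linarith

/-- the gradient of `w · g` -/
theorem grad_le (hJ : J1Stmt) (hF : F.Ok) (hR : R.Ok) (hg : R.Top g) : ∃ C : ℝ, 0 ≤ C ∧
    ∀ (i : F.I) (w : V (F.n i)) x, nrm (grad (fun z => w ⬝ᵥ R.ev g ⟨i, z⟩) x) ≤ C * nrm w := by
  obtain ⟨C, h⟩ := ((hJ F N R hF hR).2.2.2.1 g hg).1
  refine ⟨|C|, abs_nonneg _, fun i w x => ?_⟩
  rw [grad_dot]
  refine (nrm_mulVec_le _ _).trans (mul_le_mul_of_nonneg_right ?_ (nrm_nonneg _))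
  rw [opn_transpose]
  exact (h ⟨i, x⟩).trans (le_abs_self _)

/-- **transport** for a top family -/
theorem tr_sml {C c0 θ : ℝ} (hH : HB F C c0) (hθ : 0 < θ) (hJ : J1Stmt) (hG : GRAMStmt)
    (hE : REGgStmt) (hF : F.Ok) (hR : R.Ok) (hT : R.Ty 𝒯)
    (hΓ : Γ.IsGrad) (hg : R.Top g) (hb : ∀ m, Bil R 𝒯 (R.ev (R.pd m g))) (hP : Γ.IsP Γ R.D PD)
    (hc : Le (fun i => F.EV (R.ev (R.gs g * R.D * R.gs g)) i +
      en R PD (fun m => R.pd m g) (fun m => R.pd m g) i) c) :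
    Sml 𝒯 fun i w ν => |mean ν (fun x => w ⬝ᵥ R.ev g ⟨i, x⟩) -
      mean (prob (F.w i)) fun x => w ⬝ᵥ R.ev g ⟨i, x⟩| -
        (F.H i ν / θ + 2 * C * θ * ((w * w) ⬝ᵥ c i)) := by
  obtain ⟨C0, h1⟩ := hE F N R 𝒯 Γ g hF hR hT hΓ hg hb
  obtain ⟨C1, c1, h3⟩ := grad_le hJ hF hR hg
  have h2 := energy hG hE hF hR hT hΓ hg hb hP hc
  have m1 := mo_reg C0 (fun i w x => (Γ.tT (R.gs g) (fun m => R.pd m g) ⟨i, x⟩)ᵀ *ᵥ w)
    fun i w x => grad (fun z => w ⬝ᵥ R.ev g ⟨i, z⟩) x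
  have C0' := hH.C0
  have c0' := hH.c0
  refine Qs.imp hF (m1.and (mo_le _)) (mo_sml _) (Qs.and hF m1 (mo_le _) h1 h2) fun e he => ?_
  obtain ⟨e1, p1, q1, -, r1⟩ := ex_acc c0' hθ.le
  obtain ⟨e2, p2, -, -, r2⟩ := ex_acc he (by positivity : 0 ≤ 2 * C * θ)
  obtain ⟨η, pη, -, -, rη⟩ := ex_acc c0' (by positivity : 0 ≤ θ * (|C0| + C1))
  refine ⟨min (e1 ^ 2) e2, by positivity, η, pη, 2 * C * θ, C / θ + C * θ, by positivity,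
    (mul_le_mul_of_nonneg_left (min_le_right _ _) (by positivity)).trans r2,
    Eventually.of_forall fun i w B hw _ ⟨⟨Ω, a0, _, a2⟩, a3⟩ ν hν => ?_⟩
  have n0 := nrm_nonneg w
  have q2 : e1 ^ 2 ≤ e1 := by nlinarith
  have b := hH.tr i (fun z => w ⬝ᵥ R.ev g ⟨i, z⟩) Ω e1 ((|C0| + C1) * nrm w) B θ
    (Rg.mono a0 ((min_le_left _ _).trans q2)
      (mul_le_mul_of_nonneg_right (by linarith [le_abs_self C0]) n0))
    (Exc.mono a2 (min_le_left _ _) le_rfl fun _ => le_rfl)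
    (fun x => (h3 i w x).trans (mul_le_mul_of_nonneg_right (by linarith [abs_nonneg C0]) n0))
    hθ r1 ?_ ν hν
  · have k1 := hF.K1 i
    have b1 : C / θ + C * θ ≤ (C / θ + C * θ) * F.K i := le_mul_of_one_le_right (by positivity) k1
    have b2 := mul_le_mul_of_nonneg_left a3 (by positivity : 0 ≤ C * θ)
    have b3 := mul_le_mul_of_nonneg_left (q2.trans q1) (by positivity : 0 ≤ C * θ)
    have b4 := mul_nonneg he.le (H_nonneg i hν)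
    rw [add_div] at b
    linarith
  · have b1 := (nrm_le_sup w).trans (mul_le_mul_of_nonneg_right hw (Real.sqrt_nonneg _))
    have b2 := mul_le_mul_of_nonneg_left b1 (by positivity : 0 ≤ θ * (|C0| + C1))
    have b3 := mul_le_mul_of_nonneg_right rη (Real.sqrt_nonneg (F.n i))
    linarith

end top

/-! ### the closure -/

theorem err_sml (hC : ClsStmt) (hF : F.Ok) {v : F.Vf} (hv : R.cx.O2 v) :
    Sml 𝒯 fun i w ν => mean ν fun x => |w ⬝ᵥ v ⟨i, x⟩| := by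
  obtain ⟨C, h⟩ := ((hC F hF).2.2.2.2 N R _ hv).2
  refine Qs.imp hF (fun _ _ _ _ _ _ h => h) (mo_sml _) Qs.triv fun e he => ?_
  obtain ⟨η, pη, -, -, rη⟩ := ex_acc he (abs_nonneg C)
  refine ⟨e, he, η, pη, 1, C ^ 2 / e, zero_le_one, by linarith,
    Eventually.of_forall fun i w B hw hB _ ν hν => ?_⟩
  have k0 : 0 ≤ F.K i := zero_le_one.trans (hF.K1 i)
  have n0 := nrm_nonneg w
  have H0 := H_nonneg i hν
  have s0 : 0 < √(F.n i : ℝ) := Real.sqrt_pos.2 (Nat.cast_pos.2 (hF.pos i))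
  have h1 : (mean ν fun x => |w ⬝ᵥ v ⟨i, x⟩|) ≤ nrm w * (|C| * (√(F.K i) + F.H i ν / √(F.n i))) := by
    refine (hν.mean_mono (g := fun x => nrm w * √(∑ k, v ⟨i, x⟩ k ^ 2)) fun x => ?_).trans ?_
    · refine (abs_dot_le _ _).trans_eq ?_
      simp only [nrm, dotProduct, sq]
    · rw [mean_const_mul]
      exact mul_le_mul_of_nonneg_left ((h i ν hν).trans
        (mul_le_mul_of_nonneg_right (le_abs_self C) (by positivity))) n0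
  have h2 := young (a := nrm w) (b := |C| * √(F.K i)) he
  rw [nrm_sq, mul_pow, sq_abs, Real.sq_sqrt k0, ← div_mul_eq_mul_div] at h2
  have h3 : nrm w / √(F.n i) ≤ η := (div_le_iff₀ s0).2
    ((nrm_le_sup w).trans (mul_le_mul_of_nonneg_right hw s0.le))
  have h4 : |C| * (nrm w / √(F.n i)) * F.H i ν ≤ e * F.H i ν := mul_le_mul_of_nonneg_right
    ((mul_le_mul_of_nonneg_left h3 (abs_nonneg C)).trans rη) H0
  have h5 : nrm w * (|C| * (√(F.K i) + F.H i ν / √(F.n i))) =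
      nrm w * (|C| * √(F.K i)) + |C| * (nrm w / √(F.n i)) * F.H i ν := by ring
  linarith

section cl
variable {Φ : Flow R P} {Γ : Flow R (N + 1)} {Pb : Fin P → Fin (N + 1) → F.I → ℝ}
  {Z : Fin P → F.Vf} {al : F.Lf (N + 1)} {a : Fin P → F.Lf (N + 1)}

/-- the divergence is the drift, weakly -/
theorem cl_sml (hC : ClsStmt) (hL : CLStmt) (hO : COLStmt) (hF : F.Ok) (hR : R.Ok) (hT : R.Ty 𝒯)
    (hΦ : Φ.Ok) (hD : Φ.IsDrift Γ Pb Z) (hl : Φ.Let al a) (hb : ∀ m, Bil R 𝒯 (R.ev (a m))) :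
    Sml 𝒯 fun i w ν => mean ν fun x =>
      |w ⬝ᵥ (Φ.tTb al a ⟨i, x⟩ *ᵥ F.τ ⟨i, x⟩ - Φ.tA Pb Z al a ⟨i, x⟩)| := by
  obtain ⟨g, c, c', h1, -, h2⟩ := hL F N P R Φ Γ Pb Z hF hR hΦ hD
  obtain ⟨g0, h3, h4⟩ := h2 al a hl
  have h5 : Sml 𝒯 fun i w ν => mean ν fun x =>
      |w ⬝ᵥ (g0 ⟨i, x⟩ + ∑ m, R.ev (a m) ⟨i, x⟩ * c' m ⟨i, x⟩)| :=
    hO F N P R 𝒯 Φ a g c c' g0 hF hR hT hΦ hl.2.2 hb h1 h3
  refine (h5.add hF (err_sml hC hF h4)).mono hF fun i w ν hν => ?_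
  rw [← mean_add']
  refine hν.mean_mono fun x => le_trans (le_of_eq ?_) (abs_add_le _ _)
  rw [← dotProduct_add, add_sub_cancel]

/-- the divergence is the drift, in norm -/
theorem cl_sq (hC : ClsStmt) (hJ : J1Stmt) (hL : CLStmt) (hF : F.Ok) (hR : R.Ok)
    (hΦ : Φ.Ok) (hD : Φ.IsDrift Γ Pb Z) (hl : Φ.Let al a) :
    K71.SqV fun ω => Φ.tTb al a ω *ᵥ F.τ ω - Φ.tA Pb Z al a ω := by
  obtain ⟨g, c, c', -, h1, h2⟩ := hL F N P R Φ Γ Pb Z hF hR hΦ hD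
  obtain ⟨g0, h3, h4⟩ := h2 al a hl
  have hx := (hJ F N R hF hR).1
  have h5 := K71.SqV_add (K71.SqV_add (K71.TV_sq hF hx h3) (K71.SqV_sum univ fun m _ =>
    K71.SqV_bmul (R := R) (hx.bl_bd (K71.bl (hl.2.2 m))) (h1 m))) (K71.O2_sq hC hF h4)
  exact S3W.Cx.cg (P := K71.SqV) h5 fun ω => add_sub_cancel _ _

end cl

theorem abs_le_of_sq {x a b c : ℝ} (hb : 0 ≤ b) (hc : 0 ≤ c) (h : x ^ 2 ≤ a * b ^ 2 * c) :
    |x| ≤ √|a| * b * √c := by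
  refine abs_le_of_sq_le_sq' ?_ (by positivity) |> abs_le.2
  rw [mul_pow, mul_pow, Real.sq_sqrt (abs_nonneg a), Real.sq_sqrt hc]
  exact h.trans (mul_le_mul_of_nonneg_right
    (mul_le_mul_of_nonneg_right (le_abs_self a) (sq_nonneg b)) hc)

theorem mean_dot (ν : Cube n → ℝ) (w : V n) (u : Cube n → V n) :
    mean ν (fun x => w ⬝ᵥ u x) = w ⬝ᵥ fun k => mean ν fun x => u x k := by
  simp only [dotProduct]
  rw [mean_sum']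
  exact sum_congr rfl fun k _ => mean_const_mul _ _

theorem abs_mean_le {ν : Cube n → ℝ} (hν : IsP ν) (f : Cube n → ℝ) :
    |mean ν f| ≤ mean ν fun x => |f x| := by
  refine abs_le.2 ⟨?_, hν.mean_mono fun x => le_abs_self _⟩
  have := hν.mean_mono (f := fun x => -1 * |f x|) (g := f) fun x => by linarith [neg_abs_le (f x)]
  rw [mean_const_mul] at this
  linarith

/-! ### the fields -/

variable {d : Tp R P} {a C0 e : ℝ} {p q α : F.Df}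

/-- **(a')** -/
theorem dv_field (hH : HBStmt) (hC : ClsStmt) (hJ : J1Stmt) (hL : CLStmt) (hF : F.Ok)
    (h : TopIn d 𝒯 a C0 e p q α) : ∃ C : ℝ, 0 ≤ C ∧ ∀ (i : F.I) (w : V (F.n i)) ν, IsP ν →
      |mean ν fun x => w ⬝ᵥ d.Φ.tTb (R.gs d.ψ) d.t ⟨i, x⟩ *ᵥ tau (F.J i) (F.y i) x| ≤
        C * nrm w * √(F.H i ν + F.K i) := by
  have hR := h.net
  have hl := K71.let_grad hR d.Φ h.top h.tC
  obtain ⟨C, c, hb⟩ := hb_ok hH hF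
  obtain ⟨C1, -, h1⟩ := grad_le hJ hF hR ((hJ F N R hF hR).2.2.1 _ h.AC)
  obtain ⟨C2, h2⟩ := (hC F hF).2.2.2.1 _ (cl_sq hC hJ hL hF hR h.flow h.drift hl)
  refine ⟨√|12 * C * C1 ^ 2| + 2 * √|(|C2|)|, by positivity, fun i w ν hν => ?_⟩
  have k1 := hF.K1 i
  have n0 := nrm_nonneg w
  have H0 := H_nonneg i hν
  set v : Cube (F.n i) → V (F.n i) := fun x => d.Φ.tTb (R.gs d.ψ) d.t ⟨i, x⟩ *ᵥ F.τ ⟨i, x⟩ -
    d.Φ.tA d.Pb d.Z (R.gs d.ψ) d.t ⟨i, x⟩ with hv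
  have e1 : ∀ x, w ⬝ᵥ d.Φ.tTb (R.gs d.ψ) d.t ⟨i, x⟩ *ᵥ tau (F.J i) (F.y i) x =
      w ⬝ᵥ R.ev d.A ⟨i, x⟩ + w ⬝ᵥ v x := fun x => by
    rw [h.hA, ← dotProduct_add, hv, add_sub_cancel]; rfl
  have e2 : (mean (prob (F.w i)) fun x =>
      w ⬝ᵥ d.Φ.tTb (R.gs d.ψ) d.t ⟨i, x⟩ *ᵥ tau (F.J i) (F.y i) x) = 0 := by
    have := K71.EV_div hF (fun i => (((hJ F N R hF hR).2.2.2.2 P _ h.flow).2 _ _ hl).2.2 i) i
    rw [mean_dot]
    exact (congrArg (w ⬝ᵥ ·) this).trans (dotProduct_zero _)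
  have b1 : ∀ ν, IsP ν → |mean ν fun x => w ⬝ᵥ v x| ≤ √|(|C2|)| * nrm w * √(F.H i ν + F.K i) :=
    fun ν hν => by
      have H0 := H_nonneg i hν
      refine abs_le_of_sq n0 (by linarith) ((msq hν _).trans ?_)
      refine (hν.mean_mono fun x => dot_sq_le w (v x)).trans ?_
      rw [mean_const_mul, nrm_sq, mul_comm |C2|, mul_assoc, add_comm]
      exact mul_le_mul_of_nonneg_left ((h2 i ν hν).trans
        (mul_le_mul_of_nonneg_right (le_abs_self _) (by linarith))) (Hb.dsn w)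
  have b2 := b1 _ (isP F i)
  rw [H_self] at b2
  have b3 := b2.trans (mul_le_mul_of_nonneg_left (Real.sqrt_le_sqrt (add_le_add H0 le_rfl))
    (by positivity))
  have b4 : |mean ν (fun x => w ⬝ᵥ R.ev d.A ⟨i, x⟩) - mean (prob (F.w i)) fun x =>
      w ⬝ᵥ R.ev d.A ⟨i, x⟩| ≤ √|12 * C * C1 ^ 2| * nrm w * √(F.H i ν + F.K i) := by
    refine abs_le_of_sq n0 (by linarith) ((hb.t1 (TS.of_grad (A := (C1 * nrm w) ^ 2) fun x => ?_)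
      hν).trans ?_)
    · rw [← nrm_sq]; exact pow_le_pow_left₀ (nrm_nonneg _) (h1 i w x) 2
    · have := hb.C0
      calc _ = 12 * C * C1 ^ 2 * nrm w ^ 2 * (F.H i ν + 1) := by ring
        _ ≤ _ := mul_le_mul_of_nonneg_left (add_le_add le_rfl k1) (by positivity)
  simp only [e1, mean_add'] at e2 ⊢
  have b5 := abs_le.1 (b1 ν hν)
  have b6 := abs_le.1 b3
  have b7 := abs_le.1 b4
  rw [abs_le]
  constructor <;> linarith [b5.1, b5.2, b6.1, b6.2, b7.1, b7.2]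

/-- **(g)** -/
theorem en_field (hG : GRAMStmt) (hE : REGgStmt) (hF : F.Ok)
    (h : TopIn d 𝒯 a C0 e p q α) :
    Qs 𝒯 fun _ B i w => (E.mean (F.w i) fun x => grad (fun z => w ⬝ᵥ R.ev d.ψ ⟨i, z⟩) x ⬝ᵥ
      (Dg (F.J i) (F.y i) x * grad (fun z => w ⬝ᵥ R.ev d.ψ ⟨i, z⟩) x)) ≤
        2 * C0 * (w ⬝ᵥ (p i * w)) + B := fun e1 he => by
  obtain ⟨η, η0, D, hD, C, H⟩ := energy hG hE hF h.net h.ty h.drift.1 h.top h.bψ h.pD h.eψ e1 he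
  refine ⟨η, η0, D, hD, C, H.mono fun i b w hw => ?_⟩
  have h1 : (w * w) ⬝ᵥ (C0 • p i) = C0 * (w ⬝ᵥ (p i * w)) := by
    simp only [dotProduct, mul_sum, Pi.mul_apply, Pi.smul_apply, smul_eq_mul]
    exact sum_congr rfl fun k _ => by ring
  have h2 := b w hw
  beta_reduce at h2 ⊢
  rw [h1] at h2
  rw [emean_eq]
  linarith

theorem sq_dot_const (w : V n) (c : ℝ) : ((w * w) ⬝ᵥ fun _ => c) = c * (w ⬝ᵥ w) := by
  simp only [dotProduct, mul_sum, Pi.mul_apply]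
  exact sum_congr rfl fun k _ => by ring

/-- **(d)** -/
theorem eq_field {C c C' : ℝ} (hb : HB F C c) (hC' : 1 + 2 * C ≤ C') (he : 0 < e) (hC : ClsStmt)
    (hJ : J1Stmt) (hL : CLStmt) (hG : GRAMStmt) (hE : REGgStmt) (hO : COLStmt) (hF : F.Ok)
    (h : TopIn d 𝒯 a C0 e p q α) :
    Qs 𝒯 fun e1 B i w => ∀ ν, IsP ν → ∀ G : Cube (F.n i) → ℝ,
      (∀ x, G x = w ⬝ᵥ d.Φ.tTb (R.gs d.ψ) d.t ⟨i, x⟩ *ᵥ tau (F.J i) (F.y i) x -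
        a * (w ⬝ᵥ R.ev d.ψ ⟨i, x⟩) - (α i * w - F.J i *ᵥ (q i * w)) ⬝ᵥ sv x) →
      |mean ν G - E.mean (F.w i) G| ≤ C' * √e * (w ⬝ᵥ w + F.H i ν) + B + e1 * F.H i ν := by
  have hR := h.net
  have hl := K71.let_grad hR d.Φ h.top h.tC
  have s0 : 0 < √e := Real.sqrt_pos.2 he
  have h1 := cl_sml hC hL hO hF hR h.ty h.flow h.drift hl h.bt
  have h2 := tr_sml hb (inv_pos.2 s0) hJ hG hE hF hR h.ty h.drift.1 h.rT h.br h.pD h.er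
  intro e1 he1
  obtain ⟨η, η0, D, hD, C1, H⟩ := (h1.add hF h1.self.sml).add hF h2 e1 he1
  refine ⟨η, η0, D, hD, C1, H.mono fun i b w hw ν hν G hG => ?_⟩
  have b1 := b w hw ν hν
  set v : Cube (F.n i) → V (F.n i) := fun x => d.Φ.tTb (R.gs d.ψ) d.t ⟨i, x⟩ *ᵥ F.τ ⟨i, x⟩ -
    d.Φ.tA d.Pb d.Z (R.gs d.ψ) d.t ⟨i, x⟩ with hv
  have e1 : G = fun x => w ⬝ᵥ v x + w ⬝ᵥ R.ev d.r ⟨i, x⟩ - (q i * w) ⬝ᵥ (F.y i - R.b i) := by
    funext x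
    have a1 : (F.J i *ᵥ (q i * w)) ⬝ᵥ sv x = (q i * w) ⬝ᵥ F.J i *ᵥ sv x := by
      rw [dotProduct_mulVec, ← mulVec_transpose, hF.symm]
    have a2 : ∀ u z : V (F.n i), w ⬝ᵥ (u * z) = (u * w) ⬝ᵥ z := fun u z =>
      sum_congr rfl fun k _ => by simp only [Pi.mul_apply]; ring
    rw [hG, h.hr, hR.X0, hv, ← h.hA]
    simp only [hf, Fam.τ, dotProduct_sub, dotProduct_add, sub_dotProduct, dotProduct_smul, a1, a2,
      smul_eq_mul]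
    ring
  have b2 := abs_le.1 (abs_mean_le hν fun x => w ⬝ᵥ v x)
  have b3 := abs_le.1 (abs_mean_le (isP F i) fun x => w ⬝ᵥ v x)
  have b4 : F.H i ν / (√e)⁻¹ + 2 * C * (√e)⁻¹ * ((w * w) ⬝ᵥ fun _ => e) ≤
      C' * √e * (w ⬝ᵥ w + F.H i ν) := by
    have a1 : (√e)⁻¹ * e = √e := by
      rw [inv_mul_eq_div, Real.div_sqrt]
    have a2 := mul_nonneg s0.le (H_nonneg i hν)
    have a3 := mul_nonneg s0.le (Hb.dsn w)
    rw [sq_dot_const, div_inv_eq_mul, mul_assoc (2 * C), ← mul_assoc _ e, a1]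
    nlinarith [hb.C0, mul_nonneg hb.C0 a2, mul_le_mul_of_nonneg_right hC' (add_nonneg a2 a3)]
  rw [emean_eq, e1, mean_sub', mean_sub', mean_add', mean_add', hν.mean_const, (isP F i).mean_const]
  have b5 := le_abs_self (mean ν (fun x => w ⬝ᵥ R.ev d.r ⟨i, x⟩) -
    mean (prob (F.w i)) fun x => w ⬝ᵥ R.ev d.r ⟨i, x⟩)
  have b6 := neg_abs_le (mean ν (fun x => w ⬝ᵥ R.ev d.r ⟨i, x⟩) -
    mean (prob (F.w i)) fun x => w ⬝ᵥ R.ev d.r ⟨i, x⟩)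
  rw [abs_le]
  constructor <;> linarith [b2.1, b2.2, b3.1, b3.2]

theorem nrm3 (u v z t : V n) :
    nrm (u - t) ^ 2 ≤ 3 * nrm (v - u) ^ 2 + 3 * nrm (z - t) ^ 2 + 3 * nrm (v - z) ^ 2 := by
  simp only [nrm_sq, dotProduct, mul_sum, ← sum_add_distrib, Pi.sub_apply]
  exact sum_le_sum fun k _ => by
    nlinarith [sq_nonneg (v k - u k + (z k - t k)), sq_nonneg (v k - u k + (v k - z k)),
      sq_nonneg (z k - t k - (v k - z k))]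

/-- **(c)** -/
theorem gf_field {C' : ℝ} (hC' : 6 ≤ C') (he : 0 ≤ e) (hG : GRAMStmt) (hE' : REGStmt)
    (hE : REGgStmt) (hF : F.Ok) (h : TopIn d 𝒯 a C0 e p q α) :
    Qs 𝒯 fun e1 B i w => Exc (F.w i) e1 (C' * e * (w ⬝ᵥ w) + B) fun x =>
      nrm (grad (fun z => w ⬝ᵥ R.ev d.ψ ⟨i, z⟩) x - (d.Φ.tTb (R.gs d.ψ) d.t ⟨i, x⟩)ᵀ *ᵥ w) := by
  have hR := h.net
  have hl := K71.let_grad hR d.Φ h.top h.tC
  have hl' := K71.let_grad hR d.Γ h.top h.top.2.2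
  have hΓ := h.drift.1
  obtain ⟨C1, h1⟩ := hE F N R 𝒯 d.Γ d.ψ hF hR h.ty hΓ h.top h.bψ
  obtain ⟨C2, h2⟩ := hE' F N P R 𝒯 d.Φ _ _ hF hR h.ty h.flow hl h.bt
  have g1 := gram_qs hG hF hR hΓ.1 hΓ.1 hR.one h.p11 hl' hl' h.bψ h.bψ
  have g2 := gram_qs hG hF hR hΓ.1 h.flow hR.one h.p12 hl' hl h.bψ h.bt
  have g3 := gram_qs hG hF hR h.flow h.flow hR.one h.p22 hl hl h.bt h.bt
  have m1 := mo_reg C1 (fun i w x => (d.Γ.tT (R.gs d.ψ) (fun m => R.pd m d.ψ) ⟨i, x⟩)ᵀ *ᵥ w)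
    fun i w x => grad (fun z => w ⬝ᵥ R.ev d.ψ ⟨i, z⟩) x
  have m2 := mo_reg C2 (fun i w x => (d.Φ.tT (R.gs d.ψ) d.t ⟨i, x⟩)ᵀ *ᵥ w)
    fun i w x => (d.Φ.tTb (R.gs d.ψ) d.t ⟨i, x⟩)ᵀ *ᵥ w
  refine Qs.imp hF ((m1.and m2).and (((mo_abs _).and (mo_abs _)).and ((mo_abs _).and (mo_le _))))
    (fun _ _ _ _ _ hB H => Exc.mono H le_rfl (by linarith) fun _ => le_rfl)
    (Qs.and hF (m1.and m2) (((mo_abs _).and (mo_abs _)).and ((mo_abs _).and (mo_le _)))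
      (Qs.and hF m1 m2 h1 h2) (Qs.and hF ((mo_abs _).and (mo_abs _)) ((mo_abs _).and (mo_le _))
        (Qs.and hF (mo_abs _) (mo_abs _) g1 g2) (Qs.and hF (mo_abs _) (mo_le _) g3 (le_qs h.e1))))
    fun e1 he1 => ?_
  obtain ⟨ε, p1, q1, -, r1⟩ := ex_acc he1 (by positivity : 0 ≤ 264 + 256 * (|C1| + |C2|) ^ 2)
  refine ⟨ε, p1, 1, one_pos, 52, 2, by norm_num, by nlinarith [sq_nonneg (|C1| + |C2|)],
    Eventually.of_forall fun i w B _ hB ⟨⟨⟨Ω, a0, a1, a2⟩, Ω', b0, b1, b2⟩, ⟨c1, c2⟩, c3, c4⟩ => ?_⟩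
  have n0 := nrm_nonneg w
  have w0 := Hb.dsn w
  have r0 := Rg.sub (Rg.mono a0 le_rfl (mul_le_mul_of_nonneg_right (le_abs_self C1) n0))
    (Rg.mono b0 le_rfl (mul_le_mul_of_nonneg_right (le_abs_self C2) n0))
  have t1 : mean (prob (F.w i)) (fun x => nrm ((d.Γ.tT (R.gs d.ψ) (fun m => R.pd m d.ψ) ⟨i, x⟩)ᵀ *ᵥ w -
      (d.Φ.tT (R.gs d.ψ) d.t ⟨i, x⟩)ᵀ *ᵥ w) ^ 2) ≤ e * (w ⬝ᵥ w) + 5 * B := by
    have a : ∀ u v : V (F.n i), nrm (u - v) ^ 2 = u ⬝ᵥ u - 2 * (u ⬝ᵥ v) + v ⬝ᵥ v := fun u v => by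
      rw [nrm_sq, sub_dotProduct, dotProduct_sub, dotProduct_sub, dotProduct_comm v u]; ring
    simp only [K71.ev_one, one_mul, dotProduct_add, dotProduct_sub, dotProduct_smul, smul_eq_mul,
      sq_dot_const] at c1 c2 c3 c4
    simp only [a]
    rw [mean_add', mean_sub', mean_const_mul]
    linarith [(abs_le.1 c1).2, (abs_le.1 c2).1, (abs_le.1 c3).2]
  have t2 : mean (prob (F.w i)) (fun x => nrm (Ω x - Ω' x) ^ 2) ≤ 3 * (e * (w ⬝ᵥ w)) + 21 * B := by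
    refine ((isP F i).mean_mono fun x => nrm3 (Ω x)
      ((d.Γ.tT (R.gs d.ψ) (fun m => R.pd m d.ψ) ⟨i, x⟩)ᵀ *ᵥ w)
      ((d.Φ.tT (R.gs d.ψ) d.t ⟨i, x⟩)ᵀ *ᵥ w) (Ω' x)).trans ?_
    rw [mean_add', mean_add', mean_const_mul, mean_const_mul, mean_const_mul]
    linarith [Exc.mean (wpos F i) a1 fun x => nrm_nonneg _,
      Exc.mean (wpos F i) b1 fun x => nrm_nonneg _]
  have ρ0 : 0 < ε * (w ⬝ᵥ w) + 1 := by positivity
  refine Exc.mono (Exc.add (wpos F i) (Exc.add (wpos F i) a2 b2) (exc_rg (wpos F i) r0 ρ0 t2))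
    ?_ ?_ fun x => ?_
  · have a : 8 * (ε + ε) ^ 2 * (2 * (|C1| * nrm w + |C2| * nrm w)) ^ 2 / (ε * (w ⬝ᵥ w) + 1) ≤
        128 * (|C1| + |C2|) ^ 2 * ε := by
      rw [div_le_iff₀ ρ0, ← nrm_sq]
      nlinarith [mul_nonneg (sq_nonneg (|C1| + |C2|)) p1.le]
    nlinarith
  · nlinarith [hF.K1 i, mul_le_mul_of_nonneg_right hC' (mul_nonneg he w0)]
  · have a := nrm_tri (grad (fun z => w ⬝ᵥ R.ev d.ψ ⟨i, z⟩) x) (Ω x)
      ((d.Φ.tTb (R.gs d.ψ) d.t ⟨i, x⟩)ᵀ *ᵥ w)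
    have b := nrm_tri (Ω x) (Ω' x) ((d.Φ.tTb (R.gs d.ψ) d.t ⟨i, x⟩)ᵀ *ᵥ w)
    rw [nrm_sub_comm (Ω' x)] at b
    linarith

end Crest.Agent.T157.S3.An90

end
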