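import Crest.Agent.T157.S3AnB_90

/-!
# Row 157, block B/S3 (helper90): the ansatz along the family (`S3.AnsFGlue`)
-/

set_option autoImplicit false

noncomputable section

namespace Crest.Agent.T157.S3

open Matrix Filter Finset
open Crest.Agent.T157.E (Cube sv ising prob)
open Crest.Agent.T157.Rec (grad fl)
open Crest.Agent.T157.Eig
open Crest.Agent.T157.Chain22 (IsP mean isP_prob' emean_eq)
open Crest.Agent.T157.Ent (mean_add' mean_sub' mean_const_mul mean_mul_const mean_congr mean_sum')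
open Crest.Agent.T157.S3F (jac hsJ)
open Fam Cls80

namespace An90

variable {F : Fam} {n N P : ℕ} {R : Net F N} {𝒯 : Set F.Df}

theorem exs_anti {e e' : ℝ} (h : e ≤ e') (u : V n) : exs e' u ≤ exs e u :=
  Real.sqrt_le_sqrt (sum_le_sum fun k _ => mul_self_le_mul_self (le_max_right _ _)
    (max_le_max (by linarith) le_rfl))

theorem Ver.mono {J : Mx n} {y qw : V n} {e e' L L' B B' : ℝ} {U Ω : Cube n → V n}
    (h : Ver J y e L B qw U Ω) (he : e ≤ e') (hL : L ≤ L') (hB : B ≤ B') :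
    Ver J y e' L' B' qw U Ω :=
  ⟨Rg.mono h.1 he hL, Exc.mono h.2.1 he hB fun _ => le_rfl,
    Exc.mono h.2.2 he hB fun _ => exs_anti he _⟩

/-- a flat regular version -/
def Fl (C0 : ℝ) (q : F.Df) (U U' : ∀ i : F.I, V (F.n i) → Cube (F.n i) → V (F.n i)) : Pr F :=
  fun e B i w => ∃ Ω, Ver (F.J i) (F.y i) e (C0 * nrm w) B (q i * w) (U' i w) Ω ∧
    Exc (F.w i) e B (fun x => nrm (U i w x - Ω x)) ∧
    ∀ z, |mean (prob (F.w i)) fun x => z ⬝ᵥ (Dg (F.J i) (F.y i) x * Ω x - q i * w)| ≤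
      e * (z ⬝ᵥ z) + B

theorem mo_fl (C0 : ℝ) (q : F.Df) (U U' : ∀ i : F.I, V (F.n i) → Cube (F.n i) → V (F.n i)) :
    Mo (Fl C0 q U U') := fun _ _ _ _ _ h ⟨Ω, h1, h2, h3⟩ =>
  ⟨Ω, Ver.mono h1 le_rfl le_rfl h, Exc.mono h2 le_rfl h fun _ => le_rfl,
    fun z => (h3 z).trans (add_le_add le_rfl h)⟩

theorem flat_qs (hFl : FlatStmt) (hF : F.Ok) (hR : R.Ok) {Φ : Flow R P} {al : F.Lf (N + 1)}
    {a : Fin P → F.Lf (N + 1)} {q : F.Df} (hΦ : Φ.Ok) (hl : Φ.Let al a)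
    (hb : ∀ m, Bil R 𝒯 (R.ev (a m))) (hq : Neg fun i => F.EV (R.ev (R.D * al)) i - q i) {C0 : ℝ}
    {U' : ∀ i : F.I, V (F.n i) → Cube (F.n i) → V (F.n i)}
    (h : Qs 𝒯 fun e B i w => ∃ Ω, Rg e (C0 * nrm w) Ω ∧
      Exc (F.w i) e B (fun x => nrm ((Φ.tT al a ⟨i, x⟩)ᵀ *ᵥ w - Ω x)) ∧
      Exc (F.w i) e B fun x => nrm (U' i w x - Ω x)) :
    Qs 𝒯 (Fl C0 q (fun i w x => (Φ.tT al a ⟨i, x⟩)ᵀ *ᵥ w) U') := fun e he => by
  obtain ⟨e', he', D', hD', H'⟩ := hFl F N P R 𝒯 Φ al a q hF hR hΦ hl hb hq C0 e he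
  obtain ⟨η, η0, D, hD, C, H⟩ := h (min e e') (lt_min he he')
  obtain ⟨C1, H'⟩ := H' D |C|
  refine ⟨min η e', lt_min η0 he', D ++ D', List.forall_mem_append.2 ⟨hD, hD'⟩, |C| + |C1|, ?_⟩
  filter_upwards [H, H'] with i b b' w hw
  obtain ⟨Ω, h1, h2, h3⟩ := b w (hw.trans (min_le_left _ _))
  have E1 : E0 (min e e') C D i w ≤ E0 e' |C| D i w := by
    simpa using E0_le hF (e := e') (e' := min e e') (A := 1) (M := 0) (C := C) (C' := |C|)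
      zero_le_one (by simp) (by simp) (le_refl (Fam.Pi D i w))
  have E2 : E0 (min e e') C D i w ≤ E0 e (|C| + |C1|) (D ++ D') i w := by
    simpa using E0_le hF (e := e) (e' := min e e') (A := 1) (M := 0) (C := C) (C' := |C| + |C1|)
      (D := D) (D' := D ++ D') (i := i) (w := w) zero_le_one (by simp) (by simp)
      (by rw [Pi_append]; linarith [Pi_nonneg D' i w])
  have E3 : E0 e C1 (D ++ D') i w ≤ E0 e (|C| + |C1|) (D ++ D') i w :=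
    E0_mono hF (by linarith [abs_nonneg C]) le_rfl
  obtain ⟨h4, h5⟩ := b' w Ω (hw.trans (min_le_right _ _)) (Rg.mono h1 (min_le_right _ _) le_rfl)
    (Exc.mono h2 (min_le_right _ _) E1 fun _ => le_rfl)
  exact ⟨Ω, ⟨Rg.mono h1 (min_le_left _ _) le_rfl, Exc.mono h3 (min_le_left _ _) E2 fun _ => le_rfl,
    Exc.mono h4 le_rfl E3 fun _ => le_rfl⟩, Exc.mono h2 (min_le_left _ _) E2 fun _ => le_rfl,
    fun z => (h5 z).trans (add_le_add le_rfl E3)⟩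

variable {d : Tp R P} {a C0 e : ℝ} {p q α : F.Df}

/-- the regular version of the gradient -/
theorem vg_field (hG : GRAMStmt) (hE : REGgStmt) (hFl : FlatStmt) (hF : F.Ok)
    (h : TopIn d 𝒯 a C0 e p q α) : ∃ C : ℝ, Qs 𝒯 fun e1 B i w => ∃ Ω,
      Ver (F.J i) (F.y i) e1 (C * nrm w) B (q i * w) (grad fun x => w ⬝ᵥ R.ev d.ψ ⟨i, x⟩) Ω ∧
      (E.mean (F.w i) fun x => Ω x ⬝ᵥ (Dg (F.J i) (F.y i) x * Ω x)) ≤
        2 * C0 * (w ⬝ᵥ (p i * w)) + B := by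
  have hR := h.net
  have hΓ := h.drift.1
  have hl := K71.let_grad hR d.Γ h.top h.top.2.2
  obtain ⟨C, h1⟩ := hE F N R 𝒯 d.Γ d.ψ hF hR h.ty hΓ h.top h.bψ
  have h2 := flat_qs hFl hF hR hΓ.1 hl h.bψ h.hq
    (U' := fun i w x => grad (fun z => w ⬝ᵥ R.ev d.ψ ⟨i, z⟩) x) h1
  have h3 := gram_qs hG hF hR hΓ.1 hΓ.1 (K71.D_mem hR) h.pD hl hl h.bψ h.bψ
  refine ⟨C, Qs.imp hF ((mo_fl _ _ _ _).and ((mo_abs _).and (mo_le _)))
    (fun _ _ _ _ _ hB ⟨Ω, a1, a2⟩ => ⟨Ω, Ver.mono a1 le_rfl le_rfl hB, by linarith⟩)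
    (Qs.and hF (mo_fl _ _ _ _) ((mo_abs _).and (mo_le _)) h2
      (Qs.and hF (mo_abs _) (mo_le _) h3 (le_qs h.eψ)))
    fun e1 he => ⟨e1 / 8, by positivity, 1, one_pos, 8, 0, by norm_num, by linarith,
      Eventually.of_forall fun i w B _ _ ⟨⟨Ω, a1, a2, _⟩, a3, a4⟩ => ?_⟩⟩
  have b0 := Exc.nonneg (wpos F i) a2
  refine ⟨Ω, Ver.mono a1 (by linarith) le_rfl (by linarith), ?_⟩
  have b1 := Exc.mean (wpos F i) a2 fun x => nrm_nonneg _
  have b3 := (isP F i).mean_mono fun x => qd_le (Dg_mem (F.J i) (F.y i) x) (Ω x)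
    ((d.Γ.tT (R.gs d.ψ) (fun m => R.pd m d.ψ) ⟨i, x⟩)ᵀ *ᵥ w) (Ω x)
  simp only [sub_self, nrm_sq 0, dotProduct_zero, mul_zero, add_zero] at b3
  rw [mean_add', mean_const_mul, mean_const_mul] at b3
  simp only [K71.D_eq hR] at a3
  have b4 := (abs_le.1 a3).2
  have b5 : (w * w) ⬝ᵥ (C0 • p i) = C0 * (w ⬝ᵥ (p i * w)) := by
    simp only [dotProduct, mul_sum, Pi.mul_apply, Pi.smul_apply, smul_eq_mul]
    exact sum_congr rfl fun k _ => by ring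
  rw [b5] at a4
  rw [emean_eq]
  linarith

/-- the regular version of the flow and the response -/
theorem vf_field (hH : HBStmt) (hJ : J1Stmt) (hE : REGStmt) (hFl : FlatStmt) (hF : F.Ok)
    (h : TopIn d 𝒯 a C0 e p q α) : ∃ C : ℝ, (Qs 𝒯 fun e1 B i w => ∃ Ω,
      Ver (F.J i) (F.y i) e1 (C * nrm w) B (q i * w)
        (fun x => (d.Φ.tTb (R.gs d.ψ) d.t ⟨i, x⟩)ᵀ *ᵥ w) Ω) ∧
      Qs 𝒯 fun e1 B i w => ∀ z ν, IsP ν → |mean ν fun x => z ⬝ᵥ (Dg (F.J i) (F.y i) x *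
        (d.Φ.tTb (R.gs d.ψ) d.t ⟨i, x⟩)ᵀ *ᵥ w - q i * w)| ≤ e1 * (z ⬝ᵥ z + F.H i ν) + B := by
  have hR := h.net
  have hl := K71.let_grad hR d.Φ h.top h.tC
  obtain ⟨C, h1⟩ := hE F N P R 𝒯 d.Φ _ _ hF hR h.ty h.flow hl h.bt
  have h2 := flat_qs hFl hF hR h.flow hl h.bt h.hq
    (U' := fun i w x => (d.Φ.tTb (R.gs d.ψ) d.t ⟨i, x⟩)ᵀ *ᵥ w) h1
  refine ⟨C, fun e1 he => ?_, ?_⟩
  · obtain ⟨η, η0, D, hD, C1, H⟩ := h2 e1 he
    exact ⟨η, η0, D, hD, C1, H.mono fun i b w hw => let ⟨Ω, b1, _⟩ := b w hw; ⟨Ω, b1⟩⟩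
  obtain ⟨K, c, hb⟩ := hb_ok hH hF
  obtain ⟨CD, hCD⟩ := ((hJ F N R hF hR).2.2.2.1 _
    ((hJ F N R hF hR).2.2.1 _ (K71.D_mem hR))).1
  have K0 := hb.C0
  refine Qs.imp hF (mo_fl _ _ _ _) (fun _ _ _ _ _ hB H z ν hν => (H z ν hν).trans (by linarith)) h2
    fun e1 he => ?_
  set S := √|12 * K * (1 + 3 * |CD|) ^ 2| with hS
  have S0 : 0 ≤ S := Real.sqrt_nonneg _
  obtain ⟨ε, p1, q1, q2, r1⟩ := ex_acc (by positivity : 0 < e1 / 3)
    (by positivity : 0 ≤ 1 + 6 / e1 + S + 3 * K / e1)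
  have u1 : 0 ≤ 6 / e1 * ε := by positivity
  have u2 : 0 ≤ S * ε := by positivity
  have u3 : 0 ≤ 3 * K / e1 * ε := by positivity
  refine ⟨ε, p1, 1, one_pos, 1 + 6 / e1, e1, by positivity, by linarith,
    Eventually.of_forall fun i w B _ _ ⟨Ω, ⟨a0, a1, _⟩, _, a3⟩ z ν hν => ?_⟩
  have H0 := H_nonneg i hν
  have z0 := Hb.dsn z
  set U : Cube (F.n i) → V (F.n i) := fun x => (d.Φ.tTb (R.gs d.ψ) d.t ⟨i, x⟩)ᵀ *ᵥ w with hU
  set D := Dg (F.J i) (F.y i) with hD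
  have b1 : |mean ν fun x => z ⬝ᵥ (D x * (U x - Ω x))| ≤
      e1 / 3 * (z ⬝ᵥ z) + (2 * B + K * ε * (F.H i ν + 1)) / (e1 / 3) := by
    refine (abs_mean_le hν _).trans ((hν.mean_mono (g := fun x => e1 / 3 * (z ⬝ᵥ z) +
      nrm (U x - Ω x) ^ 2 * (e1 / 3)⁻¹) fun x => ?_).trans ?_)
    · refine (abs_dot_le _ _).trans ((young (by positivity : 0 < e1 / 3)).trans ?_)
      rw [nrm_sq, ← div_eq_mul_inv]
      refine add_le_add le_rfl (div_le_div_of_nonneg_right ?_ (by positivity))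
      rw [nrm_sq, nrm_sq]
      refine sum_le_sum fun k _ => ?_
      have := Dg_mem (F.J i) (F.y i) x k
      rw [Pi.mul_apply, mul_mul_mul_comm]
      exact mul_le_of_le_one_left (mul_self_nonneg _) (mul_le_one₀ this.2 this.1 this.2)
    · rw [mean_add', hν.mean_const, mean_mul_const, ← div_eq_mul_inv]
      exact add_le_add le_rfl (div_le_div_of_nonneg_right
        (hb.exc (fun x => nrm_nonneg _) a1 hν) (by positivity))
  have b2 : |mean ν (fun x => z ⬝ᵥ (D x * Ω x)) - mean (prob (F.w i)) fun x => z ⬝ᵥ (D x * Ω x)| ≤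
      S * (ε * nrm z) * √(F.H i ν + 1) := by
    refine abs_le_of_sq (mul_nonneg p1.le (nrm_nonneg _)) (by linarith)
      ((hb.t1 (TS.of_grad (A := ((1 + 3 * |CD|) * ε * nrm z) ^ 2) fun x => ?_) hν).trans_eq
        (by ring))
    rw [← nrm_sq, grad_dot]
    refine pow_le_pow_left₀ (nrm_nonneg _) ((nrm_mulVec_le _ _).trans
      (mul_le_mul_of_nonneg_right ?_ (nrm_nonneg _))) 2
    have c1 : opn (jac D x) ≤ |CD| := by
      have := (hCD ⟨i, x⟩).trans (le_abs_self _)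
      simpa only [Fam.jc, K71.D_eq hR] using this
    rw [opn_transpose]
    refine (S3F.opn_jac_mul zero_le_one p1.le (fun k => ?_)
      fun k => (norm_le_pi_norm (Ω x) k).trans (a0 x).1).trans ?_
    · have := Dg_mem (F.J i) (F.y i) x k
      rw [abs_of_nonneg this.1]; exact this.2
    · have c2 := (a0 x).2.1
      have c3 := mul_le_mul (add_le_add (le_refl (1 : ℝ)) c1) c2 (opn_nonneg _) (by positivity)
      have c4 := mul_le_mul (add_le_add (le_refl ε) c2) c1 (opn_nonneg _) (by positivity)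
      linarith
  have b3 : S * (ε * nrm z) * √(F.H i ν + 1) ≤ e1 / 3 * (z ⬝ᵥ z + (F.H i ν + 1)) := by
    have c1 : nrm z * √(F.H i ν + 1) ≤ z ⬝ᵥ z + (F.H i ν + 1) := by
      nlinarith [sq_nonneg (nrm z - √(F.H i ν + 1)), nrm_sq z,
        Real.sq_sqrt (by linarith : 0 ≤ F.H i ν + 1)]
    calc _ = S * ε * (nrm z * √(F.H i ν + 1)) := by ring
      _ ≤ _ := mul_le_mul (by linarith) c1 (mul_nonneg (nrm_nonneg _) (Real.sqrt_nonneg _))
        (by positivity)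
  have b4 : (2 * B + K * ε * (F.H i ν + 1)) / (e1 / 3) =
      6 / e1 * B + 3 * K / e1 * ε * (F.H i ν + 1) := by field_simp; ring
  have b5 : 3 * K / e1 * ε * (F.H i ν + 1) ≤ e1 / 3 * (F.H i ν + 1) :=
    mul_le_mul_of_nonneg_right (by linarith) (by linarith)
  have b6 := a3 z
  have b7 := mul_le_mul_of_nonneg_right q2 z0
  have b8 := mul_le_mul_of_nonneg_left (hF.K1 i) he.le
  have b9 := mul_nonneg he.le H0
  have e2 : (fun x => z ⬝ᵥ (D x * U x - q i * w)) =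
      fun x => z ⬝ᵥ (D x * (U x - Ω x)) + z ⬝ᵥ (D x * Ω x) - z ⬝ᵥ (q i * w) := by
    funext x; rw [mul_sub, dotProduct_sub, dotProduct_sub, sub_add_cancel]
  simp only [dotProduct_sub] at b6
  rw [mean_sub', (isP F i).mean_const] at b6
  rw [e2, mean_sub', mean_add', hν.mean_const, abs_le]
  have c1 := abs_le.1 b1
  have c2 := abs_le.1 b2
  have c3 := abs_le.1 b6
  constructor <;> linarith [c1.1, c1.2, c2.1, c2.2, c3.1, c3.2]

end An90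

open An90 in
theorem ansFGlue : AnsFGlue := fun hH hC hJ hL hG hE' hE hO hFl K0 κ0 RJ hκ => by
  obtain ⟨C, c, hb⟩ := hb_unif hH K0 κ0 RJ hκ
  refine ⟨7 + 2 * C, fun F hF hA N P R d 𝒯 a C0 e p q α _ he _ h => ?_⟩
  have hb := hb F hF (fun i => (hA i).1) fun i => (hA i).2
  have hR := h.net
  have c0 := hb.C0
  have hT := ((hJ F N R hF hR).2.2.2.2 P _ h.flow).2 _ _ (K71.let_grad hR d.Φ h.top h.tC)
  obtain ⟨C1, h1⟩ := ((hJ F N R hF hR).2.2.2.1 _ h.top).1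
  obtain ⟨C2, h2⟩ := hT.2.1
  obtain ⟨C3, c3, h3⟩ := dv_field hH hC hJ hL hF h
  obtain ⟨C4, h4⟩ := vg_field hG hE hFl hF h
  obtain ⟨C5, h5, h6⟩ := vf_field hH hJ hE' hFl hF h
  have h7 := gf_field (C' := 7 + 2 * C) (by linarith) he.le hG hE' hE hF h
  have h8 := eq_field (C' := 7 + 2 * C) hb (by linarith) he hC hJ hL hG hE hO hF h
  have h9 := en_field hG hE hF h
  have H := Qs.and hF (Mo.and ?m4 ?m5) (Mo.and (Mo.and ?m6 ?m7) (Mo.and ?m8 ?m9))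
    (Qs.and hF ?m4 ?m5 h4 h5) (Qs.and hF (Mo.and ?m6 ?m7) (Mo.and ?m8 ?m9)
      (Qs.and hF ?m6 ?m7 h6 h7) (Qs.and hF ?m8 ?m9 h8 h9))
  case m4 => exact fun _ _ _ _ _ hB ⟨Ω, a1, a2⟩ => ⟨Ω, Ver.mono a1 le_rfl le_rfl hB, by linarith⟩
  case m5 => exact fun _ _ _ _ _ hB ⟨Ω, a1⟩ => ⟨Ω, Ver.mono a1 le_rfl le_rfl hB⟩
  case m6 => exact fun _ _ _ _ _ hB H z ν hν => (H z ν hν).trans (by linarith)
  case m7 => exact fun _ _ _ _ _ hB H => Exc.mono H le_rfl (by linarith) fun _ => le_rfl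
  case m8 => exact fun _ _ _ _ _ hB H ν hν G hG => (H ν hν G hG).trans (by linarith)
  case m9 => exact fun _ _ _ _ _ hB H => H.trans (by linarith)
  have a1 := abs_nonneg C1
  have a2 := abs_nonneg C2
  have a4 := abs_nonneg C4
  have a5 := abs_nonneg C5
  refine ⟨|C1| + |C2| + C3 + |C4| + |C5|, R.ev d.ψ, d.Φ.tTb (R.gs d.ψ) d.t, fun e1 he1 => ?_⟩
  obtain ⟨η, η0, D, hD, C6, H⟩ := H e1 he1
  refine ⟨η, η0, D, hD, C6, H.mono fun i b => ⟨hT.2.2 i, fun x => (h1 ⟨i, x⟩).trans ?_,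
    fun x => (h2 ⟨i, x⟩).trans ?_, fun w ν hν => (h3 i w ν hν).trans ?_, fun w hw => ?_,
    fun w hw => ?_, fun w hw => (b w hw).2.1.2, fun w hw => (b w hw).2.2.1,
    fun w hw => (b w hw).2.1.1, fun w hw => (b w hw).2.2.2⟩⟩
  · linarith [le_abs_self C1]
  · linarith [le_abs_self C2]
  · exact mul_le_mul_of_nonneg_right (mul_le_mul_of_nonneg_right (by linarith) (nrm_nonneg _))
      (Real.sqrt_nonneg _)
  · obtain ⟨Ω, b1, b2⟩ := (b w hw).1.1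
    exact ⟨Ω, Ver.mono b1 le_rfl (mul_le_mul_of_nonneg_right (by linarith [le_abs_self C4])
      (nrm_nonneg _)) le_rfl, b2⟩
  · obtain ⟨Ω, b1⟩ := (b w hw).1.2
    exact ⟨Ω, Ver.mono b1 le_rfl (mul_le_mul_of_nonneg_right (by linarith [le_abs_self C5])
      (nrm_nonneg _)) le_rfl⟩

end Crest.Agent.T157.S3

end
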