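import Crest.Agent.T157.S3Ans_69
import Crest.Agent.T157.S3J1_82
import Crest.Agent.T157.S3Gr_7
import Crest.Agent.T157.S3Dg_98
import Crest.Agent.T157.S3Bil_89
import Crest.Agent.T157.Xtr_25

/-!
# Row 157, part B, block S3 (helper82): flatness of `J (D Ω - q w)`
-/

set_option autoImplicit false

noncomputable section

namespace Crest.Agent.T157.S3

open Matrix Filter Finset
open Crest.Agent.T157.E (Cube mean meanV prob)
open Crest.Agent.T157.Rec (grad fl)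
open Crest.Agent.T157.Eig
open Crest.Agent.T157.Chain22 (IsP)
open Crest.Agent.T157.S3F
open Crest.Agent.T157.S3W (Cx)
open Gr7 (diag_mulVec abs_mean_le' mean_sum' mean_const_mul)
open Gm7 (isP Pi_nonneg Pi_append ev_bd)
open Fam

namespace Fl82

section inst
variable {n : ℕ} {μ : Cube n → ℝ}

lemma madd (f g : Cube n → ℝ) : mean μ (fun x => f x + g x) = mean μ f + mean μ g :=
  Chain22.mean_add _ _ _
lemma msub (f g : Cube n → ℝ) : mean μ (fun x => f x - g x) = mean μ f - mean μ g :=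
  Chain22.mean_sub _ _ _
lemma mmul (r : ℝ) (g : Cube n → ℝ) : mean μ (fun x => r * g x) = r * mean μ g :=
  mean_const_mul _ _
lemma msum {σ : Type*} (t : Finset σ) (g : σ → Cube n → ℝ) :
    mean μ (fun x => ∑ j ∈ t, g j x) = ∑ j ∈ t, mean μ (g j) := mean_sum' _ _

lemma mean_dot (z : V n) (u : Cube n → V n) :
    (mean μ fun x => z ⬝ᵥ u x) = z ⬝ᵥ meanV μ u :=
  (msum _ _).trans (sum_congr rfl fun _ _ => mmul _ _)

lemma mean_le_sqrt (h : IsP (prob μ)) {G : Cube n → ℝ} {B : ℝ}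
    (hB : (mean μ fun x => G x ^ 2) ≤ B) : mean μ G ≤ √B :=
  Real.le_sqrt_of_sq_le ((h.mean_sq_le G).trans (le_trans (le_of_eq
    (sum_congr rfl fun x _ => by simp only [sq])) hB))

lemma exc_mono {e e' B B' : ℝ} {g : Cube n → ℝ} (h : Exc μ e B g) (he : e ≤ e') (hB : B ≤ B') :
    Exc μ e' B' g :=
  let ⟨G, h1, h2, h3, h4⟩ := h; ⟨G, h1, h2, fun x => (h3 x).trans he, h4.trans hB⟩

lemma ex_le {e : ℝ} (he : 0 < e) (a m : ℝ) :
    max (|a| - e) 0 ^ 2 ≤ 2 / e ^ 2 * (a - m) ^ 4 + 2 * m ^ 2 := by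
  have h1 : |a| ≤ |a - m| + |m| := by simpa using abs_add_le (a - m) m
  have h2 : |a - m| - e ≤ (a - m) ^ 2 / e := by
    rw [le_div_iff₀ he, ← sq_abs]; nlinarith [sq_nonneg (|a - m| - e), abs_nonneg (a - m)]
  have h3 : 0 ≤ (a - m) ^ 2 / e := by positivity
  have h4 : max (|a| - e) 0 ≤ (a - m) ^ 2 / e + |m| :=
    max_le (by linarith) (add_nonneg h3 (abs_nonneg _))
  have h5 := pow_le_pow_left₀ (le_max_right _ _) h4 2
  have h6 : 2 / e ^ 2 * (a - m) ^ 4 = 2 * ((a - m) ^ 2 / e) ^ 2 := by field_simp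
  rw [h6, ← sq_abs m]
  nlinarith [sq_nonneg ((a - m) ^ 2 / e - |m|)]

/-- a field with small Jacobian and small mean is flat -/
lemma flat (hμ : IsP (prob μ)) {u : Cube n → V n} {δ h B C ε e ρ : ℝ} (he : 0 < e) (hρ : 0 < ρ)
    (h0 : 0 ≤ h) (hC : 0 ≤ C) (hop : ∀ x, opn (jac u x) ≤ δ) (hhs : ∀ x, hsJ u x ≤ h ^ 2)
    (hm : nrm (meanV μ u) ≤ B)
    (H : ∀ (G : Cube n → ℝ) (A : ℝ), TS A G → (mean μ fun x => (G x - mean μ G) ^ 4) ≤
      C * A * (mean μ fun x => grad G x ⬝ᵥ grad G x) + C * A ^ 2 * ε) :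
    Exc μ ((4 * δ + 4 * δ * h / ρ) ^ 2) (2 / e ^ 2 * (C * (4 * δ ^ 2) * h ^ 2 +
      n * (C * (4 * δ ^ 2) ^ 2 * ε)) + 2 * B ^ 2 + ρ ^ 2) fun x => exs e (u x) := by
  have hL := Xt.lip2_exc (u := u) he.le hρ hop fun x => Rg.fro_le_of_sq h0 (hhs x)
  have s0 : ∀ x, 0 ≤ Rg.exc e (u x) + ρ ^ 2 := fun x =>
    add_nonneg (Rg.exc_nonneg _ _) (sq_nonneg _)
  refine ⟨_, fun x => Real.le_sqrt_of_sq_le ?_, fun x => Real.sqrt_nonneg _,
    (Xt.lip2_iff hL.nn).1 hL, ?_⟩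
  · exact (Rg.nrm_sq' _).trans_le (le_add_of_nonneg_right (sq_nonneg _))
  have h1 : ∀ k, (mean μ fun x => (u x k - meanV μ u k) ^ 4) ≤ C * (4 * δ ^ 2) *
      (mean μ fun x => ∑ j, jac u x k j ^ 2) + C * (4 * δ ^ 2) ^ 2 * ε := fun k => by
    have := H (fun x => u x k) (4 * δ ^ 2) fun x => by
      rw [J82.ts_eq (fun x => u x k)]
      have := (row_sq_le (jac u x) k).trans (pow_le_pow_left₀ (opn_nonneg _) (hop x) 2)
      simp only [jac_apply, sq] at this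
      rw [dotProduct, sq]
      linarith
    simp only [dotProduct, ← sq] at this
    exact this
  have h2 := sum_le_sum fun k (_ : k ∈ univ) => h1 k
  rw [sum_add_distrib, ← mul_sum, ← msum, ← msum, sum_const, card_univ, Fintype.card_fin,
    nsmul_eq_mul] at h2
  have h3 : (mean μ fun x => ∑ k, ∑ j, jac u x k j ^ 2) ≤ h ^ 2 :=
    (hμ.mean_mono hhs).trans_eq (hμ.mean_const _)
  have h4 := mul_le_mul_of_nonneg_left h3 (by positivity : 0 ≤ C * (4 * δ ^ 2))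
  have h5 := pow_le_pow_left₀ (nrm_nonneg _) hm 2
  rw [Rg.nrm_sq'] at h5
  have h6 : (mean μ fun x => √(Rg.exc e (u x) + ρ ^ 2) ^ 2) ≤ mean μ fun x =>
      2 / e ^ 2 * ∑ k, (u x k - meanV μ u k) ^ 4 + (2 * ∑ k, meanV μ u k ^ 2 + ρ ^ 2) :=
    hμ.mean_mono fun x => by
      rw [Real.sq_sqrt (s0 x), ← add_assoc, mul_sum, mul_sum, ← sum_add_distrib]
      exact add_le_add (sum_le_sum fun k _ => ex_le he _ _) le_rfl
  rw [madd, mmul, show (mean μ fun _ => _) = _ from hμ.mean_const _] at h6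
  have h7 := mul_le_mul_of_nonneg_left (h2.trans (add_le_add h4 le_rfl))
    (by positivity : 0 ≤ 2 / e ^ 2)
  linarith

lemma abs_Dg (J : Mx n) (y : V n) (x : Cube n) (k : Fin n) : |Dg J y x k| ≤ 1 := by
  have := Real.tanh_sq_lt_one (hf J y x k)
  rw [Dg, abs_le]; constructor <;> nlinarith [sq_nonneg (Real.tanh (hf J y x k))]

lemma expand {P : ℕ} (z w d al q : V n) (a b : Fin P → V n) (Y : Fin P → Mx n)
    (Ω : Fin P → Fin P → Mx n) (h : ∀ l, Y l = ∑ m, Ω l m * diagonal (b m)) :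
    z ⬝ᵥ (d * (diagonal al + ∑ m, diagonal (a m) * Y m)ᵀ *ᵥ w - q * w) =
      (z * w) ⬝ᵥ (d * al - q) + ∑ l, ∑ m, (w * a l) ⬝ᵥ Ω l m *ᵥ (z * (b m * d)) := by
  have t : ∀ (Y : Mx n) (u v : V n), u ⬝ᵥ Y *ᵥ v = v ⬝ᵥ Yᵀ *ᵥ u := fun Y u v => by
    rw [mulVec_transpose, dotProduct_mulVec, dotProduct_comm]
  have e2 : ∀ b u : V n, z ⬝ᵥ (d * (b * u)) = (z * (b * d)) ⬝ᵥ u := fun b u =>
    sum_congr rfl fun k _ => by simp only [Pi.mul_apply]; ring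
  have e1 : (z * (al * d)) ⬝ᵥ w - z ⬝ᵥ (q * w) = (z * w) ⬝ᵥ (d * al - q) := by
    simp only [dotProduct, ← sum_sub_distrib, Pi.mul_apply, Pi.sub_apply]
    exact sum_congr rfl fun k _ => by ring
  simp only [h, transpose_add, transpose_sum, transpose_mul, diagonal_transpose, add_mulVec,
    sum_mulVec, ← mulVec_mulVec, diag_mulVec, mul_add, mul_sum, dotProduct_sub,
    dotProduct_add, dotProduct_sum, t (Ω _ _), mul_comm w (a _), e2, ← e1]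
  ring

end inst

variable {F : Fam} {N : ℕ} {R : Net F N} {𝒯 : Set F.Df} {f g : ∀ i, V (F.n i) → V (F.n i) → ℝ}

/-- bilinear errors `|z| (e |w| + C √K |w|_∞ + C |Π w|)` -/
def Bz (𝒯 : Set F.Df) (f : ∀ i, V (F.n i) → V (F.n i) → ℝ) : Prop := ∀ e > (0 : ℝ),
  ∃ D : List F.Df, (∀ t ∈ D, t ∈ 𝒯) ∧ ∃ C : ℝ, ∀ᶠ i in F.l, ∀ z w : V (F.n i),
    |f i z w| ≤ nrm z * (e * nrm w + C * √(F.K i) * ‖w‖ + C * Fam.Pi D i w)

lemma Bz.add (hf : Bz 𝒯 f) (hg : Bz 𝒯 g) : Bz 𝒯 fun i z w => f i z w + g i z w := by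
  intro e he
  obtain ⟨D, d1, C, d2⟩ := hf (e / 2) (by positivity)
  obtain ⟨D', e1, C', e2⟩ := hg (e / 2) (by positivity)
  refine ⟨D ++ D', List.forall_mem_append.2 ⟨d1, e1⟩, |C| + |C'|, ?_⟩
  filter_upwards [d2, e2] with i d2 e2 z w
  have p1 := Pi_nonneg D i w
  have p2 := Pi_nonneg D' i w
  have k0 : 0 ≤ √(F.K i) * ‖w‖ := by positivity
  refine (abs_add_le _ _).trans ((add_le_add (d2 z w) (e2 z w)).trans ?_)
  rw [← mul_add, Pi_append]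
  refine mul_le_mul_of_nonneg_left ?_ (nrm_nonneg _)
  linarith [mul_le_mul_of_nonneg_right (le_abs_self C) k0, mul_nonneg (abs_nonneg C) p2,
    mul_le_mul_of_nonneg_right (le_abs_self C') k0, mul_nonneg (abs_nonneg C') p1,
    mul_le_mul_of_nonneg_right (le_abs_self C) p1, mul_le_mul_of_nonneg_right (le_abs_self C') p2]

lemma Bz.of_unif (H : ∀ e > (0 : ℝ), ∃ C : ℝ, ∀ᶠ i in F.l, ∀ z w,
    |f i z w| ≤ nrm z * (e * nrm w + C * √(F.K i) * ‖w‖)) : Bz 𝒯 f := fun e he =>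
  let ⟨C, H⟩ := H e he
  ⟨[], by simp, C, H.mono fun i hi z w => by simpa [Fam.Pi] using hi z w⟩

lemma Bz.zero : Bz 𝒯 fun _ _ _ => 0 := .of_unif fun e he => ⟨0, .of_forall fun i z w => by
  have := nrm_nonneg z; have := nrm_nonneg w; rw [abs_zero]; positivity⟩

lemma Bz.congr (hf : Bz 𝒯 f) (H : ∀ i z w, g i z w = f i z w) : Bz 𝒯 g :=
  (funext₃ H : g = f) ▸ hf

lemma Bz.sum {σ : Type*} (t : Finset σ) {f : σ → ∀ i, V (F.n i) → V (F.n i) → ℝ}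
    (hf : ∀ j ∈ t, Bz 𝒯 (f j)) : Bz 𝒯 fun i z w => ∑ j ∈ t, f j i z w := by
  classical
  induction t using Finset.induction_on with
  | empty => simpa using Bz.zero
  | insert j t hj ih =>
    simp only [sum_insert hj]
    exact (hf j (mem_insert_self _ _)).add (ih fun k hk => hf k (mem_insert_of_mem hk))

/-- the bilinear form of a matrix family -/
def bz (R : Net F N) (ρ ρ' : F.Lf (N + 1)) (A : F.Mf) (i : F.I) (z w : V (F.n i)) : ℝ :=
  mean (F.w i) fun x => (w * R.ev ρ ⟨i, x⟩) ⬝ᵥ A ⟨i, x⟩ *ᵥ (z * R.ev ρ' ⟨i, x⟩)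

variable {ρ ρ' : F.Lf (N + 1)}

lemma bz_ws (hF : F.Ok) (hb : Bil R 𝒯 (R.ev ρ)) (h2 : ρ' ∈ R.C) :
    ∀ {L : List (List (F.Lf (N + 1)))}, (∀ u ∈ L, ∀ a ∈ u, a ∈ R.C) →
      Bz 𝒯 (bz R ρ ρ' fun ω => (L.map fun u => R.W u ω).sum)
  | [], _ => Bz.zero.congr fun i z w => by simp [bz, mean]
  | u :: L, h => by
    refine (Bz.add (hb ρ' u.reverse h2 fun a ha => (List.forall_mem_cons.1 h).1 a
      (List.mem_reverse.1 ha)) (bz_ws hF hb h2 (List.forall_mem_cons.1 h).2)).congr fun i z w => ?_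
    rw [bz, bz, ← madd]
    refine congrArg (mean (F.w i)) (funext fun x => ?_)
    rw [List.map_cons, List.sum_cons, add_mulVec, dotProduct_add, Net.W, Net.W, List.map_reverse,
      ← (Uw.rev (hF.symm i) _).1, mulVec_transpose, dotProduct_mulVec, dotProduct_comm]

lemma bz_tp (hc : ClsStmt) (hF : F.Ok) (hR : R.Ok) (hx : R.cx.Ok) (h1 : ρ ∈ R.C) (h2 : ρ' ∈ R.C)
    {A : R.cx.MF} (hA : R.cx.TP A) : Bz 𝒯 (bz R ρ ρ' A) := by
  obtain ⟨C, hC⟩ := (hc F hF).2.2.2.1 _ (Dg98.tp_op hx hA)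
  obtain ⟨c, c0, k1⟩ := ev_bd hR h1
  obtain ⟨c', c0', k2⟩ := ev_bd hR h2
  refine .of_unif fun e he => ⟨0, ?_⟩
  have hη : 0 < e / (c * c' + 1) := by positivity
  filter_upwards [Bil89.small hF C hη] with i hi z w
  have n0 := Bil89.n_pos hF i
  have m1 := hC i _ (isP i)
  rw [Fam.H, Ent.kl_self, add_zero] at m1
  replace m1 := (mean_const_mul (F.n i) fun x => opn (A ⟨i, x⟩) ^ 2).symm.trans_le m1
  have m2 : (mean (F.w i) fun x => opn (A ⟨i, x⟩)) ≤ e / (c * c' + 1) := by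
    refine (mean_le_sqrt (isP i) (B := C * F.K i / F.n i) ((le_div_iff₀' n0).2 m1)).trans ?_
    rwa [Real.sqrt_div' _ n0.le, div_le_iff₀ (Real.sqrt_pos.2 n0)]
  have z0 := nrm_nonneg z
  have w0 := nrm_nonneg w
  refine (abs_mean_le' (isP i) (g := fun x => c * nrm w * (c' * nrm z) * opn (A ⟨i, x⟩))
    fun x => (abs_bil_le _ _ _).trans ?_).trans ?_
  · rw [mul_comm]
    exact mul_le_mul_of_nonneg_right (mul_le_mul (Gr7.nrm_mul_le c0 (k1 ⟨i, x⟩))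
      (Gr7.nrm_mul_le c0' (k2 ⟨i, x⟩)) (nrm_nonneg _) (by positivity)) (opn_nonneg _)
  · rw [mean_const_mul]
    refine (mul_le_mul_of_nonneg_left m2 (by positivity)).trans ?_
    rw [← mul_div_assoc, div_le_iff₀ (by positivity)]
    linarith [mul_nonneg (mul_nonneg z0 w0) he.le]

lemma Dg_eq (hR : R.Ok) (i : F.I) (x : Cube (F.n i)) : Dg (F.J i) (F.y i) x = R.ev R.D ⟨i, x⟩ := by
  funext k
  simp only [Dg, Net.ev, Net.D, Net.th, Pi.sub_apply, Pi.mul_apply, Pi.one_apply, hR.X0, sq,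
    add_sub_cancel]

/-- the mean of `D Tᵀ w - q w` -/
lemma bz_top (hc : ClsStmt) (hw : WXStmt) (hF : F.Ok) (hR : R.Ok) (hx : R.cx.Ok) {P : ℕ}
    {Φ : Flow R P} (hΦ : Φ.Ok) {al : F.Lf (N + 1)} {a : Fin P → F.Lf (N + 1)} (hl : Φ.Let al a)
    (hb : ∀ m, Bil R 𝒯 (R.ev (a m))) {q : F.Df}
    (hq : Neg fun i => F.EV (R.ev (R.D * al)) i - q i) : Bz 𝒯 fun i z w => mean (F.w i) fun x =>
      z ⬝ᵥ (Dg (F.J i) (F.y i) x * (Φ.tT al a ⟨i, x⟩)ᵀ *ᵥ w - q i * w) := by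
  obtain ⟨Ω, L, a1, a2⟩ := (hw F N P R Φ hF hR hΦ).1
  have hd := fun m => hR.mul _ (hΦ.lt m).1 _ (Bil89.D_mem hR)
  have s1 : Bz 𝒯 fun i z w => (z * w) ⬝ᵥ (F.EV (R.ev (R.D * al)) i - q i) := by
    refine .of_unif fun e he => ?_
    obtain ⟨C, hC⟩ := hq e he
    refine ⟨√|C|, hC.mono fun i hi z w => ?_⟩
    have e1 : (z * w) ⬝ᵥ (F.EV (R.ev (R.D * al)) i - q i) =
        z ⬝ᵥ (w * (F.EV (R.ev (R.D * al)) i - q i)) := sum_congr rfl fun k _ => mul_assoc _ _ _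
    rw [e1]
    refine (abs_dot_le _ _).trans (mul_le_mul_of_nonneg_left ((S3B.nrm_mul_ex (norm_nonneg w)
      (norm_le_pi_norm w) he.le _).trans (add_le_add le_rfl ?_)) (nrm_nonneg _))
    rw [mul_comm, ← Real.sqrt_mul (abs_nonneg _)]
    exact mul_le_mul_of_nonneg_right (Real.sqrt_le_sqrt (le_trans hi (mul_le_mul_of_nonneg_right
      (le_abs_self C) (zero_le_one.trans (hF.K1 i))))) (norm_nonneg _)
  refine (s1.add (Bz.sum univ fun l _ => Bz.sum univ fun m _ =>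
    (bz_tp hc hF hR hx (hl.2.2 l) (hd m) (a1 l m).2).add
      (bz_ws hF (hb l) (hd m) (a1 l m).1))).congr fun i z w => ?_
  have e := fun x => expand z w (R.ev R.D ⟨i, x⟩) (R.ev al ⟨i, x⟩) (q i) (fun m => R.ev (a m) ⟨i, x⟩)
    (fun m => R.ev (Φ.al m) ⟨i, x⟩) _ (fun l m => Ω l m ⟨i, x⟩)
    (a2 ⟨i, x⟩ (fun m => R.dg (Φ.al m) ⟨i, x⟩) (fun m => Φ.T m ⟨i, x⟩) (fun m => Φ.Y m ⟨i, x⟩)
      fun m => ⟨rfl, hΦ.hY m _⟩)
  simp only [Dg_eq hR]
  refine (congrArg (mean (F.w i)) (funext e)).trans ?_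
  simp only [madd, msum, bz, sub_mulVec, dotProduct_sub, msub, sub_add_cancel,
    show ∀ c : ℝ, (mean (F.w i) fun _ => c) = c from (isP i).mean_const]
  rw [mean_dot]
  rfl

lemma E0_le (hF : F.Ok) (e C : ℝ) (D D' : List F.Df) (i : F.I) (w : V (F.n i)) :
    E0 e C D i w ≤ e * (w ⬝ᵥ w) + |C| * (F.K i + Fam.Pi (D ++ D') i w ^ 2) := by
  have p1 := Pi_nonneg D i w
  have p2 := Pi_nonneg D' i w
  have h1 : Fam.Pi D i w ^ 2 ≤ Fam.Pi (D ++ D') i w ^ 2 :=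
    pow_le_pow_left₀ p1 (by rw [Pi_append]; linarith) 2
  rw [E0]
  linarith [mul_le_mul_of_nonneg_right (le_abs_self C) (zero_le_one.trans (hF.K1 i)),
    mul_le_mul_of_nonneg_right (le_abs_self C) (sq_nonneg (Fam.Pi D i w)),
    mul_le_mul_of_nonneg_left h1 (abs_nonneg C)]

end Fl82

set_option maxHeartbeats 800000 in
open Fl82 in
theorem flatGlue : FlatGlue := by
  intro hb hc hj hw F N P R 𝒯 Φ al a q hF hR hΦ hl hB hq C0 e he
  obtain ⟨hx, -, h3, h4, -⟩ := hj F N R hF hR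
  obtain ⟨K0, κ0, hκ, hAT⟩ := hF.hAT
  obtain ⟨C', c, c0, hH⟩ := hb K0 κ0 0 hκ
  obtain ⟨r, r0, hr⟩ := Cx.nn (J82.op_J (R := R) hF)
  obtain ⟨A, a0, hA⟩ := Cx.nn (h4 _ (h3 _ (Bil89.D_mem hR))).1
  obtain ⟨M, hM⟩ : ∃ M, M = r * (1 + 3 * A) := ⟨_, rfl⟩
  obtain ⟨M', hM'⟩ : ∃ M', M' = r * (2 * (1 + A)) * |C0| := ⟨_, rfl⟩
  obtain ⟨M'', hM''⟩ : ∃ M'', M'' = M' * (1 + 4 / e) := ⟨_, rfl⟩
  have m0 : 0 ≤ M := by rw [hM]; positivity
  have m1 : 0 ≤ M' := by rw [hM']; positivity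
  have m2 : 0 ≤ M'' := by rw [hM'']; positivity
  obtain ⟨η, η0, η1, η2, η3, η4, η5, η6⟩ : ∃ η > (0 : ℝ), η ≤ 1 ∧ η * (4 * M * (1 + M'')) ≤ 1 ∧
      η * (4 * M * (1 + M'')) ≤ e ∧ η * (32 * |C'| * M ^ 2 * M' ^ 2) ≤ e ^ 3 ∧
      η * (64 * r ^ 2) ≤ e ∧ η * 2 ≤ e ^ 2 := by
    obtain ⟨y, y0, y1, y2, y3, y4⟩ : ∃ y > (0 : ℝ), y ≤ 1 ∧ y ≤ e ∧ y ≤ e ^ 2 ∧ y ≤ e ^ 3 :=
      ⟨min (min 1 e) (min (e ^ 2) (e ^ 3)), by positivity, by simp, by simp, by simp, by simp⟩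
    have z1 : 0 ≤ 4 * M * (1 + M'') := by positivity
    have z2 : 0 ≤ 32 * |C'| * M ^ 2 * M' ^ 2 := by positivity
    have z3 : 0 ≤ 64 * r ^ 2 := by positivity
    generalize 4 * M * (1 + M'') = Z1 at *
    generalize 32 * |C'| * M ^ 2 * M' ^ 2 = Z2 at *
    generalize 64 * r ^ 2 = Z3 at *
    have h1 : y / (2 + Z1 + Z2 + Z3) * (2 + Z1 + Z2 + Z3) = y := div_mul_cancel₀ _ (by positivity)
    have h2 : 0 < y / (2 + Z1 + Z2 + Z3) := by positivity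
    generalize y / (2 + Z1 + Z2 + Z3) = η at *
    have := mul_nonneg h2.le z1
    have := mul_nonneg h2.le z2
    have := mul_nonneg h2.le z3
    refine ⟨η, h2, ?_, ?_, ?_, ?_, ?_, ?_⟩ <;> linarith
  obtain ⟨D', d1, C2, d2⟩ := bz_top hc hw hF hR hx hΦ hl hB hq η η0
  refine ⟨η, η0, D', d1, fun D C => ?_⟩
  obtain ⟨C3, hC3⟩ : ∃ C3, C3 = 4 * (|C| + C2 ^ 2) := ⟨_, rfl⟩
  obtain ⟨C4, hC4⟩ : ∃ C4, C4 = 2 / e ^ 2 * (|C'| * (4 * M ^ 2) ^ 2 * (1 / c)) + 1 := ⟨_, rfl⟩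
  have c3 : 0 ≤ C3 := by rw [hC3]; positivity
  have c4 : 0 ≤ C4 := by rw [hC4]; positivity
  refine ⟨C4 + 2 * r ^ 2 * C3 + C3 / (4 * e), d2.mono fun i d2 w Ω hw hΩ ⟨G, g1, g2, _, g4⟩ => ?_⟩
  have k1 := hF.K1 i
  have w0 := dot_self_nonneg w
  have w1 := nrm_nonneg w
  obtain ⟨S, hS⟩ : ∃ S, S = F.K i + Fam.Pi (D ++ D') i w ^ 2 := ⟨_, rfl⟩
  have s1 : 1 ≤ S := by rw [hS]; linarith [sq_nonneg (Fam.Pi (D ++ D') i w)]
  obtain ⟨B, hBd⟩ : ∃ B, B = √(E0 η C D i w) + (η * nrm w + C2 * √(F.K i) * ‖w‖ +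
    C2 * Fam.Pi D' i w) := ⟨_, rfl⟩
  have hz : ∀ z, |mean (F.w i) fun x => z ⬝ᵥ (Dg (F.J i) (F.y i) x * Ω x - q i * w)| ≤
      nrm z * B := fun z => by
    have e1 : ∀ x, z ⬝ᵥ (Dg (F.J i) (F.y i) x * Ω x - q i * w) =
        z ⬝ᵥ (Dg (F.J i) (F.y i) x * (Φ.tT al a ⟨i, x⟩)ᵀ *ᵥ w - q i * w) -
          z ⬝ᵥ (((Φ.tT al a ⟨i, x⟩)ᵀ *ᵥ w - Ω x) * Dg (F.J i) (F.y i) x) := fun x => by
      rw [← dotProduct_sub]; congr 1; ring
    have e2 := (abs_mean_le' (isP i) (g := fun x => nrm z * G x) fun x => (abs_dot_le z _).trans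
      (mul_le_mul_of_nonneg_left ((Gr7.nrm_mul_le zero_le_one (abs_Dg (F.J i) (F.y i) x)).trans
        ((one_mul _).trans_le (g1 x))) (nrm_nonneg z))).trans ((mean_const_mul _ _).trans_le
          (mul_le_mul_of_nonneg_left (mean_le_sqrt (isP i) g4) (nrm_nonneg z)))
    simp only [e1]
    rw [msub, hBd, mul_add, add_comm]
    exact (abs_sub _ _).trans (add_le_add (d2 z w) e2)
  have hB2 : B ^ 2 ≤ 8 * η * (w ⬝ᵥ w) + C3 * S := by
    have e0 : 0 ≤ E0 η C D i w := ((isP i).mean_nonneg fun x => sq_nonneg _).trans g4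
    have e1 := E0_le hF η C D D' i w
    have e2 : (η * nrm w) ^ 2 ≤ η * (w ⬝ᵥ w) := by
      rw [mul_pow, nrm_sq]; exact mul_le_mul_of_nonneg_right (pow_le_of_le_one η0.le η1 two_ne_zero) w0
    have e3 : (C2 * √(F.K i) * ‖w‖) ^ 2 ≤ C2 ^ 2 * F.K i := by
      rw [mul_pow, mul_pow, Real.sq_sqrt (by linarith)]
      exact mul_le_of_le_one_right (by positivity) (pow_le_one₀ (norm_nonneg _) (hw.trans η1))
    have e4 : (C2 * Fam.Pi D' i w) ^ 2 ≤ C2 ^ 2 * Fam.Pi (D ++ D') i w ^ 2 := by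
      rw [mul_pow, Pi_append]
      exact mul_le_mul_of_nonneg_left (pow_le_pow_left₀ (Pi_nonneg _ _ _)
        (le_add_of_nonneg_left (Pi_nonneg _ _ _)) 2) (sq_nonneg _)
    have e5 := Real.sq_sqrt e0
    rw [hBd, hC3, hS]
    generalize √(E0 η C D i w) = x1 at *
    generalize η * nrm w = x2 at *
    generalize C2 * √(F.K i) * ‖w‖ = x3 at *
    generalize C2 * Fam.Pi D' i w = x4 at *
    linarith [sq_nonneg (x1 - x2), sq_nonneg (x1 - x3), sq_nonneg (x1 - x4), sq_nonneg (x2 - x3),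
      sq_nonneg (x2 - x4), sq_nonneg (x3 - x4)]
  have hE : E0 e (C4 + 2 * r ^ 2 * C3 + C3 / (4 * e)) (D ++ D') i w =
      e * (w ⬝ᵥ w) + (C4 + 2 * r ^ 2 * C3 + C3 / (4 * e)) * S := by rw [E0, hS]; ring
  have p1 : 0 ≤ C4 * S := by positivity
  have p2 : 0 ≤ 2 * r ^ 2 * C3 * S := by positivity
  have p3 : 0 ≤ C3 / (4 * e) * S := by positivity
  rw [hE]
  refine ⟨?_, fun z => (hz z).trans ?_⟩
  swap
  · have e1 : nrm z * B ≤ e * (z ⬝ᵥ z) + B ^ 2 / (4 * e) := by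
      have : 0 ≤ (2 * e * nrm z - B) ^ 2 / (4 * e) := by positivity
      have e0 : (2 * e * nrm z - B) ^ 2 / (4 * e) =
          e * nrm z ^ 2 + B ^ 2 / (4 * e) - nrm z * B := by field_simp; ring
      rw [← nrm_sq]; linarith
    have e2 : B ^ 2 / (4 * e) ≤ e * (w ⬝ᵥ w) + C3 / (4 * e) * S := by
      rw [div_le_iff₀ (by positivity), add_mul, div_mul_eq_mul_div, div_mul_cancel₀ _ (by positivity)]
      linarith [mul_le_mul_of_nonneg_right η6 w0]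
    linarith
  obtain ⟨ρ, ρ0, hρ⟩ : ∃ ρ > (0 : ℝ), ρ ^ 2 = e / 4 * (w ⬝ᵥ w) + 1 :=
    ⟨√(e / 4 * (w ⬝ᵥ w) + 1), by positivity, Real.sq_sqrt (by positivity)⟩
  have jD : ∀ x, opn (jac (Dg (F.J i) (F.y i)) x) ≤ A := fun x => by
    rw [funext (Dg_eq hR i)]; exact hA ⟨i, x⟩
  have hm : nrm (meanV (F.w i) fun x => F.J i *ᵥ (Dg (F.J i) (F.y i) x * Ω x - q i * w)) ≤
      r * B := by
    set m := meanV (F.w i) fun x => F.J i *ᵥ (Dg (F.J i) (F.y i) x * Ω x - q i * w) with hm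
    have e1 := hz ((F.J i)ᵀ *ᵥ m)
    have b0 : 0 ≤ B := by
      have := hz 1
      refine nonneg_of_mul_nonneg_right ((abs_nonneg _).trans this) (Real.sqrt_pos.2 ?_)
      simpa [dotProduct] using hF.pos i
    simp only [mulVec_transpose, ← dotProduct_mulVec] at e1
    rw [mean_dot, ← hm, ← nrm_mul_self, ← mulVec_transpose] at e1
    have e2 := mul_le_mul_of_nonneg_right ((nrm_mulVec_le (F.J i)ᵀ m).trans
      (mul_le_mul_of_nonneg_right ((opn_transpose _).trans_le (hr ⟨i, default⟩)) (nrm_nonneg m))) b0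
    rcases (nrm_nonneg m).eq_or_lt with h | h
    · rw [← h]; positivity
    · exact le_of_mul_le_mul_left (by linarith [le_abs_self (nrm m * nrm m)]) h
  refine exc_mono (flat (isP i) (δ := M * η) (h := M' * nrm w) (C := |C'|)
    (ε := Real.exp (-(c * F.n i))) he ρ0 (by positivity) (abs_nonneg _) (fun x => ?_) (fun x => ?_)
    hm fun G A h => ?_) ?_ ?_
  · rw [jac_mulVec, jac_sub, jac_const, sub_zero, hM, mul_assoc]
    refine Uw.opn_mul_le' (hr ⟨i, x⟩) ((opn_jac_mul zero_le_one η0.le (abs_Dg _ _ x)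
      fun k => (norm_le_pi_norm (Ω x) k).trans (hΩ x).1).trans ?_)
    have e1 := mul_le_mul (add_le_add (le_refl 1) (jD x)) (hΩ x).2.1 (opn_nonneg _) (by positivity)
    have e2 := mul_le_mul (add_le_add (le_refl η) (hΩ x).2.1) (jD x) (opn_nonneg _) (by positivity)
    linarith
  · have e1 : hsJ (fun y => Dg (F.J i) (F.y i) y * Ω y - q i * w) x =
        hsJ (fun y => Dg (F.J i) (F.y i) y * Ω y) x := by simp only [hsJ, jac_sub, jac_const, sub_zero]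
    have e2 := hsJ_mul (u := Ω) (abs_Dg (F.J i) (F.y i)) x
    have e3 := pow_le_pow_left₀ (nrm_nonneg _) (hΩ x).2.2.1 2
    rw [nrm_sq] at e3
    have e4 := mul_le_mul (pow_le_pow_left₀ (opn_nonneg _) (jD x) 2) e3 (dot_self_nonneg _)
      (sq_nonneg _)
    have e5 := (hΩ x).2.2.2
    have e6 := mul_nonneg (by positivity : 0 ≤ 2 + 8 * A + 2 * A ^ 2) (sq_nonneg (C0 * nrm w))
    refine (hsJ_mulVec _ _ x).trans ((mul_le_mul (pow_le_pow_left₀ (opn_nonneg _) (hr ⟨i, x⟩) 2)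
      (show _ ≤ (2 * (1 + A)) ^ 2 * (C0 * nrm w) ^ 2 by rw [e1]; linarith) (hsJ_nonneg _ _)
      (sq_nonneg _)).trans (le_of_eq ?_))
    simp only [hM', mul_pow, sq_abs]; ring
  · have e1 := ((hH _ _ (Bil89.w_pos i) (hAT i)).2.1 G A h).2
    have A0 : 0 ≤ A := (sum_nonneg fun _ _ => sq_nonneg _).trans (h default)
    have e2 : 0 ≤ mean (F.w i) fun x => grad G x ⬝ᵥ grad G x :=
      (isP i).mean_nonneg fun x => dot_self_nonneg _
    linarith [mul_le_mul_of_nonneg_right (le_abs_self C') (mul_nonneg A0 e2),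
      mul_le_mul_of_nonneg_right (le_abs_self C') (mul_nonneg (sq_nonneg A)
        (Real.exp_pos (-(c * F.n i))).le)]
  · have e1 : M' * nrm w / ρ ≤ M'' := by
      rw [div_le_iff₀ ρ0, hM'', mul_assoc]
      refine mul_le_mul_of_nonneg_left (abs_le_of_sq_le_sq' ?_ (by positivity)).2 m1
      have : (1 + 4 / e) ^ 2 * (e / 4) = 2 + (e / 4 + 4 / e) := by field_simp; ring
      rw [mul_pow, hρ, nrm_sq, mul_add, ← mul_assoc, this]
      linarith [mul_nonneg (by positivity : 0 ≤ e / 4 + 4 / e) w0, sq_nonneg (1 + 4 / e)]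
    have e2 := mul_le_mul_of_nonneg_left e1 (by positivity : 0 ≤ 4 * (M * η))
    have e3 : 0 ≤ 4 * (M * η) + 4 * (M * η) * (M' * nrm w) / ρ := by positivity
    rw [mul_div_assoc] at e3 ⊢
    rw [sq]
    exact (mul_le_mul (show _ ≤ (1 : ℝ) by linarith) (show _ ≤ e by linarith) e3 zero_le_one).trans_eq
      (one_mul e)
  · have e1 : (F.n i : ℝ) * Real.exp (-(c * F.n i)) ≤ 1 / c := by
      rw [le_div_iff₀ c0, Real.exp_neg, mul_right_comm, mul_inv_le_iff₀ (Real.exp_pos _)]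
      linarith [Real.add_one_le_exp (c * F.n i)]
    have e2 : (4 * (M * η) ^ 2) ^ 2 ≤ (4 * M ^ 2) ^ 2 := by
      gcongr; exact mul_le_of_le_one_right m0 η1
    have e3 := mul_le_mul_of_nonneg_left (mul_le_mul (mul_le_mul_of_nonneg_left e2 (abs_nonneg C'))
      e1 (by positivity) (by positivity)) (by positivity : 0 ≤ 2 / e ^ 2)
    have e4 : 2 / e ^ 2 * (|C'| * (4 * (M * η) ^ 2) * (M' * nrm w) ^ 2) ≤ e / 4 * (w ⬝ᵥ w) := by
      have := mul_le_mul η1 η4 (by positivity) zero_le_one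
      rw [mul_pow M', nrm_sq, div_mul_eq_mul_div, div_le_iff₀ (by positivity)]
      linarith [mul_le_mul_of_nonneg_right this w0]
    have e5 := mul_le_mul_of_nonneg_left hB2 (by positivity : 0 ≤ 2 * r ^ 2)
    have e6 := mul_le_mul_of_nonneg_left s1 c4
    have e7 := mul_le_mul_of_nonneg_right η5 w0
    have e8 := mul_nonneg he.le w0
    rw [hρ]
    linarith

end Crest.Agent.T157.S3

end
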