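import Crest.Agent.T157.S3RgE_78

/-!
# Row 157, part B, block S3 (helper78): `REGGlue`
-/

set_option autoImplicit false
set_option linter.unusedSectionVars false

noncomputable section

namespace Crest.Agent.T157.S3.Rg

open Matrix Finset Filter
open Crest.Agent.T157.E (Cube sv prob meanV)
open Crest.Agent.T157.Eig Crest.Agent.T157.Rec
open Crest.Agent.T157.Chain22 (mean IsP isP_prob')
open Crest.Agent.T157.S3W (Cx)
open Fam

lemma cw_transpose {Ω : Type*} {c : Cx Ω} (h : c.Ok) {A : c.MF} (hA : c.CW A) :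
    c.CW fun ω => (A ω)ᵀ := by
  induction hA with
  | right h1 h2 h3 =>
    refine Cx.cg (.left h1 h2 h3.reverse) fun ω => ?_
    simp only [transpose_smul, transpose_mul, diagonal_transpose, Cx.wk_transpose h]
  | left h1 h2 h3 =>
    refine Cx.cg (.right h1 h2 h3.reverse) fun ω => ?_
    simp only [transpose_smul, transpose_mul, diagonal_transpose, Cx.wk_transpose h]
  | add _ _ h1 h2 => exact Cx.cg (.add h1 h2) fun ω => (transpose_add _ _).symm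

variable {F : Fam} {N P : ℕ} {R : Net F N}

lemma bk_transpose (hc : R.cx.Ok) {A : F.Mf} (h : R.BK A) : R.BK fun ω => (A ω)ᵀ := by
  obtain ⟨h1, B, h2, h3⟩ := h
  exact ⟨Cx.Op.transpose (c := R.cx) h1, fun ω => (B ω)ᵀ, cw_transpose hc h2,
    Cx.cg (P := R.cx.MK) (Cx.Kp.transpose hc hc.th h3) fun ω => transpose_sub _ _⟩

lemma bk_of_mk (hc : R.cx.Ok) {A : F.Mf} (h1 : R.cx.Op A) (h2 : R.cx.MK A) : R.BK A :=
  ⟨h1, fun _ => 0, Cx.CW.zero hc, Cx.cg (P := R.cx.MK) h2 fun _ => (sub_zero _).symm⟩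

lemma op_dg (hc : R.cx.Ok) {d : F.Lf (N + 1)} (hd : d ∈ R.C) : R.cx.Op (R.dg d) :=
  Cx.BdV.op (c := R.cx) (hc.bl_bd ⟨d, hd, rfl⟩)

lemma ak_dg (hc : R.cx.Ok) {d : F.Lf (N + 1)} (hd : d ∈ R.C) : R.AK (R.dg d) :=
  ⟨op_dg hc hd, Cx.Sp.kp hc (Cx.pr_diag hc ⟨d, hd, rfl⟩)⟩

lemma op_had {A B : F.Mf} (hA : R.cx.Op A) (hB : R.cx.Op B) : R.cx.Op fun ω => A ω ⊙ B ω :=
  let ⟨C, c0, h⟩ := Cx.nn hA
  let ⟨D, k⟩ := hB
  ⟨C * D, fun ω => (S3F.opn_had' _ _).trans (mul_le_mul (h ω) (k ω) (opn_nonneg _) c0)⟩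

lemma ex_sq (hC : ClsStmt) (hF : F.Ok) {f : F.Sf} (hf : Sq f) : ∃ c, 0 ≤ c ∧ ∀ i,
    Exc (F.w i) c (c * F.K i) fun x => √(f ⟨i, x⟩) := by
  obtain ⟨C, L, C0, hL, hf⟩ := hf
  have K0 : ∀ i, 0 ≤ F.K i := fun i => zero_le_one.trans (hF.K1 i)
  have key : ∃ c, 0 ≤ c ∧ ∀ i, Exc (F.w i) c (c * F.K i)
      fun x => √(F.K i + F.n i * (L.map fun θ => θ ⟨i, x⟩ ^ 2).sum) := by
    clear hf
    induction L with
    | nil => exact ⟨1, zero_le_one, fun i => ex_mono (ex_const (w_pos i) √(F.K i))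
        (fun x => by simp) zero_le_one (by rw [Real.sq_sqrt (K0 i), one_mul])⟩
    | cons θ L ih =>
      obtain ⟨c, c0, hc⟩ := ih fun θ h => hL θ (by simp [h])
      obtain ⟨C1, h1⟩ := (hL θ (by simp)).1
      obtain ⟨C2, -, h2⟩ := th_abs hC hF (hL θ (by simp))
      refine ⟨2 * (|C1| + C2 ^ 2) + 2 * c, by positivity, fun i => ?_⟩
      have n0 : (0 : ℝ) < F.n i := Nat.cast_pos.2 (hF.pos i)
      have k1 : Exc (F.w i) |C1| (C2 ^ 2) fun x => |√(F.n i) * θ ⟨i, x⟩| := by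
        refine ex_abs (ts_mono (ts_smul _ (h1 i).2) ?_) ?_
        · rw [Real.sq_sqrt n0.le, mul_div_cancel₀ _ n0.ne']; exact le_abs_self _
        · simp only [mul_pow, Real.sq_sqrt n0.le]
          rw [mean_mul']; exact (h2 i).1
      refine ex_mono (ex_add (w_pos i) k1 (hc i)) (fun x => ?_) (by nlinarith [sq_nonneg C2]) ?_
      · have k2 : 0 ≤ F.K i + F.n i * (L.map fun θ => θ ⟨i, x⟩ ^ 2).sum :=
          add_nonneg (K0 i) (mul_nonneg n0.le (List.sum_nonneg fun y hy => by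
            obtain ⟨θ, -, rfl⟩ := List.mem_map.1 hy; positivity))
        refine Real.sqrt_le_iff.2 ⟨by positivity, ?_⟩
        rw [add_sq, sq_abs, mul_pow, Real.sq_sqrt n0.le, Real.sq_sqrt k2, List.map_cons,
          List.sum_cons]
        have : 0 ≤ 2 * |√(F.n i) * θ ⟨i, x⟩| *
          √(F.K i + F.n i * (L.map fun θ => θ ⟨i, x⟩ ^ 2).sum) := by positivity
        linarith
      · nlinarith [mul_le_mul_of_nonneg_left (hF.K1 i) (sq_nonneg C2),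
          mul_nonneg (abs_nonneg C1) (K0 i)]
  obtain ⟨c, c0, hc⟩ := key
  refine ⟨C * c, mul_nonneg C0 c0, fun i => ex_mono (ex_smul (Real.sqrt_nonneg C) (hc i))
    (fun x => ?_) (by rw [Real.sq_sqrt C0]) (by rw [Real.sq_sqrt C0, mul_assoc])⟩
  rw [← Real.sqrt_mul C0]
  exact Real.sqrt_le_sqrt (hf ⟨i, x⟩)

namespace Ct
variable {t : Ct R P} {u : ∀ i, St F P i → VF (F.n i)}

lemma xs_sq (hC : ClsStmt) (hF : F.Ok) (hu : t.Small u) {f : F.Sf} (hf : Sq f) :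
    t.XS fun i s x => ‖u i s x‖ * √(f ⟨i, x⟩) := by
  obtain ⟨c, c0, hc⟩ := ex_sq hC hF hf
  refine xs_of hF c0 fun ε C D i s ε0 ε1 hs k => ex_mono (ex_smul ε0.le (hc i)) (fun x =>
    mul_le_mul_of_nonneg_right ((pi_norm_le_iff_of_nonneg ε0.le).2 (hu _ _ _ _ _ hs k x).1)
      (Real.sqrt_nonneg _)) ?_ ?_
  · nlinarith [mul_le_mul_of_nonneg_left ε1 (mul_nonneg c0 ε0.le)]
  · exact mul_le_of_le_one_left (mul_nonneg c0 (zero_le_one.trans (hF.K1 i)))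
      (pow_le_one₀ ε0.le ε1)

/-- small fields with small collective part -/
def Good (t : Ct R P) (u : ∀ i, St F P i → VF (F.n i)) : Prop :=
  t.Small u ∧ ∀ d ∈ R.C, t.XS fun i s x => |u i s x ⬝ᵥ R.ev d ⟨i, x⟩| / √(F.n i)

/-- tame sources -/
def TG (t : Ct R P) (S : F.Mf) : Prop :=
  R.cx.Op S ∧ ∀ u, t.Good u → t.XS fun i s x => nrm ((S ⟨i, x⟩)ᵀ *ᵥ u i s x)

lemma xs_dg (h : t.Ok) (hG : DGStmt) {A B : F.Mf} (hA : R.BK A) (hB : R.AK B) (hu : t.Good u) :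
    t.XS fun i s x => nrm (A ⟨i, x⟩ * diagonal (u i s x) * B ⟨i, x⟩).diag := by
  obtain ⟨D, f, C, h1, h2, h3⟩ := hG F N R (h.hJ F N R h.hF h.hR).1 A B hA hB
  have k1 : t.XS fun i s x => (D.map fun d => |u i s x ⬝ᵥ R.ev d ⟨i, x⟩|).sum / √(F.n i) := by
    clear h3
    induction D with
    | nil => exact (xs_zero h.hF).mono h.hF fun _ _ _ _ => by simp
    | cons d D ih =>
      exact ((hu.2 d (h1 d (by simp))).add h.hF (ih fun d hd => h1 d (by simp [hd]))).mono h.hF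
        fun _ _ _ _ => by rw [List.map_cons, List.sum_cons, add_div]
  refine ((xs_sq h.hC h.hF hu.1 h2).add h.hF (k1.smul h.hF (abs_nonneg C))).mono h.hF
    fun i s _ x => (h3 ⟨i, x⟩ _).trans (add_le_add le_rfl ?_)
  rw [mul_div_assoc]
  exact mul_le_mul_of_nonneg_right (le_abs_self C) (div_nonneg (List.sum_nonneg fun y hy => by
    obtain ⟨θ, -, rfl⟩ := List.mem_map.1 hy; positivity) (Real.sqrt_nonneg _))

variable {S S' : F.Mf}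

lemma TG.congr (h : t.TG S) (e : ∀ ω, S ω = S' ω) : t.TG S' := (funext e : S = S') ▸ h

lemma tg_zero (h : t.Ok) : t.TG fun _ => 0 :=
  ⟨Cx.op_zero (c := R.cx), fun _ _ => (xs_zero h.hF).mono h.hF fun _ _ _ _ => by simp⟩

lemma TG.add (h : t.Ok) (h1 : t.TG S) (h2 : t.TG S') : t.TG fun ω => S ω + S' ω :=
  ⟨Cx.Op.add (c := R.cx) h1.1 h2.1, fun u hu => ((h1.2 u hu).add h.hF (h2.2 u hu)).mono h.hF
    fun _ _ _ _ => by rw [transpose_add, add_mulVec]; exact nrm_add_le _ _⟩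

lemma TG.sum (h : t.Ok) {σ : Type*} (T : Finset σ) {S : σ → F.Mf} (hS : ∀ p, t.TG (S p)) :
    t.TG fun ω => ∑ p ∈ T, S p ω :=
  Cx.sumP (α := fun ω : F.Ω => Mx (F.n ω.1)) (tg_zero h) (TG.add h) T fun p _ => hS p

lemma TG.sp (h : t.Ok) (h1 : t.TG S) : t.TG fun ω => -(S ω * diagonal (sv ω.2)) := by
  obtain ⟨C, hC⟩ := h1.1
  refine ⟨⟨C, fun ω => ?_⟩, fun u hu => (h1.2 u hu).mono h.hF fun i s _ x => ?_⟩
  · rw [opn_neg]
    exact (S3F.opn_mul_diag zero_le_one (fun k => (abs_sv _ k).le) _).trans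
      ((mul_one _).trans_le (hC ω))
  · rw [transpose_neg, neg_mulVec, nrm_neg, transpose_mul, diagonal_transpose, ← mulVec_mulVec]
    refine (nrm_mono zero_le_one fun k => ?_).trans_eq (one_mul _)
    rw [mulVec_diagonal, abs_mul, abs_sv]

lemma tg_had (h : t.Ok) (hG : DGStmt) {A M : F.Mf} (hA : R.AK A) (hM : R.BK M) :
    t.TG fun ω => A ω ⊙ M ω :=
  ⟨op_had hA.1 hM.1, fun u hu => (xs_dg h hG (bk_transpose (h.hJ F N R h.hF h.hR).1 hM) hA hu).mono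
    h.hF fun i s _ x => le_of_eq (congrArg nrm (funext fun j => by
      simp only [mulVec, dotProduct, transpose_apply, hadamard_apply, diag_apply, mul_apply,
        diagonal_apply, mul_ite, mul_zero, sum_ite_eq', mem_univ, if_true]
      exact sum_congr rfl fun k _ => by ring))⟩

lemma tg_diag (h : t.Ok) (hG : DGStmt) {d : F.Lf (N + 1)} (hd : d ∈ R.C) {Y : F.Mf} (hY : R.BK Y) :
    t.TG fun ω => (R.dg d ω * Y ω) ⊙ 1 :=
  have hc := (h.hJ F N R h.hF h.hR).1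
  ⟨op_had (Cx.Op.mul (c := R.cx) (op_dg hc hd) hY.1) (Cx.op_one (c := R.cx)), fun u hu =>
    (xs_dg h hG hY (ak_dg hc hd) hu).mono h.hF fun i s _ x =>
      le_of_eq (congrArg nrm (funext fun j => by
        simp only [hadamard_one, diagonal_transpose, mulVec_diagonal, Net.dg, diag_apply,
          diagonal_mul, mul_diagonal]
        ring))⟩

lemma tg_rk (h : t.Ok) (hS : R.RK S) : t.TG S :=
  ⟨hS.1, fun u hu => (xs_sq h.hC h.hF hu.1 ((h.hC F h.hF).2.2.2.2 N R _ hS.2).1).mono h.hF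
    fun i s _ x => nrm_le_of_sq (by positivity) (by
      rw [mul_pow, Real.sq_sqrt (sum_nonneg fun _ _ => sq_nonneg _), mul_sum]
      refine sum_le_sum fun j _ => ?_
      rw [← mul_pow, ← sq_abs]
      refine pow_le_pow_left₀ (abs_nonneg _) ?_ 2
      simp only [mulVec, dotProduct, transpose_apply]
      refine (abs_sum_le_sum_abs _ _).trans ?_
      rw [mul_sum]
      exact sum_le_sum fun k _ => by
        rw [abs_mul, mul_comm]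
        exact mul_le_mul_of_nonneg_right (norm_le_pi_norm (u i s x) k) (abs_nonneg _))⟩

lemma tg_jc (h : t.Ok) (hG : DGStmt) (h2 : J2Stmt) {al : F.Lf (N + 1)} (h1 : al ∈ R.C)
    (h0 : R.gs al = 0) : t.TG fun ω => F.jc (R.ev al) ω ⊙ 1 := by
  obtain ⟨hc, -, k1, k2, k3⟩ := h.hJ F N R h.hF h.hR
  obtain ⟨Γ, hΓ⟩ := (h.hE F N N R).2.1 h.hR
  have k4 := (((h2 F N R h.hF h.hR).2 Γ hΓ).2 al (k1 al h1)).1
  have k5 := ((k3 _ Γ hΓ.1).2 (R.gs al) (fun m => R.pd m al)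
    ⟨h.hR.gs al h1, by rw [h0]; funext i k s ξ; simp [Net.gs, gs], fun m => h.hR.pd al h1 m⟩).1
  have k6 := bk_of_mk hc (Cx.Op.sub (c := R.cx) (k2 al (k1 al h1)).1 k5) k4
  refine ((tg_diag h hG h.hR.one k6).add h (TG.sum h univ fun m => tg_diag h hG (h.hR.pd al h1 m)
    (((h2 F N R h.hF h.hR).1 _ Γ hΓ.1).1 m).2.1)).congr fun ω => ?_
  have e1 : R.dg 1 ω = 1 := diagonal_one
  have e0 : R.dg 0 ω = 0 := diagonal_zero
  ext k j
  simp only [Flow.tT, h0, e0, e1, Matrix.one_mul, zero_add, Matrix.add_apply, hadamard_apply,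
    Matrix.sub_apply, Matrix.sum_apply, ← sum_mul]
  ring

lemma TG.v (h : t.Ok) (hS : t.TG S) (l : Fin P) :
    t.XS fun i s x => nrm ((S ⟨i, x⟩)ᵀ *ᵥ s.v l x) := by
  obtain ⟨C, C0, hC⟩ := Cx.nn hS.1
  refine ((hS.2 _ ⟨small_vt l, fun d hd => h.col_vt hd l⟩).add h.hF
    ((xs_err h.hF l).smul h.hF C0)).mono h.hF fun i s _ x => ?_
  have e : (S ⟨i, x⟩)ᵀ *ᵥ s.v l x = (S ⟨i, x⟩)ᵀ *ᵥ s.vt l x + (S ⟨i, x⟩)ᵀ *ᵥ (s.v l x - s.vt l x) := by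
    rw [mulVec_sub, add_sub_cancel]
  rw [e]
  refine (nrm_add_le _ _).trans (add_le_add le_rfl ((nrm_mulVec_le _ _).trans ?_))
  rw [opn_transpose]
  exact mul_le_mul_of_nonneg_right (hC ⟨i, x⟩) (nrm_nonneg _)

end Ct

/-- the sources of the fields -/
def src {Q : ℕ} (R : Net F N) (al : F.Lf (N + 1)) (a : Fin Q → F.Lf (N + 1)) (Y : Fin Q → F.Mf) :
    F.Mf := fun ω =>
  -((F.jc (R.ev al) ω ⊙ 1 + ∑ m, F.jc (R.ev (a m)) ω ⊙ Y m ω) * diagonal (sv ω.2))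

lemma src_eq {Q : ℕ} (al : F.Lf (N + 1)) (a : Fin Q → F.Lf (N + 1)) (Y : Fin Q → F.Mf) (ω : F.Ω) :
    diagonal (F.bm (R.ev al) ω).diag + ∑ m, F.bm (R.ev (a m)) ω ⊙ Y m ω =
      R.dg al ω + src R al a Y ω + ∑ m, R.dg (a m) ω * Y m ω := by
  obtain ⟨i, x⟩ := ω
  have e : ∀ (g : F.Lf (N + 1)) (M : Mx (F.n i)), F.bm (R.ev g) ⟨i, x⟩ ⊙ M =
      R.dg g ⟨i, x⟩ * M - (F.jc (R.ev g) ⟨i, x⟩ ⊙ M) * diagonal (sv x) := fun g M => by
    have := S3F.barM_had (fun y : Cube (F.n i) => R.ev g ⟨i, y⟩) x M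
    exact this
  rw [← hadamard_one]
  simp only [e, src, Matrix.mul_one, sum_sub_distrib, Matrix.add_mul, Matrix.sum_mul]
  abel

/-- the regular field -/
def Om (Φ : Flow R P) (al : F.Lf (N + 1)) (i : F.I) (w : V (F.n i)) (vt : Fin P → VF (F.n i)) :
    VF (F.n i) := fun x => R.ev al ⟨i, x⟩ * w + ∑ l, R.ev (Φ.al l) ⟨i, x⟩ * vt l x

namespace Ct
variable {t : Ct R P}

lemma tg_src (h : t.Ok) (hG : DGStmt) (h2 : J2Stmt) {Q : ℕ} {al : F.Lf (N + 1)}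
    {a : Fin Q → F.Lf (N + 1)} {Y : Fin Q → F.Mf} (h1 : al ∈ R.C) (h0 : R.gs al = 0)
    (ha : ∀ m, a m ∈ R.C) (hY : ∀ m, R.BK (Y m)) : t.TG (src R al a Y) := by
  obtain ⟨Γ, hΓ⟩ := (h.hE F N N R).2.1 h.hR
  exact ((tg_jc h hG h2 h1 h0).add h (TG.sum h univ fun m => tg_had h hG
    (((h2 F N R h.hF h.hR).2 Γ hΓ).2 _ ((h.hJ F N R h.hF h.hR).2.2.1 _ (ha m))).2.1 (hY m))).sp h

lemma xs_U (h : t.Ok) (al : F.Lf (N + 1)) {T Y S : Fin P → F.Mf} {S0 U : F.Mf}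
    (hS : ∀ l, t.TG (S l)) (h0 : t.TG S0)
    (r : ∀ ω, RecM (F.J ω.1) (t.Φ.av ω) (t.Φ.ot ω.1) (fun l => R.dg (t.Φ.al l) ω + S l ω)
      (fun l => T l ω) fun l => Y l ω)
    (hU : ∀ ω, U ω = R.dg al ω + S0 ω + ∑ m, R.dg (t.a m) ω * Y m ω) :
    t.XS fun i s x => nrm ((U ⟨i, x⟩)ᵀ *ᵥ s.w - Om t.Φ al i s.w s.vt x) := by
  obtain ⟨A, A1, hA⟩ := fin_bd (Q := fun l A => ∀ i, Bd A fun x => R.ev (t.Φ.al l) ⟨i, x⟩)
    (fun _ _ _ e h i => (h i).mono e) fun l => bd_ev h.hJ h.hF h.hR (h.hΦ.lt l).1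
  have A0 : 0 ≤ A := by linarith
  refine ((h0.2 _ ⟨small_w, fun d hd => h.col_w hd⟩).add h.hF (XS.sum h.hF univ fun l =>
    ((xs_err h.hF l).smul h.hF A0).add h.hF ((hS l).v h l))).mono h.hF fun i s ⟨u, hu⟩ x => ?_
  have k1 := (h.hD _ _ _ _ _ _ _ _ (h.hF.symm i) (hu x)).1 _ _ _ (r ⟨i, x⟩)
  have k2 : ∀ (g : F.Lf (N + 1)) (z : V (F.n i)), (R.dg g ⟨i, x⟩)ᵀ *ᵥ z = R.ev g ⟨i, x⟩ * z :=
    fun g z => by funext k; rw [Net.dg, diagonal_transpose, mulVec_diagonal]; rfl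
  have e : (U ⟨i, x⟩)ᵀ *ᵥ s.w - Om t.Φ al i s.w s.vt x = (S0 ⟨i, x⟩)ᵀ *ᵥ s.w +
      ∑ l, (R.ev (t.Φ.al l) ⟨i, x⟩ * (s.v l x - s.vt l x) + (S l ⟨i, x⟩)ᵀ *ᵥ s.v l x) := by
    simp only [transpose_add, add_mulVec, k2, mul_comm s.w, sum_add_distrib] at k1
    simp only [hU, transpose_add, add_mulVec, transpose_sum, sum_mulVec, transpose_mul,
      ← mulVec_mulVec, k2, k1, Om, mul_sub, sum_add_distrib, sum_sub_distrib]
    abel
  rw [e]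
  exact (nrm_add_le _ _).trans (add_le_add le_rfl ((nrm_sum_le _ _).trans (sum_le_sum fun l _ =>
    (nrm_add_le _ _).trans (add_le_add (nrm_mul_le A0 (hA l i x).1) le_rfl))))

lemma xs_T (h : t.Ok) (al : F.Lf (N + 1)) :
    t.XS fun i s x => nrm ((t.Φ.tT al t.a ⟨i, x⟩)ᵀ *ᵥ s.w - Om t.Φ al i s.w s.vt x) :=
  xs_U h al (T := t.Φ.T) (Y := t.Φ.Y) (fun _ => tg_zero h) (tg_zero h)
    (fun ω l => ⟨by simp only [add_zero]; rfl, h.hΦ.hY l ω⟩) fun ω => by rw [add_zero]; rfl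

end Ct

/-- the common end of the two statements -/
theorem reg_core (h1 : REG1Stmt) {𝒯 : Set F.Df} {Φ : Flow R P} {al : F.Lf (N + 1)}
    {a : Fin P → F.Lf (N + 1)} (h : ∀ C0, Ct.Ok ⟨Φ, a, 𝒯, C0⟩) (hal : al ∈ R.C) {U : F.Mf}
    (hU : ∀ C0, Ct.XS ⟨Φ, a, 𝒯, C0⟩ fun i s x => nrm ((U ⟨i, x⟩)ᵀ *ᵥ s.w - Om Φ al i s.w s.vt x)) :
    ∃ C0 : ℝ, ∀ e > (0 : ℝ), ∃ η > (0 : ℝ), ∃ D : List F.Df, (∀ t ∈ D, t ∈ 𝒯) ∧ ∃ C : ℝ,
      ∀ᶠ i in F.l, ∀ w : V (F.n i), ‖w‖ ≤ η → ∃ Ω, S3.Rg e (C0 * nrm w) Ω ∧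
        Exc (F.w i) e (E0 e C D i w) (fun x => nrm ((Φ.tT al a ⟨i, x⟩)ᵀ *ᵥ w - Ω x)) ∧
        Exc (F.w i) e (E0 e C D i w) fun x => nrm ((U ⟨i, x⟩)ᵀ *ᵥ w - Ω x) := by
  have h0 := h 0
  obtain ⟨C0, h1⟩ := h1 F N P R 𝒯 Φ a h0.hF h0.hR h0.hΦ h0.ha h0.hb
  obtain ⟨A, A1, hA⟩ := fin_bd (Q := fun l A => ∀ i, Bd A fun x => R.ev (Φ.al l) ⟨i, x⟩)
    (fun _ _ _ e h i => (h i).mono e) fun l => bd_ev h0.hJ h0.hF h0.hR (h0.hΦ.lt l).1
  obtain ⟨B, B1, hB⟩ := bd_ev1 h0.hJ h0.hF h0.hR hal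
  have A0 : 0 ≤ A := by linarith
  have B0 : 0 ≤ B := by linarith
  refine ⟨4 * B + P * (4 * A * |C0|), fun e he => ?_⟩
  have c0 : 0 < 4 * B + P * (4 * A) := by positivity
  obtain ⟨η, η0, D, d1, C, k⟩ := Ct.GS.out h0.hE h0.hF (h C0).hΦ
    ((Ct.xs_T (h C0) al).add h0.hF (hU C0)) h1 he (div_pos he c0)
  refine ⟨η, η0, D, d1, C, k.mono fun i k w hw => ?_⟩
  obtain ⟨v, vt, -, k1, k2, k3⟩ := k w hw
  have e0 := (div_pos he c0).le
  have w0 := nrm_nonneg w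
  have k4 := fun l => (rg_iff ((nrm_nonneg _).trans (k2 l default).2.2.1)).1 (k2 l)
  refine ⟨Om Φ al i w vt, (rg_iff (by positivity)).2 ⟨?_, ?_⟩,
    ex_mono k3 (fun x => le_add_of_nonneg_right (nrm_nonneg _)) le_rfl le_rfl,
    ex_mono k3 (fun x => le_add_of_nonneg_left (nrm_nonneg _)) le_rfl le_rfl⟩
  · refine (((hB i).mul B0 e0 (bd_const e0 fun k => (norm_le_pi_norm w k).trans k1)).add
      (Bd.sum le_rfl (by positivity) fun l => (hA l i).mul A0 e0 (k4 l).1)).mono (le_of_eq ?_)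
    field_simp
  · exact (((hB i).mul2 B0 (bd2_const le_rfl)).add (Bd2.sum le_rfl (by positivity) fun l =>
      (hA l i).mul2 A0 ((k4 l).2.mono (mul_le_mul_of_nonneg_right (le_abs_self C0) w0)))).mono
        (le_of_eq (by ring))

end Rg

open Rg Fam Filter Finset Matrix
open Crest.Agent.T157.Eig Crest.Agent.T157.Rec

theorem regGlue : REGGlue := by
  intro hH hE hD hC hJ hW h2 hG h1
  refine ⟨fun F N P R 𝒯 Φ al a hF hR ty hΦ hl hb => ?_, fun F N R 𝒯 Γ ψ hF hR ty hΓ hψ hb => ?_⟩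
  · have h : ∀ C0, Ct.Ok ⟨Φ, a, 𝒯, C0⟩ := fun _ =>
      ⟨hH, hE, hD, hC, hJ, hW, hF, hR, ty, hΦ, hl.2.2, hb⟩
    have hY : ∀ m, R.BK (Φ.Yb m) := fun m => (((h2 F N R hF hR).1 P Φ hΦ).1 m).2.2
    exact reg_core h1 h hl.1 fun C0 => Ct.xs_U (h C0) al (T := Φ.Tb) (Y := Φ.Yb)
      (fun l => Ct.tg_src (h C0) hG h2 (hΦ.lt l).1 (hΦ.lt l).2.1 (hΦ.lt l).2.2 hY)
      (Ct.tg_src (h C0) hG h2 hl.1 hl.2.1 hl.2.2 hY)
      (fun ω l => ⟨src_eq _ _ _ ω, hΦ.hYb l ω⟩) fun ω => src_eq _ _ _ ω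
  · have h : ∀ C0, Ct.Ok ⟨Γ, fun m => R.pd m ψ, 𝒯, C0⟩ := fun _ =>
      ⟨hH, hE, hD, hC, hJ, hW, hF, hR, ty, hΓ.1, hψ.2.2, hb⟩
    obtain ⟨k1, k2⟩ := (h2 F N R hF hR).2 Γ hΓ
    have k3 := (hJ F N R hF hR).2.2.1
    have gg : ∀ g : F.Lf (N + 1), R.gs (R.gs g) = 0 := fun g => by
      funext i k s ξ; simp [Net.gs, gs]
    have k4 : ∀ C0 g, R.Top g → Ct.TG ⟨Γ, fun m => R.pd m ψ, 𝒯, C0⟩ fun ω => R.rem g ω +
        src R (R.gs g) (fun m => R.pd m g) (fun m => F.jc (R.X m)) ω := fun C0 g hg =>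
      (Ct.tg_rk (h C0) (k2 g hg).2.2).add (h C0)
        (Ct.tg_src (h C0) hG h2 hg.2.1 (gg g) hg.2.2 fun m => (k1 m).2)
    have k5 : ∀ g ω, F.jc (R.ev g) ω = R.dg (R.gs g) ω + (R.rem g ω +
        src R (R.gs g) (fun m => R.pd m g) (fun m => F.jc (R.X m)) ω) +
          ∑ m, R.dg (R.pd m g) ω * F.jc (R.X m) ω := fun g ω => by
      rw [Net.rem, src_eq]; abel
    obtain ⟨C0, k6⟩ := reg_core h1 h hψ.2.1 (U := F.jc (R.ev ψ)) fun C0 =>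
      Ct.xs_U (h C0) (R.gs ψ) (T := fun l => F.jc (R.ev (R.f l))) (Y := fun l => F.jc (R.X l))
        (fun l => k4 C0 _ (k3 _ (hR.fC l))) (k4 C0 ψ hψ) (fun ω l => ⟨by
          simp only [Flow.av, hΓ.2.1, hΓ.2.2]; exact k5 _ ω, by
          obtain ⟨κ, hκ⟩ := hR.hX l
          simp only [Flow.ot, hΓ.2.2]
          change dM (fun x => R.X l ⟨ω.1, x⟩) ω.2 = _
          simp only [hκ]
          rw [dM_sub, dM_sub, dM_const, sub_zero, dM_mulVec, dM_sum]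
          simp only [dM_smul]
          rfl⟩) (k5 ψ)
    refine ⟨C0, fun e he => ?_⟩
    obtain ⟨η, η0, D, d1, C, k7⟩ := k6 e he
    refine ⟨η, η0, D, d1, C, k7.mono fun i k w hw => ?_⟩
    obtain ⟨Ω, k8, k9, k10⟩ := k w hw
    refine ⟨Ω, k8, k9, ex_mono k10 (fun x => le_of_eq ?_) le_rfl le_rfl⟩
    congr 2
    funext j
    simp only [dotProduct, grad_sum, grad_const_mul, mulVec, transpose_apply, Fam.jc, S3F.jac,
      of_apply, Pi.smul_apply, smul_eq_mul]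
    exact sum_congr rfl fun _ _ => mul_comm _ _

end Crest.Agent.T157.S3

end
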