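import Crest.Agent.T157.S3All_43
import Crest.Agent.T157.S3Flat_82
import Crest.Agent.T157.S3RgF_78
import Crest.Agent.T157.S3AnsF_90

/-!
# Row 157, block B/S3 (helper90): the deterministic layer is closed
-/

namespace Crest.Agent.T157.S3

theorem reg1Stmt : REG1Stmt := reg1Glue hbStmt exStmt dualStmt clsStmt j1Stmt wxStmt

theorem regStmt : REGStmt :=
  (regGlue hbStmt exStmt dualStmt clsStmt j1Stmt wxStmt j2Stmt dgStmt reg1Stmt).1

theorem regGStmt : REGgStmt :=
  (regGlue hbStmt exStmt dualStmt clsStmt j1Stmt wxStmt j2Stmt dgStmt reg1Stmt).2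

theorem colStmt : COLStmt := colGlue hbStmt exStmt dualStmt clsStmt j1Stmt wxStmt reg1Stmt

theorem flatStmt : FlatStmt := flatGlue hbStmt clsStmt j1Stmt wxStmt

theorem ansFStmt : AnsFStmt :=
  ansFGlue hbStmt clsStmt j1Stmt clStmt gramStmt regStmt regGStmt colStmt flatStmt

end Crest.Agent.T157.S3
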