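import Crest.Agent.T157.DaGr_82
import Crest.Agent.T157.EntE_34

/-!
# Row 157, block S3 (helper82): flows on the cube

`tm w j` is the conditional mean of the spin `j`, `dv w V = ∑ (s_j - t_j) V_j`.
-/

set_option autoImplicit false

noncomputable section

namespace Crest.Agent.T157.S3F

open Matrix Function Finset
open Crest.ProbabilityR.SpinGlassDynamics (spin)
open Crest.Agent.T157.E (Cube sv siteM prob gen ising)
open Crest.Agent.T157.Rec (grad grad_update)
open Crest.Agent.T157.Chain22 (mean mean_siteM den_pos)
open Crest.Agent.T157.Ent (mean_congr mean_sum')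

variable {n : ℕ} {w v : Cube n → ℝ}

/-- conditional mean of the spin `j` -/
def tm (w : Cube n → ℝ) (x : Cube n) (j : Fin n) : ℝ := siteM w (fun y => sv y j) j x
/-- midpoint value along the edge `j` -/
def bar (f : Cube n → ℝ) (x : Cube n) (j : Fin n) : ℝ := f x - sv x j * grad f x j
/-- the component `j` is free of the spin `j` -/
def Free (V : Cube n → Fin n → ℝ) : Prop := ∀ x j b, V (update x j b) j = V x j
/-- divergence -/
def dv (w : Cube n → ℝ) (V : Cube n → Fin n → ℝ) (x : Cube n) : ℝ :=
  ∑ j, (sv x j - tm w x j) * V x j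

lemma sv_true (x : Cube n) (j : Fin n) : sv (update x j true) j = 1 := by simp [sv, spin]
lemma sv_false (x : Cube n) (j : Fin n) : sv (update x j false) j = -1 := by simp [sv, spin]

lemma bar_eq (f : Cube n → ℝ) (x : Cube n) (j : Fin n) :
    bar f x j = (f (update x j true) + f (update x j false)) / 2 := by
  have e : f x = f (update x j (x j)) := by rw [update_eq_self]
  rw [bar, grad, SL.incr, e, sv]
  cases x j <;> simp [spin] <;> ring

lemma bar_update (f : Cube n → ℝ) (x : Cube n) (j : Fin n) (b : Bool) :
    bar f (update x j b) j = bar f x j := by simp only [bar_eq, update_idem]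

lemma val_true (f : Cube n → ℝ) (x : Cube n) (j : Fin n) :
    f (update x j true) = bar f x j + grad f x j := by rw [bar_eq, grad, SL.incr]; ring
lemma val_false (f : Cube n → ℝ) (x : Cube n) (j : Fin n) :
    f (update x j false) = bar f x j - grad f x j := by rw [bar_eq, grad, SL.incr]; ring

lemma free_bar (f : Fin n → Cube n → ℝ) : Free fun x j => bar (f j) x j :=
  fun x j b => bar_update _ x j b
lemma free_grad (f : Cube n → ℝ) : Free (grad f) := fun x j b => grad_update f x j b
lemma free_tm (w : Cube n → ℝ) : Free (tm w) := fun x j b => by simp only [tm, siteM, update_idem]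

lemma abs_bar_le {f : Cube n → ℝ} {C : ℝ} (h : ∀ x, |f x| ≤ C) (x : Cube n) (j : Fin n) :
    |bar f x j| ≤ C := by
  have h1 := abs_le.1 (h (update x j true))
  have h2 := abs_le.1 (h (update x j false))
  rw [bar_eq, abs_le]; constructor <;> linarith

lemma abs_grad_le {f : Cube n → ℝ} {C : ℝ} (h : ∀ x, |f x| ≤ C) (x : Cube n) (j : Fin n) :
    |grad f x j| ≤ C := by
  have h1 := abs_le.1 (h (update x j true))
  have h2 := abs_le.1 (h (update x j false))
  rw [grad, SL.incr, abs_le]; constructor <;> linarith

/-- exact product rule -/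
lemma grad_mul_bar (f g : Cube n → ℝ) (x : Cube n) (j : Fin n) :
    grad (fun y => f y * g y) x j = bar f x j * grad g x j + grad f x j * bar g x j := by
  simp only [bar_eq, grad, SL.incr]; ring

lemma bar_mul (f g : Cube n → ℝ) (x : Cube n) (j : Fin n) :
    bar (fun y => f y * g y) x j = bar f x j * bar g x j + grad f x j * grad g x j := by
  simp only [bar_eq, grad, SL.incr]; ring

lemma siteM_eq (hw : ∀ x, 0 < w x) (f : Cube n → ℝ) (x : Cube n) (j : Fin n) :
    siteM w f j x = bar f x j + tm w x j * grad f x j := by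
  have := (den_pos hw j x).ne'
  rw [tm, siteM, siteM, sv_true, sv_false, val_true f, val_false f]
  field_simp
  ring

lemma abs_tm_lt (hw : ∀ x, 0 < w x) (x : Cube n) (j : Fin n) : |tm w x j| < 1 := by
  have h1 := hw (update x j true)
  have h2 := hw (update x j false)
  rw [tm, siteM, sv_true, sv_false, abs_div, abs_of_pos (den_pos hw j x),
    div_lt_one (den_pos hw j x), abs_lt]
  constructor <;> linarith

lemma D_pos (hw : ∀ x, 0 < w x) (x : Cube n) (j : Fin n) : 0 < 1 - tm w x j ^ 2 := by
  have := abs_tm_lt hw x j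
  rw [sub_pos, ← sq_abs]
  exact pow_lt_one₀ (abs_nonneg _) this two_ne_zero

/-- `-L F = div dF` -/
theorem neg_gen (hw : ∀ x, 0 < w x) (F : Cube n → ℝ) (x : Cube n) :
    -gen w F x = dv w (grad F) x := by
  rw [gen, dv, ← sum_neg_distrib]
  exact sum_congr rfl fun j _ => by rw [siteM_eq hw, bar]; ring

theorem tm_ising {W : Matrix (Fin n) (Fin n) ℝ} (hW : Wᵀ = W) (y : Fin n → ℝ) (x : Cube n)
    (j : Fin n) : tm (ising W y) x j = Da.Gr.tt W y x j := by
  have h1 := neg_gen (Da.Gr.ising_pos W y) (fun z => sv z j) x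
  rw [Da.Gr.gen_ising hW, dv] at h1
  simp only [Da.Gr.grad_sv, mul_ite, mul_one, mul_zero, sum_ite_eq', mem_univ, if_true] at h1
  linarith

/-- one site: `E_v[(s_j - c) u G]` for `c`, `u` free of `s_j` -/
lemma mean_site (hv : ∀ x, 0 < v x) (j : Fin n) {c u : Cube n → ℝ}
    (hc : ∀ x b, c (update x j b) = c x) (hu : ∀ x b, u (update x j b) = u x) (G : Cube n → ℝ) :
    mean (prob v) (fun x => (sv x j - c x) * u x * G x) = mean (prob v) fun x =>
      u x * ((tm v x j - c x) * bar G x j + (1 - c x * tm v x j) * grad G x j) := by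
  rw [← mean_siteM hv j]
  refine mean_congr fun x => ?_
  rw [siteM_eq hv, bar_eq, grad, SL.incr, sv_true, sv_false, hc, hc, hu, hu, val_true G,
    val_false G]
  ring

/-- integration by parts -/
theorem ibp (hw : ∀ x, 0 < w x) {V : Cube n → Fin n → ℝ} (hV : Free V) (G : Cube n → ℝ) :
    mean (prob w) (fun x => dv w V x * G x) =
      mean (prob w) fun x => ∑ j, (1 - tm w x j ^ 2) * V x j * grad G x j := by
  simp only [dv, sum_mul]
  rw [mean_sum', mean_sum']
  refine sum_congr rfl fun j _ => ?_
  rw [mean_site hw j (c := fun x => tm w x j) (u := fun x => V x j) (fun x b => free_tm w x j b)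
    (fun x b => hV x j b)]
  exact mean_congr fun x => by ring

/-- the divergence under another law -/
theorem mean_dv (hv : ∀ x, 0 < v x) (w : Cube n → ℝ) {V : Cube n → Fin n → ℝ} (hV : Free V) :
    mean (prob v) (dv w V) = mean (prob v) fun x => ∑ j, (tm v x j - tm w x j) * V x j := by
  unfold dv
  rw [mean_sum', mean_sum']
  refine sum_congr rfl fun j _ => ?_
  have := mean_site hv j (c := fun x => tm w x j) (u := fun x => V x j)
    (fun x b => free_tm w x j b) (fun x b => hV x j b) (fun _ => 1)
  simp only [mul_one, bar_eq, grad, SL.incr, sub_self, zero_div, mul_zero, add_zero] at this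
  rw [this]
  exact mean_congr fun x => by ring

theorem mean_dv_zero (hw : ∀ x, 0 < w x) {V : Cube n → Fin n → ℝ} (hV : Free V) :
    mean (prob w) (dv w V) = 0 := by
  rw [mean_dv hw w hV]; simp [mean]

/-- integration by parts under another law -/
theorem ibp' (hv : ∀ x, 0 < v x) (w : Cube n → ℝ) {V : Cube n → Fin n → ℝ} (hV : Free V)
    (G : Cube n → ℝ) : mean (prob v) (fun x => dv w V x * G x) = mean (prob v) fun x =>
      ∑ j, V x j * ((tm v x j - tm w x j) * bar G x j +
        (1 - tm w x j * tm v x j) * grad G x j) := by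
  simp only [dv, sum_mul]
  rw [mean_sum', mean_sum']
  exact sum_congr rfl fun j _ =>
    mean_site hv j (c := fun x => tm w x j) (u := fun x => V x j)
    (fun x b => free_tm w x j b) (fun x b => hV x j b) G

lemma dv_add (V V' : Cube n → Fin n → ℝ) (x : Cube n) :
    dv w (fun y => V y + V' y) x = dv w V x + dv w V' x := by
  simp only [dv, Pi.add_apply, mul_add, sum_add_distrib]

lemma dv_smul (c : ℝ) (V : Cube n → Fin n → ℝ) (x : Cube n) :
    dv w (fun y => c • V y) x = c * dv w V x := by
  simp only [dv, Pi.smul_apply, smul_eq_mul, mul_sum]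
  exact sum_congr rfl fun j _ => by ring

/-- divergence of `bar a · V` -/
theorem dv_bar_mul (a : Cube n → ℝ) (V : Cube n → Fin n → ℝ) (x : Cube n) :
    dv w (fun y j => bar a y j * V y j) x =
      a x * dv w V x - ∑ j, (1 - sv x j * tm w x j) * grad a x j * V x j := by
  simp only [dv, mul_sum, ← sum_sub_distrib]
  refine sum_congr rfl fun j _ => ?_
  rw [bar]
  linear_combination (-(grad a x j * V x j)) * Rec.sv_mul_self x j

end Crest.Agent.T157.S3F
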