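import Crest.Agent.T157.UwA_98
import Crest.Agent.T157.S3Fl_82

/-!
# Row 157, block S3 (helper89): the deterministic core of (BIL)

Frobenius norm `fn`, Jacobian `jac`, flips of Wick words with random letters.
-/

set_option autoImplicit false
set_option linter.unusedSectionVars false

noncomputable section

namespace Crest.Agent.T157.S3B

open Matrix Finset
open Crest.Agent.T157.E (Cube sv prob)
open Crest.Agent.T157.Eig Crest.Agent.T157.Uw Crest.Agent.T157.S3F
open Crest.Agent.T157.Rec (grad fl grad_eq sv_mul_self)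
open Crest.Agent.T157.Chain22 (mean)

/-! ### the Frobenius norm -/

section fn
variable {ι κ μ : Type*} [Fintype ι] [DecidableEq ι] [Fintype κ] [DecidableEq κ] [Fintype μ]
  [DecidableEq μ]

/-- Frobenius norm -/
def fn (M : Matrix ι κ ℝ) : ℝ := nrm fun p : ι × κ => M p.1 p.2

lemma fn_nonneg (M : Matrix ι κ ℝ) : 0 ≤ fn M := nrm_nonneg _

lemma fn_sq (M : Matrix ι κ ℝ) : fn M ^ 2 = ∑ i, ∑ j, M i j ^ 2 := by
  rw [fn, nrm_sq, dotProduct, Fintype.sum_prod_type]; simp only [sq]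

lemma fn_eq (M : Matrix ι κ ℝ) : fn M = √(∑ i, ∑ j, M i j ^ 2) := by
  rw [← fn_sq, Real.sqrt_sq (fn_nonneg M)]

lemma fn_le {M : Matrix ι κ ℝ} {c : ℝ} (hc : 0 ≤ c) (h : ∑ i, ∑ j, M i j ^ 2 ≤ c ^ 2) : fn M ≤ c :=
  abs_le_of_sq_le_sq' (by rwa [fn_sq]) hc |>.2

lemma fn_add_le (M N : Matrix ι κ ℝ) : fn (M + N) ≤ fn M + fn N := nrm_add_le _ _
lemma fn_sub_le (M N : Matrix ι κ ℝ) : fn (M - N) ≤ fn M + fn N := nrm_sub_le _ _
lemma fn_smul (c : ℝ) (M : Matrix ι κ ℝ) : fn (c • M) = |c| * fn M := nrm_smul c _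

lemma fn_mono {M N : Matrix ι κ ℝ} (h : ∀ i j, |M i j| ≤ |N i j|) : fn M ≤ fn N :=
  fn_le (fn_nonneg N) (by
    rw [fn_sq]; exact sum_le_sum fun i _ => sum_le_sum fun j _ => sq_le_sq.2 (h i j))

lemma fn_transpose (M : Matrix ι κ ℝ) : fn Mᵀ = fn M := by
  rw [fn_eq, fn_eq, sum_comm]; rfl

lemma abs_sum_le (M N : Matrix ι κ ℝ) : |∑ i, ∑ j, M i j * N i j| ≤ fn M * fn N := by
  have := abs_dot_le (fun p : ι × κ => M p.1 p.2) fun p => N p.1 p.2
  rwa [dotProduct, Fintype.sum_prod_type] at this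

/-- columns -/
lemma fn_le_cols {M : Matrix ι κ ℝ} {v : κ → ℝ} {c : ℝ} (hc : 0 ≤ c)
    (h : ∀ j, nrm (fun i => M i j) ≤ c * |v j|) : fn M ≤ c * nrm v := by
  refine fn_le (mul_nonneg hc (nrm_nonneg v)) ?_
  rw [sum_comm, mul_pow, nrm_sq, dotProduct, mul_sum]
  refine sum_le_sum fun j _ => ?_
  have := pow_le_pow_left₀ (nrm_nonneg _) (h j) 2
  rw [nrm_sq, mul_pow, sq_abs, dotProduct] at this
  simpa only [sq] using this

lemma fn_mul_le (A : Matrix ι κ ℝ) (M : Matrix κ μ ℝ) : fn (A * M) ≤ opn A * fn M := by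
  refine fn_le (mul_nonneg (opn_nonneg A) (fn_nonneg M)) ?_
  rw [mul_pow, fn_sq, sum_comm, sum_comm (s := (univ : Finset κ)), mul_sum]
  refine sum_le_sum fun j _ => ?_
  have := mulVec_dot_le A fun q => M q j
  simp only [dotProduct, sq] at this ⊢
  exact this

lemma fn_mul_le' (M : Matrix ι κ ℝ) (A : Matrix κ μ ℝ) : fn (M * A) ≤ fn M * opn A := by
  rw [← fn_transpose, transpose_mul, ← fn_transpose M, ← opn_transpose A, mul_comm]
  exact fn_mul_le _ _

lemma nrm_col_le (A : Matrix ι κ ℝ) (j : κ) : nrm (fun i => A i j) ≤ opn A := by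
  have := nrm_mulVec_le A (Pi.single j 1)
  rwa [nrm_single, mul_one, mulVec_single_one] at this

lemma fn_mul_diag (M : Matrix ι κ ℝ) (v : κ → ℝ) : fn (M * diagonal v) ≤ opn M * nrm v :=
  fn_le_cols (opn_nonneg M) fun j => by
    have : (fun i => (M * diagonal v) i j) = v j • fun i => M i j := by
      ext i; simp [mul_comm]
    rw [this, nrm_smul, mul_comm]
    exact mul_le_mul_of_nonneg_right (nrm_col_le M j) (abs_nonneg _)

lemma fn_diag_mul (v : ι → ℝ) (M : Matrix ι κ ℝ) : fn (diagonal v * M) ≤ nrm v * opn M := by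
  rw [← fn_transpose, transpose_mul, diagonal_transpose, ← opn_transpose M, mul_comm]
  exact fn_mul_diag _ _

lemma nrm_diag_le (M : Matrix ι ι ℝ) : nrm M.diag ≤ fn M := by
  rw [nrm_le_iff (fn_nonneg M), fn_sq]
  exact sum_le_sum fun i _ => by
    simpa only [sq, diag_apply] using single_le_sum (f := fun j => M i j ^ 2) (fun j _ => sq_nonneg _) (mem_univ i)

lemma opn_le_fn (M : Matrix ι κ ℝ) : opn M ≤ fn M := by rw [fn_eq]; exact opn_le_sqrt_frob M

/-- off-diagonal fourth powers -/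
def off4 (G : Matrix ι ι ℝ) : ℝ := ∑ q, ∑ k, if q = k then 0 else G q k ^ 4

lemma off4_nonneg (G : Matrix ι ι ℝ) : 0 ≤ off4 G :=
  sum_nonneg fun _ _ => sum_nonneg fun _ _ => by split_ifs <;> positivity

/-- entrywise products -/
lemma cross (N G L : Matrix ι ι ℝ) {e : ℝ} (he : 0 < e) : |∑ q, ∑ k, N q k * G q k * L q k| ≤
    (opn G * nrm N.diag + e * fn N + opn N * √(off4 G) / e) * fn L := by
  refine (abs_sum_le (of fun q k => N q k * G q k) L).trans
    (mul_le_mul_of_nonneg_right ?_ (fn_nonneg L))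
  have a0 : 0 ≤ opn G * nrm N.diag := mul_nonneg (opn_nonneg _) (nrm_nonneg _)
  have b0 : 0 ≤ e * fn N := mul_nonneg he.le (fn_nonneg _)
  have c0 : 0 ≤ opn N * √(off4 G) / e := by have := opn_nonneg N; positivity
  refine fn_le (by positivity) ?_
  have h : ∀ q k, (N q k * G q k) ^ 2 ≤ (if q = k then opn G ^ 2 * (N q q * N q q) else 0) +
      e ^ 2 * N q k ^ 2 + opn N ^ 2 / e ^ 2 * (if q = k then 0 else G q k ^ 4) := fun q k => by
    have g1 : G q k ^ 2 ≤ opn G ^ 2 := sq_le_sq' (abs_le.1 (abs_entry_le G q k)).1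
      (abs_le.1 (abs_entry_le G q k)).2
    have g2 : N q k ^ 2 ≤ opn N ^ 2 := sq_le_sq' (abs_le.1 (abs_entry_le N q k)).1
      (abs_le.1 (abs_entry_le N q k)).2
    split_ifs with h
    · subst h
      nlinarith [mul_le_mul_of_nonneg_left g1 (sq_nonneg (N q q)), sq_nonneg (e * N q q)]
    · have g3 : G q k ^ 2 ≤ e ^ 2 + G q k ^ 4 / e ^ 2 := by
        rw [← sub_le_iff_le_add', le_div_iff₀ (by positivity)]
        nlinarith [sq_nonneg (G q k ^ 2 - e ^ 2), sq_nonneg (G q k ^ 2), sq_nonneg (e ^ 2)]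
      have g4 := mul_le_mul_of_nonneg_left g3 (sq_nonneg (N q k))
      have g5 := mul_le_mul_of_nonneg_right g2 (by positivity : 0 ≤ G q k ^ 4 / e ^ 2)
      rw [mul_pow, div_mul_eq_mul_div, mul_div_assoc]
      linarith
  refine (sum_le_sum fun q _ => sum_le_sum fun k _ => h q k).trans ?_
  simp only [sum_add_distrib, sum_ite_eq, mem_univ, if_true, ← mul_sum]
  have e1 : ∑ q, N q q * N q q = nrm N.diag ^ 2 := (nrm_sq N.diag).symm
  have e2 : opn N ^ 2 / e ^ 2 * off4 G = (opn N * √(off4 G) / e) ^ 2 := by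
    rw [div_pow, mul_pow, Real.sq_sqrt (off4_nonneg G)]; ring
  rw [e1, ← fn_sq, ← off4, e2, ← mul_pow, ← mul_pow]
  nlinarith [mul_nonneg a0 b0, mul_nonneg a0 c0, mul_nonneg b0 c0]

variable {s R K : ℝ} {J : Matrix ι ι ℝ} {k : ℕ}

lemma nrm_one : nrm (1 : ι → ℝ) = √(Fintype.card ι) := by simp [nrm, dotProduct]

lemma sq_mul_sqrt_le (hs : s ^ 2 * Fintype.card ι ≤ 1) : s ^ 2 * √(Fintype.card ι) ≤ |s| := by
  refine abs_le_of_sq_le_sq' ?_ (abs_nonneg s) |>.2
  rw [mul_pow, Real.sq_sqrt (by positivity), sq_abs]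
  nlinarith [mul_le_mul_of_nonneg_left hs (sq_nonneg s)]

lemma nrm_eta_le (hs : s ^ 2 * Fintype.card ι ≤ 1) (G : Matrix ι κ ℝ) :
    nrm (fun k => eta s fun q => G q k) ≤ |s| * opn G := by
  have : (fun k => eta s fun q => G q k) = s ^ 2 • (Gᵀ *ᵥ 1) := by
    ext k; simp [eta, mulVec, dotProduct]
  rw [this, nrm_smul, abs_of_nonneg (sq_nonneg s)]
  have h1 := nrm_mulVec_le Gᵀ 1
  rw [opn_transpose, nrm_one] at h1
  nlinarith [mul_le_mul_of_nonneg_left h1 (sq_nonneg s),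
    mul_le_mul_of_nonneg_right (sq_mul_sqrt_le hs) (opn_nonneg G)]

lemma nrm_le_of_bd {v : ι → ℝ} (h : ∀ i, |v i| ≤ 1) : nrm v ≤ √(Fintype.card ι) := by
  refine Real.sqrt_le_sqrt ?_
  simpa [dotProduct] using sum_le_card_nsmul univ (fun i => v i * v i) 1 fun i _ => by
    rw [← sq, sq_le_one_iff_abs_le_one]; exact h i

/-- **the diagonal of `Wᵀ w d V`** -/
theorem dg_W (h : UW s J R k K) (hJ : Jᵀ = J) (hK : 0 ≤ K) (hs : s ^ 2 * Fintype.card ι ≤ 1)
    {l m : List (ι → ℝ)} (h0 : l.length + m.length + 1 ≤ k) (hl : Bd l) (hm : Bd m) {w d : ι → ℝ}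
    {ω : ℝ} (hω : 0 ≤ ω) (hw : ∀ i, |w i| ≤ ω) (hd : ∀ i, |d i| ≤ 1) :
    nrm ((Wk s J l)ᵀ * diagonal w * (diagonal d * Vk s J m)).diag ≤
      (l.length + 2) * K * ω + |s| * |w ⬝ᵥ d| := by
  rcases hω.eq_or_lt with rfl | hω'
  · obtain rfl : w = 0 := funext fun i => abs_nonpos_iff.1 (hw i)
    simp
  set u : ι → ℝ := ω⁻¹ • (w * d) with hu
  have hu1 : ∀ i, |u i| ≤ 1 := fun i => by
    simp only [hu, Pi.smul_apply, Pi.mul_apply, smul_eq_mul, abs_mul, abs_inv, abs_of_pos hω']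
    rw [inv_mul_le_iff₀ hω']
    exact mul_le_mul (hw i) (hd i) (abs_nonneg _) hω
  have h1 := h.dg_mul hK hs (1 :: l) u m (by simp; omega) (bd_cons.2 ⟨fun _ => by simp, hl⟩) hu1 hm
  have e : (Wk s J l)ᵀ * diagonal w * (diagonal d * Vk s J m) =
      ω • (Vk s J (1 :: l).reverse * diagonal u * Vk s J m) := by
    rw [(rev hJ l).1, List.reverse_cons, Wk, hu, diagonal_smul, Matrix.mul_smul, Matrix.smul_mul,
      smul_smul, mul_inv_cancel₀ hω'.ne', one_smul, ← Matrix.mul_assoc, Matrix.mul_assoc _ (diagonal w),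
      diagonal_mul_diagonal]
    rfl
  have h2 : ω * nrm (ctr s (1 :: l) u m) ≤ |s| * |w ⬝ᵥ d| := by
    cases m with
    | nil => simp only [ctr, nrm_zero, mul_zero]; positivity
    | cons b m =>
      have c := nrm_le_of_bd (abs_ctr_le hs l b m hl (bd_cons.1 hm).1 (bd_cons.1 hm).2)
      have e2 : ω * |eta s u| = s ^ 2 * |w ⬝ᵥ d| := by
        rw [hu, eta_smul, abs_mul, abs_inv, abs_of_pos hω', ← mul_assoc, mul_inv_cancel₀ hω'.ne',
          one_mul, eta, abs_mul, abs_of_nonneg (sq_nonneg s)]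
        rfl
      rw [ctr, one_mul, nrm_smul, ← mul_assoc, e2]
      nlinarith [mul_le_mul_of_nonneg_left c (mul_nonneg (sq_nonneg s) (abs_nonneg (w ⬝ᵥ d))),
        mul_le_mul_of_nonneg_right (sq_mul_sqrt_le hs) (abs_nonneg (w ⬝ᵥ d))]
  have h3 := nrm_add_le ((Vk s J (1 :: l).reverse * diagonal u * Vk s J m).diag - ctr s (1 :: l) u m)
    (ctr s (1 :: l) u m)
  rw [sub_add_cancel] at h3
  rw [e, diag_smul, nrm_smul, abs_of_pos hω']
  rw [List.length_cons] at h1
  push_cast at h1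
  nlinarith [mul_le_mul_of_nonneg_left (h3.trans (add_le_add h1 le_rfl)) hω]

end fn

/-! ### flips -/

variable {n : ℕ} {s R G : ℝ} {J : Matrix (Fin n) (Fin n) ℝ}

/-- site functions -/
abbrev SF (n : ℕ) : Type := Cube n → Fin n → ℝ

/-- the Jacobian `(d_k u_q)_{q k}` -/
def jac (u : SF n) (x : Cube n) : Matrix (Fin n) (Fin n) ℝ := of fun q k => grad (fun y => u y q) x k
/-- the increments -/
def dl (u : SF n) (x : Cube n) : Matrix (Fin n) (Fin n) ℝ := of fun q k => u x q - u (fl x k) q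
/-- the letters at `x` -/
def ev (cs : List (SF n)) (x : Cube n) : List (Fin n → ℝ) := cs.map fun c => c x

/-- a letter -/
structure Lt (G : ℝ) (c : SF n) : Prop where
  bd : ∀ x i, |c x i| ≤ 1
  op : ∀ x, opn (jac c x) ≤ G

@[simp] lemma ev_nil (x : Cube n) : ev [] x = [] := rfl
@[simp] lemma ev_cons (c : SF n) (m : List (SF n)) (x : Cube n) : ev (c :: m) x = c x :: ev m x := rfl
@[simp] lemma ev_append (l m : List (SF n)) (x : Cube n) : ev (l ++ m) x = ev l x ++ ev m x :=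
  List.map_append
@[simp] lemma length_ev (l : List (SF n)) (x : Cube n) : (ev l x).length = l.length := List.length_map _

lemma bd_ev {l : List (SF n)} (h : ∀ c ∈ l, Lt G c) (x : Cube n) : Bd (ev l x) := fun a ha => by
  obtain ⟨c, hc, rfl⟩ := List.mem_map.1 ha
  exact (h c hc).bd x

lemma dl_apply (u : SF n) (x : Cube n) (q k : Fin n) : dl u x q k = 2 * sv x k * jac u x q k := by
  simp only [dl, jac, of_apply, grad_eq]
  linear_combination (-(u x q - u (fl x k) q)) * sv_mul_self x k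

lemma opn_dl_le (u : SF n) (x : Cube n) : opn (dl u x) ≤ 2 * opn (jac u x) := by
  have : dl u x = jac u x * diagonal fun k => 2 * sv x k := by
    ext q k; rw [dl_apply, mul_diagonal, mul_comm]
  rw [this, mul_comm]
  exact opn_mul_le' le_rfl (opn_diagonal_le zero_le_two fun k => by
    simp [abs_mul, sv, E.abs_spin])

lemma abs_le_one (hs : s ^ 2 * Fintype.card (Fin n) ≤ 1) (k : Fin n) : |s| ≤ 1 := by
  have : (1 : ℝ) ≤ Fintype.card (Fin n) := by exact_mod_cast Fintype.card_pos_iff.2 ⟨k⟩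
  rw [← sq_le_one_iff_abs_le_one]
  nlinarith [sq_nonneg s]

lemma fn_dl_mul {a : SF n} (ha : Lt G a) (F : SF n) (x : Cube n) :
    fn (dl (fun y => a y * F y) x) ≤ 2 * G * nrm (F x) + fn (dl F x) := by
  have e : dl (fun y => a y * F y) x =
      diagonal (F x) * dl a x + of fun q k => a (fl x k) q * dl F x q k := by
    ext q k; simp only [dl, of_apply, Matrix.add_apply, diagonal_mul, Pi.mul_apply]; ring
  rw [e]
  refine (fn_add_le _ _).trans (add_le_add ((fn_diag_mul _ _).trans ?_) (fn_mono fun q k => ?_))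
  · rw [mul_comm]
    exact mul_le_mul_of_nonneg_right ((opn_dl_le a x).trans (by linarith [ha.op x])) (nrm_nonneg _)
  · rw [of_apply, abs_mul]
    exact mul_le_of_le_one_left (abs_nonneg _) (ha.bd _ _)

lemma fn_dl_eta (hs : s ^ 2 * Fintype.card (Fin n) ≤ 1) {a : SF n} (ha : Lt G a) (F : SF n)
    (x : Cube n) : fn (dl (fun y => eta s (a y) • F y) x) ≤ 2 * G * nrm (F x) + fn (dl F x) := by
  have e : dl (fun y => eta s (a y) • F y) x = (of fun q k => F x q * eta s fun p => dl a x p k) +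
      of fun q k => eta s (a (fl x k)) * dl F x q k := by
    ext q k
    have : (eta s fun p => a x p - a (fl x k) p) = eta s (a x) - eta s (a (fl x k)) := eta_sub (a x) _
    simp only [dl, of_apply, Matrix.add_apply, Pi.smul_apply, smul_eq_mul, this]; ring
  rw [e]
  refine (fn_add_le _ _).trans (add_le_add ?_ (fn_mono fun q k => ?_))
  · refine (fn_le_cols (nrm_nonneg (F x)) (v := fun k => eta s fun p => dl a x p k) fun k => ?_).trans ?_
    · have : (fun q => (of fun q k => F x q * eta s fun p => dl a x p k) q k) =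
          (eta s fun p => dl a x p k) • F x := by ext q; simp [mul_comm]
      rw [this, nrm_smul, mul_comm]
    · rw [mul_comm]
      refine mul_le_mul_of_nonneg_right ?_ (nrm_nonneg _)
      rcases Nat.eq_zero_or_pos n with rfl | hn
      · have := (opn_nonneg _).trans (ha.op x)
        simp only [nrm, dotProduct, univ_eq_empty, sum_empty, Real.sqrt_zero]; positivity
      exact (nrm_eta_le hs _).trans ((mul_le_of_le_one_left (opn_nonneg _)
        (abs_le_one hs ⟨0, hn⟩)).trans ((opn_dl_le a x).trans (by linarith [ha.op x])))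
  · rw [of_apply, abs_mul]
    exact mul_le_of_le_one_left (abs_nonneg _) (abs_eta_le hs zero_le_one (ha.bd _))

lemma fn_dl_mulVec (A : Matrix (Fin n) (Fin n) ℝ) (F : SF n) (x : Cube n) :
    fn (dl (fun y => A *ᵥ F y) x) ≤ opn A * fn (dl F x) := by
  have e : dl (fun y => A *ᵥ F y) x = A * dl F x := by
    ext q k; simp only [dl, of_apply, mul_apply, mulVec, dotProduct, mul_sub, sum_sub_distrib]
  rw [e]; exact fn_mul_le _ _

lemma fn_dl_sub (F F' : SF n) (x : Cube n) :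
    fn (dl (fun y => F y - F' y) x) ≤ fn (dl F x) + fn (dl F' x) := by
  have e : dl (fun y => F y - F' y) x = dl F x - dl F' x := by
    ext q k; simp only [dl, of_apply, Matrix.sub_apply, Pi.sub_apply]; ring
  rw [e]; exact fn_sub_le _ _

lemma fn_dl_const (z : Fin n → ℝ) (x : Cube n) : fn (dl (fun _ => z) x) = 0 := by
  simp [fn_eq, dl]

/-- **(JV) for Wick words** -/
theorem jv (hs : s ^ 2 * Fintype.card (Fin n) ≤ 1) (hR : opn J ≤ R) (hG : 0 ≤ G) (z : Fin n → ℝ)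
    (x : Cube n) : ∀ {m : List (SF n)}, (∀ c ∈ m, Lt G c) →
    fn (dl (fun y => Vk s J (ev m y) *ᵥ z) x) ≤ 2 * G * m.length * (1 + R) ^ m.length * nrm z ∧
    fn (dl (fun y => Uk s J (ev m y) *ᵥ z) x) ≤ 2 * G * m.length * (1 + R) ^ m.length * nrm z
  | [], _ => by simp [fn_dl_const]
  | a :: m, h => by
    obtain ⟨ha, hm⟩ := List.forall_mem_cons.1 h
    obtain ⟨h1, h2⟩ := jv hs hR hG z x hm
    obtain ⟨h3, h4⟩ := opn_VU hs hR (bd_ev hm x)
    rw [length_ev] at h3 h4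
    have R0 : 0 ≤ R := (opn_nonneg _).trans hR
    have z0 := nrm_nonneg z
    have g3 := (nrm_mulVec_le (Vk s J (ev m x)) z).trans (mul_le_mul_of_nonneg_right h3 z0)
    have g4 := (nrm_mulVec_le (Uk s J (ev m x)) z).trans (mul_le_mul_of_nonneg_right h4 z0)
    have e1 : (fun y => Uk s J (ev (a :: m) y) *ᵥ z) = fun y => a y * (Vk s J (ev m y) *ᵥ z) := by
      funext y; rw [ev_cons, Uk_cons, ← mulVec_mulVec]; ext q; simp [mulVec_diagonal]
    have e2 : (fun y => Vk s J (ev (a :: m) y) *ᵥ z) = fun y =>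
        J *ᵥ (Uk s J (ev (a :: m) y) *ᵥ z) - eta s (a y) • (Uk s J (ev m y) *ᵥ z) := by
      funext y; rw [ev_cons, Vk_cons', sub_mulVec, smul_mulVec, mulVec_mulVec]
    have b1 : fn (dl (fun y => Uk s J (ev (a :: m) y) *ᵥ z) x) ≤
        2 * G * (m.length + 1) * (1 + R) ^ m.length * nrm z := by
      rw [e1]
      refine (fn_dl_mul ha _ x).trans ?_
      nlinarith [mul_le_mul_of_nonneg_left g3 hG]
    have b2 := (fn_dl_mulVec J (fun y => Uk s J (ev (a :: m) y) *ᵥ z) x).trans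
      (mul_le_mul hR b1 (fn_nonneg _) R0)
    have b3 : fn (dl (fun y => eta s (a y) • (Uk s J (ev m y) *ᵥ z)) x) ≤
        2 * G * (m.length + 1) * (1 + R) ^ m.length * nrm z := by
      refine (fn_dl_eta hs ha _ x).trans ?_
      nlinarith [mul_le_mul_of_nonneg_left g4 hG]
    have b5 : 0 ≤ 2 * G * (m.length + 1) * (1 + R) ^ m.length * nrm z := by positivity
    rw [List.length_cons, pow_succ]
    push_cast
    refine ⟨?_, by nlinarith⟩
    rw [e2]
    exact (fn_dl_sub _ _ x).trans (by linarith)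

/-- the partially flipped pairing -/
def Qw (s : ℝ) (J M : Matrix (Fin n) (Fin n) ℝ) (z : Fin n → ℝ) (x : Cube n) (l m : List (SF n)) : ℝ :=
  ∑ i, ∑ k, M i k * (sv x k / 2 *
    ((Vk s J (ev l x ++ ev m x) - Vk s J (ev l x ++ ev m (fl x k))) *ᵥ z) i)

variable {M : Matrix (Fin n) (Fin n) ℝ} {z : Fin n → ℝ} {x : Cube n}

lemma Qw_nil (l : List (SF n)) : Qw s J M z x l [] = 0 := by simp [Qw]

lemma Qw_nil' (m : List (SF n)) : Qw s J M z x [] m =
    ∑ i, ∑ k, M i k * grad (fun y => (Vk s J (ev m y) *ᵥ z) i) x k := by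
  simp only [Qw, ev_nil, List.nil_append, grad_eq, sub_mulVec, Pi.sub_apply]
  exact sum_congr rfl fun i _ => sum_congr rfl fun k _ => by ring

lemma Qw_cons_eq (l m : List (SF n)) (c : SF n) :
    Qw s J M z x l (c :: m) - Qw s J M z x (l ++ [c]) m =
      (Vk s J (ev m x) *ᵥ z) ⬝ᵥ ((Wk s J (ev l x))ᵀ * M * (jac c x)ᵀ).diag -
      (∑ q, ∑ k, ((Wk s J (ev l x))ᵀ * M) q k * jac c x q k *
        dl (fun y => Vk s J (ev m y) *ᵥ z) x q k) -
      ∑ i, ∑ k, M i k * ((eta s fun q => jac c x q k) *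
        (Vk s J (ev l x) *ᵥ (Uk s J (ev m (fl x k)) *ᵥ z)) i) := by
  have e1 : ∀ k, (sv x k / 2) • (Vk s J (ev l x ++ c x :: ev m (fl x k)) -
      Vk s J (ev l x ++ c (fl x k) :: ev m (fl x k))) =
      Wk s J (ev l x) * diagonal (fun q => jac c x q k) * Vk s J (ev m (fl x k)) -
        (eta s fun q => jac c x q k) • (Vk s J (ev l x) * Uk s J (ev m (fl x k))) := fun k => by
    have : (fun q => jac c x q k) = (sv x k / 2) • c x + (-(sv x k / 2)) • c (fl x k) := by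
      ext q; simp only [jac, of_apply, grad_eq, Pi.add_apply, Pi.smul_apply, smul_eq_mul]; ring
    rw [Wk_mul, add_sub_cancel_right, this, (lin _ _ _ _ _ _).1]
    module
  have e2 : Qw s J M z x l (c :: m) - Qw s J M z x (l ++ [c]) m = ∑ i, ∑ k, M i k *
      ((Wk s J (ev l x) * diagonal (fun q => jac c x q k) * Vk s J (ev m (fl x k)) -
        (eta s fun q => jac c x q k) • (Vk s J (ev l x) * Uk s J (ev m (fl x k)))) *ᵥ z) i := by
    simp only [Qw, ← sum_sub_distrib, ← e1, ev_cons, ev_append, ev_nil, List.append_assoc,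
      List.singleton_append, smul_mulVec, sub_mulVec, Pi.smul_apply, Pi.sub_apply, smul_eq_mul]
    exact sum_congr rfl fun i _ => sum_congr rfl fun k _ => by ring
  have e3 : ∀ L : Fin n → Fin n → ℝ, ∑ i, ∑ k, M i k *
      (Wk s J (ev l x) *ᵥ (diagonal (fun q => jac c x q k) *ᵥ L k)) i =
      ∑ q, ∑ k, ((Wk s J (ev l x))ᵀ * M) q k * jac c x q k * L k q := fun L => by
    simp only [mul_apply, transpose_apply, sum_mul]
    simp only [mulVec, dotProduct, diagonal_apply, mul_sum, ite_mul, zero_mul, sum_ite_eq, mem_univ,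
      if_true]
    rw [sum_comm]
    refine Eq.trans (sum_congr rfl fun k _ => sum_comm) ?_
    rw [sum_comm]
    exact sum_congr rfl fun q _ => sum_congr rfl fun k _ => sum_congr rfl fun i _ => by ring
  rw [e2]
  simp only [sub_mulVec, smul_mulVec, ← mulVec_mulVec, Pi.sub_apply, Pi.smul_apply, smul_eq_mul,
    mul_sub, sum_sub_distrib, e3]
  congr 1
  rw [dotProduct, ← sum_sub_distrib]
  refine sum_congr rfl fun q _ => ?_
  rw [diag_apply, mul_apply, mul_sum, ← sum_sub_distrib]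
  exact sum_congr rfl fun k _ => by simp only [dl, of_apply, transpose_apply]; ring

/-- the constant -/
def Cw (R G : ℝ) (p : ℕ) : ℝ := (1 + 2 * p) * (1 + G) ^ 2 * ((1 + R) ^ p) ^ 2

/-- the bound of one letter -/
def Bw (s : ℝ) (J M : Matrix (Fin n) (Fin n) ℝ) (x : Cube n) (e : ℝ) (l : List (SF n)) (c : SF n) : ℝ :=
  nrm ((Wk s J (ev l x))ᵀ * M * (jac c x)ᵀ).diag + nrm ((Wk s J (ev l x))ᵀ * M).diag +
    (e + |s|) * fn M + opn M * √(off4 (jac c x)) / e

lemma alg {a1 a2 f o e s G B p z t1 t2 t3 : ℝ} (ha1 : 0 ≤ a1) (ha2 : 0 ≤ a2) (hf : 0 ≤ f) (ho : 0 ≤ o)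
    (he : 0 ≤ e) (hs : 0 ≤ s) (hG : 0 ≤ G) (hB : 1 ≤ B) (hp : 0 ≤ p) (hz : 0 ≤ z)
    (h1 : t1 ≤ B * z * a1) (h2 : t2 ≤ (G * a2 + e * (B * f) + B * o) * (2 * G * p * B * z))
    (h3 : t3 ≤ f * (B * z * (s * G))) :
    t1 + t2 + t3 ≤ (1 + 2 * p) * (1 + G) ^ 2 * B ^ 2 * z * (a1 + a2 + (e + s) * f + o) := by
  have B0 : 0 ≤ B := by linarith
  have c1 : B ≤ (1 + 2 * p) * (1 + G) ^ 2 * B ^ 2 := by
    calc B = 1 * 1 * (B * 1) := by ring
      _ ≤ (1 + 2 * p) * (1 + G) ^ 2 * (B * B) := by gcongr <;> nlinarith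
      _ = _ := by ring
  have c2 : 2 * p * G ^ 2 * B ≤ (1 + 2 * p) * (1 + G) ^ 2 * B ^ 2 := by
    calc 2 * p * G ^ 2 * B = 2 * p * G ^ 2 * (B * 1) := by ring
      _ ≤ (1 + 2 * p) * (1 + G) ^ 2 * (B * B) := by gcongr <;> nlinarith
      _ = _ := by ring
  have c3 : 2 * p * G * B ^ 2 ≤ (1 + 2 * p) * (1 + G) ^ 2 * B ^ 2 := by gcongr <;> nlinarith
  have c4 : G * B ≤ (1 + 2 * p) * (1 + G) ^ 2 * B ^ 2 := by
    calc G * B = 1 * G * (B * 1) := by ring
      _ ≤ (1 + 2 * p) * (1 + G) ^ 2 * (B * B) := by gcongr <;> nlinarith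
      _ = _ := by ring
  generalize (1 + 2 * p) * (1 + G) ^ 2 * B ^ 2 = C at c1 c2 c3 c4
  have d1 := mul_le_mul_of_nonneg_right c1 (mul_nonneg hz ha1)
  have d2 := mul_le_mul_of_nonneg_right c2 (mul_nonneg hz ha2)
  have d3 := mul_le_mul_of_nonneg_right c3 (mul_nonneg hz (mul_nonneg he hf))
  have d4 := mul_le_mul_of_nonneg_right c3 (mul_nonneg hz ho)
  have d5 := mul_le_mul_of_nonneg_right c4 (mul_nonneg hz (mul_nonneg hs hf))
  linarith

/-- **one letter** -/
theorem Qw_cons (hs : s ^ 2 * Fintype.card (Fin n) ≤ 1) (hR : opn J ≤ R) {l m : List (SF n)}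
    {c : SF n} (hl : ∀ c ∈ l, Lt G c) (hc : Lt G c) (hm : ∀ c ∈ m, Lt G c) {p : ℕ}
    (hp : l.length + m.length + 1 ≤ p) {e : ℝ} (he : 0 < e) :
    |Qw s J M z x l (c :: m) - Qw s J M z x (l ++ [c]) m| ≤ Cw R G p * nrm z * Bw s J M x e l c := by
  have R0 : 0 ≤ R := (opn_nonneg _).trans hR
  have G0 : 0 ≤ G := (opn_nonneg _).trans (hc.op x)
  have z0 := nrm_nonneg z
  have pw : ∀ {j : ℕ}, j ≤ p → (1 + R) ^ j ≤ (1 + R) ^ p := fun h => pow_le_pow_right₀ (by linarith) h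
  have B1 : 1 ≤ (1 + R) ^ p := one_le_pow₀ (by linarith)
  have hW : opn (Wk s J (ev l x))ᵀ ≤ (1 + R) ^ p := by
    rw [opn_transpose]
    exact (opn_VU hs hR (bd_append.2 ⟨bd_ev hl x, bd_one⟩)).1.trans (pw (by simp; omega))
  have hV : nrm (Vk s J (ev m x) *ᵥ z) ≤ (1 + R) ^ p * nrm z := (nrm_mulVec_le _ _).trans
    (mul_le_mul_of_nonneg_right ((opn_VU hs hR (bd_ev hm x)).1.trans (pw (by simp; omega))) z0)
  have hU : ∀ y, nrm (Vk s J (ev l x) *ᵥ (Uk s J (ev m y) *ᵥ z)) ≤ (1 + R) ^ p * nrm z := fun y => by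
    rw [mulVec_mulVec]
    refine (nrm_mulVec_le _ _).trans (mul_le_mul_of_nonneg_right ((opn_mul_le'
      (opn_VU hs hR (bd_ev hl x)).1 (opn_VU hs hR (bd_ev hm y)).2).trans ?_) z0)
    rw [← pow_add]; exact pw (by simp; omega)
  have hD : fn (dl (fun y => Vk s J (ev m y) *ᵥ z) x) ≤ 2 * G * p * (1 + R) ^ p * nrm z := by
    refine (jv hs hR G0 z x hm).1.trans ?_
    have := pw (j := m.length) (by omega)
    have : (m.length : ℝ) ≤ p := by exact_mod_cast (by omega : m.length ≤ p)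
    gcongr
  rw [Qw_cons_eq]
  refine (abs_sub _ _).trans ((add_le_add (abs_sub _ _) le_rfl).trans ?_)
  refine alg (o := opn M * √(off4 (jac c x)) / e) (nrm_nonneg _) (nrm_nonneg _) (fn_nonneg M)
    (by have := opn_nonneg M; positivity) he.le (abs_nonneg s) G0 B1 p.cast_nonneg z0
    ((abs_dot_le _ _).trans (mul_le_mul_of_nonneg_right hV (nrm_nonneg _))) ?_ ?_
  · refine (cross _ _ _ he).trans (mul_le_mul (add_le_add (add_le_add
      (mul_le_mul_of_nonneg_right (hc.op x) (nrm_nonneg _)) (mul_le_mul_of_nonneg_left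
        ((fn_mul_le _ _).trans (mul_le_mul_of_nonneg_right hW (fn_nonneg M))) he.le)) ?_) hD
      (fn_nonneg _) ?_)
    · rw [← mul_div_assoc, ← mul_assoc]
      have := opn_mul_le' hW (le_refl (opn M))
      gcongr
    · have := opn_nonneg M
      have := fn_nonneg M
      have := nrm_nonneg ((Wk s J (ev l x))ᵀ * M).diag
      positivity
  · refine (abs_sum_le M (of fun i k => (eta s fun q => jac c x q k) *
      (Vk s J (ev l x) *ᵥ (Uk s J (ev m (fl x k)) *ᵥ z)) i)).trans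
      (mul_le_mul_of_nonneg_left ((fn_le_cols (c := (1 + R) ^ p * nrm z) (by positivity)
        (v := fun k => eta s fun q => jac c x q k) fun k => ?_).trans
        (mul_le_mul_of_nonneg_left ((nrm_eta_le hs _).trans
          (mul_le_mul_of_nonneg_left (hc.op x) (abs_nonneg s))) (by positivity))) (fn_nonneg M))
    refine le_trans (le_of_eq (nrm_smul (eta s fun q => jac c x q k) _)) ?_
    rw [mul_comm]
    exact mul_le_mul_of_nonneg_right (hU _) (abs_nonneg _)

/-- the sum of the bounds -/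
def Sw (s : ℝ) (J M : Matrix (Fin n) (Fin n) ℝ) (x : Cube n) (e : ℝ) : List (SF n) → List (SF n) → ℝ
  | _, [] => 0
  | l, c :: m => Bw s J M x e l c + Sw s J M x e (l ++ [c]) m

theorem Qw_le (hs : s ^ 2 * Fintype.card (Fin n) ≤ 1) (hR : opn J ≤ R) {p : ℕ} {e : ℝ} (he : 0 < e) :
    ∀ {m l : List (SF n)}, (∀ c ∈ l, Lt G c) → (∀ c ∈ m, Lt G c) → l.length + m.length ≤ p →
      |Qw s J M z x l m| ≤ Cw R G p * nrm z * Sw s J M x e l m
  | [], l, _, _, _ => by simp [Qw_nil, Sw]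
  | c :: m, l, hl, hm, hp => by
    obtain ⟨hc, hm⟩ := List.forall_mem_cons.1 hm
    have h1 := Qw_cons (M := M) (z := z) (x := x) hs hR hl hc hm (p := p) hp he
    have h2 := Qw_le hs hR (p := p) he (m := m) (l := l ++ [c])
      (List.forall_mem_append.2 ⟨hl, by simpa using hc⟩) hm (by simp at hp ⊢; omega)
    have h3 := abs_add_le (Qw s J M z x l (c :: m) - Qw s J M z x (l ++ [c]) m)
      (Qw s J M z x (l ++ [c]) m)
    rw [sub_add_cancel] at h3
    rw [Sw, mul_add]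
    linarith

/-- **integration by parts against a Wick word** -/
theorem ibp_le {μ : Cube n → ℝ} (hμ : ∀ x, 0 < μ x) (hs : s ^ 2 * Fintype.card (Fin n) ≤ 1)
    (hR : opn J ≤ R) {m : List (SF n)} (hm : ∀ c ∈ m, Lt G c) {T : Cube n → Matrix (Fin n) (Fin n) ℝ}
    (hT : ∀ i, Free fun x k => T x i k) (w z : Fin n → ℝ) {e : ℝ} (he : 0 < e) :
    |mean (prob μ) fun x => ∑ i, w i * dv μ (fun y k => T y i k) x * (Vk s J (ev m x) *ᵥ z) i| ≤
      Cw R G m.length * nrm z * mean (prob μ) fun x =>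
        Sw s J (diagonal w * T x * diagonal fun k => 1 - tm μ x k ^ 2) x e [] m := by
  have e1 : (mean (prob μ) fun x => ∑ i, w i * dv μ (fun y k => T y i k) x * (Vk s J (ev m x) *ᵥ z) i) =
      mean (prob μ) fun x => Qw s J (diagonal w * T x * diagonal fun k => 1 - tm μ x k ^ 2) z x [] m := by
    simp only [Qw_nil', mul_diagonal, diagonal_mul, mul_assoc]
    rw [Ent.mean_sum', Ent.mean_sum']
    refine sum_congr rfl fun i _ => ?_
    simp only [← mul_sum]
    rw [Ent.mean_const_mul, Ent.mean_const_mul, ibp hμ (hT i)]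
    congr 1
    exact Ent.mean_congr fun x => sum_congr rfl fun k _ => by ring
  have hP := Chain22.isP_prob' hμ
  rw [e1, ← Ent.mean_const_mul]
  refine (abs_sum_le_sum_abs _ _).trans (sum_le_sum fun x _ => ?_)
  rw [abs_mul, abs_of_nonneg (hP.nn x)]
  exact mul_le_mul_of_nonneg_left (Qw_le hs hR he (by simp) hm (by simp)) (hP.nn x)

end Crest.Agent.T157.S3B
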