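import Crest.Agent.T157.S3Hb_80
import Crest.Agent.T157.AtD_39
import Crest.Agent.T157.EigN_84

/-!
# Row 157, block B/S3, section 4, (C3): fluctuation of one coordinate of a triangular recursion
(network free; helper65)
-/

set_option autoImplicit false
set_option linter.unusedSectionVars false

noncomputable section

namespace Crest.Agent.T157.S3L.C365

open Matrix Finset Crest.Agent.T157.E Crest.Agent.T157.Eig
open Crest.Agent.T157.Rec (fl)

section nrm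
variable {ι : Type*} [Fintype ι] [DecidableEq ι]

lemma nrm_mono {u v : ι → ℝ} (h : ∀ k, |u k| ≤ v k) : nrm u ≤ nrm v :=
  Real.sqrt_le_sqrt (sum_le_sum fun k _ => by
    rw [← abs_mul_abs_self]; exact mul_self_le_mul_self (abs_nonneg _) (h k))

lemma nrm_sum {κ : Type*} (t : Finset κ) (v : κ → ι → ℝ) : nrm (∑ k ∈ t, v k) ≤ ∑ k ∈ t, nrm (v k) := by
  classical
  induction t using Finset.induction_on with
  | empty => simp
  | insert k t hk ih => rw [sum_insert hk, sum_insert hk]; exact (nrm_add_le _ _).trans (by gcongr)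

lemma nrm_sum_bd {κ : Type*} {t U : Finset κ} (h : t ⊆ U) {v : κ → ι → ℝ} {c : ℝ} (hc : 0 ≤ c)
    (hv : ∀ k ∈ t, nrm (v k) ≤ c) : nrm (∑ k ∈ t, v k) ≤ #U * c := by
  refine (nrm_sum t v).trans ((sum_le_sum hv).trans ?_)
  rw [sum_const, nsmul_eq_mul]
  exact mul_le_mul_of_nonneg_right (Nat.cast_le.2 (card_le_card h)) hc

lemma nrm_mul {a v : ι → ℝ} {c : ℝ} (hc : 0 ≤ c) (h : ∀ k, |a k| ≤ c) : nrm (a * v) ≤ c * nrm v := by
  have e : nrm (fun k => |v k|) = nrm v := by simp [nrm, dotProduct]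
  rw [← e, ← abs_of_nonneg hc, ← nrm_smul]
  exact nrm_mono fun k => by
    rw [Pi.mul_apply, abs_mul]; exact mul_le_mul_of_nonneg_right (h k) (abs_nonneg _)

lemma abs_dot_l1 {r ρ : ι → ℝ} {μ : ℝ} (h : ∀ j, |r j| ≤ μ) : |r ⬝ᵥ ρ| ≤ μ * ∑ j, |ρ j| := by
  rw [mul_sum]
  exact (abs_sum_le_sum_abs _ _).trans (sum_le_sum fun j _ => by
    rw [abs_mul]; exact mul_le_mul_of_nonneg_right (h j) (abs_nonneg _))

/-- the matrix `(d k j)` has operator norm at most `B` -/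
def Opb (d : ι → ι → ℝ) (B : ℝ) : Prop := ∀ v, nrm (fun k => v ⬝ᵥ d k) ≤ B * nrm v

lemma Opb.col {d : ι → ι → ℝ} {B : ℝ} (h : Opb d B) (hB : 0 ≤ B) (k : ι) : nrm (d k) ≤ B := by
  have := (le_abs_self _).trans ((abs_apply_le_nrm (fun k' => d k ⬝ᵥ d k') k).trans (h (d k)))
  rw [← nrm_mul_self] at this
  rcases (nrm_nonneg (d k)).eq_or_lt with h0 | h0
  · exact h0 ▸ hB
  · exact le_of_mul_le_mul_right this h0

lemma Opb.hs {d : ι → ι → ℝ} {B : ℝ} (h : Opb d B) (hB : 0 ≤ B) (y : ι → ℝ) :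
    nrm (fun k => nrm (d k * y)) ≤ B * nrm y := by
  rw [nrm_le_iff (mul_nonneg hB (nrm_nonneg _)), mul_pow, nrm_sq]
  have h1 : ∀ j, ∑ k, d k j * d k j ≤ B ^ 2 := fun j => by
    have := h (Pi.single j 1)
    rw [nrm_single, mul_one, nrm_le_iff hB] at this
    simpa [dotProduct, Pi.single_apply] using this
  simp only [dotProduct, nrm_mul_self, Pi.mul_apply]
  rw [sum_comm, mul_sum]
  refine sum_le_sum fun j _ => le_of_eq_of_le ?_ (mul_le_mul_of_nonneg_right (h1 j) (mul_self_nonneg _))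
  rw [sum_mul]
  exact sum_congr rfl fun k _ => by ring

lemma Opb.row {d : ι → ι → ℝ} {B : ℝ} (h : Opb d B) (hB : 0 ≤ B) {r : ι → ℝ} {μ : ℝ} (hμ : 0 ≤ μ)
    (hr : ∀ j, |r j| ≤ μ) (y : ι → ℝ) : nrm (fun k => r ⬝ᵥ (d k * y)) ≤ B * (μ * nrm y) := by
  refine le_of_eq_of_le ?_ ((h (r * y)).trans (mul_le_mul_of_nonneg_left (nrm_mul hμ hr) hB))
  congr 1
  ext k
  exact sum_congr rfl fun j _ => by simp only [Pi.mul_apply]; ring

end nrm

section rec
variable {ι L : Type*} [Fintype ι] [DecidableEq ι] [DecidableEq L] {U : Finset L}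
  {S : L → Finset L} {rk : L → ℕ} {J : Matrix ι ι ℝ} {o : L → L → ℝ} {a a' : L → L → ι → ℝ}
  {s F Y s' F' Y' : L → ι → ℝ} {T Z : L → L → Matrix ι ι ℝ}

/-- triangular index structure -/
structure Tri (U : Finset L) (S : L → Finset L) (rk : L → ℕ) : Prop where
  sub : ∀ l ∈ U, S l ⊆ U
  lt : ∀ l ∈ U, ∀ m ∈ S l, rk m < rk l

/-- the linear recursion with letters `a`, constants `o`, sources `s` -/
def Rc (U : Finset L) (S : L → Finset L) (J : Matrix ι ι ℝ) (o : L → L → ℝ) (a : L → L → ι → ℝ)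
    (s F Y : L → ι → ℝ) : Prop :=
  ∀ l ∈ U, F l = s l + ∑ m ∈ S l, a l m * Y m ∧ Y l = J *ᵥ F l - ∑ m ∈ S l, o l m • F m

/-- its propagator -/
def Prp (U : Finset L) (S : L → Finset L) (J : Matrix ι ι ℝ) (o : L → L → ℝ) (a : L → L → ι → ℝ)
    (T Z : L → L → Matrix ι ι ℝ) : Prop :=
  ∀ q ∈ U, ∀ l ∈ U, T l q = (if l = q then 1 else 0) + ∑ m ∈ S l, diagonal (a l m) * Z m q ∧
    Z l q = J * T l q - ∑ m ∈ S l, o l m • T m q

lemma Prp.rc (h : Prp U S J o a T Z) (s : L → ι → ℝ) :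
    Rc U S J o a s (fun l => ∑ q ∈ U, T l q *ᵥ s q) fun l => ∑ q ∈ U, Z l q *ᵥ s q := fun l hl => by
  have e1 : ∀ q ∈ U, T l q *ᵥ s q = (if l = q then s q else 0) +
      ∑ m ∈ S l, a l m * (Z m q *ᵥ s q) := fun q hq => by
    rw [(h q hq l hl).1, add_mulVec, Matrix.sum_mulVec]
    congr 1
    · split_ifs <;> simp
    · exact sum_congr rfl fun m _ => by rw [← mulVec_mulVec]; ext j; simp [mulVec_diagonal]
  have e2 : ∀ q ∈ U, Z l q *ᵥ s q = J *ᵥ (T l q *ᵥ s q) -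
      ∑ m ∈ S l, o l m • (T m q *ᵥ s q) := fun q hq => by
    rw [(h q hq l hl).2, sub_mulVec, Matrix.sum_mulVec]
    simp only [mulVec_mulVec, smul_mulVec]
  constructor
  · beta_reduce
    rw [sum_congr rfl e1, sum_add_distrib, sum_comm, sum_ite_eq, if_pos hl]
    simp only [mul_sum]
  · beta_reduce
    rw [sum_congr rfl e2, sum_sub_distrib, sum_comm, mulVec_sum]
    simp only [smul_sum]

lemma Rc.sub (h : Rc U S J o a s F Y) (h' : Rc U S J o a' s' F' Y') :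
    Rc U S J o a (fun l => s l - s' l + ∑ m ∈ S l, (a l m - a' l m) * Y' m) (F - F') (Y - Y') :=
  fun l hl => by
  constructor
  · simp only [Pi.sub_apply, (h l hl).1, (h' l hl).1, sub_mul, mul_sub, sum_sub_distrib]
    abel
  · simp only [Pi.sub_apply, mulVec_sub, smul_sub, sum_sub_distrib]
    rw [(h l hl).2, (h' l hl).2]
    abel

end rec

variable {L : Type} [DecidableEq L] {U : Finset L} {S : L → Finset L} {rk : L → ℕ}

/-- forward bound -/
theorem fwd (hT : Tri U S rk) {B : ℝ} (hB : 0 ≤ B) : ∃ C, 0 ≤ C ∧ ∀ (n : ℕ)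
    (J : Matrix (Fin n) (Fin n) ℝ) (o : L → L → ℝ) (a : L → L → Fin n → ℝ) (s F Y : L → Fin n → ℝ)
    (σ : ℝ), opn J ≤ B → (∀ l ∈ U, ∀ m ∈ S l, |o l m| ≤ B) →
    (∀ l ∈ U, ∀ m ∈ S l, ∀ k, |a l m k| ≤ B) → Rc U S J o a s F Y → (∀ l ∈ U, nrm (s l) ≤ σ) →
    ∀ l ∈ U, nrm (F l) ≤ C * σ ∧ nrm (Y l) ≤ C * σ := by
  suffices H : ∀ r : ℕ, ∃ C, 0 ≤ C ∧ ∀ (n : ℕ) (J : Matrix (Fin n) (Fin n) ℝ) (o : L → L → ℝ)
      (a : L → L → Fin n → ℝ) (s F Y : L → Fin n → ℝ) (σ : ℝ), opn J ≤ B →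
      (∀ l ∈ U, ∀ m ∈ S l, |o l m| ≤ B) → (∀ l ∈ U, ∀ m ∈ S l, ∀ k, |a l m k| ≤ B) →
      Rc U S J o a s F Y → (∀ l ∈ U, nrm (s l) ≤ σ) →
      ∀ l ∈ U, rk l < r → nrm (F l) ≤ C * σ ∧ nrm (Y l) ≤ C * σ by
    obtain ⟨C, h0, hC⟩ := H (U.sup rk + 1)
    exact ⟨C, h0, fun n J o a s F Y σ h1 h2 h3 h4 h5 l hl =>
      hC n J o a s F Y σ h1 h2 h3 h4 h5 l hl (Nat.lt_succ_of_le (le_sup hl))⟩
  intro r
  induction r with
  | zero => exact ⟨0, le_rfl, fun _ _ _ _ _ _ _ _ _ _ _ _ _ _ _ h => absurd h (Nat.not_lt_zero _)⟩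
  | succ r ih =>
    obtain ⟨C, h0, hC⟩ := ih
    refine ⟨(1 + B) * (1 + #U * (B * C)) + #U * (B * C), by positivity,
      fun n J o a s F Y σ h1 h2 h3 h4 h5 l hl hr => ?_⟩
    have hσ : 0 ≤ σ := (nrm_nonneg _).trans (h5 l hl)
    have ih := fun m hm => hC n J o a s F Y σ h1 h2 h3 h4 h5 m (hT.sub l hl hm)
      ((hT.lt l hl m hm).trans_le (Nat.lt_succ_iff.1 hr))
    have a1 : nrm (F l) ≤ σ + #U * (B * (C * σ)) := by
      rw [(h4 l hl).1]
      exact (nrm_add_le _ _).trans (add_le_add (h5 l hl) (nrm_sum_bd (hT.sub l hl) (by positivity)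
        fun m hm => (nrm_mul hB (h3 l hl m hm)).trans (mul_le_mul_of_nonneg_left (ih m hm).2 hB)))
    have a2 : nrm (Y l) ≤ B * nrm (F l) + #U * (B * (C * σ)) := by
      rw [(h4 l hl).2]
      exact (nrm_sub_le _ _).trans (add_le_add ((nrm_mulVec_le _ _).trans
        (mul_le_mul_of_nonneg_right h1 (nrm_nonneg _))) (nrm_sum_bd (hT.sub l hl) (by positivity)
          fun m hm => (nrm_smul _ _).trans_le
            (mul_le_mul (h2 l hl m hm) (ih m hm).1 (nrm_nonneg _) hB)))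
    have a3 := mul_le_mul_of_nonneg_left a1 hB
    have a4 : 0 ≤ #U * (B * (C * σ)) := by positivity
    have a5 : 0 ≤ B * (σ + #U * (B * (C * σ))) := by positivity
    constructor <;> nlinarith

/-- uniqueness: the solution is given by the propagator -/
theorem Rc.eq (hT : Tri U S rk) {n : ℕ} {J : Matrix (Fin n) (Fin n) ℝ} {o : L → L → ℝ}
    {a : L → L → Fin n → ℝ} {s F Y : L → Fin n → ℝ} {T Z : L → L → Matrix (Fin n) (Fin n) ℝ}
    {B : ℝ} (h1 : opn J ≤ B) (h2 : ∀ l ∈ U, ∀ m ∈ S l, |o l m| ≤ B)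
    (h3 : ∀ l ∈ U, ∀ m ∈ S l, ∀ k, |a l m k| ≤ B) (h : Rc U S J o a s F Y)
    (hp : Prp U S J o a T Z) {l : L} (hl : l ∈ U) : Y l = ∑ q ∈ U, Z l q *ᵥ s q := by
  obtain ⟨C, -, hC⟩ := fwd hT ((opn_nonneg J).trans h1)
  have := (hC n J o a _ _ _ 0 h1 h2 h3 (h.sub (hp.rc s)) (fun l _ => by simp) l hl).2
  rw [mul_zero] at this
  exact sub_eq_zero.1 (nrm_eq_zero.1 (le_antisymm this (nrm_nonneg _)))

/-- a Lipschitz source -/
structure Src {n : ℕ} (B : ℝ) (s : Cube n → Fin n → ℝ) : Prop where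
  bd : ∀ x, nrm (s x) ≤ B
  row : ∀ x (r : Fin n → ℝ) (μ : ℝ), 0 ≤ μ → (∀ j, |r j| ≤ μ) →
    nrm (fun k => r ⬝ᵥ (s x - s (fl x k))) ≤ B * μ
  hs : ∀ x, nrm (fun k => nrm (s x - s (fl x k))) ≤ B

lemma Src.mono {n : ℕ} {B B' : ℝ} {s : Cube n → Fin n → ℝ} (h : Src B s) (hB : B ≤ B') : Src B' s :=
  ⟨fun x => (h.bd x).trans hB, fun x r μ h0 hr => (h.row x r μ h0 hr).trans
    (mul_le_mul_of_nonneg_right hB h0), fun x => (h.hs x).trans hB⟩

lemma Src.zero {n : ℕ} : Src 0 fun _ : Cube n => (0 : Fin n → ℝ) :=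
  ⟨fun _ => by simp, fun _ _ _ _ _ => by simp [nrm, dotProduct], fun _ => by simp [nrm, dotProduct]⟩

lemma Src.add {n : ℕ} {B B' : ℝ} {s s' : Cube n → Fin n → ℝ} (h : Src B s) (h' : Src B' s') :
    Src (B + B') fun x => s x + s' x := by
  refine ⟨fun x => (nrm_add_le _ _).trans (add_le_add (h.bd x) (h'.bd x)), fun x r μ h0 hr => ?_,
    fun x => ?_⟩
  · rw [add_mul]
    refine le_of_eq_of_le ?_ ((nrm_add_le _ _).trans (add_le_add (h.row x r μ h0 hr)
      (h'.row x r μ h0 hr)))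
    congr 1
    ext k
    rw [Pi.add_apply, ← dotProduct_add, add_sub_add_comm]
  · refine le_trans (nrm_mono fun k => ?_) ((nrm_add_le _ _).trans (add_le_add (h.hs x) (h'.hs x)))
    rw [abs_of_nonneg (nrm_nonneg _), add_sub_add_comm]
    exact nrm_add_le _ _

/-- a bounded multiplier with bounded Jacobian times a fixed vector -/
lemma Src.mul {n : ℕ} {B R : ℝ} {c : Cube n → Fin n → ℝ} {z : Fin n → ℝ} (hB : 0 ≤ B)
    (h : ∀ x k, |c x k| ≤ B) (hd : ∀ x, Opb (fun k => c x - c (fl x k)) B) (hz : nrm z ≤ R) :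
    Src (B * R) fun x => c x * z := by
  refine ⟨fun x => (nrm_mul hB (h x)).trans (mul_le_mul_of_nonneg_left hz hB),
    fun x r μ h0 hr => ?_, fun x => ?_⟩
  · simp only [← sub_mul]
    refine ((hd x).row hB h0 hr z).trans ?_
    rw [mul_assoc, mul_comm R]
    gcongr
  · simp only [← sub_mul]
    exact ((hd x).hs hB z).trans (mul_le_mul_of_nonneg_left hz hB)

lemma Src.sum {n : ℕ} {κ : Type*} (t : Finset κ) {B : ℝ} {s : κ → Cube n → Fin n → ℝ}
    (h : ∀ k ∈ t, Src B (s k)) : Src (#t * B) fun x => ∑ k ∈ t, s k x := by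
  classical
  induction t using Finset.induction_on with
  | empty => simpa using Src.zero
  | insert k t hk ih =>
    simp only [sum_insert hk, card_insert_of_notMem hk]
    exact ((h k (mem_insert_self _ _)).add (ih fun j hj => h j (mem_insert_of_mem hj))).mono
      (by push_cast; linarith)

/-- **(C3), pointwise form** -/
theorem core (hT : Tri U S rk) {B : ℝ} (hB : 0 ≤ B) : ∃ C, 0 ≤ C ∧ ∀ (n : ℕ)
    (J : Matrix (Fin n) (Fin n) ℝ) (o : L → L → ℝ) (a : Cube n → L → L → Fin n → ℝ)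
    (s ρ F Y : Cube n → L → Fin n → ℝ) (T Z : Cube n → L → L → Matrix (Fin n) (Fin n) ℝ)
    (M : Cube n → ℝ) (i : Fin n), opn J ≤ B → (∀ l ∈ U, ∀ m ∈ S l, |o l m| ≤ B) →
    (∀ x, ∀ l ∈ U, ∀ m ∈ S l, ∀ k, |a x l m k| ≤ B) →
    (∀ x, ∀ l ∈ U, ∀ m ∈ S l, Opb (fun k => a x l m - a (fl x k) l m) B) →
    (∀ q ∈ U, Src B fun x => s x q) → (∀ x, ∀ q ∈ U, ∑ j, |ρ x q j| ≤ B) →
    (∀ x, Rc U S J o (a x) (s x + ρ x) (F x) (Y x)) → (∀ x, Prp U S J o (a x) (T x) (Z x)) →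
    ∀ l ∈ U, (∀ x, ∀ q ∈ U, ∀ j, |Z x l q i j| ≤ M x) → ∃ Ψ : Cube n → ℝ, ∀ x,
      |Y x l i - Ψ x| ≤ C * M x ∧ |Ψ x| ≤ C ∧ nrm (fun k => Ψ x - Ψ (fl x k)) ≤ C * M x := by
  obtain ⟨C, h0, hC⟩ := fwd hT hB
  set N : ℝ := (#U : ℝ) with hN
  have hN0 : 0 ≤ N := Nat.cast_nonneg _
  set D := C * (N * (B + N * (B * (C * B)))) with hD
  have hD0 : 0 ≤ D := by positivity
  refine ⟨N * B + C * B + N * (B + N * (B * (C * B) + B * D)), by positivity, ?_⟩
  intro n J o a s ρ F Y T Z M i h1 h2 h3 h4 h5 h6 h7 h8 l hl hM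
  have hr := fun x => (h8 x).rc (s x)
  set F0 : Cube n → L → Fin n → ℝ := fun x l => ∑ q ∈ U, T x l q *ᵥ s x q
  set Y0 : Cube n → L → Fin n → ℝ := fun x l => ∑ q ∈ U, Z x l q *ᵥ s x q with hY0
  have b0 : ∀ x, ∀ m ∈ U, nrm (Y0 x m) ≤ C * B := fun x m hm =>
    (hC n J o (a x) _ _ _ B h1 h2 (h3 x) (hr x) (fun q hq => (h5 q hq).bd x) m hm).2
  have b1 : ∀ x, ∀ m ∈ U, nrm (fun k => nrm (Y0 x m - Y0 (fl x k) m)) ≤ D := fun x m hm => by
    have e := fun k => (hC n J o _ _ _ _ (∑ q ∈ U, (nrm (s x q - s (fl x k) q) +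
      ∑ m ∈ S q, nrm ((a x q m - a (fl x k) q m) * Y0 x m))) h1 h2 (h3 (fl x k))
      ((hr (fl x k)).sub (hr x)) (fun q hq => le_trans (by
        refine (nrm_add_le _ _).trans (add_le_add (by rw [← nrm_neg, neg_sub])
          ((nrm_sum _ _).trans_eq (sum_congr rfl fun m _ => ?_)))
        rw [← nrm_neg, ← neg_mul, neg_sub]) (single_le_sum (f := fun q => nrm (s x q - s (fl x k) q) +
          ∑ m ∈ S q, nrm ((a x q m - a (fl x k) q m) * Y0 x m)) (fun q _ => add_nonneg (nrm_nonneg _)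
            (sum_nonneg fun m _ => nrm_nonneg _)) hq)) m hm).2
    refine (nrm_mono (v := C • ∑ q ∈ U, ((fun k => nrm (s x q - s (fl x k) q)) +
      ∑ m ∈ S q, fun k => nrm ((a x q m - a (fl x k) q m) * Y0 x m))) fun k => ?_).trans ?_
    · rw [abs_of_nonneg (nrm_nonneg _), ← nrm_neg, neg_sub]
      simp only [Pi.smul_apply, Finset.sum_apply, Pi.add_apply, smul_eq_mul]
      exact e k
    · rw [nrm_smul, abs_of_nonneg h0]
      exact mul_le_mul_of_nonneg_left (nrm_sum_bd subset_rfl (by positivity) fun q hq =>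
        (nrm_add_le _ _).trans (add_le_add ((h5 q hq).hs x) (nrm_sum_bd (hT.sub q hq)
          (by positivity) fun m hm => ((h4 x q hq m hm).hs hB _).trans
            (mul_le_mul_of_nonneg_left (b0 x m (hT.sub q hq hm)) hB)))) h0
  refine ⟨fun x => Y0 x l i, fun x => ?_⟩
  have hM0 : 0 ≤ M x := (abs_nonneg _).trans (hM x l hl i)
  have p1 : 0 ≤ N * B * M x := by positivity
  have p2 : 0 ≤ C * B * M x := by positivity
  have p3 : 0 ≤ N * (B + N * (B * (C * B) + B * D)) := by positivity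
  refine ⟨?_, ?_, ?_⟩
  · have e : Y x l i - Y0 x l i = ∑ q ∈ U, Z x l q i ⬝ᵥ ρ x q := by
      rw [(h7 x).eq hT h1 h2 (h3 x) (h8 x) hl, hY0]
      simp only [Pi.add_apply, mulVec_add, sum_add_distrib, add_sub_cancel_left, Finset.sum_apply]
      rfl
    have := (abs_sum_le_sum_abs _ _).trans (sum_le_sum fun q hq => (abs_dot_l1 (hM x q hq)).trans
      (mul_le_mul_of_nonneg_left (h6 x q hq) hM0))
    rw [← e, sum_const, nsmul_eq_mul] at this
    nlinarith [mul_nonneg p3 hM0]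
  · have := (abs_apply_le_nrm _ i).trans (b0 x l hl)
    have := mul_nonneg hN0 hB
    linarith
  · have e : (fun k => Y0 x l i - Y0 (fl x k) l i) = ∑ q ∈ U,
        ((fun k => Z x l q i ⬝ᵥ (s x q - s (fl x k) q)) + ∑ m ∈ S q,
          ((fun k => Z x l q i ⬝ᵥ ((a x q m - a (fl x k) q m) * Y0 x m)) -
            fun k => Z x l q i ⬝ᵥ ((a x q m - a (fl x k) q m) * (Y0 x m - Y0 (fl x k) m)))) := by
      ext k
      have := congrFun (((hr x).sub (hr (fl x k))).eq hT h1 h2 (h3 x) (h8 x) hl) i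
      refine this.trans ?_
      simp only [Finset.sum_apply, Pi.add_apply, Pi.sub_apply, ← dotProduct_sub, ← mul_sub,
        sub_sub_cancel, ← dotProduct_sum, ← dotProduct_add]
      rfl
    rw [e]
    refine (nrm_sum_bd subset_rfl (c := B * M x + N * (B * (M x * (C * B)) + M x * B * D))
      (by positivity) fun q hq => (nrm_add_le _ _).trans (add_le_add ((h5 q hq).row x _ _ hM0
        (hM x q hq)) (nrm_sum_bd (hT.sub q hq) (by positivity) fun m hm =>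
          (nrm_sub_le _ _).trans (add_le_add (((h4 x q hq m hm).row hB hM0 (hM x q hq) _).trans ?_)
            ?_)))).trans ?_
    · have := b0 x m (hT.sub q hq hm)
      gcongr
    · refine (nrm_mono (v := (M x * B) • fun k => nrm (Y0 x m - Y0 (fl x k) m)) fun k => ?_).trans ?_
      · have e2 : Z x l q i ⬝ᵥ ((a x q m - a (fl x k) q m) * (Y0 x m - Y0 (fl x k) m)) =
            (Z x l q i * (a x q m - a (fl x k) q m)) ⬝ᵥ (Y0 x m - Y0 (fl x k) m) :=
          sum_congr rfl fun j _ => (mul_assoc _ _ _).symm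
        rw [e2]
        exact (abs_dot_le _ _).trans (mul_le_mul_of_nonneg_right ((nrm_mul hM0 (hM x q hq)).trans
          (mul_le_mul_of_nonneg_left ((h4 x q hq m hm).col hB k) hM0)) (nrm_nonneg _))
      · rw [nrm_smul, abs_of_nonneg (by positivity)]
        exact mul_le_mul_of_nonneg_left (b1 x m (hT.sub q hq hm)) (by positivity)
    · nlinarith

/-- the variance from the pointwise form -/
theorem var_le {n : ℕ} {w G Ψ M : Cube n → ℝ} {K δ C : ℝ} (hw : ∀ x, 0 < w x) (hK : 0 ≤ K)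
    (hδ : 0 ≤ δ) (h : Atd.ATd w K δ) (hΨ : ∀ x, |G x - Ψ x| ≤ C * M x ∧ |Ψ x| ≤ C ∧
      nrm (fun k => Ψ x - Ψ (fl x k)) ≤ C * M x) :
    var w G ≤ 2 * (K + 1) * C ^ 2 * (mean w fun x => M x ^ 2) + 4 * δ * C ^ 2 := by
  have hW : SL.Wt w := .of_pos hw
  have h1 := h.poinc hw hK hδ Ψ (c := 0) (Ω := C) fun x => by simpa using (hΨ x).2.1
  have h2 : dir w Ψ ≤ C ^ 2 * mean w fun x => M x ^ 2 := by
    rw [← SL.mean_const_mul]
    refine (S3.Hb.dir_le_Vp hw Ψ).trans (hW.mean_mono fun x => ?_)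
    have := pow_le_pow_left₀ (nrm_nonneg _) (hΨ x).2.2 2
    rw [nrm_sq, mul_pow] at this
    refine le_trans (sum_le_sum fun k _ => ?_) this
    rw [← sq]
    exact S3.Hb.max_sq_le le_rfl
  have h3 : var w G ≤ mean w fun x => (G x - mean w Ψ) ^ 2 := by
    have e : (mean w fun x => (G x - mean w Ψ) ^ 2) = var w G + (mean w G - mean w Ψ) ^ 2 := by
      have : (fun x => (G x - mean w Ψ) ^ 2) = fun x => (G x - mean w G) ^ 2 +
          (2 * (mean w G - mean w Ψ) * (G x - mean w G) + (mean w G - mean w Ψ) ^ 2) := by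
        ext x; ring
      rw [this, SL.mean_add, SL.mean_add, SL.mean_const_mul, SL.mean_sub, hW.mean_const,
        hW.mean_const, sub_self, mul_zero, zero_add]
      rfl
    rw [e]
    exact le_add_of_nonneg_right (sq_nonneg _)
  have h4 : (mean w fun x => (G x - mean w Ψ) ^ 2) ≤
      2 * var w Ψ + 2 * C ^ 2 * mean w fun x => M x ^ 2 := by
    change _ ≤ 2 * (mean w fun x => (Ψ x - mean w Ψ) ^ 2) + _
    rw [← SL.mean_const_mul, ← SL.mean_const_mul, ← SL.mean_add]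
    refine hW.mean_mono fun x => ?_
    have := pow_le_pow_left₀ (abs_nonneg _) (hΨ x).1 2
    rw [sq_abs, mul_pow] at this
    nlinarith [sq_nonneg (G x - Ψ x - (Ψ x - mean w Ψ))]
  nlinarith [mul_le_mul_of_nonneg_left h2 hK]

end Crest.Agent.T157.S3L.C365

end
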