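import Crest.Agent.T157.S3Row_65
import Crest.Agent.T157.S3Clt_58

/-!
# Row 157, block B/S3, section 4: the local law from the cavity data (network free; helper65)
-/

set_option autoImplicit false

noncomputable section

namespace Crest.Agent.T157.S3L.Ll65

open MeasureTheory ProbabilityTheory Matrix Filter Set Topology Function
open Crest.ProbabilityR.SpinGlassDynamics
open Crest.Agent.T157.E Crest.Agent.T157.Tap
open Crest.Agent.T157.Conc (en ELip en_nonneg en_sq)

variable {n : ℕ} {L κ : Type} [Fintype L] [Fintype κ]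

lemma sum_site (i : Fin n) (G : Bool → Cube n → ℝ) (h : ∀ σ x τ, G σ (update x i τ) = G σ x) :
    2 * ∑ x : Cube n, G (x i) x = ∑ σ, ∑ x : Cube n, G σ x := by
  have inv : Involutive fun x : Cube n => update x i (!x i) := fun x => by simp
  have e : ∑ x : Cube n, G (x i) x = ∑ x : Cube n, G (!x i) x := by
    rw [← Equiv.sum_comp inv.toPerm]
    exact Finset.sum_congr rfl fun x _ => by simp [h]
  rw [two_mul, Finset.sum_comm]
  nth_rewrite 2 [e]
  rw [← Finset.sum_add_distrib]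
  refine Finset.sum_congr rfl fun x _ => ?_
  cases x i <;> simp [add_comm]

omit [Fintype L] in
/-- the law of `(s_i, ξ)` is the cavity law with the spin attached -/
lemma mean_eq_tl {w wc : Cube n → ℝ} {ξ : Cube n → L → ℝ} {i : Fin n} {o : L} {b : ℝ}
    (hc : SL.Wt wc) (hw : ∀ x, w x = wc x * Real.exp (sv x i * (b + ξ x o)))
    (h1 : ∀ x τ, wc (update x i τ) = wc x) (h2 : ∀ x τ, ξ (update x i τ) = ξ x)
    (ψ : Bool → (L → ℝ) → ℝ) : (mean w fun x => ψ (x i) (ξ x)) = tl wc ξ o b ψ := by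
  have key : ∀ F : Bool → (L → ℝ) → ℝ, ∑ σ, Real.exp (spin σ * b) *
      (mean wc fun x => Real.exp (spin σ * ξ x o) * F σ (ξ x)) =
      2 * (∑ x, w x * F (x i) (ξ x)) / ∑ x, wc x := fun F => by
    simp only [hw, sv]
    rw [sum_site i (fun σ x => wc x * Real.exp (spin σ * (b + ξ x o)) * F σ (ξ x))
      fun σ x τ => by rw [h1, h2], Finset.sum_div]
    refine Finset.sum_congr rfl fun σ _ => ?_
    rw [SL.mean_eq_div, ← mul_div_assoc, Finset.mul_sum]
    congr 1
    refine Finset.sum_congr rfl fun x _ => ?_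
    rw [mul_add, Real.exp_add]
    ring
  have k1 := key fun _ _ => 1
  simp only [mul_one] at k1
  rw [tl, key, k1, SL.mean_eq_div, div_div_div_cancel_right₀ hc.pos.ne',
    mul_div_mul_left _ _ two_ne_zero]

lemma tst_spin : Tst fun σ (_ : L → ℝ) => spin σ := fun σ =>
  ⟨fun x y => by simpa using en_nonneg _, by cases σ <;> simp [spin]⟩

lemma tst_coord (l : L) : Tst fun _ (x : L → ℝ) => x l := fun _ =>
  ⟨fun x y => by simpa using Conc.abs_le_en (x - y) l, by simp⟩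

/-- one site: recentring and replacement of the cavity fields by the true ones -/
theorem site (L : Type) [Fintype L] (o : L) (C : ℝ) : ∃ K > (0 : ℝ), ∀ (Ω κ : Type) [Fintype Ω]
    [Fintype κ] (w : Ω → ℝ) (s : Ω → Bool) (X ξ : Ω → L → ℝ) (A : Matrix L κ ℝ) (b b' ε : ℝ),
    SL.Wt w → f2 A ≤ C → (∀ ψ, Tst ψ → |(mean w fun x => ψ (s x) (ξ x)) - mdl A o b' ψ| ≤ ε) →
    (∀ l, (mean w fun x => X x l) = (A * Aᵀ) l o * mean w fun x => spin (s x)) →
    (∀ x, X x o = ξ x o + (b' - b)) → ∀ ψ, Tst ψ →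
    |(mean w fun x => ψ (s x) (X x)) - mdl A o b ψ| ≤
      K * ε + ∑ l, √(var w fun x => X x l - ξ x l) := by
  obtain ⟨hv, hK⟩ := mdlStmt L o
  obtain ⟨K, hK⟩ := hK C
  refine ⟨1 + (Fintype.card L + |K|) * (|C| + 1), by positivity, ?_⟩
  intro Ω κ _ _ w s X ξ A b b' ε hw hA h hm ho ψ hψ
  have hε : 0 ≤ ε := (abs_nonneg _).trans (h ψ hψ)
  have hc : ∀ l, |mean w fun x => X x l - ξ x l| ≤ (|C| + 1) * ε := fun l => by
    have a1 := h _ tst_spin
    have a2 := h _ (tst_coord l)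
    rw [(hv κ A b').1] at a1
    rw [(hv κ A b').2] at a2
    have a3 : |(A * Aᵀ) l o| ≤ |C| :=
      (Clt58.gram_le A l o).trans (((Clt58.trace_eq A).trans_le hA).trans (le_abs_self C))
    rw [SL.mean_sub, hm, show ∀ p q r t : ℝ, p * q - r = p * (q - t) - (r - p * t) from
      fun _ _ _ _ => by ring]
    refine (abs_sub _ _).trans ?_
    rw [abs_mul, add_mul, one_mul]
    exact add_le_add (mul_le_mul a3 a1 (abs_nonneg _) (abs_nonneg _)) a2
  have hb : |b' - b| ≤ (|C| + 1) * ε := by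
    have := hc o
    simp only [ho, add_sub_cancel_left] at this
    rwa [hw.mean_const] at this
  have b1 := hK κ κ A A b' b 0 ψ hψ hA zero_le_one (by simp [d1])
  rw [Real.sqrt_zero, add_zero] at b1
  have b2 : K * |b' - b| ≤ |K| * ((|C| + 1) * ε) :=
    mul_le_mul (le_abs_self K) hb (abs_nonneg _) (abs_nonneg _)
  have b3 := Row65.abs_mean_sub hw (f := fun x => ψ (s x) (X x)) (g := fun x => ψ (s x) (ξ x))
    (d := fun x => ∑ l, ((|C| + 1) * ε + |X x l - ξ x l - mean w fun x => X x l - ξ x l|))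
    fun x => ((hψ (s x)).1 _ _).trans (by
      rw [one_mul]
      refine (Conc.en_le_sum _).trans (Finset.sum_le_sum fun l _ => ?_)
      have := abs_add_le (mean w fun x => X x l - ξ x l)
        (X x l - ξ x l - mean w fun x => X x l - ξ x l)
      rw [add_sub_cancel] at this
      exact this.trans (add_le_add (hc l) le_rfl))
  have b4 : (mean w fun x => ∑ l, ((|C| + 1) * ε +
      |X x l - ξ x l - mean w fun x => X x l - ξ x l|)) ≤
      Fintype.card L * ((|C| + 1) * ε) + ∑ l, √(var w fun x => X x l - ξ x l) := by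
    rw [SL.mean_sum, ← Finset.card_univ, ← nsmul_eq_mul, ← Finset.sum_const,
      ← Finset.sum_add_distrib]
    refine Finset.sum_le_sum fun l _ => ?_
    rw [SL.mean_add, hw.mean_const]
    refine add_le_add le_rfl ((Row65.mean_le_sqrt hw _).trans_eq ?_)
    simp only [sq_abs]
    rfl
  have b5 := h ψ hψ
  rw [abs_le] at b1 b3 b5 ⊢
  constructor <;> nlinarith

/-- the cavity data of the site `i` for the weight `w`, the row `g`, the fields `X`, the static
field `b` and the Gram factor `A`; `c` is the size of the couplings -/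
structure Site (C δ c : ℝ) (o : L) (w : Cube n → ℝ) (g : V n) (X : Cube n → L → ℝ) (b : ℝ)
    (A : Matrix L κ ℝ) (i : Fin n) (wc : Cube n → ℝ) (Vc : Cube n → Matrix L (Fin n) ℝ) : Prop where
  pos : ∀ x, 0 < wc x
  fw : ∀ x τ, wc (update x i τ) = wc x
  fV : ∀ x τ, Vc (update x i τ) = Vc x
  tilt : ∃ b', (∀ x, w x = wc x * Real.exp (sv x i * (b' + (Vc x *ᵥ g) o))) ∧
    ∀ x, X x o = (Vc x *ᵥ g) o + (b' - b)
  cen : ∀ l, (mean w fun x => X x l) = (A * Aᵀ) l o * mean w fun x => sv x i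
  m4 : (mean wc fun x => en (Vc x *ᵥ g) ^ 4) ≤ C
  e4 : (mean wc fun x => Real.exp (4 * |(Vc x *ᵥ g) o|)) ≤ C
  fA : f2 A ≤ C
  ov : (mean wc fun x => d1 (c ^ 2 • (Vc x * (Vc x)ᵀ)) (A * Aᵀ)) ≤ δ

/-- **local law at one site** from the cavity data and "quenched = annealed" -/
theorem ll_site (hT : TiltStmt) (L : Type) [Fintype L] (o : L) (C ε : ℝ) (hε : 0 < ε) :
    ∃ δ > (0 : ℝ), ∀ (n : ℕ) (κ : Type) [Fintype κ] (c : ℝ) (w : Cube n → ℝ) (g : V n)
      (X : Cube n → L → ℝ) (b : ℝ) (A : Matrix L κ ℝ) (i : Fin n) (wc : Cube n → ℝ)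
      (Vc : Cube n → Matrix L (Fin n) ℝ), Site C δ c o w g X b A i wc Vc →
      (∀ φ, ELip 1 φ → |(mean wc fun x => φ (Vc x *ᵥ g)) -
        ∫ z, mean wc (fun x => φ (Vc x *ᵥ (c • z))) ∂gv (Fin n)| ≤ δ) →
      ∀ ψ, Tst ψ → |(mean w fun x => ψ (x i) (X x)) - mdl A o b ψ| ≤
        ε + ∑ l, √(var w fun x => X x l - (Vc x *ᵥ g) l) := by
  obtain ⟨K, hK0, hK⟩ := site L o C
  obtain ⟨δ, hδ, hδ'⟩ := hT L o C (ε / K) (by positivity)
  have hN : (0 : ℝ) < Fintype.card L + 1 := by positivity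
  refine ⟨min (δ / 2) ((δ / 4) ^ 2 / (Fintype.card L + 1)), by positivity, ?_⟩
  intro n κ _ c w g X b A i wc Vc h hq ψ hψ
  obtain ⟨b', h1, h2⟩ := h.tilt
  have hc : SL.Wt wc := .of_pos h.pos
  have hw : SL.Wt w := .of_pos fun x => by rw [h1]; exact mul_pos (h.pos x) (Real.exp_pos _)
  have := hK (Cube n) κ w (fun x => x i) X (fun x => Vc x *ᵥ g) A b b' (ε / K) hw h.fA
    (fun ψ hψ => ?_) h.cen h2 ψ hψ
  · rwa [mul_div_cancel₀ _ hK0.ne'] at this
  rw [mean_eq_tl (ξ := fun x => Vc x *ᵥ g) hc h1 h.fw fun x τ => by rw [h.fV]]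
  refine hδ' κ (Cube n) wc _ A hc h.m4 h.e4 h.fA (fun φ hφ => ?_) b' ψ hψ
  have a1 := (hq φ hφ).trans (min_le_left _ _)
  have a2 := meanStmt L κ (Fin n) (Cube n) wc (fun x => c • Vc x) A φ _ hc hφ
    (le_of_eq_of_le (by simp only [transpose_smul, Matrix.smul_mul, Matrix.mul_smul, smul_smul, sq])
      (h.ov.trans (min_le_right _ _)))
  rw [mul_div_cancel₀ _ hN.ne', Real.sqrt_sq (by positivity)] at a2
  simp only [smul_mulVec, ← mulVec_smul] at a2
  rw [abs_le] at a1 a2 ⊢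
  constructor <;> linarith [a1.1, a1.2, a2.1, a2.2]

/-- the fourth powers of the site errors -/
lemma sum_four {ι : Type} [Fintype ι] {v : ι → L → ℝ} (hv : ∀ i l, 0 ≤ v i l) {K : ℝ}
    (h : ∀ l, ∑ i, v i l ^ 2 ≤ K) : ∑ i, (∑ l, √(v i l)) ^ 4 ≤ (Fintype.card L : ℝ) ^ 4 * K := by
  have h1 : ∀ i, (∑ l, √(v i l)) ^ 4 ≤ (Fintype.card L : ℝ) ^ 3 * ∑ l, v i l ^ 2 := fun i => by
    have := pow_sum_le_card_mul_sum_pow (s := Finset.univ) (f := fun l => √(v i l))
      (fun l _ => Real.sqrt_nonneg _) 3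
    refine this.trans_eq ?_
    congr 1
    refine Finset.sum_congr rfl fun l _ => ?_
    rw [show 3 + 1 = 2 * 2 from rfl, pow_mul, Real.sq_sqrt (hv i l)]
  refine (Finset.sum_le_sum fun i _ => h1 i).trans ?_
  rw [← Finset.mul_sum, Finset.sum_comm, pow_succ _ 3, mul_assoc]
  refine mul_le_mul_of_nonneg_left ((Finset.sum_le_sum fun l _ => h l).trans_eq ?_) (by positivity)
  simp

end Crest.Agent.T157.S3L.Ll65

end
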