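import Crest.Agent.T157.S3C3_65
import Crest.Agent.T157.S3Ll_65

/-!
# Row 157, block S3, section 4 (helper16): (C1), transfer between a law and its cavity law
-/

set_option autoImplicit false

noncomputable section

namespace Crest.Agent.T157.S3C

open Matrix Finset Function Real Filter Topology
open Crest.ProbabilityR.SpinGlassDynamics (spin)
open Crest.Agent.T157.E Crest.Agent.T157.Eig
open Crest.Agent.T157.Rec (grad fl)

section gen
variable {Ω : Type*} [Fintype Ω] {w f g : Ω → ℝ}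

lemma mean_cs (hw : SL.Wt w) (f g : Ω → ℝ) :
    (mean w fun x => f x * g x) ^ 2 ≤ (mean w fun x => f x ^ 2) * mean w fun x => g x ^ 2 := by
  have h := sum_mul_sq_le_sq_mul_sq univ (fun x => √(prob w x) * f x) fun x => √(prob w x) * g x
  have e : ∀ x, √(prob w x) * √(prob w x) = prob w x := fun x => mul_self_sqrt (hw.prob_nonneg x)
  simp only [mul_pow, sq_sqrt (hw.prob_nonneg _)] at h
  refine le_of_eq_of_le ?_ h
  rw [mean]
  congr 1
  exact sum_congr rfl fun x _ => by linear_combination (-(f x * g x)) * e x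

lemma mean_sq_le (hw : SL.Wt w) (f : Ω → ℝ) : mean w f ^ 2 ≤ mean w fun x => f x ^ 2 := by
  simpa [hw.mean_const] using mean_cs hw f fun _ => 1

lemma abs_mean_le_mean (hw : SL.Wt w) (f : Ω → ℝ) : |mean w f| ≤ mean w fun x => |f x| :=
  abs_le.2 ⟨by rw [← SL.mean_neg]; exact hw.mean_mono fun x => neg_abs_le _,
    hw.mean_mono fun x => le_abs_self _⟩

lemma le_of_gt {X C A : ℝ} (k : ℕ) (h : ∀ A' > A, X ≤ C * A' ^ k) : X ≤ C * A ^ k :=
  ge_of_tendsto (f := fun A' => C * A' ^ k) (x := 𝓝[>] A)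
    (((by fun_prop : Continuous fun A' : ℝ => C * A' ^ k).tendsto A).mono_left nhdsWithin_le_nhds)
    (eventually_nhdsWithin_of_forall h)

lemma four_le_exp (z : ℝ) : z ^ 4 ≤ 24 * exp |z| := by
  have := pow_div_factorial_le_exp |z| (abs_nonneg z) 4
  rw [Even.pow_abs (by decide), div_le_iff₀ (by positivity)] at this
  norm_num [Nat.factorial] at this
  linarith

/-- moments around the mean from moments around another centre -/
lemma four_centre (hw : SL.Wt w) (f : Ω → ℝ) (c : ℝ) :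
    (mean w fun x => (f x - mean w f) ^ 4) ≤ 16 * mean w fun x => (f x - c) ^ 4 := by
  have h1 : (mean w f - c) ^ 4 ≤ mean w fun x => (f x - c) ^ 4 := by
    have a1 := mean_sq_le hw fun x => f x - c
    have a2 := mean_sq_le hw fun x => (f x - c) ^ 2
    rw [SL.mean_sub, hw.mean_const] at a1
    simp only [← pow_mul] at a2
    exact le_trans (by rw [show 4 = 2 * 2 from rfl, pow_mul]; gcongr) a2
  have h2 : ∀ x, (f x - mean w f) ^ 4 ≤ 8 * (f x - c) ^ 4 + 8 * (mean w f - c) ^ 4 := fun x => by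
    have := (by decide : Even 4).add_pow_le (a := f x - c) (b := c - mean w f)
    rw [sub_add_sub_cancel, show (c - mean w f) ^ 4 = (mean w f - c) ^ 4 by ring] at this
    norm_num at this
    linarith
  refine (hw.mean_mono h2).trans ?_
  rw [SL.mean_add, SL.mean_const_mul, hw.mean_const]
  linarith

end gen

variable {n : ℕ} {w wc h : Cube n → ℝ} {K : ℝ} {i : Fin n}

/-- subgaussian concentration of Lipschitz functions -/
def Mg (w : Cube n → ℝ) (K : ℝ) : Prop := ∀ (F : Cube n → ℝ) (A : ℝ), (∀ x, nrm (grad F x) ≤ A) →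
  ∀ t, (mean w fun x => exp (t * (F x - mean w F))) ≤ exp (K * A ^ 2 * t ^ 2)

theorem mg_of_atd {κ : ℝ} (h : Atd.ATd w K (exp (-(κ * n)))) (hw : ∀ x, 0 < w x) (hK : 0 ≤ K)
    (hκ : 0 < κ) : Mg w (4 * (K + 8 / κ)) := by
  have hW : SL.Wt w := .of_pos hw
  have key : ∀ (F : Cube n → ℝ) (A : ℝ), (∀ x, nrm (grad F x) ≤ A) → ∀ t, 0 ≤ t →
      (mean w fun x => exp (t * (F x - mean w F))) ≤ exp (4 * (K + 8 / κ) * A ^ 2 * t ^ 2) := by
    intro F A hA t ht
    have A0 : 0 ≤ A := (nrm_nonneg _).trans (hA default)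
    have h1 := h.lmgf_le hw hK hκ (G := F) (A := 2 * A) (by positivity) (fun x =>
      (S3.Hb.Vp_le_grad F x).trans (by nlinarith [(nrm_le_iff A0).1 (hA x)])) ht
    have h2 := (log_le_iff_le_exp (Ent.mean_exp_pos hW.isP _)).1 h1
    simp only [mul_sub, exp_sub, SL.mean_div_const]
    rw [div_le_iff₀ (exp_pos _), ← exp_add]
    exact h2.trans_eq (by congr 1; change t * mean w F + _ = _; ring)
  intro F A hA t
  rcases le_total 0 t with ht | ht
  · exact key F A hA t ht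
  · have := key (fun x => -1 * F x) A (fun x => by
      rw [Rec.grad_const_mul, nrm_smul]; simpa using hA x) (-t) (by linarith)
    rw [SL.mean_const_mul, neg_sq] at this
    exact le_of_eq_of_le (by congr 1; ext x; congr 1; ring) this

theorem mg_of_at (h : Ent.AT w K 0) (hw : ∀ x, 0 < w x) (hK : 0 ≤ K) : Mg w (4 * K) := by
  intro F A hA t
  have A0 : 0 ≤ A := (nrm_nonneg _).trans (hA default)
  have h2 := S3.Hb.mgf_le_grad hw hK h (fun x => (nrm_le_iff A0).1 (hA x)) t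
  simp only [mul_sub, exp_sub, SL.mean_div_const]
  rw [div_le_iff₀ (exp_pos _), ← exp_add]
  exact h2.trans_eq (by congr 1; change t * mean w F + _ = _; ring)

lemma Mg.abs (hM : Mg w K) (hw : SL.Wt w) {F : Cube n → ℝ} {A : ℝ} (hA : ∀ x, nrm (grad F x) ≤ A)
    (t : ℝ) : (mean w fun x => exp (t * |F x - mean w F|)) ≤ 2 * exp (K * A ^ 2 * t ^ 2) := by
  have h1 := hM F A hA t
  have h2 := hM F A hA (-t)
  rw [neg_sq] at h2
  refine le_trans (hw.mean_mono fun x => ?_) ((SL.mean_add _ _ _).trans_le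
    ((add_le_add h1 h2).trans_eq (two_mul _).symm))
  rcases abs_cases (F x - mean w F) with e | e <;> rw [e.1]
  · exact le_add_of_nonneg_right (exp_pos _).le
  · rw [mul_neg, neg_mul]; exact le_add_of_nonneg_left (exp_pos _).le

/-- fourth moment under a law dominated in `L²` -/
lemma Mg.four_dom (hM : Mg w K) (hw : SL.Wt w) {v : Cube n → ℝ} (hv : SL.Wt v) {D : ℝ} (hD : 0 ≤ D)
    {F : Cube n → ℝ} {A : ℝ} (hA : ∀ x, nrm (grad F x) ≤ A)
    (hd : ∀ φ : ℝ → ℝ, (∀ z, 0 ≤ φ z) →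
      (mean v fun x => φ (F x)) ^ 2 ≤ D ^ 2 * mean w fun x => φ (F x) ^ 2) :
    (∀ t, (mean v fun x => exp (t * |F x - mean w F|)) ≤ 2 * D * exp (2 * K * A ^ 2 * t ^ 2)) ∧
      (mean v fun x => (F x - mean w F) ^ 4) ≤ 48 * D * exp (2 * K) * A ^ 4 := by
  have A0 : 0 ≤ A := (nrm_nonneg _).trans (hA default)
  have key : ∀ A', A ≤ A' → ∀ t, (mean v fun x => exp (t * |F x - mean w F|)) ≤
      2 * D * exp (2 * K * A' ^ 2 * t ^ 2) := fun A' hA' t => by
    have h1 := hd (fun z => exp (t * |z - mean w F|)) fun _ => (exp_pos _).le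
    have h2 := hM.abs hw (fun x => (hA x).trans hA') (2 * t)
    simp only [← exp_nat_mul, Nat.cast_ofNat, ← mul_assoc] at h1
    refine abs_le_of_sq_le_sq' (h1.trans ((mul_le_mul_of_nonneg_left h2 (sq_nonneg D)).trans ?_))
      (by positivity) |>.2
    rw [mul_pow, mul_pow (2 * D), ← exp_nat_mul, show K * A' ^ 2 * (2 ^ 2 * t ^ 2) =
      (2 : ℕ) * (2 * K * A' ^ 2 * t ^ 2) by push_cast; ring]
    nlinarith [mul_nonneg (sq_nonneg D) (exp_pos ((2 : ℕ) * (2 * K * A' ^ 2 * t ^ 2))).le]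
  refine ⟨key A le_rfl, le_of_gt 4 fun A' hA' => ?_⟩
  have p : 0 < A' := A0.trans_lt hA'
  have h1 := key A' hA'.le A'⁻¹
  rw [mul_assoc (2 * K), ← mul_pow, mul_inv_cancel₀ p.ne', one_pow, mul_one] at h1
  refine (hv.mean_mono (g := fun x => 24 * A' ^ 4 * exp (A'⁻¹ * |F x - mean w F|))
    fun x => ?_).trans ?_
  · have := mul_le_mul_of_nonneg_left (four_le_exp (A'⁻¹ * (F x - mean w F))) (pow_pos p 4).le
    rw [← mul_pow, mul_inv_cancel_left₀ p.ne', abs_mul, abs_of_pos (inv_pos.2 p)] at this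
    linarith
  · rw [SL.mean_const_mul]
    nlinarith [mul_le_mul_of_nonneg_left h1 (pow_pos p 4).le]

lemma Mg.four (hM : Mg w K) (hw : SL.Wt w) {F : Cube n → ℝ} {A : ℝ} (hA : ∀ x, nrm (grad F x) ≤ A) :
    (mean w fun x => (F x - mean w F) ^ 4) ≤ 48 * exp (2 * K) * A ^ 4 := by
  simpa using (hM.four_dom hw hw zero_le_one hA fun φ _ => by simpa using mean_sq_le hw _).2

/-- a function which does not see the spin `i` -/
def Fr (i : Fin n) {α : Type*} (f : Cube n → α) : Prop := ∀ x τ, f (update x i τ) = f x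

/-- `wc` is the cavity weight of `w` at the site `i`, `h` is the local field -/
structure Cv (w wc h : Cube n → ℝ) (i : Fin n) : Prop where
  pos : ∀ x, 0 < wc x
  fw : Fr i wc
  fh : Fr i h
  eq : ∀ x, w x = wc x * exp (sv x i * h x)

lemma Cv.wpos (c : Cv w wc h i) (x : Cube n) : 0 < w x := by
  rw [c.eq]; exact mul_pos (c.pos x) (exp_pos _)

lemma Cv.sum_eq (c : Cv w wc h i) {Φ : Cube n → ℝ} (hΦ : Fr i Φ) :
    ∑ x, w x * (Φ x / cosh (h x)) = ∑ x, wc x * Φ x := by
  have := S3L.Ll65.sum_site i (fun σ x => wc x * exp (spin σ * h x) * (Φ x / cosh (h x)))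
    fun σ x τ => by rw [c.fw, c.fh, hΦ]
  rw [sum_comm] at this
  refine mul_left_cancel₀ two_ne_zero ((congrArg _ (sum_congr rfl fun x _ => by
    rw [c.eq]; rfl)).trans (this.trans ?_))
  rw [mul_sum]
  refine sum_congr rfl fun x _ => ?_
  have := (cosh_pos (h x)).ne'
  simp only [Fintype.sum_bool, spin]
  field_simp
  simp [cosh_eq]
  ring

lemma Cv.mean_eq (c : Cv w wc h i) {Φ : Cube n → ℝ} (hΦ : Fr i Φ) :
    (mean w fun x => Φ x / cosh (h x)) = mean wc Φ * mean w fun x => 1 / cosh (h x) := by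
  rw [SL.mean_eq_div, SL.mean_eq_div, SL.mean_eq_div, c.sum_eq hΦ,
    c.sum_eq (Φ := fun _ => 1) fun _ _ => rfl]
  have := (SL.Wt.of_pos c.pos).pos.ne'
  simp only [mul_one]
  field_simp

lemma cosh_le_mul (a b : ℝ) : cosh a ≤ cosh b * exp |a - b| := by
  rw [cosh_eq, cosh_eq, div_mul_eq_mul_div, add_mul, ← exp_add, ← exp_add]
  gcongr
  · linarith [le_abs_self (a - b)]
  · linarith [neg_abs_le (a - b)]

/-- **(C1)** the cavity law has a bounded `L²` density -/
theorem Cv.dom (c : Cv w wc h i) (hM : Mg w K) {A : ℝ} (hA : ∀ x, nrm (grad h x) ≤ A)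
    {Φ : Cube n → ℝ} (hΦ : Fr i Φ) (h0 : ∀ x, 0 ≤ Φ x) :
    mean wc Φ ^ 2 ≤ (2 * exp (4 * K * A ^ 2)) ^ 2 * mean w fun x => Φ x ^ 2 := by
  have hw : SL.Wt w := .of_pos c.wpos
  have hc : SL.Wt wc := .of_pos c.pos
  set m := mean w h
  set u : Cube n → ℝ := fun x => exp |h x - m| with hu
  have u0 : ∀ x, 0 < u x := fun x => exp_pos _
  have m0 := cosh_pos m
  have e2 : (mean w fun x => u x ^ 2) ≤ 2 * exp (4 * K * A ^ 2) := by
    have := hM.abs hw hA 2
    simp only [hu, ← exp_nat_mul, Nat.cast_ofNat]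
    exact this.trans_eq (by congr 2; ring)
  set E := mean w fun x => u x ^ 2
  set P := mean wc Φ
  have P0 : 0 ≤ P := hc.mean_nonneg h0
  have a1 : cosh m * (mean w fun x => Φ x / cosh (h x)) ≤ mean w fun x => Φ x * u x := by
    rw [← SL.mean_const_mul]
    refine hw.mean_mono fun x => ?_
    rw [← mul_div_assoc, div_le_iff₀ (cosh_pos _), mul_comm, mul_assoc]
    refine mul_le_mul_of_nonneg_left ?_ (h0 x)
    rw [mul_comm]; exact (cosh_le_mul m (h x)).trans_eq (by rw [abs_sub_comm])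
  have a2 : (mean w fun x => (u x)⁻¹) ≤ cosh m * mean w fun x => 1 / cosh (h x) := by
    rw [← SL.mean_const_mul]
    refine hw.mean_mono fun x => ?_
    rw [mul_one_div, le_div_iff₀ (cosh_pos _), inv_mul_le_iff₀ (u0 x), mul_comm]
    exact cosh_le_mul _ _
  have a3 : 1 ≤ (mean w fun x => (u x)⁻¹) * mean w u := by
    have := mean_cs hw (fun x => √(u x)⁻¹) fun x => √(u x)
    simp only [sq_sqrt (u0 _).le, sq_sqrt (inv_pos.2 (u0 _)).le, ← sqrt_mul (inv_pos.2 (u0 _)).le,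
      inv_mul_cancel₀ (u0 _).ne', sqrt_one, hw.mean_const, one_pow] at this
    exact this
  have a4 := mean_sq_le hw u
  have a5 := mean_cs hw Φ u
  have U0 : 0 ≤ mean w u := hw.mean_nonneg fun x => (u0 x).le
  rw [c.mean_eq hΦ] at a1
  have b1 : P ≤ (mean w fun x => Φ x * u x) * mean w u := by
    have := mul_le_mul_of_nonneg_left a2 P0
    nlinarith [mul_le_mul_of_nonneg_left a3 P0, mul_le_mul_of_nonneg_right this U0,
      mul_le_mul_of_nonneg_right a1 U0]
  have F0 : 0 ≤ mean w fun x => Φ x ^ 2 := hw.mean_nonneg fun x => sq_nonneg _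
  have E0 : 0 ≤ E := hw.mean_nonneg fun x => sq_nonneg _
  calc P ^ 2 ≤ ((mean w fun x => Φ x * u x) * mean w u) ^ 2 := by gcongr
    _ ≤ ((mean w fun x => Φ x ^ 2) * E) * E := by
      rw [mul_pow]; exact mul_le_mul a5 a4 (sq_nonneg _) (mul_nonneg F0 E0)
    _ ≤ _ := by
      rw [mul_assoc, mul_comm, ← sq]; gcongr

/-- **(C1)** Lipschitz functions under the cavity law -/
theorem c1 (K A0 : ℝ) : ∃ C, 1 ≤ C ∧ ∀ (n : ℕ) (w wc h : Cube n → ℝ) (i : Fin n), Cv w wc h i →
    Mg w K → (∀ x, nrm (grad h x) ≤ A0) → ∀ (Ψ : Cube n → ℝ) (A : ℝ), Fr i Ψ →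
    (∀ x, nrm (grad Ψ x) ≤ A) → |mean wc Ψ - mean w Ψ| ≤ C * A ∧
      (mean wc fun x => (Ψ x - mean wc Ψ) ^ 2) ≤ C * A ^ 2 ∧
      (mean wc fun x => (Ψ x - mean wc Ψ) ^ 4) ≤ C * A ^ 4 ∧
      (A ≤ A0 → (mean wc fun x => exp (4 * |Ψ x - mean wc Ψ|)) ≤ C) := by
  obtain ⟨D, hD⟩ : ∃ D, D = 2 * exp (4 * K * A0 ^ 2) := ⟨_, rfl⟩
  have D0 : 0 ≤ D := by rw [hD]; positivity
  obtain ⟨E, hE⟩ : ∃ E, E = 1 + 16 * (48 * D * exp (2 * K)) := ⟨_, rfl⟩
  have E1 : 1 ≤ E := by rw [hE]; exact le_add_of_nonneg_right (by positivity)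
  refine ⟨E + exp (4 * (E * A0)) * (2 * D * exp (2 * |K| * A0 ^ 2 * 4 ^ 2)),
    E1.trans (le_add_of_nonneg_right (by positivity)), ?_⟩
  intro n w wc h i c hM hh Ψ A hΨ hA
  set C := E + exp (4 * (E * A0)) * (2 * D * exp (2 * |K| * A0 ^ 2 * 4 ^ 2))
  have EC : E ≤ C := le_add_of_nonneg_right (by positivity)
  have hw : SL.Wt w := .of_pos c.wpos
  have hc : SL.Wt wc := .of_pos c.pos
  have A1 : 0 ≤ A := (nrm_nonneg _).trans (hA default)
  obtain ⟨k1, k2⟩ := hM.four_dom hw hc D0 hA fun φ hφ =>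
    hD ▸ c.dom hM hh (fun x τ => by rw [hΨ]) fun x => hφ _
  have k0 : 0 ≤ 48 * D * exp (2 * K) * A ^ 4 := by positivity
  have k3 : (mean wc fun x => (Ψ x - mean wc Ψ) ^ 4) ≤ E * A ^ 4 :=
    (four_centre hc Ψ (mean w Ψ)).trans (by rw [hE]; nlinarith [pow_nonneg A1 4])
  have k4 : |mean wc Ψ - mean w Ψ| ≤ E * A := by
    have a1 := mean_sq_le hc fun x => Ψ x - mean w Ψ
    have a2 := mean_sq_le hc fun x => (Ψ x - mean w Ψ) ^ 2
    rw [SL.mean_sub, hc.mean_const] at a1
    simp only [← pow_mul] at a2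
    refine (pow_le_pow_iff_left₀ (abs_nonneg _) (by positivity) (by norm_num : 4 ≠ 0)).1 ?_
    rw [Even.pow_abs (by decide), mul_pow]
    have a3 : (mean wc Ψ - mean w Ψ) ^ 4 ≤ _ :=
      le_trans (by rw [show 4 = 2 * 2 from rfl, pow_mul]; gcongr) a2
    have a4 : E * A ^ 4 ≤ E ^ 4 * A ^ 4 :=
      mul_le_mul_of_nonneg_right (le_self_pow₀ E1 (by norm_num)) (by positivity)
    rw [hE] at a4 ⊢
    nlinarith [pow_nonneg A1 4]
  refine ⟨k4.trans (by gcongr), ?_, k3.trans (by gcongr), fun hA0 => ?_⟩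
  · have a2 := mean_sq_le hc fun x => (Ψ x - mean wc Ψ) ^ 2
    simp only [← pow_mul] at a2
    refine (abs_le_of_sq_le_sq' (a2.trans (k3.trans ?_)) (by positivity : 0 ≤ E * A ^ 2)).2.trans
      (by gcongr)
    rw [mul_pow, ← pow_mul]
    exact mul_le_mul_of_nonneg_right (le_self_pow₀ E1 (by norm_num)) (by positivity)
  · refine (hc.mean_mono (g := fun x => exp (4 * (E * A0)) * exp (4 * |Ψ x - mean w Ψ|))
      fun x => ?_).trans ?_
    · rw [← exp_add, exp_le_exp]
      have := abs_sub_le (Ψ x) (mean w Ψ) (mean wc Ψ)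
      rw [abs_sub_comm (mean w Ψ)] at this
      nlinarith [mul_le_mul_of_nonneg_left hA0 (zero_le_one.trans E1)]
    · rw [SL.mean_const_mul]
      refine le_trans ?_ (le_add_of_nonneg_left (zero_le_one.trans E1))
      refine mul_le_mul_of_nonneg_left ((k1 4).trans ?_) (exp_pos _).le
      gcongr
      exact le_abs_self K

/-! ### the cavity Ising weight -/

/-- couplings with the row and the column `i` removed -/
def cJ (J : Matrix (Fin n) (Fin n) ℝ) (i : Fin n) : Matrix (Fin n) (Fin n) ℝ :=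
  of fun k l => if k = i ∨ l = i then 0 else J k l

lemma sv_update_ne (x : Cube n) (τ : Bool) {k : Fin n} (hk : k ≠ i) : sv (update x i τ) k = sv x k := by
  simp only [sv, update_of_ne hk]

lemma fr_dot {g : Fin n → ℝ} (hg : g i = 0) : Fr i fun x => g ⬝ᵥ sv x := fun x τ =>
  sum_congr rfl fun k _ => by
    by_cases hk : k = i
    · simp [hk, hg]
    · rw [sv_update_ne x τ hk]

theorem cv_ising {J : Matrix (Fin n) (Fin n) ℝ} (hJ : Jᵀ = J) (h0 : J i i = 0) (y : Fin n → ℝ) :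
    Cv (ising J y) (ising (cJ J i) (update y i 0)) (fun x => J i ⬝ᵥ sv x + y i) i where
  pos _ := exp_pos _
  fw x τ := by
    have e1 := fr_dot (i := i) (g := update y i 0) (update_self ..) x τ
    have e2 : cJ J i *ᵥ sv (update x i τ) = cJ J i *ᵥ sv x :=
      funext fun k => fr_dot (i := i) (g := cJ J i k) (by simp [cJ]) x τ
    have e3 := fr_dot (i := i) (g := cJ J i *ᵥ sv x) (by simp [cJ, mulVec, dotProduct]) x τ
    simp only at e1 e3
    rw [ising, ising, e1, e2, dotProduct_comm (sv (update x i τ)), e3, dotProduct_comm]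
  fh x τ := congrArg (· + y i) (fr_dot h0 x τ)
  eq x := by
    rw [ising, ising, ← exp_add]
    congr 1
    have hs : ∀ k l, J k l = J l k := fun k l => by rw [← transpose_apply J l k, hJ]
    have e1 : y ⬝ᵥ sv x = update y i 0 ⬝ᵥ sv x + y i * sv x i := by
      conv_lhs => rw [show y = update y i 0 + Pi.single i (y i) from funext fun k => by
        by_cases hk : k = i
        · simp [hk]
        · simp [hk]]
      rw [add_dotProduct, single_dotProduct]
    have e2 : J = cJ J i + (vecMulVec (Pi.single i 1) (J i) + vecMulVec (J i) (Pi.single i 1)) := by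
      ext k l
      by_cases hk : k = i <;> by_cases hl : l = i <;>
        simp [cJ, vecMulVec_apply, hk, hl, h0, hs i k]
    have e3 : sv x ⬝ᵥ J *ᵥ sv x = sv x ⬝ᵥ cJ J i *ᵥ sv x + 2 * (sv x i * (J i ⬝ᵥ sv x)) := by
      conv_lhs => rw [e2]
      simp only [add_mulVec, dotProduct_add, vecMulVec_mulVec, dotProduct_smul, single_dotProduct,
        dotProduct_single, op_smul_eq_mul, dotProduct_comm (sv x) (J i)]
      ring
    rw [e1, e3]; ring

end Crest.Agent.T157.S3C

end
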