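import Crest.Agent.T157.S3CA_16
import Crest.Agent.T157.S3CB_16
import Crest.Agent.T157.S3Ja_82

/-!
# Row 157, block S3, section 4 (helper16): tools for (C2), (C3)
-/

set_option autoImplicit false

noncomputable section

namespace Crest.Agent.T157.S3C

open Matrix Finset Function Real
open Crest.Agent.T157.E Crest.Agent.T157.Eig
open Crest.Agent.T157.Rec (grad fl)
open Crest.Agent.T157.Uw (eta UW)
open Crest.Agent.T157.S3F (jac)
open Crest.Agent.T157.S3L.C365 (Tri Rc Prp Opb Src)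

variable {n : ℕ} {i : Fin n} {w wc : Cube n → ℝ} {s C A0 : ℝ}

/-- indicator of the sites `k ≠ i` -/
def ei (i : Fin n) : Fin n → ℝ := fun k => if k = i then 0 else 1

lemma abs_ei (i k : Fin n) : |ei i k| ≤ 1 := by unfold ei; split_ifs <;> simp
lemma ei_self (i : Fin n) : ei i i = 0 := if_pos rfl
lemma ei_ne {k : Fin n} (h : k ≠ i) : ei i k = 1 := if_neg h
lemma ei_ei (v : Fin n → ℝ) : ei i * (ei i * v) = ei i * v := by
  ext k; by_cases h : k = i <;> simp [ei, h]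
lemma nrm_ei_le (v : Fin n → ℝ) : nrm (ei i * v) ≤ nrm v := by
  simpa using nrm_mul_le zero_le_one (abs_ei i) v
lemma sub_ei (v : Fin n → ℝ) : v - ei i * v = v i • Pi.single i 1 := by
  ext k; by_cases h : k = i <;> simp [ei, h]
lemma nrm_le_ei (i : Fin n) (v : Fin n → ℝ) : nrm v ≤ nrm (ei i * v) + |v i| := by
  have := nrm_add_le (ei i * v) (v - ei i * v)
  rwa [add_sub_cancel, sub_ei, nrm_smul, nrm_single, mul_one] at this
lemma ei_dot (u v : Fin n → ℝ) : (ei i * u) ⬝ᵥ v = u ⬝ᵥ (ei i * v) :=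
  sum_congr rfl fun k _ => by simp only [Pi.mul_apply]; ring

lemma cJ_mulVec (J : Matrix (Fin n) (Fin n) ℝ) (v : Fin n → ℝ) :
    cJ J i *ᵥ v = ei i * (J *ᵥ (ei i * v)) := by
  ext k
  by_cases h : k = i
  · simp [cJ, ei, h, mulVec, dotProduct]
  · simp only [cJ, ei, h, mulVec, dotProduct, of_apply, false_or, Pi.mul_apply, if_false, one_mul]
    exact sum_congr rfl fun l _ => by split_ifs <;> simp

lemma opn_cJ (J : Matrix (Fin n) (Fin n) ℝ) (i : Fin n) : opn (cJ J i) ≤ opn J :=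
  opn_le_of_nrm (opn_nonneg J) fun v => by
    rw [cJ_mulVec]
    exact (nrm_ei_le _).trans ((nrm_mulVec_le _ _).trans
      (mul_le_mul_of_nonneg_left (nrm_ei_le _) (opn_nonneg J)))

lemma nrm_le_sqrt {v : Fin n → ℝ} {B : ℝ} (hB : 0 ≤ B) (h : ∀ k, |v k| ≤ B) : nrm v ≤ B * √n := by
  have := nrm_mul_le hB h 1
  rwa [mul_one, show nrm (1 : Fin n → ℝ) = √n by simp [nrm, dotProduct]] at this

lemma s_sqrt (hs : s ^ 2 * n ≤ 1) : |s| * √n ≤ 1 := by
  rw [← sqrt_sq_eq_abs, ← sqrt_mul (sq_nonneg s)]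
  exact sqrt_le_one.2 hs

lemma s_le_one (hs : s ^ 2 * n ≤ 1) (i : Fin n) : |s| ≤ 1 := by
  have h : (1 : ℝ) ≤ n := by exact_mod_cast i.pos
  rw [← sq_le_one_iff_abs_le_one]
  nlinarith [sq_nonneg s]

/-- a small scalar times a bounded vector -/
lemma nrm_small (hs : s ^ 2 * n ≤ 1) {c D B : ℝ} (hc : |c| ≤ D * |s|) (hD : 0 ≤ D) (hB : 0 ≤ B)
    {v : Fin n → ℝ} (h : ∀ k, |v k| ≤ B) : nrm (c • v) ≤ D * B := by
  rw [nrm_smul]
  refine (mul_le_mul hc (nrm_le_sqrt hB h) (nrm_nonneg _) (by positivity)).trans ?_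
  nlinarith [mul_le_mul_of_nonneg_left (s_sqrt hs) (mul_nonneg hD hB)]

lemma abs_eta_nrm (hs : s ^ 2 * n ≤ 1) (v : Fin n → ℝ) : |eta s v| ≤ nrm v * |s| := by
  have h1 := (abs_dot_le 1 v).trans (mul_le_mul_of_nonneg_right
    (nrm_le_sqrt (v := 1) zero_le_one (by simp)) (nrm_nonneg v))
  rw [eta, abs_mul, abs_pow, show ∑ k, v k = 1 ⬝ᵥ v by simp [dotProduct]]
  nlinarith [mul_le_mul_of_nonneg_left h1 (sq_nonneg |s|), mul_le_mul_of_nonneg_left (s_sqrt hs)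
    (mul_nonneg (nrm_nonneg v) (abs_nonneg s))]

lemma eta_meanV (w : Cube n → ℝ) (u : Cube n → Fin n → ℝ) :
    (mean w fun x => eta s (u x)) = eta s (meanV w u) := by
  simp only [eta, SL.mean_const_mul, SL.mean_sum, meanV]

lemma grad_dot_eq (v : Fin n → ℝ) (u : Cube n → Fin n → ℝ) (x : Cube n) :
    grad (fun x => v ⬝ᵥ u x) x = (jac u x)ᵀ *ᵥ v := by
  ext j
  rw [S3.Hb.grad_dot]
  exact sum_congr rfl fun k _ => mul_comm _ _

lemma nrm_grad_dot (v : Fin n → ℝ) {u : Cube n → Fin n → ℝ} {x : Cube n} {B : ℝ}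
    (h : opn (jac u x) ≤ B) : nrm (grad (fun x => v ⬝ᵥ u x) x) ≤ B * nrm v := by
  rw [grad_dot_eq]
  exact (nrm_mulVec_le _ _).trans (mul_le_mul_of_nonneg_right ((opn_transpose _).trans_le h)
    (nrm_nonneg v))

lemma nrm_grad_eta (hs : s ^ 2 * n ≤ 1) {e : Fin n → ℝ} (he : ∀ k, |e k| ≤ 1)
    {u : Cube n → Fin n → ℝ} {x : Cube n} {B : ℝ} (h : opn (jac u x) ≤ B) :
    nrm (grad (fun x => eta s (e * u x)) x) ≤ B * |s| := by
  have B0 := (opn_nonneg _).trans h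
  have e1 : (fun x => eta s (e * u x)) = fun x => (s ^ 2 • e) ⬝ᵥ u x := by
    ext x; rw [smul_dotProduct]; rfl
  rw [e1]
  refine (nrm_grad_dot _ h).trans (mul_le_mul_of_nonneg_left ?_ B0)
  simpa using nrm_small hs (c := s ^ 2) (D := |s|) (by rw [abs_pow, sq]) (abs_nonneg s)
    zero_le_one he

lemma opb_jac {u : Cube n → Fin n → ℝ} {x : Cube n} {B : ℝ} (h : opn (jac u x) ≤ B) :
    Opb (fun k => u x - u (fl x k)) (2 * B) := fun v => by
  have e : (fun k => v ⬝ᵥ (u x - u (fl x k))) =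
      (2 : ℝ) • (sv x * grad (fun x => v ⬝ᵥ u x) x) := by
    ext k
    simp only [Pi.smul_apply, Pi.mul_apply, smul_eq_mul, Rec.grad_eq, dotProduct_sub]
    linear_combination (-(v ⬝ᵥ u x - v ⬝ᵥ u (fl x k))) * Rec.sv_mul_self x k
  rw [e, nrm_smul, abs_two, mul_assoc]
  refine mul_le_mul_of_nonneg_left ((nrm_mul_le zero_le_one (S3F.abs_sv x) _).trans ?_) zero_le_two
  rw [one_mul]; exact nrm_grad_dot v h

/-- the conclusion of `c1` -/
def C1 (C A0 : ℝ) (w wc : Cube n → ℝ) (i : Fin n) : Prop := ∀ (Ψ : Cube n → ℝ) (A : ℝ), Fr i Ψ →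
  (∀ x, nrm (grad Ψ x) ≤ A) → |mean wc Ψ - mean w Ψ| ≤ C * A ∧
    (mean wc fun x => (Ψ x - mean wc Ψ) ^ 2) ≤ C * A ^ 2 ∧
    (mean wc fun x => (Ψ x - mean wc Ψ) ^ 4) ≤ C * A ^ 4 ∧
    (A ≤ A0 → (mean wc fun x => exp (4 * |Ψ x - mean wc Ψ|)) ≤ C)

lemma Fr.dot {u : Cube n → Fin n → ℝ} (h : Fr i fun x => ei i * u x) (v : Fin n → ℝ) :
    Fr i fun x => (ei i * v) ⬝ᵥ u x := fun x τ => by
  simp only [ei_dot]; exact congrArg _ (h x τ)

/-- transfer of the means of two close vector fields -/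
lemma C1.meanV (h : C1 C A0 w wc i) (hC : 0 ≤ C) (hw : SL.Wt w) {u u' : Cube n → Fin n → ℝ}
    (hf : Fr i fun x => ei i * u' x) {B D : ℝ} (hB : ∀ x, opn (jac u' x) ≤ B)
    (hD : ∀ x, nrm (ei i * (u x - u' x)) ≤ D) :
    nrm (ei i * (meanV w u - meanV wc u')) ≤ D + C * B := by
  have B0 := (opn_nonneg _).trans (hB default)
  have D0 := (nrm_nonneg _).trans (hD default)
  set v := ei i * (E.meanV w u - E.meanV wc u') with hv
  have e : ei i * v = v := ei_ei _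
  have h1 := (h _ _ (hf.dot v) fun x => nrm_grad_dot _ (hB x)).1
  rw [e] at h1
  have h2 : (mean w fun x => v ⬝ᵥ u x - v ⬝ᵥ u' x) ≤ nrm v * D := hw.mean_le fun x => by
    rw [← dotProduct_sub, ← e, ei_dot, e]
    exact (dot_le _ _).trans (mul_le_mul_of_nonneg_left (hD x) (nrm_nonneg v))
  have h3 : nrm v * nrm v = v ⬝ᵥ E.meanV w u - v ⬝ᵥ E.meanV wc u' := by
    rw [nrm_mul_self, ← dotProduct_sub]
    conv_rhs => rw [← e, ei_dot]
  rw [SL.meanV_dot, SL.meanV_dot] at h3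
  rw [SL.mean_sub] at h2
  rcases (nrm_nonneg v).eq_or_lt with h0 | h0
  · rw [← h0]; positivity
  · refine le_of_mul_le_mul_left ?_ h0
    linarith [neg_abs_le ((mean wc fun x => v ⬝ᵥ u' x) - mean w fun x => v ⬝ᵥ u' x)]

lemma abs_eta_sub (hs : s ^ 2 * n ≤ 1) {u u' : Fin n → ℝ} {B D : ℝ} (h : ∀ k, |u k| ≤ B)
    (h' : ∀ k, |u' k| ≤ B) (hD : nrm (ei i * (u - u')) ≤ D) :
    |eta s u - eta s u'| ≤ (D + 2 * B) * |s| := by
  rw [← Uw.eta_sub]
  refine (abs_eta_nrm hs _).trans (mul_le_mul_of_nonneg_right ((nrm_le_ei i _).trans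
    (add_le_add hD ((abs_sub _ _).trans ?_))) (abs_nonneg s))
  linarith [h i, h' i]

lemma abs_meanV_le (hw : SL.Wt w) {u : Cube n → Fin n → ℝ} {B : ℝ} (h : ∀ x k, |u x k| ≤ B)
    (k : Fin n) : |meanV w u k| ≤ B := hw.abs_mean_le fun x => h x k

/-- **propagators and their entries** -/
theorem prp_rows (L : Type) [Fintype L] [LinearOrder L] (R : ℝ) {B : ℝ} (hB : 1 ≤ B) :
    ∃ (C : ℝ) (k : ℕ), 1 ≤ C ∧ ∀ (n : ℕ) (s K : ℝ) (J : Matrix (Fin n) (Fin n) ℝ),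
      UW s J R k K → Jᵀ = J → 0 ≤ K → s ^ 2 * n ≤ 1 →
      ∀ (a : L → L → Fin n → ℝ) (o : L → L → ℝ) (Θ : ℝ), (∀ l m i, |a l m i| ≤ B) →
      (∀ l m, |o l m| ≤ B) → 0 ≤ Θ → (∀ l m, |eta s (a l m) - o l m| ≤ Θ) →
      ∃ (T Z : L → L → Matrix (Fin n) (Fin n) ℝ) (M : Fin n → ℝ),
        Prp univ (fun l => univ.filter (· < l)) J o a T Z ∧ (∀ i, 0 ≤ M i) ∧
        ∑ i, M i ^ 4 ≤ C * (K ^ 2 + 1) ∧ ∀ l q i j, |Z l q i j| ≤ M i + C * Θ := by
  obtain ⟨C, k, c1, hC⟩ := rows L R hB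
  refine ⟨C, k, c1, fun n s K J hU hJ hK hs a o Θ ha ho h0 hΘ => ?_⟩
  obtain ⟨M, m0, m1, m2⟩ := hC (Fin n) s K J hU hJ hK (by simpa using hs) a ha
  choose T Y h using fun (q : L) (j : Fin n) => exists_sol J a o (Pi.single q (Pi.single j 1))
  refine ⟨fun l q => of fun k j => T q j l k, fun l q => of fun k j => Y q j l k, M,
    fun q _ l _ => ⟨?_, ?_⟩, m0, m1, fun l q i j => ?_⟩
  · ext k j
    have := congrFun ((h q j).t l) k
    simp only [of_apply, Matrix.add_apply, Matrix.sum_apply, diagonal_mul, this, Pi.add_apply,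
      Finset.sum_apply, Pi.mul_apply]
    congr 1
    by_cases e : l = q <;> simp [e, one_apply, Pi.single_apply]
  · ext k j
    have := congrFun ((h q j).y l) k
    simp only [of_apply, Matrix.sub_apply, Matrix.sum_apply, Matrix.smul_apply, this, Pi.sub_apply,
      Finset.sum_apply, Pi.smul_apply, mul_apply]
    rfl
  · obtain ⟨r, r1, r2⟩ := m2 i a (fun _ _ _ _ => rfl) ha l
    have h1 := r2 o _ _ _ Θ 1 (h q j) ho h0 (fun l m _ => hΘ l m) zero_le_one fun p => by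
      by_cases e : p = q <;> simp [e, nrm_single]
    rw [sum_eq_single q (fun p _ hp => by simp [hp]) (by simp), Pi.single_eq_same,
      dotProduct_single, mul_one, mul_one] at h1
    have := abs_add_le (r q j) (Y q j l i - r q j)
    rw [add_sub_cancel] at this
    exact this.trans (add_le_add (r1 q j) h1)

lemma tri_lt (N : ℕ) : Tri (univ : Finset (Fin N)) (fun l => univ.filter (· < l)) Fin.val :=
  ⟨fun _ _ => subset_univ _, fun _ _ _ hm => (mem_filter.1 hm).2⟩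

end Crest.Agent.T157.S3C

end
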