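import Crest.Agent.T157.S3CC_16

/-!
# Row 157, block S3, section 4 (helper16): (C2), a canonical system and its cavity system
-/

set_option autoImplicit false

noncomputable section

namespace Crest.Agent.T157.S3C

open Matrix Finset Function Real
open Crest.ProbabilityR.SpinGlassDynamics (spin)
open Crest.Agent.T157.E Crest.Agent.T157.Eig
open Crest.Agent.T157.Rec (grad fl)
open Crest.Agent.T157.Uw (eta UW)
open Crest.Agent.T157.S3F (jac Tay)

lemma unif {τ : Type*} [Fintype τ] {P : τ → ℝ → Prop} (mono : ∀ t C C', C ≤ C' → P t C → P t C')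
    (h : ∀ t, ∃ C, P t C) : ∃ C, 1 ≤ C ∧ ∀ t, P t C := by
  choose C hC using h
  refine ⟨1 + ∑ t, |C t|, le_add_of_nonneg_right (by positivity), fun t => mono t _ _ ?_ (hC t)⟩
  linarith [single_le_sum (f := fun t => |C t|) (fun _ _ => abs_nonneg _) (mem_univ t),
    le_abs_self (C t)]

/-- functions of the static field, the spin and the nodes -/
abbrev PF (N : ℕ) : Type := ℝ → Bool → (Fin (N + 1) → ℝ) → ℝ

variable {N n : ℕ}

/-- bounded, Lipschitz, with a quadratic Taylor rest in the nodes -/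
def R1 (φ : PF N) : Prop := ∃ (Λ : ℝ) (φ' : ℝ → Bool → (Fin (N + 1) → ℝ) → Fin (N + 1) → ℝ),
  0 ≤ Λ ∧ (∀ b s ξ, |φ b s ξ| ≤ Λ) ∧
  (∀ b b' s ξ ξ', |φ b s ξ - φ b' s ξ'| ≤ Λ * (|b - b'| + ∑ m, |ξ m - ξ' m|)) ∧
  (∀ b s, Tay Λ (φ b s) (φ' b s)) ∧ ∀ b s ξ m, |φ' b s ξ m| ≤ Λ

/-- `φ` reads the nodes with the property `p` only -/
def Rd (p : Fin (N + 1) → Prop) (φ : PF N) : Prop :=
  ∀ b s ξ ξ', (∀ m, p m → ξ m = ξ' m) → φ b s ξ = φ b s ξ'

lemma rd_true (φ : PF N) : Rd (fun _ => True) φ := fun b s ξ ξ' h => by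
  rw [show ξ = ξ' from funext fun m => h m trivial]

/-- a program: nodes `f`, static parts `g`, `g'`, derivatives `fb`, `fm` of the nodes -/
structure Pg (N : ℕ) where
  f : Fin (N + 1) → PF N
  g : Fin (N + 1) → PF N
  g' : Fin (N + 1) → PF N
  fb : Fin (N + 1) → PF N
  fm : Fin (N + 1) → Fin (N + 1) → PF N

structure Pg.Ok (P : Pg N) : Prop where
  rf : ∀ l, R1 (P.f l)
  rg : ∀ l, R1 (P.g l)
  rg' : ∀ l, R1 (P.g' l)
  rb : ∀ l, R1 (P.fb l)
  rm : ∀ l m, R1 (P.fm l m)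
  tay : ∃ Λ, ∀ l b b' s ξ ξ', |P.f l b' s ξ' - P.f l b s ξ - P.fb l b s ξ * (b' - b) -
    ∑ m, P.fm l m b s ξ * (ξ' m - ξ m)| ≤ Λ * ((b' - b) ^ 2 + ∑ m, (ξ' m - ξ m) ^ 2)
  df : ∀ l, Rd (· < l) (P.f l)
  dg : ∀ l, Rd (· < l) (P.g l)
  dg' : ∀ l, Rd (· < l) (P.g' l)
  dm : ∀ l m, Rd (· < l) (P.fm l m)
  tri : ∀ l m, l ≤ m → P.fm l m = 0
  f0 : P.f 0 = fun _ s _ => spin s
  g0 : P.g 0 = 0
  g0' : P.g' 0 = 0

/-- evaluation along the fields -/
def ev (b : Fin n → ℝ) (X : Fin (N + 1) → Cube n → Fin n → ℝ) (φ : PF N) (x : Cube n) : Fin n → ℝ :=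
  fun k => φ (b k) (x k) fun l => X l x k
/-- `E η(u)` -/
def me (s : ℝ) (w : Cube n → ℝ) (u : Cube n → Fin n → ℝ) : ℝ := mean w fun x => eta s (u x)
/-- centring -/
def ctr (w : Cube n → ℝ) (u : Cube n → Fin n → ℝ) (x : Cube n) : Fin n → ℝ := u x - meanV w u
/-- Gram entry `s² ∑ₖ Cov(uₖ, vₖ)` -/
def Sg (s : ℝ) (w : Cube n → ℝ) (u v : Cube n → Fin n → ℝ) : ℝ :=
  me s w fun x => ctr w u x * ctr w v x
/-- static part of the node `l` -/
def cs (P : Pg N) (s : ℝ) (w : Cube n → ℝ) (b : Fin n → ℝ) (X : Fin (N + 1) → Cube n → Fin n → ℝ)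
    (l : Fin (N + 1)) : Fin n → ℝ := meanV w (ev b X (P.g l)) + me s w (ev b X (P.g' l)) • 1

/-- the equations of the canonical network -/
structure Sys (P : Pg N) (s : ℝ) (J : Matrix (Fin n) (Fin n) ℝ) (y : Fin n → ℝ) (w : Cube n → ℝ)
    (b : Fin n → ℝ) (X : Fin (N + 1) → Cube n → Fin n → ℝ) : Prop where
  hb : b = y + J *ᵥ meanV w sv - eta s (1 - meanV w sv * meanV w sv) • meanV w sv
  hX : ∀ l, ∃ κ, ∀ x, X l x = J *ᵥ ev b X (P.f l) x -
    ∑ m, me s w (ev b X (P.fm l m)) • ev b X (P.f m) x - κ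
  cen : ∀ l, meanV w (X l) = Sg s w (ev b X (P.f l)) sv • meanV w sv + cs P s w b X l

lemma Sg_eq (s : ℝ) (w : Cube n → ℝ) (u v : Cube n → Fin n → ℝ) :
    Sg s w u v = s ^ 2 * ∑ k, cov w (fun x => u x k) fun x => v x k := by
  rw [Sg, me, eta_meanV]; rfl

lemma ev_zero (b : Fin n → ℝ) (X : Fin (N + 1) → Cube n → Fin n → ℝ) : ev b X 0 = fun _ => 0 := rfl
lemma me_zero (s : ℝ) (w : Cube n → ℝ) : me s w (fun _ => 0) = 0 := by simp [me, eta, mean]

lemma abs_me_le {s B : ℝ} {w : Cube n → ℝ} (hs : s ^ 2 * n ≤ 1) (hw : SL.Wt w) (hB : 0 ≤ B)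
    {u : Cube n → Fin n → ℝ} (h : ∀ x k, |u x k| ≤ B) : |me s w u| ≤ B :=
  hw.abs_mean_le fun x => Uw.abs_eta_le (by simpa using hs) hB (h x)

lemma meanV_mulVec (w : Cube n → ℝ) (J : Matrix (Fin n) (Fin n) ℝ) (u : Cube n → Fin n → ℝ) :
    meanV w (fun x => J *ᵥ u x) = J *ᵥ meanV w u := funext fun k => (SL.meanV_dot w u (J k)).symm

lemma Sys.ctr_eq {P : Pg N} {s : ℝ} {J : Matrix (Fin n) (Fin n) ℝ} {y b : Fin n → ℝ} {w : Cube n → ℝ}
    {X : Fin (N + 1) → Cube n → Fin n → ℝ} (hP : P.Ok) (h : Sys P s J y w b X) (hw : SL.Wt w)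
    (l : Fin (N + 1)) (x : Cube n) : X l x = J *ᵥ ctr w (ev b X (P.f l)) x -
      ∑ m with m < l, me s w (ev b X (P.fm l m)) • ctr w (ev b X (P.f m)) x +
      (Sg s w (ev b X (P.f l)) sv • meanV w sv + cs P s w b X l) := by
  obtain ⟨κ, hκ⟩ := h.hX l
  have e : meanV w (X l) = J *ᵥ meanV w (ev b X (P.f l)) -
      ∑ m, me s w (ev b X (P.fm l m)) • meanV w (ev b X (P.f m)) - κ := by
    rw [← meanV_mulVec]
    ext k
    simp only [meanV, hκ, Pi.sub_apply, SL.mean_sub, hw.mean_const, Finset.sum_apply, Pi.smul_apply,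
      smul_eq_mul, SL.mean_sum, SL.mean_const_mul]
  rw [← h.cen, e, hκ, sum_filter_of_ne fun m _ hm => not_le.1 fun hl => hm (by
    rw [hP.tri l m hl, ev_zero, me_zero, zero_smul])]
  simp only [ctr, mulVec_sub, smul_sub, sum_sub_distrib]
  abel

lemma ev_trunc {p : Fin (N + 1) → Prop} [DecidablePred p] {φ : PF N} (h : Rd p φ) (b : Fin n → ℝ)
    (X Z : Fin (N + 1) → Cube n → Fin n → ℝ) :
    ev b X φ = ev b (fun m => if p m then X m else Z m) φ :=
  funext fun _ => funext fun _ => h _ _ _ _ fun m hm => by simp [hm]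

/-- chain rule in the operator norm -/
lemma R1.jac_le {φ : PF N} (h : R1 φ) {p : Fin (N + 1) → Prop} (hp : Rd p φ) (C : ℝ) : ∃ D,
    ∀ (n : ℕ) (b : Fin n → ℝ) (X : Fin (N + 1) → Cube n → Fin n → ℝ) (x : Cube n),
      (∀ m, p m → opn (jac (X m) x) ≤ C) → opn (jac (ev b X φ) x) ≤ D := by
  classical
  obtain ⟨Λ, φ', h0, h1, -, h3, h4⟩ := h
  refine ⟨Λ + 3 * Λ * ∑ _m : Fin (N + 1), |C| + 2 * Λ * ∑ _m : Fin (N + 1), |C| ^ 2,
    fun n b X x hX => ?_⟩
  rw [ev_trunc hp b X fun _ _ => 0]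
  have k : ∀ m, opn (jac (if p m then X m else fun _ => 0) x) ≤ |C| := fun m => by
    split_ifs with hm
    · exact (hX m hm).trans (le_abs_self C)
    · simp [S3F.jac_const]
  refine (S3F.opn_jac_loc (g := fun k => φ (b k)) (g' := fun k => φ' (b k)) h0 h0
    (fun k s => h3 _ s) (fun k s => h4 _ s) (fun k ξ => (abs_sub _ _).trans
      (by linarith [h1 (b k) true ξ, h1 (b k) false ξ])) _ x).trans ?_
  gcongr with m _ m _
  · exact k m
  · exact opn_nonneg _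
  · exact k m

/-- **(J1)** with the operator norm of the couplings only -/
theorem j1 {P : Pg N} (hP : P.Ok) (R : ℝ) (l : Fin (N + 1)) : ∃ C, ∀ (n : ℕ) (s : ℝ)
    (J : Matrix (Fin n) (Fin n) ℝ) (y b : Fin n → ℝ) (w : Cube n → ℝ)
    (X : Fin (N + 1) → Cube n → Fin n → ℝ), s ^ 2 * n ≤ 1 → opn J ≤ R → SL.Wt w →
    Sys P s J y w b X → ∀ x, opn (jac (X l) x) ≤ C := by
  induction l using WellFoundedLT.induction with
  | ind l ih =>
  choose! C hC using ih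
  choose D hD using fun m => (hP.rf m).jac_le (hP.df m) (∑ q, |C q|)
  choose Λ φ' h0 h1 h2 using hP.rm l
  refine ⟨|R| * D l + ∑ m with m < l, Λ m * D m, fun n s J y b w X hs hR hw h x => ?_⟩
  have k : ∀ m ≤ l, opn (jac (ctr w (ev b X (P.f m))) x) ≤ D m := fun m hm => by
    rw [show ctr w (ev b X (P.f m)) = fun x => ev b X (P.f m) x - meanV w _ from rfl, S3F.jac_sub,
      S3F.jac_const, sub_zero]
    exact hD m n b X x fun q hq => (hC q (hq.trans_le hm) n s J y b w X hs hR hw h x).trans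
      ((le_abs_self _).trans (single_le_sum (f := fun q => |C q|) (fun _ _ => abs_nonneg _)
        (mem_univ q)))
  rw [show X l = _ from funext (h.ctr_eq hP hw l), S3F.jac_add, S3F.jac_const, add_zero,
    S3F.jac_sub, S3F.jac_mulVec, S3F.jac_sum]
  refine (opn_sub_le _ _).trans (add_le_add (Uw.opn_mul_le' (hR.trans (le_abs_self R)) (k l le_rfl))
    ((opn_sum_le _ _).trans (sum_le_sum fun m hm => ?_)))
  rw [S3F.jac_smul, opn_smul]
  exact mul_le_mul (abs_me_le hs hw (h0 m) fun x k => h1 m _ _ _) (k m (mem_filter.1 hm).2.le)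
    (opn_nonneg _) (h0 m)

/-! ### a system together with its cavity system -/

/-- an instance with a distinguished site -/
structure Ins (P : Pg N) (R K : ℝ) where
  n : ℕ
  s : ℝ
  i : Fin n
  J : Matrix (Fin n) (Fin n) ℝ
  y : Fin n → ℝ
  b : Fin n → ℝ
  b' : Fin n → ℝ
  X : Fin (N + 1) → Cube n → Fin n → ℝ
  X' : Fin (N + 1) → Cube n → Fin n → ℝ
  hs : s ^ 2 * n ≤ 1
  symm : Jᵀ = J
  diag : J i i = 0
  op : opn J ≤ R
  mg : Mg (ising J y) K
  sys : Sys P s J y (ising J y) b X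
  sys' : Sys P s (cJ J i) (update y i 0) (ising (cJ J i) (update y i 0)) b' X'

namespace Ins
variable {P : Pg N} {R K : ℝ}

def w (a : Ins P R K) : Cube a.n → ℝ := ising a.J a.y
def wc (a : Ins P R K) : Cube a.n → ℝ := ising (cJ a.J a.i) (update a.y a.i 0)
lemma hw (a : Ins P R K) : SL.Wt a.w := .of_pos fun _ => exp_pos _
lemma hc (a : Ins P R K) : SL.Wt a.wc := .of_pos fun _ => exp_pos _
def e (φ : PF N) (a : Ins P R K) : Cube a.n → Fin a.n → ℝ := ev a.b a.X φ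
def e' (φ : PF N) (a : Ins P R K) : Cube a.n → Fin a.n → ℝ := ev a.b' a.X' φ

lemma c1 (R K : ℝ) : ∃ C, 1 ≤ C ∧ ∀ a : Ins P R K, C1 C R a.w a.wc a.i := by
  obtain ⟨C, c, h⟩ := S3C.c1 K R
  refine ⟨C, c, fun a => h a.n _ _ _ a.i (cv_ising a.symm a.diag a.y) a.mg fun x => ?_⟩
  rw [Rec.grad_add, Rec.grad_const, add_zero, Rec.grad_lin]
  exact (nrm_row_le _ _).trans a.op

/-- vector fields -/
abbrev VF (P : Pg N) (R K : ℝ) : Type := ∀ a : Ins P R K, Cube a.n → Fin a.n → ℝ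

def Bd (u : VF P R K) : Prop := ∃ C, 0 ≤ C ∧ ∀ a x k, |u a x k| ≤ C
def Jb (u : VF P R K) : Prop := ∃ C, 0 ≤ C ∧ ∀ a x, opn (jac (u a) x) ≤ C
/-- close in `ℓ²` off the site -/
def Cl (u u' : VF P R K) : Prop := ∃ C, 0 ≤ C ∧ ∀ a x, nrm (ei a.i * (u a x - u' a x)) ≤ C
/-- free of the spin `i` off the site `i` -/
def Fo (u : VF P R K) : Prop := ∀ a, Fr a.i fun x => ei a.i * u a x
/-- bounded scalars which differ by `O(n^{-1/2})` -/
def Sc (c c' : Ins P R K → ℝ) : Prop := ∃ C, 0 ≤ C ∧ ∀ a, |c a| ≤ C ∧ |c a - c' a| ≤ C * |a.s|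

structure GP (u u' : VF P R K) : Prop where
  b : Bd u
  b' : Bd u'
  j : Jb u
  j' : Jb u'
  c : Cl u u'
  f : Fo u'

variable {u u' v v' : VF P R K} {c c' : Ins P R K → ℝ}

lemma Cl.refl (u : VF P R K) : Cl u u := ⟨0, le_rfl, fun _ _ => by simp⟩
lemma Cl.add (h : Cl u u') (g : Cl v v') : Cl (fun a x => u a x + v a x) fun a x => u' a x + v' a x :=
  let ⟨C, c0, h⟩ := h; let ⟨D, d0, g⟩ := g
  ⟨C + D, add_nonneg c0 d0, fun a x => by
    rw [add_sub_add_comm, mul_add]; exact (nrm_add_le _ _).trans (add_le_add (h a x) (g a x))⟩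
lemma Cl.sub (h : Cl u u') (g : Cl v v') : Cl (fun a x => u a x - v a x) fun a x => u' a x - v' a x :=
  let ⟨C, c0, h⟩ := h; let ⟨D, d0, g⟩ := g
  ⟨C + D, add_nonneg c0 d0, fun a x => by
    rw [sub_sub_sub_comm, mul_sub]; exact (nrm_sub_le _ _).trans (add_le_add (h a x) (g a x))⟩
lemma Cl.sum {κ : Type*} (t : Finset κ) {u u' : κ → VF P R K} (h : ∀ q ∈ t, Cl (u q) (u' q)) :
    Cl (fun a x => ∑ q ∈ t, u q a x) fun a x => ∑ q ∈ t, u' q a x := by
  classical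
  induction t using Finset.induction_on with
  | empty => simpa using Cl.refl _
  | insert k t hk ih =>
    simp only [sum_insert hk]
    exact (h k (mem_insert_self _ _)).add (ih fun j hj => h j (mem_insert_of_mem hj))
lemma Cl.nrm (h : Cl u u') (hb : Bd u) :
    ∃ C, 0 ≤ C ∧ ∀ a x, nrm (u a x - ei a.i * u' a x) ≤ C :=
  let ⟨C, c0, h⟩ := h; let ⟨D, d0, g⟩ := hb
  ⟨C + D, add_nonneg c0 d0, fun a x => (nrm_le_ei a.i _).trans (add_le_add
    (by rw [mul_sub, ei_ei, ← mul_sub]; exact h a x) (by simpa [ei_self] using g a x a.i))⟩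
lemma Cl.J (h : Cl u u') (hb : Bd u) :
    Cl (fun a x => a.J *ᵥ u a x) fun a x => cJ a.J a.i *ᵥ u' a x :=
  let ⟨C, c0, h⟩ := h.nrm hb
  ⟨|R| * C, by positivity, fun a x => by
    beta_reduce
    rw [cJ_mulVec, mul_sub, ei_ei, ← mul_sub, ← mulVec_sub]
    exact (nrm_ei_le _).trans ((nrm_mulVec_le _ _).trans (mul_le_mul (a.op.trans (le_abs_self R))
      (h a x) (nrm_nonneg _) (abs_nonneg R)))⟩
lemma Cl.smul (hc : Sc c c') (h : Cl u u') (hb : Bd u') :
    Cl (fun a x => c a • u a x) fun a x => c' a • u' a x :=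
  let ⟨C, c0, hc⟩ := hc; let ⟨D, d0, h⟩ := h; let ⟨B, b0, g⟩ := hb
  ⟨C * D + C * B, by positivity, fun a x => by
    rw [show ei a.i * (c a • u a x - c' a • u' a x) = c a • (ei a.i * (u a x - u' a x)) +
      ei a.i * ((c a - c' a) • u' a x) by ext k; simp; ring]
    refine (nrm_add_le _ _).trans (add_le_add ?_ ((nrm_ei_le _).trans
      (nrm_small a.hs (hc a).2 c0 b0 (g a x))))
    rw [nrm_smul]; exact mul_le_mul (hc a).1 (h a x) (nrm_nonneg _) c0⟩

lemma Fo.eq (h : Fo u) (a : Ins P R K) (x : Cube a.n) (τ : Bool) :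
    ei a.i * u a (update x a.i τ) = ei a.i * u a x := h a x τ
lemma Fo.const (z : ∀ a : Ins P R K, Fin a.n → ℝ) : Fo fun a _ => z a := fun _ _ _ => rfl
lemma Fo.add (h : Fo u) (g : Fo v) : Fo fun a x => u a x + v a x := fun a x τ => by
  simp only [mul_add]; rw [h.eq, g.eq]
lemma Fo.sub (h : Fo u) (g : Fo v) : Fo fun a x => u a x - v a x := fun a x τ => by
  simp only [mul_sub]; rw [h.eq, g.eq]
lemma Fo.smul (c : Ins P R K → ℝ) (h : Fo u) : Fo fun a x => c a • u a x := fun a x τ => by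
  simp only [mul_smul_comm]; rw [h.eq]
lemma Fo.sum {κ : Type*} (t : Finset κ) {u : κ → VF P R K} (h : ∀ q ∈ t, Fo (u q)) :
    Fo fun a x => ∑ q ∈ t, u q a x := fun a x τ => by
  simp only [mul_sum]; exact sum_congr rfl fun q hq => h q hq a x τ
lemma Fo.J (h : Fo u) : Fo fun a x => cJ a.J a.i *ᵥ u a x := fun a x τ => by
  simp only [cJ_mulVec]; rw [h.eq]
lemma Fo.mul (h : Fo u) (g : Fo v) : Fo fun a x => u a x * v a x := fun a x τ => by
  have e : ∀ p q : Fin a.n → ℝ, ei a.i * (p * q) = (ei a.i * p) * (ei a.i * q) := fun p q => by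
    rw [mul_mul_mul_comm, ← mul_assoc, ← mul_assoc, mul_assoc _ p, ← mul_assoc, ← mul_one (_ * _),
      mul_assoc (ei _) (ei _), ei_ei, mul_one, mul_assoc]
  simp only [e]; rw [h.eq, g.eq]

lemma Bd.add (h : Bd u) (g : Bd v) : Bd fun a x => u a x + v a x :=
  let ⟨C, c0, h⟩ := h; let ⟨D, d0, g⟩ := g
  ⟨C + D, add_nonneg c0 d0, fun a x k => (abs_add_le _ _).trans (add_le_add (h a x k) (g a x k))⟩
lemma Bd.sub (h : Bd u) (g : Bd v) : Bd fun a x => u a x - v a x :=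
  let ⟨C, c0, h⟩ := h; let ⟨D, d0, g⟩ := g
  ⟨C + D, add_nonneg c0 d0, fun a x k => (abs_sub _ _).trans (add_le_add (h a x k) (g a x k))⟩
lemma Bd.mul (h : Bd u) (g : Bd v) : Bd fun a x => u a x * v a x :=
  let ⟨C, c0, h⟩ := h; let ⟨D, d0, g⟩ := g
  ⟨C * D, mul_nonneg c0 d0, fun a x k => by
    simp only [Pi.mul_apply, abs_mul]; exact mul_le_mul (h a x k) (g a x k) (abs_nonneg _) c0⟩
lemma Jb.sub (h : Jb u) (g : Jb v) : Jb fun a x => u a x - v a x :=
  let ⟨C, c0, h⟩ := h; let ⟨D, d0, g⟩ := g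
  ⟨C + D, add_nonneg c0 d0, fun a x => by
    rw [S3F.jac_sub]; exact (opn_sub_le _ _).trans (add_le_add (h a x) (g a x))⟩
lemma Jb.const (z : ∀ a : Ins P R K, Fin a.n → ℝ) : Jb fun a _ => z a :=
  ⟨0, le_rfl, fun a x => by simp [S3F.jac_const]⟩
lemma Jb.mul (h : Jb u) (g : Jb v) (hu : Bd u) (hv : Bd v) : Jb fun a x => u a x * v a x :=
  let ⟨C, c0, h⟩ := h; let ⟨D, d0, g⟩ := g; let ⟨A, a0, hu⟩ := hu; let ⟨B, b0, hv⟩ := hv
  ⟨(A + C) * D + (B + D) * C, by positivity, fun a x =>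
    (S3F.opn_jac_mul a0 b0 (hu a x) (hv a x)).trans (by
      have := h a x; have := g a x; have := opn_nonneg (jac (u a) x)
      have := opn_nonneg (jac (v a) x); gcongr)⟩

lemma GP.sub (h : GP u u') (g : GP v v') : GP (fun a x => u a x - v a x) fun a x => u' a x - v' a x :=
  ⟨h.b.sub g.b, h.b'.sub g.b', h.j.sub g.j, h.j'.sub g.j', h.c.sub g.c, h.f.sub g.f⟩

lemma GP.mul (h : GP u u') (g : GP v v') : GP (fun a x => u a x * v a x) fun a x => u' a x * v' a x := by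
  refine ⟨h.b.mul g.b, h.b'.mul g.b', h.j.mul g.j h.b g.b, h.j'.mul g.j' h.b' g.b', ?_, h.f.mul g.f⟩
  obtain ⟨A, a0, hA⟩ := h.b
  obtain ⟨B, b0, hB⟩ := g.b'
  obtain ⟨C, c0, hC⟩ := h.c
  obtain ⟨D, d0, hD⟩ := g.c
  refine ⟨A * D + B * C, by positivity, fun a x => ?_⟩
  rw [show ei a.i * (u a x * v a x - u' a x * v' a x) = u a x * (ei a.i * (v a x - v' a x)) +
    v' a x * (ei a.i * (u a x - u' a x)) by ring]
  exact (nrm_add_le _ _).trans (add_le_add
    ((nrm_mul_le a0 (hA a x) _).trans (mul_le_mul_of_nonneg_left (hD a x) a0))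
    ((nrm_mul_le b0 (hB a x) _).trans (mul_le_mul_of_nonneg_left (hC a x) b0)))

lemma gp_one : GP (P := P) (R := R) (K := K) (fun _ _ => 1) fun _ _ => 1 :=
  ⟨⟨1, zero_le_one, by simp⟩, ⟨1, zero_le_one, by simp⟩, .const _, .const _, .refl _, .const _⟩

lemma gp_sv : GP (P := P) (R := R) (K := K) (fun _ => sv) fun _ => sv := by
  have h1 : Bd (P := P) (R := R) (K := K) fun _ => sv := ⟨1, zero_le_one, fun _ => S3F.abs_sv⟩
  have h2 : Jb (P := P) (R := R) (K := K) fun _ => sv :=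
    ⟨1, zero_le_one, fun _ x => by rw [S3F.jac_sv]; exact opn_one_le⟩
  refine ⟨h1, h1, h2, h2, .refl _, fun a x τ => funext fun k => ?_⟩
  by_cases hk : k = a.i
  · simp [hk, ei_self]
  · simp only [Pi.mul_apply, sv_update_ne x τ hk]

lemma GP.mean (h : GP u u') : GP (fun a _ => meanV a.w (u a)) fun a _ => meanV a.wc (u' a) := by
  obtain ⟨A, a0, hA⟩ := h.b
  obtain ⟨B, b0, hB⟩ := h.b'
  obtain ⟨C, c0, hC⟩ := h.c
  obtain ⟨D, d0, hD⟩ := h.j'
  obtain ⟨E, e1, hE⟩ := c1 (P := P) R K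
  have e0 : 0 ≤ E := zero_le_one.trans e1
  exact ⟨⟨A, a0, fun a _ => abs_meanV_le a.hw (hA a)⟩, ⟨B, b0, fun a _ => abs_meanV_le a.hc (hB a)⟩,
    .const _, .const _, ⟨C + E * D, by positivity, fun a _ =>
      (hE a).meanV e0 a.hw (h.f a) (hD a) (hC a)⟩, .const _⟩

lemma GP.ctr (h : GP u u') : GP (fun a => ctr a.w (u a)) fun a => ctr a.wc (u' a) := h.sub h.mean

lemma GP.me (h : GP u u') : Sc (fun a => me a.s a.w (u a)) fun a => me a.s a.wc (u' a) := by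
  obtain ⟨A, a0, hA⟩ := h.mean.b
  obtain ⟨B, b0, hB⟩ := h.mean.b'
  obtain ⟨C, c0, hC⟩ := h.mean.c
  refine ⟨C + 2 * (A + B), by positivity, fun a => ?_⟩
  simp only [S3C.me, eta_meanV]
  refine ⟨(Uw.abs_eta_le (by simpa using a.hs) a0 (hA a default)).trans (by linarith),
    abs_eta_sub a.hs (fun k => (hA a default k).trans (by linarith))
      (fun k => (hB a default k).trans (by linarith)) (hC a default)⟩

lemma GP.Sg (h : GP u u') (g : GP v v') :
    Sc (fun a => Sg a.s a.w (u a) (v a)) fun a => Sg a.s a.wc (u' a) (v' a) := (h.ctr.mul g.ctr).me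

/-- the static fields are close -/
lemma cl_b : Cl (P := P) (R := R) (K := K) (fun a _ => a.b) fun a _ => a.b' := by
  have hm := (gp_sv (P := P) (R := R) (K := K)).mean
  have h1 := (gp_one.sub (hm.mul hm)).me
  have h2 : Cl (P := P) (R := R) (K := K) (fun a _ => a.y) fun a _ => update a.y a.i 0 :=
    ⟨0, le_rfl, fun a _ => by
      rw [show ei a.i * (a.y - update a.y a.i 0) = 0 from funext fun k => by
        by_cases hk : k = a.i <;> simp [hk, ei_self], nrm_zero]⟩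
  obtain ⟨C, c0, h⟩ := (h2.add (hm.c.J hm.b)).sub (Cl.smul h1 hm.c hm.b')
  refine ⟨C, c0, fun a x => le_of_eq_of_le ?_ (h a x)⟩
  simp only [S3C.me, a.hw.mean_const, a.hc.mean_const]
  rw [a.sys.hb, a.sys'.hb]
  rfl

lemma gp_ev (hP : P.Ok) {φ : PF N} (h : R1 φ) {p : Fin (N + 1) → Prop} (hp : Rd p φ)
    (hX : ∀ m, p m → Cl (P := P) (R := R) (K := K) (fun a => a.X m) (fun a => a.X' m) ∧
      Fo (P := P) (R := R) (K := K) fun a => a.X' m) : GP (P := P) (R := R) (K := K) (e φ) (e' φ) := by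
  classical
  obtain ⟨C, c1, hC⟩ := unif (fun _ _ _ h h' n s J y b w X a e c d x =>
    (h' n s J y b w X a e c d x).trans h)
    (j1 hP R)
  obtain ⟨D, hD⟩ := h.jac_le (rd_true φ) C
  obtain ⟨Λ, φ', h0, h1, h2, -⟩ := h
  refine ⟨⟨Λ, h0, fun a x k => h1 _ _ _⟩, ⟨Λ, h0, fun a x k => h1 _ _ _⟩,
    ⟨|D|, abs_nonneg _, fun a x => (hD _ _ _ x fun m _ => hC m _ _ _ _ _ _ _ a.hs a.op a.hw a.sys x).trans
      (le_abs_self D)⟩, ⟨|D|, abs_nonneg _, fun a x => (hD _ _ _ x fun m _ => hC m _ _ _ _ _ _ _ a.hs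
      ((opn_cJ _ _).trans a.op) a.hc a.sys' x).trans (le_abs_self D)⟩, ?_, fun a x τ => ?_⟩
  · obtain ⟨B, b0, hB⟩ := cl_b (P := P) (R := R) (K := K)
    choose! E e0 hE using fun m hm => (hX m hm).1
    refine ⟨Λ * (B + ∑ m with p m, E m), mul_nonneg h0 (add_nonneg b0 (sum_nonneg fun m hm =>
      e0 m (mem_filter.1 hm).2)), fun a x => ?_⟩
    have ab : ∀ z : Fin a.n → ℝ, nrm (fun k => |z k|) = nrm z := fun z => by simp [nrm, dotProduct]
    refine (S3L.C365.nrm_mono (v := Λ • ((fun k => |(ei a.i * (a.b - a.b')) k|) +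
      ∑ m with p m, fun k => |(ei a.i * (a.X m x - a.X' m x)) k|)) fun k => ?_).trans ?_
    · by_cases hk : k = a.i
      · simp [hk, ei_self]
      · simp only [Pi.mul_apply, ei_ne hk, one_mul, Pi.sub_apply, Pi.smul_apply, Pi.add_apply,
          Finset.sum_apply, smul_eq_mul, e']
        rw [ev_trunc hp a.b' a.X' a.X]
        refine (h2 _ _ _ _ _).trans_eq ?_
        congr 2
        rw [sum_filter]
        exact sum_congr rfl fun m _ => by by_cases hm : p m <;> simp [hm]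
    · rw [nrm_smul, abs_of_nonneg h0]
      refine mul_le_mul_of_nonneg_left ((nrm_add_le _ _).trans (add_le_add ((ab _).trans_le (hB a x))
        ((Uw.nrm_sum_le _ _).trans (sum_le_sum fun m hm => (ab _).trans_le
          (hE m (mem_filter.1 hm).2 a x))))) h0
  · ext k
    by_cases hk : k = a.i
    · simp [hk, ei_self]
    · simp only [Pi.mul_apply, ei_ne hk, one_mul, e', ev, update_of_ne hk]
      refine hp _ _ _ _ fun m hm => ?_
      simpa only [Pi.mul_apply, ei_ne hk, one_mul] using congrFun ((hX m hm).2 a x τ) k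

/-- **(C2)** -/
theorem c2 (hP : P.Ok) (l : Fin (N + 1)) :
    Cl (P := P) (R := R) (K := K) (fun a => a.X l) (fun a => a.X' l) ∧
      Fo (P := P) (R := R) (K := K) fun a => a.X' l := by
  induction l using WellFoundedLT.induction with
  | ind l ih =>
  have hf : ∀ m ≤ l, GP (P := P) (R := R) (K := K) (e (P.f m)) (e' (P.f m)) := fun m hm =>
    gp_ev hP (hP.rf m) (hP.df m) fun q hq => ih q (hq.trans_le hm)
  have ho := fun m => (gp_ev hP (hP.rm l m) (hP.dm l m) ih).me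
  have hg := (gp_ev hP (hP.rg l) (hP.dg l) ih).mean
  have hg' := (gp_ev hP (hP.rg' l) (hP.dg' l) ih).me
  have hm := (gp_sv (P := P) (R := R) (K := K)).mean
  have e1 : (fun a : Ins P R K => a.X l) = _ := funext fun a => funext (a.sys.ctr_eq hP a.hw l)
  have e2 : (fun a : Ins P R K => a.X' l) = _ := funext fun a => funext (a.sys'.ctr_eq hP a.hc l)
  rw [e1, e2]
  exact ⟨(((hf l le_rfl).ctr.c.J (hf l le_rfl).ctr.b).sub (Cl.sum _ fun m hm => Cl.smul (ho m)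
    (hf m (mem_filter.1 hm).2.le).ctr.c (hf m (mem_filter.1 hm).2.le).ctr.b')).add
    ((Cl.smul ((hf l le_rfl).Sg gp_sv) hm.c hm.b').add (hg.c.add (Cl.smul hg' (.refl _) gp_one.b))),
    ((hf l le_rfl).ctr.f.J.sub (Fo.sum _ fun m hm => (hf m (mem_filter.1 hm).2.le).ctr.f.smul _)).add
      (.const _)⟩

theorem gp_e (hP : P.Ok) {φ : PF N} (h : R1 φ) : GP (P := P) (R := R) (K := K) (e φ) (e' φ) :=
  gp_ev hP h (rd_true φ) fun m _ => c2 hP m

end Ins

end Crest.Agent.T157.S3C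

end
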