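import Crest.Agent.T157.S3CD_16

/-!
# Row 157, block S3, section 4 (helper16): (C3) and the cavity data of one site
-/

set_option autoImplicit false

noncomputable section

namespace Crest.Agent.T157.S3C

open Matrix Finset Function Real
open Crest.Agent.T157.E Crest.Agent.T157.Eig
open Crest.Agent.T157.Rec (grad fl)
open Crest.Agent.T157.Uw (eta UW)
open Crest.Agent.T157.S3F (jac)
open Crest.Agent.T157.S3L.C365 (Tri Rc Prp Opb Src)
open Crest.Agent.T157.Conc (en en_sq)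

lemma l1_le {n : ℕ} (v : Fin n → ℝ) : ∑ j, |v j| ≤ nrm v * √n := by
  have h := dot_le (fun j => |v j|) 1
  rw [show nrm (fun j => |v j|) = nrm v by simp [nrm, dotProduct]] at h
  refine le_of_eq_of_le (by simp [dotProduct]) (h.trans (mul_le_mul_of_nonneg_left ?_ (nrm_nonneg v)))
  simpa using nrm_le_sqrt (v := (1 : Fin n → ℝ)) zero_le_one (by simp)

lemma en_eq {ι : Type*} [Fintype ι] (v : ι → ℝ) : en v = nrm v := by simp [en, nrm, dotProduct, sq]

namespace Ins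
variable {N : ℕ} {P : Pg N} {R K : ℝ} {u u' v v' : VF P R K} {c c' : Ins P R K → ℝ}

def o (a : Ins P R K) (l m : Fin (N + 1)) : ℝ := me a.s a.w (e (P.fm l m) a)
def o' (a : Ins P R K) (l m : Fin (N + 1)) : ℝ := me a.s a.wc (e' (P.fm l m) a)
def dF (l : Fin (N + 1)) : VF P R K := fun a x => e (P.f l) a x - ei a.i * e' (P.f l) a x
def Yd (l : Fin (N + 1)) : VF P R K :=
  fun a x => a.J *ᵥ dF l a x - ∑ m with m < l, o a l m • dF m a x
def z (a : Ins P R K) (l : Fin (N + 1)) : Fin a.n → ℝ :=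
  ei a.i * ((a.sys.hX l).choose - (a.sys'.hX l).choose)
/-- the centred cavity nodes -/
def Vc (a : Ins P R K) (x : Cube a.n) : Matrix (Fin (N + 1)) (Fin a.n) ℝ :=
  of fun l => ei a.i * ctr a.wc (e' (P.f l) a) x

lemma Yd_eq (hP : P.Ok) (l : Fin (N + 1)) (a : Ins P R K) (x : Cube a.n) :
    Yd l a x = a.J *ᵥ dF l a x - ∑ m, o a l m • dF m a x := by
  rw [Yd, sum_filter_of_ne fun m _ hm => not_le.1 fun hl => hm (by
    rw [o, hP.tri l m hl, e, ev_zero, me_zero, zero_smul])]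

lemma dX (hP : P.Ok) (l : Fin (N + 1)) (a : Ins P R K) (x : Cube a.n) :
    ei a.i * (a.X l x - a.X' l x) = ei a.i * Yd l a x -
      ∑ q, (o a l q - o' a l q) • (ei a.i * e' (P.f q) a x) - z a l := by
  rw [Yd_eq hP, (a.sys.hX l).choose_spec x, (a.sys'.hX l).choose_spec x, cJ_mulVec, z]
  simp only [dF, mul_sub, mul_sum, mul_smul_comm, ei_ei, sub_smul, smul_sub, sum_sub_distrib,
    mulVec_sub, o, o', e, e', w, wc]
  abel

def Nb (u : VF P R K) : Prop := ∃ C, 0 ≤ C ∧ ∀ a x, nrm (u a x) ≤ C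
def L1 (u : VF P R K) : Prop := ∃ C, ∀ a x, ∑ j, |u a x j| ≤ C
def Sr (u : VF P R K) : Prop := ∃ C, ∀ a, Src C (u a)

lemma sumP {Q : VF P R K → Prop} (h0 : Q fun _ _ => 0)
    (ha : ∀ {u v}, Q u → Q v → Q fun a x => u a x + v a x) {κ : Type*} (t : Finset κ)
    {u : κ → VF P R K} (h : ∀ q ∈ t, Q (u q)) : Q fun a x => ∑ q ∈ t, u q a x := by
  classical
  induction t using Finset.induction_on with
  | empty => simpa using h0
  | insert k t hk ih =>
    simp only [sum_insert hk]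
    exact ha (h k (mem_insert_self _ _)) (ih fun j hj => h j (mem_insert_of_mem hj))

lemma Nb.add (h : Nb u) (g : Nb v) : Nb fun a x => u a x + v a x :=
  let ⟨C, c0, h⟩ := h; let ⟨D, d0, g⟩ := g
  ⟨C + D, add_nonneg c0 d0, fun a x => (nrm_add_le _ _).trans (add_le_add (h a x) (g a x))⟩
lemma Nb.sub (h : Nb u) (g : Nb v) : Nb fun a x => u a x - v a x :=
  let ⟨C, c0, h⟩ := h; let ⟨D, d0, g⟩ := g
  ⟨C + D, add_nonneg c0 d0, fun a x => (nrm_sub_le _ _).trans (add_le_add (h a x) (g a x))⟩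
lemma Nb.sum {κ : Type*} (t : Finset κ) {u : κ → VF P R K} (h : ∀ q ∈ t, Nb (u q)) :
    Nb fun a x => ∑ q ∈ t, u q a x := sumP ⟨0, le_rfl, fun _ _ => by simp⟩ Nb.add t h
lemma Nb.J (h : Nb u) : Nb fun a x => a.J *ᵥ u a x :=
  let ⟨C, c0, h⟩ := h
  ⟨|R| * C, by positivity, fun a x => (nrm_mulVec_le _ _).trans (mul_le_mul
    (a.op.trans (le_abs_self R)) (h a x) (nrm_nonneg _) (abs_nonneg R))⟩
lemma Nb.smul (hc : Sc c c') (h : Nb u) : Nb fun a x => c a • u a x :=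
  let ⟨C, c0, hc⟩ := hc; let ⟨D, d0, h⟩ := h
  ⟨C * D, by positivity, fun a x => by
    rw [nrm_smul]; exact mul_le_mul (hc a).1 (h a x) (nrm_nonneg _) c0⟩
lemma Nb.mul (hc : Bd u) (h : Nb v) : Nb fun a x => u a x * v a x :=
  let ⟨C, c0, hc⟩ := hc; let ⟨D, d0, h⟩ := h
  ⟨C * D, by positivity, fun a x => (nrm_mul_le c0 (hc a x) _).trans
    (mul_le_mul_of_nonneg_left (h a x) c0)⟩
lemma bd_ei : Bd (P := P) (R := R) (K := K) fun a _ => ei a.i := ⟨1, zero_le_one, fun a _ => abs_ei a.i⟩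
lemma Sc.nb (hc : Sc c c') (h : Bd u) : Nb fun a x => (c a - c' a) • u a x :=
  let ⟨C, c0, hc⟩ := hc; let ⟨D, d0, h⟩ := h
  ⟨C * D, by positivity, fun a x => nrm_small a.hs (hc a).2 c0 d0 (h a x)⟩

lemma L1.add (h : L1 u) (g : L1 v) : L1 fun a x => u a x + v a x :=
  let ⟨C, h⟩ := h; let ⟨D, g⟩ := g
  ⟨C + D, fun a x => (sum_le_sum fun _ _ => abs_add_le _ _).trans
    (sum_add_distrib.trans_le (add_le_add (h a x) (g a x)))⟩
lemma L1.sum {κ : Type*} (t : Finset κ) {u : κ → VF P R K} (h : ∀ q ∈ t, L1 (u q)) :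
    L1 fun a x => ∑ q ∈ t, u q a x := sumP ⟨0, fun _ _ => by simp⟩ L1.add t h
lemma Sc.l1 (hc : Sc c c') (h : Nb u) : L1 fun a x => (c a - c' a) • u a x :=
  let ⟨C, c0, hc⟩ := hc; let ⟨D, d0, h⟩ := h
  ⟨C * D, fun a x => by
    simp only [Pi.smul_apply, smul_eq_mul, abs_mul, ← mul_sum]
    refine (mul_le_mul (hc a).2 ((l1_le _).trans (mul_le_mul_of_nonneg_right (h a x) (sqrt_nonneg _)))
      (by positivity) (by positivity)).trans ?_
    nlinarith [mul_le_mul_of_nonneg_left (s_sqrt a.hs) (mul_nonneg c0 d0)]⟩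
lemma Nb.l1 (h : Nb u) : L1 fun a x => u a x a.i • Pi.single a.i 1 :=
  let ⟨C, _, h⟩ := h
  ⟨C, fun a x => by
    rw [sum_eq_single a.i (fun j _ hj => by simp [hj]) (by simp)]
    simpa using (abs_apply_le_nrm _ _).trans (h a x)⟩

lemma Sr.add (h : Sr u) (g : Sr v) : Sr fun a x => u a x + v a x :=
  let ⟨C, h⟩ := h; let ⟨D, g⟩ := g
  ⟨C + D, fun a => (h a).add (g a)⟩
lemma Sr.sum {κ : Type*} (t : Finset κ) {u : κ → VF P R K} (h : ∀ q ∈ t, Sr (u q)) :
    Sr fun a x => ∑ q ∈ t, u q a x := sumP ⟨0, fun _ => .zero⟩ Sr.add t h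
lemma sr_mul (h : Bd u) (g : Jb u) {z : ∀ a : Ins P R K, Fin a.n → ℝ} (hz : Nb fun a _ => z a) :
    Sr fun a x => u a x * z a :=
  let ⟨C, c0, h⟩ := h; let ⟨D, d0, g⟩ := g; let ⟨E, _, hz⟩ := hz
  ⟨(C + 2 * D) * E, fun a => Src.mul (by positivity) (fun x k => (h a x k).trans (by linarith))
    (fun x v => (opb_jac (g a x) v).trans (mul_le_mul_of_nonneg_right (by linarith) (nrm_nonneg v)))
    (hz a default)⟩

lemma sc_o (hP : P.Ok) (l m : Fin (N + 1)) :
    Sc (P := P) (R := R) (K := K) (fun a => o a l m) fun a => o' a l m := (gp_e hP (hP.rm l m)).me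
lemma nb_dF (hP : P.Ok) (l : Fin (N + 1)) : Nb (P := P) (R := R) (K := K) (dF l) :=
  (gp_e hP (hP.rf l)).c.nrm (gp_e hP (hP.rf l)).b
lemma nb_Yd (hP : P.Ok) (l : Fin (N + 1)) : Nb (P := P) (R := R) (K := K) (Yd l) :=
  (nb_dF hP l).J.sub (Nb.sum _ fun m _ => Nb.smul (sc_o hP l m) (nb_dF hP m))
lemma nb_z (hP : P.Ok) (l : Fin (N + 1)) : Nb (P := P) (R := R) (K := K) fun a _ => -z a l := by
  obtain ⟨C, c0, h⟩ := (Nb.sub (c2 hP l).1 ((Nb.mul bd_ei (nb_Yd hP l)).sub (Nb.sum univ fun q _ =>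
    (sc_o (R := R) (K := K) hP l q).nb (bd_ei.mul (gp_e hP (hP.rf q)).b'))))
  refine ⟨C, c0, fun a x => le_of_eq_of_le ?_ (h a x)⟩
  simp only [dX hP, sub_sub_cancel_left]

/-- the smooth sources -/
def src (l : Fin (N + 1)) : VF P R K := fun a x => e (P.fb l) a x * (ei a.i * (a.b - a.b')) +
  (∑ m, e (P.fm l m) a x * -z a m +
    ∑ m, ∑ q, (e (P.fm l m) a x * e (P.f q) a x) * ((o' a m q - o a m q) • ei a.i))
/-- the rough sources -/
def rho (l : Fin (N + 1)) : VF P R K := fun a x =>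
  dF l a x - ∑ m with m < l, e (P.fm l m) a x * Yd m a x - src l a x

lemma sr_src (hP : P.Ok) (l : Fin (N + 1)) : Sr (P := P) (R := R) (K := K) (src l) := by
  have g := fun φ (h : R1 φ) => gp_e (R := R) (K := K) hP h
  refine (sr_mul (g _ (hP.rb l)).b (g _ (hP.rb l)).j cl_b).add ((Sr.sum _ fun m _ =>
    sr_mul (g _ (hP.rm l m)).b (g _ (hP.rm l m)).j (nb_z hP m)).add (Sr.sum _ fun m _ =>
      Sr.sum _ fun q _ => sr_mul ((g _ (hP.rm l m)).mul (g _ (hP.rf q))).b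
        ((g _ (hP.rm l m)).mul (g _ (hP.rf q))).j ?_))
  obtain ⟨C, c0, h⟩ := (sc_o (R := R) (K := K) hP m q).nb bd_ei
  exact ⟨C, c0, fun a x => by beta_reduce; rw [← neg_sub, neg_smul, nrm_neg]; exact h a x⟩

lemma l1_rho (hP : P.Ok) (l : Fin (N + 1)) : L1 (P := P) (R := R) (K := K) (rho l) := by
  have g := fun φ (h : R1 φ) => gp_e (R := R) (K := K) hP h
  have h1 : L1 (P := P) (R := R) (K := K) fun a x => ei a.i * (e (P.f l) a x - e' (P.f l) a x -
      e (P.fb l) a x * (a.b - a.b') - ∑ m, e (P.fm l m) a x * (a.X m x - a.X' m x)) := by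
    obtain ⟨Λ, hΛ⟩ := hP.tay
    obtain ⟨B, b0, hB⟩ := cl_b (P := P) (R := R) (K := K)
    choose E e0 hE using fun m => (c2 (R := R) (K := K) hP m).1
    refine ⟨|Λ| * (B ^ 2 + ∑ m, E m ^ 2), fun a x => (sum_le_sum (g := fun k => |Λ| *
      ((ei a.i * (a.b - a.b')) k ^ 2 + ∑ m, (ei a.i * (a.X m x - a.X' m x)) k ^ 2))
      fun k _ => ?_).trans ?_⟩
    · by_cases hk : k = a.i
      · simp [hk, ei_self]
      · have := hΛ l (a.b k) (a.b' k) (x k) (fun m => a.X m x k) fun m => a.X' m x k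
        rw [← abs_neg] at this
        simp only [Pi.mul_apply, ei_ne hk, one_mul, Pi.sub_apply, Finset.sum_apply, e, e', ev]
        refine (le_of_eq_of_le ?_ this).trans (mul_le_mul (le_abs_self Λ) (le_of_eq ?_)
          (by positivity) (abs_nonneg Λ))
        · simp only [mul_sub, sum_sub_distrib]; congr 1; ring
        · simp only [sub_sq']; congr 1
          · ring
          · exact sum_congr rfl fun m _ => by ring
    · rw [← mul_sum, sum_add_distrib, sum_comm]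
      have sq : ∀ (v : Fin a.n → ℝ) (C : ℝ), nrm v ≤ C → ∑ k, v k ^ 2 ≤ C ^ 2 := fun v C h => by
        rw [← en_sq, en_eq]; exact pow_le_pow_left₀ (nrm_nonneg v) h 2
      exact mul_le_mul_of_nonneg_left (add_le_add (sq _ _ (hB a x))
        (sum_le_sum fun m _ => sq _ _ (hE m a x))) (abs_nonneg Λ)
  obtain ⟨C, h⟩ := (h1.add (L1.sum univ fun m _ => L1.sum univ fun q _ => (sc_o hP m q).l1
    (Nb.mul (g _ (hP.rm l m)).b (g _ (hP.rf q)).c))).add ((nb_dF hP l).sub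
      (Nb.sum univ fun m _ => Nb.mul (g _ (hP.rm l m)).b (nb_Yd hP m))).l1
  refine ⟨C, fun a x => le_of_eq_of_le (sum_congr rfl fun k _ => congrArg _ ?_) (h a x)⟩
  rw [rho, sum_filter_of_ne fun m _ hm => not_le.1 fun hl => hm (by
    rw [hP.tri l m hl, e, ev_zero, zero_mul])]
  by_cases hk : k = a.i
  · simp [hk, ei_self, src, z, Finset.sum_apply]
  · have key : ∀ m, e (P.fm l m) a x k * (a.X m x k - a.X' m x k) =
        e (P.fm l m) a x k * Yd m a x k + (∑ q, e (P.fm l m) a x k * e (P.f q) a x k *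
          (o' a m q - o a m q) + ∑ q, (o a m q - o' a m q) * (e (P.fm l m) a x k *
          (e (P.f q) a x k - e' (P.f q) a x k))) + e (P.fm l m) a x k * -z a m k := fun m => by
      have := congrFun (dX hP m a x) k
      simp only [Pi.mul_apply, ei_ne hk, one_mul, Pi.sub_apply, Finset.sum_apply, Pi.smul_apply,
        smul_eq_mul] at this
      rw [this, ← sum_add_distrib, mul_sub, mul_sub, mul_sum, sub_eq_add_neg, sub_eq_add_neg,
        ← sum_neg_distrib, mul_neg]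
      congr 2
      exact sum_congr rfl fun q _ => by ring
    simp only [src, dF, Pi.mul_apply, ei_ne hk, one_mul, Pi.sub_apply, Finset.sum_apply,
      Pi.smul_apply, smul_eq_mul, Pi.add_apply, Pi.neg_apply, key, sum_add_distrib, mul_one,
      Pi.single_eq_of_ne hk, mul_zero]
    ring

/-- **(C3)** at one site -/
theorem c3 (hP : P.Ok) (R K : ℝ) : ∃ C, ∀ (a : Ins P R K)
    (T Z : Cube a.n → Fin (N + 1) → Fin (N + 1) → Matrix (Fin a.n) (Fin a.n) ℝ) (M : Cube a.n → ℝ)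
    (l : Fin (N + 1)) (K0 δ c0 : ℝ), 0 ≤ K0 → 0 ≤ δ → Atd.ATd a.w K0 δ →
    (∀ x, Prp univ (fun l => univ.filter (· < l)) a.J (o a) (fun l m => e (P.fm l m) a x) (T x) (Z x)) →
    (∀ x q j, |Z x l q a.i j| ≤ M x) →
    var a.w (fun x => a.X l x a.i - c0 - (Vc a x *ᵥ a.J a.i) l) ≤
      2 * (K0 + 1) * C ^ 2 * (mean a.w fun x => M x ^ 2) + 4 * δ * C ^ 2 := by
  obtain ⟨B, b1, hB⟩ := unif (τ := Fin (N + 1) × Fin (N + 1)) (P := fun p C => R ≤ C ∧
      ∀ a : Ins P R K, |o a p.1 p.2| ≤ C ∧ Src C (src p.1 a) ∧ ∀ x, (∀ k, |e (P.fm p.1 p.2) a x k| ≤ C) ∧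
        2 * opn (jac (e (P.fm p.1 p.2) a) x) ≤ C ∧ ∑ j, |rho p.1 a x j| ≤ C)
    (fun _ _ _ h g => ⟨g.1.trans h, fun a => ⟨(g.2 a).1.trans h, (g.2 a).2.1.mono h, fun x =>
      ⟨fun k => (((g.2 a).2.2 x).1 k).trans h, ((g.2 a).2.2 x).2.1.trans h,
        ((g.2 a).2.2 x).2.2.trans h⟩⟩⟩) fun p => by
    obtain ⟨C1, c1, h1⟩ := sc_o (R := R) (K := K) hP p.1 p.2
    obtain ⟨C2, h2⟩ := sr_src (R := R) (K := K) hP p.1
    obtain ⟨C3, c3, h3⟩ := (gp_e (R := R) (K := K) hP (hP.rm p.1 p.2)).b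
    obtain ⟨C4, c4, h4⟩ := (gp_e (R := R) (K := K) hP (hP.rm p.1 p.2)).j
    obtain ⟨C5, h5⟩ := l1_rho (R := R) (K := K) hP p.1
    have := abs_nonneg R; have := abs_nonneg C2; have := abs_nonneg C5
    exact ⟨|R| + C1 + |C2| + C3 + 2 * C4 + |C5|, by linarith [le_abs_self R], fun a =>
      ⟨by linarith [(h1 a).1], (h2 a).mono (by linarith [le_abs_self C2]), fun x =>
        ⟨fun k => by linarith [h3 a x k], by linarith [h4 a x], by linarith [h5 a x, le_abs_self C5]⟩⟩⟩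
  obtain ⟨C, -, hC⟩ := S3L.C365.core (tri_lt (N + 1)) (zero_le_one.trans b1)
  refine ⟨C, fun a T Z M l K0 δ c0 hK hδ hA hp hZ => ?_⟩
  obtain ⟨Ψ, hΨ⟩ := hC a.n a.J (o a) (fun x l m => e (P.fm l m) a x) (fun x l => src l a x)
    (fun x l => rho l a x) (fun x l => dF l a x) (fun x l => Yd l a x) T Z M a.i
    (a.op.trans (hB (0, 0)).1) (fun l _ m _ => ((hB (l, m)).2 a).1)
    (fun x l _ m _ => (((hB (l, m)).2 a).2.2 x).1)
    (fun x l _ m _ v => (opb_jac le_rfl v).trans (mul_le_mul_of_nonneg_right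
      (((hB (l, m)).2 a).2.2 x).2.1 (nrm_nonneg v)))
    (fun q _ => ((hB (q, 0)).2 a).2.1) (fun x q _ => (((hB (q, 0)).2 a).2.2 x).2.2)
    (fun x l _ => ⟨by simp only [Pi.add_apply, rho]; abel, rfl⟩) hp l (mem_univ l)
    fun x q _ j => hZ x q j
  refine le_of_eq_of_le ?_ (S3L.C365.var_le (fun _ => exp_pos _) hK hδ hA hΨ)
  refine (congrArg _ (funext fun x => ?_)).trans (a.hw.isP.var_add_const _
    (a.J a.i ⬝ᵥ (ei a.i * meanV a.wc (e' (P.f l) a)) - (a.sys.hX l).choose a.i - c0))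
  rw [Yd_eq hP, (a.sys.hX l).choose_spec x]
  change _ - c0 - (ei a.i * ctr a.wc (e' (P.f l) a) x) ⬝ᵥ a.J a.i = _
  simp only [dF, ctr, Pi.sub_apply, Finset.sum_apply, Pi.smul_apply, Pi.mul_apply, ei_self, zero_mul,
    sub_zero, mulVec_sub, mul_sub, dotProduct_comm _ (a.J a.i), dotProduct_sub, o, e, w]
  change _ = _ - a.J a.i ⬝ᵥ _ - _ + _
  ring

lemma Vc_mulVec (a : Ins P R K) (x : Cube a.n) (u : Fin a.n → ℝ) (l : Fin (N + 1)) :
    (Vc a x *ᵥ u) l = (ei a.i * u) ⬝ᵥ e' (P.f l) a x -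
      mean a.wc fun x => (ei a.i * u) ⬝ᵥ e' (P.f l) a x := by
  rw [← SL.meanV_dot, ← dotProduct_sub, ei_dot, dotProduct_comm]; rfl

lemma ei_row (a : Ins P R K) : ei a.i * a.J a.i = a.J a.i := by
  ext k; by_cases hk : k = a.i <;> simp [ei, hk, a.diag]

/-- the overlaps of the cavity nodes concentrate at the Gram matrix of the full system -/
lemma ov (h : GP u u') : ∃ C, ∀ a : Ins P R K,
    (mean a.wc fun x => |eta a.s (ei a.i * u' a x) - me a.s a.w (u a)|) ≤ C * |a.s| := by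
  obtain ⟨B, b0, hB⟩ := h.b'
  obtain ⟨D, d0, hD⟩ := h.j'
  obtain ⟨E, e1, hE⟩ := c1 (P := P) R K
  obtain ⟨F, f0, hF⟩ := h.me
  refine ⟨E * D + (2 * B + F), fun a => ?_⟩
  set Ψ : Cube a.n → ℝ := fun x => eta a.s (ei a.i * u' a x) with hΨ
  have h1 := (hE a Ψ (D * |a.s|) (fun x τ => congrArg (eta a.s) (h.f a x τ))
    fun x => nrm_grad_eta a.hs (abs_ei _) (hD a x)).2.1
  have h2 : (mean a.wc fun x => |Ψ x - mean a.wc Ψ|) ≤ E * (D * |a.s|) := by
    have := mean_sq_le a.hc fun x => |Ψ x - mean a.wc Ψ|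
    simp only [sq_abs] at this
    refine (abs_le_of_sq_le_sq' (this.trans (h1.trans ?_)) (by positivity)).2
    rw [mul_pow E]
    exact mul_le_mul_of_nonneg_right (le_self_pow₀ e1 two_ne_zero) (sq_nonneg _)
  have h3 : |mean a.wc Ψ - me a.s a.wc (u' a)| ≤ 2 * B * |a.s| := by
    rw [me, ← SL.mean_sub]
    refine a.hc.abs_mean_le fun x => (abs_eta_sub (i := a.i) (D := 0) a.hs (fun k => ?_) (hB a x)
      (by rw [mul_sub, ei_ei, sub_self, nrm_zero])).trans_eq (by rw [zero_add])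
    rw [Pi.mul_apply, abs_mul]
    exact (mul_le_of_le_one_left (abs_nonneg _) (abs_ei _ _)).trans (hB a x k)
  refine (a.hc.mean_mono (g := fun x => |Ψ x - mean a.wc Ψ| + (2 * B + F) * |a.s|)
    fun x => ?_).trans ?_
  · have := (hF a).2
    rw [abs_sub_comm] at this
    linarith [abs_sub_le (Ψ x) (mean a.wc Ψ) (me a.s a.w (u a)),
      abs_sub_le (mean a.wc Ψ) (me a.s a.wc (u' a)) (me a.s a.w (u a))]
  · rw [SL.mean_add, a.hc.mean_const]; linarith

/-- **the cavity data of one site** -/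
theorem site (hP : P.Ok) (R K : ℝ) : ∃ C, 1 ≤ C ∧ ∀ a : Ins P R K,
    (∀ u, (mean a.wc fun x => en (Vc a x *ᵥ u) ^ 2) ≤ C * en u ^ 2) ∧
    ∀ (κ : Type) [Fintype κ] (A : Matrix (Fin (N + 1)) κ ℝ),
      (∀ l m, (A * Aᵀ) l m = Sg a.s a.w (e (P.f l) a) (e (P.f m) a)) →
      S3L.Ll65.Site C (C * |a.s|) a.s 0 a.w (a.J a.i)
        (fun x l => a.X l x a.i - cs P a.s a.w a.b a.X l a.i) (a.b a.i) A a.i a.wc (Vc a) := by
  have g := fun l => gp_e (R := R) (K := K) hP (hP.rf l)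
  obtain ⟨E, e1, hE⟩ := c1 (P := P) R K
  have e0 : 0 ≤ E := zero_le_one.trans e1
  obtain ⟨D, d1, hD⟩ := unif (P := fun l C => ∀ (a : Ins P R K) x, opn (jac (e' (P.f l) a) x) ≤ C)
    (fun _ _ _ h g a x => (g a x).trans h) fun l => let ⟨C, _, h⟩ := (g l).j'; ⟨C, h⟩
  obtain ⟨S, s1, hS⟩ := unif (τ := Fin (N + 1) × Fin (N + 1)) (P := fun p C => ∀ a : Ins P R K,
    |Sg a.s a.w (e (P.f p.1) a) (e (P.f p.2) a)| ≤ C ∧ (mean a.wc fun x => |eta a.s (ei a.i *
      (ctr a.wc (e' (P.f p.1) a) x * ctr a.wc (e' (P.f p.2) a) x)) -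
        Sg a.s a.w (e (P.f p.1) a) (e (P.f p.2) a)|) ≤ C * |a.s|)
    (fun _ _ _ h g a => ⟨(g a).1.trans h, (g a).2.trans (mul_le_mul_of_nonneg_right h (abs_nonneg _))⟩)
    fun p => by
      obtain ⟨C1, c1, h1⟩ := (g p.1).Sg (g p.2)
      obtain ⟨C2, h2⟩ := ov ((g p.1).ctr.mul (g p.2).ctr)
      exact ⟨C1 + |C2|, fun a => ⟨(h1 a).1.trans (le_add_of_nonneg_right (abs_nonneg _)), (h2 a).trans
        (mul_le_mul_of_nonneg_right (by linarith [le_abs_self C2]) (abs_nonneg _))⟩⟩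
  obtain ⟨L, hL⟩ : ∃ L : ℝ, L = (N + 1 : ℕ) := ⟨_, rfl⟩
  have L1 : 1 ≤ L := by rw [hL]; exact_mod_cast Nat.succ_pos N
  have p1 : 0 ≤ L * (E * D ^ 2) := by positivity
  have p2 : 0 ≤ L * (L * (E * (D * |R|) ^ 4)) := by positivity
  have p3 : 0 ≤ L * (L * S) := by positivity
  refine ⟨E + L * (E * D ^ 2) + L * (L * (E * (D * |R|) ^ 4)) + L * (L * S), by linarith, fun a => ?_⟩
  have key := fun l u => hE a _ _ ((g l).f a |>.dot u) fun x => nrm_grad_dot (ei a.i * u) (hD l a x)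
  have cd : ∀ t : ℝ, ∑ _l : Fin (N + 1), t = L * t := fun t => by simp [hL]
  have f0 : ∀ b X, ev (n := a.n) b X (P.f 0) = sv := fun b X => by rw [hP.f0]; rfl
  have c0 : cs P a.s a.w a.b a.X 0 = 0 := by
    rw [cs, hP.g0, hP.g0', ev_zero, me_zero, zero_smul, add_zero]; ext k; simp [meanV, mean]
  refine ⟨fun u => ?_, fun κ _ A hA => ⟨fun _ => exp_pos _,
    (cv_ising a.symm a.diag a.y).fw, fun x τ => ?_, ⟨a.y a.i + a.J a.i ⬝ᵥ meanV a.wc sv, fun x => ?_,
    fun x => ?_⟩, fun l => ?_, ?_, ?_, ?_, ?_⟩⟩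
  · simp only [en_sq (Vc _ _ *ᵥ _), SL.mean_sum, Vc_mulVec]
    have q : (D * nrm (ei a.i * u)) ^ 2 ≤ (D * en u) ^ 2 := by
      rw [en_eq]; have := nrm_nonneg (ei a.i * u); gcongr; exact nrm_ei_le u
    refine (sum_le_sum fun l _ => (key l u).2.1.trans (mul_le_mul_of_nonneg_left q e0)).trans ?_
    rw [cd, mul_pow]
    nlinarith [mul_nonneg (add_nonneg (add_nonneg e0 p2) p3) (sq_nonneg (en u))]
  · exact congrArg of (funext fun l => (g l).ctr.f a x τ)
  · rw [Vc_mulVec, ei_row, e', f0, ← SL.meanV_dot]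
    exact ((cv_ising a.symm a.diag a.y).eq x).trans (by congr 3; ring)
  · have s0 : Sg a.s a.w sv sv = eta a.s (1 - meanV a.w sv * meanV a.w sv) := by
      rw [Sg_eq, eta]
      congr 1
      refine sum_congr rfl fun k _ => ?_
      rw [a.hw.cov_eq]
      simp only [Rec.sv_mul_self, a.hw.mean_const]
      rfl
    have hb := congrFun a.sys.hb a.i
    rw [Vc_mulVec, ei_row, e', f0, ← SL.meanV_dot, a.sys.ctr_eq hP a.hw, hb]
    simp only [w] at c0 s0 ⊢
    rw [c0, f0, s0]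
    simp only [Fin.not_lt_zero, filter_false, sum_empty, ctr, mulVec_sub, Pi.add_apply, Pi.sub_apply,
      Pi.zero_apply]
    change a.J a.i ⬝ᵥ _ - _ - _ + _ - _ = _
    ring
  · have := congrFun (a.sys.cen l) a.i
    rw [SL.mean_sub, a.hw.mean_const, hA, e, e, f0, sub_eq_iff_eq_add]
    exact this
  · have r : nrm (ei a.i * a.J a.i) ≤ |R| :=
      (nrm_ei_le _).trans ((nrm_row_le _ _).trans (a.op.trans (le_abs_self R)))
    refine (a.hc.mean_mono (g := fun x => L * ∑ l, (Vc a x *ᵥ a.J a.i) l ^ 4) fun x => ?_).trans ?_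
    · have := pow_sum_le_card_mul_sum_pow (s := univ) (f := fun l => (Vc a x *ᵥ a.J a.i) l ^ 2)
        (fun _ _ => sq_nonneg _) 1
      rw [show 4 = 2 * 2 from rfl, pow_mul, en_sq]
      simp only [pow_mul]
      simpa [hL] using this
    · simp only [SL.mean_const_mul, SL.mean_sum, Vc_mulVec]
      have q : (D * nrm (ei a.i * a.J a.i)) ^ 4 ≤ (D * |R|) ^ 4 := by
        have := nrm_nonneg (ei a.i * a.J a.i); gcongr
      refine (mul_le_mul_of_nonneg_left (sum_le_sum fun l _ => (key l _).2.2.1.trans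
        (mul_le_mul_of_nonneg_left q e0)) (by linarith)).trans ?_
      rw [cd]; linarith
  · have := (hE a _ R ((g 0).f a |>.dot (a.J a.i)) fun x => by
      rw [e', f0, Rec.grad_lin]
      exact (nrm_ei_le _).trans ((nrm_row_le _ _).trans a.op)).2.2.2 le_rfl
    simp only [Vc_mulVec]
    linarith
  · rw [S3L.f2, ← S3L.Clt58.trace_eq, trace]
    refine (sum_le_sum fun l _ => ((hA l l).trans_le ((le_abs_self _).trans (hS (l, l) a).1))).trans ?_
    rw [cd]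
    nlinarith [mul_le_mul_of_nonneg_right L1 (mul_nonneg (zero_le_one.trans L1) (zero_le_one.trans s1))]
  · simp only [S3L.d1, SL.mean_sum, hA]
    refine (sum_le_sum fun l _ => sum_le_sum fun m _ => le_of_eq_of_le ?_ (hS (l, m) a).2).trans ?_
    · congr 1
      ext x
      congr 2
      simp only [Matrix.smul_apply, smul_eq_mul, eta, mul_apply, transpose_apply, Vc, of_apply]
      congr 1
      refine sum_congr rfl fun k _ => ?_
      by_cases hk : k = a.i <;> simp [ei, hk]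
    · rw [cd, cd]
      nlinarith [mul_nonneg (add_nonneg (add_nonneg e0 p1) p2) (abs_nonneg a.s)]

end Ins

end Crest.Agent.T157.S3C

end
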