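import Mathlib

/-!
# Smooth functions with all derivatives bounded (helper65)
-/

set_option autoImplicit false

noncomputable section

namespace Crest.Agent.T157.S3P

open Finset

variable {E E' F G : Type} [NormedAddCommGroup E] [NormedSpace ℝ E] [NormedAddCommGroup E']
  [NormedSpace ℝ E'] [NormedAddCommGroup F] [NormedSpace ℝ F] [NormedAddCommGroup G]
  [NormedSpace ℝ G]

/-- `C^j` with bounded derivative of order `j` -/
def Cj (j : ℕ) (φ : E → F) : Prop := ContDiff ℝ j φ ∧ ∃ C, ∀ p, ‖iteratedFDeriv ℝ j φ p‖ ≤ C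

/-- smooth, all derivatives bounded -/
def Cb (φ : E → ℝ) : Prop := ∀ j, Cj j φ

lemma Cj.add {j : ℕ} {φ ψ : E → F} (h : Cj j φ) (h' : Cj j ψ) : Cj j fun p => φ p + ψ p := by
  obtain ⟨h1, C, hC⟩ := h
  obtain ⟨h2, C', hC'⟩ := h'
  refine ⟨h1.add h2, C + C', fun p => ?_⟩
  rw [fun_iteratedFDeriv_add_apply h1.contDiffAt h2.contDiffAt]
  exact (norm_add_le _ _).trans (add_le_add (hC p) (hC' p))

lemma Cj.const (j : ℕ) (c : F) : Cj j fun _ : E => c := by
  refine ⟨contDiff_const, ‖c‖, fun p => ?_⟩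
  rcases eq_or_ne j 0 with rfl | h
  · simp
  · simp [iteratedFDeriv_const_of_ne h]

lemma Cj.sum {j : ℕ} {ι : Type*} (t : Finset ι) {φ : ι → E → F} (h : ∀ i ∈ t, Cj j (φ i)) :
    Cj j fun p => ∑ i ∈ t, φ i p := by
  classical
  induction t using Finset.induction_on with
  | empty => simpa using Cj.const j (0 : F)
  | insert i t hi ih =>
    simp only [sum_insert hi]
    exact (h i (mem_insert_self _ _)).add (ih fun k hk => h k (mem_insert_of_mem hk))

lemma Cj.clm {j : ℕ} {φ : E → F} (h : Cj j φ) (L : F →L[ℝ] G) : Cj j fun p => L (φ p) := by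
  obtain ⟨h1, C, hC⟩ := h
  exact ⟨L.contDiff.comp h1, ‖L‖ * C, fun p => (L.norm_iteratedFDeriv_comp_left h1.contDiffAt
    le_rfl).trans (mul_le_mul_of_nonneg_left (hC p) (norm_nonneg _))⟩

namespace Cb
variable {φ ψ : E → ℝ}

lemma contDiff (h : Cb φ) (j : ℕ) : ContDiff ℝ j φ := (h j).1
lemma diff (h : Cb φ) : Differentiable ℝ φ := (h.contDiff 1).differentiable (by simp)
lemma continuous (h : Cb φ) : Continuous φ := h.diff.continuous
lemma bd (h : Cb φ) : ∃ C, ∀ p, |φ p| ≤ C := by simpa using (h 0).2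
lemma const (c : ℝ) : Cb fun _ : E => c := fun j => .const j c
lemma add (h : Cb φ) (h' : Cb ψ) : Cb fun p => φ p + ψ p := fun j => (h j).add (h' j)
lemma sum {ι : Type*} (t : Finset ι) {φ : ι → E → ℝ} (h : ∀ i ∈ t, Cb (φ i)) :
    Cb fun p => ∑ i ∈ t, φ i p := fun j => .sum t fun i hi => h i hi j

lemma mul (h : Cb φ) (h' : Cb ψ) : Cb fun p => φ p * ψ p := fun j => by
  choose C hC using fun i => (h i).2
  choose C' hC' using fun i => (h' i).2
  refine ⟨(h j).1.mul (h' j).1, ∑ i ∈ range (j + 1), (j.choose i : ℝ) * C i * C' (j - i), fun p =>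
    (norm_iteratedFDeriv_mul_le (h j).1 (h' j).1 p le_rfl).trans (sum_le_sum fun i _ => ?_)⟩
  have := (norm_nonneg _).trans (hC i p)
  exact mul_le_mul (mul_le_mul_of_nonneg_left (hC i p) (Nat.cast_nonneg _)) (hC' _ p)
    (norm_nonneg _) (by positivity)

lemma const_mul (h : Cb φ) (c : ℝ) : Cb fun p => c * φ p := (const c).mul h
lemma neg (h : Cb φ) : Cb fun p => -φ p := by simpa using h.const_mul (-1)
lemma sub (h : Cb φ) (h' : Cb ψ) : Cb fun p => φ p - ψ p := by
  simpa only [sub_eq_add_neg] using h.add h'.neg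
lemma div_const (h : Cb φ) (c : ℝ) : Cb fun p => φ p / c := by
  simpa only [div_eq_mul_inv] using h.mul (const c⁻¹)
lemma pow (h : Cb φ) (k : ℕ) : Cb fun p => φ p ^ k := by
  induction k with
  | zero => simpa using const 1
  | succ k ih => simpa only [pow_succ] using ih.mul h

/-- directional derivatives -/
lemma der (h : Cb φ) (v : E) : Cb fun p => fderiv ℝ φ p v := fun j => by
  obtain ⟨h1, C, hC⟩ := h (j + 1)
  have h2 : ContDiff ℝ j (fderiv ℝ φ) := h1.fderiv_right (by simp)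
  exact ⟨h2.clm_apply contDiff_const, ‖v‖ * C, fun p => (norm_iteratedFDeriv_clm_apply_const
    h2.contDiffAt le_rfl).trans (mul_le_mul_of_nonneg_left
      (norm_iteratedFDeriv_fderiv.trans_le (hC p)) (norm_nonneg _))⟩

/-- affine changes of variables, with bounds that do not depend on the translation -/
lemma affine' (h : Cb φ) (L : E' →L[ℝ] E) (j : ℕ) : ∃ C, ∀ c, ContDiff ℝ j (fun q => φ (c + L q)) ∧
    ∀ q, ‖iteratedFDeriv ℝ j (fun q => φ (c + L q)) q‖ ≤ C := by
  obtain ⟨h1, C, hC⟩ := h j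
  refine ⟨C * ‖L‖ ^ j, fun c => ?_⟩
  have h2 : ContDiff ℝ j fun p => φ (c + p) := h1.comp (contDiff_const.add contDiff_id)
  refine ⟨h2.comp L.contDiff, fun q => ?_⟩
  rw [show (fun q => φ (c + L q)) = (fun p => φ (c + p)) ∘ L from rfl,
    L.iteratedFDeriv_comp_right h2 q le_rfl, iteratedFDeriv_comp_add_left]
  refine (ContinuousMultilinearMap.norm_compContinuousLinearMap_le _ _).trans ?_
  rw [prod_const, card_univ, Fintype.card_fin]
  exact mul_le_mul_of_nonneg_right (hC _) (by positivity)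

lemma affine (h : Cb φ) (L : E' →L[ℝ] E) (c : E) : Cb fun q => φ (c + L q) := fun j =>
  let ⟨C, hC⟩ := h.affine' L j
  ⟨(hC c).1, C, (hC c).2⟩

lemma clm (h : Cb φ) (L : E' →L[ℝ] E) : Cb fun q => φ (L q) := by simpa using h.affine L 0

/-- coinduction -/
theorem of_closed [FiniteDimensional ℝ E] (S : Set (E → ℝ)) (h : ∀ ψ ∈ S, Differentiable ℝ ψ ∧
    (∃ C, ∀ p, |ψ p| ≤ C) ∧ ∀ v, (fun p => fderiv ℝ ψ p v) ∈ S) : ∀ ψ ∈ S, Cb ψ := by
  suffices H : ∀ j, ∀ ψ ∈ S, Cj j ψ from fun ψ hψ j => H j ψ hψ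
  intro j
  induction j with
  | zero => exact fun ψ hψ => ⟨contDiff_zero.2 (h ψ hψ).1.continuous, by simpa using (h ψ hψ).2.1⟩
  | succ j ih =>
    intro ψ hψ
    let b := Module.finBasis ℝ E
    have h1 : Cj j fun p => ∑ i, (ContinuousLinearMap.toSpanSingleton ℝ
        (LinearMap.toContinuousLinearMap (b.coord i))) (fderiv ℝ ψ p (b i)) :=
      .sum _ fun i _ => (ih _ ((h ψ hψ).2.2 (b i))).clm _
    have e : (fun p => ∑ i, (ContinuousLinearMap.toSpanSingleton ℝ
        (LinearMap.toContinuousLinearMap (b.coord i))) (fderiv ℝ ψ p (b i))) = fderiv ℝ ψ := by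
      ext p v
      conv_rhs => rw [← b.sum_repr v, map_sum]
      simp [mul_comm]
    rw [e] at h1
    obtain ⟨h2, C, hC⟩ := h1
    refine ⟨?_, C, fun p => norm_iteratedFDeriv_fderiv.symm.trans_le (hC p)⟩
    push_cast
    exact contDiff_succ_iff_fderiv.2 ⟨(h ψ hψ).1, by simp, h2⟩

/-- composition with a function whose derivatives are in the class -/
theorem comp [FiniteDimensional ℝ E] {χ : ℝ → ℝ} (hχ : Cb χ) {u : E → ℝ}
    (hu : Differentiable ℝ u) (hd : ∀ v, Cb fun p => fderiv ℝ u p v) : Cb fun p => χ (u p) := by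
  let S : AddSubmonoid (E → ℝ) := AddSubmonoid.closure
    {f | ∃ (χ : ℝ → ℝ) (G : E → ℝ), Cb χ ∧ Cb G ∧ f = fun p => χ (u p) * G p}
  have h0 : (fun p => χ (u p)) ∈ S := AddSubmonoid.subset_closure ⟨χ, _, hχ, const 1, by simp⟩
  refine of_closed S (fun ψ hψ => ?_) _ h0
  induction hψ using AddSubmonoid.closure_induction with
  | mem f hf =>
    obtain ⟨χ, G, h1, h2, rfl⟩ := hf
    obtain ⟨C, hC⟩ := h1.bd
    obtain ⟨C', hC'⟩ := h2.bd
    have d1 : Differentiable ℝ fun p => χ (u p) := h1.diff.comp hu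
    refine ⟨d1.mul h2.diff, ⟨C * C', fun p => by
      rw [abs_mul]; exact mul_le_mul (hC _) (hC' _) (abs_nonneg _) ((abs_nonneg _).trans (hC 0))⟩,
      fun v => ?_⟩
    have e : (fun p => fderiv ℝ (fun p => χ (u p) * G p) p v) =
        (fun p => χ (u p) * fderiv ℝ G p v) +
          fun p => fderiv ℝ χ (u p) 1 * (fderiv ℝ u p v * G p) := by
      ext p
      rw [fderiv_fun_mul (d1 p) (h2.diff p), fderiv_fun_comp p (h1.diff _) (hu p)]
      have : fderiv ℝ χ (u p) (fderiv ℝ u p v) = fderiv ℝ u p v * fderiv ℝ χ (u p) 1 := by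
        rw [← smul_eq_mul, ← map_smul, smul_eq_mul, mul_one]
      simp [this]
      ring
    rw [e]
    exact add_mem (AddSubmonoid.subset_closure ⟨χ, _, h1, h2.der v, rfl⟩)
      (AddSubmonoid.subset_closure ⟨_, _, h1.der 1, (hd v).mul h2, rfl⟩)
  | zero => exact ⟨differentiable_const _, ⟨0, by simp⟩, fun v => by
      simp only [fderiv_zero, Pi.zero_apply, _root_.zero_apply]
      exact zero_mem _⟩
  | add f g _ _ h1 h2 =>
    obtain ⟨a1, ⟨C, hC⟩, a3⟩ := h1
    obtain ⟨b1, ⟨C', hC'⟩, b3⟩ := h2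
    refine ⟨a1.add b1, ⟨C + C', fun p => (abs_add_le _ _).trans (add_le_add (hC p) (hC' p))⟩,
      fun v => ?_⟩
    have e : (fun p => fderiv ℝ (f + g) p v) = (fun p => fderiv ℝ f p v) + fun p => fderiv ℝ g p v := by
      ext p; simp [fderiv_add (a1 p) (b1 p)]
    rw [e]
    exact add_mem (a3 v) (b3 v)

lemma comp_cb [FiniteDimensional ℝ E] {χ : ℝ → ℝ} (hχ : Cb χ) (h : Cb φ) : Cb fun p => χ (φ p) :=
  hχ.comp h.diff h.der

/-- Lipschitz bound and Taylor expansion with a quadratic rest -/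
lemma taylor (h : Cb φ) : ∃ C, 0 ≤ C ∧ ∀ p q, |φ q - φ p| ≤ C * ‖q - p‖ ∧
    |φ q - φ p - fderiv ℝ φ p (q - p)| ≤ C * ‖q - p‖ ^ 2 := by
  obtain ⟨-, C1, h1⟩ := h 1
  obtain ⟨c2, C2, h2⟩ := h 2
  have a1 : ∀ p, ‖fderiv ℝ φ p‖ ≤ C1 := fun p => by simpa using h1 p
  have a2 : ∀ p, ‖fderiv ℝ (fderiv ℝ φ) p‖ ≤ C2 := fun p => by
    have := (norm_iteratedFDeriv_fderiv (n := 1)).trans_le (h2 p)
    simpa using this
  have d2 : Differentiable ℝ (fderiv ℝ φ) :=
    (c2.fderiv_right (m := 1) (by norm_num)).differentiable (by simp)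
  have p1 := (norm_nonneg _).trans (a1 0)
  have p2 : 0 ≤ C2 := (norm_nonneg _).trans (h2 0)
  refine ⟨C1 + C2, by positivity, fun p q => ⟨?_, ?_⟩⟩
  · exact (convex_univ.norm_image_sub_le_of_norm_fderiv_le (fun x _ => h.diff x) (fun x _ => a1 x)
      trivial trivial).trans (mul_le_mul_of_nonneg_right (by linarith) (norm_nonneg _))
  · have := (convex_closedBall p ‖q - p‖).norm_image_sub_le_of_norm_fderiv_le'
      (C := C2 * ‖q - p‖) (φ := fderiv ℝ φ p) (fun x _ => h.diff x) (fun x hx =>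
        (convex_univ.norm_image_sub_le_of_norm_fderiv_le (fun x _ => d2 x) (fun x _ => a2 x)
          trivial trivial).trans (mul_le_mul_of_nonneg_left (mem_closedBall_iff_norm.1 hx) p2))
      (Metric.mem_closedBall_self (norm_nonneg _)) (mem_closedBall_iff_norm.2 le_rfl)
    exact this.trans (by nlinarith [sq_nonneg ‖q - p‖])

end Cb

lemma hasDerivAt_tanh (x : ℝ) : HasDerivAt Real.tanh (1 - Real.tanh x ^ 2) x := by
  have h := (Real.hasDerivAt_sinh x).div (Real.hasDerivAt_cosh x) (Real.cosh_pos x).ne'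
  have e : Real.sinh / Real.cosh = Real.tanh := funext fun y => (Real.tanh_eq_sinh_div_cosh y).symm
  rw [e] at h
  refine h.congr_deriv ?_
  have := (Real.cosh_pos x).ne'
  rw [Real.tanh_eq_sinh_div_cosh]
  field_simp

theorem cb_tanh : Cb Real.tanh := by
  refine Cb.of_closed {f | ∃ P : Polynomial ℝ, f = fun x => P.eval (Real.tanh x)} ?_ _
    ⟨Polynomial.X, by simp⟩
  rintro _ ⟨P, rfl⟩
  have hd := fun x => (P.hasDerivAt (Real.tanh x)).comp x (hasDerivAt_tanh x)
  obtain ⟨C, hC⟩ := (isCompact_Icc (a := (-1 : ℝ)) (b := 1)).exists_bound_of_continuousOn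
    P.continuous.continuousOn
  refine ⟨fun x => (hd x).differentiableAt, ⟨C, fun x => hC _ (abs_le.1 (Real.abs_tanh_lt_one x).le)⟩,
    fun v => ⟨Polynomial.C v * (P.derivative * (1 - Polynomial.X ^ 2)), ?_⟩⟩
  ext x
  have := (hd x).hasFDerivAt.fderiv
  rw [show (fun x => P.eval (Real.tanh x)) = (fun x => P.eval x) ∘ Real.tanh from rfl, this]
  simp

end Crest.Agent.T157.S3P

end
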