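import Crest.Agent.T157.S3CE_16
import Crest.Agent.T157.S3Prog_65

/-!
# Row 157, block S3, section 4 (helper16): the cavity data of the canonical network
-/

set_option autoImplicit false

noncomputable section

namespace Crest.Agent.T157.S3C

open Matrix Finset Function Real
open Crest.Agent.T157.E Crest.Agent.T157.Eig
open Crest.Agent.T157.Rec (grad fl)
open Crest.Agent.T157.Uw (eta UW)
open Crest.Agent.T157.S3F (jac)
open Crest.Agent.T157.S3P (Prog Sm bF)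
open Crest.Agent.T157.Conc (en)

variable {N n : ℕ}

lemma r1_of_sm {φ : S3P.PF N} (h : Sm φ) : R1 φ := by
  obtain ⟨A, a0, hA⟩ := h.bd
  obtain ⟨B, b0, hB⟩ := h.taylor
  obtain ⟨C, c1, hC⟩ := unif (P := fun m C => ∀ b s ξ, |S3P.pd m φ b s ξ| ≤ C)
    (fun _ _ _ h g b s ξ => (g b s ξ).trans h) fun m => let ⟨C, _, h⟩ := (h.pd m).bd; ⟨C, h⟩
  refine ⟨A + B + C, fun b s ξ m => S3P.pd m φ b s ξ, by linarith, fun b s ξ => by linarith [hA b s ξ],
    fun b b' s ξ ξ' => (hB b' b s ξ' ξ).1.trans (mul_le_mul_of_nonneg_right (by linarith)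
      (by positivity)), fun b s ξ v => ?_, fun b s ξ m => by linarith [hC m b s ξ]⟩
  have := (hB b b s ξ (ξ + v)).2
  simp only [sub_self, mul_zero, sub_zero, Pi.add_apply, add_sub_cancel_left, ne_eq,
    OfNat.ofNat_ne_zero, not_false_eq_true, zero_pow, zero_add] at this
  exact this.trans (mul_le_mul_of_nonneg_right (by linarith) (by positivity))

def toPg (P : Prog N) : Pg N :=
  ⟨P.f, P.g, P.g', fun l => S3P.db (P.f l), fun l m => S3P.pd m (P.f l)⟩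

lemma ok_toPg {P : Prog N} (h : P.Ok) : (toPg P).Ok where
  rf l := r1_of_sm (h.sf l)
  rg l := r1_of_sm (h.sg l)
  rg' l := r1_of_sm (h.sg' l)
  rb l := r1_of_sm (h.sf l).db
  rm l m := r1_of_sm ((h.sf l).pd m)
  tay := by
    obtain ⟨C, -, hC⟩ := unif (P := fun l C => ∀ b b' s ξ ξ', |P.f l b' s ξ' - P.f l b s ξ -
      S3P.db (P.f l) b s ξ * (b' - b) - ∑ m, S3P.pd m (P.f l) b s ξ * (ξ' m - ξ m)| ≤
        C * ((b' - b) ^ 2 + ∑ m, (ξ' m - ξ m) ^ 2)) (fun _ _ _ h g b b' s ξ ξ' =>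
      (g b b' s ξ ξ').trans (mul_le_mul_of_nonneg_right h (by positivity)))
      fun l => let ⟨C, _, h⟩ := (h.sf l).taylor; ⟨C, fun b b' s ξ ξ' => (h b b' s ξ ξ').2⟩
    exact ⟨C, hC⟩
  df := h.rf
  dg := h.rg
  dg' := h.rg'
  dm l m := (h.rf l).pd m
  tri l _ hm := (h.rf l).pd_zero (h.sf l) hm
  f0 := h.f0
  g0 := h.g0
  g0' := h.g'0

section
variable {P : Prog N} (s : ℝ) (J : Matrix (Fin n) (Fin n) ℝ) (y : Fin n → ℝ)

lemma cs_eq (l : Fin (N + 1)) :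
    cs (toPg P) s (ising J y) (bF s J y) (P.X s J y) l = P.c s J y l := by
  ext k; simp only [cs, Pi.add_apply, Pi.smul_apply, Pi.one_apply, smul_eq_mul, mul_one]; rfl

lemma S_eq (l m : Fin (N + 1)) :
    P.S s J y l m = Sg s (ising J y) (P.e s J y (P.f l)) (P.e s J y (P.f m)) := (Sg_eq ..).symm

lemma sys_prog (h : P.Ok) : Sys (toPg P) s J y (ising J y) (bF s J y) (P.X s J y) where
  hb := by rw [bF, sq]; rfl
  hX l := ⟨_, h.X_eq l⟩
  cen l := by rw [h.mean_X, S_eq, h.e0, cs_eq]; rfl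

end

/-- the cavity weight -/
def wcv (J : Matrix (Fin n) (Fin n) ℝ) (y : Fin n → ℝ) (i : Fin n) : Cube n → ℝ :=
  ising (cJ J i) (update y i 0)

/-- the centred nodes of the cavity network, off the site `i` -/
def Vcv (P : Prog N) (s : ℝ) (J : Matrix (Fin n) (Fin n) ℝ) (y : Fin n → ℝ) (i : Fin n)
    (x : Cube n) : Matrix (Fin (N + 1)) (Fin n) ℝ := of fun l => ei i *
      (P.e s (cJ J i) (update y i 0) (P.f l) x -
        meanV (wcv J y i) (P.e s (cJ J i) (update y i 0) (P.f l)))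

set_option maxHeartbeats 1600000 in
/-- **(C1), (C2), (C3), Good'** for the canonical network -/
theorem cav {P : Prog N} (hP : P.Ok) (R : ℝ) {K0 κ0 : ℝ} (hK0 : 0 ≤ K0) (hκ : 0 < κ0) :
    ∃ (C : ℝ) (k : ℕ), 1 ≤ C ∧ ∀ (n : ℕ) (s Kw : ℝ) (J : Matrix (Fin n) (Fin n) ℝ) (y : Fin n → ℝ),
      s ^ 2 * n ≤ 1 → Jᵀ = J → (∀ j, J j j = 0) → UW s J R k Kw → 0 ≤ Kw →
      Atd.ATd (ising J y) K0 (exp (-(κ0 * n))) →
      (∀ i, (∀ u, (mean (wcv J y i) fun x => en (Vcv P s J y i x *ᵥ u) ^ 2) ≤ C * en u ^ 2) ∧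
        ∀ (κ : Type) [Fintype κ] (A : Matrix (Fin (N + 1)) κ ℝ), A * Aᵀ = P.S s J y →
          S3L.Ll65.Site C (C * |s|) s 0 (ising J y) (J i)
            (fun x l => P.X s J y l x i - P.c s J y l i) (bF s J y i) A i (wcv J y i)
            (Vcv P s J y i)) ∧
      ∀ l, ∑ i, var (ising J y) (fun x => P.X s J y l x i - P.c s J y l i -
        (Vcv P s J y i x *ᵥ J i) l) ^ 2 ≤ C * (Kw ^ 2 + 1) := by
  have hQ := ok_toPg hP
  set K := 4 * (K0 + 8 / κ0) with hK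
  obtain ⟨C1, c1, h1⟩ := Ins.site hQ R K
  obtain ⟨C2, h2⟩ := Ins.c3 hQ R K
  obtain ⟨B, b1, hB⟩ := unif (τ := Fin (N + 1) × Fin (N + 1)) (P := fun p C =>
      (∀ b s ξ, |S3P.pd p.2 (P.f p.1) b s ξ| ≤ C) ∧ ∀ (a : Ins (toPg P) R K) x,
        opn (jac (Ins.e ((toPg P).fm p.1 p.2) a) x) ≤ C)
    (fun _ _ _ h g => ⟨fun b s ξ => (g.1 b s ξ).trans h, fun a x => (g.2 a x).trans h⟩) fun p => by
      obtain ⟨C, c0, h⟩ := ((hP.sf p.1).pd p.2).bd
      obtain ⟨D, d0, g⟩ := (Ins.gp_e (R := R) (K := K) hQ (hQ.rm p.1 p.2)).j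
      exact ⟨C + D, fun b s ξ => by linarith [h b s ξ], fun a x => by linarith [g a x]⟩
  obtain ⟨C3, k, c3, h3⟩ := prp_rows (Fin (N + 1)) R b1
  obtain ⟨D, hD⟩ : ∃ D, D = 2 * (K0 + 1) * C2 ^ 2 := ⟨_, rfl⟩
  obtain ⟨G, hG⟩ : ∃ G : ℝ, G = (#(univ : Finset (Fin (N + 1) × Fin (N + 1))) : ℝ) ^ 4 *
    (48 * exp (2 * K) * B ^ 4) := ⟨_, rfl⟩
  have G0 : 0 ≤ G := by rw [hG]; positivity
  have q0 : 0 ≤ 16 * D ^ 2 * C3 + (16 * D ^ 2 * (C3 ^ 4 * G) + 32 * C2 ^ 4 / κ0) := by positivity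
  refine ⟨C1 + (16 * D ^ 2 * C3 + (16 * D ^ 2 * (C3 ^ 4 * G) + 32 * C2 ^ 4 / κ0)), k, by linarith,
    fun n s Kw J y hs hJ hd hU hKw hA => ?_⟩
  have hw : SL.Wt (ising J y) := .of_pos fun _ => exp_pos _
  have hM : Mg (ising J y) K := mg_of_atd hA (fun _ => exp_pos _) hK0 hκ
  let a : Fin n → Ins (toPg P) R K := fun i => ⟨n, s, i, J, y, _, _, _, _, hs, hJ, hd i, hU.op, hM,
    sys_prog s J y hP, sys_prog s _ _ hP⟩
  refine ⟨fun i => ⟨fun u => ((h1 (a i)).1 u).trans (mul_le_mul_of_nonneg_right (by linarith)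
    (sq_nonneg _)), fun κ _ A hA => ?_⟩, fun l => ?_⟩
  · have := (h1 (a i)).2 κ A fun l m => by rw [hA]; exact S_eq ..
    simp only [← cs_eq]
    exact ⟨this.pos, this.fw, this.fV, this.tilt, this.cen, this.m4.trans (by linarith),
      this.e4.trans (by linarith), this.fA.trans (by linarith), this.ov.trans
        (mul_le_mul_of_nonneg_right (by linarith) (abs_nonneg s))⟩
  set θ : Fin (N + 1) × Fin (N + 1) → Cube n → ℝ := fun p x =>
    eta s (P.e s J y (S3P.pd p.2 (P.f p.1)) x) - P.o s J y p.1 p.2 with hθ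
  have t0 : ∀ x, 0 ≤ ∑ p, |θ p x| := fun x => by positivity
  choose T Z M hp m0 m1 m2 using fun x => h3 n s Kw J hU hJ hKw hs
    (fun l m => P.e s J y (S3P.pd m (P.f l)) x) (P.o s J y) (∑ p, |θ p x|)
    (fun l m i => (hB (l, m)).1 _ _ _) (fun l m => abs_me_le hs hw (zero_le_one.trans b1)
      fun x k => (hB (l, m)).1 _ _ _) (t0 x) fun l m =>
      single_le_sum (f := fun p => |θ p x|) (fun _ _ => abs_nonneg _) (mem_univ (l, m))
  set δ := exp (-(κ0 * n)) with hδ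
  have key : ∀ i, var (ising J y) (fun x => P.X s J y l x i - P.c s J y l i -
      (Vcv P s J y i x *ᵥ J i) l) ^ 2 ≤ 16 * D ^ 2 * (mean (ising J y) fun x => M x i ^ 4) +
        (16 * D ^ 2 * (C3 ^ 4 * G) * s ^ 4 + 32 * C2 ^ 4 * δ ^ 2) := fun i => by
    have v1 := h2 (a i) T Z (fun x => M x i + C3 * ∑ p, |θ p x|) l K0 δ (P.c s J y l i) hK0
      (exp_pos _).le hA hp fun x q j => m2 x l q i j
    rw [← hD] at v1
    have v2 := mean_sq_le hw fun x => (M x i + C3 * ∑ p, |θ p x|) ^ 2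
    have v3 : (mean (ising J y) fun x => (∑ p, |θ p x|) ^ 4) ≤ G * s ^ 4 := by
      refine (hw.mean_mono fun x => pow_sum_le_card_mul_sum_pow (fun _ _ => abs_nonneg _) 3).trans ?_
      rw [SL.mean_const_mul, SL.mean_sum, hG, pow_succ _ 3 (M := ℝ), mul_assoc, mul_assoc]
      refine mul_le_mul_of_nonneg_left ((sum_le_card_nsmul _ _ _ fun p _ => ?_).trans_eq
        (nsmul_eq_mul _ _)) (by positivity)
      have := hM.four hw fun x => nrm_grad_eta hs (e := 1) (by simp) ((hB p).2 (a i) x)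
      simp only [one_mul, mul_pow, (by decide : Even 4).pow_abs, ← mul_assoc] at this
      simp only [(by decide : Even (3 + 1)).pow_abs]
      exact this
    have v4 : (mean (ising J y) fun x => ((M x i + C3 * ∑ p, |θ p x|) ^ 2) ^ 2) ≤
        8 * (mean (ising J y) fun x => M x i ^ 4) + 8 * (C3 ^ 4 * (G * s ^ 4)) := by
      refine (hw.mean_mono (g := fun x => 8 * M x i ^ 4 + 8 * (C3 ^ 4 * (∑ p, |θ p x|) ^ 4))
        fun x => ?_).trans ?_
      · have := add_pow_le (m0 x i) (mul_nonneg (zero_le_one.trans c3) (t0 x)) 4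
        rw [← pow_mul, ← mul_pow]
        norm_num at this ⊢
        linarith
      · simp only [SL.mean_add, SL.mean_const_mul]
        gcongr
    refine (pow_le_pow_left₀ (hw.var_nonneg _) v1 2).trans ?_
    change (D * (mean (ising J y) _) + _) ^ 2 ≤ _
    nlinarith [mul_le_mul_of_nonneg_left (v2.trans v4) (sq_nonneg D),
      sq_nonneg (D * (mean (ising J y) fun x => (M x i + C3 * ∑ p, |θ p x|) ^ 2) - 4 * δ * C2 ^ 2)]
  refine (sum_le_sum fun i _ => key i).trans ?_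
  rw [sum_add_distrib, ← mul_sum, ← SL.mean_sum, sum_const, card_univ, Fintype.card_fin,
    nsmul_eq_mul]
  have w1 := mul_le_mul_of_nonneg_left (hw.mean_le m1) (by positivity : 0 ≤ 16 * D ^ 2)
  have w2 : (n : ℝ) * s ^ 4 ≤ 1 := by
    rcases Nat.eq_zero_or_pos n with rfl | h
    · simp
    · have : (1 : ℝ) ≤ n := by exact_mod_cast h
      nlinarith [sq_nonneg s, mul_le_mul_of_nonneg_left hs (sq_nonneg s)]
  have w3 : (n : ℝ) * δ ^ 2 ≤ 1 / κ0 := by
    have d1 : δ ≤ 1 := exp_le_one_iff.2 (neg_nonpos.2 (by positivity))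
    have d0 : 0 < δ := exp_pos _
    have d2 : κ0 * n * δ ≤ 1 := by
      rw [hδ, exp_neg, mul_inv_le_iff₀ (exp_pos _), one_mul]
      linarith [add_one_le_exp (κ0 * n)]
    rw [le_div_iff₀ hκ]
    nlinarith [mul_le_mul_of_nonneg_left d1 (by positivity : 0 ≤ κ0 * n * δ)]
  have w4 := mul_le_mul_of_nonneg_left w2 (by positivity : 0 ≤ 16 * D ^ 2 * (C3 ^ 4 * G))
  have w5 := mul_le_mul_of_nonneg_left w3 (by positivity : 0 ≤ 32 * C2 ^ 4)
  rw [mul_one_div] at w5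
  have w6 : 0 ≤ (C1 + (16 * D ^ 2 * (C3 ^ 4 * G) + 32 * C2 ^ 4 / κ0)) * Kw ^ 2 := by positivity
  nlinarith

end Crest.Agent.T157.S3C

end
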