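import Mathlib

/-! S3 (ID), part A: negligible site vectors along a filter of instances. -/

namespace Crest.Agent.T157.S3I

open Filter Topology Finset

variable {I : Type*} {F : Filter I} {n : I → ℕ} {K : I → ℝ}

/-- negligible site vector: `|d i| ≤ e + r i`, `∑ r⁴ ≤ C K`, eventually, for every `e > 0`. -/
def Ng (F : Filter I) (n : I → ℕ) (K : I → ℝ) (d : ∀ a, Fin (n a) → ℝ) : Prop :=
  ∃ C : ℝ, 0 ≤ C ∧ ∀ e : ℝ, 0 < e → ∀ᶠ a in F, ∃ r : Fin (n a) → ℝ,
    (∑ i, r i ^ 4 ≤ C * K a) ∧ ∀ i, |d a i| ≤ e + r i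

lemma pow4_add (x y : ℝ) : (x + y) ^ 4 ≤ 8 * (x ^ 4 + y ^ 4) := by
  have h1 : (x + y) ^ 2 ≤ 2 * (x ^ 2 + y ^ 2) := by nlinarith [sq_nonneg (x - y)]
  have h2 : (x + y) ^ 4 = ((x + y) ^ 2) ^ 2 := by ring
  have h3 : ((x + y) ^ 2) ^ 2 ≤ (2 * (x ^ 2 + y ^ 2)) ^ 2 :=
    pow_le_pow_left₀ (sq_nonneg _) h1 2
  nlinarith [sq_nonneg (x ^ 2 - y ^ 2)]

theorem Ng.of_le {d d' : ∀ a, Fin (n a) → ℝ} (h : Ng F n K d)
    (hle : ∀ᶠ a in F, ∀ i, |d' a i| ≤ |d a i|) : Ng F n K d' := by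
  obtain ⟨C, hC, h⟩ := h
  refine ⟨C, hC, fun e he => ?_⟩
  filter_upwards [h e he, hle] with a ⟨r, hr, hd⟩ hl
  exact ⟨r, hr, fun i => (hl i).trans (hd i)⟩

theorem Ng.congr {d d' : ∀ a, Fin (n a) → ℝ} (h : Ng F n K d)
    (he : ∀ᶠ a in F, ∀ i, d' a i = d a i) : Ng F n K d' :=
  h.of_le (he.mono fun a ha i => by rw [ha i])

theorem Ng.abs {d : ∀ a, Fin (n a) → ℝ} (h : Ng F n K d) : Ng F n K (fun a i => |d a i|) :=
  h.of_le (Eventually.of_forall fun a i => by rw [abs_abs])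

theorem Ng.neg {d : ∀ a, Fin (n a) → ℝ} (h : Ng F n K d) : Ng F n K (fun a i => - d a i) :=
  h.of_le (Eventually.of_forall fun a i => by rw [abs_neg])

theorem Ng.add {d d' : ∀ a, Fin (n a) → ℝ} (h : Ng F n K d) (h' : Ng F n K d') :
    Ng F n K (fun a i => d a i + d' a i) := by
  obtain ⟨C, hC, h⟩ := h
  obtain ⟨C', hC', h'⟩ := h'
  refine ⟨8 * (C + C'), by positivity, fun e he => ?_⟩
  filter_upwards [h (e / 2) (by positivity), h' (e / 2) (by positivity)] with a ⟨r, hr, hd⟩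
    ⟨r', hr', hd'⟩
  refine ⟨fun i => r i + r' i, ?_, fun i => ?_⟩
  · calc ∑ i, (r i + r' i) ^ 4 ≤ ∑ i, 8 * (r i ^ 4 + r' i ^ 4) :=
          sum_le_sum fun i _ => pow4_add _ _
      _ = 8 * (∑ i, r i ^ 4 + ∑ i, r' i ^ 4) := by rw [← mul_sum, sum_add_distrib]
      _ ≤ 8 * (C + C') * K a := by nlinarith
  · have := abs_add_le (d a i) (d' a i)
    linarith [hd i, hd' i]

theorem Ng.sub {d d' : ∀ a, Fin (n a) → ℝ} (h : Ng F n K d) (h' : Ng F n K d') :
    Ng F n K (fun a i => d a i - d' a i) := by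
  simpa only [sub_eq_add_neg] using h.add h'.neg

theorem Ng.const_mul {d : ∀ a, Fin (n a) → ℝ} (h : Ng F n K d) (c : ℝ) :
    Ng F n K (fun a i => c * d a i) := by
  obtain ⟨C, hC, h⟩ := h
  refine ⟨(|c| + 1) ^ 4 * C, by positivity, fun e he => ?_⟩
  have hc : 0 < |c| + 1 := by positivity
  filter_upwards [h (e / (|c| + 1)) (by positivity)] with a ⟨r, hr, hd⟩
  refine ⟨fun i => (|c| + 1) * r i, ?_, fun i => ?_⟩
  · calc ∑ i, ((|c| + 1) * r i) ^ 4 = (|c| + 1) ^ 4 * ∑ i, r i ^ 4 := by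
          rw [mul_sum]; exact sum_congr rfl fun i _ => by ring
      _ ≤ (|c| + 1) ^ 4 * (C * K a) := by gcongr
      _ = _ := by ring
  · rw [abs_mul]
    have h1 : |c| * |d a i| ≤ (|c| + 1) * |d a i| := by nlinarith [abs_nonneg (d a i)]
    have h2 : (|c| + 1) * |d a i| ≤ (|c| + 1) * (e / (|c| + 1) + r i) := by
      gcongr; exact hd i
    have h3 : (|c| + 1) * (e / (|c| + 1) + r i) = e + (|c| + 1) * r i := by field_simp
    linarith

/-- domination by a constant multiple -/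
theorem Ng.of_le_mul {d d' : ∀ a, Fin (n a) → ℝ} (h : Ng F n K d) (c : ℝ)
    (hle : ∀ᶠ a in F, ∀ i, |d' a i| ≤ c * |d a i|) : Ng F n K d' :=
  (h.const_mul c).of_le (hle.mono fun a ha i => (ha i).trans (by
    rw [abs_mul]; exact mul_le_mul_of_nonneg_right (le_abs_self c) (abs_nonneg _)))

/-- uniformly small vectors are negligible -/
theorem Ng.of_unif {d : ∀ a, Fin (n a) → ℝ}
    (h : ∀ e : ℝ, 0 < e → ∀ᶠ a in F, ∀ i, |d a i| ≤ e) : Ng F n K d := by
  refine ⟨0, le_rfl, fun e he => ?_⟩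
  filter_upwards [h e he] with a ha
  exact ⟨fun _ => 0, by simp, fun i => by simpa using ha i⟩

theorem Ng.zero : Ng F n K (fun _ _ => 0) :=
  Ng.of_unif fun e he => Eventually.of_forall fun a i => by simpa using he.le

theorem Ng.of_tendsto {c : I → ℝ} (h : Tendsto c F (𝓝 0)) : Ng F n K (fun a _ => c a) :=
  Ng.of_unif fun e he => by
    have := (Metric.tendsto_nhds.1 h) e he
    filter_upwards [this] with a ha i
    rw [Real.dist_eq, sub_zero] at ha
    exact ha.le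

theorem Ng.of_tendsto' {c : I → ℝ} {c0 : ℝ} (h : Tendsto c F (𝓝 c0)) :
    Ng F n K (fun a _ => c a - c0) :=
  Ng.of_tendsto (tendsto_sub_nhds_zero_iff.2 h)

theorem Ng.sum {ι : Type*} (T : Finset ι) {d : ι → ∀ a, Fin (n a) → ℝ}
    (h : ∀ j ∈ T, Ng F n K (d j)) : Ng F n K (fun a i => ∑ j ∈ T, d j a i) := by
  classical
  induction T using Finset.induction_on with
  | empty => simpa using (Ng.zero : Ng F n K (fun _ _ => 0))
  | insert j T hj ih =>
    have h1 := h j (mem_insert_self _ _)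
    have h2 := ih fun k hk => h k (mem_insert_of_mem hk)
    exact (h1.add h2).congr (Eventually.of_forall fun a i => by rw [sum_insert hj])

/-- `ℓ²`-bounded vectors are negligible as soon as `K ≥ 1` -/
theorem Ng.of_l2 {d : ∀ a, Fin (n a) → ℝ} (C : ℝ) (hK : ∀ᶠ a in F, 1 ≤ K a)
    (h : ∀ᶠ a in F, ∑ i, d a i ^ 2 ≤ C) : Ng F n K d := by
  refine ⟨C ^ 2, sq_nonneg _, fun e he => ?_⟩
  filter_upwards [h, hK] with a ha hk
  refine ⟨fun i => |d a i|, ?_, fun i => by linarith⟩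
  have h1 : ∑ i, |d a i| ^ 4 ≤ (∑ i, d a i ^ 2) ^ 2 := by
    rw [sq (∑ i, d a i ^ 2), sum_mul]
    refine sum_le_sum fun i _ => ?_
    have : |d a i| ^ 4 = d a i ^ 2 * d a i ^ 2 := by
      rw [show (4 : ℕ) = 2 * 2 by rfl, pow_mul, sq_abs]; ring
    rw [this]
    exact mul_le_mul_of_nonneg_left
      (single_le_sum (f := fun j => d a j ^ 2) (fun j _ => sq_nonneg _) (mem_univ i)) (sq_nonneg _)
  have h0 : 0 ≤ ∑ i, d a i ^ 2 := sum_nonneg fun i _ => sq_nonneg _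
  have h2 : (∑ i, d a i ^ 2) ^ 2 ≤ C ^ 2 := pow_le_pow_left₀ h0 ha 2
  nlinarith [sq_nonneg C]

/-- the `Neg` form of the text: `∑ (|d|-e)₊² ≤ C K / e²`. -/
theorem Ng.neg_form {d : ∀ a, Fin (n a) → ℝ} (h : Ng F n K d) :
    ∃ C : ℝ, 0 ≤ C ∧ ∀ e : ℝ, 0 < e → ∀ᶠ a in F,
      ∑ i, (max (|d a i| - e) 0) ^ 2 ≤ C * K a / e ^ 2 := by
  obtain ⟨C, hC, h⟩ := h
  refine ⟨4 * C, by positivity, fun e he => ?_⟩
  filter_upwards [h (e / 2) (by positivity)] with a ⟨r, hr, hd⟩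
  rw [le_div_iff₀ (by positivity), sum_mul]
  calc ∑ i, max (|d a i| - e) 0 ^ 2 * e ^ 2 ≤ ∑ i, 4 * r i ^ 4 := by
        refine sum_le_sum fun i _ => ?_
        rcases le_total (|d a i| - e) 0 with h0 | h0
        · rw [max_eq_right h0]
          have : 0 ≤ r i ^ 4 := by positivity
          nlinarith
        · rw [max_eq_left h0]
          have h1 : e / 2 ≤ r i := by linarith [hd i]
          have h2 : |d a i| - e ≤ r i := by linarith [hd i]
          have h3 : (|d a i| - e) ^ 2 ≤ r i ^ 2 := pow_le_pow_left₀ h0 h2 2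
          have h4 : e ^ 2 ≤ 4 * r i ^ 2 := by nlinarith
          calc (|d a i| - e) ^ 2 * e ^ 2 ≤ r i ^ 2 * (4 * r i ^ 2) := by
                exact mul_le_mul h3 h4 (sq_nonneg _) (sq_nonneg _)
            _ = 4 * r i ^ 4 := by ring
    _ = 4 * ∑ i, r i ^ 4 := by rw [mul_sum]
    _ ≤ 4 * C * K a := by linarith

/-- the average of a negligible vector tends to `0` when `K = o(n)`. -/
theorem Ng.avg_abs {d : ∀ a, Fin (n a) → ℝ} (h : Ng F n K d)
    (hK : Tendsto (fun a => K a / n a) F (𝓝 0)) :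
    Tendsto (fun a => (∑ i, |d a i|) / n a) F (𝓝 0) := by
  obtain ⟨C, hC, h⟩ := h
  refine Metric.tendsto_nhds.2 fun e he => ?_
  have hK' : Tendsto (fun a => C * (K a / n a)) F (𝓝 0) := by simpa using hK.const_mul C
  have h3 : 0 < (e / 3) ^ 4 := by positivity
  filter_upwards [h (e / 3) (by positivity), Metric.tendsto_nhds.1 hK' _ h3] with a ⟨r, hr, hd⟩ hk
  rw [Real.dist_eq, sub_zero] at hk ⊢
  have hk' : C * (K a / n a) < (e / 3) ^ 4 := (le_abs_self _).trans_lt hk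
  rcases Nat.eq_zero_or_pos (n a) with h0 | hpos
  · have : ((n a : ℕ) : ℝ) = 0 := by exact_mod_cast h0
    rw [this, div_zero, abs_zero]; exact he
  have hn : (0 : ℝ) < n a := by exact_mod_cast hpos
  rw [abs_of_nonneg (by positivity), div_lt_iff₀ hn]
  -- r ≤ e/3 + r^4 / (e/3)^3
  have hr1 : ∀ i, r i ≤ e / 3 + r i ^ 4 / (e / 3) ^ 3 := by
    intro i
    have he3 : 0 < e / 3 := by positivity
    rcases le_total (r i) (e / 3) with h1 | h1
    · have : 0 ≤ r i ^ 4 / (e / 3) ^ 3 := by positivity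
      linarith
    · have h2 : (e / 3) ^ 3 ≤ r i ^ 3 := pow_le_pow_left₀ he3.le h1 3
      have h4 : r i ≤ r i ^ 4 / (e / 3) ^ 3 := by
        rw [le_div_iff₀ (by positivity)]
        have : 0 ≤ r i := he3.le.trans h1
        nlinarith
      linarith
  have hs : ∑ i, |d a i| ≤ ∑ i : Fin (n a), (2 * (e / 3) + r i ^ 4 / (e / 3) ^ 3) :=
    sum_le_sum fun i _ => by linarith [hd i, hr1 i]
  rw [sum_add_distrib, sum_const, card_univ, Fintype.card_fin, nsmul_eq_mul, ← sum_div] at hs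
  have h5 : (∑ i, r i ^ 4) / (e / 3) ^ 3 < e / 3 * n a := by
    rw [div_lt_iff₀ (by positivity)]
    have h6 : C * K a < (e / 3) ^ 4 * n a := by
      rw [← mul_div_assoc, div_lt_iff₀ hn] at hk'; exact hk'
    calc ∑ i, r i ^ 4 ≤ C * K a := hr
      _ < (e / 3) ^ 4 * n a := h6
      _ = e / 3 * n a * (e / 3) ^ 3 := by ring
  nlinarith

theorem Ng.avg {d : ∀ a, Fin (n a) → ℝ} (h : Ng F n K d)
    (hK : Tendsto (fun a => K a / n a) F (𝓝 0)) :
    Tendsto (fun a => (∑ i, d a i) / n a) F (𝓝 0) := by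
  refine squeeze_zero_norm' ?_ (h.avg_abs hK)
  refine Eventually.of_forall fun a => ?_
  rw [Real.norm_eq_abs, abs_div, Nat.abs_cast]
  exact div_le_div_of_nonneg_right (abs_sum_le_sum_abs _ _) (Nat.cast_nonneg _)

/-- (L2) averages: `q - u ∈ Ng`, `avg u → c` give `avg q → c`. -/
theorem Ng.avg_of {q u : ∀ a, Fin (n a) → ℝ} {c : ℝ} (h : Ng F n K (fun a i => q a i - u a i))
    (hK : Tendsto (fun a => K a / n a) F (𝓝 0))
    (hu : Tendsto (fun a => (∑ i, u a i) / n a) F (𝓝 c)) :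
    Tendsto (fun a => (∑ i, q a i) / n a) F (𝓝 c) := by
  have := (h.avg hK).add hu
  rw [zero_add] at this
  refine this.congr fun a => ?_
  rw [← add_div, ← sum_add_distrib]
  exact congrArg (· / (n a : ℝ)) (sum_congr rfl fun i _ => by ring)

/-- products of bounded identified vectors -/
theorem Ng.mul_sub {q q' u u' : ∀ a, Fin (n a) → ℝ} (B : ℝ)
    (h : Ng F n K (fun a i => q a i - u a i)) (h' : Ng F n K (fun a i => q' a i - u' a i))
    (hb : ∀ᶠ a in F, ∀ i, |q' a i| ≤ B) (hb' : ∀ᶠ a in F, ∀ i, |u a i| ≤ B) :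
    Ng F n K (fun a i => q a i * q' a i - u a i * u' a i) := by
  have h1 : Ng F n K (fun a i => (q a i - u a i) * q' a i) :=
    h.of_le_mul B (hb.mono fun a ha i => by
      rw [abs_mul, mul_comm]; exact mul_le_mul_of_nonneg_right (ha i) (abs_nonneg _))
  have h2 : Ng F n K (fun a i => u a i * (q' a i - u' a i)) :=
    h'.of_le_mul B (hb'.mono fun a ha i => by
      rw [abs_mul]; exact mul_le_mul_of_nonneg_right (ha i) (abs_nonneg _))
  exact (h1.add h2).congr (Eventually.of_forall fun a i => by ring)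

end Crest.Agent.T157.S3I
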