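import Crest.Agent.T157.S3LDef_65
import Crest.Agent.T157.S3IA_52

/-! S3 (ID), part B: the model, blocks of nodes, closure lemmas along a filter (helper52). -/

set_option autoImplicit false
set_option linter.unusedSectionVars false

noncomputable section

namespace Crest.Agent.T157.S3I

open MeasureTheory ProbabilityTheory Matrix Filter Topology Finset
open Crest.ProbabilityR.SpinGlassDynamics
open Crest.Agent.T157.E hiding hb
open Crest.Agent.T157.S3L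
open Crest.Agent.T157.Conc (en ELip)

section model
variable {L κ : Type} [Fintype L] [Fintype κ]

lemma hb_nonneg (b : ℝ) (σ : Bool) : 0 ≤ hb b σ := by
  have := Real.cosh_pos b
  unfold hb; positivity

lemma sum_hb (b : ℝ) : ∑ σ, hb b σ = 1 := by
  have := Real.cosh_pos b
  simp only [hb, Fintype.sum_bool, spin, if_true, Bool.false_eq_true, if_false, one_mul, neg_mul]
  rw [← add_div, div_eq_one_iff_eq (by positivity), Real.cosh_eq]; ring

lemma spin_not (σ : Bool) : spin (!σ) = - spin σ := by cases σ <;> simp [spin]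

lemma hb_neg (b : ℝ) (σ : Bool) : hb (-b) (!σ) = hb b σ := by
  simp only [hb, spin_not, Real.cosh_neg, mul_neg, neg_mul, neg_neg]

lemma continuous_hb (σ : Bool) : Continuous fun b => hb b σ := by
  unfold hb
  exact Continuous.div (by fun_prop) (by fun_prop) fun b => by
    have := Real.cosh_pos b; positivity

lemma en_mulVec (A : Matrix L κ ℝ) (z : κ → ℝ) : en (A *ᵥ z) ≤ √(f2 A) * en z := by
  unfold en
  rw [← Real.sqrt_mul (by unfold f2; positivity)]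
  refine Real.sqrt_le_sqrt ?_
  unfold f2
  rw [sum_mul]
  exact sum_le_sum fun l _ => sum_mul_sq_le_sq_mul_sq _ _ _

lemma elip_comp {Λ : ℝ} {φ : (L → ℝ) → ℝ} (h : ELip Λ φ) (A : Matrix L κ ℝ) (c : L → ℝ) :
    ELip (|Λ| * √(f2 A)) fun z => φ (c + A *ᵥ z) := fun x y => by
  have h1 := h.abs (c + A *ᵥ x) (c + A *ᵥ y)
  rw [add_sub_add_left_eq_sub, ← mulVec_sub] at h1
  rw [mul_assoc]
  exact h1.trans (mul_le_mul_of_nonneg_left (en_mulVec A _) (abs_nonneg _))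

lemma int_comp {Λ : ℝ} {φ : (L → ℝ) → ℝ} (h : ELip Λ φ) (A : Matrix L κ ℝ) (c : L → ℝ) :
    Integrable (fun z => φ (c + A *ᵥ z)) (gv κ) := (elip_comp h A c).integrable

variable (A : Matrix L κ ℝ) (o : L) (b : ℝ)

lemma mdl_const_mul (c : ℝ) (ψ : Bool → (L → ℝ) → ℝ) :
    mdl A o b (fun σ x => c * ψ σ x) = c * mdl A o b ψ := by
  simp only [mdl, gm, integral_const_mul, mul_sum]
  exact sum_congr rfl fun σ _ => by ring

lemma mdl_const (c : ℝ) : mdl A o b (fun _ _ => c) = c := by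
  simp only [mdl, gm, integral_const, probReal_univ, smul_eq_mul, one_mul]
  rw [← sum_mul, sum_hb, one_mul]

lemma mdl_add {Λ Λ' : ℝ} {ψ ψ' : Bool → (L → ℝ) → ℝ} (h : ∀ σ, ELip Λ (ψ σ))
    (h' : ∀ σ, ELip Λ' (ψ' σ)) :
    mdl A o b (fun σ x => ψ σ x + ψ' σ x) = mdl A o b ψ + mdl A o b ψ' := by
  simp only [mdl, gm]
  rw [← sum_add_distrib]
  refine sum_congr rfl fun σ _ => ?_
  rw [integral_add (int_comp (h σ) A _) (int_comp (h' σ) A _), mul_add]

lemma mdl_sub {Λ Λ' : ℝ} {ψ ψ' : Bool → (L → ℝ) → ℝ} (h : ∀ σ, ELip Λ (ψ σ))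
    (h' : ∀ σ, ELip Λ' (ψ' σ)) :
    mdl A o b (fun σ x => ψ σ x - ψ' σ x) = mdl A o b ψ - mdl A o b ψ' := by
  simp only [mdl, gm]
  rw [← sum_sub_distrib]
  refine sum_congr rfl fun σ _ => ?_
  rw [integral_sub (int_comp (h σ) A _) (int_comp (h' σ) A _), mul_sub]

lemma abs_mdl_le {B : ℝ} {ψ : Bool → (L → ℝ) → ℝ} (h : ∀ σ x, |ψ σ x| ≤ B) :
    |mdl A o b ψ| ≤ B := by
  unfold mdl
  refine (abs_sum_le_sum_abs _ _).trans ?_
  calc ∑ σ, |hb b σ * gm A fun x => ψ σ (spin σ • (fun l => (A * Aᵀ) l o) + x)|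
      ≤ ∑ σ, hb b σ * B := sum_le_sum fun σ _ => by
        rw [abs_mul, abs_of_nonneg (hb_nonneg b σ)]
        refine mul_le_mul_of_nonneg_left ?_ (hb_nonneg b σ)
        have := norm_integral_le_of_norm_le_const (μ := gv κ)
          (f := fun z => ψ σ (spin σ • (fun l => (A * Aᵀ) l o) + A *ᵥ z)) (C := B)
          (ae_of_all _ fun z => h σ _)
        simpa [gm] using this
    _ = B := by rw [← sum_mul, sum_hb, one_mul]

lemma abs_mdl_sub_le {Λ Λ' B : ℝ} {ψ ψ' : Bool → (L → ℝ) → ℝ} (h : ∀ σ, ELip Λ (ψ σ))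
    (h' : ∀ σ, ELip Λ' (ψ' σ)) (hB : ∀ σ x, |ψ σ x - ψ' σ x| ≤ B) :
    |mdl A o b ψ - mdl A o b ψ'| ≤ B := by
  rw [← mdl_sub A o b h h']; exact abs_mdl_le A o b hB

lemma gm_neg (φ : (L → ℝ) → ℝ) : gm A (fun x => φ (-x)) = gm A φ := by
  unfold gm
  have h : (gv κ).IsNegInvariant := by
    have : (gaussianReal 0 1).IsNegInvariant :=
      ⟨by simpa [Measure.neg] using gaussianReal_map_neg (μ := 0) (v := 1)⟩
    infer_instance
  rw [← integral_neg_eq_self (fun z => φ (A *ᵥ z)) (gv κ)]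
  simp only [mulVec_neg]

/-- the gauge symmetry of the model -/
lemma mdl_neg (ψ : Bool → (L → ℝ) → ℝ) :
    mdl A o (-b) ψ = mdl A o b (fun σ x => ψ (!σ) (-x)) := by
  unfold mdl
  rw [← Equiv.sum_comp (Equiv.boolNot)]
  refine sum_congr rfl fun σ _ => ?_
  simp only [Equiv.boolNot_apply, hb_neg, spin_not]
  congr 1
  rw [← gm_neg]
  simp only [neg_add, neg_smul]

/-- `ψ` reads only the nodes in `B` -/
def Reads (B : Set L) (ψ : Bool → (L → ℝ) → ℝ) : Prop :=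
  ∀ σ x y, (∀ l ∈ B, x l = y l) → ψ σ x = ψ σ y

open Classical in
/-- rows outside `B` set to zero -/
def pr (B : Set L) (A : Matrix L κ ℝ) : Matrix L κ ℝ := fun l k => if l ∈ B then A l k else 0

open Classical in
lemma pr_gram (B : Set L) (l m : L) :
    (pr B A * (pr B A)ᵀ) l m = if l ∈ B ∧ m ∈ B then (A * Aᵀ) l m else 0 := by
  simp only [Matrix.mul_apply, transpose_apply, pr]
  by_cases hl : l ∈ B <;> by_cases hm : m ∈ B <;> simp [hl, hm]

lemma mdl_pr {B : Set L} (ho : o ∈ B) {ψ : Bool → (L → ℝ) → ℝ} (h : Reads B ψ) :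
    mdl (pr B A) o b ψ = mdl A o b ψ := by
  unfold mdl gm
  refine sum_congr rfl fun σ _ => ?_
  congr 1
  refine integral_congr_ae (ae_of_all _ fun z => h σ _ _ fun l hl => ?_)
  simp only [Pi.add_apply, Pi.smul_apply, pr_gram, hl, ho, and_self, if_true]
  simp only [mulVec, dotProduct, pr, hl, if_true]

lemma tst_div {Λ : ℝ} (hΛ : 0 < Λ) {ψ : Bool → (L → ℝ) → ℝ} (h : ∀ σ, ELip Λ (ψ σ))
    (h0 : ∀ σ, |ψ σ 0| ≤ Λ) : Tst fun σ x => Λ⁻¹ * ψ σ x := fun σ => by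
  refine ⟨?_, ?_⟩
  · have := (h σ).const_mul Λ⁻¹
    rwa [abs_of_pos (inv_pos.2 hΛ), inv_mul_cancel₀ hΛ.ne'] at this
  · rw [abs_mul, abs_of_pos (inv_pos.2 hΛ), inv_mul_le_iff₀ hΛ, mul_one]; exact h0 σ

/-- the model is Lipschitz in the field -/
lemma mdl_lip_b (hM : MdlStmt) : ∃ K : ℝ, 0 ≤ K ∧ ∀ (Λ b b' : ℝ) (ψ : Bool → (L → ℝ) → ℝ), 0 < Λ →
    (∀ σ, ELip Λ (ψ σ)) → (∀ σ, |ψ σ 0| ≤ Λ) →
    |mdl A o b ψ - mdl A o b' ψ| ≤ Λ * K * |b - b'| := by
  obtain ⟨K, hK⟩ := (hM L o).2 (f2 A)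
  refine ⟨|K|, abs_nonneg _, fun Λ b b' ψ hΛ h h0 => ?_⟩
  have h1 := hK κ κ A A b b' 0 _ (tst_div hΛ h h0) le_rfl zero_le_one (by simp [d1])
  rw [mdl_const_mul, mdl_const_mul, ← mul_sub, abs_mul, abs_of_pos (inv_pos.2 hΛ),
    inv_mul_le_iff₀ hΛ, Real.sqrt_zero, add_zero] at h1
  refine h1.trans ?_
  rw [mul_assoc]
  exact mul_le_mul_of_nonneg_left
    (mul_le_mul_of_nonneg_right (le_abs_self K) (abs_nonneg _)) hΛ.le

variable {P : Type}

/-- admissible parametrised test function: Lipschitz in the nodes and in the parameters of `T`,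
for parameters in `Q` -/
structure Adm (Λ : ℝ) (Q : Set (P → ℝ)) (T : Finset P) (g : (P → ℝ) → Bool → (L → ℝ) → ℝ) :
    Prop where
  lip : ∀ p ∈ Q, ∀ σ, ELip Λ (g p σ)
  zero : ∀ p ∈ Q, ∀ σ, |g p σ 0| ≤ Λ
  par : ∀ p ∈ Q, ∀ p' ∈ Q, ∀ σ x, |g p σ x - g p' σ x| ≤ Λ * ∑ j ∈ T, |p j - p' j|

/-- (L4) continuity of the model value in the field -/
theorem cont_mdl (hM : MdlStmt) {Λ : ℝ} (hΛ : 0 < Λ) {Q : Set (P → ℝ)} {T : Finset P}
    {g : (P → ℝ) → Bool → (L → ℝ) → ℝ} (hg : Adm Λ Q T g) {pM : ℝ → P → ℝ}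
    (hQ : ∀ b, pM b ∈ Q) (hc : ∀ j ∈ T, Continuous fun b => pM b j) :
    Continuous fun b => mdl A o b (g (pM b)) := by
  obtain ⟨K, hK0, hK⟩ := mdl_lip_b A o hM
  refine continuous_iff_continuousAt.2 fun b0 => ?_
  rw [ContinuousAt, tendsto_iff_norm_sub_tendsto_zero]
  have hcont : Continuous fun b => Λ * ∑ j ∈ T, |pM b j - pM b0 j| + Λ * K * |b - b0| := by
    refine Continuous.add (continuous_const.mul (continuous_finsetSum _ fun j hj => ?_))
      (by fun_prop)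
    exact ((hc j hj).sub continuous_const).abs
  have ht := hcont.tendsto b0
  simp only [sub_self, abs_zero, sum_const_zero, mul_zero, add_zero] at ht
  refine squeeze_zero (fun b => norm_nonneg _) (fun b => ?_) ht
  rw [Real.norm_eq_abs]
  have h1 := abs_mdl_sub_le A o b (hg.lip _ (hQ b)) (hg.lip _ (hQ b0))
    (hg.par _ (hQ b) _ (hQ b0))
  have h2 := hK Λ b b0 (g (pM b0)) hΛ (hg.lip _ (hQ b0)) (hg.zero _ (hQ b0))
  have h3 := abs_sub_le (mdl A o b (g (pM b))) (mdl A o b (g (pM b0))) (mdl A o b0 (g (pM b0)))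
  linarith

/-- (L4) Lipschitz continuity of the model value in the field -/
theorem lip_mdl (hM : MdlStmt) {Λ : ℝ} (hΛ : 0 < Λ) {Q : Set (P → ℝ)} {T : Finset P}
    {g : (P → ℝ) → Bool → (L → ℝ) → ℝ} (hg : Adm Λ Q T g) {pM : ℝ → P → ℝ}
    (hQ : ∀ b, pM b ∈ Q) (hc : ∀ j ∈ T, ∃ c, ∀ b b', |pM b j - pM b' j| ≤ c * |b - b'|) :
    ∃ c, ∀ b b', |mdl A o b (g (pM b)) - mdl A o b' (g (pM b'))| ≤ c * |b - b'| := by
  obtain ⟨K, hK0, hK⟩ := mdl_lip_b A o hM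
  choose! c hc using hc
  refine ⟨Λ * ∑ j ∈ T, c j + Λ * K, fun b b0 => ?_⟩
  have h1 := abs_mdl_sub_le A o b (hg.lip _ (hQ b)) (hg.lip _ (hQ b0))
    (hg.par _ (hQ b) _ (hQ b0))
  have h2 := hK Λ b b0 (g (pM b0)) hΛ (hg.lip _ (hQ b0)) (hg.zero _ (hQ b0))
  have h3 := abs_sub_le (mdl A o b (g (pM b))) (mdl A o b (g (pM b0))) (mdl A o b0 (g (pM b0)))
  have h4 : ∑ j ∈ T, |pM b j - pM b0 j| ≤ (∑ j ∈ T, c j) * |b - b0| := by
    rw [sum_mul]; exact sum_le_sum fun j hj => hc j hj b b0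
  have h5 := mul_le_mul_of_nonneg_left h4 hΛ.le
  nlinarith

/-- (L4) parity of the model value -/
theorem par_mdl {g : (P → ℝ) → Bool → (L → ℝ) → ℝ} {pM : ℝ → P → ℝ} (ε : ℝ)
    (h : ∀ b σ x, g (pM (-b)) (!σ) (-x) = ε * g (pM b) σ x) :
    mdl A o (-b) (g (pM (-b))) = ε * mdl A o b (g (pM b)) := by
  rw [mdl_neg, ← mdl_const_mul]
  simp only [h]

end model

section inst
variable {I : Type*} {F : Filter I} {n : I → ℕ} {K : I → ℝ}
variable {L κ κ' : Type} [Fintype L] [Fintype κ] [Fintype κ']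
variable {w : ∀ a, Cube (n a) → ℝ} {X : ∀ a, Cube (n a) → Fin (n a) → L → ℝ}
  {b : ∀ a, Fin (n a) → ℝ} {o : L}

/-- the local law, uniformly over the test functions that read the nodes in `B` -/
def LLd (F : Filter I) (n : I → ℕ) (K : I → ℝ) (w : ∀ a, Cube (n a) → ℝ)
    (X : ∀ a, Cube (n a) → Fin (n a) → L → ℝ) (b : ∀ a, Fin (n a) → ℝ) (o : L)
    (A : I → Matrix L κ ℝ) (B : Set L) : Prop :=
  ∃ D : ∀ a, Fin (n a) → ℝ, Ng F n K D ∧ ∀ᶠ a in F, ∀ i ψ, Tst ψ → Reads B ψ →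
    |mean (w a) (fun x => ψ (x i) (X a x i)) - mdl (A a) o (b a i) ψ| ≤ D a i

/-- from the `ε + r` form -/
theorem LLd.of_eps {A : I → Matrix L κ ℝ} {B : Set L} (C : ℝ) (hC : 0 ≤ C)
    (h : ∀ e : ℝ, 0 < e → ∀ᶠ a in F, ∃ r : Fin (n a) → ℝ, (∑ i, r i ^ 4 ≤ C * K a) ∧
      ∀ i ψ, Tst ψ → Reads B ψ →
        |mean (w a) (fun x => ψ (x i) (X a x i)) - mdl (A a) o (b a i) ψ| ≤ e + r i) :
    LLd F n K w X b o A B := by
  let S : ∀ a, Fin (n a) → Set ℝ := fun a i => {t | ∃ ψ, Tst ψ ∧ Reads B ψ ∧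
    t = |mean (w a) (fun x => ψ (x i) (X a x i)) - mdl (A a) o (b a i) ψ|}
  have hne : ∀ a i, (S a i).Nonempty := fun a i =>
    ⟨_, fun _ _ => 0, fun σ => ⟨fun x y => by simpa using Conc.en_nonneg _, by simp⟩,
      fun _ _ _ _ => rfl, rfl⟩
  refine ⟨fun a i => sSup (S a i), ⟨C, hC, fun e he => ?_⟩, ?_⟩
  · filter_upwards [h e he] with a ⟨r, hr, hd⟩
    refine ⟨r, hr, fun i => ?_⟩
    have h0 : 0 ≤ sSup (S a i) := Real.sSup_nonneg fun t ht => by
      obtain ⟨ψ, _, _, ht⟩ := ht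
      exact ht ▸ abs_nonneg _
    show |sSup (S a i)| ≤ _
    rw [abs_of_nonneg h0]
    exact csSup_le (hne a i) fun t ⟨ψ, h1, h2, ht⟩ => ht ▸ hd i ψ h1 h2
  · filter_upwards [h 1 one_pos] with a ⟨r, _, hd⟩ i ψ h1 h2
    exact le_csSup ⟨1 + r i, fun t ⟨ψ, h1, h2, ht⟩ => ht ▸ hd i ψ h1 h2⟩ ⟨ψ, h1, h2, rfl⟩

/-- back to the `ε + r` form -/
theorem LLd.eps {A : I → Matrix L κ ℝ} {B : Set L} (h : LLd F n K w X b o A B) :
    ∃ C : ℝ, 0 ≤ C ∧ ∀ e : ℝ, 0 < e → ∀ᶠ a in F, ∃ r : Fin (n a) → ℝ,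
      (∑ i, r i ^ 4 ≤ C * K a) ∧ ∀ i ψ, Tst ψ → Reads B ψ →
        |mean (w a) (fun x => ψ (x i) (X a x i)) - mdl (A a) o (b a i) ψ| ≤ e + r i := by
  obtain ⟨D, ⟨C, hC, hD⟩, h⟩ := h
  refine ⟨C, hC, fun e he => ?_⟩
  filter_upwards [hD e he, h] with a ⟨r, hr, hd⟩ ha
  exact ⟨r, hr, fun i ψ h1 h2 => (ha i ψ h1 h2).trans ((le_abs_self _).trans (hd i))⟩

theorem LLd.mono {A : I → Matrix L κ ℝ} {B B' : Set L} (h : LLd F n K w X b o A B)
    (hB : B' ⊆ B) : LLd F n K w X b o A B' := by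
  obtain ⟨D, hD, h⟩ := h
  exact ⟨D, hD, h.mono fun a ha i ψ h1 h2 =>
    ha i ψ h1 fun σ x y hxy => h2 σ x y fun l hl => hxy l (hB hl)⟩

/-- (L1, Gram part) replace the Gram matrix by its limit on a block -/
theorem LLd.model (hM : MdlStmt) {A : I → Matrix L κ ℝ} {B : Set L}
    (h : LLd F n K w X b o A B) (ho : o ∈ B) (M : Matrix L κ' ℝ)
    (hS : ∀ l ∈ B, ∀ m ∈ B, Tendsto (fun a => (A a * (A a)ᵀ) l m) F (𝓝 ((M * Mᵀ) l m))) :
    LLd F n K w X b o (fun _ => M) B := by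
  classical
  obtain ⟨D, hD, h⟩ := h
  obtain ⟨K0, hK⟩ := (hM L o).2 (f2 (pr B M))
  let d : I → ℝ := fun a => d1 (pr B M * (pr B M)ᵀ) (pr B (A a) * (pr B (A a))ᵀ)
  have hd : Tendsto d F (𝓝 0) := by
    have : Tendsto d F (𝓝 (∑ l : L, ∑ m : L, (0 : ℝ))) := by
      refine tendsto_finsetSum _ fun l _ => tendsto_finsetSum _ fun m _ => ?_
      simp only [pr_gram]
      split_ifs with hlm
      · have := ((hS l hlm.1 m hlm.2).const_sub ((M * Mᵀ) l m)).abs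
        simpa using this
      · simpa using tendsto_const_nhds
    simpa using this
  have hs : Tendsto (fun a => K0 * (0 + √(d a))) F (𝓝 0) := by
    have := (hd.sqrt.const_add 0).const_mul K0
    simpa using this
  refine ⟨fun a i => D a i + K0 * (0 + √(d a)), hD.add (Ng.of_tendsto hs), ?_⟩
  filter_upwards [h, hd.eventually (ge_mem_nhds one_pos)] with a ha h1 i ψ h2 h3
  have h4 := hK κ' κ (pr B M) (pr B (A a)) (b a i) (b a i) (d a) ψ h2 le_rfl h1 le_rfl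
  rw [mdl_pr _ _ _ ho h3, mdl_pr _ _ _ ho h3, sub_self, abs_zero, abs_sub_comm] at h4
  have h5 := ha i ψ h2 h3
  have h6 := abs_sub_le (mean (w a) fun x => ψ (x i) (X a x i)) (mdl (A a) o (b a i) ψ)
    (mdl M o (b a i) ψ)
  linarith

lemma abs_mean_le {Ω : Type*} [Fintype Ω] {v f : Ω → ℝ} (h : SL.Wt v) {c : ℝ}
    (hf : ∀ x, |f x| ≤ c) : |mean v f| ≤ c := by
  refine abs_le.2 ⟨?_, h.mean_le fun x => (abs_le.1 (hf x)).2⟩
  have := h.mean_mono (f := fun _ => -c) (g := f) fun x => (abs_le.1 (hf x)).1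
  rwa [h.mean_const] at this

variable {P : Type}

/-- (L1, uniform form) the local law with the model parameters -/
theorem LLd.par {A : I → Matrix L κ ℝ} {B : Set L} (h : LLd F n K w X b o A B)
    (hw : ∀ᶠ a in F, SL.Wt (w a)) {Q : Set (P → ℝ)} {T : Finset P}
    {p q : ∀ a, Fin (n a) → P → ℝ} (hp : ∀ᶠ a in F, ∀ i, p a i ∈ Q)
    (hq : ∀ᶠ a in F, ∀ i, q a i ∈ Q) (hT : ∀ j ∈ T, Ng F n K fun a i => p a i j - q a i j) :
    ∃ D : ∀ a, Fin (n a) → ℝ, Ng F n K D ∧ ∀ᶠ a in F, ∀ i (Λ : ℝ)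
      (g : (P → ℝ) → Bool → (L → ℝ) → ℝ), 0 < Λ → Adm Λ Q T g → (∀ p ∈ Q, Reads B (g p)) →
      |mean (w a) (fun x => g (p a i) (x i) (X a x i)) - mdl (A a) o (b a i) (g (q a i))|
        ≤ Λ * D a i := by
  obtain ⟨D, hD, h⟩ := h
  refine ⟨fun a i => D a i + ∑ j ∈ T, |p a i j - q a i j|,
    hD.add (Ng.sum T fun j hj => (hT j hj).abs), ?_⟩
  filter_upwards [h, hw, hp, hq] with a ha hwa hpa hqa i Λ g hΛ hg hr
  have h1 := ha i _ (tst_div hΛ (hg.lip _ (hqa i)) (hg.zero _ (hqa i)))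
    (fun σ x y hxy => by rw [hr _ (hqa i) σ x y hxy])
  rw [mdl_const_mul, SL.mean_const_mul, ← mul_sub, abs_mul, abs_of_pos (inv_pos.2 hΛ),
    inv_mul_le_iff₀ hΛ] at h1
  have h2 : |mean (w a) (fun x => g (p a i) (x i) (X a x i)) -
      mean (w a) (fun x => g (q a i) (x i) (X a x i))| ≤ Λ * ∑ j ∈ T, |p a i j - q a i j| := by
    rw [← SL.mean_sub]
    exact abs_mean_le hwa fun x => hg.par _ (hpa i) _ (hqa i) _ _
  have h3 := abs_sub_le (mean (w a) (fun x => g (p a i) (x i) (X a x i)))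
    (mean (w a) (fun x => g (q a i) (x i) (X a x i))) (mdl (A a) o (b a i) (g (q a i)))
  rw [mul_add]
  linarith

/-- (L1) a site mean is identified -/
theorem LLd.site {A : I → Matrix L κ ℝ} {B : Set L} (h : LLd F n K w X b o A B)
    (hw : ∀ᶠ a in F, SL.Wt (w a)) {Q : Set (P → ℝ)} {T : Finset P}
    {p q : ∀ a, Fin (n a) → P → ℝ} (hp : ∀ᶠ a in F, ∀ i, p a i ∈ Q)
    (hq : ∀ᶠ a in F, ∀ i, q a i ∈ Q) (hT : ∀ j ∈ T, Ng F n K fun a i => p a i j - q a i j)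
    {Λ : ℝ} (hΛ : 0 < Λ) {g : (P → ℝ) → Bool → (L → ℝ) → ℝ} (hg : Adm Λ Q T g)
    (hr : ∀ p ∈ Q, Reads B (g p)) :
    Ng F n K fun a i => mean (w a) (fun x => g (p a i) (x i) (X a x i)) -
      mdl (A a) o (b a i) (g (q a i)) := by
  obtain ⟨D, hD, h⟩ := h.par hw hp hq hT
  exact hD.of_le_mul Λ (h.mono fun a ha i => (ha i Λ g hΛ hg hr).trans
    (mul_le_mul_of_nonneg_left (le_abs_self _) hΛ.le))

end inst

section scal
variable {I : Type*} {F : Filter I} {Ω : I → Type*} [∀ a, Fintype (Ω a)] {w : ∀ a, Ω a → ℝ}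

/-- a bounded scalar observable which converges in `L¹(μ)` to the constant `c` -/
structure CP (F : Filter I) (w : ∀ a, Ω a → ℝ) (η : ∀ a, Ω a → ℝ) (c : ℝ) : Prop where
  bd : ∃ B : ℝ, ∀ᶠ a in F, ∀ x, |η a x| ≤ B
  lim : Tendsto (fun a => mean (w a) fun x => |η a x - c|) F (𝓝 0)

variable {η η' : ∀ a, Ω a → ℝ} {c c' : ℝ}

theorem CP.tendsto_mean (hw : ∀ᶠ a in F, SL.Wt (w a)) (h : CP F w η c) :
    Tendsto (fun a => mean (w a) (η a)) F (𝓝 c) := by
  rw [tendsto_iff_norm_sub_tendsto_zero]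
  refine squeeze_zero' (Eventually.of_forall fun a => norm_nonneg _) ?_ h.lim
  filter_upwards [hw] with a ha
  rw [Real.norm_eq_abs]
  have h1 : mean (w a) (η a) - c = mean (w a) fun x => η a x - c := by
    rw [SL.mean_sub, ha.mean_const]
  rw [h1, abs_le]
  refine ⟨?_, ha.mean_mono fun x => le_abs_self _⟩
  rw [← SL.mean_neg]
  exact ha.mean_mono fun x => neg_abs_le _

theorem CP.of_tendsto (hw : ∀ᶠ a in F, SL.Wt (w a)) {k : I → ℝ} (h : Tendsto k F (𝓝 c)) :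
    CP F w (fun a _ => k a) c := by
  refine ⟨⟨|c| + 1, ?_⟩, ?_⟩
  · filter_upwards [h.abs.eventually (ge_mem_nhds (lt_add_one |c|))] with a ha _ using ha
  · have h1 : Tendsto (fun a => |k a - c|) F (𝓝 0) := by
      simpa using (tendsto_sub_nhds_zero_iff.2 h).abs
    refine h1.congr' ?_
    filter_upwards [hw] with a ha
    rw [ha.mean_const]

theorem CP.const (hw : ∀ᶠ a in F, SL.Wt (w a)) (c : ℝ) : CP F w (fun _ _ => c) c :=
  CP.of_tendsto hw tendsto_const_nhds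

theorem CP.add (hw : ∀ᶠ a in F, SL.Wt (w a)) (h : CP F w η c) (h' : CP F w η' c') :
    CP F w (fun a x => η a x + η' a x) (c + c') := by
  obtain ⟨⟨B, hB⟩, h⟩ := h
  obtain ⟨⟨B', hB'⟩, h'⟩ := h'
  refine ⟨⟨B + B', ?_⟩, ?_⟩
  · filter_upwards [hB, hB'] with a h1 h2 x using (abs_add_le _ _).trans (add_le_add (h1 x) (h2 x))
  · have := h.add h'
    rw [add_zero] at this
    refine squeeze_zero' (hw.mono fun a ha => ha.mean_nonneg fun x => abs_nonneg _) ?_ this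
    filter_upwards [hw] with a ha
    rw [← SL.mean_add]
    refine ha.mean_mono fun x => ?_
    have := abs_add_le (η a x - c) (η' a x - c')
    rwa [show η a x - c + (η' a x - c') = η a x + η' a x - (c + c') by ring] at this

theorem CP.mul (hw : ∀ᶠ a in F, SL.Wt (w a)) (h : CP F w η c) (h' : CP F w η' c') :
    CP F w (fun a x => η a x * η' a x) (c * c') := by
  obtain ⟨⟨B, hB⟩, h⟩ := h
  obtain ⟨⟨B', hB'⟩, h'⟩ := h'
  refine ⟨⟨B * B', ?_⟩, ?_⟩
  · filter_upwards [hB, hB'] with a h1 h2 x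
    rw [abs_mul]
    exact mul_le_mul (h1 x) (h2 x) (abs_nonneg _) ((abs_nonneg _).trans (h1 x))
  · have := (h.const_mul B').add (h'.const_mul |c|)
    rw [mul_zero, mul_zero, add_zero] at this
    refine squeeze_zero' (hw.mono fun a ha => ha.mean_nonneg fun x => abs_nonneg _) ?_ this
    filter_upwards [hw, hB'] with a ha h2
    rw [← SL.mean_const_mul, ← SL.mean_const_mul, ← SL.mean_add]
    refine ha.mean_mono fun x => ?_
    have h3 := abs_add_le ((η a x - c) * η' a x) (c * (η' a x - c'))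
    rw [show (η a x - c) * η' a x + c * (η' a x - c') = η a x * η' a x - c * c' by ring,
      abs_mul, abs_mul] at h3
    have h4 := mul_le_mul_of_nonneg_left (h2 x) (abs_nonneg (η a x - c))
    linarith

theorem CP.neg (hw : ∀ᶠ a in F, SL.Wt (w a)) (h : CP F w η c) :
    CP F w (fun a x => - η a x) (-c) := by
  simpa using (CP.const hw (-1)).mul hw h

theorem CP.sub (hw : ∀ᶠ a in F, SL.Wt (w a)) (h : CP F w η c) (h' : CP F w η' c') :
    CP F w (fun a x => η a x - η' a x) (c - c') := by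
  simpa only [sub_eq_add_neg] using h.add hw (h'.neg hw)

theorem CP.sum {ι : Type*} (hw : ∀ᶠ a in F, SL.Wt (w a)) (T : Finset ι)
    {η : ι → ∀ a, Ω a → ℝ} {c : ι → ℝ} (h : ∀ j ∈ T, CP F w (η j) (c j)) :
    CP F w (fun a x => ∑ j ∈ T, η j a x) (∑ j ∈ T, c j) := by
  classical
  induction T using Finset.induction_on with
  | empty => simpa using CP.const hw 0
  | insert j T hj ih =>
    simpa only [sum_insert hj] using
      (h j (mem_insert_self _ _)).add hw (ih fun k hk => h k (mem_insert_of_mem hk))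

theorem CP.congr (h : CP F w η c) (he : ∀ᶠ a in F, ∀ x, η' a x = η a x) : CP F w η' c := by
  obtain ⟨⟨B, hB⟩, h⟩ := h
  refine ⟨⟨B, ?_⟩, h.congr' ?_⟩
  · filter_upwards [hB, he] with a h1 h2 x using (h2 x).symm ▸ h1 x
  · filter_upwards [he] with a h2
    simp only [h2]

/-- (L3) convergent mean and vanishing variance -/
theorem CP.of_var (hw : ∀ᶠ a in F, SL.Wt (w a)) (hb : ∃ B : ℝ, ∀ᶠ a in F, ∀ x, |η a x| ≤ B)
    (hm : Tendsto (fun a => mean (w a) (η a)) F (𝓝 c))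
    (hv : Tendsto (fun a => var (w a) (η a)) F (𝓝 0)) : CP F w η c := by
  refine ⟨hb, Metric.tendsto_nhds.2 fun e he => ?_⟩
  have h1 : Tendsto (fun a => |mean (w a) (η a) - c| + var (w a) (η a) / e) F (𝓝 0) := by
    have := (tendsto_sub_nhds_zero_iff.2 hm).abs.add (hv.div_const e)
    simpa using this
  filter_upwards [hw, h1.eventually (gt_mem_nhds (half_pos he))] with a ha h2
  rw [Real.dist_eq, sub_zero, abs_of_nonneg (ha.mean_nonneg fun x => abs_nonneg _)]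
  have h3 : mean (w a) (fun x => |η a x - c|) ≤ mean (w a) fun x =>
      (|mean (w a) (η a) - c| + e / 4) + (η a x - mean (w a) (η a)) ^ 2 / e := by
    refine ha.mean_mono fun x => ?_
    have h4 := abs_sub_le (η a x) (mean (w a) (η a)) c
    have h5 : |η a x - mean (w a) (η a)| ≤ e / 4 + (η a x - mean (w a) (η a)) ^ 2 / e := by
      rw [← sq_abs, div_add_div _ _ (by norm_num) he.ne', le_div_iff₀ (by positivity)]
      nlinarith [sq_nonneg (e - 2 * |η a x - mean (w a) (η a)|)]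
    linarith
  rw [SL.mean_add, ha.mean_const, SL.mean_div_const] at h3
  have h6 : mean (w a) (fun x => (η a x - mean (w a) (η a)) ^ 2) = var (w a) (η a) := rfl
  rw [h6] at h3
  linarith

end scal

end Crest.Agent.T157.S3I

end
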