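import Crest.Agent.T157.S3LDef_65
import Crest.Agent.T157.TapPl_37
import Crest.Agent.T157.NrmG_84
import Crest.Agent.T157.ConcL_16

/-!
# Row 157, block B/S3, section 4: quenched = annealed cavity law at every site (helper65)
-/

set_option autoImplicit false

noncomputable section

namespace Crest.Agent.T157.S3L

open MeasureTheory ProbabilityTheory Matrix Filter Set Topology
open Crest.ProbabilityR.SpinGlassDynamics
open Crest.Agent.T157.E Crest.Agent.T157.Tap Crest.Agent.T157.Cond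
open Crest.Agent.T157.Conc (en ELip en_nonneg en_sq)

namespace Row65

/-- finite nets of the class of `1`-Lipschitz functions -/
theorem net (L : Type) [Fintype L] {η : ℝ} (hη : 0 < η) : ∃ T : Set ((L → ℝ) → ℝ), T.Finite ∧
    (∀ ψ ∈ T, ELip 1 ψ) ∧ ∀ φ, ELip 1 φ → ∃ ψ ∈ T, ∀ x, |φ x - φ 0 - ψ x| ≤ η * (1 + en x ^ 2) := by
  classical
  set N : ℝ := (Fintype.card L : ℝ) with hN
  have hN0 : 0 ≤ N := Nat.cast_nonneg _
  have hε : 0 < η / (2 * N + 1) := by positivity
  obtain ⟨P, hPf, hP⟩ := Metric.totallyBounded_iff.1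
    (isCompact_closedBall (0 : L → ℝ) (2 / η)).totallyBounded _ hε
  have := hPf.fintype
  let ev : ((L → ℝ) → ℝ) → P → ℝ := fun φ p => φ p - φ 0
  have hb : Bornology.IsBounded (ev '' {φ | ELip 1 φ}) := by
    refine (Metric.isBounded_closedBall (x := 0) (r := ∑ p : P, en p.1)).subset ?_
    rintro _ ⟨φ, hφ, rfl⟩
    have h0 : 0 ≤ ∑ p : P, en p.1 := Finset.sum_nonneg fun p _ => en_nonneg _
    rw [mem_closedBall_zero_iff, pi_norm_le_iff_of_nonneg h0]
    intro p
    have := hφ p 0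
    rw [one_mul, sub_zero] at this
    exact this.trans (Finset.single_le_sum (f := fun p : P => en p.1) (fun p _ => en_nonneg _)
      (Finset.mem_univ p))
  obtain ⟨t, hts, htf, ht⟩ := Metric.finite_approx_of_totallyBounded
    (hb.isCompact_closure.totallyBounded.subset subset_closure) _ hε
  have hts' : ∀ y ∈ t, ∃ φ, ELip 1 φ ∧ ev φ = y := fun y hy => hts hy
  choose! g hg hge using hts'
  refine ⟨(fun y x => g y x - g y 0) '' t, htf.image _, ?_, fun φ hφ => ?_⟩
  · rintro _ ⟨y, hy, rfl⟩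
    exact (hg y hy).sub_const _
  obtain ⟨y, hy, hφy⟩ := mem_iUnion₂.1 (ht ⟨φ, hφ, rfl⟩)
  refine ⟨_, ⟨y, hy, rfl⟩, fun x => ?_⟩
  have hG : ELip 1 (g y) := hg y hy
  have hx0 := en_nonneg x
  by_cases hx : ‖x‖ ≤ 2 / η
  · obtain ⟨p, hp, hxp⟩ := mem_iUnion₂.1 (hP (mem_closedBall_zero_iff.2 hx))
    rw [Metric.mem_ball, dist_eq_norm] at hxp hφy
    have e1 : en (x - p) ≤ N * (η / (2 * N + 1)) :=
      (Conc.en_le_card_norm _).trans (mul_le_mul_of_nonneg_left hxp.le hN0)
    have e2 : |φ p - φ 0 - (g y p - g y 0)| ≤ η / (2 * N + 1) := by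
      have := (norm_le_pi_norm (ev φ - y) ⟨p, hp⟩).trans hφy.le
      rwa [← hge y hy] at this
    have e3 := hφ x p
    have e4 := hG x p
    have e5 : η / (2 * N + 1) * (2 * N + 1) = η := div_mul_cancel₀ _ (by positivity)
    rw [abs_le] at e2 e3 e4 ⊢
    constructor <;> nlinarith [sq_nonneg (en x)]
  · have h1 : 2 / η < en x := (not_le.1 hx).trans_le (Conc.norm_le_en x)
    rw [div_lt_iff₀ hη] at h1
    have e3 := hφ x 0
    have e4 := hG x 0
    rw [sub_zero, abs_le] at e3 e4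
    rw [abs_le]
    constructor <;> nlinarith

variable {n : ℕ}

lemma meas_rs (i : Fin n) {Ω : Type*} [MeasurableSpace Ω] {W : Ω → Mx n} {z : Ω → V n}
    (hW : Measurable W) (hz : Measurable z) : Measurable fun ω => rs i (W ω) (z ω) := by
  refine measurable_mat_iff.2 fun k l => ?_
  unfold rs
  split_ifs
  · exact (measurable_pi_apply l).comp hz
  · exact (measurable_pi_apply k).comp hz
  · exact hW.t157_entry k l

/-- resampling a row preserves the GOE -/
theorem map_rs (s : ℝ) (i : Fin n) : ((goe (Fin n) s).prod (gv (Fin n))).map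
    (fun p => rs i p.1 (s • p.2)) = goe (Fin n) s := by
  refine map_eq_goe (meas_rs i measurable_fst (by fun_prop)) fun M => ?_
  let M' : Mx n := fun k l => if (k = i ∧ l ≠ i) ∨ (l = i ∧ k ≠ i) then 0 else M k l
  let a : V n := fun l => if l = i then 0 else s * (M i l + M l i)
  have key : ∀ (F : Fin n → Fin n → ℝ), ∑ k, ∑ l, F k l =
      (∑ k, ∑ l, if (k = i ∧ l ≠ i) ∨ (l = i ∧ k ≠ i) then 0 else F k l) +
        ∑ l, if l = i then 0 else F i l + F l i := fun F => by
    have e1 : ∑ l, (if l = i then 0 else F i l + F l i) =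
        (∑ k, ∑ l, if k = i ∧ l ≠ i then F k l else 0) +
          ∑ k, ∑ l, if l = i ∧ k ≠ i then F k l else 0 := by
      rw [Finset.sum_comm, ← Finset.sum_add_distrib]
      refine Finset.sum_congr rfl fun l _ => ?_
      by_cases h : l = i <;> simp [h]
    rw [e1, ← Finset.sum_add_distrib, ← Finset.sum_add_distrib]
    refine Finset.sum_congr rfl fun k _ => ?_
    rw [← Finset.sum_add_distrib, ← Finset.sum_add_distrib]
    refine Finset.sum_congr rfl fun l _ => ?_
    by_cases h : k = i <;> by_cases h' : l = i <;> simp [h, h']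
  have e : ∀ p : Mx n × V n, pair M (rs i p.1 (s • p.2)) = pair M' p.1 + a ⬝ᵥ p.2 := fun p => by
    rw [pair, key, pair, dotProduct]
    congr 1
    · refine Finset.sum_congr rfl fun k _ => Finset.sum_congr rfl fun l _ => ?_
      by_cases h : k = i <;> by_cases h' : l = i <;> simp [h, h', M', rs]
    · refine Finset.sum_congr rfl fun l _ => ?_
      by_cases h' : l = i
      · simp [h', a]
      · simp [h', a, rs]; ring
  simp only [e]
  rw [CF_prod (goe (Fin n) s) (gv (Fin n)) (fun W => pair M' W) (fun z => a ⬝ᵥ z), CF_goe, CF_gv,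
    ← Complex.exp_add]
  have h2 : s ^ 2 * Vq M = s ^ 2 * Vq M' + a ⬝ᵥ a := by
    rw [Vq_eq_sum, Vq_eq_sum, key fun k l => (M k l + M l k) ^ 2, add_div, mul_add, dotProduct]
    congr 1
    · congr 2
      refine Finset.sum_congr rfl fun k _ => Finset.sum_congr rfl fun l _ => ?_
      by_cases h : k = i <;> by_cases h' : l = i <;> simp [h, h', M']
    · rw [Finset.sum_div, Finset.mul_sum]
      refine Finset.sum_congr rfl fun l _ => ?_
      by_cases h' : l = i
      · simp [h', a]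
      · simp [h', a]; ring
  rw [h2]
  congr 1
  push_cast
  ring

lemma plW_rs (β : ℝ) (i : Fin n) (W : Mx n) (u σ : V n) :
    plW β (rs i W u) σ = rs i (plW β W σ) (u + (β / n * σ i) • σ) := by
  ext k l
  by_cases h : k = i <;> by_cases h' : l = i <;> simp [h, h', rs, plW, vecMulVec_apply] <;> ring

/-- planted probability of an event with small row sections -/
theorem row_le (β s : ℝ) (i : Fin n) (σ : V n) {A : Set (Mx n × V n)} (hA : MeasurableSet A)
    {δ : ENNReal} (h : ∀ W y, gv (Fin n)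
      {z | (rs i W ((1 / √n : ℝ) • z + (β / n * σ i) • σ), y) ∈ A} ≤ δ) :
    ((GOE n).prod (gv (Fin n))) {z | (plW β z.1 σ, s • σ + √s • z.2) ∈ A} ≤ δ := by
  have hB : MeasurableSet {z : Mx n × V n | (plW β z.1 σ, s • σ + √s • z.2) ∈ A} :=
    hA.preimage (by unfold plW; fun_prop)
  rw [Measure.prod_apply_symm hB]
  refine (lintegral_mono fun g => ?_).trans_eq (by rw [lintegral_const, measure_univ, mul_one])
  have hm := meas_rs i (measurable_fst (β := V n)) (z := fun p => (1 / √n : ℝ) • p.2) (by fun_prop)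
  have hBg := measurable_prodMk_right (y := g) hB
  rw [GOE, ← map_rs _ i, Measure.map_apply hm hBg, Measure.prod_apply (hm hBg)]
  refine (lintegral_mono fun W => ?_).trans_eq (by rw [lintegral_const, measure_univ, mul_one])
  refine le_of_eq_of_le (congrArg _ ?_) (h (plW β W σ) (s • σ + √s • g))
  ext z
  simp only [mem_preimage, mem_ofPred_eq, plW_rs]

section quench
variable {L Ω : Type} [Fintype L] [Fintype Ω] {w : Ω → ℝ} {M : Ω → Matrix L (Fin n) ℝ} {C : ℝ}

/-- the cavity mean of a test function as a function of the row -/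
def Ph (w : Ω → ℝ) (M : Ω → Matrix L (Fin n) ℝ) (φ : (L → ℝ) → ℝ) (u : V n) : ℝ :=
  mean w fun x => φ (M x *ᵥ u)

/-- covariance bound -/
def Cv (w : Ω → ℝ) (M : Ω → Matrix L (Fin n) ℝ) (C : ℝ) : Prop :=
  ∀ u : V n, (mean w fun x => en (M x *ᵥ u) ^ 2) ≤ C * en u ^ 2

lemma mean_le_sqrt (hw : SL.Wt w) (f : Ω → ℝ) : mean w f ≤ √(mean w fun x => f x ^ 2) := by
  refine Real.le_sqrt_of_sq_le ?_
  have h := hw.var_nonneg f
  rw [SL.var_eq_cov, hw.cov_eq] at h
  simp only [sq]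
  linarith

lemma abs_mean_sub (hw : SL.Wt w) {f g d : Ω → ℝ} (h : ∀ x, |f x - g x| ≤ d x) :
    |mean w f - mean w g| ≤ mean w d := by
  rw [← SL.mean_sub, abs_le, neg_le, ← SL.mean_neg]
  exact ⟨hw.mean_mono fun x => (neg_le_abs _).trans (h x),
    hw.mean_mono fun x => (le_abs_self _).trans (h x)⟩

lemma elip_Ph (hw : SL.Wt w) (hC : 0 ≤ C) (h : Cv w M C) {φ : (L → ℝ) → ℝ} (hφ : ELip 1 φ) :
    ELip √C (Ph w M φ) := fun u v => by
  refine (abs_mean_sub hw (d := fun x => en (M x *ᵥ (u - v))) fun x => ?_).trans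
    ((mean_le_sqrt hw _).trans ?_)
  · simpa [mulVec_sub] using hφ (M x *ᵥ u) (M x *ᵥ v)
  · rw [← Real.sqrt_sq (en_nonneg (u - v)), ← Real.sqrt_mul hC]
    exact Real.sqrt_le_sqrt (h _)

lemma elip_smul {K : ℝ} {F : V n → ℝ} (h : ELip K F) (c : ℝ) :
    ELip (K * |c|) fun z => F (c • z) := fun u v => by
  have := h (c • u) (c • v)
  rwa [← smul_sub, Conc.en_smul, ← mul_assoc] at this

lemma Ph_sub (hw : SL.Wt w) (h : Cv w M C) {φ ψ : (L → ℝ) → ℝ} {η : ℝ} (hη : 0 ≤ η)
    (hφ : ∀ x, |φ x - φ 0 - ψ x| ≤ η * (1 + en x ^ 2)) (u : V n) :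
    |Ph w M φ u - φ 0 - Ph w M ψ u| ≤ η * (1 + C * en u ^ 2) := by
  have := abs_mean_sub hw (f := fun x => φ (M x *ᵥ u) - φ 0) (g := fun x => ψ (M x *ᵥ u))
    fun x => hφ (M x *ᵥ u)
  rw [SL.mean_sub, hw.mean_const, SL.mean_const_mul, SL.mean_add, hw.mean_const] at this
  exact this.trans (mul_le_mul_of_nonneg_left (add_le_add le_rfl (h u)) hη)

lemma en_sq_dot (u : V n) : en u ^ 2 = u ⬝ᵥ u := by rw [en_sq]; simp [dotProduct, sq]

lemma int_Ph_sub (hn : 0 < n) (hw : SL.Wt w) (hC : 0 ≤ C) (h : Cv w M C) {φ ψ : (L → ℝ) → ℝ}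
    {η : ℝ} (hη : 0 ≤ η) (h1 : ELip 1 φ) (h2 : ELip 1 ψ)
    (hφ : ∀ x, |φ x - φ 0 - ψ x| ≤ η * (1 + en x ^ 2)) :
    |(∫ z, Ph w M φ ((1 / √n : ℝ) • z) ∂gv (Fin n)) - φ 0 -
      ∫ z, Ph w M ψ ((1 / √n : ℝ) • z) ∂gv (Fin n)| ≤ η * (1 + C) := by
  have i1 := (elip_smul (elip_Ph hw hC h h1) (1 / √n)).integrable
  have i2 := (elip_smul (elip_Ph hw hC h h2) (1 / √n)).integrable
  have hn' : (0 : ℝ) < n := Nat.cast_pos.2 hn
  have i3 : Integrable (fun z : V n => η * (1 + C / n * (z ⬝ᵥ z))) (gv (Fin n)) :=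
    ((integrable_const _).add (Nrm.integrable_dot_self.const_mul _)).const_mul _
  have e : ∫ z : V n, η * (1 + C / n * (z ⬝ᵥ z)) ∂gv (Fin n) = η * (1 + C) := by
    rw [integral_const_mul, integral_add (integrable_const _)
      (Nrm.integrable_dot_self.const_mul _), integral_const_mul, Nrm.integral_dot_self]
    simp [hn'.ne']
  have e0 : φ 0 = ∫ _ : V n, φ 0 ∂gv (Fin n) := by simp
  have i4 : Integrable (fun z => Ph w M φ ((1 / √n : ℝ) • z) - φ 0) (gv (Fin n)) :=
    i1.sub (integrable_const _)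
  rw [e0, ← integral_sub i1 (integrable_const _), ← integral_sub i4 i2, ← e]
  rw [← Real.norm_eq_abs]
  refine norm_integral_le_of_norm_le i3 (.of_forall fun z => ?_)
  rw [Real.norm_eq_abs]
  refine (Ph_sub hw h hη hφ _).trans_eq ?_
  rw [Conc.en_smul, mul_pow, sq_abs, div_pow, Real.sq_sqrt hn'.le, en_sq_dot]
  ring

/-- concentration in the (shifted) row -/
lemma sec_le (hn : 0 < n) (hw : SL.Wt w) (hC : 0 < C) (h : Cv w M C) {ψ : (L → ℝ) → ℝ}
    (hψ : ELip 1 ψ) {v : V n} {ε : ℝ} (hv : √C * en v ≤ ε) :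
    gv (Fin n) {z | 2 * ε < |Ph w M ψ ((1 / √n : ℝ) • z + v) -
      ∫ z, Ph w M ψ ((1 / √n : ℝ) • z) ∂gv (Fin n)|} ≤
      ENNReal.ofReal (2 * Real.exp (-(ε ^ 2 / (2 * C)) * n)) := by
  have hl := elip_Ph hw hC.le h hψ
  have hε : 0 ≤ ε := le_trans (mul_nonneg (Real.sqrt_nonneg _) (en_nonneg _)) hv
  have hn' : (0 : ℝ) < n := Nat.cast_pos.2 hn
  have := Conc.tail_lip_abs (elip_smul hl (1 / √n)) hε
  rw [mul_pow, sq_abs, div_pow, Real.sq_sqrt hn'.le, Real.sq_sqrt hC.le,
    show -ε ^ 2 / (2 * (C * (1 ^ 2 / n))) = -(ε ^ 2 / (2 * C)) * n by field_simp] at this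
  rw [← ofReal_measureReal]
  refine ENNReal.ofReal_le_ofReal (le_trans (measureReal_mono fun z hz => ?_) this)
  have h1 := hl ((1 / √n : ℝ) • z + v) ((1 / √n : ℝ) • z)
  rw [add_sub_cancel_left] at h1
  have h2 := abs_sub_le (Ph w M ψ ((1 / √n : ℝ) • z + v)) (Ph w M ψ ((1 / √n : ℝ) • z))
    (∫ z, Ph w M ψ ((1 / √n : ℝ) • z) ∂gv (Fin n))
  simp only [mem_ofPred_eq] at hz ⊢
  linarith

end quench

section cav
variable {L : Type} [Fintype L] (c : Cav L n) (C ε : ℝ) (ψ : (L → ℝ) → ℝ) (i : Fin n)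

/-- the measurable bad event of one site and one test function -/
def ev : Set (Mx n × V n) := {p | Cv (c.w i p) (c.M i p) C} ∩
  {p | 2 * ε < |Ph (c.w i p) (c.M i p) ψ (p.1 i) -
    ∫ z, Ph (c.w i p) (c.M i p) ψ ((1 / √n : ℝ) • z) ∂gv (Fin n)|}

omit [Fintype L] in
lemma meas_mean {α : Type*} [MeasurableSpace α] {q : α → Mx n × V n} (hq : Measurable q)
    {F : α → Cube n → ℝ} (hF : ∀ x, Measurable fun a => F a x) :
    Measurable fun a => mean (c.w i (q a)) (F a) :=
  Finset.measurable_sum _ fun x _ => (((c.mw i x).comp hq).div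
    (Finset.measurable_sum _ fun x _ => (c.mw i x).comp hq)).mul (hF x)

omit [Fintype L] in
lemma meas_M (x : Cube n) : Measurable fun p => c.M i p x := measurable_mat_iff.2 (c.mM i x)

lemma meas_ev {ψ : (L → ℝ) → ℝ} (hψ : ELip 1 ψ) : MeasurableSet (ev c C ε ψ i) := by
  have hm := hψ.continuous.measurable
  refine .inter ?_ (measurableSet_lt measurable_const (Measurable.abs (.sub ?_ ?_)))
  · let q : Mx n × V n → (Cube n → ℝ) × (Cube n → L → Fin n → ℝ) :=
      fun p => (prob (c.w i p), fun x l k => c.M i p x l k)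
    have hq : Measurable q := .prodMk (measurable_pi_lambda _ fun x => (c.mw i x).div
      (Finset.measurable_sum _ fun x _ => c.mw i x)) (measurable_pi_lambda _ fun x =>
        measurable_pi_lambda _ fun l => measurable_pi_lambda _ fun k => c.mM i x l k)
    have hc : IsClosed (⋂ u : V n, {θ : (Cube n → ℝ) × (Cube n → L → Fin n → ℝ) |
        ∑ x, θ.1 x * ∑ l, (∑ k, θ.2 x l k * u k) ^ 2 ≤ C * en u ^ 2}) :=
      isClosed_iInter fun u => isClosed_le (by fun_prop) continuous_const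
    convert hq hc.measurableSet using 1
    ext p
    simp only [Cv, mean, en_sq, mem_preimage, mem_iInter, mem_ofPred_eq, q, mulVec, dotProduct]
  · exact meas_mean c i measurable_id fun x => hm.comp ((meas_M c i x).t157_mulVec
      ((measurable_pi_apply i).comp measurable_fst))
  · exact (StronglyMeasurable.integral_prod_right' (f := fun a : (Mx n × V n) × V n =>
      Ph (c.w i a.1) (c.M i a.1) ψ ((1 / √n : ℝ) • a.2)) (meas_mean c i measurable_fst fun x =>
        hm.comp (((meas_M c i x).comp measurable_fst).t157_mulVec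
          (by fun_prop))).stronglyMeasurable).measurable

omit [Fintype L] in
lemma Ph_rs (p : Mx n × V n) (W : Mx n) (u : V n) :
    Ph (c.w i p) (c.M i p) ψ (rs i W u i) = Ph (c.w i p) (c.M i p) ψ u := by
  unfold Ph
  congr 1
  ext x
  congr 1
  ext l
  simp only [mulVec, dotProduct]
  refine Finset.sum_congr rfl fun k _ => ?_
  by_cases h : k = i
  · simp [h, c.col]
  · simp [h, rs]

lemma planted_ev (hn : 0 < n) {C ε β : ℝ} (hC : 0 < C) (hε : √C * (|β| / √n) ≤ ε) (s : ℝ)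
    {ψ : (L → ℝ) → ℝ} (hψ : ELip 1 ψ) (σ : Cube n) : ((GOE n).prod (gv (Fin n)))
      {z | (plW β z.1 (sv σ), s • sv σ + √s • z.2) ∈ ev c C ε ψ i} ≤
      ENNReal.ofReal (2 * Real.exp (-(ε ^ 2 / (2 * C)) * n)) := by
  refine row_le β s i _ (meas_ev c C ε i hψ) fun W y => ?_
  simp only [ev, mem_inter_iff, mem_ofPred_eq, c.iw, c.iM, Ph_rs]
  by_cases h : Cv (c.w i (W, y)) (c.M i (W, y)) C
  · refine le_trans (measure_mono fun z hz => hz.2) (sec_le hn (.of_pos (c.pos i _)) hC h hψ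
      (le_of_eq_of_le ?_ hε))
    have hn' : (0 : ℝ) < n := Nat.cast_pos.2 hn
    have h1 : ∀ k, sv σ k ^ 2 = 1 := fun k => by unfold sv spin; split_ifs <;> norm_num
    have h2 : |sv σ i| = 1 := by unfold sv spin; split_ifs <;> norm_num
    rw [Conc.en_smul, en, abs_mul, h2, abs_div, abs_of_pos hn']
    simp only [h1, Finset.sum_const, Finset.card_univ, Fintype.card_fin, nsmul_eq_mul, mul_one]
    congr 1
    rw [div_mul_eq_mul_div, div_eq_div_iff hn'.ne' (Real.sqrt_pos.2 hn').ne', mul_assoc,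
      Real.mul_self_sqrt hn'.le]
  · simp [h]

end cav

lemma en_row_le (W : Mx n) (i : Fin n) : en (W i) ≤ Eig.opn W := by
  have := Eig.nrm_mulVec_le Wᵀ (Pi.single i 1)
  rw [Eig.opn_transpose, mulVec_single_one] at this
  have h1 : Eig.nrm (Pi.single i (1 : ℝ) : V n) = 1 := by simp [Eig.nrm]
  rw [h1, mul_one] at this
  rwa [en, show ∑ k, W i k ^ 2 = Wᵀ.col i ⬝ᵥ Wᵀ.col i by simp [dotProduct, sq, Matrix.col]]

end Row65

open Row65 in
theorem rowCltStmt : RowCltStmt := by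
  intro L _ c β hβ r C0 ε hε
  set C := |C0| + 1 with hCd
  have hC : 0 < C := by positivity
  obtain ⟨T, hTf, hT1, hT⟩ := net L (η := ε / (2 * (2 + 10 * C))) (by positivity)
  let A : ∀ n, Set (Mx n × V n) := fun n => ⋃ i : Fin n, ⋃ ψ ∈ hTf.toFinset, ev (c n) C (ε / 4) ψ i
  have hA : ∀ n, MeasurableSet (A n) := fun n => .iUnion fun i =>
    Finset.measurableSet_biUnion _ fun ψ hψ => meas_ev _ _ _ _ (hT1 ψ (hTf.mem_toFinset.1 hψ))
  set κ := (ε / 4) ^ 2 / (2 * C) with hκ
  have hκ0 : 0 < κ := by positivity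
  have h1 : Top.Whp GOE fun n W => (SL.law sv (ising (β • W) 0) r).real {y | (W, y) ∈ A n} < ε := by
    refine Top.whp_iff.2 fun e he => ?_
    obtain ⟨η, hη, hL⟩ := Pl.tight_LRW hβ.1 hβ.2 (half_pos he)
    have t1 : Tendsto (fun n : ℕ => (n : ℝ) * (hTf.toFinset.card * (2 * Real.exp (-κ * n))) / (ε * η))
        atTop (𝓝 0) := by
      have := ((Real.tendsto_pow_mul_exp_neg_atTop_nhds_zero 1).comp
        (tendsto_natCast_atTop_atTop.const_mul_atTop hκ0)).const_mul
          (hTf.toFinset.card * 2 / κ / (ε * η))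
      rw [mul_zero] at this
      refine this.congr fun n => ?_
      simp only [Function.comp, pow_one, neg_mul]
      field_simp
    have t2 : Tendsto (fun n : ℕ => √C * (|β| / √n)) atTop (𝓝 0) := by
      have := ((Real.tendsto_sqrt_atTop.comp tendsto_natCast_atTop_atTop).const_div_atTop
        |β|).const_mul √C
      rwa [mul_zero] at this
    filter_upwards [t1.eventually (ge_mem_nhds (half_pos he)),
      t2.eventually (ge_mem_nhds (show 0 < ε / 4 by positivity)), eventually_gt_atTop 0]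
      with n a1 a2 hn
    rw [← ofReal_measureReal]
    refine ENNReal.ofReal_le_ofReal ?_
    simp only [not_lt]
    refine (TapPl.transfer_law β r (hA n) hε hη (δ := n * (hTf.toFinset.card * (2 * Real.exp (-κ * n))))
      fun σ => ENNReal.toReal_le_of_le_ofReal (by positivity) ?_).trans
        (by linarith [hL n hn.ne'])
    have e : {z : Mx n × V n | (plW β z.1 (sv σ), r • sv σ + √r • z.2) ∈ A n} = ⋃ i : Fin n,
        ⋃ ψ ∈ hTf.toFinset, {z | (plW β z.1 (sv σ), r • sv σ + √r • z.2) ∈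
          ev (c n) C (ε / 4) ψ i} := by
      ext z; simp [A]
    rw [e]
    refine (measure_iUnion_fintype_le _ _).trans ((Finset.sum_le_sum fun i _ =>
      (measure_biUnion_finset_le _ _).trans (Finset.sum_le_sum fun ψ hψ => planted_ev (c n) i hn hC
        a2 r (hT1 ψ (hTf.mem_toFinset.1 hψ)) σ)).trans_eq ?_)
    simp only [Finset.sum_const, Finset.card_univ, Fintype.card_fin, nsmul_eq_mul]
    rw [ENNReal.ofReal_mul n.cast_nonneg, ENNReal.ofReal_mul (Nat.cast_nonneg _),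
      ENNReal.ofReal_natCast, ENNReal.ofReal_natCast]
  refine (h1.and TapPl.whp_opn).mono ?_
  filter_upwards [eventually_gt_atTop 0] with n hn W hW
  have := SL.isProb_law (φ := sv) (s := r) (Pl.wt_ising (β • W) 0)
  refine le_trans (measureReal_mono ?_) hW.1.le
  rintro y ⟨i, h0, φ, hφ, hlt⟩
  have hw : SL.Wt ((c n).w i (W, y)) := .of_pos ((c n).pos i _)
  have hv : Cv ((c n).w i (W, y)) ((c n).M i (W, y)) C := fun u => (h0 u).trans
    (mul_le_mul_of_nonneg_right (by linarith [le_abs_self C0]) (sq_nonneg _))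
  obtain ⟨ψ, hψ, hφψ⟩ := hT φ hφ
  refine mem_iUnion.2 ⟨i, mem_iUnion₂.2 ⟨ψ, hTf.mem_toFinset.2 hψ, hv, ?_⟩⟩
  have hη : 0 ≤ ε / (2 * (2 + 10 * C)) := by positivity
  have b1 := Ph_sub hw hv hη hφψ (W i)
  have b2 := int_Ph_sub hn hw hC.le hv hη hφ (hT1 ψ hψ) hφψ
  have b3 : en (W i) ^ 2 ≤ 3 ^ 2 := pow_le_pow_left₀ (en_nonneg _) ((en_row_le W i).trans hW.2) 2
  have b4 : ε / (2 * (2 + 10 * C)) * (2 + 10 * C) = ε / 2 := by field_simp
  have b5 := mul_le_mul_of_nonneg_left (mul_le_mul_of_nonneg_left b3 hC.le) hη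
  change ε < |Ph _ _ φ (W i) - ∫ z, Ph _ _ φ ((1 / √n : ℝ) • z) ∂gv (Fin n)| at hlt
  by_contra hc
  simp only [mem_ofPred_eq, not_lt] at hc
  refine absurd hlt (not_lt.2 ?_)
  rw [abs_le] at b1 b2 hc ⊢
  constructor <;> nlinarith

end Crest.Agent.T157.S3L

end
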