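import Crest.Agent.T157.S3Prog_65
import Crest.Agent.T157.S3CC_16
import Crest.Agent.T157.S3Row_65
import Crest.Agent.T157.S3Tilt_22
import Crest.Agent.T157.S3IB_52

/-!
# Row 157, block B/S3: the cavity network, the leaves of the local law and their glue (helper65)
-/

set_option autoImplicit false

noncomputable section

namespace Crest.Agent.T157.S3P

open MeasureTheory Matrix Finset Function Filter
open Crest.Agent.T157.E Crest.Agent.T157.Eig Crest.Agent.T157.S3L
open Crest.Agent.T157.S3 (V Mx Fam)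
open Crest.Agent.T157.S3C (cJ ei)
open Crest.Agent.T157.S3F (jac)
open Crest.Agent.T157.Conc (en ELip)

variable {n N : ℕ}

section cav
variable (P : Prog N) (s : ℝ) (J : Mx n) (y : V n) (i : Fin n)

/-- the cavity weight -/
def wc : Cube n → ℝ := ising (cJ J i) (update y i 0)
/-- letters of the cavity network -/
def Prog.ec (φ : PF N) : Cube n → V n := P.e s (cJ J i) (update y i 0) φ
/-- centred cavity nodes, off the site `i` -/
def Prog.Vc (x : Cube n) : Matrix (Fin (N + 1)) (Fin n) ℝ :=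
  of fun l => ei i * (P.ec s J y i (P.f l) x - meanV (wc J y i) (P.ec s J y i (P.f l)))

end cav

/-- the deterministic part of the cavity comparison -/
def CV (P : Prog N) (F : Fam) : Prop := ∃ C : ℝ, ∀ (a : F.I) (κ : Type) [Fintype κ]
  (A : Matrix (Fin (N + 1)) κ ℝ), A * Aᵀ = P.S (F.s a) (F.J a) (F.y a) →
  (∀ i, Ll65.Site C (C * |F.s a|) (F.s a) 0 (F.w a) (F.J a i)
      (fun x => (fun l => P.X (F.s a) (F.J a) (F.y a) l x i) - fun l => P.c (F.s a) (F.J a) (F.y a) l i)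
      (bF (F.s a) (F.J a) (F.y a) i) A i (wc (F.J a) (F.y a) i) (P.Vc (F.s a) (F.J a) (F.y a) i) ∧
    Row65.Cv (wc (F.J a) (F.y a) i) (P.Vc (F.s a) (F.J a) (F.y a) i) C) ∧
  ∀ l, ∑ i, var (F.w a) (fun x => P.X (F.s a) (F.J a) (F.y a) l x i - P.c (F.s a) (F.J a) (F.y a) l i -
    (P.Vc (F.s a) (F.J a) (F.y a) i x *ᵥ F.J a i) l) ^ 2 ≤ C * F.K a

/-- quenched = annealed for the cavity fields (holds for the typical family) -/
def QA (P : Prog N) (F : Fam) : Prop := ∀ C ε : ℝ, 0 < ε → ∀ᶠ a in F.l, ∀ i,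
  Row65.Cv (wc (F.J a) (F.y a) i) (P.Vc (F.s a) (F.J a) (F.y a) i) C → ∀ φ, ELip 1 φ →
  |(mean (wc (F.J a) (F.y a) i) fun x => φ (P.Vc (F.s a) (F.J a) (F.y a) i x *ᵥ F.J a i)) -
    ∫ z, mean (wc (F.J a) (F.y a) i)
      (fun x => φ (P.Vc (F.s a) (F.J a) (F.y a) i x *ᵥ (F.s a • z))) ∂gv (Fin (F.n a))| ≤ ε

/-- **the local law** -/
def LL (P : Prog N) (F : Fam) : Prop := ∀ (κ : Type) [Fintype κ]
  (A : F.I → Matrix (Fin (N + 1)) κ ℝ), (∀ a, A a * (A a)ᵀ = P.S (F.s a) (F.J a) (F.y a)) →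
  S3I.LLd F.l F.n F.K F.w (fun a x k => (fun l => P.X (F.s a) (F.J a) (F.y a) l x k) -
    fun l => P.c (F.s a) (F.J a) (F.y a) l k) (fun a => bF (F.s a) (F.J a) (F.y a)) 0 A Set.univ

/-- **(LL)** from the cavity comparison -/
theorem ll_of {P : Prog N} {F : Fam} (hF : F.Ok) (hC : CV P F) (hQ : QA P F) : LL P F := by
  intro κ _ A hA
  obtain ⟨C, hC⟩ := hC
  refine S3I.LLd.of_eps ((Fintype.card (Fin (N + 1)) : ℝ) ^ 4 * |C|) (by positivity) fun e he => ?_
  obtain ⟨δ, hδ, H⟩ := Ll65.ll_site tiltStmt (Fin (N + 1)) 0 C e he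
  have hs : Tendsto (fun a => C * |F.s a|) F.l (nhds 0) := by
    have h1 : Tendsto (fun a => √(F.n a : ℝ)) F.l atTop :=
      Real.tendsto_sqrt_atTop.comp (tendsto_natCast_atTop_atTop.comp hF.lim)
    simpa only [abs_zero, mul_zero, Fam.s] using ((h1.const_div_atTop F.β).abs).const_mul C
  filter_upwards [hQ C δ hδ, hs.eventually (ge_mem_nhds hδ)] with a h1 h2
  obtain ⟨h3, h4⟩ := hC a κ (A a) (hA a)
  refine ⟨_, ?_, fun i ψ hψ _ => H _ κ (F.s a) _ (F.J a i) _ _ (A a) i _ _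
    { (h3 i).1 with ov := (h3 i).1.ov.trans h2 } (h1 i (h3 i).2) ψ hψ⟩
  rw [mul_assoc]
  exact Ll65.sum_four (fun i l => (Pl.wt_ising _ _).var_nonneg _) fun l => (h4 l).trans
    (mul_le_mul_of_nonneg_right (le_abs_self _) (zero_le_one.trans (hF.K1 a)))

/-! ### the cavity data of a GOE matrix -/

lemma cJ_rs (β : ℝ) (i : Fin n) (W : Mx n) (z : V n) :
    cJ (β • Cond.offd (rs i W z)) i = cJ (β • Cond.offd W) i := by
  ext k l
  by_cases h : k = i ∨ l = i
  · simp [cJ, h]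
  · have ⟨h1, h2⟩ := not_or.1 h
    simp [cJ, Cond.offd, rs, h1, h2, diagonal_apply]

lemma meas_cJ (β : ℝ) (i : Fin n) : Measurable fun p : Mx n × V n => cJ (β • Cond.offd p.1) i :=
  Cond.measurable_mat_iff.2 fun k l => by
    simp only [cJ, of_apply]
    split_ifs
    · exact measurable_const
    · exact measurable_const.mul ((Cond.measurable_offd.comp measurable_fst).t157_entry k l)

lemma meas_upd (i : Fin n) : Measurable fun p : Mx n × V n => update p.2 i 0 :=
  (measurable_update_left (a := i) (x := 0)).comp measurable_snd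

/-- the cavity data -/
def Prog.Ok.cav {P : Prog N} (h : P.Ok) (β : ℝ) (n : ℕ) : Cav (Fin (N + 1)) n where
  w i p := wc (β • Cond.offd p.1) p.2 i
  M i p x := β • P.Vc (β / √n) (β • Cond.offd p.1) p.2 i x
  pos _ _ _ := Real.exp_pos _
  mw i x := Pl.measurable_ising (meas_cJ β i) (meas_upd i) x
  mM i x l k := measurable_const.mul (measurable_const.mul (.sub
    ((measurable_pi_apply k).comp (h.meas_e (meas_cJ β i) (meas_upd i) (h.sf l) x))
    ((measurable_pi_apply k).comp (meas_meanV (meas_cJ β i) (meas_upd i)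
      (h.meas_e (meas_cJ β i) (meas_upd i) (h.sf l))))))
  iw i W z y := by simp only [wc, cJ_rs]
  iM i W z y := by ext1 x; simp only [Prog.Vc, Prog.ec, wc, cJ_rs]
  col i p x l := by simp [Prog.Vc, ei]

/-- quenched = annealed, GOE form -/
theorem qa_goe {P : Prog N} (h : P.Ok) {β : ℝ} (hβ : β ∈ Set.Ico (0 : ℝ) 1) (r C : ℝ) {ε e : ℝ}
    (hε : 0 < ε) (he : 0 < e) : Top.Whp Tap.GOE fun n W =>
    (SL.law sv (ising (β • W) 0) r).real {y | ¬ ∀ i, Row65.Cv (wc (β • Cond.offd W) y i)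
      (P.Vc (β / √n) (β • Cond.offd W) y i) C → ∀ φ, ELip 1 φ →
      |(mean (wc (β • Cond.offd W) y i)
          fun x => φ (P.Vc (β / √n) (β • Cond.offd W) y i x *ᵥ (β • Cond.offd W) i)) -
        ∫ z, mean (wc (β • Cond.offd W) y i) (fun x => φ (P.Vc (β / √n) (β • Cond.offd W) y i x *ᵥ
          ((β / √n) • z))) ∂gv (Fin n)| ≤ ε} ≤ e := by
  refine (rowCltStmt _ (h.cav β) β hβ r (β ^ 2 * C) _ (lt_min hε he)).imp fun n W hW => ?_
  have := SL.isProb_law (φ := sv) (s := r) (Pl.wt_ising (β • W) 0)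
  refine le_trans (measureReal_mono fun y hy => ?_) (hW.trans (min_le_right _ _))
  simp only [Set.mem_ofPred_eq, not_forall, not_le] at hy
  obtain ⟨i, h1, φ, h2, h3⟩ := hy
  refine ⟨i, fun u => ?_, φ, h2, (min_le_left _ _).trans_lt (h3.trans_eq ?_)⟩
  · simp only [Prog.Ok.cav, smul_mulVec, Conc.en_smul, mul_pow, sq_abs, SL.mean_const_mul, mul_assoc]
    exact mul_le_mul_of_nonneg_left (h1 u) (sq_nonneg _)
  · have e : ∀ x, P.Vc (β / √n) (β • Cond.offd W) y i x *ᵥ (β • Cond.offd W) i =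
        β • P.Vc (β / √n) (β • Cond.offd W) y i x *ᵥ W i := fun x => by
      ext l
      simp only [mulVec, dotProduct, Pi.smul_apply, smul_eq_mul, mul_sum]
      refine sum_congr rfl fun k _ => ?_
      by_cases hk : k = i
      · simp [hk, Prog.Vc, ei]
      · simp [Cond.offd, Ne.symm hk]; ring
    simp only [Prog.Ok.cav, smul_mulVec, e, ← mulVec_smul, smul_smul, mul_one_div]

end Crest.Agent.T157.S3P

end
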