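import Crest.Agent.T157.S3CF_16
import Crest.Agent.T157.S3Cav_65

/-!
# Row 157, block S3, section 4 (helper16): the cavity comparison for good families
-/

set_option autoImplicit false

noncomputable section

namespace Crest.Agent.T157.S3P

open Matrix Finset
open Crest.Agent.T157.S3 (Fam)

/-- **(C1)-(C3)** in the words of the local law -/
theorem cv {N : ℕ} {P : Prog N} {F : Fam} (hP : P.Ok) (hF : F.Ok) : CV P F := by
  obtain ⟨K0, κ0, hκ, hA⟩ := hF.hAT
  obtain ⟨R, hR⟩ := hF.uw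
  obtain ⟨C, k, c1, hC⟩ := S3C.cav hP R (le_max_right K0 0) hκ
  obtain ⟨D, hD⟩ := hR k
  have c2 : C ≤ C * (D ^ 2 + 1) := by nlinarith [sq_nonneg D]
  refine ⟨C * (D ^ 2 + 1), fun a κ _ A hAA => ?_⟩
  have n0 : (0 : ℝ) < F.n a := by exact_mod_cast hF.pos a
  have K1 := hF.K1 a
  have hs : F.s a ^ 2 * F.n a ≤ 1 := by
    rw [Fam.s, div_pow, Real.sq_sqrt n0.le, div_mul_cancel₀ _ n0.ne']
    exact pow_le_one₀ hF.beta.1 hF.beta.2
  obtain ⟨h1, h2⟩ := hC (F.n a) (F.s a) (|D| * √(F.K a)) (F.J a) (F.y a) hs (hF.symm a) (hF.diag a)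
    ((hD a).mono le_rfl le_rfl (mul_le_mul_of_nonneg_right (le_abs_self D) (Real.sqrt_nonneg _)))
    (by positivity) ((hA a).mono (fun _ => Real.exp_pos _) (le_max_left _ _) le_rfl)
  refine ⟨fun i => ⟨?_, fun u => ((h1 i).1 u).trans (mul_le_mul_of_nonneg_right c2 (sq_nonneg _))⟩,
    fun l => (h2 l).trans ?_⟩
  · have h := (h1 i).2 κ A hAA
    exact ⟨h.pos, h.fw, h.fV, h.tilt, h.cen, h.m4.trans c2, h.e4.trans c2, h.fA.trans c2,
      h.ov.trans (mul_le_mul_of_nonneg_right c2 (abs_nonneg _))⟩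
  · rw [mul_pow, sq_abs, Real.sq_sqrt (by linarith), mul_assoc]
    exact mul_le_mul_of_nonneg_left (by nlinarith) (by linarith)

end Crest.Agent.T157.S3P

end
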