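import Crest.Agent.T157.EDef_39

/-!
# Row 157, part B, block S3 (helper71): closure (CL), the abstract recursion

`nr` is the Euclidean norm of a vector.  `core`: the triangular recursion of section 3 of
`docs/T157_B_S3.md`, in neutral words.
-/

set_option autoImplicit false
set_option linter.unusedSectionVars false

noncomputable section

namespace Crest.Agent.T157.S3.Cl71

open Matrix Finset Crest.Agent.T157.E

variable {ι : Type*} [Fintype ι]

/-- Euclidean norm -/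
def nr (v : ι → ℝ) : ℝ := ‖(WithLp.toLp 2 v : EuclideanSpace ℝ ι)‖

lemma nr_nonneg (v : ι → ℝ) : 0 ≤ nr v := norm_nonneg _

lemma nr_sq (v : ι → ℝ) : nr v ^ 2 = v ⬝ᵥ v := by
  rw [nr, EuclideanSpace.norm_sq_eq]
  simp [dotProduct, sq]

lemma nr_eq (v : ι → ℝ) : nr v = Real.sqrt (v ⬝ᵥ v) := by
  rw [← nr_sq, Real.sqrt_sq (nr_nonneg v)]

lemma nr_le_iff {v : ι → ℝ} {a : ℝ} (ha : 0 ≤ a) : nr v ≤ a ↔ v ⬝ᵥ v ≤ a ^ 2 := by
  rw [← nr_sq, sq_le_sq₀ (nr_nonneg v) ha]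

lemma nr_le_sqrt {v : ι → ℝ} {a : ℝ} (h : v ⬝ᵥ v ≤ a) : nr v ≤ Real.sqrt a := by
  rw [nr_eq]; exact Real.sqrt_le_sqrt h

lemma nr_add (u v : ι → ℝ) : nr (u + v) ≤ nr u + nr v := by
  simp only [nr, WithLp.toLp_add]; exact norm_add_le _ _

lemma nr_neg (u : ι → ℝ) : nr (-u) = nr u := by
  simp only [nr, WithLp.toLp_neg, norm_neg]

lemma nr_sub (u v : ι → ℝ) : nr (u - v) ≤ nr u + nr v := by
  simp only [nr, WithLp.toLp_sub]; exact norm_sub_le _ _

lemma nr_smul (c : ℝ) (u : ι → ℝ) : nr (c • u) = |c| * nr u := by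
  simp only [nr, WithLp.toLp_smul, norm_smul, Real.norm_eq_abs]

lemma nr_zero : nr (0 : ι → ℝ) = 0 := by simp [nr]

lemma nr_sum {L : Type*} (s : Finset L) (v : L → ι → ℝ) : nr (∑ l ∈ s, v l) ≤ ∑ l ∈ s, nr (v l) := by
  classical
  induction s using Finset.induction_on with
  | empty => simp [nr_zero]
  | insert a s ha ih =>
    rw [sum_insert ha, sum_insert ha]
    exact (nr_add _ _).trans (by linarith)

lemma nr_mul {a : ι → ℝ} {B : ℝ} (hB : 0 ≤ B) (h : ∀ i, |a i| ≤ B) (v : ι → ℝ) :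
    nr (a * v) ≤ B * nr v := by
  rw [nr_le_iff (mul_nonneg hB (nr_nonneg v)), mul_pow, nr_sq, dotProduct, dotProduct, mul_sum]
  refine sum_le_sum fun i _ => ?_
  have : a i ^ 2 ≤ B ^ 2 := by simpa using sq_le_sq' (abs_le.1 (h i)).1 (abs_le.1 (h i)).2
  simp only [Pi.mul_apply]
  nlinarith [mul_le_mul_of_nonneg_right this (mul_self_nonneg (v i))]

lemma nr_le_of_abs {a : ι → ℝ} {B : ℝ} (hB : 0 ≤ B) (h : ∀ i, |a i| ≤ B) :
    nr a ≤ B * Real.sqrt (Fintype.card ι) := by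
  have h1 := nr_mul hB h 1
  rw [mul_one] at h1
  refine h1.trans_eq ?_
  rw [nr_eq]; simp [dotProduct]

lemma nr_mulVec {J : Matrix ι ι ℝ} {B : ℝ} (hB : 0 ≤ B)
    (h : ∀ v, (J *ᵥ v) ⬝ᵥ (J *ᵥ v) ≤ B ^ 2 * (v ⬝ᵥ v)) (v : ι → ℝ) : nr (J *ᵥ v) ≤ B * nr v := by
  rw [nr_le_iff (mul_nonneg hB (nr_nonneg v)), mul_pow, nr_sq]; exact h v

section mean
variable {Ω : Type*} [Fintype Ω] {w : Ω → ℝ}

lemma prob_nn (hw : ∀ x, 0 < w x) (x : Ω) : 0 ≤ prob w x :=
  div_nonneg (hw x).le (sum_nonneg fun y _ => (hw y).le)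

lemma prob_sum [Nonempty Ω] (hw : ∀ x, 0 < w x) : ∑ x, prob w x = 1 := by
  simp only [prob, ← sum_div]
  exact div_self (sum_pos (fun y _ => hw y) univ_nonempty).ne'

lemma mean_mono (hw : ∀ x, 0 < w x) {f g : Ω → ℝ} (h : ∀ x, f x ≤ g x) : mean w f ≤ mean w g :=
  sum_le_sum fun x _ => mul_le_mul_of_nonneg_left (h x) (prob_nn hw x)

lemma mean_cst [Nonempty Ω] (hw : ∀ x, 0 < w x) (c : ℝ) : mean w (fun _ => c) = c := by
  simp only [mean, ← sum_mul, prob_sum hw, one_mul]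

lemma mean_add' (f g : Ω → ℝ) : mean w (fun x => f x + g x) = mean w f + mean w g := by
  simp only [mean, mul_add, sum_add_distrib]

lemma mean_cmul (c : ℝ) (f : Ω → ℝ) : mean w (fun x => c * f x) = c * mean w f := by
  simp only [mean, mul_sum, mul_left_comm]

lemma mean_sum' {L : Type*} (s : Finset L) (f : L → Ω → ℝ) :
    mean w (fun x => ∑ l ∈ s, f l x) = ∑ l ∈ s, mean w (f l) := by
  simp only [mean, mul_sum]; exact sum_comm

lemma meanV_eq (v : Ω → ι → ℝ) : meanV w v = ∑ x, prob w x • v x := by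
  ext i; simp [meanV, mean, Finset.sum_apply]

lemma nr_meanV (hw : ∀ x, 0 < w x) (v : Ω → ι → ℝ) :
    nr (meanV w v) ≤ mean w fun x => nr (v x) := by
  rw [meanV_eq]
  refine (nr_sum _ _).trans_eq (sum_congr rfl fun x _ => ?_)
  rw [nr_smul, abs_of_nonneg (prob_nn hw x)]

lemma mean_abs_le [Nonempty Ω] (hw : ∀ x, 0 < w x) {f : Ω → ℝ} {a : ℝ} (ha : 0 < a)
    (h : mean w (fun x => f x ^ 2) ≤ a ^ 2) : mean w (fun x => |f x|) ≤ a := by
  have h1 : mean w (fun x => |f x|) ≤ mean w fun x => a / 2 + (2 * a)⁻¹ * f x ^ 2 :=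
    mean_mono hw fun x => by
      rw [← sq_abs (f x), ← sub_nonneg]
      have : a / 2 + (2 * a)⁻¹ * |f x| ^ 2 - |f x| = (2 * a)⁻¹ * (|f x| - a) ^ 2 := by
        field_simp; ring
      rw [this]; positivity
  rw [mean_add', mean_cst hw, mean_cmul] at h1
  have h2 : (2 * a)⁻¹ * mean w (fun x => f x ^ 2) ≤ (2 * a)⁻¹ * a ^ 2 :=
    mul_le_mul_of_nonneg_left h (by positivity)
  have h3 : (2 * a)⁻¹ * a ^ 2 = a / 2 := by field_simp
  linarith

/-- the constant of the recursion -/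
def cM (N : ℕ) (B : ℝ) : ℝ := 1 + 4 * (B * (N * B + 1) + N * B)

lemma one_le_cM (N : ℕ) {B : ℝ} (hB : 0 ≤ B) : 1 ≤ cM N B := by
  rw [cM]; have : 0 ≤ 4 * (B * (N * B + 1) + N * B) := by positivity
  linarith

/-- **The triangular recursion of (CL).** `dT l`, `dY l` are the divergences of the fields, `A l` the
drift nodes, `Z l = J A l - ∑ ot A - κ l`, `c`, `c'` the collective parts, `ρ` the gauge. -/
theorem core [Nonempty Ω] (hw : ∀ x, 0 < w x) {L : Type*} (ok : L → Prop) (S : L → Finset L)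
    (rk : L → ℕ) {N : ℕ} {B R : ℝ} (hB : 1 ≤ B) (hR : 0 ≤ R) (ρ : Ω → ℝ) (hρ0 : ∀ x, 0 ≤ ρ x)
    (hρ : mean w ρ ≤ R)
    (hS : ∀ l, ok l → ∀ m ∈ S l, ok m ∧ rk m < rk l) (hN : ∀ l, ok l → (S l).card ≤ N)
    (J : Matrix ι ι ℝ) (hJ : ∀ v, nr (J *ᵥ v) ≤ B * nr v)
    (a : L → L → Ω → ι → ℝ) (ot : L → L → ℝ) (dT dY A Z g r c c' : L → Ω → ι → ℝ) (κ : L → ι → ℝ)
    (ha : ∀ l, ok l → ∀ m ∈ S l, ∀ x i, |a l m x i| ≤ B)
    (hot : ∀ l, ok l → ∀ m ∈ S l, |ot l m| ≤ B)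
    (hT : ∀ l, ok l → ∀ x, dT l x = A l x + ∑ m ∈ S l, a l m x * (dY m x - Z m x) + g l x + r l x)
    (hY : ∀ l, ok l → ∀ x, dY l x = J *ᵥ dT l x - ∑ m ∈ S l, ot l m • dT m x)
    (hZ : ∀ l, ok l → ∀ x, Z l x = J *ᵥ A l x - ∑ m ∈ S l, ot l m • A m x - κ l)
    (hc : ∀ l, ok l → ∀ x, c l x = g l x + ∑ m ∈ S l, a l m x * c' m x)
    (hc' : ∀ l, ok l → ∀ x, c' l x = J *ᵥ c l x - ∑ m ∈ S l, ot l m • c m x)
    (h0 : ∀ l, ok l → meanV w (dY l) = 0)
    (hκ : ∀ l, ok l → nr (meanV w (Z l)) ≤ R)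
    (hr : ∀ l, ok l → ∀ x, nr (r l x) ≤ ρ x)
    (hg : ∀ l, ok l → mean w (fun x => nr (g l x)) ≤ R) :
    ∀ l, ok l → (∀ x, nr (dT l x - A l x - c l x) ≤ cM N B ^ (rk l + 1) * (ρ x + R)) ∧
      (∀ x, nr (dY l x - Z l x - c' l x) ≤ cM N B ^ (rk l + 1) * (ρ x + R)) ∧
      mean w (fun x => nr (c l x)) ≤ cM N B ^ (rk l + 1) * R ∧
      mean w (fun x => nr (c' l x)) ≤ cM N B ^ (rk l + 1) * R := by
  have hB0 : 0 ≤ B := by linarith
  have hM := one_le_cM N hB0
  suffices H : ∀ k l, ok l → rk l = k →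
      (∀ x, nr (dT l x - A l x - c l x) ≤ cM N B ^ (rk l + 1) * (ρ x + R)) ∧
      (∀ x, nr (dY l x - Z l x - c' l x) ≤ cM N B ^ (rk l + 1) * (ρ x + R)) ∧
      mean w (fun x => nr (c l x)) ≤ cM N B ^ (rk l + 1) * R ∧
      mean w (fun x => nr (c' l x)) ≤ cM N B ^ (rk l + 1) * R from fun l hl => H _ l hl rfl
  intro k
  induction k using Nat.strong_induction_on with
  | _ k ih =>
  intro l hl hk
  set M := cM N B ^ k with hMk
  have hM1 : 1 ≤ M := one_le_pow₀ hM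
  have hM0 : 0 ≤ M := by linarith
  have hu : ∀ x, 0 ≤ ρ x + R := fun x => add_nonneg (hρ0 x) hR
  have ih' : ∀ m ∈ S l, (∀ x, nr (dT m x - A m x - c m x) ≤ M * (ρ x + R)) ∧
      (∀ x, nr (dY m x - Z m x - c' m x) ≤ M * (ρ x + R)) ∧
      mean w (fun x => nr (c m x)) ≤ M * R ∧ mean w (fun x => nr (c' m x)) ≤ M * R := by
    intro m hm
    obtain ⟨h1, h2⟩ := hS l hl m hm
    obtain ⟨i1, i2, i3, i4⟩ := ih (rk m) (hk ▸ h2) m h1 rfl
    have : cM N B ^ (rk m + 1) ≤ M := pow_le_pow_right₀ hM (by omega)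
    exact ⟨fun x => (i1 x).trans (mul_le_mul_of_nonneg_right this (hu x)),
      fun x => (i2 x).trans (mul_le_mul_of_nonneg_right this (hu x)),
      i3.trans (mul_le_mul_of_nonneg_right this hR), i4.trans (mul_le_mul_of_nonneg_right this hR)⟩
  have hsum : ∀ (f : L → ℝ) (Q : ℝ), 0 ≤ Q → (∀ m ∈ S l, f m ≤ B * Q) →
      ∑ m ∈ S l, f m ≤ N * B * Q := by
    intro f Q hQ0 hf
    have h1 := sum_le_card_nsmul (S l) f _ hf
    rw [nsmul_eq_mul] at h1
    have h2 : ((S l).card : ℝ) ≤ N := by exact_mod_cast hN l hl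
    nlinarith [mul_le_mul_of_nonneg_right h2 (mul_nonneg hB0 hQ0)]
  have hQ : ∀ x, ρ x + R ≤ M * (ρ x + R) := fun x => le_mul_of_one_le_left (hu x) hM1
  have hQ' : R ≤ M * R := le_mul_of_one_le_left hR hM1
  -- the error of `T`
  have e1 : ∀ x, nr (dT l x - A l x - c l x) ≤ (N * B + 1) * (M * (ρ x + R)) := by
    intro x
    have : dT l x - A l x - c l x = ∑ m ∈ S l, a l m x * (dY m x - Z m x - c' m x) + r l x := by
      rw [hT l hl, hc l hl]
      simp only [mul_sub, sum_sub_distrib]; abel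
    rw [this]
    refine (nr_add _ _).trans ?_
    have h1 := (nr_sum (S l) fun m => a l m x * (dY m x - Z m x - c' m x)).trans
      (hsum _ _ ((hu x).trans (hQ x)) fun m hm =>
      (nr_mul hB0 (ha l hl m hm x) _).trans (mul_le_mul_of_nonneg_left ((ih' m hm).2.1 x) hB0))
    linarith [hr l hl x, hQ x]
  have e3 : mean w (fun x => nr (c l x)) ≤ (N * B + 1) * (M * R) := by
    have h1 : mean w (fun x => nr (c l x)) ≤
        mean w fun x => nr (g l x) + ∑ m ∈ S l, B * nr (c' m x) := mean_mono hw fun x => by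
      rw [hc l hl]
      exact (nr_add _ _).trans (add_le_add le_rfl ((nr_sum _ _).trans
        (sum_le_sum fun m hm => nr_mul hB0 (ha l hl m hm x) _)))
    rw [mean_add', mean_sum'] at h1
    have h2 := hsum (fun m => mean w fun x => B * nr (c' m x)) _ (hR.trans hQ') fun m hm => by
      rw [mean_cmul]; exact mul_le_mul_of_nonneg_left (ih' m hm).2.2.2 hB0
    linarith [hg l hl]
  set P := B * (N * B + 1) + N * B with hP
  have hP1 : N * B ≤ P := by
    rw [hP]; have : 0 ≤ B * (N * B + 1) := by positivity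
    linarith
  have hP0 : 0 ≤ P := le_trans (by positivity) hP1
  have e4 : mean w (fun x => nr (c' l x)) ≤ P * (M * R) := by
    have h1 : mean w (fun x => nr (c' l x)) ≤
        mean w fun x => B * nr (c l x) + ∑ m ∈ S l, B * nr (c m x) := mean_mono hw fun x => by
      rw [hc' l hl]
      refine (nr_sub _ _).trans (add_le_add (hJ _) ((nr_sum _ _).trans
        (sum_le_sum fun m hm => ?_)))
      rw [nr_smul]
      exact mul_le_mul_of_nonneg_right (hot l hl m hm) (nr_nonneg _)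
    rw [mean_add', mean_sum', mean_cmul] at h1
    have h2 := hsum (fun m => mean w fun x => B * nr (c m x)) _ (hR.trans hQ') fun m hm => by
      rw [mean_cmul]; exact mul_le_mul_of_nonneg_left (ih' m hm).2.2.1 hB0
    rw [hP]
    nlinarith [mul_le_mul_of_nonneg_left e3 hB0]
  -- the error of `Y` up to the constant
  set e : Ω → ι → ℝ := fun x => J *ᵥ (dT l x - A l x - c l x) -
    ∑ m ∈ S l, ot l m • (dT m x - A m x - c m x) with he
  have e5 : ∀ x, nr (e x) ≤ P * (M * (ρ x + R)) := by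
    intro x
    refine (nr_sub _ _).trans ?_
    have h1 := (nr_sum (S l) fun m => ot l m • (dT m x - A m x - c m x)).trans
      (hsum _ _ ((hu x).trans (hQ x)) fun m hm => by
      rw [nr_smul]
      exact mul_le_mul (hot l hl m hm) ((ih' m hm).1 x) (nr_nonneg _) hB0)
    rw [hP]
    nlinarith [hJ (dT l x - A l x - c l x), mul_le_mul_of_nonneg_left (e1 x) hB0]
  have e6 : ∀ x, dY l x - Z l x - c' l x = κ l + e x := by
    intro x
    rw [hY l hl, hZ l hl, hc' l hl, he]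
    simp only [mulVec_sub, smul_sub, sum_sub_distrib]; abel
  have e7 : nr (κ l) ≤ R + P * (M * R) + 2 * (P * (M * R)) := by
    have h1 : κ l = -(meanV w (Z l) + meanV w (c' l) + meanV w e) := by
      ext i
      have h2 : mean w (fun x => dY l x i) =
          mean w fun x => κ l i + (Z l x i + (c' l x i + e x i)) := by
        congr 1; ext x
        have := congrFun (e6 x) i
        simp only [Pi.sub_apply, Pi.add_apply] at this
        linarith
      have h3 := congrFun (h0 l hl) i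
      rw [mean_add', mean_add', mean_add', mean_cst hw] at h2
      simp only [meanV, Pi.zero_apply, Pi.neg_apply, Pi.add_apply] at h3 ⊢
      linarith
    rw [h1, nr_neg]
    refine (nr_add _ _).trans (add_le_add ((nr_add _ _).trans (add_le_add (hκ l hl)
      ((nr_meanV hw _).trans e4))) ((nr_meanV hw _).trans ?_))
    refine (mean_mono hw e5).trans ?_
    rw [mean_cmul, mean_cmul, mean_add', mean_cst hw]
    have : M * (mean w ρ + R) ≤ 2 * (M * R) := by nlinarith [mul_le_mul_of_nonneg_left hρ hM0]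
    nlinarith [mul_le_mul_of_nonneg_left this hP0]
  have hfin : ∀ u, cM N B ^ (rk l + 1) * u = M * u + 4 * (P * (M * u)) := by
    intro u
    rw [hk, pow_succ, hP, hMk]; simp only [cM]; ring
  have hPu : ∀ u, 0 ≤ u → N * B * (M * u) ≤ P * (M * u) ∧ 0 ≤ P * (M * u) := fun u h =>
    ⟨mul_le_mul_of_nonneg_right hP1 (mul_nonneg hM0 h), mul_nonneg hP0 (mul_nonneg hM0 h)⟩
  refine ⟨fun x => (e1 x).trans ?_, fun x => ?_, e3.trans ?_, e4.trans ?_⟩
  · rw [hfin]; linarith [hPu _ (hu x)]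
  · rw [e6, hfin]
    have : P * (M * R) ≤ P * (M * (ρ x + R)) := mul_le_mul_of_nonneg_left
      (mul_le_mul_of_nonneg_left (by linarith [hρ0 x]) hM0) hP0
    linarith [nr_add (κ l) (e x), e5 x, hQ x, hρ0 x]
  · rw [hfin]; linarith [hPu _ hR]
  · rw [hfin]; linarith [hPu _ hR]

end mean

end Crest.Agent.T157.S3.Cl71
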