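import Crest.Agent.T157.S3ClA_71
import Crest.Agent.T157.S3Fl_82

/-!
# Row 157, part B, block S3 (helper71): closure (CL), the exact identities

`dvM w M x k` is the divergence of the row `k` of the matrix field `M`; `dM u x` is the matrix
`(d_j u_k)`.
-/

set_option autoImplicit false
set_option linter.unusedSectionVars false

noncomputable section

namespace Crest.Agent.T157.S3.Cl71

open Matrix Finset Crest.Agent.T157.E Crest.Agent.T157.S3F
open Crest.Agent.T157.Rec (grad)

variable {n : ℕ} {w : Cube n → ℝ}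

/-- divergence of the rows -/
def dvM (w : Cube n → ℝ) (M : Cube n → Matrix (Fin n) (Fin n) ℝ) (x : Cube n) : Fin n → ℝ :=
  fun k => dv w (fun y j => M y k j) x

/-- Jacobian of a site function -/
def dM (u : Cube n → Fin n → ℝ) (x : Cube n) : Matrix (Fin n) (Fin n) ℝ :=
  of fun k j => grad (fun y => u y k) x j

lemma dvM_eq (M : Cube n → Matrix (Fin n) (Fin n) ℝ) (x : Cube n) :
    dvM w M x = M x *ᵥ (sv x - tm w x) := by
  ext k
  simp only [dvM, dv, mulVec, dotProduct, Pi.sub_apply]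
  exact sum_congr rfl fun j _ => mul_comm _ _

/-- divergence of `Y = J T - ∑ ot T` -/
lemma dvM_Y {L : Type*} (S : Finset L) (J : Matrix (Fin n) (Fin n) ℝ) (ot : L → ℝ)
    (T Y : Cube n → Matrix (Fin n) (Fin n) ℝ) (Tm : L → Cube n → Matrix (Fin n) (Fin n) ℝ)
    (x : Cube n) (h : Y x = J * T x - ∑ m ∈ S, ot m • Tm m x) :
    dvM w Y x = J *ᵥ dvM w T x - ∑ m ∈ S, ot m • dvM w (Tm m) x := by
  simp only [dvM_eq, h, sub_mulVec, mulVec_mulVec, Matrix.sum_mulVec, smul_mulVec]

/-- divergence of `T = diag (bar al) + ∑ bar a Y` -/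
lemma dvM_T {L : Type*} (S : Finset L) (al : Cube n → Fin n → ℝ) (a : L → Cube n → Fin n → ℝ)
    (T : Cube n → Matrix (Fin n) (Fin n) ℝ) (Y : L → Cube n → Matrix (Fin n) (Fin n) ℝ)
    (x : Cube n) (h : ∀ k j, T x k j = (if k = j then bar (fun y => al y k) x k else 0) +
      ∑ m ∈ S, bar (fun y => a m y k) x j * Y m x k j) :
    dvM w T x = (sv x - tm w x) * (al x - sv x * (dM al x).diag) + ∑ m ∈ S, a m x * dvM w (Y m) x -
      ∑ m ∈ S, (dM (a m) x * diagonal (1 - sv x * tm w x) * (Y m x)ᵀ).diag := by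
  ext k
  have h1 : ∀ m, dv w (fun y j => bar (fun y => a m y k) y j * Y m y k j) x = _ :=
    fun m => dv_bar_mul (w := w) (fun y => a m y k) (fun y j => Y m y k j) x
  have h2 : dvM w T x k = (sv x k - tm w x k) * bar (fun y => al y k) x k +
      ∑ m ∈ S, dv w (fun y j => bar (fun y => a m y k) y j * Y m y k j) x := by
    simp only [dvM, dv, h, mul_add, sum_add_distrib, mul_ite, mul_zero, sum_ite_eq, mem_univ,
      if_true, mul_sum]
    rw [sum_comm]
  rw [h2, sum_congr rfl fun m _ => h1 m]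
  simp only [sum_sub_distrib, Pi.sub_apply, Pi.add_apply, Pi.mul_apply, Finset.sum_apply,
    diag_apply, dM, of_apply, dvM, bar, Matrix.mul_apply, diagonal_apply, mul_ite, mul_zero,
    sum_ite_eq', mem_univ, if_true, transpose_apply, Pi.one_apply]
  rw [add_sub_assoc]
  congr 2
  exact sum_congr rfl fun m _ => sum_congr rfl fun j _ => by ring

/-- rows free of the spin -/
def FreeM (M : Cube n → Matrix (Fin n) (Fin n) ℝ) : Prop :=
  ∀ k x j b, M (Function.update x j b) k j = M x k j

lemma meanV_dvM (hw : ∀ x, 0 < w x) {M : Cube n → Matrix (Fin n) (Fin n) ℝ} (h : FreeM M) :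
    meanV w (dvM w M) = 0 := by
  ext k
  exact mean_dv_zero hw (V := fun y j => M y k j) (h k)

lemma freeM_Y {L : Type*} (S : Finset L) (J : Matrix (Fin n) (Fin n) ℝ) (ot : L → ℝ)
    {T Y : Cube n → Matrix (Fin n) (Fin n) ℝ} {Tm : L → Cube n → Matrix (Fin n) (Fin n) ℝ}
    (h : ∀ x, Y x = J * T x - ∑ m ∈ S, ot m • Tm m x) (hT : FreeM T)
    (hm : ∀ m ∈ S, FreeM (Tm m)) : FreeM Y := by
  intro k x j b
  simp only [h, Matrix.sub_apply, Matrix.mul_apply, Matrix.sum_apply, Matrix.smul_apply]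
  congr 1
  · exact sum_congr rfl fun i _ => by rw [hT i x j b]
  · exact sum_congr rfl fun m hm' => by rw [hm m hm' k x j b]

lemma freeM_T {L : Type*} (S : Finset L) (al : Cube n → Fin n → ℝ) (a : L → Cube n → Fin n → ℝ)
    {T : Cube n → Matrix (Fin n) (Fin n) ℝ} {Y : L → Cube n → Matrix (Fin n) (Fin n) ℝ}
    (h : ∀ x k j, T x k j = (if k = j then bar (fun y => al y k) x k else 0) +
      ∑ m ∈ S, bar (fun y => a m y k) x j * Y m x k j) (hY : ∀ m ∈ S, FreeM (Y m)) : FreeM T := by
  intro k x j b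
  simp only [h]
  congr 1
  · split_ifs with hk
    · subst hk; exact bar_update _ x k b
    · rfl
  · exact sum_congr rfl fun m hm => by rw [bar_update, hY m hm k x j b]

end Crest.Agent.T157.S3.Cl71
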