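import Crest.Agent.T157.S3Def_69
import Crest.Agent.T157.S3Hb_80

/-!
# Row 157, block B/S3 (helper80): the scalar classes (`S3.ClsGlue`)
-/

set_option autoImplicit false

noncomputable section

namespace Crest.Agent.T157.S3

open Matrix Filter Finset
open Crest.Agent.T157.E (Cube ising prob)
open Crest.Agent.T157.Rec (grad fl)
open Crest.Agent.T157.Chain22 (IsP mean isP_prob' emean_eq)
open Crest.Agent.T157.Ent (mean_add' mean_sub' mean_const_mul mean_mul_const mean_congr)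
open Crest.Agent.T157.Atd (ATd vp)
open Fam

namespace Cls80

variable {F : Fam} {n : ℕ}

theorem wpos (F : Fam) (i : F.I) (x : Cube (F.n i)) : 0 < F.w i x := Real.exp_pos _

theorem isP (F : Fam) (i : F.I) : IsP (prob (F.w i)) := isP_prob' (wpos F i)

theorem H_nonneg (i : F.I) {ν : Cube (F.n i) → ℝ} (hν : IsP ν) : 0 ≤ F.H i ν :=
  Hb.kl0 (wpos F i) hν

theorem H_self (i : F.I) : F.H i (prob (F.w i)) = 0 := by
  simp only [Fam.H, Ent.kl]
  exact Finset.sum_eq_zero fun x _ => by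
    rw [div_self (Chain22.prob_pos' (wpos F i) x).ne', Real.log_one, mul_zero]

theorem E_eq (f : F.Sf) (i : F.I) : F.E f i = mean (prob (F.w i)) fun x => f ⟨i, x⟩ := rfl

theorem TS.nonneg {A : ℝ} {G : Cube n → ℝ} (h : TS A G) : 0 ≤ A :=
  (sum_nonneg fun _ _ => sq_nonneg _).trans (h default)

theorem TS.mono {A A' : ℝ} {G : Cube n → ℝ} (h : TS A G) (hA : A ≤ A') : TS A' G :=
  fun x => (h x).trans hA

theorem TS.of_lip {A : ℝ} {G G' : Cube n → ℝ} (h : TS A G)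
    (hG : ∀ x y, |G' x - G' y| ≤ |G x - G y|) : TS A G' :=
  fun x => (sum_le_sum fun _ _ => sq_le_sq.2 (hG _ _)).trans (h x)

theorem TS.abs {A : ℝ} {G : Cube n → ℝ} (h : TS A G) : TS A fun x => |G x| :=
  TS.of_lip h fun _ _ => abs_abs_sub_abs_le_abs_sub _ _

theorem TS.vp {A : ℝ} {G : Cube n → ℝ} (h : TS A G) (x : Cube n) : vp G x ≤ A :=
  (sum_le_sum fun _ _ => Hb.max_sq_le le_rfl).trans (h x)

theorem TS.eq (G : Cube n → ℝ) (x : Cube n) :
    ∑ j, (G x - G (fl x j)) ^ 2 = 4 * (grad G x ⬝ᵥ grad G x) := by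
  simp only [Hb.sq_fl, dotProduct, mul_sum]

theorem TS.grad {A : ℝ} {G : Cube n → ℝ} (h : TS A G) (x : Cube n) :
    grad G x ⬝ᵥ grad G x ≤ A / 4 := by
  have := h x
  rw [TS.eq] at this
  linarith

theorem TS.of_grad {A : ℝ} {G : Cube n → ℝ} (h : ∀ x, Rec.grad G x ⬝ᵥ Rec.grad G x ≤ A) :
    TS (4 * A) G := fun x => by rw [TS.eq]; linarith [h x]

theorem TS.mul {A A' B B' : ℝ} {G G' : Cube n → ℝ} (h : TS A G) (h' : TS A' G')
    (hB : ∀ x, |G x| ≤ B) (hB' : ∀ x, |G' x| ≤ B') :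
    TS (2 * B ^ 2 * A' + 2 * B' ^ 2 * A) fun x => G x * G' x := fun x => by
  have h1 : ∀ y, (G x * G' x - G y * G' y) ^ 2 ≤
      2 * B ^ 2 * (G' x - G' y) ^ 2 + 2 * B' ^ 2 * (G x - G y) ^ 2 := fun y => by
    have a := mul_le_mul_of_nonneg_right (sq_le_sq' (abs_le.1 (hB x)).1 (abs_le.1 (hB x)).2)
      (sq_nonneg (G' x - G' y))
    have b := mul_le_mul_of_nonneg_right (sq_le_sq' (abs_le.1 (hB' y)).1 (abs_le.1 (hB' y)).2)
      (sq_nonneg (G x - G y))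
    nlinarith [sq_nonneg (G x * (G' x - G' y) - G' y * (G x - G y))]
  refine (sum_le_sum fun j _ => h1 (fl x j)).trans ?_
  rw [sum_add_distrib, ← mul_sum, ← mul_sum]
  exact add_le_add (mul_le_mul_of_nonneg_left (h' x) (by positivity))
    (mul_le_mul_of_nonneg_left (h x) (by positivity))

theorem Sb.nn {s : F.Sf} (h : Sb s) : ∃ C : ℝ, 0 ≤ C ∧ ∀ i, (∀ x, |s ⟨i, x⟩| ≤ C) ∧
    TS (C / F.n i) fun x => s ⟨i, x⟩ := by
  obtain ⟨C, hC⟩ := h
  exact ⟨|C|, abs_nonneg _, fun i => ⟨fun x => ((hC i).1 x).trans (le_abs_self _),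
    TS.mono (hC i).2 (div_le_div_of_nonneg_right (le_abs_self _) (Nat.cast_nonneg _))⟩⟩

theorem Sb.mul {s t : F.Sf} (hs : Sb s) (ht : Sb t) : Sb fun ω => s ω * t ω := by
  obtain ⟨A, A0, hA⟩ := Sb.nn hs
  obtain ⟨B, B0, hB⟩ := Sb.nn ht
  refine ⟨A * B + (2 * A ^ 2 * B + 2 * B ^ 2 * A), fun i => ⟨fun x => ?_,
    TS.mono (TS.mul (hA i).2 (hB i).2 (hA i).1 (hB i).1) ?_⟩⟩
  · rw [abs_mul]
    exact (mul_le_mul ((hA i).1 x) ((hB i).1 x) (abs_nonneg _) A0).trans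
      (le_add_of_nonneg_right (by positivity))
  · rw [← mul_div_assoc, ← mul_div_assoc, ← add_div]
    exact div_le_div_of_nonneg_right (le_add_of_nonneg_left (by positivity)) (Nat.cast_nonneg _)

theorem Sb.cen {s : F.Sf} (hs : Sb s) : Th fun ω => s ω - F.E s ω.1 := by
  obtain ⟨A, A0, hA⟩ := Sb.nn hs
  refine ⟨⟨2 * A, fun i => ⟨fun x => ?_, TS.mono (TS.of_lip (hA i).2 fun x y => ?_) ?_⟩⟩,
    0, fun i => ?_⟩
  · have h1 : |F.E s i| ≤ A := (isP F i).abs_mean_le (hA i).1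
    exact (abs_sub _ _).trans (by linarith [(hA i).1 x])
  · rw [sub_sub_sub_cancel_right]
  · exact div_le_div_of_nonneg_right (by linarith) (Nat.cast_nonneg _)
  · rw [E_eq, mean_sub']
    dsimp only
    rw [(isP F i).mean_const, ← E_eq, sub_self, abs_zero, zero_div]

theorem one_le_n (hF : F.Ok) (i : F.I) : (1 : ℝ) ≤ F.n i := by exact_mod_cast hF.pos i

/-- Poincaré inequality in the class `Sb` -/
theorem Sb.var (hH : HBStmt) (hF : F.Ok) {s : F.Sf} (hs : Sb s) : ∃ C : ℝ, 0 ≤ C ∧ ∀ i,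
    mean (prob (F.w i)) (fun x => (s ⟨i, x⟩ - F.E s i) ^ 2) ≤ C / F.n i := by
  obtain ⟨K0, κ0, hκ, hAT⟩ := hF.hAT
  obtain ⟨C, c, hc, h⟩ := hH K0 κ0 0 hκ
  obtain ⟨A, A0, hA⟩ := Sb.nn hs
  refine ⟨2 * |C| * A, by positivity, fun i => ?_⟩
  refine (((h _ _ (wpos F i) (hAT i)).2.1 _ _ (hA i).2).1).trans ?_
  have a0 : 0 ≤ A / F.n i := by positivity
  have h1 : E.mean (F.w i) (fun x => grad (fun x => s ⟨i, x⟩) x ⬝ᵥ grad (fun x => s ⟨i, x⟩) x) ≤
      A / F.n i := by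
    rw [emean_eq, ← (isP F i).mean_const (A / F.n i)]
    exact (isP F i).mean_mono fun x => (TS.grad (hA i).2 x).trans (by linarith)
  have h2 : 0 ≤ E.mean (F.w i)
      (fun x => grad (fun x => s ⟨i, x⟩) x ⬝ᵥ grad (fun x => s ⟨i, x⟩) x) :=
    (isP F i).mean_nonneg fun x => Hb.dsn _
  have h3 : Real.exp (-(c * F.n i)) ≤ 1 := Real.exp_le_one_iff.2 (neg_nonpos.2 (by positivity))
  have h4 := mul_le_mul (le_abs_self C) h1 h2 (abs_nonneg C)
  have h5 := mul_le_mul (mul_le_mul_of_nonneg_right (le_abs_self C) a0) h3 (Real.exp_pos _).le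
    (by positivity)
  rw [mul_div_assoc]
  linarith

theorem Th.mul (hH : HBStmt) (hF : F.Ok) {s t : F.Sf} (hs : Sb s) (ht : Th t) :
    Th fun ω => s ω * t ω := by
  obtain ⟨A, A0, hA⟩ := Sb.nn hs
  obtain ⟨B, hB⟩ := ht.2
  obtain ⟨V, V0, hV⟩ := Sb.var hH hF hs
  obtain ⟨V', V0', hV'⟩ := Sb.var hH hF ht.1
  refine ⟨Sb.mul hs ht.1, A * B + (V + V'), fun i => ?_⟩
  have hp := isP F i
  have n1 := one_le_n hF i
  have e : F.E (fun ω => s ω * t ω) i = F.E s i * F.E t i +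
      mean (prob (F.w i)) fun x => (s ⟨i, x⟩ - F.E s i) * (t ⟨i, x⟩ - F.E t i) := by
    have : ∀ x, (s ⟨i, x⟩ - F.E s i) * (t ⟨i, x⟩ - F.E t i) = s ⟨i, x⟩ * t ⟨i, x⟩ -
      F.E t i * s ⟨i, x⟩ - F.E s i * t ⟨i, x⟩ + F.E s i * F.E t i := fun x => by ring
    simp only [this, mean_add', mean_sub', mean_const_mul, hp.mean_const, ← E_eq]
    rw [E_eq (fun ω => s ω * t ω)]
    ring
  have h1 : |mean (prob (F.w i)) fun x => (s ⟨i, x⟩ - F.E s i) * (t ⟨i, x⟩ - F.E t i)| ≤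
      V / F.n i + V' / F.n i := by
    refine abs_le.2 ⟨?_, ?_⟩
    · have := hp.mean_mono (f := fun x => -1 * ((s ⟨i, x⟩ - F.E s i) ^ 2 + (t ⟨i, x⟩ - F.E t i) ^ 2))
        (g := fun x => (s ⟨i, x⟩ - F.E s i) * (t ⟨i, x⟩ - F.E t i)) fun x => by
          nlinarith [sq_nonneg ((s ⟨i, x⟩ - F.E s i) + (t ⟨i, x⟩ - F.E t i)),
            sq_nonneg (s ⟨i, x⟩ - F.E s i), sq_nonneg (t ⟨i, x⟩ - F.E t i)]
      rw [mean_const_mul, mean_add'] at this
      linarith [hV i, hV' i]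
    · have := hp.mean_mono (g := fun x => (s ⟨i, x⟩ - F.E s i) ^ 2 + (t ⟨i, x⟩ - F.E t i) ^ 2)
        (f := fun x => (s ⟨i, x⟩ - F.E s i) * (t ⟨i, x⟩ - F.E t i)) fun x => by
          nlinarith [sq_nonneg ((s ⟨i, x⟩ - F.E s i) - (t ⟨i, x⟩ - F.E t i)),
            sq_nonneg (s ⟨i, x⟩ - F.E s i), sq_nonneg (t ⟨i, x⟩ - F.E t i)]
      rw [mean_add'] at this
      linarith [hV i, hV' i]
  have h2 : |F.E s i * F.E t i| ≤ A * (B / √(F.n i)) := by
    rw [abs_mul]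
    exact mul_le_mul (hp.abs_mean_le (hA i).1) (hB i) (abs_nonneg _) A0
  have h3 : √(F.n i : ℝ) ≤ F.n i := Real.sqrt_le_iff.2 ⟨by linarith, by nlinarith⟩
  have h4 : (V + V') / F.n i ≤ (V + V') / √(F.n i) :=
    div_le_div_of_nonneg_left (by positivity) (by positivity) h3
  rw [e, add_div, mul_div_assoc]
  rw [add_div] at h4
  exact (abs_add_le _ _).trans (by linarith)

theorem Th.sq (hH : HBStmt) (hF : F.Ok) {s : F.Sf} (hs : Th s) : ∃ C : ℝ, 0 ≤ C ∧ ∀ i ν, IsP ν →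
    mean ν (fun x => s ⟨i, x⟩ ^ 2) ≤ C * (F.H i ν + 1) / F.n i := by
  obtain ⟨K0, κ0, hκ, hAT⟩ := hF.hAT
  obtain ⟨C, c, hc, h⟩ := hH K0 κ0 0 hκ
  obtain ⟨A, A0, hA⟩ := Sb.nn hs.1
  obtain ⟨B, hB⟩ := hs.2
  obtain ⟨V, V0, hV⟩ := Sb.var hH hF hs.1
  refine ⟨4 * (V + B ^ 2) + |C| * A, by positivity, fun i ν hν => ?_⟩
  have hp := isP F i
  have n1 := one_le_n hF i
  have h1 := (h _ _ (wpos F i) (hAT i)).1 _ _ (fun x => abs_nonneg _)
    (TS.vp (TS.abs (hA i).2)) ν hν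
  simp only [sq_abs] at h1
  have H0 := H_nonneg i hν
  have h2 : E.mean (F.w i) (fun x => |s ⟨i, x⟩|) ^ 2 ≤ 2 * (V / F.n i + B ^ 2 / F.n i) := by
    refine (hp.mean_sq_le _).trans ?_
    have := hp.mean_mono (f := fun x => |s ⟨i, x⟩| * |s ⟨i, x⟩|)
      (g := fun x => 2 * (s ⟨i, x⟩ - F.E s i) ^ 2 + 2 * F.E s i ^ 2) fun x => by
        rw [abs_mul_abs_self]; nlinarith [sq_nonneg (s ⟨i, x⟩ - 2 * F.E s i)]
    rw [mean_add', mean_const_mul, hp.mean_const] at this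
    have h3 : F.E s i ^ 2 ≤ B ^ 2 / F.n i := by
      rw [← sq_abs, ← Real.sq_sqrt (Nat.cast_nonneg (F.n i) : (0 : ℝ) ≤ _), ← div_pow]
      exact pow_le_pow_left₀ (abs_nonneg _) (hB i) 2
    rw [Chain22.ip_eq_mean]
    linarith [hV i]
  have h4 : C * (A / F.n i) * (F.H i ν + 1) ≤ |C| * (A / F.n i) * (F.H i ν + 1) := by
    gcongr; exact le_abs_self C
  have h5 : 0 ≤ 4 * (V / F.n i + B ^ 2 / F.n i) * F.H i ν := by positivity
  have e : (4 * (V + B ^ 2) + |C| * A) * (F.H i ν + 1) / F.n i = 4 * (V / F.n i + B ^ 2 / F.n i) *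
    F.H i ν + 4 * (V / F.n i + B ^ 2 / F.n i) + |C| * (A / F.n i) * (F.H i ν + 1) := by ring
  rw [e]
  have h6 : Ent.kl ν (prob (F.w i)) = F.H i ν := rfl
  rw [h6] at h1
  linarith

theorem list_sq (hH : HBStmt) (hF : F.Ok) (L : List F.Sf) (hL : ∀ θ ∈ L, Th θ) :
    ∃ C : ℝ, 0 ≤ C ∧ ∀ i ν, IsP ν →
      mean ν (fun x => (L.map fun θ => θ ⟨i, x⟩ ^ 2).sum) ≤ C * (F.H i ν + 1) / F.n i := by
  induction L with
  | nil => exact ⟨0, le_rfl, fun i ν hν => by simp [hν.mean_const]⟩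
  | cons a L ih =>
    obtain ⟨C, C0, hC⟩ := ih fun θ h => hL θ (List.mem_cons_of_mem _ h)
    obtain ⟨C', C0', hC'⟩ := Th.sq hH hF (hL a List.mem_cons_self)
    refine ⟨C' + C, by positivity, fun i ν hν => ?_⟩
    simp only [List.map_cons, List.sum_cons, mean_add', add_mul C', add_div]
    exact add_le_add (hC' i ν hν) (hC i ν hν)

theorem list_nn (L : List F.Sf) (ω : F.Ω) : 0 ≤ (L.map fun θ => θ ω ^ 2).sum :=
  List.sum_nonneg fun a ha => by
    obtain ⟨θ, -, rfl⟩ := List.mem_map.1 ha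
    positivity

theorem list_four (L : List F.Sf) (ω : F.Ω) :
    (L.map fun θ => θ ω ^ 4).sum ≤ (L.map fun θ => θ ω ^ 2).sum ^ 2 := by
  induction L with
  | nil => simp
  | cons a L ih =>
    simp only [List.map_cons, List.sum_cons]
    nlinarith [mul_nonneg (sq_nonneg (a ω)) (list_nn L ω)]

theorem list_bd (L : List F.Sf) (hL : ∀ θ ∈ L, Th θ) :
    ∃ B : ℝ, 0 ≤ B ∧ ∀ ω, (L.map fun θ => θ ω ^ 2).sum ≤ B := by
  induction L with
  | nil => exact ⟨0, le_rfl, fun ω => by simp⟩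
  | cons a L ih =>
    obtain ⟨B, B0, hB⟩ := ih fun θ h => hL θ (List.mem_cons_of_mem _ h)
    obtain ⟨A, A0, hA⟩ := Sb.nn (hL a List.mem_cons_self).1
    refine ⟨A ^ 2 + B, by positivity, fun ω => ?_⟩
    simp only [List.map_cons, List.sum_cons]
    have := abs_le.1 ((hA ω.1).1 ω.2)
    exact add_le_add (sq_le_sq' this.1 this.2) (hB ω)

theorem Sq.mean (hH : HBStmt) (hF : F.Ok) {f : F.Sf} (hf : Sq f) : ∃ C : ℝ, 0 ≤ C ∧
    ∀ i ν, IsP ν → mean ν (fun x => f ⟨i, x⟩) ≤ C * (F.K i + F.H i ν) := by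
  obtain ⟨C, L, C0, hL, h⟩ := hf
  obtain ⟨B, B0, hB⟩ := list_sq hH hF L hL
  refine ⟨C * (1 + B), by positivity, fun i ν hν => (hν.mean_mono fun x => h ⟨i, x⟩).trans ?_⟩
  have n1 := one_le_n hF i
  have h1 := hB i ν hν
  have H0 := H_nonneg i hν
  have K1 := hF.K1 i
  rw [le_div_iff₀ (by positivity)] at h1
  dsimp only
  rw [mean_const_mul, mean_add', mean_const_mul, hν.mean_const, mul_assoc]
  refine mul_le_mul_of_nonneg_left ?_ C0
  nlinarith [mul_le_mul_of_nonneg_left K1 B0]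

end Cls80

open Cls80

theorem clsGlue : ClsGlue := fun hH F hF => by
  refine ⟨fun s hs => Sb.cen hs, fun s t hs ht => Th.mul hH hF hs ht,
    fun s hs => (Th.sq hH hF hs).imp fun _ h => h.2, fun f hf => (Sq.mean hH hF hf).imp fun _ h => h.2,
    fun N R f hf => ?_⟩
  obtain ⟨C, L, C0, hL, h⟩ := hf
  obtain ⟨B, B0, hB⟩ := list_bd L hL
  obtain ⟨A, A0, hA⟩ := list_sq hH hF L hL
  have h' : ∀ ω : F.Ω, f ω ≤ C * (F.K ω.1 + F.n ω.1 * (L.map fun θ => θ ω ^ 2).sum ^ 2) :=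
    fun ω => (h ω).trans (mul_le_mul_of_nonneg_left (add_le_add le_rfl
      (mul_le_mul_of_nonneg_left (list_four L ω) (Nat.cast_nonneg _))) C0)
  refine ⟨⟨C * (1 + B), L, by positivity, hL, fun ω => (h' ω).trans ?_⟩, √C * (1 + A),
    fun i ν hν => ?_⟩
  · rw [mul_assoc]
    refine mul_le_mul_of_nonneg_left ?_ C0
    have K1 := hF.K1 ω.1
    have h1 := list_nn L ω
    have h2 : 0 ≤ (F.n ω.1 : ℝ) * (L.map fun θ => θ ω ^ 2).sum := by positivity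
    nlinarith [mul_le_mul_of_nonneg_left (hB ω) h2, mul_nonneg B0 (zero_le_one.trans K1)]
  · have n1 := one_le_n hF i
    have K1 := hF.K1 i
    have H0 := H_nonneg i hν
    have s1 : 1 ≤ √(F.n i : ℝ) := Real.one_le_sqrt.2 n1
    have k1 : 1 ≤ √(F.K i) := Real.one_le_sqrt.2 K1
    have h1 : ∀ x, √(f ⟨i, x⟩) ≤
        √C * (√(F.K i) + √(F.n i) * (L.map fun θ => θ ⟨i, x⟩ ^ 2).sum) := fun x => by
      have l0 := list_nn L ⟨i, x⟩
      refine Real.sqrt_le_iff.2 ⟨by positivity, (h' ⟨i, x⟩).trans ?_⟩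
      rw [mul_pow, Real.sq_sqrt C0]
      refine mul_le_mul_of_nonneg_left ?_ C0
      have e1 := Real.sq_sqrt (zero_le_one.trans K1)
      have e2 := Real.sq_sqrt (zero_le_one.trans n1)
      have : 0 ≤ √(F.K i) * (√(F.n i) * (L.map fun θ => θ ⟨i, x⟩ ^ 2).sum) := by positivity
      rw [add_sq, mul_pow, e1, e2]
      linarith
    refine (hν.mean_mono h1).trans ?_
    rw [mean_const_mul, mean_add', mean_const_mul, hν.mean_const, mul_assoc]
    refine mul_le_mul_of_nonneg_left ?_ (Real.sqrt_nonneg _)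
    have h2 := mul_le_mul_of_nonneg_left (hA i ν hν) (Real.sqrt_nonneg (F.n i))
    have e : √(F.n i : ℝ) * (A * (F.H i ν + 1) / F.n i) =
        A * (F.H i ν / √(F.n i)) + A * (1 / √(F.n i)) := by
      conv_lhs => rw [← Real.mul_self_sqrt (zero_le_one.trans n1), Real.sqrt_mul_self (by linarith)]
      field_simp
    have h3 : 1 / √(F.n i : ℝ) ≤ √(F.K i) := (div_le_one (by linarith)).2 s1 |>.trans k1
    have h4 : 0 ≤ F.H i ν / √(F.n i) := by positivity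
    rw [e] at h2
    nlinarith [mul_le_mul_of_nonneg_left h3 A0]

end Crest.Agent.T157.S3

end
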