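import Crest.Agent.T157.S3Def_69

/-!
# Row 157, part B, block S3 (helper98): existence of the recursions and duality
-/

set_option autoImplicit false
set_option maxHeartbeats 400000

noncomputable section

namespace Crest.Agent.T157.S3

open Matrix Filter Finset
open Crest.Agent.T157.E (Cube sv ising mean meanV prob)
open Crest.Agent.T157.Uw (eta)

namespace Ex98

/-- triangular systems have solutions -/
theorem tri_ex {N α : Type*} [Inhabited α] {r : N → N → Prop} (wf : WellFounded r)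
    (G : N → (N → α) → α) (hG : ∀ l u v, (∀ m, r m l → u m = v m) → G l u = G l v) :
    ∃ u : N → α, ∀ l, u l = G l u := by
  classical
  refine ⟨wf.fix fun l ih => G l fun m => if h : r m l then ih m h else default, fun l => ?_⟩
  rw [WellFounded.fix_eq]
  exact hG _ _ _ fun m h => dif_pos h

variable {n P : ℕ}

theorem sum_lt {M : Type*} [AddCommMonoid M] {l : Fin P} {f g : Fin P → M}
    (h : ∀ m, m < l → f m = g m) (h' : ∀ m, l ≤ m → f m = g m) : ∑ m, f m = ∑ m, g m :=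
  sum_congr rfl fun m _ => (lt_or_ge m l).elim (h m) (h' m)

/-- two-step recursion `T l = A l Y`, `Y l = B l (T l) T` -/
theorem two_ex {N α β : Type*} [Inhabited α] [Inhabited β] {r : N → N → Prop} (wf : WellFounded r)
    (A : N → (N → β) → α) (B : N → α → (N → α) → β)
    (hA : ∀ l u v, (∀ m, r m l → u m = v m) → A l u = A l v)
    (hB : ∀ l t u v, (∀ m, r m l → u m = v m) → B l t u = B l t v) :
    ∃ (T : N → α) (Y : N → β), ∀ l, T l = A l Y ∧ Y l = B l (T l) T := by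
  obtain ⟨u, hu⟩ := tri_ex (α := α × β) wf
    (fun l u => (A l fun m => (u m).2, B l (A l fun m => (u m).2) fun m => (u m).1))
    fun l u v h => by
      rw [hA l _ (fun m => (v m).2) fun m hm => by rw [h m hm],
        hB l _ _ (fun m => (v m).1) fun m hm => by rw [h m hm]]
  refine ⟨fun m => (u m).1, fun m => (u m).2, fun l => ?_⟩
  have h1 : (u l).1 = A l fun m => (u m).2 := congrArg Prod.fst (hu l)
  exact ⟨h1, (congrArg Prod.snd (hu l)).trans (by rw [← h1])⟩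

variable (J : Mx n) {a : Fin P → Fin P → V n} {ot : Fin P → Fin P → ℝ}

theorem recM_ex (ha : ∀ l m, l ≤ m → a l m = 0) (ho : ∀ l m, l ≤ m → ot l m = 0)
    (S : Fin P → Mx n) : ∃ T Y, RecM J a ot S T Y :=
  two_ex wellFounded_lt (fun l Y => S l + ∑ m, diagonal (a l m) * Y m)
    (fun l t T => J * t - ∑ m, ot l m • T m)
    (fun l u v h => congrArg _ (sum_lt (fun m hm => by rw [h m hm]) fun m hm => by simp [ha l m hm]))
    fun l t u v h => congrArg _ (sum_lt (fun m hm => by rw [h m hm]) fun m hm => by simp [ho l m hm])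

theorem recV_ex (ha : ∀ l m, l ≤ m → a l m = 0) (ho : ∀ l m, l ≤ m → ot l m = 0)
    (g : Fin P → V n) : ∃ c c', RecV J a ot g c c' :=
  two_ex wellFounded_lt (fun l Y => g l + ∑ m, a l m * Y m)
    (fun l t T => J *ᵥ t - ∑ m, ot l m • T m)
    (fun l u v h => congrArg _ (sum_lt (fun m hm => by rw [h m hm]) fun m hm => by simp [ha l m hm]))
    fun l t u v h => congrArg _ (sum_lt (fun m hm => by rw [h m hm]) fun m hm => by simp [ho l m hm])

theorem back_ex (ha : ∀ l m, l ≤ m → a l m = 0) (ho : ∀ l m, l ≤ m → ot l m = 0)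
    (z : Fin P → V n) : ∃ u v, Back J a ot z u v :=
  two_ex wellFounded_gt (fun l Y => z l + ∑ p, a p l * Y p)
    (fun l t T => J *ᵥ t - ∑ p, ot p l • T p)
    (fun l u v h => congrArg _ (sum_congr rfl fun m _ => (lt_or_ge l m).elim
      (fun hm => by rw [h m hm]) fun hm => by simp [ha m l hm]))
    fun l t u v h => congrArg _ (sum_congr rfl fun m _ => (lt_or_ge l m).elim
      (fun hm => by rw [h m hm]) fun hm => by simp [ho m l hm])

theorem pd_eq_zero {N : ℕ} {l m : Fin N} {g : LF n N} (h : Dep l g) (hm : l ≤ m) : pd m g = 0 := by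
  funext k s ξ
  by_cases hd : DifferentiableAt ℝ (g k s) ξ
  · have h1 := hd.hasFDerivAt.hasLineDerivAt (Pi.single m 1)
    have e : (fun t : ℝ => g k s (ξ + t • Pi.single m 1)) = fun _ => g k s ξ := funext fun t =>
      h k s _ _ fun q hq => by simp [Pi.single_eq_of_ne (hq.trans_le hm).ne]
    rw [HasLineDerivAt, e] at h1
    exact h1.unique (hasDerivAt_const _ _)
  · simp [pd, fderiv_zero_of_not_differentiableAt hd]

theorem gs_gs {N : ℕ} (g : LF n N) : gs (gs g) = 0 := by funext k s ξ; simp [gs]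

end Ex98

open Ex98

theorem dualStmt : DualStmt := by
  intro n P J a ot z u v hJ hb
  have hz : ∀ l, z l = u l - ∑ p, a p l * v p := fun l => by rw [(hb l).1, add_sub_cancel_right]
  constructor
  · intro S T Y h
    have h1 : ∑ l, (Y l)ᵀ *ᵥ u l = ∑ l, (T l)ᵀ *ᵥ v l := by
      simp only [fun l => (h l).2, fun l => (hb l).2, transpose_sub, transpose_mul, hJ,
        transpose_sum, transpose_smul, sub_mulVec, mulVec_sub, sum_sub_distrib, mulVec_mulVec,
        sum_mulVec, mulVec_sum, smul_mulVec, mulVec_smul]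
      rw [sum_comm]
    have h2 : ∑ l, (T l)ᵀ *ᵥ v l = ∑ l, (S l)ᵀ *ᵥ v l + ∑ l, ∑ p, (Y l)ᵀ *ᵥ (a p l * v p) := by
      rw [sum_comm, ← sum_add_distrib]
      refine sum_congr rfl fun l _ => ?_
      rw [(h l).1, transpose_add, add_mulVec, transpose_sum, sum_mulVec]
      refine congrArg _ (sum_congr rfl fun m _ => ?_)
      rw [transpose_mul, diagonal_transpose, ← mulVec_mulVec]
      congr 1; funext i; simp [mulVec_diagonal]
    simp only [hz, mulVec_sub, sum_sub_distrib, mulVec_sum]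
    rw [h1, h2, add_sub_cancel_right]
  · intro g c c' h
    have hs : ∀ x y : V n, x ⬝ᵥ J *ᵥ y = (J *ᵥ x) ⬝ᵥ y := fun x y => by
      rw [dotProduct_mulVec, ← mulVec_transpose, hJ]
    have h1 : ∑ l, u l ⬝ᵥ c' l = ∑ l, v l ⬝ᵥ c l := by
      simp only [fun l => (h l).2, fun l => (hb l).2, dotProduct_sub, sub_dotProduct,
        sum_sub_distrib, dotProduct_sum, sum_dotProduct, dotProduct_smul, smul_dotProduct, hs]
      rw [sum_comm]
    have h2 : ∑ l, v l ⬝ᵥ c l = ∑ l, v l ⬝ᵥ g l + ∑ l, ∑ p, (a p l * v p) ⬝ᵥ c' l := by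
      rw [sum_comm, ← sum_add_distrib]
      refine sum_congr rfl fun l _ => ?_
      rw [(h l).1, dotProduct_add, dotProduct_sum]
      refine congrArg _ (sum_congr rfl fun m _ => sum_congr rfl fun i _ => ?_)
      simp only [Pi.mul_apply]; ring
    simp only [hz, sub_dotProduct, sum_sub_distrib, sum_dotProduct]
    rw [h1, h2, add_sub_cancel_right]

namespace Ex98

variable {F : Fam} {N P P' : ℕ} {R : Net F N}

theorem ev_zero (ω : F.Ω) : R.ev 0 ω = 0 := rfl

theorem me_zero (i : F.I) : F.me (R.ev 0) i = 0 := by simp [Fam.me, Fam.E, ev_zero, eta, mean]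

theorem bm_zero (ω : F.Ω) : F.bm (R.ev 0) ω = 0 := by
  ext k j; simp [Fam.bm, S3F.barM, S3F.bar, ev_zero, Rec.grad, SL.incr]

theorem ot_zero {Φ : Flow R P} (h : ∀ l m, l ≤ m → Φ.a l m = 0) (i : F.I) (l m : Fin P)
    (hm : l ≤ m) : Φ.ot i l m = 0 := by rw [Flow.ot, h l m hm, me_zero]

theorem av_zero {Φ : Flow R P} (h : ∀ l m, l ≤ m → Φ.a l m = 0) (ω : F.Ω)
    (l m : Fin P) (hm : l ≤ m) : Φ.av ω l m = 0 := by rw [Flow.av, h l m hm, ev_zero]

theorem flow_ex (al : Fin P → F.Lf (N + 1)) (a : Fin P → Fin P → F.Lf (N + 1))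
    (ha : ∀ l m, l ≤ m → a l m = 0) : ∃ Φ : Flow R P, Φ.al = al ∧ Φ.a = a ∧
    (∀ l ω, Φ.Y l ω = F.J ω.1 * Φ.T l ω - ∑ m, Φ.ot ω.1 l m • Φ.T m ω) ∧
    ∀ l ω, Φ.Yb l ω = F.J ω.1 * Φ.Tb l ω - ∑ m, Φ.ot ω.1 l m • Φ.Tb m ω := by
  have hB : ∀ (l : Fin P) (t : F.Mf) (u v : Fin P → F.Mf), (∀ m, m < l → u m = v m) →
      (fun ω : F.Ω => F.J ω.1 * t ω - ∑ m, F.me (R.ev (a l m)) ω.1 • u m ω) =
        fun ω : F.Ω => F.J ω.1 * t ω - ∑ m, F.me (R.ev (a l m)) ω.1 • v m ω := fun l t u v h => by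
    funext ω
    exact congrArg _ (sum_lt (fun m hm => by rw [h m hm]) fun m hm => by simp [ha l m hm, me_zero])
  obtain ⟨T, Y, h⟩ := two_ex (α := F.Mf) (β := F.Mf) wellFounded_lt
    (fun l Y ω => R.dg (al l) ω + ∑ m, R.dg (a l m) ω * Y m ω) _ (fun l u v h => by
      funext ω
      exact congrArg _ (sum_lt (fun m hm => by rw [h m hm]) fun m hm => by
        simp [ha l m hm, Net.dg, ev_zero])) hB
  obtain ⟨Tb, Yb, hb⟩ := two_ex (α := F.Mf) (β := F.Mf) wellFounded_lt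
    (fun l Y ω => diagonal (F.bm (R.ev (al l)) ω).diag +
      ∑ m, F.bm (R.ev (a l m)) ω ⊙ Y m ω) _ (fun l u v h => by
      funext ω
      exact congrArg _ (sum_lt (fun m hm => by rw [h m hm]) fun m hm => by
        simp [ha l m hm, bm_zero])) hB
  refine ⟨⟨al, a, Y, Yb⟩, rfl, rfl, fun l ω => ?_, fun l ω => ?_⟩
  · have e : T = Flow.T ⟨al, a, Y, Yb⟩ := funext fun l => (h l).1
    rw [← e]; exact congrFun (h l).2 ω
  · have e : Tb = Flow.Tb ⟨al, a, Y, Yb⟩ := funext fun l => (hb l).1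
    rw [← e]; exact congrFun (hb l).2 ω

theorem pb_ex (Φ : Flow R P) (Φ' : Flow R P') (d : F.Lf (N + 1)) (ha : ∀ l m, l ≤ m → Φ.a l m = 0) :
    ∃ Pb, Φ.IsP Φ' d Pb := by
  obtain ⟨u, hu⟩ := tri_ex (α := Fin P' → F.I → ℝ) wellFounded_lt
    (fun l u m i => F.me (R.ev (Φ.al l * d * Φ'.al m)) i +
      ∑ p, ∑ q, F.me (R.ev (Φ.a l p * Φ'.a m q)) i * u p q i) fun l u v h => by
    funext m i
    exact congrArg _ (sum_lt (fun p hp => by rw [h p hp]) fun p hp => by simp [ha l p hp, me_zero])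
  exact ⟨u, fun l m i => congrFun (congrFun (hu l) m) i⟩

/-- existence of the drift fields -/
theorem drift_ex (Φ : Flow R P) (ha : ∀ l m, l ≤ m → Φ.a l m = 0)
    (Pb : Fin P → Fin (N + 1) → F.I → ℝ) :
    ∃ Z : Fin P → F.Vf, ∀ l ω, Z l ω = Φ.U Pb Z l ω - F.EV (Φ.U Pb Z l) ω.1 := by
  have hA : ∀ (l : Fin P) (u v : Fin P → F.Vf), (∀ m, m < l → u m = v m) →
      Φ.tA Pb u (Φ.al l) (Φ.a l) = Φ.tA Pb v (Φ.al l) (Φ.a l) := fun l u v h => by
    funext ω
    unfold Flow.tA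
    rw [sum_lt (l := l) (g := fun m => R.ev (Φ.a l m) ω * v m ω) (fun m hm => by rw [h m hm])
      fun m hm => by simp [ha l m hm, ev_zero]]
  obtain ⟨u, hu⟩ := tri_ex (α := F.Vf) wellFounded_lt
    (fun l Z ω => Φ.U Pb Z l ω - F.EV (Φ.U Pb Z l) ω.1) fun l u v h => by
    have : Φ.U Pb u l = Φ.U Pb v l := by
      funext ω
      unfold Flow.U
      rw [hA l u v h, sum_lt (l := l) (g := fun m => Φ.ot ω.1 l m • Φ.tA Pb v (Φ.al m) (Φ.a m) ω)
        (fun m hm => by rw [hA m u v fun q hq => h q (hq.trans hm)])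
        fun m hm => by simp [ot_zero ha ω.1 l m hm]]
    rw [this]
  exact ⟨u, fun l ω => congrFun (hu l) ω⟩

end Ex98

theorem exStmt : ExStmt := by
  intro F N P R
  have h1 : ∀ (P : ℕ) (al : Fin P → F.Lf (N + 1)) (a : Fin P → Fin P → F.Lf (N + 1)),
      (∀ l, al l ∈ R.C ∧ R.gs (al l) = 0 ∧ ∀ m, a l m ∈ R.C) → (∀ l m, l ≤ m → a l m = 0) →
      ∃ Φ : Flow R P, Φ.Ok ∧ Φ.al = al ∧ Φ.a = a := fun P al a h ha => by
    obtain ⟨Φ, rfl, rfl, h3, h4⟩ := flow_ex (R := R) al a ha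
    exact ⟨Φ, ⟨h, ha, h3, h4⟩, rfl, rfl⟩
  refine ⟨h1 P, fun hR => ?_, fun P' Φ Φ' d h => pb_ex Φ Φ' d h.tri, fun Φ h ω =>
    ⟨back_ex _ (av_zero h.tri ω) (ot_zero h.tri ω.1),
      recV_ex _ (av_zero h.tri ω) (ot_zero h.tri ω.1)⟩⟩
  obtain ⟨Γ, h, e1, e2⟩ := h1 _ (fun l => R.gs (R.f l)) (fun l m => R.pd m (R.f l))
    (fun l => ⟨hR.gs _ (hR.fC l), funext fun i => gs_gs _, hR.pd _ (hR.fC l)⟩)
    fun l m hm => funext fun i => pd_eq_zero (hR.dep l i) hm
  exact ⟨Γ, h, congrFun e1, fun l => congrFun (congrFun e2 l)⟩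

/-- a flow family of a network has gradient family, pairing constants and drift fields -/
theorem drift_all {F : Fam} {N P : ℕ} {R : Net F N} (hR : R.Ok) {Φ : Flow R P} (h : Φ.Ok) :
    ∃ Γ Pb Z, Φ.IsDrift Γ Pb Z := by
  obtain ⟨Γ, hΓ⟩ := (exStmt F N P R).2.1 hR
  obtain ⟨Pb, hP⟩ := pb_ex Φ Γ R.Dt h.tri
  obtain ⟨Z, hZ⟩ := drift_ex Φ h.tri Pb
  exact ⟨Γ, Pb, Z, hΓ, hP, hZ⟩

end Crest.Agent.T157.S3

end
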