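import Crest.Agent.T157.S3RB_52

/-! S3, realisation (helper52): filling, extensions, local law for forced letters. -/

set_option autoImplicit false
set_option linter.unusedVariables false

noncomputable section

namespace Crest.Agent.T157.S3R

open MeasureTheory Matrix Set Function Sta
open Crest.Agent.T157.S3 (Fam)
open Crest.Agent.T157.S3P (PF Prog Sm bF)
open Crest.Agent.T157.Nt (Fj Fn Ix BS dx gs sp co cb res th rf Ev Net BsStmt)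

variable {F : Fam} {ν : Measure ℝ} {n n' : ℕ} {σ : Sta F ν} {e : Ix n → Ix σ.m} {D T : Set (Ix n)}
  {N : Net n} {X : Ix n → F.Vf} {G : Ix n → JL F n} {π : Ix n → Ix n → F.I → ℝ} {H : JL F n}
  {ε : ℝ}

/-- the local law for all programs with their models -/
def LP (F : Fam) (ν : Measure ℝ) : Prop := ∀ (σ : Sta F ν) (φ : PF σ.m), Sm φ →
  Fam.Neg (F := F) fun i => F.EV (σ.e φ) i - fun k => σ.Eb φ (bi F i k)

lemma Sta.pg (σ : Sta F ν) : S3I.Pg σ.P.f σ.P.g σ.P.g' σ.sg where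
  bl l := ⟨bl_of_sm (σ.ok.sf l), bl_of_sm (σ.ok.sg l), bl_of_sm (σ.ok.sg' l)⟩
  dep l b := ⟨σ.ok.rf l b, σ.ok.rg l b, σ.ok.rg' l b⟩
  par l := ⟨fun b s ξ => (σ.par.f l b s ξ).trans (neg_one_mul _).symm, σ.par.g l,
    fun b s ξ => (σ.par.g' l b s ξ).trans (one_mul _).symm⟩
  sgn l := (σ.par.pm l).imp (fun h => ⟨h, σ.par.ev l h⟩) fun h => ⟨h, σ.par.od l h⟩

lemma Bs.ll (h : Bs N σ e D X) (hL : LP F ν) (hT : T ⊆ D) (hH : σ.Fa e T ε H) :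
    Fam.Neg (F := F) fun i => F.EV (S3R.ev X H) i - fun k => N.E (md H) (bi F i k) := by
  obtain ⟨σ', j, hl, -, φ, hφ, -, hc⟩ := hH.av
  simpa only [(h.le hl).ev hT hc, (h.le hl).eb hT hφ hc] using hL σ' φ hφ

lemma Bs.cont (h : Bs N σ e D X) (hT : T ⊆ D) (hH : σ.Fa e T ε H) :
    Continuous (N.E (md H)) ∧ ∃ B, ∀ b, |N.E (md H) b| ≤ B := by
  obtain ⟨σ', j, hl, -, φ, hφ, -, hc⟩ := hH.av
  obtain ⟨B, -, hB⟩ := hφ.bd
  rw [← funext ((h.le hl).eb hT hφ hc)]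
  exact ⟨σ'.mod.Eb_cont σ'.pg (bl_of_sm hφ), B, S3I.abs_Eb_le _ _ _ hB⟩

lemma Sta.Fa.res {e' : Ix n' → Ix σ.m} {ι : Ix n → Ix n'} (h : σ.Fa e T ε H)
    (he : ∀ u, e' (ι u) = e u) : σ.Fa e' univ ε (res ι H) := fun σ' j hl =>
  let ⟨σ'', j', h1, h2, φ, h3, h4, h5⟩ := h σ' j hl
  ⟨σ'', j', h1, h2, φ, h3, h4, fun θ s η ξ a b => h5 θ s η (ξ ∘ ι) a fun u _ => by
    simpa only [Function.comp_apply, he] using b (ι u) trivial⟩

variable [IsProbabilityMeasure ν]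

theorem rp_fill (hS : StepStmt) (hN : N.Ok F.β ν) (h : Rp N σ e D X G π) :
    ∃ (σ' : Sta F ν) (j : Ix σ.m → Ix σ'.m) (e' : Ix n → Ix σ'.m), ∃ X' G' π',
      Rp N σ' e' univ X' G' π' ∧ σ.Le σ' j ∧ ∀ u ∈ D, e' u = j (e u) := by
  induction hk : Dᶜ.ncard using Nat.strong_induction_on generalizing σ D X G π with
  | _ k ih =>
  rcases Dᶜ.eq_empty_or_nonempty with h0 | h0
  · obtain rfl := compl_empty_iff.1 h0
    exact ⟨σ, id, e, X, G, π, h, .refl _, fun _ _ => rfl⟩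
  · obtain ⟨w, hw, hm⟩ := wellFounded_lt.has_min _ h0
    obtain ⟨σ1, j1, e1, X1, G1, π1, h1, l1, k1⟩ :=
      hS F ν n N σ e D X G π hN h w hw fun v hv => by_contra fun h2 => hm v h2 hv
    obtain ⟨σ2, j2, e2, X2, G2, π2, h2, l2, k2⟩ := ih _ (hk ▸ ncard_lt_ncard
      ⟨compl_subset_compl.2 (subset_insert w D), fun h3 => h3 hw (mem_insert w D)⟩) h1 rfl
    exact ⟨σ2, j2 ∘ j1, e2, X2, G2, π2, h2, l1.trans l2, fun u hu => by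
      rw [k2 u (mem_insert_of_mem w hu), k1 u hu]; rfl⟩

theorem rp_univ (hB : BaseStmt) (hS : StepStmt) (hN : N.Ok F.β ν) :
    ∃ (σ : Sta F ν) (e : Ix n → Ix σ.m), ∃ X G π, Rp N σ e univ X G π :=
  let ⟨_, _, _, _, _, h⟩ := hB F ν n N hN
  let ⟨σ, _, e, X, G, π, h, _⟩ := rp_fill hS hN h
  ⟨σ, e, X, G, π, h⟩

theorem rp_ext (hT : TrStmt) (hS : StepStmt) (hN : N.Ok F.β ν) (h : Rp N σ e univ X G π)
    {N' : Net n'} {ι : Ix n → Ix n'} (hN' : N'.Ok F.β ν) (hE : N.Ext N' ι) :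
    ∃ (σ' : Sta F ν) (e' : Ix n' → Ix σ'.m), ∃ X' G' π', Rp N' σ' e' univ X' G' π' ∧
      ∀ g φ, Ag σ e g φ → ∃ g', Ag σ' e' g' (res ι φ) ∧
        (net σ' e' X' G').ev g' = (net σ e X G).ev g := by
  obtain ⟨e1, X1, G1, π1, h1, k1⟩ := hT F ν n N σ e univ X G π hN h rfl n' N' ι hE
  obtain ⟨σ', j, e', X', G', π', h2, hl, k2⟩ := rp_fill hS hN' h1
  have he : ∀ u, e' (ι u) = (j ∘ e) u := fun u => by rw [k2 _ ⟨u, rfl⟩, k1]; rfl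
  refine ⟨σ', e', X', G', π', h2, ?_⟩
  rintro _ _ ⟨H, hH, rfl, rfl⟩
  refine ⟨_, ⟨res ι H, (hH.le hl).res he, rfl, rfl⟩, funext fun ω => funext fun k => ?_⟩
  change H _ _ (fun u => X' (ι u) ω k) = H _ _ fun u => X u ω k
  simp only [h2.bs.X _ trivial, he, (h.bs.le hl).X _ trivial]

omit [IsProbabilityMeasure ν]

namespace Ag
variable {g g' : F.Lf (n + 1)} {φ φ' : Fn (Ix n)}

lemma mem (h : Ag σ e g φ) : g ∈ (net σ e X G).C := let ⟨H, h1, h2, _⟩ := h; ⟨H, h1, h2⟩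
lemma of_mem (h : g ∈ (net σ e X G).C) : ∃ φ, Ag σ e g φ :=
  let ⟨H, h1, h2⟩ := h; ⟨_, H, h1, h2, rfl⟩
lemma fl (hB : BsStmt) (h : Bs N σ e univ X) (hφ : BS φ) : Ag σ e (S3P.fl F φ) φ :=
  ⟨lift F φ, h.fa_lift hB le_rfl hφ (fun _ _ _ _ a => by rw [funext fun u => a u trivial])
    (Or.inl rfl), rfl, rfl⟩
lemma add (h : Ag σ e g φ) (h' : Ag σ e g' φ') : Ag σ e (g + g') (φ + φ') := by
  obtain ⟨H, h1, rfl, rfl⟩ := h
  obtain ⟨H', h2, rfl, rfl⟩ := h'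
  exact ⟨H + H', h1.add h2, rfl, rfl⟩
lemma smul (c : ℝ) (h : Ag σ e g φ) : Ag σ e (c • g) (c • φ) := by
  obtain ⟨H, h1, rfl, rfl⟩ := h
  exact ⟨c • H, h1.smul c, rfl, rfl⟩
lemma mul (h : Ag σ e g φ) (h' : Ag σ e g' φ') : Ag σ e (g * g') (φ * φ') := by
  obtain ⟨H, h1, rfl, rfl⟩ := h
  obtain ⟨H', h2, rfl, rfl⟩ := h'
  exact ⟨H * H', h1.mul' h2 (mul_zero 0), rfl, rfl⟩
lemma pd (hb : Bs N σ e univ X) (u : Ix n) (h : Ag σ e g φ) :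
    Ag σ e ((net σ e X G).pd u g) (dx u φ) := by
  obtain ⟨H, h1, rfl, rfl⟩ := h
  exact ⟨dx u H, (hb.fa_dx le_rfl h1 u).weak, rfl, rfl⟩
lemma gs (h : Ag σ e g φ) : Ag σ e ((net σ e X G).gs g) (Nt.gs φ) := by
  obtain ⟨H, h1, rfl, rfl⟩ := h
  exact ⟨Nt.gs H, h1.gs.weak, rfl, rfl⟩
lemma f (h : Rp N σ e univ X G π) (u : Ix n) : Ag σ e ((net σ e X G).f u) (N.f u) :=
  ⟨G u, (Av.fa ⟨_, σ.ok.sf _, σ.pr_f _, (h.ct u trivial).mono (subset_univ _)⟩).weak, rfl,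
    (h.md u trivial).symm⟩
lemma ll (hb : Bs N σ e univ X) (hL : LP F ν) (h : Ag σ e g φ) : Fam.Neg (F := F) fun i =>
    F.EV ((net σ e X G).ev g) i - fun k => N.E φ (bi F i k) := by
  obtain ⟨H, h1, rfl, rfl⟩ := h
  exact hb.ll hL le_rfl h1
lemma cont (hb : Bs N σ e univ X) (h : Ag σ e g φ) :
    Continuous (N.E φ) ∧ ∃ B, ∀ b, |N.E φ b| ≤ B := by
  obtain ⟨H, h1, rfl, rfl⟩ := h
  exact hb.cont le_rfl h1

end Ag

end Crest.Agent.T157.S3R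

end
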