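import Crest.Agent.T157.S3Clt_58
import Crest.Agent.T157.S3IB_52

/-! S3 (ID), part C: identification of the canonical constants, network-free form (helper52). -/

set_option autoImplicit false
set_option linter.unusedSectionVars false

noncomputable section

namespace Crest.Agent.T157.S3I

open MeasureTheory ProbabilityTheory Matrix Filter Topology Finset
open Crest.ProbabilityR.SpinGlassDynamics
open Crest.Agent.T157.E hiding hb
open Crest.Agent.T157.S3L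
open Crest.Agent.T157.Conc (en ELip)

section model
variable {L κ κ' : Type} [Fintype L] [Fintype κ] [Fintype κ']

lemma mdl_pr' (A : Matrix L κ ℝ) (o : L) (b : ℝ) {B : Set L} (ho : o ∈ B ∨ B = ∅)
    {ψ : Bool → (L → ℝ) → ℝ} (h : Reads B ψ) : mdl (pr B A) o b ψ = mdl A o b ψ := by
  rcases ho with ho | rfl
  · exact mdl_pr A o b ho h
  · unfold mdl gm
    refine sum_congr rfl fun σ _ => ?_
    congr 1
    exact integral_congr_ae (ae_of_all _ fun z => h σ _ _ fun l hl => absurd hl (by simp))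

/-- only the values on the support of the model matter -/
lemma mdl_congr_rows (A : Matrix L κ ℝ) (o : L) (b : ℝ) {ψ ψ' : Bool → (L → ℝ) → ℝ}
    (h : ∀ σ x, (∀ j, (A * Aᵀ) j j = 0 → x j = 0) → ψ σ x = ψ' σ x) :
    mdl A o b ψ = mdl A o b ψ' := by
  unfold mdl gm
  refine sum_congr rfl fun σ _ => ?_
  congr 1
  refine integral_congr_ae (ae_of_all _ fun z => h σ _ fun j hj => ?_)
  have h0 : ∀ k, A j k = 0 := fun k => by
    simp only [Matrix.mul_apply, transpose_apply] at hj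
    exact mul_self_eq_zero.1 ((sum_eq_zero_iff_of_nonneg fun k _ => mul_self_nonneg (A j k)).1 hj k
      (mem_univ _))
  simp [Matrix.mul_apply, mulVec, dotProduct, h0]

/-- the model value depends on the block of the Gram matrix only -/
lemma mdl_block (A : Matrix L κ ℝ) (A' : Matrix L κ' ℝ) (o : L) (b : ℝ) {B : Set L}
    (ho : o ∈ B ∨ B = ∅) (hS : ∀ l ∈ B, ∀ m ∈ B, (A * Aᵀ) l m = (A' * A'ᵀ) l m) {Λ : ℝ}
    {ψ : Bool → (L → ℝ) → ℝ} (hΛ : 0 < Λ) (h : ∀ σ, ELip Λ (ψ σ)) (h0 : ∀ σ, |ψ σ 0| ≤ Λ)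
    (hr : Reads B ψ) : mdl A o b ψ = mdl A' o b ψ := by
  classical
  obtain ⟨K, hK⟩ := (mdlStmt L o).2 (f2 (pr B A))
  have h1 := hK κ κ' (pr B A) (pr B A') b b 0 _ (tst_div hΛ h h0) le_rfl zero_le_one (by
    refine (sum_eq_zero fun l _ => sum_eq_zero fun m _ => ?_).le
    rw [pr_gram, pr_gram]
    split_ifs with hlm
    · rw [hS l hlm.1 m hlm.2, sub_self, abs_zero]
    · simp)
  rw [mdl_const_mul, mdl_const_mul, mdl_pr' _ _ _ ho hr, mdl_pr' _ _ _ ho hr, ← mul_sub] at h1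
  simp only [sub_self, abs_zero, Real.sqrt_zero, add_zero, mul_zero, abs_nonpos_iff,
    mul_eq_zero, inv_eq_zero, hΛ.ne', false_or] at h1
  linarith

/-- functions of the static field, the spin and the nodes -/
abbrev PF (L : Type) : Type := ℝ → Bool → (L → ℝ) → ℝ

/-- Lipschitz in the field and in the nodes -/
def Lip (Λ : ℝ) (φ : PF L) : Prop :=
  ∀ b b' s ξ ξ', |φ b s ξ - φ b' s ξ'| ≤ Λ * (|b - b'| + en (ξ - ξ'))
/-- bounded and Lipschitz -/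
def BL (φ : PF L) : Prop := ∃ Λ > (0 : ℝ), (∀ b s ξ, |φ b s ξ| ≤ Λ) ∧ Lip Λ φ
/-- parity `ε` under the gauge flip with the signs `sg` -/
def Par (sg : L → ℝ) (ε : ℝ) (φ : PF L) : Prop :=
  ∀ b s ξ, φ (-b) (!s) (fun m => sg m * ξ m) = ε * φ b s ξ

lemma Lip.elip {Λ : ℝ} {φ : PF L} (h : Lip Λ φ) (b : ℝ) (s : Bool) : ELip Λ (φ b s) :=
  fun x y => by simpa using h b b s x y

lemma elip_shift {Λ : ℝ} {u : (L → ℝ) → ℝ} (h : ELip Λ u) (c : L → ℝ) :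
    ELip Λ fun x => u (x + c) := fun x y => by simpa using h (x + c) (y + c)

lemma BL.mul {φ ψ : PF L} (h : BL φ) (h' : BL ψ) : BL (φ * ψ) := by
  obtain ⟨Λ, h0, hb, hl⟩ := h
  obtain ⟨Λ', h0', hb', hl'⟩ := h'
  refine ⟨2 * (Λ * Λ'), by positivity, fun b s ξ => ?_, fun b b' s ξ ξ' => ?_⟩
  · have := mul_le_mul (hb b s ξ) (hb' b s ξ) (abs_nonneg _) h0.le
    simp only [Pi.mul_apply, abs_mul]
    nlinarith [mul_pos h0 h0']
  · simp only [Pi.mul_apply]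
    have h1 := abs_add_le ((φ b s ξ - φ b' s ξ') * ψ b s ξ) (φ b' s ξ' * (ψ b s ξ - ψ b' s ξ'))
    rw [show (φ b s ξ - φ b' s ξ') * ψ b s ξ + φ b' s ξ' * (ψ b s ξ - ψ b' s ξ') =
      φ b s ξ * ψ b s ξ - φ b' s ξ' * ψ b' s ξ' by ring, abs_mul, abs_mul] at h1
    have h2 := mul_le_mul (hl b b' s ξ ξ') (hb' b s ξ) (abs_nonneg _)
      ((abs_nonneg _).trans (hl b b' s ξ ξ'))
    have h3 := mul_le_mul (hb b' s ξ') (hl' b b' s ξ ξ') (abs_nonneg _) h0.le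
    linarith

lemma Par.mul {sg : L → ℝ} {ε ε' : ℝ} {φ ψ : PF L} (h : Par sg ε φ) (h' : Par sg ε' ψ) :
    Par sg (ε * ε') (φ * ψ) := fun b s ξ => by
  simp only [Pi.mul_apply, h b s ξ, h' b s ξ]; ring

lemma Reads.mono {B B' : Set L} {ψ : Bool → (L → ℝ) → ℝ} (h : Reads B ψ) (hB : B ⊆ B') :
    Reads B' ψ := fun σ x y hxy => h σ x y fun l hl => hxy l (hB hl)

lemma reads_univ (ψ : Bool → (L → ℝ) → ℝ) : Reads Set.univ ψ := fun σ x y hxy => by
  rw [show x = y from funext fun l => hxy l trivial]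

lemma Reads.mul {B : Set L} {ψ ψ' : Bool → (L → ℝ) → ℝ} (h : Reads B ψ) (h' : Reads B ψ') :
    Reads B (ψ * ψ') := fun σ x y hxy => by
  simp only [Pi.mul_apply, h σ x y hxy, h' σ x y hxy]

lemma Reads.shift {B : Set L} {ψ : Bool → (L → ℝ) → ℝ} (h : Reads B ψ) (c : L → ℝ) :
    Reads B fun σ x => ψ σ (x + c) := fun σ x y hxy =>
  h σ _ _ fun l hl => by simp only [Pi.add_apply, hxy l hl]

/-- Lipschitz bound that sees the coordinates in `T` only -/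
lemma Reads.le {T : Finset L} {Λ : ℝ} (hΛ : 0 ≤ Λ) {ψ : Bool → (L → ℝ) → ℝ}
    (h : Reads (T : Set L) ψ) (hl : ∀ σ, ELip Λ (ψ σ)) (σ : Bool) (x y : L → ℝ) :
    |ψ σ x - ψ σ y| ≤ Λ * ∑ j ∈ T, |x j - y j| := by
  classical
  rw [h σ y (fun j => if j ∈ T then y j else x j) fun l hl => by simp [mem_coe.1 hl]]
  refine (hl σ _ _).trans (mul_le_mul_of_nonneg_left ((Conc.en_le_sum _).trans_eq ?_) hΛ)
  rw [← sum_filter_add_sum_filter_not univ (· ∈ T), filter_mem_eq_inter, univ_inter,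
    sum_eq_zero (s := filter _ _) fun j hj => by simp [(mem_filter.1 hj).2], add_zero]
  exact sum_congr rfl fun j hj => by simp [hj]

variable (M : Matrix L κ ℝ) (o : L) (cM : ℝ → L → ℝ)

/-- the model expectation at the static field `b` -/
def Eb (φ : PF L) (b : ℝ) : ℝ := mdl M o b fun s ξ => φ b s (ξ + cM b)

lemma abs_Eb_le {φ : PF L} {Λ : ℝ} (h : ∀ b s ξ, |φ b s ξ| ≤ Λ) (b : ℝ) : |Eb M o cM φ b| ≤ Λ :=
  abs_mdl_le M o b fun _ _ => h _ _ _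

lemma Eb_zero : Eb M o cM 0 = 0 := funext fun b => mdl_const M o b 0

lemma Eb_lip {T : Finset L} {φ : PF L} {Λ : ℝ} (hΛ : 0 < Λ) (hl : Lip Λ φ)
    (h0 : ∀ b s, |φ b s (cM b)| ≤ Λ) (hr : ∀ b, Reads (T : Set L) (φ b))
    (hc : ∀ j ∈ T, ∃ c, ∀ b b', |cM b j - cM b' j| ≤ c * |b - b'|) :
    ∃ c, ∀ b b', |Eb M o cM φ b - Eb M o cM φ b'| ≤ c * |b - b'| := by
  obtain ⟨K, -, hK⟩ := mdl_lip_b M o mdlStmt
  choose! c hc using hc
  refine ⟨Λ + Λ * ∑ j ∈ T, c j + Λ * K, fun b b0 => ?_⟩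
  have h1 := abs_mdl_sub_le M o b (ψ := fun s ξ => φ b s (ξ + cM b))
    (ψ' := fun s ξ => φ b0 s (ξ + cM b0)) (B := Λ * |b - b0| + Λ * ∑ j ∈ T, |cM b j - cM b0 j|)
    (fun s => elip_shift (hl.elip b s) _) (fun s => elip_shift (hl.elip b0 s) _) fun s ξ => by
      have a1 := hl b b0 s (ξ + cM b) (ξ + cM b)
      have a2 := (hr b0).le hΛ.le (hl.elip b0) s (ξ + cM b) (ξ + cM b0)
      simp only [sub_self, Conc.en_zero, add_zero, Pi.add_apply, add_sub_add_left_eq_sub] at a1 a2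
      linarith [abs_sub_le (φ b s (ξ + cM b)) (φ b0 s (ξ + cM b)) (φ b0 s (ξ + cM b0))]
  have h2 := hK Λ b b0 (fun s ξ => φ b0 s (ξ + cM b0)) hΛ (fun s => elip_shift (hl.elip b0 s) _)
    fun s => by simpa using h0 b0 s
  have h3 := abs_sub_le (Eb M o cM φ b) (mdl M o b fun s ξ => φ b0 s (ξ + cM b0)) (Eb M o cM φ b0)
  have h4 : ∑ j ∈ T, |cM b j - cM b0 j| ≤ (∑ j ∈ T, c j) * |b - b0| := by
    rw [sum_mul]; exact sum_le_sum fun j hj => hc j hj b b0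
  have h5 := mul_le_mul_of_nonneg_left h4 hΛ.le
  unfold Eb at h3 ⊢
  nlinarith

lemma Eb_par {B : Set L} {sg : L → ℝ} {ε : ℝ} {φ : PF L} (hp : Par sg ε φ)
    (hr : ∀ b, Reads B (φ b)) (hs : ∀ j ∈ B, sg j = -1 ∨ sg j = 1 ∧ (M * Mᵀ) j j = 0)
    (hc : ∀ j ∈ B, ∀ b, cM (-b) j = sg j * cM b j) (b : ℝ) :
    Eb M o cM φ (-b) = ε * Eb M o cM φ b := by
  unfold Eb
  rw [mdl_neg, ← mdl_const_mul]
  refine mdl_congr_rows M o b fun σ x hx => ?_
  rw [← hp b σ]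
  refine hr _ _ _ _ fun j hj => ?_
  simp only [Pi.add_apply, Pi.neg_apply, hc j hj]
  rcases hs j hj with h | ⟨h, h0⟩
  · rw [h]; ring
  · rw [h, hx j h0]; ring

lemma cont_of_lip {u : ℝ → ℝ} (h : ∃ c, ∀ b b', |u b - u b'| ≤ c * |b - b'|) : Continuous u := by
  obtain ⟨c, h⟩ := h
  exact (LipschitzWith.of_dist_le' (K := c) fun b b' => h b b').continuous

end model

section inst
variable {I : Type*} {F : Filter I} {n : I → ℕ} {K : I → ℝ}
variable {L κ κ' : Type} [Fintype L] [Fintype κ] [Fintype κ']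
variable {w : ∀ a, Cube (n a) → ℝ} {X : ∀ a, Cube (n a) → Fin (n a) → L → ℝ}
  {b : ∀ a, Fin (n a) → ℝ} {o : L}

theorem LLd.model' {A : I → Matrix L κ ℝ} {B : Set L}
    (h : LLd F n K w X b o A B) (ho : o ∈ B ∨ B = ∅) (M : Matrix L κ' ℝ)
    (hS : ∀ l ∈ B, ∀ m ∈ B, Tendsto (fun a => (A a * (A a)ᵀ) l m) F (𝓝 ((M * Mᵀ) l m))) :
    LLd F n K w X b o (fun _ => M) B := by
  rcases ho with ho | rfl
  · exact h.model mdlStmt ho M hS
  · obtain ⟨D, hD, h⟩ := h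
    refine ⟨D, hD, h.mono fun a ha i ψ h1 h2 => ?_⟩
    rw [mdl_block M (A a) o _ (Or.inr rfl) (by simp) one_pos (fun σ => (h1 σ).1)
      (fun σ => (h1 σ).2) h2]
    exact ha i ψ h1 h2

/-- replace the static shifts by identified ones -/
theorem LLd.shift {A : I → Matrix L κ ℝ} {T : Finset L} {c q : ∀ a, Fin (n a) → L → ℝ}
    (h : LLd F n K w (fun a x k => X a x k - c a k) b o A T) (hw : ∀ᶠ a in F, SL.Wt (w a))
    (hT : ∀ j ∈ T, Ng F n K fun a k => c a k j - q a k j) :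
    ∃ D : ∀ a, Fin (n a) → ℝ, Ng F n K D ∧ ∀ᶠ a in F, ∀ k (Λ : ℝ) (ψ : Bool → (L → ℝ) → ℝ),
      0 < Λ → (∀ s, ELip Λ (ψ s)) → (∀ s, |ψ s (q a k)| ≤ Λ) → Reads (T : Set L) ψ →
      |mean (w a) (fun x => ψ (x k) (X a x k)) -
        mdl (A a) o (b a k) fun s ξ => ψ s (ξ + q a k)| ≤ Λ * D a k := by
  obtain ⟨D, hD, h⟩ := h
  refine ⟨fun a k => D a k + ∑ j ∈ T, |c a k j - q a k j|,
    hD.add (Ng.sum T fun j hj => (hT j hj).abs), ?_⟩
  filter_upwards [h, hw] with a ha hwa k Λ ψ hΛ hl h0 hr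
  have h1 := ha k _ (tst_div (ψ := fun s ξ => ψ s (ξ + q a k)) hΛ (fun s => elip_shift (hl s) _)
    (fun s => by simpa using h0 s)) (fun σ x y hxy => congrArg (Λ⁻¹ * ·) (hr.shift _ σ x y hxy))
  rw [mdl_const_mul, SL.mean_const_mul, ← mul_sub, abs_mul, abs_of_pos (inv_pos.2 hΛ),
    inv_mul_le_iff₀ hΛ] at h1
  have h2 : |mean (w a) (fun x => ψ (x k) (X a x k)) -
      mean (w a) (fun x => ψ (x k) (X a x k - c a k + q a k))| ≤
        Λ * ∑ j ∈ T, |c a k j - q a k j| := by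
    rw [← SL.mean_sub]
    refine abs_mean_le hwa fun x => (hr.le hΛ.le hl _ _ _).trans_eq ?_
    congr 1
    exact sum_congr rfl fun j _ => by simp only [Pi.add_apply, Pi.sub_apply]; congr 1; ring
  have h3 := abs_sub_le (mean (w a) fun x => ψ (x k) (X a x k))
    (mean (w a) fun x => ψ (x k) (X a x k - c a k + q a k))
    (mdl (A a) o (b a k) fun s ξ => ψ s (ξ + q a k))
  rw [mul_add]
  linarith

/-- the empirical law of the static fields converges to `ν` on even functions -/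
def Emp (F : Filter I) (n : I → ℕ) (b : ∀ a, Fin (n a) → ℝ) (ν : (ℝ → ℝ) → ℝ) : Prop :=
  ∀ ψ : ℝ → ℝ, Continuous ψ → (∀ x, ψ (-x) = ψ x) → (∃ B, ∀ x, |ψ x| ≤ B) →
    Tendsto (fun a => (∑ k, ψ (b a k)) / n a) F (𝓝 (ν ψ))

/-- **the local law with the model constants**, for functions reading the nodes in `B` -/
def LLm (F : Filter I) (n : I → ℕ) (K : I → ℝ) (w : ∀ a, Cube (n a) → ℝ)
    (X : ∀ a, Cube (n a) → Fin (n a) → L → ℝ) (b : ∀ a, Fin (n a) → ℝ) (o : L)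
    (M : Matrix L κ ℝ) (cM : ℝ → L → ℝ) (B : Set L) : Prop :=
  ∃ D : ∀ a, Fin (n a) → ℝ, Ng F n K D ∧ ∀ᶠ a in F, ∀ k (Λ : ℝ) (ψ : Bool → (L → ℝ) → ℝ),
    0 < Λ → (∀ s, ELip Λ (ψ s)) → (∀ s, |ψ s (cM (b a k))| ≤ Λ) → Reads B ψ →
    |mean (w a) (fun x => ψ (x k) (X a x k)) -
      mdl M o (b a k) fun s ξ => ψ s (ξ + cM (b a k))| ≤ Λ * D a k

variable {M : Matrix L κ ℝ} {cM : ℝ → L → ℝ} {B : Set L}

theorem LLm.site (h : LLm F n K w X b o M cM B) {φ : PF L} {Λ : ℝ} (hΛ : 0 < Λ) (hl : Lip Λ φ)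
    (h0 : ∀ b s, |φ b s (cM b)| ≤ Λ) (hr : ∀ b, Reads B (φ b)) :
    Ng F n K fun a k => mean (w a) (fun x => φ (b a k) (x k) (X a x k)) - Eb M o cM φ (b a k) := by
  obtain ⟨D, hD, h⟩ := h
  exact hD.of_le_mul Λ (h.mono fun a ha k => (ha k Λ (φ (b a k)) hΛ (hl.elip _) (h0 _) (hr _)).trans
    (mul_le_mul_of_nonneg_left (le_abs_self _) hΛ.le))

theorem LLm.bl (h : LLm F n K w X b o M cM B) {φ : PF L} (hφ : BL φ) (hr : ∀ b, Reads B (φ b)) :
    Ng F n K fun a k => mean (w a) (fun x => φ (b a k) (x k) (X a x k)) - Eb M o cM φ (b a k) :=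
  let ⟨_, h0, hb, hl⟩ := hφ; h.site h0 hl (fun _ _ => hb _ _ _) hr

end inst

section prog
variable {N : ℕ} {κ : Type} [Fintype κ]

/-- a program: nodes `f`, site means `g`, thermal constants `g'`, signs `sg` -/
structure Pg (f g g' : Fin (N + 1) → PF (Fin (N + 1))) (sg : Fin (N + 1) → ℝ) : Prop where
  bl : ∀ l, BL (f l) ∧ BL (g l) ∧ BL (g' l)
  dep : ∀ l b, Reads {m | m < l} (f l b) ∧ Reads {m | m < l} (g l b) ∧ Reads {m | m < l} (g' l b)
  par : ∀ l, Par sg (-1) (f l) ∧ Par sg (sg l) (g l) ∧ Par sg 1 (g' l)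
  sgn : ∀ l, sg l = 1 ∧ f l = 0 ∨ sg l = -1 ∧ g' l = 0

/-- the model fixed point -/
structure Mod (f g g' : Fin (N + 1) → PF (Fin (N + 1))) (β : ℝ) (ν : (ℝ → ℝ) → ℝ)
    (M : Matrix (Fin (N + 1)) κ ℝ) (cM : ℝ → Fin (N + 1) → ℝ) : Prop where
  c : ∀ b l, cM b l = Eb M 0 cM (g l) b + β ^ 2 * ν (Eb M 0 cM (g' l))
  S : ∀ l m, (M * Mᵀ) l m = β ^ 2 * ν fun b =>
    Eb M 0 cM (f l * f m) b - Eb M 0 cM (f l) b * Eb M 0 cM (f m) b

variable {f g g' : Fin (N + 1) → PF (Fin (N + 1))} {sg : Fin (N + 1) → ℝ} {β : ℝ}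
  {ν : (ℝ → ℝ) → ℝ} {M : Matrix (Fin (N + 1)) κ ℝ} {cM : ℝ → Fin (N + 1) → ℝ}

lemma coe_lt (l : Fin (N + 1)) : ((univ.filter (· < l) : Finset (Fin (N + 1))) : Set _) =
    {m | m < l} := by ext; simp

theorem Mod.bdd (hP : Pg f g g' sg) (hM : Mod f g g' β ν M cM) : ∃ B, ∀ b l, |cM b l| ≤ B := by
  choose Λ h0 hb _ using fun l => (hP.bl l).2.1
  refine ⟨∑ l, (Λ l + |β ^ 2 * ν (Eb M 0 cM (g' l))|), fun b l => ?_⟩
  refine le_trans ?_ (single_le_sum (f := fun l => Λ l + |β ^ 2 * ν (Eb M 0 cM (g' l))|)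
    (fun l _ => add_nonneg (h0 l).le (abs_nonneg _)) (mem_univ l))
  rw [hM.c]
  exact (abs_add_le _ _).trans (add_le_add (abs_Eb_le M 0 cM (hb l) b) le_rfl)

theorem Mod.lip (hP : Pg f g g' sg) (hM : Mod f g g' β ν M cM) (l : Fin (N + 1)) :
    ∃ c, ∀ b b', |cM b l - cM b' l| ≤ c * |b - b'| := by
  induction l using WellFoundedLT.induction with
  | ind l ih =>
    obtain ⟨Λ, h0, hb, hl⟩ := (hP.bl l).2.1
    obtain ⟨c, hc⟩ := Eb_lip M 0 cM (T := univ.filter (· < l)) h0 hl (fun _ _ => hb _ _ _)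
      (fun b => by rw [coe_lt]; exact (hP.dep l b).2.1) fun j hj => ih j (mem_filter.1 hj).2
    exact ⟨c, fun b b' => by rw [hM.c, hM.c, add_sub_add_right_eq_sub]; exact hc b b'⟩

theorem Mod.sgn (hP : Pg f g g' sg) (hM : Mod f g g' β ν M cM) (h0 : ν 0 = 0) (j : Fin (N + 1)) :
    sg j = -1 ∨ sg j = 1 ∧ (M * Mᵀ) j j = 0 := by
  rcases hP.sgn j with ⟨h1, h2⟩ | h
  · refine Or.inr ⟨h1, ?_⟩
    rw [hM.S, h2, mul_zero, Eb_zero]
    simp only [Pi.zero_apply, mul_zero, sub_zero]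
    exact mul_eq_zero_of_right _ h0
  · exact Or.inl h.1

theorem Mod.par (hP : Pg f g g' sg) (hM : Mod f g g' β ν M cM) (h0 : ν 0 = 0) (l : Fin (N + 1)) :
    ∀ b, cM (-b) l = sg l * cM b l := by
  induction l using WellFoundedLT.induction with
  | ind l ih =>
    intro b
    rw [hM.c, hM.c, Eb_par M 0 cM (hP.par l).2.1 (fun b => (hP.dep l b).2.1)
      (fun j _ => hM.sgn hP h0 j) (fun j hj => ih j hj)]
    rcases hP.sgn l with ⟨h1, -⟩ | ⟨h1, h2⟩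
    · rw [h1]; ring
    · rw [h2, Eb_zero, h0]; ring

/-- the model value of a bounded Lipschitz function is Lipschitz in the field -/
theorem Mod.Eb_lip (hP : Pg f g g' sg) (hM : Mod f g g' β ν M cM) {φ : PF (Fin (N + 1))} {Λ : ℝ}
    (hΛ : 0 < Λ) (hl : Lip Λ φ) (hb : ∀ b s, |φ b s (cM b)| ≤ Λ) :
    ∃ c, ∀ b b', |Eb M 0 cM φ b - Eb M 0 cM φ b'| ≤ c * |b - b'| :=
  S3I.Eb_lip M 0 cM (T := univ) hΛ hl hb (fun b => by rw [coe_univ]; exact reads_univ _)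
    fun j _ => hM.lip hP j

theorem Mod.Eb_cont (hP : Pg f g g' sg) (hM : Mod f g g' β ν M cM) {φ : PF (Fin (N + 1))}
    (hφ : BL φ) : Continuous (Eb M 0 cM φ) :=
  let ⟨_, h0, hb, hl⟩ := hφ; cont_of_lip (hM.Eb_lip hP h0 hl fun _ _ => hb _ _ _)

theorem Mod.Eb_par (hP : Pg f g g' sg) (hM : Mod f g g' β ν M cM) (h0 : ν 0 = 0) {ε : ℝ}
    {φ : PF (Fin (N + 1))} (hp : Par sg ε φ) (b : ℝ) :
    Eb M 0 cM φ (-b) = ε * Eb M 0 cM φ b :=
  S3I.Eb_par M 0 cM hp (fun _ => reads_univ _) (fun j _ => hM.sgn hP h0 j)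
    (fun j _ => hM.par hP h0 j) b

variable {I : Type*} {F : Filter I} {n : I → ℕ} {K : I → ℝ} {w : ∀ a, Cube (n a) → ℝ}
  {X : ∀ a, Cube (n a) → Fin (n a) → Fin (N + 1) → ℝ} {b : ∀ a, Fin (n a) → ℝ}

/-- averages of even letters -/
theorem LLm.avg {B : Set (Fin (N + 1))} (h : LLm F n K w X b 0 M cM B) (hP : Pg f g g' sg)
    (hM : Mod f g g' β ν M cM) (h0 : ν 0 = 0) (hK : Tendsto (fun a => K a / n a) F (𝓝 0))
    (hE : Emp F n b ν) {φ : PF (Fin (N + 1))} (hφ : BL φ) (hr : ∀ b, Reads B (φ b))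
    (hp : Par sg 1 φ) :
    Tendsto (fun a => (∑ k, mean (w a) fun x => φ (b a k) (x k) (X a x k)) / n a) F
      (𝓝 (ν (Eb M 0 cM φ))) :=
  (h.bl hφ hr).avg_of hK (hE _ (hM.Eb_cont hP hφ) (fun x => by rw [hM.Eb_par hP h0 hp, one_mul])
    (let ⟨Λ, _, hb, _⟩ := hφ; ⟨Λ, abs_Eb_le M 0 cM hb⟩))

lemma cov_eq {Ω : Type*} [Fintype Ω] {v : Ω → ℝ} (h : SL.Wt v) (u u' : Ω → ℝ) :
    cov v u u' = mean v (fun x => u x * u' x) - mean v u * mean v u' := by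
  have : cov v u u' = mean v fun x => u x * u' x - mean v u' * u x - mean v u * u' x +
      mean v u * mean v u' := sum_congr rfl fun x _ => by ring
  rw [this, SL.mean_add, SL.mean_sub, SL.mean_sub, SL.mean_const_mul, SL.mean_const_mul,
    h.mean_const]
  ring

/-- averages of covariances of letters of equal parity -/
theorem LLm.cov {B : Set (Fin (N + 1))} (h : LLm F n K w X b 0 M cM B) (hP : Pg f g g' sg)
    (hM : Mod f g g' β ν M cM) (h0 : ν 0 = 0) (hK : Tendsto (fun a => K a / n a) F (𝓝 0))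
    (hE : Emp F n b ν) (hw : ∀ᶠ a in F, SL.Wt (w a)) {φ ψ : PF (Fin (N + 1))} (hφ : BL φ)
    (hψ : BL ψ) (hr : ∀ b, Reads B (φ b)) (hr' : ∀ b, Reads B (ψ b)) {ε : ℝ} (hε : ε * ε = 1)
    (hp : Par sg ε φ) (hp' : Par sg ε ψ) :
    Tendsto (fun a => (∑ k, cov (w a) (fun x => φ (b a k) (x k) (X a x k))
      fun x => ψ (b a k) (x k) (X a x k)) / n a) F
      (𝓝 (ν fun b => Eb M 0 cM (φ * ψ) b - Eb M 0 cM φ b * Eb M 0 cM ψ b)) := by
  obtain ⟨Λ, hΛ, hb, -⟩ := id hφ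
  obtain ⟨Λ', hΛ', hb', -⟩ := id hψ
  obtain ⟨Λ2, -, hb2, -⟩ := hφ.mul hψ
  have h1 := h.bl (hφ.mul hψ) fun b => (hr b).mul (hr' b)
  have h2 := Ng.mul_sub (Λ + Λ') (h.bl hφ hr) (h.bl hψ hr')
    (hw.mono fun a ha k => (abs_mean_le ha fun x => hb' _ _ _).trans (by linarith))
    (Eventually.of_forall fun a k => (abs_Eb_le M 0 cM hb _).trans (by linarith))
  refine Ng.avg_of (u := fun a k => Eb M 0 cM (φ * ψ) (b a k) -
    Eb M 0 cM φ (b a k) * Eb M 0 cM ψ (b a k)) ((h1.sub h2).congr ?_) hK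
    (hE (fun b => Eb M 0 cM (φ * ψ) b - Eb M 0 cM φ b * Eb M 0 cM ψ b)
      ((hM.Eb_cont hP (hφ.mul hψ)).sub ((hM.Eb_cont hP hφ).mul (hM.Eb_cont hP hψ))) (fun x => ?_)
      ⟨Λ2 + Λ * Λ', fun x => ?_⟩)
  · filter_upwards [hw] with a ha k
    rw [cov_eq ha]
    simp only [Pi.mul_apply]; ring
  · rw [hM.Eb_par hP h0 (hp.mul hp'), hM.Eb_par hP h0 hp, hM.Eb_par hP h0 hp', hε,
      mul_mul_mul_comm, hε]; ring
  · refine (abs_sub _ _).trans (add_le_add (abs_Eb_le M 0 cM hb2 x) ?_)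
    rw [abs_mul]
    exact mul_le_mul (abs_Eb_le M 0 cM hb x) (abs_Eb_le M 0 cM hb' x) (abs_nonneg _) hΛ.le

/-- **(ID)** -/
theorem ident {κ' : Type} [Fintype κ'] {A : I → Matrix (Fin (N + 1)) κ' ℝ}
    {c : ∀ a, Fin (n a) → Fin (N + 1) → ℝ} (hP : Pg f g g' sg) (hM : Mod f g g' β ν M cM)
    (h0 : ν 0 = 0) (hK : Tendsto (fun a => K a / n a) F (𝓝 0)) (hE : Emp F n b ν)
    (hw : ∀ᶠ a in F, SL.Wt (w a))
    (hL : LLd F n K w (fun a x k => X a x k - c a k) b 0 A Set.univ)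
    (hc : ∀ᶠ a in F, ∀ k l, c a k l = mean (w a) (fun x => g l (b a k) (x k) (X a x k)) +
      β ^ 2 * ((∑ j, mean (w a) fun x => g' l (b a j) (x j) (X a x j)) / n a))
    (hS : ∀ᶠ a in F, ∀ l m, (A a * (A a)ᵀ) l m = β ^ 2 * ((∑ k, cov (w a)
      (fun x => f l (b a k) (x k) (X a x k)) fun x => f m (b a k) (x k) (X a x k)) / n a)) :
    (∀ l m, Tendsto (fun a => (A a * (A a)ᵀ) l m) F (𝓝 ((M * Mᵀ) l m))) ∧
    (∀ l, Ng F n K fun a k => c a k l - cM (b a k) l) ∧ LLm F n K w X b 0 M cM Set.univ := by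
  have key : ∀ T : Finset (Fin (N + 1)), (0 ∈ (T : Set (Fin (N + 1))) ∨ (T : Set (Fin (N + 1))) = ∅) →
      (∀ l ∈ T, ∀ m ∈ T, Tendsto (fun a => (A a * (A a)ᵀ) l m) F (𝓝 ((M * Mᵀ) l m))) →
      (∀ l ∈ T, Ng F n K fun a k => c a k l - cM (b a k) l) → LLm F n K w X b 0 M cM T :=
    fun T hT h1 h2 => ((hL.mono (Set.subset_univ _)).model' hT M h1).shift hw h2
  have step : ∀ l : Fin (N + 1), (∀ m ≤ l, ∀ m' ≤ l,
      Tendsto (fun a => (A a * (A a)ᵀ) m m') F (𝓝 ((M * Mᵀ) m m'))) ∧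
      Ng F n K fun a k => c a k l - cM (b a k) l := by
    intro l
    induction l using WellFoundedLT.induction with
    | ind l ih =>
      have hl : LLm F n K w X b 0 M cM {m | m < l} := by
        rw [← coe_lt]
        refine key _ ?_ (fun m hm m' hm' => ?_) fun m hm => (ih m (mem_filter.1 hm).2).2
        · rw [coe_lt]
          rcases eq_or_ne l 0 with rfl | h
          · exact Or.inr (by ext; simp)
          · exact Or.inl (Fin.pos_iff_ne_zero.2 h)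
        · exact (ih (max m m') (max_lt (mem_filter.1 hm).2 (mem_filter.1 hm').2)).1 m
            (le_max_left _ _) m' (le_max_right _ _)
      have hr : ∀ m ≤ l, ∀ b, Reads {j | j < l} (f m b) := fun m hm b =>
        (hP.dep m b).1.mono fun j hj => lt_of_lt_of_le hj hm
      refine ⟨fun m hm m' hm' => ?_, ?_⟩
      · rw [hM.S]
        refine ((hl.cov hP hM h0 hK hE hw (hP.bl m).1 (hP.bl m').1 (hr m hm) (hr m' hm')
          (by norm_num) (hP.par m).1 (hP.par m').1).const_mul (β ^ 2)).congr' ?_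
        filter_upwards [hS] with a ha using (ha m m').symm
      · have h1 := hl.bl (hP.bl l).2.1 fun b => (hP.dep l b).2.1
        have h2 := Ng.of_tendsto' (n := n) (K := K) ((hl.avg hP hM h0 hK hE (hP.bl l).2.2
          (fun b => (hP.dep l b).2.2) (hP.par l).2.2).const_mul (β ^ 2))
        refine (h1.add h2).congr ?_
        filter_upwards [hc] with a ha k
        rw [ha, hM.c]; ring
  have h1 : ∀ l m, Tendsto (fun a => (A a * (A a)ᵀ) l m) F (𝓝 ((M * Mᵀ) l m)) := fun l m =>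
    (step (max l m)).1 l (le_max_left _ _) m (le_max_right _ _)
  refine ⟨h1, fun l => (step l).2, ?_⟩
  rw [← coe_univ]
  exact key univ (Or.inl (by simp)) (fun l _ m _ => h1 l m) fun l _ => (step l).2

end prog

end Crest.Agent.T157.S3I

end
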