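import Crest.Agent.T157.S3LL_65
import Crest.Agent.T157.S3RD_52
import Crest.Agent.T157.S3Top_60

/-!
# Row 157, block B/S3: the local law in the words of the realisation layer (helper65)
-/

set_option autoImplicit false

noncomputable section

namespace Crest.Agent.T157.S3P

open MeasureTheory ProbabilityTheory Filter Set
open Crest.Agent.T157.Pos
open Crest.Agent.T157.S3 (Fam)

theorem lp_of {F : Fam} {ν : Measure ℝ} (hF : F.Ok) (hQ : ∀ (N : ℕ) (P : Prog N), P.Ok → QA P F)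
    (hE : S3.T60.EmpF F ν) : S3R.LP F ν := fun σ _ hφ =>
  llp σ.ok σ.par hF (hQ _ _ σ.ok) (ν := fun ψ => ∫ b, ψ b ∂ν) (integral_zero _ _) hE σ.mod hφ

/-- the law of `t + √t Z` -/
def nu (t : ℝ) : Measure ℝ := (gaussianReal 0 1).map fun z => t + √t * z

instance (t : ℝ) : IsProbabilityMeasure (nu t) :=
  Measure.isProbabilityMeasure_map (by fun_prop)

lemma int_nu (t : ℝ) {ψ : ℝ → ℝ} (h : Continuous ψ) : ∫ b, ψ b ∂nu t = Tap.gE ψ t t :=
  integral_map (by fun_prop) h.aestronglyMeasurable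

variable {β s q : ℝ} {G : In → Prop}

theorem empF_fam (hβ : β ∈ Ioc (0 : ℝ) 1) (hL : Lv β s q) :
    S3.T60.EmpF (fam β s G) (nu (s + β ^ 2 * q)) := fun ψ h1 h2 h3 => by
  rw [int_nu _ h1]
  exact emp_fam hβ hL ψ h1 h2 h3

theorem lp_fam (hβ : β ∈ Ioo (0 : ℝ) 1) (hL : Lv β s q) (hF : (fam β s G).Ok) :
    S3R.LP (fam β s G) (nu (s + β ^ 2 * q)) :=
  lp_of hF (fun _ _ h => qa_fam h ⟨hβ.1.le, hβ.2⟩) (empF_fam ⟨hβ.1, hβ.2.le⟩ hL)

end Crest.Agent.T157.S3P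

end
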