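import Crest.Agent.T157.S3RAll_52
import Crest.Agent.T157.S3Lp_65
import Crest.Agent.T157.S3AnsAll_90
import Crest.Agent.T157.NetAll_32
import Crest.Agent.T157.LcFx_30

/-!
# Row 157, block B/S3 (helper60): the ansatz on a family of instances
-/

set_option autoImplicit false

noncomputable section

namespace Crest.Agent.T157.S3.T60

open Matrix Filter Set MeasureTheory
open Crest.Agent.T157.Eig
open Crest.Agent.T157.E (Cube)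
open Crest.Agent.T157.Nt (Fn Ix BS cb)
open Crest.Agent.T157.S3P (fl)
open Crest.Agent.T157.Tw (sech2 Cls PV lam sech2_pos)
open Fam An90

/-- `AnsFam` with named data -/
def AnsX (F : Fam) (𝒯 : Set F.Df) (a C0 C' e : ℝ) (p q α : F.Df) (ψ : F.Vf) (T : F.Mf) : Prop :=
  ∃ C : ℝ, 1 ≤ C ∧ ∀ e1 > (0 : ℝ), ∃ η > (0 : ℝ), ∃ D : List F.Df, (∀ t ∈ D, t ∈ 𝒯) ∧ ∃ C1 : ℝ,
    0 ≤ C1 ∧ ∀ᶠ i in F.l, AnsAt (F.J i) (F.y i) a C C0 C' e e1 η (F.K i) (E0 e1 C1 D i) (p i) (q i) (α i)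
      (fun x => ψ ⟨i, x⟩) fun x => T ⟨i, x⟩

theorem AnsX.fam {F : Fam} {𝒯 : Set F.Df} {a C0 C' e : ℝ} {p q α : F.Df} {ψ : F.Vf} {T : F.Mf}
    (h : AnsX F 𝒯 a C0 C' e p q α ψ T) : AnsFam F 𝒯 a C0 C' e p q α :=
  let ⟨C, _, H⟩ := h
  ⟨C, ψ, T, fun e1 he => let ⟨η, η0, D, hD, C1, _, H⟩ := H e1 he; ⟨η, η0, D, hD, C1, H⟩⟩

/-- rescaling of the ansatz -/
theorem scale {n : ℕ} {J : Mx n} {y p q α : V n} {a C C0 C' e e1 η K c : ℝ} {E E' : V n → ℝ}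
    {ψ : Cube n → V n} {T : Cube n → Mx n} (h : AnsAt J y a C C0 C' e e1 η K E p q α ψ T)
    (c0 : 0 ≤ c) (c1 : c ≤ 1) (hE : ∀ w, E (c • w) ≤ E' w) (hC0 : 0 ≤ C0) (hC' : 0 ≤ C')
    (he : 0 ≤ e) (hp : ∀ k, 0 ≤ p k) : AnsAt J y a C C0 C' e e1 η K E' p (c • q) (c • α)
      (fun x => c • ψ x) fun x => c • T x := by
  have hC : 0 ≤ C := (opn_nonneg _).trans (h.opψ default)
  have cc : c * c ≤ 1 := by nlinarith
  have i1 : ∀ w u : V n, w ⬝ᵥ (c • u) = (c • w) ⬝ᵥ u := fun w u => by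
    rw [dotProduct_smul, smul_dotProduct]
  have i2 : ∀ (w : V n) (M : Mx n), (c • M)ᵀ *ᵥ w = Mᵀ *ᵥ (c • w) := fun w M => by
    rw [transpose_smul, smul_mulVec, mulVec_smul]
  have i3 : ∀ u w : V n, (c • u) * w = u * (c • w) := fun u w => by
    rw [smul_mul_assoc, mul_smul_comm]
  have n1 : ∀ w : V n, C * nrm (c • w) ≤ C * nrm w := fun w => mul_le_mul_of_nonneg_left (by
    rw [nrm_smul, abs_of_nonneg c0]; exact mul_le_of_le_one_left (nrm_nonneg w) c1) hC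
  have n2 : ∀ w : V n, ‖w‖ ≤ η → ‖c • w‖ ≤ η := fun w hw => le_trans (by
    rw [norm_smul, Real.norm_of_nonneg c0]; exact mul_le_of_le_one_left (norm_nonneg w) c1) hw
  have n3 : ∀ w : V n, (c • w) ⬝ᵥ (c • w) ≤ w ⬝ᵥ w := fun w => by
    rw [dotProduct_smul, smul_dotProduct, smul_smul]
    exact mul_le_of_le_one_left (dot_self_nonneg w) cc
  have n4 : ∀ w : V n, C0 * ((c • w) ⬝ᵥ (p * (c • w))) ≤ C0 * (w ⬝ᵥ (p * w)) := fun w =>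
    mul_le_mul_of_nonneg_left (by
      rw [mul_smul_comm, dotProduct_smul, smul_dotProduct, smul_smul]
      exact mul_le_of_le_one_left (qd_nonneg hp w) cc) hC0
  have o1 : ∀ M : Mx n, opn M ≤ C → opn (c • M) ≤ C := fun M hM => le_trans (by
    rw [opn_smul, abs_of_nonneg c0]; exact mul_le_of_le_one_left (opn_nonneg M) c1) hM
  refine ⟨fun x k j b => congrArg (c * ·) (h.free x k j b), fun x => ?_, fun x => o1 _ (h.opT x),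
    fun w ν hν => ?_, fun w hw => ?_, fun w hw => ?_, fun w hw => ?_, fun w hw ν hν G hG => ?_,
    fun w hw z ν hν => ?_, fun w hw => ?_⟩
  · rw [S3F.jac_smul]; exact o1 _ (h.opψ x)
  · simp only [smul_mulVec, i1]
    exact (h.dv _ ν hν).trans (mul_le_mul_of_nonneg_right (n1 w) (Real.sqrt_nonneg _))
  · obtain ⟨Ω, h1, h2⟩ := h.vg _ (n2 w hw)
    simp only [i1, i3]
    exact ⟨Ω, Ver.mono h1 le_rfl (n1 w) (hE w), by linarith [n4 w, hE w]⟩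
  · obtain ⟨Ω, h1⟩ := h.vf _ (n2 w hw)
    simp only [i2, i3]
    exact ⟨Ω, Ver.mono h1 le_rfl (n1 w) (hE w)⟩
  · simp only [i1, i2]
    exact Exc.mono (h.gf _ (n2 w hw)) le_rfl
      (by linarith [mul_le_mul_of_nonneg_left (n3 w) (mul_nonneg hC' he), hE w]) fun _ => le_rfl
  · simp only [smul_mulVec, i1, i3] at hG
    refine (h.eq _ (n2 w hw) ν hν G hG).trans ?_
    nlinarith [mul_le_mul_of_nonneg_left (n3 w) (mul_nonneg hC' (Real.sqrt_nonneg e)), hE w]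
  · simp only [i2, i3]
    linarith [h.rs _ (n2 w hw) z ν hν, hE w]
  · simp only [i1]
    linarith [h.en _ (n2 w hw), n4 w, hE w]

lemma E0_smul {F : Fam} (hF : F.Ok) {e C c : ℝ} (he : 0 ≤ e) (c0 : 0 ≤ c) (c1 : c ≤ 1)
    (D : List F.Df) (i : F.I) (w : V (F.n i)) : E0 e C D i (c • w) ≤ E0 e |C| D i w := by
  have h1 : Fam.Pi D i (c • w) = c * Fam.Pi D i w := by
    simp only [Fam.Pi, smul_dotProduct, smul_eq_mul, abs_mul, abs_of_nonneg c0, List.sum_map_mul_left,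
      mul_div_assoc]
  have h2 := E0_mono hF (e := e) (C := C) (C' := |C|) (w := c • w) le_rfl (le_refl (Fam.Pi D i _))
  refine h2.trans ?_
  have cc : c * c ≤ 1 := by nlinarith
  have h3 := mul_le_of_le_one_left (mul_nonneg he (dot_self_nonneg w)) cc
  have h4 := mul_le_of_le_one_left (mul_nonneg (abs_nonneg C) (sq_nonneg (Fam.Pi D i w))) cc
  simp only [E0, h1, dotProduct_smul, smul_dotProduct, smul_eq_mul]
  nlinarith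

theorem AnsX.scale {F : Fam} (hF : F.Ok) {𝒯 : Set F.Df} {a C0 C' e c : ℝ} {p q α : F.Df} {ψ : F.Vf}
    {T : F.Mf} (h : AnsX F 𝒯 a C0 C' e p q α ψ T) (c0 : 0 ≤ c) (c1 : c ≤ 1) (hC0 : 0 ≤ C0)
    (hC' : 0 ≤ C') (he : 0 ≤ e) (hp : ∀ i k, 0 ≤ p i k) : AnsX F 𝒯 a C0 C' e p (fun i => c • q i)
      (fun i => c • α i) (fun ω => c • ψ ω) fun ω => c • T ω := by
  obtain ⟨C, h1, H⟩ := h
  refine ⟨C, h1, fun e1 he1 => ?_⟩
  obtain ⟨η, η0, D, hD, C1, -, H⟩ := H e1 he1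
  exact ⟨η, η0, D, hD, |C1|, abs_nonneg _, H.mono fun i hi =>
    T60.scale hi c0 c1 (E0_smul hF he1.le c0 c1 D i) hC0 hC' he (hp i)⟩

lemma qs_pos {F : Fam} {𝒯 : Set F.Df} {p : Pr F} (hF : F.Ok) (hp : Mo p) (h : Qs 𝒯 p) :
    ∀ e > (0 : ℝ), ∃ η > (0 : ℝ), ∃ D : List F.Df, (∀ t ∈ D, t ∈ 𝒯) ∧ ∃ C : ℝ, 0 ≤ C ∧
      ∀ᶠ i in F.l, ∀ w : V (F.n i), ‖w‖ ≤ η → p e (E0 e C D i w) i w := fun e he =>
  let ⟨η, η0, D, hD, C, H⟩ := h e he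
  ⟨η, η0, D, hD, |C|, abs_nonneg C, H.mono fun _ b w hw =>
    hp _ _ _ _ _ (E0_mono hF le_rfl le_rfl) (b w hw)⟩

theorem ansX (K0 κ0 RJ : ℝ) (hκ : 0 < κ0) : ∃ C' : ℝ, 0 ≤ C' ∧ ∀ F : Fam, F.Ok →
    (∀ i, Atd.ATd (F.w i) K0 (Real.exp (-(κ0 * F.n i))) ∧ opn (F.J i) ≤ RJ) →
    ∀ (N P : ℕ) (R : Net F N) (d : Tp R P) (𝒯 : Set F.Df) (a C0 e : ℝ) (p q α : F.Df), 0 < e →
      TopIn d 𝒯 a C0 e p q α →
      AnsX F 𝒯 a (2 * C0) C' e p q α (R.ev d.ψ) (d.Φ.tTb (R.gs d.ψ) d.t) := by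
  obtain ⟨C, c, hb⟩ := hb_unif hbStmt K0 κ0 RJ hκ
  have a0 := le_abs_self C
  refine ⟨7 + 2 * |C|, by positivity, fun F hF hA N P R d 𝒯 a C0 e p q α he h => ?_⟩
  have hb := hb F hF (fun i => (hA i).1) fun i => (hA i).2
  have hR := h.net
  have c0 := hb.C0
  have hT := ((j1Stmt F N R hF hR).2.2.2.2 P _ h.flow).2 _ _ (K71.let_grad hR d.Φ h.top h.tC)
  obtain ⟨C1, h1⟩ := ((j1Stmt F N R hF hR).2.2.2.1 _ h.top).1
  obtain ⟨C2, h2⟩ := hT.2.1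
  obtain ⟨C3, c3, h3⟩ := dv_field hbStmt clsStmt j1Stmt clStmt hF h
  obtain ⟨C4, h4⟩ := vg_field gramStmt regGStmt flatStmt hF h
  obtain ⟨C5, h5, h6⟩ := vf_field hbStmt j1Stmt regStmt flatStmt hF h
  have h7 := gf_field (C' := 7 + 2 * |C|) (by linarith) he.le gramStmt regStmt regGStmt hF h
  have h8 := eq_field (C' := 7 + 2 * |C|) hb (by linarith) he clsStmt j1Stmt clStmt gramStmt
    regGStmt colStmt hF h
  have h9 := en_field gramStmt regGStmt hF h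
  have H := qs_pos hF (Mo.and (Mo.and ?m4 ?m5) (Mo.and (Mo.and ?m6 ?m7) (Mo.and ?m8 ?m9)))
    (Qs.and hF (Mo.and ?m4 ?m5) (Mo.and (Mo.and ?m6 ?m7) (Mo.and ?m8 ?m9))
      (Qs.and hF ?m4 ?m5 h4 h5) (Qs.and hF (Mo.and ?m6 ?m7) (Mo.and ?m8 ?m9)
        (Qs.and hF ?m6 ?m7 h6 h7) (Qs.and hF ?m8 ?m9 h8 h9)))
  case m4 => exact fun _ _ _ _ _ hB ⟨Ω, a1, a2⟩ => ⟨Ω, Ver.mono a1 le_rfl le_rfl hB, by linarith⟩
  case m5 => exact fun _ _ _ _ _ hB ⟨Ω, a1⟩ => ⟨Ω, Ver.mono a1 le_rfl le_rfl hB⟩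
  case m6 => exact fun _ _ _ _ _ hB H z ν hν => (H z ν hν).trans (by linarith)
  case m7 => exact fun _ _ _ _ _ hB H => Exc.mono H le_rfl (by linarith) fun _ => le_rfl
  case m8 => exact fun _ _ _ _ _ hB H ν hν G hG => (H ν hν G hG).trans (by linarith)
  case m9 => exact fun _ _ _ _ _ hB H => H.trans (by linarith)
  have a1 := abs_nonneg C1
  have a2 := abs_nonneg C2
  have a4 := abs_nonneg C4
  have a5 := abs_nonneg C5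
  refine ⟨1 + |C1| + |C2| + C3 + |C4| + |C5|, by linarith, fun e1 he1 => ?_⟩
  obtain ⟨η, η0, D, hD, C6, c6, H⟩ := H e1 he1
  refine ⟨η, η0, D, hD, C6, c6, H.mono fun i b => ⟨hT.2.2 i, fun x => (h1 ⟨i, x⟩).trans ?_,
    fun x => (h2 ⟨i, x⟩).trans ?_, fun w ν hν => (h3 i w ν hν).trans ?_, fun w hw => ?_,
    fun w hw => ?_, fun w hw => (b w hw).2.1.2, fun w hw => (b w hw).2.2.1,
    fun w hw => (b w hw).2.1.1, fun w hw => (b w hw).2.2.2⟩⟩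
  · linarith [le_abs_self C1]
  · linarith [le_abs_self C2]
  · exact mul_le_mul_of_nonneg_right (mul_le_mul_of_nonneg_right (by linarith) (nrm_nonneg _))
      (Real.sqrt_nonneg _)
  · obtain ⟨Ω, b1, b2⟩ := (b w hw).1.1
    exact ⟨Ω, Ver.mono b1 le_rfl (mul_le_mul_of_nonneg_right (by linarith [le_abs_self C4])
      (nrm_nonneg _)) le_rfl, b2⟩
  · obtain ⟨Ω, b1⟩ := (b w hw).1.2
    exact ⟨Ω, Ver.mono b1 le_rfl (mul_le_mul_of_nonneg_right (by linarith [le_abs_self C5])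
      (nrm_nonneg _)) le_rfl⟩

/-! ### the model side -/

/-- the canonical diagonal -/
def a0 (β : ℝ) (ν : Measure ℝ) (g : ℝ → ℝ) (b : ℝ) : ℝ := 1 / g b + β ^ 2 * ∫ x, g x ∂ν
/-- the diagonal of the ansatz -/
def alf (s0 a : ℝ) (ρ : ℝ → ℝ) (b : ℝ) : ℝ := 1 / sech2 b + s0 - a / (ρ b * sech2 b)

/-- the susceptibility -/
structure MO (β l a : ℝ) (ν : Measure ℝ) (g : ℝ → ℝ) : Prop where
  cont : Continuous g
  even : ∀ b, g (-b) = g b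
  pos : ∀ b, 0 < g b
  lo : ∀ b, sech2 b / 4 ≤ g b
  hi : ∀ b, β * g b ≤ sech2 b * (1 - β * (l - a))
  a0 : ∀ b, 0 < a0 β ν g b ∧ sech2 b * a0 β ν g b ≤ 4

/-- the diagonals of the ansatz -/
structure DO (l a e s0 : ℝ) (al0 ρ : ℝ → ℝ) : Prop where
  cb : S3P.Cb ρ
  even : ∀ b, ρ (-b) = ρ b
  lo : ∀ b, l / 4 ≤ ρ b
  hi : ∀ b, ρ b ≤ 3
  al : ∀ b, sech2 b * |alf s0 a ρ b - al0 b| ≤ e

theorem do_of {n : ℕ} {N : Nt.Net n} {l a e : ℝ} {al0 ρ : ℝ → ℝ} {ψ : Fn (Ix n)}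
    {m : Ix n → Fn (Ix n)} (h : N.Top l a e al0 ψ m ρ) : DO l a e (N.S 0 0) al0 ρ :=
  ⟨S3P.Cb.clm (φ := fun p : ℝ × (Ix n → ℝ) => ρ p.1)
      (fun k => (Nt.All.tl.bs _).iter h.bρ k true) (ContinuousLinearMap.inl ℝ ℝ _),
    fun b => (h.hρ b).1, fun b => (h.hρ b).2.1, fun b => (h.hρ b).2.2,
    fun b => (le_div_iff₀' (sech2_pos b)).1 (h.hal b)⟩

lemma alf_mul {s0 a : ℝ} {ρ : ℝ → ℝ} {b : ℝ} (h : ρ b ≠ 0) :
    ρ b + ρ b * sech2 b * s0 - a = alf s0 a ρ b * (ρ b * sech2 b) := by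
  have := (sech2_pos b).ne'
  rw [alf]; field_simp

lemma S00 {β : ℝ} {ν : Measure ℝ} [IsProbabilityMeasure ν] {n : ℕ} {N : Nt.Net n} (h : N.Ok β ν) :
    N.S 0 0 = β ^ 2 * ∫ b, sech2 b ∂ν := (Nt.All.factStmt β ν n N h).2.2.2

theorem modelOut (𝒞 : Cls) (h𝒞 : ∀ m, 𝒞.C m = PV m) {β a : ℝ} (h0 : 0 < β) (h1 : β < 1)
    (ha : a ∈ Ico 0 (lam 𝒞 β)) (ν : Measure ℝ) [IsProbabilityMeasure ν] :
    ∃ g, MO β (lam 𝒞 β) a ν g ∧ ∀ e > (0 : ℝ), ∀ (n : ℕ) (N : Nt.Net n), N.Ok β ν →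
      ∃ (n' : ℕ) (N' : Nt.Net n') (ι : Ix n → Ix n'), N'.Ok β ν ∧ N.Ext N' ι ∧
        ∃ ψ m ρ, N'.TopW (lam 𝒞 β) a e (a0 β ν g) ψ m ρ := by
  obtain ⟨γ, h, c1, c2, c3, H⟩ := Nt.All.netStmtW 𝒞 h𝒞 β h0 h1 a ha ν
  have s1 : ∀ b, sech2 b ≤ 1 := fun b => by
    rw [sech2, div_le_one (by positivity [Real.cosh_pos b])]
    exact one_le_pow₀ (Real.one_le_cosh b)
  have p0 : ∀ b, 0 < γ b := fun b => (sech2_pos b).trans_le (c2 b).2.1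
  obtain ⟨t, ht, g, g1, g2, g3⟩ := Tw.exists_fix β ν (M := 1 / β) c1 (fun b => (c2 b).2.1)
    (fun b => by
      rw [le_div_iff₀' h0]
      nlinarith [(c2 b).2.2, s1 b, mul_pos (sech2_pos b) (mul_pos h0 (sub_pos.2 ha.2))]) c3
  have h3 : h ≤ 3 := by
    obtain ⟨N0, o0⟩ := Nt.All.trivStmt β h0 ν
    obtain ⟨n', N', ι, o, -, ψ, m, ρ, T, -⟩ := H 1 one_pos 0 N0 o0
    have e1 := (abs_le.1 (T.hal 0)).1
    have e2 : sech2 0 = 1 := by simp [sech2]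
    have e3 : ∫ b, sech2 b ∂ν ≤ 1 := by
      simpa using norm_integral_le_of_norm_le_const (μ := ν) (f := sech2) (C := 1)
        (ae_of_all _ fun b => by rw [Real.norm_of_nonneg (sech2_pos b).le]; exact s1 b) |>.trans'
          (le_abs_self _)
    have e4 : 0 ≤ a / (ρ 0 * sech2 0) := div_nonneg ha.1
      (mul_nonneg (by linarith [(T.hρ 0).2.1, ha.1, ha.2]) (sech2_pos 0).le)
    have e5 := one_div_pos.2 (p0 0)
    have e6 : β ^ 2 ≤ 1 := by nlinarith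
    rw [S00 o, e2] at e1
    rw [e2] at e4
    nlinarith [mul_le_mul_of_nonneg_left e3 (sq_nonneg β)]
  have h0' : 0 ≤ h := ht.1.trans ht.2
  have e : a0 β ν g = fun b => 1 / γ b + h := funext fun b => (g3 b).2.2.2.symm
  refine ⟨g, ⟨g2, fun b => by rw [g1, g1, (c2 b).1], fun b => (g3 b).2.1,
    fun b => le_trans (div_le_div_of_nonneg_left (sech2_pos b).le (by linarith) (by linarith))
      (g3 b).1, fun b => (mul_le_mul_of_nonneg_left (g3 b).2.2.1 h0.le).trans (c2 b).2.2,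
    fun b => ?_⟩, e ▸ H⟩
  rw [e]
  have : sech2 b * (1 / γ b) ≤ 1 := by rw [mul_one_div, div_le_one (p0 b)]; exact (c2 b).2.1
  exact ⟨by positivity [p0 b], by nlinarith [s1 b, sech2_pos b]⟩

/-! ### the family -/

/-- everything that the realisation of a top family gives -/
structure Out (F : Fam) (ν : Measure ℝ) {n : ℕ} (N : Nt.Net n) (l a e C' : ℝ) (ψ : Fn (Ix n))
    (m : Ix n → Fn (Ix n)) (ρ : ℝ → ℝ) (R : Net F n) (Ag : F.Lf (n + 1) → Fn (Ix n) → Prop)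
    (d : Tp R (n + 1)) : Prop where
  rz : Rz F N R Ag
  rx : RX F ν N R Ag
  top : TopIn d (TyB F) a (8 / (l - a) ^ 2 + 2) e (fun i k => sech2 (bv F i k) + e)
    (fun i k => ρ (bv F i k) * sech2 (bv F i k))
    fun i k => ρ (bv F i k) + ρ (bv F i k) * sech2 (bv F i k) * N.S 0 0 - a
  hψ : d.ψ = fl F ψ
  ht : ∀ u, d.t u = fl F (m u)
  hal : ∀ u, d.Φ.al u = fl F (N.al u)
  ha : ∀ u v, d.Φ.a u v = fl F (N.a u v)
  ans : AnsX F (TyB F) a (2 * (8 / (l - a) ^ 2 + 2)) C' e (fun i k => sech2 (bv F i k) + e)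
    (fun i k => ρ (bv F i k) * sech2 (bv F i k))
    (fun i => (fun k => alf (N.S 0 0) a ρ (bv F i k)) * fun k => ρ (bv F i k) * sech2 (bv F i k))
    (R.ev (fl F ψ)) (d.Φ.tTb (R.gs d.ψ) d.t)

/-- the ansatz rescaled by `2 / 3`: `l / 6 * sech² ≤ q ≤ 2 sech²` -/
theorem Out.ans' {F : Fam} {ν : Measure ℝ} {n : ℕ} {N : Nt.Net n} {l a e C' : ℝ} {ψ : Fn (Ix n)}
    {m : Ix n → Fn (Ix n)} {ρ : ℝ → ℝ} {R : Net F n} {Ag : F.Lf (n + 1) → Fn (Ix n) → Prop}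
    {d : Tp R (n + 1)} (h : Out F ν N l a e C' ψ m ρ R Ag d) (hF : F.Ok) (hC : 0 ≤ C') (he : 0 ≤ e) :
    AnsX F (TyB F) a (2 * (8 / (l - a) ^ 2 + 2)) C' e (fun i k => sech2 (bv F i k) + e)
      (fun i k => 2 / 3 * ρ (bv F i k) * sech2 (bv F i k))
      (fun i => (fun k => alf (N.S 0 0) a ρ (bv F i k)) *
        fun k => 2 / 3 * ρ (bv F i k) * sech2 (bv F i k))
      (fun ω => (2 / 3 : ℝ) • R.ev (fl F ψ) ω) fun ω => (2 / 3 : ℝ) • d.Φ.tTb (R.gs d.ψ) d.t ω := by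
  convert h.ans.scale hF (c := 2 / 3) (by norm_num) (by norm_num) (by positivity) hC he
    fun i k => add_nonneg (sech2_pos _).le he using 1
  · funext i k; simp [mul_assoc]
  · funext i k; simp; ring

theorem famOut (K0 κ0 RJ : ℝ) (hκ : 0 < κ0) : ∃ C' : ℝ, 0 ≤ C' ∧ ∀ F : Fam, F.Ok →
    (∀ i, Atd.ATd (F.w i) K0 (Real.exp (-(κ0 * F.n i))) ∧ opn (F.J i) ≤ RJ) →
    ∀ (ν : Measure ℝ) [IsProbabilityMeasure ν], S3R.LP F ν → EmpF F ν → Nt.STStmt F.β ν →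
    ∀ (n : ℕ) (N : Nt.Net n) (l a e : ℝ) (al0 : ℝ → ℝ) ψ m ρ, 0 < l → 0 < e → N.Ok F.β ν →
      N.TopW l a e al0 ψ m ρ → ∃ R Ag d, Out F ν N l a e C' ψ m ρ R Ag d := by
  obtain ⟨C', c0, H⟩ := ansX K0 κ0 RJ hκ
  refine ⟨C', c0, fun F hF hA ν _ hL hE hS n N l a e al0 ψ m ρ hl he hN ht => ?_⟩
  obtain ⟨R, Ag, h1, h2⟩ := S3R.real Nt.All.tl Nt.All.factStmt hL hN
  obtain ⟨d, t1, t2, t3, t4, t5, -⟩ := topIn_ex Nt.All.tl bilStmt exStmt hF hE h1 h2 hS hN ht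
  refine ⟨R, Ag, d, h1, h2, t1, t2, t3, t4, t5, ?_⟩
  have := H F hF hA n _ R d _ _ _ _ _ _ _ he t1
  rw [t2] at this ⊢
  convert this using 1
  funext i k
  exact (alf_mul (by linarith [(ht.1.hρ (bv F i k)).2.1] : 0 < ρ (bv F i k)).ne').symm

/-- **the ansatz on the typical family of the level `s`** -/
theorem ansOut (𝒞 : Cls) (h𝒞 : ∀ m, 𝒞.C m = PV m) {β a : ℝ} (h0 : 0 < β) (h1 : β < 1)
    (ha : a ∈ Ico 0 (lam 𝒞 β)) (K0 κ0 : ℝ) (hκ : 0 < κ0) : ∃ C' : ℝ, 0 ≤ C' ∧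
    ∀ s q, Pos.Lv β s q → ∃ g, MO β (lam 𝒞 β) a (S3P.nu (s + β ^ 2 * q)) g ∧ ∀ e > (0 : ℝ),
      ∃ (n : ℕ) (N : Nt.Net n) (ψ : Fn (Ix n)) (m : Ix n → Fn (Ix n)) (ρ : ℝ → ℝ),
        N.Ok β (S3P.nu (s + β ^ 2 * q)) ∧
        N.TopW (lam 𝒞 β) a e (a0 β (S3P.nu (s + β ^ 2 * q)) g) ψ m ρ ∧
        DO (lam 𝒞 β) a e (N.S 0 0) (a0 β (S3P.nu (s + β ^ 2 * q)) g) ρ ∧
        ∀ G : Pos.In → Prop, (Pos.fam β s G).Ok →
          (∀ i, G i → Atd.ATd (E.ising (i.J β) i.y) K0 (Real.exp (-(κ0 * i.n))) ∧ opn (i.J β) ≤ 3) →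
          ∃ R Ag d, Out (Pos.fam β s G) (S3P.nu (s + β ^ 2 * q)) N (lam 𝒞 β) a e C' ψ m ρ R Ag d := by
  obtain ⟨C', c0, H⟩ := famOut K0 κ0 3 hκ
  refine ⟨C', c0, fun s q hL => ?_⟩
  obtain ⟨g, g1, g2⟩ := modelOut 𝒞 h𝒞 h0 h1 ha (S3P.nu (s + β ^ 2 * q))
  refine ⟨g, g1, fun e he => ?_⟩
  obtain ⟨N0, o0⟩ := Nt.All.trivStmt β h0 (S3P.nu (s + β ^ 2 * q))
  obtain ⟨n, N, -, o, -, ψ, m, ρ, t⟩ := g2 e he 0 N0 o0
  have hl := ha.1.trans_lt ha.2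
  exact ⟨n, N, ψ, m, ρ, o, t, do_of t.1, fun G hF hG => H _ hF (fun i => hG i.1 i.2) _
    (S3P.lp_fam ⟨h0, h1⟩ hL hF) (S3P.empF_fam ⟨h0, h1.le⟩ hL)
    (Nt.All.stAll 𝒞 h𝒞 β h0 h1 hl _).2 n N _ a e _ ψ m ρ hl he o t⟩

end Crest.Agent.T157.S3.T60

end
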