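import Crest.Agent.T157.S3Prog_65

/-!
# Row 157, block B/S3 (helper60): the field-only network of a program

The parameter nodes (`f = 0`) are constant in the configuration; they are frozen in the letters.
-/

set_option autoImplicit false

noncomputable section

namespace Crest.Agent.T157.S3P

open Matrix Finset Function
open Crest.ProbabilityR.SpinGlassDynamics (spin)
open Crest.Agent.T157.E (Cube sv ising mean meanV cov mag)
open Crest.Agent.T157.S3 (V Mx LF Dep hf Fam Net)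

variable {n N M : ℕ}

/-- `e` lists the field nodes -/
structure Fe (P : Prog N) (e : Fin (M + 1) → Fin (N + 1)) : Prop where
  mono : StrictMono e
  zero : e 0 = 0
  off : ∀ t, t ∉ Set.range e → P.f t = 0

/-- the letter with frozen parameters -/
def Prog.Fr (P : Prog N) (F : Fam) (e : Fin (M + 1) → Fin (N + 1)) (φ : PF N) : F.Lf (M + 1) :=
  fun i k s ξ => φ (bF (F.s i) (F.J i) (F.y i) k) s
    (extend e ξ fun t => P.c (F.s i) (F.J i) (F.y i) t k)

/-- **the field-only network** -/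
def Prog.fnet (P : Prog N) (F : Fam) (e : Fin (M + 1) → Fin (N + 1)) : Net F M where
  X u ω := P.X (F.s ω.1) (F.J ω.1) (F.y ω.1) (e u) ω.2
  b i := bF (F.s i) (F.J i) (F.y i)
  f u := P.Fr F e (P.f (e u))
  C := {g | ∃ φ, Sm φ ∧ g = P.Fr F e φ}

variable {P : Prog N} {F : Fam} {e : Fin (M + 1) → Fin (N + 1)}

lemma pd_zero (m : Fin (N + 1)) : pd m (0 : PF N) = 0 := by
  ext b s ξ
  change fderiv ℝ (fun _ : Fin (N + 1) → ℝ => (0 : ℝ)) ξ _ = 0
  simp

/-- a parameter node is constant -/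
theorem Prog.Ok.X_par (h : P.Ok) {s : ℝ} {J : Mx n} {y : V n} {t : Fin (N + 1)} (ht : P.f t = 0)
    (x : Cube n) : P.X s J y t x = P.c s J y t := by
  have e0 : eP s J y (P.X s J y) (0 : PF N) = 0 := rfl
  have e1 : Zr P s J y (P.X s J y) t = 0 := by
    ext1 x
    simp [Zr, ht, pd_zero, me_zero, e0]
  have e2 : Sg P s J y (P.X s J y) t 0 = 0 := by
    simp [Sg, ht, e0, cov, mean]
  rw [← congrFun (congrFun h.fix t) x, step, e1, e2]
  ext k
  simp [meanV, mean, Prog.c]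

lemma ext_X (h : P.Ok) (he : Fe P e) {s : ℝ} {J : Mx n} {y : V n} (x : Cube n) (k : Fin n) :
    (extend e (fun u => P.X s J y (e u) x k) fun t => P.c s J y t k) = fun t => P.X s J y t x k := by
  funext t
  by_cases ht : ∃ u, e u = t
  · obtain ⟨u, rfl⟩ := ht
    exact he.mono.injective.extend_apply _ _ _
  · rw [extend_apply' _ _ _ ht, h.X_par (he.off t ht)]

theorem fr_ev (h : P.Ok) (he : Fe P e) (φ : PF N) (ω : F.Ω) :
    (P.fnet F e).ev (P.Fr F e φ) ω = P.e (F.s ω.1) (F.J ω.1) (F.y ω.1) φ ω.2 := by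
  funext k
  exact congrArg (φ _ _) (ext_X h he ω.2 k)

/-- the embedding of the fields -/
def emb (e : Fin (M + 1) → Fin (N + 1)) : (Fin (M + 1) → ℝ) →L[ℝ] (Fin (N + 1) → ℝ) :=
  LinearMap.toContinuousLinearMap
    { toFun := fun ξ => extend e ξ 0
      map_add' := fun ξ ξ' => by
        funext t; classical simp only [extend_def, Pi.add_apply]; split_ifs <;> simp
      map_smul' := fun c ξ => by
        funext t; classical simp only [extend_def, Pi.smul_apply]; split_ifs <;> simp }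

lemma extend_eq (e : Fin (M + 1) → Fin (N + 1)) (ξ : Fin (M + 1) → ℝ) (c : Fin (N + 1) → ℝ) :
    extend e ξ c = emb e ξ + extend e 0 c := by
  funext t
  change _ = extend e ξ 0 t + _
  classical
  simp only [extend_def]
  split_ifs <;> simp

lemma emb_single (he : Injective e) (u : Fin (M + 1)) :
    emb e (Pi.single u 1) = Pi.single (e u) 1 := by
  funext t
  change extend e (Pi.single u (1 : ℝ)) 0 t = _
  by_cases ht : ∃ v, e v = t
  · obtain ⟨v, rfl⟩ := ht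
    rw [he.extend_apply]
    simp [Pi.single_apply, he.eq_iff]
  · rw [extend_apply' _ _ _ ht, Pi.single_eq_of_ne fun h => ht ⟨u, h.symm⟩]; rfl

lemma hasFDerivAt_extend (e : Fin (M + 1) → Fin (N + 1)) (c : Fin (N + 1) → ℝ)
    (ξ : Fin (M + 1) → ℝ) : HasFDerivAt (fun ξ => extend e ξ c) (emb e) ξ := by
  rw [show (fun ξ => extend e ξ c) = fun ξ => emb e ξ + extend e 0 c from
    funext fun ξ => extend_eq e ξ c]
  exact (emb e).hasFDerivAt.add_const _

lemma diff_extend {u : (Fin (N + 1) → ℝ) → ℝ} (hu : Differentiable ℝ u)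
    (e : Fin (M + 1) → Fin (N + 1)) (c : Fin (N + 1) → ℝ) :
    Differentiable ℝ fun ξ => u (extend e ξ c) :=
  fun ξ => ((hu _).hasFDerivAt.comp ξ (hasFDerivAt_extend e c ξ)).differentiableAt

/-- the derivative in a field commutes with freezing -/
lemma fderiv_extend {u : (Fin (N + 1) → ℝ) → ℝ} (hu : Differentiable ℝ u) (he : Injective e)
    (c : Fin (N + 1) → ℝ) (ξ : Fin (M + 1) → ℝ) (v : Fin (M + 1)) :
    fderiv ℝ (fun ξ => u (extend e ξ c)) ξ (Pi.single v 1) =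
      fderiv ℝ u (extend e ξ c) (Pi.single (e v) 1) := by
  have := ((hu _).hasFDerivAt.comp ξ (hasFDerivAt_extend e c ξ)).fderiv
  rw [show (fun ξ => u (extend e ξ c)) = u ∘ fun ξ => extend e ξ c from rfl, this,
    ContinuousLinearMap.comp_apply, emb_single he]

theorem fr_pd (he : Injective e) {φ : PF N} (hφ : ∀ b s, Differentiable ℝ (φ b s))
    (u : Fin (M + 1)) : (P.fnet F e).pd u (P.Fr F e φ) = P.Fr F e (pd (e u) φ) := by
  funext i k s ξ
  exact fderiv_extend (hφ _ _) he _ ξ u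

lemma fr_gs (φ : PF N) : (P.fnet F e).gs (P.Fr F e φ) = P.Fr F e (gs φ) := rfl
lemma fr_add (φ ψ : PF N) : P.Fr F e (φ + ψ) = P.Fr F e φ + P.Fr F e ψ := rfl
lemma fr_sub (φ ψ : PF N) : P.Fr F e (φ - ψ) = P.Fr F e φ - P.Fr F e ψ := rfl
lemma fr_mul (φ ψ : PF N) : P.Fr F e (φ * ψ) = P.Fr F e φ * P.Fr F e ψ := rfl
lemma fr_smul (c : ℝ) (φ : PF N) : P.Fr F e (c • φ) = c • P.Fr F e φ := rfl
lemma fr_zero : P.Fr F e 0 = 0 := rfl
lemma fr_one : P.Fr F e 1 = 1 := rfl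
lemma fr_sp : P.Fr F e (fun _ s _ => spin s) = (P.fnet F e).sp := rfl
lemma fr_diff {φ : PF N} (hφ : ∀ b s, Differentiable ℝ (φ b s)) (i : F.I) (k : Fin (F.n i))
    (s : Bool) : Differentiable ℝ (P.Fr F e φ i k s) := diff_extend (hφ _ _) e _
lemma Sm.fmem {φ : PF N} (h : Sm φ) : P.Fr F e φ ∈ (P.fnet F e).C := ⟨φ, h, rfl⟩

lemma fr_th (he : Fe P e) :
    P.Fr F e (fun b _ ξ => Real.tanh (b + ξ 0)) = (P.fnet F e).th := by
  funext i k s ξ
  change Real.tanh (_ + extend e ξ _ 0) = Real.tanh (_ + ξ 0)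
  rw [← he.zero, he.mono.injective.extend_apply]
  rfl

/-- letters that read the fields only -/
lemma fr_res (he : Injective e) (ψ : PF M) :
    P.Fr F e (fun b s ξ => ψ b s (ξ ∘ e)) = fl F ψ := by
  funext i k s ξ
  change ψ _ s (extend e ξ _ ∘ e) = ψ _ s ξ
  rw [extend_comp he]

theorem fr_me (h : P.Ok) (he : Fe P e) (φ : PF N) (i : F.I) :
    F.me ((P.fnet F e).ev (P.Fr F e φ)) i =
      me (F.s i) (F.J i) (F.y i) (P.X (F.s i) (F.J i) (F.y i)) φ := by
  unfold Fam.me Fam.E me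
  simp only [fr_ev h he]
  rfl

theorem fr_o (h : P.Ok) (he : Fe P e) (u v : Fin (M + 1)) (i : F.I) :
    (P.fnet F e).o u v i = P.o (F.s i) (F.J i) (F.y i) (e u) (e v) := by
  change F.me ((P.fnet F e).ev ((P.fnet F e).pd v (P.Fr F e (P.f (e u))))) i = _
  rw [fr_pd he.mono.injective (h.sf _).diff, fr_me h he]
  rfl

theorem Prog.Ok.fnet (h : P.Ok) (he : Fe P e) (F : Fam) : (P.fnet F e).Ok where
  bd := by
    rintro _ ⟨φ, hφ, rfl⟩
    obtain ⟨C, -, hC⟩ := hφ.bd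
    exact ⟨C, fun _ _ _ _ => hC _ _ _⟩
  diff := by rintro _ ⟨φ, hφ, rfl⟩ i k s; exact fr_diff hφ.diff i k s
  one := ⟨1, .one, rfl⟩
  sp := ⟨_, .spin' spin, rfl⟩
  th := ⟨_, .th, (fr_th he).symm⟩
  add := by rintro _ ⟨φ, hφ, rfl⟩ _ ⟨ψ, hψ, rfl⟩; exact ⟨_, hφ.add hψ, rfl⟩
  smul := by rintro c _ ⟨φ, hφ, rfl⟩; exact ⟨_, hφ.smul c, rfl⟩
  mul := by rintro _ ⟨φ, hφ, rfl⟩ _ ⟨ψ, hψ, rfl⟩; exact ⟨_, hφ.mul hψ, rfl⟩
  pd := by
    rintro _ ⟨φ, hφ, rfl⟩ m
    exact ⟨_, hφ.pd (e m), fr_pd he.mono.injective hφ.diff m⟩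
  gs := by rintro _ ⟨φ, hφ, rfl⟩; exact ⟨_, hφ.gs, rfl⟩
  fC l := (h.sf _).fmem
  f0 := by change P.Fr F e (P.f (e 0)) = _; rw [he.zero, h.f0]; rfl
  dep l i k s ξ ξ' hξ := h.rf (e l) _ s _ _ fun t ht => by
    by_cases h' : ∃ u, e u = t
    · obtain ⟨u, rfl⟩ := h'
      rw [he.mono.injective.extend_apply, he.mono.injective.extend_apply,
        hξ u (he.mono.lt_iff_lt.1 ht)]
    · rw [extend_apply' _ _ _ h', extend_apply' _ _ _ h']
  X0 ω := by
    change P.X _ _ _ (e 0) ω.2 = _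
    rw [he.zero]
    exact h.X0 ω.2
  hX l := ⟨fun i => P.κ (F.s i) (F.J i) (F.y i) (e l), fun ω => by
    change P.X _ _ _ (e l) ω.2 = F.J ω.1 *ᵥ (P.fnet F e).ev (P.Fr F e (P.f (e l))) ω -
      ∑ m, (P.fnet F e).o l m ω.1 • (P.fnet F e).ev (P.Fr F e (P.f (e m))) ω - _
    rw [h.X_eq, fr_ev h he]
    congr 2
    refine (Fintype.sum_of_injective e he.mono.injective _ _ (fun t ht => ?_) fun m => ?_).symm
    · rw [he.off t ht]; exact smul_zero _
    · rw [fr_o h he, fr_ev h he]⟩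

/-- extensions -/
theorem fnet_ext {N' M' : ℕ} {P' : Prog N'} {e' : Fin (M' + 1) → Fin (N' + 1)} (h : P.Ok)
    (he : Fe P e) (h' : P'.Ok) (he' : Fe P' e')
    (H : ∀ φ, Sm φ → ∃ φ', Sm φ' ∧ ∀ i, P'.e (F.s i) (F.J i) (F.y i) φ' =
      P.e (F.s i) (F.J i) (F.y i) φ) : (P.fnet F e).Ext (P'.fnet F e') := by
  rintro _ ⟨φ, hφ, rfl⟩
  obtain ⟨φ', h1, h2⟩ := H φ hφ
  exact ⟨_, h1.fmem, funext fun ω => by rw [fr_ev h he, fr_ev h' he', h2]⟩

end Crest.Agent.T157.S3P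

end
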