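import Crest.Agent.T157.UwA_98
import Crest.Agent.T157.Chain_22

/-!
# Row 157, B, block S3: the Gram identity in neutral words (helper7)

`SP` sums over the decreasing paths of a flow family, `Y0`, `T0` are the exact Wick expansions,
`gram` reduces `E ⟨u, Y d Y'ᵀ v⟩` to its scalar part once clean words have small means.
-/

set_option autoImplicit false
set_option linter.unusedSectionVars false

noncomputable section

namespace Crest.Agent.T157.S3.Gr7

open Matrix Finset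
open Crest.Agent.T157.Eig Crest.Agent.T157.Uw Crest.Agent.T157.Chain22

/-! ### sums over paths -/

section paths
variable {L V V' : Type*} [AddCommGroup V] [AddCommGroup V'] (al : ℕ → L) (a : ℕ → ℕ → L)

/-- sum over the decreasing paths which start at `l` -/
def SP : ℕ → (List L → L → V) → V
  | l, Φ => Φ [] (al l) + ∑ m : Fin l, SP m fun π e => Φ (a l m :: π) e
decreasing_by exact m.2

lemma SP_eq (l : ℕ) (Φ : List L → L → V) : SP al a l Φ =
    Φ [] (al l) + ∑ m ∈ range l, SP al a m fun π e => Φ (a l m :: π) e := by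
  rw [SP, Finset.sum_range]

lemma SP_hom (f : V →+ V') (l : ℕ) : ∀ Φ : List L → L → V,
    f (SP al a l Φ) = SP al a l fun π e => f (Φ π e) := by
  induction l using Nat.strong_induction_on with
  | _ l ih =>
    intro Φ
    rw [SP_eq, SP_eq, map_add, map_sum]
    exact congrArg _ (sum_congr rfl fun m hm => ih m (mem_range.1 hm) _)

lemma SP_add (l : ℕ) : ∀ Φ Ψ : List L → L → V,
    SP al a l (fun π e => Φ π e + Ψ π e) = SP al a l Φ + SP al a l Ψ := by
  induction l using Nat.strong_induction_on with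
  | _ l ih =>
    intro Φ Ψ
    rw [SP_eq, SP_eq _ _ l Φ, SP_eq _ _ l Ψ, add_add_add_comm, ← sum_add_distrib]
    exact congrArg _ (sum_congr rfl fun m hm => ih m (mem_range.1 hm) _ _)

lemma SP_zero (l : ℕ) : SP al a l (fun _ _ => (0 : V)) = 0 :=
  (SP_hom al a (0 : V →+ V) l fun _ _ => 0).symm

lemma SP_sub (l : ℕ) (Φ Ψ : List L → L → V) :
    SP al a l (fun π e => Φ π e - Ψ π e) = SP al a l Φ - SP al a l Ψ := by
  rw [eq_sub_iff_add_eq, ← SP_add]; simp only [sub_add_cancel]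

lemma SP_sum {σ : Type*} (t : Finset σ) (l : ℕ) (Φ : σ → List L → L → V) :
    SP al a l (fun π e => ∑ j ∈ t, Φ j π e) = ∑ j ∈ t, SP al a l (Φ j) := by
  classical
  induction t using Finset.induction_on with
  | empty => simpa using SP_zero al a l
  | insert j t hj ih => simp only [sum_insert hj, SP_add, ih]

lemma SP_lin (f : V → V') (hf : ∀ u v, f (u + v) = f u + f v) (l : ℕ) (Φ : List L → L → V) :
    f (SP al a l Φ) = SP al a l fun π e => f (Φ π e) := SP_hom al a (AddMonoidHom.mk' f hf) l Φ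

lemma SP_mul (r : ℝ) (l : ℕ) (Φ : List L → L → ℝ) :
    r * SP al a l Φ = SP al a l fun π e => r * Φ π e := SP_hom al a (AddMonoidHom.mulLeft r) l Φ

lemma SP_mean {Ω : Type*} [Fintype Ω] (μ : Ω → ℝ) (l : ℕ) (Φ : Ω → List L → L → ℝ) :
    mean μ (fun x => SP al a l (Φ x)) = SP al a l fun π e => mean μ fun x => Φ x π e := by
  simp only [mean, SP_sum, SP_mul]

lemma SP_le (N : V → ℝ) (h0 : N 0 ≤ 0) (hadd : ∀ u v, N (u + v) ≤ N u + N v) {P E : L → Prop}
    {M : ℕ} (hal : ∀ l ≤ M, E (al l)) (ha : ∀ l ≤ M, ∀ m < l, P (a l m)) {B : ℝ} (l : ℕ) :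
    l ≤ M → ∀ Φ : List L → L → V, (∀ π e, (∀ b ∈ π, P b) → π.length ≤ l → E e → N (Φ π e) ≤ B) →
      N (SP al a l Φ) ≤ 2 ^ l * B := by
  induction l using Nat.strong_induction_on with
  | _ l ih =>
    intro hl Φ h
    rw [SP_eq]
    have h1 := h [] _ (by simp) (by simp) (hal l hl)
    have h2 := (le_sum_of_subadditive N h0 hadd (range l) _).trans (sum_le_sum fun m hm =>
      ih m (mem_range.1 hm) ((mem_range.1 hm).le.trans hl) (fun π e => Φ (a l m :: π) e)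
        fun π e p1 p2 p3 => h _ _ (List.forall_mem_cons.2 ⟨ha l hl m (mem_range.1 hm), p1⟩)
          (Nat.succ_le_of_lt (p2.trans_lt (mem_range.1 hm))) p3)
    rw [← sum_mul, geom_sum_eq (by norm_num)] at h2
    linarith [hadd (Φ [] (al l)) (∑ m ∈ range l, SP al a m fun π e => Φ (a l m :: π) e)]

end paths

/-! ### exact Wick expansions -/

variable {Ω ι : Type*} [Fintype Ω] [Fintype ι] [DecidableEq ι] {s R c : ℝ} {J : Matrix ι ι ℝ}

/-- the letters at a point -/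
abbrev ev (π : List (Ω → ι → ℝ)) (x : Ω) : List (ι → ℝ) := π.map fun b => b x

lemma ev_rev (π : List (Ω → ι → ℝ)) (x : Ω) : ev π.reverse x = (ev π x).reverse := List.map_reverse

section exact
variable (s J) (al : ℕ → Ω → ι → ℝ) (a : ℕ → ℕ → Ω → ι → ℝ)

def Y0 (l : ℕ) (x : Ω) : Matrix ι ι ℝ := SP al a l fun π e => Vk s J (ev π x ++ [e x])
def T0 (l : ℕ) (x : Ω) : Matrix ι ι ℝ := SP al a l fun π e => Uk s J (ev π x ++ [e x])

lemma T0_eq (l : ℕ) (x : Ω) : T0 s J al a l x =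
    diagonal (al l x) + ∑ m ∈ range l, diagonal (a l m x) * Y0 s J al a m x := by
  rw [T0, SP_eq]
  congr 1
  · simp [Uk_cons]
  · exact sum_congr rfl fun m _ => (SP_hom al a (AddMonoidHom.mulLeft (diagonal (a l m x))) m _).symm

lemma Y0_eq (l : ℕ) (x : Ω) : Y0 s J al a l x =
    J * T0 s J al a l x - ∑ m ∈ range l, eta s (a l m x) • T0 s J al a m x := by
  have h := SP_hom al a (AddMonoidHom.mulLeft J) l fun π e => Uk s J (ev π x ++ [e x])
  rw [Y0, T0, show J * _ = _ from h, SP_eq, SP_eq _ _ l, add_sub_assoc, ← sum_sub_distrib]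
  congr 1
  · simp [Vk_cons']
  · refine sum_congr rfl fun m _ => ?_
    have h2 := SP_hom al a (DistribSMul.toAddMonoidHom (Matrix ι ι ℝ) (eta s (a l m x))) m
      fun π e => Uk s J (ev π x ++ [e x])
    rw [T0, show eta s (a l m x) • _ = _ from h2, ← SP_sub]
    rfl

end exact

lemma opn_VU' (hs : s ^ 2 * Fintype.card ι ≤ 1) (hR : opn J ≤ R) (hc : 0 ≤ c) :
    ∀ {l : List (ι → ℝ)}, (∀ b ∈ l, ∀ i, |b i| ≤ c) →
    opn (Vk s J l) ≤ ((1 + R) * c) ^ l.length ∧ opn (Uk s J l) ≤ ((1 + R) * c) ^ l.length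
  | [], _ => by simp [opn_one_le]
  | b :: l, h => by
    obtain ⟨h1, h2⟩ := opn_VU' hs hR hc (List.forall_mem_cons.1 h).2
    have R0 : 0 ≤ R := (opn_nonneg _).trans hR
    have h3 := opn_mul_le' (opn_diagonal_le hc (List.forall_mem_cons.1 h).1) h1
    have h4 := opn_mul_le' hR h3
    have h5 := opn_smul_le (abs_eta_le hs hc (List.forall_mem_cons.1 h).1) h2
    have h6 : 0 ≤ R * (c * ((1 + R) * c) ^ l.length) := by positivity
    rw [Vk_cons, Uk_cons, List.length_cons, pow_succ]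
    exact ⟨(opn_sub_le _ _).trans (by linarith), by linarith⟩

/-! ### the scalar part -/

/-- product of the contractions of two words of the same length -/
def pr (s : ℝ) : List (ι → ℝ) → List (ι → ℝ) → ℝ
  | [], [] => 1
  | a :: l, b :: m => eta s (a * b) * pr s l m
  | _, _ => 0

lemma pr_snoc (a b : ι → ℝ) : ∀ l m : List (ι → ℝ),
    pr s (l ++ [a]) (m ++ [b]) = eta s (a * b) * pr s l m
  | [], [] => by simp [pr]
  | [], _ :: m => by cases m <;> simp [pr]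
  | _ :: l, [] => by cases l <;> simp [pr]
  | _ :: l, _ :: m => by simp only [List.cons_append, pr, pr_snoc a b l m]; ring

lemma pr_rev : ∀ l m : List (ι → ℝ), pr s l.reverse m.reverse = pr s l m
  | [], [] => rfl
  | [], b :: m => by
    obtain ⟨b', m', h⟩ := List.exists_cons_of_ne_nil (l := (b :: m).reverse) (by simp)
    rw [h]; rfl
  | a :: l, [] => by
    obtain ⟨b', m', h⟩ := List.exists_cons_of_ne_nil (l := (a :: l).reverse) (by simp)
    rw [h]; rfl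
  | a :: l, b :: m => by rw [List.reverse_cons, List.reverse_cons, pr_snoc, pr_rev l m, pr]

/-- the scalar part of `Y0 d Y0'ᵀ` -/
def P0 (s : ℝ) (al : ℕ → Ω → ι → ℝ) (a : ℕ → ℕ → Ω → ι → ℝ) (al' : ℕ → Ω → ι → ℝ)
    (a' : ℕ → ℕ → Ω → ι → ℝ) (d : Ω → ι → ℝ) (l m : ℕ) (x : Ω) : ℝ :=
  SP al a l fun π e => SP al' a' m fun π' e' => eta s (e x * d x * e' x) * pr s (ev π x) (ev π' x)

lemma P0_eq (al : ℕ → Ω → ι → ℝ) (a : ℕ → ℕ → Ω → ι → ℝ) (al' : ℕ → Ω → ι → ℝ)
    (a' : ℕ → ℕ → Ω → ι → ℝ) (d : Ω → ι → ℝ) (l m : ℕ) (x : Ω) :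
    P0 s al a al' a' d l m x = eta s (al l x * d x * al' m x) + ∑ p ∈ range l, ∑ q ∈ range m,
      eta s (a l p x * a' m q x) * P0 s al a al' a' d p q x := by
  rw [P0, SP_eq]
  congr 1
  · rw [SP_eq]; simp [pr, SP_zero]
  · refine sum_congr rfl fun p _ => ?_
    simp only [P0, SP_mul, ← SP_sum]
    refine congrArg _ (funext₂ fun π e => ?_)
    rw [SP_eq]
    simp only [List.map_cons, List.map_nil, pr, mul_zero, zero_add, mul_left_comm]

/-- the recursion determines the scalar part -/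
lemma eq_P0 {al al' : ℕ → Ω → ι → ℝ} {a a' : ℕ → ℕ → Ω → ι → ℝ} {d : Ω → ι → ℝ} {N : ℕ} {x : Ω}
    {p : ℕ → ℕ → ℝ} (hp : ∀ l ≤ N, ∀ m ≤ N, p l m = eta s (al l x * d x * al' m x) +
      ∑ i ∈ range l, ∑ j ∈ range m, eta s (a l i x * a' m j x) * p i j) (l : ℕ) :
    l ≤ N → ∀ m ≤ N, p l m = P0 s al a al' a' d l m x := by
  induction l using Nat.strong_induction_on with
  | _ l ih =>
    intro hl m hm
    rw [hp l hl m hm, P0_eq]
    exact congrArg _ (sum_congr rfl fun i hi => sum_congr rfl fun j hj => by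
      rw [ih i (mem_range.1 hi) ((mem_range.1 hi).le.trans hl) j ((mem_range.1 hj).le.trans hm)])

/-! ### concentrated scalars -/

variable {μ : Ω → ℝ} {δ β Λ : ℝ}

/-- a bounded scalar which is close to a constant in mean -/
def Con (μ : Ω → ℝ) (c δ : ℝ) (j : ℕ) (f : Ω → ℝ) : Prop :=
  ∃ f₀, (∀ x, |f x| ≤ c ^ j) ∧ |f₀| ≤ c ^ j ∧ mean μ (fun x => |f x - f₀|) ≤ j * c ^ j * δ

lemma abs_mean_le' (hμ : IsP μ) {f g : Ω → ℝ} (h : ∀ x, |f x| ≤ g x) : |mean μ f| ≤ mean μ g :=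
  (abs_sum_le_sum_abs _ _).trans (sum_le_sum fun x _ => by
    rw [abs_mul, abs_of_nonneg (hμ.nn x)]; exact mul_le_mul_of_nonneg_left (h x) (hμ.nn x))

lemma mean_lin (f g : Ω → ℝ) (p q : ℝ) :
    mean μ (fun x => p * f x + q * g x) = p * mean μ f + q * mean μ g := by
  simp only [mean, mul_sum, ← sum_add_distrib]
  exact sum_congr rfl fun x _ => by ring

lemma Con.one : Con μ c δ 0 fun _ => 1 :=
  ⟨1, fun _ => by simp, by simp, by simp [mean]⟩

lemma Con.mul (hμ : IsP μ) (hc : 1 ≤ c) (hδ : 0 ≤ δ) {j : ℕ} {f g : Ω → ℝ} (h : Con μ c δ j f)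
    (hg : ∀ x, |g x| ≤ c) (hg' : mean μ (fun x => |g x - mean μ g|) ≤ δ) :
    Con μ c δ (j + 1) fun x => f x * g x := by
  obtain ⟨f₀, h1, h2, h3⟩ := h
  have p0 : 0 ≤ c ^ j := by positivity
  refine ⟨f₀ * mean μ g, fun x => ?_, ?_, ?_⟩
  · rw [abs_mul, pow_succ]; exact mul_le_mul (h1 x) (hg x) (abs_nonneg _) p0
  · rw [abs_mul, pow_succ]; exact mul_le_mul h2 (hμ.abs_mean_le hg) (abs_nonneg _) p0
  · refine (hμ.mean_mono (g := fun x => c * |f x - f₀| + c ^ j * |g x - mean μ g|)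
      fun x => ?_).trans ?_
    · rw [show f x * g x - f₀ * mean μ g = g x * (f x - f₀) + f₀ * (g x - mean μ g) by ring]
      refine (abs_add_le _ _).trans ?_
      rw [abs_mul, abs_mul]
      exact add_le_add (mul_le_mul_of_nonneg_right (hg x) (abs_nonneg _))
        (mul_le_mul_of_nonneg_right h2 (abs_nonneg _))
    · rw [mean_lin, pow_succ]
      push_cast
      nlinarith [mul_le_mul_of_nonneg_left h3 (zero_le_one.trans hc),
        mul_le_mul_of_nonneg_left hg' p0, mul_nonneg (mul_nonneg p0 hδ) (sub_nonneg.2 hc)]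

lemma Con.abs_mean (hμ : IsP μ) (hc : 1 ≤ c) (hδ : 0 ≤ δ) (hΛ : 0 ≤ Λ) {j k : ℕ}
    (hj : j ≤ k) {f g : Ω → ℝ} (h : Con μ c δ j f) (hg : ∀ x, |g x| ≤ Λ) (hg' : |mean μ g| ≤ β) :
    |mean μ fun x => f x * g x| ≤ c ^ k * (β + k * δ * Λ) := by
  obtain ⟨f₀, -, h2, h3⟩ := h
  have e : (mean μ fun x => f x * g x) =
      f₀ * mean μ g + 1 * mean μ fun x => (f x - f₀) * g x := by
    rw [← mean_lin]; congr 1; ext x; ring
  have h4 : |mean μ fun x => (f x - f₀) * g x| ≤ Λ * (j * c ^ j * δ) := by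
    refine (abs_mean_le' hμ (g := fun x => Λ * |f x - f₀| + 0 * f x) fun x => ?_).trans ?_
    · rw [abs_mul, zero_mul, add_zero, mul_comm]
      exact mul_le_mul_of_nonneg_right (hg x) (abs_nonneg _)
    · rw [mean_lin, zero_mul, add_zero]; exact mul_le_mul_of_nonneg_left h3 hΛ
  have p1 : c ^ j ≤ c ^ k := pow_le_pow_right₀ hc hj
  have p2 : (j : ℝ) ≤ k := by exact_mod_cast hj
  rw [e, one_mul]
  refine (abs_add_le _ _).trans ?_
  rw [abs_mul, mul_add]
  refine add_le_add (mul_le_mul (h2.trans p1) hg' (abs_nonneg _) (by positivity)) (h4.trans ?_)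
  calc Λ * (j * c ^ j * δ) ≤ Λ * (k * c ^ k * δ) := by gcongr
    _ = _ := by ring

lemma diag_mulVec (d w : ι → ℝ) : diagonal d *ᵥ w = d * w := funext fun i => mulVec_diagonal d w i

lemma dot_diag (u d w : ι → ℝ) : u ⬝ᵥ diagonal d *ᵥ w = (d * u) ⬝ᵥ w := by
  simp only [diag_mulVec, dotProduct, Pi.mul_apply]
  exact sum_congr rfl fun i _ => by ring

/-! ### one product of two Wick words -/

/-- the hypotheses on the letters `P`, the middle letters `Q` and the test vectors `u`, `v` -/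
structure Hyp (μ : Ω → ℝ) (s : ℝ) (J : Matrix ι ι ℝ) (R c δ β M : ℝ) (k : ℕ)
    (P Q : (Ω → ι → ℝ) → Prop) (u v : Ω → ι → ℝ) : Prop where
  isP : IsP μ
  hs : s ^ 2 * Fintype.card ι ≤ 1
  symm : Jᵀ = J
  op : opn J ≤ R
  c1 : 1 ≤ c
  δ0 : 0 ≤ δ
  pq : ∀ b, P b → Q b
  mul : ∀ b b', P b → P b' → Q (b * b')
  bd : ∀ b, Q b → ∀ x i, |b x i| ≤ c
  con : ∀ b, Q b → mean μ (fun x => |eta s (b x) - mean μ fun x => eta s (b x)|) ≤ δ
  uv : ∀ x, nrm (u x) * nrm (v x) ≤ M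
  mid : ∀ l, (∀ b ∈ l, Q b) → l.length ≤ k → |mean μ fun x => u x ⬝ᵥ Wk s J (ev l x) *ᵥ v x| ≤ β
  left : ∀ l b, (∀ b ∈ l, P b) → l.length ≤ k → P b →
    |mean μ fun x => u x ⬝ᵥ Wk s J (ev l x) *ᵥ (b x * v x)| ≤ β
  right : ∀ l b, (∀ b ∈ l, P b) → l.length ≤ k → P b →
    |mean μ fun x => (b x * u x) ⬝ᵥ Wk s J (ev l x) *ᵥ v x| ≤ β

variable {M : ℝ} {k : ℕ} {P Q : (Ω → ι → ℝ) → Prop} {u v : Ω → ι → ℝ}

namespace Hyp
variable (h : Hyp μ s J R c δ β M k P Q u v)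
include h

lemma R0 : 0 ≤ R := (opn_nonneg _).trans h.op
lemma c0 : 0 ≤ c := zero_le_one.trans h.c1
lemma one_le : 1 ≤ (1 + R) * c := one_le_mul_of_one_le_of_one_le (by linarith [h.R0]) h.c1

lemma opn_V {l : List (ι → ℝ)} (hl : ∀ b ∈ l, ∀ i, |b i| ≤ c) {j : ℕ} (hj : l.length ≤ j) :
    opn (Vk s J l) ≤ ((1 + R) * c) ^ j ∧ opn (Uk s J l) ≤ ((1 + R) * c) ^ j :=
  ⟨(opn_VU' h.hs h.op h.c0 hl).1.trans (pow_le_pow_right₀ h.one_le hj),
    (opn_VU' h.hs h.op h.c0 hl).2.trans (pow_le_pow_right₀ h.one_le hj)⟩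

lemma bd_ev {l : List (Ω → ι → ℝ)} (hl : ∀ b ∈ l, Q b) (x : Ω) {e : ι → ℝ} (he : ∀ i, |e i| ≤ c) :
    ∀ b ∈ ev l x ++ [e], ∀ i, |b i| ≤ c := by
  simp only [List.mem_append, List.mem_map, List.mem_singleton]
  rintro b (⟨b', h1, rfl⟩ | rfl)
  exacts [h.bd _ (hl _ h1) x, he]

lemma bil_le {A : Matrix ι ι ℝ} (hA : opn A ≤ Λ) (x : Ω) : |u x ⬝ᵥ A *ᵥ v x| ≤ Λ * M :=
  (abs_bil_le _ _ _).trans (mul_le_mul hA (h.uv x) (mul_nonneg (nrm_nonneg _) (nrm_nonneg _))
    ((opn_nonneg _).trans hA))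

lemma M0 (x : Ω) : 0 ≤ M := (mul_nonneg (nrm_nonneg _) (nrm_nonneg _)).trans (h.uv x)

lemma step {j : ℕ} (hj : j ≤ k) {f : Ω → ℝ} (hf : Con μ c δ j f) {l : List (Ω → ι → ℝ)}
    (hl : ∀ b ∈ l, Q b) (hk : l.length ≤ k) {e : Ω → ι → ℝ} (he : ∀ x i, |e x i| ≤ c)
    {g : Ω → ℝ} (hg : ∀ x, g x = u x ⬝ᵥ Vk s J (ev l x ++ [e x]) *ᵥ v x ∨
      g x = u x ⬝ᵥ (Vk s J (ev l x ++ [e x]))ᵀ *ᵥ v x) (hb : |mean μ g| ≤ β) :
    |mean μ fun x => f x * g x| ≤ c ^ k * (β + k * δ * (((1 + R) * c) ^ (k + 1) * M)) := by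
  have h1 := fun x => (h.opn_V (h.bd_ev hl x (he x)) (j := k + 1) (by simpa using hk)).1
  have M0 : 0 ≤ M := by
    by_contra h0
    have := h.isP.sum1
    rw [sum_eq_zero fun x _ => (h0 (h.M0 x)).elim] at this
    exact zero_ne_one this
  refine hf.abs_mean h.isP h.c1 h.δ0 (by have := h.one_le; positivity) hj (fun x => ?_) hb
  rcases hg x with e | e <;> rw [e]
  exacts [h.bil_le (h1 x) x, h.bil_le ((opn_transpose _).trans_le (h1 x)) x]

theorem wdw (l : List (Ω → ι → ℝ)) : ∀ (m : List (Ω → ι → ℝ)) (d : Ω → ι → ℝ) (j : ℕ) (f : Ω → ℝ),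
    (∀ b ∈ l, P b) → (∀ b ∈ m, P b) → Q d → Con μ c δ j f → l.length + m.length + 1 ≤ k →
    j + l.length + 1 ≤ k →
    |mean μ (fun x => f x * (u x ⬝ᵥ (Wk s J (ev l x).reverse * diagonal (d x) * Wk s J (ev m x)) *ᵥ
        v x)) - mean μ fun x => f x * eta s (d x) * pr s (ev l x) (ev m x) * (u x ⬝ᵥ v x)| ≤
      (l.length + 2) * (c ^ k * (β + k * δ * (((1 + R) * c) ^ (k + 1) * M))) := by
  have one : ∀ (_ : Ω) (i : ι), |(1 : ι → ℝ) i| ≤ c := fun _ _ => by simpa using h.c1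
  have key : ∀ (l m : List (Ω → ι → ℝ)) (d : Ω → ι → ℝ) (j : ℕ) (f : Ω → ℝ) (t Z : ℝ),
      (∀ b ∈ l, P b) → (∀ b ∈ m, P b) → Q d → Con μ c δ j f → l.length + m.length + 1 ≤ k →
      j ≤ k → Z = c ^ k * (β + k * δ * (((1 + R) * c) ^ (k + 1) * M)) →
      |mean μ (fun x => f x * (u x ⬝ᵥ (Wk s J (ev l x).reverse * diagonal (d x) *
        Wk s J (ev m x)) *ᵥ v x)) - t| ≤ Z + |mean μ (fun x => f x * eta s (d x) *
          (u x ⬝ᵥ (Vk s J (ev l x).reverse * Uk s J (ev m x ++ [1])) *ᵥ v x)) - t| := by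
    intro l m d j f t Z hl hm hd hf h1 h2 hZ
    have hq : ∀ b ∈ l.reverse ++ d :: m, Q b := by
      simp only [List.mem_append, List.mem_reverse, List.mem_cons]
      rintro b (hb | rfl | hb)
      exacts [h.pq _ (hl _ hb), hd, h.pq _ (hm _ hb)]
    have hk : (l.reverse ++ d :: m).length ≤ k := by simp; omega
    have h3 := h.step h2 hf hq hk one (fun x => .inl rfl) (h.mid _ hq hk)
    rw [← hZ] at h3
    refine le_trans (le_of_eq ?_) ((abs_add_le _ _).trans (add_le_add h3 le_rfl))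
    rw [← add_sub_assoc, ← mean_add]
    congr 3
    ext x
    rw [Wk.eq_1 s J (ev m x), Wk_mul, add_mulVec, dotProduct_add, smul_mulVec, dotProduct_smul]
    simp only [Pi.add_apply, ev, List.map_append, List.map_reverse, List.map_cons, List.append_assoc,
      List.cons_append, smul_eq_mul]
    ring
  induction l with
  | nil =>
    intro m d j f hl hm hd hf h1 h2
    have hf' := hf.mul h.isP h.c1 h.δ0 (fun x => abs_eta_le h.hs h.c0 (h.bd d hd x)) (h.con d hd)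
    refine (key [] m d j f _ _ hl hm hd hf h1 (by omega) rfl).trans ?_
    have Z0 := (abs_nonneg _).trans (h.step (by omega) hf (l := []) (by simp) (by simp) one
      (fun x => .inl rfl) (h.mid [] (by simp) (by simp)))
    cases m with
    | nil =>
      simp only [List.map_nil, List.reverse_nil, Vk_nil, List.nil_append, Uk_cons, pr, mul_one,
        show diagonal (1 : ι → ℝ) = 1 from diagonal_one, one_mulVec, sub_self, abs_zero,
        List.length_nil, Nat.cast_zero]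
      linarith
    | cons b m =>
      have hb := List.forall_mem_cons.1 hm
      have h3 := h.step (j := j + 1) (by omega) hf' (l := m.reverse)
        (fun b hb' => h.pq _ (hb.2 b (List.mem_reverse.1 hb'))) (by simp at h1 ⊢; omega)
        (h.bd b (h.pq _ hb.1)) (fun x => .inr (by
          rw [← Wk_mul_diag, transpose_mul, diagonal_transpose, (rev h.symm _).1, ← mulVec_mulVec,
            dot_diag, ev_rev, List.reverse_reverse]))
        (h.right m b hb.2 (by simp at h1; omega) hb.1)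
      have e : ∀ x, u x ⬝ᵥ (Vk s J (ev [] x).reverse * Uk s J (ev (b :: m) x ++ [1])) *ᵥ v x =
          (b x * u x) ⬝ᵥ Wk s J (ev m x) *ᵥ v x := fun x => by
        simp [Uk_cons, Wk, ← mulVec_mulVec, dot_diag]
      simp only [e]
      simp only [List.map_nil, List.map_cons, pr, mul_zero, zero_mul, h.isP.mean_const, sub_zero,
        List.length_nil, Nat.cast_zero]
      linarith
  | cons a l ih =>
    intro m d j f hl hm hd hf h1 h2
    have ha := List.forall_mem_cons.1 hl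
    have hf' := hf.mul h.isP h.c1 h.δ0 (fun x => abs_eta_le h.hs h.c0 (h.bd d hd x)) (h.con d hd)
    refine (key (a :: l) m d j f _ _ hl hm hd hf h1 (by omega) rfl).trans ?_
    simp only [List.length_cons] at h1 h2
    cases m with
    | nil =>
      have hl' : ∀ b ∈ l.reverse, P b := fun b hb' => ha.2 b (List.mem_reverse.1 hb')
      have h3 := h.step (j := j + 1) (by omega) hf' (l := l.reverse) (fun b hb => h.pq _ (hl' b hb))
        (by simp; omega) (h.bd a (h.pq _ ha.1)) (fun x => .inl (by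
          rw [← Wk_mul_diag, ← mulVec_mulVec, diag_mulVec]))
        (h.left l.reverse a hl' (by simp; omega) ha.1)
      have Z0 := (abs_nonneg _).trans h3
      have e : ∀ x, u x ⬝ᵥ (Vk s J (ev (a :: l) x).reverse * Uk s J (ev [] x ++ [1])) *ᵥ v x =
          u x ⬝ᵥ Wk s J (ev l.reverse x) *ᵥ (a x * v x) := fun x => by
        simp [Uk_cons, ← Wk_mul_diag, ← mulVec_mulVec, diag_mulVec]
      simp only [e]
      simp only [List.map_nil, List.map_cons, pr, mul_zero, zero_mul, h.isP.mean_const, sub_zero,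
        List.length_cons]
      push_cast
      nlinarith [mul_nonneg (Nat.cast_nonneg (α := ℝ) l.length) Z0]
    | cons b m =>
      have hb := List.forall_mem_cons.1 hm
      have h3 := ih m (a * b) (j + 1) _ ha.2 hb.2 (h.mul a b ha.1 hb.1) hf'
        (by simp at h1; omega) (by omega)
      have e : ∀ x, Vk s J (ev (a :: l) x).reverse * Uk s J (ev (b :: m) x ++ [1]) =
          Wk s J (ev l x).reverse * diagonal ((a * b) x) * Wk s J (ev m x) := fun x => by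
        rw [ev, ev, List.map_cons, List.map_cons, List.reverse_cons, List.cons_append, Uk_cons,
          ← Wk_mul_diag, ← Matrix.mul_assoc, Matrix.mul_assoc _ (diagonal (a x)) (diagonal (b x)),
          diagonal_mul_diagonal]
        rfl
      simp only [e]
      simp only [List.map_cons, pr, List.length_cons, ← mul_assoc]
      push_cast
      simp only [Pi.mul_apply a b] at h3 ⊢
      linarith

variable {N : ℕ} {al al' : ℕ → Ω → ι → ℝ} {a a' : ℕ → ℕ → Ω → ι → ℝ} {d : Ω → ι → ℝ}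

theorem gram0 (hk : 2 * N + 1 ≤ k) (ha : ∀ l ≤ N, ∀ m < l, P (a l m))
    (ha' : ∀ l ≤ N, ∀ m < l, P (a' l m)) (hQ : ∀ l ≤ N, ∀ m ≤ N, Q (al l * d * al' m)) {l m : ℕ}
    (hl : l ≤ N) (hm : m ≤ N) :
    |mean μ (fun x => u x ⬝ᵥ (Y0 s J al a l x * diagonal (d x) * (Y0 s J al' a' m x)ᵀ) *ᵥ v x) -
      mean μ fun x => P0 s al a al' a' d l m x * (u x ⬝ᵥ v x)| ≤
      2 ^ l * (2 ^ m * ((N + 2) * (c ^ k * (β + k * δ * (((1 + R) * c) ^ (k + 1) * M))))) := by
  have e1 : ∀ x, u x ⬝ᵥ (Y0 s J al a l x * diagonal (d x) * (Y0 s J al' a' m x)ᵀ) *ᵥ v x =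
      SP al a l fun π e => SP al' a' m fun π' e' => u x ⬝ᵥ (Vk s J (ev π x ++ [e x]) *
        diagonal (d x) * (Vk s J (ev π' x ++ [e' x]))ᵀ) *ᵥ v x := fun x => by
    have a1 := SP_lin al a (fun A => u x ⬝ᵥ (A * diagonal (d x) * (Y0 s J al' a' m x)ᵀ) *ᵥ v x)
      (fun A B => by simp only [Matrix.add_mul, add_mulVec, dotProduct_add]) l
      fun π e => Vk s J (ev π x ++ [e x])
    have a2 := fun A : Matrix ι ι ℝ => SP_lin al' a' (fun B => u x ⬝ᵥ (A * diagonal (d x) * Bᵀ) *ᵥ v x)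
      (fun A B => by simp only [transpose_add, Matrix.mul_add, add_mulVec, dotProduct_add]) m
      fun π e => Vk s J (ev π x ++ [e x])
    rw [Y0.eq_1 s J al a, a1, Y0]
    simp only [a2]
  simp only [e1, P0, mul_comm _ (u _ ⬝ᵥ v _), SP_mul, SP_mean, ← SP_sub]
  refine SP_le al a abs (by simp) abs_add_le (E := fun e => ∃ l ≤ N, e = al l)
    (fun l hl => ⟨l, hl, rfl⟩) ha l hl _ ?_
  rintro π _ p1 p2 ⟨l', hl', rfl⟩
  refine SP_le al' a' abs (by simp) abs_add_le (E := fun e => ∃ l ≤ N, e = al' l)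
    (fun l hl => ⟨l, hl, rfl⟩) ha' m hm _ ?_
  rintro π' _ q1 q2 ⟨m', hm', rfl⟩
  have h1 := h.wdw π.reverse π'.reverse _ 0 _ (fun b hb => p1 b (List.mem_reverse.1 hb))
    (fun b hb => q1 b (List.mem_reverse.1 hb)) (hQ l' hl' m' hm') Con.one (by simp; omega)
    (by simp; omega)
  have e2 : ∀ x, Vk s J (ev π x ++ [al l' x]) * diagonal (d x) * (Vk s J (ev π' x ++ [al' m' x]))ᵀ =
      Wk s J (ev π.reverse x).reverse * diagonal ((al l' * d * al' m') x) *
        Wk s J (ev π'.reverse x) := fun x => by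
    rw [← Wk_mul_diag, ← Wk_mul_diag, transpose_mul, diagonal_transpose, (rev h.symm _).1,
      ev_rev, ev_rev, List.reverse_reverse,
      ← Matrix.mul_assoc, Matrix.mul_assoc _ _ (diagonal (d x)), diagonal_mul_diagonal,
      Matrix.mul_assoc _ _ (diagonal (al' m' x)), diagonal_mul_diagonal]
    rfl
  have Z0 : 0 ≤ c ^ k * (β + k * δ * (((1 + R) * c) ^ (k + 1) * M)) :=
    nonneg_of_mul_nonneg_right ((abs_nonneg _).trans h1) (by positivity)
  simp only [e2]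
  simp only [one_mul, ev_rev, pr_rev,
    mul_comm _ (u _ ⬝ᵥ v _), List.length_reverse] at h1 ⊢
  refine h1.trans (mul_le_mul_of_nonneg_right ?_ Z0)
  have : (π.length : ℝ) ≤ N := by exact_mod_cast p2.trans hl
  linarith

lemma opn_0 (hal : ∀ l ≤ N, ∀ x i, |al l x i| ≤ c) (ha : ∀ l ≤ N, ∀ m < l, P (a l m)) {l : ℕ}
    (hl : l ≤ N) (x : Ω) : opn (Y0 s J al a l x) ≤ 2 ^ N * ((1 + R) * c) ^ (N + 1) ∧
      opn (T0 s J al a l x) ≤ 2 ^ N * ((1 + R) * c) ^ (N + 1) := by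
  have h2 : (2 : ℝ) ^ l * ((1 + R) * c) ^ (N + 1) ≤ 2 ^ N * ((1 + R) * c) ^ (N + 1) := by
    have := h.one_le
    gcongr; norm_num
  have h1 := fun π (e : Ω → ι → ℝ) (p1 : ∀ b ∈ π, P b) (p2 : π.length ≤ l)
    (p3 : ∀ x i, |e x i| ≤ c) => h.opn_V (h.bd_ev (fun b hb => h.pq b (p1 b hb)) x (p3 x))
      (j := N + 1) (by simpa using p2.trans hl)
  exact ⟨(SP_le al a opn (by simp) opn_add_le hal ha l hl _ fun π e p1 p2 p3 =>
      (h1 π e p1 p2 p3).1).trans h2,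
    (SP_le al a opn (by simp) opn_add_le hal ha l hl _ fun π e p1 p2 p3 =>
      (h1 π e p1 p2 p3).2).trans h2⟩

theorem close (hal : ∀ l ≤ N, ∀ x i, |al l x i| ≤ c) (ha : ∀ l ≤ N, ∀ m < l, P (a l m)) (x : Ω)
    {T Y : ℕ → Matrix ι ι ℝ} {ot : ℕ → ℕ → ℝ} {θ : ℝ} (θ0 : 0 ≤ θ)
    (hT : ∀ l ≤ N, T l = diagonal (al l x) + ∑ m ∈ range l, diagonal (a l m x) * Y m)
    (hY : ∀ l ≤ N, Y l = J * T l - ∑ m ∈ range l, ot l m • T m)
    (hot : ∀ l ≤ N, ∀ m < l, |ot l m| ≤ c ∧ |eta s (a l m x) - ot l m| ≤ θ) (l : ℕ) : l ≤ N →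
    opn (T l - T0 s J al a l x) ≤
        ((1 + R) * c + 1) ^ l * (N * (2 ^ N * ((1 + R) * c) ^ (N + 1)) * θ) ∧
      opn (Y l - Y0 s J al a l x) ≤
        ((1 + R) * c + 1) ^ l * (N * (2 ^ N * ((1 + R) * c) ^ (N + 1)) * θ) := by
  have g1 := h.one_le
  have R0 := h.R0
  have c0 := h.c0
  set Λ := 2 ^ N * ((1 + R) * c) ^ (N + 1) with hΛ
  have Λ0 : 0 ≤ Λ := by positivity
  set B := N * Λ * θ with hB
  have B0 : 0 ≤ B := by positivity
  induction l using Nat.strong_induction_on with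
  | _ l ih =>
    intro hl
    have ih' := fun m (hm : m ∈ range l) => ih m (mem_range.1 hm) ((mem_range.1 hm).le.trans hl)
    set S := ∑ m ∈ range l, ((1 + R) * c + 1) ^ m with hS
    have S0 : 0 ≤ S := by positivity
    have hg : (1 + R) * c * S = ((1 + R) * c + 1) ^ l - 1 := by
      simpa using mul_geom_sum ((1 + R) * c + 1) l
    have h1 : opn (T l - T0 s J al a l x) ≤ c * S * B := by
      rw [hT l hl, T0_eq, add_sub_add_left_eq_sub, ← sum_sub_distrib, hS, mul_sum, sum_mul]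
      refine (opn_sum_le _ _).trans (sum_le_sum fun m hm => ?_)
      rw [← Matrix.mul_sub, mul_assoc]
      exact opn_mul_le' (opn_diagonal_le c0 (h.bd _ (h.pq _ (ha l hl m (mem_range.1 hm))) x))
        (ih' m hm).2
    have h2 : opn (∑ m ∈ range l, (ot l m • T m - eta s (a l m x) • T0 s J al a m x)) ≤
        c * S * B + B := by
      refine (opn_sum_le _ _).trans ((sum_le_sum
        (g := fun m => c * (((1 + R) * c + 1) ^ m * B) + θ * Λ) fun m hm => ?_).trans ?_)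
      · have h3 := hot l hl m (mem_range.1 hm)
        rw [show ot l m • T m - eta s (a l m x) • T0 s J al a m x = ot l m • (T m - T0 s J al a m x) -
          (eta s (a l m x) - ot l m) • T0 s J al a m x by rw [smul_sub, sub_smul]; abel]
        exact (opn_sub_le _ _).trans (add_le_add (opn_smul_le h3.1 (ih' m hm).1)
          (opn_smul_le h3.2 (h.opn_0 hal ha ((mem_range.1 hm).le.trans hl) x).2))
      · rw [sum_add_distrib, ← mul_sum, ← sum_mul, sum_const, card_range, nsmul_eq_mul, ← hS,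
          mul_assoc c]
        have : (l : ℝ) ≤ N := by exact_mod_cast hl
        nlinarith [mul_nonneg θ0 Λ0]
    have h4 : ((1 + R) * c + 1) ^ l * B = (1 + R) * (c * S * B) + B := by
      rw [← sub_add_cancel (_ ^ l) 1, ← hg]; ring
    have h5 : 0 ≤ R * (c * S * B) := by positivity
    refine ⟨by linarith, ?_⟩
    rw [hY l hl, Y0_eq, sub_sub_sub_comm, ← Matrix.mul_sub, ← sum_sub_distrib]
    linarith [opn_sub_le (J * (T l - T0 s J al a l x))
      (∑ m ∈ range l, (ot l m • T m - eta s (a l m x) • T0 s J al a m x)), opn_mul_le' h.op h1]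

end Hyp

/-- a flow family up to the level `N` with canonical constants -/
structure Fl (μ : Ω → ℝ) (s : ℝ) (J : Matrix ι ι ℝ) (c : ℝ) (P : (Ω → ι → ℝ) → Prop) (N : ℕ)
    (al : ℕ → Ω → ι → ℝ) (a : ℕ → ℕ → Ω → ι → ℝ) (T Y : ℕ → Ω → Matrix ι ι ℝ) : Prop where
  al_bd : ∀ l ≤ N, ∀ x i, |al l x i| ≤ c
  a_mem : ∀ l ≤ N, ∀ m < l, P (a l m)
  T_eq : ∀ x, ∀ l ≤ N, T l x = diagonal (al l x) + ∑ m ∈ range l, diagonal (a l m x) * Y m x
  Y_eq : ∀ x, ∀ l ≤ N, Y l x = J * T l x -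
    ∑ m ∈ range l, (mean μ fun x => eta s (a l m x)) • T m x

/-- the constant of `gram` -/
def gC (N : ℕ) (R c : ℝ) : ℝ :=
  4 ^ N * (N + 2) * c ^ (2 * N + 1) * (1 + (2 * N + 1) * ((1 + R) * c) ^ (2 * N + 2)) +
    4 * (N + 1) ^ 2 * c * (((1 + R) * c + 1) ^ N * (N * (2 ^ N * ((1 + R) * c) ^ (N + 1)))) *
      (2 ^ N * ((1 + R) * c) ^ (N + 1) +
        c * (((1 + R) * c + 1) ^ N * (N * (2 ^ N * ((1 + R) * c) ^ (N + 1)))))

variable {N : ℕ} {al al' : ℕ → Ω → ι → ℝ} {a a' : ℕ → ℕ → Ω → ι → ℝ} {d : Ω → ι → ℝ}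
  {T Y T' Y' : ℕ → Ω → Matrix ι ι ℝ}

lemma Fl.close (h : Hyp μ s J R c δ β M k P Q u v) (f : Fl μ s J c P N al a T Y) :
    ∃ θ : Ω → ℝ, (∀ x, 0 ≤ θ x) ∧ mean μ θ ≤ (N + 1) ^ 2 * δ ∧ ∀ l ≤ N, ∀ x,
      opn (Y l x - Y0 s J al a l x) ≤
        ((1 + R) * c + 1) ^ N * (N * (2 ^ N * ((1 + R) * c) ^ (N + 1))) * θ x ∧
      opn (Y l x - Y0 s J al a l x) ≤
        ((1 + R) * c + 1) ^ N * (N * (2 ^ N * ((1 + R) * c) ^ (N + 1))) * (2 * c) := by
  have g1 := h.one_le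
  have e1 := fun l hl m hm x => abs_eta_le h.hs h.c0 (h.bd _ (h.pq _ (f.a_mem l hl m hm)) x)
  have e2 := fun l hl m hm => h.isP.abs_mean_le (e1 l hl m hm)
  have key : ∀ x θ, 0 ≤ θ → (∀ l ≤ N, ∀ m < l,
      |eta s (a l m x) - mean μ fun x => eta s (a l m x)| ≤ θ) → ∀ l ≤ N,
      opn (Y l x - Y0 s J al a l x) ≤
        ((1 + R) * c + 1) ^ N * (N * (2 ^ N * ((1 + R) * c) ^ (N + 1))) * θ := by
    intro x θ θ0 hθ l hl
    refine (h.close f.al_bd f.a_mem x θ0 (f.T_eq x) (f.Y_eq x)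
      (fun l hl m hm => ⟨e2 l hl m hm, hθ l hl m hm⟩) l hl).2.trans ?_
    rw [mul_assoc (_ ^ N)]
    gcongr
    linarith
  refine ⟨fun x => ∑ l ∈ range (N + 1), ∑ m ∈ range l,
      |eta s (a l m x) - mean μ fun x => eta s (a l m x)|, fun x => by positivity, ?_,
    fun l hl x => ⟨key x _ (by positivity) (fun l hl m hm => ?_) l hl,
      key x _ (by have := h.c0; positivity) (fun l hl m hm => ?_) l hl⟩⟩
  · have e : ∀ {t : Finset ℕ} {g : ℕ → Ω → ℝ}, mean μ (fun x => ∑ j ∈ t, g j x) =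
        ∑ j ∈ t, mean μ (g j) := by
      intro t g; rw [← mean_sum]; congr 1; ext x; simp
    simp only [e]
    refine (sum_le_card_nsmul _ _ ((N + 1) * δ) fun l hl => ?_).trans (by simp [sq, mul_assoc])
    have hl' := Nat.lt_succ_iff.1 (mem_range.1 hl)
    refine (sum_le_card_nsmul _ _ δ fun m hm =>
      h.con _ (h.pq _ (f.a_mem l hl' m (mem_range.1 hm)))).trans ?_
    rw [card_range, nsmul_eq_mul]
    exact mul_le_mul_of_nonneg_right (by exact_mod_cast hl'.trans (Nat.le_succ N)) h.δ0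
  · exact (single_le_sum (f := fun m => |eta s (a l m x) - mean μ fun x => eta s (a l m x)|)
      (fun _ _ => abs_nonneg _) (mem_range.2 hm)).trans (single_le_sum
      (f := fun l => ∑ m ∈ range l, |eta s (a l m x) - mean μ fun x => eta s (a l m x)|)
      (fun _ _ => by positivity) (mem_range.2 (Nat.lt_succ_of_le hl)))
  · linarith [abs_sub (eta s (a l m x)) (mean μ fun x => eta s (a l m x)), e1 l hl m hm x,
      e2 l hl m hm]

/-- **the Gram identity** -/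
theorem gram (h : Hyp μ s J R c δ β M (2 * N + 1) P Q u v) (f : Fl μ s J c P N al a T Y)
    (f' : Fl μ s J c P N al' a' T' Y') (hd : ∀ x i, |d x i| ≤ c)
    (hQ : ∀ l ≤ N, ∀ m ≤ N, Q (al l * d * al' m)) {l m : ℕ} (hl : l ≤ N) (hm : m ≤ N) :
    |mean μ (fun x => u x ⬝ᵥ (Y l x * diagonal (d x) * (Y' m x)ᵀ) *ᵥ v x) -
      mean μ fun x => P0 s al a al' a' d l m x * (u x ⬝ᵥ v x)| ≤ gC N R c * (β + δ * M) := by
  have h0 := h.gram0 le_rfl f.a_mem f'.a_mem hQ hl hm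
  obtain ⟨θ, t0, t1, t2⟩ := f.close h
  obtain ⟨θ', s0, s1, s2⟩ := f'.close h
  have g1 := h.one_le
  have c0 := h.c0
  have δ0 := h.δ0
  have β0 : 0 ≤ β := (abs_nonneg _).trans (h.mid [] (by simp) (by simp))
  have M0 : 0 ≤ M := by
    by_contra h0
    have := h.isP.sum1
    rw [sum_eq_zero fun x _ => (h0 (h.M0 x)).elim] at this
    exact zero_ne_one this
  rw [gC]
  set Λ := 2 ^ N * ((1 + R) * c) ^ (N + 1) with hΛ
  set κ := ((1 + R) * c + 1) ^ N * (N * Λ) with hκ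
  have Λ0 : 0 ≤ Λ := by positivity
  have κ0 : 0 ≤ κ := by positivity
  have h1 : |mean μ (fun x => u x ⬝ᵥ (Y l x * diagonal (d x) * (Y' m x)ᵀ) *ᵥ v x) - mean μ fun x =>
      u x ⬝ᵥ (Y0 s J al a l x * diagonal (d x) * (Y0 s J al' a' m x)ᵀ) *ᵥ v x| ≤
      κ * c * (Λ + κ * (2 * c)) * M * mean μ θ + Λ * c * κ * M * mean μ θ' := by
    rw [← mean_sub, ← mean_lin]
    refine abs_mean_le' h.isP fun x => ?_
    have o1 := opn_diagonal_le c0 (hd x)
    have o2 : opn (Y' m x)ᵀ ≤ Λ + κ * (2 * c) := by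
      rw [opn_transpose, ← add_sub_cancel (Y0 s J al' a' m x) (Y' m x)]
      exact (opn_add_le _ _).trans (add_le_add (h.opn_0 f'.al_bd f'.a_mem hm x).1 (s2 m hm x).2)
    have o3 := (opn_add_le _ _).trans (add_le_add (opn_mul_le' (opn_mul_le' (t2 l hl x).1 o1) o2)
      (opn_mul_le' (opn_mul_le' (h.opn_0 f.al_bd f.a_mem hl x).1 o1)
        ((opn_transpose _).trans_le (s2 m hm x).1)))
    have := h.bil_le o3 x
    rw [transpose_sub, Matrix.sub_mul, Matrix.sub_mul, Matrix.mul_sub _ (Y' m x)ᵀ, sub_add_sub_cancel,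
      sub_mulVec, dotProduct_sub] at this
    exact this.trans (le_of_eq (by ring))
  have h2 : (2 : ℝ) ^ l * 2 ^ m ≤ 4 ^ N := by
    rw [show (4 : ℝ) = 2 * 2 by norm_num, mul_pow]
    gcongr <;> norm_num
  have h3 := mul_le_mul_of_nonneg_left t1 (show 0 ≤ κ * c * (Λ + κ * (2 * c)) * M by positivity)
  have h4 := mul_le_mul_of_nonneg_left s1 (show 0 ≤ Λ * c * κ * M by positivity)
  set g := ((1 + R) * c) ^ (2 * N + 1 + 1) with hg
  have g0 : 0 ≤ g := by positivity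
  have h5 : 2 ^ l * (2 ^ m * ((N + 2) * (c ^ (2 * N + 1) * (β + (2 * N + 1 : ℕ) * δ * (g * M))))) ≤
      4 ^ N * (N + 2) * c ^ (2 * N + 1) * (1 + (2 * N + 1) * g) * (β + δ * M) := by
    rw [← mul_assoc, mul_assoc (4 ^ N), mul_assoc (4 ^ N), mul_assoc (4 ^ N), mul_assoc (N + 2 : ℝ),
      mul_assoc (N + 2 : ℝ), mul_assoc (c ^ _)]
    gcongr
    push_cast
    nlinarith [mul_nonneg δ0 M0, mul_nonneg (show (0 : ℝ) ≤ (2 * N + 1) * g by positivity) β0]
  have h6 : 0 ≤ (N + 1) ^ 2 * c * κ * (Λ * (δ * M) + (Λ + c * κ) * β) := by positivity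
  have h7 := abs_sub_le (mean μ fun x => u x ⬝ᵥ (Y l x * diagonal (d x) * (Y' m x)ᵀ) *ᵥ v x)
    (mean μ fun x => u x ⬝ᵥ (Y0 s J al a l x * diagonal (d x) * (Y0 s J al' a' m x)ᵀ) *ᵥ v x)
    (mean μ fun x => P0 s al a al' a' d l m x * (u x ⬝ᵥ v x))
  have h8 : 0 ≤ (N + 1) ^ 2 * c * κ * ((Λ + c * κ) * β + c * κ * (δ * M)) := by positivity
  linarith

end Crest.Agent.T157.S3.Gr7
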