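import Crest.Agent.T157.S3IC_52

/-! S3 (ID), part D: every program has a model fixed point (helper52). -/

set_option autoImplicit false
set_option linter.unusedSectionVars false

noncomputable section

namespace Crest.Agent.T157.S3I

open MeasureTheory ProbabilityTheory Matrix Filter Topology Finset
open Crest.ProbabilityR.SpinGlassDynamics
open Crest.Agent.T157.E hiding hb
open Crest.Agent.T157.S3L
open Crest.Agent.T157.Conc (en ELip)
open scoped MatrixOrder

section model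
variable {L κ : Type} [Fintype L] [Fintype κ] (M : Matrix L κ ℝ) (o : L) (cM : ℝ → L → ℝ)

lemma BL.const (c : ℝ) : BL (fun _ _ _ => c : PF L) :=
  ⟨|c| + 1, by positivity, fun _ _ _ => by linarith, fun b b' s ξ ξ' => by
    have := Conc.en_nonneg (ξ - ξ')
    rw [sub_self, abs_zero]; positivity⟩

lemma BL.add {φ ψ : PF L} (h : BL φ) (h' : BL ψ) : BL (φ + ψ) := by
  obtain ⟨Λ, h0, hb, hl⟩ := h
  obtain ⟨Λ', h0', hb', hl'⟩ := h'
  refine ⟨Λ + Λ', by positivity, fun b s ξ => (abs_add_le _ _).trans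
    (add_le_add (hb b s ξ) (hb' b s ξ)), fun b b' s ξ ξ' => ?_⟩
  have h1 := abs_add_le (φ b s ξ - φ b' s ξ') (ψ b s ξ - ψ b' s ξ')
  simp only [Pi.add_apply]
  rw [show φ b s ξ + ψ b s ξ - (φ b' s ξ' + ψ b' s ξ') =
    φ b s ξ - φ b' s ξ' + (ψ b s ξ - ψ b' s ξ') by ring, add_mul]
  linarith [hl b b' s ξ ξ', hl' b b' s ξ ξ']

lemma BL.smul {φ : PF L} (h : BL φ) (c : ℝ) : BL (c • φ) := (BL.const c).mul h

lemma BL.neg {φ : PF L} (h : BL φ) : BL (-φ) := by simpa using h.smul (-1)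

lemma BL.sub {φ ψ : PF L} (h : BL φ) (h' : BL ψ) : BL (φ - ψ) := by
  simpa only [sub_eq_add_neg] using h.add h'.neg

lemma BL.sum {ι : Type*} (T : Finset ι) {φ : ι → PF L} (h : ∀ j ∈ T, BL (φ j)) :
    BL (∑ j ∈ T, φ j) := by
  classical
  induction T using Finset.induction_on with
  | empty => exact BL.const 0
  | insert j T hj ih =>
    rw [sum_insert hj]
    exact (h j (mem_insert_self _ _)).add (ih fun k hk => h k (mem_insert_of_mem hk))

lemma Eb_add {φ ψ : PF L} {Λ Λ' : ℝ} (h : Lip Λ φ) (h' : Lip Λ' ψ) (b : ℝ) :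
    Eb M o cM (φ + ψ) b = Eb M o cM φ b + Eb M o cM ψ b :=
  mdl_add M o b (fun s => elip_shift (h.elip b s) _) fun s => elip_shift (h'.elip b s) _

lemma Eb_add' {φ ψ : PF L} (h : BL φ) (h' : BL ψ) (b : ℝ) :
    Eb M o cM (φ + ψ) b = Eb M o cM φ b + Eb M o cM ψ b :=
  let ⟨_, _, _, hl⟩ := h; let ⟨_, _, _, hl'⟩ := h'; Eb_add M o cM hl hl' b

lemma Eb_smul (c : ℝ) (φ : PF L) (b : ℝ) : Eb M o cM (c • φ) b = c * Eb M o cM φ b :=
  mdl_const_mul M o b c _

lemma Eb_const (c b : ℝ) : Eb M o cM (fun _ _ _ => c) b = c := mdl_const M o b c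

/-- functions of the static field come out -/
lemma Eb_fun_mul (u : ℝ → ℝ) (φ : PF L) (b : ℝ) :
    Eb M o cM (fun b s ξ => u b * φ b s ξ) b = u b * Eb M o cM φ b := mdl_const_mul M o b (u b) _

lemma Eb_sub' {φ ψ : PF L} (h : BL φ) (h' : BL ψ) (b : ℝ) :
    Eb M o cM (φ - ψ) b = Eb M o cM φ b - Eb M o cM ψ b := by
  rw [sub_eq_add_neg, Eb_add' M o cM h h'.neg, ← neg_one_smul ℝ ψ, Eb_smul]; ring

lemma Eb_sum {ι : Type*} (T : Finset ι) {φ : ι → PF L} (h : ∀ j ∈ T, BL (φ j)) (b : ℝ) :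
    Eb M o cM (∑ j ∈ T, φ j) b = ∑ j ∈ T, Eb M o cM (φ j) b := by
  classical
  induction T using Finset.induction_on with
  | empty => exact Eb_const M o cM 0 b
  | insert j T hj ih =>
    have h2 := fun k hk => h k (mem_insert_of_mem hk)
    rw [sum_insert hj, sum_insert hj, Eb_add' M o cM (h j (mem_insert_self _ _)) (BL.sum T h2),
      ih h2]

lemma Eb_nonneg {φ : PF L} {b : ℝ} (h : ∀ s ξ, 0 ≤ φ b s ξ) : 0 ≤ Eb M o cM φ b := by
  unfold Eb mdl gm
  exact sum_nonneg fun σ _ => mul_nonneg (hb_nonneg b σ) (integral_nonneg fun _ => h _ _)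

lemma Eb_mono {φ ψ : PF L} (hφ : BL φ) (hψ : BL ψ) {b : ℝ} (h : ∀ s ξ, φ b s ξ ≤ ψ b s ξ) :
    Eb M o cM φ b ≤ Eb M o cM ψ b := by
  rw [← sub_nonneg, ← Eb_sub' M o cM hψ hφ]
  exact Eb_nonneg M o cM fun s ξ => sub_nonneg.2 (h s ξ)

lemma Eb_sq_le {φ : PF L} (h : BL φ) (b : ℝ) : Eb M o cM φ b ^ 2 ≤ Eb M o cM (φ * φ) b := by
  set e := Eb M o cM φ b with he
  have h1 := Eb_mono M o cM (φ := (2 * e) • φ - fun _ _ _ => e ^ 2) ((h.smul _).sub (BL.const _))
    (h.mul h) (b := b) fun s ξ => by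
      simp only [Pi.sub_apply, Pi.smul_apply, Pi.mul_apply, smul_eq_mul]
      nlinarith [sq_nonneg (φ b s ξ - e)]
  rw [Eb_sub' M o cM (h.smul _) (BL.const _), Eb_smul, Eb_const, ← he] at h1
  linarith

lemma gram_nonneg {ι : Type*} [Fintype ι] {f : ι → PF L} (h : ∀ j, BL (f j)) (v : ι → ℝ) (b : ℝ) :
    0 ≤ ∑ j, ∑ m, v j * v m *
      (Eb M o cM (f j * f m) b - Eb M o cM (f j) b * Eb M o cM (f m) b) := by
  have h1 := Eb_sq_le M o cM (BL.sum univ fun j _ => (h j).smul (v j)) b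
  rw [sum_mul_sum, Eb_sum M o cM _ fun j _ => BL.sum _ fun m _ =>
    ((h j).smul _).mul ((h m).smul _), Eb_sum M o cM _ fun j _ => (h j).smul _, sq,
    sum_mul_sum, ← sub_nonneg, ← sum_sub_distrib] at h1
  refine h1.trans_eq (sum_congr rfl fun j _ => ?_)
  rw [Eb_sum M o cM _ fun m _ => ((h j).smul _).mul ((h m).smul _), ← sum_sub_distrib]
  refine sum_congr rfl fun m _ => ?_
  rw [smul_mul_smul_comm, Eb_smul, Eb_smul, Eb_smul]; ring

end model

variable {N : ℕ} {f g g' : Fin (N + 1) → PF (Fin (N + 1))}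

/-- existence of the model fixed point -/
theorem exists_mod (hb : ∀ l, BL (f l) ∧ BL (g l) ∧ BL (g' l))
    (hd : ∀ l b, Reads {m | m < l} (f l b) ∧ Reads {m | m < l} (g l b) ∧
      Reads {m | m < l} (g' l b)) (β : ℝ) {Z : Type*} [MeasurableSpace Z] (μ : Measure Z)
    [IsFiniteMeasure μ] {u : Z → ℝ} (hu : Measurable u) :
    ∃ (M : Matrix (Fin (N + 1)) (Fin (N + 1)) ℝ) (cM : ℝ → Fin (N + 1) → ℝ),
      Mod f g g' β (fun ψ => ∫ z, ψ (u z) ∂μ) M cM := by
  set ν : (ℝ → ℝ) → ℝ := fun ψ => ∫ z, ψ (u z) ∂μ with hν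
  have key : ∀ l : ℕ, ∃ (M : Matrix (Fin (N + 1)) (Fin (N + 1)) ℝ) (cM : ℝ → Fin (N + 1) → ℝ),
      (∀ j, ∃ c, ∀ b b', |cM b j - cM b' j| ≤ c * |b - b'|) ∧
      (∀ b (j : Fin (N + 1)), j.val < l →
        cM b j = Eb M 0 cM (g j) b + β ^ 2 * ν (Eb M 0 cM (g' j))) ∧
      ∀ j m : Fin (N + 1), j.val < l → m.val < l → (M * Mᵀ) j m = β ^ 2 * ν fun b =>
        Eb M 0 cM (f j * f m) b - Eb M 0 cM (f j) b * Eb M 0 cM (f m) b := by
    intro l
    induction l with
    | zero => exact ⟨0, 0, fun j => ⟨0, by simp⟩, by simp, by simp⟩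
    | succ l ih =>
      obtain ⟨M, cM, h1, h2, h3⟩ := ih
      have lip : ∀ φ, BL φ → ∃ c, ∀ b b', |Eb M 0 cM φ b - Eb M 0 cM φ b'| ≤ c * |b - b'| :=
        fun φ ⟨Λ, h0, hb, hl⟩ => Eb_lip M 0 cM (T := univ) h0 hl (fun _ _ => hb _ _ _)
          (fun b => by rw [coe_univ]; exact reads_univ _) fun j _ => h1 j
      have int : ∀ j m, Integrable (fun z => Eb M 0 cM (f j * f m) (u z) -
          Eb M 0 cM (f j) (u z) * Eb M 0 cM (f m) (u z)) μ := fun j m => by
        obtain ⟨Λ, h0, a1, -⟩ := (hb j).1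
        obtain ⟨Λ', -, a2, -⟩ := (hb m).1
        obtain ⟨Λ2, -, a3, -⟩ := (hb j).1.mul (hb m).1
        refine (integrable_const (Λ2 + Λ * Λ')).mono' (Measurable.aestronglyMeasurable
          (((cont_of_lip (lip _ ((hb j).1.mul (hb m).1))).sub ((cont_of_lip (lip _ (hb j).1)).mul
            (cont_of_lip (lip _ (hb m).1)))).measurable.comp hu)) (ae_of_all _ fun z => ?_)
        refine (abs_sub _ _).trans (add_le_add (abs_Eb_le M 0 cM a3 _) ?_)
        rw [abs_mul]
        exact mul_le_mul (abs_Eb_le M 0 cM a1 _) (abs_Eb_le M 0 cM a2 _) (abs_nonneg _) h0.le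
      let S : Matrix (Fin (N + 1)) (Fin (N + 1)) ℝ := fun j m => β ^ 2 * ν fun b =>
        Eb M 0 cM (f j * f m) b - Eb M 0 cM (f j) b * Eb M 0 cM (f m) b
      have hS : S.PosSemidef := by
        refine PosSemidef.of_dotProduct_mulVec_nonneg ?_ fun v => ?_
        · ext j m
          rw [conjTranspose_apply, star_trivial]
          simp only [S, mul_comm (f m), mul_comm (Eb M 0 cM (f m) _)]
        · have e : star v ⬝ᵥ S *ᵥ v = β ^ 2 * ∫ z, ∑ j, ∑ m, v j * v m *
              (Eb M 0 cM (f j * f m) (u z) - Eb M 0 cM (f j) (u z) * Eb M 0 cM (f m) (u z)) ∂μ := by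
            rw [integral_finsetSum _ fun j _ => integrable_finsetSum _ fun m _ =>
              (int j m).const_mul _, mul_sum]
            refine sum_congr rfl fun j _ => ?_
            rw [integral_finsetSum _ fun m _ => (int j m).const_mul _, mul_sum, mulVec, dotProduct,
              mul_sum]
            refine sum_congr rfl fun m _ => ?_
            rw [integral_const_mul]
            simp only [star_trivial, S, hν]; ring
          rw [e]
          exact mul_nonneg (sq_nonneg _) (integral_nonneg fun z =>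
            gram_nonneg M 0 cM (fun j => (hb j).1) v _)
      have hM' : CFC.sqrt S * (CFC.sqrt S)ᵀ = S := by
        have := (CFC.sqrt_nonneg S).posSemidef.isHermitian
        rw [IsHermitian, conjTranspose_eq_transpose_of_trivial] at this
        rw [this, CFC.sqrt_mul_sqrt_self _ hS.nonneg]
      let c' : ℝ → Fin (N + 1) → ℝ := fun b j =>
        Eb M 0 cM (g j) b + β ^ 2 * ν (Eb M 0 cM (g' j))
      have same : ∀ φ, BL φ → (∀ b, Reads {m : Fin (N + 1) | m.val < l} (φ b)) →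
          Eb (CFC.sqrt S) 0 c' φ = Eb M 0 cM φ := fun φ ⟨Λ, h0, hb, hl⟩ hr => funext fun b => by
        have e : (fun s ξ => φ b s (ξ + c' b)) = fun s ξ => φ b s (ξ + cM b) := by
          funext s ξ
          exact hr b s _ _ fun j hj => by simp only [Pi.add_apply, h2 b j hj, c']
        unfold Eb
        rw [e]
        refine mdl_block _ _ 0 b (B := {m : Fin (N + 1) | m.val < l}) ?_
          (fun j hj m hm => by rw [hM', h3 j m hj hm]) h0
          (fun s => elip_shift (hl.elip b s) _) (fun s => hb _ _ _) ((hr b).shift _)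
        rcases Nat.eq_zero_or_pos l with rfl | h
        · exact Or.inr (by ext; simp)
        · exact Or.inl h
      have sub : ∀ j : Fin (N + 1), j.val < l + 1 →
          {m | m < j} ⊆ {m : Fin (N + 1) | m.val < l} := fun j hj m hm => by
        have : m.val < j.val := hm
        show m.val < l
        omega
      refine ⟨CFC.sqrt S, c', fun j => ?_, fun b j hj => ?_, fun j m hj hm => ?_⟩
      · obtain ⟨c, hc⟩ := lip _ (hb j).2.1
        exact ⟨c, fun b b' => by simpa only [c', add_sub_add_right_eq_sub] using hc b b'⟩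
      · rw [same _ (hb j).2.1 fun b => (hd j b).2.1.mono (sub j hj),
          same _ (hb j).2.2 fun b => (hd j b).2.2.mono (sub j hj)]
      · have a1 := fun b => (hd j b).1.mono (sub j hj)
        have a2 := fun b => (hd m b).1.mono (sub m hm)
        rw [hM', same _ (hb j).1 a1, same _ (hb m).1 a2,
          same _ ((hb j).1.mul (hb m).1) fun b => (a1 b).mul (a2 b)]
  obtain ⟨M, cM, -, h2, h3⟩ := key (N + 1)
  exact ⟨M, cM, fun b l => h2 b l l.2, fun l m => h3 l m l.2 m.2⟩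

end Crest.Agent.T157.S3I

end
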