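import Crest.Agent.T157.S3Ans_69

/-!
# Row 157, block B/S3 (helper60): calculus of negligible vectors, limits of pairing constants
-/

set_option autoImplicit false

noncomputable section

namespace Crest.Agent.T157.S3.T60

open Matrix Filter Finset Topology
open Crest.Agent.T157.E (Cube sv ising mean prob)
open Fam

variable {F : Fam} {d d' : F.Df}

lemma ng_of_le {e e' c : ℝ} (h : Ng e d) (hc : 0 ≤ c)
    (hle : ∀ᶠ i in F.l, ∀ k, |d' i k| - e' ≤ c * max (|d i k| - e) 0) : Ng e' d' := by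
  obtain ⟨C, h⟩ := h
  refine ⟨c ^ 2 * C, ?_⟩
  filter_upwards [h, hle] with i h1 h2
  rw [mul_assoc]
  refine le_trans ?_ (mul_le_mul_of_nonneg_left h1 (sq_nonneg c))
  rw [mul_sum]
  refine sum_le_sum fun k _ => ?_
  rw [← mul_pow]
  exact pow_le_pow_left₀ (le_max_right _ _)
    (max_le (h2 k) (mul_nonneg hc (le_max_right _ _))) 2

lemma neg_of_le {c : ℝ} (h : Neg d) (hc : 0 ≤ c) (hle : ∀ᶠ i in F.l, ∀ k, |d' i k| ≤ c * |d i k|) :
    Neg d' := fun e he => by
  refine ng_of_le (h (e / (c + 1)) (by positivity)) hc (hle.mono fun i hi k => ?_)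
  have h1 : c * (e / (c + 1)) ≤ e := by
    rw [← mul_div_assoc, div_le_iff₀ (by positivity)]; nlinarith
  have h2 := mul_le_mul_of_nonneg_left (le_max_left (|d i k| - e / (c + 1)) 0) hc
  linarith [hi k]

lemma neg_congr (h : Neg d) (he : ∀ i k, d' i k = d i k) : Neg d' :=
  neg_of_le h zero_le_one (Eventually.of_forall fun i k => by rw [he, one_mul])

lemma neg_add (h : Neg d) (h' : Neg d') : Neg fun i => d i + d' i := fun e he => by
  obtain ⟨C, h⟩ := h (e / 2) (by positivity)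
  obtain ⟨C', h'⟩ := h' (e / 2) (by positivity)
  refine ⟨2 * C + 2 * C', ?_⟩
  filter_upwards [h, h'] with i h1 h2
  have : ∑ k, max (|(d i + d' i) k| - e) 0 ^ 2 ≤
      ∑ k, (2 * max (|d i k| - e / 2) 0 ^ 2 + 2 * max (|d' i k| - e / 2) 0 ^ 2) :=
    sum_le_sum fun k _ => by
      have a1 := le_max_left (|d i k| - e / 2) 0
      have a2 := le_max_left (|d' i k| - e / 2) 0
      have a3 := le_max_right (|d i k| - e / 2) 0
      have a4 := le_max_right (|d' i k| - e / 2) 0
      have a5 : max (|(d i + d' i) k| - e) 0 ≤ max (|d i k| - e / 2) 0 + max (|d' i k| - e / 2) 0 :=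
        max_le (by rw [Pi.add_apply]; linarith [abs_add_le (d i k) (d' i k)]) (by linarith)
      have a6 := pow_le_pow_left₀ (le_max_right _ _) a5 2
      nlinarith [sq_nonneg (max (|d i k| - e / 2) 0 - max (|d' i k| - e / 2) 0)]
  rw [sum_add_distrib, ← mul_sum, ← mul_sum] at this
  linarith

lemma neg_unif (h : ∀ e > (0 : ℝ), ∀ᶠ i in F.l, ∀ k, |d i k| ≤ e) : Neg d := fun e he =>
  ⟨0, (h e he).mono fun i hi => by
    rw [zero_mul]
    exact (sum_eq_zero fun k _ => by rw [max_eq_right (sub_nonpos.2 (hi k))]; ring).le⟩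

lemma neg_zero : Neg (F := F) fun _ => 0 :=
  neg_unif fun e he => Eventually.of_forall fun i k => by simpa using he.le

lemma neg_smul (c : ℝ) (h : Neg d) : Neg fun i => c • d i :=
  neg_of_le h (abs_nonneg c) (Eventually.of_forall fun i k => by
    rw [Pi.smul_apply, smul_eq_mul, abs_mul])

lemma neg_sub (h : Neg d) (h' : Neg d') : Neg fun i => d i - d' i :=
  neg_congr (neg_add h (neg_smul (-1) h')) fun i k => by simp [sub_eq_add_neg]

lemma neg_sum {ι : Type*} (T : Finset ι) {d : ι → F.Df} (h : ∀ j ∈ T, Neg (d j)) :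
    Neg fun i => ∑ j ∈ T, d j i := by
  classical
  induction T using Finset.induction_on with
  | empty => simpa using neg_zero
  | insert j T hj ih =>
    exact neg_congr (neg_add (h j (mem_insert_self _ _)) (ih fun k hk => h k (mem_insert_of_mem hk)))
      fun i k => by rw [sum_insert hj]

/-- a convergent scalar times an identified bounded vector -/
lemma neg_lim {c : F.I → ℝ} {c0 B : ℝ} (hc : Tendsto c F.l (𝓝 c0)) (h : Neg fun i => d i - d' i)
    (hb : ∀ i k, |d i k| ≤ B) : Neg fun i => c i • d i - c0 • d' i := by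
  have h1 : Neg fun i => (c i - c0) • d i := neg_unif fun e he => by
    have := (tendsto_sub_nhds_zero_iff.2 hc).abs.mul_const (|B| + 1)
    rw [abs_zero, zero_mul] at this
    filter_upwards [this.eventually_le_const he] with i hi k
    rw [Pi.smul_apply, smul_eq_mul, abs_mul]
    exact (mul_le_mul_of_nonneg_left (by linarith [hb i k, le_abs_self B]) (abs_nonneg _)).trans hi
  exact neg_congr (neg_add h1 (neg_smul c0 h)) fun i k => by simp; ring

lemma le_of_neg {c : F.Df} (h : Neg fun i => d i - d' i) (hc : ∀ i k, d' i k ≤ c i k) : Le d c :=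
  neg_of_le h zero_le_one (Eventually.of_forall fun i k => by
    rw [one_mul, abs_of_nonneg (le_max_right _ _)]
    exact max_le ((sub_le_sub_left (hc i k) _).trans (le_abs_self _)) (abs_nonneg _))

/-- the root of an almost bounded vector -/
lemma ng_sqrt {e : ℝ} (he : 0 < e) (h : Neg fun i => d i - d' i) (hc : ∀ i k, d' i k ≤ e ^ 2 / 2) :
    Ng e (F := F) fun i k => √(d i k) := by
  refine ng_of_le (h (e ^ 2 / 2) (by positivity)) (inv_pos.2 he).le
    (Eventually.of_forall fun i k => ?_)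
  rw [abs_of_nonneg (Real.sqrt_nonneg _), le_inv_mul_iff₀ he]
  have h1 := le_max_left (|(d i - d' i) k| - e ^ 2 / 2) 0
  have h2 := le_max_right (|(d i - d' i) k| - e ^ 2 / 2) 0
  have h3 := le_abs_self ((d i - d' i) k)
  rw [Pi.sub_apply] at h3
  rcases le_total (d i k) 0 with h0 | h0
  · rw [Real.sqrt_eq_zero'.2 h0]; nlinarith
  · have h4 := Real.sq_sqrt h0
    have h5 := Real.sqrt_nonneg (d i k)
    have h6 := hc i k
    rcases le_total (√(d i k)) e with h7 | h7
    · nlinarith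
    · simp only [Pi.sub_apply] at h1 h2 ⊢
      nlinarith

lemma K_div (hF : F.Ok) : Tendsto (fun i => F.K i / F.n i) F.l (𝓝 0) := by
  have h1 : Tendsto (fun i => (F.n i : ℝ) ^ (-(1 / 2 : ℝ))) F.l (𝓝 0) :=
    (tendsto_rpow_neg_atTop (by norm_num)).comp (tendsto_natCast_atTop_atTop.comp hF.lim)
  refine squeeze_zero' (Eventually.of_forall fun i =>
    div_nonneg (zero_le_one.trans (hF.K1 i)) (Nat.cast_nonneg _)) ?_ h1
  filter_upwards [hF.Ko (1 / 2) (by norm_num)] with i hi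
  have hn : (0 : ℝ) < F.n i := Nat.cast_pos.2 (hF.pos i)
  rw [div_le_iff₀ hn]
  refine hi.trans_eq ?_
  rw [← Real.rpow_add_one hn.ne']
  norm_num

lemma neg_avg (hF : F.Ok) (h : Neg d) : Tendsto (fun i => (∑ k, d i k) / F.n i) F.l (𝓝 0) := by
  rw [Metric.tendsto_nhds]
  intro e he
  obtain ⟨C, h⟩ := h (e / 4) (by positivity)
  have h2 := (K_div hF).const_mul (C / (e / 4))
  rw [mul_zero] at h2
  filter_upwards [h, h2.eventually_le_const (show (0 : ℝ) < e / 4 by positivity)] with i h1 h3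
  have hn : (0 : ℝ) < F.n i := Nat.cast_pos.2 (hF.pos i)
  rw [Real.dist_eq, sub_zero, abs_div, Nat.abs_cast, div_lt_iff₀ hn]
  have h4 : ∑ k, |d i k| ≤ ∑ k : Fin (F.n i), (e / 2 + max (|d i k| - e / 4) 0 ^ 2 / (e / 4)) :=
    sum_le_sum fun k _ => by
      have a1 := le_max_left (|d i k| - e / 4) 0
      have a2 : max (|d i k| - e / 4) 0 - e / 4 ≤ max (|d i k| - e / 4) 0 ^ 2 / (e / 4) := by
        rw [le_div_iff₀ (by positivity)]
        nlinarith [sq_nonneg (max (|d i k| - e / 4) 0 - e / 4), le_max_right (|d i k| - e / 4) 0]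
      linarith
  rw [sum_add_distrib, sum_const, ← sum_div, card_univ, Fintype.card_fin, nsmul_eq_mul] at h4
  have h5 : (∑ k, max (|d i k| - e / 4) 0 ^ 2) / (e / 4) ≤ C * F.K i / (e / 4) := by gcongr
  have h6 : C * F.K i / (e / 4) ≤ e / 4 * F.n i := by
    rw [← div_le_iff₀ hn]; refine le_of_eq_of_le ?_ h3; ring
  nlinarith [abs_sum_le_sum_abs (d i) univ, mul_pos he hn]

lemma me_eq (u : F.Vf) (i : F.I) : F.me u i = F.β ^ 2 * ((∑ k, F.EV u i k) / F.n i) := by
  simp only [Fam.me, Fam.E, Uw.eta, Fam.EV, E.meanV, mean, Fam.s, div_pow, mul_sum,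
    Real.sq_sqrt (Nat.cast_nonneg (α := ℝ) _), sum_div]
  rw [sum_comm]
  exact sum_congr rfl fun k _ => sum_congr rfl fun x _ => by ring

lemma me_lim (hF : F.Ok) {u : F.Vf} {c : ℝ} (h : Neg fun i => F.EV u i - d i)
    (hd : Tendsto (fun i => (∑ k, d i k) / F.n i) F.l (𝓝 c)) :
    Tendsto (F.me u) F.l (𝓝 (F.β ^ 2 * c)) := by
  have := ((neg_avg hF h).add hd).const_mul (F.β ^ 2)
  rw [zero_add] at this
  refine this.congr fun i => ?_
  rw [me_eq, ← add_div, ← sum_add_distrib]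
  simp

variable {N P P' : ℕ} {R : Net F N}

lemma EV_bd (hR : R.Ok) {g : F.Lf (N + 1)} (hg : g ∈ R.C) : ∃ B, ∀ i k, |F.EV (R.ev g) i k| ≤ B := by
  obtain ⟨C, h⟩ := hR.bd g hg
  refine ⟨C, fun i k => ?_⟩
  have hp : ∀ x, 0 ≤ prob (F.w i) x := fun x =>
    div_nonneg (Real.exp_pos _).le (sum_nonneg fun y _ => (Real.exp_pos _).le)
  have h1 : ∑ x, prob (F.w i) x = 1 := by
    simp only [prob, ← sum_div]
    exact div_self (sum_pos (fun y _ => Real.exp_pos _) univ_nonempty).ne'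
  refine (abs_sum_le_sum_abs _ _).trans ?_
  rw [← one_mul C, ← h1, sum_mul]
  exact sum_le_sum fun x _ => by
    rw [abs_mul, abs_of_nonneg (hp x)]
    exact mul_le_mul_of_nonneg_left (h _ _ _ _) (hp x)

/-- the pairing constants converge -/
theorem isP_lim {Φ : Flow R P} {Φ' : Flow R P'} {g : F.Lf (N + 1)} {Pb : Fin P → Fin P' → F.I → ℝ}
    (h : Φ.IsP Φ' g Pb) (tri : ∀ l p, l ≤ p → Φ.a l p = 0) {c0 Q : Fin P → Fin P' → ℝ}
    {c : Fin P → Fin P → Fin P' → Fin P' → ℝ}
    (h0 : ∀ l m, Tendsto (F.me (R.ev (Φ.al l * g * Φ'.al m))) F.l (𝓝 (c0 l m)))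
    (h1 : ∀ l p m q, Tendsto (F.me (R.ev (Φ.a l p * Φ'.a m q))) F.l (𝓝 (c l p m q)))
    (hz : ∀ l p m q, l ≤ p → c l p m q = 0)
    (hQ : ∀ l m, Q l m = c0 l m + ∑ p, ∑ q, c l p m q * Q p q) (l : Fin P) :
    ∀ m, Tendsto (Pb l m) F.l (𝓝 (Q l m)) := by
  induction l using WellFoundedLT.induction with
  | ind l ih =>
    intro m
    rw [hQ, show Pb l m = _ from funext (h l m)]
    refine (h0 l m).add (tendsto_finsetSum _ fun p _ => tendsto_finsetSum _ fun q _ => ?_)
    rcases lt_or_ge p l with hp | hp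
    · exact (h1 l p m q).mul (ih p hp q)
    · rw [hz l p m q hp, tri l p hp, zero_mul, zero_mul]
      simpa [Fam.me, Fam.E, Net.ev, Uw.eta, mean] using tendsto_const_nhds

/-- site energies -/
theorem en_neg (hR : R.Ok) {Pb : Fin P → Fin P' → F.I → ℝ} {Q : Fin P → Fin P' → ℝ}
    {a : Fin P → F.Lf (N + 1)} {a' : Fin P' → F.Lf (N + 1)} {t : Fin P → Fin P' → F.Df}
    (hP : ∀ l m, Tendsto (Pb l m) F.l (𝓝 (Q l m))) (ha : ∀ l, a l ∈ R.C) (ha' : ∀ m, a' m ∈ R.C)
    (ht : ∀ l m, Neg fun i => F.EV (R.ev (a l * a' m)) i - t l m i) :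
    Neg fun i => en R Pb a a' i - fun k => ∑ l, ∑ m, t l m i k * Q l m := by
  refine neg_congr (neg_sum univ fun l _ => neg_sum univ fun m _ =>
    let ⟨_, hB⟩ := EV_bd hR (hR.mul _ (ha l) _ (ha' m)); neg_lim (hP l m) (ht l m) hB) fun i k => ?_
  simp [en, Finset.sum_apply, mul_comm]

end Crest.Agent.T157.S3.T60

end
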