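import Crest.Agent.T157.TyF_23
import Crest.Agent.T157.S3Def_69

/-!
# Row 157, part B (S3): the typical family (helper23)

`fam β s G` is the family of the instances satisfying `G`, with the trace of the typical filter;
`exists_good` produces a typical `G` for which the family is good.
-/

set_option autoImplicit false

noncomputable section

namespace Crest.Agent.T157.Pos

open MeasureTheory ProbabilityTheory Matrix Filter Set Topology
open Crest.ProbabilityR.SpinGlassDynamics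
open Crest.Agent.T157.E Crest.Agent.T157.Eig Crest.Agent.T157.Tap

/-- the family of the instances satisfying `G` -/
@[reducible] def fam (β s : ℝ) (G : In → Prop) : S3.Fam where
  I := {i : In // G i}
  l := comap Subtype.val (TF β s)
  n i := i.1.n
  β := β
  K i := Real.log i.1.n
  J i := i.1.J β
  y i := i.1.y

variable {β s : ℝ} {G : In → Prop}

/-- entry -/
theorem fam_in {P : In → Prop} (h : ∀ᶠ i in TF β s, P i) : ∀ᶠ i in (fam β s G).l, P i.1 :=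
  tendsto_comap.eventually h

theorem fam_tendsto {α : Type*} {f : In → α} {l : Filter α} (h : Tendsto f (TF β s) l) :
    Tendsto (fun i : (fam β s G).I => f i.1) (fam β s G).l l := h.comp tendsto_comap

/-- exit -/
theorem fam_out (hG : ∀ᶠ i in TF β s, G i) {P : (fam β s G).I → Prop}
    (h : ∀ᶠ i in (fam β s G).l, P i) : ∀ᶠ i in TF β s, ∃ hi : G i, P ⟨i, hi⟩ :=
  (hG.and (eventually_comap.1 h)).mono fun i hi => ⟨hi.1, hi.2 ⟨i, hi.1⟩ rfl⟩

theorem fam_out' (hG : ∀ᶠ i in TF β s, G i) {P : In → Prop}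
    (h : ∀ᶠ i in (fam β s G).l, P i.1) : ∀ᶠ i in TF β s, P i :=
  (fam_out hG h).mono fun _ ⟨_, hi⟩ => hi

theorem fam_neBot (hG : ∀ᶠ i in TF β s, G i) : (fam β s G).l.NeBot :=
  TF.neBot.comap_of_range_mem (by rw [Subtype.range_coe_subtype]; exact hG)

/-- good instances -/
structure Gd (β K ρ κ : ℝ) (C : ℕ → ℝ) (i : In) : Prop where
  n3 : 3 ≤ i.n
  op : opn (i.J β) ≤ 3
  uw : ∀ k, Uw.UW (β / √i.n) (i.J β) 3 k (C k * √(Real.log i.n))
  atd : ∀ v : V i.n, nrm v ≤ ρ * √i.n → Atd.ATd (ising (i.J β) (i.y + v)) K (Real.exp (-(κ * i.n)))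
  cov : ∀ v : V i.n, nrm v ≤ ρ * √i.n →
    ∀ u : V i.n, u ⬝ᵥ covM (ising (i.J β) (i.y + v)) *ᵥ u ≤ K * (u ⬝ᵥ u)
  acc : nrm (th (i.b β) - mag (ising (i.J β) i.y)) ≤ K

lemma one_le_log {n : ℕ} (hn : 3 ≤ n) : 1 ≤ Real.log n := by
  have : (3 : ℝ) ≤ n := by exact_mod_cast hn
  rw [Real.le_log_iff_exp_le (by linarith)]
  linarith [Real.exp_one_lt_d9]

lemma uw_triv {n : ℕ} {J : Mx n} (hβ : β ∈ Ioc (0 : ℝ) 1) (hJ : opn J ≤ 3) (k : ℕ) :
    Uw.UW (β / √n) J 3 k (4 ^ k * √n) := ⟨hJ, fun l _ hl hb => by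
  have h := (Uw.opn_VU (Uw.sq_param (pow_le_one₀ hβ.1.le hβ.2) n) hJ hb).1
  have h2 : opn (Uw.Vk (β / √n) J l) ≤ 4 ^ k :=
    h.trans (by rw [show (1 : ℝ) + 3 = 4 by norm_num]; exact pow_le_pow_right₀ (by norm_num) hl)
  refine (nrm_le_iff (by positivity)).2 ?_
  rw [dot_eq, mul_pow, Real.sq_sqrt (Nat.cast_nonneg n), mul_comm, ← nsmul_eq_mul, ← Fin.sum_const]
  refine Finset.sum_le_sum fun j _ => ?_
  rw [← sq_abs]
  exact pow_le_pow_left₀ (abs_nonneg _) ((abs_entry_le _ j j).trans h2) 2⟩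

/-- good instances are typical -/
theorem ev_Gd (hβ : β ∈ Ioo (0 : ℝ) 1) (hs : 0 ≤ s) : ∃ K > (0 : ℝ), ∃ ρ > (0 : ℝ), ∃ κ > (0 : ℝ),
    ∃ C : ℕ → ℝ, ∀ᶠ i in TF β s, Gd β K ρ κ C i := by
  have hβ' : β ∈ Ioc (0 : ℝ) 1 := ⟨hβ.1, hβ.2.le⟩
  obtain ⟨K1, hK1, ρ1, hρ1, κ, hκ, h1⟩ := TF.atd hβ hs
  obtain ⟨K2, ρ2, hK2, hρ2, h2⟩ := TF.cov hβ' hs (Or.inl hβ.2)
  obtain ⟨M, hM, h3⟩ := TF.acc hβ' hs
  choose C C0 hC using TF.uw (s := s) hβ'
  obtain ⟨κ', t, h4⟩ := TF.diag hC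
  choose N hN using fun k => eventually_atTop.1 (t.eventually_ge_atTop k)
  refine ⟨K1 + K2 + M, by positivity, min ρ1 ρ2, lt_min hρ1 hρ2, κ, hκ,
    fun k => C k + 4 ^ k * √(N k), ?_⟩
  filter_upwards [h1, h2, h3, h4, TF.opn hβ', TF.lim.eventually_ge_atTop 3] with i a1 a2 a3 a4 a5 a6
  have l1 : 1 ≤ √(Real.log i.n) := Real.one_le_sqrt.2 (one_le_log a6)
  refine ⟨a6, a5, fun k => ?_, fun v hv => (a1 v (hv.trans (by gcongr; exact min_le_left _ _))).mono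
    (fun _ => Real.exp_pos _) (by linarith) le_rfl, fun v hv u => (a2 v (hv.trans (by
      gcongr; exact min_le_right _ _)) u).trans (mul_le_mul_of_nonneg_right (by linarith)
        (Eig.dot_self_nonneg u)), by linarith⟩
  rcases le_total (N k) i.n with h | h
  · exact (a4 k (hN k _ h)).mono le_rfl le_rfl (by gcongr; exact le_add_of_nonneg_right (by positivity))
  · refine (uw_triv hβ' a5 k).mono le_rfl le_rfl (le_trans ?_ (le_mul_of_one_le_right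
      (by have := C0 k; positivity) l1))
    exact le_add_of_nonneg_of_le (C0 k) (by gcongr)

lemma ev_log {e : ℝ} (he : 0 < e) : ∀ᶠ n : ℕ in atTop, Real.log n ≤ (n : ℝ) ^ e := by
  refine tendsto_natCast_atTop_atTop.eventually (p := fun x : ℝ => Real.log x ≤ x ^ e) ?_
  filter_upwards [(isLittleO_log_rpow_atTop he).bound one_pos, eventually_ge_atTop 0] with x h1 h2
  rw [one_mul, Real.norm_eq_abs, Real.norm_eq_abs, abs_of_nonneg (Real.rpow_nonneg h2 _)] at h1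
  exact (le_abs_self _).trans h1

theorem fam_ok (hβ : β ∈ Icc (0 : ℝ) 1) {K ρ κ : ℝ} {C : ℕ → ℝ} (hρ : 0 ≤ ρ) (hκ : 0 < κ)
    (h : ∀ i, G i → Gd β K ρ κ C i) : (fam β s G).Ok := by
  have h1 : Tendsto (fun i : {i : In // G i} => i.1.n) (comap Subtype.val (TF β s)) atTop :=
    TF.lim.comp tendsto_comap
  have h2 : ∀ i : {i : In // G i}, Atd.ATd (ising (i.1.J β) i.1.y) K
      (Real.exp (-(κ * i.1.n))) := fun i => by
    have := (h i.1 i.2).atd 0 (by rw [nrm_zero]; positivity)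
    rwa [add_zero] at this
  have h3 : ∀ k, ∃ C : ℝ, ∀ i : {i : In // G i}, Uw.UW (β / √i.1.n) (i.1.J β) 3 k
      (C * √(Real.log i.1.n)) := fun k => ⟨C k, fun i => (h i.1 i.2).uw k⟩
  refine ⟨h1, fun i => lt_of_lt_of_le (by norm_num) (h i.1 i.2).n3, hβ,
    fun i => one_le_log (h i.1 i.2).n3, fun e he => h1.eventually (ev_log he),
    fun i => In.symm (β := β) i.1, fun i => In.diag (β := β) i.1, ⟨K, κ, hκ, h2⟩, 3, ?_⟩
  simp only [S3.Fam.s]
  convert h3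

/-- **the typical family**; `G0` is any typical property wanted for all the instances -/
theorem exists_good (hβ : β ∈ Ioo (0 : ℝ) 1) (hs : 0 ≤ s) {G0 : In → Prop}
    (h0 : ∀ᶠ i in TF β s, G0 i) : ∃ G : In → Prop, (∀ᶠ i in TF β s, G i) ∧ (fam β s G).Ok ∧
      ∃ K > (0 : ℝ), ∃ ρ > (0 : ℝ), ∃ κ > (0 : ℝ), ∃ C, ∀ i, G i → G0 i ∧ Gd β K ρ κ C i := by
  obtain ⟨K, hK, ρ, hρ, κ, hκ, C, h⟩ := ev_Gd hβ hs
  exact ⟨fun i => G0 i ∧ Gd β K ρ κ C i, h0.and h,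
    fam_ok ⟨hβ.1.le, hβ.2.le⟩ hρ.le hκ fun _ hi => hi.2, K, hK, ρ, hρ, κ, hκ, C, fun _ hi => hi⟩

/-- **(EMP)** along the family, in the shape of `S3I.Emp` -/
theorem fam_emp {q : ℝ} (hβ : β ∈ Ioc (0 : ℝ) 1) (hL : Lv β s q) (ψ : ℝ → ℝ) (hf : Continuous ψ)
    (he : ∀ x, ψ (-x) = ψ x) (hb : ∃ B, ∀ x, |ψ x| ≤ B) :
    Tendsto (fun i : (fam β s G).I => (∑ k, ψ (i.1.b β k)) / (fam β s G).n i) (fam β s G).l
      (𝓝 (gE ψ (s + β ^ 2 * q) (s + β ^ 2 * q))) :=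
  fam_tendsto (TF.emp hβ hL hf he hb.choose_spec)

end Crest.Agent.T157.Pos

end
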