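import Crest.Agent.T157.S3CV_16
import Crest.Agent.T157.S3IC_52
import Crest.Agent.T157.S3Ng_60
import Crest.Agent.T157.S3Typ_23

/-!
# Row 157, block B/S3: the local law for the canonical network (helper65)
-/

set_option autoImplicit false

noncomputable section

namespace Crest.Agent.T157.S3P

open Filter Set Matrix Topology
open Crest.Agent.T157.E Crest.Agent.T157.Pos
open Crest.Agent.T157.S3 (Fam)

variable {N : ℕ} {P : Prog N} {F : Fam}

lemma s_sq (F : Fam) (a : F.I) : F.s a ^ 2 = F.β ^ 2 / F.n a := by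
  rw [Fam.s, div_pow, Real.sq_sqrt (Nat.cast_nonneg _)]

/-- **(LL)** -/
theorem ll (hP : P.Ok) (hF : F.Ok) (hQ : QA P F) : LL P F := ll_of hF (cv hP hF) hQ

lemma Sm.bl {φ : PF N} (h : Sm φ) : S3I.BL φ := by
  obtain ⟨A, a0, hA⟩ := h.bd
  obtain ⟨B, b0, hB⟩ := h.taylor
  refine ⟨A + B * (N + 1) + 1, by positivity, fun b s ξ => (hA b s ξ).trans (by
    have : 0 ≤ B * (N + 1) := by positivity
    linarith), fun b b' s ξ ξ' => (hB b' b s ξ' ξ).1.trans ?_⟩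
  have h1 : ∑ m, |ξ m - ξ' m| ≤ (N + 1) * Conc.en (ξ - ξ') := by
    simpa using Finset.sum_le_card_nsmul Finset.univ _ _ fun m _ => Conc.abs_le_en (ξ - ξ') m
  have h2 := Conc.en_nonneg (ξ - ξ')
  have h3 := abs_nonneg (b - b')
  nlinarith [mul_le_mul_of_nonneg_left h1 b0, mul_nonneg b0 h3, mul_nonneg a0 h3, mul_nonneg a0 h2,
    mul_nonneg (mul_nonneg b0 h3) (Nat.cast_nonneg (α := ℝ) N)]

lemma Prog.Ok.pg (h : P.Ok) {sg : Fin (N + 1) → ℝ} (hp : P.Par sg) : S3I.Pg P.f P.g P.g' sg where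
  bl l := ⟨(h.sf l).bl, (h.sg l).bl, (h.sg' l).bl⟩
  dep l b := ⟨h.rf l b, h.rg l b, h.rg' l b⟩
  par l := ⟨fun b s ξ => (hp.f l b s ξ).trans (neg_one_mul _).symm, hp.g l,
    fun b s ξ => (hp.g' l b s ξ).trans (one_mul _).symm⟩
  sgn l := (hp.pm l).imp (fun e => ⟨e, hp.ev l e⟩) fun e => ⟨e, hp.od l e⟩

lemma neg_of_ng {d : F.Df} (h : S3I.Ng F.l F.n F.K d) : Fam.Neg d := fun e he => by
  obtain ⟨C, -, h⟩ := h
  refine ⟨C / (e / 2) ^ 2, (h (e / 2) (half_pos he)).mono fun a ⟨r, h1, h2⟩ => ?_⟩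
  rw [div_mul_eq_mul_div, le_div_iff₀ (by positivity), Finset.sum_mul]
  refine (Finset.sum_le_sum fun k _ => ?_).trans h1
  rcases le_total (|d a k| - e) 0 with h3 | h3
  · rw [max_eq_right h3]; simp; positivity
  · rw [max_eq_left h3, ← mul_pow, show 4 = 2 * 2 from rfl, pow_mul]
    exact pow_le_pow_left₀ (by positivity) (by nlinarith [h2 k]) 2

/-- **(LL) + (ID)**: the canonical constants converge and the local law holds with the model constants -/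
theorem llm (hP : P.Ok) {sg : Fin (N + 1) → ℝ} (hp : P.Par sg) (hF : F.Ok) (hQ : QA P F)
    {ν : (ℝ → ℝ) → ℝ} (h0 : ν 0 = 0)
    (hE : S3I.Emp F.l F.n (fun a => bF (F.s a) (F.J a) (F.y a)) ν) {κ : Type} [Fintype κ]
    {M : Matrix (Fin (N + 1)) κ ℝ} {cM : ℝ → Fin (N + 1) → ℝ} (hM : S3I.Mod P.f P.g P.g' F.β ν M cM) :
    (∀ l m, Tendsto (fun a => P.S (F.s a) (F.J a) (F.y a) l m) F.l (𝓝 ((M * Mᵀ) l m))) ∧
    (∀ l, S3I.Ng F.l F.n F.K fun a k =>
      P.c (F.s a) (F.J a) (F.y a) l k - cM (bF (F.s a) (F.J a) (F.y a) k) l) ∧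
    S3I.LLm F.l F.n F.K F.w (fun a x k l => P.X (F.s a) (F.J a) (F.y a) l x k)
      (fun a => bF (F.s a) (F.J a) (F.y a)) 0 M cM univ := by
  choose A hA using fun a => exists_fac P (F.s a) (F.J a) (F.y a)
  have := S3I.ident (c := fun a k l => P.c (F.s a) (F.J a) (F.y a) l k) (hP.pg hp) hM h0
    (S3.T60.K_div hF) hE (.of_forall fun a => Pl.wt_ising _ _) (ll hP hF hQ _ A hA)
    (.of_forall fun a k l => congrArg (_ + ·) (S3.T60.me_eq ((P.net F).ev (fl F (P.g' l))) a))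
    (.of_forall fun a l m => by rw [hA, ← mul_div_assoc, mul_div_right_comm, ← s_sq]; rfl)
  simp only [hA] at this
  exact this

/-- means of letters are the model values up to negligible vectors -/
theorem llp (hP : P.Ok) {sg : Fin (N + 1) → ℝ} (hp : P.Par sg) (hF : F.Ok) (hQ : QA P F)
    {ν : (ℝ → ℝ) → ℝ} (h0 : ν 0 = 0)
    (hE : S3I.Emp F.l F.n (fun a => bF (F.s a) (F.J a) (F.y a)) ν) {κ : Type} [Fintype κ]
    {M : Matrix (Fin (N + 1)) κ ℝ} {cM : ℝ → Fin (N + 1) → ℝ} (hM : S3I.Mod P.f P.g P.g' F.β ν M cM)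
    {φ : PF N} (hφ : Sm φ) : Fam.Neg (F := F) fun a => F.EV ((P.net F).ev (fl F φ)) a -
      fun k => S3I.Eb M 0 cM φ (bF (F.s a) (F.J a) (F.y a) k) :=
  neg_of_ng ((llm hP hp hF hQ h0 hE hM).2.2.bl hφ.bl fun _ => S3I.reads_univ _)

/-! ### the typical family -/

variable {β s : ℝ} {G : In → Prop}

theorem qa_fam (h : P.Ok) (hβ : β ∈ Ico (0 : ℝ) 1) : QA P (fam β s G) := fun C ε hε =>
  (fam_in (TF.of_goe fun e he => qa_goe h hβ s C hε he)).mono fun a ha => by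
    rw [a.1.offd_W] at ha
    exact ha

/-- the static field of the canonical network is the cavity field -/
theorem bF_fam (a : (fam β s G).I) :
    bF ((fam β s G).s a) ((fam β s G).J a) ((fam β s G).y a) = a.1.b β := by
  rw [In.b_eq, bF, Uw.eta, s_sq, Tap.avg, ← mul_div_assoc, mul_div_right_comm]
  rfl

theorem ll_fam (h : P.Ok) (hβ : β ∈ Ico (0 : ℝ) 1) (hF : (fam β s G).Ok) : LL P (fam β s G) :=
  ll h hF (qa_fam h hβ)

theorem emp_fam {q : ℝ} (hβ : β ∈ Ioc (0 : ℝ) 1) (hL : Lv β s q) : S3I.Emp (fam β s G).l (fam β s G).n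
    (fun a => bF ((fam β s G).s a) ((fam β s G).J a) ((fam β s G).y a))
    fun ψ => Tap.gE ψ (s + β ^ 2 * q) (s + β ^ 2 * q) := fun ψ h1 h2 h3 =>
  (fam_emp hβ hL ψ h1 h2 h3).congr fun a => by rw [← bF_fam]

end Crest.Agent.T157.S3P

end
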