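import Crest.Agent.T157.KProg_69
import Crest.Agent.T157.S3Gg_96
import Crest.Agent.T157.S3Ex_98

/-!
# Row 157, block B/S3 (helper40): the canonical top word of a program
-/

set_option autoImplicit false

noncomputable section

namespace Crest.Agent.T157.S3.Lk

open Matrix Finset
open Crest.ProbabilityR.SpinGlassDynamics (spin)
open Crest.Agent.T157.E (Cube sv ising mean meanV cov mag)
open Crest.Agent.T157.Eig
open Crest.Agent.T157.Pl (cmul cmul_cmul)
open Crest.Agent.T157.S3P (PF Prog Sm St bF eP me Zr Sg cc step me_zero)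
open Crest.Agent.T157.KP69 (Pr Api Wd)
open Crest.Agent.T157.S3.Gg

/-! ### triangular recursions -/

section rec_
variable {n K : ℕ} {J : Mx n} {a : Fin K → Fin K → V n} {ot : Fin K → Fin K → ℝ}
  {S T Y T' Y' : Fin K → Mx n}

/-- the words of a recursion -/
def Yw (J : Mx n) (a : Fin K → Fin K → V n) (ot : Fin K → Fin K → ℝ) (S : Fin K → Mx n) :
    (Fin K → Mx n) × (Fin K → Mx n) := Classical.epsilon fun p => RecM J a ot S p.1 p.2

lemma Yw_spec (ha : ∀ l m, l ≤ m → a l m = 0) (ho : ∀ l m, l ≤ m → ot l m = 0) :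
    RecM J a ot S (Yw J a ot S).1 (Yw J a ot S).2 :=
  Classical.epsilon_spec (p := fun p : (Fin K → Mx n) × (Fin K → Mx n) => RecM J a ot S p.1 p.2)
    (let ⟨T, Y, h⟩ := Ex98.recM_ex J ha ho S; ⟨(T, Y), h⟩)

lemma recM_uniq (ha : ∀ l m, l ≤ m → a l m = 0) (ho : ∀ l m, l ≤ m → ot l m = 0)
    (h : RecM J a ot S T Y) (h' : RecM J a ot S T' Y') (l : Fin K) : T l = T' l ∧ Y l = Y' l := by
  induction l using WellFoundedLT.induction with
  | ind l ih =>
  have e : T l = T' l := by
    rw [(h l).1, (h' l).1]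
    exact congrArg _ (Ex98.sum_lt (fun m hm => by rw [(ih m hm).2]) fun m hm => by simp [ha l m hm])
  refine ⟨e, ?_⟩
  rw [(h l).2, (h' l).2, e]
  exact congrArg _ (Ex98.sum_lt (fun m hm => by rw [(ih m hm).1]) fun m hm => by simp [ho l m hm])

lemma recM_opn (K : ℕ) {M : ℝ} (M0 : 0 ≤ M) (l : Fin K) : ∃ C ≥ (0 : ℝ), ∀ (n : ℕ) (J : Mx n) a ot
    (S T Y : Fin K → Mx n), (∀ l m, l ≤ m → a l m = 0) → (∀ l m, l ≤ m → ot l m = 0) → opn J ≤ M →
    (∀ l m k, |a l m k| ≤ M) → (∀ l m, |ot l m| ≤ M) → (∀ l, opn (S l) ≤ M) → RecM J a ot S T Y →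
    opn (T l) ≤ C ∧ opn (Y l) ≤ C := by
  induction l using WellFoundedLT.induction with
  | ind l ih =>
  choose! C C0 hC using ih
  set B : ℝ := ∑ m, if m < l then M * C m else 0 with hB
  have B0 : 0 ≤ B := sum_nonneg fun m _ => by
    split_ifs with h
    exacts [mul_nonneg M0 (C0 m h), le_rfl]
  refine ⟨(M + 1) * (M + B) + B, by positivity, fun n J a ot S T Y ha ho hJ h1 h2 h3 h => ?_⟩
  have e : opn (T l) ≤ M + B := by
    rw [(h l).1]
    refine (opn_add_le _ _).trans (add_le_add (h3 l) ((opn_sum_le _ _).trans (sum_le_sum fun m _ => ?_)))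
    split_ifs with hm
    · exact (opn_mul_le _ _).trans (mul_le_mul (opn_diagonal_le M0 (h1 l m))
        (hC m hm n J a ot S T Y ha ho hJ h1 h2 h3 h).2 (opn_nonneg _) M0)
    · simp [ha l m (not_lt.1 hm)]
  refine ⟨by nlinarith, ?_⟩
  rw [(h l).2]
  refine (opn_sub_le _ _).trans (add_le_add ((opn_mul_le _ _).trans ((mul_le_mul hJ e
    (opn_nonneg _) M0).trans (by nlinarith))) ((opn_sum_le _ _).trans (sum_le_sum fun m _ => ?_)))
  split_ifs with hm
  · rw [opn_smul]
    exact mul_le_mul (h2 l m) (hC m hm n J a ot S T Y ha ho hJ h1 h2 h3 h).1 (opn_nonneg _) M0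
  · simp [ho l m (not_lt.1 hm)]

variable (z : Cube n)

lemma cj_diag (u : V n) : cj z (diagonal u) = diagonal u := by
  ext i j
  by_cases h : i = j
  · subst h
    rw [cj_apply, mul_right_comm, Rec.sv_mul_self, one_mul]
  · simp [cj_apply, h]

lemma cj_mul (A B : Mx n) : cj z (A * B) = cj z A * cj z B := by
  ext i j
  simp only [cj_apply, mul_apply, mul_sum, sum_mul]
  refine sum_congr rfl fun k _ => ?_
  linear_combination -(sv z i * A i k * B k j * sv z j) * Rec.sv_mul_self z k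

lemma cj_top (A : Mx n) (u : Fin K → V n) (Y : Fin K → Mx n) :
    cj z (A + ∑ m, diagonal (u m) * Y m) = cj z A + ∑ m, diagonal (u m) * cj z (Y m) := by
  have : ∀ m, diagonal (u m) * cj z (Y m) = cj z (diagonal (u m) * Y m) := fun m => by
    rw [cj_mul, cj_diag]
  simp only [this]
  simp only [cj, Matrix.mul_add, Matrix.add_mul, Matrix.mul_sum, Matrix.sum_mul]

lemma recM_g {u : Fin K → V n} (h : RecM (cj z J) a ot (fun l => diagonal (u l)) T Y) :
    RecM J a ot (fun l => diagonal (u l)) (fun l => cj z (T l)) fun l => cj z (Y l) := fun l => by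
  refine ⟨by beta_reduce; rw [(h l).1, cj_top, cj_diag], ?_⟩
  have : J * cj z (T l) = cj z (cj z J * T l) := by rw [cj_mul, cj_cj]
  simp only [this]
  rw [(h l).2]
  simp only [cj, Matrix.mul_sub, Matrix.sub_mul, Matrix.mul_sum, Matrix.sum_mul, Matrix.mul_smul,
    Matrix.smul_mul]

end rec_

/-! ### gauge covariance of the canonical fields -/

section gauge
variable {n N : ℕ} (z : Cube n) (s : ℝ) (J : Mx n) (y : V n) {sg : Fin (N + 1) → ℝ}

/-- transport of the fields -/
def gX (sg : Fin (N + 1) → ℝ) (X : St n N) : St n N :=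
  fun l x => (if sg l = 1 then 1 else sv z) * X l (cmul z x)

lemma bF_g : bF s (cj z J) (sv z * y) = sv z * bF s J y := by
  have : (sv z * mag (ising J y)) ^ 2 = mag (ising J y) ^ 2 := funext fun i => sq_g z i _
  rw [bF, bF, mag_g, cj_mulVec_g, this, mul_sub, mul_add, mul_smul_comm]

lemma meanV_g (u : Cube n → V n) (c : V n) :
    meanV (ising (cj z J) (sv z * y)) (fun x => c * u (cmul z x)) = c * meanV (ising J y) u := by
  funext k
  simp only [meanV, Pi.mul_apply, SL.mean_const_mul]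
  rw [mean_g z J y fun x => u x k]

variable (hs : ∀ l, sg l = 1 ∨ sg l = -1) (X : St n N) {φ : PF N}
include hs

lemma eP_g {ε : ℝ} (hp : Pr sg ε φ) (x : Cube n) (k : Fin n) :
    eP s (cj z J) (sv z * y) (gX z sg X) φ x k =
      (if z k then 1 else ε) * eP s J y X φ (cmul z x) k := by
  simp only [eP, bF_g, gX, Pi.mul_apply]
  cases hz : z k
  · have e1 : sv z k = -1 := by simp [sv, hz, spin]
    have e2 : x k = !(cmul z x k) := by simp [cmul, hz]
    have e3 : (fun l => (if sg l = 1 then 1 else sv z : V n) k * X l (cmul z x) k) =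
        sg * fun l => X l (cmul z x) k := funext fun l => by
      rcases hs l with h | h <;> norm_num [h, e1]
    rw [e3, e1, neg_one_mul, e2, hp]
    simp
  · have e1 : sv z k = 1 := by simp [sv, hz, spin]
    have e2 : x k = cmul z x k := by simp [cmul, hz]
    have e3 : (fun l => (if sg l = 1 then 1 else sv z : V n) k * X l (cmul z x) k) =
        fun l => X l (cmul z x) k := funext fun l => by
      split_ifs <;> simp [e1]
    rw [e3, e1, one_mul, ← e2]
    simp

lemma eP_ev (hp : Pr sg 1 φ) :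
    eP s (cj z J) (sv z * y) (gX z sg X) φ = fun x => eP s J y X φ (cmul z x) := by
  funext x k
  rw [eP_g z s J y hs X hp, ite_self, one_mul]

lemma eP_od (hp : Pr sg (-1) φ) :
    eP s (cj z J) (sv z * y) (gX z sg X) φ = fun x => sv z * eP s J y X φ (cmul z x) := by
  funext x k
  rw [eP_g z s J y hs X hp, Pi.mul_apply, sv]
  cases z k <;> simp [spin]

lemma me_ev (hp : Pr sg 1 φ) : me s (cj z J) (sv z * y) (gX z sg X) φ = me s J y X φ := by
  rw [me, eP_ev z s J y hs X hp]
  exact mean_g z J y fun x => Uw.eta s (eP s J y X φ x)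

omit hs
variable {P : Prog N} (hP : P.Ok) (hp : P.Par sg)
include hP hp

lemma step_g : step P s (cj z J) (sv z * y) (gX z sg X) = gX z sg (step P s J y X) := by
  have pf : ∀ m, Pr sg (-1) (P.f m) := fun m b s ξ => by rw [hp.f]; ring
  have e0 : ∀ (J : Mx n) y X x, eP s J y X (0 : PF N) x = 0 := fun _ _ _ _ => rfl
  have hZ : ∀ l, Zr P s (cj z J) (sv z * y) (gX z sg X) l =
      fun x => sv z * Zr P s J y X l (cmul z x) := fun l => by
    funext x
    simp only [Zr, fun m => eP_od z s J y hp.pm X (pf m), cj_mulVec_g, mul_sub, mul_sum]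
    refine congrArg _ (sum_congr rfl fun m _ => ?_)
    rcases hp.pm m with h | h
    · simp [hp.ev m h, e0]
    · rw [me_ev z s J y hp.pm X (by simpa using (pf l).pd (hP.sf l) h), mul_smul_comm]
  have hS : ∀ l, Sg P s (cj z J) (sv z * y) (gX z sg X) l 0 = Sg P s J y X l 0 := fun l => by
    simp only [Sg, of_apply, fun m => eP_od z s J y hp.pm X (pf m), (Pl.wt_ising _ _).cov_eq]
    refine congrArg _ (sum_congr rfl fun k _ => ?_)
    have h1 := fun u => congrFun (meanV_g z J y u (sv z)) k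
    simp only [meanV] at h1
    rw [h1, h1, ← mean_g z J y fun x => eP s J y X (P.f l) x k * eP s J y X (P.f 0) x k]
    have h2 : ∀ a b : ℝ, sv z k * a * (sv z k * b) = a * b := fun a b => by
      linear_combination a * b * Rec.sv_mul_self z k
    simp only [Pi.mul_apply, h2]
    rfl
  have g' : ∀ l, Pr sg 1 (P.g' l) := fun l b s ξ => by rw [hp.g', one_mul]
  funext l x
  rw [step, hZ, meanV_g, hS, mag_g, cc, me_ev z s J y hp.pm X (g' l), gX, step, cc]
  rcases hp.pm l with h | h
  · have z1 : Zr P s J y X l = 0 := by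
      funext x
      simp [Zr, hp.ev l h, S3P.pd_zero, me_zero, e0]
    have z2 : Sg P s J y X l 0 = 0 := by simp [Sg, hp.ev l h, e0, cov, mean]
    have z3 : meanV (ising J y) (0 : Cube n → V n) = 0 := by ext; simp [meanV, mean]
    have := meanV_g z J y (eP s J y X (P.g l)) 1
    simp only [one_mul] at this
    rw [eP_ev z s J y hp.pm X (fun b s ξ => by rw [hp.g, h]), this, z1, z2, z3, if_pos h]
    simp
  · rw [eP_od z s J y hp.pm X (fun b s ξ => by rw [hp.g, h]), meanV_g, hp.od l h, me_zero,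
      if_neg (by rw [h]; norm_num)]
    ext k
    simp only [Pi.add_apply, Pi.sub_apply, Pi.mul_apply, Pi.smul_apply, smul_eq_mul]
    ring

theorem X_g : P.X s (cj z J) (sv z * y) = gX z sg (P.X s J y) := by
  suffices H : ∀ t, (step P s (cj z J) (sv z * y))^[t] 0 = gX z sg ((step P s J y)^[t] 0) from H _
  intro t
  induction t with
  | zero => funext l x; simp [gX]
  | succ t ih =>
    rw [Function.iterate_succ_apply', Function.iterate_succ_apply', ih, step_g z s J y _ hP hp]

theorem e_g (h : Pr sg 1 φ) (x : Cube n) :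
    P.e s (cj z J) (sv z * y) φ (cmul z x) = P.e s J y φ x := by
  rw [Prog.e, X_g z s J y hP hp, eP_ev z s J y hp.pm _ h]
  simp only [cmul_cmul]
  rfl

theorem me_g (h : Pr sg 1 φ) :
    me s (cj z J) (sv z * y) (P.X s (cj z J) (sv z * y)) φ = me s J y (P.X s J y) φ := by
  rw [X_g z s J y hP hp, me_ev z s J y hp.pm _ h]

end gauge

/-! ### the top word -/

/-- a program with the letters of a flow family and top letters -/
structure Pg where
  m : ℕ
  K : ℕ
  P : Prog m
  sg : Fin (m + 1) → ℝ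
  al : Fin K → PF m
  a : Fin K → Fin K → PF m
  al0 : PF m
  a0 : Fin K → PF m

namespace Pg
variable (g : Pg)

structure Ok : Prop where
  ok : g.P.Ok
  par : g.P.Par g.sg
  al : ∀ l, Sm (g.al l) ∧ Pr g.sg 1 (g.al l)
  a : ∀ l p, Sm (g.a l p) ∧ Pr g.sg 1 (g.a l p)
  al0 : Sm g.al0 ∧ Pr g.sg 1 g.al0
  a0 : ∀ l, Sm (g.a0 l) ∧ Pr g.sg 1 (g.a0 l)
  tri : ∀ l p, l ≤ p → g.a l p = 0

section
variable {n : ℕ} (s : ℝ) (J : Mx n) (y : V n) (x : Cube n)

def av (l p : Fin g.K) : V n := g.P.e s J y (g.a l p) x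
def ot (l p : Fin g.K) : ℝ := me s J y (g.P.X s J y) (g.a l p)
def S (l : Fin g.K) : Mx n := diagonal (g.P.e s J y (g.al l) x)
def W : (Fin g.K → Mx n) × (Fin g.K → Mx n) := Yw J (g.av s J y x) (g.ot s J y) (g.S s J y x)
/-- **the canonical top word** -/
def Tg : Mx n := diagonal (g.P.e s J y g.al0 x) +
  ∑ p, diagonal (g.P.e s J y (g.a0 p) x) * (g.W s J y x).2 p

variable {g} (h : g.Ok)
include h

lemma Ok.av0 (l p : Fin g.K) (hp : l ≤ p) : g.av s J y x l p = 0 := by rw [av, h.tri l p hp]; rfl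
lemma Ok.ot0 (l p : Fin g.K) (hp : l ≤ p) : g.ot s J y l p = 0 := by rw [ot, h.tri l p hp, me_zero]
lemma Ok.rec' : RecM J (g.av s J y x) (g.ot s J y) (g.S s J y x) (g.W s J y x).1 (g.W s J y x).2 :=
  Yw_spec (h.av0 s J y x) (h.ot0 s J y)
lemma Ok.uniq {T Y : Fin g.K → Mx n} (h' : RecM J (g.av s J y x) (g.ot s J y) (g.S s J y x) T Y) :
    (g.W s J y x).2 = Y :=
  funext fun l => (recM_uniq (h.av0 s J y x) (h.ot0 s J y) (h.rec' s J y x) h' l).2

/-- **gauge covariance** -/
theorem Ok.Tg_g (z : Cube n) : gM z (g.Tg s (cj z J) (sv z * y)) = g.Tg s J y := by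
  funext x
  have h1 := h.rec' s (cj z J) (sv z * y) (cmul z x)
  have e1 : g.av s (cj z J) (sv z * y) (cmul z x) = g.av s J y x :=
    funext₂ fun l p => e_g z s J y h.ok h.par (h.a l p).2 x
  have e2 : g.ot s (cj z J) (sv z * y) = g.ot s J y :=
    funext₂ fun l p => me_g z s J y h.ok h.par (h.a l p).2
  have e3 : g.S s (cj z J) (sv z * y) (cmul z x) = fun l => diagonal (g.P.e s J y (g.al l) x) :=
    funext fun l => congrArg _ (e_g z s J y h.ok h.par (h.al l).2 x)
  rw [e1, e2, e3] at h1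
  rw [gM, Tg, Tg, cj_top, cj_diag, h.uniq s J y x (recM_g z h1), e_g z s J y h.ok h.par h.al0.2]
  simp only [fun p => e_g z s J y h.ok h.par (h.a0 p).2 x]

end

variable {g} (h : g.Ok) (β : ℝ)
include h

/-- **operator norm** -/
theorem Ok.opn_le : ∃ C, ∀ (n : ℕ) (J : Mx n) (y : V n) (x : Cube n), opn J ≤ 3 →
    opn (g.Tg (β / √n) J y x) ≤ C := by
  choose A A0 hA using fun l p => (h.a l p).1.bd
  choose B B0 hB using fun l => (h.al l).1.bd
  choose D D0 hD using fun l => (h.a0 l).1.bd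
  obtain ⟨E, E0, hE⟩ := h.al0.1.bd
  set M : ℝ := 3 + (β ^ 2 + 1) * ∑ l, ∑ p, A l p + ∑ l, B l with hM
  have a1 : ∀ l p, A l p ≤ ∑ l, ∑ p, A l p := fun l p =>
    (single_le_sum (f := A l) (fun _ _ => A0 _ _) (mem_univ p)).trans
      (single_le_sum (f := fun l => ∑ p, A l p) (fun _ _ => sum_nonneg fun _ _ => A0 _ _) (mem_univ l))
  have s1 : 0 ≤ ∑ l, ∑ p, A l p := sum_nonneg fun _ _ => sum_nonneg fun _ _ => A0 _ _
  have s2 : 0 ≤ ∑ l, B l := sum_nonneg fun _ _ => B0 _
  have s3 := mul_nonneg (sq_nonneg β) s1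
  choose C C0 hC using recM_opn g.K (show 0 ≤ M by positivity)
  refine ⟨E + ∑ p, D p * C p, fun n J y x hJ => (opn_add_le _ _).trans (add_le_add
    (opn_diagonal_le E0 fun k => hE _ _ _) ((opn_sum_le _ _).trans (sum_le_sum fun p _ =>
      (opn_mul_le _ _).trans (mul_le_mul (opn_diagonal_le (D0 p) fun k => hD _ _ _ _)
        (hC p n J _ _ _ _ _ (h.av0 _ J y x) (h.ot0 _ J y) (by linarith) (fun l m k => ?_)
          (fun l m => ?_) (fun l => ?_) (h.rec' _ J y x)).2 (opn_nonneg _) (D0 p)))))⟩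
  · exact (hA l m _ _ _).trans (by linarith [a1 l m])
  · refine ((Pl.wt_ising J y).abs_mean_le (c := β ^ 2 * A l m) fun t => ?_).trans
      (by nlinarith [a1 l m, sq_nonneg β])
    rw [KP69.eta_eq, abs_mul, abs_sq, Tap.avg, abs_div, Nat.abs_cast]
    refine mul_le_mul_of_nonneg_left (div_le_of_le_mul₀ (Nat.cast_nonneg n) (A0 l m)
      ((abs_sum_le_sum_abs _ _).trans ((sum_le_sum fun k _ => hA l m _ _ _).trans ?_))) (sq_nonneg β)
    simp [mul_comm]
  · exact (opn_diagonal_le (B0 l) fun k => hB l _ _ _).trans (by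
      linarith [single_le_sum (f := B) (fun _ _ => B0 _) (mem_univ l)])

/-- **the top word acts on every thermal calculus** -/
theorem Ok.api {T : Wd → Prop} (hT : Api T) {U : Wd} (hU : T U) :
    T fun n J s y => g.Tg (β / √n) J y s *ᵥ U n J s y := by
  have dm : ∀ {n : ℕ} (u v : V n), diagonal u *ᵥ v = u * v := fun u v =>
    funext fun i => mulVec_diagonal u v i
  have H := hT.fwd β h.ok h.par h.a h.tri
    (g := fun l n J s y => g.P.e (β / √n) J y (g.al l) s * U n J s y)
    (c := fun l n J s y => (g.W (β / √n) J y s).1 l *ᵥ U n J s y)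
    (c' := fun l n J s y => (g.W (β / √n) J y s).2 l *ᵥ U n J s y)
    (fun l => hT.em β h.ok h.par (h.al l).1 (h.al l).2 hU) fun n J s y l => by
      have h1 := h.rec' (β / √n) J y s l
      constructor
      · simp only []
        rw [h1.1, add_mulVec, sum_mulVec]
        simp only [← mulVec_mulVec, S, dm, av]
      · simp only []
        rw [h1.2, sub_mulVec, sum_mulVec]
        simp only [← mulVec_mulVec, smul_mulVec, ot]
  convert hT.add' (hT.em β h.ok h.par h.al0.1 h.al0.2 hU) (hT.sum univ fun p _ =>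
    hT.em β h.ok h.par (h.a0 p).1 (h.a0 p).2 (H p).2) using 5 with n J s y
  rw [Tg, add_mulVec, sum_mulVec]
  simp only [← mulVec_mulVec, dm]

end Pg

end Crest.Agent.T157.S3.Lk

end
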