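import Crest.Agent.T157.S1SupC_60

/-! Row 157, block B/S3 (helper90): the link of the ansatz on a family. -/

set_option autoImplicit false

noncomputable section

namespace Crest.Agent.T157.S1.SA

open Matrix Filter MeasureTheory
open Crest.Agent.T157.Eig
open Crest.Agent.T157.E (Cube)
open Crest.Agent.T157.Rec (grad)
open Crest.Agent.T157.S3 Crest.Agent.T157.S3.Fam Crest.Agent.T157.S3.An90 Crest.Agent.T157.S3.T60
open Crest.Agent.T157.Nt (Fn Ix)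
open Crest.Agent.T157.Tw (sech2)

/-- the gradient of the top letter is linked to the gradient flow -/
theorem lk_qs {F : Fam} (hF : F.Ok) {N P : ℕ} {R : Net F N} {d : Tp R P} {𝒯 : Set F.Df} {a C0 e : ℝ}
    {p q α : F.Df} (h : TopIn d 𝒯 a C0 e p q α) : Qs 𝒯 fun e B i w => Exc (F.w i) e B fun x =>
      nrm (grad (fun z => w ⬝ᵥ R.ev d.ψ ⟨i, z⟩) x -
        (d.Γ.tT (R.gs d.ψ) (fun m => R.pd m d.ψ) ⟨i, x⟩)ᵀ *ᵥ w) := by
  obtain ⟨C, h1⟩ := regGStmt F N R 𝒯 d.Γ d.ψ hF h.net h.ty h.drift.1 h.top h.bψ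
  refine Qs.imp hF (p := fun e B i w => ∃ Ω, Rg e (C * nrm w) Ω ∧ Exc (F.w i) e B
      (fun x => nrm ((d.Γ.tT (R.gs d.ψ) (fun m => R.pd m d.ψ) ⟨i, x⟩)ᵀ *ᵥ w - Ω x)) ∧
      Exc (F.w i) e B fun x => nrm (grad (fun z => w ⬝ᵥ R.ev d.ψ ⟨i, z⟩) x - Ω x))
    (fun _ _ _ _ _ hB ⟨Ω, a, b, c⟩ => ⟨Ω, a, Exc.mono b le_rfl hB fun _ => le_rfl,
      Exc.mono c le_rfl hB fun _ => le_rfl⟩)
    (fun _ _ _ _ _ hB H => Exc.mono H le_rfl hB fun _ => le_rfl) h1 fun e he =>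
    ⟨e / 4, by positivity, 1, one_pos, 4, 0, by norm_num, by linarith,
      .of_forall fun i w B _ _ ⟨Ω, _, b, c⟩ => Exc.mono (Exc.add (Da.Gr.ising_pos _ _) c b)
        (by linarith) (by linarith) fun x => (nrm_tri _ (Ω x) _).trans_eq (by
          rw [nrm_sub_comm (Ω x)])⟩

/-- **the rescaled ansatz with its link** -/
theorem ansL_out {F : Fam} (hF : F.Ok) {ν : Measure ℝ} {n : ℕ} {N : Nt.Net n} {l a e C' : ℝ}
    {ψ : Fn (Ix n)} {m : Ix n → Fn (Ix n)} {ρ : ℝ → ℝ} {R : Net F n}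
    {Ag : F.Lf (n + 1) → Fn (Ix n) → Prop} {d : Tp R (n + 1)} (h : Out F ν N l a e C' ψ m ρ R Ag d)
    (hC : 0 ≤ C') (he : 0 ≤ e) : AnsL F a (2 * (8 / (l - a) ^ 2 + 2)) C' e
      (fun i k => sech2 (bv F i k) + e) (fun i k => qf ρ (bv F i k))
      (fun i k => alf (N.S 0 0) a ρ (bv F i k) * qf ρ (bv F i k))
      fun i x => (2 / 3 : ℝ) • d.Γ.tT (R.gs d.ψ) (fun m => R.pd m d.ψ) ⟨i, x⟩ := by
  obtain ⟨C, c1, H⟩ := h.ans' hF hC he
  refine ⟨C, c1, fun e1 he1 => ?_⟩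
  obtain ⟨η, η0, D, hD, C1, -, H⟩ := H e1 he1
  obtain ⟨η', η0', D', hD', C2, H'⟩ := lk_qs hF h.top e1 he1
  refine ⟨min η η', lt_min η0 η0', D ++ D', List.forall_mem_append.2 ⟨hD, hD'⟩, |C1| + |C2|,
    by positivity, ?_⟩
  filter_upwards [H, H'] with i b b'
  refine ⟨_, _, amono b le_rfl (fun _ => le_rfl) le_rfl (min_le_left _ _) le_rfl fun w =>
    E0_mono hF (by linarith [abs_nonneg C2]) (by rw [Pi_append]; linarith [Pi_nonneg D' i w]),
    fun w hw => ?_⟩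
  have h1 := b' ((2 / 3 : ℝ) • w) (by
    rw [norm_smul, Real.norm_of_nonneg (by norm_num)]
    linarith [hw.trans (min_le_right _ _), norm_nonneg w])
  refine Exc.mono h1 le_rfl ((E0_smul hF he1.le (by norm_num) (by norm_num) D' i w).trans
    (E0_mono hF (by rw [abs_abs]; linarith [abs_nonneg C1])
      (by rw [Pi_append]; linarith [Pi_nonneg D i w]))) fun x => le_of_eq ?_
  simp only [h.hψ, dotProduct_smul, smul_dotProduct, transpose_smul, smul_mulVec, mulVec_smul]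

end Crest.Agent.T157.S1.SA

end
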