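import Crest.Agent.T157.S3LkA_40
import Crest.Agent.T157.S3LkF_90

/-! Row 157, block B/S3 (helper90): the gradient flow of a realisation is a canonical top word. -/

set_option autoImplicit false

noncomputable section

namespace Crest.Agent.T157.S3.Lk90

open Matrix MeasureTheory Set
open Crest.Agent.T157.E (Cube)
open Crest.Agent.T157.Nt (Fn Ix BS dx res rf cb co Tl FactStmt)
open Crest.Agent.T157.S3P (fl)
open Crest.Agent.T157.S3R
open Crest.Agent.T157.S3.T60 (Rz RX Out)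
open Crest.Agent.T157.S3.Lk (Pg)
open Crest.Agent.T157.Pos (In)

variable {F : Fam} {ν : Measure ℝ} {n : ℕ} {N : Nt.Net n} {σ : Sta F ν} {e : Ix n → Ix σ.m}
  {X : Ix n → F.Vf} {G : Ix n → JL F n} {π : Ix n → Ix n → F.I → ℝ} {ψ : Fn (Ix n)}

theorem top_d (T : Tl) (h : Nt.LT ψ) : Nt.Df ψ ∧ ∀ u, BS (dx u ψ) := by
  have B := T.bs (Ix n)
  have X := T.dx ℝ (Ix n)
  have dco : ∀ u : Ix n, Nt.Df (co u : Fn (Ix n)) := fun u b s => differentiable_apply u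
  have dmul : ∀ {φ φ' : Fn (Ix n)}, Nt.Df φ → Nt.Df φ' → Nt.Df (φ * φ') :=
    fun h h' b s => (h b s).mul (h' b s)
  obtain ⟨G, c, hG, hc, rfl⟩ := h
  have hs : Nt.Df (∑ l, cb (c l) * co l : Fn (Ix n)) := fun b s => by
    simpa only [Finset.sum_apply] using
      Differentiable.sum (u := Finset.univ) fun l _ => dmul (B.df (hc l)) (dco l) b s
  refine ⟨fun b s => (B.df hG b s).add (hs b s), fun u => ?_⟩
  rw [X.add u (B.df hG) hs, X.sum u _ fun l _ => dmul (B.df (hc l)) (dco l)]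
  refine B.add (B.dx u hG) (B.sum _ fun l _ => ?_)
  rw [X.cbm, X.co]
  split_ifs
  exacts [B.mul (hc l) (B.const 1), B.mul (hc l) (B.const 0)]

/-- the program of the gradient flow of a realisation -/
def pg (σ : Sta F ν) (e : Ix n → Ix σ.m) (ψ : Fn (Ix n)) (c : ℝ) : Pg where
  m := σ.m
  K := n + 1
  P := σ.P
  sg := σ.sg
  al l := S3P.gs (σ.P.f (e l))
  a l p := if p < l then S3P.pd (e p) (σ.P.f (e l)) else 0
  al0 := c • res e (Nt.gs ψ)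
  a0 p := c • res e (dx p ψ)

theorem pg_ok (T : Tl) (h : Rp N σ e univ X G π) (h1 : Nt.LT ψ) (h2 : rf ψ = -ψ)
    (h3 : BS (Nt.gs ψ)) (c : ℝ) : (pg σ e ψ c).Ok := by
  have sg : ∀ u, σ.sg (e u) = -1 := fun u => (σ.re _ (h.bs.re u trivial)).2.2
  have k : ∀ {φ}, S3R.Pr σ.sg (- -1) φ → KP69.Pr σ.sg 1 φ := fun h b s ξ => by
    simpa only [neg_neg] using h.resolve_left (by norm_num) b s ξ
  have r : ∀ {H : Fn (Ix n)}, BS H → rf H = H → S3P.Sm (c • res e H) ∧ KP69.Pr σ.sg 1 (c • res e H) :=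
    fun {H} hb hr => ⟨(sm_res e (sm_of_bs T.bs hb)).smul c, fun b s ξ => by
      have : (σ.sg * ξ) ∘ e = -(ξ ∘ e) := funext fun u => by simp [sg]
      simp only [Pi.smul_apply, res, this, one_mul]
      exact congrArg _ (congrFun (congrFun (congrFun hr b) s) _)⟩
  refine ⟨σ.ok, σ.par, fun l => ⟨(σ.ok.sf _).gs, k (σ.pr_f _).gs⟩, fun l p => ?_,
    r h3 (T60.rf_gs T h2), fun p => r ((top_d T h1).2 p) (T60.rf_dx T h2 (top_d T h1).1 p),
    fun l p hp => if_neg (not_lt.2 hp)⟩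
  simp only [pg]
  split_ifs
  · exact ⟨(σ.ok.sf _).pd _, k ((σ.pr_f _).pd (σ.ok.sf _) (sg p))⟩
  · exact ⟨.zero, fun _ _ _ => (one_mul _).symm⟩

theorem tg_eq (h : Rp N σ e univ X G π) (c : ℝ) (ho : (pg σ e ψ c).Ok)
    {Γ : Flow (net σ e X G) (n + 1)} (hΓ : Γ.IsGrad) (ω : F.Ω) :
    c • Γ.tT ((net σ e X G).gs (fl F ψ)) (fun m => (net σ e X G).pd m (fl F ψ)) ω =
      (pg σ e ψ c).Tg (F.s ω.1) (F.J ω.1) (F.y ω.1) ω.2 := by
  have ct := fun l => (h.ct l trivial).mono (subset_univ _)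
  have e1 : ∀ l p, (net σ e X G).ev (Γ.a l p) = σ.e ((pg σ e ψ c).a l p) := fun l p => by
    simp only [pg]
    split_ifs with hp
    · rw [hΓ.2.2]
      exact h.bs.ev le_rfl (h.bs.dx (σ.ok.sf _) (ct l) le_rfl trivial le_rfl le_rfl trivial)
    · rw [hΓ.1.tri l p (not_lt.1 hp)]; rfl
  have e2 : ∀ l, (net σ e X G).ev (Γ.al l) = σ.e ((pg σ e ψ c).al l) := fun l => by
    rw [hΓ.2.1]
    exact h.bs.ev (H := Nt.gs (G l)) le_rfl fun θ s η ξ a b => by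
      simp only [pg, S3P.gs, Nt.gs, ct l θ _ η ξ a b]
  have e3 : ∀ H : Fn (Ix n), (net σ e X G).ev (fl F H) = σ.e (res e H) := fun H =>
    h.bs.ev (H := lift F H) le_rfl fun θ s η ξ _ a =>
      congrArg (H _ s) (funext fun u => (a u trivial).symm)
  have e4 := ho.uniq (F.s ω.1) (F.J ω.1) (F.y ω.1) ω.2 (T := fun l => Γ.T l ω)
    (Y := fun l => Γ.Y l ω) fun l => ⟨by
      simp only [Flow.T, Flow.tT, Net.dg, e1, e2]; rfl, by
      simp only [hΓ.1.hY l ω, Flow.ot, e1]; rfl⟩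
  rw [Pg.Tg, e4, Flow.tT, smul_add, Finset.smul_sum]
  simp only [Net.dg, ← smul_mul_assoc, ← diagonal_smul]
  exact congrArg₂ _ (congrArg _ (congrArg (c • ·) (congrFun (e3 (Nt.gs ψ)) ω)))
    (Finset.sum_congr rfl fun p _ => congrArg (fun u => diagonal (c • u) * _)
      (congrFun (e3 (dx p ψ)) ω))

theorem real' [IsProbabilityMeasure ν] (T : Tl) (hF : FactStmt) (hL : LP F ν) (hN : N.Ok F.β ν) :
    ∃ (σ : Sta F ν) (e : Ix n → Ix σ.m), ∃ X G π, Rp N σ e univ X G π ∧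
      RX F ν N (net σ e X G) (Ag σ e) := by
  have hS := stepStmt T appStmt (flow T hF)
  obtain ⟨σ, e, X, G, π, h⟩ := rp_univ baseStmt hS hN
  refine ⟨σ, e, X, G, π, h, fun n' N' ι hN' hE => ?_⟩
  obtain ⟨σ', e', X', G', π', h', H⟩ := rp_ext trStmt hS hN h hN' hE
  refine ⟨_, _, h'.rz T hF hL hN', fun g hg => ?_, H⟩
  obtain ⟨φ, hφ⟩ := Ag.of_mem hg
  obtain ⟨g', h1, h2⟩ := H g φ hφ
  exact ⟨g', h1.mem, h2⟩

/-- **the link** -/
theorem famLk {β : ℝ} (h0 : 0 < β) (h1 : β < 1) : S1.SA.FamLk β fun _ Tg =>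
    ∃ g : Pg, g.Ok ∧ ∀ i : In, Tg i = g.Tg (β / √i.n) (i.J β) i.y := by
  intro K0 κ0 hκ
  obtain ⟨C', c0, H⟩ := T60.ansX K0 κ0 3 hκ
  refine ⟨C', c0, fun s q0 G hL hF hG hS n N l a e al0 ψ m ρ hl he hN ht => ?_⟩
  have hP := S3P.lp_fam ⟨h0, h1⟩ hL hF
  obtain ⟨σ, ι, X, W, π, h, hx⟩ := real' (F := Pos.fam β s G) Nt.All.tl Nt.All.factStmt hP hN
  have hz := h.rz Nt.All.tl Nt.All.factStmt hP hN
  obtain ⟨d, t1, t2, t3, t4, t5, -⟩ := T60.topIn_ex Nt.All.tl bilStmt exStmt hF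
    (S3P.empF_fam ⟨h0, h1.le⟩ hL) hz hx hS hN ht
  have ho := pg_ok Nt.All.tl h ht.1.lt ht.1.od ht.1.fl.bal (2 / 3)
  have hO : Out _ _ N l a e C' ψ m ρ _ _ d := ⟨hz, hx, t1, t2, t3, t4, t5, by
    have := H _ hF (fun i => hG i.1 i.2) n _ _ d _ _ _ _ _ _ _ he t1
    rw [t2] at this ⊢
    convert this using 1
    funext i k
    exact (T60.alf_mul (by linarith [(ht.1.hρ (T60.bv _ i k)).2.1] :
      0 < ρ (T60.bv _ i k)).ne').symm⟩
  refine ⟨_, ⟨_, ho, fun _ => rfl⟩, fun i z => ?_, ?_⟩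
  · rw [Pos.In.gg_J]
    exact ho.Tg_g _ _ _ z
  · have := S1.SA.ansL_out hF hO c0 he.le
    have eb : ∀ i, T60.bv (Pos.fam β s G) i = i.1.b β := S3P.bF_fam
    simp only [eb, t2, tg_eq h _ ho t1.drift.1] at this
    exact this

end Crest.Agent.T157.S3.Lk90

end
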