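import Crest.Agent.T157.NetDef_32
import Crest.Agent.T157.S3Prog_65
import Crest.Agent.T157.S3ID_52

/-! S3, realisation of a model network by a program (helper52): words and leaves. -/

set_option autoImplicit false
set_option linter.unusedVariables false

noncomputable section

namespace Crest.Agent.T157.S3R

open MeasureTheory Matrix Set Function
open Crest.Agent.T157.S3 (Fam)
open Crest.Agent.T157.S3P (PF Prog Sm bF)
open Crest.Agent.T157.Nt (Fj Fn Ix BS dx gs sp co cb res th rf Ev Net FactStmt)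

/-- sites of the instances, and static fields of the model -/
abbrev Pt (F : Fam) : Type := (Σ i : F.I, Fin (F.n i)) ⊕ ℝ
/-- joint letters: a letter of the family together with its model -/
abbrev JL (F : Fam) (n : ℕ) : Type := Fj (Pt F) (Ix n)

variable {F : Fam} {ν : Measure ℝ} {n n' : ℕ}

/-- the static field -/
def bi (F : Fam) : F.Df := fun i => bF (F.s i) (F.J i) (F.y i)
def bv (F : Fam) : Pt F → ℝ := Sum.elim (fun θ => bi F θ.1 θ.2) id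
def lift (F : Fam) (H : Fn (Ix n)) : JL F n := fun θ => H (bv F θ)
def md (G : JL F n) : Fn (Ix n) := fun b => G (.inr b)
def ins (G : JL F n) : F.Lf (n + 1) := fun i k => G (.inl ⟨i, k⟩)
def ev (X : Ix n → F.Vf) (G : JL F n) : F.Vf :=
  fun ω k => G (.inl ⟨ω.1, k⟩) (ω.2 k) fun u => X u ω k
/-- static letters -/
def jv (d : F.Df) (c : ℝ → ℝ) : JL F n := cb (Sum.elim (fun θ => d θ.1 θ.2) c)
/-- constants -/
def jc (p : F.I → ℝ) (c : ℝ) : JL F n := jv (fun i _ => p i) fun _ => c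
/-- reads the fields in `T` only -/
def On {J : Type} (T : Set (Ix n)) (G : Fj J (Ix n)) : Prop :=
  ∀ θ s x x', (∀ u ∈ T, x u = x' u) → G θ s x = G θ s x'
/-- parity `ε` (no condition if `ε = 0`) -/
def Pr {m : ℕ} (sg : Ix m → ℝ) (ε : ℝ) (φ : PF m) : Prop :=
  ε = 0 ∨ ∀ b s ξ, φ (-b) (!s) (sg * ξ) = ε * φ b s ξ

/-- a program with its model; `Pm` is the set of the parameter nodes -/
structure Sta (F : Fam) (ν : Measure ℝ) where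
  m : ℕ
  r : ℕ
  P : Prog m
  sg : Ix m → ℝ
  Pm : Set (Ix m)
  M : Matrix (Ix m) (Fin r) ℝ
  cM : ℝ → Ix m → ℝ
  ok : P.Ok
  par : P.Par sg
  mod : S3I.Mod P.f P.g P.g' F.β (fun ψ => ∫ b, ψ b ∂ν) M cM
  pm : ∀ t ∈ Pm, P.f t = 0
  re : ∀ t ∉ Pm, P.g t = 0 ∧ P.g' t = 0 ∧ sg t = -1
  z : 0 ∉ Pm

namespace Sta
variable (σ : Sta F ν)

def X (t : Ix σ.m) : F.Vf := (σ.P.net F).X t
def e (φ : PF σ.m) : F.Vf := (σ.P.net F).ev (S3P.fl F φ)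
/-- values of the offsets -/
def cv : Pt F → Ix σ.m → ℝ :=
  Sum.elim (fun θ t => σ.P.c (F.s θ.1) (F.J θ.1) (F.y θ.1) t θ.2) σ.cM
def S : Matrix (Ix σ.m) (Ix σ.m) ℝ := σ.M * σ.Mᵀ
def Eb (φ : PF σ.m) : ℝ → ℝ := S3I.Eb σ.M 0 σ.cM φ
def Cv (φ ψ : PF σ.m) : ℝ := F.β ^ 2 * ∫ b, (σ.Eb (φ * ψ) b - σ.Eb φ b * σ.Eb ψ b) ∂ν

/-- extension -/
structure Le (σ' : Sta F ν) (j : Ix σ.m → Ix σ'.m) : Prop where
  inj : Injective j
  zero : j 0 = 0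
  X : ∀ t, σ'.X (j t) = σ.X t
  cv : ∀ θ t, σ'.cv θ (j t) = σ.cv θ t
  pm : ∀ t, j t ∈ σ'.Pm ↔ t ∈ σ.Pm
  sg : ∀ t, σ'.sg (j t) = σ.sg t
  S : ∀ t t', σ'.S (j t) (j t') = σ.S t t'
  f : ∀ t, σ'.P.f (j t) = res j (σ.P.f t)

/-- the new nodes are parameters -/
def Pe (σ' : Sta F ν) (j : Ix σ.m → Ix σ'.m) : Prop := ∀ t ∉ σ'.Pm, t ∈ range j

variable (e : Ix n → Ix σ.m) (T : Set (Ix n))

/-- `φ` computes `G` from the fields in `T` when the parameters have their values -/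
def Ct (G : JL F n) (φ : PF σ.m) : Prop := ∀ θ s η ξ, (∀ t ∈ σ.Pm, η t = σ.cv θ t) →
  (∀ u ∈ T, ξ u = η (e u)) → φ (bv F θ) s η = G θ s ξ
/-- available -/
def Av (ε : ℝ) (G : JL F n) : Prop := ∃ φ, Sm φ ∧ Pr σ.sg ε φ ∧ σ.Ct e T G φ
/-- **forced**: available after adding parameters -/
def Fa (ε : ℝ) (G : JL F n) : Prop := ∀ σ' j, σ.Le σ' j →
  ∃ σ'' j', σ'.Le σ'' j' ∧ σ'.Pe σ'' j' ∧ Av σ'' (j' ∘ j ∘ e) T ε G

end Sta

/-- the nodes in `D` are placed -/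
structure Bs (N : Net n) (σ : Sta F ν) (e : Ix n → Ix σ.m) (D : Set (Ix n)) (X : Ix n → F.Vf) :
    Prop where
  z : 0 ∈ D
  e0 : e 0 = 0
  inj : InjOn e D
  re : ∀ u ∈ D, e u ∉ σ.Pm
  S : ∀ u ∈ D, ∀ v ∈ D, σ.S (e u) (e v) = N.S u v
  X : ∀ u ∈ D, X u = σ.X (e u)

def cen (u : F.Vf) : F.Vf := fun ω => u ω - F.EV u ω.1
/-- drift fields -/
def Zf (N : Net n) (X : Ix n → F.Vf) (G : Ix n → JL F n) (v : Ix n) : F.Vf := cen fun ω =>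
  F.J ω.1 *ᵥ ev X (G v) ω - ∑ m, F.me (ev X (lift F (N.a v m))) ω.1 • ev X (G m) ω
/-- realised drift -/
def tA (X : Ix n → F.Vf) (π : Ix n → Ix n → F.I → ℝ) (Z : Ix n → F.Vf) (al : Fn (Ix n))
    (a : Ix n → Fn (Ix n)) : F.Vf := fun ω => F.τ ω * ev X (lift F al) ω +
  ∑ m, ev X (lift F (a m)) ω * Z m ω - ∑ m, ∑ p, π m p ω.1 • ev X (dx p (lift F (a m))) ω
/-- right hand side of the equations of the pairing constants -/
def piR (N : Net n) (X : Ix n → F.Vf) (G : Ix n → JL F n) (π : Ix n → Ix n → F.I → ℝ)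
    (v p : Ix n) (i : F.I) : ℝ :=
  F.me (ev X (lift F (N.al v) * (1 - sp * lift F (th 0)) * gs (G p))) i +
    ∑ q, ∑ r, F.me (ev X (lift F (N.a v q) * dx r (G p))) i * π q r i

/-- **partial realisation** of the nodes in `D` -/
structure Rp (N : Net n) (σ : Sta F ν) (e : Ix n → Ix σ.m) (D : Set (Ix n)) (X : Ix n → F.Vf)
    (G : Ix n → JL F n) (π : Ix n → Ix n → F.I → ℝ) : Prop where
  bs : Bs N σ e D X
  sur : ∀ t ∉ σ.Pm, ∃ u ∈ D, e u = t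
  ct : ∀ u ∈ D, σ.Ct e (D ∩ Iio u) (G u) (σ.P.f (e u))
  md : ∀ u ∈ D, md (G u) = N.f u
  cl : ∀ u ∈ D, On D (N.al u) ∧ ∀ v, On D (N.a u v) ∧ (v ∉ D → N.a u v = 0)
  pi : ∀ v ∈ D, ∀ p ∈ D, π v p = piR N X G π v p
  dr : ∀ u ∈ D, N.dr u → ev X (G u) = tA X π (Zf N X G) (N.al u) (N.a u)

/-- the realised network -/
def net (σ : Sta F ν) (e : Ix n → Ix σ.m) (X : Ix n → F.Vf) (G : Ix n → JL F n) : S3.Net F n where
  X := X
  b := bi F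
  f u := ins (G u)
  C := {g | ∃ H, σ.Fa e univ 0 H ∧ g = ins H}
/-- agreement of a letter with a function of the model -/
def Ag (σ : Sta F ν) (e : Ix n → Ix σ.m) (g : F.Lf (n + 1)) (φ : Fn (Ix n)) : Prop :=
  ∃ H, σ.Fa e univ 0 H ∧ g = ins H ∧ φ = md H

/-! ### leaves -/

/-- append one node (`p`: it is a parameter) -/
def AppStmt : Prop := ∀ (F : Fam) (ν : Measure ℝ) (σ : Sta F ν) (f g g' : PF σ.m) (ε : ℝ) (r : ℕ)
    (M : Matrix (Ix σ.m) (Fin r) ℝ) (row : Fin r → ℝ) (p : Prop),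
  Sm f → Sm g → Sm g' → Pr σ.sg (-1) f → Pr σ.sg ε g → Pr σ.sg 1 g' →
  (ε = 1 ∧ f = 0 ∨ ε = -1 ∧ g' = 0) → (p → f = 0) → (¬ p → g = 0 ∧ g' = 0 ∧ ε = -1) →
  M * Mᵀ = σ.S → (∀ t, (M *ᵥ row) t = σ.Cv f (σ.P.f t)) → row ⬝ᵥ row = σ.Cv f f →
  ∃ (σ' : Sta F ν) (j : Ix σ.m → Ix σ'.m) (t : Ix σ'.m), σ.Le σ' j ∧ t ∉ range j ∧
    (∀ t', t' ∈ range j ∨ t' = t) ∧ (t ∈ σ'.Pm ↔ p) ∧ σ'.sg t = ε ∧ σ'.P.f t = res j f ∧
    (∀ i k, σ'.cv (.inl ⟨i, k⟩) t = F.EV (σ.e g) i k + F.me (σ.e g') i) ∧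
    (∀ b, σ'.cv (.inr b) t = σ.Eb g b + F.β ^ 2 * ∫ b, σ.Eb g' b ∂ν) ∧
    (∀ t', σ'.S t (j t') = (M *ᵥ row) t') ∧ σ'.S t t = row ⬝ᵥ row

/-- thermal constants and site means are forced -/
def ParStmt : Prop := ∀ (F : Fam) (ν : Measure ℝ) [IsProbabilityMeasure ν] (n : ℕ) (N : Net n)
    (σ : Sta F ν) (e : Ix n → Ix σ.m) (D : Set (Ix n)) (X : Ix n → F.Vf), Bs N σ e D X →
  ∀ T ⊆ D, ∀ H, (σ.Fa e T 1 H → σ.Fa e ∅ 1 (jc (F.me (ev X H)) (F.β ^ 2 * Ev ν N.A 0 (md H)))) ∧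
    ∀ ε, ε = 1 ∨ ε = -1 → σ.Fa e T ε H → σ.Fa e ∅ ε (jv (F.EV (ev X H)) (N.E (md H)))

/-- a statement about all partial realisations of good networks -/
def AllRp (Q : ∀ (F : Fam) (ν : Measure ℝ) (n : ℕ) (N : Net n) (σ : Sta F ν) (e : Ix n → Ix σ.m)
    (D : Set (Ix n)) (X : Ix n → F.Vf) (G : Ix n → JL F n) (π : Ix n → Ix n → F.I → ℝ), Prop) :
    Prop :=
  ∀ (F : Fam) (ν : Measure ℝ) [IsProbabilityMeasure ν] (n : ℕ) (N : Net n) (σ : Sta F ν) e D X G π,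
    N.Ok F.β ν → Rp N σ e D X G π → Q F ν n N σ e D X G π

def PiStmt : Prop := AllRp fun F ν n N σ e D X G π =>
  ∀ v ∈ D, N.dr v → ∀ p ∈ D, σ.Fa e ∅ 1 (jc (π v p) (N.S v p))

def ZetaStmt : Prop := AllRp fun F ν n N σ e D X G π => ∀ v ∈ D, N.dr v →
  ∃ ζ, σ.Fa e (D ∩ Iio v) (-1) ζ ∧ md ζ = -N.S 0 v • sp ∧ ev X ζ = Zf N X G v - X v

def FlowStmt : Prop := AllRp fun F ν n N σ e D X G π => ∀ T ⊆ D, 0 ∈ T →
  (∀ v ∈ T, D ∩ Iio v ⊆ T) → ∀ al a ε, N.Flw al a → On T al → (∀ v, On T (a v)) →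
  (∀ v ∉ T, a v = 0) → (ε = 0 ∨ rf al = ε • al ∧ ∀ v, rf (a v) = ε • a v) →
  ∃ A, σ.Fa e T (-ε) A ∧ md A = N.drift al a ∧ ev X A = tA X π (Zf N X G) al a

def StepStmt : Prop := AllRp fun F ν n N σ e D X G π => ∀ w ∉ D, Iio w ⊆ D →
  ∃ (σ' : Sta F ν) (j : Ix σ.m → Ix σ'.m) (e' : Ix n → Ix σ'.m), ∃ X' G' π',
    Rp N σ' e' (insert w D) X' G' π' ∧ σ.Le σ' j ∧ ∀ u ∈ D, e' u = j (e u)

/-- the first node -/
def BaseStmt : Prop := ∀ (F : Fam) (ν : Measure ℝ) [IsProbabilityMeasure ν] (n : ℕ) (N : Net n),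
  N.Ok F.β ν → ∃ (σ : Sta F ν) (e : Ix n → Ix σ.m), ∃ X G π, Rp N σ e {0} X G π

/-- transport along an extension of the model network -/
def TrStmt : Prop := AllRp fun F ν n N σ e D X G π => D = univ →
  ∀ (n' : ℕ) (N' : Net n') (ι : Ix n → Ix n'), N.Ext N' ι →
    ∃ (e' : Ix n' → Ix σ.m), ∃ X' G' π', Rp N' σ e' (range ι) X' G' π' ∧ ∀ u, e' (ι u) = e u

/-- the realised network and its flows -/
def FinStmt : Prop := AllRp fun F ν n N σ e D X G π => D = univ → (net σ e X G).Ok ∧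
  ∃ (Φ : S3.Flow (net σ e X G) (n + 1)) (Γ : S3.Flow (net σ e X G) (n + 1)) (Z : Ix n → F.Vf),
    Φ.Ok ∧ Φ.IsDrift Γ π Z ∧ (∀ u, Φ.al u = S3P.fl F (N.al u)) ∧
    (∀ u v, Φ.a u v = S3P.fl F (N.a u v)) ∧ ∀ al a, N.Flw al a → ∃ A, Ag σ e A (N.drift al a) ∧
      (net σ e X G).ev A = Φ.tA π Z (S3P.fl F al) fun v => S3P.fl F (a v)

end Crest.Agent.T157.S3R

end
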