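import Crest.Agent.T157.S3RA_52

/-!
# Row 157, block B/S3: appending one node to a program with its model (helper30)
-/

set_option autoImplicit false

noncomputable section

namespace Crest.Agent.T157.S3R

open MeasureTheory Matrix Set Function
open Crest.Agent.T157.S3 (Fam V Mx)
open Crest.Agent.T157.S3P (PF Prog Sm Rd St eP me Zr Sg cc step Cb)
open Crest.Agent.T157.Nt (Ix res)
open Fin (castSucc last snoc)

namespace App30

variable {m m' : ℕ}

/-- restriction of the fields -/
def rl (j : Ix m → Ix m') : (Ix m' → ℝ) →L[ℝ] (Ix m → ℝ) :=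
  ContinuousLinearMap.pi fun l => ContinuousLinearMap.proj (j l)

theorem sm_res (j : Ix m → Ix m') {φ : PF m} (h : Sm φ) : Sm (res j φ : PF m') := fun s =>
  (h s).clm ((ContinuousLinearMap.id ℝ ℝ).prodMap (rl j))

theorem pd_res {j : Ix m → Ix m'} (hj : Injective j) {φ : PF m} (h : Sm φ) (l : Ix m) :
    S3P.pd (j l) (res j φ : PF m') = res j (S3P.pd l φ) := by
  funext b s ξ
  have h1 := ((h.diff b s (rl j ξ)).hasFDerivAt.comp ξ (rl j).hasFDerivAt).fderiv
  have h2 : rl j (Pi.single (j l) 1) = Pi.single l 1 := by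
    funext k
    change (Pi.single (j l) (1 : ℝ) : Ix m' → ℝ) (j k) = _
    simp [Pi.single_apply, hj.eq_iff]
  change fderiv ℝ (φ b s ∘ rl j) ξ _ = fderiv ℝ (φ b s) (rl j ξ) _
  rw [h1, ContinuousLinearMap.comp_apply, h2]

/-- a family with one more member -/
def sn (u : Ix m → PF m) (φ : PF m) : Ix (m + 1) → PF (m + 1) :=
  snoc (fun l => res castSucc (u l)) (res castSucc φ)

@[simp] lemma sn_cs (u : Ix m → PF m) (φ : PF m) (l : Ix m) :
    sn u φ (castSucc l) = res castSucc (u l) := Fin.snoc_castSucc ..
@[simp] lemma sn_last (u : Ix m → PF m) (φ : PF m) : sn u φ (last _) = res castSucc φ :=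
  Fin.snoc_last ..

lemma sn_sm {u : Ix m → PF m} {φ : PF m} (hu : ∀ l, Sm (u l)) (h : Sm φ) (l : Ix (m + 1)) :
    Sm (sn u φ l) := by
  induction l using Fin.lastCases with
  | last => rw [sn_last]; exact sm_res _ h
  | cast l => rw [sn_cs]; exact sm_res _ (hu l)

lemma sn_rd {u : Ix m → PF m} (φ : PF m) (hu : ∀ l, Rd l (u l)) (l : Ix (m + 1)) :
    Rd l (sn u φ l) := by
  induction l using Fin.lastCases with
  | last =>
    rw [sn_last]
    exact fun b s ξ ξ' e => congrArg (φ b s) (funext fun k => e _ (Fin.castSucc_lt_last k))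
  | cast l =>
    rw [sn_cs]
    exact fun b s ξ ξ' e => hu l b s _ _ fun k hk => e _ (Fin.castSucc_lt_castSucc_iff.2 hk)

/-- the program with one more node -/
def pr (P : Prog m) (f g g' : PF m) : Prog (m + 1) := ⟨sn P.f f, sn P.g g, sn P.g' g'⟩

variable {P : Prog m} {f g g' : PF m}

lemma ok (h : P.Ok) (hf : Sm f) (hg : Sm g) (hg' : Sm g') : (pr P f g g').Ok where
  sf := sn_sm h.sf hf
  sg := sn_sm h.sg hg
  sg' := sn_sm h.sg' hg'
  rf := sn_rd f h.rf
  rg := sn_rd g h.rg
  rg' := sn_rd g' h.rg'
  f0 := (sn_cs P.f f 0).trans (by rw [h.f0]; rfl)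
  g0 := (sn_cs P.g g 0).trans (by rw [h.g0]; rfl)
  g'0 := (sn_cs P.g' g' 0).trans (by rw [h.g'0]; rfl)

section inst
variable {n : ℕ} {s : ℝ} {J : Mx n} {y : V n}

lemma eP_res (j : Ix m → Ix m') (X : St n m') (φ : PF m) :
    eP s J y X (res j φ) = eP s J y (fun l => X (j l)) φ := rfl
lemma me_res (j : Ix m → Ix m') (X : St n m') (φ : PF m) :
    me s J y X (res j φ) = me s J y (fun l => X (j l)) φ := rfl

/-- the fixed point is unique -/
lemma fix_uniq (h : P.Ok) {Y : St n m} (hY : step P s J y Y = Y) : Y = P.X s J y := by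
  funext l
  rw [← (iterate_fixed hY (m + 1)), Prog.X]
  exact S3P.iter_congr h _ l l.2 _ _

lemma cc_cs (X : St n (m + 1)) (l : Ix m) :
    cc (pr P f g g') s J y X (castSucc l) = cc P s J y (fun l => X (castSucc l)) l := by
  simp only [cc, pr, sn_cs, eP_res, me_res]

lemma step_cs (h : P.Ok) (h' : (pr P f g g').Ok) (X : St n (m + 1)) (l : Ix m) :
    step (pr P f g g') s J y X (castSucc l) = step P s J y (fun l => X (castSucc l)) l := by
  have e1 : Zr (pr P f g g') s J y X (castSucc l) = Zr P s J y (fun l => X (castSucc l)) l := by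
    funext x
    rw [Zr, Zr, Fin.sum_univ_castSucc, (h'.rf _).pd_zero (h'.sf _) (Fin.le_last _), S3P.me_zero,
      zero_smul, add_zero]
    simp only [pr, sn_cs, pd_res (Fin.castSucc_injective _) (h.sf l), eP_res, me_res]
  have e2 : Sg (pr P f g g') s J y X (castSucc l) 0 = Sg P s J y (fun l => X (castSucc l)) l 0 := by
    rw [show (0 : Ix (m + 1)) = castSucc 0 from rfl]
    simp only [Sg, of_apply, pr, sn_cs, eP_res]
  funext x
  rw [step, step, e1, e2, cc_cs]

lemma X_cs (h : P.Ok) (h' : (pr P f g g').Ok) :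
    (fun l => (pr P f g g').X s J y (castSucc l)) = P.X s J y :=
  fix_uniq h (funext fun l => by rw [← step_cs h h', h'.fix])

end inst

section model
variable {r r' : ℕ}

/-- the root with one more row -/
def mr (M : Matrix (Ix m) (Fin r) ℝ) (row : Fin r → ℝ) : Matrix (Ix (m + 1)) (Fin r) ℝ :=
  of (snoc (α := fun _ => Fin r → ℝ) M row)

@[simp] lemma mr_cs (M : Matrix (Ix m) (Fin r) ℝ) (row : Fin r → ℝ) (l : Ix m) :
    mr M row (castSucc l) = M l := Fin.snoc_castSucc (α := fun _ => Fin r → ℝ) ..
@[simp] lemma mr_last (M : Matrix (Ix m) (Fin r) ℝ) (row : Fin r → ℝ) :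
    mr M row (last _) = row := Fin.snoc_last (α := fun _ => Fin r → ℝ) ..

lemma gram_eq {L : Type} (M : Matrix L (Fin r) ℝ) (l k : L) : (M * Mᵀ) l k = M l ⬝ᵥ M k := rfl

/-- reading part of the nodes -/
lemma Eb_res (j : Ix m → Ix m') (h0 : j 0 = 0) {M : Matrix (Ix m) (Fin r) ℝ}
    {M' : Matrix (Ix m') (Fin r) ℝ} (hM : ∀ l, M' (j l) = M l) {cM : ℝ → Ix m → ℝ}
    {cM' : ℝ → Ix m' → ℝ} (hc : ∀ b l, cM' b (j l) = cM b l) (φ : PF m) :
    S3I.Eb M' 0 cM' (res j φ) = S3I.Eb M 0 cM φ := by
  funext b
  unfold S3I.Eb S3L.mdl S3L.gm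
  refine Finset.sum_congr rfl fun σ _ => congrArg _ (integral_congr_ae (ae_of_all _ fun z => ?_))
  refine congrArg (φ b σ) (funext fun l => ?_)
  have e0 : M' 0 = M 0 := h0 ▸ hM 0
  change (_ : ℝ) * (M' (j l) ⬝ᵥ M' 0) + M' (j l) ⬝ᵥ z + cM' b (j l) = _
  rw [e0, hM, hc]
  rfl

/-- change of the root -/
lemma Eb_root {M : Matrix (Ix m) (Fin r) ℝ} {M' : Matrix (Ix m) (Fin r') ℝ} (h : M * Mᵀ = M' * M'ᵀ)
    (cM : ℝ → Ix m → ℝ) {φ : PF m} (hφ : Sm φ) : S3I.Eb M 0 cM φ = S3I.Eb M' 0 cM φ := by
  funext b
  unfold S3I.Eb S3L.mdl S3L.gm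
  refine Finset.sum_congr rfl fun σ _ => congrArg _ ?_
  rw [h]
  exact S3L.Clt58.int_congr h (F := fun x => φ b σ (_ + x + cM b))
    ((hφ.diff b σ).continuous.comp (by fun_prop)).measurable

end model

end App30

open App30

theorem appStmt : AppStmt := by
  intro F ν σ f g g' ε r M row p hf hg hg' pf pg pg' hε hp hnp hM hrow hrr
  have hε0 : ε ≠ 0 := by rcases hε with ⟨h, -⟩ | ⟨h, -⟩ <;> rw [h] <;> norm_num
  replace pf := pf.resolve_left (by norm_num)
  replace pg := pg.resolve_left hε0
  replace pg' := pg'.resolve_left one_ne_zero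
  have h' := ok σ.ok hf hg hg'
  set sg : Ix (σ.m + 1) → ℝ := snoc σ.sg ε with hsg
  set cM : ℝ → Ix (σ.m + 1) → ℝ :=
    fun b => snoc (σ.cM b) (σ.Eb g b + F.β ^ 2 * ∫ b, σ.Eb g' b ∂ν) with hcM
  set Pm : Ix (σ.m + 1) → Prop := snoc (fun l => l ∈ σ.Pm) p with hPm
  have s1 : ∀ l, sg (castSucc l) = σ.sg l := fun l => Fin.snoc_castSucc ..
  have s2 : sg (last _) = ε := Fin.snoc_last ..
  have c1 : ∀ b l, cM b (castSucc l) = σ.cM b l := fun b l => Fin.snoc_castSucc ..
  have c2 : ∀ b, cM b (last _) = σ.Eb g b + F.β ^ 2 * ∫ b, σ.Eb g' b ∂ν := fun b => Fin.snoc_last ..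
  have p1 : ∀ l, Pm (castSucc l) = (l ∈ σ.Pm) := fun l => Fin.snoc_castSucc ..
  have p2 : Pm (last _) = p := Fin.snoc_last ..
  have sm : ∀ ξ : Ix (σ.m + 1) → ℝ, (sg * ξ) ∘ castSucc = σ.sg * (ξ ∘ castSucc) := fun ξ =>
    funext fun l => by simp only [Function.comp_apply, Pi.mul_apply, s1]
  have eb : ∀ φ, Sm φ → S3I.Eb (mr M row) 0 cM (res castSucc φ) = σ.Eb φ := fun φ hφ =>
    (Eb_res castSucc rfl (mr_cs M row) c1 φ).trans (Eb_root hM _ hφ)
  have eb2 : ∀ φ ψ, Sm φ → Sm ψ → S3I.Eb (mr M row) 0 cM (res castSucc φ * res castSucc ψ) =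
      σ.Eb (φ * ψ) := fun φ ψ h1 h2 => eb _ (h1.mul h2)
  have gS : ∀ l k, M l ⬝ᵥ M k = σ.S l k := fun l k => by rw [← hM]; rfl
  let σ' : Sta F ν :=
    { m := σ.m + 1, r := r, P := pr σ.P f g g', sg := sg, Pm := {t | Pm t}, M := mr M row, cM := cM
      ok := h'
      par :=
        { pm := fun l => by
            induction l using Fin.lastCases with
            | last => rw [s2]; exact hε.imp And.left And.left
            | cast l => rw [s1]; exact σ.par.pm l
          f := fun l b s ξ => by
            induction l using Fin.lastCases with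
            | last => simp only [pr, sn_last, res, sm, pf, neg_one_mul]
            | cast l => simp only [pr, sn_cs, res, sm, σ.par.f]
          g := fun l b s ξ => by
            induction l using Fin.lastCases with
            | last => simp only [pr, sn_last, res, sm, pg, s2]
            | cast l => simp only [pr, sn_cs, res, sm, σ.par.g, s1]
          g' := fun l b s ξ => by
            induction l using Fin.lastCases with
            | last => simp only [pr, sn_last, res, sm, pg', one_mul]
            | cast l => simp only [pr, sn_cs, res, sm, σ.par.g']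
          ev := fun l => by
            induction l using Fin.lastCases with
            | last =>
              rw [s2]
              rintro rfl
              rcases hε with ⟨-, rfl⟩ | ⟨h, -⟩
              · exact sn_last _ _
              · norm_num at h
            | cast l => rw [s1]; intro h; simp only [pr, sn_cs, σ.par.ev l h]; rfl
          od := fun l => by
            induction l using Fin.lastCases with
            | last =>
              rw [s2]
              rintro rfl
              rcases hε with ⟨h, -⟩ | ⟨-, rfl⟩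
              · norm_num at h
              · exact sn_last _ _
            | cast l => rw [s1]; intro h; simp only [pr, sn_cs, σ.par.od l h]; rfl }
      mod :=
        { c := fun b l => by
            induction l using Fin.lastCases with
            | last => simp only [pr, sn_last, c2, eb _ hg, eb _ hg']
            | cast l =>
              simp only [pr, sn_cs, c1, eb _ (σ.ok.sg l), eb _ (σ.ok.sg' l)]
              exact σ.mod.c b l
          S := fun l k => by
            rw [gram_eq]
            induction l using Fin.lastCases with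
            | last =>
              induction k using Fin.lastCases with
              | last => simp only [pr, sn_last, mr_last, eb2 _ _ hf hf, eb _ hf, hrr]; rfl
              | cast k =>
                simp only [pr, sn_last, sn_cs, mr_last, mr_cs, eb2 _ _ hf (σ.ok.sf k), eb _ hf,
                  eb _ (σ.ok.sf k)]
                rw [dotProduct_comm]
                exact hrow k
            | cast l =>
              induction k using Fin.lastCases with
              | last =>
                simp only [pr, sn_last, sn_cs, mr_last, mr_cs, eb2 _ _ (σ.ok.sf l) hf, eb _ hf,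
                  eb _ (σ.ok.sf l)]
                refine (hrow l).trans ?_
                simp only [Sta.Cv, mul_comm]
              | cast k =>
                simp only [pr, sn_cs, mr_cs, eb2 _ _ (σ.ok.sf l) (σ.ok.sf k), eb _ (σ.ok.sf _), gS]
                exact σ.mod.S l k }
      pm := fun l => by
        induction l using Fin.lastCases with
        | last => intro h; rw [mem_ofPred_eq, p2] at h; simp only [pr, sn_last, hp h]; rfl
        | cast l => intro h; rw [mem_ofPred_eq, p1] at h; simp only [pr, sn_cs, σ.pm l h]; rfl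
      re := fun l => by
        induction l using Fin.lastCases with
        | last =>
          intro h
          rw [mem_ofPred_eq, p2] at h
          obtain ⟨a1, a2, a3⟩ := hnp h
          simp only [pr, sn_last, a1, a2, s2, a3]
          exact ⟨rfl, rfl, trivial⟩
        | cast l =>
          intro h
          rw [mem_ofPred_eq, p1] at h
          obtain ⟨a1, a2, a3⟩ := σ.re l h
          simp only [pr, sn_cs, a1, a2, s1, a3]
          exact ⟨rfl, rfl, trivial⟩
      z := fun h => σ.z ((p1 0).mp h) }
  have hX := fun i => X_cs (s := F.s i) (J := F.J i) (y := F.y i) σ.ok h'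
  refine ⟨σ', castSucc, last _, ⟨Fin.castSucc_injective _, rfl, fun t => ?_, fun θ t => ?_,
    fun t => (p1 t).to_iff, s1, fun t t' => ?_, fun t => sn_cs _ _ _⟩, ?_, fun t => ?_, p2.to_iff, s2,
    sn_last _ _, fun i k => ?_, c2, fun t => ?_, ?_⟩
  · exact funext fun ω => congrFun (congrFun (hX ω.1) t) ω.2
  · rcases θ with θ | b
    · change cc (pr σ.P f g g') _ _ _ _ (castSucc t) θ.2 = cc σ.P _ _ _ _ t θ.2
      rw [cc_cs, hX]
    · exact c1 b t
  · change mr M row _ ⬝ᵥ mr M row _ = _
    rw [mr_cs, mr_cs, gS]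
  · rintro ⟨l, hl⟩
    exact (Fin.castSucc_lt_last l).ne hl
  · induction t using Fin.lastCases with
    | last => exact .inr rfl
    | cast l => exact .inl ⟨l, rfl⟩
  · change cc (pr σ.P f g g') _ _ _ _ (last _) k = _
    simp only [cc, pr, sn_last, eP_res, me_res]
    rw [show (fun l => σ'.P.X (F.s i) (F.J i) (F.y i) (castSucc l)) = _ from hX i]
    rfl
  · change mr M row _ ⬝ᵥ mr M row _ = _
    rw [mr_cs, mr_last, dotProduct_comm]
    rfl
  · change mr M row _ ⬝ᵥ mr M row _ = _
    rw [mr_last]

end Crest.Agent.T157.S3R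

end
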