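import Crest.Agent.T157.S3RA_52
import Crest.Agent.T157.NetBs_54
import Crest.Agent.T157.S3Ex_98
import Crest.Agent.T157.S3Fn_60

/-! S3, realisation of a model network: the first node and the realised network (helper90). -/

set_option autoImplicit false
set_option linter.unusedVariables false

noncomputable section

namespace Crest.Agent.T157.S3R

open MeasureTheory Matrix Set Function
open Crest.ProbabilityR.SpinGlassDynamics (spin)
open Crest.Agent.T157.S3 (Fam)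
open Crest.Agent.T157.S3P (PF Prog Sm bF)
open Crest.Agent.T157.Nt (Fj Fn Ix BS dx gs sp co cb res th rf Ev Net FactStmt)

namespace F90

variable {F : Fam} {ν : Measure ℝ} {n : ℕ}

lemma mdl_spin {L κ : Type} [Fintype L] [Fintype κ] (A : Matrix L κ ℝ) (o : L) (b : ℝ)
    (c : Bool → ℝ) : S3L.mdl A o b (fun s _ => c s) = ∑ σ, S3L.hb b σ * c σ := by
  simp only [S3L.mdl, S3L.gm, integral_const, probReal_univ, smul_eq_mul, one_mul]

lemma sm_bs {H : Fn (Ix n)} (h : BS H) : Sm H := fun s j => (Nt.bsStmt _).iter h j s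

lemma sm_res {m m' : ℕ} (j : Ix m → Ix m') {φ : PF m} (h : Sm φ) : Sm (res j φ) := fun s => by
  have := (h s).clm (E' := ℝ × (Ix m' → ℝ)) ((ContinuousLinearMap.id ℝ ℝ).prodMap
    (ContinuousLinearMap.pi fun t => ContinuousLinearMap.proj (R := ℝ) (φ := fun _ => ℝ) (j t)))
  exact this

lemma me0 (i : F.I) : F.me (fun _ => 0) i = 0 := by simp [Fam.me, Fam.E, Uw.eta, E.mean]

lemma le_refl (σ : Sta F ν) : σ.Le σ id :=
  ⟨injective_id, rfl, fun _ => rfl, fun _ _ => rfl, fun _ => Iff.rfl, fun _ => rfl,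
    fun _ _ => rfl, fun _ => rfl⟩

lemma le_trans {σ σ' σ'' : Sta F ν} {j j'} (h : σ.Le σ' j) (h' : σ'.Le σ'' j') :
    σ.Le σ'' (j' ∘ j) :=
  ⟨h'.inj.comp h.inj, (congrArg j' h.zero).trans h'.zero, fun t => (h'.X _).trans (h.X t),
    fun θ t => (h'.cv θ _).trans (h.cv θ t), fun t => (h'.pm _).trans (h.pm t),
    fun t => (h'.sg _).trans (h.sg t), fun t t' => (h'.S _ _).trans (h.S t t'),
    fun t => (h'.f _).trans (by rw [h.f]; rfl)⟩

variable {σ σ' : Sta F ν} {e : Ix n → Ix σ.m} {T : Set (Ix n)} {G G' G'' : JL F n} {φ : PF σ.m}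

lemma av_le {j} (h : σ.Le σ' j) (a : σ.Av e T 0 G) : σ'.Av (j ∘ e) T 0 G :=
  let ⟨φ, h1, _, h3⟩ := a
  ⟨res j φ, sm_res j h1, .inl rfl, fun θ s η ξ hη hξ =>
    h3 θ s (η ∘ j) ξ (fun t ht => (hη _ ((h.pm t).2 ht)).trans (h.cv θ t)) hξ⟩

lemma fa_av (a : σ.Av e T 0 G) : σ.Fa e T 0 G := fun σ' j h =>
  ⟨σ', id, le_refl σ', fun t _ => ⟨t, rfl⟩, (av_le h a :)⟩

/-- the fields sit at distinct nodes which are not parameters -/
def Gd (σ : Sta F ν) (e : Ix n → Ix σ.m) : Prop := Injective e ∧ ∀ u, e u ∉ σ.Pm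

lemma Gd.le {j} (g : Gd σ e) (h : σ.Le σ' j) : Gd σ' (j ∘ e) :=
  ⟨h.inj.comp g.1, fun u hu => g.2 u ((h.pm _).1 hu)⟩

lemma fa2 (g : Gd σ e) (a : σ.Fa e T 0 G) (a' : σ.Fa e T 0 G')
    (op : ∀ (τ : Sta F ν) (d : Ix n → Ix τ.m) φ φ', Gd τ d → Sm φ → Sm φ' → τ.Ct d T G φ →
      τ.Ct d T G' φ' → ∃ ψ, Sm ψ ∧ τ.Ct d T G'' ψ) : σ.Fa e T 0 G'' := fun σ1 j h => by
  obtain ⟨σ2, j2, h2, p2, a2⟩ := a σ1 j h
  obtain ⟨σ3, j3, h3, p3, φ', s', -, c'⟩ := a' σ2 (j2 ∘ j) (le_trans h h2)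
  obtain ⟨φ, s, -, c⟩ := av_le h3 a2
  obtain ⟨ψ, sψ, cψ⟩ := op σ3 _ φ φ' (((g.le h).le h2).le h3) s s' c c'
  refine ⟨σ3, j3 ∘ j2, le_trans h2 h3, fun t ht => ?_, ψ, sψ, .inl rfl, cψ⟩
  obtain ⟨t1, rfl⟩ := p3 t ht
  obtain ⟨t0, rfl⟩ := p2 t1 fun h' => ht ((h3.pm _).2 h')
  exact ⟨t0, rfl⟩

lemma ct_eq (g : Gd σ e) (c : σ.Ct e T G φ) (θ s) {η : Ix σ.m → ℝ}
    (hη : ∀ t ∈ σ.Pm, η t = σ.cv θ t) {ξ ξ' : Ix n → ℝ} (h : ∀ u ∈ T, ξ' u = ξ u) :
    G θ s ξ' = φ (bv F θ) s (extend e ξ η) :=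
  (c θ s _ ξ' (fun t ht => by
      rw [extend_apply' _ _ _ (by rintro ⟨u, rfl⟩; exact g.2 u ht), hη t ht])
    fun u hu => by rw [g.1.extend_apply, h u hu]).symm

lemma ct_dx (g : Gd σ e) (s : Sm φ) (c : σ.Ct e univ G φ) (m : Ix n) :
    σ.Ct e univ (dx m G) (S3P.pd (e m) φ) := fun θ t η ξ hη hξ => by
  have h1 : G θ t = fun ξ => φ (bv F θ) t (extend e ξ η) :=
    funext fun ξ => ct_eq g c θ t hη fun _ _ => rfl
  have h2 : extend e ξ η = η := funext fun u => by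
    by_cases hu : ∃ v, e v = u
    · obtain ⟨v, rfl⟩ := hu
      rw [g.1.extend_apply, hξ v trivial]
    · rw [extend_apply' _ _ _ hu]
  rw [dx, h1, S3P.fderiv_extend (s.diff _ _) g.1, h2]
  rfl

lemma fa_rep (g : Gd σ e) (a : σ.Fa e univ 0 G) :
    (∃ C, ∀ θ s ξ, |G θ s ξ| ≤ C) ∧ ∀ θ s, Differentiable ℝ (G θ s) := by
  obtain ⟨τ, j, h, -, φ, s, -, c⟩ := a σ id (le_refl σ)
  have r : ∀ θ t, G θ t = fun ξ => φ (bv F θ) t (extend (j ∘ id ∘ e) ξ (τ.cv θ)) := fun θ t =>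
    funext fun ξ => ct_eq (g.le h) c θ t (fun _ _ => rfl) fun _ _ => rfl
  obtain ⟨C, -, hC⟩ := s.bd
  exact ⟨⟨C, fun θ t ξ => by rw [r]; exact hC _ _ _⟩,
    fun θ t => by rw [r]; exact S3P.diff_extend (s.diff _ _) _ _⟩

lemma fa_lift (σ : Sta F ν) (e : Ix n → Ix σ.m) {H : Fn (Ix n)} (h : Sm H) :
    σ.Fa e univ 0 (lift F H) :=
  fa_av ⟨res e H, sm_res e h, .inl rfl, fun θ s η ξ _ hξ =>
    congrArg (H _ s) (funext fun u => (hξ u trivial).symm)⟩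

lemma ct_ev {X : Ix n → F.Vf} (hX : ∀ u, X u = σ.X (e u)) (c : σ.Ct e T G φ) : ev X G = σ.e φ := by
  funext ω k
  exact (c (.inl ⟨ω.1, k⟩) (ω.2 k) (fun t => σ.X t ω k) _
    (fun t ht => congrFun (σ.ok.X_par (σ.pm t ht) ω.2) k) fun u _ => by rw [hX]).symm

variable {N : Net n} {X : Ix n → F.Vf} {π : Ix n → Ix n → F.I → ℝ}

theorem net_ok {G : Ix n → JL F n} (h : Rp N σ e univ X G π) : (net σ e X G).Ok := by
  have g : Gd σ e := ⟨injOn_univ.1 h.bs.inj, fun u => h.bs.re u trivial⟩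
  have hX : ∀ u, X u = σ.X (e u) := fun u => h.bs.X u trivial
  have c : ∀ u, σ.Ct e univ (G u) (σ.P.f (e u)) := fun u θ s η ξ hη hξ =>
    h.ct u trivial θ s η ξ hη fun v _ => hξ v trivial
  refine ⟨?_, ?_, ⟨_, fa_lift σ e .one, rfl⟩, ⟨_, fa_lift σ e (.spin' spin), rfl⟩,
    ⟨_, fa_lift σ e .th, rfl⟩, ?_, ?_, ?_, ?_, ?_,
    fun l => ⟨_, fa_av ⟨_, σ.ok.sf _, .inl rfl, c l⟩, rfl⟩, ?_, fun l i k s ξ ξ' hξ => ?_,
    fun ω => ?_, fun l => ⟨fun i => σ.P.κ (F.s i) (F.J i) (F.y i) (e l), fun ω => ?_⟩⟩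
  · rintro _ ⟨H, a, rfl⟩
    obtain ⟨C, hC⟩ := (fa_rep g a).1
    exact ⟨C, fun _ _ _ _ => hC _ _ _⟩
  · rintro _ ⟨H, a, rfl⟩ i k s
    exact (fa_rep g a).2 _ s
  · rintro _ ⟨H, a, rfl⟩ _ ⟨H', a', rfl⟩
    exact ⟨H + H', fa2 g a a' fun τ d φ φ' _ s s' c c' => ⟨_, s.add s', fun θ t η ξ hη hξ =>
      congrArg₂ (· + ·) (c θ t η ξ hη hξ) (c' θ t η ξ hη hξ)⟩, rfl⟩
  · rintro r _ ⟨H, a, rfl⟩
    exact ⟨r • H, fa2 g a a fun τ d φ φ' _ s s' c c' => ⟨_, s.smul r, fun θ t η ξ hη hξ =>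
      congrArg (r * ·) (c θ t η ξ hη hξ)⟩, rfl⟩
  · rintro _ ⟨H, a, rfl⟩ _ ⟨H', a', rfl⟩
    exact ⟨H * H', fa2 g a a' fun τ d φ φ' _ s s' c c' => ⟨_, s.mul s', fun θ t η ξ hη hξ =>
      congrArg₂ (· * ·) (c θ t η ξ hη hξ) (c' θ t η ξ hη hξ)⟩, rfl⟩
  · rintro _ ⟨H, a, rfl⟩ m
    exact ⟨dx m H, fa2 g a a fun τ d φ φ' g' s s' c c' => ⟨_, s.pd _, ct_dx g' s c m⟩, rfl⟩
  · rintro _ ⟨H, a, rfl⟩
    exact ⟨gs H, fa2 g a a fun τ d φ φ' _ s s' c c' => ⟨_, s.gs, fun θ t η ξ hη hξ =>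
      congrArg₂ (fun x y : ℝ => (x - y) / 2) (c θ _ η ξ hη hξ) (c θ _ η ξ hη hξ)⟩, rfl⟩
  · funext i k s ξ
    refine (ct_eq g (c 0) (.inl ⟨i, k⟩) s (fun _ _ => rfl) fun _ _ => rfl).trans ?_
    rw [h.bs.e0, σ.ok.f0]
    rfl
  · exact (ct_eq g (h.ct l trivial) (.inl ⟨i, k⟩) s (fun _ _ => rfl) fun _ _ => rfl).trans
      (ct_eq g (h.ct l trivial) (.inl ⟨i, k⟩) s (fun _ _ => rfl) fun u hu => (hξ u hu.2).symm).symm
  · change X 0 ω = _
    rw [hX, h.bs.e0]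
    exact σ.ok.X0 ω.2
  · change X l ω = F.J ω.1 *ᵥ ev X (G l) ω - ∑ m, F.me (ev X (dx m (G l))) ω.1 • ev X (G m) ω - _
    rw [hX, ct_ev hX (c l)]
    refine (σ.ok.X_eq (e l) ω.2).trans ?_
    congr 2
    refine (Fintype.sum_of_injective e g.1 _ _ (fun t ht => ?_) fun m => ?_).symm
    · rw [σ.pm t (by_contra fun h' => let ⟨u, _, hu⟩ := h.sur t h'; ht ⟨u, hu⟩)]
      exact smul_zero _
    · rw [ct_ev hX (ct_dx g (σ.ok.sf _) (c l) m), ct_ev hX (c m)]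
      rfl

lemma tA_zero (Z : Ix n → F.Vf) (ω : F.Ω) : tA X π Z 0 0 ω = 0 := by
  have e1 : ev X (lift F (0 : Fn (Ix n))) ω = 0 := rfl
  have e2 : ∀ p, ev X (dx p (lift F (0 : Fn (Ix n)))) ω = 0 := fun p => by
    funext k
    change fderiv ℝ (fun _ : Ix n → ℝ => (0 : ℝ)) _ _ = 0
    simp
  simp [tA, e1, e2]

end F90

open F90

theorem baseStmt : BaseStmt := fun F ν _ n N hN => by
  have hS : 0 ≤ N.S 0 0 := hN.pd.posSemidef.diag_nonneg
  have nd : ¬ N.dr 0 := fun h => lt_irrefl _ (hN.drf 0 h).1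
  have eS : ∀ l m : Fin 1, ((of fun _ _ => √(N.S 0 0) : Matrix (Fin 1) (Fin 1) ℝ) *
      (of fun _ _ => √(N.S 0 0) : Matrix (Fin 1) (Fin 1) ℝ)ᵀ) l m = N.S 0 0 := fun l m => by
    simp [mul_apply, Real.mul_self_sqrt hS]
  let σ : Sta F ν :=
    { m := 0, r := 1, P := ⟨fun _ _ s _ => spin s, 0, 0⟩, sg := fun _ => -1, Pm := ∅
      M := of fun _ _ => √(N.S 0 0), cM := 0
      ok := ⟨fun _ => .spin' spin, fun _ => .zero, fun _ => .zero, fun _ _ _ _ _ _ => rfl,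
        fun _ _ _ _ _ _ => rfl, fun _ _ _ _ _ _ => rfl, rfl, rfl, rfl⟩
      par := ⟨fun _ => .inr rfl, fun _ _ s _ => by cases s <;> simp [spin],
        fun _ _ _ _ => (mul_zero _).symm, fun _ _ _ _ => rfl, fun _ h => by norm_num at h,
        fun _ _ => rfl⟩
      mod := ⟨fun b l => by simp [S3I.Eb_zero], fun l m => by
        rw [eS, hN.gr]
        simp only [Nt.gram, of_apply, hN.f0, Nt.Cv]
        congr 2
        funext b
        exact congrArg₂ (· - ·) ((mdl_spin _ _ b fun s => spin s * spin s).trans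
          (mdl_spin _ _ b fun s => spin s * spin s).symm)
          (congrArg₂ (· * ·) ((mdl_spin _ _ b spin).trans (mdl_spin _ _ b spin).symm)
            ((mdl_spin _ _ b spin).trans (mdl_spin _ _ b spin).symm))⟩
      pm := fun _ h => h.elim
      re := fun _ _ => ⟨rfl, rfl, rfl⟩
      z := id }
  refine ⟨σ, fun _ => 0, fun _ => σ.X 0, fun _ => sp, 0, ⟨rfl, rfl, fun u hu v hv _ =>
    hu.trans hv.symm, fun _ _ => id, ?_, fun _ _ => rfl⟩,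
    fun t _ => ⟨0, rfl, Subsingleton.elim (α := Fin 1) _ _⟩, fun _ _ _ _ _ _ _ _ => rfl, ?_, ?_,
    ?_, ?_⟩
  · rintro _ rfl _ rfl
    exact eS 0 0
  · rintro _ rfl
    exact hN.f0.symm
  · rintro _ rfl
    rw [(hN.nd 0 nd).1, (hN.nd 0 nd).2]
    exact ⟨fun _ _ _ _ _ => rfl, fun v => ⟨fun _ _ _ _ _ => rfl, fun _ => rfl⟩⟩
  · rintro _ rfl _ rfl
    funext i
    have : lift F (0 : Fn (Ix n)) = 0 := rfl
    simp only [piR, (hN.nd 0 nd).1, this, zero_mul, Pi.zero_apply, mul_zero, Finset.sum_const_zero,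
      add_zero]
    exact (me0 i).symm
  · rintro _ rfl h
    exact (nd h).elim

theorem finStmt (hF : FlowStmt) : FinStmt := fun F ν _ n N σ e D X G π hN h hD => by
  subst hD
  classical
  have ok := net_ok h
  obtain ⟨Φ, hΦ, e1, e2⟩ := (S3.exStmt F n (n + 1) (net σ e X G)).1 (fun u => S3P.fl F (N.al u))
    (fun u v => S3P.fl F (N.a u v)) (fun l => ⟨⟨_, fa_lift σ e (sm_bs (hN.fl l).bal), rfl⟩, by
      funext i k s ξ
      exact congrFun (congrFun (congrFun (hN.fl l).free _) s) ξ,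
      fun m => ⟨_, fa_lift σ e (sm_bs ((hN.fl l).ba m).1), rfl⟩⟩)
    fun l m hl => by rw [hN.tri l m hl]; rfl
  obtain ⟨Γ, hΓ⟩ := (S3.exStmt F n (n + 1) (net σ e X G)).2.1 ok
  let Z : Ix n → F.Vf := fun l => if N.dr l then Zf N X G l else 0
  have tz : ∀ al a, N.Flw al a →
      Φ.tA π Z (S3P.fl F al) (fun v => S3P.fl F (a v)) = tA X π (Zf N X G) al a := fun al a hf => by
    funext ω
    change F.τ ω * ev X (lift F al) ω + ∑ m, ev X (lift F (a m)) ω * Z m ω - _ = _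
    refine congrArg₂ (· - ·) (congrArg _ (Finset.sum_congr rfl fun m _ => ?_)) rfl
    by_cases hm : N.dr m
    · simp only [Z, if_pos hm]
    · rw [hf.nd m hm]
      exact (zero_mul _).trans (zero_mul _).symm
  have ot : ∀ i l m, Φ.ot i l m = F.me (ev X (lift F (N.a l m))) i := fun i l m => by
    rw [S3.Flow.ot, e2]; rfl
  have tA' : ∀ l, Φ.tA π Z (Φ.al l) (Φ.a l) = tA X π (Zf N X G) (N.al l) (N.a l) := fun l => by
    rw [e1, e2]; exact tz _ _ (hN.fl l)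
  refine ⟨ok, Φ, Γ, Z, hΦ, ⟨hΓ, fun l m i => ?_, fun l ω => ?_⟩, fun u => by rw [e1],
    fun u v => by rw [e2], fun al a hf => ?_⟩
  · simp only [e1, e2, hΓ.2.1, hΓ.2.2]
    exact congrFun (h.pi l trivial m trivial) i
  · by_cases hl : N.dr l
    · have : Φ.U π Z l = fun ω => F.J ω.1 *ᵥ ev X (G l) ω -
          ∑ m, F.me (ev X (lift F (N.a l m))) ω.1 • ev X (G m) ω := by
        funext ω
        simp only [S3.Flow.U, tA', ot, ← h.dr l trivial hl]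
        refine congrArg _ (Finset.sum_congr rfl fun m _ => ?_)
        by_cases hm : N.dr m
        · rw [← h.dr m trivial hm]
        · have : F.me (ev X (lift F (N.a l m))) ω.1 = 0 := by rw [(hN.fl l).nd m hm]; exact me0 _
          rw [this, zero_smul, zero_smul]
      rw [this]
      simp only [Z, if_pos hl]
      rfl
    · have : Φ.U π Z l = 0 := by
        funext ω
        have : ∀ m, F.me (ev X (lift F (N.a l m))) ω.1 = 0 := fun m => by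
          rw [(hN.nd l hl).2]; exact me0 _
        simp only [S3.Flow.U, tA', ot, this, zero_smul, Finset.sum_const_zero, sub_zero]
        rw [(hN.nd l hl).1, (hN.nd l hl).2, tA_zero, mulVec_zero]
        rfl
      rw [this]
      simp only [Z, if_neg hl]
      ext k
      simp [Fam.EV, E.meanV, E.mean]
  · have hon : ∀ H : Fn (Ix n), On univ H := fun H θ s x x' hx => by
      rw [funext fun u => hx u trivial]
    obtain ⟨A, a1, a2, a3⟩ := hF F ν n N σ e univ X G π hN h univ Subset.rfl trivial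
      (fun _ _ => subset_univ _) al a 0 hf (hon _) (fun _ => hon _) (fun v hv => (hv trivial).elim)
      (.inl rfl)
    rw [neg_zero] at a1
    exact ⟨ins A, ⟨A, a1, rfl, a2.symm⟩, a3.trans (tz al a hf).symm⟩

end Crest.Agent.T157.S3R

end
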