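import Crest.Agent.T157.S3RA_52

/-! S3, realisation (helper43): thermal constants and site means are forced. -/

set_option autoImplicit false
set_option linter.unusedVariables false

noncomputable section

namespace Crest.Agent.T157.S3R

open MeasureTheory Matrix Set Function
open Crest.Agent.T157.E (Cube mean meanV)
open Crest.Agent.T157.S3 (Fam)
open Crest.Agent.T157.S3P (PF Prog Sm bF Cb)
open Crest.Agent.T157.Nt (Fj Fn Ix res Ev Net)
open Crest.Agent.T157.S3L (mdl gm)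

namespace Par43

theorem cut (B : ℝ) : ∃ χ : ℝ → ℝ, Cb χ ∧ (∀ x, χ (-x) = -χ x) ∧ ∀ x, |x| ≤ B → χ x = x := by
  let f : ContDiffBump (0 : ℝ) := ⟨|B| + 1, |B| + 2, by positivity, by linarith⟩
  refine ⟨fun x => x * f x, fun j => ?_, fun x => by beta_reduce; rw [f.neg, neg_mul], fun x hx => by
    beta_reduce
    rw [f.one_of_mem_closedBall (by
      rw [mem_closedBall_zero_iff, Real.norm_eq_abs]
      exact hx.trans ((le_abs_self B).trans (le_add_of_nonneg_right zero_le_one))), mul_one]⟩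
  have h : ContDiff ℝ j fun x : ℝ => x * f x := contDiff_id.mul f.contDiff
  exact ⟨h, (h.continuous_iteratedFDeriv le_rfl).bounded_above_of_compact_support
    ((f.hasCompactSupport.mul_left (f := fun x : ℝ => x)).iteratedFDeriv j)⟩

variable {F : Fam} {ν : Measure ℝ} {n : ℕ} {N : Net n} {σ σ' σ'' : Sta F ν} {e : Ix n → Ix σ.m}
  {D T : Set (Ix n)} {X : Ix n → F.Vf} {j : Ix σ.m → Ix σ'.m} {j' : Ix σ'.m → Ix σ''.m}
  {H : JL F n} {φ : PF σ.m}

theorem le_trans (h : σ.Le σ' j) (h' : σ'.Le σ'' j') : σ.Le σ'' (j' ∘ j) :=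
  ⟨h'.inj.comp h.inj, by rw [Function.comp_apply, h.zero, h'.zero], fun t => (h'.X _).trans (h.X t),
    fun θ t => (h'.cv θ _).trans (h.cv θ t), fun t => (h'.pm _).trans (h.pm t),
    fun t => (h'.sg _).trans (h.sg t), fun t t' => (h'.S _ _).trans (h.S t t'),
    fun t => by rw [Function.comp_apply, h'.f, h.f]; rfl⟩

theorem bs_le (b : Bs N σ e D X) (h : σ.Le σ' j) : Bs N σ' (j ∘ e) D X :=
  ⟨b.z, by rw [Function.comp_apply, b.e0, h.zero], fun u hu v hv huv => b.inj hu hv (h.inj huv),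
    fun u hu => mt (h.pm _).1 (b.re u hu), fun u hu v hv => (h.S _ _).trans (b.S u hu v hv),
    fun u hu => (b.X u hu).trans (h.X _).symm⟩

theorem eb_zero (σ : Sta F ν) : σ.Eb 0 = 0 :=
  funext fun b => abs_nonpos_iff.1 (S3I.abs_Eb_le σ.M 0 σ.cM (fun _ _ _ => by simp) b)

theorem cv_zero (σ : Sta F ν) (ψ : PF σ.m) : σ.Cv 0 ψ = 0 := by simp [Sta.Cv, eb_zero]

theorem x_par (σ : Sta F ν) {t : Ix σ.m} (ht : t ∈ σ.Pm) (ω : F.Ω) (k : Fin (F.n ω.1)) :
    σ.X t ω k = σ.cv (.inl ⟨ω.1, k⟩) t := by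
  have h := congrFun (congrFun (congrFun
    (σ.ok.fix (s := F.s ω.1) (J := F.J ω.1) (y := F.y ω.1)) t) ω.2) k
  have e1 : ∀ m : Ix σ.m, S3P.pd m (0 : PF σ.m) = 0 := fun m => by
    funext b s ξ; simp [S3P.pd]
  refine h.symm.trans ?_
  simp [S3P.step, S3P.Zr, S3P.Sg, σ.pm t ht, e1, S3P.me_zero, S3P.eP, meanV, mean, E.cov, Sta.cv,
    Prog.c, mulVec, dotProduct]

theorem ct_ev (b : Bs N σ e D X) (hT : T ⊆ D) (h : σ.Ct e T H φ) : σ.e φ = ev X H :=
  funext fun ω => funext fun k => h (.inl ⟨ω.1, k⟩) _ _ _ (fun t ht => x_par σ ht ω k)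
    fun u hu => by rw [b.X u (hT hu)]; rfl

theorem ct_eb (b : Bs N σ e D X) (hT : T ⊆ D) (hφ : Sm φ) (h : σ.Ct e T H φ) :
    σ.Eb φ = N.E (md H) := by
  classical
  funext β
  let η : (Ix n → ℝ) → Ix σ.m → ℝ := fun ξ t =>
    if h : ∃ u ∈ T, e u = t then ξ h.choose else σ.cM β t
  have h1 : ∀ s ξ, φ β s (η ξ) = H (.inr β) s ξ := fun s ξ => h (.inr β) s _ _
    (fun t ht => dif_neg fun ⟨u, hu, e⟩ => b.re u (hT hu) (e ▸ ht)) fun u hu => by
      have h : ∃ v ∈ T, e v = e u := ⟨u, hu, rfl⟩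
      simp only [η, dif_pos h]
      rw [b.inj (hT h.choose_spec.1) (hT hu) h.choose_spec.2]
  have h2 : ∀ s, Continuous (H (.inr β) s) := fun s => by
    rw [← funext (h1 s)]
    refine (hφ.diff β s).continuous.comp (continuous_pi fun t => ?_)
    simp only [η]
    split_ifs
    · exact continuous_apply _
    · exact continuous_const
  have h3 : ∀ s ξ ξ', (∀ u ∈ D, ξ u = ξ' u) → H (.inr β) s ξ = H (.inr β) s ξ' := fun s ξ ξ' e => by
    rw [← h1, ← h1]
    refine congrArg _ (funext fun t => ?_)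
    simp only [η]
    split_ifs with h
    · exact e _ (hT h.choose_spec.1)
    · rfl
  have h4 : σ.Eb φ β = mdl σ.M 0 β fun s ξ => H (.inr β) s (ξ ∘ e) :=
    S3I.mdl_congr_rows σ.M 0 β (ψ := fun s ξ => φ β s (ξ + σ.cM β)) fun s ξ hξ =>
      h (.inr β) s (ξ + σ.cM β) (ξ ∘ e) (fun t ht => by
      have := σ.mod.S t t
      rw [σ.pm t ht] at this
      rw [Pi.add_apply, hξ t (this.trans (cv_zero σ 0)), zero_add]; rfl) fun u hu => by
      have := σ.mod.c β (e u)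
      rw [(σ.re _ (b.re u (hT hu))).1, (σ.re _ (b.re u (hT hu))).2.1] at this
      have e0 := eb_zero σ
      rw [Sta.Eb] at e0
      rw [Pi.add_apply, this, e0]; simp
  rw [h4, Net.E, Nt.Eb, mdl, mdl]
  refine Finset.sum_congr rfl fun s _ => congrArg _ ?_
  let A : Matrix (Ix n) (Fin σ.r) ℝ := of fun u k => if u ∈ D then σ.M (e u) k else 0
  let A' : Matrix (Ix n) (Ix n) ℝ := of fun u k => if u ∈ D then N.A u k else 0
  have h5 : A * Aᵀ = A' * A'ᵀ := by
    ext u v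
    by_cases hu : u ∈ D
    · by_cases hv : v ∈ D
      · simpa [A, A', mul_apply, hu, hv, Sta.S, Net.S] using b.S u hu v hv
      · simp [A, A', mul_apply, hv]
    · simp [A, A', mul_apply, hu]
  have h6 := S3L.Clt58.int_congr h5 (F := fun x => H (.inr β) s
    (Crest.ProbabilityR.SpinGlassDynamics.spin s • (fun u => N.S u 0) + x))
    ((h2 s).comp (continuous_const.add continuous_id)).measurable
  refine Eq.trans (integral_congr_ae (ae_of_all _ fun z => h3 s _ _ fun u hu => ?_))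
    (h6.trans (integral_congr_ae (ae_of_all _ fun z => h3 s _ _ fun u hu => ?_)))
  · have := b.S u hu 0 b.z
    rw [b.e0] at this
    simp only [Function.comp_apply, Pi.add_apply, Pi.smul_apply, ← this, A, mulVec, dotProduct, of_apply,
      if_pos hu, Sta.S]
  · simp only [Pi.add_apply, Pi.smul_apply, A', mulVec, dotProduct, of_apply, if_pos hu, Net.S]

theorem abs_mean_le {C : ℝ} (i : F.I) {f : Cube (F.n i) → ℝ} (h : ∀ x, |f x| ≤ C) :
    |mean (F.w i) f| ≤ C := by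
  have hw := Pl.wt_ising (F.J i) (F.y i)
  rw [abs_le]
  exact ⟨(hw.mean_const (-C)).symm.trans_le (hw.mean_mono fun x => (abs_le.1 (h x)).1),
    (hw.mean_mono fun x => (abs_le.1 (h x)).2).trans_eq (hw.mean_const C)⟩

/-- append a parameter and read it -/
theorem par (hA : AppStmt) [IsProbabilityMeasure ν] (σ : Sta F ν) {g g' : PF σ.m} {ε : ℝ}
    (hg : Sm g) (hg' : Sm g') (pg : Pr σ.sg ε g) (pg' : Pr σ.sg 1 g')
    (hε : ε = 1 ∨ ε = -1 ∧ g' = 0) {d : F.Df} {c : ℝ → ℝ}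
    (hd : ∀ i k, d i k = F.EV (σ.e g) i k + F.me (σ.e g') i)
    (hc : ∀ b, c b = σ.Eb g b + F.β ^ 2 * ∫ b, σ.Eb g' b ∂ν) :
    ∃ (σ' : Sta F ν) (j : Ix σ.m → Ix σ'.m), σ.Le σ' j ∧ σ.Pe σ' j ∧
      ∀ e : Ix n → Ix σ'.m, σ'.Av e ∅ ε (jv d c) := by
  obtain ⟨σ', j, t, h1, -, h2, h3, h4, -, h5, h6, -⟩ := hA F ν σ 0 g g' ε σ.r σ.M 0 True Sm.zero hg
    hg' (.inr fun _ _ _ => by simp) pg pg' (hε.imp_left fun h => ⟨h, rfl⟩) (fun _ => rfl)
    (fun h => absurd trivial h) rfl (fun t => by simp [cv_zero]) (by simp [cv_zero])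
  obtain ⟨C, C0, hC⟩ := hg.bd
  obtain ⟨C', C0', hC'⟩ := hg'.bd
  obtain ⟨χ, c1, c2, c3⟩ := cut (C + F.β ^ 2 * C')
  refine ⟨σ', j, h1, fun t' ht => (h2 t').resolve_right fun e => ht (e ▸ h3.2 trivial),
    fun e => ⟨fun _ _ η => χ (η t), by simpa using Sm.comp c1 0 (Pi.single t 1) Sm.zero,
      .inr fun b s ξ => ?_, fun θ s η ξ hη _ => ?_⟩⟩
  · beta_reduce
    rw [Pi.mul_apply, h4]
    rcases hε with rfl | ⟨rfl, -⟩ <;> simp [c2]
  · change χ (η t) = _
    rw [hη t (h3.2 trivial)]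
    rcases θ with ⟨i, k⟩ | b
    · refine (c3 _ ?_).trans ((h5 i k).trans (hd i k).symm)
      rw [h5]
      refine (abs_add_le _ _).trans (add_le_add (abs_mean_le i fun x => hC _ _ _)
        (abs_mean_le i fun x => ?_))
      · change |F.s i ^ 2 * ∑ k, σ.e g' ⟨i, x⟩ k| ≤ _
        rw [abs_mul, abs_sq]
        refine (mul_le_mul_of_nonneg_left ((Finset.abs_sum_le_sum_abs _ _).trans
          (Finset.sum_le_card_nsmul _ _ C' fun k _ => hC' _ _ _)) (sq_nonneg _)).trans ?_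
        rw [Finset.card_univ, Fintype.card_fin, nsmul_eq_mul, ← mul_assoc, Fam.s, div_pow,
          Real.sq_sqrt (Nat.cast_nonneg _)]
        refine mul_le_mul_of_nonneg_right ?_ C0'
        rcases eq_or_ne (F.n i : ℝ) 0 with h | h
        · rw [h, mul_zero]; positivity
        · rw [div_mul_cancel₀ _ h]
    · refine (c3 _ ?_).trans ((h6 b).trans (hc b).symm)
      rw [h6]
      refine (abs_add_le _ _).trans (add_le_add (S3I.abs_Eb_le _ _ _ hC b) ?_)
      · rw [abs_mul, abs_sq]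
        refine mul_le_mul_of_nonneg_left ?_ (sq_nonneg _)
        simpa using norm_integral_le_of_norm_le_const (μ := ν) (C := C') (f := σ.Eb g')
          (ae_of_all _ fun b => S3I.abs_Eb_le σ.M 0 σ.cM hC' b)

theorem pe_trans (h : σ.Pe σ' j) (l : σ'.Le σ'' j') (h' : σ'.Pe σ'' j') : σ.Pe σ'' (j' ∘ j) :=
  fun t ht => by
    obtain ⟨t, rfl⟩ := h' t ht
    obtain ⟨t, rfl⟩ := h t (mt (l.pm t).2 ht)
    exact ⟨t, rfl⟩

end Par43

open Par43

theorem parStmt (hA : AppStmt) : ParStmt := by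
  intro F ν _ n N σ e D X b T hT H
  have z : ∀ σ : Sta F ν, (∀ i k, F.EV (σ.e 0) i k = 0) ∧ ∀ i, F.me (σ.e 0) i = 0 := fun σ =>
    ⟨fun i k => by simp [Fam.EV, meanV, mean, Sta.e, S3.Net.ev, S3P.fl, S3P.lf], fun i => by
      simp [Fam.me, Fam.E, mean, Sta.e, S3.Net.ev, S3P.fl, S3P.lf, Uw.eta]⟩
  refine ⟨fun h σ1 j l1 => ?_, fun ε hε h σ1 j l1 => ?_⟩ <;>
    obtain ⟨σ2, j', l2, p2, φ, hφ, pφ, c⟩ := h σ1 j l1 <;>
    have b2 := bs_le (bs_le b l1) l2
  · obtain ⟨σ3, j'', l3, p3, h⟩ := par (n := n) hA σ2 Sm.zero hφ (.inr fun _ _ _ => by simp) pφ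
      (.inl rfl) (d := fun i _ => F.me (ev X H) i) (c := fun _ => F.β ^ 2 * Ev ν N.A 0 (md H))
      (fun i k => by rw [(z σ2).1, zero_add, ct_ev b2 hT c])
      (fun _ => by rw [eb_zero, ct_eb b2 hT hφ c]; simp [Ev, Net.E])
    exact ⟨σ3, _, le_trans l2 l3, pe_trans p2 l3 p3, h _⟩
  · obtain ⟨σ3, j'', l3, p3, h⟩ := par (n := n) hA σ2 hφ Sm.zero pφ (.inr fun _ _ _ => by simp)
      (hε.imp_right fun h => ⟨h, rfl⟩) (d := F.EV (ev X H)) (c := N.E (md H))
      (fun i k => by rw [(z σ2).2, add_zero, ct_ev b2 hT c])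
      (fun _ => by rw [eb_zero, ct_eb b2 hT hφ c]; simp)
    exact ⟨σ3, _, le_trans l2 l3, pe_trans p2 l3 p3, h _⟩

end Crest.Agent.T157.S3R

end
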