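import Crest.Agent.T157.S3RB_52
import Crest.Agent.T157.NetBs_54

/-!
# Row 157, block B/S3: the pairing constants are forced (helper30)
-/

set_option autoImplicit false

noncomputable section

namespace Crest.Agent.T157.S3R

open MeasureTheory Matrix Set Function
open Crest.Agent.T157.S3 (Fam)
open Crest.Agent.T157.Nt (Fj Fn Ix BS dx gs sp co cb res th rf Ev Net FactStmt pair)

namespace Pi30

variable {F : Fam} {ν : Measure ℝ} {n : ℕ}

/-- the equation of the pairing constants in joint form -/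
theorem jc_eq {N : Net n} {X : Ix n → F.Vf} {G : Ix n → JL F n} {π : Ix n → Ix n → F.I → ℝ}
    {v p : Ix n} (h1 : π v p = piR N X G π v p) (hm : md (G p) = N.f p)
    (h2 : N.S v p = pair F.β ν N.A 0 (1 - sp * th 0) (N.al v) (N.a v) (gs (N.f p))
      (fun q => dx q (N.f p)) N.S) :
    jc (n := n) (π v p) (N.S v p) =
      jc (F.me (ev X (lift F (N.al v) * (1 - sp * lift F (th 0)) * gs (G p))))
        (F.β ^ 2 * Ev ν N.A 0 (md (lift F (N.al v) * (1 - sp * lift F (th 0)) * gs (G p)))) +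
      ∑ q, ∑ r, jc (F.me (ev X (lift F (N.a v q) * dx r (G p))))
        (F.β ^ 2 * Ev ν N.A 0 (md (lift F (N.a v q) * dx r (G p)))) * jc (π q r) (N.S q r) := by
  funext θ s x
  rcases θ with θ | b
  · simp only [Pi.add_apply, Finset.sum_apply, Pi.mul_apply, jc, jv, cb, Sum.elim_inl]
    exact congrFun h1 θ.1
  · simp only [Pi.add_apply, Finset.sum_apply, Pi.mul_apply, jc, jv, cb, Sum.elim_inr]
    rw [h2, pair, ← hm, mul_add, Finset.mul_sum]
    simp only [Finset.mul_sum, mul_assoc]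
    rfl

theorem jc_zero (X : Ix n → F.Vf) (A : Matrix (Ix n) (Ix n) ℝ) :
    jc (n := n) (F.me (ev X 0)) (F.β ^ 2 * Ev ν A 0 (md (F := F) 0)) = 0 := by
  funext θ s x
  rcases θ with θ | b
  · simp [jc, jv, cb, Fam.me, Fam.E, ev, Uw.eta, E.mean]
  · simp [jc, jv, cb, Ev, Nt.Eb, md, S3L.mdl, S3L.gm]

end Pi30

open Pi30 Sta

theorem piStmt (hP : ParStmt) (hF : FactStmt) : PiStmt := by
  intro F ν _ n N σ e D X G π hN h v
  have hB := h.bs
  have hG : ∀ p ∈ D, σ.Fa e D (-1) (G p) := fun p hp =>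
    (Av.fa ⟨_, σ.ok.sf _, σ.pr_f _, h.ct p hp⟩).mono inter_subset_left
  induction v using WellFoundedLT.induction with
  | ind v ih =>
  intro hv hd p hp
  rw [jc_eq (h.pi v hv p hp) (h.md p hp) (((hF _ ν n N hN).2.1 v hd).2 p)]
  refine Fa.add ((hP F ν n N σ e D X hB D subset_rfl _).1 ?_)
    (Fa.sum _ fun q _ => Fa.sum _ fun r _ => ?_)
  · refine ((hB.fa_lift Nt.bsStmt subset_rfl (hN.fl v).bal (h.cl v hv).1
      (.inr ((hN.ev v).1.trans (one_smul _ _).symm))).mul (fa_one.sub (fa_sp.mul'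
      (hB.fa_lift Nt.bsStmt subset_rfl ((Nt.bsStmt _).th0 0) (on_th hB.z) (ε := -1) (.inr ?_))
      (by norm_num)))).mul' (hG p hp).gs (by norm_num)
    funext b s x
    simp only [rf, th, Pi.neg_apply, Pi.smul_apply, smul_eq_mul, ← neg_add, Real.tanh_neg,
      neg_one_mul]
  · by_cases h0 : N.a v q = 0 ∨ r ∉ D
    · have : lift F (N.a v q) * dx r (G p) = 0 := by
        rcases h0 with h0 | h0
        · rw [h0]; exact zero_mul _
        · rw [(hB.fa_on subset_rfl (hG p hp)).dx_zero h0, mul_zero]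
      rw [this, jc_zero, zero_mul]
      exact fa_zero
    · rw [not_or, not_not] at h0
      refine ((hP F ν n N σ e D X hB D subset_rfl _).1 ?_).mul'
        (ih q (not_le.1 fun k => h0.1 (hN.tri v q k))
          (by_contra fun k => h0.1 (((h.cl v hv).2 q).2 k))
          (by_contra fun k => h0.1 ((hN.fl v).nd q k)) r h0.2) (one_mul _)
      exact (hB.fa_lift Nt.bsStmt subset_rfl ((hN.fl v).ba q).1 ((h.cl v hv).2 q).1
        (.inr (((hN.ev v).2 q).trans (one_smul _ _).symm))).mul'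
        (hB.fa_dx subset_rfl (hG p hp) r) (by norm_num)

end Crest.Agent.T157.S3R

end
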