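import Crest.Agent.T157.S3RA_52
import Crest.Agent.T157.S3Ex_98

/-! S3, realisation of a model network (helper60): placing one more node. -/

set_option autoImplicit false

noncomputable section

namespace Crest.Agent.T157.S3R

open MeasureTheory Matrix Set Function
open Crest.Agent.T157.S3 (Fam)
open Crest.Agent.T157.S3P (PF Prog Sm bF)
open Crest.Agent.T157.Nt (Fj Fn Ix BS dx gs sp co cb res th rf Ev Net Tl)
open scoped MatrixOrder

namespace St60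

variable {F : Fam} {ν : Measure ℝ} {n : ℕ} {σ σ' σ'' : Sta F ν} {N : Net n}
  {e : Ix n → Ix σ.m} {D T : Set (Ix n)} {X X' : Ix n → F.Vf} {j : Ix σ.m → Ix σ'.m}

lemma le_rfl' (σ : Sta F ν) : σ.Le σ id :=
  ⟨injective_id, rfl, fun _ => rfl, fun _ _ => rfl, fun _ => Iff.rfl, fun _ => rfl,
    fun _ _ => rfl, fun _ => rfl⟩

lemma le_tr {j' : Ix σ'.m → Ix σ''.m} (h : σ.Le σ' j) (h' : σ'.Le σ'' j') : σ.Le σ'' (j' ∘ j) :=
  ⟨h'.inj.comp h.inj, by simp [h.zero, h'.zero], fun t => (h'.X _).trans (h.X t),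
    fun θ t => (h'.cv _ _).trans (h.cv θ t), fun t => (h'.pm _).trans (h.pm t),
    fun t => (h'.sg _).trans (h.sg t), fun t t' => (h'.S _ _).trans (h.S t t'),
    fun t => by rw [Function.comp_apply, h'.f, h.f]; rfl⟩

lemma ct_le (h : σ.Le σ' j) {G : JL F n} {φ : PF σ.m} (hc : σ.Ct e T G φ) {e' : Ix n → Ix σ'.m}
    {T' : Set (Ix n)} (hT : T ⊆ T') (he : ∀ u ∈ T, e' u = j (e u)) : σ'.Ct e' T' G (res j φ) :=
  fun θ s η ξ h1 h2 => hc θ s (η ∘ j) ξ (fun t ht => (h1 _ ((h.pm t).2 ht)).trans (h.cv θ t))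
    fun u hu => by rw [h2 u (hT hu), he u hu]; rfl

lemma bs_le (h : σ.Le σ' j) (hb : Bs N σ e D X) : Bs N σ' (j ∘ e) D X :=
  ⟨hb.z, by rw [Function.comp_apply, hb.e0, h.zero], h.inj.comp_injOn hb.inj,
    fun u hu hm => hb.re u hu ((h.pm _).1 hm), fun u hu v hv => (h.S _ _).trans (hb.S u hu v hv),
    fun u hu => (hb.X u hu).trans (h.X _).symm⟩

lemma ct_rep (hb : Bs N σ e D X) (hT : T ⊆ D) {G : JL F n} {φ : PF σ.m} (hc : σ.Ct e T G φ)
    (θ : Pt F) : ∃ η : (Ix n → ℝ) → Ix σ.m → ℝ, Continuous η ∧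
      (∀ ξ ξ', (∀ u ∈ T, ξ u = ξ' u) → η ξ = η ξ') ∧ ∀ s ξ, G θ s ξ = φ (bv F θ) s (η ξ) := by
  classical
  refine ⟨fun ξ t => if h : ∃ u ∈ T, e u = t then ξ h.choose else σ.cv θ t,
    continuous_pi fun t => ?_, fun ξ ξ' h => funext fun t => ?_,
    fun s ξ => (hc θ s _ ξ (fun t ht => ?_) fun u hu => ?_).symm⟩
  · split_ifs
    exacts [continuous_apply _, continuous_const]
  · beta_reduce
    split_ifs with h'
    exacts [h _ h'.choose_spec.1, rfl]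
  · exact dif_neg fun ⟨u, hu, h⟩ => hb.re u (hT hu) (h ▸ ht)
  · have h' : ∃ v ∈ T, e v = e u := ⟨u, hu, rfl⟩
    beta_reduce
    rw [dif_pos h', hb.inj (hT h'.choose_spec.1) (hT hu) h'.choose_spec.2]

lemma ct_on (hb : Bs N σ e D X) (hT : T ⊆ D) {G : JL F n} {φ : PF σ.m} (hc : σ.Ct e T G φ) :
    On D G := fun θ s ξ ξ' h => by
  obtain ⟨η, -, h1, h2⟩ := ct_rep hb hT hc θ
  rw [h2, h2, h1 ξ ξ' fun u hu => h u (hT hu)]

lemma ct_eb (L : Tl) (hb : Bs N σ e D X) (hT : T ⊆ D) {G : JL F n} {φ : PF σ.m}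
    (hc : σ.Ct e T G φ) (hφ : Sm φ) : σ.Eb φ = N.E (md G) := by
  classical
  funext b
  let M : Matrix (Ix n) (Ix σ.m) ℝ := fun u => if u ∈ D then Pi.single (e u) 1 else 0
  have hM : ∀ ξ u, u ∈ D → (M *ᵥ ξ) u = ξ (e u) := fun ξ u hu => by
    simp [M, mulVec, hu]
  obtain ⟨η, c1, -, c2⟩ := ct_rep hb hT hc (.inr b)
  have h1 : σ.Eb φ b = S3L.mdl σ.M 0 b fun s ξ => md G b s (M *ᵥ ξ) := by
    refine S3I.mdl_congr_rows σ.M 0 b (ψ := fun s ξ => φ b s (ξ + σ.cM b)) fun s ξ hξ =>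
      hc (.inr b) s (ξ + σ.cM b) (M *ᵥ ξ) (fun t ht => ?_) fun u hu => ?_
    · rw [Pi.add_apply, hξ t (by
        rw [σ.mod.S, σ.pm t ht, mul_zero, S3I.Eb_zero]; simp), zero_add]; rfl
    · obtain ⟨g1, g2, -⟩ := σ.re _ (hb.re u (hT hu))
      rw [hM _ u (hT hu), Pi.add_apply, σ.mod.c, g1, g2, S3I.Eb_zero]; simp
  have x1 := L.ex ℝ (Ix σ.m) (Fin σ.r)
  rw [h1, x1.eq, x1.pb σ.M (S3I.pr D N.A) M 0 0 _ (md G b) ?_ (by simp [M, hb.z, hb.e0])
    fun s => ?_, ← (L.ex ℝ (Ix n) (Ix n)).eq]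
  · exact S3I.mdl_pr _ _ _ hb.z fun s x y h => ct_on hb hT hc _ s x y h
  · ext u v
    rw [S3I.pr_gram, Matrix.mul_assoc]
    change _ = (M *ᵥ fun t => σ.S t ⬝ᵥ M v) u
    by_cases hu : u ∈ D
    · rw [hM _ u hu, dotProduct_comm]
      change _ = (M *ᵥ σ.S (e u)) v
      by_cases hv : v ∈ D
      · rw [hM _ v hv, if_pos ⟨hu, hv⟩, hb.S u hu v hv]; rfl
      · simp [M, mulVec, hv]
    · simp [M, mulVec, hu]
  · rw [show md G b s = fun ξ => φ b s (η ξ) from funext (c2 s)]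
    exact ((hφ.diff b s).continuous.comp c1).measurable

lemma fa_lift (L : Tl) (hb : Bs N σ e D X) (hT : T ⊆ D) {H : Fn (Ix n)} (h : BS H) (ho : On T H)
    (hr : rf H = -H) : σ.Fa e T (-1) (lift F H) := fun σ' j hj => by
  refine ⟨σ', id, le_rfl' σ', fun t _ => ⟨t, rfl⟩, res (j ∘ e) H, fun s k => ?_,
    Or.inr fun b s ξ => ?_, fun θ s η ξ _ h2 => ho _ s _ _ fun u hu => (h2 u hu).symm⟩
  · refine (L.bs _).iter ?_ k s
    rw [(L.dx ℝ _).res]
    exact (L.bs _).pb _ h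
  · rw [neg_one_mul]
    refine Eq.trans (ho _ _ _ (-(ξ ∘ j ∘ e)) fun u hu => ?_)
      (congrFun (congrFun (congrFun hr b) s) (ξ ∘ j ∘ e))
    simp [hj.sg, (σ.re _ (hb.re u (hT hu))).2.2]

lemma bl {m : ℕ} {φ : PF m} (h : Sm φ) : S3I.BL φ := by
  obtain ⟨A, a0, hA⟩ := h.bd
  obtain ⟨B, b0, hB⟩ := h.taylor
  refine ⟨A + B * (m + 1) + 1, by positivity, fun b s ξ => (hA b s ξ).trans (by
    have : 0 ≤ B * (m + 1) := by positivity
    linarith), fun b b' s ξ ξ' => (hB b' b s ξ' ξ).1.trans ?_⟩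
  have h1 : ∑ m, |ξ m - ξ' m| ≤ (m + 1) * Conc.en (ξ - ξ') := by
    simpa using Finset.sum_le_card_nsmul Finset.univ _ _ fun m _ => Conc.abs_le_en (ξ - ξ') m
  have h2 := Conc.en_nonneg (ξ - ξ')
  have h3 := abs_nonneg (b - b')
  nlinarith [mul_le_mul_of_nonneg_left h1 b0, mul_nonneg b0 h3, mul_nonneg a0 h3, mul_nonneg a0 h2,
    mul_nonneg (mul_nonneg b0 h3) (Nat.cast_nonneg (α := ℝ) m)]

lemma pg (σ : Sta F ν) : S3I.Pg σ.P.f σ.P.g σ.P.g' σ.sg where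
  bl l := ⟨bl (σ.ok.sf l), bl (σ.ok.sg l), bl (σ.ok.sg' l)⟩
  dep l b := ⟨σ.ok.rf l b, σ.ok.rg l b, σ.ok.rg' l b⟩
  par l := ⟨fun b s ξ => (σ.par.f l b s ξ).trans (neg_one_mul _).symm, σ.par.g l,
    fun b s ξ => (σ.par.g' l b s ξ).trans (one_mul _).symm⟩
  sgn l := (σ.par.pm l).imp (fun e => ⟨e, σ.par.ev l e⟩) fun e => ⟨e, σ.par.od l e⟩

lemma cv_comm (φ ψ : PF σ.m) : σ.Cv φ ψ = σ.Cv ψ φ := by
  simp only [Sta.Cv, mul_comm φ, mul_comm (σ.Eb φ _)]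

/-- the Gram row of a new node -/
lemma exists_row [IsProbabilityMeasure ν] (σ : Sta F ν) {φ : PF σ.m} (hφ : Sm φ) :
    ∃ (r : ℕ) (M : Matrix (Ix σ.m) (Fin r) ℝ) (row : Fin r → ℝ), M * Mᵀ = σ.S ∧
      (∀ t, (M *ᵥ row) t = σ.Cv φ (σ.P.f t)) ∧ row ⬝ᵥ row = σ.Cv φ φ := by
  let f : Fin (σ.m + 2) → PF σ.m := Fin.cons φ σ.P.f
  have hf : ∀ i, S3I.BL (f i) := Fin.cases (bl hφ) fun t => bl (σ.ok.sf t)
  have int : ∀ ψ, S3I.BL ψ → MemLp (σ.Eb ψ) 2 ν := fun ψ h =>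
    let ⟨Λ, _, hb, _⟩ := id h
    .of_bound (σ.mod.Eb_cont (pg σ) h).aestronglyMeasurable Λ
      (ae_of_all _ (S3I.abs_Eb_le _ _ _ hb))
  have int2 : ∀ i k, Integrable (fun b => σ.Eb (f i * f k) b - σ.Eb (f i) b * σ.Eb (f k) b) ν :=
    fun i k => ((int _ ((hf i).mul (hf k))).integrable one_le_two).sub
      ((int _ (hf i)).integrable_mul (int _ (hf k)))
  let S : Matrix (Fin (σ.m + 2)) (Fin (σ.m + 2)) ℝ := fun i k => σ.Cv (f i) (f k)
  have hS : S.PosSemidef := by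
    refine PosSemidef.of_dotProduct_mulVec_nonneg ?_ fun v => ?_
    · ext i k
      rw [conjTranspose_apply, star_trivial]
      exact cv_comm _ _
    · have e : star v ⬝ᵥ S *ᵥ v = F.β ^ 2 * ∫ b, ∑ i, ∑ k, v i * v k *
          (σ.Eb (f i * f k) b - σ.Eb (f i) b * σ.Eb (f k) b) ∂ν := by
        rw [integral_finsetSum _ fun i _ => integrable_finsetSum _ fun k _ =>
          (int2 i k).const_mul _, Finset.mul_sum]
        refine Finset.sum_congr rfl fun i _ => ?_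
        rw [integral_finsetSum _ fun k _ => (int2 i k).const_mul _, Finset.mul_sum, mulVec,
          dotProduct, Finset.mul_sum]
        refine Finset.sum_congr rfl fun k _ => ?_
        rw [integral_const_mul]
        simp only [star_trivial, S, Sta.Cv]; ring
      rw [e]
      exact mul_nonneg (sq_nonneg _) (integral_nonneg fun b => S3I.gram_nonneg _ _ _ hf v b)
  obtain ⟨B, hB⟩ := CStarAlgebra.nonneg_iff_eq_star_mul_self.1 hS.nonneg
  have h : ∀ i k, Bᵀ i ⬝ᵥ Bᵀ k = σ.Cv (f i) (f k) := fun i k =>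
    (congrFun (congrFun hB i) k).symm
  exact ⟨σ.m + 2, fun t => Bᵀ t.succ, Bᵀ 0, by
    ext t t'
    exact (h _ _).trans (σ.mod.S t t').symm, fun t => (h _ _).trans (cv_comm _ _), h 0 0⟩

/-! ### letters that read the placed nodes only -/

section rd
variable {J : Type} {G H : Fj J (Ix n)}

lemma on_mul (h : On D G) (h' : On D H) : On D (G * H) := fun θ s x y e => by
  rw [Pi.mul_apply, Pi.mul_apply, Pi.mul_apply, h θ s x y e, h' θ s x y e]; rfl

lemma on_gs (h : On D G) : On D (gs G) := fun θ s x y e => by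
  simp only [gs, h θ _ x y e]

lemma on_dx (h : On D G) (r : Ix n) : On D (dx r G) := fun θ s ξ ξ' e => by
  have : (fun v => G θ s (ξ + v)) = fun v => G θ s (ξ' + v) :=
    funext fun v => h θ s _ _ fun m hm => by simp [e m hm]
  have h1 := fderiv_comp_add_left (𝕜 := ℝ) (f := G θ s) (x := 0) ξ
  have h2 := fderiv_comp_add_left (𝕜 := ℝ) (f := G θ s) (x := 0) ξ'
  rw [add_zero] at h1 h2
  rw [dx, dx, ← h1, ← h2, this]

lemma dx_off (h : On D G) {r : Ix n} (hr : r ∉ D) : dx r G = 0 := by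
  funext θ s ξ
  by_cases hd : DifferentiableAt ℝ (G θ s) ξ
  · have h1 := hd.hasFDerivAt.hasLineDerivAt (Pi.single r 1)
    have h2 : (fun t : ℝ => G θ s (ξ + t • (Pi.single r 1 : Ix n → ℝ))) = fun _ => G θ s ξ :=
      funext fun t => h θ s _ _ fun k hk => by simp [(ne_of_mem_of_not_mem hk hr)]
    rw [HasLineDerivAt, h2] at h1
    exact h1.unique (hasDerivAt_const _ _)
  · simp [dx, fderiv_zero_of_not_differentiableAt hd]

lemma on_mono {D' : Set (Ix n)} (h : On D G) (hD : D ⊆ D') : On D' G :=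
  fun θ s x y e => h θ s x y fun u hu => e u (hD hu)

end rd

lemma on_lift {H : Fn (Ix n)} (h : On D H) : On D (lift F H) := fun _ => h _

lemma ev_congr {G : JL F n} (h : On D G) (hX : ∀ u ∈ D, X' u = X u) : ev X' G = ev X G :=
  funext fun _ => funext fun _ => h _ _ _ _ fun u hu => by rw [hX u hu]

lemma me_zero (X : Ix n → F.Vf) (i : F.I) : F.me (ev X 0) i = 0 := by
  simp [Fam.me, Fam.E, ev, Uw.eta, E.mean]

lemma lift_zero : lift F (0 : Fn (Ix n)) = 0 := rfl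

variable {G G' : Ix n → JL F n} {π π' : Ix n → Ix n → F.I → ℝ}

lemma tA_congr (hX : ∀ u ∈ D, X' u = X u) (hπ : ∀ v ∈ D, ∀ p ∈ D, π' v p = π v p)
    {Z Z' : Ix n → F.Vf} (hZ : ∀ u ∈ D, Z' u = Z u) {al : Fn (Ix n)} {a : Ix n → Fn (Ix n)}
    (h1 : On D al) (h2 : ∀ v, On D (a v) ∧ (v ∉ D → a v = 0)) :
    tA X' π' Z' al a = tA X π Z al a := by
  funext ω
  have z : ∀ (Y : Ix n → F.Vf), ev Y 0 ω = 0 := fun _ => rfl
  simp only [tA, ev_congr (on_lift h1) hX, fun v => ev_congr (on_lift (h2 v).1) hX,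
    fun v p => ev_congr (on_dx (on_lift (F := F) (h2 v).1) p) hX]
  congr 2
  · refine Finset.sum_congr rfl fun m _ => ?_
    by_cases hm : m ∈ D
    · rw [hZ m hm]
    · rw [(h2 m).2 hm, lift_zero, z, zero_mul, zero_mul]
  · funext m
    refine Finset.sum_congr rfl fun p _ => ?_
    by_cases hp : p ∈ D
    · by_cases hm : m ∈ D
      · rw [hπ m hm p hp]
      · rw [(h2 m).2 hm, lift_zero, dx_off (D := ∅) (fun _ _ _ _ _ => rfl) (notMem_empty p), z,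
          smul_zero, smul_zero]
    · rw [dx_off (on_lift (h2 m).1) hp, z, smul_zero, smul_zero]

end St60

open St60

theorem stepStmt (L : Tl) (hA : AppStmt) (hFl : FlowStmt) : StepStmt := by
  intro F ν _ n N σ e D X G π hN hR w hw hI
  classical
  have b := hR.bs
  have w0 : (0 : Ix n) < w := Fin.pos_iff_ne_zero.2 fun h => hw (h ▸ b.z)
  have ne : ∀ u ∈ D, u ≠ w := fun u hu => ne_of_mem_of_not_mem hu hw
  have hT : D ∩ Iio w ⊆ D := inter_subset_left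
  have rd : ∀ {H : Fn (Ix n)}, Nt.Rd w H → On (D ∩ Iio w) H :=
    fun h b s x y e => h b s x y fun m hm => e m ⟨hI hm, hm⟩
  have a0 : ∀ v ∉ D ∩ Iio w, N.a w v = 0 := fun v hv =>
    hN.tri w v (not_lt.1 fun h => hv ⟨hI h, h⟩)
  obtain ⟨H, h1, h2, h3⟩ : ∃ H, σ.Fa e (D ∩ Iio w) (-1) H ∧ md H = N.f w ∧
      (N.dr w → ev X H = tA X π (Zf N X G) (N.al w) (N.a w)) := by
    by_cases hd : N.dr w
    · obtain ⟨A, a1, a2, a3⟩ := hFl F ν n N σ e D X G π hN hR _ hT ⟨b.z, w0⟩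
        (fun v hv u hu => ⟨hu.1, mem_Iio.2 (lt_trans hu.2 hv.2)⟩) (N.al w) (N.a w) 1 (hN.fl w)
        (rd (hN.rd' w).1) (fun v => rd ((hN.rd' w).2 v)) a0
        (Or.inr ⟨by rw [one_smul, (hN.ev w).1], fun v => by rw [one_smul, (hN.ev w).2]⟩)
      exact ⟨A, a1, a2.trans (hN.drf w hd).2.symm, fun _ => a3⟩
    · exact ⟨_, fa_lift L b hT (hN.bs w) (rd (hN.rd w)) (hN.od w), rfl, fun h => absurd h hd⟩
  obtain ⟨σ1, j1, l1, p1, φ, s1, s2, s3⟩ := h1 σ id (le_rfl' σ)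
  obtain ⟨r, M, row, m1, m2, m3⟩ := exists_row σ1 s1
  obtain ⟨σ', j2, t, l2, t1, t2, t3, -, t4, -, -, t5, t6⟩ := hA F ν σ1 φ 0 0 (-1) r M row False
    s1 .zero .zero s2 (Or.inr fun _ _ _ => by simp) (Or.inr fun _ _ _ => by simp)
    (Or.inr ⟨rfl, rfl⟩) False.elim (fun _ => ⟨rfl, rfl, rfl⟩) m1 m2 m3
  have l := le_tr l1 l2
  have b1 := bs_le l1 b
  have b' := bs_le l b
  set e' := update ((j2 ∘ j1) ∘ e) w t with he'
  set X' := update X w (σ'.X t) with hX'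
  set G' := update G w H with hG'
  have e1 : ∀ u ∈ D, e' u = j2 (j1 (e u)) := fun u hu => update_of_ne (ne u hu) _ _
  have e2 : e' w = t := update_self ..
  have x1 : ∀ u ∈ D, X' u = X u := fun u hu => update_of_ne (ne u hu) _ _
  have g1 : ∀ u ∈ D, G' u = G u := fun u hu => update_of_ne (ne u hu) _ _
  have g2 : G' w = H := update_self ..
  have oG : ∀ u ∈ D, On D (G u) := fun u hu => ct_on b inter_subset_left (hR.ct u hu)
  have oH : On D H := ct_on b1 hT s3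
  obtain ⟨π', hπ⟩ := S3.Ex98.tri_ex (α := Ix n → F.I → ℝ) wellFounded_lt
    (fun v u p => piR N X' G' u v p) fun v u u' h => by
      funext p i
      exact congrArg _ (S3.Ex98.sum_lt (fun q hq => by rw [h q hq]) fun q hq => by
        simp [hN.tri v q hq, lift_zero, me_zero])
  have π1 : ∀ v ∈ D, ∀ p ∈ D, π' v p = π v p := fun v => by
    induction v using WellFoundedLT.induction with
    | ind v ih =>
      intro hv p hp
      funext i
      rw [hπ, hR.pi v hv p hp]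
      have o1 : On D (1 - sp * lift F (th 0) : JL F n) := fun θ s x y h => by
        simp [lift, th, sp, h 0 b.z]
      simp only [piR, g1 p hp, ev_congr (on_mul (on_mul (on_lift (hR.cl v hv).1) o1)
        (on_gs (oG p hp))) x1,
        fun q r => ev_congr (on_mul (on_lift ((hR.cl v hv).2 q).1) (on_dx (oG p hp) r)) x1]
      congr 1
      refine Finset.sum_congr rfl fun q _ => Finset.sum_congr rfl fun r _ => ?_
      by_cases hr : r ∈ D
      · by_cases hq : N.a v q = 0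
        · simp [hq, lift_zero, me_zero]
        · rw [ih q (not_le.1 fun h => hq (hN.tri v q h))
            (of_not_not fun h => hq (((hR.cl v hv).2 q).2 h)) r hr]
      · simp [dx_off (oG p hp) hr, me_zero]
  have Z1 : ∀ u ∈ D, Zf N X' G' u = Zf N X G u := fun u hu => by
    unfold Zf
    congr 1
    funext ω
    rw [g1 u hu, ev_congr (oG u hu) x1]
    congr 1
    refine Finset.sum_congr rfl fun m _ => ?_
    by_cases hm : m ∈ D
    · rw [g1 m hm, ev_congr (oG m hm) x1, ev_congr (on_lift ((hR.cl u hu).2 m).1) x1]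
    · simp [((hR.cl u hu).2 m).2 hm, lift_zero, me_zero]
  have gram : ∀ {A B : JL F n} {φ ψ : PF σ1.m} {u v : Ix n}, σ1.Ct (j1 ∘ e) D A φ →
      σ1.Ct (j1 ∘ e) D B ψ → Sm φ → Sm ψ → md A = N.f u → md B = N.f v → σ1.Cv φ ψ = N.S u v :=
    fun {A B φ ψ u v} c1 c2 k1 k2 d1 d2 => by
      have c3 : σ1.Ct (j1 ∘ e) D (A * B) (φ * ψ) := fun θ s η ξ q1 q2 => by
        simp only [Pi.mul_apply, c1 θ s η ξ q1 q2, c2 θ s η ξ q1 q2]
      rw [Sta.Cv, ct_eb L b1 subset_rfl c1 k1, ct_eb L b1 subset_rfl c2 k2,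
        ct_eb L b1 subset_rfl c3 (k1.mul k2), show md (A * B) = md A * md B from rfl, d1, d2, hN.gr]
      rfl
  have c1 : σ1.Ct (j1 ∘ e) D H φ := ct_le (le_rfl' σ1) s3 hT fun _ _ => rfl
  have c2 : ∀ v ∈ D, σ1.Ct (j1 ∘ e) D (G v) (σ1.P.f (j1 (e v))) := fun v hv =>
    l1.f _ ▸ ct_le l1 (hR.ct v hv) inter_subset_left fun _ _ => rfl
  have S1 : ∀ v ∈ D, σ'.S t (j2 (j1 (e v))) = N.S w v := fun v hv => by
    rw [t5, m2, gram c1 (c2 v hv) s1 (σ1.ok.sf _) h2 (hR.md v hv)]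
  have sy : ∀ {k l : ℕ} (A : Matrix (Ix k) (Fin l) ℝ) u v, (A * Aᵀ) u v = (A * Aᵀ) v u :=
    fun A u v => by simp only [Matrix.mul_apply, transpose_apply, mul_comm]
  have sub : D ⊆ insert w D := subset_insert w D
  have clw : On D (N.al w) ∧ ∀ v, On D (N.a w v) ∧ (v ∉ D → N.a w v = 0) :=
    ⟨on_mono (rd (hN.rd' w).1) hT, fun v =>
      ⟨on_mono (rd ((hN.rd' w).2 v)) hT, fun hv => a0 v fun h => hv h.1⟩⟩
  refine ⟨σ', j2 ∘ j1, e', X', G', π', ⟨⟨sub b.z, (e1 0 b.z).trans b'.e0, ?_, ?_, ?_, ?_⟩,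
    fun t' ht' => ?_, ?_, ?_, fun u hu => ?_, fun v _ p _ => congrFun (hπ v) p, ?_⟩, l, e1⟩
  · refine (injOn_insert hw).2 ⟨(b'.inj.congr fun u hu => (e1 u hu).symm), ?_⟩
    rintro ⟨u, hu, h⟩
    exact t1 ⟨_, (e1 u hu).symm.trans (h.trans e2)⟩
  · rintro u (rfl | hu)
    · rw [e2]; exact t3.1
    · rw [e1 u hu]; exact b'.re u hu
  · rintro u (rfl | hu) v (rfl | hv)
    · rw [e2, t6, m3, gram c1 c1 s1 s1 h2 h2]
    · rw [e2, e1 v hv, S1 v hv]
    · rw [e2, e1 u hu]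
      exact (sy σ'.M _ _).trans ((S1 u hu).trans (sy N.A _ _))
    · rw [e1 u hu, e1 v hv]; exact b'.S u hu v hv
  · rintro u (rfl | hu)
    · rw [e2]; exact update_self ..
    · rw [x1 u hu, e1 u hu]; exact b'.X u hu
  · rcases t2 t' with ⟨t1', rfl⟩ | rfl
    · obtain ⟨t0, rfl⟩ := p1 t1' fun h => ht' ((l2.pm _).2 h)
      obtain ⟨u, hu, rfl⟩ := hR.sur t0 fun h => ht' ((l.pm _).2 h)
      exact ⟨u, sub hu, e1 u hu⟩
    · exact ⟨w, mem_insert _ _, e2⟩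
  · rintro u (rfl | hu)
    · rw [e2, t4, g2]
      exact ct_le l2 s3 (inter_subset_inter_left _ sub) fun v hv => e1 v hv.1
    · rw [e1 u hu, g1 u hu, show j2 (j1 (e u)) = (j2 ∘ j1) (e u) from rfl, l.f]
      exact ct_le l (hR.ct u hu) (inter_subset_inter_left _ sub) fun v hv => e1 v hv.1
  · rintro u (rfl | hu)
    · rw [g2, h2]
    · rw [g1 u hu, hR.md u hu]
  · have : On D (N.al u) ∧ ∀ v, On D (N.a u v) ∧ (v ∉ D → N.a u v = 0) := by
      rcases hu with rfl | hu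
      exacts [clw, hR.cl u hu]
    exact ⟨on_mono this.1 sub, fun v =>
      ⟨on_mono (this.2 v).1 sub, fun hv => (this.2 v).2 fun h => hv (sub h)⟩⟩
  · rintro u (rfl | hu) hd
    · rw [g2, ev_congr oH x1, h3 hd, tA_congr x1 π1 Z1 clw.1 clw.2]
    · rw [g1 u hu, ev_congr (oG u hu) x1, hR.dr u hu hd,
        tA_congr x1 π1 Z1 (hR.cl u hu).1 (hR.cl u hu).2]

end Crest.Agent.T157.S3R

end
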