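import Crest.Agent.T157.S3RA_52
import Crest.Agent.T157.NetLift_66

/-! S3, realisation: transport along an extension of the model network (helper75). -/

set_option autoImplicit false
set_option linter.unusedVariables false

noncomputable section

namespace Crest.Agent.T157.S3R

open MeasureTheory Matrix Set Function
open Crest.Agent.T157.S3 (Fam)
open Crest.Agent.T157.Nt (Fj Fn Ix BS dx gs sp co cb res th rf Ev Net)
open Crest.Agent.T157.Nt.Lift66 (sum_range ext_off dx_res dx_res_off)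

namespace Tr75

variable {F : Fam} {n n' : ℕ} {N : Net n} {N' : Net n'} {ι : Ix n → Ix n'} {X : Ix n → F.Vf}
  {G : Ix n → JL F n} {π : Ix n → Ix n → F.I → ℝ}

def Xe (ι : Ix n → Ix n') (X : Ix n → F.Vf) : Ix n' → F.Vf := extend ι X 0
def Ge (ι : Ix n → Ix n') (G : Ix n → JL F n) : Ix n' → JL F n' := extend ι (fun u => res ι (G u)) 0
def πe (ι : Ix n → Ix n') (π : Ix n → Ix n → F.I → ℝ) : Ix n' → Ix n' → F.I → ℝ :=
  extend ι (fun v => extend ι (π v) 0) 0

theorem Xe_ap (hι : Injective ι) (u : Ix n) : Xe ι X (ι u) = X u := hι.extend_apply _ _ _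
theorem Ge_ap (hι : Injective ι) (u : Ix n) : Ge ι G (ι u) = res ι (G u) := hι.extend_apply _ _ _
theorem πe_ap (hι : Injective ι) (u v : Ix n) : πe ι π (ι u) (ι v) = π u v := by
  rw [πe, hι.extend_apply, hι.extend_apply]
theorem πe_l {u : Ix n'} (hu : u ∉ range ι) (v : Ix n') : πe ι π u v = 0 := by
  rw [πe, ext_off _ hu]; rfl
theorem πe_r (hι : Injective ι) (u : Ix n) {v : Ix n'} (hv : v ∉ range ι) : πe ι π (ι u) v = 0 := by
  rw [πe, hι.extend_apply, ext_off _ hv]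

theorem ev_res (hι : Injective ι) (H : JL F n) : ev (Xe ι X) (res ι H) = ev X H := by
  funext ω k
  simp only [ev, res, Function.comp_def, Xe_ap hι]

theorem ev_zero (Y : Ix n' → F.Vf) : ev Y (0 : JL F n') = 0 := rfl

theorem lift_res (H : Fn (Ix n)) : lift F (res ι H) = res ι (lift F H) := rfl

theorem Zf_res (h : N.Ext N' ι) (v : Ix n) : Zf N' (Xe ι X) (Ge ι G) (ι v) = Zf N X G v := by
  have hι := h.mono.injective
  rw [Zf, Zf]
  congr 1
  funext ω
  rw [sum_range hι fun l hl => by rw [Ge, ext_off _ hl, ev_zero, Pi.zero_apply, smul_zero]]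
  simp only [Ge_ap hι, h.a, lift_res, ev_res hι]

theorem piR_res (h : N.Ext N' ι) (v p : Ix n) :
    piR N' (Xe ι X) (Ge ι G) (πe ι π) (ι v) (ι p) = piR N X G π v p := by
  have hι := h.mono.injective
  funext i
  rw [piR, piR, sum_range hι fun l hl => by simp [πe_l hl]]
  congr 1
  · rw [← ev_res hι, h.al, Ge_ap hι, ← h.zero]; rfl
  · refine Finset.sum_congr rfl fun q _ => ?_
    rw [sum_range hι fun l hl => by simp [πe_r hι q hl]]
    refine Finset.sum_congr rfl fun r _ => ?_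
    rw [πe_ap hι, ← ev_res hι, h.a, Ge_ap hι, dx_res hι]; rfl

theorem tA_res (h : N.Ext N' ι) (u : Ix n) :
    tA (Xe ι X) (πe ι π) (Zf N' (Xe ι X) (Ge ι G)) (N'.al (ι u)) (N'.a (ι u)) =
      tA X π (Zf N X G) (N.al u) (N.a u) := by
  have hι := h.mono.injective
  funext ω
  rw [tA, tA, sum_range hι fun l hl => by
      rw [h.a0 u l hl, show lift F (0 : Fn (Ix n')) = 0 from rfl, ev_zero, Pi.zero_apply, zero_mul],
    sum_range hι (g := fun m => ∑ p, πe ι π m p ω.1 • ev (Xe ι X) (dx p (lift F (N'.a (ι u) m))) ω)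
      fun l hl => by simp [πe_l hl]]
  simp only [h.al, h.a, lift_res, ev_res hι, Zf_res h]
  congr 1
  refine Finset.sum_congr rfl fun q _ => ?_
  rw [sum_range hι fun l hl => by simp [πe_r hι q hl]]
  simp only [πe_ap hι, dx_res hι, ev_res hι]

theorem on_res {J : Type} (H : Fj J (Ix n)) : On (range ι) (res ι H) := fun θ s x x' e => by
  have : x ∘ ι = x' ∘ ι := funext fun u => e _ ⟨u, rfl⟩
  simp only [res, this]

end Tr75

open Tr75

theorem trStmt : TrStmt := by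
  intro F ν _ n N σ e D X G π hN h hD n' N' ι hx
  subst hD
  have hι := hx.mono.injective
  have he : ∀ u, extend ι e (fun _ => 0) (ι u) = e u := fun u => hι.extend_apply _ _ _
  refine ⟨extend ι e fun _ => 0, Xe ι X, Ge ι G, πe ι π, ⟨⟨⟨0, hx.zero⟩, ?_, ?_, ?_, ?_, ?_⟩,
    fun t ht => ?_, ?_, ?_, ?_, ?_, ?_⟩, he⟩
  · rw [← hx.zero, he, h.bs.e0]
  · rintro _ ⟨u, rfl⟩ _ ⟨v, rfl⟩ huv
    rw [he, he] at huv
    rw [h.bs.inj trivial trivial huv]
  · rintro _ ⟨u, rfl⟩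
    rw [he]; exact h.bs.re u trivial
  · rintro _ ⟨u, rfl⟩ _ ⟨v, rfl⟩
    rw [he, he, h.bs.S u trivial v trivial, ← hx.S]; rfl
  · rintro _ ⟨u, rfl⟩
    rw [he, Xe_ap hι]; exact h.bs.X u trivial
  · obtain ⟨u, -, hu⟩ := h.sur t ht
    exact ⟨ι u, ⟨u, rfl⟩, (he u).trans hu⟩
  · rintro _ ⟨u, rfl⟩ θ s η ξ h1 h2
    rw [he, Ge_ap hι]
    exact h.ct u trivial θ s η (ξ ∘ ι) h1 fun v hv =>
      (h2 (ι v) ⟨⟨v, rfl⟩, hx.mono hv.2⟩).trans (congrArg η (he v))
  · rintro _ ⟨u, rfl⟩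
    rw [Ge_ap hι, hx.f, ← h.md u trivial]; rfl
  · rintro _ ⟨u, rfl⟩
    refine ⟨hx.al u ▸ on_res _, fun v => ⟨?_, hx.a0 u v⟩⟩
    by_cases hv : v ∈ range ι
    · obtain ⟨v, rfl⟩ := hv
      exact hx.a u v ▸ on_res _
    · rw [hx.a0 u v hv]; exact fun _ _ _ _ _ => rfl
  · rintro _ ⟨v, rfl⟩ _ ⟨p, rfl⟩
    rw [πe_ap hι, piR_res hx]; exact h.pi v trivial p trivial
  · rintro _ ⟨u, rfl⟩ hu
    rw [Ge_ap hι, ev_res hι, tA_res hx]; exact h.dr u trivial ((hx.dr u).1 hu)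

end Crest.Agent.T157.S3R
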