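import Crest.Agent.T157.S3RB_52

/-! S3, realisation (helper65): the drift fields and the drifts of flows are forced. -/

set_option autoImplicit false
set_option linter.unusedVariables false

noncomputable section

namespace Crest.Agent.T157.S3R

open MeasureTheory Matrix Set Function
open Crest.Agent.T157.S3 (Fam)
open Crest.Agent.T157.Nt (Fj Fn Ix BS dx gs sp co cb res th rf Ev Net BsStmt FactStmt)
open Sta

theorem flowStmt (hB : BsStmt) (hP : PiStmt) (hZ : ZetaStmt) : FlowStmt := by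
  intro F ν _ n N σ e D X G π hN hR T hT h0 hc al a ε hF o1 o2 hz hε
  have hb := hR.bs
  have a0 : ∀ v, (v ∈ T ∧ N.dr v) ∨ a v = 0 := fun v => by
    by_cases h1 : v ∈ T
    · exact (em (N.dr v)).imp (fun h => ⟨h1, h⟩) (hF.nd v)
    · exact Or.inr (hz v h1)
  have hζ : ∀ v, ∃ ζ, σ.Fa e T (-1) ζ ∧
      (a v = 0 ∨ md ζ = -N.S 0 v • sp ∧ ev X ζ = Zf N X G v - X v) := fun v => by
    rcases a0 v with ⟨h1, h2⟩ | h
    · obtain ⟨ζ, k1, k2⟩ := hZ F ν n N σ e D X G π hN hR v (hT h1) h2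
      exact ⟨ζ, k1.mono (hc v h1), Or.inr k2⟩
    · exact ⟨0, fa_zero, Or.inl h⟩
  choose ζ z1 z2 using hζ
  have fa : ∀ v, σ.Fa e T ε (lift F (a v)) := fun v =>
    hb.fa_lift hB hT (hF.ba v).1 (o2 v) (hε.imp_right fun h => h.2 v)
  refine ⟨(sp - lift F (th 0)) * lift F al + ∑ v, (lift F (a v * co v) + lift F (a v) * ζ v) -
    ∑ v, ∑ p, jc (π v p) (N.S v p) * dx p (lift F (a v)), ?_, ?_, ?_⟩
  · refine (((fa_sp.sub (hb.fa_lift hB hT ((hB _).th0 0) (on_th h0) (Or.inr ?_))).mul'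
      (hb.fa_lift hB hT hF.bal o1 (hε.imp_right fun h => h.1)) (neg_one_mul ε)).add
      (Fa.sum _ fun v _ => .add ?_ ((fa v).mul' (z1 v) (mul_neg_one ε)))).sub
      (Fa.sum _ fun v _ => Fa.sum _ fun p _ => ?_)
    · funext b s x
      simp only [rf, th, Pi.neg_apply, ← neg_add, Real.tanh_neg, Pi.smul_apply, smul_eq_mul,
        neg_one_mul]
    · rcases a0 v with ⟨h1, -⟩ | h
      · refine hb.fa_lift hB hT (hF.ba v).2 ((o2 v).mul (on_co h1))
          (hε.imp (by simp) fun h => ?_)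
        funext b s x
        have := congrFun (congrFun (congrFun (h.2 v) b) s) x
        simp only [rf, co, Pi.mul_apply, Pi.neg_apply, Pi.smul_apply, smul_eq_mul] at this ⊢
        rw [this]; ring
      · rw [h, zero_mul]; exact fa_zero
    · by_cases hp : p ∈ T
      · rcases a0 v with ⟨h1, h2⟩ | h
        · exact ((hP F ν n N σ e D X G π hN hR v (hT h1) h2 p (hT hp)).mono (empty_subset _)).mul'
            (hb.fa_dx hT (fa v) p) (one_mul _)
        · rw [h, show lift F (0 : Fn (Ix n)) = 0 from rfl, dx_zero, mul_zero]; exact fa_zero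
      · rw [(o2 v).lift.dx_zero hp, mul_zero]; exact fa_zero
  · funext b s x
    have e1 : ∀ v, a v b s x * ζ v (.inr b) s x = -(a v b s x * (N.S 0 v * sp (L := Ix n) b s x)) :=
      fun v => by
      rcases z2 v with h | ⟨h, -⟩
      · simp [h]
      · rw [show ζ v (.inr b) s x = _ from congrFun (congrFun (congrFun h b) s) x]
        simp
    simp only [md, Net.drift, Nt.dft, Nt.dl, Pi.add_apply, Pi.sub_apply, Pi.mul_apply,
      Finset.sum_apply, Pi.smul_apply, smul_eq_mul, Finset.sum_sub_distrib, mul_sub, add_sub_assoc]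
    congr 2
    rw [← Finset.sum_sub_distrib]
    exact Finset.sum_congr rfl fun v _ => congrArg₂ _ rfl (e1 v)
  · funext ω k
    have e0 : X 0 ω k = S3.hf (F.J ω.1) (F.y ω.1) ω.2 k - bi F ω.1 k := by
      rw [hb.X 0 hb.z, hb.e0]
      exact congrFun (σ.ok.X0 ω.2) k
    have e1 : ∀ v, ev X (lift F (a v)) ω k * X v ω k + ev X (lift F (a v)) ω k * ev X (ζ v) ω k =
        ev X (lift F (a v)) ω k * Zf N X G v ω k := fun v => by
      rcases z2 v with h | ⟨-, h⟩
      · simp [h, ev, lift]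
      · rw [h, Pi.sub_apply, Pi.sub_apply]; ring
    simp only [tA, Pi.add_apply, Pi.sub_apply, Pi.mul_apply, Finset.sum_apply, Pi.smul_apply,
      smul_eq_mul, ← e1]
    simp only [ev, Pi.add_apply, Pi.sub_apply, Pi.mul_apply, Finset.sum_apply]
    congr 3
    change _ - Real.tanh (bi F ω.1 k + X 0 ω k) = _
    rw [e0, add_sub_cancel]
    rfl

namespace Z65
variable {F : Fam} {ν : Measure ℝ} {n : ℕ} {N : Net n} {σ : Sta F ν} {e : Ix n → Ix σ.m}
  {D : Set (Ix n)} {X : Ix n → F.Vf} {G : Ix n → JL F n} {π : Ix n → Ix n → F.I → ℝ}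

lemma E_sub (hB : BsStmt) (N : Net n) {φ ψ : Fn (Ix n)} (h : BS φ) (h' : BS ψ) (b : ℝ) :
    N.E (φ - ψ) b = N.E φ b - N.E ψ b :=
  let ⟨_, _, _, hl⟩ := bl_of_sm (sm_of_bs hB h)
  let ⟨_, _, _, hl'⟩ := bl_of_sm (sm_of_bs hB h')
  S3I.mdl_sub N.A 0 b (hl.elip b) (hl'.elip b)

lemma fa_G (h : Rp N σ e D X G π) {u : Ix n} (hu : u ∈ D) : σ.Fa e (D ∩ Iio u) (-1) (G u) :=
  Av.fa ⟨_, σ.ok.sf _, σ.pr_f _, h.ct u hu⟩

lemma ev_G (h : Rp N σ e D X G π) {u : Ix n} (hu : u ∈ D) : ev X (G u) = σ.e (σ.P.f (e u)) :=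
  h.bs.ev inter_subset_left (h.ct u hu)

lemma me_zero (i : F.I) : F.me (ev X 0) i = 0 := by
  simp [Fam.me, Fam.E, ev, Uw.eta, E.mean]

lemma sum_eq (h : Rp N σ e D X G π) {v : Ix n} (hv : v ∈ D) (ω : F.Ω) :
    ∑ t, (σ.P.net F).o (e v) t ω.1 • σ.e (σ.P.f t) ω =
      ∑ m, F.me (ev X (dx m (G v))) ω.1 • ev X (G m) ω := by
  classical
  rw [← Finset.sum_subset (Finset.subset_univ (Finset.univ.filter (· ∈ D))) fun m _ hm => by
    rw [(h.bs.fa_on inter_subset_left (fa_G h hv)).dx_zero fun k => hm (by simpa using k.1), me_zero,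
      zero_smul]]
  refine (Finset.sum_of_injOn e (by simpa using h.bs.inj) (fun _ _ => Finset.mem_univ _)
    (fun t _ ht => ?_) fun m hm => ?_).symm
  · rw [σ.pm t (by_contra fun k => ht (by simpa using h.sur t k))]
    exact smul_zero _
  · have hm := (Finset.mem_filter.1 hm).2
    rw [ev_G h hm, h.bs.ev le_rfl (h.bs.dx (σ.ok.sf _) (h.ct v hv) inter_subset_left hm
      inter_subset_left le_rfl hm)]
    rfl

lemma X_eq (h : Rp N σ e D X G π) {v : Ix n} (hv : v ∈ D) (ω : F.Ω) : X v ω = cen (fun ω =>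
    F.J ω.1 *ᵥ ev X (G v) ω - ∑ m, F.me (ev X (dx m (G v))) ω.1 • ev X (G m) ω) ω +
      σ.P.S (F.s ω.1) (F.J ω.1) (F.y ω.1) (e v) 0 • F.EV (ev X sp) ω.1 := by
  have e1 : (fun ω => F.J ω.1 *ᵥ ev X (G v) ω - ∑ m, F.me (ev X (dx m (G v))) ω.1 • ev X (G m) ω) =
      fun ω : F.Ω => S3P.Zr σ.P (F.s ω.1) (F.J ω.1) (F.y ω.1)
        (σ.P.X (F.s ω.1) (F.J ω.1) (F.y ω.1)) (e v) ω.2 := funext fun ω => by
    rw [← sum_eq h hv, ev_G h hv]; rfl
  have e2 : S3P.cc σ.P (F.s ω.1) (F.J ω.1) (F.y ω.1) (σ.P.X (F.s ω.1) (F.J ω.1) (F.y ω.1)) (e v) =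
      0 := by
    ext k
    simp [S3P.cc, (σ.re _ (h.bs.re v hv)).1, (σ.re _ (h.bs.re v hv)).2.1, S3P.me_zero, S3P.eP,
      E.meanV, E.mean]
  rw [e1, h.bs.X v hv]
  refine (congrFun (congrFun σ.ok.fix (e v)) ω.2).symm.trans ?_
  rw [S3P.step, e2, add_zero]
  rfl

lemma S_eq (h : Rp N σ e D X G π) {v : Ix n} (hv : v ∈ D) (c : ℝ → ℝ) (i : F.I) :
    F.me (ev X ((G v - jv (F.EV (ev X (G v))) c) * sp)) i =
      σ.P.S (F.s i) (F.J i) (F.y i) (e v) 0 := by
  have hw := Pl.wt_ising (F.J i) (F.y i)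
  change E.mean (E.ising (F.J i) (F.y i)) (fun x => F.s i ^ 2 * ∑ k : Fin (F.n i), (ev X (G v) ⟨i, x⟩ k -
    E.mean (E.ising (F.J i) (F.y i)) fun x => ev X (G v) ⟨i, x⟩ k) * E.sv x k) = F.s i ^ 2 * ∑ k,
      E.cov _ (fun x => σ.e (σ.P.f (e v)) ⟨i, x⟩ k)
        fun x => σ.P.e (F.s i) (F.J i) (F.y i) (σ.P.f 0) x k
  rw [SL.mean_const_mul, SL.mean_sum]
  simp only [σ.ok.e0, ← ev_G h hv, hw.cov_eq, SL.mean_const_mul, sub_mul, SL.mean_sub]

end Z65

open Z65 in
theorem zetaStmt (hB : BsStmt) (hF : FactStmt) (hP : ParStmt) : ZetaStmt := by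
  intro F ν _ n N σ e D X G π hN hR v hv hd
  have hb := hR.bs
  obtain ⟨f1, f2, -⟩ := hF F.β ν n N hN
  obtain ⟨h0, hf⟩ := hN.drf v hd
  have sub : D ∩ Iio v ⊆ D := inter_subset_left
  have P1 := fun H => (hP F ν n N σ e D X hb _ sub H).1
  have P2 := fun H => (hP F ν n N σ e D X hb _ sub H).2 (-1) (Or.inr rfl)
  have oa : ∀ m, On (D ∩ Iio v) (N.a v m) := fun m => ((hR.cl v hv).2 m).1.inter ((hN.rd' v).2 m)
  refine ⟨∑ m, jc (F.me (ev X (dx m (G v) - lift F (N.a v m))))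
      (F.β ^ 2 * Ev ν N.A 0 (md (dx m (G v) - lift F (N.a v m)))) *
        (G m - jv (F.EV (ev X (G m))) (N.E (md (G m)))) -
    jc (F.me (ev X ((G v - jv (F.EV (ev X (G v))) (N.E (md (G v)))) * sp)))
      (F.β ^ 2 * Ev ν N.A 0 (md ((G v - jv (F.EV (ev X (G v))) (N.E (md (G v)))) * sp))) *
        jv (F.EV (ev X sp)) (N.E (md (sp : JL F n))), ?_, ?_, ?_⟩
  · refine (Fa.sum _ fun m _ => ?_).sub (((P1 _ (((fa_G hR hv).sub ((P2 _ (fa_G hR hv)).mono
      (empty_subset _))).mul' fa_sp (by norm_num))).mul' (P2 _ fa_sp) (one_mul _)).mono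
        (empty_subset _))
    by_cases hm : m ∈ D ∩ Iio v
    · have g := (fa_G hR hm.1).mono (inter_subset_inter_right D (Iio_subset_Iio (le_of_lt hm.2)))
      have d := hb.fa_dx sub (fa_G hR hv) m
      rw [neg_neg] at d
      exact ((P1 _ (d.sub (hb.fa_lift hB sub ((hN.fl v).ba m).1 (oa m)
        (Or.inr (by rw [(hN.ev v).2, one_smul]))))).mono (empty_subset _)).mul'
        (g.sub ((P2 _ g).mono (empty_subset _))) (one_mul _)
    · have a0 : N.a v m = 0 := by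
        by_cases h1 : m ∈ D
        · exact hN.tri v m (not_lt.1 fun h2 => hm ⟨h1, h2⟩)
        · exact ((hR.cl v hv).2 m).2 h1
      have z : jc (F.me (ev X (dx m (G v) - lift F (N.a v m))))
          (F.β ^ 2 * Ev ν N.A 0 (md (dx m (G v) - lift F (N.a v m)))) = (0 : JL F n) := by
        rw [(hb.fa_on sub (fa_G hR hv)).dx_zero hm, a0, show (0 : JL F n) - lift F 0 = 0 from
          sub_self _]
        funext θ s x
        rcases θ with θ | b
        · exact me_zero _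
        · exact mul_eq_zero_of_right _ (integral_eq_zero_of_ae
            (ae_of_all _ fun b => S3I.mdl_const N.A 0 b 0))
      rw [z, zero_mul]; exact fa_zero
  · have e1 : ∀ m, F.β ^ 2 * Ev ν N.A 0 (md (dx m (G v) - lift F (N.a v m))) =
        if m = 0 then -N.S v 0 else 0 := fun m => by
      have : ∀ b, Nt.Eb N.A 0 (md (dx m (G v) - lift F (N.a v m))) b =
          if m = 0 then -N.E (N.D * N.al v) b else 0 := fun b => by
        change N.E (dx m (md (G v)) - N.a v m) b = _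
        rw [hR.md v hv, E_sub hB N ((hB _).dx m (hN.bs v)) ((hN.fl v).ba m).1, hf,
          (f1 _ _ (hN.fl v)).2.2.2]
        split_ifs <;> ring
      simp only [Ev, this]
      split_ifs
      · rw [integral_neg, (f2 v hd).1, mul_neg]; rfl
      · simp
    have e2 : F.β ^ 2 * Ev ν N.A 0 (md ((G v - jv (F.EV (ev X (G v))) (N.E (md (G v)))) * sp)) =
        N.S v 0 := by
      rw [hN.gr, Nt.gram, of_apply, Ev]
      congr 2
      funext b
      obtain ⟨_, _, _, l1⟩ := bl_of_sm (sm_of_bs hB ((hB _).mul (hN.bs v) (hB _).sp))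
      obtain ⟨_, _, _, l2⟩ := bl_of_sm (sm_of_bs hB ((hB _).smul (N.E (N.f v) b) (hB (Ix n)).sp))
      have := S3I.mdl_sub N.A 0 b (l1.elip b) (l2.elip b)
      rw [hN.f0, Nt.Cv]
      refine Eq.trans ?_ (this.trans (congrArg _ (S3I.mdl_const_mul N.A 0 b _ _)))
      change S3L.mdl N.A 0 b (fun s x => (md (G v) b s x - N.E (md (G v)) b) * _) = _
      simp only [hR.md v hv, sub_mul]
      rfl
    have e3 : N.S v 0 = N.S 0 v := by simp only [Net.S, mul_apply, transpose_apply, mul_comm]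
    rw [e2]
    simp only [e1]
    funext b s x
    have e4 : G 0 (.inr b) s x = sp (L := Ix n) b s x :=
      congrFun (congrFun (congrFun ((hR.md 0 hb.z).trans hN.f0) b) s) x
    have e5 : md (G 0) = md (sp : JL F n) := (hR.md 0 hb.z).trans hN.f0
    simp only [md, jc, jv, cb, Pi.sub_apply, Pi.mul_apply, Finset.sum_apply, Sum.elim_inr, ite_mul,
      zero_mul, Finset.sum_ite_eq', Finset.mem_univ, if_true, e4, Pi.smul_apply, smul_eq_mul] at e5 ⊢
    rw [e5, e3]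
    ring
  · funext ω k
    have hw := Pl.wt_ising (F.J ω.1) (F.y ω.1)
    have e1 : ∀ m, F.me (ev X (dx m (G v) - lift F (N.a v m))) ω.1 =
        F.me (ev X (dx m (G v))) ω.1 - F.me (ev X (lift F (N.a v m))) ω.1 := fun m => by
      simp only [Fam.me, Fam.E, ← SL.mean_sub, ← Uw.eta_sub]
      rfl
    rw [Pi.sub_apply, X_eq hR hv, ← S_eq hR hv (N.E (md (G v)))]
    have e2 : ∀ c : Ix n → ℝ, E.mean (F.w ω.1) (fun x => ∑ m, c m * ev X (G m) ⟨ω.1, x⟩ k) =
        ∑ m, c m * E.mean (F.w ω.1) fun x => ev X (G m) ⟨ω.1, x⟩ k := fun c => by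
      rw [SL.mean_sum]; simp only [SL.mean_const_mul]
    rw [ev]
    simp only [Finset.sum_apply, Pi.mul_apply, Pi.sub_apply, Pi.add_apply, Pi.smul_apply, jc, jv, cb,
      Sum.elim_inl, e1, Zf, cen, Fam.EV, E.meanV, SL.mean_sub, smul_eq_mul, e2, sub_mul, mul_sub,
      Finset.sum_sub_distrib]
    simp only [ev]
    ring

end Crest.Agent.T157.S3R

end
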