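import Crest.Agent.T157.S3RD_52
import Crest.Agent.T157.S3RApp_30
import Crest.Agent.T157.S3RPar_43
import Crest.Agent.T157.S3RPi_30
import Crest.Agent.T157.S3RZ_65
import Crest.Agent.T157.S3RStep_60
import Crest.Agent.T157.S3RTr_75
import Crest.Agent.T157.S3RFin_90
import Crest.Agent.T157.S3Top_60

/-! S3, realisation (helper52): assembly. -/

set_option autoImplicit false

noncomputable section

namespace Crest.Agent.T157.S3R

open MeasureTheory Set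
open Crest.Agent.T157.S3 (Fam)
open Crest.Agent.T157.S3.T60 (Rz RX)
open Crest.Agent.T157.Nt (Ix Net Tl FactStmt)

variable {F : Fam} {ν : Measure ℝ} [IsProbabilityMeasure ν] {n : ℕ} {N : Net n}

theorem flow (T : Tl) (hF : FactStmt) : FlowStmt :=
  flowStmt T.bs (piStmt (parStmt appStmt) hF) (zetaStmt T.bs hF (parStmt appStmt))

theorem Rp.rz (T : Tl) (hF : FactStmt) (hL : LP F ν) (hN : N.Ok F.β ν) {σ : Sta F ν}
    {e : Ix n → Ix σ.m} {X : Ix n → F.Vf} {G : Ix n → JL F n} {π : Ix n → Ix n → F.I → ℝ}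
    (h : Rp N σ e univ X G π) : Rz F N (net σ e X G) (Ag σ e) :=
  let ⟨h1, Φ, Γ, Z, h2⟩ := finStmt (flow T hF) F ν n N σ e univ X G π hN h rfl
  { ok := h1
    hb := rfl
    ty := fun _ hd => let ⟨φ, hφ⟩ := Ag.of_mem hd
      ⟨_, ⟨N.E φ, (hφ.cont h.bs).1, (hφ.cont h.bs).2, rfl⟩, hφ.ll h.bs hL⟩
    mem := fun _ _ => Ag.mem
    fl := fun _ => Ag.fl T.bs h.bs
    add := fun _ _ _ _ => Ag.add
    smul := fun c _ _ => Ag.smul c
    mul := fun _ _ _ _ => Ag.mul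
    pd := fun u _ _ => Ag.pd h.bs u
    gs := fun _ _ => Ag.gs
    f := Ag.f h
    ll := fun _ _ => Ag.ll h.bs hL
    dr := ⟨Φ, Γ, π, Z, h2⟩ }

/-- **the realisation** -/
theorem real (T : Tl) (hF : FactStmt) (hL : LP F ν) (hN : N.Ok F.β ν) :
    ∃ R A, Rz F N R A ∧ RX F ν N R A := by
  have hS := stepStmt T appStmt (flow T hF)
  obtain ⟨σ, e, X, G, π, h⟩ := rp_univ baseStmt hS hN
  refine ⟨_, _, h.rz T hF hL hN, fun n' N' ι hN' hE => ?_⟩
  obtain ⟨σ', e', X', G', π', h', H⟩ := rp_ext trStmt hS hN h hN' hE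
  refine ⟨_, _, h'.rz T hF hL hN', fun g hg => ?_, H⟩
  obtain ⟨φ, hφ⟩ := Ag.of_mem hg
  obtain ⟨g', h1, h2⟩ := H g φ hφ
  exact ⟨g', h1.mem, h2⟩

end Crest.Agent.T157.S3R

end
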