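import Crest.Agent.T157.S3RA_52
import Crest.Agent.T157.S3Fn_60

/-! S3, realisation (helper52): the calculus of available and forced letters. -/

set_option autoImplicit false
set_option linter.unusedVariables false
set_option linter.unusedSectionVars false

noncomputable section

namespace Crest.Agent.T157.S3R

open MeasureTheory Matrix Set Function
open Crest.ProbabilityR.SpinGlassDynamics (spin)
open Crest.Agent.T157.S3 (Fam)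
open Crest.Agent.T157.S3L (mdl gm)
open Crest.Agent.T157.S3P (PF Prog Sm bF)
open Crest.Agent.T157.Nt (Fj Fn Ix BS dx gs sp co cb res th rf Ev Net BsStmt)

variable {F : Fam} {ν : Measure ℝ} {n n' m m' : ℕ}

section model
variable {L K κ κ' : Type} [Fintype L] [Fintype K] [Fintype κ] [Fintype κ']

lemma mdl_gram {A : Matrix L κ ℝ} {B : Matrix L κ' ℝ} (h : A * Aᵀ = B * Bᵀ) (o : L) (b : ℝ)
    {ψ : Bool → (L → ℝ) → ℝ} (hψ : ∀ s, Measurable (ψ s)) : mdl A o b ψ = mdl B o b ψ := by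
  unfold mdl gm
  rw [h]
  refine Finset.sum_congr rfl fun s _ => congrArg _ ?_
  exact S3L.Clt58.int_congr h (F := fun x => ψ s (spin s • (fun l => (B * Bᵀ) l o) + x))
    ((hψ s).comp (measurable_const.add measurable_id))

lemma mdl_comp (A : Matrix L κ ℝ) (e : K → L) (o : K) (b : ℝ) (ψ : Bool → (K → ℝ) → ℝ) :
    mdl A (e o) b (fun s x => ψ s (x ∘ e)) = mdl (A.submatrix e id) o b ψ := rfl

/-- the model seen through `e` -/
lemma mdl_res {A : Matrix L κ ℝ} {B : Matrix K κ' ℝ} {e : K → L} {D : Set K} {o : K} (ho : o ∈ D)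
    (h : ∀ u ∈ D, ∀ v ∈ D, (A * Aᵀ) (e u) (e v) = (B * Bᵀ) u v) (b : ℝ)
    {ψ : Bool → (K → ℝ) → ℝ} (hψ : ∀ s, Measurable (ψ s)) (hr : S3I.Reads D ψ) :
    mdl A (e o) b (fun s x => ψ s (x ∘ e)) = mdl B o b ψ := by
  rw [mdl_comp, ← S3I.mdl_pr _ o b ho hr, ← S3I.mdl_pr B o b ho hr]
  refine mdl_gram ?_ o b hψ
  ext u v
  rw [S3I.pr_gram, S3I.pr_gram]
  split_ifs with huv
  · exact h u huv.1 v huv.2
  · rfl

end model

section reads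
variable {J : Type} {T T' : Set (Ix n)} {G G' : Fj J (Ix n)}

lemma On.mono (h : On T G) (hT : T ⊆ T') : On T' G :=
  fun θ s x x' e => h θ s x x' fun u hu => e u (hT hu)
lemma On.inter (h : On T G) (h' : On T' G) : On (T ∩ T') G := fun θ s x x' e => by
  classical
  rw [h' θ s x (fun u => if u ∈ T then x' u else x u) fun u hu => by
    split_ifs with hT
    · exact e u ⟨hT, hu⟩
    · rfl]
  exact h θ s _ _ fun u hu => if_pos hu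
lemma On.mul (h : On T G) (h' : On T G') : On T (G * G') := fun θ s x x' e => by
  simp only [Pi.mul_apply, h θ s x x' e, h' θ s x x' e]
lemma On.sub (h : On T G) (h' : On T G') : On T (G - G') := fun θ s x x' e => by
  simp only [Pi.sub_apply, h θ s x x' e, h' θ s x x' e]
lemma On.gs (h : On T G) : On T (gs G) := fun θ s x x' e => by
  simp only [Nt.gs, h θ _ x x' e]
lemma on_co {u : Ix n} (hu : u ∈ T) : On T (co u : Fj J (Ix n)) := fun _ _ _ _ e => e u hu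
lemma on_zero : On T (0 : Fj J (Ix n)) := fun _ _ _ _ _ => rfl
lemma on_one : On T (1 : Fj J (Ix n)) := fun _ _ _ _ _ => rfl
lemma on_sp : On T (sp : Fj J (Ix n)) := fun _ _ _ _ _ => rfl
lemma on_th (h : 0 ∈ T) : On T (th (0 : Ix n)) := fun _ _ _ _ e => by simp only [th, e 0 h]
lemma On.lift {H : Fn (Ix n)} (h : On T H) : On T (lift F H) := fun θ => h _

lemma On.dx (h : On T G) (p : Ix n) : On T (dx p G) := fun θ s x x' e => by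
  have : (fun v => G θ s (x + v)) = fun v => G θ s (x' + v) :=
    funext fun v => h θ s _ _ fun u hu => by simp [e u hu]
  have h1 := fderiv_comp_add_left (𝕜 := ℝ) (f := G θ s) (x := 0) x
  have h2 := fderiv_comp_add_left (𝕜 := ℝ) (f := G θ s) (x := 0) x'
  rw [add_zero] at h1 h2
  rw [Nt.dx, Nt.dx, ← h1, ← h2, this]

lemma On.dx_zero (h : On T G) {p : Ix n} (hp : p ∉ T) : Nt.dx p G = 0 := by
  funext θ s x
  by_cases hd : DifferentiableAt ℝ (G θ s) x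
  · have h1 := hd.hasFDerivAt.hasLineDerivAt (Pi.single p 1)
    have h2 : (fun t : ℝ => G θ s (x + t • (Pi.single p 1 : Ix n → ℝ))) = fun _ => G θ s x :=
      funext fun t => h θ s _ _ fun u hu => by simp [(ne_of_mem_of_not_mem hu hp)]
    rw [HasLineDerivAt, h2] at h1
    exact h1.unique (hasDerivAt_const _ _)
  · simp [Nt.dx, fderiv_zero_of_not_differentiableAt hd]

lemma dx_zero (p : Ix n) : dx p (0 : Fj J (Ix n)) = 0 := (on_zero (T := ∅)).dx_zero (by simp)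

lemma On.ev {G : JL F n} (h : On T G) {X X' : Ix n → F.Vf} (e : ∀ u ∈ T, X u = X' u) :
    ev X G = ev X' G := funext fun _ => funext fun _ => h _ _ _ _ fun u hu => by rw [e u hu]

end reads

section sm
variable {φ ψ : PF m} {sg : Ix m → ℝ} {ε ε' : ℝ}

lemma sm_res (j : Ix m → Ix m') (h : Sm φ) : Sm (res j φ) := fun s =>
  (h s).clm ((ContinuousLinearMap.fst ℝ ℝ (Ix m' → ℝ)).prod (ContinuousLinearMap.pi fun t =>
    (ContinuousLinearMap.proj (j t)).comp (ContinuousLinearMap.snd ℝ ℝ (Ix m' → ℝ))))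

lemma sm_of_bs (hB : BsStmt) {H : Fn (Ix n)} (h : BS H) : Sm H := fun s k => (hB _).iter h k s

lemma bl_of_sm (h : Sm φ) : S3I.BL φ := by
  obtain ⟨B, hB0, hB⟩ := h.bd
  obtain ⟨C, hC0, hC⟩ := h.taylor
  refine ⟨B + C * (m + 1) + 1, by positivity, fun b s ξ => (hB b s ξ).trans ?_,
    fun b b' s ξ ξ' => (hC b' b s ξ' ξ).1.trans ?_⟩
  · have : 0 ≤ C * (m + 1) := by positivity
    linarith
  · have h1 : ∑ l, |ξ l - ξ' l| ≤ (m + 1) * Conc.en (ξ - ξ') := by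
      have := Finset.sum_le_card_nsmul Finset.univ (fun l => |ξ l - ξ' l|) _
        fun l _ => Conc.abs_le_en (ξ - ξ') l
      simpa using this
    have h2 := Conc.en_nonneg (ξ - ξ')
    have h3 := abs_nonneg (b - b')
    have h4 : (0 : ℝ) ≤ m := m.cast_nonneg
    have h5 := mul_le_mul_of_nonneg_left h1 hC0
    nlinarith [mul_nonneg hB0 h2, mul_nonneg hB0 h3, mul_nonneg (mul_nonneg hC0 h4) h3]

lemma Pr.res {sg' : Ix m' → ℝ} {j : Ix m → Ix m'} (h : Pr sg ε φ) (hs : ∀ t, sg' (j t) = sg t) :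
    Pr sg' ε (res j φ) := h.imp_right fun h b s ξ => by
  rw [Nt.res, Nt.res, ← h, show (sg' * ξ) ∘ j = sg * ξ ∘ j from funext fun t => by simp [hs]]
lemma Pr.add (h : Pr sg ε φ) (h' : Pr sg ε ψ) : Pr sg ε (φ + ψ) :=
  h.elim Or.inl fun h => h'.imp_right fun h' b s ξ => by simp only [Pi.add_apply, h, h', mul_add]
lemma Pr.mul (h : Pr sg ε φ) (h' : Pr sg ε' ψ) : Pr sg (ε * ε') (φ * ψ) :=
  h.elim (fun h => Or.inl (by simp [h])) fun h => h'.imp (fun h => by simp [h]) fun h' b s ξ => by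
    simp only [Pi.mul_apply, h, h']; ring
lemma Pr.gs (h : Pr sg ε φ) : Pr sg (-ε) (S3P.gs φ) := h.imp (by simp) fun h b s ξ => by
  have h1 := h b true ξ
  have h2 := h b false ξ
  simp only [Bool.not_true, Bool.not_false] at h1 h2
  simp only [S3P.gs, h1, h2]; ring
lemma Pr.pd (h : Pr sg ε φ) (hφ : Sm φ) {t : Ix m} (ht : sg t = -1) :
    Pr sg (-ε) (S3P.pd t φ) := h.imp (by simp) fun h b s ξ => by
  have h1 := ((hφ.diff b s ξ).hasFDerivAt.hasLineDerivAt (Pi.single t 1)).const_mul ε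
  have h2 := (hφ.diff (-b) (!s) (sg * ξ)).hasFDerivAt.hasLineDerivAt (-Pi.single t 1)
  have e : (fun τ : ℝ => φ (-b) (!s) (sg * ξ + τ • (-Pi.single t 1 : Ix m → ℝ))) =
      fun τ : ℝ => ε * φ b s (ξ + τ • (Pi.single t 1 : Ix m → ℝ)) := funext fun τ => by
    rw [← h]
    congr 1
    funext l
    rcases eq_or_ne l t with rfl | hl
    · simp [ht, mul_add]
    · simp [hl]
  rw [HasLineDerivAt, e] at h2
  have := h2.unique h1
  rw [map_neg] at this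
  simp only [S3P.pd]
  linarith

end sm

namespace Sta
variable {σ σ' σ'' : Sta F ν} {j : Ix σ.m → Ix σ'.m} {j' : Ix σ'.m → Ix σ''.m}
  {e : Ix n → Ix σ.m} {T T' D : Set (Ix n)} {G G' : JL F n} {φ ψ : PF σ.m} {ε ε' : ℝ}
  {N : Net n} {X : Ix n → F.Vf}

lemma Le.refl (σ : Sta F ν) : σ.Le σ id :=
  ⟨injective_id, rfl, fun _ => rfl, fun _ _ => rfl, fun _ => Iff.rfl, fun _ => rfl,
    fun _ _ => rfl, fun _ => rfl⟩
lemma Le.trans (h : σ.Le σ' j) (h' : σ'.Le σ'' j') : σ.Le σ'' (j' ∘ j) :=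
  ⟨h'.inj.comp h.inj, (congrArg j' h.zero).trans h'.zero, fun t => (h'.X _).trans (h.X t),
    fun θ t => (h'.cv θ _).trans (h.cv θ t), fun t => (h'.pm _).trans (h.pm t),
    fun t => (h'.sg _).trans (h.sg t), fun t t' => (h'.S _ _).trans (h.S t t'),
    fun t => (h'.f _).trans (by rw [h.f]; rfl)⟩
lemma Pe.refl (σ : Sta F ν) : σ.Pe σ id := fun t _ => ⟨t, rfl⟩
lemma Pe.trans (h : σ.Pe σ' j) (h' : σ'.Pe σ'' j') (hl : σ'.Le σ'' j') : σ.Pe σ'' (j' ∘ j) :=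
  fun t ht => by
    obtain ⟨t, rfl⟩ := h' t ht
    obtain ⟨t, rfl⟩ := h t fun h0 => ht ((hl.pm t).2 h0)
    exact ⟨t, rfl⟩

lemma X_par {t : Ix σ.m} (ht : t ∈ σ.Pm) (ω : F.Ω) (k : Fin (F.n ω.1)) :
    σ.X t ω k = σ.cv (.inl ⟨ω.1, k⟩) t := congrFun (σ.ok.X_par (σ.pm t ht) ω.2) k
lemma Eb_zero (σ : Sta F ν) : σ.Eb 0 = 0 := S3I.Eb_zero _ _ _
lemma S_eq (σ : Sta F ν) (t t' : Ix σ.m) : σ.S t t' = σ.Cv (σ.P.f t) (σ.P.f t') := σ.mod.S t t'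
lemma Cv_zero (σ : Sta F ν) (φ : PF σ.m) : σ.Cv 0 φ = 0 := by simp [Cv, Eb_zero]
lemma Cv_comm (σ : Sta F ν) (φ ψ : PF σ.m) : σ.Cv φ ψ = σ.Cv ψ φ := by
  simp only [Cv, mul_comm φ ψ, mul_comm (σ.Eb φ _)]
lemma S_par {t : Ix σ.m} (ht : t ∈ σ.Pm) (t' : Ix σ.m) : σ.S t t' = 0 := by
  rw [S_eq, σ.pm t ht, Cv_zero]
lemma cM_re {t : Ix σ.m} (ht : t ∉ σ.Pm) (b : ℝ) : σ.cM b t = 0 := by
  rw [σ.mod.c, (σ.re t ht).1, (σ.re t ht).2.1, S3I.Eb_zero]; simp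
lemma pr_f (σ : Sta F ν) (t : Ix σ.m) : Pr σ.sg (-1) (σ.P.f t) :=
  Or.inr fun b s ξ => by rw [σ.par.f, neg_one_mul]

lemma Ct.mono (h : σ.Ct e T G φ) (hT : T ⊆ T') : σ.Ct e T' G φ :=
  fun θ s η ξ h1 h2 => h θ s η ξ h1 fun u hu => h2 u (hT hu)
lemma Ct.congr {e' : Ix n → Ix σ.m} (h : σ.Ct e T G φ) (he : ∀ u ∈ T, e' u = e u) :
    σ.Ct e' T G φ := fun θ s η ξ h1 h2 => h θ s η ξ h1 fun u hu => by rw [h2 u hu, he u hu]
lemma Ct.le (h : σ.Ct e T G φ) (hl : σ.Le σ' j) : σ'.Ct (j ∘ e) T G (res j φ) :=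
  fun θ s η ξ h1 h2 => h θ s (η ∘ j) ξ (fun t ht => (h1 _ ((hl.pm t).2 ht)).trans (hl.cv θ t)) h2
lemma Ct.mul (h : σ.Ct e T G φ) (h' : σ.Ct e T G' ψ) : σ.Ct e T (G * G') (φ * ψ) :=
  fun θ s η ξ h1 h2 => by simp only [Pi.mul_apply, h θ s η ξ h1 h2, h' θ s η ξ h1 h2]
lemma Av.le (h : σ.Av e T ε G) (hl : σ.Le σ' j) : σ'.Av (j ∘ e) T ε G :=
  let ⟨_, h1, h2, h3⟩ := h; ⟨_, sm_res j h1, h2.res hl.sg, h3.le hl⟩
lemma Av.fa (h : σ.Av e T ε G) : σ.Fa e T ε G :=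
  fun σ' j hl => ⟨σ', id, .refl _, .refl _, h.le hl⟩
lemma Fa.le (h : σ.Fa e T ε G) (hl : σ.Le σ' j) : σ'.Fa (j ∘ e) T ε G :=
  fun σ'' j' hl' => h σ'' (j' ∘ j) (hl.trans hl')
lemma Fa.av (h : σ.Fa e T ε G) : ∃ σ' j, σ.Le σ' j ∧ σ.Pe σ' j ∧ σ'.Av (j ∘ e) T ε G :=
  h σ id (.refl _)
lemma Fa.imp (h : σ.Fa e T ε G)
    (H : ∀ σ' j, σ.Le σ' j → σ'.Av (j ∘ e) T ε G → σ'.Av (j ∘ e) T' ε' G') : σ.Fa e T' ε' G' :=
  fun σ' j hl => let ⟨σ'', j', h1, h2, h3⟩ := h σ' j hl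
    ⟨σ'', j', h1, h2, H σ'' (j' ∘ j) (hl.trans h1) h3⟩
lemma Fa.imp2 {G'' : JL F n} {ε'' : ℝ} (h : σ.Fa e T ε G) (h' : σ.Fa e T ε' G')
    (H : ∀ (σ' : Sta F ν) e', σ'.Av e' T ε G → σ'.Av e' T ε' G' → σ'.Av e' T ε'' G'') :
    σ.Fa e T ε'' G'' := fun σ' j hl => by
  obtain ⟨σ1, j1, h1, h2, h3⟩ := h σ' j hl
  obtain ⟨σ2, j2, k1, k2, k3⟩ := h' σ1 (j1 ∘ j) (hl.trans h1)
  exact ⟨σ2, j2 ∘ j1, h1.trans k1, h2.trans k2 k1, H σ2 _ (h3.le k1) k3⟩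
lemma Fa.congr {e' : Ix n → Ix σ.m} (h : σ.Fa e T ε G) (he : ∀ u ∈ T, e' u = e u) :
    σ.Fa e' T ε G := fun σ' j hl =>
  let ⟨σ'', j', h1, h2, φ, h3, h4, h5⟩ := h σ' j hl
  ⟨σ'', j', h1, h2, φ, h3, h4, h5.congr fun u hu => by simp only [Function.comp_apply, he u hu]⟩

lemma Fa.mono (h : σ.Fa e T ε G) (hT : T ⊆ T') : σ.Fa e T' ε G :=
  h.imp fun _ _ _ ⟨φ, h1, h2, h3⟩ => ⟨φ, h1, h2, h3.mono hT⟩
lemma Fa.weak (h : σ.Fa e T ε G) : σ.Fa e T 0 G :=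
  h.imp fun _ _ _ ⟨φ, h1, _, h3⟩ => ⟨φ, h1, Or.inl rfl, h3⟩
lemma Fa.add (h : σ.Fa e T ε G) (h' : σ.Fa e T ε G') : σ.Fa e T ε (G + G') :=
  h.imp2 h' fun _ _ ⟨φ, h1, h2, h3⟩ ⟨ψ, k1, k2, k3⟩ => ⟨φ + ψ, h1.add k1, h2.add k2,
    fun θ s η ξ a b => by simp only [Pi.add_apply, h3 θ s η ξ a b, k3 θ s η ξ a b]⟩
lemma Fa.mul (h : σ.Fa e T ε G) (h' : σ.Fa e T ε' G') : σ.Fa e T (ε * ε') (G * G') :=
  h.imp2 h' fun _ _ ⟨φ, h1, h2, h3⟩ ⟨ψ, k1, k2, k3⟩ => ⟨φ * ψ, h1.mul k1, h2.mul k2, h3.mul k3⟩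
lemma Fa.mul' {ε'' : ℝ} (h : σ.Fa e T ε G) (h' : σ.Fa e T ε' G') (hε : ε * ε' = ε'') :
    σ.Fa e T ε'' (G * G') := hε ▸ h.mul h'
lemma fa_const (c : ℝ) : σ.Fa e T 1 fun _ _ _ => c :=
  Av.fa ⟨_, .const c, Or.inr fun _ _ _ => (one_mul c).symm, fun _ _ _ _ _ _ => rfl⟩
lemma fa_one : σ.Fa e T 1 1 := fa_const 1
lemma fa_zero : σ.Fa e T ε 0 :=
  Av.fa ⟨0, .zero, Or.inr fun _ _ _ => (mul_zero ε).symm, fun _ _ _ _ _ _ => rfl⟩
lemma fa_sp : σ.Fa e T (-1) sp := Av.fa ⟨_, .spin' spin,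
  Or.inr fun _ s _ => (S3I.spin_not s).trans (neg_one_mul _).symm, fun _ _ _ _ _ _ => rfl⟩
lemma Fa.smul (h : σ.Fa e T ε G) (c : ℝ) : σ.Fa e T ε (c • G) := (fa_const c).mul' h (one_mul ε)
lemma Fa.neg (h : σ.Fa e T ε G) : σ.Fa e T ε (-G) := by simpa using h.smul (-1)
lemma Fa.sub (h : σ.Fa e T ε G) (h' : σ.Fa e T ε G') : σ.Fa e T ε (G - G') := by
  simpa only [sub_eq_add_neg] using h.add h'.neg
lemma Fa.sum {ι : Type*} (t : Finset ι) {G : ι → JL F n} (h : ∀ i ∈ t, σ.Fa e T ε (G i)) :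
    σ.Fa e T ε (∑ i ∈ t, G i) :=
  Finset.sum_induction G (σ.Fa e T ε) (fun _ _ => Fa.add) fa_zero h
lemma Fa.gs (h : σ.Fa e T ε G) : σ.Fa e T (-ε) (gs G) :=
  h.imp fun _ _ _ ⟨φ, h1, h2, h3⟩ => ⟨_, h1.gs, h2.gs, fun θ s η ξ a b => by
    simp only [S3P.gs, Nt.gs, h3 θ _ η ξ a b]⟩

open Classical in
/-- the point of the slice above `ξ` -/
def sec (σ : Sta F ν) (e : Ix n → Ix σ.m) (D : Set (Ix n)) (θ : Pt F) (ξ : Ix n → ℝ) :
    Ix σ.m → ℝ := fun t => if h : ∃ u ∈ D, e u = t then ξ h.choose else σ.cv θ t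

end Sta

open Sta

variable {σ σ' : Sta F ν} {j : Ix σ.m → Ix σ'.m} {e : Ix n → Ix σ.m} {T D : Set (Ix n)}
  {H : JL F n} {φ : PF σ.m} {ε : ℝ} {N : Net n} {X : Ix n → F.Vf}

lemma Bs.le (h : Bs N σ e D X) (hl : σ.Le σ' j) : Bs N σ' (j ∘ e) D X :=
  ⟨h.z, (congrArg j h.e0).trans hl.zero, hl.inj.comp_injOn h.inj,
    fun u hu h0 => h.re u hu ((hl.pm _).1 h0), fun u hu v hv => (hl.S _ _).trans (h.S u hu v hv),
    fun u hu => (h.X u hu).trans (hl.X _).symm⟩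

lemma Bs.eq (h : Bs N σ e D X) (hT : T ⊆ D) (hc : σ.Ct e T H φ) (θ : Pt F) (s : Bool)
    (ξ : Ix n → ℝ) : H θ s ξ = φ (bv F θ) s (σ.sec e D θ ξ) := by
  refine (hc θ s _ ξ (fun t ht => dif_neg ?_) fun u hu => ?_).symm
  · rintro ⟨u, hu, rfl⟩
    exact h.re u hu ht
  · have h1 : ∃ v ∈ D, e v = e u := ⟨u, hT hu, rfl⟩
    rw [sec, dif_pos h1, h.inj h1.choose_spec.1 (hT hu) h1.choose_spec.2]

lemma diff_sec (θ : Pt F) : Differentiable ℝ (σ.sec e D θ) := differentiable_pi.2 fun t => by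
  unfold sec
  split_ifs
  · exact differentiable_apply _
  · exact differentiable_const _

lemma Bs.diff (h : Bs N σ e D X) (hT : T ⊆ D) (hφ : Sm φ) (hc : σ.Ct e T H φ) (θ : Pt F)
    (s : Bool) : Differentiable ℝ (H θ s) := by
  rw [show H θ s = _ from funext (h.eq hT hc θ s)]
  exact (hφ.diff _ s).comp (diff_sec θ)

lemma Bs.on (h : Bs N σ e D X) (hT : T ⊆ D) (hc : σ.Ct e T H φ) : On T H := fun θ s x x' a => by
  rw [h.eq hT hc θ s x]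
  refine hc θ s _ x' (fun t ht => dif_neg ?_) fun u hu => ?_
  · rintro ⟨u, hu, rfl⟩
    exact h.re u hu ht
  · have h1 : ∃ v ∈ D, e v = e u := ⟨u, hT hu, rfl⟩
    rw [sec, dif_pos h1, h.inj h1.choose_spec.1 (hT hu) h1.choose_spec.2, a u hu]

lemma Bs.ev (h : Bs N σ e D X) (hT : T ⊆ D) (hc : σ.Ct e T H φ) : ev X H = σ.e φ :=
  funext fun ω => funext fun k => (hc (.inl ⟨ω.1, k⟩) (ω.2 k) (fun t => σ.X t ω k) _
    (fun t ht => X_par ht ω k) fun u hu => by rw [h.X u (hT hu)]).symm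

lemma Bs.eb (h : Bs N σ e D X) (hT : T ⊆ D) (hφ : Sm φ) (hc : σ.Ct e T H φ) (b : ℝ) :
    σ.Eb φ b = N.E (md H) b := by
  refine (S3I.mdl_congr_rows σ.M 0 b (ψ := fun s x => φ b s (x + σ.cM b))
    (ψ' := fun s x => md H b s (x ∘ e)) fun s x hx => ?_).trans ?_
  · refine hc (.inr b) s _ _ (fun t ht => ?_) fun u hu => ?_
    · rw [Pi.add_apply, hx t (S_par ht t), zero_add]; rfl
    · rw [Pi.add_apply, cM_re (h.re u (hT hu)), add_zero]; rfl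
  · rw [← h.e0]
    exact mdl_res h.z h.S b (fun s => (h.diff hT hφ hc _ s).continuous.measurable)
      ((h.on hT hc).mono hT _)

lemma Bs.dx (h : Bs N σ e D X) (hφ : Sm φ) (hc : σ.Ct e T H φ) (hT : T ⊆ D) {p : Ix n}
    (hp : p ∈ D) {T' : Set (Ix n)} (h1 : T ⊆ T') (h2 : T' ⊆ D) (h3 : p ∈ T') :
    σ.Ct e T' (dx p H) (S3P.pd (e p) φ) := fun θ s η ξ a b => by
  have k1 := (hφ.diff (bv F θ) s η).hasFDerivAt.hasLineDerivAt (Pi.single (e p) 1)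
  have k2 := (h.diff hT hφ hc θ s ξ).hasFDerivAt.hasLineDerivAt (Pi.single p 1)
  have k3 : (fun τ : ℝ => φ (bv F θ) s (η + τ • (Pi.single (e p) 1 : Ix σ.m → ℝ))) =
      fun τ : ℝ => H θ s (ξ + τ • (Pi.single p 1 : Ix n → ℝ)) := funext fun τ =>
    hc θ s _ _ (fun t ht => by simp [ne_of_mem_of_not_mem ht (h.re p hp), a t ht]) fun u hu => by
      simp [Pi.single_apply, b u (h1 hu), h.inj.eq_iff (hT hu) hp]
  rw [HasLineDerivAt, k3] at k1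
  exact k1.unique k2

lemma Bs.fa_on (h : Bs N σ e D X) (hT : T ⊆ D) (hH : σ.Fa e T ε H) : On T H :=
  let ⟨_, _, hl, _, _, _, _, hc⟩ := hH.av; (h.le hl).on hT hc
lemma Bs.fa_diff (h : Bs N σ e D X) (hT : T ⊆ D) (hH : σ.Fa e T ε H) (θ : Pt F) (s : Bool) :
    Differentiable ℝ (H θ s) :=
  let ⟨_, _, hl, _, _, hφ, _, hc⟩ := hH.av; (h.le hl).diff hT hφ hc θ s
lemma Bs.fa_bd (h : Bs N σ e D X) (hT : T ⊆ D) (hH : σ.Fa e T ε H) :
    ∃ C, ∀ θ s x, |H θ s x| ≤ C := by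
  obtain ⟨_, _, hl, _, _, hφ, _, hc⟩ := hH.av
  obtain ⟨C, -, hC⟩ := hφ.bd
  exact ⟨C, fun θ s x => by rw [(h.le hl).eq hT hc]; exact hC _ _ _⟩
lemma Bs.fa_dx (h : Bs N σ e D X) (hT : T ⊆ D) (hH : σ.Fa e T ε H) (p : Ix n) :
    σ.Fa e T (-ε) (Nt.dx p H) := by
  by_cases hp : p ∈ T
  · exact hH.imp fun σ' j hl ⟨φ, h1, h2, h3⟩ => ⟨_, h1.pd _, h2.pd h1
      (σ'.re _ ((h.le hl).re p (hT hp))).2.2, (h.le hl).dx h1 h3 hT (hT hp) le_rfl hT hp⟩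
  · rw [(h.fa_on hT hH).dx_zero hp]; exact fa_zero
lemma Bs.fa_lift (hB : BsStmt) (h : Bs N σ e D X) (hT : T ⊆ D) {H : Fn (Ix n)} (hb : BS H)
    (ho : On T H) (hp : ε = 0 ∨ rf H = ε • H) : σ.Fa e T ε (lift F H) :=
  Av.fa ⟨res e H, sm_res e (sm_of_bs hB hb), hp.imp_right fun hp b s ξ =>
    (ho _ _ _ (-(ξ ∘ e)) fun u hu => by simp [(σ.re _ (h.re u (hT hu))).2.2]).trans
      (congrFun (congrFun (congrFun hp b) s) (ξ ∘ e)),
    fun θ s η ξ _ a => ho _ _ _ _ fun u hu => (a u hu).symm⟩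

end Crest.Agent.T157.S3R

end
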