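import Crest.Agent.T157.S3RB_52

/-! S3, realisation (helper52): the field equations and the pairing constants. -/

set_option autoImplicit false
set_option linter.unusedVariables false

noncomputable section

namespace Crest.Agent.T157.S3R

open MeasureTheory Matrix Set Function Sta
open Crest.Agent.T157.S3 (Fam)
open Crest.Agent.T157.S3P (PF Prog Sm bF)
open Crest.Agent.T157.Nt (Fj Fn Ix BS dx gs sp co cb res th rf Ev Net BsStmt FactStmt)

variable {F : Fam} {ν : Measure ℝ} {n : ℕ} {σ : Sta F ν} {e : Ix n → Ix σ.m} {D : Set (Ix n)}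
  {N : Net n} {X : Ix n → F.Vf} {G : Ix n → JL F n} {π : Ix n → Ix n → F.I → ℝ}

lemma me_zero : F.me (ev X 0) = 0 := funext fun i => by
  simp [Fam.me, Fam.E, ev, Uw.eta, E.mean]
lemma E_zero (b : ℝ) : N.E 0 b = 0 := S3I.mdl_const N.A 0 b 0
lemma Ev_zero : Ev ν N.A 0 0 = 0 := by
  have : Nt.Eb N.A 0 0 = 0 := funext fun b => E_zero b
  simp [Ev, this]
lemma jc_zero : (jc 0 0 : JL F n) = 0 := by funext θ s x; cases θ <;> rfl
lemma jme_zero : (jc (F.me (ev X 0)) (F.β ^ 2 * Ev ν N.A 0 (md (0 : JL F n))) : JL F n) = 0 := by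
  rw [me_zero, show md (0 : JL F n) = 0 from rfl, Ev_zero, mul_zero, jc_zero]
lemma rf_th : rf (th (0 : Ix n)) = (-1 : ℝ) • th 0 := by
  funext b s x
  simp only [rf, th, Pi.neg_apply, ← neg_add, Real.tanh_neg, Pi.smul_apply, smul_eq_mul,
    neg_one_mul]

lemma Rp.fa (h : Rp N σ e D X G π) {u : Ix n} (hu : u ∈ D) : σ.Fa e (D ∩ Iio u) (-1) (G u) :=
  Av.fa ⟨_, σ.ok.sf _, σ.pr_f _, h.ct u hu⟩
lemma Rp.on (h : Rp N σ e D X G π) {u : Ix n} (hu : u ∈ D) : On (D ∩ Iio u) (G u) :=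
  h.bs.on inter_subset_left (h.ct u hu)
lemma Rp.ev (h : Rp N σ e D X G π) {u : Ix n} (hu : u ∈ D) : ev X (G u) = σ.e (σ.P.f (e u)) :=
  h.bs.ev inter_subset_left (h.ct u hu)
lemma Rp.G0 (h : Rp N σ e D X G π) : G 0 = sp := by
  funext θ s x
  rw [h.bs.eq inter_subset_left (h.ct 0 h.bs.z), h.bs.e0, σ.ok.f0]; rfl
lemma Bs.X0 (h : Bs N σ e D X) (ω : F.Ω) :
    X 0 ω = S3.hf (F.J ω.1) (F.y ω.1) ω.2 - bi F ω.1 := by
  rw [h.X 0 h.z, h.e0]; exact σ.ok.X0 ω.2
lemma Bs.tau (h : Bs N σ e D X) : S3R.ev X (sp - lift F (th 0)) = F.τ := by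
  funext ω k
  change _ - Real.tanh (bi F ω.1 k + X 0 ω k) = _
  rw [h.X0, Pi.sub_apply, add_sub_cancel]; rfl

/-- the recursion -/
theorem Rp.X_eq (h : Rp N σ e D X G π) {v : Ix n} (hv : v ∈ D) : ∃ κ : F.Df, ∀ ω, X v ω =
    F.J ω.1 *ᵥ S3R.ev X (G v) ω -
      ∑ m, F.me (S3R.ev X (dx m (G v))) ω.1 • S3R.ev X (G m) ω - κ ω.1 := by
  classical
  refine ⟨fun i => σ.P.κ (F.s i) (F.J i) (F.y i) (e v), fun ω => ?_⟩
  rw [h.bs.X v hv, h.ev hv]
  refine (σ.ok.X_eq (e v) ω.2).trans ?_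
  congr 2
  rw [← Finset.sum_subset (Finset.filter_subset (· ∈ D) Finset.univ) fun m _ hm => by
    rw [(h.on hv).dx_zero fun h0 => hm (by simpa using h0.1), me_zero]; exact zero_smul _ _]
  refine (Finset.sum_of_injOn e (h.bs.inj.mono fun m hm => by simpa using hm)
    (fun _ _ => Finset.mem_univ _) (fun t _ ht => ?_) fun m hm => ?_).symm
  · rw [σ.pm t (by_contra fun h0 => let ⟨u, hu, e⟩ := h.sur t h0; ht ⟨u, by simpa using hu, e⟩)]
    exact smul_zero _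
  · have hm : m ∈ D := by simpa using hm
    rw [h.ev hm, h.bs.ev le_rfl
      (h.bs.dx (σ.ok.sf _) (h.ct v hv) inter_subset_left hm inter_subset_left le_rfl hm)]
    rfl

/-- the centring -/
theorem Rp.mean_X (h : Rp N σ e D X G π) {v : Ix n} (hv : v ∈ D) (c : ℝ → ℝ) (i : F.I) :
    F.EV (X v) i = F.me (S3R.ev X (G v * (sp - jv (F.EV (S3R.ev X sp)) c))) i •
      F.EV (S3R.ev X sp) i := by
  have hw := Pl.wt_ising (F.J i) (F.y i)
  have h1 : σ.P.c (F.s i) (F.J i) (F.y i) (e v) = 0 := by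
    ext k
    simp [Prog.c, S3P.cc, (σ.re _ (h.bs.re v hv)).1, (σ.re _ (h.bs.re v hv)).2.1, S3P.me_zero,
      S3P.eP, E.meanV, E.mean]
  have h2 : S3R.ev X (G v * (sp - jv (F.EV (S3R.ev X sp)) c)) = fun ω k =>
      σ.e (σ.P.f (e v)) ω k * (E.sv ω.2 k - E.mag (F.w ω.1) k) := by
    rw [← h.ev hv]; rfl
  have h3 : σ.P.S (F.s i) (F.J i) (F.y i) (e v) 0 = F.s i ^ 2 * ∑ k, E.cov (E.ising (F.J i) (F.y i))
      (fun x => σ.e (σ.P.f (e v)) ⟨i, x⟩ k)
      fun x => σ.P.e (F.s i) (F.J i) (F.y i) (σ.P.f 0) x k := rfl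
  have h4 : ∀ u : F.Vf, F.me u i =
      E.mean (E.ising (F.J i) (F.y i)) fun x => F.s i ^ 2 * ∑ k, u ⟨i, x⟩ k := fun _ => rfl
  have h5 : F.EV (S3R.ev X sp) i = E.mag (E.ising (F.J i) (F.y i)) := rfl
  have h6 : F.EV (σ.X (e v)) i = _ := σ.ok.mean_X (s := F.s i) (J := F.J i) (y := F.y i) (e v)
  rw [h.bs.X v hv, h2, h4, h5, h6, h1, add_zero, h3, σ.ok.e0, SL.mean_const_mul]
  congr 2
  generalize σ.e (σ.P.f (e v)) = u
  refine Eq.trans (Finset.sum_congr rfl fun k _ => ?_) (SL.mean_sum _ _ fun (k : Fin (F.n i)) x =>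
    u ⟨i, x⟩ k * (E.sv x k - E.mag (E.ising (F.J i) (F.y i)) k)).symm
  rw [S3I.cov_eq hw]
  simp only [mul_sub, SL.mean_sub, mul_comm _ (E.mag _ k), SL.mean_const_mul]
  rw [mul_comm (E.mean _ _)]
  rfl

theorem piOf (hB : BsStmt) (hF : FactStmt) (hP : ParStmt) : PiStmt := by
  intro F ν _ n N σ e D X G π hN h v
  induction v using WellFoundedLT.induction with
  | ind v ih =>
  intro hv hd p hp
  have hp' := (h.fa hp).mono inter_subset_left
  have key : (jc (π v p) (N.S v p) : JL F n) =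
      jc (F.me (ev X (lift F (N.al v) * (1 - sp * lift F (th 0)) * gs (G p))))
        (F.β ^ 2 * Ev ν N.A 0 (md (lift F (N.al v) * (1 - sp * lift F (th 0)) * gs (G p)))) +
      ∑ q, ∑ r, jc (F.me (ev X (lift F (N.a v q) * dx r (G p))))
        (F.β ^ 2 * Ev ν N.A 0 (md (lift F (N.a v q) * dx r (G p)))) * jc (π q r) (N.S q r) := by
    funext θ s x
    simp only [Pi.add_apply, Finset.sum_apply, Pi.mul_apply]
    cases θ with
    | inl θ => exact congrFun (h.pi v hv p hp) θ.1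
    | inr b =>
      refine (((hF _ ν n N hN).2.1 v hd).2 p).trans ?_
      rw [Nt.pair, ← h.md p hp, mul_add, Finset.mul_sum]
      simp only [Finset.mul_sum, ← mul_assoc]
      rfl
  rw [key]
  refine ((hP F ν n N σ e D X h.bs D le_rfl _).1 ?_).add (Fa.sum _ fun q _ => Fa.sum _ fun r _ => ?_)
  · exact ((h.bs.fa_lift hB le_rfl (hN.fl v).bal (h.cl v hv).1
      (Or.inr ((hN.ev v).1.trans (one_smul ℝ _).symm))).mul' (fa_one.sub (fa_sp.mul'
        (h.bs.fa_lift hB le_rfl ((hB _).th0 0) (on_th h.bs.z) (Or.inr rf_th)) (by norm_num)))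
        (one_mul 1)).mul' hp'.gs (by norm_num)
  · by_cases h0 : N.a v q = 0 ∨ r ∉ D
    · have : lift F (N.a v q) * dx r (G p) = 0 := by
        rcases h0 with h0 | h0
        · rw [h0]; exact zero_mul _
        · rw [((h.on hp).mono inter_subset_left).dx_zero h0, mul_zero]
      rw [this, jme_zero, zero_mul]
      exact fa_zero
    · rw [not_or, not_not] at h0
      exact ((hP F ν n N σ e D X h.bs D le_rfl _).1 ((h.bs.fa_lift hB le_rfl ((hN.fl v).ba q).1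
        ((h.cl v hv).2 q).1 (Or.inr (((hN.ev v).2 q).trans (one_smul ℝ _).symm))).mul'
        (h.bs.fa_dx le_rfl hp' r) (by norm_num))).mul'
        (ih q (lt_of_not_ge fun h1 => h0.1 (hN.tri v q h1))
          (by_contra fun h1 => h0.1 (((h.cl v hv).2 q).2 h1))
          (by_contra fun h1 => h0.1 ((hN.fl v).nd q h1)) r h0.2) (one_mul 1)

end Crest.Agent.T157.S3R

end
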