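import Crest.Agent.T157.RecB_77
import Crest.Agent.T157.EigN_84

/-!
# Row 157, part B, block S3 (helper78): Jacobian calculus on the cube, the smooth clip

`dM u x` is the Jacobian of a vector field on the cube, `fro` the Frobenius norm, `clip η` a
`C^{1,1}` function which is the identity on `[-η, η]` and bounded by `2 η`.
-/

set_option autoImplicit false
set_option linter.unusedSectionVars false

noncomputable section

namespace Crest.Agent.T157.S3.Rg

open Matrix Finset
open Crest.Agent.T157.E Crest.Agent.T157.Eig Crest.Agent.T157.Rec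

section mat
variable {ι : Type*} [Fintype ι] [DecidableEq ι]

/-- Frobenius norm -/
def fro (A : Matrix ι ι ℝ) : ℝ := nrm fun p : ι × ι => A p.1 p.2

lemma fro_nonneg (A : Matrix ι ι ℝ) : 0 ≤ fro A := nrm_nonneg _

lemma nrm_sq' (v : ι → ℝ) : nrm v ^ 2 = ∑ i, v i ^ 2 := by
  rw [nrm_sq]; simp only [dotProduct, sq]

lemma fro_sq (A : Matrix ι ι ℝ) : fro A ^ 2 = ∑ i, ∑ j, A i j ^ 2 := by
  rw [fro, nrm_sq', Fintype.sum_prod_type]

lemma nrm_le_of_sq {v : ι → ℝ} {c : ℝ} (hc : 0 ≤ c) (h : ∑ i, v i ^ 2 ≤ c ^ 2) : nrm v ≤ c := by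
  rw [← nrm_sq'] at h; exact (pow_le_pow_iff_left₀ (nrm_nonneg _) hc two_ne_zero).1 h

lemma fro_le_of_sq {A : Matrix ι ι ℝ} {c : ℝ} (hc : 0 ≤ c) (h : ∑ i, ∑ j, A i j ^ 2 ≤ c ^ 2) :
    fro A ≤ c := by
  rw [← fro_sq] at h; exact (pow_le_pow_iff_left₀ (fro_nonneg _) hc two_ne_zero).1 h

lemma fro_add_le (A B : Matrix ι ι ℝ) : fro (A + B) ≤ fro A + fro B :=
  nrm_add_le (fun p : ι × ι => A p.1 p.2) fun p : ι × ι => B p.1 p.2

lemma fro_sub_le (A B : Matrix ι ι ℝ) : fro (A - B) ≤ fro A + fro B :=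
  nrm_sub_le (fun p : ι × ι => A p.1 p.2) fun p : ι × ι => B p.1 p.2

lemma fro_smul (c : ℝ) (A : Matrix ι ι ℝ) : fro (c • A) = |c| * fro A :=
  nrm_smul c fun p : ι × ι => A p.1 p.2

lemma nrm_zero : nrm (0 : ι → ℝ) = 0 := nrm_eq_zero.2 rfl

lemma fro_zero : fro (0 : Matrix ι ι ℝ) = 0 := nrm_eq_zero.2 rfl

lemma nrm_sum_le {σ : Type*} (t : Finset σ) (v : σ → ι → ℝ) :
    nrm (∑ j ∈ t, v j) ≤ ∑ j ∈ t, nrm (v j) := by
  classical
  induction t using Finset.induction_on with
  | empty => simp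
  | insert a s ha ih =>
    rw [sum_insert ha, sum_insert ha]; exact (nrm_add_le _ _).trans (by linarith)

lemma fro_sum_le {σ : Type*} (t : Finset σ) (v : σ → Matrix ι ι ℝ) :
    fro (∑ j ∈ t, v j) ≤ ∑ j ∈ t, fro (v j) := by
  classical
  induction t using Finset.induction_on with
  | empty => simp [fro_zero]
  | insert a s ha ih =>
    rw [sum_insert ha, sum_insert ha]; exact (fro_add_le _ _).trans (by linarith)

lemma nrm_mono {u v : ι → ℝ} {c : ℝ} (hc : 0 ≤ c) (h : ∀ i, |u i| ≤ c * |v i|) :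
    nrm u ≤ c * nrm v := by
  refine nrm_le_of_sq (mul_nonneg hc (nrm_nonneg _)) ?_
  rw [mul_pow, nrm_sq', mul_sum]
  refine sum_le_sum fun i _ => ?_
  rw [← sq_abs (u i), ← sq_abs (v i), ← mul_pow]
  exact pow_le_pow_left₀ (abs_nonneg _) (h i) 2

lemma fro_mono {A B : Matrix ι ι ℝ} {c : ℝ} (hc : 0 ≤ c) (h : ∀ i j, |A i j| ≤ c * |B i j|) :
    fro A ≤ c * fro B := nrm_mono hc fun p => h p.1 p.2

lemma col_le (A : Matrix ι ι ℝ) (j : ι) : ∑ k, A k j ^ 2 ≤ opn A ^ 2 := by
  have h := nrm_mulVec_le A (Pi.single j 1)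
  rw [nrm_single, mul_one, mulVec_single_one] at h
  have h2 := pow_le_pow_left₀ (nrm_nonneg _) h 2
  rwa [nrm_sq'] at h2

lemma row_le (A : Matrix ι ι ℝ) (k : ι) : ∑ j, A k j ^ 2 ≤ opn A ^ 2 := by
  have := col_le Aᵀ k
  rwa [opn_transpose] at this

lemma fro_transpose (A : Matrix ι ι ℝ) : fro Aᵀ = fro A := by
  have h : fro Aᵀ ^ 2 = fro A ^ 2 := by rw [fro_sq, fro_sq, sum_comm]; rfl
  exact (pow_left_inj₀ (fro_nonneg _) (fro_nonneg _) two_ne_zero).1 h

lemma fro_mul_le (J A : Matrix ι ι ℝ) : fro (J * A) ≤ opn J * fro A := by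
  refine fro_le_of_sq (mul_nonneg (opn_nonneg _) (fro_nonneg _)) ?_
  rw [mul_pow, fro_sq, sum_comm, sum_comm (f := fun i j => A i j ^ 2), mul_sum]
  refine sum_le_sum fun j _ => ?_
  have h := pow_le_pow_left₀ (nrm_nonneg _) (nrm_mulVec_le J fun k => A k j) 2
  rw [mul_pow, nrm_sq', nrm_sq'] at h
  exact h

lemma fro_mul_le' (A J : Matrix ι ι ℝ) : fro (A * J) ≤ fro A * opn J := by
  rw [← fro_transpose, transpose_mul, mul_comm (fro A), ← opn_transpose J, ← fro_transpose A]
  exact fro_mul_le _ _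

/-- rows weighted by a vector -/
lemma fro_rows {R A : Matrix ι ι ℝ} {v : ι → ℝ} (h : ∀ k j, |R k j| ≤ |v k| * |A k j|) :
    fro R ≤ nrm v * opn A := by
  refine fro_le_of_sq (mul_nonneg (nrm_nonneg _) (opn_nonneg _)) ?_
  rw [mul_pow, nrm_sq', sum_mul]
  refine sum_le_sum fun k _ => ?_
  refine le_trans ?_ (mul_le_mul_of_nonneg_left (row_le A k) (sq_nonneg (v k)))
  rw [mul_sum]
  refine sum_le_sum fun j _ => ?_
  rw [← sq_abs (R k j), ← sq_abs (v k), ← sq_abs (A k j), ← mul_pow]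
  exact pow_le_pow_left₀ (abs_nonneg _) (h k j) 2

/-- Hadamard products -/
lemma had {R X Y : Matrix ι ι ℝ} {c : ℝ} (hc : 0 ≤ c)
    (h : ∀ k j, |R k j| ≤ c * (|X k j| * |Y k j|)) : opn R ≤ c * (opn X * opn Y) := by
  refine opn_le_of_bil (mul_nonneg hc (mul_nonneg (opn_nonneg _) (opn_nonneg _))) fun u v => ?_
  have h1 : fro (of fun k j => |u k| * |X k j|) ≤ nrm u * opn X :=
    fro_rows fun k j => by simp [abs_mul]
  have h2 : fro (of fun k j => |v j| * |Y k j|) ≤ nrm v * opn Y := by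
    rw [← fro_transpose, ← opn_transpose Y]
    exact fro_rows fun k j => by simp [abs_mul]
  have h3 := dot_le (fun p : ι × ι => |u p.1| * |X p.1 p.2|) fun p : ι × ι => |v p.2| * |Y p.1 p.2|
  have h4 : u ⬝ᵥ R *ᵥ v ≤ c * ((fun p : ι × ι => |u p.1| * |X p.1 p.2|) ⬝ᵥ
      fun p : ι × ι => |v p.2| * |Y p.1 p.2|) := by
    simp only [dotProduct, mulVec, Fintype.sum_prod_type, mul_sum]
    refine sum_le_sum fun k _ => sum_le_sum fun j _ => ?_
    calc u k * (R k j * v j) ≤ |u k * (R k j * v j)| := le_abs_self _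
      _ = |u k| * |v j| * |R k j| := by rw [abs_mul, abs_mul]; ring
      _ ≤ |u k| * |v j| * (c * (|X k j| * |Y k j|)) :=
          mul_le_mul_of_nonneg_left (h k j) (by positivity)
      _ = _ := by ring
  have h5 := mul_le_mul h1 h2 (fro_nonneg _) (mul_nonneg (nrm_nonneg _) (opn_nonneg _))
  calc _ ≤ _ := h4
    _ ≤ c * (nrm u * opn X * (nrm v * opn Y)) := mul_le_mul_of_nonneg_left (h3.trans h5) hc
    _ = _ := by ring

/-- column sums of a Hadamard product -/
lemma nrm_colsum {R X Y : Matrix ι ι ℝ} {c : ℝ} (hc : 0 ≤ c)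
    (h : ∀ k j, |R k j| ≤ c * (|X k j| * |Y k j|)) :
    nrm (fun j => ∑ k, R k j) ≤ c * (opn X * fro Y) := by
  refine nrm_le_of_sq (mul_nonneg hc (mul_nonneg (opn_nonneg _) (fro_nonneg _))) ?_
  rw [mul_pow, mul_pow, fro_sq, sum_comm (f := fun i j => Y i j ^ 2), mul_sum, mul_sum]
  refine sum_le_sum fun j _ => ?_
  have h1 : |∑ k, R k j| ≤ c * ∑ k, |X k j| * |Y k j| := by
    rw [mul_sum]; exact (abs_sum_le_sum_abs _ _).trans (sum_le_sum fun k _ => h k j)
  have h2 := sum_mul_sq_le_sq_mul_sq univ (fun k => |X k j|) fun k => |Y k j|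
  simp only [sq_abs] at h2
  have h3 := mul_le_mul_of_nonneg_right (col_le X j)
    (sum_nonneg fun k (_ : k ∈ univ) => sq_nonneg (Y k j))
  have h4 := pow_le_pow_left₀ (abs_nonneg _) h1 2
  rw [sq_abs, mul_pow] at h4
  exact h4.trans (mul_le_mul_of_nonneg_left (h2.trans h3) (sq_nonneg c))

lemma nrm_le_sqrt {v : ι → ℝ} {c : ℝ} (hc : 0 ≤ c) (h : ∀ i, |v i| ≤ c) :
    nrm v ≤ c * √(Fintype.card ι) := by
  refine nrm_le_of_sq (by positivity) ?_
  rw [mul_pow, Real.sq_sqrt (Nat.cast_nonneg _)]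
  calc ∑ i, v i ^ 2 ≤ ∑ _i : ι, c ^ 2 := sum_le_sum fun i _ => by
        rw [← sq_abs]; exact pow_le_pow_left₀ (abs_nonneg _) (h i) 2
    _ = _ := by simp [mul_comm]

end mat

/-! ### the clip -/

/-- square of the positive part -/
def pq (x : ℝ) : ℝ := max x 0 ^ 2

lemma pq_taylor (x y : ℝ) : 0 ≤ pq y - pq x - 2 * max x 0 * (y - x) ∧
    pq y - pq x - 2 * max x 0 * (y - x) ≤ (y - x) ^ 2 := by
  unfold pq
  rcases le_total 0 x with hx | hx <;> rcases le_total 0 y with hy | hy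
  · rw [max_eq_left hx, max_eq_left hy]; constructor <;> nlinarith [sq_nonneg (y - x)]
  · rw [max_eq_left hx, max_eq_right hy]
    constructor <;> nlinarith [mul_nonneg hx (neg_nonneg.2 hy), sq_nonneg x, sq_nonneg y]
  · rw [max_eq_right hx, max_eq_left hy]
    constructor <;> nlinarith [mul_nonneg hy (neg_nonneg.2 hx), sq_nonneg x, sq_nonneg y]
  · rw [max_eq_right hx, max_eq_right hy]; constructor <;> nlinarith [sq_nonneg (y - x)]

/-- the clip -/
def clip (η x : ℝ) : ℝ :=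
  x - (pq (x - η) - pq (x - 3 * η)) / (4 * η) + (pq (-x - η) - pq (-x - 3 * η)) / (4 * η)
/-- its derivative -/
def clip' (η x : ℝ) : ℝ :=
  1 - (max (x - η) 0 - max (x - 3 * η) 0) / (2 * η) - (max (-x - η) 0 - max (-x - 3 * η) 0) / (2 * η)

variable {η : ℝ}

lemma clip_taylor (hη : 0 < η) (x y : ℝ) :
    |clip η y - clip η x - clip' η x * (y - x)| ≤ (y - x) ^ 2 / (2 * η) := by
  obtain ⟨a1, a2⟩ := pq_taylor (x - η) (y - η)
  obtain ⟨b1, b2⟩ := pq_taylor (x - 3 * η) (y - 3 * η)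
  obtain ⟨c1, c2⟩ := pq_taylor (-x - η) (-y - η)
  obtain ⟨d1, d2⟩ := pq_taylor (-x - 3 * η) (-y - 3 * η)
  have e : clip η y - clip η x - clip' η x * (y - x) =
      (-(pq (y - η) - pq (x - η) - 2 * max (x - η) 0 * (y - η - (x - η))) +
        (pq (y - 3 * η) - pq (x - 3 * η) - 2 * max (x - 3 * η) 0 * (y - 3 * η - (x - 3 * η))) +
        (pq (-y - η) - pq (-x - η) - 2 * max (-x - η) 0 * (-y - η - (-x - η))) -
        (pq (-y - 3 * η) - pq (-x - 3 * η) -
          2 * max (-x - 3 * η) 0 * (-y - 3 * η - (-x - 3 * η)))) / (4 * η) := by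
    unfold clip clip'; field_simp; ring
  have e2 : (y - x) ^ 2 / (2 * η) = 2 * (y - x) ^ 2 / (4 * η) := by field_simp; ring
  rw [e, e2, abs_div, abs_of_pos (by positivity : 0 < 4 * η)]
  refine div_le_div_of_nonneg_right (abs_le.2 ⟨?_, ?_⟩) (by positivity) <;> nlinarith

lemma clip'_mem (hη : 0 < η) (x : ℝ) : 0 ≤ clip' η x ∧ clip' η x ≤ 1 := by
  have e : clip' η x = (2 * η - (max (x - η) 0 - max (x - 3 * η) 0) -
      (max (-x - η) 0 - max (-x - 3 * η) 0)) / (2 * η) := by
    unfold clip'; field_simp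
  rw [e, div_le_one (by positivity), le_div_iff₀ (by positivity)]
  constructor <;> simp only [max_def] <;> split_ifs <;> linarith

lemma clip_eq (hη : 0 < η) (x : ℝ) : 4 * η * clip η x =
    4 * η * x - (pq (x - η) - pq (x - 3 * η)) + (pq (-x - η) - pq (-x - 3 * η)) := by
  unfold clip; field_simp

lemma clip_neg (x : ℝ) : clip η (-x) = -clip η x := by
  unfold clip; simp only [neg_neg]; ring

lemma clip_pos (hη : 0 < η) {x : ℝ} (hx : 0 ≤ x) :
    0 ≤ clip η x ∧ clip η x ≤ 2 * η ∧ clip η x ≤ x ∧ x - clip η x ≤ max (x - η) 0 := by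
  have e := clip_eq hη x
  unfold pq at e
  rw [max_eq_right (by linarith : -x - η ≤ 0), max_eq_right (by linarith : -x - 3 * η ≤ 0)] at e
  have h4 : 0 < 4 * η := by positivity
  rcases le_total x η with h1 | h1
  · rw [max_eq_right (by linarith : x - η ≤ 0), max_eq_right (by linarith : x - 3 * η ≤ 0)] at e
    have : clip η x = x := mul_left_cancel₀ h4.ne' (by rw [e]; ring)
    rw [this, max_eq_right (by linarith : x - η ≤ 0)]
    exact ⟨hx, by linarith, le_rfl, by linarith⟩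
  · rw [max_eq_left (by linarith : 0 ≤ x - η)] at e ⊢
    rcases le_total x (3 * η) with h2 | h2
    · rw [max_eq_right (by linarith : x - 3 * η ≤ 0)] at e
      have h5 := mul_nonneg (sub_nonneg.2 h1) (sub_nonneg.2 h2)
      have h6 := mul_nonneg (sub_nonneg.2 h1) hη.le
      refine ⟨le_of_mul_le_mul_left ?_ h4, le_of_mul_le_mul_left ?_ h4,
        le_of_mul_le_mul_left ?_ h4, le_of_mul_le_mul_left ?_ h4⟩
      · nlinarith [mul_pos hη hη]
      · nlinarith [sq_nonneg (x - 3 * η)]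
      · nlinarith [sq_nonneg (x - η)]
      · nlinarith
    · rw [max_eq_left (by linarith : 0 ≤ x - 3 * η)] at e
      have : clip η x = 2 * η := mul_left_cancel₀ h4.ne' (by rw [e]; ring)
      rw [this]
      exact ⟨by linarith, le_rfl, by linarith, by linarith⟩

lemma clip_all (hη : 0 < η) (x : ℝ) : |clip η x| ≤ 2 * η ∧ |clip η x| ≤ |x| ∧
    |x - clip η x| ≤ max (|x| - η) 0 := by
  have key : ∀ x, 0 ≤ x → |clip η x| ≤ 2 * η ∧ |clip η x| ≤ |x| ∧
      |x - clip η x| ≤ max (|x| - η) 0 := fun x hx => by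
    obtain ⟨h1, h2, h3, h4⟩ := clip_pos hη hx
    rw [abs_of_nonneg h1, abs_of_nonneg hx, abs_of_nonneg (sub_nonneg.2 h3)]
    exact ⟨h2, h3, h4⟩
  rcases le_total 0 x with hx | hx
  · exact key x hx
  · have := key (-x) (neg_nonneg.2 hx)
    rwa [clip_neg, abs_neg, abs_neg, ← neg_sub', abs_neg] at this

lemma abs_clip_le (hη : 0 < η) (x : ℝ) : |clip η x| ≤ 2 * η := (clip_all hη x).1
lemma abs_clip_le' (hη : 0 < η) (x : ℝ) : |clip η x| ≤ |x| := (clip_all hη x).2.1
lemma abs_sub_clip (hη : 0 < η) (x : ℝ) : |x - clip η x| ≤ max (|x| - η) 0 := (clip_all hη x).2.2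

/-- the clip is a contraction -/
lemma clip_lip (hη : 0 < η) (x y : ℝ) : |clip η y - clip η x| ≤ |y - x| := by
  have hd : ∀ z, HasDerivAt (clip η) (clip' η z) z := by
    intro z
    rw [hasDerivAt_iff_isLittleO]
    refine Asymptotics.IsBigO.trans_isLittleO (g := fun y => (y - z) ^ 2)
      (Asymptotics.IsBigO.of_bound (1 / (2 * η)) (Filter.Eventually.of_forall fun y => ?_)) ?_
    · have := clip_taylor hη z y
      rw [Real.norm_eq_abs, Real.norm_eq_abs, smul_eq_mul, mul_comm (y - z), abs_of_nonneg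
        (sq_nonneg (y - z)), one_div_mul_eq_div]
      exact this
    · exact Asymptotics.isLittleO_pow_sub_sub z one_lt_two |>.congr_left fun y => by
        rw [Real.norm_eq_abs, sq_abs]
  have := Convex.norm_image_sub_le_of_norm_hasDerivWithin_le (f := clip η) (f' := clip' η)
    (C := 1) (s := Set.univ) (x := x) (y := y) (fun z _ => (hd z).hasDerivWithinAt)
    (fun z _ => by
      rw [Real.norm_eq_abs, abs_of_nonneg (clip'_mem hη z).1]; exact (clip'_mem hη z).2)
    convex_univ trivial trivial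
  simpa using this

/-! ### Jacobians -/

variable {n : ℕ}

/-- vector fields on the cube -/
abbrev VF (n : ℕ) : Type := Cube n → Fin n → ℝ

/-- Jacobian -/
def dM (u : VF n) (x : Cube n) : Matrix (Fin n) (Fin n) ℝ :=
  of fun k j => grad (fun y => u y k) x j

lemma abs_sv (x : Cube n) (i : Fin n) : |sv x i| = 1 := by
  rcases mul_self_eq_one_iff.1 (sv_mul_self x i) with h | h <;> simp [h]

lemma fl_eq (f : Cube n → ℝ) (x : Cube n) (j : Fin n) :
    f (fl x j) = f x - 2 * sv x j * grad f x j := by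
  rw [grad_eq]; linear_combination (f x - f (fl x j)) * sv_mul_self x j

lemma grad_mul (f g : Cube n → ℝ) (x : Cube n) (j : Fin n) : grad (fun y => f y * g y) x j =
    f x * grad g x j + g x * grad f x j - 2 * sv x j * (grad f x j * grad g x j) := by
  rw [grad_eq, fl_eq f, fl_eq g]
  have := sv_mul_self x j
  linear_combination (f x * grad g x j + g x * grad f x j -
    2 * sv x j * (grad f x j * grad g x j)) * this

lemma grad_sum {σ : Type*} (t : Finset σ) (f : σ → Cube n → ℝ) (x : Cube n) (j : Fin n) :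
    grad (fun y => ∑ i ∈ t, f i y) x j = ∑ i ∈ t, grad (f i) x j := by
  simp only [grad_eq, ← sum_sub_distrib, mul_sum, sum_div]

lemma dM_add (u v : VF n) (x : Cube n) : dM (fun y => u y + v y) x = dM u x + dM v x := by
  ext k j; simp only [dM, of_apply, Matrix.add_apply, Pi.add_apply, grad_eq]; ring

lemma dM_sub (u v : VF n) (x : Cube n) : dM (fun y => u y - v y) x = dM u x - dM v x := by
  ext k j; simp only [dM, of_apply, Matrix.sub_apply, Pi.sub_apply, grad_eq]; ring

lemma dM_smul (c : ℝ) (u : VF n) (x : Cube n) : dM (fun y => c • u y) x = c • dM u x := by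
  ext k j; simp only [dM, of_apply, Matrix.smul_apply, Pi.smul_apply, smul_eq_mul, grad_eq]; ring

lemma dM_const (w : Fin n → ℝ) (x : Cube n) : dM (fun _ => w) x = 0 := by
  ext k j; simp [dM, grad_eq]

lemma dM_sum {σ : Type*} (t : Finset σ) (u : σ → VF n) (x : Cube n) :
    dM (fun y => ∑ i ∈ t, u i y) x = ∑ i ∈ t, dM (u i) x := by
  ext k j; simp only [dM, of_apply, Matrix.sum_apply, Finset.sum_apply, grad_sum]

lemma dM_mulVec (J : Matrix (Fin n) (Fin n) ℝ) (u : VF n) (x : Cube n) :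
    dM (fun y => J *ᵥ u y) x = J * dM u x := by
  ext k j
  simp only [dM, of_apply, mulVec, dotProduct, mul_apply, grad_sum, grad_const_mul, Pi.smul_apply,
    smul_eq_mul]

lemma dM_mul (a v : VF n) (x : Cube n) : dM (fun y => a y * v y) x =
    diagonal (a x) * dM v x + diagonal (v x) * dM a x -
      of fun k j => 2 * sv x j * (dM a x k j * dM v x k j) := by
  ext k j
  simp only [dM, of_apply, Pi.mul_apply, grad_mul, Matrix.sub_apply, Matrix.add_apply,
    diagonal_mul]

lemma abs_rem (a v : VF n) (x : Cube n) (k j : Fin n) :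
    |(of fun k j => 2 * sv x j * (dM a x k j * dM v x k j)) k j| ≤
      2 * (|dM a x k j| * |dM v x k j|) := by
  simp only [of_apply, abs_mul, abs_sv, mul_one, abs_two, le_refl]

lemma opn_dM_mul {a v : VF n} {x : Cube n} {A η δ : ℝ} (hA : 0 ≤ A) (hη : 0 ≤ η)
    (h1 : ∀ k, |a x k| ≤ A) (h2 : opn (dM a x) ≤ A) (h3 : ∀ k, |v x k| ≤ η)
    (h4 : opn (dM v x) ≤ δ) : opn (dM (fun y => a y * v y) x) ≤ A * (η + 3 * δ) := by
  rw [dM_mul]
  have b1 := (opn_mul_le _ _).trans (mul_le_mul (opn_diagonal_le hA h1) h4 (opn_nonneg _) hA)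
  have b2 := (opn_mul_le _ _).trans (mul_le_mul (opn_diagonal_le hη h3) h2 (opn_nonneg _) hη)
  have b3 := (had zero_le_two (abs_rem a v x)).trans
    (mul_le_mul_of_nonneg_left (mul_le_mul h2 h4 (opn_nonneg _) hA) zero_le_two)
  refine (opn_sub_le _ _).trans ((add_le_add (opn_add_le _ _) b3).trans ?_)
  linarith

lemma fro_dM_mul {a v : VF n} {x : Cube n} {A h : ℝ} (hA : 0 ≤ A)
    (h1 : ∀ k, |a x k| ≤ A) (h2 : opn (dM a x) ≤ A) (h3 : nrm (v x) ≤ h)
    (h4 : fro (dM v x) ≤ h) : fro (dM (fun y => a y * v y) x) ≤ 4 * A * h := by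
  rw [dM_mul]
  have b1 := (fro_mul_le _ _).trans (mul_le_mul (opn_diagonal_le hA h1) h4 (fro_nonneg _) hA)
  have b2 : fro (diagonal (v x) * dM a x) ≤ h * A :=
    (fro_rows (v := v x) (A := dM a x) fun k j => by rw [diagonal_mul, abs_mul]).trans
      (mul_le_mul h3 h2 (opn_nonneg _) ((nrm_nonneg _).trans h3))
  have b3 : fro (of fun k j => 2 * sv x j * (dM a x k j * dM v x k j)) ≤ 2 * A * h :=
    (fro_mono (B := dM v x) (c := 2 * A) (by positivity) fun k j => (abs_rem a v x k j).trans (by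
      have := mul_le_mul_of_nonneg_right ((abs_entry_le _ k j).trans h2)
        (abs_nonneg (dM v x k j))
      linarith)).trans (mul_le_mul_of_nonneg_left h4 (by positivity))
  refine (fro_sub_le _ _).trans ((add_le_add (fro_add_le _ _) b3).trans ?_)
  linarith

lemma nrm_mul_le {a v : Fin n → ℝ} {A : ℝ} (hA : 0 ≤ A) (h1 : ∀ k, |a k| ≤ A) :
    nrm (a * v) ≤ A * nrm v :=
  nrm_mono hA fun k => by
    rw [Pi.mul_apply, abs_mul]; exact mul_le_mul_of_nonneg_right (h1 k) (abs_nonneg _)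

/-- coordinatewise clip -/
def cv (η : ℝ) (z : Fin n → ℝ) : Fin n → ℝ := fun k => clip η (z k)

lemma opn_dM_cv (hη : 0 < η) (z : VF n) (x : Cube n) :
    opn (dM (fun y => cv η (z y)) x) ≤ opn (dM z x) + opn (dM z x) ^ 2 / η := by
  have e : dM (fun y => cv η (z y)) x = diagonal (fun k => clip' η (z x k)) * dM z x +
      (dM (fun y => cv η (z y)) x - diagonal (fun k => clip' η (z x k)) * dM z x) := by abel
  have b1 : opn (diagonal (fun k => clip' η (z x k)) * dM z x) ≤ opn (dM z x) :=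
    (opn_mul_le _ _).trans (mul_le_of_le_one_left (opn_nonneg _) (opn_diagonal_le zero_le_one
      fun k => by rw [abs_of_nonneg (clip'_mem hη _).1]; exact (clip'_mem hη _).2))
  have b2 : opn (dM (fun y => cv η (z y)) x - diagonal (fun k => clip' η (z x k)) * dM z x) ≤
      1 / η * (opn (dM z x) * opn (dM z x)) := by
    refine had (by positivity) fun k j => ?_
    have h := clip_taylor hη (z x k) (z (fl x j) k)
    have e1 : z (fl x j) k - z x k = -2 * sv x j * dM z x k j := by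
      have := fl_eq (fun y => z y k) x j
      simp only [dM, of_apply]; linarith
    have e2 : (dM (fun y => cv η (z y)) x - diagonal (fun k => clip' η (z x k)) * dM z x) k j =
        -(sv x j / 2) * (clip η (z (fl x j) k) - clip η (z x k) -
          clip' η (z x k) * (z (fl x j) k - z x k)) := by
      rw [e1, Matrix.sub_apply, diagonal_mul]
      have : dM (fun y => cv η (z y)) x k j =
          sv x j * (clip η (z x k) - clip η (z (fl x j) k)) / 2 := by
        simp only [dM, of_apply, grad_eq, cv]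
      rw [this]
      linear_combination (clip' η (z x k) * dM z x k j) * sv_mul_self x j
    rw [e2, abs_mul, abs_neg, abs_div, abs_sv, abs_two, ← abs_mul, abs_mul_self]
    have e3 : (z (fl x j) k - z x k) ^ 2 = 4 * (dM z x k j * dM z x k j) := by
      rw [e1]; linear_combination (4 * (dM z x k j * dM z x k j)) * sv_mul_self x j
    rw [e3] at h
    calc _ ≤ 1 / 2 * (4 * (dM z x k j * dM z x k j) / (2 * η)) :=
          mul_le_mul_of_nonneg_left h (by norm_num)
      _ = _ := by field_simp; ring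
  rw [e]
  refine (opn_add_le _ _).trans (add_le_add b1 (b2.trans (le_of_eq ?_)))
  ring

lemma fro_dM_cv (hη : 0 < η) (z : VF n) (x : Cube n) :
    fro (dM (fun y => cv η (z y)) x) ≤ fro (dM z x) := by
  refine (fro_mono (B := dM z x) zero_le_one fun k j => ?_).trans_eq (one_mul _)
  simp only [dM, of_apply, grad_eq, cv, abs_div, abs_mul, abs_sv, one_mul]
  exact div_le_div_of_nonneg_right (clip_lip hη _ _) (abs_nonneg _)

lemma nrm_cv (hη : 0 < η) (z : Fin n → ℝ) : nrm (cv η z) ≤ nrm z :=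
  (nrm_mono zero_le_one fun k => (abs_clip_le' hη (z k)).trans_eq (one_mul _).symm).trans_eq
    (one_mul _)

end Crest.Agent.T157.S3.Rg

end
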