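import Crest.Agent.T157.S3Def_69
import Crest.Agent.T157.S3X_43
import Crest.Agent.T157.S3RgB_78

/-!
# Row 157, part B, block S3 (helper78): calculus of the excess, (REG), first half
-/

set_option autoImplicit false
set_option linter.unusedSectionVars false

noncomputable section

namespace Crest.Agent.T157.S3.Rg

open Matrix Finset Filter
open Crest.Agent.T157.E (Cube sv prob meanV)
open Crest.Agent.T157.Eig Crest.Agent.T157.Rec
open Crest.Agent.T157.Chain22 (mean IsP isP_prob')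
open Crest.Agent.T157.Ent (kl)
open Crest.Agent.T157.S3F (jac hsJ)
open Crest.Agent.T157.S3W (Cx)
open Fam

section inst
variable {n P : ℕ} {a b c : ℝ} {G G' g g' μ : Cube n → ℝ}

/-! ### two-sided Lipschitz functions -/

lemma ts_nonneg (h : TS a G) : 0 ≤ a := (sum_nonneg fun _ _ => sq_nonneg _).trans (h default)
lemma ts_mono (h : TS a G) (e : a ≤ b) : TS b G := fun x => (h x).trans e
lemma ts_const (c : ℝ) : TS 0 fun _ : Cube n => c := fun x => by simp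
lemma ts_add (h : TS a G) (h' : TS b G') : TS (2 * a + 2 * b) fun x => G x + G' x := fun x => by
  refine le_trans ?_ (add_le_add (mul_le_mul_of_nonneg_left (h x) zero_le_two)
    (mul_le_mul_of_nonneg_left (h' x) zero_le_two))
  rw [mul_sum, mul_sum, ← sum_add_distrib]
  exact sum_le_sum fun j _ => by
    nlinarith [sq_nonneg (G x - G (fl x j) - (G' x - G' (fl x j)))]
lemma ts_smul (c : ℝ) (h : TS a G) : TS (c ^ 2 * a) fun x => c * G x := fun x => by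
  refine le_trans (le_of_eq ?_) (mul_le_mul_of_nonneg_left (h x) (sq_nonneg c))
  rw [mul_sum]; exact sum_congr rfl fun j _ => by ring
lemma ts_abs (h : TS a G) : TS a fun x => |G x| := fun x => by
  refine le_trans (sum_le_sum fun j _ => ?_) (h x)
  rw [← sq_abs, ← sq_abs (G x - _)]
  exact pow_le_pow_left₀ (abs_nonneg _) (abs_abs_sub_abs_le_abs_sub _ _) 2
lemma ts_sum_eq (G : Cube n → ℝ) (x : Cube n) :
    ∑ j, (G x - G (fl x j)) ^ 2 = 4 * nrm (grad G x) ^ 2 := by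
  rw [nrm_sq', mul_sum]
  refine sum_congr rfl fun j _ => ?_
  rw [fl_eq G x j]; linear_combination (4 * grad G x j ^ 2) * sv_mul_self x j
lemma ts_grad (h : ∀ x, nrm (grad G x) ≤ a) : TS (4 * a ^ 2) G := fun x => by
  rw [ts_sum_eq]
  exact mul_le_mul_of_nonneg_left (pow_le_pow_left₀ (nrm_nonneg _) (h x) 2) (by norm_num)

lemma exc_eq {η : ℝ} (hη : 0 ≤ η) (t : ℝ) : max (|t| - η) 0 ^ 2 = pq (t - η) + pq (-t - η) := by
  unfold pq
  rcases le_total 0 t with h | h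
  · rw [abs_of_nonneg h, max_eq_right (by linarith : -t - η ≤ 0)]; ring
  · rw [abs_of_nonpos h, max_eq_right (by linarith : t - η ≤ 0)]; ring

/-- the regularised excess is two-sided Lipschitz -/
lemma ts_exc {η δ L ρ : ℝ} (hη : 0 ≤ η) (hρ : 0 < ρ) {z : VF n} (h1 : ∀ x, opn (dM z x) ≤ δ)
    (h2 : ∀ x, fro (dM z x) ≤ L) :
    TS (32 * δ ^ 2 + 128 * δ ^ 2 * L ^ 2 / ρ) fun x => √(exc η (z x) + ρ) := fun x => by
  obtain ⟨ψ, hψ⟩ : ∃ ψ : Fin n → ℝ, ∀ k, ψ k = 2 * max (z x k - η) 0 - 2 * max (-z x k - η) 0 :=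
    ⟨_, fun _ => rfl⟩
  have p0 := exc_nonneg η (z x)
  have hF : 0 < exc η (z x) + ρ := by linarith
  have p1 : nrm ψ ^ 2 ≤ 4 * exc η (z x) := by
    rw [nrm_sq', exc, mul_sum]
    refine sum_le_sum fun k _ => ?_
    rw [exc_eq hη, hψ]; unfold pq
    nlinarith [mul_nonneg (le_max_right (z x k - η) 0) (le_max_right (-z x k - η) 0)]
  have p2 : ∀ j, (√(exc η (z x) + ρ) - √(exc η (z (fl x j)) + ρ)) ^ 2 ≤
      8 / (exc η (z x) + ρ) * ((dM z x)ᵀ *ᵥ ψ) j ^ 2 +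
        128 * δ ^ 2 / ρ * ∑ k, dM z x k j ^ 2 := fun j => by
    have e1 : ∀ k, z (fl x j) k - z x k = -2 * sv x j * dM z x k j := fun k => by
      have := fl_eq (fun y => z y k) x j
      simp only [dM, of_apply]; linarith
    obtain ⟨q, hq⟩ : ∃ q, q = ∑ k, dM z x k j ^ 2 := ⟨_, rfl⟩
    obtain ⟨t, ht⟩ : ∃ t, t = ((dM z x)ᵀ *ᵥ ψ) j := ⟨_, rfl⟩
    have q0 : 0 ≤ q := hq ▸ sum_nonneg fun _ _ => sq_nonneg _
    have q1 : q ≤ δ ^ 2 := hq ▸ (col_le _ j).trans (pow_le_pow_left₀ (opn_nonneg _) (h1 x) 2)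
    obtain ⟨r, r0, r1, hr⟩ : ∃ r, 0 ≤ r ∧ r ≤ 8 * q ∧
        exc η (z (fl x j)) - exc η (z x) = -2 * sv x j * t + r := by
      refine ⟨∑ k, (max (|z (fl x j) k| - η) 0 ^ 2 - max (|z x k| - η) 0 ^ 2 -
        ψ k * (z (fl x j) k - z x k)), sum_nonneg fun k _ => ?_, ?_, ?_⟩
      · rw [exc_eq hη, exc_eq hη, hψ]
        nlinarith [(pq_taylor (z x k - η) (z (fl x j) k - η)).1,
          (pq_taylor (-z x k - η) (-z (fl x j) k - η)).1]
      · rw [hq, mul_sum]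
        refine sum_le_sum fun k _ => ?_
        have e3 : (z (fl x j) k - z x k) ^ 2 = 4 * dM z x k j ^ 2 := by
          rw [e1]; linear_combination (4 * dM z x k j ^ 2) * sv_mul_self x j
        rw [exc_eq hη, exc_eq hη, hψ]
        nlinarith [(pq_taylor (z x k - η) (z (fl x j) k - η)).2,
          (pq_taylor (-z x k - η) (-z (fl x j) k - η)).2]
      · simp only [exc, sum_sub_distrib, ht, mulVec, dotProduct, transpose_apply, e1, mul_sum]
        have : ∑ k, ψ k * (-2 * sv x j * dM z x k j) = ∑ k, -2 * sv x j * (dM z x k j * ψ k) :=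
          sum_congr rfl fun k _ => by ring
        rw [this]; ring
    rw [← hq, ← ht]
    have p0' := exc_nonneg η (z (fl x j))
    obtain ⟨u, hu⟩ : ∃ u, u = √(exc η (z x) + ρ) := ⟨_, rfl⟩
    obtain ⟨v, hv⟩ : ∃ v, v = √(exc η (z (fl x j)) + ρ) := ⟨_, rfl⟩
    have u0 : 0 < u := hu ▸ Real.sqrt_pos.2 hF
    have v0 : 0 ≤ v := hv ▸ Real.sqrt_nonneg _
    have u2 : u ^ 2 = exc η (z x) + ρ := hu ▸ Real.sq_sqrt hF.le
    have v2 : v ^ 2 = exc η (z (fl x j)) + ρ := hv ▸ Real.sq_sqrt (by linarith)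
    rw [← hu, ← hv, ← u2]
    have k1 : (u - v) ^ 2 * u ^ 2 ≤ 8 * t ^ 2 + 2 * r ^ 2 := by
      have k2 : ((u - v) * (u + v)) ^ 2 = (-2 * sv x j * t + r) ^ 2 := by
        rw [← hr]; have : (u - v) * (u + v) = -(v ^ 2 - u ^ 2) := by ring
        rw [this, u2, v2]; ring
      have k3 : (-2 * sv x j * t) ^ 2 = 4 * t ^ 2 := by
        linear_combination (4 * t ^ 2) * sv_mul_self x j
      have k4 : (u - v) ^ 2 * u ^ 2 ≤ (u - v) ^ 2 * (u + v) ^ 2 :=
        mul_le_mul_of_nonneg_left (pow_le_pow_left₀ u0.le (by linarith) 2) (sq_nonneg _)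
      nlinarith [sq_nonneg (-2 * sv x j * t - r)]
    have k5 : 2 * r ^ 2 ≤ 128 * δ ^ 2 / ρ * q * u ^ 2 := by
      have k6 : r ^ 2 ≤ 64 * δ ^ 2 * q := by nlinarith [pow_le_pow_left₀ r0 r1 2]
      have k7 : 128 * δ ^ 2 / ρ * q * ρ ≤ 128 * δ ^ 2 / ρ * q * u ^ 2 :=
        mul_le_mul_of_nonneg_left (by linarith) (by positivity)
      have k8 : 128 * δ ^ 2 / ρ * q * ρ = 128 * δ ^ 2 * q := by field_simp
      linarith
    refine le_of_mul_le_mul_right ?_ (pow_pos u0 2)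
    have k9 : 8 / u ^ 2 * t ^ 2 * u ^ 2 = 8 * t ^ 2 := by field_simp
    rw [add_mul, k9]; linarith
  refine (sum_le_sum fun j _ => p2 j).trans ?_
  rw [sum_add_distrib, ← mul_sum, ← mul_sum, ← nrm_sq', sum_comm, ← fro_sq]
  have p3 := nrm_mulVec_le (dM z x)ᵀ ψ
  rw [opn_transpose] at p3
  have p4 := pow_le_pow_left₀ (nrm_nonneg _) p3 2
  have p5 := mul_le_mul (pow_le_pow_left₀ (opn_nonneg _) (h1 x) 2) p1 (sq_nonneg _) (sq_nonneg _)
  refine add_le_add ?_ ?_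
  · rw [div_mul_eq_mul_div, div_le_iff₀ hF]
    nlinarith [mul_nonneg (sq_nonneg δ) hρ.le]
  · rw [div_mul_eq_mul_div]
    exact div_le_div_of_nonneg_right (mul_le_mul_of_nonneg_left
      (pow_le_pow_left₀ (fro_nonneg _) (h2 x) 2) (by positivity)) hρ.le

/-! ### the excess -/

variable {B B' : ℝ}

lemma ex_mono (h : Exc μ a B g) (hg : ∀ x, g' x ≤ g x) (ha : a ≤ b) (hB : B ≤ B') : Exc μ b B' g' :=
  let ⟨G, h1, h2, h3, h4⟩ := h
  ⟨G, fun x => (hg x).trans (h1 x), h2, ts_mono h3 ha, h4.trans hB⟩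

lemma ex_add (hμ : ∀ x, 0 < μ x) (h : Exc μ a B g) (h' : Exc μ b B' g') :
    Exc μ (2 * a + 2 * b) (2 * B + 2 * B') fun x => g x + g' x := by
  obtain ⟨G, h1, h2, h3, h4⟩ := h
  obtain ⟨G', k1, k2, k3, k4⟩ := h'
  refine ⟨fun x => G x + G' x, fun x => add_le_add (h1 x) (k1 x),
    fun x => add_nonneg (h2 x) (k2 x), ts_add h3 k3, ?_⟩
  have := (isP_prob' hμ).mean_mono (f := fun x => (G x + G' x) ^ 2)
    (g := fun x => 2 * G x ^ 2 + 2 * G' x ^ 2) fun x => by nlinarith [sq_nonneg (G x - G' x)]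
  rw [mean_add', mean_mul', mean_mul'] at this
  exact this.trans (add_le_add (mul_le_mul_of_nonneg_left h4 zero_le_two)
    (mul_le_mul_of_nonneg_left k4 zero_le_two))

lemma ex_smul (hc : 0 ≤ c) (h : Exc μ a B g) : Exc μ (c ^ 2 * a) (c ^ 2 * B) fun x => c * g x := by
  obtain ⟨G, h1, h2, h3, h4⟩ := h
  refine ⟨fun x => c * G x, fun x => mul_le_mul_of_nonneg_left (h1 x) hc,
    fun x => mul_nonneg hc (h2 x), ts_smul c h3, ?_⟩
  simp only [mul_pow]
  exact (mean_mul' (ν := prob μ) _ _).trans_le (mul_le_mul_of_nonneg_left h4 (sq_nonneg c))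

lemma ex_abs (h : TS a G) (hB : mean (prob μ) (fun x => G x ^ 2) ≤ B) : Exc μ a B fun x => |G x| :=
  ⟨fun x => |G x|, fun _ => le_rfl, fun _ => abs_nonneg _, ts_abs h, by
    simp only [sq_abs]; exact hB⟩

lemma ex_const (hμ : ∀ x, 0 < μ x) (c : ℝ) : Exc μ 0 (c ^ 2) fun _ => c :=
  ex_mono (ex_abs (ts_const c) ((isP_prob' hμ).mean_const _).le) (fun _ => le_abs_self _) le_rfl
    le_rfl

lemma ex_sum (hμ : ∀ x, 0 < μ x) (ha : 0 ≤ a) (hB : 0 ≤ B) {σ : Type*} (t : Finset σ)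
    {g : σ → Cube n → ℝ} (h : ∀ p, Exc μ a B (g p)) :
    Exc μ (4 ^ t.card * a) (4 ^ t.card * B) fun x => ∑ p ∈ t, g p x := by
  classical
  induction t using Finset.induction_on with
  | empty => exact ex_mono (ex_const hμ 0) (fun x => by simp) (by simpa) (by simpa)
  | insert p t hp ih =>
    have h4 : (1 : ℝ) ≤ 4 ^ t.card := one_le_pow₀ (by norm_num)
    refine ex_mono (ex_add hμ (h p) ih) (fun x => (sum_insert hp).le) ?_ ?_ <;>
      rw [card_insert_of_notMem hp, pow_succ] <;> nlinarith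

lemma ex_mean (hμ : ∀ x, 0 < μ x) (h : Exc μ a B g) (h0 : ∀ x, 0 ≤ g x) :
    mean (prob μ) (fun x => g x ^ 2) ≤ B :=
  let ⟨_, h1, _, _, h4⟩ := h
  ((isP_prob' hμ).mean_mono fun x => pow_le_pow_left₀ (h0 x) (h1 x) 2).trans h4

lemma HB.ex {K : ℝ} (hb : HB μ K) (h : Exc μ a B g) (h0 : ∀ x, 0 ≤ g x) {ν : Cube n → ℝ}
    (hν : IsP ν) : mean ν (fun x => g x ^ 2) ≤ 2 * B + K * a * (kl ν (prob μ) + 1) :=
  let ⟨G, h1, h2, h3, h4⟩ := h
  (hν.mean_mono fun x => pow_le_pow_left₀ (h0 x) (h1 x) 2).trans ((hb.sq G a ν h2 h3 hν).trans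
    (add_le_add (mul_le_mul_of_nonneg_left h4 zero_le_two) le_rfl))

lemma rg_iff {e L : ℝ} (hL : 0 ≤ L) {u : VF n} : S3.Rg e L u ↔ Bd e u ∧ Bd2 L u := by
  refine ⟨fun h => ⟨fun x => ⟨fun k => (norm_le_pi_norm (u x) k).trans (h x).1, (h x).2.1⟩,
    fun x => ⟨(h x).2.2.1, fro_le_of_sq hL (h x).2.2.2⟩⟩, fun h x => ⟨?_, (h.1 x).2, (h.2 x).1, ?_⟩⟩
  · exact (pi_norm_le_iff_of_nonneg ((opn_nonneg _).trans (h.1 x).2)).2 (h.1 x).1
  · exact (fro_sq (dM u x)).symm.trans_le (pow_le_pow_left₀ (fro_nonneg _) (h.2 x).2 2)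

end inst

/-- **(REG), first half, one instance** -/
theorem reg1_inst (A K : ℝ) (P : ℕ) (hA : 1 ≤ A) (hK : 0 ≤ K) : ∃ c : ℝ, 1 ≤ c ∧ ∀ e : ℝ, 0 < e →
    e ≤ 1 → ∃ η > (0 : ℝ), ∀ (n : ℕ) (d : BP n P) (μ : Cube n → ℝ) (w : Fin n → ℝ), d.Ok A →
    HB μ K → (∀ k, |w k| ≤ η) → ∃ vt : Fin P → VF n, (∀ l, Bd e (vt l) ∧ Bd2 (c * nrm w) (vt l)) ∧
      ∀ (v : Fin P → VF n) (m : ℝ), (∀ l, v l = d.Z w v l) → (∀ l, nrm (meanV μ (v l)) ≤ m) →
        ∀ l, Exc μ (c * e) (c * (m ^ 2 + e * nrm w ^ 2 + 1)) fun x => nrm (v l x - vt l x) := by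
  obtain ⟨B, hB⟩ : ∃ B, B = (16 * A ^ 4) ^ P := ⟨_, rfl⟩
  obtain ⟨c0, hc0⟩ : ∃ c0, c0 = 2 * (1 + 32 * A ^ 8 * A) ^ P := ⟨_, rfl⟩
  have B1 : 1 ≤ B := hB ▸ one_le_pow₀ (BP.one_le_B hA)
  have A0 : 0 ≤ A := zero_le_one.trans hA
  have c1 : 1 ≤ c0 := by
    have : (1 : ℝ) ≤ (1 + 32 * A ^ 8 * A) ^ P := one_le_pow₀ (le_add_of_nonneg_right (by positivity))
    linarith
  have hE := BP.cE_nonneg A0 hK P
  have k0 : 0 ≤ c0 ^ 2 * 4 ^ P := by positivity
  refine ⟨B + c0 ^ 2 * 4 ^ P * (160 + BP.cE A K P + B ^ 2), le_add_of_le_of_nonneg B1 (by positivity),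
    fun e e0 e1 => ?_⟩
  have hM : 1 ≤ e⁻¹ := one_le_inv_iff₀.2 ⟨e0, e1⟩
  have hη : 0 < e / (32 * A ^ 4 * e⁻¹) ^ P := by positivity
  refine ⟨_, hη, fun n d μ w h hb hw => ?_⟩
  have hs : BP.sz A e⁻¹ (e / (32 * A ^ 4 * e⁻¹) ^ P) P = e := by
    unfold BP.sz; field_simp
  obtain ⟨vt, c⟩ := BP.exists_clip h e⁻¹ (e / (32 * A ^ 4 * e⁻¹) ^ P) w
  refine ⟨vt, fun l => ⟨hs ▸ c.bd h hM hη hw l, (c.bd2 h hM hη l).2.mono ?_⟩, fun v m hv hm l => ?_⟩
  · rw [← hB]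
    exact mul_le_mul_of_nonneg_right (le_add_of_nonneg_right (by positivity)) (nrm_nonneg _)
  have hρ : 0 < e * (B * nrm w) ^ 2 + 1 := by positivity
  have hQ : 0 ≤ m ^ 2 + e * nrm w ^ 2 + 1 := by positivity
  have h1 : ∀ p, Exc μ (160 * e) ((BP.cE A K P + B ^ 2) * (m ^ 2 + e * nrm w ^ 2 + 1)) fun x =>
      |√(exc (BP.thr A e⁻¹ (e / (32 * A ^ 4 * e⁻¹) ^ P) p) (d.Z w vt p x) +
        (e * (B * nrm w) ^ 2 + 1))| := fun p => by
    refine ex_abs (ts_mono (ts_exc (δ := e) (L := B * nrm w) (BP.thr_pos hA hM hη p).le hρ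
      (fun x => ((c.opn_Z h hM hη hw p x).trans (BP.B_sz_le hA hM hη p)).trans_eq hs)
      fun x => hB ▸ ((c.bd2 h hM hη p).1 x).2) ?_) ?_
    · have : 128 * e ^ 2 * (B * nrm w) ^ 2 / (e * (B * nrm w) ^ 2 + 1) ≤ 128 * e := by
        rw [div_le_iff₀ hρ]; nlinarith
      nlinarith
    · have h2 := c.mean_exc h hM hη hw hv hb hm p
      rw [hs] at h2
      have h3 : (nrm w ^ 2 + e ^ 2) / e⁻¹ ^ 2 ≤ e * nrm w ^ 2 + 1 := by
        rw [inv_pow, div_inv_eq_mul]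
        have h5 : e ^ 2 ≤ e := by nlinarith
        have h6 := mul_le_mul_of_nonneg_left h5 (sq_nonneg (nrm w))
        nlinarith
      have h4 : mean (prob μ) (fun x => √(exc (BP.thr A e⁻¹ (e / (32 * A ^ 4 * e⁻¹) ^ P) p)
          (d.Z w vt p x) + (e * (B * nrm w) ^ 2 + 1)) ^ 2) = mean (prob μ) (fun x =>
          exc (BP.thr A e⁻¹ (e / (32 * A ^ 4 * e⁻¹) ^ P) p) (d.Z w vt p x)) +
            (e * (B * nrm w) ^ 2 + 1) := by
        simp only [Real.sq_sqrt (add_nonneg (exc_nonneg _ _) hρ.le)]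
        rw [mean_add', (isP_prob' hb.pos).mean_const]
      rw [h4]
      have h7 := mul_le_mul_of_nonneg_left (add_le_add (le_refl (m ^ 2)) h3) hE
      have h8 : 1 ≤ B ^ 2 := one_le_pow₀ B1
      nlinarith [mul_nonneg (sq_nonneg B) (sq_nonneg m)]
  have h2 := ex_smul (zero_le_one.trans c1) (ex_sum hb.pos (by positivity) (by positivity) univ h1)
  rw [card_univ, Fintype.card_fin] at h2
  refine ex_mono h2 (fun x => ?_) ?_ ?_
  · have h3 := c.err_le h hM hη hv l x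
    have h4 : ∑ p, exc (BP.thr A e⁻¹ (e / (32 * A ^ 4 * e⁻¹) ^ P) p) (d.Z w vt p x) ≤
        (∑ p, |√(exc (BP.thr A e⁻¹ (e / (32 * A ^ 4 * e⁻¹) ^ P) p) (d.Z w vt p x) +
          (e * (B * nrm w) ^ 2 + 1))|) ^ 2 := by
      refine le_trans (sum_le_sum fun p _ => ?_) (sum_sq_le_sq_sum_of_nonneg fun _ _ => abs_nonneg _)
      rw [sq_abs, Real.sq_sqrt (add_nonneg (exc_nonneg _ _) hρ.le)]
      linarith
    refine (pow_le_pow_iff_left₀ (nrm_nonneg _) (mul_nonneg (zero_le_one.trans c1)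
      (sum_nonneg fun _ _ => abs_nonneg _)) two_ne_zero).1 (h3.trans ?_)
    rw [← mul_assoc, mul_comm _ 2, ← hc0, mul_pow c0]
    exact mul_le_mul (by nlinarith) h4 (sum_nonneg fun _ _ => exc_nonneg _ _) (sq_nonneg _)
  · have := mul_nonneg (mul_nonneg k0 (add_nonneg hE (sq_nonneg B))) e0.le
    have := mul_nonneg (zero_le_one.trans B1) e0.le
    nlinarith
  · have := mul_nonneg k0 hQ
    have := mul_nonneg (zero_le_one.trans B1) hQ
    nlinarith

variable {F : Fam}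

lemma w_pos (i : F.I) (x : Cube (F.n i)) : 0 < F.w i x := Real.exp_pos _
lemma isP_w (i : F.I) : IsP (prob (F.w i)) := isP_prob' (w_pos i)
lemma H_nonneg (i : F.I) {ν : Cube (F.n i) → ℝ} (hν : IsP ν) : 0 ≤ F.H i ν :=
  Ent.kl_nonneg hν (isP_w i) fun x h => absurd h (div_pos (w_pos i x)
    (sum_pos (fun y _ => w_pos i y) univ_nonempty)).ne'

theorem hb_of (hH : HBStmt) (hF : F.Ok) : ∃ K : ℝ, ∀ i, HB (F.w i) K := by
  obtain ⟨K0, κ, hκ, hA⟩ := hF.hAT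
  obtain ⟨C, c, hc, h⟩ := hH K0 κ 0 hκ
  have C0 := abs_nonneg C
  have C1 := le_abs_self C
  have hc' : 0 ≤ 16 * |C| / c := by positivity
  refine ⟨5 * |C| + 16 * |C| / c, fun i => ?_⟩
  obtain ⟨h1, h2, -⟩ := h _ _ (w_pos i) (hA i)
  have hp := isP_w i
  have x0 := (Real.exp_pos (-(c * F.n i))).le
  have x1 : Real.exp (-(c * F.n i)) ≤ 1 := Real.exp_le_one_iff.2 (by
    have : 0 ≤ c * F.n i := by positivity
    linarith)
  refine ⟨w_pos i, by positivity, fun u δ h hδ hh => ?_, fun G A hA => ?_,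
    fun G A ν h0 hG hν => ?_⟩
  · have k1 : ∀ k x, nrm (grad (fun y => u y k) x) ^ 2 = ∑ j, dM u x k j ^ 2 := fun k x =>
      nrm_sq' _
    have k2 : ∀ k, mean (prob (F.w i)) (fun x => (u x k - meanV (F.w i) u k) ^ 4) ≤
        |C| * (4 * δ ^ 2) * mean (prob (F.w i)) (fun x => ∑ j, dM u x k j ^ 2) +
          |C| * (4 * δ ^ 2) ^ 2 * Real.exp (-(c * F.n i)) := fun k => by
      have := (h2 (fun y => u y k) (4 * δ ^ 2) fun x => by
        refine (ts_sum_eq (fun y => u y k) x).trans_le ?_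
        rw [k1]
        exact mul_le_mul_of_nonneg_left ((row_le _ k).trans
          (pow_le_pow_left₀ (opn_nonneg _) (hδ x) 2)) (by norm_num)).2
      simp only [← nrm_sq, k1] at this
      have k3 := hp.mean_nonneg (f := fun x => ∑ j, dM u x k j ^ 2)
        fun x => sum_nonneg fun _ _ => sq_nonneg _
      refine this.trans (add_le_add ?_ ?_)
      · exact mul_le_mul_of_nonneg_right (mul_le_mul_of_nonneg_right C1 (by positivity)) k3
      · exact mul_le_mul_of_nonneg_right (mul_le_mul_of_nonneg_right C1 (by positivity)) x0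
    rw [mean_sum']
    refine (sum_le_sum fun k _ => k2 k).trans ?_
    rw [sum_add_distrib, ← mul_sum, ← mean_sum', sum_const, card_univ, Fintype.card_fin,
      nsmul_eq_mul]
    have k4 := (hp.mean_mono (f := fun x => ∑ k, ∑ j, dM u x k j ^ 2) (g := fun _ => h ^ 2)
      fun x => (fro_sq _).symm.trans_le (pow_le_pow_left₀ (fro_nonneg _) (hh x) 2)).trans_eq
      (hp.mean_const _)
    have k5 : (F.n i : ℝ) * Real.exp (-(c * F.n i)) ≤ 1 / c := by
      rw [le_div_iff₀ hc, Real.exp_neg, mul_right_comm, ← div_eq_mul_inv,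
        div_le_one (Real.exp_pos _), mul_comm]
      linarith [Real.add_one_le_exp (c * F.n i)]
    have k6 := mul_le_mul_of_nonneg_left k4 (by positivity : 0 ≤ |C| * (4 * δ ^ 2))
    have k7 := mul_le_mul_of_nonneg_left k5 (by positivity : 0 ≤ |C| * (4 * δ ^ 2) ^ 2)
    have k8 : |C| * (4 * δ ^ 2) ^ 2 * (1 / c) = 16 * |C| / c * δ ^ 2 * δ ^ 2 := by ring
    have k9 : 0 ≤ |C| * δ ^ 2 * h ^ 2 := by positivity
    have k10 : 0 ≤ |C| * δ ^ 2 * δ ^ 2 := by positivity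
    have k11 : 0 ≤ 16 * |C| / c * δ ^ 2 * h ^ 2 := by positivity
    nlinarith
  · have := (h2 G _ (ts_grad hA)).1
    simp only [← nrm_sq] at this
    have k1 := (hp.mean_mono (f := fun x => nrm (grad G x) ^ 2) (g := fun _ => A ^ 2)
      fun x => pow_le_pow_left₀ (nrm_nonneg _) (hA x) 2).trans_eq (hp.mean_const _)
    have k2 := hp.mean_nonneg (f := fun x => nrm (grad G x) ^ 2) fun x => sq_nonneg _
    have k3 := mul_le_mul C1 k1 k2 C0
    have k4 := mul_le_mul (mul_le_mul_of_nonneg_right C1 (by positivity : 0 ≤ 4 * A ^ 2)) x1 x0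
      (by positivity)
    have k5 := mul_nonneg hc' (sq_nonneg A)
    refine le_trans this (le_trans (add_le_add k3 k4) ?_)
    nlinarith
  · have k1 := h1 G A h0 (fun x => le_trans (sum_le_sum fun j _ => ?_) (hG x)) ν hν
    · have k2 := mean_sq hp G
      have k3 : 0 ≤ A * (kl ν (prob (F.w i)) + 1) :=
        mul_nonneg (ts_nonneg hG) (add_nonneg (H_nonneg i hν) zero_le_one)
      have k4 := mul_le_mul_of_nonneg_right C1 k3
      have k5 := mul_nonneg C0 k3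
      have k6 := mul_nonneg hc' k3
      refine k1.trans (add_le_add (mul_le_mul_of_nonneg_left k2 zero_le_two) ?_)
      nlinarith
    · rw [← sq_abs (G x - _)]
      exact pow_le_pow_left₀ (le_max_right _ _) (max_le (le_abs_self _) (abs_nonneg _)) 2

end Crest.Agent.T157.S3.Rg

end
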