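import Crest.Agent.T157.S3RgC_78

/-!
# Row 157, part B, block S3 (helper78): means of the weights, `REG1Glue`
-/

set_option autoImplicit false
set_option linter.unusedSectionVars false

noncomputable section

namespace Crest.Agent.T157.S3.Rg

open Matrix Finset Filter
open Crest.Agent.T157.E (Cube sv prob meanV)
open Crest.Agent.T157.Eig Crest.Agent.T157.Rec
open Crest.Agent.T157.Chain22 (mean IsP isP_prob')
open Crest.Agent.T157.S3W (Cx)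
open Fam

lemma fin_bd {σ : Type*} [Fintype σ] {Q : σ → ℝ → Prop} (mono : ∀ a C C', C ≤ C' → Q a C → Q a C')
    (h : ∀ a, ∃ C, Q a C) : ∃ C, 1 ≤ C ∧ ∀ a, Q a C := by
  choose C hC using h
  refine ⟨1 + ∑ a, |C a|, le_add_of_nonneg_right (sum_nonneg fun _ _ => abs_nonneg _),
    fun a => mono a _ _ ?_ (hC a)⟩
  have := single_le_sum (f := fun a => |C a|) (fun _ _ => abs_nonneg _) (mem_univ a)
  linarith [le_abs_self (C a)]

lemma dot_meanV {n : ℕ} (μ : Cube n → ℝ) (z : Fin n → ℝ) (u : VF n) :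
    z ⬝ᵥ meanV μ u = mean (prob μ) fun x => z ⬝ᵥ u x := by
  simp only [dotProduct]
  rw [mean_sum']
  exact sum_congr rfl fun k _ => (mean_mul' (ν := prob μ) (z k) fun x => u x k).symm

lemma nrm_le_norm {n : ℕ} (w : Fin n → ℝ) : nrm w ≤ ‖w‖ * √n := by
  simpa using nrm_le_sqrt (norm_nonneg w) fun i => norm_le_pi_norm w i

lemma sp_ind {Ω : Type*} {c : Cx Ω} {P : (Ω → ℝ) → Prop} {Q : c.MF → Prop}
    (word : ∀ σ d l, P σ → c.BL d → c.Lt l → Q fun ω => σ ω • (diagonal (d ω) * c.vk l ω))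
    (add : ∀ A B, Q A → Q B → Q fun ω => A ω + B ω) {A : c.MF} (h : c.Sp P A) : Q A := by
  induction h with
  | word h1 h2 h3 => exact word _ _ _ h1 h2 h3
  | add _ _ h1 h2 => exact add _ _ h1 h2

lemma sv_ind {Ω : Type*} {c : Cx Ω} {P : (Ω → ℝ) → Prop} {Q : c.VF → Prop}
    (term : ∀ σ d, P σ → c.BL d → Q fun ω => σ ω • d ω)
    (add : ∀ A B, Q A → Q B → Q fun ω => A ω + B ω) {A : c.VF} (h : c.Sv P A) : Q A := by
  induction h with
  | term h1 h2 => exact term _ _ h1 h2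
  | add _ _ h1 h2 => exact add _ _ h1 h2

variable {F : Fam} {N P : ℕ} {R : Net F N} {𝒯 : Set F.Df} {Φ : Flow R P}

lemma sqrt_n_pos (hF : F.Ok) (i : F.I) : 0 < √(F.n i : ℝ) :=
  Real.sqrt_pos.2 (Nat.cast_pos.2 (hF.pos i))
lemma one_le_sqrt_K (hF : F.Ok) (i : F.I) : 1 ≤ √(F.K i) := Real.one_le_sqrt.2 (hF.K1 i)

lemma Pi_nonneg (D : List F.Df) (i : F.I) (w : V (F.n i)) : 0 ≤ Fam.Pi D i w :=
  div_nonneg (List.sum_nonneg fun x hx => by
    obtain ⟨d, -, rfl⟩ := List.mem_map.1 hx; exact abs_nonneg _) (Real.sqrt_nonneg _)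
lemma Pi_append (D D' : List F.Df) (i : F.I) (w : V (F.n i)) :
    Fam.Pi (D ++ D') i w = Fam.Pi D i w + Fam.Pi D' i w := by
  simp only [Fam.Pi, List.map_append, List.sum_append, add_div]

lemma zero_mem (hR : R.Ok) : 0 ∈ R.C := by simpa using hR.smul 0 1 hR.one

lemma bd_ev (hJ : J1Stmt) (hF : F.Ok) (hR : R.Ok) {g : F.Lf (N + 1)} (hg : g ∈ R.C) :
    ∃ A, ∀ i, Bd A fun x => R.ev g ⟨i, x⟩ := by
  obtain ⟨-, -, h1, h2, -⟩ := hJ F N R hF hR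
  obtain ⟨C, hC⟩ := hR.bd g hg
  obtain ⟨C', hC'⟩ := (h2 g (h1 g hg)).1
  exact ⟨max C C', fun i x => ⟨fun k => (hC _ _ _ _).trans (le_max_left _ _),
    (hC' ⟨i, x⟩).trans (le_max_right _ _)⟩⟩

lemma bd_ev1 (hJ : J1Stmt) (hF : F.Ok) (hR : R.Ok) {g : F.Lf (N + 1)} (hg : g ∈ R.C) :
    ∃ A, 1 ≤ A ∧ ∀ i, Bd A fun x => R.ev g ⟨i, x⟩ :=
  let ⟨A, h⟩ := bd_ev hJ hF hR hg
  ⟨max A 1, le_max_right _ _, fun i => (h i).mono (le_max_left _ _)⟩

/-- the letters of the backpropagation -/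
def bp (Φ : Flow R P) (a : Fin P → F.Lf (N + 1)) (i : F.I) : BP (F.n i) P where
  J := F.J i
  a0 l x := R.ev (a l) ⟨i, x⟩
  a p l x := Φ.av ⟨i, x⟩ p l
  ot := Φ.ot i

variable {a : Fin P → F.Lf (N + 1)}

lemma bp_ok (hJ : J1Stmt) (hF : F.Ok) (hR : R.Ok) (hΦ : Φ.Ok) (ha : ∀ m, a m ∈ R.C) :
    ∃ A, 1 ≤ A ∧ ∀ i, (bp Φ a i).Ok A := by
  have hc := (hJ F N R hF hR).1
  obtain ⟨A1, -, h1⟩ := fin_bd (Q := fun l A => ∀ i, Bd A fun x => R.ev (a l) ⟨i, x⟩)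
    (fun _ _ _ e h i => (h i).mono e) fun l => bd_ev hJ hF hR (ha l)
  obtain ⟨A2, -, h2⟩ := fin_bd (Q := fun (p : Fin P × Fin P) A => ∀ i,
    Bd A fun x => R.ev (Φ.a p.1 p.2) ⟨i, x⟩) (fun _ _ _ e h i => (h i).mono e)
    fun p => bd_ev hJ hF hR ((hΦ.lt p.1).2.2 p.2)
  obtain ⟨A3, -, h3⟩ := fin_bd (Q := fun (p : Fin P × Fin P) A => ∀ i, |Φ.ot i p.1 p.2| ≤ A)
    (fun _ _ _ e h i => (h i).trans e) fun p => by
      obtain ⟨C, hC⟩ := hc.sc_bd (hc.sc_et ⟨_, (hΦ.lt p.1).2.2 p.2, rfl⟩)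
      exact ⟨C, fun i => (isP_w i).abs_mean_le fun x => hC ⟨i, x⟩⟩
  obtain ⟨A4, h4⟩ := Cx.op_J hc
  refine ⟨max (max (max A1 A2) (max A3 A4)) (max 1 P), by simp, fun i =>
    ⟨by simp, by simp, (h4 ⟨i, default⟩).trans (by simp), fun l => (h1 l i).mono (by simp),
      fun p l => (h2 (p, l) i).mono (by simp), fun p l => (h3 (p, l) i).trans (by simp),
      fun p l h => ⟨?_, ?_⟩⟩⟩
  · funext x; simp only [bp, Flow.av, hΦ.tri p l h]; rfl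
  · simp only [bp, Flow.ot, hΦ.tri p l h]
    have : ∀ x, Uw.eta (F.s i) (R.ev 0 ⟨i, x⟩) = 0 := fun x => by simp [Uw.eta, Net.ev]
    simp only [Fam.me, Fam.E, this, E.mean, mul_zero, sum_const_zero]

/-- `v` is the backpropagation of `w` -/
def IsB (Φ : Flow R P) (a : Fin P → F.Lf (N + 1)) (i : F.I) (w : V (F.n i))
    (v : Fin P → VF (F.n i)) : Prop := ∃ u : Fin P → VF (F.n i), ∀ x,
  Back (F.J i) (Φ.av ⟨i, x⟩) (Φ.ot i) (fun l => w * R.ev (a l) ⟨i, x⟩) (fun l => u l x)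
    fun l => v l x

lemma IsB.eq {i : F.I} {w : V (F.n i)} {v : Fin P → VF (F.n i)} (h : IsB Φ a i w v) (l : Fin P) :
    v l = (bp Φ a i).Z w v l := by
  obtain ⟨u, h⟩ := h
  funext x
  have e : ∀ p, (bp Φ a i).U w v p x = u p x := fun p => ((h x p).1).symm
  simp only [BP.Z, e]
  exact (h x l).2

lemma exists_isB (hE : ExStmt) (hΦ : Φ.Ok) (a : Fin P → F.Lf (N + 1)) (i : F.I) (w : V (F.n i)) :
    ∃ v, IsB Φ a i w v := by
  choose u v h using fun x => ((hE F N P R).2.2.2 Φ hΦ ⟨i, x⟩).1 fun l => w * R.ev (a l) ⟨i, x⟩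
  exact ⟨fun l x => v x l, fun l x => u x l, h⟩

/-! ### small bilinear functionals -/

/-- the bound of (BIL) -/
def bb (e C : ℝ) (D : List F.Df) (i : F.I) (w : V (F.n i)) : ℝ :=
  e * nrm w + C * √(F.K i) * ‖w‖ + C * Fam.Pi D i w

lemma bb_nonneg {e C : ℝ} (he : 0 ≤ e) (hC : 0 ≤ C) (D : List F.Df) (i : F.I) (w : V (F.n i)) :
    0 ≤ bb e C D i w := by
  have := Pi_nonneg D i w
  have := nrm_nonneg w
  unfold bb; positivity

lemma bb_sq (hF : F.Ok) {e C : ℝ} (D : List F.Df) (i : F.I) {w : V (F.n i)} (hw : ‖w‖ ≤ 1) :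
    bb e C D i w ^ 2 ≤ 3 * e ^ 2 * nrm w ^ 2 + 3 * C ^ 2 * F.K i + 3 * C ^ 2 * Fam.Pi D i w ^ 2 := by
  have h0 : 0 ≤ F.K i := zero_le_one.trans (hF.K1 i)
  have h1 : (C * √(F.K i) * ‖w‖) ^ 2 ≤ C ^ 2 * F.K i := by
    rw [mul_pow, mul_pow, Real.sq_sqrt h0]
    exact mul_le_of_le_one_right (by positivity) (pow_le_one₀ (norm_nonneg _) hw)
  unfold bb
  nlinarith [sq_nonneg (e * nrm w - C * √(F.K i) * ‖w‖), sq_nonneg (e * nrm w - C * Fam.Pi D i w),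
    sq_nonneg (C * √(F.K i) * ‖w‖ - C * Fam.Pi D i w)]

/-- functionals which obey the bound of (BIL) -/
def BF (𝒯 : Set F.Df) (β : ∀ i, V (F.n i) → V (F.n i) → ℝ) : Prop := ∀ e > (0 : ℝ),
  ∃ D : List F.Df, (∀ d ∈ D, d ∈ 𝒯) ∧ ∃ C : ℝ, 0 ≤ C ∧ ∀ᶠ i in F.l, ∀ z w : V (F.n i),
    |β i z w| ≤ nrm z * bb e C D i w

variable {β β' : ∀ i, V (F.n i) → V (F.n i) → ℝ}

lemma BF.of_le (h : BF 𝒯 β) (e : ∀ i z w, |β' i z w| ≤ |β i z w|) : BF 𝒯 β' := fun ε hε =>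
  let ⟨D, h1, C, h2, h3⟩ := h ε hε
  ⟨D, h1, C, h2, h3.mono fun i h z w => (e i z w).trans (h z w)⟩

lemma BF.congr (h : BF 𝒯 β) (e : ∀ i z w, β' i z w = β i z w) : BF 𝒯 β' :=
  h.of_le fun i z w => by rw [e]

lemma bf_zero : BF 𝒯 fun _ _ _ => 0 := fun e he =>
  ⟨[], by simp, 0, le_rfl, .of_forall fun i z w => by
    rw [abs_zero]; exact mul_nonneg (nrm_nonneg _) (bb_nonneg he.le le_rfl _ _ _)⟩

lemma BF.add (h : BF 𝒯 β) (h' : BF 𝒯 β') : BF 𝒯 fun i z w => β i z w + β' i z w := fun e he => by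
  obtain ⟨D, h1, C, h2, h3⟩ := h (e / 2) (by positivity)
  obtain ⟨D', k1, C', k2, k3⟩ := h' (e / 2) (by positivity)
  refine ⟨D ++ D', List.forall_mem_append.2 ⟨h1, k1⟩, C + C', add_nonneg h2 k2,
    (h3.and k3).mono fun i h z w => (abs_add_le _ _).trans
      ((add_le_add (h.1 z w) (h.2 z w)).trans ?_)⟩
  rw [← mul_add]
  refine mul_le_mul_of_nonneg_left ?_ (nrm_nonneg _)
  unfold bb
  rw [Pi_append]
  nlinarith [mul_nonneg h2 (Pi_nonneg D' i w), mul_nonneg k2 (Pi_nonneg D i w)]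

lemma BF.sum {σ : Type*} (t : Finset σ) {β : σ → ∀ i, V (F.n i) → V (F.n i) → ℝ}
    (h : ∀ p, BF 𝒯 (β p)) : BF 𝒯 fun i z w => ∑ p ∈ t, β p i z w := by
  classical
  induction t using Finset.induction_on with
  | empty => exact bf_zero.congr fun _ _ _ => sum_empty
  | insert p t hp ih => exact ((h p).add ih).congr fun _ _ _ => sum_insert hp

/-- the pairing with a matrix -/
def bf (d ρ : F.Vf) (A : F.Mf) (i : F.I) (z w : V (F.n i)) : ℝ :=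
  mean (prob (F.w i)) fun x => (z * d ⟨i, x⟩) ⬝ᵥ (A ⟨i, x⟩)ᵀ *ᵥ (w * ρ ⟨i, x⟩)

lemma bf_add (d ρ : F.Vf) (A B : F.Mf) (i : F.I) (z w : V (F.n i)) :
    bf d ρ (fun ω => A ω + B ω) i z w = bf d ρ A i z w + bf d ρ B i z w := by
  simp only [bf, transpose_add, add_mulVec, dotProduct_add, mean_add']

lemma bf_add' {d ρ : F.Vf} {A B : F.Mf} (h1 : BF 𝒯 (bf d ρ A)) (h2 : BF 𝒯 (bf d ρ B)) :
    BF 𝒯 (bf d ρ fun ω => A ω + B ω) := (h1.add h2).congr (bf_add d ρ A B)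

lemma th_abs (hC : ClsStmt) (hF : F.Ok) {σ : F.Sf} (h : Th σ) : ∃ C, 0 ≤ C ∧ ∀ i,
    (F.n i : ℝ) * mean (prob (F.w i)) (fun x => σ ⟨i, x⟩ ^ 2) ≤ C ^ 2 ∧
    √(F.n i) * mean (prob (F.w i)) (fun x => |σ ⟨i, x⟩|) ≤ C := by
  obtain ⟨C, h⟩ := (hC F hF).2.2.1 σ h
  refine ⟨√C, Real.sqrt_nonneg _, fun i => ?_⟩
  have h1 := h i _ (isP_w i)
  have h0 : (0 : ℝ) < F.n i := Nat.cast_pos.2 (hF.pos i)
  rw [Fam.H, Ent.kl_self, zero_add, mul_one, le_div_iff₀ h0, mul_comm] at h1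
  have h2 := mean_sq (isP_w i) fun x => |σ ⟨i, x⟩|
  simp only [sq_abs] at h2
  refine ⟨h1.trans (by nlinarith [Real.sq_sqrt' (x := C), le_max_left C 0]),
    Real.le_sqrt_of_sq_le ?_⟩
  rw [mul_pow, Real.sq_sqrt h0.le]
  exact (mul_le_mul_of_nonneg_left h2 h0.le).trans h1

variable {d ρ : F.Lf (N + 1)}

lemma bf_tp (hC : ClsStmt) (hJ : J1Stmt) (hF : F.Ok) (hR : R.Ok) (hd : d ∈ R.C) (hρ : ρ ∈ R.C)
    {A : F.Mf} (hA : R.cx.TP A) : BF 𝒯 (bf (R.ev d) (R.ev ρ) A) := by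
  have hc := (hJ F N R hF hR).1
  refine sp_ind (c := R.cx) (Q := fun A => BF 𝒯 (bf (R.ev d) (R.ev ρ) A)) (fun σ d' l h1 h2 h3 => ?_)
    (fun A B h1 h2 => ?_) hA
  swap
  · exact bf_add' (A := A) (B := B) h1 h2
  · obtain ⟨C, C0, hC⟩ := th_abs hC hF h1
    obtain ⟨B, B0, hB⟩ := Cx.nn ((Cx.BdV.op (hc.bl_bd h2)).mul (Cx.op_vu hc h3).1)
    obtain ⟨A1, a1, k1⟩ := bd_ev1 hJ hF hR hd
    obtain ⟨A2, a2, k2⟩ := bd_ev1 hJ hF hR hρ
    refine fun e he => ⟨[], by simp, B * A1 * A2 * C, by positivity, .of_forall fun i z w => ?_⟩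
    have k3 := (abs_mean (isP_w i) _).trans ((isP_w i).mean_mono
      (g := fun x => B * (A1 * nrm z * (A2 * nrm w)) * |σ ⟨i, x⟩|)
      (f := fun x => |(z * R.ev d ⟨i, x⟩) ⬝ᵥ (σ ⟨i, x⟩ • (diagonal (d' ⟨i, x⟩) *
        R.cx.vk l ⟨i, x⟩))ᵀ *ᵥ (w * R.ev ρ ⟨i, x⟩)|) fun x => by
      rw [transpose_smul, smul_mulVec, dotProduct_smul, smul_eq_mul, abs_mul, mul_comm]
      refine mul_le_mul_of_nonneg_right ((abs_bil_le _ _ _).trans ?_) (abs_nonneg _)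
      rw [opn_transpose, mul_comm z, mul_comm w]
      exact mul_le_mul (hB ⟨i, x⟩) (mul_le_mul (nrm_mul_le (by linarith) (k1 i x).1)
        (nrm_mul_le (by linarith) (k2 i x).1) (nrm_nonneg _)
          (mul_nonneg (by linarith) (nrm_nonneg _)))
        (mul_nonneg (nrm_nonneg _) (nrm_nonneg _)) B0)
    rw [mean_mul'] at k3
    refine le_trans k3 ?_
    have k4 := (isP_w i).mean_nonneg (f := fun x => |σ ⟨i, x⟩|) fun x => abs_nonneg _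
    have k5 : nrm w * mean (prob (F.w i)) (fun x => |σ ⟨i, x⟩|) ≤ C * √(F.K i) * ‖w‖ := by
      have k6 := mul_le_mul_of_nonneg_right (nrm_le_norm w) k4
      have k7 := mul_le_mul_of_nonneg_left (hC i).2 (norm_nonneg w)
      have k8 := mul_le_mul_of_nonneg_left (one_le_sqrt_K hF i) (mul_nonneg C0 (norm_nonneg w))
      nlinarith
    have z0 := nrm_nonneg z
    have k9 := mul_le_mul_of_nonneg_left k5 (by positivity : 0 ≤ B * A1 * A2 * nrm z)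
    have k10 := mul_nonneg z0 (mul_nonneg he.le (nrm_nonneg w))
    have k11 := mul_nonneg z0 (mul_nonneg (by positivity : 0 ≤ B * A1 * A2 * C) (Pi_nonneg [] i w))
    unfold bb
    nlinarith

lemma bf_W (hF : F.Ok) (hd : d ∈ R.C) {ρ : F.Vf} (hρ : Bil R 𝒯 ρ) {u : List (F.Lf (N + 1))}
    (hu : ∀ a ∈ u, a ∈ R.C) : BF 𝒯 (bf (R.ev d) ρ (R.W u)) := fun e he => by
  obtain ⟨D, h1, C, h2⟩ := hρ d u.reverse hd (fun a ha => hu a (List.mem_reverse.1 ha)) e he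
  refine ⟨D, h1, |C|, abs_nonneg _, h2.mono fun i h z w => ?_⟩
  have e1 : ∀ x, (R.W u ⟨i, x⟩)ᵀ = R.W u.reverse ⟨i, x⟩ := fun x => by
    simp only [Net.W, (Uw.rev (hF.symm i) _).1, List.map_reverse]
  simp only [bf, e1]
  refine (h z w).trans (mul_le_mul_of_nonneg_left ?_ (nrm_nonneg _))
  have k1 := mul_le_mul_of_nonneg_right (le_abs_self C) (Pi_nonneg D i w)
  have k2 := mul_le_mul_of_nonneg_right (le_abs_self C)
    (by positivity : 0 ≤ √(F.K i) * ‖w‖)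
  unfold bb
  nlinarith

lemma bf_Ws (hF : F.Ok) (hd : d ∈ R.C) {ρ : F.Vf} (hρ : Bil R 𝒯 ρ) :
    ∀ {L : List (List (F.Lf (N + 1)))}, (∀ u ∈ L, ∀ a ∈ u, a ∈ R.C) →
      BF 𝒯 (bf (R.ev d) ρ fun ω => (L.map fun u => R.W u ω).sum)
  | [], _ => bf_zero.congr fun i z w => by simp [bf, mean]
  | u :: L, h => ((bf_W hF hd hρ (h u (by simp))).add
      (bf_Ws hF hd hρ (L := L) fun u hu => h u (by simp [hu]))).congr fun i z w => by
    rw [← bf_add]; simp only [List.map_cons, List.sum_cons]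

/-- the means of the weights -/
theorem mb (hE : ExStmt) (hD : DualStmt) (hC : ClsStmt) (hJ : J1Stmt) (hW : WXStmt) (hF : F.Ok)
    (hR : R.Ok) (hΦ : Φ.Ok) (ha : ∀ m, a m ∈ R.C) (hb : ∀ m, Bil R 𝒯 (R.ev (a m))) (hd : d ∈ R.C)
    (l : Fin P) : ∃ β, BF 𝒯 β ∧ ∀ i w v, IsB Φ a i w v → ∀ z,
      mean (prob (F.w i)) (fun x => (z * R.ev d ⟨i, x⟩) ⬝ᵥ v l x) = β i z w := by
  obtain ⟨Ω, L, h1, h2⟩ := (hW F N P R Φ hF hR hΦ).1
  obtain ⟨Φ', hΦ', e1, e2⟩ := (hE F N P R).1 (fun m => if m = l then 1 else 0) Φ.a (fun m => by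
    refine ⟨?_, ?_, (hΦ.lt m).2.2⟩ <;> split_ifs
    exacts [hR.one, zero_mem hR, by funext i k s ξ; simp [Net.gs, gs],
      by funext i k s ξ; simp [Net.gs, gs]]) hΦ.tri
  refine ⟨fun i z w => ∑ m, bf (R.ev d) (R.ev (a m)) (Ω m l) i z w, BF.sum _ fun m =>
    ((bf_tp hC hJ hF hR hd (ha m) (h1 m l).2).add (bf_Ws hF hd (hb m) (h1 m l).1)).congr
      fun i z w => by rw [← bf_add]; simp only [sub_add_cancel], fun i w v ⟨u, h⟩ z => ?_⟩
  simp only [bf]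
  rw [← mean_sum']
  congr 1; funext x
  have r : RecM (F.J i) (Φ.av ⟨i, x⟩) (Φ.ot i) (fun m => if m = l then 1 else 0)
      (fun m => Φ'.T m ⟨i, x⟩) fun m => Φ'.Y m ⟨i, x⟩ := fun m => by
    refine ⟨?_, ?_⟩
    · simp only [Flow.T, Flow.tT, e1, e2, Net.dg, Flow.av]
      congr 1
      split_ifs
      exacts [diagonal_one, diagonal_zero]
    · have := hΦ'.hY m ⟨i, x⟩
      simp only [Flow.ot, e2] at this ⊢
      exact this
  have k1 := (hD _ _ _ _ _ _ _ _ (hF.symm i) (h x)).1 _ _ _ r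
  have k2 := h2 ⟨i, x⟩ _ _ _ r
  have k3 : ∑ m, (if m = l then (1 : Mx (F.n i)) else 0)ᵀ *ᵥ v m x = v l x := by
    rw [sum_eq_single l (fun m _ hm => by simp [hm]) (by simp)]; simp
  rw [k3] at k1
  simp only [k2, mul_ite, Matrix.mul_one, Matrix.mul_zero, sum_ite_eq', mem_univ, if_true] at k1
  rw [← k1, dotProduct_sum]

lemma E0_mono (hF : F.Ok) {e e' C C' : ℝ} (he : e ≤ e') (hC : C ≤ C') (D : List F.Df) (i : F.I)
    (w : V (F.n i)) : E0 e C D i w ≤ E0 e' C' D i w :=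
  add_le_add (add_le_add (mul_le_mul_of_nonneg_right he (by rw [← nrm_sq]; positivity))
    (mul_le_mul_of_nonneg_right hC (zero_le_one.trans (hF.K1 i))))
    (mul_le_mul_of_nonneg_right hC (sq_nonneg _))

end Rg

open Rg Fam Filter Finset Matrix
open Crest.Agent.T157.E (meanV)
open Crest.Agent.T157.Eig

theorem reg1Glue : REG1Glue := by
  intro hH hE hD hC hJ hW F N P R 𝒯 Φ a hF hR hΦ ha hb
  obtain ⟨K, hK⟩ := hb_of hH hF
  obtain ⟨A, A1, hA⟩ := bp_ok hJ hF hR hΦ ha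
  obtain ⟨c, c1, hc⟩ := reg1_inst A (max K 0) P A1 (le_max_right _ _)
  choose β h1 h2 using mb (d := 1) hE hD hC hJ hW hF hR hΦ ha hb hR.one
  have h3 : BF 𝒯 fun i z w => ∑ l, |β l i z w| :=
    BF.sum _ fun l => (h1 l).of_le fun _ _ _ => (abs_abs _).le
  refine ⟨c, fun e he => ?_⟩
  obtain ⟨ε, ε0, ε1, ε2⟩ : ∃ ε : ℝ, 0 < ε ∧ ε ≤ 1 ∧ 4 * c * ε ≤ e :=
    ⟨min 1 (e / (4 * c)), by positivity, min_le_left _ _, by
      rw [mul_comm, ← le_div_iff₀ (by positivity)]; exact min_le_right _ _⟩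
  obtain ⟨η, η0, hη⟩ := hc ε ε0 ε1
  obtain ⟨D, hD, C, C0, h4⟩ := h3 ε ε0
  refine ⟨min η 1, by positivity, D, hD, c * (3 * C ^ 2 + 1), h4.mono fun i h4 w hw => ?_⟩
  obtain ⟨vt, k1, k2⟩ := hη _ _ _ w (hA i) (by rw [max_eq_left (hK i).K0]; exact hK i)
    fun k => (norm_le_pi_norm w k).trans (hw.trans (min_le_left _ _))
  have c0 : 0 ≤ c := by linarith
  refine ⟨vt, fun l => (rg_iff (mul_nonneg c0 (nrm_nonneg _))).2
    ⟨(k1 l).1.mono (by nlinarith), (k1 l).2⟩, fun u v h l => ?_⟩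
  have hv : IsB Φ a i w v := ⟨u, h⟩
  refine ex_mono (k2 v (bb ε C D i w) hv.eq (fun l => ?_) l) (fun _ => le_rfl) (by nlinarith) ?_
  · have k3 := h2 l i w v hv (meanV (F.w i) (v l))
    have k4 := h4 (meanV (F.w i) (v l)) w
    have k5 := single_le_sum (f := fun m => |β m i (meanV (F.w i) (v l)) w|)
      (fun _ _ => abs_nonneg _) (mem_univ l)
    have k6 : ∀ x, meanV (F.w i) (v l) * R.ev 1 ⟨i, x⟩ = meanV (F.w i) (v l) := fun x => mul_one _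
    simp only [k6] at k3
    rw [← dot_meanV, ← nrm_mul_self] at k3
    rcases (nrm_nonneg (meanV (F.w i) (v l))).eq_or_lt with h0 | h0
    · exact h0 ▸ bb_nonneg ε0.le C0 _ _ _
    · exact le_of_mul_le_mul_left (k3.le.trans ((le_abs_self _).trans
        (k5.trans ((le_abs_self _).trans k4)))) h0
  · have k3 := mul_le_mul_of_nonneg_left (bb_sq (e := ε) (C := C) hF D i
      (hw.trans (min_le_right _ _))) c0
    have k4 := mul_le_mul_of_nonneg_right ε2 (sq_nonneg (nrm w))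
    have k5 := mul_le_mul_of_nonneg_left (hF.K1 i) c0
    have k6 := mul_nonneg c0 (sq_nonneg (Fam.Pi D i w))
    have k7 : c * ε ^ 2 * nrm w ^ 2 ≤ c * ε * nrm w ^ 2 :=
      mul_le_mul_of_nonneg_right (mul_le_mul_of_nonneg_left (by nlinarith) c0) (sq_nonneg _)
    unfold E0
    rw [← nrm_sq]
    nlinarith

end Crest.Agent.T157.S3

end
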