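import Crest.Agent.T157.S3RgD_78

/-!
# Row 157, part B, block S3 (helper78): classes of small functionals of the clipped weights, `COLGlue`
-/

set_option autoImplicit false
set_option linter.unusedSectionVars false

noncomputable section

namespace Crest.Agent.T157.S3.Rg

open Matrix Finset Filter
open Crest.Agent.T157.E (Cube sv prob meanV)
open Crest.Agent.T157.Eig Crest.Agent.T157.Rec
open Crest.Agent.T157.Chain22 (mean IsP isP_prob')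
open Crest.Agent.T157.S3W (Cx)
open Fam

variable {F : Fam} {N P : ℕ} {R : Net F N}

/-- a vector, its backpropagation and the clipped weights -/
structure St (F : Fam) (P : ℕ) (i : F.I) where
  w : V (F.n i)
  v : Fin P → VF (F.n i)
  vt : Fin P → VF (F.n i)

/-- the fixed data -/
structure Ct (R : Net F N) (P : ℕ) where
  Φ : Flow R P
  a : Fin P → F.Lf (N + 1)
  𝒯 : Set F.Df
  C0 : ℝ

namespace Ct
variable (t : Ct R P)

/-- the conclusion of `REG1Stmt` -/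
def Cl (e C : ℝ) (D : List F.Df) (i : F.I) (s : St F P i) : Prop :=
  IsB t.Φ t.a i s.w s.v ∧ (∀ l, S3.Rg e (t.C0 * nrm s.w) (s.vt l)) ∧
    ∀ l, Exc (F.w i) e (E0 e C D i s.w) fun x => nrm (s.v l x - s.vt l x)

/-- conclusions which hold with small errors -/
def GS (c : ℝ → ℝ → ∀ i, St F P i → Prop) : Prop := ∀ e > (0 : ℝ), ∃ e' > (0 : ℝ),
  ∀ D' : List F.Df, (∀ d ∈ D', d ∈ t.𝒯) → ∀ C' : ℝ, ∃ η > (0 : ℝ), ∃ D : List F.Df,
    (∀ d ∈ D, d ∈ t.𝒯) ∧ ∃ C : ℝ, 0 ≤ C ∧ ∀ᶠ i in F.l, ∀ s : St F P i, ‖s.w‖ ≤ η →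
      t.Cl e' C' D' i s → c e (E0 e C D i s.w) i s

/-- small excess -/
def XS (g : ∀ i, St F P i → Cube (F.n i) → ℝ) : Prop :=
  t.GS fun e B i s => Exc (F.w i) e B (g i s)
/-- small mean under every law -/
def YS (g : ∀ i, St F P i → Cube (F.n i) → ℝ) : Prop :=
  t.GS fun e B i s => ∀ ν, IsP ν → mean ν (g i s) ≤ B + e * F.H i ν
/-- small regular fields -/
def Small (u : ∀ i, St F P i → VF (F.n i)) : Prop :=
  ∀ e C D i s, ‖s.w‖ ≤ e → t.Cl e C D i s → Bd e (u i s)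

variable {t}

lemma rg_mono {n : ℕ} {e e' L : ℝ} {u : VF n} (h : S3.Rg e L u) (he : e ≤ e') : S3.Rg e' L u :=
  fun x => ⟨(h x).1.trans he, (h x).2.1.trans he, (h x).2.2⟩

lemma Cl.mono (hF : F.Ok) {e e' C : ℝ} {D : List F.Df} {i : F.I} {s : St F P i}
    (h : t.Cl e C D i s) (he : e ≤ e') : t.Cl e' C D i s :=
  ⟨h.1, fun l => rg_mono (h.2.1 l) he, fun l =>
    ex_mono (h.2.2 l) (fun _ => le_rfl) he (E0_mono hF he le_rfl _ _ _)⟩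

variable {c c1 c2 : ℝ → ℝ → ∀ i, St F P i → Prop}

lemma GS.map2 (hF : F.Ok) (h1 : t.GS c1) (h2 : t.GS c2)
    (m1 : ∀ e B B' i s, B ≤ B' → c1 e B i s → c1 e B' i s)
    (m2 : ∀ e B B' i s, B ≤ B' → c2 e B i s → c2 e B' i s)
    (m : ∀ e B B' i s, B ≤ B' → c e B i s → c e B' i s)
    (h : ∀ e > (0 : ℝ), ∃ ε > (0 : ℝ), ∃ k, 0 ≤ k ∧ k * ε ≤ e ∧ ∀ i s B, 1 ≤ B →
      IsB t.Φ t.a i s.w s.v → c1 ε B i s → c2 ε B i s → c e (k * B) i s) : t.GS c := by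
  intro e he
  obtain ⟨ε, ε0, k, k0, k1, hk⟩ := h e he
  obtain ⟨e1, e10, h1⟩ := h1 ε ε0
  obtain ⟨e2, e20, h2⟩ := h2 ε ε0
  refine ⟨min e1 e2, lt_min e10 e20, fun D' hD' C' => ?_⟩
  obtain ⟨η1, η10, D1, d1, C1, c10, h1⟩ := h1 D' hD' C'
  obtain ⟨η2, η20, D2, d2, C2, c20, h2⟩ := h2 D' hD' C'
  refine ⟨min η1 η2, lt_min η10 η20, D1 ++ D2, List.forall_mem_append.2 ⟨d1, d2⟩,
    k * (C1 + C2 + 1), by positivity, (h1.and h2).mono fun i h s hs hc => ?_⟩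
  have p1 := Pi_nonneg D1 i s.w
  have p2 := Pi_nonneg D2 i s.w
  have p3 := hF.K1 i
  have p4 : 0 ≤ s.w ⬝ᵥ s.w := by rw [← nrm_sq]; positivity
  have p5 := mul_nonneg ε0.le p4
  have p6 := mul_nonneg c10 (zero_le_one.trans p3)
  have p7 := mul_nonneg c20 (zero_le_one.trans p3)
  have q1 := mul_nonneg c10 (sq_nonneg (Fam.Pi D1 i s.w))
  have q2 := mul_nonneg c20 (sq_nonneg (Fam.Pi D2 i s.w))
  have q3 := mul_nonneg c10 (sq_nonneg (Fam.Pi D2 i s.w))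
  have q4 := mul_nonneg c20 (sq_nonneg (Fam.Pi D1 i s.w))
  have q5 := mul_nonneg c10 (mul_nonneg p1 p2)
  have q6 := mul_nonneg c20 (mul_nonneg p1 p2)
  have q7 := sq_nonneg (Fam.Pi D1 i s.w + Fam.Pi D2 i s.w)
  refine m _ _ _ _ _ ?_ (hk i s (E0 ε (C1 + C2 + 1) (D1 ++ D2) i s.w) ?_ hc.1
    (m1 _ _ _ _ _ ?_ (h.1 s (hs.trans (min_le_left _ _)) (hc.mono hF (min_le_left _ _))))
    (m2 _ _ _ _ _ ?_ (h.2 s (hs.trans (min_le_right _ _)) (hc.mono hF (min_le_right _ _)))))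
  · have := mul_le_mul_of_nonneg_right k1 p4
    unfold E0; nlinarith
  all_goals unfold E0; rw [Pi_append]; nlinarith

/-- extraction -/
lemma GS.out (hE : ExStmt) (hF : F.Ok) (hΦ : t.Φ.Ok) (h : t.GS c)
    (h1 : ∀ e > (0 : ℝ), ∃ η > (0 : ℝ), ∃ D : List F.Df, (∀ d ∈ D, d ∈ t.𝒯) ∧ ∃ C : ℝ,
      ∀ᶠ i in F.l, ∀ w : V (F.n i), ‖w‖ ≤ η → ∃ vt : Fin P → Cube (F.n i) → V (F.n i),
      (∀ l, S3.Rg e (t.C0 * nrm w) (vt l)) ∧ ∀ u v : Fin P → Cube (F.n i) → V (F.n i),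
        (∀ x, Back (F.J i) (t.Φ.av ⟨i, x⟩) (t.Φ.ot i) (fun l => w * R.ev (t.a l) ⟨i, x⟩)
          (fun l => u l x) fun l => v l x) →
        ∀ l, Exc (F.w i) e (E0 e C D i w) fun x => nrm (v l x - vt l x))
    {e e0 : ℝ} (he : 0 < e) (h0 : 0 < e0) : ∃ η > (0 : ℝ), ∃ D : List F.Df, (∀ d ∈ D, d ∈ t.𝒯) ∧
      ∃ C : ℝ, ∀ᶠ i in F.l, ∀ w : V (F.n i), ‖w‖ ≤ η → ∃ v vt, IsB t.Φ t.a i w v ∧ ‖w‖ ≤ e0 ∧
        (∀ l, S3.Rg e0 (t.C0 * nrm w) (vt l)) ∧ c e (E0 e C D i w) i ⟨w, v, vt⟩ := by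
  obtain ⟨e', e0', h⟩ := h e he
  obtain ⟨η1, η10, D', hD', C', h1⟩ := h1 (min e' e0) (lt_min e0' h0)
  obtain ⟨η2, η20, D, hD, C, -, h⟩ := h D' hD' C'
  refine ⟨min (min η1 η2) e0, by positivity, D, hD, C, (h.and h1).mono fun i h w hw => ?_⟩
  obtain ⟨vt, k1, k2⟩ := h.2 w (hw.trans ((min_le_left _ _).trans (min_le_left _ _)))
  obtain ⟨v, u, hv⟩ := exists_isB hE hΦ t.a i w
  exact ⟨v, vt, ⟨u, hv⟩, hw.trans (min_le_right _ _), fun l => rg_mono (k1 l) (min_le_right _ _),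
    h.1 ⟨w, v, vt⟩ (hw.trans ((min_le_left _ _).trans (min_le_right _ _)))
      (Cl.mono hF ⟨⟨u, hv⟩, k1, k2 u v hv⟩ (min_le_left _ _))⟩

variable {g g' : ∀ i, St F P i → Cube (F.n i) → ℝ}

lemma xm (g : ∀ i, St F P i → Cube (F.n i) → ℝ) (e B B' : ℝ) (i : F.I) (s : St F P i) (h : B ≤ B')
    (k : Exc (F.w i) e B (g i s)) : Exc (F.w i) e B' (g i s) :=
  ex_mono k (fun _ => le_rfl) le_rfl h
lemma ym (g : ∀ i, St F P i → Cube (F.n i) → ℝ) (e B B' : ℝ) (i : F.I) (s : St F P i) (h : B ≤ B')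
    (k : ∀ ν, IsP ν → mean ν (g i s) ≤ B + e * F.H i ν) :
    ∀ ν, IsP ν → mean ν (g i s) ≤ B' + e * F.H i ν :=
  fun ν hν => (k ν hν).trans (add_le_add h le_rfl)

lemma XS.mono (hF : F.Ok) (h : t.XS g)
    (e : ∀ i s, IsB t.Φ t.a i s.w s.v → ∀ x, g' i s x ≤ g i s x) : t.XS g' :=
  GS.map2 hF h h (xm g) (xm g) (xm g') fun ε ε0 => ⟨ε, ε0, 1, zero_le_one, (one_mul _).le,
    fun i s _ _ hb k _ => ex_mono k (e i s hb) le_rfl (one_mul _).ge⟩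

lemma XS.add (hF : F.Ok) (h : t.XS g) (h' : t.XS g') : t.XS fun i s x => g i s x + g' i s x :=
  GS.map2 hF h h' (xm g) (xm g') (xm _) fun ε ε0 => ⟨ε / 4, by positivity, 4, by norm_num,
    by linarith, fun i _ _ _ _ k k' =>
      ex_mono (ex_add (w_pos i) k k') (fun _ => le_rfl) (by linarith) (by linarith)⟩

lemma XS.smul (hF : F.Ok) {r : ℝ} (hr : 0 ≤ r) (h : t.XS g) : t.XS fun i s x => r * g i s x :=
  GS.map2 hF h h (xm g) (xm g) (xm _) fun ε ε0 => by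
    have : r ^ 2 * (ε / (r ^ 2 + 1)) ≤ ε := by
      rw [← mul_div_assoc, div_le_iff₀ (by positivity)]; nlinarith
    exact ⟨ε / (r ^ 2 + 1), by positivity, r ^ 2, sq_nonneg _, this, fun i _ _ _ _ k _ =>
      ex_mono (ex_smul hr k) (fun _ => le_rfl) this le_rfl⟩

lemma E0_nonneg (_hF : F.Ok) {e C : ℝ} (he : 0 ≤ e) (hC : 0 ≤ C) (D : List F.Df) (i : F.I)
    (w : V (F.n i)) : C * F.K i ≤ E0 e C D i w := by
  have : 0 ≤ w ⬝ᵥ w := by rw [← nrm_sq]; positivity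
  have := mul_nonneg hC (sq_nonneg (Fam.Pi D i w))
  unfold E0; nlinarith

/-- functions which are `O(ε)` -/
lemma xs_of (hF : F.Ok) {c : ℝ} (hc : 0 ≤ c) (h : ∀ ε C D i s, 0 < ε → ε ≤ 1 → ‖s.w‖ ≤ ε →
    t.Cl ε C D i s → Exc (F.w i) (c * ε) (c * F.K i) (g i s)) : t.XS g := fun e he => by
  have h1 : c * min 1 (e / (c + 1)) ≤ e := by
    refine (mul_le_mul_of_nonneg_left (min_le_right _ _) hc).trans ?_
    rw [← mul_div_assoc, div_le_iff₀ (by positivity)]; nlinarith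
  exact ⟨min 1 (e / (c + 1)), by positivity, fun D' _ C' => ⟨min 1 (e / (c + 1)), by positivity,
    [], by simp, c, hc, .of_forall fun i s hs k => ex_mono (h _ _ _ i s (by positivity)
      (min_le_left _ _) hs k) (fun _ => le_rfl) h1 (E0_nonneg hF he.le hc _ _ _)⟩⟩

lemma xs_zero (hF : F.Ok) : t.XS fun _ _ _ => 0 := xs_of hF le_rfl fun _ _ _ i _ _ _ _ _ =>
  ex_mono (ex_const (w_pos i) 0) (fun _ => le_rfl) (by simp) (by simp)

lemma XS.sum (hF : F.Ok) {σ : Type*} (T : Finset σ) {g : σ → ∀ i, St F P i → Cube (F.n i) → ℝ}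
    (h : ∀ p, t.XS (g p)) : t.XS fun i s x => ∑ p ∈ T, g p i s x := by
  classical
  induction T using Finset.induction_on with
  | empty => exact (xs_zero hF).mono hF fun _ _ _ _ => sum_empty.le
  | insert p T hp ih => exact ((h p).add hF ih).mono hF fun _ _ _ _ => (sum_insert hp).le

lemma xs_err (hF : F.Ok) (l : Fin P) : t.XS fun _ s x => nrm (s.v l x - s.vt l x) := fun e he =>
  ⟨e, he, fun D' hD' C' => ⟨1, one_pos, D', hD', |C'|, abs_nonneg _, .of_forall fun _ _ _ k =>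
    ex_mono (k.2.2 l) (fun _ => le_rfl) le_rfl (E0_mono hF le_rfl (le_abs_self _) _ _ _)⟩⟩

lemma XS.avg (hF : F.Ok) (h : t.XS g) (h0 : ∀ i s x, 0 ≤ g i s x) :
    t.XS fun i s _ => mean (prob (F.w i)) (g i s) :=
  GS.map2 hF h h (xm g) (xm g) (xm _) fun ε ε0 => ⟨ε, ε0, 1, zero_le_one, (one_mul _).le,
    fun i s _ _ _ k _ => ex_mono (ex_const (w_pos i) _) (fun _ => le_rfl) ε0.le
      (((mean_sq (isP_w i) _).trans (ex_mean (w_pos i) k (h0 i s))).trans (one_mul _).ge)⟩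

lemma xs_bb (hF : F.Ok) {m : ∀ i, V (F.n i) → ℝ} (h : ∀ e > (0 : ℝ), ∃ D : List F.Df,
    (∀ d ∈ D, d ∈ t.𝒯) ∧ ∃ C : ℝ, ∀ᶠ i in F.l, ∀ w, |m i w| ≤ bb e C D i w) :
    t.XS fun i s _ => m i s.w := fun e he => by
  obtain ⟨D, hD, C, h⟩ := h (min 1 (e / 3)) (by positivity)
  refine ⟨1, one_pos, fun _ _ _ => ⟨1, one_pos, D, hD, 3 * C ^ 2, by positivity,
    h.mono fun i h s hs _ => ex_mono (ex_const (w_pos i) _) (fun _ => le_rfl) he.le ?_⟩⟩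
  rw [← sq_abs]
  refine (pow_le_pow_left₀ (abs_nonneg _) (h s.w) 2).trans ((bb_sq hF D i hs).trans ?_)
  have h1 : 3 * min 1 (e / 3) ^ 2 ≤ e := by
    nlinarith [min_le_left 1 (e / 3), min_le_right 1 (e / 3),
      (by positivity : 0 < min 1 (e / 3))]
  have := mul_le_mul_of_nonneg_right h1 (sq_nonneg (nrm s.w))
  unfold E0; rw [← nrm_sq]; linarith

lemma small_vt (l : Fin P) : t.Small fun _ s => s.vt l := fun _ _ _ _ _ _ h =>
  ((rg_iff ((nrm_nonneg _).trans (h.2.1 l default).2.2.1)).1 (h.2.1 l)).1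

lemma small_w : t.Small fun _ s _ => s.w := fun _ _ _ _ s hs _ =>
  bd_const ((norm_nonneg _).trans hs) fun k => (norm_le_pi_norm s.w k).trans hs

variable {u : ∀ i, St F P i → VF (F.n i)} {d : F.Lf (N + 1)}

lemma xs_col (hH : HBStmt) (hJ : J1Stmt) (hF : F.Ok) (hR : R.Ok) (hu : t.Small u) (hd : d ∈ R.C)
    (hm : t.XS fun i s _ =>
      |mean (prob (F.w i)) fun x => u i s x ⬝ᵥ R.ev d ⟨i, x⟩| / √(F.n i)) :
    t.XS fun i s x => |u i s x ⬝ᵥ R.ev d ⟨i, x⟩| / √(F.n i) := by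
  obtain ⟨K, hK⟩ := hb_of hH hF
  obtain ⟨A, A1, hA⟩ := bd_ev1 hJ hF hR hd
  have h1 : t.XS fun i s x => |(√(F.n i))⁻¹ * (u i s x ⬝ᵥ R.ev d ⟨i, x⟩ +
      -mean (prob (F.w i)) fun x => u i s x ⬝ᵥ R.ev d ⟨i, x⟩)| := by
    refine xs_of hF (c := 128 * A ^ 2 + 16 * |K| * A ^ 2) (by positivity)
      fun ε C D i s ε0 ε1 hs hc => ?_
    have k0 := (hK i).K0
    have k1 := ((hK i).col (by linarith) ε0.le (hA i) (hu _ _ _ _ _ hs hc)).1
    have k2 := (hK i).var _ _ k1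
    have n0 : (0 : ℝ) < F.n i := Nat.cast_pos.2 (hF.pos i)
    have k3 : (√(F.n i))⁻¹ ^ 2 * (4 * A * ε * √(F.n i)) ^ 2 = 16 * A ^ 2 * ε ^ 2 := by
      rw [mul_pow, inv_pow, Real.sq_sqrt n0.le]; field_simp; ring
    have k4 : ε ^ 2 ≤ ε := by nlinarith
    have k5 := mul_le_mul_of_nonneg_left k4 (sq_nonneg A)
    rw [abs_of_nonneg k0]
    refine ex_abs (ts_mono (ts_smul _ (ts_add (ts_grad k1) (ts_const _))) ?_) ?_
    · nlinarith [mul_nonneg (mul_nonneg k0 (sq_nonneg A)) ε0.le]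
    · simp only [mul_pow, ← sub_eq_add_neg]
      rw [mean_mul']
      refine (mul_le_mul_of_nonneg_left k2 (sq_nonneg _)).trans ?_
      rw [mul_left_comm, k3]
      have k6 := mul_le_mul_of_nonneg_left (hF.K1 i)
        (by positivity : 0 ≤ 128 * A ^ 2 + 16 * K * A ^ 2)
      have k7 := mul_le_mul_of_nonneg_left (k4.trans ε1) (mul_nonneg k0 (sq_nonneg A))
      nlinarith [sq_nonneg A]
  refine (h1.add hF hm).mono hF fun i s _ x => ?_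
  rw [abs_mul, abs_inv, abs_of_nonneg (Real.sqrt_nonneg _), inv_mul_eq_div, ← add_div]
  refine div_le_div_of_nonneg_right ?_ (Real.sqrt_nonneg _)
  simpa using abs_add_le (u i s x ⬝ᵥ R.ev d ⟨i, x⟩ +
    -mean (prob (F.w i)) fun x => u i s x ⬝ᵥ R.ev d ⟨i, x⟩)
    (mean (prob (F.w i)) fun x => u i s x ⬝ᵥ R.ev d ⟨i, x⟩)

lemma abs_dot_div (hF : F.Ok) {i : F.I} {A : ℝ} (hA : 0 ≤ A) (z : V (F.n i)) {d : V (F.n i)}
    (hd : ∀ k, |d k| ≤ A) : |z ⬝ᵥ d| / √(F.n i) ≤ A * nrm z := by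
  have h := nrm_le_sqrt hA hd
  rw [Fintype.card_fin] at h
  rw [div_le_iff₀ (sqrt_n_pos hF i)]
  nlinarith [abs_dot_le z d, mul_le_mul_of_nonneg_left h (nrm_nonneg z)]

/-- the standing hypotheses -/
structure Ok (t : Ct R P) : Prop where
  hH : HBStmt
  hE : ExStmt
  hD : DualStmt
  hC : ClsStmt
  hJ : J1Stmt
  hW : WXStmt
  hF : F.Ok
  hR : R.Ok
  ty : R.Ty t.𝒯
  hΦ : t.Φ.Ok
  ha : ∀ m, t.a m ∈ R.C
  hb : ∀ m, Bil R t.𝒯 (R.ev (t.a m))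

lemma Ok.col_vt (h : t.Ok) (hd : d ∈ R.C) (l : Fin P) :
    t.XS fun i s x => |s.vt l x ⬝ᵥ R.ev d ⟨i, x⟩| / √(F.n i) := by
  have hF := h.hF
  obtain ⟨β, h1, h2⟩ := mb h.hE h.hD h.hC h.hJ h.hW hF h.hR h.hΦ h.ha h.hb hd l
  obtain ⟨A, A1, hA⟩ := bd_ev1 h.hJ hF h.hR hd
  have A0 : 0 ≤ A := by linarith
  have k1 : t.XS fun i s _ => |β i 1 s.w| / √(F.n i) := xs_bb hF
    (m := fun i w => |β i 1 w| / √(F.n i)) fun e he => by
    obtain ⟨D, hD, C, C0, h⟩ := h1 e he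
    refine ⟨D, hD, C, h.mono fun i h w => ?_⟩
    have k := nrm_le_sqrt (v := (1 : V (F.n i))) zero_le_one fun k => by simp
    rw [one_mul, Fintype.card_fin] at k
    rw [abs_div, abs_abs, abs_of_nonneg (Real.sqrt_nonneg _), div_le_iff₀ (sqrt_n_pos hF i),
      mul_comm]
    exact (h 1 w).trans (mul_le_mul_of_nonneg_right k (bb_nonneg he.le C0 _ _ _))
  refine xs_col h.hH h.hJ hF h.hR (small_vt l) hd ((k1.add hF
    (((xs_err hF l).smul hF A0).avg hF fun _ _ _ => mul_nonneg A0 (nrm_nonneg _))).mono hF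
      fun i s hb _ => ?_)
  have k2 : mean (prob (F.w i)) (fun x => s.vt l x ⬝ᵥ R.ev d ⟨i, x⟩) = β i 1 s.w -
      mean (prob (F.w i)) fun x => (s.v l x - s.vt l x) ⬝ᵥ R.ev d ⟨i, x⟩ := by
    rw [← h2 i s.w s.v hb 1, ← mean_sub']
    congr 1; funext x
    rw [one_mul, sub_dotProduct, dotProduct_comm (s.v l x)]; ring
  rw [k2]
  refine (div_le_div_of_nonneg_right ((abs_sub _ _).trans (add_le_add le_rfl
    (abs_mean (isP_w i) _))) (Real.sqrt_nonneg _)).trans ?_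
  rw [add_div, div_eq_inv_mul (mean _ _), ← mean_mul']
  exact add_le_add le_rfl ((isP_w i).mean_mono fun x => by
    rw [inv_mul_eq_div]; exact abs_dot_div hF A0 _ (hA i x).1)

lemma Ok.col_v (h : t.Ok) (hd : d ∈ R.C) (l : Fin P) :
    t.XS fun i s x => |s.v l x ⬝ᵥ R.ev d ⟨i, x⟩| / √(F.n i) := by
  obtain ⟨A, A1, hA⟩ := bd_ev1 h.hJ h.hF h.hR hd
  have A0 : 0 ≤ A := by linarith
  refine ((h.col_vt hd l).add h.hF ((xs_err h.hF l).smul h.hF A0)).mono h.hF fun i s _ x => ?_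
  refine le_trans ?_ (add_le_add le_rfl (abs_dot_div h.hF A0 _ (hA i x).1))
  rw [← add_div, sub_dotProduct]
  refine div_le_div_of_nonneg_right ?_ (Real.sqrt_nonneg _)
  simpa using abs_add_le (s.vt l x ⬝ᵥ R.ev d ⟨i, x⟩)
    (s.v l x ⬝ᵥ R.ev d ⟨i, x⟩ - s.vt l x ⬝ᵥ R.ev d ⟨i, x⟩)

lemma Ok.col_w (h : t.Ok) (hd : d ∈ R.C) :
    t.XS fun i s x => |s.w ⬝ᵥ R.ev d ⟨i, x⟩| / √(F.n i) := by
  have hF := h.hF
  obtain ⟨τ, h1, h2⟩ := h.ty d hd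
  refine xs_col h.hH h.hJ hF h.hR small_w hd (xs_bb hF (m := fun i w =>
    |mean (prob (F.w i)) fun x => w ⬝ᵥ R.ev d ⟨i, x⟩| / √(F.n i)) fun e he => ?_)
  obtain ⟨C, hC⟩ := h2 e he
  refine ⟨[τ], by simpa, √|C| + 1, hC.mono fun i hC w => ?_⟩
  obtain ⟨δ, hδ⟩ : ∃ δ, δ = F.EV (R.ev d) i - τ i := ⟨_, rfl⟩
  obtain ⟨ρ, hρ⟩ : ∃ ρ : V (F.n i), ∀ k, ρ k = max (|δ k| - e) 0 := ⟨_, fun _ => rfl⟩
  simp only [← hδ, ← hρ] at hC
  have n0 := sqrt_n_pos hF i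
  have K0 : 0 ≤ F.K i := zero_le_one.trans (hF.K1 i)
  have k1 : mean (prob (F.w i)) (fun x => w ⬝ᵥ R.ev d ⟨i, x⟩) = w ⬝ᵥ τ i + w ⬝ᵥ δ := by
    rw [← dot_meanV, hδ, dotProduct_sub, add_sub_cancel]; rfl
  have k2 : nrm ρ ≤ √|C| * √(F.K i) := nrm_le_of_sq (by positivity) (hC.trans (by
    rw [mul_pow, Real.sq_sqrt (abs_nonneg _), Real.sq_sqrt K0]
    exact mul_le_mul_of_nonneg_right (le_abs_self _) K0))
  have k3 : nrm δ ≤ e * √(F.n i) + nrm ρ := by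
    have k4 := nrm_le_sqrt (v := fun _ : Fin (F.n i) => e) he.le fun k => (abs_of_pos he).le
    rw [Fintype.card_fin] at k4
    refine le_trans ((nrm_mono zero_le_one fun k => ?_).trans_eq (one_mul _))
      ((nrm_add_le (fun _ => e) ρ).trans (add_le_add k4 le_rfl))
    rw [one_mul, Pi.add_apply, hρ]
    exact le_trans (by linarith [le_max_left (|δ k| - e) 0]) (le_abs_self _)
  have k5 := nrm_le_norm w
  have k6 := (abs_dot_le w δ).trans (mul_le_mul_of_nonneg_left (k3.trans (add_le_add le_rfl k2))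
    (nrm_nonneg w))
  have k7 := mul_le_mul_of_nonneg_right k5 (by positivity : 0 ≤ √|C| * √(F.K i))
  have k8 : Fam.Pi [τ] i w * √(F.n i) = |w ⬝ᵥ τ i| := by simp [Fam.Pi, n0.ne']
  have k9 := mul_nonneg (Real.sqrt_nonneg |C|) (abs_nonneg (w ⬝ᵥ τ i))
  have k10 : 0 ≤ √(F.K i) * ‖w‖ * √(F.n i) := by positivity
  rw [abs_div, abs_abs, abs_of_pos n0, div_le_iff₀ n0, k1, bb, add_mul, mul_assoc _ (Fam.Pi _ _ _),
    k8]
  nlinarith [abs_add_le (w ⬝ᵥ τ i) (w ⬝ᵥ δ)]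

/-! ### the collective part -/

lemma YS.mono (hF : F.Ok) (h : t.YS g)
    (e : ∀ i s, IsB t.Φ t.a i s.w s.v → ∀ x, g' i s x ≤ g i s x) : t.YS g' :=
  GS.map2 hF h h (ym g) (ym g) (ym g') fun ε ε0 => ⟨ε, ε0, 1, zero_le_one, (one_mul _).le,
    fun i s _ _ hb k _ ν hν => (hν.mean_mono (e i s hb)).trans (by rw [one_mul]; exact k ν hν)⟩

lemma YS.add (hF : F.Ok) (h : t.YS g) (h' : t.YS g') : t.YS fun i s x => g i s x + g' i s x :=
  GS.map2 hF h h' (ym g) (ym g') (ym _) fun ε ε0 => ⟨ε / 2, by positivity, 2, by norm_num,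
    by linarith, fun i _ _ _ _ k k' ν hν => by
      rw [mean_add']; linarith [k ν hν, k' ν hν]⟩

lemma XS.th (hH : HBStmt) (hC : ClsStmt) (hF : F.Ok) (h : t.XS g) (h0 : ∀ i s x, 0 ≤ g i s x)
    {θ : F.Sf} (hθ : Th θ) : t.YS fun i s x => √(F.n i) * |θ ⟨i, x⟩| * g i s x := by
  obtain ⟨K, hK⟩ := hb_of hH hF
  obtain ⟨C, hC⟩ := (hC F hF).2.2.1 θ hθ
  refine GS.map2 hF h h (xm g) (xm g) (ym _) fun e he => ?_
  obtain ⟨l, l0, hl⟩ : ∃ l : ℝ, 0 < l ∧ l * |C| ≤ e := ⟨e / (|C| + 1), by positivity, by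
    rw [div_mul_eq_mul_div, div_le_iff₀ (by positivity)]; nlinarith⟩
  obtain ⟨ε, ε0, ε1, ε2⟩ : ∃ ε : ℝ, 0 < ε ∧ (l⁻¹ + e) * ε ≤ e ∧ l⁻¹ * (|K| * ε) ≤ e :=
    ⟨min (e / (l⁻¹ + e)) (e / (l⁻¹ * (|K| + 1))), by positivity, by
      rw [mul_comm, ← le_div_iff₀ (by positivity)]; exact min_le_left _ _, by
      have := (le_div_iff₀ (by positivity)).1 (min_le_right (e / (l⁻¹ + e))
        (e / (l⁻¹ * (|K| + 1))))
      have : 0 < l⁻¹ * min (e / (l⁻¹ + e)) (e / (l⁻¹ * (|K| + 1))) := by positivity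
      nlinarith⟩
  refine ⟨ε, ε0, l⁻¹ + e, by positivity, ε1, fun i s B B1 _ k _ ν hν => ?_⟩
  have n0 : (0 : ℝ) < F.n i := Nat.cast_pos.2 (hF.pos i)
  have H0 := H_nonneg i hν
  have k1 : mean ν (fun x => g i s x ^ 2) ≤ 2 * B + K * ε * (F.H i ν + 1) := (hK i).ex k (h0 i s) hν
  have k2 := hC i ν hν
  rw [le_div_iff₀ n0] at k2
  have k3 := hν.mean_mono (f := fun x => √(F.n i) * |θ ⟨i, x⟩| * g i s x)
    (g := fun x => l / 2 * F.n i * θ ⟨i, x⟩ ^ 2 + l⁻¹ / 2 * g i s x ^ 2) fun x => by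
    have k4 : (√(F.n i) * |θ ⟨i, x⟩|) ^ 2 = F.n i * θ ⟨i, x⟩ ^ 2 := by
      rw [mul_pow, Real.sq_sqrt n0.le, sq_abs]
    have k5 := mul_nonneg (inv_pos.2 l0).le (sq_nonneg (l * (√(F.n i) * |θ ⟨i, x⟩|) - g i s x))
    have k6 : l⁻¹ * (l * (√(F.n i) * |θ ⟨i, x⟩|) - g i s x) ^ 2 = l * (√(F.n i) * |θ ⟨i, x⟩|) ^ 2 -
        2 * (√(F.n i) * |θ ⟨i, x⟩| * g i s x) + l⁻¹ * g i s x ^ 2 := by field_simp; ring
    rw [k6, k4] at k5
    linarith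
  rw [mean_add', mean_mul', mean_mul'] at k3
  have k7 := mul_le_mul_of_nonneg_left (k2.trans (mul_le_mul_of_nonneg_right (le_abs_self C)
    (by linarith))) l0.le
  have k8 := mul_le_mul_of_nonneg_left k1 (inv_pos.2 l0).le
  have k9 := mul_le_mul_of_nonneg_right hl (by linarith : 0 ≤ F.H i ν + 1)
  have k10 := mul_le_mul_of_nonneg_right ε2 (by linarith : 0 ≤ F.H i ν + 1)
  have k11 := mul_le_mul_of_nonneg_left B1 he.le
  rw [abs_of_nonneg (hK i).K0] at k10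
  nlinarith

lemma ys_tv (h : t.Ok) (hu : ∀ d ∈ R.C, t.XS fun i s x => |u i s x ⬝ᵥ R.ev d ⟨i, x⟩| / √(F.n i))
    {g : F.Vf} (hg : R.cx.TV g) : t.YS fun i s x => |u i s x ⬝ᵥ g ⟨i, x⟩| := by
  refine sv_ind (c := R.cx) (Q := fun g => t.YS fun i s x => |u i s x ⬝ᵥ g ⟨i, x⟩|)
    (fun σ d h1 h2 => ?_) (fun A B h1 h2 => ?_) hg
  · obtain ⟨d, hd, rfl⟩ := h2
    refine ((hu d hd).th h.hH h.hC h.hF (fun _ _ _ => by positivity) h1).mono h.hF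
      fun i s _ x => le_of_eq ?_
    have := (sqrt_n_pos h.hF i).ne'
    rw [dotProduct_smul, smul_eq_mul, abs_mul]; field_simp
  · exact (YS.add h.hF h1 h2).mono h.hF fun i s _ x => by
      rw [dotProduct_add]; exact abs_add_le _ _

lemma YS.sum (h : t.Ok) {σ : Type*} (T : Finset σ) {g : σ → ∀ i, St F P i → Cube (F.n i) → ℝ}
    (hg : ∀ p, t.YS (g p)) : t.YS fun i s x => ∑ p ∈ T, g p i s x := by
  classical
  induction T using Finset.induction_on with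
  | empty =>
    exact fun e he => ⟨1, one_pos, fun _ _ _ => ⟨1, one_pos, [], by simp, 0, le_rfl,
      .of_forall fun i s _ _ ν hν => by
        have := E0_nonneg h.hF he.le le_rfl [] i s.w
        have := mul_nonneg he.le (H_nonneg i hν)
        simp only [sum_empty, hν.mean_const]; linarith⟩⟩
  | insert p T hp ih => exact ((hg p).add h.hF ih).mono h.hF fun _ _ _ _ => (sum_insert hp).le

end Ct

end Rg

open Rg Fam Filter Finset Matrix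

theorem colGlue : COLGlue := by
  intro hH hE hD hC hJ hW h1 F N P R 𝒯 Φ a g c c' g0 hF hR ty hΦ ha hb hc h0 e he
  obtain ⟨C0, h1⟩ := h1 F N P R 𝒯 Φ a hF hR hΦ ha hb
  have h : Ct.Ok ⟨Φ, a, 𝒯, C0⟩ := ⟨hH, hE, hD, hC, hJ, hW, hF, hR, ty, hΦ, ha, hb⟩
  have k1 := (Ct.ys_tv (u := fun _ s _ => s.w) h (fun d hd => h.col_w hd) h0).add hF
    (Ct.YS.sum h univ fun l => Ct.ys_tv (u := fun _ s => s.v l) h (fun d hd => h.col_v hd l)
      (hc.1 l))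
  have k2 := k1.mono (g' := fun i s x =>
      |s.w ⬝ᵥ (g0 ⟨i, x⟩ + ∑ m, R.ev (a m) ⟨i, x⟩ * c' m ⟨i, x⟩)|) hF fun i s ⟨u, hu⟩ x => by
    have k3 := (hD _ _ _ _ _ _ _ _ (hF.symm i) (hu x)).2 _ _ _ (hc.2 ⟨i, x⟩)
    have k4 : s.w ⬝ᵥ ∑ m, R.ev (a m) ⟨i, x⟩ * c' m ⟨i, x⟩ = ∑ l, s.v l x ⬝ᵥ g l ⟨i, x⟩ := by
      rw [← k3, dotProduct_sum]
      exact sum_congr rfl fun m _ => sum_congr rfl fun k _ => (mul_assoc _ _ _).symm
    rw [dotProduct_add, k4]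
    exact (abs_add_le _ _).trans (add_le_add le_rfl (abs_sum_le_sum_abs _ _))
  obtain ⟨η, η0, D, d1, C, k5⟩ := Ct.GS.out hE hF hΦ k2 h1 he one_pos
  exact ⟨η, η0, D, d1, C, k5.mono fun i k w hw => let ⟨_, _, _, _, _, k⟩ := k w hw; k⟩

end Crest.Agent.T157.S3

end
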