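import Crest.Agent.T157.S3Y_43
import Crest.Agent.T157.S3Ex_98

/-!
# Row 157, part B, block S3 (helper43): the leaf (WX)
-/

set_option autoImplicit false
set_option linter.unusedSectionVars false
set_option linter.unusedVariables false

noncomputable section

namespace Crest.Agent.T157.S3

open Matrix Finset
open Crest.Agent.T157.E (Cube)
open Crest.Agent.T157.S3W Crest.Agent.T157.S3W.Cx
open Ex98 Fam

namespace W43

theorem sum_Iio {M : Type*} [AddCommMonoid M] {P : ℕ} (l : Fin P) {f : Fin P → M}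
    (h : ∀ m, l ≤ m → f m = 0) : ∑ m, f m = ∑ m ∈ Iio l, f m :=
  (sum_subset (subset_univ _) fun m _ hm => h m (by simpa using hm)).symm

section rec
variable {n P : ℕ} {J : Mx n} {a : Fin P → Fin P → V n} {ot : Fin P → Fin P → ℝ}

theorem rec_uniq (ha : ∀ l m, l ≤ m → a l m = 0) (ho : ∀ l m, l ≤ m → ot l m = 0)
    {S T Y T' Y' : Fin P → Mx n} (h : RecM J a ot S T Y) (h' : RecM J a ot S T' Y') (l : Fin P) :
    T l = T' l ∧ Y l = Y' l := by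
  induction l using WellFoundedLT.induction with
  | _ l ih =>
    have e : T l = T' l := by
      rw [(h l).1, (h' l).1]
      exact congrArg _ (sum_lt (l := l) (fun m hm => by rw [(ih m hm).2]) fun m hm => by
        simp [ha l m hm])
    refine ⟨e, ?_⟩
    rw [(h l).2, (h' l).2, e]
    exact congrArg _ (sum_lt (l := l) (fun m hm => by rw [(ih m hm).1]) fun m hm => by
      simp [ho l m hm])

theorem rec_sup {Θ Ω : Fin P → Fin P → Mx n}
    (h : ∀ q, RecM J a ot (fun l => if l = q then 1 else 0) (Θ q) (Ω q)) (S : Fin P → Mx n) :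
    RecM J a ot S (fun l => ∑ q, Θ q l * S q) fun l => ∑ q, Ω q l * S q := fun l => by
  constructor
  · simp only [fun q => (h q l).1, Matrix.add_mul, sum_add_distrib, ite_mul, Matrix.one_mul,
      Matrix.zero_mul, sum_ite_eq, mem_univ, if_true, Matrix.sum_mul, Matrix.mul_sum,
      Matrix.mul_assoc]
    rw [sum_comm]
  · simp only [fun q => (h q l).2, Matrix.sub_mul, sum_sub_distrib, Matrix.sum_mul, Matrix.mul_sum,
      Matrix.mul_assoc, Matrix.smul_mul, smul_sum]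
    rw [sum_comm]

end rec

theorem ps_cl' {Ω : Type*} {c : Cx Ω} {N : Type*} {pre : N → Finset N} {a : N → N → c.VF}
    {al : N → c.VF} {β : Ω → Type*} [∀ ω, AddCommMonoid (β ω)] {Q : (∀ ω, β ω) → Prop}
    (h0 : Q fun _ => 0) (ha : ∀ {A B}, Q A → Q B → Q fun ω => A ω + B ω)
    (hbl : ∀ l, ∀ m ∈ pre l, c.BL (a l m)) :
    ∀ (k : ℕ) (l : N) {G : List c.VF → ∀ ω, β ω}, (∀ u q, c.Lt u → Q (G (u ++ [al q]))) →
      Q fun ω => ps pre al a k l fun u => G u ω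
  | 0, _, _, _ => h0
  | k + 1, l, _, hF => ha (hF [] l lt_nil) (sumP h0 ha _ fun m hm =>
      ps_cl' h0 ha hbl k m fun u q hu => hF (a l m :: u) q (lt_cons.2 ⟨hbl l m hm, hu⟩))

variable {F : Fam} {N P P' : ℕ} {R : Net F N} {Φ : Flow R P} {Φ' : Flow R P'}
  {g : F.Lf (N + 1)}

theorem bl (hg : g ∈ R.C) : R.cx.BL (R.ev g) := ⟨g, hg, rfl⟩

theorem th_me (hC : ClsStmt) (hF : F.Ok) (h : R.cx.Ok) {u : F.Vf} (hu : R.cx.BL u) :
    R.cx.Th fun ω => R.cx.et u ω - F.me u ω.1 := (hC F hF).1 _ (h.sc_et hu)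

theorem sc_me (hC : ClsStmt) (hF : F.Ok) (h : R.cx.Ok) {u : F.Vf} (hu : R.cx.BL u) :
    R.cx.Sc fun ω => F.me u ω.1 :=
  cg (h.md.sub h (h.sc_et hu) (h.th.sc (th_me hC hF h hu))) fun _ => sub_sub_cancel _ _

variable (Φ) in
/-- the letters and constants as families -/
abbrev aa (l m : Fin P) : R.cx.VF := R.ev (Φ.a l m)
variable (Φ) in
abbrev oo (l m : Fin P) (ω : F.Ω) : ℝ := Φ.ot ω.1 l m

theorem fm (hC : ClsStmt) (hF : F.Ok) (h : R.cx.Ok) (hΦ : Φ.Ok) :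
    R.cx.Fm Iio Fin.val (aa Φ) (oo Φ) :=
  ⟨fun _ _ hm => Fin.lt_def.1 (mem_Iio.1 hm), fun l m _ => bl ((hΦ.lt l).2.2 m),
    fun l m _ => th_me hC hF h (bl ((hΦ.lt l).2.2 m))⟩

theorem rc (hΦ : Φ.Ok) {S T Y : Fin P → F.Mf} (h : ∀ ω, RecM (F.J ω.1) (Φ.av ω) (Φ.ot ω.1)
    (fun l => S l ω) (fun l => T l ω) fun l => Y l ω) : R.cx.Rc Iio (aa Φ) (oo Φ) S T Y :=
  ⟨fun l ω => (h ω l).1.trans (congrArg _ (sum_Iio l fun m hm => by
      simp [av_zero hΦ.tri ω l m hm])),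
    fun l ω => (h ω l).2.trans (congrArg _ (sum_Iio l fun m hm => by
      simp [ot_zero hΦ.tri ω.1 l m hm]))⟩

theorem rcY (hΦ : Φ.Ok) :
    R.cx.Rc Iio (aa Φ) (oo Φ) (fun l ω => diagonal (R.ev (Φ.al l) ω)) Φ.T Φ.Y :=
  rc hΦ fun ω l => ⟨rfl, hΦ.hY l ω⟩

variable (R) in
/-- finite sums of Wick words -/
def WL (A : F.Mf) : Prop := ∃ L : List (List (F.Lf (N + 1))), (∀ u ∈ L, ∀ a ∈ u, a ∈ R.C) ∧
  ∀ ω, A ω = (L.map fun u => R.W u ω).sum

theorem wl_zero : WL R fun _ => 0 := ⟨[], by simp, fun _ => rfl⟩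

theorem WL.add {A B : F.Mf} (hA : WL R A) (hB : WL R B) : WL R fun ω => A ω + B ω :=
  let ⟨L, a1, a2⟩ := hA; let ⟨M, b1, b2⟩ := hB
  ⟨L ++ M, List.forall_mem_append.2 ⟨a1, b1⟩, fun ω => by
    rw [List.map_append, List.sum_append, ← a2, ← b2]⟩

theorem lt_ev : ∀ {u : List R.cx.VF}, R.cx.Lt u →
    ∃ l : List (F.Lf (N + 1)), (∀ a ∈ l, a ∈ R.C) ∧ u = l.map R.ev
  | [], _ => ⟨[], by simp, rfl⟩
  | _ :: _, h => by
    obtain ⟨⟨g, hg, rfl⟩, h2⟩ := lt_cons.1 h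
    obtain ⟨l, hl, rfl⟩ := lt_ev h2
    exact ⟨g :: l, List.forall_mem_cons.2 ⟨hg, hl⟩, rfl⟩

theorem wl_wk {u : List R.cx.VF} (hu : R.cx.Lt u) : WL R (R.cx.wk u) := by
  obtain ⟨l, hl, rfl⟩ := lt_ev hu
  exact ⟨[l], by simpa using hl, fun ω => by simp [wk, Net.W, Function.comp_def]⟩

theorem wx1 (hC : ClsStmt) (hF : F.Ok) (h : R.cx.Ok) (hΦ : Φ.Ok) :
    ∃ (Ω : Fin P → Fin P → F.Mf) (L : Fin P → Fin P → List (List (F.Lf (N + 1)))),
    (∀ l m, (∀ u ∈ L l m, ∀ a ∈ u, a ∈ R.C) ∧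
      R.cx.TP fun ω => Ω l m ω - ((L l m).map fun u => R.W u ω).sum) ∧
    ∀ ω S T Y, RecM (F.J ω.1) (Φ.av ω) (Φ.ot ω.1) S T Y → ∀ l, Y l = ∑ m, Ω l m ω * S m := by
  choose Θ Ω hΩ using fun (q : Fin P) (ω : F.Ω) => recM_ex (F.J ω.1) (av_zero hΦ.tri ω)
    (ot_zero hΦ.tri ω.1) fun l => if l = q then 1 else 0
  have key : ∀ l q, ∃ L : List (List (F.Lf (N + 1))), (∀ u ∈ L, ∀ a ∈ u, a ∈ R.C) ∧
      R.cx.TP fun ω => Ω q ω l - (L.map fun u => R.W u ω).sum := fun l q => by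
    let al : Fin P → R.cx.VF := fun l _ _ => if l = q then 1 else 0
    have e : ∀ l ω, diagonal (al l ω) = if l = q then 1 else 0 := fun l ω => by
      by_cases hl : l = q <;> simp [al, hl]
    have r : R.cx.Rc Iio (aa Φ) (oo Φ) (fun l ω => diagonal (al l ω)) (fun l ω => Θ q ω l)
        fun l ω => Ω q ω l := rc hΦ fun ω => by simpa only [e] using hΩ q ω
    have f := fm hC hF h hΦ
    obtain ⟨L, h1, h2⟩ := ps_cl' (Q := WL R) (al := al) wl_zero WL.add f.bl (l + 1) l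
      (G := R.cx.vk) fun u p hu => by
        by_cases hp : p = q
        · exact cg (wl_wk hu) fun ω => by rw [vk_snoc, e, if_pos hp, Matrix.mul_one]
        · exact cg wl_zero fun ω => by rw [vk_snoc, e, if_neg hp, Matrix.mul_zero]
    exact ⟨L, h1, cg (wx_ps h f (fun l => h.bl_const _) r _ l (Nat.lt_succ_self _)).2
      fun ω => congrArg _ (h2 ω)⟩
  choose L hL using key
  exact ⟨fun l q ω => Ω q ω l, L, hL, fun ω S T Y hr l => (rec_uniq (av_zero hΦ.tri ω)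
    (ot_zero hΦ.tri ω.1) hr (rec_sup (fun q => hΩ q ω) S) l).2⟩

/-- the Gram formula with the deterministic constants -/
theorem wx2 (hC : ClsStmt) (hF : F.Ok) (h : R.cx.Ok) (hΦ : Φ.Ok) (hΦ' : Φ'.Ok)
    {d : F.Lf (N + 1)} (hd : d ∈ R.C) {Pb : Fin P → Fin P' → F.I → ℝ} (hP : Φ.IsP Φ' d Pb)
    (l : Fin P) (m : Fin P') : R.cx.Sc (fun ω => Pb l m ω.1) ∧ ∃ B, R.cx.CW B ∧
      R.cx.TP fun ω => Φ.Y l ω * R.dg d ω * (Φ'.Y m ω)ᵀ - Pb l m ω.1 • 1 - B ω := by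
  have f := fm hC hF h hΦ
  have f' := fm hC hF h hΦ'
  have hal := fun l => bl (hΦ.lt l).1
  have hal' := fun l => bl (hΦ'.lt l).1
  obtain ⟨Q, hQ⟩ := tri_ex (α := Fin P' → F.Ω → ℝ) wellFounded_lt
    (fun l u m ω => R.cx.et (fun ω => R.ev (Φ.al l) ω * R.ev d ω * R.ev (Φ'.al m) ω) ω +
      ∑ p ∈ Iio l, ∑ q ∈ Iio m, R.cx.et (fun ω => aa Φ l p ω * aa Φ' m q ω) ω * u p q ω)
    fun l u v e => by
      funext m ω
      exact congrArg _ (sum_congr rfl fun p hp => by rw [e p (mem_Iio.1 hp)])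
  have hQ' := fun l m ω => congrFun (congrFun (hQ l) m) ω
  have sQ := gram_sc h f f' hal hal' (bl hd) hQ'
  have tQ : ∀ l m, R.cx.Th fun ω => Q l m ω - Pb l m ω.1 :=
    rk_ind (Q := fun l => ∀ m, R.cx.Th fun ω => Q l m ω - Pb l m ω.1) f.rk fun l ih m => by
      have b := fun p hp q hq => h.bl_mul (f.bl l p hp) (f'.bl m q hq)
      refine cg (h.th.add (th_me hC hF h (h.bl_mul (h.bl_mul (hal l) (bl hd)) (hal' m)))
        (h.th.sum (Iio l) fun p hp => h.th.sum (Iio m) fun q hq => h.th.add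
          (h.th.mul (sQ p q) (th_me hC hF h (b p hp q hq)))
          (h.th.mul (sc_me hC hF h (b p hp q hq)) (ih p hp q)))) fun ω => ?_
      have e : ∑ p, ∑ q, F.me (R.ev (Φ.a l p * Φ'.a m q)) ω.1 * Pb p q ω.1 =
          ∑ p ∈ Iio l, ∑ q ∈ Iio m, F.me (fun ω => aa Φ l p ω * aa Φ' m q ω) ω.1 * Pb p q ω.1 := by
        rw [sum_Iio l fun p hp => by simp [hΦ.tri l p hp, me_zero]]
        exact sum_congr rfl fun p _ => sum_Iio m fun q hq => by simp [hΦ'.tri m q hq, me_zero]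
      rw [hQ' l m ω, hP l m, e, add_sub_add_comm, ← sum_sub_distrib]
      refine congrArg₂ _ rfl (sum_congr rfl fun p _ => ?_)
      rw [← sum_sub_distrib]
      exact sum_congr rfl fun q _ => by ring
  obtain ⟨A, B, h1, h2, e⟩ := gram h f f' hal hal' (rcY hΦ) (rcY hΦ') (bl hd) hQ' l m
  refine ⟨cg (h.md.sub h (sQ l m) (h.th.sc (tQ l m))) fun _ => sub_sub_cancel _ _, A, h1,
    cg ((Sp.smulP h.th (tQ l m) (pr_one h)).add h2) fun ω => ?_⟩
  rw [Net.dg, e, sub_smul]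
  abel

end W43

open W43

theorem wxGlue : WXGlue := fun hC hJ F N P R Φ hF hR hΦ =>
  have h := (hJ F N R hF hR).1
  ⟨wx1 hC hF h hΦ, fun P' Φ' d Pb hΦ' hd hP l m =>
    let ⟨h1, h2⟩ := wx2 hC hF h hΦ hΦ' hd hP l m
    let ⟨C, hC⟩ := h.sc_bd h1
    ⟨⟨C, fun i => hC ⟨i, fun _ => true⟩⟩, h2⟩⟩

end Crest.Agent.T157.S3

end
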