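import Crest.Agent.T157.S6Cp_38
import Crest.Agent.T157.S6Mh_68

/-!
# Row 157, block S6 (helper38): `S6.cpStmt`
-/

set_option autoImplicit false

noncomputable section

namespace Crest.Agent.T157.S6

open Matrix Real Set Filter Topology
open Crest.Agent.T157.E hiding mean
open Crest.Agent.T157.Eig Crest.Agent.T157.Reg Crest.Agent.T157.S6c
open Crest.Agent.T157.Tap (V Mx)
open Crest.Agent.T157.Rec (grad)
open Crest.Agent.T157.Chain22 (sg hasDerivAt_sg)
open Crest.Agent.T157.S3.Rg (nrm_mono nrm_sq')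

namespace Cq38

variable {n : ℕ} {W : Mx n}

lemma fl_grad (hW : Wᵀ = W) {F : ℝ → Cube n → ℝ} {r : ℝ → V n} (τ : ℝ)
    (h : ∀ s x i, HasDerivAt (fun u => grad (F u) x i) (grad (gen (mu W) (F s)) x i - r s i) s) :
    Fl W (fun v => grad (F v)) (fun v x => bb W (grad (F v)) x - r v) τ :=
  ⟨fun x i s _ => (h s x i).continuousAt.continuousWithinAt, fun s _ x i =>
    (h s x i).congr_deriv (by rw [Bas66.grad_gen hW, vel, Pi.sub_apply]; ring)⟩

/-- the excess lives on few sites -/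
lemma exc_le {η m A ε : ℝ} (hη : 0 < η) {z : V n} (hz : nrm z ^ 2 ≤ A) (hm : A ≤ η ^ 2 * m)
    (h : ∀ S : Finset (Fin n), (S.card : ℝ) ≤ m → nrm (PT S *ᵥ z) ≤ ε) : exc η z ≤ ε ^ 2 := by
  set S := Finset.univ.filter fun i => η < |z i| with hS
  have h1 : (S.card : ℝ) * η ^ 2 ≤ nrm z ^ 2 := by
    rw [nrm_sq', ← nsmul_eq_mul]
    refine (Finset.card_nsmul_le_sum S (fun i => z i ^ 2) _ fun i hi => ?_).trans
      (Finset.sum_le_sum_of_subset_of_nonneg (Finset.subset_univ _) fun _ _ _ => sq_nonneg _)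
    rw [← sq_abs (z i)]
    exact pow_le_pow_left₀ hη.le (Finset.mem_filter.1 hi).2.le 2
  have h2 := h S (le_of_mul_le_mul_right (by linarith) (pow_pos hη 2))
  refine le_trans ?_ (pow_le_pow_left₀ (nrm_nonneg _) h2 2)
  rw [nrm_sq', exc]
  refine Finset.sum_le_sum fun i _ => ?_
  rw [PT_mulVec]
  split_ifs with e
  · rw [← sq_abs (z i)]
    exact pow_le_pow_left₀ (le_max_right _ _) (max_le (by linarith) (abs_nonneg _)) 2
  · rw [max_eq_right (by simpa [hS] using e)]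

lemma exc_le' {η : ℝ} (hη : 0 < η) (z : V n) : exc η z ≤ nrm z ^ 2 := by
  rw [nrm_sq', exc]
  refine Finset.sum_le_sum fun i _ => ?_
  rw [← sq_abs (z i)]
  exact pow_le_pow_left₀ (le_max_right _ _) (max_le (by linarith) (abs_nonneg _)) 2

lemma sq_le_of_unit {a : V n} {E : ℝ} {S : Finset (Fin n)} (hE : 0 ≤ E)
    (h : ∀ w : V n, nrm w ≤ 1 → (∀ k ∉ S, w k = 0) → (a ⬝ᵥ w) ^ 2 ≤ E) : ∑ k ∈ S, a k ^ 2 ≤ E := by
  set b := PT S *ᵥ a with hb
  have e : ∑ k ∈ S, a k ^ 2 = a ⬝ᵥ b := by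
    simp only [dotProduct, hb, PT_mulVec, mul_ite, mul_zero, Finset.sum_ite_mem, Finset.univ_inter, sq]
  have e' : a ⬝ᵥ b = nrm b ^ 2 := by
    rw [nrm_sq]
    exact Finset.sum_congr rfl fun k _ => by rw [hb, PT_mulVec]; split_ifs <;> simp
  rw [e, e']
  rcases (nrm_nonneg b).eq_or_lt with z | z
  · rw [← z]; simpa using hE
  have := h ((nrm b)⁻¹ • b) (by rw [nrm_smul, abs_of_pos (inv_pos.2 z), inv_mul_cancel₀ z.ne'])
    fun k hk => by rw [Pi.smul_apply, hb, PT_mulVec, if_neg hk, smul_zero]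
  rwa [dotProduct_smul, e', smul_eq_mul, sq (nrm b), inv_mul_cancel_left₀ z.ne'] at this

lemma PT_pT (T : Finset (Fin n)) (u : V n) : pT T * u = PT T *ᵥ u := by
  funext i; rw [PT_mulVec, Pi.mul_apply, pT]; split_ifs <;> simp

lemma Rw_eq (T : Finset (Fin n)) : Rw T W = PT T * W * PT Tᶜ := by
  ext i j; by_cases hi : i ∈ T <;> by_cases hj : j ∈ T <;> simp [Rw, PT, hi, hj]

lemma PT_add (T : Finset (Fin n)) : PT T + PT Tᶜ = 1 := by
  rw [PT, PT, diagonal_add, ← diagonal_one]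
  congr 1; funext i; by_cases hi : i ∈ T <;> simp [hi]

lemma PT_mul (S T : Finset (Fin n)) : PT S * PT T = PT (S ∩ T) := by
  rw [PT, PT, PT, diagonal_mul_diagonal]
  congr 1; funext i; by_cases hi : i ∈ S <;> simp [hi]

end Cq38

open Cq38

set_option maxHeartbeats 400000 in
theorem cpStmt : CPStmt := by
  intro K
  obtain ⟨C, C1, hC⟩ := cp K
  obtain ⟨G, G0, hG⟩ := opn_Mg K
  obtain ⟨D, D1, hD⟩ := coefStmt K
  obtain ⟨L, hL⟩ : ∃ L, L = (D + |K| + 1) * (|K| + 1) := ⟨_, rfl⟩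
  have L1 : 1 ≤ L := by rw [hL]; nlinarith [abs_nonneg K]
  refine ⟨C + 2 * G + 1 + 20 * C * L ^ 2, by nlinarith, fun n W ρ a m ε η τ b T B ε0 ε1 η0 τ0 hT hm
    hS hB x hx ho v hv => ?_⟩
  have hW := a.nice
  have K0 := (opn_nonneg W).trans hW.2.1
  rw [abs_of_nonneg K0] at hL
  have hW' := nice_cav hW T
  obtain ⟨g, hg⟩ : ∃ g, g = exp (G * τ) := ⟨_, rfl⟩
  have g1 : 1 ≤ g := hg ▸ one_le_exp (by positivity)
  obtain ⟨A, hA⟩ : ∃ A, A = (L * g) ^ 2 := ⟨_, rfl⟩
  have A1 : 1 ≤ A := hA ▸ one_le_pow₀ (one_le_mul_of_one_le_of_one_le L1 g1)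
  obtain ⟨C', hC'⟩ : ∃ C', C' = C + 2 * G + 1 + 20 * C * L ^ 2 := ⟨_, rfl⟩
  rw [← hC'] at hm ⊢
  have C0 : 0 ≤ C' := by rw [hC']; positivity
  have lk : K * (g * K) + g * K + D * (g * K) + g ≤ L * g := by
    have := mul_nonneg (show 0 ≤ D + K by linarith) (zero_le_one.trans g1)
    rw [hL]; linarith
  have gK : K ≤ g * K := le_mul_of_one_le_left K0 g1
  have lk1 : 0 ≤ K * (g * K) := by positivity
  have lk2 : 0 ≤ D * (g * K) := by positivity
  have τe := add_one_le_exp τ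
  have big : 20 * C * exp (C * τ) * (A * exp τ) ≤ C' * exp (C' * τ) := by
    rw [hA, hg, mul_pow, ← exp_nat_mul, show 20 * C * exp (C * τ) * (L ^ 2 * exp ((2 : ℕ) * (G * τ)) *
      exp τ) = 20 * C * L ^ 2 * (exp (C * τ) * exp ((2 : ℕ) * (G * τ)) * exp τ) by ring, ← exp_add,
      ← exp_add]
    refine mul_le_mul (by linarith) (exp_le_exp.2 ?_) (exp_pos _).le (by positivity)
    have : 0 ≤ 20 * C * L ^ 2 * τ := by positivity
    rw [hC']; push_cast; linarith
  have c1 : 1 ≤ C * exp (C * τ) := one_le_mul_of_one_le_of_one_le C1 (one_le_exp (by positivity))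
  have Am : A ≤ η ^ 2 * m := by
    have := mul_le_mul c1 (le_mul_of_one_le_right (zero_le_one.trans A1)
      (by linarith : 1 ≤ exp τ)) (zero_le_one.trans A1) (zero_le_one.trans c1)
    linarith
  obtain ⟨E, hE⟩ : ∃ E, E = C' * exp (C' * τ) * (ε ^ 2 + η ^ 2 * (T.card + 1)) / 2 := ⟨_, rfl⟩
  have R1 : opn (Rw T W)ᵀ ≤ K := by rw [opn_transpose, Rw_eq]; exact (opn_sand _ _ W).trans hW.2.1
  have main : ∀ w : V n, nrm w ≤ 1 → PT T *ᵥ w = w → (∀ l, Yf W ρ w v x l ^ 2 ≤ E) ∧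
      (∀ j, (bb W (Yf W ρ w v) x j - (ρ v • w) j) ^ 2 ≤ E) ∧
      (Yf W ρ w v x - Mg (cav T W) v x *ᵥ (Rw T W)ᵀ *ᵥ w) ⬝ᵥ
        (Yf W ρ w v x - Mg (cav T W) v x *ᵥ (Rw T W)ᵀ *ᵥ w) ≤ E := fun w w1 wT => by
    have ap : ∀ {M : Mx n} {c : ℝ}, opn M ≤ c → nrm (M *ᵥ w) ≤ c := fun hM =>
      (nrm_mulVec_le _ w).trans ((mul_le_of_le_one_right (opn_nonneg _) w1).trans hM)
    set u0 := (Rw T W)ᵀ *ᵥ w with hu0
    have u1 : nrm u0 ≤ K := ap R1
    have z1 : ∀ t ∈ Icc 0 τ, ∀ z, nrm (Mg (cav T W) t z *ᵥ u0) ≤ g * K := fun t ht z =>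
      (nrm_mulVec_le _ _).trans (mul_le_mul ((hG n _ a.pos hW'.1 hW'.2.1 t ht.1 z).trans
        (hg ▸ exp_le_exp.2 (mul_le_mul_of_nonneg_left ht.2 G0))) u1 (nrm_nonneg _) (by positivity))
    have z2 : ∀ t ∈ Icc 0 τ, ∀ z, nrm (am (cav T W) z *ᵥ Mg (cav T W) t z *ᵥ u0) ^ 2 ≤ A :=
      fun t ht z => hA ▸ pow_le_pow_left₀ (nrm_nonneg _) ((nrm_mulVec_le _ _).trans
        ((mul_le_mul (hD n _ hW' z).2.2.2.2.1 (z1 t ht z) (nrm_nonneg _) (by positivity)).trans (by
          linarith))) 2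
    have c0 : ∀ t ∈ Icc 0 τ, ∀ z, nrm (cc (cav T W) z * Mg (cav T W) t z *ᵥ u0) ≤ g * K :=
      fun t ht z => (nrm_mono zero_le_one fun i => by
        rw [Pi.mul_apply, abs_mul]
        exact mul_le_mul_of_nonneg_right (abs_le.2 ⟨by
          linarith [show 0 ≤ cc (cav T W) z i from Coef54.t1_nn _], Coef54.t1_le _⟩)
          (abs_nonneg _)).trans ((one_mul _).trans_le (z1 t ht z))
    have hZ := fl_grad (F := fun t => sg (mu (cav T W)) t fun z => u0 ⬝ᵥ sv z) (r := fun _ => 0)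
      hW'.1 τ fun s z i => by
        simpa using Da.Gr.hasDerivAt_grad (hasDerivAt_sg a.pos (Bas66.mu_pos _) _ · s) z i
    have e0 : ∀ t, grad (sg (mu (cav T W)) t fun z => u0 ⬝ᵥ sv z) =
        fun z => Mg (cav T W) t z *ᵥ u0 := fun t => funext (grad_sg_lin _ u0 t)
    simp only [sub_zero, e0] at hZ
    have ε2 : ε ^ 2 ≤ A * ε ^ 2 := le_mul_of_one_le_left (sq_nonneg ε) A1
    have i1 : ∀ (S : Set (Cube n)) z, S.indicator (1 : Cube n → ℝ) z ≤ 1 := fun S z => by
      by_cases h : z ∈ S <;> simp [h]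
    refine hC n W a.pos hW a.dg T u0 (fun t => ρ t • w) (Yf W ρ w) _ τ η (5 * (A * ε ^ 2))
      (fun z => A * {z | ¬ G3 W m ε τ T z}.indicator 1 z) (fun z => 5 * (A * exp τ) * B.indicator 1 z)
      η0 (by positivity) (fun z => mul_nonneg (by positivity) (ind_nn _ z))
      (fun z => mul_nonneg (by positivity) (ind_nn _ z))
      (fl_grad hW.1 τ (hasDerivAt_Yf a.pos W a.cont w)) hZ (fun z => by rw [Mg_zero a.pos, one_mulVec])
      (fun z => ?_) (fun t ht z => ?_) (fun t ht z => ?_) v hv x E ?_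
    · have h1 : nrm (Yf W ρ w 0 z - u0) ≤ ε := by
        refine le_trans (le_of_eq ?_) (ap (hS T T hT hT))
        rw [Yf_zero a.pos, hu0, Rw_eq, transpose_mul, transpose_mul, PT, PT, diagonal_transpose,
          diagonal_transpose, ← PT, ← PT, hW.1, ← sub_mulVec, ← mul_assoc]
        conv_lhs => rw [← wT, mulVec_mulVec, sub_mul, mul_assoc _ (PT T), PT_mul, Finset.inter_self,
          ← sub_mul, ← one_sub_mul, ← PT_add T, add_sub_cancel_right]
      have h2 := exc_le η0 (z := u0) (ε := ε) (show _ ≤ A from hA ▸ pow_le_pow_left₀ (nrm_nonneg _)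
        (u1.trans (by linarith)) 2) Am fun S hS' => by
          refine le_trans (le_of_eq ?_) (ap (hS (S ∩ Tᶜ) T (le_trans (Nat.cast_le.2
            (Finset.card_le_card Finset.inter_subset_left)) hS') hT))
          rw [hu0, Rw_eq, transpose_mul, transpose_mul, PT, PT, PT, diagonal_transpose,
            diagonal_transpose, ← PT, ← PT, ← PT, hW.1, mulVec_mulVec, ← mul_assoc, ← mul_assoc, PT_mul]
      rw [← nrm_sq]
      linarith [pow_le_pow_left₀ (nrm_nonneg _) h1 2, sq_nonneg ε]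
    · by_cases h : G3 W m ε τ T z
      · have := exc_le η0 (z2 t ht z) Am fun S hS' => by
          simpa only [hu0, mulVec_mulVec, ← mul_assoc] using ap (h t ht S hS')
        refine le_trans this ?_
        simp only [mem_ofPred_eq, h, not_true, not_false_eq_true, indicator_of_notMem, mul_zero]
        linarith [sq_nonneg ε]
      · refine ((exc_le' η0 _).trans (z2 t ht z)).trans ?_
        simp only [mem_ofPred_eq, h, not_false_eq_true, indicator_of_mem, Pi.one_apply]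
        linarith [sq_nonneg ε]
    · rw [tot_const_mul]
      change _ + A * oc _ _ _ _ ≤ _
      by_cases h : z ∈ B
      · have h1 : nrm (pT T * W *ᵥ (cc (cav T W) z * Mg (cav T W) t z *ᵥ u0) - ρ t • w) ≤ L * g := by
          refine (nrm_sub_le _ _).trans ?_
          rw [PT_pT, nrm_smul, abs_of_nonneg (a.bd t ht.1).1]
          have := (nrm_PT T _).trans ((nrm_mulVec_le W _).trans (mul_le_mul hW.2.1 (c0 t ht z)
            (nrm_nonneg _) K0))
          have := mul_le_mul (a.bd t ht.1).2 w1 (nrm_nonneg _) zero_le_one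
          linarith
        have h2 : oc (cav T W) {z | ¬ G3 W m ε τ T z} τ z ≤ τ := by
          have := oc_mono a.pos (cav T W) (subset_univ {z | ¬ G3 W m ε τ T z}) τ0 le_rfl z
          simpa [oc, Pi.one_def, Rec.sg_const a.pos (Bas66.mu_pos _)] using this
        have h3 := pow_le_pow_left₀ (nrm_nonneg _) h1 2
        rw [← hA] at h3
        simp only [h, indicator_of_mem, Pi.one_apply]
        have A0 := zero_le_one.trans A1
        linarith [mul_le_mul_of_nonneg_left (i1 {z | ¬ G3 W m ε τ T z} z) A0, sq_nonneg ε,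
          mul_le_mul_of_nonneg_left h2 A0, mul_le_mul_of_nonneg_left τe A0, mul_nonneg A0 τ0]
      · have c := hB z h
        have h1 : nrm (pT T * W *ᵥ (cc (cav T W) z * Mg (cav T W) t z *ᵥ u0) - ρ t • w) ≤
            ε + ε * (L * g) := by
          refine le_trans (le_of_eq ?_) ((nrm_add_le _ _).trans (add_le_add (ap (c.g1 t ht))
            ((nrm_mulVec_le _ _).trans (mul_le_mul (hS T T hT hT) ((c0 t ht z).trans (by
              linarith)) (nrm_nonneg _) ε0.le))))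
          congr 1
          rw [PT_pT, sub_mulVec, smul_mulVec, wT, ← mulVec_mulVec, ← mulVec_mulVec, ← mulVec_mulVec,
            ← hu0, show Matrix.diagonal (cc (cav T W) z) *ᵥ Mg (cav T W) t z *ᵥ u0 =
              cc (cav T W) z * Mg (cav T W) t z *ᵥ u0 from funext fun i => mulVec_diagonal _ _ i,
            sub_add_eq_add_sub, ← add_mulVec, Rw_eq, ← mul_add, add_comm, PT_add, mul_one,
            mulVec_mulVec]
        have h3 := pow_le_pow_left₀ (nrm_nonneg _) h1 2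
        simp only [mem_ofPred_eq, c.g3, h, not_true, not_false_eq_true, indicator_of_notMem, mul_zero]
        linarith [mul_le_mul_of_nonneg_left c.g5 (zero_le_one.trans A1), sq_nonneg (ε - ε * (L * g)), show (ε * (L * g)) ^ 2 = A * ε ^ 2 by
          rw [hA]; ring]
    · rw [tot_const_mul, hE, indicator_of_notMem hx, mul_zero, add_zero]
      change _ * (_ + _ * oc _ _ _ _) ≤ _
      have h1 : 5 * (A * ε ^ 2) + η ^ 2 * (T.card + 1) + 5 * (A * exp τ) * oc W B τ x ≤
          10 * (A * exp τ) * (ε ^ 2 + η ^ 2 * (T.card + 1)) := by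
        have p : 0 ≤ η ^ 2 * ((T.card : ℝ) + 1) := by positivity
        have q : A ≤ A * exp τ := le_mul_of_one_le_right (by positivity) (by linarith)
        linarith [mul_le_mul_of_nonneg_left ho (show 0 ≤ A * exp τ by positivity),
          mul_le_mul_of_nonneg_right q (sq_nonneg ε), mul_le_mul_of_nonneg_right (A1.trans q) p]
      linarith [mul_le_mul_of_nonneg_left h1 (zero_le_one.trans c1), mul_le_mul_of_nonneg_right big
        (show 0 ≤ ε ^ 2 + η ^ 2 * ((T.card : ℝ) + 1) by positivity)]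
  obtain ⟨e, he⟩ : ∃ e, e = C' * exp (C' * τ) * (√ε + η * √(T.card + 1)) := ⟨_, rfl⟩
  rw [← he]
  have c2 : 20 ≤ C' * exp (C' * τ) := by
    linarith [one_le_mul_of_one_le_of_one_le c1 (one_le_mul_of_one_le_of_one_le A1
      (by linarith : 1 ≤ exp τ))]
  have E0 : 0 ≤ E := by rw [hE]; positivity
  have Ee : 2 * ε + 2 * E ≤ e ^ 2 := by
    have h1 : ε + η ^ 2 * (T.card + 1) ≤ (√ε + η * √(T.card + 1)) ^ 2 := by
      rw [add_sq, mul_pow, sq_sqrt ε0.le, sq_sqrt (by positivity)]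
      have : 0 ≤ 2 * √ε * (η * √(T.card + 1 : ℝ)) := by positivity
      linarith
    have p : 0 ≤ η ^ 2 * ((T.card : ℝ) + 1) := by positivity
    have h2 : ε ^ 2 ≤ ε := pow_le_of_le_one ε0.le ε1 two_ne_zero
    rw [he, hE, mul_pow]
    generalize C' * exp (C' * τ) = c at c2 ⊢
    refine le_trans ?_ (mul_le_mul_of_nonneg_left h1 (sq_nonneg c))
    have c0 : 0 ≤ c := by linarith
    have h3 : c + 2 ≤ c ^ 2 := by linarith [mul_le_mul_of_nonneg_left c2 c0]
    linarith [mul_le_mul_of_nonneg_right h3 (add_nonneg ε0.le p), mul_le_mul_of_nonneg_left h2 c0]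
  have E1 : E ≤ e ^ 2 := by linarith
  have sp : ∀ {S : Finset (Fin n)} {w : V n}, S ⊆ T → (∀ k ∉ S, w k = 0) → PT T *ᵥ w = w :=
    fun hS hw => funext fun k => by
      rw [PT_mulVec]; split_ifs with hk
      · rfl
      · exact (hw k fun h => hk (hS h)).symm
  have om : ∀ {w : V n}, PT T *ᵥ w = w → Om W ρ T v x *ᵥ w = Yf W ρ w v x := fun hw => by
    rw [Om_mulVec a.pos W a.cont, hw]
  refine ⟨fun l => ?_, fun j => ?_, fun k hk => ?_, ?_⟩
  · refine (sq_le_of_unit (a := Om W ρ T v x l) E0 fun w w1 _ => ?_).trans E1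
    have := (main (PT T *ᵥ w) ((nrm_PT T w).trans w1) (by
      rw [mulVec_mulVec, PT_mul, Finset.inter_self])).1 l
    rwa [← Om_mulVec a.pos W a.cont] at this
  · refine (sq_le_of_unit (a := (am W x * Om W ρ T v x) j) E0 fun w w1 hw => ?_).trans E1
    have h := sp (Finset.erase_subset j T) hw
    have := (main w w1 h).2.1 j
    rwa [Pi.smul_apply, hw j (Finset.notMem_erase j T), smul_zero, sub_zero, bb, ← om h,
      mulVec_mulVec] at this
  · have h := sp (w := Pi.single k 1) (Finset.singleton_subset_iff.2 hk) fun i hi =>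
      Pi.single_eq_of_ne (by simpa using hi) _
    have := (main _ (nrm_single k).le h).2.1 k
    rw [bb, ← om h, mulVec_mulVec, mulVec_single_one] at this
    refine abs_le_of_sq_le_sq (le_trans (le_of_eq ?_) (this.trans E1)) (by rw [he]; positivity)
    simp
  · have g2 := (hB x hx).g2 v hv
    have h : opn (Om W ρ T v x) ≤ opn (Mg (cav T W) v x * (Rw T W)ᵀ) + √E := by
      refine opn_le_of_nrm (add_nonneg (opn_nonneg _) (sqrt_nonneg _)) fun w => ?_
      rcases (nrm_nonneg w).eq_or_lt with z | z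
      · simp [nrm_eq_zero.1 z.symm]
      have w1 : nrm (PT T *ᵥ ((nrm w)⁻¹ • w)) ≤ 1 := (nrm_PT T _).trans (by
        rw [nrm_smul, abs_of_pos (inv_pos.2 z), inv_mul_cancel₀ z.ne'])
      have := (main _ w1 (by rw [mulVec_mulVec, PT_mul, Finset.inter_self])).2.2
      rw [← Om_mulVec a.pos W a.cont, ← nrm_sq, mulVec_mulVec] at this
      have h1 := (nrm_mulVec_le (Mg (cav T W) v x * (Rw T W)ᵀ) _).trans
        (mul_le_of_le_one_right (opn_nonneg _) w1)
      have h2 := nrm_add_le (Om W ρ T v x *ᵥ ((nrm w)⁻¹ • w) - (Mg (cav T W) v x * (Rw T W)ᵀ) *ᵥ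
        PT T *ᵥ ((nrm w)⁻¹ • w)) ((Mg (cav T W) v x * (Rw T W)ᵀ) *ᵥ PT T *ᵥ ((nrm w)⁻¹ • w))
      rw [sub_add_cancel, mulVec_smul, nrm_smul, abs_of_pos (inv_pos.2 z)] at h2
      rw [mul_comm, ← inv_mul_le_iff₀ z]
      have h3 := le_sqrt_of_sq_le this
      rw [mulVec_smul] at h3
      linarith
    refine (pow_le_pow_left₀ (opn_nonneg _) h 2).trans ?_
    linarith [sq_sqrt E0, sq_nonneg (opn (Mg (cav T W) v x * (Rw T W)ᵀ) - √E)]

end Crest.Agent.T157.S6

end
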