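import Crest.Agent.T157.S6Def_93
import Crest.Agent.T157.S6PL_20

/-!
# Row 157, block S6 (helper43): the facts (C), (G) in the words of the first half
-/

set_option autoImplicit false

noncomputable section

namespace Crest.Agent.T157.S6a

open Matrix Real Filter Finset
open Crest.Agent.T157.E Crest.Agent.T157.Eig
open Crest.Agent.T157.Tap (V Mx)
open Crest.Agent.T157.Rec (grad fl grad_eq sv_mul_self)
open Crest.Agent.T157.Reg (VF mu am jac Nice)

namespace Fa43

variable {n : ℕ} {W : Mx n} {ρ : ℝ → ℝ} {v o ε : ℝ} {x : Cube n} {T : Finset (Fin n)}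

theorem hess (f : Cube n → ℝ) (x : Cube n) (i j : Fin n) :
    grad f (fl x i) j - grad f x j = -2 * sv x i * grad (fun z => grad f z i) x j := by
  by_cases h : i = j
  · subst h
    rw [grad_eq (fun z => grad f z i), Reg.Bas66.grad_fl]; ring
  · have e : ∀ {a b : Fin n}, a ≠ b → sv (fl x a) b = sv x b := fun hab => by
      simp only [sv, fl, Function.update_of_ne hab.symm]
    simp only [grad_eq, e h, e (Ne.symm h), S6h.fl_comm x j i]
    linear_combination (sv x j * (f x - f (fl x i) - f (fl x j) + f (fl (fl x i) j)) / 2) *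
      sv_mul_self x i

theorem row_le (M : Mx n) (i : Fin n) : ∑ k, M i k ^ 2 ≤ opn M ^ 2 := by
  simpa only [opn_transpose, transpose_apply] using Da.Gr.row_sq_le Mᵀ i

theorem sum_T (T : Finset (Fin n)) (f : Fin n → ℝ) :
    ∑ k ∈ T, f k = ∑ k, if k ∈ T then f k else 0 := by rw [sum_ite_mem, univ_inter]

theorem loc_of (h1 : opn (S6.Om W ρ T v x) ≤ o) (h2 : ∀ l, ∑ k, S6.Om W ρ T v x l k ^ 2 ≤ ε ^ 2)
    (h3 : ∀ j, ∑ k ∈ T.erase j, (am W x * S6.Om W ρ T v x) j k ^ 2 ≤ ε ^ 2)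
    (h4 : ∀ k ∈ T, |(am W x * S6.Om W ρ T v x) k k - ρ v| ≤ ε)
    (h5 : 2 * opn (S6.Xs W ρ T v x) ≤ ε) : Loc W ρ v x T o ε := by
  have e : ∀ j, ∀ k ∈ T, (am W x * S6.Om W ρ T v x) j k = (am W x * Om W ρ v x) j k :=
    fun j k hk => by simp only [mul_apply, S6.Om, Om, Wk, of_apply, if_pos hk]
  refine ⟨fun w => ?_, fun l => ?_, fun j => ?_, fun k hk => e k k hk ▸ h4 k hk, fun u => ?_⟩
  · have h := (mulVec_dot_le (S6.Om W ρ T v x) fun k => if k ∈ T then w k else 0).trans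
      (mul_le_mul_of_nonneg_right (pow_le_pow_left₀ (opn_nonneg _) h1 2)
        (sum_nonneg fun _ _ => mul_self_nonneg _))
    have e1 : ∀ i, (S6.Om W ρ T v x *ᵥ fun k => if k ∈ T then w k else 0) i =
        ∑ k ∈ T, w k * Om W ρ v x i k := fun i => by
      rw [mulVec, dotProduct, sum_T T]
      refine sum_congr rfl fun k _ => ?_
      by_cases hk : k ∈ T <;> simp [S6.Om, Om, Wk, hk, mul_comm]
    have e2 : ∑ k, (if k ∈ T then w k else 0) * (if k ∈ T then w k else 0) = ∑ k ∈ T, w k ^ 2 := by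
      rw [sum_T T]
      exact sum_congr rfl fun k _ => by split_ifs <;> simp [sq]
    rw [dotProduct, dotProduct, e2] at h
    simpa only [e1, ← sq] using h
  · have h := h2 l
    simpa only [S6.Om, Om, Wk, of_apply, ite_pow, zero_pow two_ne_zero, sum_ite_mem, univ_inter]
      using h
  · exact (sum_congr rfl fun k hk => by rw [e j k (mem_of_mem_erase hk)]).symm.trans_le (h3 j)
  · have h := mulVec_dot_le (S6.Xs W ρ T v x)ᵀ
      fun p => if p.1 ∈ T then -2 * sv x p.2 * u p.1 p.2 else 0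
    have e1 : ∀ j, ((S6.Xs W ρ T v x)ᵀ *ᵥ fun p => if p.1 ∈ T then -2 * sv x p.2 * u p.1 p.2 else 0) j
        = ∑ k ∈ T, ∑ i, jac (Wk W ρ v k) x j i * u k i := fun j => by
      rw [mulVec, dotProduct, Fintype.sum_prod_type, sum_T T]
      refine sum_congr rfl fun k _ => ?_
      by_cases hk : k ∈ T
      · simp only [transpose_apply, S6.Xs, of_apply, if_pos hk, jac, Wk, S6.Yf, hess]
        exact sum_congr rfl fun i _ => by ring
      · simp [hk]
    have e2 : (fun p : Fin n × Fin n => if p.1 ∈ T then -2 * sv x p.2 * u p.1 p.2 else 0) ⬝ᵥ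
        (fun p => if p.1 ∈ T then -2 * sv x p.2 * u p.1 p.2 else 0) =
        4 * ∑ k ∈ T, ∑ i, u k i ^ 2 := by
      rw [dotProduct, Fintype.sum_prod_type, sum_T T, mul_sum]
      refine sum_congr rfl fun k _ => ?_
      by_cases hk : k ∈ T
      · simp only [if_pos hk, mul_sum]
        exact sum_congr rfl fun i _ => by linear_combination (4 * u k i ^ 2) * sv_mul_self x i
      · simp [hk]
    rw [e2, opn_transpose, dotProduct] at h
    simp only [e1, ← sq] at h
    refine h.trans ?_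
    rw [← mul_assoc]
    exact mul_le_mul_of_nonneg_right (by nlinarith [opn_nonneg (S6.Xs W ρ T v x)]) (by positivity)

theorem loc_glob {K L Λ : ℝ} (K0 : 0 < K) (hW : Nice W K) (L1 : 1 ≤ L) (hc : S6.Crude W ρ L v)
    (r0 : 0 ≤ ρ v) (r1 : ρ v ≤ 1) (hΛ : (2 * K + 4 * K ^ 2 + 2) * L ≤ Λ) :
    Loc W ρ v x univ Λ Λ := by
  obtain ⟨h1, h2⟩ := hc univ x
  have h3 := (opn_mul_le _ _).trans (mul_le_mul (S6b.opn_am hW.1 hW.2.1 x) h1 (opn_nonneg _)
    (by positivity))
  have h4 : 0 ≤ (2 * K + 4 * K ^ 2) * L := by positivity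
  have h5 : opn (S6.Om W ρ univ v x) ≤ Λ := by linarith
  refine loc_of h5 (fun l => (row_le _ l).trans (pow_le_pow_left₀ (opn_nonneg _) h5 2))
    (fun j => ((sum_le_sum_of_subset_of_nonneg (subset_univ _) fun _ _ _ => sq_nonneg _).trans
      (row_le _ j)).trans (pow_le_pow_left₀ (opn_nonneg _) (by linarith) 2)) (fun k _ => ?_)
    (by linarith)
  have := abs_le.1 ((abs_entry_le _ k k).trans h3)
  rw [abs_le]; constructor <;> linarith

theorem loc_pt {e b K a : ℝ} (h : S6.Pt W ρ e b T v x) (e0 : 0 ≤ e) (he : 2 * e ≤ ε) (K1 : 1 ≤ K)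
    (hb : b = K * exp (-(2 * a * v))) : Loc W ρ v x T (K * exp (-(a * v)) + ε) ε := by
  have h1 : e ^ 2 ≤ ε ^ 2 := pow_le_pow_left₀ e0 (by linarith) 2
  have h0 : 0 ≤ ε := by linarith
  have K0 : 0 ≤ K := by linarith
  refine loc_of ((pow_le_pow_iff_left₀ (opn_nonneg _) (by positivity) two_ne_zero).1
    (h.op.trans ?_)) (fun l => (h.row l).trans h1) (fun j => (h.hop j).trans h1)
    (fun k hk => (h.th k hk).trans (by linarith)) (by linarith [h.hess])
  have e1 : exp (-(2 * a * v)) = exp (-(a * v)) ^ 2 := by rw [← exp_nat_mul]; congr 1; push_cast; ring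
  have h2 := exp_pos (-(a * v))
  have h3 : 0 ≤ K * exp (-(a * v)) * ε := by positivity
  rw [hb, e1]
  nlinarith [mul_nonneg (mul_nonneg (sub_nonneg.2 K1) (sq_nonneg (exp (-(a * v)))))
    (zero_le_one.trans K1)]

theorem ev_small {c γ : ℝ} (hc : 0 < c) (hγ : 0 < γ) : ∀ᶠ n : ℕ in atTop, (n : ℝ) ^ (-c) ≤ γ :=
  ((tendsto_rpow_neg_atTop hc).comp tendsto_natCast_atTop_atTop).eventually (ge_mem_nhds hγ)

end Fa43

open Fa43

theorem factsGlue : FactsGlue := by
  intro hN hC hR hF β l 𝒬 b0 b1 l0 l1 q1 q2 q3 a a' a0 aa al γ γ0 c c0 c1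
  obtain ⟨K, K0, hN⟩ := hN
  obtain ⟨C, C1, hC⟩ := hC K
  obtain ⟨cF, cF0, δF, δF0, hF⟩ := hF β l a' 𝒬 b0 b1 l0 (l1.trans (by nlinarith)) q1 q2 q3
    (a0.trans aa) al (c / 16) (by positivity)
  refine ⟨min (c / 100) (cF / 2), by positivity, min_le_left _ _, fun κ κ0 =>
    ⟨min (δF / 2) (κ / (2 * C)), by positivity, fun δ δ0 hδ e e0 => (hN.and (hF e e0)).mono ?_⟩⟩
  filter_upwards [eventually_gt_atTop 0, ev_small cF0 γ0, ev_small (half_pos cF0) one_half_pos,
    (tendsto_log_atTop.comp tendsto_natCast_atTop_atTop).eventually_ge_atTop (2 / δF),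
    ((tendsto_rpow_atTop (half_pos κ0)).comp tendsto_natCast_atTop_atTop).eventually_ge_atTop
      ((2 * K + 4 * K ^ 2 + 2) * (C * exp C))] with n n0 h1 h2 h3 h4 g ⟨hW, hi, B, hB, hG⟩
  simp only [Function.comp] at h3 h4
  have n1 : (1 : ℝ) ≤ n := by exact_mod_cast n0
  have np : (0 : ℝ) < n := by linarith
  have lg : 0 ≤ log n := log_nonneg n1
  have hW := hW β b0.le b1.le
  obtain ⟨r1, r2, -⟩ := hR n (β • Jmat n g) β n0 hW.1
  have r3 : ∀ v, 0 ≤ v → 0 ≤ S6.rho β (β • Jmat n g) v ∧ S6.rho β (β • Jmat n g) v ≤ 1 :=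
    fun v hv => ⟨(r2 v hv).1, (r2 v hv).2.trans (by nlinarith)⟩
  have ht : δ * log n + 1 ≤ δF * log n := by
    have := mul_le_mul_of_nonneg_right (hδ.trans (min_le_left _ _)) lg
    rw [div_le_iff₀ δF0] at h3
    linarith
  refine ⟨_, r1, fun v hv => (r3 v hv.1).1, (hi _ (by positivity) (by linarith) _
    ⟨by positivity, ht⟩).trans (add_le_add ?_ h1), fun v hv x => ?_, ?_⟩
  · rw [mul_comm 3]
    exact mul_le_mul_of_nonneg_left ((div_le_iff₀ (by linarith)).2 (by linarith)) (sq_nonneg β)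
  · have h5 : exp (C * v) ≤ exp C * (n : ℝ) ^ (κ / 2) := by
      rw [rpow_def_of_pos np, ← exp_add]
      have h6 := hδ.trans (min_le_right _ _)
      rw [le_div_iff₀ (by positivity)] at h6
      have h7 := mul_le_mul_of_nonneg_left hv.2 (zero_le_one.trans C1)
      exact exp_le_exp.2 (by nlinarith [mul_le_mul_of_nonneg_right h6 lg])
    refine loc_glob K0 hW (one_le_mul_of_one_le_of_one_le C1 (one_le_exp (by
      have := hv.1; positivity))) (hC n _ _ ⟨n0, hW, fun i => by simp [Jmat_diag], r1, r3⟩ v hv.1)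
      (r3 v hv.1).1 (r3 v hv.1).2 ?_
    calc _ ≤ (2 * K + 4 * K ^ 2 + 2) * (C * exp C) * (n : ℝ) ^ (κ / 2) := by
          rw [mul_assoc, mul_assoc C]; gcongr
      _ ≤ (n : ℝ) ^ (κ / 2) * (n : ℝ) ^ (κ / 2) := by gcongr
      _ = _ := by rw [← rpow_add np, add_halves]
  · classical
    refine ⟨univ.filter (· ∉ B), le_trans (le_of_eq ?_) (hB.trans (exp_le_exp.2 (neg_le_neg
      (rpow_le_rpow_of_exponent_le n1 (by linarith))))), fun x hx v hv T hT => ?_⟩
    · rw [mass]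
      exact sum_congr (by ext x; simp) fun _ _ => rfl
    · refine loc_pt (hG x (mem_filter.1 hx).2 T (by rwa [show 1 - 8 * (c / 16) = 1 - c / 2 by ring])
        v ⟨hv.1, hv.2.trans ht⟩) (by positivity) ?_ (one_le_rpow n1 e0.le) rfl
      have h5 := rpow_le_rpow_of_exponent_le n1 (neg_le_neg (min_le_right (c / 100) (cF / 2)))
      have h6 : (n : ℝ) ^ (-cF) = (n : ℝ) ^ (-(cF / 2)) * (n : ℝ) ^ (-(cF / 2)) := by
        rw [← rpow_add np]; congr 1; ring
      rw [h6]
      nlinarith [rpow_pos_of_pos np (-(cF / 2))]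

end Crest.Agent.T157.S6a

end
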