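import Crest.Agent.T157.S6PlC_55
import Crest.Agent.T157.RegNice_66
import Crest.Agent.T157.RegCoef_54

/-!
# Row 157, block B/S6 (helper55): the cavity events hold off an exponentially small set
-/

set_option autoImplicit false
set_option linter.all false

noncomputable section

namespace Crest.Agent.T157.S6p

open MeasureTheory Matrix Real Filter Topology Set
open Crest.ProbabilityR.SpinGlassDynamics
open Crest.Agent.T157.E Crest.Agent.T157.Eig
open Crest.Agent.T157.Tap (V Mx)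
open Crest.Agent.T157.Chain22 (sg)
open Crest.Agent.T157.Rec (grad fl GR sg_mono)
open Crest.Agent.T157.Da.Gr (loc tt ising_pos)
open Crest.Agent.T157.Da.Fd (Iq Iq_mono)
open Crest.Agent.T157.Reg (mu am fp Nice)
open Crest.Agent.T157.S6 (Mg cc vr Fq G3 Cv Sub PlStmt)

variable {n : ℕ} {T : Finset (Fin n)} {W : Mx n}

section me
variable {X : Type} [MeasurableSpace X] {A : X → Mx n}

lemma ME.tt (hA : ME A) (z : Cube n) (k : Fin n) : Measurable fun g => tt (A g) 0 z k := by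
  have hc : Continuous tanh :=
    continuous_iff_continuousAt.2 fun x => (Da.Gr.hasDerivAt_tanh x).continuousAt
  refine hc.measurable.comp ?_
  have := hA
  unfold ME at this
  simp only [loc, mulVec, dotProduct]
  fun_prop

lemma ME.Mg (hA : ME A) (v : ℝ) (y : Cube n) : ME fun g => Mg (A g) v y := fun i a => by
  have h := fun z => Da.Fd.measurable_sg (w := fun g => mu (A g)) (fun z => hA.ising z)
    (t := fun _ => v) measurable_const (g := fun _ z => sv z a) (fun _ => measurable_const) z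
  exact ((h _).sub (h _)).div_const 2

lemma ME.am (hA : ME A) (y : Cube n) : ME fun g => am (A g) y := fun i k =>
  ((hA.tt _ k).sub (hA.tt _ k)).div_const 2

lemma ME.fam (hA : ME A) (τ : ℝ) (N : ℕ) (p : ℕ × Fin 4 × Finset (Fin n)) (y : Cube n) :
    ME fun g => fam τ N p (A g) y := by
  obtain ⟨i, j, S⟩ := p
  have hM := hA.Mg (τ * i / N) y
  have h3 := ((ME.const (PT S)).mul (hA.am y)).mul hM
  fin_cases j
  · exact (ME.diag fun k => measurable_const.sub ((hA.tt y k).pow_const 2)).mul hM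
  · exact hM.tr.mul hM
  · exact h3.tr.mul h3
  · exact ME.const _

end me

lemma good_pt {β K s τ Λ ε : ℝ} {N m : ℕ} (h0 : 0 ≤ β) (h1 : β ≤ 1) (hn : 0 < n) (hN : 0 < N)
    (hW : Wᵀ = W) (hK : opn W ≤ K) (hs : 0 ≤ s) (hΛ : 1 ≤ Λ) (hτ : 0 ≤ τ) (e0 : 0 < ε) (e1 : ε ≤ 1)
    (hD : (s + (K ^ 2 + 1) * (4 * n * τ / N) + m / n) * Λ ^ 4 ≤ ε ^ 2 / 16) (hT : T.card ≤ m)
    {y : Cube n} (hM : ∀ v ∈ Icc 0 τ, opn (Mg (cav T W) v y) ≤ Λ) (ha : opn (am (cav T W) y) ≤ Λ)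
    (hy : y ∉ Bad β K s (idx n N m) (fam τ N) T W) :
    (∀ v ∈ Icc 0 τ, opn (Rw T W * (diagonal (cc (cav T W) y) * Mg (cav T W) v y) * (Rw T W)ᵀ -
      (β ^ 2 * vr (cav T W) v y) • PT T) ≤ ε) ∧
    (∀ v ∈ Icc 0 τ, opn (Mg (cav T W) v y * (Rw T W)ᵀ) ^ 2 ≤ β ^ 2 * Fq (cav T W) v y + ε) ∧
    (∀ v ∈ Icc 0 τ, ∀ S : Finset (Fin n), S.card ≤ m →
      opn (PT S * am (cav T W) y * Mg (cav T W) v y * (Rw T W)ᵀ) ≤ ε) ∧
    ∀ S : Finset (Fin n), S.card ≤ m → opn (PT S * (Rw T W)ᵀ) ≤ ε / 4 := by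
  have hn' : (0 : ℝ) < n := Nat.cast_pos.2 hn
  have hb : β ^ 2 ≤ 1 := pow_le_one₀ h0 h1
  have p0 : 1 ≤ Λ ^ 4 := one_le_pow₀ hΛ
  have hd := fun v hv S hS j => dev_le (T := T) h0 h1 hn hN hW hK hs hΛ hM ha hy (v := v) hv (S := S) hS j
  rw [add_mul] at hD
  set d := (s + (K ^ 2 + 1) * (4 * n * τ / N)) * Λ ^ 4
  have hm0 : 0 ≤ (m / n : ℝ) * Λ ^ 4 := by positivity
  have ee : ε ^ 2 ≤ ε := by nlinarith
  have hS : ∀ (S : Finset (Fin n)) (B : Mx n), S.card ≤ m → opn B ^ 2 ≤ Λ ^ 4 →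
      β ^ 2 * (fp (PT S * B) (PT S * B) / n) ≤ m / n * Λ ^ 4 := fun S B hS hB => by
    have h2 : (S.card : ℝ) ≤ m := by exact_mod_cast hS
    have h3 := (fp_PT S B).trans (mul_le_mul h2 hB (sq_nonneg _) (Nat.cast_nonneg _))
    refine (mul_le_mul_of_nonneg_left (div_le_div_of_nonneg_right h3 hn'.le) (sq_nonneg β)).trans ?_
    rw [mul_div_right_comm]
    exact mul_le_of_le_one_left hm0 hb
  refine ⟨fun v hv => ?_, fun v hv => ?_, fun v hv S h => ?_, fun S h => ?_⟩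
  · have h2 := g1_le (T := T) (W := W) h0 h1 hn (diagonal (cc (cav T W) y) * Mg (cav T W) v y)
    simp only [diagonal_mul] at h2
    have h3 : Dev β T W (diagonal (cc (cav T W) y) * Mg (cav T W) v y) ≤ d := hd v hv ∅ (by simp) 0
    have h4 : opn (diagonal (cc (cav T W) y) * Mg (cav T W) v y) ≤ Λ ^ 4 := opn_F4 hΛ (hM v hv) ha ∅ 0
    have h5 : (T.card / n : ℝ) ≤ m / n := div_le_div_of_nonneg_right (by exact_mod_cast hT) hn'.le
    have h6 := mul_le_mul h5 h4 (opn_nonneg _) (by positivity)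
    refine h2.trans ?_
    nlinarith
  · have h3 : Dev β T W ((Mg (cav T W) v y)ᵀ * Mg (cav T W) v y) ≤ d := hd v hv ∅ (by simp) 1
    refine (sq_le β _).trans ?_
    rw [Fq]; nlinarith
  · have h3 : Dev β T W ((PT S * am (cav T W) y * Mg (cav T W) v y)ᵀ *
        (PT S * am (cav T W) y * Mg (cav T W) v y)) ≤ d := hd v hv S h 2
    have h4 := hS S (am (cav T W) y * Mg (cav T W) v y) h (by
      have := (opn_mul_le _ _).trans (mul_le_mul ha (hM v hv) (opn_nonneg _) (by linarith))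
      exact (pow_le_pow_left₀ (opn_nonneg _) this 2).trans (le_of_eq (by ring)))
    rw [← Matrix.mul_assoc] at h4
    have h5 := sq_le (T := T) (W := W) β (PT S * am (cav T W) y * Mg (cav T W) v y)
    exact abs_le_of_sq_le_sq' (by nlinarith) e0.le |>.2
  · have h3 : Dev β T W ((PT S)ᵀ * PT S) ≤ d := hd 0 ⟨le_rfl, hτ⟩ S h 3
    have h4 := hS S 1 h ((pow_le_one₀ (opn_nonneg _) opn_one_le).trans p0)
    rw [Matrix.mul_one] at h4
    have h5 := sq_le (T := T) (W := W) β (PT S)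
    exact abs_le_of_sq_le_sq' (by nlinarith) (by positivity) |>.2

lemma ev_log {p c : ℝ} (hp : 0 < p) (hc : 0 < c) (A : ℝ) :
    ∀ᶠ n : ℕ in atTop, A * (log n + 1) ≤ c * (n : ℝ) ^ p := by
  have h1 := ((isLittleO_log_rpow_atTop hp).comp_tendsto tendsto_natCast_atTop_atTop).bound
    (show 0 < c / (2 * (|A| + 1)) by positivity)
  have h2 := ((tendsto_rpow_atTop hp).comp tendsto_natCast_atTop_atTop).eventually_ge_atTop
    (2 * (|A| + 1) / c)
  filter_upwards [h1, h2, eventually_ge_atTop 1] with n h1 h2 h3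
  have h4 : 0 ≤ log n := log_natCast_nonneg n
  simp only [Function.comp, Real.norm_eq_abs, abs_of_nonneg h4,
    abs_of_nonneg (rpow_nonneg (Nat.cast_nonneg n) p)] at h1 h2
  rw [div_le_iff₀ hc] at h2
  rw [div_mul_eq_mul_div, le_div_iff₀ (by positivity)] at h1
  have := le_abs_self A
  have := abs_nonneg A
  nlinarith

lemma prob_num {κ c τ : ℝ} (hκ : 0 < κ) (hκ1 : κ ≤ 1 / 8) (hn : 1 ≤ n) (hτ0 : 0 ≤ τ) (hτ : τ ≤ n)
    {m : ℕ} (hm : (m : ℝ) ≤ 2 * (n : ℝ) ^ (1 - κ)) (h : 30 * (log n + 1) ≤ c * (n : ℝ) ^ (κ / 2)) :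
    ((n : ℝ) + 1) ^ m * (((idx n (n ^ 3) m).card * (2 * 81 ^ m * exp (-(c * n * ((n : ℝ) ^ (-(κ / 4))) ^ 2)))) *
      (1 + τ / ((n : ℝ) ^ (-(κ / 16))) ^ 2)) ≤
      exp (-(n : ℝ) ^ (1 - κ)) * exp (-(2 * (n : ℝ) ^ (1 - κ))) := by
  have n1 : (1 : ℝ) ≤ n := by exact_mod_cast hn
  have n0 : (0 : ℝ) < n := by linarith
  set u := (n : ℝ) ^ (1 - κ) with hu
  set L := log n + 1 with hL
  have u1 : 1 ≤ u := one_le_rpow n1 (by linarith)
  have L1 : 1 ≤ L := by have := log_natCast_nonneg n; linarith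
  have a1 : (n : ℝ) + 1 ≤ exp L := by
    rw [hL, exp_add, exp_log n0]; nlinarith [add_one_le_exp (1 : ℝ)]
  have a2 : ((n : ℝ) + 1) ^ m ≤ exp (2 * u * L) := (pow_le_pow_left₀ (by positivity) a1 m).trans (by
    rw [← exp_nat_mul]; exact exp_le_exp.2 (mul_le_mul_of_nonneg_right hm (by linarith)))
  have a3 : (81 : ℝ) ^ m ≤ exp (10 * u) := by
    have : (81 : ℝ) ≤ exp 5 := by
      have := pow_le_pow_left₀ (by norm_num) exp_one_gt_d9.le 5
      rw [← exp_nat_mul] at this; norm_num at this ⊢; linarith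
    refine (pow_le_pow_left₀ (by norm_num) this m).trans ?_
    rw [← exp_nat_mul]; exact exp_le_exp.2 (by linarith)
  have a4 : ((n ^ 3 : ℕ) : ℝ) + 1 ≤ exp (3 * L) := by
    have := pow_le_pow_left₀ (by positivity) a1 3
    rw [← exp_nat_mul] at this; push_cast at this ⊢; nlinarith
  have a5 : 1 + τ / ((n : ℝ) ^ (-(κ / 16))) ^ 2 ≤ exp (2 * L) := by
    have h2 := pow_le_pow_left₀ (by positivity) a1 2
    rw [← exp_nat_mul] at h2
    have h3 : (((n : ℝ) ^ (-(κ / 16))) ^ 2)⁻¹ ≤ n := by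
      rw [← rpow_natCast, ← rpow_mul n0.le, ← rpow_neg n0.le]
      exact (rpow_le_rpow_of_exponent_le n1 (by push_cast; linarith)).trans (rpow_one _).le
    have h4 := mul_le_mul hτ h3 (by positivity) n0.le
    rw [div_eq_mul_inv]; push_cast at h2; nlinarith
  have a6 : (8 : ℝ) ≤ exp 3 := by
    have := pow_le_pow_left₀ (by norm_num) exp_one_gt_d9.le 3
    rw [← exp_nat_mul] at this; norm_num at this ⊢; linarith
  have a7 : c * n * ((n : ℝ) ^ (-(κ / 4))) ^ 2 = u * (c * (n : ℝ) ^ (κ / 2)) := by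
    rw [← rpow_natCast, ← rpow_mul n0.le, mul_left_comm, hu, ← rpow_add n0, mul_assoc]
    congr 1
    rw [show (1 - κ + κ / 2) = 1 + -(κ / 4) * (2 : ℕ) by push_cast; ring, rpow_add n0, rpow_one]
  have a8 := (card_idx n (n ^ 3) m).trans (mul_le_mul a4 (mul_le_mul_of_nonneg_left a2
    (by norm_num)) (by positivity) (exp_pos _).le)
  calc _ ≤ exp (2 * u * L) * (((exp (3 * L) * (4 * exp (2 * u * L))) *
        (2 * exp (10 * u) * exp (-(u * (30 * L))))) * exp (2 * L)) := by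
        rw [a7]; gcongr
    _ = 8 * exp (4 * u * L + 5 * L + 10 * u - 30 * (u * L)) := by
        simp only [sub_eq_add_neg, exp_add, show 4 * u * L = 2 * u * L + 2 * u * L by ring,
          show 5 * L = 3 * L + 2 * L by ring, show -(30 * (u * L)) = -(u * (30 * L)) by ring]; ring
    _ ≤ exp 3 * exp (4 * u * L + 5 * L + 10 * u - 30 * (u * L)) := by gcongr
    _ ≤ _ := by
        rw [← exp_add, ← exp_add]; exact exp_le_exp.2 (by nlinarith)

lemma err_num {κ K C τ : ℝ} (hκ : 0 < κ) (hκ1 : κ ≤ 1 / 8) (hK : 0 ≤ K) (hn : 1 ≤ n) (hτ : τ ≤ n)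
    {m : ℕ} (hm : (m : ℝ) ≤ 2 * (n : ℝ) ^ (1 - κ))
    (h : 16 * C ^ 4 * (4 * K ^ 2 + 4 * K + 9) ≤ (n : ℝ) ^ (κ / 16)) :
    ((n : ℝ) ^ (-(κ / 4)) + (2 * K + 1) * √(m / n) + (K ^ 2 + 1) * (4 * n * τ / (n ^ 3 : ℕ)) + m / n) *
      (C * (n : ℝ) ^ (κ / 64)) ^ 4 ≤ ((n : ℝ) ^ (-(κ / 16))) ^ 2 / 16 := by
  have n1 : (1 : ℝ) ≤ n := by exact_mod_cast hn
  have n0 : (0 : ℝ) < n := by linarith
  set s := (n : ℝ) ^ (-(κ / 4)) with hs
  have s0 : 0 < s := rpow_pos_of_pos n0 _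
  have s1 : s ≤ 1 := rpow_le_one_of_one_le_of_nonpos n1 (by linarith)
  have b1 : (m / n : ℝ) ≤ 2 * s ^ 4 := by
    rw [div_le_iff₀ n0, hs, ← rpow_natCast, ← rpow_mul n0.le, mul_assoc, ← rpow_add_one n0.ne']
    refine hm.trans (le_of_eq ?_); congr 2; push_cast; ring
  have b2 : s ^ 4 ≤ s ^ 2 := pow_le_pow_of_le_one s0.le s1 (by norm_num)
  have b3 : s ^ 2 ≤ s := by nlinarith
  have b4 : √(m / n : ℝ) ≤ 2 * s := sqrt_le_iff.2 ⟨by positivity, by nlinarith⟩
  have b5 : 4 * n * τ / (n ^ 3 : ℕ) ≤ 4 * s := by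
    have : (n : ℝ)⁻¹ ≤ s := by
      rw [← rpow_neg_one]; exact rpow_le_rpow_of_exponent_le n1 (by linarith)
    refine le_trans ?_ (mul_le_mul_of_nonneg_left this (by norm_num))
    push_cast
    rw [div_le_iff₀ (by positivity)]
    have e : 4 * (n : ℝ)⁻¹ * n ^ 3 = 4 * n * n := by field_simp
    rw [e]; gcongr
  have b6 : s + (2 * K + 1) * √(m / n : ℝ) + (K ^ 2 + 1) * (4 * n * τ / (n ^ 3 : ℕ)) + m / n ≤
      (4 * K ^ 2 + 4 * K + 9) * s := by
    have := mul_le_mul_of_nonneg_left b4 (show 0 ≤ 2 * K + 1 by positivity)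
    have := mul_le_mul_of_nonneg_left b5 (show 0 ≤ K ^ 2 + 1 by positivity)
    nlinarith
  have e1 : ((n : ℝ) ^ (κ / 64)) ^ 4 = (n : ℝ) ^ (κ / 16) := by
    rw [← rpow_natCast, ← rpow_mul n0.le]; congr 1; push_cast; ring
  have e2 : ((n : ℝ) ^ (-(κ / 16))) ^ 2 = s * ((n : ℝ) ^ (κ / 16) * (n : ℝ) ^ (κ / 16)) := by
    rw [← rpow_natCast, ← rpow_mul n0.le, hs, ← rpow_add n0, ← rpow_add n0]; congr 1; push_cast; ring
  rw [mul_pow, e1, e2]
  have q0 : 0 < (n : ℝ) ^ (κ / 16) := rpow_pos_of_pos n0 _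
  refine (mul_le_mul_of_nonneg_right b6 (by positivity)).trans ?_
  have := mul_le_mul_of_nonneg_left h (mul_pos s0 q0).le
  nlinarith

lemma mass_le {w : Cube n → ℝ} (hw : ∀ x, 0 < w x) {A B : Set (Cube n)} (h : A ⊆ B) :
    mass w A ≤ mass w B := by
  rw [Pl.mass_eq_mean, Pl.mass_eq_mean]
  exact Finset.sum_le_sum fun x _ => mul_le_mul_of_nonneg_left
    (Set.indicator_le_indicator_of_subset h (fun _ => zero_le_one) x) ((SL.Wt.of_pos hw).prob_nonneg x)

/-- **Plant** -/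
theorem plStmt : PlStmt := by
  intro β h0 h1 κ hκ hκ8
  obtain ⟨K, hK, hN⟩ := Reg.niceStmt
  obtain ⟨c, hc, hP⟩ := plant_abs
  obtain ⟨Cg, hCg, hG⟩ := Da.grStmt K
  obtain ⟨C, hC, hA⟩ := Reg.coefStmt K
  set δ := min 1 (κ / (64 * (Cg + 1))) with hδ
  have δ0 : 0 < δ := lt_min one_pos (by positivity)
  have δ1 : δ ≤ 1 := min_le_left _ _
  have δ2 : Cg * δ ≤ κ / 64 := by
    have h := min_le_right 1 (κ / (64 * (Cg + 1)))
    rw [← hδ, le_div_iff₀ (by positivity)] at h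
    nlinarith
  refine ⟨κ / 16, by positivity, δ, δ0, ?_⟩
  set m : ℕ → ℕ := fun n => ⌊2 * (n : ℝ) ^ (1 - κ)⌋₊ with hm
  have m1 : ∀ n, (m n : ℝ) ≤ 2 * (n : ℝ) ^ (1 - κ) := fun n => Nat.floor_le (by positivity)
  have t0 : ∀ n : ℕ, 0 ≤ δ * log n := fun n => mul_nonneg δ0.le (log_natCast_nonneg n)
  have t1 : ∀ n : ℕ, δ * log n ≤ n := fun n =>
    (mul_le_of_le_one_left (log_natCast_nonneg n) δ1).trans (log_le_self (Nat.cast_nonneg n))
  have hw := whp_mass h0 h1 (fun n x => {g | ∃ T : Finset (Fin n), T.card ≤ m n ∧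
      Ev β K ((n : ℝ) ^ (-(κ / 4)) + (2 * K + 1) * √(m n / n)) (δ * log n)
        (((n : ℝ) ^ (-(κ / 16))) ^ 2) (idx n (n ^ 3) (m n)) (fam (δ * log n) (n ^ 3)) T
        (β • Jmat n g) x}) (ε := fun n => exp (-(n : ℝ) ^ (1 - κ))) (fun n => exp_pos _)
    (a := 1 - κ) (by linarith) (by
      filter_upwards [ev_log (half_pos hκ) hc 30, eventually_ge_atTop 1] with n h hn x
      have n1 : (1 : ℝ) ≤ n := by exact_mod_cast hn
      exact (hP n hn β h0 h1 _ _ _ (fun T i y => ((me_J β).cav T).fam _ _ i y) (m n) K _ _ _ hK.le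
        (by positivity) (rpow_le_one_of_one_le_of_nonpos n1 (by linarith)) (t0 n) (by positivity)
        x).trans (prob_num hκ hκ8 hn (t0 n) (t1 n) (m1 n) h))
  refine (hN.and hw).mono ?_
  filter_upwards [((tendsto_rpow_atTop (show 0 < κ / 16 by positivity)).comp
    tendsto_natCast_atTop_atTop).eventually_ge_atTop (16 * C ^ 4 * (4 * K ^ 2 + 4 * K + 9)),
    eventually_ge_atTop 1] with n h hn g hg
  have n1 : (1 : ℝ) ≤ n := by exact_mod_cast hn
  have n0 : (0 : ℝ) < n := by linarith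
  obtain ⟨hg1, hg2⟩ := hg
  have nW := hg1 β h0 h1
  set W := β • Jmat n g with hW
  set ε := (n : ℝ) ^ (-(κ / 16)) with hε
  have e0 : 0 < ε := rpow_pos_of_pos n0 _
  have e1 : ε ≤ 1 := rpow_le_one_of_one_le_of_nonpos n1 (by linarith)
  have q1 : 1 ≤ (n : ℝ) ^ (κ / 64) := one_le_rpow n1 (by positivity)
  have G := fun (T : Finset (Fin n)) (hT : T.card ≤ m n) (y : Cube n) => good_pt (T := T) (y := y)
    h0 h1 hn (pow_pos hn 3) nW.1 nW.2.1 (by positivity) (one_le_mul_of_one_le_of_one_le hC q1) (t0 n)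
    e0 e1 (err_num hκ hκ8 hK.le hn (t1 n) (m1 n) h) hT (fun v hv => by
      refine (opn_Mg hn hCg (hG n _ 0 hn (nice_cav nW T).1 (nice_cav nW T).2.1) hv.1 y).trans
        (le_trans ?_ (le_mul_of_one_le_left (by positivity) hC))
      rw [rpow_def_of_pos n0]
      have := log_natCast_nonneg n
      exact exp_le_exp.2 (by nlinarith [mul_le_mul_of_nonneg_left hv.2 hCg]))
    ((hA n _ (nice_cav nW T) y).2.2.2.2.1.trans (le_mul_of_one_le_right (by linarith) q1))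
  have u0 : 0 ≤ (n : ℝ) ^ (1 - κ) := by positivity
  have fl1 : ∀ S : Finset (Fin n), (S.card : ℝ) ≤ (n : ℝ) ^ (1 - κ) → S.card ≤ m n := fun S hS =>
    Nat.le_floor (by linarith)
  constructor
  · intro S T hS hT
    by_contra hcon
    refine (hg2.trans_le (exp_le_one_iff.2 (neg_nonpos.2 u0))).not_ge ?_
    refine le_trans (le_of_eq ?_) (mass_le (ising_pos _ _) (A := Set.univ) fun x _ => ?_)
    · rw [Pl.mass_eq_mean, Set.indicator_univ]
      exact ((SL.Wt.of_pos (ising_pos W 0)).mean_const 1).symm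
    · by_contra hx
      refine hcon ((sub_le (fun i => by simp [hW, Jmat_diag]) S T (δ := ε / 4) fun A B hA hB => ?_).trans
        (le_of_eq (by ring)))
      have hU : S.card + T.card ≤ m n := Nat.le_floor (by push_cast; linarith)
      exact (G A (hA.trans hU) x fun hb => hx ⟨A, hA.trans hU, Or.inl hb⟩).2.2.2 B (hB.trans hU)
  · refine le_trans (mass_le (ising_pos _ _) fun x hx => ?_) hg2.le
    obtain ⟨T, hT, hx⟩ := hx
    have hT' := fl1 T (hT.trans (rpow_le_rpow_of_exponent_le n1 (by linarith)))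
    refine ⟨T, hT', by_contra fun he => hx ?_⟩
    rw [Ev, not_or, not_lt] at he
    obtain ⟨g1, g2, g3, -⟩ := G T hT' x he.1
    refine ⟨g1, g2, fun v hv S hS => g3 v hv S (fl1 S hS), le_trans ?_ he.2⟩
    refine Iq_mono hn (ising_pos _ _) (t0 n) (fun z => Set.indicator_le_indicator_of_subset
      (fun z hz => by_contra fun hb => ?_) (fun _ => zero_le_one) z) x
    exact (show ¬ G3 W _ ε (δ * log n) T z from hz) fun v hv S hS =>
      (G T hT' z hb).2.2.1 v hv S (fl1 S hS)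

end Crest.Agent.T157.S6p

end
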