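import Crest.Agent.T157.RegDef_94
import Crest.Agent.T157.BDefB_95

/-!
# Row 157, block S6, sections 6-7 (helper68): words and leaves for the facts (C), (G), (S)
-/

set_option autoImplicit false

noncomputable section

namespace Crest.Agent.T157.S6

open Matrix Real Filter Topology Set
open Crest.ProbabilityR.SpinGlassDynamics (disorderLaw)
open Crest.Agent.T157.E hiding mean
open Crest.Agent.T157.Eig Crest.Agent.T157.Reg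
open Crest.Agent.T157.Tap (V Mx)
open Crest.Agent.T157.Rec (grad fl)
open Crest.Agent.T157.Da.Gr (loc tt)
open Crest.Agent.T157.Chain22 (sg IsP mean)

variable {n : ℕ}

/-! ### words -/

/-- rows and columns of `T` removed -/
def cav (T : Finset (Fin n)) (W : Mx n) : Mx n := of fun i j => if i ∈ T ∨ j ∈ T then 0 else W i j
/-- rows in `T`, columns off `T` -/
def Rw (T : Finset (Fin n)) (W : Mx n) : Mx n := of fun k i => if k ∈ T ∧ i ∉ T then W k i else 0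
/-- coordinate projection -/
def PT (T : Finset (Fin n)) : Mx n := diagonal fun i => if i ∈ T then 1 else 0
/-- conditional variances -/
def cc (W : Mx n) (x : Cube n) : V n := fun i => 1 - tt W 0 x i ^ 2
/-- `Mg W v x i a = D_i P_v s_a` -/
def Mg (W : Mx n) (v : ℝ) (x : Cube n) : Mx n :=
  of fun i a => grad (sg (mu W) v fun z => sv z a) x i
/-- stacked Hessians of a family -/
def St (F : Fin n → Cube n → ℝ) (x : Cube n) : Matrix (Fin n × Fin n) (Fin n) ℝ :=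
  of fun p j => grad (fun z => grad (F p.1) z p.2) x j
/-- `tr (c M) / n` -/
def vr (W : Mx n) (v : ℝ) (x : Cube n) : ℝ := (∑ i, cc W x i * Mg W v x i i) / n
/-- `|M|_F² / n` -/
def Fq (W : Mx n) (v : ℝ) (x : Cube n) : ℝ := fp (Mg W v x) (Mg W v x) / n
/-- mean energy of `P_v s_a` -/
def Ee (W : Mx n) (v : ℝ) : ℝ := (∑ a, dir (mu W) (sg (mu W) v fun z => sv z a)) / n
/-- mean autocorrelation -/
def Cn (W : Mx n) (v : ℝ) : ℝ :=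
  (∑ a, mean (prob (mu W)) fun x => sv x a * sg (mu W) v (fun z => sv z a) x) / n
/-- the return kernel -/
def rho (β : ℝ) (W : Mx n) (v : ℝ) : ℝ := β ^ 2 * mean (prob (mu W)) (vr W v)
/-- `P_v (W w ⋅ s) - ∫ ρ u P_(v-u) (w ⋅ s)` -/
def Ph (W : Mx n) (ρ : ℝ → ℝ) (w : V n) (v : ℝ) (x : Cube n) : ℝ :=
  sg (mu W) v (fun z => (W *ᵥ w) ⬝ᵥ sv z) x -
    ∫ u in (0 : ℝ)..v, ρ u * sg (mu W) (v - u) (fun z => w ⬝ᵥ sv z) x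
/-- its gradient -/
def Yf (W : Mx n) (ρ : ℝ → ℝ) (w : V n) (v : ℝ) : VF n := grad (Ph W ρ w v)
/-- columns `W^k`, `k ∈ T` -/
def Om (W : Mx n) (ρ : ℝ → ℝ) (T : Finset (Fin n)) (v : ℝ) (x : Cube n) : Mx n :=
  of fun i k => if k ∈ T then Yf W ρ (Pi.single k 1) v x i else 0
/-- stacked Jacobians of the columns -/
def Xs (W : Mx n) (ρ : ℝ → ℝ) (T : Finset (Fin n)) (v : ℝ) (x : Cube n) :
    Matrix (Fin n × Fin n) (Fin n) ℝ :=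
  of fun p j => if p.1 ∈ T then grad (fun z => Yf W ρ (Pi.single p.1 1) v z p.2) x j else 0
/-- occupation time of `B` -/
def oc (W : Mx n) (B : Set (Cube n)) (τ : ℝ) (x : Cube n) : ℝ :=
  ∫ s in (0 : ℝ)..τ, sg (mu W) s (B.indicator 1) x
/-- admissible data: nice couplings without diagonal, a bounded continuous kernel -/
structure Adm (W : Mx n) (K : ℝ) (ρ : ℝ → ℝ) : Prop where
  pos : 0 < n
  nice : Nice W K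
  dg : ∀ i, W i i = 0
  cont : Continuous ρ
  bd : ∀ v, 0 ≤ v → 0 ≤ ρ v ∧ ρ v ≤ 1

/-- **(C)** at one time -/
def Crude (W : Mx n) (ρ : ℝ → ℝ) (Λ v : ℝ) : Prop :=
  ∀ (T : Finset (Fin n)) (x : Cube n), opn (Om W ρ T v x) ≤ Λ ∧ opn (Xs W ρ T v x) ≤ Λ

/-- the first-order part of (G) -/
structure Pt1 (W : Mx n) (ρ : ℝ → ℝ) (ε b : ℝ) (T : Finset (Fin n)) (v : ℝ) (x : Cube n) : Prop where
  row : ∀ l, ∑ k, Om W ρ T v x l k ^ 2 ≤ ε ^ 2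
  hop : ∀ j, ∑ k ∈ T.erase j, (am W x * Om W ρ T v x) j k ^ 2 ≤ ε ^ 2
  th : ∀ k ∈ T, |(am W x * Om W ρ T v x) k k - ρ v| ≤ ε
  op : opn (Om W ρ T v x) ^ 2 ≤ b + ε ^ 2

/-- **(G)** at one point and one time -/
structure Pt (W : Mx n) (ρ : ℝ → ℝ) (ε b : ℝ) (T : Finset (Fin n)) (v : ℝ) (x : Cube n) : Prop
    extends Pt1 W ρ ε b T v x where
  hess : opn (Xs W ρ T v x) ≤ ε

/-- **(G)** off a set `B` -/
def GG (W : Mx n) (ρ : ℝ → ℝ) (ε m τ : ℝ) (b : ℝ → ℝ) (B : Set (Cube n)) : Prop :=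
  ∀ x ∉ B, ∀ T : Finset (Fin n), (T.card : ℝ) ≤ m → ∀ v ∈ Icc 0 τ, Pt W ρ ε (b v) T v x

/-- small blocks are small -/
def Sub (W : Mx n) (m ε : ℝ) : Prop := ∀ S T : Finset (Fin n), (S.card : ℝ) ≤ m →
  (T.card : ℝ) ≤ m → opn (PT S * W * PT T) ≤ ε
/-- (g3) -/
def G3 (W : Mx n) (m ε τ : ℝ) (T : Finset (Fin n)) (x : Cube n) : Prop :=
  ∀ v ∈ Icc 0 τ, ∀ S : Finset (Fin n), (S.card : ℝ) ≤ m →
    opn (PT S * am (cav T W) x * Mg (cav T W) v x * (Rw T W)ᵀ) ≤ ε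
/-- the cavity event; `r v`, `b v` are the values of (g1), (g2) -/
structure Cv (W : Mx n) (m ε τ : ℝ) (r b : ℝ → ℝ) (T : Finset (Fin n)) (x : Cube n) : Prop where
  g1 : ∀ v ∈ Icc 0 τ, opn (Rw T W * (diagonal (cc (cav T W) x) * Mg (cav T W) v x) * (Rw T W)ᵀ -
    r v • PT T) ≤ ε
  g2 : ∀ v ∈ Icc 0 τ, opn (Mg (cav T W) v x * (Rw T W)ᵀ) ^ 2 ≤ b v + ε
  g3 : G3 W m ε τ T x
  g5 : oc (cav T W) {z | ¬ G3 W m ε τ T z} τ x ≤ ε ^ 2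

/-! ### leaves -/

/-- **SHs**: stacked Hessians of a family `∂ F = L F + linear` -/
def SHsStmt : Prop := ∀ K : ℝ, ∃ C ≥ (1 : ℝ), ∀ (n : ℕ) (W : Mx n), 0 < n → Nice W K →
  ∀ (F : ℝ → Fin n → Cube n → ℝ) (l : ℝ → Fin n → V n) (τ r Λ : ℝ) (B : Set (Cube n)),
  (∀ s k x, HasDerivAt (fun u => F u k x) (gen (mu W) (F s k) x + l s k ⬝ᵥ sv x) s) →
  (∀ x, St (F 0) x = 0) →
  (∀ s ∈ Icc 0 τ, ∀ x i, ∑ k, grad (F s k) x i ^ 2 ≤ Λ ^ 2 ∧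
    (x ∉ B → ∑ k, grad (F s k) x i ^ 2 ≤ r ^ 2)) →
  ∀ v ∈ Icc 0 τ, ∀ x, opn (St (F v) x) ^ 4 ≤ C * exp (C * τ) * (r ^ 4 + Λ ^ 4 * oc W B τ x)

/-- **(C)** -/
def CStmt : Prop := ∀ K : ℝ, ∃ C ≥ (1 : ℝ), ∀ (n : ℕ) (W : Mx n) (ρ : ℝ → ℝ), Adm W K ρ →
  ∀ v, 0 ≤ v → Crude W ρ (C * exp (C * v)) v

/-- **ST**, deterministic comparison with the cavity system -/
def St1Stmt : Prop := ∀ K : ℝ, ∃ C ≥ (1 : ℝ), ∀ (n : ℕ) (W : Mx n), 0 < n → Nice W K →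
  ∀ v, 0 ≤ v → ∀ (T : Finset (Fin n)) (x : Cube n),
  |vr W v x - vr (cav T W) v x| ≤ C * exp (C * v) * √(T.card / n) ∧
  Fq (cav T W) v x ≤ 2 * Fq W v x + C * exp (C * v) * (T.card / n)

/-- **ST**, concentration at all times -/
def St2Stmt : Prop := ∀ K > (0 : ℝ), ∃ C ≥ (1 : ℝ), ∀ (n : ℕ) (W : Mx n), 0 < n → Nice W K →
  Ent.AT (mu W) K 0 → ∀ τ s R : ℝ, 0 ≤ τ → 0 < s → s ≤ 1 → 0 ≤ R →
  mass (mu W) {x | ∃ v ∈ Icc 0 τ,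
    C * exp (C * τ) * s < |vr W v x - mean (prob (mu W)) (vr W v)| ∨
    2 * exp (2 * R) * Ee W v + C * exp (C * τ) * (s + exp (-(R ^ 2 / C))) < Fq W v x} ≤
    C * (τ + 1) * n ^ 2 / s * exp (-(n * s ^ 2 / C))

/-- **CL + CP** -/
def CPStmt : Prop := ∀ K : ℝ, ∃ C ≥ (1 : ℝ), ∀ (n : ℕ) (W : Mx n) (ρ : ℝ → ℝ), Adm W K ρ →
  ∀ (m ε η τ : ℝ) (b : ℝ → ℝ) (T : Finset (Fin n)) (B : Set (Cube n)), 0 < ε → ε ≤ 1 → 0 < η →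
  0 ≤ τ → (T.card : ℝ) ≤ m → C * exp (C * τ) ≤ η ^ 2 * m → Sub W m ε →
  (∀ z ∉ B, Cv W m ε τ ρ b T z) → ∀ x ∉ B, oc W B τ x ≤ ε ^ 2 → ∀ v ∈ Icc 0 τ,
  Pt1 W ρ (C * exp (C * τ) * (√ε + η * √(T.card + 1))) (2 * b v) T v x

/-- **Plant**: the cavity events hold off an exponentially small set -/
def PlStmt : Prop := ∀ β : ℝ, 0 ≤ β → β ≤ 1 → ∀ κ > (0 : ℝ), κ ≤ 1 / 8 → ∃ c > (0 : ℝ), ∃ δ > (0 : ℝ),
  Top.Whp disorderLaw fun n g => Sub (β • Jmat n g) (n ^ (1 - κ)) (n ^ (-c)) ∧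
    mass (mu (β • Jmat n g)) {x | ∃ T : Finset (Fin n), (T.card : ℝ) ≤ n ^ (1 - 4 * κ) ∧
      ¬ Cv (β • Jmat n g) (n ^ (1 - κ)) (n ^ (-c)) (δ * log n)
        (fun v => β ^ 2 * vr (cav T (β • Jmat n g)) v x)
        (fun v => β ^ 2 * Fq (cav T (β • Jmat n g)) v x) T x} ≤ exp (-(n : ℝ) ^ (1 - κ))

/-- the kernel -/
def RhoStmt : Prop := ∀ (n : ℕ) (W : Mx n) (β : ℝ), 0 < n → Wᵀ = W →
  Continuous (rho β W) ∧ (∀ v, 0 ≤ v → 0 ≤ rho β W v ∧ rho β W v ≤ β ^ 2) ∧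
  ∀ a σ e τ : ℝ, 0 ≤ σ → σ < a → a ≤ 1 → 0 ≤ e → (∀ v ∈ Icc 0 (2 * τ), Cn W v ≤ exp (-(a * v)) + e) →
    ∀ v ∈ Icc 0 τ, Ee W v ≤ 3 * exp (-(2 * a * v)) + e ∧
      ∫ u in (0 : ℝ)..v, rho β W u * exp (σ * u) ≤ β ^ 2 * (a / (a - σ) + e * exp (σ * v))

/-- **(S)** -/
def SOut (β a : ℝ) : Prop := ∃ c > (0 : ℝ), ∃ δ > (0 : ℝ), Top.Whp disorderLaw fun n g =>
  ∀ v ∈ Icc 0 (δ * log n), Cn (β • Jmat n g) v ≤ exp (-(a * v)) + (n : ℝ) ^ (-c)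

def SStmt : Prop := Rv.At0 → ∀ (β l : ℝ) (𝒬 : Set B.Ob), 0 < β → β < 1 → 1 / 2 < l → B.Nn 𝒬 →
  B.Eq0 β 𝒬 → B.Stat0 β l 𝒬 → ∀ a > (0 : ℝ), a < l → SOut β a

/-- **the output of sections 6-7** -/
def FOut (β a : ℝ) : Prop := ∀ κ > (0 : ℝ), ∃ c > (0 : ℝ), ∃ δ > (0 : ℝ), ∀ e > (0 : ℝ),
  Top.Whp disorderLaw fun n g =>
    (∀ σ, 0 ≤ σ → σ < a → ∀ v ∈ Icc 0 (δ * log n), ∫ u in (0 : ℝ)..v,
      rho β (β • Jmat n g) u * exp (σ * u) ≤ β ^ 2 * (a / (a - σ)) + (n : ℝ) ^ (-c)) ∧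
    ∃ B : Set (Cube n), mass (mu (β • Jmat n g)) B ≤ exp (-(n : ℝ) ^ (1 - κ)) ∧
      GG (β • Jmat n g) (rho β (β • Jmat n g)) (n ^ (-c)) (n ^ (1 - 8 * κ)) (δ * log n)
        (fun v => n ^ e * exp (-(2 * a * v))) B

def CGlue : Prop := SHsStmt → CStmt
def StGlue : Prop := SHsStmt → St1Stmt ∧ St2Stmt
def FGlue : Prop := SHsStmt → CStmt → St1Stmt → St2Stmt → CPStmt → PlStmt → RhoStmt → Rv.At0 →
  ∀ β a : ℝ, 0 < β → β < 1 → 0 < a → a ≤ 1 → SOut β a → FOut β a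

theorem fout_of (h1 : SHsStmt) (h2 : CGlue) (h3 : StGlue) (h5 : CPStmt) (h6 : PlStmt)
    (h7 : RhoStmt) (h8 : SStmt) (g : FGlue) (hA : Rv.At0) {β l a : ℝ} {𝒬 : Set B.Ob} (b0 : 0 < β)
    (b1 : β < 1) (l0 : 1 / 2 < l) (l1 : l ≤ 1) (q1 : B.Nn 𝒬) (q2 : B.Eq0 β 𝒬) (q3 : B.Stat0 β l 𝒬)
    (a0 : 0 < a) (a1 : a < l) : FOut β a :=
  g h1 (h2 h1) (h3 h1).1 (h3 h1).2 h5 h6 h7 hA β a b0 b1 a0 (a1.le.trans l1) (h8 hA β l 𝒬 b0 b1 l0 q1 q2 q3 a a0 a1)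

end Crest.Agent.T157.S6

end
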