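import Crest.Agent.T157.S6SC_22
import Crest.Agent.T157.S6DefB_68
import Crest.Agent.T157.RegBas_66

/-!
# Row 157, part B, block S6 (helper22): `S6.sStmt`, `S6.rhoStmt`
-/

set_option autoImplicit false

noncomputable section

namespace Crest.Agent.T157.S6

open Matrix Real Finset
open Crest.Agent.T157.E hiding mean
open Crest.Agent.T157.Reg Crest.Agent.T157.S6s
open Crest.Agent.T157.Tap (V Mx)
open Crest.Agent.T157.Rec (grad)
open Crest.Agent.T157.Da.Gr (tt)
open Crest.Agent.T157.Chain22 (sg mean)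

variable {n : ℕ} {W : Mx n}

theorem dir2_grad22 (hW : Wᵀ = W) (f g : Cube n → ℝ) : dir2 (mu W) f g =
    mean (prob (mu W)) fun x => ∑ k, cc W x k * (grad f x k * grad g x k) := by
  have e : 4 * dir2 (mu W) f g =
      dir (mu W) (fun y => f y + g y) - dir (mu W) fun y => f y - g y := by
    simp only [dir2, dir, siteM, mul_sum, ← sum_sub_distrib]
    exact sum_congr rfl fun i _ => sum_congr rfl fun y _ => by ring
  rw [Bas66.dir_eq hW, Bas66.dir_eq hW, ← Ent.mean_sub'] at e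
  refine mul_left_cancel₀ (four_ne_zero (α := ℝ)) (e.trans ?_)
  rw [← Ent.mean_const_mul]
  refine Ent.mean_congr fun x => ?_
  simp only [Rec.grad_add, Rec.grad_sub, Pi.add_apply, Pi.sub_apply, mul_sum, ← sum_sub_distrib, cc]
  exact sum_congr rfl fun k _ => by ring

/-- the kernel is the energy at half time -/
theorem rho_eq22 (hn : 0 < n) (hW : Wᵀ = W) (β v : ℝ) : rho β W v = β ^ 2 * Ee W (v / 2) := by
  have hw : ∀ x, 0 < mu W x := Da.Gr.ising_pos W 0
  unfold rho Ee vr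
  simp only [← dir2_half hn hw, dir2_grad22 hW, Da.Gr.grad_sv, div_eq_mul_inv _ (n : ℝ),
    Ent.mean_mul_const, ← Ent.mean_sum', ite_mul, one_mul, zero_mul, mul_ite, mul_zero,
    sum_ite_eq', mem_univ, if_true, Mg, of_apply]

theorem rhoStmt : RhoStmt := fun n W β hn hW => by
  have hw : ∀ x, 0 < mu W x := Da.Gr.ising_pos W 0
  have e : rho β W = fun v => β ^ 2 * Ew (mu W) (v / 2) := funext (rho_eq22 hn hW β)
  rw [e]
  refine ⟨continuous_const.mul (cont_Ew hn hw), fun v hv => ⟨mul_nonneg (sq_nonneg _)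
    (Ew_nonneg hw _), mul_le_of_le_one_right (sq_nonneg _) (Ew_le_one hn hw (by linarith))⟩,
    fun a σ ε τ s0 s1 a1 e0 h v hv => ⟨Ew_le hn hw (by linarith) a1 e0 h hv, ?_⟩⟩
  simp only [mul_assoc, intervalIntegral.integral_const_mul]
  exact mul_le_mul_of_nonneg_left (int_Ew_le hn hw s0 s1 e0 hv.1 fun u hu =>
    h u ⟨hu.1, by linarith [hu.1, hu.2, hv.2]⟩) (sq_nonneg _)

theorem sStmt : SStmt := fun hA β l _ b0 b1 _ _ hE hS a a0 a1 => by
  obtain ⟨δ, d0, h⟩ := whp_S hA b0.le b1 hE hS a0 a1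
  refine ⟨1 / 32, by norm_num, δ, d0, h.imp fun n g hg v hv => ?_⟩
  have := hg v hv
  rwa [gibbsWeight_eq_ising] at this

end Crest.Agent.T157.S6

end
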