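import Crest.Agent.T157.S6ShB_74
import Crest.Agent.T157.S6DefB_68

/-!
# Row 157, block S6 (helper74): the leaf `SHsStmt`
-/

set_option autoImplicit false
set_option linter.unusedSectionVars false

noncomputable section

namespace Crest.Agent.T157.S6o

open Matrix Real Set
open Crest.Agent.T157.E hiding mean
open Crest.Agent.T157.Eig Crest.Agent.T157.Reg
open Crest.Agent.T157.Tap (V Mx)
open Crest.Agent.T157.Rec (grad fl)
open Crest.Agent.T157.Chain22 (sg)

variable {n : ℕ} {A : Type} [Fintype A] [DecidableEq A]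

/-- stacked Hessians -/
def HS (F : A → Cube n → ℝ) (x : Cube n) : Sk A n :=
  of fun p j => grad (fun z => grad (F p.1) z p.2) x j

lemma HS_eq (F : A → Cube n → ℝ) (x : Cube n) :
    HS F x = JS (fun a => grad (F a)) x * diagonal fun j => -sv x j / 2 := by
  ext p j
  simp only [HS, JS, jac, of_apply, mul_diagonal, Rec.grad_eq (fun z => grad (F p.1) z p.2)]
  ring

lemma JS_eq (F : A → Cube n → ℝ) (x : Cube n) :
    JS (fun a => grad (F a)) x = HS F x * diagonal fun j => -2 * sv x j := by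
  ext p j
  simp only [HS, JS, jac, of_apply, mul_diagonal, Da.Gr.val_fl (fun z => grad (F p.1) z p.2)]
  ring

lemma opn_HS_le (F : A → Cube n → ℝ) (x : Cube n) :
    opn (HS F x) ≤ opn (JS (fun a => grad (F a)) x) := by
  rw [HS_eq]
  simpa using mul_le le_rfl (opn_diagonal_le (d := fun j => -sv x j / 2) zero_le_one fun j => by
    rw [abs_div, abs_neg, abs_sv]; norm_num)

/-- the gradients of a family `∂ F = L F + linear` follow the intertwined equation -/
lemma hasDerivAt_grad_fam {W : Mx n} (hW : Wᵀ = W) {F : ℝ → Cube n → ℝ} {l : V n} {c s : ℝ}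
    (h : ∀ x, HasDerivAt (fun u => F u x) (gen (mu W) (F s) x + l ⬝ᵥ sv x + c) s) (x : Cube n)
    (i : Fin n) : HasDerivAt (fun u => grad (F u) x i)
      (vel W (grad (F s)) (bb W (grad (F s))) x i + l i) s := by
  refine (Da.Gr.hasDerivAt_grad h x i).congr_deriv ?_
  rw [Rec.grad_add (fun z => gen (mu W) (F s) z + l ⬝ᵥ sv z), Rec.grad_add, Rec.grad_lin,
    Rec.grad_const, add_zero, Pi.add_apply, Bas66.grad_gen hW]
  rfl

/-- **(SHs)**, Duhamel form with any continuous majorant of the rows -/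
theorem shs_duh (K : ℝ) : ∃ C ≥ (1 : ℝ), ∀ (n : ℕ) (W : Mx n), 0 < n → Nice W K →
    ∀ (A : Type) [Fintype A] [DecidableEq A] (F : ℝ → A → Cube n → ℝ) (l : ℝ → A → V n)
      (c : ℝ → A → ℝ) (g : ℝ → Cube n → ℝ) (τ : ℝ),
    (∀ s a x, HasDerivAt (fun u => F u a x) (gen (mu W) (F s a) x + l s a ⬝ᵥ sv x + c s a) s) →
    (∀ z, Continuous fun u => g u z) →
    (∀ s ∈ Icc 0 τ, ∀ x, ∃ z : ℝ, z ^ 4 ≤ g s x ∧ ∀ i, ∑ a, grad (F s a) x i ^ 2 ≤ z ^ 2) →
    ∀ v ∈ Icc 0 τ, ∀ x, opn (HS (F v) x) ^ 4 ≤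
      16 * exp (C * v) * sg (mu W) v (fun z => opn (HS (F 0) z) ^ 4) x +
        C * S6b.duh (mu W) C g v x := by
  obtain ⟨C, C1, h⟩ := tch_bb K
  refine ⟨C, C1, fun n W hn hN A _ _ F l c g τ hd hg hz v hv x => ?_⟩
  have hw := Bas66.mu_pos W
  have hf : ∀ t, FrS fun a => grad (F t a) := fun t a x i => Bas66.grad_fl _ x i
  have hd' := fun s a => hasDerivAt_grad_fam hN.1 (hd s a)
  have h1 := S6b.cmp hn hw (Φ := fun t y => opn (JS (fun a => grad (F t a)) y) ^ 4)
    (g := fun u z => C * g u z) (T := τ) (C := C)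
    (fun y => (cont_opn (s := Icc 0 τ) fun t _ p j => (hasDerivAt_JS (ω := fun t a => grad (F t a))
      hf (hd' t) y p j).hasDerivWithinAt).pow 4) (fun z => continuous_const.mul (hg z))
    (fun s hs y => by
      obtain ⟨z, z1, z2⟩ := hz s ⟨hs.1.le, hs.2⟩ y
      refine (h n W hN A (fun t a => grad (F t a)) (l s) s hf (hd' s) y z z2).mono ?_
      nlinarith) v hv x
  have h2 : S6b.duh (mu W) C (fun u z => C * g u z) v x = C * S6b.duh (mu W) C g v x := by
    simp only [S6b.duh, Rec.sg_const_mul, ← intervalIntegral.integral_const_mul, mul_left_comm C]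
  have h3 : sg (mu W) v (fun y => opn (JS (fun a => grad (F 0 a)) y) ^ 4) x ≤
      16 * sg (mu W) v (fun z => opn (HS (F 0) z) ^ 4) x := by
    rw [← Rec.sg_const_mul]
    refine Rec.sg_mono hn hw hv.1 (fun y => ?_) x
    have : opn (JS (fun a => grad (F 0 a)) y) ≤ opn (HS (F 0) y) * 2 := by
      rw [JS_eq]
      exact mul_le le_rfl (opn_diagonal_le zero_le_two fun j => by
        rw [abs_mul, abs_sv]; norm_num)
    exact (pow_le_pow_left₀ (opn_nonneg _) this 4).trans_eq (by ring)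
  have h4 := mul_le_mul_of_nonneg_left h3 (exp_pos (C * v)).le
  have h5 := pow_le_pow_left₀ (opn_nonneg _) (opn_HS_le (F v) x) 4
  rw [h2] at h1
  linarith

/-- Duhamel integral of a time-free source `a + b 1_B` -/
lemma duh_oc (hn : 0 < n) (W : Mx n) {C a b τ v : ℝ} (hC : 0 ≤ C) (ha : 0 ≤ a) (hb : 0 ≤ b)
    (B : Set (Cube n)) (hv : v ∈ Icc 0 τ) (x : Cube n) :
    S6b.duh (mu W) C (fun _ z => a + b * B.indicator 1 z) v x ≤
      exp (C * τ) * (τ * a + b * S6.oc W B τ x) := by
  have hw := Bas66.mu_pos W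
  have hc : Continuous fun u => sg (mu W) u (B.indicator 1) x :=
    S6b.cont_sg_fam hn hw (t := fun u => u) (g := fun _ => B.indicator 1) continuous_id
      (fun _ => continuous_const) x
  have h0 : ∀ u, 0 ≤ u → 0 ≤ sg (mu W) u (B.indicator 1) x := fun u hu =>
    Rec.sg_nonneg hn hw hu (fun z => indicator_nonneg (fun _ _ => zero_le_one) z) x
  have h1 : S6b.duh (mu W) C (fun _ z => a + b * B.indicator 1 z) v x =
      ∫ u in (0 : ℝ)..v, exp (C * u) * (a + b * sg (mu W) u (B.indicator 1) x) := by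
    have := intervalIntegral.integral_comp_sub_left
      (fun u => exp (C * u) * (a + b * sg (mu W) u (B.indicator 1) x)) v (a := 0) (b := v)
    rw [sub_self, sub_zero] at this
    rw [← this]
    simp only [S6b.duh, Rec.sg_add_fun, Rec.sg_const hn hw, Rec.sg_const_mul]
  have h2 : ∫ u in (0 : ℝ)..τ, exp (C * τ) * (a + b * sg (mu W) u (B.indicator 1) x) =
      exp (C * τ) * (τ * a + b * S6.oc W B τ x) := by
    rw [intervalIntegral.integral_const_mul, intervalIntegral.integral_add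
      (continuous_const.intervalIntegrable _ _)
      ((hc.const_mul b).intervalIntegrable _ _), intervalIntegral.integral_const,
      intervalIntegral.integral_const_mul, sub_zero, smul_eq_mul, S6.oc]
  rw [h1, ← h2]
  refine (intervalIntegral.integral_mono_interval (c := 0) (d := τ) le_rfl hv.1 hv.2
    (MeasureTheory.ae_restrict_of_forall_mem measurableSet_Ioc fun u hu => ?_)
    (Continuous.intervalIntegrable (by fun_prop) _ _)).trans
    (intervalIntegral.integral_mono_on (hv.1.trans hv.2)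
      (Continuous.intervalIntegrable (by fun_prop) _ _)
      (Continuous.intervalIntegrable (by fun_prop) _ _) fun u hu => ?_)
  · have := h0 u hu.1.le
    positivity
  · have := h0 u hu.1
    exact mul_le_mul_of_nonneg_right (exp_le_exp.2 (mul_le_mul_of_nonneg_left hu.2 hC))
      (by positivity)

theorem oc_nonneg (hn : 0 < n) (W : Mx n) (B : Set (Cube n)) {τ : ℝ} (hτ : 0 ≤ τ) (x : Cube n) :
    0 ≤ S6.oc W B τ x := intervalIntegral.integral_nonneg hτ fun _ hu =>
  Rec.sg_nonneg hn (Bas66.mu_pos W) hu.1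
    (fun z => indicator_nonneg (fun _ _ => zero_le_one) z) x

end Crest.Agent.T157.S6o

namespace Crest.Agent.T157.S6

open Matrix Real Set
open Crest.Agent.T157.Eig Crest.Agent.T157.Reg Crest.Agent.T157.S6o

theorem shsStmt : SHsStmt := fun K => by
  obtain ⟨C, C1, h⟩ := shs_duh K
  refine ⟨C + 1, by linarith, fun n W hn hN F l τ r Λ B hd h0 hz v hv x => ?_⟩
  have r4 : 0 ≤ r ^ 4 := by positivity
  have l4 : 0 ≤ Λ ^ 4 := by positivity
  have t0 : 0 ≤ τ := hv.1.trans hv.2
  have h1 := h n W hn hN (Fin n) F l (fun _ _ => 0) (fun _ z => r ^ 4 + Λ ^ 4 * B.indicator 1 z) τ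
    (by simpa only [add_zero] using hd) (fun _ => continuous_const) (fun s hs y => by
      by_cases e : y ∈ B
      · exact ⟨Λ, by simp [e, r4], fun i => (hz s hs y i).1⟩
      · exact ⟨r, by simp [e], fun i => (hz s hs y i).2 e⟩) v hv x
  have h2 : (fun z => opn (HS (F 0) z) ^ 4) = fun _ => 0 := funext fun z => by
    have : HS (F 0) z = 0 := h0 z
    rw [this, ← zero_smul ℝ (0 : Sk (Fin n) n), opn_smul]
    simp
  rw [h2, Rec.sg_const hn (Bas66.mu_pos W), mul_zero, zero_add] at h1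
  have h3 := mul_le_mul_of_nonneg_left (duh_oc hn W (by linarith : 0 ≤ C) r4 l4 B hv x)
    (by linarith : 0 ≤ C)
  have h4 := oc_nonneg hn W B t0 x
  have h5 : τ * r ^ 4 + Λ ^ 4 * oc W B τ x ≤ exp τ * (r ^ 4 + Λ ^ 4 * oc W B τ x) := by
    have := add_one_le_exp τ
    nlinarith [mul_nonneg l4 h4]
  have h6 := mul_le_mul_of_nonneg_left h5 (by positivity : 0 ≤ C * exp (C * τ))
  have h7 : 0 ≤ exp (C * τ) * exp τ * (r ^ 4 + Λ ^ 4 * oc W B τ x) := by positivity
  rw [add_mul C 1 τ, one_mul, exp_add]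
  change opn (HS (F v) x) ^ 4 ≤ _
  nlinarith

end Crest.Agent.T157.S6

end
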