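import Crest.Agent.T157.S6St_2
import Crest.Agent.T157.S6DefB_68

/-!
# Row 157, block S6 (helper2): `S6.stGlue`
-/

set_option autoImplicit false

noncomputable section

namespace Crest.Agent.T157.S6t

open Matrix Real Finset
open Crest.Agent.T157.E hiding mean
open Crest.Agent.T157.Eig
open Crest.Agent.T157.Tap (V Mx)
open Crest.Agent.T157.Rec (grad fl grad_eq grad_const)
open Crest.Agent.T157.Da.Gr
open Crest.Agent.T157.Chain22 (sg IsP mean)
open Crest.Agent.T157.Reg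

variable {n : ℕ} {W : Mx n}

/-- the stacked Hessians of `P_v s` are bounded everywhere -/
theorem hess (h : S6.SHsStmt) {K : ℝ} (K0 : 0 ≤ K) : ∃ C ≥ (1 : ℝ), ∀ (n : ℕ) (W : Mx n), 0 < n →
    Nice W K → ∀ τ : ℝ, ∀ s ∈ Set.Icc 0 τ, ∀ x, opn (Hs W s x) ≤ C * exp (C * τ) := by
  obtain ⟨C, C1, hC⟩ := h K
  have G0 := Gc_nonneg K0
  refine ⟨C + 2 * Gc K, by linarith, fun n W hn hW τ s hs x => ?_⟩
  have hτ := hs.1.trans hs.2
  have e : ∀ k : ℕ, exp (Gc K * τ / 2) ^ k = exp (k * (Gc K * τ / 2)) := fun k => (exp_nat_mul _ k).symm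
  have r : ∀ s ∈ Set.Icc 0 τ, ∀ x i, ∑ k, Mg W s x i k ^ 2 ≤ exp (Gc K * τ / 2) ^ 2 :=
    fun s hs x i => (row_sq _ i).trans ((opn_Mg hn hW.1 hW.2.1 hs.1 x).trans (by
      rw [e]; exact exp_le_exp.2 (by push_cast; nlinarith [hs.2])))
  have k := hC n W hn hW (fun s a => sg (mu W) s fun z => sv z a) (fun _ _ => 0) τ
    (exp (Gc K * τ / 2)) (exp (Gc K * τ / 2)) ∅
    (fun s k x => by simpa using Chain22.hasDerivAt_sg hn (S42.mu_pos W) _ x s)
    (fun x => by
      ext p j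
      simp [S6.St, Chain22.sg_zero hn (S42.mu_pos W), grad_sv, grad_const])
    (fun s hs x i => ⟨r s hs x i, fun _ => r s hs x i⟩) s hs x
  have o : S6.oc W ∅ τ x = 0 := by simp [S6.oc, sg]
  rw [o, mul_zero, add_zero, e, mul_assoc, ← exp_add] at k
  have y : 1 ≤ (C + 2 * Gc K) * exp ((C + 2 * Gc K) * τ) :=
    one_le_mul_of_one_le_of_one_le (by linarith) (one_le_exp (by positivity))
  refine (pow_le_pow_iff_left₀ (opn_nonneg _) (by linarith) four_ne_zero).1
    (le_trans k (le_trans ?_ (le_self_pow₀ y four_ne_zero)))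
  exact mul_le_mul (by linarith) (exp_le_exp.2 (le_of_eq (by push_cast; ring))) (exp_pos _).le
    (by linarith)

theorem abs_grad_le {f : Cube n → ℝ} {c : ℝ} (h : ∀ z, |f z| ≤ c) (x : Cube n) (i : Fin n) :
    |grad f x i| ≤ c := by
  rw [grad_eq, abs_div, abs_mul, S42.abs_sv, abs_two]
  linarith [abs_sub (f x) (f (fl x i)), h x, h (fl x i)]

theorem abs_sg (hn : 0 < n) (W : Mx n) {v : ℝ} (hv : 0 ≤ v) (a : Fin n) (x : Cube n) :
    |sg (mu W) v (fun z => sv z a) x| ≤ 1 := by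
  have h := fun z => abs_le.1 (S42.abs_sv z a).le
  have h1 := Rec.sg_mono hn (S42.mu_pos W) hv (fun z => (h z).1) x
  have h2 := Rec.sg_mono hn (S42.mu_pos W) hv (fun z => (h z).2) x
  rw [Rec.sg_const hn (S42.mu_pos W)] at h1 h2
  exact abs_le.2 ⟨h1, h2⟩

theorem abs_Mg (hn : 0 < n) (W : Mx n) {v : ℝ} (hv : 0 ≤ v) (x : Cube n) (i a : Fin n) :
    |Mg W v x i a| ≤ 1 := abs_grad_le (abs_sg hn W hv a) x i

theorem lip_Mg (hn : 0 < n) (hW : Wᵀ = W) {u v : ℝ} (hu : 0 ≤ u) (hv : 0 ≤ v) (x : Cube n)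
    (i a : Fin n) : |Mg W v x i a - Mg W u x i a| ≤ 2 * n * |v - u| := by
  refine (convex_Ici 0).norm_image_sub_le_of_norm_hasDerivWithin_le (f := fun v => Mg W v x i a)
    (fun t _ => (hasDerivAt_grad (fun z => Chain22.hasDerivAt_sg hn (S42.mu_pos W) _ z t)
      x i).hasDerivWithinAt) (fun t ht => abs_grad_le (fun z => ?_) x i) hu hv
  rw [mu, gen_ising hW]
  refine (abs_sum_le_sum_abs _ _).trans ((sum_le_sum (g := fun _ => (2 : ℝ)) fun k _ => ?_).trans
    (by simp [mul_comm]))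
  rw [abs_mul]
  exact (mul_le_of_le_one_right (abs_nonneg _) (abs_Mg hn W ht z k a)).trans ((abs_sub _ _).trans
    (by linarith [S42.abs_tt W z k, S42.abs_sv z k]))

theorem lip_vr (hn : 0 < n) (hW : Wᵀ = W) {u v : ℝ} (hu : 0 ≤ u) (hv : 0 ≤ v) (x : Cube n) :
    |vr W v x - vr W u x| ≤ 2 * n * |v - u| := by
  have n0 : (0 : ℝ) < n := by exact_mod_cast hn
  rw [vr, vr, ← sub_div, ← sum_sub_distrib, abs_div, abs_of_pos n0, div_le_iff₀ n0]
  refine (abs_sum_le_sum_abs _ _).trans ((sum_le_sum (g := fun _ => 2 * n * |v - u|)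
    fun k _ => ?_).trans (by simp [mul_comm]))
  rw [← mul_sub, abs_mul, tt, abs_of_nonneg (sech_nonneg _)]
  exact (mul_le_of_le_one_left (abs_nonneg _) (by nlinarith [sq_nonneg (tanh (loc W 0 x k))])).trans
    (lip_Mg hn hW hu hv x k k)

theorem lip_Fq (hn : 0 < n) (hW : Wᵀ = W) {u v : ℝ} (hu : 0 ≤ u) (hv : 0 ≤ v) (x : Cube n) :
    Fq W v x ≤ Fq W u x + 4 * n ^ 2 * |v - u| := by
  have n0 : (0 : ℝ) < n := by exact_mod_cast hn
  rw [Fq, Fq, ← sub_le_iff_le_add', ← sub_div, div_le_iff₀ n0, fp, fp, ← sum_sub_distrib]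
  refine (sum_le_sum (g := fun _ => ∑ _a : Fin n, 4 * n * |v - u|) fun i _ => ?_).trans
    (le_of_eq (by simp; ring))
  rw [← sum_sub_distrib]
  refine sum_le_sum fun a _ => (le_abs_self _).trans ?_
  rw [← sq, ← sq, sq_sub_sq, abs_mul]
  exact (mul_le_mul ((abs_add_le _ _).trans (add_le_add (abs_Mg hn W hv x i a) (abs_Mg hn W hu x i a)))
    (lip_Mg hn hW hu hv x i a) (abs_nonneg _) (by norm_num)).trans_eq (by ring)

theorem mass_le {w g : Cube n → ℝ} (hw : ∀ x, 0 < w x) {A : Set (Cube n)} (h0 : ∀ x, 0 ≤ g x)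
    (h1 : ∀ x ∈ A, 1 ≤ g x) : mass w A ≤ mean (prob w) g := by
  have hp := Chain22.isP_prob' hw
  simp only [mass, sum_filter, mean]
  refine sum_le_sum fun x _ => ?_
  split_ifs with h
  · exact le_mul_of_one_le_right (hp.nn x) (h1 x h)
  · exact mul_nonneg (hp.nn x) (h0 x)

theorem Fq_le (A B : Mx n) : fp B B ≤ 2 * fp A A + 2 * fp (A - B) (A - B) := by
  simp only [fp, mul_sum, ← sum_add_distrib, Matrix.sub_apply]
  exact sum_le_sum fun i _ => sum_le_sum fun j _ => by nlinarith [sq_nonneg (2 * A i j - B i j)]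

theorem nice_mono {K K' : ℝ} (h : Nice W K) (hK : K ≤ K') : Nice W K' :=
  ⟨h.1, h.2.1.trans hK, fun i => (h.2.2 i).trans (div_le_div_of_nonneg_right
    (pow_le_pow_left₀ ((opn_nonneg _).trans h.2.1) hK 4) (Nat.cast_nonneg _))⟩

/-- absorbing the Hessian bound -/
theorem cst {C D v : ℝ} (hC : 1 ≤ C) (hD : 1 ≤ D) (hv : 0 ≤ v) :
    1 ≤ C * exp (C * v) * (1 + (D * exp (D * v)) ^ 2) ∧
    C * exp (C * v) * (1 + (D * exp (D * v)) ^ 2) ≤ 2 * C * D ^ 2 * exp ((C + 2 * D) * v) := by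
  have a : 1 ≤ D * exp (D * v) := one_le_mul_of_one_le_of_one_le hD (one_le_exp (by positivity))
  have b : 1 ≤ C * exp (C * v) := one_le_mul_of_one_le_of_one_le hC (one_le_exp (by positivity))
  have c : 1 ≤ (D * exp (D * v)) ^ 2 := one_le_pow₀ a
  refine ⟨one_le_mul_of_one_le_of_one_le b (by linarith), ?_⟩
  rw [show (C + 2 * D) * v = C * v + D * v + D * v by ring, exp_add, exp_add]
  nlinarith

theorem st1 (h : S6.SHsStmt) : S6.St1Stmt := fun K => by
  obtain ⟨D, D1, hD⟩ := hess h (K := |K| + 1) (by positivity)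
  obtain ⟨C, C1, hC⟩ := stStmt (|K| + 1) (by positivity)
  have p : 0 ≤ 4 * C * D ^ 2 := by positivity
  refine ⟨4 * C * D ^ 2 + (C + 2 * D), by linarith, fun n W hn hW v hv T x => ?_⟩
  have n0 : (0 : ℝ) < n := by exact_mod_cast hn
  have hW' := nice_mono hW (K' := |K| + 1) (by linarith [le_abs_self K])
  obtain ⟨a, b⟩ := ((hC n W hn hW' v _ hv).2 (hD n W hn hW' v)).1 T x
  obtain ⟨c, d⟩ := cst C1 D1 hv
  have e : 2 * (2 * C * D ^ 2 * exp ((C + 2 * D) * v)) ≤
      (4 * C * D ^ 2 + (C + 2 * D)) * exp ((4 * C * D ^ 2 + (C + 2 * D)) * v) := by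
    rw [← mul_assoc]
    exact mul_le_mul (by linarith) (exp_le_exp.2 (by nlinarith)) (exp_pos _).le (by linarith)
  have t : (0 : ℝ) ≤ T.card / n := by positivity
  generalize C * exp (C * v) * (1 + (D * exp (D * v)) ^ 2) = E at *
  generalize (4 * C * D ^ 2 + (C + 2 * D)) * exp ((4 * C * D ^ 2 + (C + 2 * D)) * v) = F at *
  refine ⟨abs_le_of_sq_le_sq (b.trans ?_) (mul_nonneg (by linarith) (sqrt_nonneg _)), ?_⟩
  · rw [mul_pow, sq_sqrt t, mul_div_assoc]
    exact mul_le_mul_of_nonneg_right (by nlinarith) t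
  · have f := Fq_le (Mg W v x) (Mg (cav T W) v x)
    change fp (Mg (cav T W) v x) (Mg (cav T W) v x) / n ≤ 2 * (fp (Mg W v x) (Mg W v x) / n) + _
    rw [← mul_div_assoc, ← mul_div_assoc, ← add_div]
    refine div_le_div_of_nonneg_right ?_ n0.le
    nlinarith [mul_le_mul_of_nonneg_right (show 2 * E ≤ F by linarith) (Nat.cast_nonneg T.card)]

set_option maxHeartbeats 800000 in
theorem st2 (h : S6.SHsStmt) : S6.St2Stmt := fun K K0 => by
  obtain ⟨D, D1, hD⟩ := hess h K0.le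
  obtain ⟨C, C1, hC⟩ := stStmt K K0
  have p : 0 ≤ 2 * C * D ^ 2 := by positivity
  obtain ⟨A, a1, a2, a3⟩ : ∃ A : ℝ, 2 * C * D ^ 2 + 12 ≤ A ∧ C + 2 * D ≤ A ∧ 3 ≤ A :=
    ⟨2 * C * D ^ 2 + 12 + (C + 2 * D), by linarith, by linarith, by linarith⟩
  refine ⟨A, by linarith, fun n W hn hW hAT τ s R hτ hs hs1 hR => ?_⟩
  have n1 : (1 : ℝ) ≤ n := by exact_mod_cast hn
  obtain ⟨c, d⟩ := cst C1 D1 hτ
  have H := fun v (hv : v ∈ Set.Icc 0 τ) => ((hC n W hn hW v (D * exp (D * τ)) hv.1).2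
    fun s hs => hD n W hn hW τ s ⟨hs.1, hs.2.trans hv.2⟩).2 hAT
  set E := C * exp (C * τ) * (1 + (D * exp (D * τ)) ^ 2) with hE
  have eA : exp ((C + 2 * D) * τ) ≤ exp (A * τ) := exp_le_exp.2 (by nlinarith)
  have eB : exp (C * τ) ≤ exp (A * τ) := exp_le_exp.2 (by nlinarith)
  have e1 : 1 ≤ exp (A * τ) := one_le_exp (by positivity)
  have eE : (E + 12) * s ≤ A * exp (A * τ) * s := mul_le_mul_of_nonneg_right
    (by nlinarith [mul_le_mul_of_nonneg_left eA p]) hs.le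
  obtain ⟨η, hη⟩ : ∃ η : ℝ, η = s / n ^ 2 := ⟨_, rfl⟩
  have η0 : 0 < η := hη ▸ by positivity
  have η1 : n ^ 2 * η = s := by rw [hη]; field_simp
  have η2 : n * η ≤ s := by nlinarith [mul_nonneg (sub_nonneg.2 n1) (mul_pos (one_pos.trans_le n1) η0).le]
  have hk : ∀ k ∈ range (⌊τ / η⌋₊ + 1), k * η ∈ Set.Icc 0 τ := fun k hk =>
    ⟨by positivity, (le_div_iff₀ η0).1 ((Nat.le_floor_iff (by positivity)).1
      (Nat.lt_succ_iff.1 (mem_range.1 hk)))⟩
  refine (mass_le (S42.mu_pos W) (g := fun x => ∑ k ∈ range (⌊τ / η⌋₊ + 1),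
    (Ent.ind (fun x => E * s ≤ |vr W (k * η) x - mean (prob (mu W)) (vr W (k * η))|) x +
      Ent.ind (fun x => 2 * mean (prob (mu W)) (Fq W (k * η)) + E * s ≤ Fq W (k * η) x) x))
    (fun x => sum_nonneg fun _ _ => add_nonneg (Ent.ind_nonneg _ _) (Ent.ind_nonneg _ _))
    ?_).trans ?_
  · rintro x ⟨v, hv, hx⟩
    have k1 : ⌊v / η⌋₊ ∈ range (⌊τ / η⌋₊ + 1) := mem_range.2 (Nat.lt_succ_iff.2
      (Nat.floor_le_floor (div_le_div_of_nonneg_right hv.2 η0.le)))
    refine le_trans ?_ (single_le_sum (fun _ _ => add_nonneg (Ent.ind_nonneg _ _)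
      (Ent.ind_nonneg _ _)) k1)
    have k2 := (hk _ k1).1
    have k3 : |v - ⌊v / η⌋₊ * η| ≤ η := by
      have a := (le_div_iff₀ η0).1 (Nat.floor_le (div_nonneg hv.1 η0.le))
      have b := (div_lt_iff₀ η0).1 (Nat.lt_floor_add_one (v / η))
      rw [abs_le]; constructor <;> linarith
    generalize (⌊v / η⌋₊ : ℝ) * η = u at *
    have l1 : 2 * n * |v - u| ≤ 2 * s := by nlinarith
    have l2 : 4 * n ^ 2 * |v - u| ≤ 4 * s := by nlinarith
    have hp := S42.isP_mu W
    rcases hx with hx | hx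
    · rw [Ent.ind_pos (p := fun x => E * s ≤ |vr W u x - mean (prob (mu W)) (vr W u)|)]
      · exact le_add_of_nonneg_right (Ent.ind_nonneg _ _)
      have m := fun z => abs_le.1 ((lip_vr hn hW.1 k2 hv.1 z).trans l1)
      have m1 := hp.mean_mono (f := vr W u) (g := fun z => vr W v z + 2 * s) fun z => by
        linarith [(m z).1]
      have m2 := hp.mean_mono (f := vr W v) (g := fun z => vr W u z + 2 * s) fun z => by
        linarith [(m z).2]
      rw [Ent.mean_add', hp.mean_const] at m1 m2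
      change _ < |vr W v x - mean (prob (mu W)) (vr W v)| at hx
      rcases lt_abs.1 hx with hx | hx
      · exact le_abs.2 (.inl (by linarith [(m x).2]))
      · exact le_abs.2 (.inr (by linarith [(m x).1]))
    · rw [Ent.ind_pos (p := fun x => 2 * mean (prob (mu W)) (Fq W u) + E * s ≤ Fq W u x)]
      · exact le_add_of_nonneg_left (Ent.ind_nonneg _ _)
      have m1 := hp.mean_mono (f := Fq W u) (g := fun z => Fq W v z + 4 * s) fun z => by
        have := lip_Fq hn hW.1 hv.1 k2 z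
        rw [abs_sub_comm] at this; linarith
      rw [Ent.mean_add', hp.mean_const] at m1
      have m2 := lip_Fq hn hW.1 k2 hv.1 x
      have m3 := (H v hv R hR).2.2
      have m4 : 4 * (exp (C * v) * exp (-(R ^ 2 / C))) ≤ A * exp (A * τ) * exp (-(R ^ 2 / A)) := by
        rw [mul_assoc A]
        refine mul_le_mul (by linarith) (mul_le_mul ((exp_le_exp.2 (by nlinarith [hv.2])).trans eB)
          (exp_le_exp.2 (neg_le_neg (div_le_div_of_nonneg_left (sq_nonneg _) (by linarith)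
            (by linarith)))) (exp_pos _).le (exp_pos _).le) (by positivity) (by linarith)
      change 2 * exp (2 * R) * Ee W v + _ < Fq W v x at hx
      linarith
  · rw [Ent.mean_sum']
    refine (sum_le_sum (g := fun _ => 3 * exp (-(n * s ^ 2 / A))) fun k hk' => ?_).trans ?_
    · obtain ⟨b1, b2, -⟩ := H _ (hk k hk') (E * s) (by positivity)
      have q : n * s ^ 2 / A ≤ n * s ^ 2 := div_le_self (by positivity) (by linarith)
      have f1 : C * exp (C * (k * η)) * (1 + (D * exp (D * τ)) ^ 2) ≤ E := by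
        rw [hE]; gcongr; exact (hk k hk').2
      have f2 : C * (1 + (D * exp (D * τ)) ^ 2) ≤ E := by
        rw [hE]; gcongr; exact le_mul_of_one_le_right (by linarith) (one_le_exp (by positivity))
      have g1 : n * s ^ 2 ≤ (E * s) ^ 2 * n / (C * exp (C * (k * η)) * (1 + (D * exp (D * τ)) ^ 2)) := by
        rw [le_div_iff₀ (by positivity)]
        nlinarith [mul_le_mul_of_nonneg_left (f1.trans (le_self_pow₀ c two_ne_zero))
          (by positivity : 0 ≤ n * s ^ 2)]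
      have g2 : n * s ^ 2 ≤ E * s * n / (C * (1 + (D * exp (D * τ)) ^ 2)) := by
        rw [le_div_iff₀ (by positivity)]
        nlinarith [mul_le_mul_of_nonneg_left f2 (by positivity : 0 ≤ n * s ^ 2),
          mul_le_mul_of_nonneg_left hs1 (by positivity : 0 ≤ E * s * n)]
      rw [Ent.mean_add']
      linarith [exp_le_exp.2 (neg_le_neg (q.trans g1)), exp_le_exp.2 (neg_le_neg (q.trans g2))]
    · rw [sum_const, card_range, nsmul_eq_mul, ← mul_assoc]
      refine mul_le_mul_of_nonneg_right ?_ (exp_pos _).le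
      have a := Nat.floor_le (div_nonneg hτ η0.le)
      have b : 1 ≤ 1 / η := by rw [le_div_iff₀ η0]; nlinarith
      have e : A * (τ + 1) * n ^ 2 / s = A * (τ / η + 1 / η) := by rw [hη]; field_simp
      rw [e]; push_cast
      nlinarith [div_nonneg hτ η0.le]

end Crest.Agent.T157.S6t

theorem Crest.Agent.T157.S6.stGlue : Crest.Agent.T157.S6.StGlue :=
  fun h => ⟨Crest.Agent.T157.S6t.st1 h, Crest.Agent.T157.S6t.st2 h⟩

end
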