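import Crest.Agent.T157.S6F_68
import Crest.Agent.T157.S6Cq_38
import Crest.Agent.T157.S6StG_2
import Crest.Agent.T157.S6Sh_74
import Crest.Agent.T157.S6Pl_55
import Crest.Agent.T157.S6S_22
import Crest.Agent.T157.S6Fa_43

/-!
# Row 157, block S6 (helper68): sections 6-7 assembled
-/

set_option autoImplicit false

namespace Crest.Agent.T157

theorem S6.cStmt : S6.CStmt := S6.cGlue S6.shsStmt

theorem S6.fout (hA : Rv.At0) (β l a : ℝ) (𝒬 : Set B.Ob) (b0 : 0 < β) (b1 : β < 1) (l0 : 1 / 2 < l)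
    (l1 : l ≤ 1) (q1 : B.Nn 𝒬) (q2 : B.Eq0 β 𝒬) (q3 : B.Stat0 β l 𝒬) (a0 : 0 < a) (a1 : a < l) :
    S6.FOut β a :=
  S6.fout_of S6.shsStmt S6.cGlue S6.stGlue S6.cpStmt S6p.plStmt S6.rhoStmt S6.sStmt S6.fGlue hA b0 b1
    l0 l1 q1 q2 q3 a0 a1

theorem S6a.factsStmt (hA : Rv.At0) : S6a.FactsStmt :=
  S6a.factsGlue Reg.niceStmt S6.cStmt S6.rhoStmt (S6.fout hA)

end Crest.Agent.T157
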