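import Crest.Agent.T157.S6St_93
import Crest.Agent.T157.S6Dl_28
import Crest.Agent.T157.S6Dv_85
import Crest.Agent.T157.S6Ea_28
import Crest.Agent.T157.S6EbB_83
import Crest.Agent.T157.S6Ok_90
import Crest.Agent.T157.S6Pe_20
import Crest.Agent.T157.S6Rd_39
import Crest.Agent.T157.S6BAll_68
import Crest.Agent.T157.S6Eb_20
import Crest.Agent.T157.S6Loc_45
import Crest.Agent.T157.RegNice_66

/-!
# Row 157, block S6 (helper93): assembly
-/

set_option autoImplicit false

namespace Crest.Agent.T157.S6a

/-- **S6**: the local equilibration statement -/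
theorem locStmt (hA : Rv.At0) : LocStmt :=
  loc_of hA Reg.niceStmt okStmt redStmt hbStmt decStmt contStmt fStmt pStmt eqStmt duStmt errStmt
    loopStmt (factsStmt hA) (endGlue_of eaGlue ebGlue stepGlue) locGlue

end Crest.Agent.T157.S6a
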