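import Crest.Agent.T157.S6P_20

/-!
# Row 157, block S6 (helper20): the energy bound (Eq) for the scalars of a marker, abstract form
-/

set_option autoImplicit false

noncomputable section

namespace Crest.Agent.T157.S6b

open Real Matrix Finset Set MeasureTheory
open Crest.Agent.T157.E Crest.Agent.T157.Rec
open Crest.Agent.T157.Chain22 (sg)

variable {n : ℕ} {w : Cube n → ℝ} {r : Cube n → Fin n → ℝ} {κ : Type*} [Fintype κ] {e : ℝ}

/-- no integrability is needed on the small side -/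
theorem int_le {f g : ℝ → ℝ} {s : ℝ} (hs : 0 ≤ s) (hg : Continuous g) (h0 : ∀ u ∈ Icc 0 s, 0 ≤ f u)
    (h : ∀ u ∈ Icc 0 s, f u ≤ g u) : ∫ u in (0 : ℝ)..s, f u ≤ ∫ u in (0 : ℝ)..s, g u := by
  rw [intervalIntegral.integral_of_le hs, intervalIntegral.integral_of_le hs]
  refine integral_mono_of_nonneg ?_ (hg.intervalIntegrable 0 s).1 ?_
  · exact (ae_restrict_iff' measurableSet_Ioc).2 (ae_of_all _ fun u hu => h0 u ⟨hu.1.le, hu.2⟩)
  · exact (ae_restrict_iff' measurableSet_Ioc).2 (ae_of_all _ fun u hu => h u ⟨hu.1.le, hu.2⟩)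

/-- two nested dissipation inequalities -/
theorem nest (hn : 0 < n) (hw : ∀ x, 0 < w x) {N B : ℝ → Cube n → ℝ} {E Ψ Z : ℝ → ℝ → Cube n → ℝ}
    {C K : ℝ} (hC : 0 ≤ C) (hK : 0 ≤ K) (cN : ∀ x, Continuous fun u => N u x)
    (cB : ∀ x, Continuous fun u => B u x) (N0 : ∀ u x, 0 ≤ N u x)
    (hN : ∀ u x, Tch (fun u => N u x) u (gen w (N u) x + C * N u x - B u x))
    (cΨ : ∀ u x, Continuous fun v => Ψ u v x) (cZ : ∀ u x, Continuous fun v => Z u v x)
    (E0 : ∀ u v x, 0 ≤ E u v x ∧ E u v x ≤ Ψ u v x) (Z0 : ∀ u v x, 0 ≤ Z u v x)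
    (hΨ : ∀ u v x, Tch (fun v => Ψ u v x) v (gen w (Ψ u v) x + C * Ψ u v x - Z u v x))
    (h0 : ∀ u x, Ψ u 0 x ≤ K * B u x) {s : ℝ} (hs : 0 ≤ s) (x : Cube n) :
    ∫ u in (0 : ℝ)..s, (E u (s - u) x + ∫ v in (0 : ℝ)..s - u, sg w (s - u - v) (Z u v) x) ≤
      K * (exp (C * s) * sg w s (N 0) x) := by
  have a := cmp_diss hn hw (T := s) (fun x => (cN x).continuousOn) cB (fun u _ x => hN u x) s
    ⟨hs, le_rfl⟩ x
  refine le_trans ?_ (mul_le_mul_of_nonneg_left (le_trans (le_add_of_nonneg_left (N0 s x)) a) hK)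
  rw [← duh_const_mul]
  refine int_le hs ((by fun_prop : Continuous fun u => exp (C * (s - u))).mul
    (cont_sg_fam hn hw (by fun_prop) (fun z => continuous_const.mul (cB z)) x)) (fun u hu => ?_)
    fun u hu => ?_
  · exact add_nonneg (E0 _ _ _).1 (intervalIntegral.integral_nonneg (sub_nonneg.2 hu.2) fun v hv =>
      sg_nonneg hn hw (sub_nonneg.2 hv.2) (Z0 u v) x)
  · have t := sub_nonneg.2 hu.2
    have b := cmp_diss hn hw (T := s - u) (fun x => (cΨ u x).continuousOn) (cZ u)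
      (fun v _ x => hΨ u v x) _ ⟨t, le_rfl⟩ x
    have c := duh_mono hn hw (cZ u) (cZ u) t hC (fun v _ => Z0 u v) (fun _ _ _ => le_rfl) x
    simp only [duh, zero_mul, exp_zero, one_mul] at c
    refine le_trans (add_le_add (E0 _ _ _).2 c) (b.trans ?_)
    exact mul_le_mul_of_nonneg_left (sg_mono hn hw t (h0 u) x) (exp_pos _).le

/-- a scalar function as a field with one component -/
def one (F : Cube n → ℝ) : Cube n → Unit → ℝ := fun x _ => F x
/-- `|a (V)|²` -/
def aV (r : Cube n → Fin n → ℝ) (V : Cube n → κ → ℝ) (x : Cube n) : ℝ :=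
  ∑ i, r x i ^ 2 * (inc V x i ⬝ᵥ inc V x i)
/-- `|a (F)|²` -/
def aS (r : Cube n → Fin n → ℝ) (F : Cube n → ℝ) (x : Cube n) : ℝ :=
  ∑ i, (r x i * (F (fl x i) - F x)) ^ 2
/-- `Z²` -/
def Z2 (r : Cube n → Fin n → ℝ) (F : Cube n → ℝ) (V : Cube n → κ → ℝ) (x : Cube n) : ℝ :=
  F x ^ 2 + V x ⬝ᵥ V x + aS r F x + aV r V x

theorem one_dot (F G : Cube n → ℝ) (x : Cube n) : one F x ⬝ᵥ one G x = F x * G x := by
  simp [one, dotProduct]

theorem aV_one (F : Cube n → ℝ) (x : Cube n) : aV r (one F) x = aS r F x :=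
  sum_congr rfl fun i _ => by simp [one, inc, dotProduct]; ring

theorem aS_nn (F : Cube n → ℝ) (x : Cube n) : 0 ≤ aS r F x := sum_nonneg fun _ _ => sq_nonneg _
theorem aV_nn (V : Cube n → κ → ℝ) (x : Cube n) : 0 ≤ aV r V x :=
  sum_nonneg fun _ _ => mul_nonneg (sq_nonneg _) (dn _)
theorem Z2_nn (F : Cube n → ℝ) (V : Cube n → κ → ℝ) (x : Cube n) : 0 ≤ Z2 r F V x :=
  add_nonneg (add_nonneg (add_nonneg (sq_nonneg _) (dn _)) (aS_nn _ _)) (aV_nn _ _)

theorem aV_le (h : Rt w r) (V : Cube n → κ → ℝ) (x : Cube n) : aV r V x ≤ GaF r V x :=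
  sum_le_sum fun i _ => mul_le_mul_of_nonneg_right (by nlinarith [h.hr x i]) (dn _)

theorem aV_p34 (h : Rt w r) (he : 0 < e) (V : Cube n → κ → ℝ) (x : Cube n) :
    aV r V x ^ (3 / 4 : ℝ) ≤ 32 * BrF e r V x + nb e (V x) := jump_le he (h.hr x) _ _

theorem cont_Z2 {Y : Type*} [TopologicalSpace Y] {F : Y → Cube n → ℝ} {V : Y → Cube n → κ → ℝ}
    (hF : ∀ x, Continuous fun y => F y x) (hV : ∀ x k, Continuous fun y => V y x k) (x : Cube n) :
    Continuous fun y => Z2 r (F y) (V y) x :=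
  ((((hF x).pow 2).add (cont_dot (hV x) (hV x))).add (continuous_finsetSum _ fun _ _ =>
    (continuous_const.mul ((hF _).sub (hF _))).pow 2)).add (continuous_finsetSum _ fun _ _ =>
      continuous_const.mul (cont_dot (fun k => (hV _ k).sub (hV _ k)) fun k => (hV _ k).sub (hV _ k)))

theorem twF_gen (h : Rt w r) (F : Cube n → ℝ) (x : Cube n) :
    TwF r (one F) (one (gen w F)) x 0 0 0 := tw_of_le (le_of_eq (by
  simp [one, inc, dotProduct, h.gen]))

theorem gen_add (w F G : Cube n → ℝ) (x : Cube n) :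
    gen w (fun z => F z + G z) x = gen w F x + gen w G x := by
  simp only [gen, siteM, ← Finset.sum_add_distrib]
  exact Finset.sum_congr rfl fun i _ => by ring

/-- the equations of the scalars of a marker: `al (u)`, `ka (u + v, u)`, `z (u + v, u)` -/
structure Mk (w : Cube n → ℝ) (r : Cube n → Fin n → ℝ) (β : ℝ) (al Ua : ℝ → Cube n → ℝ)
    (ka : ℝ → ℝ → Cube n → ℝ) (z Uz : ℝ → ℝ → Cube n → κ → ℝ) : Prop where
  da : ∀ s x, HasDerivAt (fun u => al u x) (Ua s x) s
  ta : ∀ s x, TwF r (one (al s)) (one (Ua s)) x β 0 0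
  dk : ∀ u v x, HasDerivAt (fun v => ka u v x) (gen w (ka u v) x) v
  k0 : ∀ u x, ka u 0 x ^ 2 ≤ al u x ^ 2
  dz : ∀ u v x j, HasDerivAt (fun v => z u v x j) (Uz u v x j) v
  tz : ∀ u v x, TwF r (z u v) (Uz u v) x β 0 (β * √(aS r (ka u v) x))
  z0 : ∀ u x, z u 0 x ⬝ᵥ z u 0 x ≤ β ^ 2 * (al u x ^ 2 + aS r (al u) x)

variable {β : ℝ} {al Ua : ℝ → Cube n → ℝ} {ka : ℝ → ℝ → Cube n → ℝ} {z Uz : ℝ → ℝ → Cube n → κ → ℝ}

theorem tch2 (h : Rt w r) {V U : ℝ → Cube n → κ → ℝ} {s A γ : ℝ} {x : Cube n}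
    (hd : ∀ k, HasDerivAt (fun u => V u x k) (U s x k) s) (ht : TwF r (V s) (U s) x β A γ) :
    Tch (fun u => V u x ⬝ᵥ V u x) s (gen w (fun z => V s z ⬝ᵥ V s z) x - GaF r (V s) x / 2 +
      (2 * β ^ 2 + 2 * A + 1) * (V s x ⬝ᵥ V s x) + γ ^ 2) := by
  refine Tch.of_deriv (HasDerivAt.fun_sum fun k _ => (hd k).mul (hd k)) ?_
  have := core2 (h.hr x) ht
  simp only [inc, add_sub_cancel] at this
  have e : ∑ k, (U s x k * V s x k + V s x k * U s x k) = 2 * (V s x ⬝ᵥ U s x) := by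
    simp only [dotProduct, mul_sum]; exact sum_congr rfl fun k _ => by ring
  rw [h.gen, GaF, e]; unfold inc; linarith

theorem tch32 (h : Rt w r) (he : 0 < e) {V U : ℝ → Cube n → κ → ℝ} {s A γ : ℝ} {x : Cube n}
    (hβ : 0 ≤ β) (hA : 0 ≤ A) (hγ : 0 ≤ γ)
    (hd : ∀ k, HasDerivAt (fun u => V u x k) (U s x k) s) (ht : TwF r (V s) (U s) x β A γ) :
    Tch (fun u => nb e (V u x)) s (gen w (fun z => nb e (V s z)) x - BrF e r (V s) x / 2 +
      c32 β A * nb e (V s x) + γ ^ (3 / 2 : ℝ)) := by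
  refine Tch.of_deriv (hasDerivAt_nb he hd) ?_
  have := core32 he (h.hr x) hβ hA hγ ht
  simp only [inc, add_sub_cancel] at this
  rw [h.gen, BrF]; linarith

/-- **(Eq), `q = 2`** -/
theorem Mk.eq2 (h : Rt w r) (m : Mk w r β al Ua ka z Uz) {s : ℝ} (hs : 0 ≤ s) (x : Cube n) :
    ∫ u in (0 : ℝ)..s, ((ka u (s - u) x ^ 2 + z u (s - u) x ⬝ᵥ z u (s - u) x) +
      ∫ v in (0 : ℝ)..s - u, sg w (s - u - v) (Z2 r (ka u v) (z u v)) x) ≤
      (12 * β ^ 2 + 4) * (exp ((2 * β ^ 2 + 2) * s) * sg w s (fun y => al 0 y ^ 2) x) := by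
  have ca : ∀ x (_ : Unit), Continuous fun u => al u x := fun x _ =>
    continuous_iff_continuousAt.2 fun s => (m.da s x).continuousAt
  have ck : ∀ u x, Continuous fun v => ka u v x := fun u x =>
    continuous_iff_continuousAt.2 fun s => (m.dk u s x).continuousAt
  have cz : ∀ u x j, Continuous fun v => z u v x j := fun u x j =>
    continuous_iff_continuousAt.2 fun s => (m.dz u s x j).continuousAt
  have b2 := sq_nonneg β
  have := nest h.hn h.hw (N := fun u y => one (al u) y ⬝ᵥ one (al u) y)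
    (B := fun u y => (one (al u) y ⬝ᵥ one (al u) y + GaF r (one (al u)) y) / 2)
    (Ψ := fun u v y => 2 * ((2 * β ^ 2 + 1) * (one (ka u v) y ⬝ᵥ one (ka u v) y) + z u v y ⬝ᵥ z u v y))
    (E := fun u v y => ka u v y ^ 2 + z u v y ⬝ᵥ z u v y)
    (Z := fun u v => Z2 r (ka u v) (z u v)) (C := 2 * β ^ 2 + 2) (K := 12 * β ^ 2 + 4)
    (by positivity) (by positivity) (fun y => cont_dot (ca y) (ca y))
    (fun y => ((cont_dot (ca y) (ca y)).add (cont_GaF (V := fun u => one (al u)) ca y)).div_const 2)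
    (fun u y => dn _) (fun u y => (tch2 h (V := fun u => one (al u)) (U := fun u => one (Ua u))
      (fun _ => m.da u y) (m.ta u y)).mono (by linarith [dn (one (al u) y)]))
    (fun u y => continuous_const.mul ((continuous_const.mul (cont_dot (fun _ => ck u y)
      fun _ => ck u y)).add (cont_dot (cz u y) (cz u y)))) (fun u => cont_Z2 (ck u) (cz u))
    (fun u v y => by
      rw [one_dot, ← sq]
      constructor <;> nlinarith [dn (z u v y), mul_nonneg b2 (sq_nonneg (ka u v y))])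
    (fun u v => Z2_nn _ _) (fun u v y => by
      refine ((((tch2 h (V := fun v => one (ka u v)) (U := fun v => one (gen w (ka u v)))
        (fun _ => m.dk u v y) (twF_gen h _ y)).const_mul (c := 2 * β ^ 2 + 1) (by positivity)).add
        (tch2 h (m.dz u v y) (m.tz u v y))).const_mul zero_le_two).mono ?_
      rw [gen_const_mul, gen_add, gen_const_mul, mul_pow, sq_sqrt (aS_nn _ _), Z2, sq (ka u v y),
        ← one_dot, ← aV_one]
      have a1 := aV_le h (one (ka u v)) y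
      have a2 := aV_le h (z u v) y
      have a3 := dn (one (ka u v) y)
      have a4 := dn (z u v y)
      nlinarith [mul_le_mul_of_nonneg_left a1 b2, mul_nonneg b2 a3, mul_nonneg (mul_nonneg b2 b2) a3])
    (fun u y => by
      have a1 := aV_le h (one (al u)) y
      have a2 := m.k0 u y
      have a3 := m.z0 u y
      have a4 := GaF_nn h (one (al u)) y
      rw [aV_one] at a1
      simp only [one_dot, ← sq]
      nlinarith [mul_le_mul_of_nonneg_left a1 b2, mul_le_mul_of_nonneg_left a2 b2, mul_nonneg b2 a4])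
    hs x
  simpa only [one_dot, ← sq] using this

theorem nb_one (F : Cube n → ℝ) (x : Cube n) : nb e (one F x) = (e + F x ^ 2) ^ (3 / 4 : ℝ) := by
  rw [nb, one_dot, sq]

theorem p34_le_nb (he : 0 ≤ e) (u : κ → ℝ) : (u ⬝ᵥ u) ^ (3 / 4 : ℝ) ≤ nb e u := by
  have := nb_zero_le he u
  rwa [nb, zero_add] at this

/-- the rate in (Eq), `q = 3/2` -/
def r32 (β : ℝ) : ℝ := c32 β 0 + 2
/-- the factor in (Eq), `q = 3/2` -/
def k32 (β : ℝ) : ℝ := 8192 * (β ^ 2 + 1) + 256

theorem Mk.eq32e (h : Rt w r) (hβ : 0 ≤ β) (he : 0 < e) (m : Mk w r β al Ua ka z Uz) {s : ℝ}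
    (hs : 0 ≤ s) (x : Cube n) :
    ∫ u in (0 : ℝ)..s, ((ka u (s - u) x ^ 2 + z u (s - u) x ⬝ᵥ z u (s - u) x) ^ (3 / 4 : ℝ) +
      ∫ v in (0 : ℝ)..s - u, sg w (s - u - v) (fun y => Z2 r (ka u v) (z u v) y ^ (3 / 4 : ℝ)) x) ≤
      2 * k32 β * (exp (r32 β * s) * sg w s (fun y => nb e (one (al 0) y)) x) := by
  have ca : ∀ x (_ : Unit), Continuous fun u => al u x := fun x _ =>
    continuous_iff_continuousAt.2 fun s => (m.da s x).continuousAt
  have ck : ∀ u x, Continuous fun v => ka u v x := fun u x =>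
    continuous_iff_continuousAt.2 fun s => (m.dk u s x).continuousAt
  have cz : ∀ u x j, Continuous fun v => z u v x j := fun u x j =>
    continuous_iff_continuousAt.2 fun s => (m.dz u s x j).continuousAt
  have b2 := sq_nonneg β
  have b3 : 0 ≤ β ^ 3 := by positivity
  have p1 : (β ^ 2) ^ (3 / 4 : ℝ) ≤ β ^ 2 + 1 := by
    rcases le_total (β ^ 2) 1 with c | c
    · linarith [rpow_le_one b2 c (show (0 : ℝ) ≤ 3 / 4 by norm_num)]
    · linarith [rpow_le_self_of_one_le c (show (3 / 4 : ℝ) ≤ 1 by norm_num)]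
  have p0 : 0 ≤ (β ^ 2) ^ (3 / 4 : ℝ) := rpow_nonneg b2 _
  exact nest h.hn h.hw (N := fun u y => nb e (one (al u) y))
    (B := fun u y => (nb e (one (al u) y) + BrF e r (one (al u)) y) / 2)
    (Ψ := fun u v y => 64 * ((64 * (β ^ 2 + 1) + 1) * nb e (one (ka u v) y) + nb e (z u v y)))
    (E := fun u v y => (ka u v y ^ 2 + z u v y ⬝ᵥ z u v y) ^ (3 / 4 : ℝ))
    (Z := fun u v y => Z2 r (ka u v) (z u v) y ^ (3 / 4 : ℝ)) (C := r32 β) (K := 2 * k32 β)
    (by unfold r32 c32; positivity) (by unfold k32; positivity) (fun y => cont_nb e (ca y))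
    (fun y => ((cont_nb e (ca y)).add (cont_BrF he (V := fun u => one (al u)) ca y)).div_const 2)
    (fun u y => nb_nn he.le _) (fun u y => (tch32 h he (V := fun u => one (al u))
      (U := fun u => one (Ua u)) hβ le_rfl le_rfl (fun _ => m.da u y) (m.ta u y)).mono (by
        rw [zero_rpow (by norm_num), r32]; linarith [nb_nn he.le (one (al u) y)]))
    (fun u y => continuous_const.mul ((continuous_const.mul (cont_nb e (U := fun v => one (ka u v) y)
      fun _ => ck u y)).add (cont_nb e (cz u y))))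
    (fun u y => (cont_Z2 (ck u) (cz u) y).rpow_const fun _ => Or.inr (by norm_num))
    (fun u v y => ⟨rpow_nonneg (add_nonneg (sq_nonneg _) (dn _)) _, by
      have a1 := p34_add (sq_nonneg (ka u v y)) (dn (z u v y))
      have a2 := p34_le_nb he.le (one (ka u v) y)
      rw [one_dot, ← sq] at a2
      nlinarith [p34_le_nb he.le (z u v y), nb_nn he.le (z u v y), nb_nn he.le (one (ka u v) y),
        mul_nonneg b2 (nb_nn he.le (one (ka u v) y))]⟩)
    (fun u v y => rpow_nonneg (Z2_nn _ _ _) _) (fun u v y => by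
      refine ((((tch32 h he (V := fun v => one (ka u v)) (U := fun v => one (gen w (ka u v)))
        le_rfl le_rfl le_rfl (fun _ => m.dk u v y) (twF_gen h _ y)).const_mul
        (c := 64 * (β ^ 2 + 1) + 1) (by positivity)).add (tch32 h he hβ le_rfl (by positivity)
        (m.dz u v y) (m.tz u v y))).const_mul (c := 64) (by norm_num)).mono ?_
      have e1 : (β * √(aS r (ka u v) y)) ^ (3 / 2 : ℝ) =
          (β ^ 2) ^ (3 / 4 : ℝ) * aS r (ka u v) y ^ (3 / 4 : ℝ) := by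
        rw [← mul_rpow b2 (aS_nn _ _), ← sq_sqrt (aS_nn (ka u v) y), sqrt_sq (sqrt_nonneg _), ← mul_pow,
          ← rpow_natCast, ← rpow_mul (by positivity)]
        norm_num
      have a1 := aV_p34 h he (one (ka u v)) y
      have a2 := aV_p34 h he (z u v) y
      have a3 := nb_nn he.le (one (ka u v) y)
      have a4 := nb_nn he.le (z u v y)
      have a5 := BrF_nn h he (one (ka u v)) y
      have a6 := p34_le_nb he.le (one (ka u v) y)
      have a7 := p34_le_nb he.le (z u v y)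
      have a8 : Z2 r (ka u v) (z u v) y ^ (3 / 4 : ℝ) ≤ (ka u v y ^ 2) ^ (3 / 4 : ℝ) +
          (z u v y ⬝ᵥ z u v y) ^ (3 / 4 : ℝ) + aS r (ka u v) y ^ (3 / 4 : ℝ) +
          aV r (z u v) y ^ (3 / 4 : ℝ) :=
        (p34_add (add_nonneg (add_nonneg (sq_nonneg _) (dn _)) (aS_nn _ _)) (aV_nn _ _)).trans
          (add_le_add ((p34_add (add_nonneg (sq_nonneg _) (dn _)) (aS_nn _ _)).trans
            (add_le_add (p34_add (sq_nonneg _) (dn _)) le_rfl)) le_rfl)
      rw [one_dot, ← sq] at a6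
      rw [aV_one] at a1
      have a9 := mul_le_mul p1 a1 (rpow_nonneg (aS_nn _ _) _) (by positivity)
      rw [gen_const_mul, gen_add, gen_const_mul, e1, zero_rpow (by norm_num), r32]
      unfold c32
      nlinarith [mul_nonneg b2 a3, mul_nonneg b3 a3, mul_nonneg (mul_nonneg b2 b2) a3,
        mul_nonneg (mul_nonneg b2 b3) a3])
    (fun u y => by
      have a1 := aV_p34 h he (one (al u)) y
      have a2 : nb e (one (ka u 0) y) ≤ nb e (one (al u) y) := by
        rw [nb_one, nb_one]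
        exact rpow_le_rpow (by positivity) (by linarith [m.k0 u y]) (by norm_num)
      have a3 := nb_nn he.le (one (al u) y)
      have a4 := BrF_nn h he (one (al u)) y
      have a5 : e ^ (3 / 4 : ℝ) ≤ nb e (one (al u) y) := by
        rw [nb_one]; exact rpow_le_rpow he.le (by nlinarith) (by norm_num)
      have a6 := p34_le_nb he.le (one (al u) y)
      have a7 := nb_le he.le (z u 0 y)
      rw [aV_one] at a1
      rw [one_dot, ← sq] at a6
      have a8 : nb 0 (z u 0 y) ≤ (β ^ 2 + 1) * ((al u y ^ 2) ^ (3 / 4 : ℝ) +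
          aS r (al u) y ^ (3 / 4 : ℝ)) := by
        rw [nb, zero_add]
        refine (rpow_le_rpow (dn _) (m.z0 u y) (by norm_num)).trans ?_
        rw [mul_rpow b2 (add_nonneg (sq_nonneg _) (aS_nn _ _))]
        exact mul_le_mul p1 (p34_add (sq_nonneg _) (aS_nn _ _))
          (rpow_nonneg (add_nonneg (sq_nonneg _) (aS_nn _ _)) _) (by positivity)
      rw [k32]
      nlinarith [mul_le_mul_of_nonneg_left (add_le_add a6 a1) (show 0 ≤ β ^ 2 + 1 by positivity),
        mul_le_mul_of_nonneg_left a2 (show 0 ≤ 64 * (β ^ 2 + 1) + 1 by positivity),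
        mul_nonneg b2 a3, mul_nonneg b2 a4])
    hs x

/-- **(Eq), `q = 3/2`** -/
theorem Mk.eq32 (h : Rt w r) (hβ : 0 ≤ β) (m : Mk w r β al Ua ka z Uz) {s : ℝ}
    (hs : 0 ≤ s) (x : Cube n) :
    ∫ u in (0 : ℝ)..s, ((ka u (s - u) x ^ 2 + z u (s - u) x ⬝ᵥ z u (s - u) x) ^ (3 / 4 : ℝ) +
      ∫ v in (0 : ℝ)..s - u, sg w (s - u - v) (fun y => Z2 r (ka u v) (z u v) y ^ (3 / 4 : ℝ)) x) ≤
      2 * k32 β * (exp (r32 β * s) * sg w s (fun y => (al 0 y ^ 2) ^ (3 / 4 : ℝ)) x) := by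
  refine le_of_forall_pos_le_add fun ε hε => ?_
  have E : 0 < 2 * k32 β * exp (r32 β * s) := by unfold k32; positivity
  have he : 0 < (ε / (2 * k32 β * exp (r32 β * s))) ^ (4 / 3 : ℝ) := rpow_pos_of_pos (by positivity) _
  refine (m.eq32e h hβ he hs x).trans ?_
  have k2 := sg_mono h.hn h.hw hs (fun z => nb_le he.le (one (al 0) z)) x
  rw [sg_add_fun, sg_const h.hn h.hw, ← rpow_mul (by positivity)] at k2
  simp only [nb_one, zero_add] at k2 ⊢
  norm_num at k2
  have k3 := mul_le_mul_of_nonneg_left k2 E.le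
  rw [mul_add, mul_div_cancel₀ _ E.ne'] at k3
  linarith

end Crest.Agent.T157.S6b

end
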