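import Crest.Agent.T157.S6Er_85
import Crest.Agent.T157.S6PL_20
import Crest.Agent.T157.S6Eq_20
import Crest.Agent.T157.S6DefB_68

/-!
# Row 157, part B, block S6 (helper47): the bound on the error of the ansatz (ErrBd)
-/

set_option autoImplicit false

noncomputable section

namespace Crest.Agent.T157.S6h

open Matrix Real Finset
open Crest.Agent.T157.E hiding mean
open Crest.Agent.T157.Eig
open Crest.Agent.T157.Tap (V Mx)
open Crest.Agent.T157.Rec (grad fl)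
open Crest.Agent.T157.Da.Gr (val_fl grad_comm grad_self)
open Crest.Agent.T157.Reg (VF mu Tk am)
open Crest.Agent.T157.S6x (er)
open Crest.Agent.T157.S6b (Z2 aS aV inc bK bK_pos rc_rel rc_le col_sq opn_am sym aS_nn aV_nn)

namespace Bd

variable {n : ℕ} {W : Mx n} {K : ℝ}

/-- `r_i Δ_i κ` -/
def A (W : Mx n) (κ : Cube n → ℝ) (x : Cube n) (i : Fin n) : ℝ := Tk W x i * dl i κ x
/-- `r_i Δ_i ζ_j` -/
def B (W : Mx n) (ζ : VF n) (x : Cube n) (i j : Fin n) : ℝ := Tk W x i * dl i (cp ζ j) x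
/-- coefficient of the rows -/
def be (W : Mx n) (k : Fin n) (κ : Cube n → ℝ) (ζ : VF n) (x : Cube n) (i j : Fin n) : ℝ :=
  if i = j then 0 else -((rc W i j x - Tk W x j) * dl j κ x) - rc W i j x * dl j (cp ζ i) x +
    if i = k then rc W i j x * dl j κ x else 0
/-- first part of the coefficient of the Hessians -/
def U1 (W : Mx n) (k : Fin n) (κ : Cube n → ℝ) (ζ : VF n) (x : Cube n) (i j : Fin n) : ℝ :=
  (if j = k then am W x j i * (rc W i j x * κ x) else -(am W x j i * (rc W i j x * ζ x j))) +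
    am W x j i * (rc W i j x * ζ x i) + am W x j i * (rc W i j x * dl j κ x) +
    am W x j i * (rc W i j x * dl j (cp ζ i) x) -
    if i = k then am W x j i * (rc W i j x * κ x) + am W x j i * (rc W i j x * dl j κ x) else 0
/-- second part -/
def U2 (W : Mx n) (k : Fin n) (κ : Cube n → ℝ) (ζ : VF n) (x : Cube n) (i j : Fin n) : ℝ :=
  if j = k then -A W κ x i
  else (rc W j i x - Tk W x i) * dl i κ x + rc W j i x * dl i (cp ζ j) x
/-- coefficient of the Hessians -/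
def co (W : Mx n) (k : Fin n) (κ : Cube n → ℝ) (ζ : VF n) (x : Cube n) (i j : Fin n) : ℝ :=
  if i = j then 0 else 2 * sv x j * U1 W k κ ζ x i j + 2 * sv x i * U2 W k κ ζ x i j

lemma sum_erase_ite (j : Fin n) (f : Fin n → ℝ) :
    ∑ i ∈ univ.erase j, f i = ∑ i, if i = j then 0 else f i := by
  rw [← add_sum_erase _ _ (mem_univ j), if_pos rfl, zero_add]
  exact sum_congr rfl fun i hi => (if_neg (ne_of_mem_erase hi)).symm

/-- the decomposition of the error -/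
lemma er_dec {k : Fin n} {κ : Cube n → ℝ} {ζ y ω : VF n} (hy : ∀ z i, i ≠ k → y z i = κ z + ζ z i)
    (hz : ∀ z, ζ z k = 0) {x : Cube n}
    (hs : ∀ i j, grad (cp ω i) x j = grad (cp ω j) x i) (h0 : ∀ i, grad (cp ω i) x i = 0)
    (r : ℝ) (j : Fin n) :
    er W k y ω x j + (Pi.single k (r * (κ x + A W κ x k)) : V n) j =
      ∑ i, 2 * sv x i * A W κ x i * grad (cp ω i) x j + am W x j k * (κ x * ω x k) -
        ∑ i, am W x j i * (ζ x i * ω x i) +
        (if j = k then (r - ∑ i, am W x j i * ω x i) * (κ x + A W κ x k)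
          else (ζ x j - A W κ x j) * ∑ i, am W x j i * ω x i) +
        ∑ i, am W x j i * (be W k κ ζ x i j * ω x i) +
        ∑ i, co W k κ ζ x i j * grad (cp ω i) x j := by
  have v : ∀ i l, ω (fl x l) i = ω x i - 2 * sv x l * grad (cp ω i) x l := fun i l =>
    val_fl (cp ω i) x l
  by_cases h : j = k
  · subst h
    rw [er, if_pos rfl, if_pos rfl, Pi.single_eq_same, am_self, sum_erase_ite, zero_mul, add_zero,
      sub_mul, sum_mul]
    have e : ∀ i, -(if i = j then 0 else am W x j i * Ec W i j (fun z => y z i * ω z i) x) =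
        2 * sv x i * A W κ x i * grad (cp ω i) x j - am W x j i * (ζ x i * ω x i) -
          am W x j i * ω x i * (κ x + A W κ x j) + am W x j i * (be W j κ ζ x i j * ω x i) +
          co W j κ ζ x i j * grad (cp ω i) x j := fun i => by
      by_cases hi : i = j
      · subst hi; simp [am_self, h0]
      · simp only [be, co, U1, U2, if_neg hi, if_true, Ec, dl, cp, A, hy _ _ hi, v]
        ring
    rw [← sum_neg_distrib, sum_congr rfl fun i _ => e i]
    simp only [sum_add_distrib, sum_sub_distrib]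
    ring
  · have m : k ∈ univ.erase j := mem_erase.2 ⟨Ne.symm h, mem_univ _⟩
    set g : Fin n → ℝ := fun i => if i = k then y x j * (am W x j k * Ec W k j (cp ω k) x) else
      am W x j i * (y x j * Ec W i j (cp ω i) x - Ec W i j (fun z => y z i * ω z i) x) with hg
    have e0 : y x j * (am W x j k * Ec W k j (cp ω k) x) + ∑ i ∈ (univ.erase j).erase k,
        am W x j i * (y x j * Ec W i j (cp ω i) x - Ec W i j (fun z => y z i * ω z i) x) =
        ∑ i ∈ univ.erase j, g i := by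
      rw [← add_sum_erase _ _ m, hg]
      simp only [if_true]
      congr 1
      exact sum_congr rfl fun i hi => (if_neg (ne_of_mem_erase hi)).symm
    have e1 : am W x j k * (κ x * ω x k) = ∑ i, if i = k then am W x j k * (κ x * ω x k) else 0 := by
      rw [sum_ite_eq', if_pos (mem_univ k)]
    rw [er, if_neg h, if_neg h, Pi.single_eq_of_ne h, add_zero, add_assoc, e0, sum_erase_ite,
      sum_erase_ite, e1, mul_sum, ← sum_neg_distrib]
    simp only [← sum_add_distrib, ← sum_sub_distrib]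
    refine sum_congr rfl fun i _ => ?_
    by_cases hi : i = j
    · subst hi; simp [am_self, h0, h]
    · by_cases hk : i = k
      · subst hk
        simp only [hg, be, co, U1, U2, if_neg hi, if_neg h, if_true, Ec, dl, cp, A, hy _ _ h, v, hz]
        rw [hs j i]
        ring
      · simp only [hg, be, co, U1, U2, if_neg hi, if_neg h, if_neg hk, Ec, dl, cp, A, hy _ _ h,
          hy _ _ hk, v]
        rw [hs j i]
        ring

/-- the majorant of the coefficients -/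
def Q (W : Mx n) (k : Fin n) (κ : Cube n → ℝ) (ζ : VF n) (x : Cube n) (i j : Fin n) : ℝ :=
  W i j ^ 2 * (ζ x i ^ 2 + A W κ x i ^ 2) + W i j ^ 2 * (ζ x j ^ 2 + A W κ x j ^ 2) +
    B W ζ x i j ^ 2 + B W ζ x j i ^ 2 +
    (if j = k then A W κ x i ^ 2 + W i j ^ 2 * κ x ^ 2 else 0) +
    (if i = k then A W κ x j ^ 2 + W i j ^ 2 * κ x ^ 2 else 0)

lemma sum_A (W : Mx n) (κ : Cube n → ℝ) (x : Cube n) : ∑ i, A W κ x i ^ 2 = aS (Tk W) κ x := rfl

lemma sum_B (W : Mx n) (ζ : VF n) (x : Cube n) :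
    ∑ i, ∑ j, B W ζ x i j ^ 2 = aV (Tk W) ζ x := by
  refine sum_congr rfl fun i _ => ?_
  rw [dotProduct, mul_sum]
  exact sum_congr rfl fun j _ => by simp only [B, dl, cp, inc, Pi.sub_apply]; ring

lemma sum_sq (u : V n) : ∑ i, u i ^ 2 = u ⬝ᵥ u := by simp only [dotProduct, sq]

lemma sum_Q (hW : Wᵀ = W) (hK : opn W ≤ K) (k : Fin n) (κ : Cube n → ℝ) (ζ : VF n) (x : Cube n) :
    ∑ j, ∑ i, Q W k κ ζ x i j ≤ (2 * K ^ 2 + 2) * Z2 (Tk W) κ ζ x := by
  have r1 : ∀ i, ∑ j, W i j ^ 2 ≤ K ^ 2 := fun i => by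
    simpa only [sym hW i] using col_sq hK i
  set f : Fin n → ℝ := fun i => ζ x i ^ 2 + A W κ x i ^ 2 with hf
  have f0 : ∀ i, 0 ≤ f i := fun i => by positivity
  have fs : ∑ i, f i = ζ x ⬝ᵥ ζ x + aS (Tk W) κ x := by rw [sum_add_distrib, sum_sq, sum_A]
  have h1 : ∑ j, ∑ i, W i j ^ 2 * f i ≤ K ^ 2 * ∑ i, f i := by
    rw [sum_comm, mul_sum]
    exact sum_le_sum fun i _ => by rw [← sum_mul]; exact mul_le_mul_of_nonneg_right (r1 i) (f0 i)
  have h2 : ∑ j, ∑ i, W i j ^ 2 * f j ≤ K ^ 2 * ∑ i, f i := by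
    rw [mul_sum]
    exact sum_le_sum fun j _ => by
      rw [← sum_mul]; exact mul_le_mul_of_nonneg_right (col_sq hK j) (f0 j)
  have h3 : ∑ j, ∑ i, B W ζ x i j ^ 2 = aV (Tk W) ζ x := by rw [sum_comm, sum_B]
  have h4 : ∑ j, ∑ i, (if j = k then A W κ x i ^ 2 + W i j ^ 2 * κ x ^ 2 else 0) ≤
      aS (Tk W) κ x + K ^ 2 * κ x ^ 2 := by
    rw [sum_comm]
    simp only [sum_ite_eq', mem_univ, if_true]
    rw [sum_add_distrib, sum_A, ← sum_mul]
    exact add_le_add le_rfl (mul_le_mul_of_nonneg_right (col_sq hK k) (sq_nonneg _))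
  have h5 : ∑ j, ∑ i, (if i = k then A W κ x j ^ 2 + W i j ^ 2 * κ x ^ 2 else 0) ≤
      aS (Tk W) κ x + K ^ 2 * κ x ^ 2 := by
    simp only [sum_ite_eq', mem_univ, if_true]
    rw [sum_add_distrib, sum_A, ← sum_mul]
    exact add_le_add le_rfl (mul_le_mul_of_nonneg_right (r1 k) (sq_nonneg _))
  simp only [Q, sum_add_distrib]
  rw [h3, sum_B, Z2]
  rw [fs] at h1 h2
  have a1 := aS_nn (r := Tk W) κ x
  have a2 := aV_nn (r := Tk W) ζ x
  have a3 : 0 ≤ ζ x ⬝ᵥ ζ x := by rw [← sum_sq]; positivity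
  nlinarith [sq_nonneg K, sq_nonneg (κ x), mul_nonneg (sq_nonneg K) a2]

/-- the constant of the coefficients -/
def D (K : ℝ) : ℝ := (1 + bK K * K + bK K) * (1 + K)

lemma atoms (W : Mx n) (k : Fin n) (κ : Cube n → ℝ) (ζ : VF n) (x : Cube n) (i j : Fin n) :
    0 ≤ Q W k κ ζ x i j ∧ (W i j * ζ x i) ^ 2 ≤ Q W k κ ζ x i j ∧
    (W i j * ζ x j) ^ 2 ≤ Q W k κ ζ x i j ∧ (W i j * A W κ x i) ^ 2 ≤ Q W k κ ζ x i j ∧
    (W i j * A W κ x j) ^ 2 ≤ Q W k κ ζ x i j ∧ B W ζ x i j ^ 2 ≤ Q W k κ ζ x i j ∧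
    B W ζ x j i ^ 2 ≤ Q W k κ ζ x i j ∧ (i = k → A W κ x j ^ 2 ≤ Q W k κ ζ x i j) ∧
    (j = k → A W κ x i ^ 2 ≤ Q W k κ ζ x i j) ∧
    (i = k ∨ j = k → (W i j * κ x) ^ 2 ≤ Q W k κ ζ x i j) := by
  have i1 : 0 ≤ if j = k then A W κ x i ^ 2 + W i j ^ 2 * κ x ^ 2 else 0 := by
    split_ifs <;> positivity
  have i2 : 0 ≤ if i = k then A W κ x j ^ 2 + W i j ^ 2 * κ x ^ 2 else 0 := by
    split_ifs <;> positivity
  have p1 := mul_nonneg (sq_nonneg (W i j)) (sq_nonneg (ζ x i))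
  have p2 := mul_nonneg (sq_nonneg (W i j)) (sq_nonneg (ζ x j))
  have p3 := mul_nonneg (sq_nonneg (W i j)) (sq_nonneg (A W κ x i))
  have p4 := mul_nonneg (sq_nonneg (W i j)) (sq_nonneg (A W κ x j))
  have p5 := sq_nonneg (B W ζ x i j)
  have p6 := sq_nonneg (B W ζ x j i)
  have p7 := mul_nonneg (sq_nonneg (W i j)) (sq_nonneg (κ x))
  have p8 := sq_nonneg (A W κ x i)
  have p9 := sq_nonneg (A W κ x j)
  simp only [Q, mul_pow, mul_add]
  refine ⟨by linarith, by linarith, by linarith, by linarith, by linarith, by linarith,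
    by linarith, fun h => ?_, fun h => ?_, fun h => ?_⟩
  · rw [if_pos h]; linarith
  · rw [if_pos h]; linarith
  · rcases h with h | h <;> rw [if_pos h] <;> linarith

lemma coef_le (hW : Wᵀ = W) (hK : opn W ≤ K) (k : Fin n) (κ : Cube n → ℝ) (ζ : VF n) (x : Cube n)
    (i j : Fin n) : be W k κ ζ x i j ^ 2 ≤ (3 * D K) ^ 2 * Q W k κ ζ x i j ∧
      co W k κ ζ x i j ^ 2 ≤ (16 * D K) ^ 2 * Q W k κ ζ x i j := by
  have K0 : 0 ≤ K := (opn_nonneg W).trans hK
  have b0 := bK_pos K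
  have bk := mul_nonneg b0.le K0
  obtain ⟨Q0, q1, q2, q3, q4, q5, q6, q7, q8, q9⟩ := atoms W k κ ζ x i j
  by_cases h : i = j
  · rw [be, co, if_pos h, if_pos h, zero_pow two_ne_zero]
    exact ⟨mul_nonneg (sq_nonneg _) Q0, mul_nonneg (sq_nonneg _) Q0⟩
  have D1 : 1 ≤ D K := by unfold D; nlinarith only [K0, b0, bk, mul_nonneg bk K0]
  have D2 : 1 + bK K * K ≤ D K := by unfold D; nlinarith only [K0, b0, bk, mul_nonneg bk K0]
  have D3 : bK K ≤ D K := by unfold D; nlinarith only [K0, b0, bk, mul_nonneg bk K0]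
  have D4 : K * (1 + bK K * K) ≤ D K := by unfold D; nlinarith only [K0, b0, bk, mul_nonneg bk K0]
  set q := √(Q W k κ ζ x i j) with hq
  have q0 : 0 ≤ q := sqrt_nonneg _
  have tb : ∀ {t c m : ℝ}, |t| ≤ c * |m| → m ^ 2 ≤ Q W k κ ζ x i j → 0 ≤ c → c ≤ D K →
      |t| ≤ D K * q := fun ht hm c0 hc =>
    ht.trans (mul_le_mul hc (abs_le_sqrt hm) (abs_nonneg _) (c0.trans hc))
  have ha : |am W x j i| ≤ |W i j| := (abs_am_le W x j i).1
  have hw : |W i j| ≤ K := (abs_entry_le W i j).trans hK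
  have R0 := rc_pos W i j x
  have R1 := rc_lt W i j x
  have Tj := Tk_pos W x j
  have Ti := Tk_pos W x i
  have m1 : ∀ u, |rc W i j x * u| ≤ |u| := fun u => by
    rw [abs_mul, abs_of_pos R0]; exact mul_le_of_le_one_left (abs_nonneg _) R1.le
  have m2 : ∀ u, |rc W i j x * u| ≤ (1 + bK K * K) * |Tk W x j * u| := fun u => by
    rw [abs_mul, abs_mul, abs_of_pos R0, abs_of_pos Tj, ← mul_assoc, mul_comm _ (Tk W x j)]
    exact mul_le_mul_of_nonneg_right (rc_le hW hK h x) (abs_nonneg _)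
  have m3 : ∀ u, |rc W j i x * u| ≤ (1 + bK K * K) * |Tk W x i * u| := fun u => by
    rw [abs_mul, abs_mul, abs_of_pos (rc_pos W j i x), abs_of_pos Ti, ← mul_assoc,
      mul_comm _ (Tk W x i)]
    exact mul_le_mul_of_nonneg_right (rc_le hW hK (Ne.symm h) x) (abs_nonneg _)
  have m4 : ∀ u, |(rc W i j x - Tk W x j) * u| ≤ bK K * |W i j * (Tk W x j * u)| := fun u => by
    have := mul_le_mul_of_nonneg_right (rc_rel hW hK h x) (abs_nonneg u)
    rw [abs_mul, abs_mul, abs_mul, abs_of_pos Tj, sym hW i j]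
    linarith
  have m5 : ∀ u, |(rc W j i x - Tk W x i) * u| ≤ bK K * |W i j * (Tk W x i * u)| := fun u => by
    have := mul_le_mul_of_nonneg_right (rc_rel hW hK (Ne.symm h) x) (abs_nonneg u)
    rw [abs_mul, abs_mul, abs_mul, abs_of_pos Ti]
    linarith
  have m6 : ∀ {u w c : ℝ}, |u| ≤ c * |w| → |am W x j i * u| ≤ c * |W i j * w| := fun {u w c} hu => by
    rw [abs_mul, abs_mul, mul_left_comm]
    exact mul_le_mul ha hu (abs_nonneg _) (abs_nonneg _)
  have m7 : ∀ {u w c : ℝ}, |u| ≤ c * |w| → |am W x j i * u| ≤ K * c * |w| := fun {u w c} hu => by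
    rw [abs_mul, mul_assoc]
    exact mul_le_mul (ha.trans hw) hu (abs_nonneg _) K0
  have c1 : (0 : ℝ) ≤ 1 + bK K * K := by positivity
  have t1 := abs_le.1 (tb (m4 (dl j κ x)) q4 b0.le D3)
  have t2 := abs_le.1 (tb (m2 (dl j (cp ζ i) x)) q6 c1 D2)
  have t3 := abs_le.1 (tb (m6 ((m1 (ζ x j)).trans (one_mul _).ge)) q2 zero_le_one D1)
  have t4 := abs_le.1 (tb (m6 ((m1 (ζ x i)).trans (one_mul _).ge)) q1 zero_le_one D1)
  have t5 := abs_le.1 (tb (m6 (m2 (dl j κ x))) q4 c1 D2)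
  have t6 := abs_le.1 (tb (m7 (m2 (dl j (cp ζ i) x))) q6 (mul_nonneg K0 c1) D4)
  have t7 := abs_le.1 (tb (m5 (dl i κ x)) q3 b0.le D3)
  have t8 := abs_le.1 (tb (m3 (dl i (cp ζ j) x)) q5 c1 D2)
  have Dq : 0 ≤ D K * q := mul_nonneg (zero_le_one.trans D1) q0
  have s1 : i = k → |rc W i j x * dl j κ x| ≤ D K * q := fun hk =>
    tb (m2 (dl j κ x)) (q7 hk) c1 D2
  have s2 : i = k ∨ j = k → |am W x j i * (rc W i j x * κ x)| ≤ D K * q := fun hk =>
    tb (m6 ((m1 (κ x)).trans (one_mul _).ge)) (q9 hk) zero_le_one D1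
  have s3 : j = k → |A W κ x i| ≤ D K * q := fun hk => tb (one_mul _).ge (q8 hk) zero_le_one D1
  have fin : ∀ {t c : ℝ}, |t| ≤ c * D K * q → t ^ 2 ≤ (c * D K) ^ 2 * Q W k κ ζ x i j := fun ht => by
    rw [← sq_sqrt Q0, ← mul_pow, ← sq_abs]
    exact pow_le_pow_left₀ (abs_nonneg _) ht 2
  constructor
  · refine fin ?_
    rw [be, if_neg h, abs_le]
    split_ifs with hk
    · have := abs_le.1 (s1 hk)
      constructor <;> linarith [t1.1, t1.2, t2.1, t2.2, this.1, this.2]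
    · constructor <;> linarith [t1.1, t1.2, t2.1, t2.2]
  · have u1 : |U1 W k κ ζ x i j| ≤ 6 * (D K * q) := by
      rw [U1, abs_le]
      split_ifs with h1 h2 h2
      · exact absurd (h2.trans h1.symm) h
      · have := abs_le.1 (s2 (Or.inr h1))
        constructor <;> linarith [t4.1, t4.2, t5.1, t5.2, t6.1, t6.2, this.1, this.2]
      · have := abs_le.1 (s2 (Or.inl h2))
        constructor <;>
          linarith [t3.1, t3.2, t4.1, t4.2, t5.1, t5.2, t6.1, t6.2, this.1, this.2]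
      · constructor <;> linarith [t3.1, t3.2, t4.1, t4.2, t5.1, t5.2, t6.1, t6.2]
    have u2 : |U2 W k κ ζ x i j| ≤ 2 * (D K * q) := by
      rw [U2]
      split_ifs with h1
      · rw [abs_neg]; linarith [s3 h1]
      · rw [abs_le]; constructor <;> linarith [t7.1, t7.2, t8.1, t8.2]
    refine fin ?_
    rw [co, if_neg h]
    refine (abs_add_le _ _).trans ?_
    rw [abs_mul, abs_mul, abs_mul, abs_mul, abs_sv, abs_sv, abs_two]
    linarith

lemma cs2 (T : Finset (Fin n)) (f g : Fin n → Fin n → ℝ) : (∑ k ∈ T, ∑ i, f k i * g k i) ^ 2 ≤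
    (∑ k ∈ T, ∑ i, f k i ^ 2) * ∑ k ∈ T, ∑ i, g k i ^ 2 := by
  simpa only [sum_product] using
    sum_mul_sq_le_sq_mul_sq (T ×ˢ univ) (fun p => f p.1 p.2) fun p => g p.1 p.2

lemma nrm_le {ι : Type*} [Fintype ι] [DecidableEq ι] {v : ι → ℝ} {c Y : ℝ} (hc : 0 ≤ c) (hY : 0 ≤ Y)
    (h : ∑ j, v j ^ 2 ≤ c ^ 2 * Y) : nrm v ≤ c * √Y := by
  rw [nrm_le_iff (by positivity), mul_pow, sq_sqrt hY]
  simpa only [dotProduct, sq] using h

lemma Z2_nn (κ : Cube n → ℝ) (ζ : VF n) (x : Cube n) : κ x ^ 2 ≤ Z2 (Tk W) κ ζ x ∧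
    ∑ i, ζ x i ^ 2 ≤ Z2 (Tk W) κ ζ x ∧ ∑ i, A W κ x i ^ 2 ≤ Z2 (Tk W) κ ζ x ∧
    κ x ^ 2 + ∑ i, ζ x i ^ 2 + ∑ i, A W κ x i ^ 2 ≤ Z2 (Tk W) κ ζ x := by
  have a1 := aS_nn (r := Tk W) κ x
  have a2 := aV_nn (r := Tk W) ζ x
  have a3 : 0 ≤ ζ x ⬝ᵥ ζ x := by rw [← sum_sq]; positivity
  have a4 := sq_nonneg (κ x)
  rw [sum_A, sum_sq, Z2]
  refine ⟨?_, ?_, ?_, ?_⟩ <;> linarith

end Bd

open Bd

variable {n : ℕ} {W : Mx n} {K : ℝ}

/-- the constant of ErrBd -/
def cE (K : ℝ) : ℝ := 4 + 2 * (2 * K + 4 * K ^ 2) + (3 * K + 16) * D K * (2 * (K + 1))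

/-- columns of a family on `T` -/
def OmF (T : Finset (Fin n)) (ω : Fin n → VF n) (x : Cube n) : Mx n :=
  of fun i k => if k ∈ T then ω k x i else 0
/-- stacked Jacobians of a family on `T` -/
def XsF (T : Finset (Fin n)) (ω : Fin n → VF n) (x : Cube n) : Matrix (Fin n × Fin n) (Fin n) ℝ :=
  of fun p j => if p.1 ∈ T then grad (fun z => ω p.1 z p.2) x j else 0

/-- **ErrBd**, abstract form -/
theorem errBd_core (hW : Wᵀ = W) (hK : opn W ≤ K) (T : Finset (Fin n)) {κ : Fin n → Cube n → ℝ}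
    {ζ y ω : Fin n → VF n} (hy : ∀ k z i, i ≠ k → y k z i = κ k z + ζ k z i)
    (hz : ∀ k z, ζ k z k = 0) {x : Cube n}
    (hs : ∀ k i j, grad (cp (ω k) i) x j = grad (cp (ω k) j) x i)
    (h0 : ∀ k i, grad (cp (ω k) i) x i = 0) {r ε : ℝ} (hε : 0 ≤ ε)
    (row : ∀ l, ∑ k, OmF T ω x l k ^ 2 ≤ ε ^ 2)
    (hop : ∀ j, ∑ k ∈ T.erase j, (am W x * OmF T ω x) j k ^ 2 ≤ ε ^ 2)
    (th : ∀ k ∈ T, |(am W x * OmF T ω x) k k - r| ≤ ε) (hess : opn (XsF T ω x) ≤ ε) :
    nrm (∑ k ∈ T, (er W k (y k) (ω k) x +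
      Pi.single k (r * (κ k x + Tk W x k * dl k (κ k) x)))) ≤
      cE K * ε * √(∑ k ∈ T, Z2 (Tk W) (κ k) (ζ k) x) := by
  have K0 : 0 ≤ K := (opn_nonneg W).trans hK
  have D0 : 0 ≤ D K := by have := bK_pos K; unfold D; positivity
  set Y := ∑ k ∈ T, Z2 (Tk W) (κ k) (ζ k) x with hY
  have Y0 : 0 ≤ Y := sum_nonneg fun k _ => (sq_nonneg _).trans (Z2_nn (κ k) (ζ k) x).1
  have e2 := sq_nonneg ε
  have row' : ∀ l, ∑ k ∈ T, ω k x l ^ 2 ≤ ε ^ 2 := fun l => by
    have := row l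
    simp only [OmF, of_apply, ite_pow, ne_eq, OfNat.ofNat_ne_zero, not_false_eq_true, zero_pow,
      sum_ite_mem, univ_inter] at this
    exact this
  have aO : ∀ j, ∀ k ∈ T, (am W x * OmF T ω x) j k = ∑ i, am W x j i * ω k x i := fun j k hk => by
    simp only [mul_apply, OmF, of_apply, if_pos hk]
  have col : ∀ j, ∑ k ∈ T, ∑ i, grad (cp (ω k) i) x j ^ 2 ≤ ε ^ 2 := fun j => by
    have h1 := (nrm_mulVec_le (XsF T ω x) (Pi.single j 1)).trans
      (mul_le_mul_of_nonneg_right hess (nrm_nonneg _))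
    rw [nrm_single, mul_one, nrm_le_iff hε, mulVec_single_one, dotProduct, Fintype.sum_prod_type]
      at h1
    refine le_trans (le_of_eq ?_) h1
    simp only [col_apply, XsF, of_apply, mul_ite, ite_mul, mul_zero, zero_mul, sum_ite_irrel,
      sum_const_zero, sum_ite_mem, univ_inter, inter_self, sq]
    rfl
  have arow : ∀ j, ∑ i, am W x j i ^ 2 ≤ K ^ 2 := fun j =>
    (sum_le_sum fun i _ => by
      rw [← sq_abs, ← sq_abs (W i j)]
      exact pow_le_pow_left₀ (abs_nonneg _) (abs_am_le W x j i).1 2).trans (col_sq hK j)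
  have sQ : ∑ j, ∑ k ∈ T, ∑ i, Q W k (κ k) (ζ k) x i j ≤ (2 * (K + 1)) ^ 2 * Y := by
    rw [sum_comm, hY, mul_sum]
    refine sum_le_sum fun k _ => (sum_Q hW hK k (κ k) (ζ k) x).trans
      (mul_le_mul_of_nonneg_right (by nlinarith) ((sq_nonneg _).trans (Z2_nn (κ k) (ζ k) x).1))
  set g1 : Fin n × Fin n → ℝ := fun p =>
    if p.1 ∈ T then 2 * sv x p.2 * A W (κ p.1) x p.2 else 0 with hg1
  set g2 : V n := fun k => if k ∈ T then κ k x * ω k x k else 0 with hg2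
  set g3 : V n := fun i => ∑ k ∈ T, ζ k x i * ω k x i with hg3
  set v4 : V n := fun j => ∑ k ∈ T,
    (if j = k then κ k x + A W (κ k) x k else ζ k x j - A W (κ k) x j) *
      (if j = k then r - ∑ i, am W x j i * ω k x i else ∑ i, am W x j i * ω k x i) with hv4
  set v6 : V n := fun j => ∑ k ∈ T, ∑ i, be W k (κ k) (ζ k) x i j * (am W x j i * ω k x i) with hv6
  set v7 : V n := fun j => ∑ k ∈ T, ∑ i, co W k (κ k) (ζ k) x i j * grad (cp (ω k) i) x j with hv7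
  have dec : ∑ k ∈ T, (er W k (y k) (ω k) x +
      Pi.single k (r * (κ k x + Tk W x k * dl k (κ k) x))) =
      (XsF T ω x)ᵀ *ᵥ g1 + am W x *ᵥ g2 - am W x *ᵥ g3 + v4 + v6 + v7 := by
    funext j
    refine (Finset.sum_apply _ _ _).trans ((sum_congr rfl fun k _ =>
      er_dec (W := W) (hy k) (hz k) (hs k) (h0 k) r j).trans ?_)
    simp only [sum_add_distrib, sum_sub_distrib, Pi.add_apply, Pi.sub_apply]
    congr 1
    congr 1
    congr 1
    congr 1
    congr 1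
    · rw [mulVec, dotProduct, Fintype.sum_prod_type]
      simp only [transpose_apply, XsF, of_apply, hg1, mul_ite, ite_mul, mul_zero, zero_mul,
        sum_ite_irrel, sum_const_zero, sum_ite_mem, univ_inter, inter_self]
      exact sum_congr rfl fun k _ => sum_congr rfl fun i _ => mul_comm _ _
    · simp only [mulVec, dotProduct, hg2, mul_ite, mul_zero, sum_ite_mem, univ_inter]
    · simp only [mulVec, dotProduct, hg3, mul_sum]
      exact sum_comm
    · exact sum_congr rfl fun k _ => by split_ifs <;> ring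
    · exact sum_congr rfl fun k _ => sum_congr rfl fun i _ => by ring
  have n1 : nrm g1 ≤ 2 * √Y := nrm_le zero_le_two Y0 (by
    rw [Fintype.sum_prod_type, hY, mul_sum]
    simp only [hg1, ite_pow, ne_eq, OfNat.ofNat_ne_zero, not_false_eq_true, zero_pow,
      sum_ite_irrel, sum_const_zero, sum_ite_mem, univ_inter, mul_pow]
    refine sum_le_sum fun k _ => ?_
    have e : ∀ i, sv x i ^ 2 = 1 := fun i => by rw [← sq_abs, abs_sv, one_pow]
    simp only [e, mul_one, ← mul_sum]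
    exact mul_le_mul_of_nonneg_left (Z2_nn (κ k) (ζ k) x).2.2.1 (by norm_num))
  have n2 : nrm g2 ≤ ε * √Y := nrm_le hε Y0 (by
    rw [hY, mul_sum]
    simp only [hg2, ite_pow, ne_eq, OfNat.ofNat_ne_zero, not_false_eq_true, zero_pow,
      sum_ite_mem, univ_inter, mul_pow]
    refine sum_le_sum fun k hk => ?_
    rw [mul_comm]
    exact mul_le_mul ((single_le_sum (f := fun l => ω l x k ^ 2) (fun _ _ => sq_nonneg _) hk).trans
      (row' k)) (Z2_nn (κ k) (ζ k) x).1 (sq_nonneg _) e2)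
  have n3 : nrm g3 ≤ ε * √Y := nrm_le hε Y0 (by
    refine (sum_le_sum fun i _ => (sum_mul_sq_le_sq_mul_sq T _ _).trans
      (mul_le_mul_of_nonneg_left (row' i) (sum_nonneg fun _ _ => sq_nonneg _))).trans ?_
    rw [← sum_mul, mul_comm, sum_comm]
    exact mul_le_mul_of_nonneg_left (sum_le_sum fun k _ => (Z2_nn (κ k) (ζ k) x).2.1) e2)
  have n4 : nrm v4 ≤ 2 * ε * √Y := nrm_le (by positivity) Y0 (by
    have hg : ∀ j, ∑ k ∈ T, (if j = k then r - ∑ i, am W x j i * ω k x i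
        else ∑ i, am W x j i * ω k x i) ^ 2 ≤ 2 * ε ^ 2 := fun j => by
      have h1 : ∑ k ∈ T.erase j, (if j = k then r - ∑ i, am W x j i * ω k x i
          else ∑ i, am W x j i * ω k x i) ^ 2 ≤ ε ^ 2 :=
        le_trans (le_of_eq (sum_congr rfl fun k hk => by
          rw [if_neg (ne_of_mem_erase hk).symm, aO j k (mem_of_mem_erase hk)])) (hop j)
      by_cases hj : j ∈ T
      · rw [← add_sum_erase _ _ hj, if_pos rfl, ← aO j j hj, ← sq_abs, abs_sub_comm]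
        linarith [pow_le_pow_left₀ (abs_nonneg _) (th j hj) 2]
      · rw [erase_eq_of_notMem hj] at h1; linarith
    refine (sum_le_sum fun j _ => (sum_mul_sq_le_sq_mul_sq T _ _).trans
      (mul_le_mul_of_nonneg_left (hg j) (sum_nonneg fun _ _ => sq_nonneg _))).trans ?_
    rw [← sum_mul, sum_comm]
    have h2 : ∑ k ∈ T, ∑ j, (if j = k then κ k x + A W (κ k) x k
        else ζ k x j - A W (κ k) x j) ^ 2 ≤ 2 * Y := by
      rw [hY, mul_sum]
      refine sum_le_sum fun k _ => ?_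
      have h3 : ∀ j, (if j = k then κ k x + A W (κ k) x k else ζ k x j - A W (κ k) x j) ^ 2 ≤
          2 * ((if j = k then κ k x ^ 2 else 0) + ζ k x j ^ 2 + A W (κ k) x j ^ 2) := fun j => by
        split_ifs with h
        · subst h; nlinarith [sq_nonneg (κ j x - A W (κ j) x j), sq_nonneg (ζ j x j)]
        · nlinarith [sq_nonneg (ζ k x j + A W (κ k) x j)]
      refine (sum_le_sum fun j _ => h3 j).trans ?_
      rw [← mul_sum, sum_add_distrib, sum_add_distrib, sum_ite_eq', if_pos (mem_univ k)]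
      linarith [(Z2_nn (W := W) (κ k) (ζ k) x).2.2.2]
    nlinarith [mul_le_mul_of_nonneg_right h2 e2])
  have n6 : nrm v6 ≤ 3 * D K * K * ε * (2 * (K + 1)) * √Y := nrm_le (by positivity) Y0 (by
    have hg : ∀ j, ∑ k ∈ T, ∑ i, (am W x j i * ω k x i) ^ 2 ≤ K ^ 2 * ε ^ 2 := fun j => by
      rw [sum_comm]
      simp only [mul_pow, ← mul_sum]
      refine (sum_le_sum fun i _ => mul_le_mul_of_nonneg_left (row' i) (sq_nonneg _)).trans ?_
      rw [← sum_mul]
      exact mul_le_mul_of_nonneg_right (arow j) e2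
    refine (sum_le_sum fun j _ => (cs2 T _ _).trans (mul_le_mul (sum_le_sum fun k _ =>
      sum_le_sum fun i _ => (coef_le hW hK k (κ k) (ζ k) x i j).1) (hg j) (by positivity)
      (sum_nonneg fun k _ => sum_nonneg fun i _ =>
        (sq_nonneg _).trans (coef_le hW hK k (κ k) (ζ k) x i j).1))).trans ?_
    simp only [← mul_sum, ← sum_mul]
    calc _ ≤ (3 * D K) ^ 2 * ((2 * (K + 1)) ^ 2 * Y) * (K ^ 2 * ε ^ 2) := by gcongr
      _ = _ := by ring)
  have n7 : nrm v7 ≤ 16 * D K * ε * (2 * (K + 1)) * √Y := nrm_le (by positivity) Y0 (by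
    refine (sum_le_sum fun j _ => (cs2 T _ _).trans (mul_le_mul (sum_le_sum fun k _ =>
      sum_le_sum fun i _ => (coef_le hW hK k (κ k) (ζ k) x i j).2) (col j) (by positivity)
      (sum_nonneg fun k _ => sum_nonneg fun i _ =>
        (sq_nonneg _).trans (coef_le hW hK k (κ k) (ζ k) x i j).2))).trans ?_
    simp only [← mul_sum, ← sum_mul]
    calc _ ≤ (16 * D K) ^ 2 * ((2 * (K + 1)) ^ 2 * Y) * ε ^ 2 := by gcongr
      _ = _ := by ring)
  have a0 : 0 ≤ 2 * K + 4 * K ^ 2 := by positivity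
  have m1 := (nrm_mulVec_le (XsF T ω x)ᵀ g1).trans
    (mul_le_mul ((opn_transpose _).le.trans hess) n1 (nrm_nonneg _) hε)
  have m2 := (nrm_mulVec_le (am W x) g2).trans (mul_le_mul (opn_am hW hK x) n2 (nrm_nonneg _) a0)
  have m3 := (nrm_mulVec_le (am W x) g3).trans (mul_le_mul (opn_am hW hK x) n3 (nrm_nonneg _) a0)
  rw [dec, cE]
  have s1 := nrm_add_le ((XsF T ω x)ᵀ *ᵥ g1 + am W x *ᵥ g2 - am W x *ᵥ g3 + v4 + v6) v7
  have s2 := nrm_add_le ((XsF T ω x)ᵀ *ᵥ g1 + am W x *ᵥ g2 - am W x *ᵥ g3 + v4) v6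
  have s3 := nrm_add_le ((XsF T ω x)ᵀ *ᵥ g1 + am W x *ᵥ g2 - am W x *ᵥ g3) v4
  have s4 := nrm_sub_le ((XsF T ω x)ᵀ *ᵥ g1 + am W x *ᵥ g2) (am W x *ᵥ g3)
  have s5 := nrm_add_le ((XsF T ω x)ᵀ *ᵥ g1) (am W x *ᵥ g2)
  linarith

open Crest.Agent.T157.S6 (Ph Yf Om Xs Pt Crude)

/-- the error field of the markers of `T` -/
def Err (W : Mx n) (ρ : ℝ → ℝ) (T : Finset (Fin n)) (κ : Fin n → Cube n → ℝ) (y : Fin n → VF n)
    (v : ℝ) (x : Cube n) : V n := ∑ k ∈ T, (er W k (y k) (Yf W ρ (Pi.single k 1) v) x +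
      Pi.single k (ρ v * (κ k x + Tk W x k * dl k (κ k) x)))

/-- **ErrBd** at a good point -/
theorem errBd (hW : Wᵀ = W) (hK : opn W ≤ K) {ρ : ℝ → ℝ} {T : Finset (Fin n)}
    {κ : Fin n → Cube n → ℝ} {ζ y : Fin n → VF n}
    (hy : ∀ k z i, i ≠ k → y k z i = κ k z + ζ k z i) (hz : ∀ k z, ζ k z k = 0) {x : Cube n}
    {ε b v : ℝ} (hε : 0 ≤ ε) (h : Pt W ρ ε b T v x) :
    nrm (Err W ρ T κ y v x) ≤ cE K * ε * √(∑ k ∈ T, Z2 (Tk W) (κ k) (ζ k) x) :=
  errBd_core hW hK T hy hz (ω := fun k => Yf W ρ (Pi.single k 1) v)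
    (fun k i j => grad_comm (Ph W ρ (Pi.single k 1) v) x i j)
    (fun k i => grad_self (Ph W ρ (Pi.single k 1) v) x i) hε h.row h.hop h.th h.hess

/-- **ErrBd**, crude form -/
theorem errBd_crude (hW : Wᵀ = W) (hK : opn W ≤ K) {ρ : ℝ → ℝ} (T : Finset (Fin n))
    {κ : Fin n → Cube n → ℝ} {ζ y : Fin n → VF n}
    (hy : ∀ k z i, i ≠ k → y k z i = κ k z + ζ k z i) (hz : ∀ k z, ζ k z k = 0) (x : Cube n)
    {Λ v : ℝ} (hρ : |ρ v| ≤ 1) (h : Crude W ρ Λ v) :
    nrm (Err W ρ T κ y v x) ≤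
      cE K * ((1 + 2 * K + 4 * K ^ 2) * Λ + 1) * √(∑ k ∈ T, Z2 (Tk W) (κ k) (ζ k) x) := by
  have K0 : 0 ≤ K := (opn_nonneg W).trans hK
  obtain ⟨h1, h2⟩ := h T x
  have L0 : 0 ≤ Λ := (opn_nonneg _).trans h1
  have a0 : 0 ≤ (2 * K + 4 * K ^ 2) * Λ := by positivity
  have h3 : opn (am W x * Om W ρ T v x) ≤ (2 * K + 4 * K ^ 2) * Λ :=
    (opn_mul_le _ _).trans (mul_le_mul (opn_am hW hK x) h1 (opn_nonneg _) (by positivity))
  have rw' : ∀ (M : Mx n) (c : ℝ), opn M ≤ c → ∀ l, ∑ k, M l k ^ 2 ≤ c ^ 2 := fun M c hc l =>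
    col_sq (W := Mᵀ) ((opn_transpose M).le.trans hc) l
  refine errBd_core hW hK T hy hz (ω := fun k => Yf W ρ (Pi.single k 1) v)
    (fun k i j => grad_comm (Ph W ρ (Pi.single k 1) v) x i j)
    (fun k i => grad_self (Ph W ρ (Pi.single k 1) v) x i) (by positivity) (rw' _ _ (h1.trans (by linarith))) (fun j => ?_) (fun k _ => ?_)
    (h2.trans (by linarith))
  · exact (sum_le_sum_of_subset_of_nonneg (subset_univ _) fun _ _ _ => sq_nonneg _).trans
      (rw' _ _ (h3.trans (by linarith)) j)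
  · refine (abs_sub _ _).trans ?_
    have := (abs_entry_le (am W x * Om W ρ T v x) k k).trans h3
    change |(am W x * Om W ρ T v x) k k| + |ρ v| ≤ _
    linarith

end Crest.Agent.T157.S6h

end
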