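import Crest.Agent.T157.S6Cmp_20

/-!
# Row 157, block S6 (helper20): the Bregman remainder of `(ε + |u|²) ^ (3/4)`
-/

set_option autoImplicit false

noncomputable section

namespace Crest.Agent.T157.S6b

open Real Matrix Finset

/-! ### scalar inequalities, in terms of fourth roots -/

theorem br_root {a y σ b c : ℝ} (ha : 0 < a) (hy : 0 ≤ y) (hσ : 0 < σ) (hc : 0 ≤ c)
    (h1 : y ^ 4 = a ^ 4 + 2 * b + c) (h2 : σ ^ 4 = a ^ 4 + c) (h3 : b ^ 2 ≤ a ^ 4 * c) :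
    c / σ / 8 ≤ y ^ 3 - a ^ 3 - 3 / 2 * (b / a) := by
  obtain ⟨t, t0, rfl⟩ : ∃ t, 0 ≤ t ∧ c = t ^ 2 := ⟨√c, sqrt_nonneg _, (sq_sqrt hc).symm⟩
  have hb' : -(a ^ 2 * t) ≤ b ∧ b ≤ a ^ 2 * t := abs_le_of_sq_le_sq' (by nlinarith) (by positivity)
  have u1 : y ^ 2 ≤ a ^ 2 + t := (abs_le_of_sq_le_sq' (by nlinarith) (by positivity)).2
  have u2 : a ^ 2 - t ≤ y ^ 2 := (abs_le_of_sq_le_sq' (by nlinarith) (sq_nonneg y)).2
  have D : (y ^ 2 - a ^ 2) ^ 2 ≤ t ^ 2 := sq_le_sq' (by linarith) (by linarith)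
  have s1 : a ≤ σ := (pow_le_pow_iff_left₀ ha.le hσ.le four_ne_zero).1 (by nlinarith)
  have s2 : y ≤ 2 * σ := (pow_le_pow_iff_left₀ hy (by positivity) four_ne_zero).1 (by
    nlinarith [sq_nonneg (a ^ 2 - t), pow_pos hσ 4])
  have e : y ^ 3 - a ^ 3 - 3 / 2 * (b / a) =
      (3 / 4 * (t ^ 2 - (y ^ 2 - a ^ 2) ^ 2) + (y - a) ^ 2 * a * (y + a / 2)) / a := by
    field_simp
    linear_combination (6 : ℝ) * h1
  rw [e, div_div, div_le_div_iff₀ (by positivity) ha]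
  have k1 : (t ^ 2 - (y ^ 2 - a ^ 2) ^ 2) * a ≤ (t ^ 2 - (y ^ 2 - a ^ 2) ^ 2) * (6 * σ) :=
    mul_le_mul_of_nonneg_left (by linarith) (by linarith)
  have k2 : (y + a) ^ 2 ≤ (y + a / 2) * (8 * σ) := by nlinarith
  have k3 := mul_le_mul_of_nonneg_left k2 (show 0 ≤ (y - a) ^ 2 * a by positivity)
  nlinarith

theorem abs_root {ρ σ t b β κ : ℝ} (hρ : 0 < ρ) (hσ : 0 < σ) (ht : 0 ≤ t) (hb : 0 ≤ b) (hβ : b ≤ β)
    (hκ : 0 < κ) (h : σ ^ 4 = ρ ^ 4 + t ^ 2) :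
    ρ * b * t ≤ κ * (t ^ 2 / σ) + (1 / (2 * κ) + β / κ ^ 2) * (ρ ^ 3 * b ^ 2) := by
  have β0 : 0 ≤ β := hb.trans hβ
  rcases le_total t (ρ ^ 2) with c | c
  · have s : σ ≤ 2 * ρ := (pow_le_pow_iff_left₀ hσ.le (by positivity) four_ne_zero).1 (by
      nlinarith [pow_pos hρ 4])
    have k1 : t ^ 2 / (2 * ρ) ≤ t ^ 2 / σ := div_le_div_of_nonneg_left (sq_nonneg t) hσ s
    have k2 : ρ * b * t ≤ κ * (t ^ 2 / (2 * ρ)) + 1 / (2 * κ) * (ρ ^ 3 * b ^ 2) := by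
      have : κ * (t ^ 2 / (2 * ρ)) + 1 / (2 * κ) * (ρ ^ 3 * b ^ 2) - ρ * b * t =
          (κ * t - ρ ^ 2 * b) ^ 2 / (2 * ρ * κ) := by field_simp; ring
      have : 0 ≤ (κ * t - ρ ^ 2 * b) ^ 2 / (2 * ρ * κ) := by positivity
      linarith
    have : 0 ≤ β / κ ^ 2 * (ρ ^ 3 * b ^ 2) := by positivity
    nlinarith [mul_le_mul_of_nonneg_left k1 hκ.le]
  · obtain ⟨τ, τ0, rfl⟩ : ∃ τ, 0 ≤ τ ∧ t = τ ^ 2 := ⟨√t, sqrt_nonneg _, (sq_sqrt ht).symm⟩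
    have τp : 0 < τ := by
      rcases τ0.eq_or_lt with e | e
      · rw [← e] at c; nlinarith [pow_pos hρ 2]
      · exact e
    have s : σ ≤ 2 * τ := (pow_le_pow_iff_left₀ hσ.le (by positivity) four_ne_zero).1 (by
      nlinarith [pow_pos τp 4, pow_pos hρ 2])
    have k1 : (τ ^ 2) ^ 2 / (2 * τ) ≤ (τ ^ 2) ^ 2 / σ := div_le_div_of_nonneg_left (by positivity) hσ s
    have e : (τ ^ 2) ^ 2 / (2 * τ) = τ ^ 3 / 2 := by field_simp
    have k2 : ρ * b * τ ^ 2 ≤ κ * (τ ^ 3 / 2) + (ρ * b) ^ 3 / κ ^ 2 := by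
      have : κ * (τ ^ 3 / 2) + (ρ * b) ^ 3 / κ ^ 2 - ρ * b * τ ^ 2 =
          ((κ * τ) ^ 3 / 2 + (ρ * b) ^ 3 - ρ * b * (κ * τ) ^ 2) / κ ^ 2 := by field_simp
      have h0 : 0 ≤ (κ * τ) ^ 3 / 2 + (ρ * b) ^ 3 - ρ * b * (κ * τ) ^ 2 := by
        have p : 0 ≤ κ * τ := by positivity
        have q : 0 ≤ ρ * b := by positivity
        generalize κ * τ = x at p
        generalize ρ * b = z at q
        nlinarith [mul_nonneg p (sq_nonneg (x - 4 / 3 * z)), mul_nonneg q (sq_nonneg (x - 4 / 3 * z)),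
          pow_nonneg q 3]
      have : 0 ≤ ((κ * τ) ^ 3 / 2 + (ρ * b) ^ 3 - ρ * b * (κ * τ) ^ 2) / κ ^ 2 := by positivity
      linarith
    have k3 : (ρ * b) ^ 3 / κ ^ 2 ≤ β / κ ^ 2 * (ρ ^ 3 * b ^ 2) := by
      rw [div_mul_eq_mul_div]
      refine div_le_div_of_nonneg_right ?_ (sq_nonneg κ)
      nlinarith [mul_le_mul_of_nonneg_left hβ (show 0 ≤ ρ ^ 3 * b ^ 2 by positivity)]
    have : 0 ≤ 1 / (2 * κ) * (ρ ^ 3 * b ^ 2) := by positivity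
    rw [e] at k1
    nlinarith [mul_le_mul_of_nonneg_left k1 hκ.le]

/-! ### fourth roots -/

/-- fourth root -/
def r4 (x : ℝ) : ℝ := x ^ (1 / 4 : ℝ)

theorem r4_nn {x : ℝ} (h : 0 ≤ x) : 0 ≤ r4 x := rpow_nonneg h _
theorem r4_pos {x : ℝ} (h : 0 < x) : 0 < r4 x := rpow_pos_of_pos h _
theorem r4_pow {x : ℝ} (h : 0 ≤ x) : r4 x ^ 4 = x := by
  rw [r4, ← rpow_natCast, ← rpow_mul h]; norm_num
theorem r4_cube {x : ℝ} (h : 0 ≤ x) : x ^ (3 / 4 : ℝ) = r4 x ^ 3 := by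
  rw [r4, ← rpow_natCast, ← rpow_mul h]; norm_num
theorem r4_sq {x : ℝ} (h : 0 ≤ x) : r4 x ^ 2 = √x := by
  rw [r4, ← rpow_natCast, ← rpow_mul h, sqrt_eq_rpow]; norm_num
theorem r4_inv {x : ℝ} (h : 0 ≤ x) : x ^ (3 / 4 - 1 : ℝ) = (r4 x)⁻¹ := by
  rw [r4, ← rpow_neg h]; norm_num
theorem r4_mono {x y : ℝ} (h : 0 ≤ x) (hxy : x ≤ y) : r4 x ≤ r4 y :=
  rpow_le_rpow h hxy (by norm_num)
theorem r4_of_pow {x : ℝ} (h : 0 ≤ x) : r4 (x ^ 4) = x := by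
  rw [r4, ← rpow_natCast, ← rpow_mul h]; norm_num
theorem r4_mul {x y : ℝ} (hx : 0 ≤ x) (hy : 0 ≤ y) : r4 (x * y) = r4 x * r4 y := mul_rpow hx hy

theorem p34_add {x y : ℝ} (hx : 0 ≤ x) (hy : 0 ≤ y) :
    (x + y) ^ (3 / 4 : ℝ) ≤ x ^ (3 / 4 : ℝ) + y ^ (3 / 4 : ℝ) :=
  rpow_add_le_add_rpow hx hy (by norm_num) (by norm_num)

theorem p34_sum {ι : Type*} (S : Finset ι) {f : ι → ℝ} (h : ∀ i, 0 ≤ f i) :
    (∑ i ∈ S, f i) ^ (3 / 4 : ℝ) ≤ ∑ i ∈ S, f i ^ (3 / 4 : ℝ) := by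
  classical
  induction S using Finset.induction_on with
  | empty => simp
  | insert a S ha ih =>
    rw [sum_insert ha, sum_insert ha]
    exact (p34_add (h a) (sum_nonneg fun i _ => h i)).trans (add_le_add le_rfl ih)

/-! ### vectors -/

variable {κ ι : Type*} [Fintype κ] [Fintype ι] {e : ℝ}

theorem dn (u : κ → ℝ) : 0 ≤ u ⬝ᵥ u := sum_nonneg fun _ _ => mul_self_nonneg _

theorem cs (u v : κ → ℝ) : (u ⬝ᵥ v) ^ 2 ≤ (u ⬝ᵥ u) * (v ⬝ᵥ v) := by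
  simpa only [dotProduct, sq] using sum_mul_sq_le_sq_mul_sq univ u v

/-- `(ε + |u|²) ^ (1/4)` -/
def rt (e : ℝ) (u : κ → ℝ) : ℝ := r4 (e + u ⬝ᵥ u)
/-- `(ε + |u|²) ^ (3/4)`, the regularised `|u| ^ (3/2)` -/
def nb (e : ℝ) (u : κ → ℝ) : ℝ := (e + u ⬝ᵥ u) ^ (3 / 4 : ℝ)
/-- Bregman remainder -/
def Bq (e : ℝ) (u v : κ → ℝ) : ℝ := nb e (u + v) - nb e u - 3 / 2 * (u ⬝ᵥ v / rt e u)
/-- its lower bound -/
def Lq (e : ℝ) (u v : κ → ℝ) : ℝ := v ⬝ᵥ v / r4 (e + u ⬝ᵥ u + v ⬝ᵥ v)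

theorem rt_pos (he : 0 < e) (u : κ → ℝ) : 0 < rt e u := r4_pos (by linarith [dn u])
theorem rt_pow (he : 0 ≤ e) (u : κ → ℝ) : rt e u ^ 4 = e + u ⬝ᵥ u := r4_pow (by linarith [dn u])
theorem nb_eq (he : 0 ≤ e) (u : κ → ℝ) : nb e u = rt e u ^ 3 := r4_cube (by linarith [dn u])
theorem nb_nn (he : 0 ≤ e) (u : κ → ℝ) : 0 ≤ nb e u := rpow_nonneg (by linarith [dn u]) _
theorem Lq_nn (he : 0 ≤ e) (u v : κ → ℝ) : 0 ≤ Lq e u v :=
  div_nonneg (dn v) (r4_nn (by linarith [dn u, dn v]))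
theorem sqrt_le_rt (he : 0 ≤ e) (u : κ → ℝ) : √(u ⬝ᵥ u) ≤ rt e u ^ 2 := by
  rw [rt, r4_sq (by linarith [dn u])]; exact sqrt_le_sqrt (by linarith)
theorem nb_zero_le (he : 0 ≤ e) (u : κ → ℝ) : nb 0 u ≤ nb e u :=
  rpow_le_rpow (by linarith [dn u]) (by linarith) (by norm_num)
theorem nb_le (he : 0 ≤ e) (u : κ → ℝ) : nb e u ≤ e ^ (3 / 4 : ℝ) + nb 0 u := by
  rw [nb, nb, zero_add]; exact p34_add he (dn u)

theorem hasDerivAt_nb (he : 0 < e) {U : ℝ → κ → ℝ} {U' : κ → ℝ} {s : ℝ}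
    (h : ∀ k, HasDerivAt (fun u => U u k) (U' k) s) :
    HasDerivAt (fun u => nb e (U u)) (3 / 2 * (U s ⬝ᵥ U' / rt e (U s))) s := by
  have p : 0 < e + U s ⬝ᵥ U s := by linarith [dn (U s)]
  have d := ((HasDerivAt.fun_sum (u := univ) fun k _ => (h k).mul (h k)).const_add e).rpow_const
    (p := 3 / 4) (Or.inl p.ne')
  refine d.congr_deriv ?_
  have : ∑ k, (U' k * U s k + U s k * U' k) = 2 * (U s ⬝ᵥ U') := by
    simp only [dotProduct, mul_sum]; exact sum_congr rfl fun k _ => by ring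
  rw [this]
  change _ * _ * (e + U s ⬝ᵥ U s) ^ (3 / 4 - 1 : ℝ) = _
  rw [r4_inv p.le, rt]; ring

theorem cont_nb (e : ℝ) {Y : Type*} [TopologicalSpace Y] {U : Y → κ → ℝ}
    (h : ∀ k, Continuous fun y => U y k) : Continuous fun y => nb e (U y) :=
  (continuous_const.add (continuous_finsetSum _ fun k _ => (h k).mul (h k))).rpow_const
    fun _ => Or.inr (by norm_num)

/-- **(Br)** -/
theorem Lq_le (he : 0 < e) (u v : κ → ℝ) : Lq e u v / 8 ≤ Bq e u v := by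
  have a := dn u
  have b := dn v
  rw [Bq, nb_eq he.le, nb_eq he.le]
  refine br_root (rt_pos he u) (rt_pos he _).le (r4_pos (by linarith)) b ?_ ?_ ?_
  · rw [rt_pow he.le, rt_pow he.le, add_dotProduct, dotProduct_add, dotProduct_add,
      dotProduct_comm v u]; ring
  · rw [rt_pow he.le, r4_pow (by linarith)]
  · rw [rt_pow he.le]; nlinarith [cs u v]

theorem Bq_nn (he : 0 < e) (u v : κ → ℝ) : 0 ≤ Bq e u v :=
  le_trans (div_nonneg (Lq_nn he.le u v) (by norm_num)) (Lq_le he u v)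

/-- `Br (u) = ∑ r_i B (u, v_i)` -/
def Brq (e : ℝ) (r : ι → ℝ) (u : κ → ℝ) (v : ι → κ → ℝ) : ℝ := ∑ i, r i * Bq e u (v i)

theorem Brq_nn (he : 0 < e) {r : ι → ℝ} (hr : ∀ i, 0 ≤ r i) (u : κ → ℝ) (v : ι → κ → ℝ) :
    0 ≤ Brq e r u v := sum_nonneg fun i _ => mul_nonneg (hr i) (Bq_nn he u _)

/-- the chain rule for the jump generator -/
theorem Brq_eq (e : ℝ) (r : ι → ℝ) (u : κ → ℝ) (v : ι → κ → ℝ) :
    3 / 2 * (u ⬝ᵥ (fun k => ∑ i, r i * v i k) / rt e u) =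
      ∑ i, r i * (nb e (u + v i) - nb e u) - Brq e r u v := by
  have : u ⬝ᵥ (fun k => ∑ i, r i * v i k) = ∑ i, r i * (u ⬝ᵥ v i) := by
    simp only [dotProduct, mul_sum]
    rw [sum_comm]
    exact sum_congr rfl fun i _ => sum_congr rfl fun k _ => by ring
  rw [this, Brq, ← sum_sub_distrib, sum_div, mul_sum]
  exact sum_congr rfl fun i _ => by rw [Bq]; ring

/-- **absorption**: `|u| ^ (1/2) ∑ r_i b_i |v_i| ≤ k Br + C |u| ^ (3/2)` if `∑ b_i² ≤ β²` -/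
theorem absorb (he : 0 < e) {r b : ι → ℝ} (hr : ∀ i, 0 ≤ r i ∧ r i ≤ 1) (hb : ∀ i, 0 ≤ b i) {β k : ℝ}
    (hβ : 0 ≤ β) (hs : ∑ i, b i ^ 2 ≤ β ^ 2) (hk : 0 < k) (u : κ → ℝ) (v : ι → κ → ℝ) :
    rt e u * ∑ i, r i * (b i * √(v i ⬝ᵥ v i)) ≤
      k * Brq e r u v + (4 / k + 64 * β / k ^ 2) * β ^ 2 * nb e u := by
  have a := dn u
  have bi : ∀ i, b i ≤ β := fun i => (abs_le_of_sq_le_sq' ((single_le_sum (f := fun i => b i ^ 2)
    (fun i _ => sq_nonneg _) (mem_univ i)).trans hs) hβ).2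
  have C0 : 0 ≤ 4 / k + 64 * β / k ^ 2 := by positivity
  have ρ0 := rt_pos he u
  have h1 : ∀ i, rt e u * (r i * (b i * √(v i ⬝ᵥ v i))) ≤
      k * (r i * Bq e u (v i)) + (4 / k + 64 * β / k ^ 2) * nb e u * b i ^ 2 := fun i => by
    have c := dn (v i)
    have h := abs_root (σ := r4 (e + u ⬝ᵥ u + v i ⬝ᵥ v i)) (κ := k / 8) ρ0 (r4_pos (by linarith))
      (sqrt_nonneg (v i ⬝ᵥ v i)) (hb i) (bi i) (by positivity)
      (by rw [rt_pow he.le, r4_pow (by linarith), sq_sqrt c])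
    rw [sq_sqrt c, show 1 / (2 * (k / 8)) + β / (k / 8) ^ 2 = 4 / k + 64 * β / k ^ 2 by
      field_simp; ring, ← nb_eq he.le] at h
    have l := Lq_le he u (v i)
    rw [Lq] at l
    have z : 0 ≤ (4 / k + 64 * β / k ^ 2) * (nb e u * b i ^ 2) :=
      mul_nonneg C0 (mul_nonneg (nb_nn he.le u) (sq_nonneg _))
    nlinarith [mul_le_mul_of_nonneg_left h (hr i).1, mul_le_mul_of_nonneg_right (hr i).2 z,
      mul_le_mul_of_nonneg_left l (mul_nonneg hk.le (hr i).1)]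
  rw [mul_sum]
  refine (sum_le_sum fun i _ => h1 i).trans ?_
  rw [sum_add_distrib, ← mul_sum, ← mul_sum, Brq]
  nlinarith [mul_le_mul_of_nonneg_left hs (mul_nonneg C0 (nb_nn he.le u))]

/-- **the jump vector**: `(∑ r_i² |v_i|²) ^ (3/4) ≤ 32 Br + |u| ^ (3/2)` -/
theorem jump_le (he : 0 < e) {r : ι → ℝ} (hr : ∀ i, 0 ≤ r i ∧ r i ≤ 1) (u : κ → ℝ) (v : ι → κ → ℝ) :
    (∑ i, r i ^ 2 * (v i ⬝ᵥ v i)) ^ (3 / 4 : ℝ) ≤ 32 * Brq e r u v + nb e u := by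
  classical
  have a := dn u
  have ρ0 := rt_pos he u
  have B0 := Brq_nn he (fun i => (hr i).1) u v
  have t0 : ∀ i, 0 ≤ r i ^ 2 * (v i ⬝ᵥ v i) := fun i => mul_nonneg (sq_nonneg _) (dn _)
  have q0 : ∀ i, 0 ≤ r i * Bq e u (v i) := fun i => mul_nonneg (hr i).1 (Bq_nn he u _)
  set S := univ.filter fun i => v i ⬝ᵥ v i ≤ e + u ⬝ᵥ u
  rw [← sum_filter_add_sum_filter_not univ fun i => v i ⬝ᵥ v i ≤ e + u ⬝ᵥ u]
  refine (p34_add (sum_nonneg fun i _ => t0 i) (sum_nonneg fun i _ => t0 i)).trans ?_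
  have two : r4 2 ≤ 2 := by
    have := r4_mono (x := 2) (y := 2 ^ 4) (by norm_num) (by norm_num)
    rwa [r4_of_pow (by norm_num)] at this
  have h1 : ∑ i ∈ S, r i ^ 2 * (v i ⬝ᵥ v i) ≤ 16 * rt e u * Brq e r u v := by
    rw [Brq, mul_sum]
    refine le_trans (sum_le_sum fun i hi => ?_) (sum_le_sum_of_subset_of_nonneg (subset_univ S)
      fun i _ _ => mul_nonneg (by positivity) (q0 i))
    have c := dn (v i)
    have s : r4 (e + u ⬝ᵥ u + v i ⬝ᵥ v i) ≤ 2 * rt e u := by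
      refine (r4_mono (y := 2 * (e + u ⬝ᵥ u)) (by linarith) (by linarith [(mem_filter.1 hi).2])).trans ?_
      rw [r4_mul (by norm_num) (by linarith)]
      exact mul_le_mul_of_nonneg_right two ρ0.le
    have l := Lq_le he u (v i)
    rw [Lq, div_le_iff₀ (by norm_num), div_le_iff₀ (r4_pos (by linarith))] at l
    have l2 : v i ⬝ᵥ v i ≤ 16 * rt e u * Bq e u (v i) := by
      nlinarith [mul_le_mul_of_nonneg_left s (Bq_nn he u (v i))]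
    nlinarith [mul_le_mul_of_nonneg_left l2 (hr i).1,
      mul_le_mul_of_nonneg_right (hr i).2 (mul_nonneg (hr i).1 c)]
  have h2 : (∑ i ∈ S, r i ^ 2 * (v i ⬝ᵥ v i)) ^ (3 / 4 : ℝ) ≤ 16 * Brq e r u v + nb e u := by
    refine (rpow_le_rpow (sum_nonneg fun i _ => t0 i) h1 (by norm_num)).trans ?_
    have y0 := r4_nn (x := 16 * Brq e r u v) (by positivity)
    have y4 := r4_pow (x := 16 * Brq e r u v) (by positivity)
    have z0 := r4_nn ρ0.le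
    have z4 := r4_pow ρ0.le
    rw [r4_cube (by positivity), mul_comm 16, mul_assoc, r4_mul ρ0.le (by positivity), nb_eq he.le,
      ← y4, ← z4, r4_of_pow y0, r4_of_pow z0]
    generalize r4 (16 * Brq e r u v) = y at y0
    generalize r4 (rt e u) = z at z0
    rcases le_total (z ^ 3) y with c | c
    · nlinarith [mul_le_mul_of_nonneg_left c (pow_nonneg y0 3), pow_nonneg z0 12]
    · have := pow_le_pow_left₀ y0 c 3
      nlinarith [mul_le_mul_of_nonneg_left this (pow_nonneg z0 3), pow_nonneg y0 4]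
  have h3 : (∑ i ∈ univ.filter fun i => ¬ v i ⬝ᵥ v i ≤ e + u ⬝ᵥ u, r i ^ 2 * (v i ⬝ᵥ v i)) ^ (3 / 4 : ℝ)
      ≤ 16 * Brq e r u v := by
    refine (p34_sum _ t0).trans ?_
    rw [Brq, mul_sum]
    refine le_trans (sum_le_sum fun i hi => ?_) (sum_le_sum_of_subset_of_nonneg (subset_univ _)
      fun i _ _ => mul_nonneg (by positivity) (q0 i))
    have c := dn (v i)
    have g : e + u ⬝ᵥ u < v i ⬝ᵥ v i := not_le.1 (mem_filter.1 hi).2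
    have y0 := r4_pos (x := v i ⬝ᵥ v i) (by linarith)
    have y4 := r4_pow c
    have s : r4 (e + u ⬝ᵥ u + v i ⬝ᵥ v i) ≤ 2 * r4 (v i ⬝ᵥ v i) := by
      refine (r4_mono (y := 2 * (v i ⬝ᵥ v i)) (by linarith) (by linarith)).trans ?_
      rw [r4_mul (by norm_num) c]
      exact mul_le_mul_of_nonneg_right two y0.le
    have l := Lq_le he u (v i)
    rw [Lq, div_le_iff₀ (by norm_num), div_le_iff₀ (r4_pos (by linarith))] at l
    have l2 : r4 (v i ⬝ᵥ v i) ^ 3 ≤ 16 * Bq e u (v i) := by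
      refine le_of_mul_le_mul_right ?_ y0
      nlinarith [mul_le_mul_of_nonneg_left s (Bq_nn he u (v i))]
    have r1 : (r i ^ 2) ^ (3 / 4 : ℝ) ≤ r i := by
      rw [← rpow_natCast, ← rpow_mul (hr i).1]
      exact (rpow_le_rpow_of_exponent_ge' (hr i).1 (hr i).2 (by norm_num) (by norm_num :
        (1 : ℝ) ≤ (2 : ℕ) * (3 / 4))).trans (rpow_one _).le
    rw [mul_rpow (sq_nonneg _) c, r4_cube c]
    nlinarith [mul_le_mul_of_nonneg_left l2 (hr i).1, mul_le_mul_of_nonneg_right r1 (pow_pos y0 3).le]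
  linarith

end Crest.Agent.T157.S6b

end
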