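import Crest.Agent.T157.S6Cmp_20
import Crest.Agent.T157.S3RgA_78
import Crest.Agent.T157.RegBo_13
import Crest.Agent.T157.RegOp_34
import Crest.Agent.T157.RegBas_66
import Crest.Agent.T157.RegJac_75
import Crest.Agent.T157.RegTool_31
import Crest.Agent.T157.RegCoef_54

/-!
# Row 157, block S6 (helper38): flows of vector fields in continuous time, the clipped flow (CL)
-/

set_option autoImplicit false

noncomputable section

namespace Crest.Agent.T157.S6c

open Matrix Real Set Filter Topology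
open scoped NNReal
open Crest.Agent.T157.E hiding mean
open Crest.Agent.T157.Eig Crest.Agent.T157.Reg
open Crest.Agent.T157.Tap (V Mx)
open Crest.Agent.T157.Rec (grad fl)
open Crest.Agent.T157.Chain22 (sg)
open Crest.Agent.T157.S6b

/-- global solutions of `α' = F α + g t α`, `g` bounded -/
theorem exists_flow {ι : Type*} [Fintype ι] {F : (ι → ℝ) → ι → ℝ} {g : ℝ → (ι → ℝ) → ι → ℝ}
    {K : ℝ≥0} {L T : ℝ} (hT : 0 ≤ T) (hF : LipschitzWith K F) (hF0 : F 0 = 0)
    (hg : ∀ t, LipschitzWith K (g t)) (hc : ∀ x, Continuous fun t => g t x)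
    (hb : ∀ t ∈ Icc 0 T, ∀ x, ‖g t x‖ ≤ L) (x0 : ι → ℝ) :
    ∃ α : ℝ → ι → ℝ, α 0 = x0 ∧
      ∀ t ∈ Icc 0 T, HasDerivWithinAt α (F (α t) + g t (α t)) (Icc 0 T) t := by
  have L0 : 0 ≤ L := (norm_nonneg _).trans (hb 0 ⟨le_rfl, hT⟩ 0)
  set R := gronwallBound ‖x0‖ K L T with hR
  have mono : ∀ t ∈ Icc 0 T, gronwallBound ‖x0‖ K L t ≤ R := fun t ht =>
    gronwallBound_mono (norm_nonneg _) L0 K.2 ht.2
  have R0 : 0 ≤ R := by
    have := mono 0 ⟨le_rfl, hT⟩
    rw [gronwallBound_x0] at this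
    exact (norm_nonneg _).trans this
  set ρ : (ι → ℝ) → ι → ℝ := fun x p => max (-R) (min R (x p)) with hρ
  have r1 : LipschitzWith 1 ρ := LipschitzWith.of_dist_le_mul fun x y => by
    rw [NNReal.coe_one, one_mul]
    refine (dist_pi_le_iff dist_nonneg).2 fun p => le_trans ?_ (dist_le_pi_dist x y p)
    simpa using ((LipschitzWith.id.const_min R).const_max (-R)).dist_le_mul (x p) (y p)
  have r0 : ρ 0 = 0 := by
    funext p; simp [hρ, R0]
  have r2 : ∀ x, ‖ρ x‖ ≤ ‖x‖ := fun x => by simpa [r0] using r1.dist_le_mul x 0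
  have r3 : ∀ x, ‖ρ x‖ ≤ R := fun x => (pi_norm_le_iff_of_nonneg R0).2 fun p =>
    abs_le.2 ⟨le_max_left _ _, max_le (by linarith) (min_le_left _ _)⟩
  have r4 : ∀ x, ‖x‖ ≤ R → ρ x = x := fun x hx => funext fun p => by
    have := abs_le.1 ((norm_le_pi_norm x p).trans hx)
    simp only [hρ]
    rw [min_eq_right this.2, max_eq_right this.1]
  have f1 : ∀ x, ‖F x‖ ≤ K * ‖x‖ := fun x => by simpa [hF0] using hF.dist_le_mul x 0
  have M0 : 0 ≤ K * R + L := by positivity
  have P : IsPicardLindelof (fun t x => F (ρ x) + g t x) (⟨0, le_rfl, hT⟩ : Icc 0 T) x0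
      ⟨(K * R + L) * T, by positivity⟩ 0 ⟨K * R + L, M0⟩ (K * 1 + K) :=
    ⟨fun t _ => ((hF.comp r1).add (hg t)).lipschitzOnWith,
      fun x _ => (continuous_const.add (hc x)).continuousOn,
      fun t ht x _ => (norm_add_le _ _).trans (add_le_add ((f1 _).trans
        (mul_le_mul_of_nonneg_left (r3 x) K.2)) (hb t ht x)), by
      simp only [sub_zero, max_eq_left hT, NNReal.coe_zero]; exact le_rfl⟩
  obtain ⟨α, h0, hα⟩ := P.exists_eq_forall_mem_Icc_hasDerivWithinAt₀
  have h0 : α 0 = x0 := h0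
  have bd := norm_le_gronwallBound_of_norm_deriv_right_le (f := α) (δ := ‖x0‖) (K := K) (ε := L)
    (f' := fun t => F (ρ (α t)) + g t (α t)) (a := 0) (b := T)
    (fun t ht => (hα t ht).continuousWithinAt)
    (fun t ht => (hα t ⟨ht.1, ht.2.le⟩).mono_of_mem_nhdsWithin
      (mem_of_superset (Icc_mem_nhdsGE ht.2) (Icc_subset_Icc_left ht.1))) (by rw [h0]) fun t ht =>
    (norm_add_le _ _).trans (add_le_add ((f1 _).trans
      (mul_le_mul_of_nonneg_left (r2 _) K.2)) (hb t ⟨ht.1, ht.2.le⟩ _))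
  refine ⟨α, h0, fun t ht => ?_⟩
  have := hα t ht
  rwa [r4 _ ((bd t ht).trans (by rw [sub_zero]; exact mono t ht))] at this

open scoped Matrix.Norms.L2Operator in
/-- the operator norm of a differentiable path of matrices -/
theorem tch_opn {ι κ : Type*} [Fintype ι] [Fintype κ] [DecidableEq ι] [DecidableEq κ]
    {S : ℝ → Matrix ι κ ℝ} {S' : Matrix ι κ ℝ} {s r h : ℝ}
    (hS : ∀ i j, HasDerivAt (fun u => S u i j) (S' i j) s) (h0 : 0 < h)
    (hr : opn (S s + h • S') ≤ opn (S s) + h * r) : Tch (fun u => opn (S u)) s r := by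
  obtain ⟨l, l1, l2⟩ := exists_dual_vector'' ℝ (S s)
  have e : ∀ A : Matrix ι κ ℝ, l A = ∑ i, ∑ j, A i j * l (single i j 1) := fun A => by
    conv_lhs => rw [matrix_eq_sum_single A]
    simp only [map_sum]
    refine Finset.sum_congr rfl fun i _ => Finset.sum_congr rfl fun j _ => ?_
    rw [← smul_eq_mul, ← map_smul, smul_single, smul_eq_mul, mul_one]
  have b : ∀ A : Matrix ι κ ℝ, l A ≤ opn A := fun A =>
    (le_abs_self _).trans ((l.le_opNorm A).trans (mul_le_of_le_one_left (norm_nonneg _) l1))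
  have l2 : l (S s) = opn (S s) := by simpa [opn_def] using l2
  refine ⟨fun u => l (S u), l S', ?_, l2, Eventually.of_forall fun u => b _, ?_⟩
  · simp only [e (S _), e S']
    exact HasDerivAt.fun_sum fun i _ => HasDerivAt.fun_sum fun j _ => (hS i j).mul_const _
  · have := (b _).trans hr
    rw [map_add, map_smul, l2, smul_eq_mul] at this
    exact le_of_mul_le_mul_left (by linarith) h0

variable {n : ℕ} {W W' : Mx n} {K τ : ℝ}

/-- velocity of the intertwined equation with source `σ` -/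
def vel (W : Mx n) (ω σ : VF n) : VF n := fun x i =>
  ∑ k, (Tk W x k + al W x i k) * jac ω x i k - ω x i + σ x i

/-- `ω` follows the intertwined equation with source `σ` on `[0, τ]` -/
structure Fl (W : Mx n) (ω σ : ℝ → VF n) (τ : ℝ) : Prop where
  c : ∀ x i, ContinuousOn (fun u => ω u x i) (Icc 0 τ)
  d : ∀ s ∈ Ioc 0 τ, ∀ x i, HasDerivAt (fun u => ω u x i) (vel W (ω s) (σ s) x i) s

/-- excess over the level `η` -/
def exc (η : ℝ) (z : V n) : ℝ := ∑ i, max (|z i| - η) 0 ^ 2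

/-- time integral of the semigroup -/
def tot (w : Cube n → ℝ) (τ : ℝ) (B : Cube n → ℝ) (x : Cube n) : ℝ := ∫ u in (0 : ℝ)..τ, sg w u B x

theorem Fl.sub {ω σ ω' σ' : ℝ → VF n} (h : Fl W ω σ τ) (h' : Fl W' ω' σ' τ) :
    Fl W (fun s => ω s - ω' s) (fun s x i => σ s x i - σ' s x i +
      ∑ k, (Tk W x k + al W x i k - (Tk W' x k + al W' x i k)) * jac (ω' s) x i k) τ := by
  refine ⟨fun x i => (h.c x i).sub (h'.c x i), fun s hs x i =>
    ((h.d s hs x i).sub (h'.d s hs x i)).congr_deriv ?_⟩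
  simp only [vel, jac, of_apply, Pi.sub_apply, mul_sub, sub_mul, Finset.sum_sub_distrib]
  ring

theorem Fl.sq_c {ξ σ : ℝ → VF n} (h : Fl W ξ σ τ) (x : Cube n) :
    ContinuousOn (fun u => sq2 (ξ u) x) (Icc 0 τ) :=
  continuousOn_finsetSum (f := fun i u => ξ u x i * ξ u x i) Finset.univ fun i _ =>
    (h.c x i).mul (h.c x i)

theorem Fl.sq_d {ξ σ : ℝ → VF n} (h : Fl W ξ σ τ) {s : ℝ} (hs : s ∈ Ioc 0 τ) (x : Cube n) :
    HasDerivAt (fun u => sq2 (ξ u) x) (2 * (ξ s x ⬝ᵥ vel W (ξ s) (σ s) x)) s := by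
  refine (HasDerivAt.fun_sum (u := Finset.univ) fun i _ =>
    (h.d s hs x i).mul (h.d s hs x i)).congr_deriv ?_
  rw [dotProduct, Finset.mul_sum]; exact Finset.sum_congr rfl fun i _ => by ring

theorem boch (K : ℝ) : ∃ C ≥ (1 : ℝ), ∀ (n : ℕ) (W : Mx n), Nice W K → ∀ (ξ σ : VF n) x,
    2 * (ξ x ⬝ᵥ vel W ξ σ x) ≤ gen (mu W) (sq2 ξ) x + C * sq2 ξ x + 2 * sq2 σ x := by
  obtain ⟨C, C1, hC⟩ := boGlue basStmt coefStmt K
  refine ⟨C, C1, fun n W hW ξ σ x => ?_⟩
  have p : 0 < C * (n + 1) := by positivity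
  have h0 : 0 < (C * (n + 1))⁻¹ := inv_pos.2 p
  have k := (hC n W hW _ h0.le (by rw [mul_right_comm, mul_inv_cancel₀ p.ne']) ξ σ).1 x
  set h := (C * (n + 1))⁻¹
  have e : stp W h ξ σ x = ξ x + h • vel W ξ σ x := rfl
  rw [sq2, e, Qh] at k
  simp only [add_dotProduct, dotProduct_add, smul_dotProduct, dotProduct_smul, smul_eq_mul,
    dotProduct_comm (vel W ξ σ x) (ξ x)] at k
  have := mul_nonneg h0.le (mul_nonneg h0.le (dot_self_nonneg (vel W ξ σ x)))
  refine le_of_mul_le_mul_left ?_ h0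
  simp only [sq2] at k ⊢
  linarith

theorem tot_nonneg (hn : 0 < n) {w : Cube n → ℝ} (hw : ∀ x, 0 < w x) (hτ : 0 ≤ τ) {B : Cube n → ℝ}
    (hB : ∀ x, 0 ≤ B x) (x : Cube n) : 0 ≤ tot w τ B x :=
  intervalIntegral.integral_nonneg hτ fun _ hu => Rec.sg_nonneg hn hw hu.1 hB x

theorem tot_const_mul (w : Cube n → ℝ) (τ c : ℝ) (B : Cube n → ℝ) (x : Cube n) :
    tot w τ (fun z => c * B z) x = c * tot w τ B x := by
  simp only [tot, Rec.sg_const_mul, intervalIntegral.integral_const_mul]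

theorem duh_le (hn : 0 < n) {w : Cube n → ℝ} (hw : ∀ x, 0 < w x) {C a s : ℝ} (hC : 0 ≤ C)
    (ha : 0 ≤ a) {B : Cube n → ℝ} (hB : ∀ x, 0 ≤ B x) (hs : s ∈ Icc 0 τ) (x : Cube n) :
    duh w C (fun _ z => a + B z) s x ≤ exp (C * τ) * (a * τ + tot w τ B x) := by
  have c : Continuous fun u => sg w u B x :=
    cont_sg_fam hn hw (g := fun _ => B) continuous_id' (fun _ => continuous_const) x
  have c' : Continuous fun u => sg w (s - u) B x := c.comp (by fun_prop)
  have e : ∀ u, sg w u (fun z => a + B z) x = a + sg w u B x := fun u => by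
    rw [Rec.sg_add_fun, Rec.sg_const hn hw]
  simp only [duh, e]
  refine (intervalIntegral.integral_mono_on (g := fun u => exp (C * τ) * (a + sg w (s - u) B x))
    hs.1 (Continuous.intervalIntegrable (by fun_prop) _ _)
    (Continuous.intervalIntegrable (by fun_prop) _ _) fun u hu => mul_le_mul_of_nonneg_right
      (exp_le_exp.2 (mul_le_mul_of_nonneg_left (by linarith [hs.2, hu.1]) hC))
      (add_nonneg ha (Rec.sg_nonneg hn hw (sub_nonneg.2 hu.2) hB x))).trans ?_
  rw [intervalIntegral.integral_const_mul, intervalIntegral.integral_add intervalIntegrable_const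
    (c'.intervalIntegrable _ _), intervalIntegral.integral_comp_sub_left (fun u => sg w u B x)]
  refine mul_le_mul_of_nonneg_left (add_le_add ?_ ?_) (exp_pos _).le
  · simpa [mul_comm] using mul_le_mul_of_nonneg_left hs.2 ha
  · rw [sub_self, sub_zero]
    exact intervalIntegral.integral_mono_interval le_rfl hs.1 hs.2
      (MeasureTheory.ae_restrict_of_forall_mem measurableSet_Ioc fun u hu =>
        Rec.sg_nonneg hn hw hu.1.le hB x) (c.intervalIntegrable _ _)

/-- Gronwall inequality for the squared length under the semigroup -/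
theorem gron (K : ℝ) : ∃ C ≥ (1 : ℝ), ∀ (n : ℕ) (W : Mx n), 0 < n → Nice W K →
    ∀ (ξ σ : ℝ → VF n) (τ A a : ℝ) (B : Cube n → ℝ), Fl W ξ σ τ → 0 ≤ A → 0 ≤ a →
    (∀ x, 0 ≤ B x) → (∀ x, sq2 (ξ 0) x ≤ a) →
    (∀ s ∈ Ioc 0 τ, ∀ x, sq2 (σ s) x ≤ A * sq2 (ξ s) x + (a + B x)) →
    ∀ s ∈ Icc 0 τ, ∀ x, sq2 (ξ s) x ≤ 2 * exp ((C + 2 * A) * τ) * (a + tot (mu W) τ B x) := by
  obtain ⟨C, C1, hC⟩ := boch K
  refine ⟨C + 2, by linarith, fun n W hn hW ξ σ τ A a B h hA ha hB h0 hσ s hs x => ?_⟩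
  have hw := Bas66.mu_pos W
  have τ0 := hs.1.trans hs.2
  have k := S6b.cmp hn hw (Φ := fun u => sq2 (ξ u)) (C := C + 2 * A) (T := τ)
    (g := fun _ z => 2 * a + 2 * B z)
    h.sq_c (fun _ => continuous_const) (fun s hs x => Tch.of_deriv (h.sq_d hs x) (by
      linarith [hC n W hW (ξ s) (σ s) x, hσ s hs x])) s hs x
  have k1 := duh_le hn hw (C := C + 2 * A) (a := 2 * a) (B := fun z => 2 * B z) (by linarith)
    (by positivity) (fun z => by linarith [hB z]) hs x
  rw [tot_const_mul] at k1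
  have k2 : sg (mu W) s (sq2 (ξ 0)) x ≤ a := by
    have := Rec.sg_mono hn hw hs.1 h0 x
    rwa [Rec.sg_const hn hw] at this
  have k3 : exp ((C + 2 * A) * s) ≤ exp ((C + 2 * A) * τ) :=
    exp_le_exp.2 (mul_le_mul_of_nonneg_left hs.2 (by linarith))
  have k4 := mul_le_mul k3 k2 (Rec.sg_nonneg hn hw hs.1 (fun z => dot_self_nonneg _) x)
    (exp_pos _).le
  have t0 := tot_nonneg hn hw τ0 hB x
  have k5 := add_one_le_exp (2 * τ)
  rw [show (C + 2 + 2 * A) * τ = (C + 2 * A) * τ + 2 * τ by ring, exp_add]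
  have k6 : a + (2 * a * τ + 2 * tot (mu W) τ B x) ≤ 2 * exp (2 * τ) * (a + tot (mu W) τ B x) := by
    nlinarith [mul_nonneg ha τ0, mul_nonneg t0 τ0]
  have := mul_le_mul_of_nonneg_left k6 (exp_pos ((C + 2 * A) * τ)).le
  linarith

/-- maximum principle for the entries -/
theorem Fl.sup (hW : Nice W K) {ω σ : ℝ → VF n} (h : Fl W ω σ τ) {y y' : ℝ → ℝ}
    (hy : ∀ s, HasDerivAt y (y' s) s) (hy' : ∀ s, 0 ≤ y' s) (h0 : ∀ x i, |ω 0 x i| ≤ y 0)
    (hσ : ∀ s ∈ Ioc 0 τ, ∀ x i, |σ s x i| ≤ y s) : ∀ s ∈ Icc 0 τ, ∀ x i, |ω s x i| ≤ y s := by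
  obtain ⟨C, -, hC⟩ := coefStmt K
  have k := maxp (X := Cube n × Fin n × ({-1, 1} : Finset ℝ)) (C := 0) (T := τ)
    (D := fun u p => p.2.2.1 * ω u p.1 p.2.1 - y u)
    (fun p => (continuousOn_const.mul (h.c _ _)).sub
      fun u _ => (hy u).continuousAt.continuousWithinAt) (fun s hs p hm hp => ?_) fun p => ?_
  · intro s hs x i
    have a := k s hs (x, i, ⟨1, by simp⟩)
    have b := k s hs (x, i, ⟨-1, by simp⟩)
    simp only at a b
    exact abs_le.2 ⟨by linarith, by linarith⟩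
  all_goals
    obtain ⟨x, i, e, he⟩ := p
    have e1 : |e| = 1 := by
      simp only [Finset.mem_insert, Finset.mem_singleton] at he
      rcases he with rfl | rfl <;> simp
    have e2 : ∀ z, e * z ≤ |z| := fun z => (le_abs_self _).trans (by rw [abs_mul, e1, one_mul])
  · refine Tch.of_deriv (((h.d s hs x i).const_mul e).sub (hy s)) ?_
    have : ∑ k, (Tk W x k + al W x i k) * (e * jac (ω s) x i k) ≤ 0 :=
      Finset.sum_nonpos fun k _ => mul_nonpos_of_nonneg_of_nonpos ((hC n W hW x).2.1 i k).1 (by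
        have := hm (fl x k, i, ⟨e, he⟩)
        simp only [jac, of_apply] at this ⊢
        linarith)
    simp only [mul_left_comm _ e, ← Finset.mul_sum] at this
    simp only [vel] at hp ⊢
    linarith [e2 (σ s x i), hσ s hs x i, hy' s]
  · exact sub_nonpos.2 ((e2 _).trans (h0 x i))

theorem jac_clip {η N : ℝ} (hη : 0 < η) (b : VF n) (x : Cube n) (hN : opn (jac b x) ≤ N) :
    opn (jac (fun z i => S3.Rg.clip η (b z i)) x) ≤ N + N ^ 2 / (2 * η) := by
  have N0 := (opn_nonneg _).trans hN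
  set D : Mx n := diagonal (fun i => S3.Rg.clip' η (b x i)) * jac b x with hD
  have h1 : opn D ≤ 1 * N := Op34.opn_mul_le' (opn_diagonal_le zero_le_one fun i => by
    rw [abs_of_nonneg (S3.Rg.clip'_mem hη _).1]; exact (S3.Rg.clip'_mem hη _).2) hN
  have h2 := S3.Rg.had (R := jac (fun z i => S3.Rg.clip η (b z i)) x - D) (X := jac b x)
    (Y := jac b x) (c := 1 / (2 * η)) (by positivity) fun i j => by
      rw [← abs_mul, abs_mul_self, ← sq, one_div_mul_eq_div]
      simpa [hD, jac] using S3.Rg.clip_taylor hη (b x i) (b (fl x j) i)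
  have h3 := opn_add_le D (jac (fun z i => S3.Rg.clip η (b z i)) x - D)
  rw [add_sub_cancel] at h3
  have h4 : 1 / (2 * η) * (opn (jac b x) * opn (jac b x)) ≤ N ^ 2 / (2 * η) := by
    rw [one_div_mul_eq_div, sq]
    exact div_le_div_of_nonneg_right (mul_self_le_mul_self (opn_nonneg _) hN) (by positivity)
  linarith

theorem exists_clf (W : Mx n) (hτ : 0 ≤ τ) {η : ℝ → ℝ} (hc : Continuous η) (hη : ∀ s, 0 < η s)
    (hm : Monotone η) (ω0 : VF n) : ∃ ω : ℝ → VF n, ω 0 = ω0 ∧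
      Fl W ω (fun s x i => S3.Rg.clip (η s) (bb W (ω s) x i)) τ := by
  let A : (Cube n × Fin n → ℝ) →ₗ[ℝ] Cube n × Fin n → ℝ :=
    { toFun := fun α p => vel W (fun x i => α (x, i)) 0 p.1 p.2
      map_add' := fun α β => funext fun p => by
        simp only [vel, jac, of_apply, Pi.add_apply, Pi.zero_apply, add_sub_add_comm, mul_add,
          Finset.sum_add_distrib]
        ring
      map_smul' := fun c α => funext fun p => by
        simp only [vel, jac, of_apply, Pi.smul_apply, Pi.zero_apply, smul_eq_mul, RingHom.id_apply,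
          ← mul_sub, mul_left_comm _ c, ← Finset.mul_sum, add_zero] }
  let B : (Cube n × Fin n → ℝ) →ₗ[ℝ] Cube n × Fin n → ℝ :=
    { toFun := fun α p => bb W (fun x i => α (x, i)) p.1 p.2
      map_add' := fun α β => funext fun p => congrFun (mulVec_add (am W p.1) _ _) p.2
      map_smul' := fun c α => funext fun p => congrFun (mulVec_smul (am W p.1) c _) p.2 }
  set A' := LinearMap.toContinuousLinearMap A
  set B' := LinearMap.toContinuousLinearMap B
  have τ1 : 0 ≤ τ + 1 := by linarith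
  obtain ⟨α, h0, hα⟩ := exists_flow (F := A') (K := max ‖A'‖₊ ‖B'‖₊) (L := 2 * η (τ + 1)) τ1
    (g := fun t α p => S3.Rg.clip (η t) (B' α p)) (A'.lipschitz.weaken (le_max_left _ _))
    (map_zero A') (fun t => LipschitzWith.of_dist_le_mul fun α β =>
      (dist_pi_le_iff (by positivity)).2 fun p => (S3.Rg.clip_lip (hη t) _ _).trans
        ((dist_le_pi_dist (B' α) (B' β) p).trans
          ((B'.lipschitz.weaken (le_max_right _ _)).dist_le_mul α β)))
    (fun α => continuous_pi fun p => by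
      have := fun s => (hη s).ne'
      unfold S3.Rg.clip S3.Rg.pq
      fun_prop (disch := intro s; have := hη s; positivity))
    (fun t ht α => (pi_norm_le_iff_of_nonneg (by have := hη (τ + 1); positivity)).2 fun p =>
      (S3.Rg.abs_clip_le (hη t) _).trans (by linarith [hm ht.2])) fun p => ω0 p.1 p.2
  refine ⟨fun s x i => α s (x, i), by simp only [h0], fun x i s hs => ?_, fun s hs x i => ?_⟩
  · exact ((continuous_apply (x, i)).continuousAt.comp_continuousWithinAt
      (hα s ⟨hs.1, by linarith [hs.2]⟩).continuousWithinAt).mono (Icc_subset_Icc_right (by linarith))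
  · have := hasDerivAt_pi.1 ((hα s ⟨hs.1.le, by linarith [hs.2]⟩).hasDerivAt
      (Icc_mem_nhds hs.1 (by linarith [hs.2]))) (x, i)
    refine this.congr_deriv ?_
    change vel W _ 0 x i + _ = _
    simp only [vel, Pi.zero_apply, add_zero]
    rfl

/-- **(CL)** the clipped flow is bounded and has a bounded Jacobian everywhere -/
theorem cl (hJ : JbStmt) (K : ℝ) : ∃ Λ ≥ (1 : ℝ), ∀ (n : ℕ) (W : Mx n), Nice W K →
    ∀ (η τ : ℝ) (u0 : V n), 0 < η → 0 ≤ τ → ∃ ω : ℝ → VF n,
    (∀ x i, ω 0 x i = S3.Rg.clip η (u0 i)) ∧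
    Fl W ω (fun s x i => S3.Rg.clip (η * exp (Λ * s)) (bb W (ω s) x i)) τ ∧
    ∀ s ∈ Icc 0 τ, ∀ x, (∀ i, |ω s x i| ≤ 2 * (η * exp (Λ * s))) ∧
      opn (jac (ω s) x) ≤ η * exp (Λ * s) := by
  obtain ⟨C, C1, hC⟩ := opGlue toolStmt jacStmt coefStmt K
  obtain ⟨D, D1, hD⟩ := hJ K
  refine ⟨C + 3 * D + 5 * D ^ 2, by nlinarith, fun n W hW η τ u0 hη hτ => ?_⟩
  set Λ := C + 3 * D + 5 * D ^ 2 with hΛ
  have Λ0 : 0 ≤ Λ := by positivity
  set e : ℝ → ℝ := fun s => η * exp (Λ * s) with he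
  have e0 : ∀ s, 0 < e s := fun s => by positivity
  have ed : ∀ s, HasDerivAt e (Λ * e s) s := fun s =>
    (((hasDerivAt_id' s).const_mul Λ).exp.const_mul η).congr_deriv (by simp only [he]; ring)
  obtain ⟨ω, h0, h⟩ := exists_clf W hτ (η := e) (by fun_prop) e0 (fun s t hst =>
    mul_le_mul_of_nonneg_left (exp_le_exp.2 (mul_le_mul_of_nonneg_left hst Λ0)) hη.le)
    fun _ i => S3.Rg.clip η (u0 i)
  have b1 := h.sup hW (y := fun s => 2 * e s) (fun s => (ed s).const_mul 2)
    (fun s => by have := e0 s; positivity)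
    (fun x i => by simpa [h0, he] using S3.Rg.abs_clip_le hη (u0 i))
    fun s _ x i => S3.Rg.abs_clip_le (e0 s) _
  refine ⟨ω, fun x i => by rw [h0], h, fun s hs x => ⟨b1 s hs x, sub_nonpos.1 ?_⟩⟩
  refine maxp (D := fun u x => opn (jac (ω u) x) - e u) (T := τ)
    (C := C + D + D ^ 2 * (3 + 2 * n)) (fun x => ContinuousOn.sub
      (continuous_opn.comp_continuousOn (continuousOn_pi.2 fun i => continuousOn_pi.2 fun j =>
        (h.c _ i).sub (h.c x i))) (by fun_prop)) (fun s hs x hm hp => ?_) (fun x => ?_) s hs x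
  · set M := opn (jac (ω s) x) with hM
    have b2 := b1 s ⟨hs.1.le, hs.2⟩
    have es := e0 s
    have m1 : M ≤ n * (4 * e s) := by
      have : ∀ i j, |jac (ω s) x i j| ≤ 4 * e s := fun i j =>
        (abs_sub _ _).trans (by linarith [b2 x i, b2 (fl x j) i])
      refine toolStmt.op_schur n _ _ (by positivity) (fun i => ?_) fun j => ?_ <;>
        exact (Finset.sum_le_card_nsmul _ _ (4 * e s) fun k _ => this _ _).trans_eq (by simp)
    have n0 : (0 : ℝ) < (n + 1 : ℝ)⁻¹ := by positivity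
    have k := hC n W hW _ n0.le (by rw [inv_mul_le_iff₀ (by positivity)]; linarith) (ω s) _ M _
      (fun z => by linarith [hm z]) (fun z => jac_clip es (bb W (ω s)) z
        (((hD n W hW (ω s) z).1 _ (by positivity) (b2 z)).trans (mul_le_mul_of_nonneg_left
          (add_le_add (show _ ≤ M by linarith [hm z]) le_rfl) (by linarith)))) x
    rw [jacStmt.lin] at k
    have t := tch_opn (S := fun u => jac (ω u) x) (fun i j => ((h.d s hs (fl x j) i).sub
      (h.d s hs x i)).congr_deriv (show _ = dj W (ω s)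
        (fun x i => S3.Rg.clip (e s) (bb W (ω s) x i)) x i j by
          simp only [dj, jac, of_apply, Matrix.sub_apply, stp, vel]; ring)) n0
      (r := C * M + (D * (M + 2 * e s) + (D * (M + 2 * e s)) ^ 2 / (2 * e s))) (by linarith)
    refine ((t.add (Tch.of_deriv (ed s).neg le_rfl)).mono ?_).of_le (by simp [sub_eq_add_neg])
      (Eventually.of_forall fun u => by simp [sub_eq_add_neg])
    have q : (D * (M + 2 * e s)) ^ 2 / (2 * e s) ≤
        5 * D ^ 2 * e s + D ^ 2 * (3 + 2 * n) * (M - e s) := by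
      rw [div_le_iff₀ (by positivity)]
      have a1 := mul_le_mul_of_nonneg_left (show M - e s ≤ n * (4 * e s) by linarith) hp.le
      nlinarith [mul_le_mul_of_nonneg_left a1 (sq_nonneg D), mul_pos (mul_pos es es) (by positivity : 0 < D ^ 2)]
    nlinarith
  · have : jac (ω 0) x = 0 := by ext i j; simp [h0, jac]
    simp [this, (e0 0).le]

end Crest.Agent.T157.S6c

end
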