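import Crest.Agent.T157.S6Cl_38
import Crest.Agent.T157.RegJb_45
import Crest.Agent.T157.S6DefB_68

/-!
# Row 157, block S6 (helper38): comparison of the true flow with the cavity flow (CL + CP)
-/

set_option autoImplicit false

noncomputable section

namespace Crest.Agent.T157.S6c

open Matrix Real Set Filter Topology
open Crest.Agent.T157.E hiding mean
open Crest.Agent.T157.Eig
open Crest.Agent.T157.Reg hiding clip
open Crest.Agent.T157.S3.Rg (clip)
open Crest.Agent.T157.Tap (V Mx)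
open Crest.Agent.T157.Rec (grad fl grad_eq sv_mul_self)
open Crest.Agent.T157.Da.Gr (loc tt loc_fl tanh_lip)
open Crest.Agent.T157.Chain22 (sg)
open Crest.Agent.T157.S6b
open Crest.Agent.T157.S6 (cav cc)
open Crest.Agent.T157.Reg.Coef54
open Crest.Agent.T157.S3.Rg (nrm_mono nrm_sq' had abs_sv)

lemma s1 (h h' c : ℝ) : |tanh (h - c) - tanh h - (tanh (h' - c) - tanh h')| ≤ 2 * |c| * |h - h'| := by
  have := lip (fun x => (d0 (h - c) x).sub (d0 h x)) (d := h - h') (M := 2 * |c|) fun x _ => by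
    have := a3 (h - x) c
    rw [sub_right_comm, ← abs_neg] at this
    convert this using 2; ring
  simp only [Pi.sub_apply, sub_zero, sub_sub_cancel, sub_right_comm h c] at this
  rwa [abs_sub_comm]

lemma s2 (h h' c : ℝ) : |tanh (h - c) - tanh h + c * t1 h -
    (tanh (h' - c) - tanh h' + c * t1 h')| ≤ 4 * c ^ 2 * |h - h'| := by
  have := lip (fun x => ((d0 (h - c) x).sub (d0 h x)).add ((d1 h x).const_mul c)) (d := h - h')
    (M := 4 * c ^ 2) fun x _ => by
    have := a4 (h - x) c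
    rw [sub_right_comm, ← abs_neg] at this
    convert this using 2; ring
  simp only [Pi.sub_apply, Pi.add_apply, sub_zero, sub_sub_cancel, sub_right_comm h c] at this
  rwa [abs_sub_comm]

variable {n : ℕ} {W : Mx n} {K : ℝ}

lemma rowsum {M X Y : Mx n} {a p : V n} {c : ℝ} (hc : 0 ≤ c) (hp : ∀ i, 0 ≤ p i)
    (h : ∀ i k, |M i k| ≤ c * (|X i k| * |Y i k|) * (a k + p i)) :
    nrm (fun i => ∑ k, M i k) ≤ c * (opn X * opn Y) * (nrm a + nrm p) := by
  set N : Mx n := of fun i k => |X i k| * |Y i k| with hN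
  have o := mul_nonneg (opn_nonneg X) (opn_nonneg Y)
  have n1 : opn N ≤ 1 * (opn X * opn Y) := had zero_le_one fun i k => by simp [hN]
  have n2 : ∀ i, ∑ k, N i k ≤ opn X * opn Y := fun i => (le_abs_self _).trans
    (Op34.cs (opn_nonneg X) (opn_nonneg Y) (by simpa using S3.Rg.row_le X i)
      (by simpa using S3.Rg.row_le Y i))
  have n3 := nrm_mono (u := fun i => ∑ k, M i k) (v := N *ᵥ a + (opn X * opn Y) • p) hc fun i => by
    refine (Finset.abs_sum_le_sum_abs _ _).trans ((Finset.sum_le_sum fun k _ => h i k).trans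
      (le_trans ?_ (mul_le_mul_of_nonneg_left (le_abs_self _) hc)))
    have := mul_le_mul_of_nonneg_left (mul_le_mul_of_nonneg_right (n2 i) (hp i)) hc
    simp only [mul_add, Finset.sum_add_distrib, mul_assoc c, ← Finset.mul_sum, ← Finset.sum_mul,
      Pi.add_apply, Pi.smul_apply, smul_eq_mul, mulVec, dotProduct, hN, of_apply] at this ⊢
    linarith
  have n4 := (nrm_mulVec_le N a).trans (mul_le_mul_of_nonneg_right n1 (nrm_nonneg a))
  have n5 := nrm_add_le (N *ᵥ a) ((opn X * opn Y) • p)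
  rw [nrm_smul, abs_of_nonneg o] at n5
  nlinarith [mul_le_mul_of_nonneg_left (n5.trans (add_le_add n4 le_rfl)) hc]

/-- indicator of `T` -/
def pT (T : Finset (Fin n)) : V n := fun i => if i ∈ T then 1 else 0
/-- change of the fields when `T` is removed -/
def aT (W : Mx n) (T : Finset (Fin n)) (x : Cube n) : V n :=
  fun k => if k ∈ T then 1 else |loc W 0 x k - loc (cav T W) 0 x k|

variable {T : Finset (Fin n)}

lemma pT_nn (i : Fin n) : 0 ≤ pT T i := by unfold pT; split_ifs <;> norm_num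
lemma aT_nn (x : Cube n) (k : Fin n) : 0 ≤ aT W T x k := by unfold aT; split_ifs <;> simp

lemma nrm_pT : nrm (pT T) = √T.card := by
  rw [nrm]; congr 1; simp [pT, dotProduct]

lemma cav_symm (hW : Wᵀ = W) : (cav T W)ᵀ = cav T W := by
  ext i j; simp only [cav, transpose_apply, of_apply, or_comm, herm_apply (herm_iff.2 hW) j i]

lemma cav_mulVec (u : V n) : W *ᵥ u - cav T W *ᵥ u =
    pT T * (W *ᵥ u) + (1 - pT T) * (W *ᵥ (pT T * u)) := by
  funext i
  by_cases hi : i ∈ T
  · simp [cav, pT, mulVec, dotProduct, hi]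
  · simp only [cav, pT, mulVec, dotProduct, hi, Pi.sub_apply, Pi.add_apply, Pi.mul_apply, of_apply,
      false_or, if_false, Pi.one_apply, ← Finset.sum_sub_distrib, zero_mul, zero_add, sub_zero,
      one_mul]
    exact Finset.sum_congr rfl fun j _ => by split_ifs <;> simp

lemma nrm_pT_mul {u : V n} {c : ℝ} (hc : 0 ≤ c) (h : ∀ i, |u i| ≤ c) :
    nrm (pT T * u) ≤ c * √T.card := by
  rw [← nrm_pT]
  exact nrm_mono hc fun i => by
    rw [Pi.mul_apply, abs_mul, mul_comm]; exact mul_le_mul_of_nonneg_right (h i) (abs_nonneg _)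

lemma nrm_aT (hK : opn W ≤ K) (hd : ∀ i, W i i = 0) (x : Cube n) :
    nrm (aT W T x) ≤ (K + 1) * √T.card := by
  have K0 := (opn_nonneg W).trans hK
  have h1 := nrm_mono (u := aT W T x) (v := pT T + (1 - pT T) * (W *ᵥ (pT T * sv x))) zero_le_one
    fun k => by
      have := congrFun (cav_mulVec (W := W) (T := T) (sv x)) k
      by_cases hk : k ∈ T
      · simp [aT, pT, hk]
      · simp only [Pi.sub_apply, Pi.add_apply, Pi.mul_apply] at this
        simp [aT, loc, hd, show cav T W k k = 0 by simp [cav, hd], hk, this,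
          show pT T k = 0 from if_neg hk]
  have h2 := nrm_mono (u := (1 - pT T) * (W *ᵥ (pT T * sv x))) (v := W *ᵥ (pT T * sv x)) zero_le_one
    fun k => by by_cases hk : k ∈ T <;> simp [pT, hk]
  have h3 := (nrm_mulVec_le W _).trans (mul_le_mul hK
    (nrm_pT_mul (T := T) zero_le_one fun i => (abs_sv x i).le) (nrm_nonneg _) K0)
  have h4 := nrm_add_le (pT T) ((1 - pT T) * (W *ᵥ (pT T * sv x)))
  rw [nrm_pT] at h4
  linarith

lemma tt_fl (hW : Wᵀ = W) (hd : ∀ i, W i i = 0) (x : Cube n) (i k : Fin n) :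
    tt W 0 (fl x i) k = tanh (loc W 0 x k - 2 * sv x i * W i k) := by
  rw [tt, loc_fl, herm_apply (herm_iff.2 hW) k i]
  split_ifs with e
  · rw [e, hd, mul_zero]
  · rfl

lemma am_sub (hW : Wᵀ = W) (hd : ∀ i, W i i = 0) (x : Cube n) (i k : Fin n) :
    am W x i k - W i k * cc W x k = -(sv x i * (tanh (loc W 0 x k - 2 * sv x i * W i k) -
      tanh (loc W 0 x k) + 2 * sv x i * W i k * t1 (loc W 0 x k)) / 2) := by
  simp only [am, of_apply, grad_eq, tt_fl hW hd, cc, t1]
  simp only [tt]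
  linear_combination (W i k * (1 - tanh (loc W 0 x k) ^ 2)) * sv_mul_self x i

lemma coef (hW : Wᵀ = W) (hd : ∀ i, W i i = 0) (x : Cube n) (i k : Fin n) :
    |Tk W x k - Tk (cav T W) x k| ≤ aT W T x k ∧ |cc W x k - cc (cav T W) x k| ≤ 2 * aT W T x k ∧
    |al W x i k - al (cav T W) x i k| ≤ 2 * |W i k| * (aT W T x k + pT T i) ∧
    |am W x i k - W i k * cc W x k - (am (cav T W) x i k - cav T W i k * cc (cav T W) x k)| ≤
      8 * W i k ^ 2 * (aT W T x k + pT T i) := by
  have hd' : ∀ i, cav T W i i = 0 := fun i => by simp [cav, hd]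
  have hf : ∀ (k : Fin n) (y : ℝ), |sv x k * y / 2| = |y| / 2 := fun k y => by
    rw [abs_div, abs_mul, abs_sv, one_mul, abs_two]
  set h := loc W 0 x k with hh
  set h' := loc (cav T W) 0 x k with hh'
  have c1 : |2 * sv x i * W i k| = 2 * |W i k| := by rw [abs_mul, abs_mul, abs_sv, abs_two, mul_one]
  have c2 : (2 * sv x i * W i k) ^ 2 = 4 * W i k ^ 2 := by rw [← sq_abs, c1, mul_pow, sq_abs]; ring
  have w0 := abs_nonneg (W i k)
  have ap : i ∈ T ∨ k ∈ T → 1 ≤ aT W T x k + pT T i := by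
    rintro (e | e)
    · linarith [aT_nn (W := W) (T := T) x k, show pT T i = 1 from if_pos e]
    · linarith [pT_nn (T := T) i, show aT W T x k = 1 from if_pos e]
  have an : ¬ (i ∈ T ∨ k ∈ T) → |h - h'| ≤ aT W T x k + pT T i := fun e => by
    linarith [pT_nn (T := T) i, show aT W T x k = |h - h'| from if_neg fun e' => e (Or.inr e')]
  refine ⟨?_, ?_, ?_, ?_⟩
  · rw [show Tk W x k - Tk (cav T W) x k = sv x k * (tanh h' - tanh h) / 2 by
      simp only [Tk, tt, ← hh, ← hh']; ring, hf, aT]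
    split_ifs
    · linarith [abs_sub (tanh h') (tanh h), abs_tanh_lt_one h, abs_tanh_lt_one h']
    · linarith [tanh_lip h' h, abs_sub_comm h h', abs_nonneg (h - h')]
  · change |t1 h - t1 h'| ≤ _
    rw [aT]
    split_ifs
    · exact abs_le.2 ⟨by linarith [t1_nn h, t1_le h'], by linarith [t1_nn h', t1_le h]⟩
    · simpa [abs_sub_comm] using a3 h (h - h')
  · rw [show al W x i k - al (cav T W) x i k = -(sv x k * (tanh (h - 2 * sv x i * W i k) - tanh h -
      (tanh (h' - 2 * sv x i * cav T W i k) - tanh h')) / 2) by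
        simp only [al, of_apply, tt_fl hW hd, tt_fl (cav_symm hW) hd']
        simp only [tt, ← hh, ← hh']; ring, abs_neg, hf, cav, of_apply]
    split_ifs with e
    · have := tanh_lip (h - 2 * sv x i * W i k) h
      rw [sub_sub_cancel_left, abs_neg, c1] at this
      simp only [mul_zero, sub_zero, sub_self]
      nlinarith [ap e]
    · have := s1 h h' (2 * sv x i * W i k)
      rw [c1] at this
      nlinarith [an e]
  · rw [am_sub hW hd, am_sub (cav_symm hW) hd', ← hh, ← hh', neg_sub_neg, ← sub_div, ← mul_sub, hf,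
      abs_sub_comm, cav, of_apply]
    split_ifs with e
    · have := a2 h (2 * sv x i * W i k)
      rw [c2] at this
      simp only [mul_zero, sub_zero, sub_self, zero_mul, add_zero]
      nlinarith [ap e, sq_nonneg (W i k)]
    · have := s2 h h' (2 * sv x i * W i k)
      rw [c2] at this
      nlinarith [an e, sq_nonneg (W i k)]

lemma cmpA (hW : Wᵀ = W) (hK : opn W ≤ K) (hd : ∀ i, W i i = 0) (x : Cube n) {X : Mx n} {e : ℝ}
    (hX : opn X ≤ e) : nrm (fun i => ∑ k, (Tk W x k + al W x i k -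
      (Tk (cav T W) x k + al (cav T W) x i k)) * X i k) ≤
      (K + 1 + 2 * K * (K + 2)) * e * √T.card := by
  have K0 := (opn_nonneg W).trans hK
  have e0 := (opn_nonneg X).trans hX
  have a1 := nrm_aT (T := T) hK hd x
  have q0 := sqrt_nonneg (T.card : ℝ)
  have h1 := rowsum (M := of fun i k => (al W x i k - al (cav T W) x i k) * X i k) (X := W) (Y := X)
    (a := aT W T x) zero_le_two (pT_nn (T := T)) fun i k => by
      rw [of_apply, abs_mul]
      exact (mul_le_mul_of_nonneg_right (coef hW hd x i k).2.2.1 (abs_nonneg _)).trans_eq (by ring)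
  have h2 := (nrm_mulVec_le X fun k => Tk W x k - Tk (cav T W) x k).trans (mul_le_mul hX
    ((nrm_mono (v := aT W T x) zero_le_one fun k => by
      rw [one_mul, abs_of_nonneg (aT_nn x k)]; exact (coef hW hd x k k).1).trans
      ((one_mul _).trans_le a1)) (nrm_nonneg _) e0)
  have h3 : 2 * (opn W * opn X) * (nrm (aT W T x) + nrm (pT T)) ≤
      2 * (K * e) * ((K + 1) * √T.card + √T.card) := by
    rw [nrm_pT]
    have := nrm_nonneg (aT W T x)
    have := opn_nonneg X
    gcongr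
  refine le_trans (le_of_eq ?_) ((nrm_add_le _ _).trans ((add_le_add h2 (h1.trans h3)).trans_eq
    (by ring)))
  congr 1
  funext i
  simp only [Pi.add_apply, mulVec, dotProduct, of_apply, ← Finset.sum_add_distrib]
  exact Finset.sum_congr rfl fun k _ => by ring

lemma cmpB (hW : Wᵀ = W) (hK : opn W ≤ K) (hd : ∀ i, W i i = 0) (x : Cube n) {u : V n} {e : ℝ}
    (e0 : 0 ≤ e) (hu : ∀ i, |u i| ≤ e) :
    nrm (am W x *ᵥ u - am (cav T W) x *ᵥ u - pT T * (W *ᵥ (cc (cav T W) x * u))) ≤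
      (2 * K * (K + 1) + K + 8 * K ^ 2 * (K + 2)) * e * √T.card := by
  have K0 := (opn_nonneg W).trans hK
  have a1 := nrm_aT (T := T) hK hd x
  have q0 := sqrt_nonneg (T.card : ℝ)
  have h1 := rowsum (M := of fun i k => (am W x i k - W i k * cc W x k - (am (cav T W) x i k -
    cav T W i k * cc (cav T W) x k)) * u k) (X := W) (Y := W) (c := 8 * e)
    (a := aT W T x) (by positivity) (pT_nn (T := T)) fun i k => by
      rw [of_apply, abs_mul, ← sq, sq_abs]
      exact (mul_le_mul (coef hW hd x i k).2.2.2 (hu k) (abs_nonneg _) (mul_nonneg (by positivity)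
        (add_nonneg (aT_nn x k) (pT_nn i)))).trans_eq (by ring)
  have h3 : 8 * e * (opn W * opn W) * (nrm (aT W T x) + nrm (pT T)) ≤
      8 * e * (K * K) * ((K + 1) * √T.card + √T.card) := by
    rw [nrm_pT]
    have := nrm_nonneg (aT W T x)
    have := opn_nonneg W
    gcongr
  have h2 := (nrm_mulVec_le W ((cc W x - cc (cav T W) x) * u)).trans (mul_le_mul hK
    ((nrm_mono (v := aT W T x) (c := 2 * e) (by positivity) fun k => by
      rw [abs_of_nonneg (aT_nn x k), Pi.mul_apply, abs_mul]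
      exact (mul_le_mul (coef hW hd x k k).2.1 (hu k) (abs_nonneg _)
        (mul_nonneg zero_le_two (aT_nn x k))).trans_eq (by ring)).trans
      (mul_le_mul_of_nonneg_left a1 (by positivity))) (nrm_nonneg _) K0)
  have h4 := (nrm_mono (u := (1 - pT T) * (W *ᵥ (pT T * (cc (cav T W) x * u))))
    (v := W *ᵥ (pT T * (cc (cav T W) x * u))) zero_le_one
    fun k => by by_cases hk : k ∈ T <;> simp [pT, hk]).trans ((one_mul _).trans_le
      ((nrm_mulVec_le W _).trans (mul_le_mul hK (nrm_pT_mul (T := T) e0 fun i => by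
        rw [Pi.mul_apply, abs_mul]
        refine (mul_le_of_le_one_left (abs_nonneg _) ?_).trans (hu i)
        exact abs_le.2 ⟨by linarith [show 0 ≤ cc (cav T W) x i from t1_nn _], t1_le _⟩)
        (nrm_nonneg _) K0)))
  refine le_trans (le_of_eq ?_) ((nrm_add_le _ _).trans ((add_le_add ((nrm_add_le _ _).trans
    (add_le_add h2 h4)) (h1.trans h3)).trans_eq (by ring)))
  congr 1
  rw [← sub_eq_iff_eq_add'.2 (cav_mulVec (W := W) (T := T) (cc (cav T W) x * u))]
  funext i
  simp only [Pi.add_apply, Pi.sub_apply, Pi.mul_apply, mulVec, dotProduct, of_apply, sub_mul,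
    mul_sub, Finset.sum_sub_distrib, mul_assoc]
  ring

lemma sq_le5 {v : V n} {a b c d e : ℝ} (h : nrm v ≤ a + b + c + d + e) :
    v ⬝ᵥ v ≤ 5 * (a ^ 2 + b ^ 2 + c ^ 2 + d ^ 2 + e ^ 2) := by
  rw [← nrm_sq]
  refine (pow_le_pow_left₀ (nrm_nonneg _) h 2).trans ?_
  nlinarith [sq_nonneg (a - b), sq_nonneg (a - c), sq_nonneg (a - d), sq_nonneg (a - e),
    sq_nonneg (b - c), sq_nonneg (b - d), sq_nonneg (b - e), sq_nonneg (c - d), sq_nonneg (c - e),
    sq_nonneg (d - e)]

lemma exc_nonneg (η : ℝ) (z : V n) : 0 ≤ exc η z := Finset.sum_nonneg fun _ _ => sq_nonneg _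

/-- the clip error of `b` against the excess of `b'` -/
lemma clip_err {η e : ℝ} (hη : 0 < η) (he : η ≤ e) (b b' : V n) :
    nrm ((fun i => clip e (b i)) - b') ≤ nrm (b - b') + √(exc η b') ∧
    nrm (b - fun i => clip e (b i)) ≤ nrm (b - b') + √(exc η b') := by
  have e0 := hη.trans_le he
  have k : ∀ u : V n, (∀ i, |u i| ≤ |b i - b' i| + max (|b' i| - η) 0) →
      nrm u ≤ nrm (b - b') + √(exc η b') := fun u hu => by
    have h1 := nrm_mono (u := u) (v := (fun i => |(b - b') i|) + fun i => max (|b' i| - η) 0)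
      zero_le_one fun i => by rw [one_mul]; exact (hu i).trans (le_abs_self _)
    have h2 : nrm (fun i => max (|b' i| - η) 0) = √(exc η b') := by
      rw [exc, ← nrm_sq', sqrt_sq (nrm_nonneg _)]
    rw [one_mul] at h1
    refine h1.trans ((nrm_add_le _ _).trans_eq ?_)
    rw [h2, X31.nrm_abs]
  refine ⟨k _ fun i => ?_, k _ fun i => (S3.Rg.abs_sub_clip e0 _).trans (max_le ?_ (by positivity))⟩
  · have h1 := S3.Rg.clip_lip e0 (b' i) (b i)
    have h2 := S3.Rg.abs_sub_clip e0 (b' i)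
    have h3 := abs_sub_le (clip e (b i)) (clip e (b' i)) (b' i)
    rw [abs_sub_comm] at h2
    have h4 : max (|b' i| - e) 0 ≤ max (|b' i| - η) 0 := max_le_max (by linarith) le_rfl
    exact h3.trans (by linarith)
  · linarith [abs_sub_abs_le_abs_sub (b i) (b' i), le_max_left (|b' i| - η) 0]

lemma nice_cav (hW : Nice W K) (T : Finset (Fin n)) : Nice (cav T W) K := by
  refine ⟨cav_symm hW.1, ?_, fun i => le_trans (Finset.sum_le_sum fun k _ => ?_) (hW.2.2 i)⟩
  · have d : opn (diagonal (1 - pT T)) ≤ 1 := opn_diagonal_le zero_le_one fun i => by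
      by_cases hi : i ∈ T <;> simp [pT, hi]
    have e : cav T W = Matrix.diagonal (1 - pT T) * W * Matrix.diagonal (1 - pT T) := by
      ext i j; by_cases hi : i ∈ T <;> by_cases hj : j ∈ T <;> simp [cav, pT, hi, hj]
    simpa [e] using Op34.opn_mul_le' (Op34.opn_mul_le' d hW.2.1) d
  · simp only [cav, of_apply]
    split_ifs
    · rw [zero_pow four_ne_zero]; positivity
    · exact le_rfl

set_option maxHeartbeats 1000000 in
/-- **CL + CP** -/
theorem cp (K : ℝ) : ∃ C ≥ (1 : ℝ), ∀ (n : ℕ) (W : Mx n), 0 < n → Nice W K → (∀ i, W i i = 0) →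
    ∀ (T : Finset (Fin n)) (u0 : V n) (r : ℝ → V n) (Y Z : ℝ → VF n) (τ η s : ℝ)
      (B' B : Cube n → ℝ), 0 < η → 0 ≤ s → (∀ x, 0 ≤ B' x) → (∀ x, 0 ≤ B x) →
    Fl W Y (fun v x => bb W (Y v) x - r v) τ → Fl (cav T W) Z (fun v => bb (cav T W) (Z v)) τ →
    (∀ x, Z 0 x = u0) → (∀ x, (Y 0 x - u0) ⬝ᵥ (Y 0 x - u0) + exc η u0 ≤ s) →
    (∀ v ∈ Icc 0 τ, ∀ x, exc η (bb (cav T W) (Z v) x) ≤ s + B' x) →
    (∀ v ∈ Icc 0 τ, ∀ x, nrm (pT T * (W *ᵥ (cc (cav T W) x * Z v x)) - r v) ^ 2 + B' x +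
      tot (mu (cav T W)) τ B' x ≤ s + B x) →
    ∀ v ∈ Icc 0 τ, ∀ x E, C * exp (C * τ) * (s + η ^ 2 * (T.card + 1) + B x + tot (mu W) τ B x) ≤ E →
      (∀ l, Y v x l ^ 2 ≤ E) ∧ (∀ j, (bb W (Y v) x j - r v j) ^ 2 ≤ E) ∧
      (Y v x - Z v x) ⬝ᵥ (Y v x - Z v x) ≤ E := by
  obtain ⟨Λ, Λ1, hΛ⟩ := cl (jbGlue_45 toolStmt jacStmt coefStmt) K
  obtain ⟨G, G1, hG⟩ := gron K
  obtain ⟨D, D1, hD⟩ := coefStmt K
  obtain ⟨c1, hc1⟩ : ∃ c1, c1 = |K| + 1 + 2 * |K| * (|K| + 2) := ⟨_, rfl⟩
  obtain ⟨c2, hc2⟩ : ∃ c2, c2 = (2 * |K| * (|K| + 1) + |K| + 8 * |K| ^ 2 * (|K| + 2)) * 2 := ⟨_, rfl⟩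
  obtain ⟨M1, hM1⟩ : ∃ M1, M1 = 5 * (c2 ^ 2 + 8 * (K ^ 2 + 4 * D ^ 2) + 5) := ⟨_, rfl⟩
  obtain ⟨M2, hM2⟩ : ∃ M2, M2 = 5 * (M1 + c1 ^ 2) + 2 := ⟨_, rfl⟩
  obtain ⟨L, hL⟩ : ∃ L, L = Λ + G + 10 * D ^ 2 := ⟨_, rfl⟩
  have m1 : 0 ≤ M1 := by rw [hM1]; positivity
  have m2 : 0 ≤ M2 := by rw [hM2]; positivity
  have L0 : 0 ≤ L := by rw [hL]; positivity
  refine ⟨3 * L + 10 * D ^ 2 * M2 + 5 * M1 + 20, by nlinarith [mul_nonneg (sq_nonneg D) m2],
    fun n W hn hW hd T u0 r Y Z τ η s B' B hη hs hB' hB hY hZ hZ0 h0 h1 h2 => ?_⟩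
  intro v hv
  have τ0 := hv.1.trans hv.2
  have K0 := (opn_nonneg W).trans hW.2.1
  rw [abs_of_nonneg K0] at hc1 hc2
  have hW' := nice_cav hW T
  obtain ⟨ω, w0, hω, bω⟩ := hΛ n _ hW' η τ u0 hη τ0
  set W' := cav T W with hW''
  obtain ⟨u, hu⟩ : ∃ u, u = exp (L * τ) := ⟨_, rfl⟩
  have D0 : 0 ≤ D ^ 2 := sq_nonneg D
  have u1 : 1 ≤ u := hu ▸ one_le_exp (by positivity)
  have ue : ∀ c, c ≤ L → exp (c * τ) ≤ u := fun c hc =>
    hu ▸ exp_le_exp.2 (mul_le_mul_of_nonneg_right hc τ0)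
  have e1 : ∀ t ∈ Icc 0 τ, η ≤ η * exp (Λ * t) ∧ η * exp (Λ * t) ≤ η * u := fun t ht =>
    ⟨le_mul_of_one_le_right hη.le (one_le_exp (mul_nonneg (by linarith) ht.1)),
      mul_le_mul_of_nonneg_left ((exp_le_exp.2 (mul_le_mul_of_nonneg_left ht.2
        (by linarith))).trans (ue Λ (by linarith))) hη.le⟩
  have nb : ∀ {A : Mx n}, Nice A K → ∀ x (z : V n), nrm (am A x *ᵥ z) ≤ D * nrm z :=
    fun hA x z => (nrm_mulVec_le _ _).trans
      (mul_le_mul_of_nonneg_right (hD n _ hA x).2.2.2.2.1 (nrm_nonneg _))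
  have t' := tot_nonneg hn (Bas66.mu_pos W') τ0 hB'
  have t0 := tot_nonneg hn (Bas66.mu_pos W) τ0 hB
  have x0 : ∀ x, nrm (ω 0 x - u0) ^ 2 ≤ exc η u0 := fun x => by
    have := (clip_err hη le_rfl u0 u0).1
    rw [sub_self, nrm_zero, zero_add, ← funext (w0 x)] at this
    exact (pow_le_pow_left₀ (nrm_nonneg _) this 2).trans_eq (sq_sqrt (exc_nonneg _ _))
  -- the clipped flow against the cavity flow
  have p1 : ∀ t ∈ Icc 0 τ, ∀ x, nrm (ω t x - Z t x) ^ 2 ≤ 8 * u * (s + B x) := fun t ht x => by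
    have k := hG n W' hn hW' _ _ τ (5 * D ^ 2) (2 * s) (fun z => 2 * B' z) (hω.sub hZ)
      (by positivity) (by positivity) (fun z => by linarith [hB' z]) (fun z => by
        have := x0 z
        rw [nrm_sq] at this
        rw [sq2, Pi.sub_apply, hZ0 z]
        exact this.trans (by linarith [h0 z, dot_self_nonneg (Y 0 z - u0)]))
      (fun t ht z => by
        have ht : t ∈ Icc 0 τ := ⟨ht.1.le, ht.2⟩
        have a := (clip_err hη (e1 t ht).1 (bb W' (ω t) z) (bb W' (Z t) z)).1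
        have b := nb hW' z (ω t z - Z t z)
        rw [mulVec_sub] at b
        have c := pow_le_pow_left₀ (nrm_nonneg _) (a.trans (add_le_add b le_rfl)) 2
        have d := sq_sqrt (exc_nonneg η (bb W' (Z t) z))
        simp only [sub_self, zero_mul, Finset.sum_const_zero, add_zero, sq2, ← nrm_sq]
        refine c.trans ?_
        change _ ≤ 5 * D ^ 2 * nrm (ω t z - Z t z) ^ 2 + _
        linarith [h1 t ht z, sq_nonneg (D * nrm (ω t z - Z t z) - √(exc η (bb W' (Z t) z))),
          sq_nonneg (D * nrm (ω t z - Z t z))]) t ht x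
    rw [tot_const_mul, sq2, ← nrm_sq] at k
    refine k.trans ?_
    have := mul_le_mul (ue (G + 2 * (5 * D ^ 2)) (by linarith)) (show 2 * s + 2 * tot (mu W') τ B' x ≤
      4 * (s + B x) by linarith [h2 t ht x, hB' x, hB x, sq_nonneg (nrm (pT T * (W *ᵥ (cc W' x *
        Z t x)) - r t))]) (by linarith [t' x]) (by linarith)
    linarith
  obtain ⟨E1, hE1⟩ : ∃ E1, E1 = s + η ^ 2 * (T.card + 1) := ⟨_, rfl⟩
  have q2 : √(T.card : ℝ) ^ 2 = T.card := sq_sqrt (Nat.cast_nonneg _)
  have η2 : 0 ≤ η ^ 2 * T.card := by positivity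
  have η3 : 0 ≤ η ^ 2 := sq_nonneg η
  have uu : u ≤ u ^ 2 := le_self_pow₀ u1 two_ne_zero
  -- the main source
  have p2 : ∀ t ∈ Icc 0 τ, ∀ x, nrm (bb W (ω t) x - r t - fun i =>
      clip (η * exp (Λ * t)) (bb W' (ω t) x i)) ^ 2 ≤ M1 * u ^ 2 * (E1 + B x) := fun t ht x => by
    have a := (clip_err hη (e1 t ht).1 (bb W' (ω t) x) (bb W' (Z t) x)).2
    have b := nb hW' x (ω t x - Z t x)
    rw [mulVec_sub] at b
    have c := cmpB (T := T) hW.1 hW.2.1 hd x (u := ω t x) (e := 2 * (η * u)) (by positivity)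
      fun i => ((bω t ht x).1 i).trans (by linarith [(e1 t ht).2])
    have d : nrm (pT T * (W *ᵥ (cc W' x * (ω t x - Z t x)))) ≤ K * nrm (ω t x - Z t x) :=
      (nrm_mono (v := W *ᵥ (cc W' x * (ω t x - Z t x))) zero_le_one fun k => by
        by_cases hk : k ∈ T <;> simp [pT, hk]).trans ((one_mul _).trans_le ((nrm_mulVec_le W _).trans
          (mul_le_mul hW.2.1 ((nrm_mono zero_le_one fun i => by
            rw [Pi.mul_apply, abs_mul]
            exact mul_le_mul_of_nonneg_right (abs_le.2 ⟨by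
              linarith [show 0 ≤ cc W' x i from t1_nn _], t1_le _⟩) (abs_nonneg _)).trans_eq
            (one_mul _)) (nrm_nonneg _) K0)))
    have e := sq_le5 (le_trans (le_of_eq (show nrm (bb W (ω t) x - r t - fun i =>
      clip (η * exp (Λ * t)) (bb W' (ω t) x i)) = _ by
        congr 1; simp only [mul_sub, mulVec_sub, bb]; abel)) ((nrm_add_le _ _).trans (add_le_add
          ((nrm_add_le _ (pT T * (W *ᵥ (cc W' x * Z t x)) - r t)).trans (add_le_add
            ((nrm_add_le _ _).trans (add_le_add c d)) le_rfl)) (a.trans (add_le_add b le_rfl)))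
          |>.trans_eq (add_assoc _ _ _).symm))
    rw [← nrm_sq, sq_sqrt (exc_nonneg _ _)] at e
    refine e.trans ?_
    have f1 := p1 t ht x
    have f2 := h2 t ht x
    have f3 := h1 t ht x
    have sB : 0 ≤ s + B x := by linarith [hB x]
    have g1 : ((2 * K * (K + 1) + K + 8 * K ^ 2 * (K + 2)) * (2 * (η * u)) * √T.card) ^ 2 ≤
        c2 ^ 2 * (u ^ 2 * (E1 + B x)) := by
      rw [show _ * (2 * (η * u)) * √(T.card : ℝ) = c2 * (u * (η * √T.card)) by rw [hc2]; ring]
      simp only [mul_pow, q2]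
      gcongr; linarith
    have g2 : u * (s + B x) ≤ u ^ 2 * (E1 + B x) := by gcongr; linarith
    have g3 : s + B x ≤ u ^ 2 * (E1 + B x) := (le_mul_of_one_le_left sB u1).trans g2
    have g4 := mul_le_mul_of_nonneg_left (f1.trans (show _ ≤ 8 * (u ^ 2 * (E1 + B x)) by linarith))
      (show 0 ≤ K ^ 2 + D ^ 2 by positivity)
    have g5 := mul_nonneg D0 (sB.trans g3)
    rw [hM1]
    linarith [t' x, hB' x, sq_nonneg (nrm (pT T * (W *ᵥ (cc W' x * Z t x)) - r t)), hB x]
  have E0 : 0 ≤ E1 := by rw [hE1]; positivity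
  have u2 : 1 ≤ u ^ 2 := u1.trans uu
  -- the true flow against the clipped flow
  have p3 : ∀ x, nrm (Y v x - ω v x) ^ 2 ≤ 2 * M2 * u ^ 3 * (E1 + tot (mu W) τ B x) := fun x => by
    have k := hG n W hn hW _ _ τ (5 * D ^ 2) (M2 * u ^ 2 * E1) (fun z => M2 * u ^ 2 * B z)
      (hY.sub hω) (by positivity) (by positivity) (fun z => by have := hB z; positivity) (fun z => by
        have a := nrm_sub_le (Y 0 z - u0) (ω 0 z - u0)
        rw [sub_sub_sub_cancel_right] at a
        have b := pow_le_pow_left₀ (nrm_nonneg _) a 2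
        have c := h0 z
        rw [sq2, ← nrm_sq] at *
        have d : 2 * 1 * s ≤ M2 * u ^ 2 * E1 := by
          gcongr
          · linarith [sq_nonneg c1]
          · linarith
        refine b.trans ?_
        linarith [x0 z, sq_nonneg (nrm (Y 0 z - u0) - nrm (ω 0 z - u0))])
      (fun t ht z => by
        have ht : t ∈ Icc 0 τ := ⟨ht.1.le, ht.2⟩
        have a := cmpA (T := T) hW.1 hW.2.1 hd z ((bω t ht z).2.trans (e1 t ht).2)
        have b := nb hW z (Y t z - ω t z)
        have c := p2 t ht z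
        refine (sq_le5 (d := 0) (e := 0) (le_trans (le_of_eq ?_) (((nrm_add_le _ _).trans (add_le_add
          ((nrm_add_le _ (bb W (ω t) z - r t - fun i => clip (η * exp (Λ * t))
            (bb W' (ω t) z i))).trans (add_le_add b le_rfl)) a)).trans_eq
              (by rw [add_zero, add_zero])))).trans ?_
        · congr 1; funext i; simp only [mulVec_sub, bb, Pi.add_apply, Pi.sub_apply]; ring
        · have g1 : (c1 * (η * u) * √T.card) ^ 2 ≤ c1 ^ 2 * (u ^ 2 * (E1 + B z)) := by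
            rw [show c1 * (η * u) * √(T.card : ℝ) = c1 * (u * (η * √T.card)) by ring]
            simp only [mul_pow, q2]
            gcongr; linarith [hB z]
          rw [← hc1, sq2, ← nrm_sq, hM2]
          change _ ≤ 5 * D ^ 2 * nrm (Y t z - ω t z) ^ 2 + _
          linarith [mul_nonneg (zero_le_one.trans u2) (add_nonneg E0 (hB z))]) v hv x
    rw [tot_const_mul, sq2, ← nrm_sq, ← mul_add] at k
    refine k.trans ?_
    have := mul_le_mul_of_nonneg_right (ue (G + 2 * (5 * D ^ 2)) (by linarith))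
      (show 0 ≤ M2 * u ^ 2 * (E1 + tot (mu W) τ B x) by have := t0 x; positivity)
    linarith
  intro x E hE
  obtain ⟨X, hX⟩ : ∃ X, X = u ^ 3 * (E1 + B x + tot (mu W) τ B x) := ⟨_, rfl⟩
  have u3 : u ^ 2 ≤ u ^ 3 := pow_le_pow_right₀ u1 (by norm_num)
  have tx := t0 x
  have Bx := hB x
  have X0 : 0 ≤ X := by rw [hX]; positivity
  have hE : (10 * D ^ 2 * M2 + 5 * M1 + 20) * X ≤ E := by
    refine le_trans ?_ hE
    rw [hX, ← mul_assoc, ← hE1]
    refine mul_le_mul_of_nonneg_right (mul_le_mul (by linarith) ?_ (by positivity)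
      (by positivity)) (by positivity)
    rw [hu, ← exp_nat_mul, ← mul_assoc]
    exact exp_le_exp.2 (mul_le_mul_of_nonneg_right (by
      push_cast; linarith [mul_nonneg D0 m2]) τ0)
  have f1 : nrm (ω v x - Z v x) ^ 2 ≤ 8 * X := (p1 v hv x).trans (by
    rw [mul_assoc, hX]
    exact mul_le_mul_of_nonneg_left (mul_le_mul (uu.trans u3) (by linarith) (by linarith)
      (by positivity)) (by norm_num))
  have f2 : _ ≤ M1 * X := (p2 v hv x).trans (by
    rw [mul_assoc, hX]
    exact mul_le_mul_of_nonneg_left (mul_le_mul u3 (by linarith) (by linarith) (by positivity)) m1)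
  have f3 : nrm (Y v x - ω v x) ^ 2 ≤ 2 * M2 * X := (p3 x).trans (by
    rw [mul_assoc (2 * M2), hX]; gcongr; linarith)
  have f4 : (η * u) ^ 2 ≤ X := by rw [mul_pow, mul_comm, hX]; gcongr; linarith
  have D2 : 1 ≤ D ^ 2 := one_le_pow₀ D1
  have f5 : M2 * X ≤ D ^ 2 * M2 * X := by
    rw [mul_assoc]; exact le_mul_of_one_le_left (by positivity) D2
  have f6 := mul_nonneg m1 X0
  have f7 := mul_nonneg m2 X0
  have en : ∀ (z : V n) i, |z i| ≤ nrm z := fun z i => by
    simpa [nrm_single] using abs_dot_le (Pi.single i 1) z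
  refine ⟨fun l => ?_, fun j => ?_, ?_⟩
  · have a : |Y v x l| ≤ nrm (Y v x - ω v x) + 2 * (η * u) := by
      linarith [(bω v hv x).1 l, (e1 v hv).2, (abs_sub_abs_le_abs_sub (Y v x l)
        (ω v x l)).trans (en (Y v x - ω v x) l)]
    rw [← sq_abs]
    refine (pow_le_pow_left₀ (abs_nonneg _) a 2).trans ?_
    linarith [sq_nonneg (nrm (Y v x - ω v x) - 2 * (η * u))]
  · have a := (en _ j).trans (nb hW x (Y v x - ω v x))
    have b := en (bb W (ω v) x - r v - fun i => clip (η * exp (Λ * v)) (bb W' (ω v) x i)) j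
    have c := (S3.Rg.abs_clip_le (hη.trans_le (e1 v hv).1) (bb W' (ω v) x j)).trans
      (mul_le_mul_of_nonneg_left (e1 v hv).2 zero_le_two)
    set N := nrm (bb W (ω v) x - r v - fun i => clip (η * exp (Λ * v)) (bb W' (ω v) x i))
    have d : |bb W (Y v) x j - r v j| ≤ D * nrm (Y v x - ω v x) + N + 2 * (η * u) :=
      le_trans (le_of_eq (by congr 1; simp only [mulVec_sub, bb, Pi.sub_apply]; ring))
        ((abs_add_three _ _ _).trans (add_le_add_three a b c))
    rw [← sq_abs]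
    refine (pow_le_pow_left₀ (abs_nonneg _) d 2).trans ?_
    linarith [sq_nonneg (D * nrm (Y v x - ω v x) - N), sq_nonneg (N - 2 * (η * u)),
      sq_nonneg (D * nrm (Y v x - ω v x) - 2 * (η * u)), mul_le_mul_of_nonneg_left f3 D0]
  · have a := nrm_add_le (Y v x - ω v x) (ω v x - Z v x)
    rw [sub_add_sub_cancel] at a
    rw [← nrm_sq]
    refine (pow_le_pow_left₀ (nrm_nonneg _) a 2).trans ?_
    linarith [sq_nonneg (nrm (Y v x - ω v x) - nrm (ω v x - Z v x))]

end Crest.Agent.T157.S6c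

end
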