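import Crest.Agent.T157.S6Def_93

/-!
# Row 157, block S6 (helper93): the two halves of the end step
-/

set_option autoImplicit false

noncomputable section

namespace Crest.Agent.T157.S6a

open Matrix Real Filter Finset
open Crest.Agent.T157.E
open Crest.Agent.T157.Tap (V Mx)
open Crest.Agent.T157.Chain22 (sg)
open Crest.Agent.T157.Reg (VF mu)
open Crest.Agent.T157.Rv (Warm II)
open Crest.Agent.T157.S6h (FrV dv)

variable {n : ℕ}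

/-- the number of markers -/
def cnt (ω : VF n) (x : Cube n) : ℝ := ∑ k, if ω x k = 0 then 0 else 1

/-- **(End A)** the diagonal part and the return -/
def EaStmt : Prop := ∀ (n : ℕ) (W : Mx n), Ok W 1 1 →
  ∀ (ρ : ℝ → ℝ) (θ θ' k t σ B : ℝ) (g : Cube n → ℝ) (ω : VF n), Dec W θ θ' (k ^ 3) → Continuous ρ →
  (∀ v ∈ Set.Icc 0 t, 0 ≤ ρ v) → ∫ v in (0 : ℝ)..t, ρ v * exp (σ * v) ≤ B → 0 < k → σ < θ →
  (∀ x, 0 < g x) → mean (mu W) g = 1 → FrV ω → ∀ s ∈ Set.Icc 0 t,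
  ev W g (dv W (alf W ω s)) + (∫ u in (0 : ℝ)..s, ∫ v in (0 : ℝ)..(s - u),
      ev W g (sg (mu W) (s - u - v) (dv W (Ret W ρ (alf W ω u) v)))) ≤
    2 / 3 * gn θ σ k B s * ev W (sg (mu W) s g) (fun x => ∑ j, |ω x j| ^ (3 / 2 : ℝ)) +
      1 / 3 * (exp (-((θ + 2 * σ) * s)) * X3 W g + ∫ u in (0 : ℝ)..s, ∫ v in (0 : ℝ)..(s - u),
        k ^ 2 * ρ v * exp (-(θ * u) - 2 * σ * (u + v)) * X3 W (sg (mu W) (s - u - v) g))

/-- **(End B)** the bulk and the error -/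
def EbStmt : Prop := ∃ C ≥ (1 : ℝ), ∀ (n : ℕ) (W : Mx n), Ok W 1 1 →
  ∀ (ρ : ℝ → ℝ) (θ θ' K t m a Ko ε Λ p σ B D : ℝ) (g : Cube n → ℝ) (ω : VF n), Dec W θ θ' K →
  Facts W ρ t m a Ko ε Λ p σ B → Warm (mu W) D g → FrV ω → (∀ x k, |ω x k| ≤ 4) → 0 < m → 0 ≤ a →
  2 * a ≤ θ' → 0 ≤ Ko → 0 < ε → ε ≤ 1 → 1 ≤ Λ → 0 ≤ p → ∀ s ∈ Set.Icc 0 t, ∀ l > (0 : ℝ),
  ∀ l' > (0 : ℝ), (∫ u in (0 : ℝ)..s, (ev W g (dv W (Phi W ρ (alf W ω u) (s - u))) -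
      ∫ v in (0 : ℝ)..(s - u), ev W g (sg (mu W) (s - u - v) (dv W (Err W ρ (alf W ω u) v))))) ≤
    (l + l') * ev W g (fun x => dd W g x ⬝ᵥ dd W g x) +
      C * (s + 1) ^ 2 * (Ko ^ 2 * exp (-(2 * a * s)) + ε ^ 2) / l *
        ev W (sg (mu W) s g) (fun x => ω x ⬝ᵥ ω x) +
      C * exp (C * s) * ε ^ 2 / l' * ev W (sg (mu W) s g) (cnt ω) +
      C * Λ ^ 7 * exp (C * s) / (ε ^ 6 * √m) *
        ev W g (fun x => √(dd W g x ⬝ᵥ dd W g x) * sg (mu W) s (cnt ω) x) +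
      C * Λ * exp (C * s) * (n ^ 2 * (exp D * p) ^ (2 / 3 : ℝ))

def EaGlue : Prop := RedStmt → DuStmt → ContStmt → EaStmt
def EbGlue : Prop := RedStmt → PStmt → EqStmt → DuStmt → ContStmt → ErrStmt → EbStmt
def StepGlue : Prop := RedStmt → FStmt → DuStmt → ContStmt → EaStmt → EbStmt → StepStmt

theorem endGlue_of (a : EaGlue) (b : EbGlue) (c : StepGlue) : EndGlue :=
  fun h1 h2 h3 h4 h5 h6 h7 => c h1 h2 h5 h6 (a h1 h5 h6) (b h1 h3 h4 h5 h6 h7)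

end Crest.Agent.T157.S6a

end
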