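import Crest.Agent.T157.S6Er_85
import Crest.Agent.T157.S6Fl_47
import Crest.Agent.T157.S6PL_20

/-!
# Row 157, block S6 (helper85): Duhamel representation of `e^{s LL} ω` by the ansatz
-/

set_option autoImplicit false

noncomputable section

namespace Crest.Agent.T157.S6x

open Matrix Real Finset
open Crest.Agent.T157.E hiding mean
open Crest.Agent.T157.Tap (V Mx)
open Crest.Agent.T157.Eig (opn)
open Crest.Agent.T157.Rec (grad fl)
open Crest.Agent.T157.Chain22 (sg)
open Crest.Agent.T157.Reg (VF mu Tk am)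
open Crest.Agent.T157.S6h Crest.Agent.T157.S6b

variable {n : ℕ} {W : Mx n} {K : ℝ}

/-- the solution of `∂ R = LL R + g`, `R 0 = 0` -/
def du (W : Mx n) (g : ℝ → VF n) (v : ℝ) : VF n := ∫ r in (0 : ℝ)..v, eL W (v - r) (g r)

theorem du_zero (W : Mx n) (g : ℝ → VF n) : du W g 0 = 0 := intervalIntegral.integral_same

theorem du_eq (W : Mx n) {g : ℝ → VF n} (hg : Continuous g) (v : ℝ) :
    du W g v = eL W v (∫ r in (0 : ℝ)..v, eL W (-r) (g r)) := by
  simp only [eL_integral W v ((cont_eL W continuous_neg hg).intervalIntegrable _ _), ← eL_add, du,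
    sub_eq_add_neg]

theorem du_add (W : Mx n) {g g' : ℝ → VF n} (hg : Continuous g) (hg' : Continuous g') (v : ℝ) :
    du W (fun r => g r + g' r) v = du W g v + du W g' v := by
  simp only [du, eL_add']
  exact intervalIntegral.integral_add
    ((cont_eL W (continuous_const.sub continuous_id) hg).intervalIntegrable _ _)
    ((cont_eL W (continuous_const.sub continuous_id) hg').intervalIntegrable _ _)

theorem du_sub (W : Mx n) {g g' : ℝ → VF n} (hg : Continuous g) (hg' : Continuous g') (v : ℝ) :
    du W (fun r => g r - g' r) v = du W g v - du W g' v := by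
  simp only [du, eL_sub]
  exact intervalIntegral.integral_sub
    ((cont_eL W (continuous_const.sub continuous_id) hg).intervalIntegrable _ _)
    ((cont_eL W (continuous_const.sub continuous_id) hg').intervalIntegrable _ _)

theorem integral_ev {U : ℝ → VF n} (hU : Continuous U) (a b : ℝ) (x : Cube n) (k : Fin n) :
    (∫ r in a..b, U r) x k = ∫ r in a..b, U r x k :=
  (((ContinuousLinearMap.proj k).comp (ContinuousLinearMap.proj (R := ℝ)
    (φ := fun _ : Cube n => V n) x)).intervalIntegral_comp_comm (hU.intervalIntegrable a b)).symm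

theorem frV_integral {U : ℝ → VF n} (hU : Continuous U) (hF : ∀ r, FrV (U r)) (a b : ℝ) :
    FrV (∫ r in a..b, U r) := fun k x => by
  simp only [cp, integral_ev hU]
  exact congrArg (intervalIntegral · a b _) (funext fun r => hF r k x)

theorem frV_du (hW : Wᵀ = W) {g : ℝ → VF n} (hg : Continuous g) (hF : ∀ r, FrV (g r)) (v : ℝ) :
    FrV (du W g v) :=
  frV_integral (cont_eL W (continuous_const.sub continuous_id) hg) (fun r => (hF r).eL hW _) _ _

theorem hasDerivAt_du (hW : Wᵀ = W) {g : ℝ → VF n} (hg : Continuous g) (hF : ∀ r, FrV (g r))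
    (v : ℝ) : HasDerivAt (du W g) (LL W (du W g v) + g v) v := by
  have c := cont_eL W continuous_neg hg
  have := (hasDerivAt_fw (LA W) v).clm_apply (intervalIntegral.integral_hasDerivAt_right
    (c.intervalIntegrable 0 v) (c.stronglyMeasurableAtFilter _ _) c.continuousAt)
  rw [← LA_eq W (frV_du hW hg hF v), funext (du_eq W hg)]
  refine this.congr_deriv ?_
  congr 1
  exact (eL_add W v (-v) (g v)).symm.trans (by rw [add_neg_cancel, eL_zero])

/-- joint continuity of a family of Duhamel terms -/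
theorem cont_du (W : Mx n) {Y : Type*} [TopologicalSpace Y] {g : Y → ℝ → VF n} {t : Y → ℝ}
    (hg : Continuous fun p : Y × ℝ => g p.1 p.2) (ht : Continuous t) :
    Continuous fun y => du W (g y) (t y) :=
  intervalIntegral.continuous_parametric_intervalIntegral_of_continuous
    (f := fun y r => eL W (t y - r) (g y r))
    (cont_eL W ((ht.comp continuous_fst).sub continuous_snd) hg) ht

theorem du_P32 (hn : 0 < n) (hW : Wᵀ = W) (hK : opn W ≤ K) {g : ℝ → VF n} (hg : Continuous g)
    (hF : ∀ r, FrV (g r)) {v : ℝ} (hv : 0 ≤ v) (x : Cube n) :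
    (du W g v x ⬝ᵥ du W g v x) ^ (3 / 4 : ℝ) ≤
      duh (mu W) (cP K) (fun r z => (g r z ⬝ᵥ g r z) ^ (3 / 4 : ℝ)) v x := by
  have := P32_LL hn hW hK (frV_du hW hg hF) (fun s x k => hasDerivAt_ev (hasDerivAt_du hW hg hF s) x k)
    (fun x k => by fun_prop) hv x
  simpa [du_zero, Rec.sg_const hn (Reg.Bas66.mu_pos W)] using this

theorem du_P2 (hn : 0 < n) (hW : Wᵀ = W) (hK : opn W ≤ K) {g : ℝ → VF n} (hg : Continuous g)
    (hF : ∀ r, FrV (g r)) {v : ℝ} (hv : 0 ≤ v) (x : Cube n) :
    du W g v x ⬝ᵥ du W g v x ≤ duh (mu W) (cP2 K) (fun r z => g r z ⬝ᵥ g r z) v x := by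
  have := P2_LL hn hW hK (frV_du hW hg hF) (fun s x k => hasDerivAt_ev (hasDerivAt_du hW hg hF s) x k)
    (fun x k => by fun_prop) hv x
  simpa [du_zero, Rec.sg_const hn (Reg.Bas66.mu_pos W)] using this

/-- pairing a Duhamel term with a density on the way -/
theorem ip_du (hn : 0 < n) (hW : Wᵀ = W) {g : ℝ → VF n} (hg : Continuous g) (hF : ∀ r, FrV (g r))
    (f : Cube n → ℝ) (t v : ℝ) : Chain22.ip (prob (mu W)) (sg (mu W) t f) (dv W (du W g v)) =
      ∫ r in (0 : ℝ)..v, Chain22.ip (prob (mu W)) (sg (mu W) (t + (v - r)) f) (dv W (g r)) := by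
  have c : Continuous fun r => eL W (v - r) (g r) :=
    cont_eL W (continuous_const.sub continuous_id) hg
  have e : ∀ r, Chain22.ip (prob (mu W)) (sg (mu W) (t + (v - r)) f) (dv W (g r)) = ∑ x, ∑ k,
      prob (mu W) x * (sg (mu W) t f x * (sv x k - Da.Gr.tt W 0 x k)) * eL W (v - r) (g r) x k :=
    fun r => by
      rw [ip_dv hn hW (hF r) f _ (v - r), add_sub_cancel_right]
      simp only [Chain22.ip, dv, mul_sum, mul_assoc]
  have i : ∀ x k (a : ℝ), Continuous fun r => a * eL W (v - r) (g r) x k := fun x k a =>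
    continuous_const.mul ((continuous_apply k).comp ((continuous_apply x).comp c))
  simp only [e]
  rw [intervalIntegral.integral_finsetSum fun x _ =>
    (continuous_finsetSum _ fun k _ => i x k _).intervalIntegrable _ _]
  simp only [Chain22.ip, dv, mul_sum]
  refine sum_congr rfl fun x _ => ?_
  rw [intervalIntegral.integral_finsetSum fun k _ => (i x k _).intervalIntegrable _ _]
  refine sum_congr rfl fun k _ => ?_
  rw [intervalIntegral.integral_const_mul, du, integral_ev c]
  simp only [mul_assoc]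

theorem frV_hop (W : Mx n) (U : VF n) : FrV (hop W U) := fun k x => by
  simp only [cp, hop]
  exact sum_congr rfl fun i _ => by rw [am_fl, fr_Ec]

theorem cont_Ec {Y : Type*} [TopologicalSpace Y] {F : Y → Cube n → ℝ}
    (hF : ∀ x, Continuous fun y => F y x) (k j : Fin n) (x : Cube n) :
    Continuous fun y => Ec W k j (F y) x :=
  (hF x).add (continuous_const.mul ((hF _).sub (hF _)))

theorem cont_hop {Y : Type*} [TopologicalSpace Y] {U : Y → VF n} (hU : Continuous U) :
    Continuous fun y => hop W (U y) :=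
  continuous_pi fun _ => continuous_pi fun _ => continuous_finsetSum _ fun i _ =>
    continuous_const.mul (cont_Ec (fun z => (continuous_apply i).comp ((continuous_apply z).comp hU)) _ _ _)

theorem cont_pr {Y : Type*} [TopologicalSpace Y] (k : Fin n) {y ω : Y → VF n} (hy : Continuous y)
    (hω : Continuous ω) : Continuous fun p => pr k (y p) (ω p) :=
  continuous_pi fun x => continuous_pi fun j => by
    unfold pr; split_ifs <;> fun_prop

theorem cont_er {Y : Type*} [TopologicalSpace Y] (k : Fin n) {y ω : Y → VF n} (hy : Continuous y)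
    (hω : Continuous ω) : Continuous fun p => er W k (y p) (ω p) :=
  continuous_pi fun x => continuous_pi fun j => by
    unfold er Ec dl cp; split_ifs <;> fun_prop

theorem frV_pr {k : Fin n} {y ω : VF n} (hy : ∀ j, j ≠ k → Fr j (cp y j)) (hω : FrV ω) :
    FrV (pr k y ω) := fun j x => by
  by_cases h : j = k
  · simp only [cp, pr, if_pos h]
  · simp only [cp, pr, if_neg h]
    exact congrArg₂ _ (hy j h x) (hω j x)

theorem frV_er (hW : Wᵀ = W) {k : Fin n} {y ω : VF n} (hy : ∀ j, j ≠ k → Fr j (cp y j))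
    (hω : FrV ω) : FrV (er W k y ω) := fun j x => by
  have a := er_eq (W := W) k y ω x j
  have b := er_eq (W := W) k y ω (fl x j) j
  have c : LL W (pr k y ω) (fl x j) j = LL W (pr k y ω) x j := (frV_pr hy hω).LL hW j x
  by_cases h : j = k
  · simp only [if_pos h] at a b
    simp only [cp]; linarith
  · simp only [if_neg h] at a b
    rw [(hy j h).Lc hW x, show ω (fl x j) j = ω x j from hω j x, show y (fl x j) j = y x j from hy j h x,
      show LL W ω (fl x j) j = LL W ω x j from hω.LL hW j x] at b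
    simp only [cp]; linarith

theorem FrV.sum {ι : Type*} (S : Finset ι) {U : ι → VF n} (h : ∀ i ∈ S, FrV (U i)) :
    FrV (∑ i ∈ S, U i) := fun k x => by
  simp only [cp, Finset.sum_apply]
  exact sum_congr rfl fun i hi => h i hi k x

/-- the markers -/
theorem eL_al {al : ℝ → VF n} (hF : ∀ s, FrV (al s))
    (hal : ∀ s x k, HasDerivAt (fun r => al r x k) (Lc W k (cp (al s) k) x - al s x k) s)
    {s : ℝ} (hs : 0 ≤ s) : eL W s (al 0) = al s + du W (fun u => hop W (al u)) s := by
  have c : Continuous al := continuous_pi fun x => continuous_pi fun k =>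
    continuous_iff_continuousAt.2 fun s => (hal s x k).continuousAt
  have := eL_duhamel (W := W) (e := fun u => -hop W (al u)) hs c.continuousOn
    (cont_hop c).neg.continuousOn (fun s _ => hF s) fun s _ => hasDerivAt_of_ev fun x k =>
      (hal s x k).congr_deriv (add_neg_cancel_right _ _).symm
  have e : ∀ t (U : VF n), eL W t (-U) = -eL W t U := fun t U => map_neg (fw (LA W) t) U
  simp only [e, intervalIntegral.integral_neg, sub_zero] at this
  rw [this, du]; abel

/-- one launch -/
theorem eL_pr {y ω : Fin n → ℝ → VF n} (cy : ∀ k, Continuous (y k)) (cω : ∀ k, Continuous (ω k))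
    (fy : ∀ k v j, j ≠ k → Fr j (cp (y k v) j)) (fω : ∀ k v, FrV (ω k v))
    (hy : ∀ k v x j, j ≠ k → HasDerivAt (fun s => y k s x j) (Lc W j (cp (y k v) j) x) v)
    (hω : ∀ k v x j, j ≠ k → HasDerivAt (fun s => ω k s x j) (LL W (ω k v) x j) v)
    {v : ℝ} (hv : 0 ≤ v) : eL W v (∑ k, pr k (y k 0) (ω k 0)) =
      ∑ k, pr k (y k v) (ω k v) - du W (fun r => ∑ k, er W k (y k r) (ω k r)) v := by
  have := eL_duhamel (W := W) (U := fun r => ∑ k, pr k (y k r) (ω k r))
    (e := fun r => ∑ k, er W k (y k r) (ω k r)) hv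
    (continuous_finsetSum _ fun k _ => cont_pr k (cy k) (cω k)).continuousOn
    (continuous_finsetSum _ fun k _ => cont_er k (cy k) (cω k)).continuousOn
    (fun s _ => FrV.sum _ fun k _ => frV_pr (fy k s) (fω k s)) fun s _ => by
      rw [LL_sum, ← sum_add_distrib]
      exact HasDerivAt.fun_sum fun k _ => hasDerivAt_pr k (hy k s) (hω k s)
  rw [sub_zero] at this
  rw [this, du]; abel

/-- **the representation** -/
theorem eL_rep {al : ℝ → VF n} (hF : ∀ s, FrV (al s))
    (hal : ∀ s x k, HasDerivAt (fun r => al r x k) (Lc W k (cp (al s) k) x - al s x k) s)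
    {y : ℝ → Fin n → ℝ → VF n} {ω : Fin n → ℝ → VF n} (cy : ∀ u k, Continuous (y u k))
    (cω : ∀ k, Continuous (ω k)) (fy : ∀ u k v j, j ≠ k → Fr j (cp (y u k v) j))
    (fω : ∀ k v, FrV (ω k v))
    (hy : ∀ u k v x j, j ≠ k → HasDerivAt (fun s => y u k s x j) (Lc W j (cp (y u k v) j) x) v)
    (hω : ∀ k v x j, j ≠ k → HasDerivAt (fun s => ω k s x j) (LL W (ω k v) x j) v)
    (h0 : ∀ u k x j, j ≠ k → y u k 0 x j * ω k 0 x j = am W x j k * Ec W k j (cp (al u) k) x)
    {s : ℝ} (hs : 0 ≤ s) : eL W s (al 0) = al s + ∫ u in (0 : ℝ)..s,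
      (∑ k, pr k (y u k (s - u)) (ω k (s - u)) -
        du W (fun r => ∑ k, er W k (y u k r) (ω k r)) (s - u)) := by
  rw [eL_al hF hal hs, du]
  congr 1
  refine intervalIntegral.integral_congr fun u hu => ?_
  rw [Set.uIcc_of_le hs] at hu
  rw [← eL_pr (cy u) cω (fy u) fω (hy u) hω (sub_nonneg.2 hu.2), sum_pr (al u) (h0 u)]

end Crest.Agent.T157.S6x

end
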