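import Crest.Agent.T157.EigN_84

/-!
# Row 157, block S6 (helper83): the algebra of the error bound (arrays at one point)
-/

set_option autoImplicit false
set_option linter.unusedSectionVars false

noncomputable section

namespace Crest.Agent.T157.S6e

open Matrix Real Finset
open Crest.Agent.T157.Eig

variable {ι : Type*} [Fintype ι] [DecidableEq ι]

lemma nrm_le_sq {v : ι → ℝ} {c : ℝ} (hc : 0 ≤ c) (h : ∑ j, v j ^ 2 ≤ c ^ 2) : nrm v ≤ c :=
  (nrm_le_iff hc).2 (by simpa only [dotProduct, sq] using h)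

/-- Cauchy–Schwarz in every coordinate -/
lemma nrm_cs {P : Type*} [Fintype P] (f g : ι → P → ℝ) {B D : ℝ} (hB : 0 ≤ B) (hD : 0 ≤ D)
    (hf : ∀ j, ∑ p, f j p ^ 2 ≤ B ^ 2) (hg : ∑ j, ∑ p, g j p ^ 2 ≤ D ^ 2) :
    nrm (fun j => ∑ p, f j p * g j p) ≤ B * D := by
  refine nrm_le_sq (mul_nonneg hB hD) ?_
  calc ∑ j, (∑ p, f j p * g j p) ^ 2 ≤ ∑ j, B ^ 2 * ∑ p, g j p ^ 2 :=
        sum_le_sum fun j _ => (sum_mul_sq_le_sq_mul_sq _ _ _).trans
          (mul_le_mul_of_nonneg_right (hf j) (sum_nonneg fun _ _ => sq_nonneg _))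
    _ = B ^ 2 * ∑ j, ∑ p, g j p ^ 2 := (mul_sum _ _ _).symm
    _ ≤ B ^ 2 * D ^ 2 := mul_le_mul_of_nonneg_left hg (sq_nonneg _)
    _ = _ := by ring

lemma col_le {P : Type*} [Fintype P] [DecidableEq P] (X : Matrix P ι ℝ) {M : ℝ} (h : opn X ≤ M)
    (j : ι) : ∑ p, X p j ^ 2 ≤ M ^ 2 := by
  have h1 := nrm_mulVec_le X (Pi.single j 1)
  rw [nrm_single, mul_one, mulVec_single_one] at h1
  have h2 := (nrm_le_iff ((opn_nonneg X).trans h)).1 (h1.trans h)
  simpa only [dotProduct, sq, col_apply] using h2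

/-- coefficients at one point -/
structure Co (J a q : Matrix ι ι ℝ) (r s : ι → ℝ) (K c : ℝ) : Prop where
  K0 : 0 ≤ K
  c0 : 0 ≤ c
  sym : ∀ i j, J i j = J j i
  row : ∀ j, ∑ i, J j i ^ 2 ≤ K ^ 2
  ha : ∀ j i, |a j i| ≤ |J j i|
  a0 : ∀ j, a j j = 0
  r0 : ∀ i, 0 ≤ r i
  q1 : ∀ j i, |q j i| ≤ 1
  hq : ∀ j i, |q j i - r i| ≤ c * |J j i| * r i
  hs : ∀ i, |s i| = 1

/-- the marker scalars at one point -/
structure Mk (ι : Type*) where
  ka : ι → ℝ
  dk : ι → ι → ℝ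
  z : ι → ι → ℝ
  dz : ι → ι → ι → ℝ

variable {J a q : Matrix ι ι ℝ} {r s : ι → ℝ} {K c : ℝ}

/-- the summand of the error -/
def ep (a q w : Matrix ι ι ℝ) (s : ι → ℝ) (X : Matrix (ι × ι) ι ℝ) (m : Mk ι) (j k i : ι) : ℝ :=
  (if j = k then 0 else -(q j i * (m.dk k i + m.dz k j i) * (-2 * s i * X (k, i) j)) +
      (m.ka k + m.z k j) * (a j i * (w i k + q i j * (-2 * s j * X (k, i) j)))) -
    if i = k then 0 else a j i * ((m.ka k + m.z k i) * w i k + q i j *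
      ((m.ka k + m.z k i + (m.dk k j + m.dz k i j)) * (w i k + -2 * s j * X (k, i) j) -
        (m.ka k + m.z k i) * w i k))

/-- indicator -/
def δ (i k : ι) : ℝ := if i = k then 1 else 0

def gA (q : Matrix ι ι ℝ) (r : ι → ℝ) (m : Mk ι) (j k i : ι) : ℝ :=
  (q j i - r i) * m.dk k i + q j i * m.dz k j i - δ j k * (q j i * m.dk k i)

def gB (q : Matrix ι ι ℝ) (m : Mk ι) (j k i : ι) : ℝ :=
  q i j * m.z k i - q i j * m.z k j + q i j * m.dk k j + q i j * m.dz k i j -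
    δ i k * (q i j * m.ka k) - δ i k * (q i j * m.dk k j) + δ j k * (q i j * m.ka k)

def gX (a q : Matrix ι ι ℝ) (r s : ι → ℝ) (m : Mk ι) (j k i : ι) : ℝ :=
  2 * (s i * gA q r m j k i) + 2 * (s j * (a j i * gB q m j k i))

def gW (q : Matrix ι ι ℝ) (r : ι → ℝ) (m : Mk ι) (j k i : ι) : ℝ :=
  -((q i j - r j) * m.dk k j) - q i j * m.dz k i j + δ i k * (q i j * m.dk k j)

def gG (r : ι → ℝ) (m : Mk ι) (j k : ι) : ℝ := m.z k j - δ j k * m.ka k - r j * m.dk k j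

/-- the common majorant -/
def mj (J : Matrix ι ι ℝ) (r : ι → ℝ) (m : Mk ι) (j k i : ι) : ℝ :=
  |J j i| * |r i * m.dk k i| + |J j i| * |r j * m.dk k j| + |J j i| * |m.z k i| +
    |J j i| * |m.z k j| + |r i * m.dz k j i| + |r j * m.dz k i j| + δ i k * (|J j i| * |m.ka k|) +
    δ i k * |r j * m.dk k j| + δ j k * |r i * m.dk k i| + δ j k * (|J j i| * |m.ka k|)

lemma ep_eq (a0 : ∀ j, a j j = 0) (w : Matrix ι ι ℝ) {X : Matrix (ι × ι) ι ℝ}
    (X0 : ∀ k i, X (k, i) i = 0) {m : Mk ι} (z0 : ∀ k, m.z k k = 0) (dz0 : ∀ k i, m.dz k k i = 0)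
    (j k i : ι) : ep a q w s X m j k i = 2 * (X (k, i) j * (s i * (r i * m.dk k i))) +
      δ i k * (a j k * (m.ka k * w k k)) - a j i * (w i k * m.z k i) + X (k, i) j * gX a q r s m j k i +
      a j i * w i k * gW q r m j k i + a j i * w i k * gG r m j k := by
  unfold ep gX gA gB gW gG δ
  by_cases h1 : j = k <;> by_cases h2 : i = k
  · subst h1; subst h2; simp [a0, X0]
  · subst h1; simp only [if_true, if_neg h2, z0, dz0]; ring
  · subst h2; simp only [if_true, if_neg h1, z0, dz0]; ring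
  · simp only [if_neg h1, if_neg h2]; ring

lemma δ_nn (i k : ι) : 0 ≤ δ i k := by unfold δ; split_ifs <;> norm_num
lemma δ_le (i k : ι) : δ i k ≤ 1 := by unfold δ; split_ifs <;> norm_num
lemma δ_sq (i k : ι) (t : ℝ) : (δ i k * t) ^ 2 = δ i k * t ^ 2 := by unfold δ; split_ifs <;> simp
lemma sum_δ (k : ι) (f : ι → ℝ) : ∑ i, δ i k * f i = f k := by simp [δ]
lemma sum_δ' (j : ι) (f : ι → ℝ) : ∑ k, δ j k * f k = f j := by simp [δ]

namespace Co

lemma J_le (h : Co J a q r s K c) (j i : ι) : |J j i| ≤ K :=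
  abs_le_of_sq_le_sq' ((single_le_sum (f := fun i => J j i ^ 2) (fun _ _ => sq_nonneg _)
    (mem_univ i)).trans (h.row j)) h.K0 |> abs_le.2

lemma col (h : Co J a q r s K c) (i : ι) : ∑ j, J j i ^ 2 ≤ K ^ 2 := by
  simpa only [h.sym i] using h.row i

lemma q_sub (h : Co J a q r s K c) (j i : ι) (t : ℝ) : |(q j i - r i) * t| ≤ c * (|J j i| * |r i * t|) := by
  rw [abs_mul, abs_mul, abs_of_nonneg (h.r0 i)]
  have := mul_le_mul_of_nonneg_right (h.hq j i) (abs_nonneg t)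
  linarith

lemma q_mul (h : Co J a q r s K c) (j i : ι) (t : ℝ) : |q j i * t| ≤ (1 + c * K) * |r i * t| := by
  have h1 := h.q_sub j i t
  have h2 := mul_le_mul_of_nonneg_left (mul_le_mul_of_nonneg_right (h.J_le j i)
    (abs_nonneg (r i * t))) h.c0
  have h3 := abs_add_le ((q j i - r i) * t) (r i * t)
  rw [show (q j i - r i) * t + r i * t = q j i * t by ring] at h3
  linarith

lemma q_le (h : Co J a q r s K c) (j i : ι) (t : ℝ) : |q j i * t| ≤ |t| := by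
  rw [abs_mul]; exact mul_le_of_le_one_left (abs_nonneg t) (h.q1 j i)

end Co

lemma abs_δ (i k : ι) (t : ℝ) : |δ i k * t| = δ i k * |t| := by
  rw [abs_mul, abs_of_nonneg (δ_nn i k)]

/-- the constant of the majorant -/
def cD (K c : ℝ) : ℝ := (1 + c + c * K) * (1 + K)

lemma g_le (h : Co J a q r s K c) (m : Mk ι) (j k i : ι) :
    |gX a q r s m j k i| ≤ 4 * cD K c * mj J r m j k i ∧
      |gW q r m j k i| ≤ cD K c * mj J r m j k i := by
  have hK := h.K0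
  have hc := h.c0
  have hcK := mul_nonneg hc hK
  obtain ⟨d1, d2, d3, d4⟩ : c ≤ cD K c ∧ 1 + c * K ≤ cD K c ∧ 1 ≤ cD K c ∧
      (1 + c * K) * K ≤ cD K c := by
    unfold cD
    refine ⟨?_, ?_, ?_, ?_⟩ <;> nlinarith [mul_nonneg hcK hK]
  set D := cD K c
  have hJ := abs_nonneg (J j i)
  have hJK := h.J_le j i
  have e1 := δ_nn i k
  have e2 := δ_nn j k
  set t1 := |J j i| * |r i * m.dk k i| with ht1
  set t2 := |J j i| * |r j * m.dk k j| with ht2
  set t3 := |J j i| * |m.z k i| with ht3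
  set t4 := |J j i| * |m.z k j| with ht4
  set t5 := |r i * m.dz k j i| with ht5
  set t6 := |r j * m.dz k i j| with ht6
  set t7 := δ i k * (|J j i| * |m.ka k|) with ht7
  set t8 := δ i k * |r j * m.dk k j| with ht8
  set t9 := δ j k * |r i * m.dk k i| with ht9
  set t10 := δ j k * (|J j i| * |m.ka k|) with ht10
  have em : mj J r m j k i = t1 + t2 + t3 + t4 + t5 + t6 + t7 + t8 + t9 + t10 := rfl
  have up : ∀ {u t b : ℝ}, 0 ≤ t → b ≤ D → u ≤ b * t → u ≤ D * t := fun ht hb hu =>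
    hu.trans (mul_le_mul_of_nonneg_right hb ht)
  have p1 : 0 ≤ t1 := by positivity
  have p2 : 0 ≤ t2 := by positivity
  have p3 : 0 ≤ t3 := by positivity
  have p4 : 0 ≤ t4 := by positivity
  have p5 : 0 ≤ t5 := by positivity
  have p6 : 0 ≤ t6 := by positivity
  have p7 : 0 ≤ t7 := by positivity
  have p8 : 0 ≤ t8 := by positivity
  have p9 : 0 ≤ t9 := by positivity
  have p10 : 0 ≤ t10 := by positivity
  have D0 : 0 ≤ D := by linarith
  have n1 := mul_nonneg D0 p1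
  have n2 := mul_nonneg D0 p2
  have n3 := mul_nonneg D0 p3
  have n4 := mul_nonneg D0 p4
  have n5 := mul_nonneg D0 p5
  have n6 := mul_nonneg D0 p6
  have n7 := mul_nonneg D0 p7
  have n8 := mul_nonneg D0 p8
  have n9 := mul_nonneg D0 p9
  have n10 := mul_nonneg D0 p10
  have a1 := abs_le.1 (up p1 d1 (h.q_sub j i (m.dk k i)))
  have a2 := abs_le.1 (up p5 d2 (h.q_mul j i (m.dz k j i)))
  have a3 : |δ j k * (q j i * m.dk k i)| ≤ D * t9 := up p9 d2 (by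
    rw [abs_δ, ht9, mul_left_comm]; exact mul_le_mul_of_nonneg_left (h.q_mul j i _) e2)
  have a3' := abs_le.1 a3
  have hA : |gA q r m j k i| ≤ D * (t1 + t5 + t9) := by
    rw [gA, abs_le]; constructor <;> linarith [a1.1, a1.2, a2.1, a2.2, a3'.1, a3'.2]
  have ja : ∀ {u t : ℝ}, |u| ≤ t → |a j i * u| ≤ |J j i| * t := fun hu => by
    rw [abs_mul]; exact mul_le_mul (h.ha j i) hu (abs_nonneg _) hJ
  have b1 := abs_le.1 (up p3 d3 ((ja (h.q_le i j (m.z k i))).trans_eq (one_mul _).symm))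
  have b2 := abs_le.1 (up p4 d3 ((ja (h.q_le i j (m.z k j))).trans_eq (one_mul _).symm))
  have b3 := abs_le.1 (up p2 d2 ((ja (h.q_mul i j (m.dk k j))).trans_eq (by rw [ht2]; ring)))
  have b4 : |a j i * (q i j * m.dz k i j)| ≤ D * t6 := up p6 d4 ((ja (h.q_mul i j _)).trans (by
    have := mul_le_mul_of_nonneg_right hJK (mul_nonneg (by linarith : 0 ≤ 1 + c * K) p6)
    linarith))
  have b4' := abs_le.1 b4
  have b5 : |a j i * (δ i k * (q i j * m.ka k))| ≤ D * t7 := up p7 d3 (by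
    rw [mul_left_comm, abs_δ, one_mul]; exact mul_le_mul_of_nonneg_left (ja (h.q_le i j _)) e1)
  have b5' := abs_le.1 b5
  have b6 : |a j i * (δ i k * (q i j * m.dk k j))| ≤ D * t2 := up p2 d2 (by
    rw [mul_left_comm, abs_δ]
    exact (mul_le_of_le_one_left (abs_nonneg _) (δ_le i k)).trans
      ((ja (h.q_mul i j _)).trans_eq (by rw [ht2]; ring)))
  have b6' := abs_le.1 b6
  have b7 : |a j i * (δ j k * (q i j * m.ka k))| ≤ D * t10 := up p10 d3 (by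
    rw [mul_left_comm, abs_δ, one_mul]; exact mul_le_mul_of_nonneg_left (ja (h.q_le i j _)) e2)
  have b7' := abs_le.1 b7
  have hB : |a j i * gB q m j k i| ≤ D * (t3 + t4 + 2 * t2 + t6 + t7 + t10) := by
    rw [gB, abs_le]
    constructor <;> linarith [b1.1, b1.2, b2.1, b2.2, b3.1, b3.2, b4'.1, b4'.2, b5'.1, b5'.2, b6'.1,
      b6'.2, b7'.1, b7'.2]
  have c1 := abs_le.1 (up p2 d1 ((h.q_sub i j (m.dk k j)).trans_eq (by rw [ht2, h.sym i j])))
  have c2 := abs_le.1 (up p6 d2 (h.q_mul i j (m.dz k i j)))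
  have c3 : |δ i k * (q i j * m.dk k j)| ≤ D * t8 := up p8 d2 (by
    rw [abs_δ, ht8, mul_left_comm]; exact mul_le_mul_of_nonneg_left (h.q_mul i j _) e1)
  have c3' := abs_le.1 c3
  rw [em]
  constructor
  · have s1 : |s i * gA q r m j k i| = |gA q r m j k i| := by rw [abs_mul, h.hs, one_mul]
    have s2 : |s j * (a j i * gB q m j k i)| = |a j i * gB q m j k i| := by
      rw [abs_mul, h.hs, one_mul]
    have s3 := abs_le.1 (s1.trans_le hA)
    have s4 := abs_le.1 (s2.trans_le hB)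
    rw [gX, abs_le]; constructor <;> linarith [s3.1, s3.2, s4.1, s4.2]
  · rw [gW, abs_le]; constructor <;> linarith [c1.1, c1.2, c2.1, c2.2, c3'.1, c3'.2]

/-- the size of the marker scalars -/
structure Sz (r : ι → ℝ) (m : Mk ι) (N : ℝ) : Prop where
  N0 : 0 ≤ N
  ka : ∑ k, m.ka k ^ 2 ≤ N ^ 2
  z : ∑ k, ∑ j, m.z k j ^ 2 ≤ N ^ 2
  dk : ∑ k, ∑ i, (r i * m.dk k i) ^ 2 ≤ N ^ 2
  dz : ∑ k, ∑ j, ∑ i, (r i * m.dz k j i) ^ 2 ≤ N ^ 2

lemma s3_i (h : Co J a q r s K c) {b : ι → ι → ℝ} {N : ℝ} (hb : ∑ k, ∑ i, b k i ^ 2 ≤ N ^ 2) :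
    ∑ j, ∑ k, ∑ i, (|J j i| * |b k i|) ^ 2 ≤ K ^ 2 * N ^ 2 := by
  calc ∑ j, ∑ k, ∑ i, (|J j i| * |b k i|) ^ 2 = ∑ k, ∑ i, (∑ j, J j i ^ 2) * b k i ^ 2 := by
        rw [sum_comm]; refine sum_congr rfl fun k _ => ?_
        rw [sum_comm]; refine sum_congr rfl fun i _ => ?_
        simp only [mul_pow, sq_abs, sum_mul]
    _ ≤ ∑ k, ∑ i, K ^ 2 * b k i ^ 2 := sum_le_sum fun k _ => sum_le_sum fun i _ =>
        mul_le_mul_of_nonneg_right (h.col i) (sq_nonneg _)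
    _ ≤ _ := by simp only [← mul_sum]; exact mul_le_mul_of_nonneg_left hb (sq_nonneg _)

lemma s3_j (h : Co J a q r s K c) {b : ι → ι → ℝ} {N : ℝ} (hb : ∑ k, ∑ j, b k j ^ 2 ≤ N ^ 2) :
    ∑ j, ∑ k, ∑ i, (|J j i| * |b k j|) ^ 2 ≤ K ^ 2 * N ^ 2 := by
  calc ∑ j, ∑ k, ∑ i, (|J j i| * |b k j|) ^ 2 = ∑ k, ∑ j, (∑ i, J j i ^ 2) * b k j ^ 2 := by
        rw [sum_comm]
        simp only [mul_pow, sq_abs, sum_mul]
    _ ≤ ∑ k, ∑ j, K ^ 2 * b k j ^ 2 := sum_le_sum fun k _ => sum_le_sum fun j _ =>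
        mul_le_mul_of_nonneg_right (h.row j) (sq_nonneg _)
    _ ≤ _ := by simp only [← mul_sum]; exact mul_le_mul_of_nonneg_left hb (sq_nonneg _)

lemma mj_le (h : Co J a q r s K c) {m : Mk ι} {N : ℝ} (z : Sz r m N) :
    ∑ j, ∑ k, ∑ i, mj J r m j k i ^ 2 ≤ (8 * (1 + K) * N) ^ 2 := by
  have u1 := s3_i h z.dk
  have u2 := s3_j h z.dk
  have u3 := s3_i h z.z
  have u4 := s3_j h z.z
  have u5 : ∑ j, ∑ k, ∑ i, |r i * m.dz k j i| ^ 2 ≤ N ^ 2 := by
    rw [sum_comm]; simpa only [sq_abs] using z.dz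
  have u6 : ∑ j, ∑ k, ∑ i, |r j * m.dz k i j| ^ 2 ≤ N ^ 2 := by
    rw [sum_comm]
    refine le_trans (le_of_eq (sum_congr rfl fun k _ => ?_)) z.dz
    rw [sum_comm]; simp only [sq_abs]
  have u7 : ∑ j, ∑ k, ∑ i, (δ i k * (|J j i| * |m.ka k|)) ^ 2 ≤ K ^ 2 * N ^ 2 := by
    simp only [δ_sq, sum_δ]
    simp only [mul_pow, sq_abs]
    rw [sum_comm]
    simp only [← sum_mul]
    refine (sum_le_sum fun k _ => mul_le_mul_of_nonneg_right (h.col k) (sq_nonneg _)).trans ?_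
    rw [← mul_sum]; exact mul_le_mul_of_nonneg_left z.ka (sq_nonneg _)
  have u8 : ∑ j, ∑ k, ∑ i, (δ i k * |r j * m.dk k j|) ^ 2 ≤ N ^ 2 := by
    simp only [δ_sq, sum_δ, sq_abs]
    rw [sum_comm]; exact z.dk
  have u9 : ∑ j, ∑ k, ∑ i, (δ j k * |r i * m.dk k i|) ^ 2 ≤ N ^ 2 := by
    simp only [δ_sq, ← mul_sum, sum_δ', sq_abs]; exact z.dk
  have u10 : ∑ j, ∑ k, ∑ i, (δ j k * (|J j i| * |m.ka k|)) ^ 2 ≤ K ^ 2 * N ^ 2 := by
    simp only [δ_sq, ← mul_sum, sum_δ']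
    simp only [mul_pow, sq_abs, ← sum_mul]
    refine (sum_le_sum fun k _ => mul_le_mul_of_nonneg_right (h.row k) (sq_nonneg _)).trans ?_
    rw [← mul_sum]; exact mul_le_mul_of_nonneg_left z.ka (sq_nonneg _)
  have key : ∀ t1 t2 t3 t4 t5 t6 t7 t8 t9 t10 : ℝ,
      (t1 + t2 + t3 + t4 + t5 + t6 + t7 + t8 + t9 + t10) ^ 2 ≤ 10 * (t1 ^ 2 + t2 ^ 2 + t3 ^ 2 +
        t4 ^ 2 + t5 ^ 2 + t6 ^ 2 + t7 ^ 2 + t8 ^ 2 + t9 ^ 2 + t10 ^ 2) := by
    intro t1 t2 t3 t4 t5 t6 t7 t8 t9 t10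
    have := sq_sum_le_card_mul_sum_sq (s := univ) (f := ![t1, t2, t3, t4, t5, t6, t7, t8, t9, t10])
    simp only [Fin.sum_univ_succ, card_univ, Fintype.card_fin] at this
    simp at this
    linarith
  refine (sum_le_sum fun j _ => sum_le_sum fun k _ => sum_le_sum fun i _ =>
    key _ _ _ _ _ _ _ _ _ _).trans ?_
  simp only [← mul_sum, sum_add_distrib]
  have := h.K0
  nlinarith [sq_nonneg N, mul_nonneg this (sq_nonneg N), mul_nonneg (sq_nonneg K) (sq_nonneg N)]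

/-- the constant of the error bound -/
def cE (K A c : ℝ) : ℝ := 8 + 2 * A + 8 * (4 + K) * cD K c * (1 + K)

/-- **the error bound, arrays** -/
theorem err_le (h : Co J a q r s K c) {A M N : ℝ} (hA : opn a ≤ A) {w : Matrix ι ι ℝ}
    {X : Matrix (ι × ι) ι ℝ} {ρ : ι → ℝ} (M0 : 0 ≤ M) (row : ∀ l, ∑ k, w l k ^ 2 ≤ M ^ 2)
    (hop : ∀ j, ∑ k ∈ univ.erase j, (a * w) j k ^ 2 ≤ M ^ 2) (th : ∀ k, |(a * w) k k - ρ k| ≤ M)
    (hX : opn X ≤ M) (X0 : ∀ k i, X (k, i) i = 0) {m : Mk ι} (z0 : ∀ k, m.z k k = 0)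
    (dz0 : ∀ k i, m.dz k k i = 0) (z : Sz r m N) :
    nrm (fun j => ∑ k, (∑ i, ep a q w s X m j k i + δ j k * (ρ k * (m.ka k + r k * m.dk k k)))) ≤
      cE K A c * M * N := by
  have N0 := z.N0
  have K0 := h.K0
  have D0 : 0 ≤ cD K c := by unfold cD; have := h.c0; positivity
  have A0 : 0 ≤ A := (opn_nonneg a).trans hA
  have ww : ∀ i k, w i k ^ 2 ≤ M ^ 2 := fun i k =>
    (single_le_sum (f := fun k => w i k ^ 2) (fun _ _ => sq_nonneg _) (mem_univ k)).trans (row i)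
  have e : (fun j => ∑ k, (∑ i, ep a q w s X m j k i + δ j k * (ρ k * (m.ka k + r k * m.dk k k)))) =
      (2 : ℝ) • (Xᵀ *ᵥ fun p => s p.2 * (r p.2 * m.dk p.1 p.2)) + a *ᵥ (fun k => m.ka k * w k k) -
      a *ᵥ (fun i => ∑ k, w i k * m.z k i) +
      (fun j => ∑ p : ι × ι, X p j * gX a q r s m j p.1 p.2) +
      (fun j => ∑ p : ι × ι, a j p.2 * w p.2 p.1 * gW q r m j p.1 p.2) +
      fun j => ∑ k, ((a * w) j k - δ j k * ρ k) * gG r m j k := by
    funext j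
    simp only [ep_eq (r := r) h.a0 w X0 z0 dz0, sum_add_distrib, sum_sub_distrib, sum_δ, sum_δ',
      Pi.add_apply, Pi.sub_apply, Pi.smul_apply, smul_eq_mul, mulVec, dotProduct, transpose_apply,
      Fintype.sum_prod_type, mul_sum, mul_apply, sub_mul, sum_mul, mul_assoc (δ _ _)]
    rw [sum_comm (f := fun k i => a j i * (w i k * m.z k i))]
    have : gG r m j j = -(m.ka j + r j * m.dk j j) := by simp [gG, δ, z0]; ring
    rw [this]; ring
  have b1 : nrm (Xᵀ *ᵥ fun p : ι × ι => s p.2 * (r p.2 * m.dk p.1 p.2)) ≤ M * N :=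
    (nrm_mulVec_le _ _).trans (mul_le_mul (by rwa [opn_transpose]) (nrm_le_sq N0 (by
      simpa only [Fintype.sum_prod_type, mul_pow (s _), ← sq_abs (s _), h.hs, one_pow, one_mul]
        using z.dk)) (nrm_nonneg _) M0)
  have b2 : nrm (a *ᵥ fun k => m.ka k * w k k) ≤ A * (M * N) :=
    (nrm_mulVec_le _ _).trans (mul_le_mul hA (nrm_le_sq (by positivity) (by
      calc ∑ k, (m.ka k * w k k) ^ 2 ≤ ∑ k, M ^ 2 * m.ka k ^ 2 := sum_le_sum fun k _ => by
            rw [mul_pow, mul_comm]; exact mul_le_mul_of_nonneg_right (ww k k) (sq_nonneg _)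
        _ ≤ _ := by rw [← mul_sum, mul_pow]; exact mul_le_mul_of_nonneg_left z.ka (sq_nonneg _)))
      (nrm_nonneg _) A0)
  have b3 : nrm (a *ᵥ fun i => ∑ k, w i k * m.z k i) ≤ A * (M * N) :=
    (nrm_mulVec_le _ _).trans (mul_le_mul hA (nrm_cs (fun i k => w i k) (fun i k => m.z k i) M0 N0 row
      (by rw [sum_comm]; exact z.z)) (nrm_nonneg _) A0)
  have mm : ∀ (g : ι → ι → ι → ℝ) (D : ℝ), (∀ j k i, |g j k i| ≤ D * mj J r m j k i) →
      ∑ j, ∑ p : ι × ι, g j p.1 p.2 ^ 2 ≤ (D * (8 * (1 + K) * N)) ^ 2 := fun g D hg => by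
    calc ∑ j, ∑ p : ι × ι, g j p.1 p.2 ^ 2 ≤ ∑ j, ∑ p : ι × ι, D ^ 2 * mj J r m j p.1 p.2 ^ 2 :=
          sum_le_sum fun j _ => sum_le_sum fun p _ => by
            rw [← sq_abs, ← mul_pow]; exact pow_le_pow_left₀ (abs_nonneg _) (hg _ _ _) 2
      _ ≤ _ := by
          simp only [← mul_sum, Fintype.sum_prod_type]
          rw [mul_pow D]; exact mul_le_mul_of_nonneg_left (mj_le h z) (sq_nonneg _)
  have b4 := nrm_cs (fun j p => X p j) (fun j p => gX a q r s m j p.1 p.2) M0 (by positivity)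
    (col_le X hX) (mm _ _ fun j k i => (g_le h m j k i).1)
  have b5 := nrm_cs (fun j (p : ι × ι) => a j p.2 * w p.2 p.1) (fun j p => gW q r m j p.1 p.2)
    (B := K * M) (by positivity) (by positivity) (fun j => by
      rw [Fintype.sum_prod_type, sum_comm]
      calc ∑ i, ∑ k, (a j i * w i k) ^ 2 = ∑ i, a j i ^ 2 * ∑ k, w i k ^ 2 := by
            simp only [mul_pow, mul_sum]
        _ ≤ ∑ i, J j i ^ 2 * M ^ 2 := sum_le_sum fun i _ => mul_le_mul (sq_le_sq.2 (h.ha j i)) (row i)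
            (sum_nonneg fun _ _ => sq_nonneg _) (sq_nonneg _)
        _ ≤ _ := by rw [← sum_mul, mul_pow]; exact mul_le_mul_of_nonneg_right (h.row j) (sq_nonneg _))
    (mm _ _ fun j k i => (g_le h m j k i).2)
  have b6 := nrm_cs (fun j k => (a * w) j k - δ j k * ρ k) (gG r m) (B := 2 * M) (D := 3 * N)
    (by positivity) (by positivity) (fun j => by
      rw [← add_sum_erase _ _ (mem_univ j)]
      have h1 : ∑ k ∈ univ.erase j, ((a * w) j k - δ j k * ρ k) ^ 2 ≤ M ^ 2 :=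
        le_trans (le_of_eq (sum_congr rfl fun k hk => by
          rw [δ, if_neg (ne_of_mem_erase hk).symm, zero_mul, sub_zero])) (hop j)
      have h2 : ((a * w) j j - δ j j * ρ j) ^ 2 ≤ M ^ 2 := by
        rw [δ, if_pos rfl, one_mul, ← sq_abs]; exact pow_le_pow_left₀ (abs_nonneg _) (th j) 2
      nlinarith [sq_nonneg M]) (by
      have k3 : ∀ j k, gG r m j k ^ 2 ≤
          3 * (m.z k j ^ 2 + δ j k * m.ka k ^ 2 + (r j * m.dk k j) ^ 2) := fun j k => by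
        rw [gG, ← δ_sq]
        nlinarith [sq_nonneg (m.z k j + δ j k * m.ka k), sq_nonneg (m.z k j + r j * m.dk k j),
          sq_nonneg (δ j k * m.ka k - r j * m.dk k j)]
      refine (sum_le_sum fun j _ => sum_le_sum fun k _ => k3 j k).trans ?_
      simp only [← mul_sum, sum_add_distrib, sum_δ']
      rw [sum_comm, sum_comm (f := fun j k => (r j * m.dk k j) ^ 2)]
      linarith [z.z, z.ka, z.dk])
  rw [e]
  refine (nrm_add_le _ _).trans ((add_le_add_left ((nrm_add_le _ _).trans (add_le_add_left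
    ((nrm_add_le _ _).trans (add_le_add_left ((nrm_sub_le _ _).trans (add_le_add_left
    (nrm_add_le _ _) _)) _)) _)) _).trans ?_)
  rw [nrm_smul, abs_two, cE]
  linarith

end Crest.Agent.T157.S6e
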