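import Crest.Agent.T157.S6Ho_47

/-!
# Row 157, block S6 (helper85): the error of the ansatz, pointwise identities
-/

set_option autoImplicit false

noncomputable section

namespace Crest.Agent.T157.S6x

open Matrix Real Finset
open Crest.Agent.T157.E hiding mean
open Crest.Agent.T157.Tap (V Mx)
open Crest.Agent.T157.Rec (grad fl)
open Crest.Agent.T157.Reg (VF mu Tk am)
open Crest.Agent.T157.S6h

variable {n : ℕ} {W : Mx n}

/-- the hop part of `LL` -/
def hop (W : Mx n) (U : VF n) : VF n := fun x k =>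
  ∑ i ∈ univ.erase k, am W x k i * Ec W i k (cp U i) x

/-- the field `y_j ω_j`, `j ≠ k` -/
def pr (k : Fin n) (y ω : VF n) : VF n := fun x j => if j = k then 0 else y x j * ω x j

/-- the error of `pr k y ω` -/
def er (W : Mx n) (k : Fin n) (y ω : VF n) : VF n := fun x j =>
  if j = k then -∑ i ∈ univ.erase k, am W x k i * Ec W i k (fun z => y z i * ω z i) x
  else -∑ i ∈ univ.erase j, rc W j i x * (dl i (cp y j) x * dl i (cp ω j) x) +
    y x j * (am W x j k * Ec W k j (cp ω k) x) + ∑ i ∈ (univ.erase j).erase k,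
      am W x j i * (y x j * Ec W i j (cp ω i) x - Ec W i j (fun z => y z i * ω z i) x)

theorem Lc_mul (k : Fin n) (F G : Cube n → ℝ) (x : Cube n) : Lc W k (fun z => F z * G z) x =
    Lc W k F x * G x + F x * Lc W k G x + ∑ i ∈ univ.erase k, rc W k i x * (dl i F x * dl i G x) := by
  simp only [Lc, sum_mul, mul_sum, ← sum_add_distrib, dl]
  exact sum_congr rfl fun i _ => by ring

theorem cp_pr_ne {k j : Fin n} (h : j ≠ k) (y ω : VF n) :
    cp (pr k y ω) j = fun z => y z j * ω z j := funext fun _ => if_neg h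

theorem cp_pr_self (k : Fin n) (y ω : VF n) : cp (pr k y ω) k = fun _ => 0 :=
  funext fun _ => if_pos rfl

/-- **the error identity** -/
theorem er_eq (k : Fin n) (y ω : VF n) (x : Cube n) (j : Fin n) :
    (if j = k then 0 else Lc W j (cp y j) x * ω x j + y x j * LL W ω x j) =
      LL W (pr k y ω) x j + er W k y ω x j := by
  by_cases h : j = k
  · subst h
    rw [if_pos rfl, er, if_pos rfl, LL, cp_pr_self, pr, if_pos rfl,
      sum_congr rfl fun i hi => by rw [cp_pr_ne (ne_of_mem_erase hi)]]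
    simp [Lc, dl]
  · have m : k ∈ univ.erase j := mem_erase.2 ⟨Ne.symm h, mem_univ _⟩
    have e1 : Lc W j (fun z => y z j * ω z j) x = _ := Lc_mul j (cp y j) (cp ω j) x
    have e2 : ∑ i ∈ (univ.erase j).erase k, am W x j i * Ec W i j (cp (pr k y ω) i) x =
        ∑ i ∈ (univ.erase j).erase k, am W x j i * Ec W i j (fun z => y z i * ω z i) x :=
      sum_congr rfl fun i hi => by rw [cp_pr_ne (ne_of_mem_erase hi)]
    have e3 : Ec W k j (fun _ => 0) x = 0 := by simp [Ec, dl]
    rw [if_neg h, er, if_neg h, LL, LL, cp_pr_ne h, pr, if_neg h, ← add_sum_erase _ _ m,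
      ← add_sum_erase _ _ m, cp_pr_self, e1, e2, e3]
    simp only [mul_sub, sum_sub_distrib, mul_add, mul_sum, mul_left_comm (y x j), cp]
    ring

/-- the `k` component -/
theorem er_self (k : Fin n) (y ω : VF n) (x : Cube n) : er W k y ω x k =
    -∑ i ∈ univ.erase k, am W x k i * (ω x i * Ec W i k (cp y i) x +
      rc W i k x * (y (fl x k) i * dl k (cp ω i) x)) := by
  rw [er, if_pos rfl]
  congr 1
  exact sum_congr rfl fun i _ => by simp only [Ec, dl, cp]; ring

/-- the other components, `y = κ + ζ` -/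
theorem er_ne {k j : Fin n} (h : j ≠ k) {y ζ : VF n} {κ : Cube n → ℝ}
    (hy : ∀ x i, i ≠ k → y x i = κ x + ζ x i) (ω : VF n) (x : Cube n) : er W k y ω x j =
    -∑ i ∈ univ.erase j, rc W j i x * (dl i (cp y j) x * dl i (cp ω j) x) +
      y x j * (am W x j k * Ec W k j (cp ω k) x) + ∑ i ∈ (univ.erase j).erase k, am W x j i *
        (ζ x j * Ec W i j (cp ω i) x - Ec W i j (fun z => ζ z i * ω z i) x -
          rc W i j x * (dl j κ x * ω (fl x j) i)) := by
  rw [er, if_neg h]
  congr 1
  refine sum_congr rfl fun i hi => ?_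
  simp only [Ec, dl, cp, hy _ _ h, hy _ _ (ne_of_mem_erase hi)]
  ring

/-- the ansatz starts with the hop of the markers -/
theorem sum_pr (U : VF n) {y ω : Fin n → VF n}
    (h : ∀ k x j, j ≠ k → y k x j * ω k x j = am W x j k * Ec W k j (cp U k) x) :
    ∑ k, pr k (y k) (ω k) = hop W U := by
  funext x j
  rw [Finset.sum_apply, Finset.sum_apply, hop, ← add_sum_erase _ _ (mem_univ j), pr, if_pos rfl, zero_add]
  exact sum_congr rfl fun k hk => by
    rw [pr, if_neg (ne_of_mem_erase hk).symm, h k x j (ne_of_mem_erase hk).symm]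

theorem hasDerivAt_pr (k : Fin n) {y ω : ℝ → VF n} {v : ℝ}
    (hy : ∀ x j, j ≠ k → HasDerivAt (fun s => y s x j) (Lc W j (cp (y v) j) x) v)
    (hω : ∀ x j, j ≠ k → HasDerivAt (fun s => ω s x j) (LL W (ω v) x j) v) :
    HasDerivAt (fun s => pr k (y s) (ω s)) (LL W (pr k (y v) (ω v)) + er W k (y v) (ω v)) v := by
  refine hasDerivAt_pi.2 fun x => hasDerivAt_pi.2 fun j => ?_
  rw [Pi.add_apply, Pi.add_apply, ← er_eq]
  by_cases h : j = k
  · simp only [pr, if_pos h]; exact hasDerivAt_const _ _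
  · simp only [pr, if_neg h]; exact (hy x j h).mul (hω x j h)

end Crest.Agent.T157.S6x

end
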