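import Mathlib

/-!
# Row 157, block S6 (helper85): linear semigroups in finite dimension and the Duhamel formula
-/

set_option autoImplicit false

noncomputable section

namespace Crest.Agent.T157.S6x

open intervalIntegral

variable {E : Type*} [NormedAddCommGroup E] [NormedSpace ℝ E] [FiniteDimensional ℝ E]

open Classical in
/-- a linear map as a continuous linear map (`0` if `A` is not linear) -/
def cl (A : E → E) : E →L[ℝ] E :=
  if h : IsLinearMap ℝ A then LinearMap.toContinuousLinearMap (IsLinearMap.mk' A h) else 0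

/-- `e^{t A} v` -/
def ex (A : E → E) (t : ℝ) (v : E) : E := NormedSpace.exp (t • cl A) v

variable {A : E → E}

theorem cl_apply (h : IsLinearMap ℝ A) (v : E) : cl A v = A v := by
  rw [cl, dif_pos h]; rfl

theorem ex_zero (A : E → E) (v : E) : ex A 0 v = v := by
  rw [ex, zero_smul, NormedSpace.exp_zero]; rfl

theorem ex_lin (A : E → E) (t : ℝ) : IsLinearMap ℝ (ex A t) :=
  ⟨fun u v => map_add _ u v, fun c v => map_smul _ c v⟩

theorem ex_sum {ι : Type*} (A : E → E) (t : ℝ) (S : Finset ι) (v : ι → E) :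
    ex A t (∑ i ∈ S, v i) = ∑ i ∈ S, ex A t (v i) := map_sum _ _ _

theorem ex_add (A : E → E) (s t : ℝ) (v : E) : ex A (s + t) v = ex A s (ex A t v) := by
  have := FiniteDimensional.complete ℝ E
  have k : ∀ x : E →L[ℝ] E, x ∈ Metric.eball 0 (NormedSpace.expSeries ℝ (E →L[ℝ] E)).radius :=
    fun x => (NormedSpace.expSeries_radius_eq_top ℝ (E →L[ℝ] E)).symm ▸ edist_lt_top _ _
  rw [ex, add_smul, NormedSpace.exp_add_of_commute_of_mem_ball
    (((Commute.refl _).smul_left s).smul_right t) (k _) (k _)]
  rfl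

theorem hasDerivAt_op (A : E → E) (t : ℝ) : HasDerivAt (fun s : ℝ => NormedSpace.exp (s • cl A))
    (cl A * NormedSpace.exp (t • cl A)) t := by
  have := FiniteDimensional.complete ℝ E
  exact hasDerivAt_exp_smul_const' (𝕂 := ℝ) (cl A) t

theorem ex_comm (h : IsLinearMap ℝ A) (t : ℝ) (v : E) : ex A t (A v) = A (ex A t v) := by
  have := FiniteDimensional.complete ℝ E
  have := (hasDerivAt_exp_smul_const (𝕂 := ℝ) (cl A) t).unique (hasDerivAt_op A t)
  rw [← cl_apply h, ← cl_apply h]
  exact congrArg (· v) this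

/-- derivative along a moving time and a moving vector -/
theorem hasDerivAt_ex_fam (h : IsLinearMap ℝ A) {τ : ℝ → ℝ} {U : ℝ → E} {τ' s : ℝ} {U' : E}
    (hτ : HasDerivAt τ τ' s) (hU : HasDerivAt U U' s) :
    HasDerivAt (fun u => ex A (τ u) (U u)) (τ' • A (ex A (τ s) (U s)) + ex A (τ s) U') s := by
  have := ((hasDerivAt_op A (τ s)).scomp s hτ).clm_apply hU
  rw [← cl_apply h]
  exact this

theorem hasDerivAt_ex (h : IsLinearMap ℝ A) (v : E) (t : ℝ) :
    HasDerivAt (fun s => ex A s v) (A (ex A t v)) t := by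
  simpa [(ex_lin A t).map_zero] using hasDerivAt_ex_fam h (hasDerivAt_id' t) (hasDerivAt_const t v)

theorem cont_ex (A : E → E) {Y : Type*} [TopologicalSpace Y] {τ : Y → ℝ} {U : Y → E}
    (hτ : Continuous τ) (hU : Continuous U) : Continuous fun y => ex A (τ y) (U y) :=
  ((continuous_iff_continuousAt.2 fun t => (hasDerivAt_op A t).continuousAt).comp hτ).clm_apply hU

theorem ex_integral (A : E → E) (t a b : ℝ) {g : ℝ → E} (hg : Continuous g) :
    ex A t (∫ u in a..b, g u) = ∫ u in a..b, ex A t (g u) := by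
  have := FiniteDimensional.complete ℝ E
  exact ((NormedSpace.exp (t • cl A)).intervalIntegral_comp_comm (hg.intervalIntegrable a b)).symm

/-- **Duhamel** -/
theorem duhamel (h : IsLinearMap ℝ A) {U g : ℝ → E} (hg : Continuous g)
    (hU : ∀ s, HasDerivAt U (A (U s) + g s) s) (a b : ℝ) :
    U b = ex A (b - a) (U a) + ∫ u in a..b, ex A (b - u) (g u) := by
  have := FiniteDimensional.complete ℝ E
  have := integral_eq_sub_of_hasDerivAt (a := a) (b := b) (f := fun u => ex A (b - u) (U u))
    (f' := fun u => ex A (b - u) (g u)) (fun u _ => by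
      refine (hasDerivAt_ex_fam h ((hasDerivAt_id' u).const_sub b) (hU u)).congr_deriv ?_
      rw [(ex_lin A _).map_add, ex_comm h]; simp)
    ((cont_ex A (continuous_const.sub continuous_id) hg).intervalIntegrable a b)
  rw [this, sub_self, ex_zero]; abel

/-- uniqueness -/
theorem eq_ex (h : IsLinearMap ℝ A) {U : ℝ → E} (hU : ∀ s, HasDerivAt U (A (U s)) s) (t : ℝ) :
    U t = ex A t (U 0) := by
  simpa [(ex_lin A _).map_zero] using duhamel h (g := fun _ => 0) continuous_const
    (fun s => by simpa using hU s) 0 t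

/-- the Duhamel term solves the equation with source -/
theorem hasDerivAt_duh (h : IsLinearMap ℝ A) {g : ℝ → E} (hg : Continuous g) (a s : ℝ) :
    HasDerivAt (fun b => ∫ u in a..b, ex A (b - u) (g u))
      (A (∫ u in a..s, ex A (s - u) (g u)) + g s) s := by
  have := FiniteDimensional.complete ℝ E
  have c := cont_ex A continuous_neg hg
  have e : ∀ b, ∫ u in a..b, ex A (b - u) (g u) = ex A b (∫ u in a..b, ex A (-u) (g u)) := fun b => by
    simp only [ex_integral A b a b c, ← ex_add, sub_eq_add_neg]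
  simp only [e]
  refine (hasDerivAt_ex_fam h (hasDerivAt_id' s) (integral_hasDerivAt_right (c.intervalIntegrable a s)
    (c.stronglyMeasurableAtFilter _ _) c.continuousAt)).congr_deriv ?_
  rw [one_smul, ← ex_add, add_neg_cancel, ex_zero]

end Crest.Agent.T157.S6x

end
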