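import Crest.Agent.T157.S6Mh_68
import Crest.Agent.T157.RegNice_66

/-!
# Row 157, block S6 (helper68): the three layers and the sizes (`FGlue`)
-/

set_option autoImplicit false

noncomputable section

namespace Crest.Agent.T157.S6

open Matrix Real Filter Topology Set
open Crest.ProbabilityR.SpinGlassDynamics (disorderLaw gibbsWeight)
open Crest.Agent.T157.E hiding mean
open Crest.Agent.T157.Eig Crest.Agent.T157.Reg
open Crest.Agent.T157.Tap (V Mx)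
open Crest.Agent.T157.Reg.Bas66 (mu_pos)
open Crest.Agent.T157.Chain22 (sg mean)

variable {n : ℕ} {W : Mx n}

theorem G3.mono {m ε ε' τ τ' : ℝ} {T : Finset (Fin n)} {x : Cube n} (h : G3 W m ε τ T x)
    (he : ε ≤ ε') (ht : τ' ≤ τ) : G3 W m ε' τ' T x := fun v hv S hS =>
  (h v ⟨hv.1, hv.2.trans ht⟩ S hS).trans he

theorem Cv.mono (hn : 0 < n) {m ε ε' τ τ' : ℝ} {r b r' b' : ℝ → ℝ} {T : Finset (Fin n)} {x : Cube n}
    (h : Cv W m ε τ r b T x) (e0 : 0 ≤ ε) (t0 : 0 ≤ τ') (ht : τ' ≤ τ)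
    (hr : ∀ v ∈ Icc 0 τ', ε + |r v - r' v| ≤ ε') (hb : ∀ v ∈ Icc 0 τ', b v + ε ≤ b' v + ε') :
    Cv W m ε' τ' r' b' T x := by
  have he : ε ≤ ε' := le_trans (le_add_of_nonneg_right (abs_nonneg _)) (hr 0 ⟨le_rfl, t0⟩)
  refine ⟨fun v hv => le_trans ?_ (hr v hv), fun v hv => (h.g2 v ⟨hv.1, hv.2.trans ht⟩).trans (hb v hv),
    h.g3.mono he ht, ((oc_mono hn _ (B' := {z | ¬ G3 W m ε τ T z})
      (fun z (hz : ¬ G3 W m ε' τ' T z) h3 => hz (G3.mono h3 he ht)) t0 ht x).trans h.g5).trans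
      (pow_le_pow_left₀ e0 he 2)⟩
  have e : ∀ A : Mx n, A - r' v • PT T = A - r v • PT T + (r v - r' v) • PT T := fun A => by
    rw [sub_smul]; abel
  rw [e]
  refine (opn_add_le _ _).trans (add_le_add (h.g1 v ⟨hv.1, hv.2.trans ht⟩) ?_)
  rw [opn_smul]
  exact mul_le_of_le_one_right (abs_nonneg _) (opn_PT T)

theorem Pt1.mono {ρ : ℝ → ℝ} {ε ε' b b' v : ℝ} {T : Finset (Fin n)} {x : Cube n}
    (h : Pt1 W ρ ε b T v x) (e0 : 0 ≤ ε) (he : ε ≤ ε') (hb : b ≤ b') : Pt1 W ρ ε' b' T v x :=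
  have e2 := pow_le_pow_left₀ e0 he 2
  ⟨fun l => (h.row l).trans e2, fun j => (h.hop j).trans e2, fun k hk => (h.th k hk).trans he,
    h.op.trans (add_le_add hb e2)⟩

theorem GG.mono {ρ b b' : ℝ → ℝ} {ε ε' m m' τ : ℝ} {B : Set (Cube n)} (h : GG W ρ ε m τ b B)
    (e0 : 0 ≤ ε) (he : ε ≤ ε') (hm : m' ≤ m) (hb : ∀ v, b v ≤ b' v) : GG W ρ ε' m' τ b' B :=
  fun x hx T hT v hv => ⟨(h x hx T (hT.trans hm) v hv).toPt1.mono e0 he (hb v),
    (h x hx T (hT.trans hm) v hv).hess.trans he⟩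

theorem Fq_nn (W : Mx n) (v : ℝ) (x : Cube n) : 0 ≤ Fq W v x :=
  div_nonneg (Finset.sum_nonneg fun _ _ => Finset.sum_nonneg fun _ _ => mul_self_nonneg _)
    (Nat.cast_nonneg n)

theorem ce_mono {C D v τ Λ : ℝ} (h0 : 0 ≤ C) (h : C ≤ D) (v0 : 0 ≤ v) (hv : v ≤ τ)
    (hΛ : D * exp (D * τ) ≤ Λ) : C * exp (C * v) ≤ Λ :=
  le_trans (mul_le_mul h (exp_le_exp.2 (mul_le_mul h hv v0 (h0.trans h))) (exp_pos _).le
    (h0.trans h)) hΛ

set_option maxHeartbeats 800000 in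
/-- the layers -/
theorem layers (h1 : SHsStmt) (h3 : St1Stmt) (h5 : CPStmt) (K : ℝ) : ∃ C ≥ (1 : ℝ),
    ∀ (n : ℕ) (W : Mx n) (β : ℝ), Adm W K (rho β W) → 0 ≤ β → β ≤ 1 →
    ∀ (m m₂ ε ζ η τ τ' Λ : ℝ) (b : ℝ → ℝ) (B : Set (Cube n)), C * exp (C * τ) ≤ Λ → 0 < ζ →
    10 * Λ * ζ ≤ 1 → 0 ≤ ε → ε ≤ ζ → 0 ≤ τ → τ ≤ τ' → 0 < η → m ≤ m₂ → Λ ≤ η ^ 2 * m₂ →
    √(m / n) ≤ ζ → η * √(m + 1) ≤ ζ → Sub W m₂ ε →
    (∀ x ∉ B, ∀ T : Finset (Fin n), (T.card : ℝ) ≤ m → Cv W m₂ ε τ'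
      (fun v => β ^ 2 * vr (cav T W) v x) (fun v => β ^ 2 * Fq (cav T W) v x) T x) →
    (∀ x ∉ B, ∀ v ∈ Icc 0 τ, |vr W v x - mean (prob (mu W)) (vr W v)| ≤ Λ * ζ ∧
      Fq W v x ≤ b v + 4 * Λ * ζ) →
    ∃ B' : Set (Cube n), mass (mu W) B' ≤ (1 + τ / ζ ^ 2) ^ 2 * mass (mu W) B ∧
      GG W (rho β W) (10 * Λ ^ 4 * √ζ) m τ (fun v => 4 * b v) B' := by
  obtain ⟨C1, c1, h3⟩ := h3 K
  obtain ⟨C2, c2, h5⟩ := h5 K
  obtain ⟨C3, c3, h1⟩ := xs_le h1 K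
  obtain ⟨C4, c4, h4⟩ := opn_Om K
  refine ⟨C1 + C2 + C3 + C4, by linarith, fun n W β a b0 b1 m m₂ ε ζ η τ τ' Λ b B hΛ z0 z1 e0 e1 t0 t1
    η0 hm hη s1 s2 hS hC hF => ?_⟩
  have L : ∀ C, 1 ≤ C → C ≤ C1 + C2 + C3 + C4 → ∀ v ∈ Icc 0 τ, C * exp (C * v) ≤ Λ :=
    fun C p q v hv => ce_mono (by linarith) q hv.1 hv.2 hΛ
  have tt : τ ∈ Icc 0 τ := ⟨t0, le_rfl⟩
  have L1 : 1 ≤ Λ := by simpa using L 1 le_rfl (by linarith) 0 ⟨le_rfl, t0⟩
  have z2 : ζ ≤ Λ * ζ := le_mul_of_one_le_left z0.le L1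
  have z3 : ζ ≤ 1 := by linarith
  have q0 := sqrt_nonneg ζ
  have q1 : √ζ * √ζ = ζ := mul_self_sqrt z0.le
  have q2 : ζ ≤ √ζ := le_sqrt_of_sq_le (by nlinarith)
  have bb : β ^ 2 ≤ 1 := pow_le_one₀ b0 b1
  have n0 : (0 : ℝ) < n := Nat.cast_pos.2 a.pos
  have d0 := pow_pos z0 2
  -- layer 1
  have k1 : ∀ T : Finset (Fin n), (T.card : ℝ) ≤ m → ∀ x ∉ B,
      Cv W m₂ (10 * Λ * ζ) τ (rho β W) (fun v => 2 * b v) T x := fun T hT x hx => by
    have s3 : √(T.card / n) ≤ ζ := (sqrt_le_sqrt (div_le_div_of_nonneg_right hT n0.le)).trans s1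
    have s4 : (T.card : ℝ) / n ≤ ζ := by
      have := (sqrt_le_left z0.le).1 s3
      nlinarith
    refine (hC x hx T hT).mono a.pos e0 t0 t1 (fun v hv => ?_) fun v hv => ?_
    · have p1 := (h3 n W a.pos a.nice v hv.1 T x).1
      have p2 := (hF x hx v hv).1
      have p3 := mul_le_mul (L C1 c1 (by linarith) v hv) s3 (sqrt_nonneg _) (by linarith)
      rw [rho, ← mul_sub, abs_mul, abs_of_nonneg (sq_nonneg β)]
      have p4 := abs_sub_le (vr (cav T W) v x) (vr W v x) (mean (prob (mu W)) (vr W v))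
      rw [abs_sub_comm (vr (cav T W) v x) (vr W v x)] at p4
      nlinarith [mul_le_of_le_one_left (abs_nonneg (vr (cav T W) v x - mean (prob (mu W)) (vr W v))) bb]
    · have p1 := (h3 n W a.pos a.nice v hv.1 T x).2
      have p2 := (hF x hx v hv).2
      have p3 := mul_le_mul (L C1 c1 (by linarith) v hv) s4 (by positivity) (by linarith)
      nlinarith [mul_le_of_le_one_left (Fq_nn (cav T W) v x) bb]
  -- layer 2
  set B2 := B ∪ {x | ζ ^ 2 < oc W B τ x} with hB2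
  have k2 : ∀ T : Finset (Fin n), (T.card : ℝ) ≤ m → ∀ x ∉ B2, ∀ v ∈ Icc 0 τ,
      Pt1 W (rho β W) (5 * Λ ^ 2 * √ζ) (4 * b v) T v x := fun T hT x hx v hv => by
    rw [hB2, mem_union, not_or] at hx
    have s3 : η * √(T.card + 1) ≤ ζ :=
      (mul_le_mul_of_nonneg_left (sqrt_le_sqrt (by linarith)) η0.le).trans s2
    have s4 : √(10 * Λ * ζ) ≤ 4 * Λ * √ζ := by
      refine sqrt_le_iff.2 ⟨by positivity, ?_⟩
      rw [mul_pow, sq_sqrt z0.le]
      exact mul_le_mul_of_nonneg_right (by nlinarith) z0.le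
    refine (h5 n W _ a m₂ _ η τ _ T B (by positivity) z1 η0 t0 (hT.trans hm)
      ((L C2 c2 (by linarith) τ tt).trans hη) (fun S T hS' hT' => (hS S T hS' hT').trans (by linarith))
      (k1 T hT) x hx.1 ((not_lt.1 hx.2).trans (pow_le_pow_left₀ z0.le (by linarith) 2)) v hv).mono
      (by positivity) ?_ (by linarith)
    refine (mul_le_mul (L C2 c2 (by linarith) τ tt) (add_le_add s4 (s3.trans (q2.trans
      (le_mul_of_one_le_left q0 L1)))) (by positivity) (by linarith)).trans (le_of_eq (by ring))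
  -- layer 3
  have L4 : Λ ≤ Λ ^ 4 := le_self_pow₀ L1 four_ne_zero
  refine ⟨B2 ∪ {x | ζ ^ 2 < oc W B2 τ x}, (lay a.pos W B2 t0 d0).trans ?_, fun x hx T hT v hv => ?_⟩
  · rw [sq (1 + _), mul_assoc]
    exact mul_le_mul_of_nonneg_left (lay a.pos W B t0 d0) (by positivity)
  rw [mem_union, not_or] at hx
  have L2 : Λ ^ 2 ≤ Λ ^ 4 := pow_le_pow_right₀ L1 (by norm_num)
  have L5 : 0 ≤ Λ ^ 4 * √ζ := by positivity
  refine ⟨(k2 T hT x hx.1 v hv).mono (by positivity)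
    (by nlinarith [mul_le_mul_of_nonneg_right L2 q0]) le_rfl, ?_⟩
  have := h1 n W _ a T τ (5 * Λ ^ 2 * √ζ) Λ B2 (fun s hs z i => ⟨(row_le _ i).trans
    (pow_le_pow_left₀ (opn_nonneg _) ((h4 n W _ a s hs.1 T z).trans (L C4 c4 (by linarith) s hs)) 2),
    fun hz => (k2 T hT z hz s hs).row i⟩) v hv x
  refine le_of_pow_le_pow_left₀ four_ne_zero (by positivity) (this.trans ?_)
  have q4 : √ζ ^ 4 = ζ ^ 2 := by rw [show √ζ ^ 4 = (√ζ * √ζ) ^ 2 by ring, q1]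
  have o := oc_nn a.pos W B2 t0 x
  refine (mul_le_mul (L C3 c3 (by linarith) τ tt) (add_le_add le_rfl (mul_le_mul_of_nonneg_left
    (not_lt.1 hx.2) (by positivity))) (by positivity) (by linarith)).trans ?_
  simp only [mul_pow, q4]
  have u1 : Λ * (Λ ^ 2) ^ 4 ≤ (Λ ^ 4) ^ 4 := by
    rw [← pow_mul, ← pow_mul, ← pow_succ']; exact pow_le_pow_right₀ L1 (by norm_num)
  have u2 : Λ * Λ ^ 4 ≤ (Λ ^ 4) ^ 4 := by
    rw [← pow_mul, ← pow_succ']; exact pow_le_pow_right₀ L1 (by norm_num)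
  have u3 : 0 ≤ (Λ ^ 4) ^ 4 * ζ ^ 2 := by positivity
  nlinarith [mul_le_mul_of_nonneg_right u1 d0.le, mul_le_mul_of_nonneg_right u2 d0.le]

/-- the sizes -/
theorem sizes {C κ k c δ e r : ℝ} (hC : 1 ≤ C) (k1 : k < κ) (k2 : k ≤ 1 / 8)
    (c0 : 0 < c) (c1 : c ≤ k / 4) (d0 : 0 < δ) (d1 : C * δ ≤ c / 32) (r0 : 0 < r) (r1 : 2 * r < e) :
    ∀ᶠ n : ℕ in atTop, C * exp (C * (δ * log n)) ≤ (n : ℝ) ^ (c / 16) ∧
      10 * (n : ℝ) ^ (c / 16) * (n : ℝ) ^ (-c) ≤ 1 ∧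
      (n : ℝ) ^ (c / 16) ≤ ((n : ℝ) ^ (k - 1 / 2)) ^ 2 * (n : ℝ) ^ (1 - k) ∧
      √((n : ℝ) ^ (1 - 4 * k) / n) ≤ (n : ℝ) ^ (-c) ∧
      (n : ℝ) ^ (k - 1 / 2) * √((n : ℝ) ^ (1 - 4 * k) + 1) ≤ (n : ℝ) ^ (-c) ∧
      exp (-((r * log n) ^ 2 / C)) ≤ (n : ℝ) ^ (-c) ∧ 24 * exp (2 * (r * log n)) ≤ (n : ℝ) ^ e ∧
      10 * ((n : ℝ) ^ (c / 16)) ^ 4 * √((n : ℝ) ^ (-c)) ≤ (n : ℝ) ^ (-(c / 8)) ∧
      (1 + δ * log n / ((n : ℝ) ^ (-c)) ^ 2) ^ 2 * (exp (-(n : ℝ) ^ (1 - k)) +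
        C * (δ * log n + 1) * n ^ 2 / (n : ℝ) ^ (-c) * exp (-(n * ((n : ℝ) ^ (-c)) ^ 2 / C))) ≤
        exp (-(n : ℝ) ^ (1 - κ)) := by
  filter_upwards [eventually_ge_atTop 1, B.ev_mul C (show c / 32 < c / 16 by linarith),
    B.ev_mul 10 (show c / 16 + -c < 0 by linarith), B.ev_mul 2 (show -(2 * k) < -(2 * c) by linarith),
    B.ev_mul 24 r1, B.ev_mul 10 (show -(c / 4) < -(c / 8) by linarith),
    B.ev_mul C (show 1 - k < 1 - 2 * c by linarith), B.ev_mul 2 (show 1 - κ < 1 - k by linarith),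
    B.ev_log_le 32 (show 0 < 1 - k by linarith), B.ev_mul (4 * log (12 * C))
      (show 0 < 1 - k by linarith), (tendsto_log_atTop.comp
      tendsto_natCast_atTop_atTop).eventually_ge_atTop (c * C / r ^ 2)]
    with n hn a1 a2 a3 a4 a5 a6 a7 a8 a9 a10
  have n1 : (1 : ℝ) ≤ n := by exact_mod_cast hn
  have n0 : (0 : ℝ) < n := by linarith
  have l0 := log_nonneg n1
  have ex : ∀ x : ℝ, exp (x * log n) = (n : ℝ) ^ x := fun x => by rw [rpow_def_of_pos n0, mul_comm]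
  have mo : ∀ x y : ℝ, x ≤ y → (n : ℝ) ^ x ≤ (n : ℝ) ^ y := fun x y => rpow_le_rpow_of_exponent_le n1
  have p2 : ∀ x : ℝ, ((n : ℝ) ^ x) ^ 2 = (n : ℝ) ^ (2 * x) := fun x => by
    rw [sq, ← rpow_add n0, two_mul]
  have C0 : 0 < C := by linarith
  rw [rpow_zero] at a2 a9
  refine ⟨le_trans ?_ a1, by rwa [mul_assoc, ← rpow_add n0], ?_, ?_, ?_, ?_, ?_, ?_, ?_⟩
  · rw [← mul_assoc, ex]; exact mul_le_mul_of_nonneg_left (mo _ _ d1) C0.le
  · rw [p2, ← rpow_add n0]; exact mo _ _ (by linarith)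
  · rw [sqrt_le_left (by positivity), p2, ← rpow_sub_one n0.ne']; exact mo _ _ (by linarith)
  · refine le_of_pow_le_pow_left₀ two_ne_zero (by positivity) ?_
    rw [mul_pow, sq_sqrt (by positivity), p2, p2, mul_neg]
    refine le_trans ?_ a3
    have h1 : (n : ℝ) ^ (2 * (k - 1 / 2)) * (n : ℝ) ^ (1 - 4 * k) = (n : ℝ) ^ (-(2 * k)) := by
      rw [← rpow_add n0]; congr 1; ring
    have h2 := mo (2 * (k - 1 / 2)) (-(2 * k)) (by linarith)
    linarith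
  · rw [← ex]
    refine exp_le_exp.2 ?_
    have : c * C ≤ log n * r ^ 2 := (div_le_iff₀ (by positivity)).1 a10
    rw [neg_mul, neg_le_neg_iff, le_div_iff₀ C0]
    nlinarith
  · rwa [← mul_assoc 2, ex]
  · refine le_trans (le_of_eq ?_) a5
    rw [sqrt_eq_rpow, ← rpow_mul n0.le, ← rpow_natCast, ← rpow_mul n0.le, mul_assoc, ← rpow_add n0]
    congr 2; push_cast; ring
  · have t1 : δ * log n ≤ n := by
      have := log_le_sub_one_of_pos n0
      have : δ ≤ 1 := by nlinarith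
      nlinarith
    have t2 : 1 / ((n : ℝ) ^ (-c)) ^ 2 ≤ n := by
      rw [p2, one_div, ← rpow_neg n0.le]
      simpa using mo (-(2 * -c)) 1 (by linarith)
    have t3 : 1 / (n : ℝ) ^ (-c) ≤ n := by
      rw [one_div, ← rpow_neg n0.le]
      simpa using mo (- -c) 1 (by linarith)
    have t4 : 1 + δ * log n / ((n : ℝ) ^ (-c)) ^ 2 ≤ 2 * n ^ 2 := by
      have := mul_le_mul t1 t2 (by positivity) n0.le
      rw [mul_one_div] at this
      nlinarith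
    have t5 : C * (δ * log n + 1) * n ^ 2 / (n : ℝ) ^ (-c) ≤ 2 * C * n ^ 4 := by
      rw [← mul_one_div]
      refine (mul_le_mul (mul_le_mul_of_nonneg_right (mul_le_mul_of_nonneg_left
        (show δ * log n + 1 ≤ 2 * n by linarith) C0.le) (by positivity)) t3 (by positivity)
        (by positivity)).trans (le_of_eq (by ring))
    have t6 : exp (-(n * ((n : ℝ) ^ (-c)) ^ 2 / C)) ≤ exp (-(n : ℝ) ^ (1 - k)) := by
      refine exp_le_exp.2 (neg_le_neg ((le_div_iff₀' C0).2 (a6.trans (le_of_eq ?_))))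
      rw [p2, sub_eq_add_neg, rpow_add n0, rpow_one, mul_neg]
    have t7 : (1 : ℝ) ≤ C * n ^ 4 := one_le_mul_of_one_le_of_one_le hC (one_le_pow₀ n1)
    have t8 : 12 * C * n ^ 8 * exp (-(n : ℝ) ^ (1 - k)) ≤ exp (-(n : ℝ) ^ (1 - κ)) := by
      rw [← exp_log (show 0 < 12 * C by positivity), ← rpow_natCast, ← ex, ← exp_add, ← exp_add]
      refine exp_le_exp.2 ?_
      push_cast
      linarith
    refine le_trans ?_ t8
    have E := exp_pos (-(n : ℝ) ^ (1 - k))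
    refine (mul_le_mul (pow_le_pow_left₀ (by positivity) t4 2) (add_le_add
      (le_mul_of_one_le_left E.le t7) (mul_le_mul t5 t6 (exp_pos _).le (by positivity)))
      (by positivity) (by positivity)).trans (le_of_eq (by ring))

set_option maxHeartbeats 1600000 in
theorem fGlue : FGlue := fun h1 _ h3 h4 h5 h6 h7 hA β a b0 b1 a0 a1 hS κ κ0 => by
  obtain ⟨K1, -, hN⟩ := niceStmt
  obtain ⟨K2, K0, hA⟩ := hA β b0.le b1
  obtain ⟨C1, c1, h1⟩ := layers h1 h3 h5 (max K1 K2)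
  obtain ⟨C2, c2, h4⟩ := h4 (max K1 K2) (lt_max_of_lt_right K0)
  set k := min (κ / 2) (1 / 8) with hk
  have k0 : 0 < k := lt_min (half_pos κ0) (by norm_num)
  have k1 : k ≤ κ / 2 := min_le_left _ _
  have k2 : k ≤ 1 / 8 := min_le_right _ _
  obtain ⟨cP, cP0, δP, δP0, h6⟩ := h6 β b0.le b1.le k k0 k2
  obtain ⟨cS, cS0, δS, δS0, hS⟩ := hS
  set c := min (min cP (cS / 2)) (k / 4) with hc
  have c0 : 0 < c := lt_min (lt_min cP0 (half_pos cS0)) (by positivity)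
  have c3 : c ≤ cP := (min_le_left _ _).trans (min_le_left _ _)
  have c4 : c ≤ cS / 2 := (min_le_left _ _).trans (min_le_right _ _)
  have c5 : c ≤ k / 4 := min_le_right _ _
  set δ := min (min δP (δS / 2)) (c / 32 / (C1 + C2)) with hδ
  have d0 : 0 < δ := lt_min (lt_min δP0 (half_pos δS0)) (by positivity)
  have d1 : δ ≤ δP := (min_le_left _ _).trans (min_le_left _ _)
  have d2 : δ ≤ δS / 2 := (min_le_left _ _).trans (min_le_right _ _)
  have d3 : (C1 + C2) * δ ≤ c / 32 := (le_div_iff₀' (by positivity)).1 (min_le_right _ _)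
  refine ⟨c / 8, by positivity, δ, d0, fun e e0 => (((hN.and hA).and h6).and hS).mono ?_⟩
  set r := min e c / 4 with hr
  have r0 : 0 < r := by have := lt_min e0 c0; positivity
  have r1 : 4 * r ≤ e := by have := min_le_left e c; linarith
  have r2 : 4 * r ≤ c := by have := min_le_right e c; linarith
  filter_upwards [eventually_ge_atTop 1, sizes (C := C1 + C2) (κ := κ) (e := e) (by linarith)
    (by linarith) k2 c0 c5 d0 d3 r0 (by linarith)]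
    with n hn ⟨s1, s2, s3, s4, s5, s6, s7, s8, s9⟩ g ⟨⟨⟨g1, g2⟩, g3, g4⟩, g5⟩
  have n1 : (1 : ℝ) ≤ n := by exact_mod_cast hn
  have n0 : (0 : ℝ) < n := by linarith
  have l0 := log_nonneg n1
  have ex : ∀ x : ℝ, exp (x * log n) = (n : ℝ) ^ x := fun x => by rw [rpow_def_of_pos n0, mul_comm]
  have mo : ∀ x y : ℝ, x ≤ y → (n : ℝ) ^ x ≤ (n : ℝ) ^ y := fun x y => rpow_le_rpow_of_exponent_le n1
  set W := β • Jmat n g with hW
  have w1 : Nice W (max K1 K2) := nice_mono (g1 β b0.le b1.le) (le_max_left _ _)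
  have w2 : Ent.AT (mu W) (max K1 K2) 0 := by
    rw [gibbsWeight_eq_ising] at g2
    exact Ent.AT.mono g2 (mu_pos W) (le_max_right _ _) le_rfl
  obtain ⟨ρ1, ρ2, ρ3⟩ := h7 n W β hn w1.1
  have bb : β ^ 2 ≤ 1 := pow_le_one₀ b0.le b1.le
  have ad : Adm W (max K1 K2) (rho β W) := ⟨hn, w1, fun i => by simp [hW, Jmat_diag], ρ1,
    fun v hv => ⟨(ρ2 v hv).1, (ρ2 v hv).2.trans bb⟩⟩
  have t0 : 0 ≤ δ * log n := by positivity
  have ρ4 := fun σ (p : 0 ≤ σ) (q : σ < a) => ρ3 a σ _ (δ * log n) p q a1 (by positivity) fun v hv =>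
    g5 v ⟨hv.1, hv.2.trans (by nlinarith only [mul_le_mul_of_nonneg_right d2 l0])⟩
  refine ⟨fun σ p q v hv => (ρ4 σ p q v hv).2.trans ?_, ?_⟩
  · rw [mul_add]
    refine add_le_add le_rfl ((mul_le_of_le_one_left (by positivity) bb).trans ?_)
    have : exp (σ * v) ≤ (n : ℝ) ^ δ := by
      rw [← ex]
      exact exp_le_exp.2 ((mul_le_of_le_one_left hv.1 (q.le.trans a1)).trans hv.2)
    refine (mul_le_mul_of_nonneg_left this (by positivity)).trans ?_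
    have d4 : δ ≤ (C1 + C2) * δ := le_mul_of_one_le_left d0.le (by linarith)
    rw [← rpow_add n0]; exact mo _ _ (by linarith)
  have z0 : 0 < (n : ℝ) ^ (-c) := by positivity
  have z1 : (n : ℝ) ^ (-c) ≤ 1 := by simpa using mo (-c) 0 (by linarith)
  have L1 : 1 ≤ (n : ℝ) ^ (c / 16) := by simpa using mo 0 (c / 16) (by linarith)
  have m4 := h4 n W hn w1 w2 (δ * log n) _ (r * log n) t0 z0 z1 (by positivity)
  have L2 : C2 * exp (C2 * (δ * log n)) ≤ (n : ℝ) ^ (c / 16) :=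
    ce_mono (by linarith) (by linarith) t0 le_rfl s1
  obtain ⟨B, hB, hG⟩ := h1 n W β ad b0.le b1.le _ _ _ _ _ (δ * log n) (δP * log n) _
    (fun v => 6 * exp (2 * (r * log n)) * exp (-(2 * a * v))) (_ ∪ _)
    (ce_mono (by linarith) (by linarith) t0 le_rfl s1) z0 s2 (by positivity) (mo _ _ (by linarith)) t0
    (by gcongr) (by positivity) (mo _ _ (by linarith)) s3 s4 s5 g3
    (fun x hx T hT => not_not.1 fun h => hx (Or.inl (show x ∈ {x | ∃ T : Finset (Fin n),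
      (T.card : ℝ) ≤ n ^ (1 - 4 * k) ∧ ¬ Cv W (n ^ (1 - k)) (n ^ (-cP)) (δP * log n)
        (fun v => β ^ 2 * vr (cav T W) v x) (fun v => β ^ 2 * Fq (cav T W) v x) T x} from ⟨T, hT, h⟩)))
    (fun x hx v hv => by
      have hx' : x ∉ {x | ∃ v ∈ Icc 0 (δ * log n), C2 * exp (C2 * (δ * log n)) * (n : ℝ) ^ (-c) <
          |vr W v x - mean (prob (mu W)) (vr W v)| ∨ 2 * exp (2 * (r * log n)) * Ee W v +
          C2 * exp (C2 * (δ * log n)) * ((n : ℝ) ^ (-c) + exp (-((r * log n) ^ 2 / C2))) < Fq W v x} :=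
        fun h => hx (Or.inr h)
      simp only [mem_ofPred_eq, not_exists, not_and, not_or, not_lt] at hx'
      obtain ⟨p, q⟩ := hx' v hv
      refine ⟨p.trans (by gcongr), q.trans ?_⟩
      have u1 := (ρ4 0 le_rfl a0 v hv).1
      have u2 : exp (-((r * log n) ^ 2 / C2)) ≤ (n : ℝ) ^ (-c) := le_trans (exp_le_exp.2
        (neg_le_neg (div_le_div_of_nonneg_left (by positivity) (by linarith) (by linarith)))) s6
      have u3 : exp (2 * (r * log n)) * (n : ℝ) ^ (-cS) ≤ (n : ℝ) ^ (-c) := by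
        rw [← mul_assoc, ex, ← rpow_add n0]; exact mo _ _ (by linarith)
      have u4 := mul_le_mul L2 (add_le_add (le_refl ((n : ℝ) ^ (-c))) u2) (by positivity) (by positivity)
      have u5 := mul_le_mul_of_nonneg_left u1 (exp_pos (2 * (r * log n))).le
      nlinarith only [u3, u4, u5, mul_le_mul_of_nonneg_right L1 z0.le])
  refine ⟨B, hB.trans (le_trans (mul_le_mul_of_nonneg_left ((mass_union (mu_pos W) _ _).trans
    (add_le_add g4 (m4.trans ?_))) (by positivity)) s9), hG.mono (by positivity) s8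
      (mo _ _ (by linarith)) fun v => ?_⟩
  · refine mul_le_mul (by gcongr; linarith) (exp_le_exp.2 (neg_le_neg (div_le_div_of_nonneg_left
      (by positivity) (by linarith) (by linarith)))) (exp_pos _).le (by positivity)
  · nlinarith only [mul_le_mul_of_nonneg_right s7 (exp_pos (-(2 * a * v))).le]

end Crest.Agent.T157.S6

end
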