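import Crest.Agent.T157.ConcHW_16
import Crest.Agent.T157.NrmS_84
import Crest.Agent.T157.CondA_53

/-!
# Row 157, part B, block S6 (helper98): Hanson-Wright inequality in operator norm
-/

set_option autoImplicit false
set_option maxHeartbeats 400000
set_option linter.unusedSectionVars false

noncomputable section

namespace Crest.Agent.T157.S6w

open MeasureTheory Matrix Set
open scoped ENNReal Kronecker
open Crest.Agent.T157.Eig Crest.Agent.T157.Conc

variable {κ ι σ τ : Type*} [Fintype κ] [DecidableEq κ] [Fintype ι] [DecidableEq ι] [Fintype σ]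
  [Fintype τ]

/-- the matrix of the coordinates -/
def mat (x : κ × ι → ℝ) : Matrix κ ι ℝ := of fun k i => x (k, i)

lemma en_eq (x : σ → ℝ) : en x = nrm x := by simp only [en, nrm, dotProduct, sq]

lemma bil (u w : κ → ℝ) (A : Matrix ι ι ℝ) (x y : κ × ι → ℝ) :
    x ⬝ᵥ (vecMulVec u w ⊗ₖ A) *ᵥ y = ((mat x)ᵀ *ᵥ u) ⬝ᵥ A *ᵥ ((mat y)ᵀ *ᵥ w) := by
  simp only [dotProduct, mulVec, Fintype.sum_prod_type, kroneckerMap_apply, vecMulVec_apply, mat,
    transpose_apply, of_apply, Finset.mul_sum, Finset.sum_mul]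
  rw [Finset.sum_comm]
  refine Finset.sum_congr rfl fun i _ => ?_
  rw [Finset.sum_comm, Finset.sum_comm (s := Finset.univ (α := ι))]
  refine Finset.sum_congr rfl fun l _ => ?_
  rw [Finset.sum_comm]
  exact Finset.sum_congr rfl fun j _ => Finset.sum_congr rfl fun k _ => by ring

lemma nrm_mat_le (x : κ × ι → ℝ) {u : κ → ℝ} (hu : nrm u ≤ 1) : nrm ((mat x)ᵀ *ᵥ u) ≤ en x := by
  have h := opB_fro (mat x)ᵀ u
  have e : fro (mat x)ᵀ = ∑ p, x p ^ 2 := by
    rw [fro_transpose, fro, Fintype.sum_prod_type]; rfl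
  rw [e, en_eq, en_eq u] at h
  exact h.trans (mul_le_of_le_one_right (Real.sqrt_nonneg _) hu)

lemma fro_le_opn (A : Matrix ι σ ℝ) [DecidableEq σ] : fro A ≤ Fintype.card ι * opn A ^ 2 := by
  refine (Finset.sum_le_card_nsmul _ _ (opn A ^ 2) fun i _ => ?_).trans (by simp)
  have h := nrm_mulVec_le Aᵀ (Pi.single i 1)
  rw [opn_transpose, ← en_eq (Pi.single i 1), en_single, mul_one, ← en_eq] at h
  have := pow_le_pow_left₀ (en_nonneg _) h 2
  rw [en_sq] at this
  simpa using this

section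
variable {ν : κ × ι → Measure ℝ} [∀ p, IsProbabilityMeasure (ν p)] (hν : SG1 ν)
  (h2 : ∀ p, ∫ x, x ^ 2 ∂ν p = 1) {A : Matrix ι ι ℝ} {K F : ℝ}
include hν h2

theorem hw_bil (hK : 0 < K) (hA : opn A ≤ K) (hF0 : 0 < F) (hF : fro A ≤ F) {u w : κ → ℝ}
    (hu : nrm u ≤ 1) (hw : nrm w ≤ 1) {t : ℝ} (ht : 0 ≤ t) :
    (Measure.pi ν).real {x | t ≤ |u ⬝ᵥ (mat x * A * (mat x)ᵀ - A.trace • 1) *ᵥ w|} ≤
      2 * Real.exp (-min (t ^ 2 / (256 * F)) (t / (32 * K))) := by
  have h1 : OpB K (vecMulVec u w ⊗ₖ A) := opB_of_bilin hK.le fun x y => by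
    rw [bil]
    refine (le_abs_self _).trans ((Eig.abs_dot_le _ _).trans ?_)
    have := (nrm_mulVec_le A ((mat y)ᵀ *ᵥ w)).trans
      (mul_le_mul hA (nrm_mat_le y hw) (nrm_nonneg _) hK.le)
    exact (mul_le_mul (nrm_mat_le x hu) this (nrm_nonneg _) (en_nonneg _)).trans (le_of_eq (by ring))
  have h3 : fro (vecMulVec u w ⊗ₖ A) ≤ F := by
    have e : fro (vecMulVec u w ⊗ₖ A) = nrm u ^ 2 * nrm w ^ 2 * fro A := by
      simp only [fro, nrm_sq, dotProduct, Fintype.sum_prod_type, kroneckerMap_apply,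
        vecMulVec_apply, Finset.mul_sum, Finset.sum_mul]
      rw [Finset.sum_comm]
      refine Finset.sum_congr rfl fun i _ => ?_
      rw [Finset.sum_comm, Finset.sum_comm (s := Finset.univ (α := ι))]
      refine Finset.sum_congr rfl fun l _ => ?_
      rw [Finset.sum_comm]
      exact Finset.sum_congr rfl fun j _ => Finset.sum_congr rfl fun k _ => by ring
    rw [e]
    exact (mul_le_of_le_one_left (fro_nonneg _) (mul_le_one₀ (pow_le_one₀ (nrm_nonneg _) hu)
      (sq_nonneg _) (pow_le_one₀ (nrm_nonneg _) hw))).trans hF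
  refine le_of_eq_of_le ?_ (hw_tail hν h2 hK h1 hF0 h3 ht)
  congr 1
  ext x
  rw [mem_setOf_eq, mem_setOf_eq, bil, trace_kronecker, trace_vecMulVec, sub_mulVec, dotProduct_sub,
    smul_mulVec, one_mulVec, dotProduct_smul, ← mulVec_mulVec, ← mulVec_mulVec,
    dotProduct_mulVec u, ← mulVec_transpose, smul_eq_mul, mul_comm]

/-- **(HWop)** -/
theorem hw_op (hK : 0 < K) (hA : opn A ≤ K) (hF0 : 0 < F) (hF : fro A ≤ F) {t : ℝ} (ht : 0 ≤ t) :
    (Measure.pi ν).real {x | 4 * t < opn (mat x * A * (mat x)ᵀ - A.trace • 1)} ≤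
      2 * 25 ^ Fintype.card κ * Real.exp (-min (t ^ 2 / (256 * F)) (t / (32 * K))) := by
  obtain ⟨N, c1, c2, c3⟩ := Nrm.exists_half_net κ
  refine (measureReal_mono (s₂ := ⋃ p ∈ N ×ˢ N,
    {x | t ≤ |p.1 ⬝ᵥ (mat x * A * (mat x)ᵀ - A.trace • 1) *ᵥ p.2|}) (fun x hx => ?_)
    (measure_ne_top _ _)).trans ((measureReal_biUnion_finset_le _ _).trans ((Finset.sum_le_card_nsmul _ _ _ fun p hp =>
      hw_bil hν h2 hK hA hF0 hF (c2 _ (Finset.mem_product.1 hp).1)
        (c2 _ (Finset.mem_product.1 hp).2) ht).trans ?_))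
  · by_contra h
    simp only [mem_iUnion, mem_setOf_eq, not_exists, not_le] at h
    exact hx.not_ge (Nrm.opn_le_of_net c3 c3 fun c hc d hd =>
      (le_abs_self _).trans (h (c, d) (Finset.mem_product.2 ⟨hc, hd⟩)).le)
  · rw [nsmul_eq_mul, ← mul_assoc, mul_comm _ (2 : ℝ), Finset.card_product]
    refine mul_le_mul_of_nonneg_right (mul_le_mul_of_nonneg_left ?_ zero_le_two) (Real.exp_pos _).le
    rw [show (25 : ℝ) = 5 * 5 by norm_num, mul_pow]
    exact_mod_cast Nat.mul_le_mul c1 c1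

/-- **(HWop)**, relative error `s` for any `n ≥ |ι|` -/
theorem hw_op' (hK : 0 < K) (hA : opn A ≤ K) {n s : ℝ} (hn0 : 0 < n) (hn : Fintype.card ι ≤ n)
    (hs : 0 ≤ s) (hs1 : s ≤ 1) :
    (Measure.pi ν).real {x | s * n * K < opn (mat x * A * (mat x)ᵀ - A.trace • 1)} ≤
      2 * 25 ^ Fintype.card κ * Real.exp (-(n * s ^ 2 / 4096)) := by
  have h := hw_op hν h2 hK hA (F := n * K ^ 2) (by positivity) ((fro_le_opn A).trans (mul_le_mul hn
    (pow_le_pow_left₀ (opn_nonneg _) hA 2) (sq_nonneg _) hn0.le)) (t := s * n * K / 4)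
    (by positivity)
  rw [mul_div_cancel₀ _ (by norm_num : (4 : ℝ) ≠ 0)] at h
  refine h.trans (mul_le_mul_of_nonneg_left (Real.exp_le_exp.2 (neg_le_neg (le_min
    (le_of_eq (by field_simp; ring)) ?_))) (by positivity))
  rw [show s * n * K / 4 / (32 * K) = n * s / 128 by field_simp; ring]
  nlinarith [mul_nonneg hn0.le hs, mul_le_mul_of_nonneg_left hs1 (mul_nonneg hn0.le hs)]

end

/-! ### conditioning on the other coordinates -/

theorem mp_extend (ν : σ → Measure ℝ) [∀ p, IsProbabilityMeasure (ν p)] {e : τ → σ}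
    (he : Function.Injective e) :
    MeasurePreserving (fun p : (σ → ℝ) × (τ → ℝ) => Function.extend e p.2 p.1)
      ((Measure.pi ν).prod (Measure.pi fun j => ν (e j))) (Measure.pi ν) := by
  classical
  have hm : Measurable fun p : (σ → ℝ) × (τ → ℝ) => Function.extend e p.2 p.1 :=
    measurable_pi_lambda _ fun i => by
      by_cases h : ∃ j, e j = i
      · obtain ⟨j, rfl⟩ := h
        simp only [he.extend_apply]; fun_prop
      · simp only [Function.extend_apply' _ _ _ h]; fun_prop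
  refine ⟨hm, (Measure.pi_eq fun s hs => ?_).symm⟩
  have e1 : (fun p : (σ → ℝ) × (τ → ℝ) => Function.extend e p.2 p.1) ⁻¹' pi univ s =
      pi univ (fun i => if i ∈ Finset.univ.image e then univ else s i) ×ˢ
        pi univ fun j => s (e j) := by
    ext p
    simp only [mem_preimage, mem_pi, mem_univ, forall_const, mem_prod, Finset.mem_image,
      Finset.mem_univ, true_and]
    refine ⟨fun h => ⟨fun i => ?_, fun j => by simpa only [he.extend_apply] using h (e j)⟩,
      fun h i => ?_⟩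
    · split_ifs with hi
      · trivial
      · simpa only [Function.extend_apply' _ _ _ hi] using h i
    · by_cases hi : ∃ j, e j = i
      · obtain ⟨j, rfl⟩ := hi
        simpa only [he.extend_apply] using h.2 j
      · simpa only [Function.extend_apply' _ _ _ hi, if_neg hi] using h.1 i
  rw [Measure.map_apply hm (MeasurableSet.univ_pi hs), e1, Measure.prod_prod, Measure.pi_pi,
    Measure.pi_pi, ← Finset.prod_image (f := fun i => ν i (s i)) fun _ _ _ _ h => he h,
    ← Finset.prod_compl_mul_prod (Finset.univ.image e),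
    ← Finset.prod_compl_mul_prod (Finset.univ.image e) (f := fun i => ν i (s i))]
  congr 1
  rw [Finset.prod_eq_one (s := Finset.univ.image e) fun i hi => by rw [if_pos hi, measure_univ],
    mul_one]
  exact Finset.prod_congr rfl fun i hi => by rw [if_neg (Finset.mem_compl.1 hi)]

/-- a bound for all sections is a bound -/
theorem cond_le (ν : σ → Measure ℝ) [∀ p, IsProbabilityMeasure (ν p)] {e : τ → σ}
    (he : Function.Injective e) {E : Set (σ → ℝ)} (hE : MeasurableSet E) {δ : ℝ}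
    (h : ∀ y, (Measure.pi fun j => ν (e j)).real {z | Function.extend e z y ∈ E} ≤ δ) :
    (Measure.pi ν).real E ≤ δ := by
  have h0 : 0 ≤ δ := measureReal_nonneg.trans (h 0)
  have mp := mp_extend ν he
  rw [measureReal_def, ← mp.measure_preimage hE.nullMeasurableSet,
    Measure.prod_apply (mp.measurable hE)]
  refine ENNReal.toReal_le_of_le_ofReal h0 ((lintegral_mono fun y => ?_).trans
    (le_of_eq (by rw [lintegral_const, measure_univ, mul_one])))
  exact (ENNReal.le_ofReal_iff_toReal_le (measure_ne_top _ _) h0).2 (h y)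

lemma meas_hw {X : Type*} [MeasurableSpace X] {G : X → Matrix κ ι ℝ} {A : X → Matrix ι ι ℝ}
    (hG : Measurable G) (hA : Measurable A) :
    Measurable fun x => opn (G x * A x * (G x)ᵀ - (A x).trace • 1) := by
  have : Continuous fun p : Matrix κ ι ℝ × Matrix ι ι ℝ =>
      opn (p.1 * p.2 * (p.1)ᵀ - p.2.trace • (1 : Matrix κ κ ℝ)) :=
    continuous_opn.comp (by fun_prop)
  simpa only [Function.comp_def] using this.measurable.comp (hG.prodMk hA)

lemma meas_mat (e : κ × ι → σ) : Measurable fun x : σ → ℝ => mat (x ∘ e) :=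
  measurable_pi_lambda _ fun k => measurable_pi_lambda _ fun i => measurable_pi_apply (e (k, i))

/-- **(HWop)** for a matrix `A` which depends on the other coordinates -/
theorem hw_cond {ν : σ → Measure ℝ} [∀ p, IsProbabilityMeasure (ν p)] (hν : SG1 ν)
    (h2 : ∀ p, ∫ x, x ^ 2 ∂ν p = 1) {e : κ × ι → σ} (he : Function.Injective e)
    {A : (σ → ℝ) → Matrix ι ι ℝ} (hm : Measurable A)
    (hA : ∀ y z, A (Function.extend e z y) = A y) {K n s : ℝ} (hK : 0 < K) (hn0 : 0 < n)
    (hn : Fintype.card ι ≤ n) (hs : 0 ≤ s) (hs1 : s ≤ 1) :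
    (Measure.pi ν).real {x | opn (A x) ≤ K ∧
      s * n * K < opn (mat (x ∘ e) * A x * (mat (x ∘ e))ᵀ - (A x).trace • 1)} ≤
      2 * 25 ^ Fintype.card κ * Real.exp (-(n * s ^ 2 / 4096)) := by
  refine cond_le ν he ((measurableSet_le (continuous_opn.measurable.comp hm) measurable_const).inter
    (measurableSet_lt measurable_const (meas_hw (meas_mat e) hm))) fun y => ?_
  by_cases h : opn (A y) ≤ K
  · refine (measureReal_mono (fun z hz => ?_) (measure_ne_top _ _)).trans
      (hw_op' (fun p => hν (e p)) (fun p => h2 (e p)) hK h hn0 hn hs hs1)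
    have := hz.2
    rwa [mem_setOf_eq, hA, Function.extend_comp he] at this
  · refine (measureReal_mono (s₂ := ∅) (fun z hz => h (hA y z ▸ hz.1)) (measure_ne_top _ _)).trans ?_
    rw [measureReal_empty]; positivity

/-- **(HWop)** in the form of the consumer -/
theorem hwop : ∃ c > (0 : ℝ), ∀ (κ ι : Type) [Fintype κ] [Fintype ι] [DecidableEq κ] [DecidableEq ι]
    (A : Matrix ι ι ℝ) (N s : ℝ), (Fintype.card ι : ℝ) ≤ N → 0 < s → s ≤ 1 →
    (E.gv (κ × ι)).real {G | s * N * opn A < opn ((of fun k i => G (k, i)) * A *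
      (of fun k i => G (k, i))ᵀ - A.trace • (1 : Matrix κ κ ℝ))} ≤
      2 * 81 ^ Fintype.card κ * Real.exp (-(c * N * s ^ 2)) := by
  refine ⟨1 / 4096, by norm_num, fun κ ι _ _ _ _ A N s hN hs hs1 => ?_⟩
  rcases (opn_nonneg A).eq_or_lt with h | h
  · have e : A = 0 := by
      ext i j; exact abs_nonpos_iff.1 ((abs_entry_le A i j).trans h.ge)
    subst e
    simp only [Matrix.mul_zero, Matrix.zero_mul, trace_zero, zero_smul, sub_zero, opn_zero, mul_zero,
      lt_self_iff_false, setOf_false, measureReal_empty]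
    positivity
  rcases le_or_gt N 0 with hn | hn
  · refine measureReal_le_one.trans ?_
    have h1 : (1 : ℝ) ≤ 81 ^ Fintype.card κ := one_le_pow₀ (by norm_num)
    have h2 : 1 ≤ Real.exp (-(1 / 4096 * N * s ^ 2)) :=
      Real.one_le_exp (by nlinarith [mul_nonneg (neg_nonneg.2 hn) (sq_nonneg s)])
    nlinarith
  · refine (hw_op' sg1_gauss (fun _ => sq_entry false) h le_rfl hn hN hs.le hs1).trans ?_
    rw [show 1 / 4096 * N * s ^ 2 = N * s ^ 2 / 4096 by ring]
    gcongr; norm_num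

end Crest.Agent.T157.S6w

end
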