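import Crest.Agent.T157.EigN_84
import Crest.Agent.T157.S6Cmp_20

/-!
# Row 157, block S6 (helper74): first touching and the operator-norm Bochner inequality (OB)
-/

set_option autoImplicit false
set_option linter.unusedSectionVars false

noncomputable section

namespace Crest.Agent.T157.S6o

open Matrix Real Filter Topology Set
open Crest.Agent.T157.Eig

/-- continuous induction for a finite family -/
theorem boot {X : Type*} [Finite X] {g B : ℝ → X → ℝ} {T : ℝ}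
    (hg : ∀ x, ContinuousOn (fun v => g v x) (Icc 0 T))
    (hB : ∀ x, ContinuousOn (fun v => B v x) (Icc 0 T)) (h0 : ∀ x, g 0 x < B 0 x)
    (h : ∀ v ∈ Ioc 0 T, (∀ u ∈ Icc 0 v, ∀ y, g u y ≤ B u y) →
      (∀ u ∈ Ico 0 v, ∀ y, g u y < B u y) → ∀ x, g v x ≠ B v x) :
    ∀ v ∈ Icc 0 T, ∀ x, g v x < B v x := by
  by_contra hc
  push Not at hc
  have hcl : IsClosed (⋃ x, {v ∈ Icc 0 T | B v x ≤ g v x}) :=
    isClosed_iUnion_of_finite fun x => isClosed_Icc.isClosed_le (hB x) (hg x)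
  have hsub : (⋃ x, {v ∈ Icc 0 T | B v x ≤ g v x}) ⊆ Icc 0 T := iUnion_subset fun x v hv => hv.1
  obtain ⟨v1, h1, x1, h2⟩ := hc
  obtain ⟨v, hv, hmin⟩ := (isCompact_Icc.of_isClosed_subset hcl hsub).exists_isLeast
    ⟨v1, mem_iUnion.2 ⟨x1, h1, h2⟩⟩
  obtain ⟨x, hI, hx⟩ := mem_iUnion.1 hv
  have v0 : 0 < v := hI.1.lt_of_ne fun e => absurd hx (by rw [← e]; exact not_le.2 (h0 x))
  have lt : ∀ u ∈ Ico 0 v, ∀ y, g u y < B u y := fun u hu y => not_le.1 fun hh =>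
    absurd (hmin (mem_iUnion.2 ⟨y, ⟨hu.1, hu.2.le.trans hI.2⟩, hh⟩)) (not_le.2 hu.2)
  have le : ∀ y, g v y ≤ B v y := fun y => by
    have hc : IsClosed {u ∈ Icc 0 T | g u y ≤ B u y} := isClosed_Icc.isClosed_le (hg y) (hB y)
    have hs : Ico 0 v ⊆ {u ∈ Icc 0 T | g u y ≤ B u y} := fun u hu =>
      ⟨⟨hu.1, hu.2.le.trans hI.2⟩, (lt u hu y).le⟩
    have := closure_minimal hs hc
    rw [closure_Ico v0.ne] at this
    exact (this ⟨v0.le, le_rfl⟩).2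
  refine h v ⟨v0, hI.2⟩ (fun u hu y => ?_) lt x (le_antisymm (le x) hx)
  rcases hu.2.eq_or_lt with e | e
  · rw [e]; exact le y
  · exact (lt u ⟨hu.1, e⟩ y).le

/-- a function that is nonnegative before a zero has a nonpositive derivative there -/
theorem deriv_le_of_left {ψ : ℝ → ℝ} {ψ' T v : ℝ} (hv : v ∈ Ioc 0 T)
    (hd : HasDerivWithinAt ψ ψ' (Icc 0 T) v) (h0 : ψ v = 0) (h : ∀ u ∈ Ico 0 v, 0 ≤ ψ u) :
    ψ' ≤ 0 := by
  have h1 : HasDerivWithinAt ψ ψ' (Ico 0 v) v :=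
    hd.mono fun u hu => ⟨hu.1, hu.2.le.trans hv.2⟩
  rw [hasDerivWithinAt_iff_tendsto_slope' (by simp)] at h1
  have : (𝓝[Ico 0 v] v).NeBot := right_nhdsWithin_Ico_neBot hv.1
  refine le_of_tendsto h1 (eventually_nhdsWithin_of_forall fun u hu => ?_)
  rw [slope_def_field, h0, sub_zero]
  exact div_nonpos_of_nonneg_of_nonpos (h u hu) (sub_nonpos.2 hu.2.le)

/-- first touching: `g` is touched from below by a differentiable `φ` -/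
theorem touch {X : Type*} [Finite X] {g B B' : ℝ → X → ℝ} {T : ℝ}
    (hg : ∀ x, ContinuousOn (fun v => g v x) (Icc 0 T))
    (hB : ∀ v ∈ Icc 0 T, ∀ x, HasDerivWithinAt (fun u => B u x) (B' v x) (Icc 0 T) v)
    (h0 : ∀ x, g 0 x < B 0 x)
    (h : ∀ v ∈ Ioc 0 T, (∀ u ∈ Icc 0 v, ∀ y, g u y ≤ B u y) → ∀ x, g v x = B v x →
      ∃ (φ : ℝ → ℝ) (φ' : ℝ), HasDerivWithinAt φ φ' (Icc 0 T) v ∧ φ v = g v x ∧
        (∀ u ∈ Ico 0 v, φ u ≤ g u x) ∧ φ' < B' v x) :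
    ∀ v ∈ Icc 0 T, ∀ x, g v x < B v x := by
  refine boot hg (fun x v hv => (hB v hv x).continuousWithinAt) h0 fun v hv hle hlt x e => ?_
  obtain ⟨φ, φ', hd, e1, hb, hs⟩ := h v hv hle x e
  have := deriv_le_of_left hv ((hB v ⟨hv.1.le, hv.2⟩ x).sub hd) (by simp [e1, e]) fun u hu => by
    have := hb u hu
    have := hlt u hu x
    simp only [Pi.sub_apply]
    linarith
  linarith

variable {ι I K : Type*} [Fintype ι] [Fintype I] [DecidableEq I] [Fintype K] [DecidableEq K]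

/-- top singular vectors -/
theorem exists_sing {S : Matrix I K ℝ} (h : 0 < opn S) : ∃ (u : I → ℝ) (w : K → ℝ),
    u ⬝ᵥ u = 1 ∧ w ⬝ᵥ w = 1 ∧ S *ᵥ w = opn S • u ∧ Sᵀ *ᵥ u = opn S • w := by
  have hK : IsCompact {w : K → ℝ | w ⬝ᵥ w = 1} := by
    refine Metric.isCompact_of_isClosed_isBounded (isClosed_eq (by fun_prop) continuous_const) ?_
    refine (Metric.isBounded_closedBall (x := (0 : K → ℝ)) (r := 1)).subset fun w hw => ?_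
    rw [mem_closedBall_zero_iff, pi_norm_le_iff_of_nonneg zero_le_one]
    intro i
    have := abs_apply_le_nrm w i
    have e : nrm w = 1 := by
      have := nrm_sq w
      rw [hw] at this
      nlinarith [nrm_nonneg w]
    rw [Real.norm_eq_abs]
    linarith
  have unit : ∀ v : K → ℝ, v ≠ 0 → ((nrm v)⁻¹ • v) ⬝ᵥ ((nrm v)⁻¹ • v) = 1 := fun v hv => by
    have := (nrm_pos hv).ne'
    rw [← nrm_sq, nrm_smul, abs_of_pos (inv_pos.2 (nrm_pos hv))]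
    field_simp
  have hne : {w : K → ℝ | w ⬝ᵥ w = 1}.Nonempty := by
    by_contra hn
    refine absurd (opn_le_of_nrm le_rfl fun v => ?_) (not_le.2 h)
    by_cases hv : v = 0
    · simp [hv, nrm_eq_zero.2]
    · exact absurd ⟨_, unit v hv⟩ hn
  obtain ⟨w, hw, hm⟩ := hK.exists_isMaxOn hne
    (f := fun w => nrm (S *ᵥ w)) (continuous_nrm.comp (by fun_prop)).continuousOn
  have w1 : nrm w = 1 := by
    have := nrm_sq w
    rw [show w ⬝ᵥ w = 1 from hw] at this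
    nlinarith [nrm_nonneg w]
  have e : nrm (S *ᵥ w) = opn S := by
    refine le_antisymm (by simpa [w1] using nrm_mulVec_le S w)
      (opn_le_of_nrm (nrm_nonneg _) fun v => ?_)
    by_cases hv : v = 0
    · simp [hv, nrm_eq_zero.2]
    · have h1 : nrm (S *ᵥ ((nrm v)⁻¹ • v)) ≤ nrm (S *ᵥ w) := hm (unit v hv)
      rw [mulVec_smul, nrm_smul, abs_of_pos (inv_pos.2 (nrm_pos hv)),
        inv_mul_le_iff₀ (nrm_pos hv)] at h1
      linarith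
  have hu : ((opn S)⁻¹ • S *ᵥ w) ⬝ᵥ ((opn S)⁻¹ • S *ᵥ w) = 1 := by
    rw [← nrm_sq, nrm_smul, abs_of_pos (inv_pos.2 h), e]
    field_simp
  refine ⟨(opn S)⁻¹ • S *ᵥ w, w, hu, hw, by rw [smul_smul, mul_inv_cancel₀ h.ne', one_smul], ?_⟩
  set u := (opn S)⁻¹ • S *ᵥ w with hu'
  have h1 : w ⬝ᵥ Sᵀ *ᵥ u = opn S := by
    rw [dotProduct_mulVec, vecMul_transpose, hu', dotProduct_smul, ← nrm_sq, e, smul_eq_mul]
    field_simp
  have h2 := mulVec_dot_le Sᵀ u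
  rw [opn_transpose, hu] at h2
  have h3 : (Sᵀ *ᵥ u - opn S • w) ⬝ᵥ (Sᵀ *ᵥ u - opn S • w) ≤ 0 := by
    simp only [sub_dotProduct, dotProduct_sub, smul_dotProduct, dotProduct_smul, smul_eq_mul]
    rw [dotProduct_comm (Sᵀ *ᵥ u) w, h1, show w ⬝ᵥ w = 1 from hw]
    nlinarith
  rw [← nrm_sq] at h3
  exact sub_eq_zero.1 (nrm_eq_zero.1 (by nlinarith [nrm_nonneg (Sᵀ *ᵥ u - opn S • w)]))

/-- the structure of the velocity `S'` of a matrix `S` with neighbours `Sl l` (weak form) -/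
def Str (r : ι → ℝ) (S : Matrix I K ℝ) (Sl : ι → Matrix I K ℝ) (S' : Matrix I K ℝ)
    (C E : ℝ) : Prop :=
  ∀ (u : I → ℝ) (w : K → ℝ), u ⬝ᵥ u = 1 → w ⬝ᵥ w = 1 →
    ∃ (p : ι → I → ℝ) (q : ι → K → ℝ) (ϖ θ : ι → ℝ),
      (∀ l, p l ⬝ᵥ p l ≤ r l * ϖ l ∧ q l ⬝ᵥ q l ≤ r l * ϖ l ∧ 0 ≤ ϖ l ∧ 0 ≤ θ l ∧
        θ l ^ 2 ≤ r l * ϖ l) ∧ ∑ l, ϖ l ≤ C ∧ ∑ l, θ l ≤ C ∧
      u ⬝ᵥ S' *ᵥ w ≤ ∑ l, (r l * (u ⬝ᵥ (Sl l - S) *ᵥ w) + p l ⬝ᵥ (Sl l - S) *ᵥ w +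
        u ⬝ᵥ (Sl l - S) *ᵥ q l + θ l * opn (Sl l - S)) + C * opn S + E

lemma le_add_of_sq {z a b : ℝ} (ha : 0 ≤ a) (hb : 0 ≤ b) (h : z ^ 2 ≤ 4 * a * b) : z ≤ a + b :=
  (le_abs_self z).trans (abs_le_of_sq_le_sq (by nlinarith [sq_nonneg (a - b)]) (add_nonneg ha hb))

lemma young {p y : I → ℝ} {r ϖ lam : ℝ} (hr : 0 ≤ r) (hϖ : 0 ≤ ϖ) (hp : p ⬝ᵥ p ≤ r * ϖ) :
    2 * lam * (p ⬝ᵥ y) ≤ r / 2 * (y ⬝ᵥ y) + 2 * lam ^ 2 * ϖ := by
  have y0 : 0 ≤ y ⬝ᵥ y := by rw [← nrm_sq]; positivity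
  have h1 := (dot_sq_le p y).trans (mul_le_mul_of_nonneg_right hp y0)
  refine le_add_of_sq (by positivity) (by positivity) ?_
  nlinarith [mul_le_mul_of_nonneg_left h1 (by positivity : 0 ≤ 4 * lam ^ 2)]

/-- one jump -/
lemma one {S Z : Matrix I K ℝ} {u p : I → ℝ} {w q : K → ℝ} {r ϖ θ : ℝ} (hu : u ⬝ᵥ u = 1)
    (hw : w ⬝ᵥ w = 1) (h1 : S *ᵥ w = opn S • u) (h2 : Sᵀ *ᵥ u = opn S • w) (hr : 0 ≤ r)
    (hp : p ⬝ᵥ p ≤ r * ϖ) (hq : q ⬝ᵥ q ≤ r * ϖ) (hϖ : 0 ≤ ϖ) (hθ : 0 ≤ θ) (hε : θ ^ 2 ≤ r * ϖ) :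
    4 * opn S ^ 3 * (r * (u ⬝ᵥ (Z - S) *ᵥ w) + p ⬝ᵥ (Z - S) *ᵥ w + u ⬝ᵥ (Z - S) *ᵥ q +
      θ * opn (Z - S)) ≤
      r * (opn Z ^ 4 - opn S ^ 4) + opn S ^ 4 * (9 * ϖ + 8 * θ) := by
  set Y := Z - S with hY
  have l0 := opn_nonneg S
  have m0 := opn_nonneg Z
  set lam := opn S
  set m := opn Z
  have eZ : Z = S + Y := by rw [hY]; abel
  have a1 : lam ^ 2 + 2 * lam * (u ⬝ᵥ Y *ᵥ w) + (Y *ᵥ w) ⬝ᵥ (Y *ᵥ w) ≤ m ^ 2 := by
    have := mulVec_dot_le Z w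
    rw [hw, mul_one] at this
    conv_lhs at this => rw [eZ, add_mulVec, h1]
    simp only [add_dotProduct, dotProduct_add, smul_dotProduct, dotProduct_smul, smul_eq_mul,
      hu] at this
    rw [dotProduct_comm (Y *ᵥ w) u] at this
    nlinarith
  have tr : ∀ q : K → ℝ, q ⬝ᵥ Yᵀ *ᵥ u = u ⬝ᵥ Y *ᵥ q := fun q => by
    rw [dotProduct_mulVec, vecMul_transpose, dotProduct_comm]
  have a2 : lam ^ 2 + 2 * lam * (u ⬝ᵥ Y *ᵥ w) + (Yᵀ *ᵥ u) ⬝ᵥ (Yᵀ *ᵥ u) ≤ m ^ 2 := by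
    have := mulVec_dot_le Zᵀ u
    rw [hu, mul_one, opn_transpose] at this
    conv_lhs at this => rw [eZ, transpose_add, add_mulVec, h2]
    simp only [add_dotProduct, dotProduct_add, smul_dotProduct, dotProduct_smul, smul_eq_mul,
      hw] at this
    rw [dotProduct_comm (Yᵀ *ᵥ u) w, tr] at this
    nlinarith
  have b1 := young (y := Y *ᵥ w) (lam := lam) hr hϖ hp
  have b2 := young (y := Yᵀ *ᵥ u) (lam := lam) hr hϖ hq
  rw [tr] at b2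
  have c1 : 2 * lam * (r * (u ⬝ᵥ Y *ᵥ w) + p ⬝ᵥ Y *ᵥ w + u ⬝ᵥ Y *ᵥ q) ≤
      r * (m ^ 2 - lam ^ 2) + 4 * lam ^ 2 * ϖ := by
    nlinarith [mul_le_mul_of_nonneg_left a1 hr, mul_le_mul_of_nonneg_left a2 hr]
  have c2 : opn Y ≤ m + lam := opn_sub_le Z S
  have c3 : 2 * lam * (θ * opn Y) ≤ θ * (4 * lam ^ 2 + |m ^ 2 - lam ^ 2|) := by
    have : 2 * lam * opn Y ≤ 4 * lam ^ 2 + |m ^ 2 - lam ^ 2| := by
      nlinarith [le_abs_self (m ^ 2 - lam ^ 2), sq_nonneg (m - lam),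
        mul_le_mul_of_nonneg_left c2 l0]
    nlinarith [mul_le_mul_of_nonneg_left this hθ]
  have c4 : 2 * lam ^ 2 * (θ * |m ^ 2 - lam ^ 2|) ≤
      r * (m ^ 2 - lam ^ 2) ^ 2 + ϖ * lam ^ 4 := by
    refine le_add_of_sq (by positivity) (by positivity) ?_
    have h5 := mul_le_mul_of_nonneg_right hε
      (by positivity : 0 ≤ 4 * lam ^ 4 * (m ^ 2 - lam ^ 2) ^ 2)
    rw [mul_pow, mul_pow θ, sq_abs]
    nlinarith
  have d1 := mul_le_mul_of_nonneg_left c1 (by positivity : 0 ≤ 2 * lam ^ 2)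
  have d2 := mul_le_mul_of_nonneg_left c3 (by positivity : 0 ≤ 2 * lam ^ 2)
  nlinarith

/-- **(OB)**, pointwise form at the top singular vectors -/
theorem ob_pt {r : ι → ℝ} {S S' : Matrix I K ℝ} {Sl : ι → Matrix I K ℝ} {C E : ℝ}
    (hr : ∀ l, 0 ≤ r l) (h : Str r S Sl S' C E) {u : I → ℝ}
    {w : K → ℝ} (hu : u ⬝ᵥ u = 1) (hw : w ⬝ᵥ w = 1) (h1 : S *ᵥ w = opn S • u)
    (h2 : Sᵀ *ᵥ u = opn S • w) : 4 * opn S ^ 3 * (u ⬝ᵥ S' *ᵥ w) ≤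
      ∑ l, r l * (opn (Sl l) ^ 4 - opn S ^ 4) + (21 * C + 3) * opn S ^ 4 + E ^ 4 := by
  obtain ⟨p, q, ϖ, θ, hl, s1, s2, hs⟩ := h u w hu hw
  have l0 := opn_nonneg S
  have a := Finset.sum_le_sum fun l (_ : l ∈ Finset.univ) => one (Z := Sl l) hu hw h1 h2 (hr l)
    (hl l).1 (hl l).2.1 (hl l).2.2.1 (hl l).2.2.2.1 (hl l).2.2.2.2
  have e : ∑ l, (r l * (opn (Sl l) ^ 4 - opn S ^ 4) + opn S ^ 4 * (9 * ϖ l + 8 * θ l)) =
      ∑ l, r l * (opn (Sl l) ^ 4 - opn S ^ 4) + opn S ^ 4 * (9 * ∑ l, ϖ l + 8 * ∑ l, θ l) := by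
    simp only [Finset.sum_add_distrib, mul_add, Finset.mul_sum]
  rw [← Finset.mul_sum, e] at a
  have b := mul_le_mul_of_nonneg_left hs (by positivity : 0 ≤ 4 * opn S ^ 3)
  have c : 4 * opn S ^ 3 * E ≤ 3 * opn S ^ 4 + E ^ 4 := by
    nlinarith [mul_nonneg (sq_nonneg (opn S - E)) (add_nonneg (sq_nonneg (opn S + E))
      (by positivity : 0 ≤ 2 * opn S ^ 2))]
  have d := mul_le_mul_of_nonneg_left (by linarith : 9 * ∑ l, ϖ l + 8 * ∑ l, θ l ≤ 17 * C)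
    (by positivity : 0 ≤ opn S ^ 4)
  nlinarith

lemma hasDeriv_bil {S : ℝ → Matrix I K ℝ} {S' : Matrix I K ℝ} {s : Set ℝ} {v : ℝ}
    (h : ∀ i k, HasDerivWithinAt (fun t => S t i k) (S' i k) s v) (u : I → ℝ) (w : K → ℝ) :
    HasDerivWithinAt (fun t => u ⬝ᵥ S t *ᵥ w) (u ⬝ᵥ S' *ᵥ w) s v := by
  simp only [dotProduct, mulVec]
  exact HasDerivWithinAt.fun_sum fun i _ => (HasDerivWithinAt.fun_sum fun k _ =>
    (h i k).mul_const (w k)).const_mul (u i)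

lemma cont_opn {S S' : ℝ → Matrix I K ℝ} {s : Set ℝ}
    (h : ∀ v ∈ s, ∀ i k, HasDerivWithinAt (fun t => S t i k) (S' v i k) s v) :
    ContinuousOn (fun v => opn (S v)) s :=
  continuous_opn.comp_continuousOn (continuousOn_pi.2 fun i => continuousOn_pi.2 fun k v hv =>
    (h v hv i k).continuousWithinAt)

lemma bil_four_le (A : Matrix I K ℝ) {u : I → ℝ} {w : K → ℝ} (hu : u ⬝ᵥ u = 1) (hw : w ⬝ᵥ w = 1) :
    (u ⬝ᵥ A *ᵥ w) ^ 4 ≤ opn A ^ 4 := by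
  have h := abs_bil_le A u w
  have e1 : nrm u = 1 := by have := nrm_sq u; nlinarith [nrm_nonneg u]
  have e2 : nrm w = 1 := by have := nrm_sq w; nlinarith [nrm_nonneg w]
  rw [e1, e2, mul_one, mul_one] at h
  rw [← (by decide : Even 4).pow_abs]
  exact pow_le_pow_left₀ (abs_nonneg _) h 4

/-- the test function of (OB): for use inside `touch` with coupled families -/
theorem ob_test {r : ι → ℝ} {S : ℝ → Matrix I K ℝ} {S' : Matrix I K ℝ} {Sl : ι → Matrix I K ℝ}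
    {C E v : ℝ} {s : Set ℝ} (hr : ∀ l, 0 ≤ r l)
    (hd : ∀ i k, HasDerivWithinAt (fun t => S t i k) (S' i k) s v)
    (h : Str r (S v) Sl S' C E) (hp : 0 < opn (S v) ^ 4) :
    ∃ (φ : ℝ → ℝ) (φ' : ℝ), HasDerivWithinAt φ φ' s v ∧ φ v = opn (S v) ^ 4 ∧
      (∀ t, φ t ≤ opn (S t) ^ 4) ∧ φ' ≤ ∑ l, r l * (opn (Sl l) ^ 4 - opn (S v) ^ 4) +
        (21 * C + 3) * opn (S v) ^ 4 + E ^ 4 := by
  have hp' : 0 < opn (S v) := (opn_nonneg _).lt_of_ne fun e => by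
    rw [← e] at hp; norm_num at hp
  obtain ⟨u, w, hu, hw, h1, h2⟩ := exists_sing hp'
  have e : u ⬝ᵥ S v *ᵥ w = opn (S v) := by rw [h1, dotProduct_smul, hu, smul_eq_mul, mul_one]
  refine ⟨fun t => (u ⬝ᵥ S t *ᵥ w) ^ 4, _, (hasDeriv_bil hd u w).fun_pow 4, by simp only [e],
    fun t => bil_four_le _ hu hw, ?_⟩
  have := ob_pt hr h hu hw h1 h2
  simp only [e]
  norm_num
  linarith

/-- **(OB)** in the words of `S6b.cmp` -/
theorem ob_tch {r : ι → ℝ} {S : ℝ → Matrix I K ℝ} {S' : Matrix I K ℝ} {Sl : ι → Matrix I K ℝ}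
    {C E v : ℝ} (hr : ∀ l, 0 ≤ r l) (hd : ∀ i k, HasDerivAt (fun t => S t i k) (S' i k) v)
    (h : Str r (S v) Sl S' C E) : S6b.Tch (fun t => opn (S t) ^ 4) v
      (∑ l, r l * (opn (Sl l) ^ 4 - opn (S v) ^ 4) + (21 * C + 3) * opn (S v) ^ 4 + E ^ 4) := by
  rcases (pow_nonneg (opn_nonneg (S v)) 4).eq_or_lt with e | hp
  · refine ⟨fun _ => 0, 0, hasDerivAt_const _ _, e,
      Eventually.of_forall fun t => pow_nonneg (opn_nonneg _) 4, ?_⟩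
    rw [← e]
    have := Finset.sum_nonneg fun l (_ : l ∈ Finset.univ) =>
      mul_nonneg (hr l) (pow_nonneg (opn_nonneg (Sl l)) 4)
    simp only [sub_zero, mul_zero, add_zero]
    positivity
  · obtain ⟨φ, φ', h1, h2, h3, h4⟩ := ob_test (s := univ) hr
      (fun i k => (hd i k).hasDerivWithinAt) h hp
    exact ⟨φ, φ', hasDerivWithinAt_univ.1 h1, h2, Eventually.of_forall h3, h4⟩

variable {X : Type*} [Finite X]

/-- **(OB)**, barrier form: the structure may use the barrier at all earlier times -/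
theorem ob_lt (σ : ι → X → X) {r : X → ι → ℝ} {S S' : ℝ → X → Matrix I K ℝ}
    {B B' E : ℝ → X → ℝ} {T C : ℝ} (hr : ∀ x l, 0 ≤ r x l)
    (hS : ∀ v ∈ Icc 0 T, ∀ x i k, HasDerivWithinAt (fun t => S t x i k) (S' v x i k) (Icc 0 T) v)
    (hB : ∀ v ∈ Icc 0 T, ∀ x, HasDerivWithinAt (fun t => B t x) (B' v x) (Icc 0 T) v)
    (h0 : ∀ x, opn (S 0 x) ^ 4 < B 0 x) (hpos : ∀ v ∈ Ioc 0 T, ∀ x, 0 < B v x)
    (hstr : ∀ v ∈ Ioc 0 T, (∀ t ∈ Icc 0 v, ∀ y, opn (S t y) ^ 4 ≤ B t y) →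
      ∀ x, Str (r x) (S v x) (fun l => S v (σ l x)) (S' v x) C (E v x))
    (hsup : ∀ v ∈ Ioc 0 T, ∀ x,
      ∑ l, r x l * (B v (σ l x) - B v x) + (21 * C + 3) * B v x + E v x ^ 4 < B' v x) :
    ∀ v ∈ Icc 0 T, ∀ x, opn (S v x) ^ 4 < B v x := by
  refine touch (g := fun v x => opn (S v x) ^ 4)
    (fun x => (cont_opn fun v hv => hS v hv x).pow 4) hB h0 fun v hv hle x e => ?_
  obtain ⟨φ, φ', hd, e1, hb, hs⟩ := ob_test (S := fun t => S t x) (hr x)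
    (hS v ⟨hv.1.le, hv.2⟩ x) (hstr v hv hle x) (by rw [e]; exact hpos v hv x)
  refine ⟨φ, φ', hd, e1, fun t _ => hb t, hs.trans_lt (lt_of_le_of_lt ?_ (hsup v hv x))⟩
  simp only [e]
  gcongr with l
  · exact hr x l
  · exact hle v ⟨hv.1.le, le_rfl⟩ _

/-- **(OB)**, supersolution form -/
theorem ob_le (σ : ι → X → X) {r : X → ι → ℝ} {S S' : ℝ → X → Matrix I K ℝ}
    {B B' E : ℝ → X → ℝ} {T C : ℝ} (hr : ∀ x l, 0 ≤ r x l)
    (hS : ∀ v ∈ Icc 0 T, ∀ x i k, HasDerivWithinAt (fun t => S t x i k) (S' v x i k) (Icc 0 T) v)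
    (hB : ∀ v ∈ Icc 0 T, ∀ x, HasDerivWithinAt (fun t => B t x) (B' v x) (Icc 0 T) v)
    (h0 : ∀ x, opn (S 0 x) ^ 4 ≤ B 0 x) (hpos : ∀ v ∈ Ioc 0 T, ∀ x, 0 ≤ B v x)
    (hstr : ∀ v ∈ Ioc 0 T, ∀ x, Str (r x) (S v x) (fun l => S v (σ l x)) (S' v x) C (E v x))
    (hsup : ∀ v ∈ Ioc 0 T, ∀ x,
      ∑ l, r x l * (B v (σ l x) - B v x) + (21 * C + 3) * B v x + E v x ^ 4 ≤ B' v x) :
    ∀ v ∈ Icc 0 T, ∀ x, opn (S v x) ^ 4 ≤ B v x := by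
  intro v hv x
  refine le_of_forall_pos_le_add fun δ hδ => ?_
  have hd : 0 < δ * exp (-((21 * C + 4) * v)) := by positivity
  have := ob_lt σ (B := fun t y => B t y + δ * exp (-((21 * C + 4) * v)) * exp ((21 * C + 4) * t))
    (B' := fun t y => B' t y + δ * exp (-((21 * C + 4) * v)) *
      (exp ((21 * C + 4) * t) * (21 * C + 4))) hr hS
    (fun t ht y => (hB t ht y).add ((((hasDerivAt_id' t).const_mul (21 * C + 4)).exp.const_mul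
      _).hasDerivWithinAt.congr_deriv (by simp)))
    (fun y => by have := h0 y; simp only [mul_zero, exp_zero, mul_one]; linarith)
    (fun t ht y => add_pos_of_nonneg_of_pos (hpos t ht y) (by positivity))
    (fun t ht _ => hstr t ht) (fun t ht y => by
      have := hsup t ht y
      have h2 : 0 < δ * exp (-((21 * C + 4) * v)) * exp ((21 * C + 4) * t) := by positivity
      simp only [add_sub_add_right_eq_sub]
      nlinarith) v hv x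
  rw [mul_assoc, ← exp_add, neg_add_cancel, exp_zero, mul_one] at this
  exact this.le

end Crest.Agent.T157.S6o

end
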