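import Crest.Agent.T157.S6Br_20

/-!
# Row 157, block S6 (helper20): propagation of `|V| ^ 2` and `|V| ^ (3/2)` for twisted equations
-/

set_option autoImplicit false

noncomputable section

namespace Crest.Agent.T157.S6b

open Real Matrix Finset Set
open Crest.Agent.T157.E Crest.Agent.T157.Rec
open Crest.Agent.T157.Chain22 (sg)

section pt
variable {κ ι : Type*} [Fintype κ] [Fintype ι] {e : ℝ}

/-- length -/
def nr (u : κ → ℝ) : ℝ := √(u ⬝ᵥ u)

theorem nr_nn (u : κ → ℝ) : 0 ≤ nr u := sqrt_nonneg _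
theorem nr_sq (u : κ → ℝ) : nr u ^ 2 = u ⬝ᵥ u := sq_sqrt (dn u)
theorem dot_le (u v : κ → ℝ) : u ⬝ᵥ v ≤ nr u * nr v :=
  (abs_le_of_sq_le_sq' (by rw [mul_pow, nr_sq, nr_sq]; exact cs u v)
    (mul_nonneg (nr_nn u) (nr_nn v))).2
theorem nr_le {u : κ → ℝ} {a : ℝ} (ha : 0 ≤ a) (h : u ⬝ᵥ u ≤ a ^ 2) : nr u ≤ a :=
  sqrt_le_iff.2 ⟨ha, h⟩

/-- the defect `D` is a twisted noise of size `β`, a linear term `A` and a source `γ` -/
def Tw (r : ι → ℝ) (u : κ → ℝ) (v : ι → κ → ℝ) (D β A γ : ℝ) : Prop :=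
  ∃ b : ι → ℝ, (∀ i, 0 ≤ b i) ∧ ∑ i, b i ^ 2 ≤ β ^ 2 * (u ⬝ᵥ u) ∧
    D ≤ ∑ i, r i * (b i * nr (v i)) + A * (u ⬝ᵥ u) + γ * nr u

variable {r : ι → ℝ} {u : κ → ℝ} {v : ι → κ → ℝ} {D D' β β' A A' γ γ' : ℝ}

theorem Tw.add (h : Tw r u v D β A γ) (h' : Tw r u v D' β' A' γ') (hβ : 0 ≤ β) (hβ' : 0 ≤ β') :
    Tw r u v (D + D') (β + β') (A + A') (γ + γ') := by
  obtain ⟨b, b0, b1, b2⟩ := h
  obtain ⟨c, c0, c1, c2⟩ := h'
  refine ⟨fun i => b i + c i, fun i => add_nonneg (b0 i) (c0 i), ?_, ?_⟩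
  · have k : ∑ i, b i * c i ≤ β * β' * (u ⬝ᵥ u) := (abs_le_of_sq_le_sq' (by
      refine (sum_mul_sq_le_sq_mul_sq univ b c).trans ((mul_le_mul b1 c1
        (sum_nonneg fun i _ => sq_nonneg _) (mul_nonneg (sq_nonneg _) (dn u))).trans_eq (by ring)))
      (mul_nonneg (mul_nonneg hβ hβ') (dn u))).2
    have : ∑ i, (b i + c i) ^ 2 = ∑ i, b i ^ 2 + 2 * ∑ i, b i * c i + ∑ i, c i ^ 2 := by
      rw [mul_sum, ← sum_add_distrib, ← sum_add_distrib]; exact sum_congr rfl fun i _ => by ring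
    rw [this]; nlinarith
  · have : ∑ i, r i * ((b i + c i) * nr (v i)) =
        ∑ i, r i * (b i * nr (v i)) + ∑ i, r i * (c i * nr (v i)) := by
      rw [← sum_add_distrib]; exact sum_congr rfl fun i _ => by ring
    rw [this]; linarith

theorem Tw.mono (h : Tw r u v D β A γ) (hD : D' ≤ D) (h0 : 0 ≤ β) (hβ : β ≤ β') (hA : A ≤ A')
    (hγ : γ ≤ γ') : Tw r u v D' β' A' γ' := by
  obtain ⟨b, b0, b1, b2⟩ := h
  refine ⟨b, b0, b1.trans (mul_le_mul_of_nonneg_right (pow_le_pow_left₀ h0 hβ 2) (dn u)), ?_⟩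
  linarith [mul_le_mul_of_nonneg_right hA (dn u), mul_le_mul_of_nonneg_right hγ (nr_nn u)]

/-- linear terms and sources -/
theorem tw_of_le (h : D ≤ A * (u ⬝ᵥ u) + γ * nr u) : Tw r u v D 0 A γ :=
  ⟨0, fun _ => le_rfl, by simp, by simpa using h⟩

theorem tw_src (g : κ → ℝ) : Tw r u v (u ⬝ᵥ g) 0 0 (nr g) :=
  tw_of_le (by linarith [dot_le u g])

/-- changed rates: component `k` jumps at rate `r j + δ k j` -/
theorem tw_rate (hr : ∀ j, 0 ≤ r j) {δ c : κ → ι → ℝ} (hδ : ∀ k j, |δ k j * v j k| ≤ r j * (c k j * |v j k|))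
    (hc : ∀ k, ∑ j, c k j ^ 2 ≤ β ^ 2) :
    Tw r u v (u ⬝ᵥ fun k => ∑ j, δ k j * v j k) β 0 0 := by
  refine ⟨fun j => nr fun k => |u k| * c k j, fun j => nr_nn _, ?_, ?_⟩
  · simp only [nr_sq, dotProduct]
    rw [sum_comm, mul_sum]
    refine sum_le_sum fun k _ => ?_
    have : ∑ j, |u k| * c k j * (|u k| * c k j) = (∑ j, c k j ^ 2) * (u k * u k) := by
      rw [sum_mul, ← abs_mul_abs_self (u k)]; exact sum_congr rfl fun j _ => by ring
    rw [this]; exact mul_le_mul_of_nonneg_right (hc k) (mul_self_nonneg _)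
  · rw [zero_mul, zero_mul, add_zero, add_zero, dotProduct]
    simp only [mul_sum]
    rw [sum_comm]
    refine Finset.sum_le_sum fun j _ => ?_
    have e1 : nr (v j) = nr fun k => |v j k| := by simp only [nr, dotProduct, abs_mul_abs_self]
    rw [e1]
    refine le_trans ?_ (mul_le_mul_of_nonneg_left (dot_le (fun k => |u k| * c k j)
      fun k => |v j k|) (hr j))
    rw [dotProduct, mul_sum]
    refine sum_le_sum fun k _ => (le_abs_self _).trans ?_
    rw [abs_mul]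
    exact (mul_le_mul_of_nonneg_left (hδ k j) (abs_nonneg _)).trans_eq (by ring)

/-- hops: component `k` receives at most `r k * β * |v k|` -/
theorem tw_hop {r : κ → ℝ} {v : κ → κ → ℝ} (hβ : 0 ≤ β) {g : κ → ℝ}
    (hg : ∀ k, |g k| ≤ r k * (β * nr (v k))) : Tw r u v (u ⬝ᵥ g) β 0 0 := by
  refine ⟨fun k => β * |u k|, fun k => by positivity, le_of_eq ?_, ?_⟩
  · simp only [dotProduct, mul_sum, mul_pow, sq_abs]; exact sum_congr rfl fun k _ => by ring
  · simp only [zero_mul, add_zero, dotProduct]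
    refine sum_le_sum fun k _ => (le_abs_self _).trans ?_
    rw [abs_mul]
    exact (mul_le_mul_of_nonneg_left (hg k) (abs_nonneg _)).trans_eq (by ring)

/-- the constant of the `3/2` inequality -/
def c32 (β A : ℝ) : ℝ := 18 * β ^ 2 + 864 * β ^ 3 + 3 / 2 * A + 1 / 2

theorem core32 (he : 0 < e) (hr : ∀ i, 0 ≤ r i ∧ r i ≤ 1) (hβ : 0 ≤ β) (hA : 0 ≤ A) (hγ : 0 ≤ γ)
    {U : κ → ℝ} (h : Tw r u v (u ⬝ᵥ U - u ⬝ᵥ fun k => ∑ i, r i * v i k) β A γ) :
    3 / 2 * (u ⬝ᵥ U / rt e u) ≤ ∑ i, r i * (nb e (u + v i) - nb e u) - Brq e r u v / 2 +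
      c32 β A * nb e u + γ ^ (3 / 2 : ℝ) := by
  obtain ⟨b, b0, b1, b2⟩ := h
  have ρ0 := rt_pos he u
  have ρ4 := rt_pow he.le u
  have n2 : nr u ≤ rt e u ^ 2 := sqrt_le_rt he.le u
  have a := absorb he hr (b := fun i => b i / rt e u ^ 2) (fun i => div_nonneg (b0 i) (sq_nonneg _)) hβ
    (by
      simp only [div_pow, ← sum_div]
      rw [div_le_iff₀ (by positivity)]
      nlinarith [mul_nonneg (sq_nonneg β) he.le]) (k := 1 / 3) (by norm_num) u v
  have e1 : rt e u * ∑ i, r i * (b i / rt e u ^ 2 * √(v i ⬝ᵥ v i)) =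
      (∑ i, r i * (b i * nr (v i))) / rt e u := by
    rw [mul_sum, sum_div]; exact sum_congr rfl fun i _ => by rw [nr]; field_simp
  have e2 := Brq_eq e r u v
  have e3 : A * (u ⬝ᵥ u) / rt e u ≤ A * nb e u := by
    rw [nb_eq he.le, div_le_iff₀ ρ0]; nlinarith [mul_nonneg hA he.le]
  have e4 : 3 / 2 * (γ * nr u / rt e u) ≤ nb e u / 2 + γ ^ (3 / 2 : ℝ) := by
    have : γ * nr u / rt e u ≤ γ * rt e u := by
      rw [div_le_iff₀ ρ0]; nlinarith [mul_le_mul_of_nonneg_left n2 hγ]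
    obtain ⟨t, t0, rfl⟩ : ∃ t, 0 ≤ t ∧ γ = t ^ 2 := ⟨√γ, sqrt_nonneg _, (sq_sqrt hγ).symm⟩
    have e5 : (t ^ 2) ^ (3 / 2 : ℝ) = t ^ 3 := by
      rw [← rpow_natCast, ← rpow_mul t0, ← rpow_natCast]; norm_num
    rw [e5, nb_eq he.le]
    nlinarith [mul_nonneg (sq_nonneg (rt e u - t)) (show 0 ≤ rt e u + 2 * t by positivity)]
  have e6 := div_le_div_of_nonneg_right b2 ρ0.le
  rw [sub_div, add_div, add_div] at e6
  rw [e1, show (4 / (1 / 3) + 64 * β / (1 / 3) ^ 2) * β ^ 2 = 12 * β ^ 2 + 576 * β ^ 3 by ring] at a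
  rw [c32]
  linarith

theorem core2 (hr : ∀ i, 0 ≤ r i ∧ r i ≤ 1) {U : κ → ℝ}
    (h : Tw r u v (u ⬝ᵥ U - u ⬝ᵥ fun k => ∑ i, r i * v i k) β A γ) :
    2 * (u ⬝ᵥ U) ≤ ∑ i, r i * ((u + v i) ⬝ᵥ (u + v i) - u ⬝ᵥ u) - (∑ i, r i * (v i ⬝ᵥ v i)) / 2 +
      (2 * β ^ 2 + 2 * A + 1) * (u ⬝ᵥ u) + γ ^ 2 := by
  obtain ⟨b, b0, b1, b2⟩ := h
  have e1 : ∑ i, r i * ((u + v i) ⬝ᵥ (u + v i) - u ⬝ᵥ u) =
      2 * (u ⬝ᵥ fun k => ∑ i, r i * v i k) + ∑ i, r i * (v i ⬝ᵥ v i) := by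
    have : u ⬝ᵥ (fun k => ∑ i, r i * v i k) = ∑ i, r i * (u ⬝ᵥ v i) := by
      simp only [dotProduct, mul_sum]
      rw [sum_comm]
      exact sum_congr rfl fun i _ => sum_congr rfl fun k _ => by ring
    rw [this, mul_sum, ← sum_add_distrib]
    exact sum_congr rfl fun i _ => by
      rw [add_dotProduct, dotProduct_add, dotProduct_add, dotProduct_comm (v i) u]; ring
  have e2 : 2 * ∑ i, r i * (b i * nr (v i)) ≤ (∑ i, r i * (v i ⬝ᵥ v i)) / 2 + 2 * ∑ i, b i ^ 2 := by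
    rw [mul_sum, mul_sum, sum_div, ← sum_add_distrib]
    refine sum_le_sum fun i _ => ?_
    rw [← nr_sq]
    nlinarith [mul_nonneg (hr i).1 (sq_nonneg (nr (v i) - 2 * b i)),
      mul_le_mul_of_nonneg_right (hr i).2 (sq_nonneg (b i))]
  nlinarith [sq_nonneg (γ - nr u), nr_sq u]

end pt

/-! ### fields on the cube -/

variable {n : ℕ} {w : Cube n → ℝ} {r : Cube n → Fin n → ℝ} {κ : Type*} [Fintype κ] {e : ℝ}

/-- `r` are the flip rates of the heat bath of `w` -/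
structure Rt (w : Cube n → ℝ) (r : Cube n → Fin n → ℝ) : Prop where
  hn : 0 < n
  hw : ∀ x, 0 < w x
  hr : ∀ x i, 0 ≤ r x i ∧ r x i ≤ 1
  gen : ∀ f x, gen w f x = ∑ i, r x i * (f (fl x i) - f x)

/-- flip increments of a field -/
def inc (V : Cube n → κ → ℝ) (x : Cube n) (i : Fin n) : κ → ℝ := V (fl x i) - V x
/-- `Br (V)`, `q = 3/2` -/
def BrF (e : ℝ) (r : Cube n → Fin n → ℝ) (V : Cube n → κ → ℝ) (x : Cube n) : ℝ :=
  Brq e (r x) (V x) (inc V x)
/-- `Γ (V)` -/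
def GaF (r : Cube n → Fin n → ℝ) (V : Cube n → κ → ℝ) (x : Cube n) : ℝ :=
  ∑ i, r x i * (inc V x i ⬝ᵥ inc V x i)
/-- the velocity `U` of the field `V` is a twisted `L V` -/
def TwF (r : Cube n → Fin n → ℝ) (V U : Cube n → κ → ℝ) (x : Cube n) (β A γ : ℝ) : Prop :=
  Tw (r x) (V x) (inc V x) (V x ⬝ᵥ U x - V x ⬝ᵥ fun k => ∑ i, r x i * inc V x i k) β A γ

theorem BrF_nn (h : Rt w r) (he : 0 < e) (V : Cube n → κ → ℝ) (x : Cube n) : 0 ≤ BrF e r V x :=
  Brq_nn he (fun i => (h.hr x i).1) _ _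

theorem GaF_nn (h : Rt w r) (V : Cube n → κ → ℝ) (x : Cube n) : 0 ≤ GaF r V x :=
  sum_nonneg fun i _ => mul_nonneg (h.hr x i).1 (dn _)

theorem cont_dot {Y : Type*} [TopologicalSpace Y] {U V : Y → κ → ℝ} (hU : ∀ k, Continuous fun y => U y k)
    (hV : ∀ k, Continuous fun y => V y k) : Continuous fun y => U y ⬝ᵥ V y :=
  continuous_finsetSum _ fun k _ => (hU k).mul (hV k)

theorem cont_BrF (he : 0 < e) {Y : Type*} [TopologicalSpace Y] {V : Y → Cube n → κ → ℝ}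
    (hV : ∀ x k, Continuous fun y => V y x k) (x : Cube n) : Continuous fun y => BrF e r (V y) x := by
  have i : ∀ j k, Continuous fun y => inc (V y) x j k := fun j k => (hV _ k).sub (hV _ k)
  have c : Continuous fun y => rt e (V y x) :=
    (continuous_const.add (cont_dot (hV x) (hV x))).rpow_const fun _ => Or.inr (by norm_num)
  unfold BrF Brq Bq
  exact continuous_finsetSum _ fun j _ => continuous_const.mul
    (((cont_nb e (U := fun y => V y x + inc (V y) x j) fun k => (hV x k).add (i j k)).sub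
      (cont_nb e (hV x))).sub (continuous_const.mul
        ((cont_dot (hV x) (i j)).div c fun y => (rt_pos he (V y x)).ne')))

theorem cont_GaF {Y : Type*} [TopologicalSpace Y] {V : Y → Cube n → κ → ℝ}
    (hV : ∀ x k, Continuous fun y => V y x k) (x : Cube n) : Continuous fun y => GaF r (V y) x :=
  continuous_finsetSum _ fun _ _ => continuous_const.mul
    (cont_dot (fun k => (hV _ k).sub (hV _ k)) fun k => (hV _ k).sub (hV _ k))

theorem duh_add (hn : 0 < n) (hw : ∀ x, 0 < w x) (C : ℝ) {g g' : ℝ → Cube n → ℝ}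
    (hg : ∀ z, Continuous fun u => g u z) (hg' : ∀ z, Continuous fun u => g' u z) (s : ℝ) (x : Cube n) :
    duh w C (fun u z => g u z + g' u z) s x = duh w C g s x + duh w C g' s x := by
  have c : ∀ {g : ℝ → Cube n → ℝ}, (∀ z, Continuous fun u => g u z) →
      Continuous fun u => exp (C * (s - u)) * sg w (s - u) (g u) x := fun hg =>
    (by fun_prop : Continuous fun u => exp (C * (s - u))).mul
      (cont_sg_fam hn hw (by fun_prop) hg x)
  simp only [duh, sg_add_fun, mul_add]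
  exact intervalIntegral.integral_add ((c hg).intervalIntegrable _ _) ((c hg').intervalIntegrable _ _)

theorem duh_const_mul (w : Cube n → ℝ) (C a : ℝ) (g : ℝ → Cube n → ℝ) (s : ℝ) (x : Cube n) :
    duh w C (fun u z => a * g u z) s x = a * duh w C g s x := by
  simp only [duh, sg_const_mul, ← intervalIntegral.integral_const_mul, mul_left_comm a]

theorem duh_mono (hn : 0 < n) (hw : ∀ x, 0 < w x) {C C' s : ℝ} {g g' : ℝ → Cube n → ℝ}
    (hg : ∀ z, Continuous fun u => g u z) (hg' : ∀ z, Continuous fun u => g' u z) (hs : 0 ≤ s)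
    (hC : C ≤ C') (h0 : ∀ u ∈ Icc 0 s, ∀ z, 0 ≤ g' u z) (h : ∀ u ∈ Icc 0 s, ∀ z, g u z ≤ g' u z)
    (x : Cube n) : duh w C g s x ≤ duh w C' g' s x := by
  refine intervalIntegral.integral_mono_on hs (Continuous.intervalIntegrable
    ((by fun_prop : Continuous fun u => exp (C * (s - u))).mul
      (cont_sg_fam hn hw (by fun_prop) hg x)) _ _) (Continuous.intervalIntegrable
    ((by fun_prop : Continuous fun u => exp (C' * (s - u))).mul
      (cont_sg_fam hn hw (by fun_prop) hg' x)) _ _) fun u hu => ?_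
  have t : 0 ≤ s - u := sub_nonneg.2 hu.2
  exact (mul_le_mul_of_nonneg_left (sg_mono hn hw t (h u hu) x) (exp_pos _).le).trans
    (mul_le_mul_of_nonneg_right (exp_le_exp.2 (mul_le_mul_of_nonneg_right hC t))
      (sg_nonneg hn hw t (h0 u hu) x))

theorem duh_nonneg (hn : 0 < n) (hw : ∀ x, 0 < w x) {C s : ℝ} {g : ℝ → Cube n → ℝ} (hs : 0 ≤ s)
    (h0 : ∀ u ∈ Icc 0 s, ∀ z, 0 ≤ g u z) (x : Cube n) : 0 ≤ duh w C g s x :=
  intervalIntegral.integral_nonneg hs fun u hu =>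
    mul_nonneg (exp_pos _).le (sg_nonneg hn hw (sub_nonneg.2 hu.2) (h0 u hu) x)

variable {V U : ℝ → Cube n → κ → ℝ} {γ : ℝ → Cube n → ℝ} {T β A : ℝ}

/-- **(P), `q = 3/2`**, with dissipation and source -/
theorem P32 (h : Rt w r) (he : 0 < e) (hβ : 0 ≤ β) (hA : 0 ≤ A)
    (hd : ∀ s x k, HasDerivAt (fun u => V u x k) (U s x k) s)
    (hγ : ∀ x, Continuous fun u => γ u x) (h0 : ∀ u x, 0 ≤ γ u x)
    (ht : ∀ s ∈ Ioc 0 T, ∀ x, TwF r (V s) (U s) x β A (γ s x)) : ∀ s ∈ Icc 0 T, ∀ x,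
    nb e (V s x) + duh w (c32 β A) (fun u => BrF e r (V u)) s x / 2 ≤
      exp (c32 β A * s) * sg w s (fun z => nb e (V 0 z)) x +
        duh w (c32 β A) (fun u z => γ u z ^ (3 / 2 : ℝ)) s x := by
  intro s hs x
  have cV : ∀ x k, Continuous fun u => V u x k := fun x k =>
    continuous_iff_continuousAt.2 fun s => (hd s x k).continuousAt
  have c1 : ∀ z, Continuous fun u => γ u z ^ (3 / 2 : ℝ) := fun z =>
    (hγ z).rpow_const fun _ => Or.inr (by norm_num)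
  have c2 : ∀ z, Continuous fun u => -(1 / 2) * BrF e r (V u) z := fun z =>
    continuous_const.mul (cont_BrF he cV z)
  have := cmp h.hn h.hw (Φ := fun u z => nb e (V u z)) (C := c32 β A) (T := T)
    (g := fun u z => γ u z ^ (3 / 2 : ℝ) + -(1 / 2) * BrF e r (V u) z)
    (fun z => (cont_nb e (cV z)).continuousOn) (fun z => (c1 z).add (c2 z)) (fun s hs x => by
      refine Tch.of_deriv (hasDerivAt_nb he (hd s x)) ?_
      have := core32 he (h.hr x) hβ hA (h0 s x) (ht s hs x)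
      simp only [inc, add_sub_cancel] at this
      rw [h.gen, BrF]; linarith) s hs x
  rw [duh_add h.hn h.hw _ c1 c2, duh_const_mul] at this
  linarith

/-- **(P), `q = 2`**, with dissipation and source -/
theorem P2 (h : Rt w r) (hd : ∀ s x k, HasDerivAt (fun u => V u x k) (U s x k) s)
    (hγ : ∀ x, Continuous fun u => γ u x)
    (ht : ∀ s ∈ Ioc 0 T, ∀ x, TwF r (V s) (U s) x β A (γ s x)) : ∀ s ∈ Icc 0 T, ∀ x,
    V s x ⬝ᵥ V s x + duh w (2 * β ^ 2 + 2 * A + 1) (fun u => GaF r (V u)) s x / 2 ≤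
      exp ((2 * β ^ 2 + 2 * A + 1) * s) * sg w s (fun z => V 0 z ⬝ᵥ V 0 z) x +
        duh w (2 * β ^ 2 + 2 * A + 1) (fun u z => γ u z ^ 2) s x := by
  intro s hs x
  have cV : ∀ x k, Continuous fun u => V u x k := fun x k =>
    continuous_iff_continuousAt.2 fun s => (hd s x k).continuousAt
  have c1 : ∀ z, Continuous fun u => γ u z ^ 2 := fun z => (hγ z).pow 2
  have c2 : ∀ z, Continuous fun u => -(1 / 2) * GaF r (V u) z := fun z =>
    continuous_const.mul (cont_GaF cV z)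
  have := cmp h.hn h.hw (Φ := fun u z => V u z ⬝ᵥ V u z) (C := 2 * β ^ 2 + 2 * A + 1) (T := T)
    (g := fun u z => γ u z ^ 2 + -(1 / 2) * GaF r (V u) z)
    (fun z => (cont_dot (cV z) (cV z)).continuousOn) (fun z => (c1 z).add (c2 z)) (fun s hs x => by
      refine Tch.of_deriv (HasDerivAt.fun_sum fun k _ => (hd s x k).mul (hd s x k)) ?_
      have := core2 (h.hr x) (ht s hs x)
      simp only [inc, add_sub_cancel] at this
      have e : ∑ k, (U s x k * V s x k + V s x k * U s x k) = 2 * (V s x ⬝ᵥ U s x) := by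
        simp only [dotProduct, mul_sum]; exact sum_congr rfl fun k _ => by ring
      rw [h.gen, GaF, e]; unfold inc; linarith) s hs x
  rw [duh_add h.hn h.hw _ c1 c2, duh_const_mul] at this
  linarith

/-- `(P)`, `q = 3/2`, without regularisation -/
theorem P32' (h : Rt w r) (hβ : 0 ≤ β) (hA : 0 ≤ A)
    (hd : ∀ s x k, HasDerivAt (fun u => V u x k) (U s x k) s)
    (hγ : ∀ x, Continuous fun u => γ u x) (h0 : ∀ u x, 0 ≤ γ u x)
    (ht : ∀ s ∈ Ioc 0 T, ∀ x, TwF r (V s) (U s) x β A (γ s x)) : ∀ s ∈ Icc 0 T, ∀ x,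
    nb 0 (V s x) ≤ exp (c32 β A * s) * sg w s (fun z => nb 0 (V 0 z)) x +
      duh w (c32 β A) (fun u z => γ u z ^ (3 / 2 : ℝ)) s x := by
  intro s hs x
  refine le_of_forall_pos_le_add fun ε hε => ?_
  have E := exp_pos (c32 β A * s)
  have he : 0 < (ε / exp (c32 β A * s)) ^ (4 / 3 : ℝ) := rpow_pos_of_pos (by positivity) _
  have k := P32 h he hβ hA hd hγ h0 ht s hs x
  have k1 := duh_nonneg h.hn h.hw (C := c32 β A) hs.1 (fun u _ z => BrF_nn h he (V u) z) x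
  have k2 := sg_mono h.hn h.hw hs.1 (fun z => nb_le he.le (V 0 z)) x
  rw [sg_add_fun, sg_const h.hn h.hw, ← rpow_mul (by positivity)] at k2
  norm_num at k2
  have k3 := mul_le_mul_of_nonneg_left k2 E.le
  rw [mul_add, mul_div_cancel₀ _ E.ne'] at k3
  linarith [nb_zero_le he.le (V s x)]

end Crest.Agent.T157.S6b

end
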