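import Crest.Agent.T157.PlD_37
import Crest.Agent.T157.EigN_84

/-!
# Row 157, block B/S6 (helper55): rows of a sparse set of sites are independent of the cavity
-/

set_option autoImplicit false
set_option linter.all false

noncomputable section

namespace Crest.Agent.T157.S6p

open MeasureTheory ProbabilityTheory Matrix Real
open Crest.ProbabilityR.SpinGlassDynamics
open Crest.Agent.T157.E Crest.Agent.T157.Eig Crest.Agent.T157.Pl

/-! ### resampling -/

section mp
variable {ι κ : Type} [Fintype ι] [Fintype κ]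

theorem mp_extend {e : κ → ι} (he : Function.Injective e) (μ : ι → Measure ℝ)
    [∀ i, IsProbabilityMeasure (μ i)] :
    MeasurePreserving (fun p : (ι → ℝ) × (κ → ℝ) => Function.extend e p.2 p.1)
      ((Measure.pi μ).prod (Measure.pi fun k => μ (e k))) (Measure.pi μ) := by
  classical
  have hm : Measurable fun p : (ι → ℝ) × (κ → ℝ) => Function.extend e p.2 p.1 := by
    refine measurable_pi_lambda _ fun i => ?_
    by_cases h : ∃ k, e k = i
    · obtain ⟨k, rfl⟩ := h
      simp only [he.extend_apply]; fun_prop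
    · simp only [Function.extend_apply' _ _ _ h]; fun_prop
  refine ⟨hm, (Measure.pi_eq fun s hs => ?_).symm⟩
  rw [Measure.map_apply hm (MeasurableSet.univ_pi hs)]
  have e1 : (fun p : (ι → ℝ) × (κ → ℝ) => Function.extend e p.2 p.1) ⁻¹' Set.univ.pi s =
      (Set.univ.pi fun i => if ∃ k, e k = i then Set.univ else s i) ×ˢ
        Set.univ.pi fun k => s (e k) := by
    ext ⟨ω, z⟩
    simp only [Set.mem_preimage, Set.mem_pi, Set.mem_univ, true_imp_iff, Set.mem_prod]
    refine ⟨fun h => ⟨fun i => ?_, fun k => by simpa only [he.extend_apply] using h (e k)⟩,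
      fun h i => ?_⟩
    · split_ifs with hi
      · trivial
      · simpa only [Function.extend_apply' _ _ _ hi] using h i
    · by_cases hi : ∃ k, e k = i
      · obtain ⟨k, rfl⟩ := hi
        simpa only [he.extend_apply] using h.2 k
      · simpa only [Function.extend_apply' _ _ _ hi, hi, if_false] using h.1 i
  rw [e1, Measure.prod_prod, Measure.pi_pi, Measure.pi_pi,
    ← Finset.prod_filter_mul_prod_filter_not Finset.univ (fun i => ∃ k, e k = i) fun i => μ i (s i),
    mul_comm]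
  congr 1
  · refine Finset.prod_bij (fun k _ => e k) (fun k _ => by simp) (fun _ _ _ _ h => he h)
      (fun i hi => ?_) fun _ _ => rfl
    obtain ⟨k, rfl⟩ := (Finset.mem_filter.1 hi).2
    exact ⟨k, Finset.mem_univ _, rfl⟩
  · rw [Finset.prod_filter]
    refine Finset.prod_congr rfl fun i _ => ?_
    split_ifs <;> simp

/-- a bound on all slices is a bound on the set -/
theorem slice_le {e : κ → ι} (he : Function.Injective e) {S : Set (ι → ℝ)} (hS : MeasurableSet S)
    {δ : ℝ} (h : ∀ g, (gv κ).real {G | Function.extend e G g ∈ S} ≤ δ) : (gv ι).real S ≤ δ := by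
  have hδ : 0 ≤ δ := measureReal_nonneg.trans (h 0)
  have mp := mp_extend he fun _ : ι => gaussianReal 0 1
  rw [Measure.real, ← mp.measure_preimage hS.nullMeasurableSet,
    Measure.prod_apply (mp.measurable hS)]
  refine ENNReal.toReal_le_of_le_ofReal hδ ?_
  refine (lintegral_mono (g := fun _ => ENNReal.ofReal δ) fun g => ?_).trans (by simp)
  exact (ENNReal.le_ofReal_iff_toReal_le (measure_ne_top _ _) hδ).2 (h g)

end mp

variable {n : ℕ}

/-- the cavity couplings -/
def cav (T : Finset (Fin n)) (W : Matrix (Fin n) (Fin n) ℝ) : Matrix (Fin n) (Fin n) ℝ :=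
  of fun i j => if i ∈ T ∨ j ∈ T then 0 else W i j

/-- the rows of `T`, columns off `T` -/
def Rw (T : Finset (Fin n)) (W : Matrix (Fin n) (Fin n) ℝ) : Matrix (Fin n) (Fin n) ℝ :=
  of fun k i => if k ∈ T ∧ i ∉ T then W k i else 0

/-- the coordinate projection -/
def PT (T : Finset (Fin n)) : Matrix (Fin n) (Fin n) ℝ := diagonal fun k => if k ∈ T then 1 else 0

/-- deviation of the block `J_T A J_T'` from its mean -/
def Dev (β : ℝ) (T : Finset (Fin n)) (W A : Matrix (Fin n) (Fin n) ℝ) : ℝ :=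
  opn (Rw T W * A * (Rw T W)ᵀ - (β ^ 2 / n * ∑ i ∈ Tᶜ, A i i) • PT T)

/-- Hanson–Wright in operator form -/
def HWop : Prop := ∃ c > (0 : ℝ), ∀ (ka io : Type) [Fintype ka] [Fintype io] [DecidableEq ka]
  [DecidableEq io] (A : Matrix io io ℝ) (N s : ℝ), (Fintype.card io : ℝ) ≤ N → 0 < s → s ≤ 1 →
    (gv (ka × io)).real {G | s * N * opn A <
      opn ((of fun k i => G (k, i)) * A * (of fun k i => G (k, i))ᵀ - A.trace • (1 : Matrix ka ka ℝ))} ≤
      2 * 81 ^ Fintype.card ka * exp (-(c * N * s ^ 2))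

variable {T : Finset (Fin n)}

lemma opn_PT (T : Finset (Fin n)) : opn (PT T) ≤ 1 :=
  opn_diagonal_le zero_le_one fun i => by split_ifs <;> simp

lemma Rw_eq (T : Finset (Fin n)) (W : Matrix (Fin n) (Fin n) ℝ) : Rw T W = PT T * W * PT Tᶜ := by
  ext k i
  simp only [Rw, PT, of_apply, mul_diagonal, diagonal_mul, Finset.mem_compl]
  by_cases h1 : k ∈ T <;> by_cases h2 : i ∈ T <;> simp [h1, h2]

lemma cav_eq (T : Finset (Fin n)) (W : Matrix (Fin n) (Fin n) ℝ) : cav T W = PT Tᶜ * W * PT Tᶜ := by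
  ext k i
  simp only [cav, PT, of_apply, mul_diagonal, diagonal_mul, Finset.mem_compl]
  by_cases h1 : k ∈ T <;> by_cases h2 : i ∈ T <;> simp [h1, h2]

lemma opn_sand (S T : Finset (Fin n)) (W : Matrix (Fin n) (Fin n) ℝ) :
    opn (PT S * W * PT T) ≤ opn W := by
  have h1 := opn_mul_le (PT S * W) (PT T)
  have h2 := opn_mul_le (PT S) W
  have h3 := opn_PT S
  have h4 := opn_PT T
  have h5 := opn_nonneg W
  have h6 := opn_nonneg (PT S * W)
  nlinarith

lemma opn_Rw (T : Finset (Fin n)) (W : Matrix (Fin n) (Fin n) ℝ) : opn (Rw T W) ≤ opn W := by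
  rw [Rw_eq]; exact opn_sand _ _ _

lemma opn_cav (T : Finset (Fin n)) (W : Matrix (Fin n) (Fin n) ℝ) : opn (cav T W) ≤ opn W := by
  rw [cav_eq]; exact opn_sand _ _ _

lemma Rw_add (W W' : Matrix (Fin n) (Fin n) ℝ) : Rw T (W + W') = Rw T W + Rw T W' := by
  simp only [Rw_eq, Matrix.mul_add, Matrix.add_mul]

lemma Rw_smul (c : ℝ) (W : Matrix (Fin n) (Fin n) ℝ) : Rw T (c • W) = c • Rw T W := by
  simp only [Rw_eq, Matrix.mul_smul, Matrix.smul_mul]

lemma cav_add (W W' : Matrix (Fin n) (Fin n) ℝ) : cav T (W + W') = cav T W + cav T W' := by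
  simp only [cav_eq, Matrix.mul_add, Matrix.add_mul]

lemma cav_smul (c : ℝ) (W : Matrix (Fin n) (Fin n) ℝ) : cav T (c • W) = c • cav T W := by
  simp only [cav_eq, Matrix.mul_smul, Matrix.smul_mul]

/-- sites in and off `T` -/
abbrev In (T : Finset (Fin n)) : Type := {k : Fin n // k ∈ T}
abbrev Out (T : Finset (Fin n)) : Type := {k : Fin n // k ∉ T}

lemma ne_io (p : In T × Out T) : p.1.1 ≠ p.2.1 := fun h => p.2.2 (h ▸ p.1.2)

/-- the crossing pairs -/
def cr (T : Finset (Fin n)) (p : In T × Out T) : Pair n :=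
  if h : p.1.1 < p.2.1 then ⟨(p.1.1, p.2.1), h⟩
  else ⟨(p.2.1, p.1.1), lt_of_le_of_ne (not_lt.1 h) (ne_io p).symm⟩

lemma cr_inj : Function.Injective (cr T) := by
  rintro ⟨⟨a, ha⟩, ⟨b, hb⟩⟩ ⟨⟨c, hc⟩, ⟨d, hd⟩⟩ h
  have h' := congrArg Subtype.val h
  unfold cr at h'
  split_ifs at h' <;> simp only [Prod.mk.injEq] at h' <;> obtain ⟨h1, h2⟩ := h'
  · subst h1; subst h2; rfl
  · subst h1; exact absurd ha hd
  · subst h1; exact absurd hc hb
  · subst h1; subst h2; rfl

lemma Jmat_cr (g : Pair n → ℝ) (p : In T × Out T) : Jmat n g p.1.1 p.2.1 = g (cr T p) / √n := by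
  unfold cr
  split_ifs with h
  · exact Jmat_apply_lt g h
  · exact Jmat_apply_gt g _

lemma not_cr {i j : Fin n} (hi : i ∉ T) (hj : j ∉ T) (h : i < j) :
    ¬ ∃ p, cr T p = ⟨(i, j), h⟩ := by
  rintro ⟨p, hp⟩
  have h' := congrArg Subtype.val hp
  unfold cr at h'
  split_ifs at h' <;> simp only [Prod.mk.injEq] at h'
  · exact hi (h'.1 ▸ p.1.2)
  · exact hj (h'.2 ▸ p.1.2)

lemma cav_ext (G : In T × Out T → ℝ) (g : Pair n → ℝ) :
    cav T (Jmat n (Function.extend (cr T) G g)) = cav T (Jmat n g) := by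
  ext i j
  simp only [cav, of_apply]
  split_ifs with h
  · rfl
  · rw [not_or] at h
    rcases lt_trichotomy i j with h' | rfl | h'
    · rw [Jmat_apply_lt _ h', Jmat_apply_lt _ h', Function.extend_apply' _ _ _ (not_cr h.1 h.2 h')]
    · rw [Jmat_diag, Jmat_diag]
    · rw [Jmat_apply_gt _ h', Jmat_apply_gt _ h', Function.extend_apply' _ _ _ (not_cr h.2 h.1 h')]

lemma Rw_ext (G : In T × Out T → ℝ) (g : Pair n → ℝ) :
    Rw T (Jmat n (Function.extend (cr T) G g)) = (√n)⁻¹ •
      (emb (Subtype.val : In T → Fin n) * (of fun k i => G (k, i)) *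
        (emb (Subtype.val : Out T → Fin n))ᵀ) := by
  ext k i
  simp only [Rw, of_apply, Matrix.smul_apply, mul_apply, emb, transpose_apply, smul_eq_mul]
  by_cases hk : k ∈ T
  · by_cases hi : i ∈ T
    · rw [if_neg fun h => h.2 hi, Finset.sum_eq_zero, mul_zero]
      intro j _
      rw [if_neg fun h : i = j.1 => j.2 (h ▸ hi), mul_zero]
    · rw [if_pos ⟨hk, hi⟩, Finset.sum_eq_single (⟨i, hi⟩ : Out T), Finset.sum_eq_single (⟨k, hk⟩ : In T)]
      · have := Jmat_cr (Function.extend (cr T) G g) (⟨k, hk⟩, ⟨i, hi⟩)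
        rw [cr_inj.extend_apply] at this
        simp only at this
        rw [this]; simp [div_eq_inv_mul]
      · intro b _ hb
        rw [if_neg fun h : k = b.1 => hb (Subtype.ext h.symm), zero_mul]
      · simp
      · intro b _ hb
        rw [if_neg fun h : i = b.1 => hb (Subtype.ext h.symm), mul_zero]
      · simp
  · rw [if_neg fun h => hk h.1, Finset.sum_eq_zero, mul_zero]
    intro j _
    rw [Finset.sum_eq_zero, zero_mul]
    intro b _
    rw [if_neg fun h : k = b.1 => hk (h ▸ b.2), zero_mul]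

lemma emb_PT : emb (Subtype.val : In T → Fin n) * (emb (Subtype.val : In T → Fin n))ᵀ = PT T := by
  ext i j
  simp only [mul_apply, emb, of_apply, transpose_apply, PT, diagonal_apply]
  by_cases hi : i ∈ T
  · rw [Finset.sum_eq_single (⟨i, hi⟩ : In T)]
    · by_cases h : i = j
      · subst h; simp [hi]
      · simp [h, Ne.symm h]
    · intro b _ hb
      rw [if_neg fun h : i = b.1 => hb (Subtype.ext h.symm), zero_mul]
    · simp
  · rw [Finset.sum_eq_zero]
    · simp [hi]
    · intro b _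
      rw [if_neg fun h : i = b.1 => hi (h ▸ b.2), zero_mul]

lemma trace_out (A : Matrix (Fin n) (Fin n) ℝ) :
    (A.submatrix (Subtype.val : Out T → Fin n) Subtype.val).trace = ∑ i ∈ Tᶜ, A i i := by
  rw [trace, Finset.sum_subtype Tᶜ (p := fun k => k ∉ T) (fun k => Finset.mem_compl)]
  rfl

lemma Dev_ext (hn : 0 < n) (β : ℝ) (G : In T × Out T → ℝ) (g : Pair n → ℝ)
    (A : Matrix (Fin n) (Fin n) ℝ) :
    Dev β T (β • Jmat n (Function.extend (cr T) G g)) A ≤ β ^ 2 / n *
      opn ((of fun k i => G (k, i)) * A.submatrix (Subtype.val : Out T → Fin n) Subtype.val *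
        (of fun k i => G (k, i))ᵀ -
        (A.submatrix (Subtype.val : Out T → Fin n) Subtype.val).trace • (1 : Matrix (In T) (In T) ℝ)) := by
  have hn' : (0 : ℝ) < n := Nat.cast_pos.2 hn
  set Gm : Matrix (In T) (Out T) ℝ := of fun k i => G (k, i) with hGm
  set E1 := emb (Subtype.val : In T → Fin n) with hE1
  set E2 := emb (Subtype.val : Out T → Fin n) with hE2
  set A' := A.submatrix (Subtype.val : Out T → Fin n) Subtype.val with hA'
  have hA : E2ᵀ * A * E2 = A' := emb_compress _ _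
  have hs : (β * (√n)⁻¹) * (β * (√n)⁻¹) = β ^ 2 / n := by
    rw [mul_mul_mul_comm, ← mul_inv, mul_self_sqrt hn'.le, sq, div_eq_mul_inv]
  have e : Rw T (β • Jmat n (Function.extend (cr T) G g)) * A *
      (Rw T (β • Jmat n (Function.extend (cr T) G g)))ᵀ - (β ^ 2 / n * ∑ i ∈ Tᶜ, A i i) • PT T =
      (β ^ 2 / n) • (E1 * (Gm * A' * Gmᵀ - A'.trace • (1 : Matrix (In T) (In T) ℝ)) * E1ᵀ) := by
    rw [Rw_smul, Rw_ext, smul_smul, ← hGm, ← hE1, ← hE2, transpose_smul, Matrix.smul_mul,
      Matrix.smul_mul, Matrix.mul_smul, smul_smul, hs, ← trace_out, ← hA', ← emb_PT, ← hE1, mul_smul,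
      ← smul_sub, Matrix.mul_sub, Matrix.sub_mul, Matrix.mul_smul, Matrix.smul_mul, Matrix.mul_one,
      ← hA]
    simp only [transpose_mul, transpose_transpose, Matrix.mul_assoc]
  rw [Dev, e, opn_smul, abs_of_nonneg (by positivity)]
  refine mul_le_mul_of_nonneg_left ?_ (by positivity)
  set X := Gm * A' * Gmᵀ - A'.trace • (1 : Matrix (In T) (In T) ℝ)
  have h1 : opn E1 ≤ 1 := opn_isom_le (emb_isom Subtype.val_injective)
  have h2 : opn E1ᵀ ≤ 1 := by rwa [opn_transpose]
  have h3 := opn_mul_le (E1 * X) E1ᵀ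
  have h4 := opn_mul_le E1 X
  have h5 := opn_nonneg X
  have h6 := opn_nonneg (E1 * X)
  have h7 := mul_le_mul_of_nonneg_left h2 h6
  have h8 := mul_le_mul_of_nonneg_right h1 h5
  exact h3.trans (h7.trans ((mul_one _).le.trans (h4.trans (h8.trans (one_mul _).le))))

lemma opn_Rw_plant (hn : 0 < n) (x : Cube n) :
    opn (Rw T ((1 / n : ℝ) • (vecMulVec (sv x) (sv x) - 1))) ≤ √(T.card / n) := by
  have hn' : (0 : ℝ) < n := Nat.cast_pos.2 hn
  have e : Rw T (vecMulVec (sv x) (sv x) - 1) =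
      vecMulVec (fun k => if k ∈ T then sv x k else 0) fun i => if i ∈ T then 0 else sv x i := by
    ext k i
    simp only [Rw, of_apply, Matrix.sub_apply, vecMulVec_apply]
    by_cases hk : k ∈ T <;> by_cases hi : i ∈ T <;> simp [hk, hi]
    exact one_apply_ne fun h => hi (h ▸ hk)
  rw [Rw_smul, e, opn_smul, abs_of_nonneg (by positivity)]
  have h1 : nrm (fun k => if k ∈ T then sv x k else 0) ≤ √T.card := by
    rw [nrm_le_iff (sqrt_nonneg _), sq_sqrt (Nat.cast_nonneg _)]
    refine le_of_eq ?_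
    simp only [dotProduct, mul_ite, ite_mul, mul_zero, zero_mul, sv, spin_mul_self]
    rw [Finset.sum_congr rfl (g := fun k => if k ∈ T then (1 : ℝ) else 0) fun k _ => by
      split_ifs <;> rfl]
    simp
  have h2 : nrm (fun i => if i ∈ T then 0 else sv x i) ≤ √n := by
    rw [nrm_le_iff (sqrt_nonneg _), sq_sqrt hn'.le]
    refine (Finset.sum_le_sum (g := fun _ => (1 : ℝ)) fun i _ => ?_).trans (by simp)
    by_cases h : i ∈ T <;> simp [h, sv, spin_mul_self]
  refine (mul_le_mul_of_nonneg_left ((opn_vecMulVec_le _ _).trans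
    (mul_le_mul h1 h2 (nrm_nonneg _) (sqrt_nonneg _))) (by positivity)).trans (le_of_eq ?_)
  rw [sqrt_div (Nat.cast_nonneg _)]
  have := (sqrt_pos.2 hn').ne'
  field_simp
  rw [sq_sqrt hn'.le, mul_comm]

/-- the deviation is stable under a small shift of the rows -/
lemma Dev_shift (β : ℝ) (W D A : Matrix (Fin n) (Fin n) ℝ) {ε K : ℝ} (hD : opn (Rw T D) ≤ ε)
    (hW : opn (W + D) ≤ K) : Dev β T (W + D) A ≤ Dev β T W A + ε * (2 * K + ε) * opn A := by
  have hR := (opn_Rw T (W + D)).trans hW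
  set R := Rw T (W + D) with hRd
  set Δ := Rw T D with hΔ
  have hR0 : Rw T W = R - Δ := by rw [hRd, Rw_add, add_sub_cancel_right]
  have h0 : opn (R - Δ) ≤ K + ε := (opn_sub_le _ _).trans (add_le_add hR hD)
  rw [Dev, Dev, ← hRd, hR0]
  set c := (β ^ 2 / n * ∑ i ∈ Tᶜ, A i i) • PT T
  have e : R * A * Rᵀ - c = ((R - Δ) * A * (R - Δ)ᵀ - c) + (Δ * A * Rᵀ + (R - Δ) * A * Δᵀ) := by
    simp only [transpose_sub, Matrix.sub_mul, Matrix.mul_sub]; abel
  rw [e]
  refine (opn_add_le _ _).trans (add_le_add le_rfl ((opn_add_le _ _).trans ?_))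
  have hA := opn_nonneg A
  have hε : 0 ≤ ε := (opn_nonneg _).trans hD
  have hK : 0 ≤ K := (opn_nonneg _).trans hR
  have h1 : opn (Δ * A * Rᵀ) ≤ ε * opn A * K := (opn_mul_le _ _).trans
    (mul_le_mul ((opn_mul_le _ _).trans (mul_le_mul_of_nonneg_right hD hA))
      (by rwa [opn_transpose]) (opn_nonneg _) (by positivity))
  have h2 : opn ((R - Δ) * A * Δᵀ) ≤ (K + ε) * opn A * ε := (opn_mul_le _ _).trans
    (mul_le_mul ((opn_mul_le _ _).trans (mul_le_mul_of_nonneg_right h0 hA))
      (by rwa [opn_transpose]) (opn_nonneg _) (by positivity))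
  nlinarith

/-- the planted disorder with the crossing couplings resampled -/
def plx (β : ℝ) (T : Finset (Fin n)) (x : Cube n) (g : Pair n → ℝ) (G : In T × Out T → ℝ) :
    Matrix (Fin n) (Fin n) ℝ := β • Jmat n (Function.extend (cr T) G g + th n β • tau x)

lemma cav_plx (β : ℝ) (x : Cube n) (g : Pair n → ℝ) (G : In T × Out T → ℝ) :
    cav T (plx β T x g G) = cav T (β • Jmat n (g + th n β • tau x)) := by
  simp only [plx, Jmat_add, cav_smul, cav_add, cav_ext]

/-- **Hanson–Wright for the rows of `T` in the planted model** -/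
theorem hw_plant (H : HWop) : ∃ c > (0 : ℝ), ∀ n : ℕ, 0 < n → ∀ β : ℝ, 0 ≤ β → β ≤ 1 →
    ∀ (T : Finset (Fin n)) (x : Cube n) (g : Pair n → ℝ) (A : Matrix (Fin n) (Fin n) ℝ) (K s : ℝ),
    0 < s → s ≤ 1 → (gv (In T × Out T)).real {G | opn (plx β T x g G) ≤ K ∧
      (s + (2 * K + 1) * √(T.card / n)) * opn A < Dev β T (plx β T x g G) A} ≤
      2 * 81 ^ T.card * exp (-(c * n * s ^ 2)) := by
  obtain ⟨c, hc, H⟩ := H
  refine ⟨c, hc, fun n hn β h0 h1 T x g A K s hs hs1 => ?_⟩
  have hn' : (0 : ℝ) < n := Nat.cast_pos.2 hn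
  have hcard : (Fintype.card (Out T) : ℝ) ≤ n := by
    exact_mod_cast (Fintype.card_subtype_le _).trans (Fintype.card_fin n).le
  have h := H (In T) (Out T) (A.submatrix Subtype.val Subtype.val) n s hcard hs hs1
  rw [Fintype.card_coe] at h
  refine le_trans (measureReal_mono fun G hG => ?_) h
  obtain ⟨h3, h4⟩ := hG
  rw [Set.mem_setOf_eq]
  by_contra hcon
  rw [not_lt] at hcon
  have e : plx β T x g G = β • Jmat n (Function.extend (cr T) G g) +
      β ^ 2 • ((1 / n : ℝ) • (vecMulVec (sv x) (sv x) - 1)) := by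
    rw [plx, Jmat_add_tau, smul_add, smul_smul, smul_smul]; congr 2; ring
  have hb : β ^ 2 ≤ 1 := pow_le_one₀ h0 h1
  have hε1 : √(T.card / n : ℝ) ≤ 1 := sqrt_le_one.2 ((div_le_one hn').2 (by
    exact_mod_cast (Finset.card_le_univ T).trans (Fintype.card_fin n).le))
  have hε0 := sqrt_nonneg (T.card / n : ℝ)
  have hD : opn (Rw T (β ^ 2 • ((1 / n : ℝ) • (vecMulVec (sv x) (sv x) - 1)))) ≤ √(T.card / n) := by
    rw [Rw_smul, opn_smul, abs_of_nonneg (sq_nonneg β)]
    exact (mul_le_mul hb (opn_Rw_plant hn x) (opn_nonneg _) zero_le_one).trans (one_mul _).le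
  rw [e] at h3 h4
  have h5 := Dev_shift β _ _ A hD h3
  have h6 := Dev_ext hn β G g A
  have h7 := opn_submatrix_le A (e := (Subtype.val : Out T → Fin n)) Subtype.val_injective
  have hA := opn_nonneg A
  have h8 : β ^ 2 / n * (s * n * opn A) ≤ s * opn A := by
    rw [show β ^ 2 / n * (s * n * opn A) = β ^ 2 * (s * opn A) by field_simp]
    exact mul_le_of_le_one_left (by positivity) hb
  have h9 := mul_le_mul_of_nonneg_left
    (hcon.trans (mul_le_mul_of_nonneg_left h7 (by positivity))) (show 0 ≤ β ^ 2 / n by positivity)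
  have h10 : √(T.card / n : ℝ) * (2 * K + √(T.card / n : ℝ)) * opn A ≤
      (2 * K + 1) * √(T.card / n) * opn A :=
    mul_le_mul_of_nonneg_right (by nlinarith) hA
  have h11 := h6.trans (h9.trans h8)
  linarith

end Crest.Agent.T157.S6p

end
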