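import Crest.Agent.T157.S6PlA_55
import Crest.Agent.T157.S6Hw_98
import Crest.Agent.T157.DaFd_82
import Crest.Agent.T157.Top_97

/-!
# Row 157, block B/S6 (helper55): union bound over sparse sets in the planted model
-/

set_option autoImplicit false
set_option linter.all false

noncomputable section

namespace Crest.Agent.T157.S6p

open MeasureTheory ProbabilityTheory Matrix Real Filter Topology
open Crest.ProbabilityR.SpinGlassDynamics
open Crest.Agent.T157.E Crest.Agent.T157.Eig Crest.Agent.T157.Pl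
open Crest.Agent.T157.Tap (V Mx)
open Crest.Agent.T157.Chain22 (sg)
open Crest.Agent.T157.Da.Fd (Iq Iq_sum Iq_cmul Iq_const Iq_nonneg measurable_Iq)

variable {n : ℕ}

/-! ### entrywise measurability -/

section me
variable {X : Type} [MeasurableSpace X] {A B : X → Mx n}

/-- entrywise measurable -/
def ME (A : X → Mx n) : Prop := ∀ i j, Measurable fun x => A x i j

lemma ME.const (M : Mx n) : ME fun _ : X => M := fun _ _ => measurable_const
lemma ME.mul (hA : ME A) (hB : ME B) : ME fun x => A x * B x := fun i j => by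
  simp only [mul_apply]; exact Finset.measurable_sum _ fun k _ => (hA i k).mul (hB k j)
lemma ME.tr (hA : ME A) : ME fun x => (A x)ᵀ := fun i j => hA j i
lemma ME.sub (hA : ME A) (hB : ME B) : ME fun x => A x - B x := fun i j => (hA i j).sub (hB i j)
lemma ME.smul {c : X → ℝ} (hc : Measurable c) (hA : ME A) : ME fun x => c x • A x :=
  fun i j => hc.mul (hA i j)
lemma ME.diag {d : X → V n} (hd : ∀ i, Measurable fun x => d x i) : ME fun x => diagonal (d x) :=
  fun i j => by
    simp only [diagonal_apply]; split_ifs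
    exacts [hd i, measurable_const]
lemma ME.cav (hA : ME A) (T : Finset (Fin n)) : ME fun x => cav T (A x) := fun i j => by
  simp only [S6p.cav, of_apply]; split_ifs
  exacts [measurable_const, hA i j]
lemma ME.Rw (hA : ME A) (T : Finset (Fin n)) : ME fun x => Rw T (A x) := fun i j => by
  simp only [S6p.Rw, of_apply]; split_ifs
  exacts [hA i j, measurable_const]
lemma ME.opn (hA : ME A) : Measurable fun x => opn (A x) := measurable_opn hA
lemma ME.dev (hA : ME A) (hB : ME B) (β : ℝ) (T : Finset (Fin n)) :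
    Measurable fun x => Dev β T (A x) (B x) :=
  ((((hA.Rw T).mul hB).mul (hA.Rw T).tr).sub (ME.smul
    (measurable_const.mul (Finset.measurable_sum _ fun i _ => hB i i)) (ME.const _))).opn
lemma ME.comp {Y : Type} [MeasurableSpace Y] (hA : ME A) {f : Y → X} (hf : Measurable f) :
    ME fun y => A (f y) := fun i j => (hA i j).comp hf
lemma ME.ising (hA : ME A) (y : Cube n) : Measurable fun x => ising (A x) 0 y := by
  have := hA
  unfold ME at this
  simp only [E.ising, dotProduct, mulVec]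
  fun_prop

lemma me_J (β : ℝ) : ME fun g : Pair n → ℝ => β • Jmat n g := fun i j => by
  simp only [Matrix.smul_apply, Jmat, smul_eq_mul]
  split_ifs <;> fun_prop

end me

lemma Iq_ind (hn : 0 < n) {w : Cube n → ℝ} (hw : ∀ x, 0 < w x) (τ : ℝ) (B : Set (Cube n))
    (x : Cube n) : Iq w τ (B.indicator 1) x =
      ∑ y, B.indicator (1 : Cube n → ℝ) y * Iq w τ (Pi.single y 1) x := by
  simp only [← Iq_cmul]
  rw [← Iq_sum hn hw]
  congr 1
  funext z
  rw [Finset.sum_eq_single z] <;> simp +contextual [Pi.single_apply, eq_comm]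

lemma sum_Iq (hn : 0 < n) {w : Cube n → ℝ} (hw : ∀ x, 0 < w x) (τ : ℝ) (x : Cube n) :
    ∑ y, Iq w τ (Pi.single y 1) x = τ := by
  have h := Iq_ind hn hw τ Set.univ x
  rw [Set.indicator_univ, show (1 : Cube n → ℝ) = fun _ => 1 from rfl, Iq_const hn hw] at h
  simpa using h.symm

/-- Markov's inequality for a weighted sum of events -/
lemma markov_sum {X Y : Type} [MeasurableSpace X] [Fintype Y] (μ : Measure X) [IsProbabilityMeasure μ]
    {B : X → Set Y} (hB : ∀ y, MeasurableSet {G | y ∈ B G}) {κ : Y → ℝ} (h0 : ∀ y, 0 ≤ κ y)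
    {δ ε : ℝ} (hδ : ∀ y, μ.real {G | y ∈ B G} ≤ δ) (hε : 0 < ε) :
    μ.real {G | ε < ∑ y, (B G).indicator (1 : Y → ℝ) y * κ y} ≤ (∑ y, κ y) * δ / ε := by
  have e : ∀ G y, (B G).indicator (1 : Y → ℝ) y = {G | y ∈ B G}.indicator (1 : X → ℝ) G :=
    fun G y => by by_cases h : y ∈ B G <;> simp [h]
  simp only [e]
  have hi : ∀ y, Integrable (fun G => {G | y ∈ B G}.indicator (1 : X → ℝ) G * κ y) μ := fun y =>
    ((integrable_const _).indicator (hB y)).mul_const _
  have h := mul_meas_ge_le_integral_of_nonneg (μ := μ)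
    (f := fun G => ∑ y, {G | y ∈ B G}.indicator (1 : X → ℝ) G * κ y) (.of_forall fun G =>
    Finset.sum_nonneg fun y _ => mul_nonneg (Set.indicator_nonneg (fun _ _ => zero_le_one) G) (h0 y))
    (integrable_finsetSum Finset.univ fun y _ => hi y) ε
  rw [integral_finsetSum _ fun y _ => hi y] at h
  simp only [integral_mul_const, integral_indicator_one (hB _)] at h
  rw [le_div_iff₀ hε, mul_comm]
  refine le_trans (le_trans (mul_le_mul_of_nonneg_left (measureReal_mono (fun G hG => ?_)
    (measure_ne_top _ _)) hε.le) h) ?_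
  · rw [Set.mem_setOf_eq] at hG ⊢; exact hG.le
  rw [Finset.sum_mul]
  exact Finset.sum_le_sum fun y _ => by rw [mul_comm]; exact mul_le_mul_of_nonneg_left (hδ y) (h0 y)

/-- the number of small sets -/
lemma card_small (m : ℕ) :
    (Finset.univ.filter fun T : Finset (Fin n) => T.card ≤ m).card ≤ (n + 1) ^ m := by
  have h : (Finset.univ : Finset (Fin m → Option (Fin n))).card = (n + 1) ^ m := by simp
  rw [← h]
  refine Finset.card_le_card_of_surjOn (fun f => Finset.univ.filter fun k => ∃ j, f j = some k)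
    fun T hT => ?_
  have hT' : T.card ≤ m := (Finset.mem_filter.1 (Finset.mem_coe.1 hT)).2
  refine ⟨fun j => if h : j.1 < T.card then some (T.equivFin.symm ⟨j.1, h⟩).1 else none,
    by simp, ?_⟩
  ext k
  simp only [Finset.mem_filter, Finset.mem_univ, true_and]
  constructor
  · rintro ⟨j, hj⟩
    split_ifs at hj with h1
    rw [← Option.some.inj hj]; exact Subtype.prop _
  · intro hk
    refine ⟨⟨T.equivFin ⟨k, hk⟩, (T.equivFin ⟨k, hk⟩).2.trans_le hT'⟩, ?_⟩
    simp

section abs
variable {ι : Type}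

/-- the points at which some test matrix sees an atypical block -/
def Bad (β K s : ℝ) (I : Finset ι) (𝒜 : ι → Mx n → Cube n → Mx n) (T : Finset (Fin n)) (W : Mx n) :
    Set (Cube n) :=
  {y | opn W ≤ K ∧ ∃ i ∈ I, s * opn (𝒜 i (cav T W) y) < Dev β T W (𝒜 i (cav T W) y)}

/-- bad at `x`, or often bad along the cavity chain from `x` -/
def Ev (β K s τ ε : ℝ) (I : Finset ι) (𝒜 : ι → Mx n → Cube n → Mx n) (T : Finset (Fin n))
    (W : Mx n) (x : Cube n) : Prop :=
  x ∈ Bad β K s I 𝒜 T W ∨ ε < Iq (ising (cav T W) 0) τ ((Bad β K s I 𝒜 T W).indicator 1) x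

variable {I : Finset ι} {𝒜 : ι → Mx n → Cube n → Mx n}

lemma meas_bad {X : Type} [MeasurableSpace X] {W : X → Mx n} (hW : ME W) (T : Finset (Fin n))
    (hA : ∀ i y, ME fun g => 𝒜 i (cav T (W g)) y) (β K s : ℝ) (y : Cube n) :
    MeasurableSet {g | y ∈ Bad β K s I 𝒜 T (W g)} := by
  have : {g | y ∈ Bad β K s I 𝒜 T (W g)} = {g | opn (W g) ≤ K} ∩ ⋃ i ∈ I,
      {g | s * opn (𝒜 i (cav T (W g)) y) < Dev β T (W g) (𝒜 i (cav T (W g)) y)} := by
    ext g; simp [Bad]
  rw [this]
  exact (measurableSet_le hW.opn measurable_const).inter (Finset.measurableSet_biUnion _ fun i _ =>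
    measurableSet_lt (measurable_const.mul (hA i y).opn) (hW.dev (hA i y) β T))

lemma meas_ev (hn : 0 < n) {X : Type} [MeasurableSpace X] {W : X → Mx n} (hW : ME W)
    (T : Finset (Fin n)) (hA : ∀ i y, ME fun g => 𝒜 i (cav T (W g)) y) (β K s ε : ℝ) {τ : ℝ}
    (hτ : 0 ≤ τ) (x : Cube n) : MeasurableSet {g | Ev β K s τ ε I 𝒜 T (W g) x} := by
  refine (meas_bad hW T hA β K s x).union (show MeasurableSet {g | ε < Iq (ising (cav T (W g)) 0) τ
    ((Bad β K s I 𝒜 T (W g)).indicator 1) x} from measurableSet_lt measurable_const ?_)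
  simp only [Iq_ind hn (Da.Gr.ising_pos _ _)]
  refine Finset.measurable_sum _ fun y _ => Measurable.mul ?_
    (measurable_Iq (fun z => (hW.cav T).ising z) hτ _ _)
  have e : (fun g => (Bad β K s I 𝒜 T (W g)).indicator (1 : Cube n → ℝ) y) =
      {g | y ∈ Bad β K s I 𝒜 T (W g)}.indicator 1 := by
    funext g; by_cases h : y ∈ Bad β K s I 𝒜 T (W g) <;> simp [h]
  rw [e]
  exact measurable_one.indicator (meas_bad hW T hA β K s y)

/-- **union bound in the planted model** -/
theorem plant_abs : ∃ c > (0 : ℝ), ∀ n : ℕ, 0 < n → ∀ β : ℝ, 0 ≤ β → β ≤ 1 →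
    ∀ (ι : Type) (I : Finset ι) (𝒜 : ι → Mx n → Cube n → Mx n),
    (∀ T i y, ME fun g : Pair n → ℝ => 𝒜 i (cav T (β • Jmat n g)) y) →
    ∀ (m : ℕ) (K s τ ε : ℝ), 0 ≤ K → 0 < s → s ≤ 1 → 0 ≤ τ → 0 < ε → ∀ x : Cube n,
    (tilted false (th n β • tau x)).real {g | ∃ T : Finset (Fin n), T.card ≤ m ∧
      Ev β K (s + (2 * K + 1) * √(m / n)) τ ε I 𝒜 T (β • Jmat n g) x} ≤
      (n + 1) ^ m * (I.card * (2 * 81 ^ m * exp (-(c * n * s ^ 2))) * (1 + τ / ε)) := by
  obtain ⟨c, hc, H⟩ := hw_plant S6w.hwop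
  refine ⟨c, hc, fun n hn β h0 h1 ι I 𝒜 hA m K s τ ε hK hs hs1 hτ hε x => ?_⟩
  set s' := s + (2 * K + 1) * √(m / n) with hs'
  set δ := I.card * (2 * 81 ^ m * exp (-(c * n * s ^ 2))) with hδ
  have hδ0 : 0 ≤ δ := by positivity
  set a := th n β • tau x with ha
  have key : ∀ T : Finset (Fin n), T.card ≤ m → (gv (Pair n)).real
      {g | Ev β K s' τ ε I 𝒜 T (β • Jmat n (g + a)) x} ≤ δ * (1 + τ / ε) := fun T hT => by
    have sh : Measurable fun g : Pair n → ℝ => g + a := by fun_prop
    refine slice_le (cr_inj (T := T)) (meas_ev hn ((me_J β).comp sh) T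
      (fun i y => (hA T i y).comp sh) β K s' ε hτ x) fun g => ?_
    have ex : Measurable fun G : In T × Out T → ℝ => Function.extend (cr T) G g + a :=
      sh.comp ((mp_extend (cr_inj (T := T)) fun _ => gaussianReal 0 1).measurable.comp
        measurable_prodMk_left)
    set W' := cav T (β • Jmat n (g + a)) with hW'
    have ec : ∀ G, cav T (plx β T x g G) = W' := cav_plx β x g
    have hb : ∀ y, (gv (In T × Out T)).real {G | y ∈ Bad β K s' I 𝒜 T (plx β T x g G)} ≤ δ := by
      intro y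
      refine (measureReal_mono (s₂ := ⋃ i ∈ I, {G | opn (plx β T x g G) ≤ K ∧
        (s + (2 * K + 1) * √(T.card / n)) * opn (𝒜 i W' y) < Dev β T (plx β T x g G) (𝒜 i W' y)})
        (fun G hG => ?_) (measure_ne_top _ _)).trans ((measureReal_biUnion_finset_le _ _).trans
          ((Finset.sum_le_card_nsmul _ _ (2 * 81 ^ m * exp (-(c * n * s ^ 2))) fun i _ =>
            (H n hn β h0 h1 T x g _ K s hs hs1).trans ?_).trans (by rw [nsmul_eq_mul])))
      · obtain ⟨h2, i, hi, h3⟩ := hG
        rw [ec] at h3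
        refine Set.mem_biUnion hi ⟨h2, lt_of_le_of_lt (mul_le_mul_of_nonneg_right ?_
          (opn_nonneg _)) h3⟩
        have : (T.card : ℝ) ≤ m := by exact_mod_cast hT
        rw [hs']; gcongr
      · gcongr; norm_num
    have mb : ∀ y, MeasurableSet {G | y ∈ Bad β K s' I 𝒜 T (plx β T x g G)} := fun y =>
      meas_bad ((me_J β).comp ex) T (fun i y => (hA T i y).comp ex) β K s' y
    have hM := markov_sum (gv (In T × Out T)) mb (κ := fun y => Iq (ising W' 0) τ (Pi.single y 1) x)
      (fun y => Iq_nonneg hn (Da.Gr.ising_pos _ _) hτ (fun z => by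
        rw [Pi.single_apply]; split_ifs <;> norm_num) x) hb hε
    rw [sum_Iq hn (Da.Gr.ising_pos _ _)] at hM
    refine (measureReal_mono (s₂ := {G | x ∈ Bad β K s' I 𝒜 T (plx β T x g G)} ∪ {G | ε < ∑ y,
      (Bad β K s' I 𝒜 T (plx β T x g G)).indicator (1 : Cube n → ℝ) y *
        Iq (ising W' 0) τ (Pi.single y 1) x}) (fun G hG => ?_) (measure_ne_top _ _)).trans
      ((measureReal_union_le _ _).trans ((add_le_add (hb x) hM).trans (le_of_eq (by ring))))
    rcases (show Ev β K s' τ ε I 𝒜 T (plx β T x g G) x from hG) with h | h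
    · exact Or.inl h
    · rw [ec, Iq_ind hn (Da.Gr.ising_pos _ _)] at h
      exact Or.inr h
  rw [Measure.real, tilted_false_apply, ← Measure.real]
  refine (measureReal_mono (s₂ := ⋃ T ∈ Finset.univ.filter fun T : Finset (Fin n) => T.card ≤ m,
    {g | Ev β K s' τ ε I 𝒜 T (β • Jmat n (g + a)) x}) (fun g hg => ?_) (measure_ne_top _ _)).trans
    ((measureReal_biUnion_finset_le _ _).trans ((Finset.sum_le_card_nsmul _ _ _ fun T hT =>
      key T (Finset.mem_filter.1 hT).2).trans ?_))
  · obtain ⟨T, hT, h⟩ := hg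
    exact Set.mem_biUnion (Finset.mem_coe.2 (Finset.mem_filter.2 ⟨Finset.mem_univ _, hT⟩)) h
  · rw [nsmul_eq_mul]
    refine mul_le_mul_of_nonneg_right ?_ (by positivity)
    exact_mod_cast card_small m

end abs

/-- **transfer**: planted bounds give bounds on the Gibbs mass -/
theorem whp_mass {β : ℝ} (h0 : 0 ≤ β) (h1 : β ≤ 1) (A : ∀ n, Cube n → Set (Pair n → ℝ))
    {ε : ℕ → ℝ} (hε : ∀ n, 0 < ε n) {a : ℝ} (ha : 0 < a)
    (h : ∀ᶠ n : ℕ in atTop, ∀ x, (tilted false (th n β • tau x)).real (A n x) ≤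
      ε n * exp (-(2 * (n : ℝ) ^ a))) :
    Top.Whp disorderLaw fun n g => mass (ising (β • Jmat n g) 0) {x | g ∈ A n x} < ε n := by
  have t1 : Tendsto (fun n : ℕ => exp (-(n : ℝ) ^ a)) atTop (𝓝 0) :=
    tendsto_exp_atBot.comp (tendsto_neg_atTop_atBot.comp
      ((tendsto_rpow_atTop ha).comp tendsto_natCast_atTop_atTop))
  have t2 := (tendsto_LR_lt_rpow false h0 h1 ha).add t1
  rw [add_zero] at t2
  refine Top.whp_of_real_le t2 ?_
  filter_upwards [h] with n hn
  have h2 := transfer_mass false β (A n) (hε n) (exp_pos (-(n : ℝ) ^ a))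
  simp only [← real_plant, gibbsWeight_eq_ising] at h2
  simp only [not_lt]
  refine h2.trans (add_le_add le_rfl ?_)
  rw [div_le_iff₀ (mul_pos (hε n) (exp_pos _)), div_le_iff₀ (by positivity), ← card_cube,
    mul_comm, ← nsmul_eq_mul, ← Finset.card_univ]
  refine Finset.sum_le_card_nsmul _ _ _ fun x _ => (hn x).trans (le_of_eq ?_)
  rw [mul_left_comm, ← exp_add]; congr 2; ring

end Crest.Agent.T157.S6p

end
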