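import Crest.Agent.T157.S6PlB_55
import Crest.Agent.T157.S6DefB_68

/-!
# Row 157, block B/S6 (helper55): deterministic consequences of small deviations
-/

set_option autoImplicit false
set_option linter.all false

noncomputable section

namespace Crest.Agent.T157.S6p

open Matrix Real Filter Topology Set
open Crest.ProbabilityR.SpinGlassDynamics
open Crest.Agent.T157.E Crest.Agent.T157.Eig
open Crest.Agent.T157.Tap (V Mx)
open Crest.Agent.T157.Chain22 (sg hasDerivAt_sg)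
open Crest.Agent.T157.Rec (grad fl GR grad_lin grad_const_mul sg_sum sg_const_mul sg_mono sg_const
  gen_sg sv_fl_ne)
open Crest.Agent.T157.Da.Gr (loc tt grad_sum grad_sv gen_ising ising_pos)
open Crest.Agent.T157.Reg (mu am fp Nice)
open Crest.Agent.T157.S6 (Mg cc vr Fq)

variable {n : ℕ} {T : Finset (Fin n)} {W : Mx n}

lemma Mg_mulVec (W : Mx n) (v : ℝ) (x : Cube n) (w : V n) :
    Mg W v x *ᵥ w = grad (sg (mu W) v fun z => w ⬝ᵥ sv z) x := by
  funext i
  have e : sg (mu W) v (fun z => w ⬝ᵥ sv z) = fun y => ∑ a, w a * sg (mu W) v (fun z => sv z a) y := by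
    funext y; simp only [dotProduct, sg_sum, sg_const_mul]
  rw [e, grad_sum]
  simp only [grad_const_mul, Pi.smul_apply, smul_eq_mul, mulVec, dotProduct, Mg, of_apply, mul_comm]

lemma opn_Mg (hn : 0 < n) {C v : ℝ} (hC : 0 ≤ C) (h : GR (mu W) C) (hv : 0 ≤ v) (x : Cube n) :
    opn (Mg W v x) ≤ exp (C * v) := by
  refine opn_le_of_sq (exp_pos _).le fun w => ?_
  rw [Mg_mulVec]
  refine (Da.Fd.gr_le h hn (ising_pos _ _) hv (G := w ⬝ᵥ w) (fun z => by rw [grad_lin]) x).trans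
    (mul_le_mul_of_nonneg_right ?_ (dot_self_nonneg w))
  rw [sq]; exact le_mul_of_one_le_left (exp_pos _).le (one_le_exp (by positivity))

lemma sg_sv_lip (hn : 0 < n) (hW : Wᵀ = W) {v v' : ℝ} (hv : 0 ≤ v) (hv' : 0 ≤ v') (a : Fin n)
    (x : Cube n) :
    |sg (mu W) v (fun z => sv z a) x - sg (mu W) v' (fun z => sv z a) x| ≤ 2 * |v - v'| := by
  have hw : ∀ x, 0 < mu W x := ising_pos _ _
  refine (convex_Ici 0).norm_image_sub_le_of_norm_hasDerivWithin_le
    (f := fun u => sg (mu W) u (fun z => sv z a) x) (C := 2)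
    (fun u _ => (hasDerivAt_sg hn hw _ x u).hasDerivWithinAt) (fun u hu => ?_) hv' hv
  have hb : ∀ z, |gen (mu W) (fun z => sv z a) z| ≤ 2 := fun z => by
    rw [mu, gen_ising hW]
    simp only [grad_sv, mul_ite, mul_one, mul_zero, Finset.sum_ite_eq', Finset.mem_univ, if_true]
    refine (abs_sub _ _).trans ?_
    have := (abs_tanh_lt_one (loc W 0 z a)).le
    rw [sv, abs_spin, tt]; linarith
  rw [gen_sg hn hw, Real.norm_eq_abs, abs_le]
  constructor
  · rw [← sg_const hn hw u (-2) x]; exact sg_mono hn hw hu (fun z => (abs_le.1 (hb z)).1) x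
  · rw [← sg_const hn hw u 2 x]; exact sg_mono hn hw hu (fun z => (abs_le.1 (hb z)).2) x

lemma Mg_lip (hn : 0 < n) (hW : Wᵀ = W) {v v' : ℝ} (hv : 0 ≤ v) (hv' : 0 ≤ v') (x : Cube n) :
    opn (Mg W v x - Mg W v' x) ≤ 2 * n * |v - v'| := by
  refine (opn_le_sqrt_frob _).trans (sqrt_le_iff.2 ⟨by positivity, ?_⟩)
  have h : ∀ i a, (Mg W v x - Mg W v' x) i a ^ 2 ≤ (2 * |v - v'|) ^ 2 := fun i a => by
    refine sq_le_sq' ?_ ?_ <;>
    · simp only [Matrix.sub_apply, Mg, of_apply, grad, SL.incr]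
      linarith [abs_le.1 (sg_sv_lip hn hW hv hv' a (Function.update x i true)),
        abs_le.1 (sg_sv_lip hn hW hv hv' a (Function.update x i false))]
  refine (Finset.sum_le_sum fun i _ => Finset.sum_le_sum fun a _ => h i a).trans (le_of_eq ?_)
  simp only [Finset.sum_const, Finset.card_univ, Fintype.card_fin, nsmul_eq_mul]
  ring

lemma opn_cc (W : Mx n) (x : Cube n) : opn (diagonal (cc W x)) ≤ 1 :=
  opn_diagonal_le zero_le_one fun i => by
    rw [cc, tt, abs_of_nonneg (Da.Gr.sech_nonneg _)]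
    linarith [sq_nonneg (tanh (loc W 0 x i))]

lemma cav_symm (hW : Wᵀ = W) : (cav T W)ᵀ = cav T W := by
  ext i j
  have := congrFun (congrFun hW i) j
  simp only [transpose_apply] at this
  simp only [cav, transpose_apply, of_apply, or_comm, this]

lemma nice_cav {K : ℝ} (h : Nice W K) (T : Finset (Fin n)) : Nice (cav T W) K :=
  ⟨cav_symm h.1, (opn_cav T W).trans h.2.1, fun i => (Finset.sum_le_sum fun k _ => by
    simp only [cav, of_apply]; split_ifs
    · simpa using by positivity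
    · rfl).trans (h.2.2 i)⟩

lemma abs_tr_le (S : Finset (Fin n)) (A : Mx n) : |∑ i ∈ S, A i i| ≤ S.card * opn A :=
  (Finset.abs_sum_le_sum_abs _ _).trans ((Finset.sum_le_card_nsmul _ _ _ fun i _ =>
    abs_entry_le A i i).trans (by rw [nsmul_eq_mul]))

lemma opn_smul_PT (c : ℝ) (T : Finset (Fin n)) : opn (c • PT T) ≤ |c| := by
  rw [opn_smul]; exact mul_le_of_le_one_right (abs_nonneg _) (opn_PT T)

lemma tr_le {β : ℝ} (h0 : 0 ≤ β) (h1 : β ≤ 1) (hn : 0 < n) (S : Finset (Fin n)) (A : Mx n) :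
    |β ^ 2 / n * ∑ i ∈ S, A i i| ≤ S.card / n * opn A := by
  have hn' : (0 : ℝ) < n := Nat.cast_pos.2 hn
  have hb : β ^ 2 ≤ 1 := pow_le_one₀ h0 h1
  rw [abs_mul, abs_of_nonneg (by positivity : 0 ≤ β ^ 2 / n)]
  refine (mul_le_mul (div_le_div_of_nonneg_right hb hn'.le) (abs_tr_le S A) (abs_nonneg _)
    (by positivity)).trans (le_of_eq (by ring))

lemma Dev_lip {β K : ℝ} (h0 : 0 ≤ β) (h1 : β ≤ 1) (hn : 0 < n) (hK : opn W ≤ K) (A A' : Mx n) :
    Dev β T W A ≤ Dev β T W A' + (K ^ 2 + 1) * opn (A - A') := by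
  have hn' : (0 : ℝ) < n := Nat.cast_pos.2 hn
  have hR := (opn_Rw T W).trans hK
  have e : Rw T W * A * (Rw T W)ᵀ - (β ^ 2 / n * ∑ i ∈ Tᶜ, A i i) • PT T =
      (Rw T W * A' * (Rw T W)ᵀ - (β ^ 2 / n * ∑ i ∈ Tᶜ, A' i i) • PT T) +
      (Rw T W * (A - A') * (Rw T W)ᵀ - (β ^ 2 / n * ∑ i ∈ Tᶜ, (A - A') i i) • PT T) := by
    simp only [Matrix.mul_sub, Matrix.sub_mul, Matrix.sub_apply, Finset.sum_sub_distrib, mul_sub,
      sub_smul]
    abel
  rw [Dev, e]
  refine (opn_add_le _ _).trans (add_le_add le_rfl ((opn_sub_le _ _).trans ?_))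
  have hA := opn_nonneg (A - A')
  have hK0 : 0 ≤ K := (opn_nonneg _).trans hK
  have h2 : opn (Rw T W * (A - A') * (Rw T W)ᵀ) ≤ K * opn (A - A') * K := (opn_mul_le _ _).trans
    (mul_le_mul ((opn_mul_le _ _).trans (mul_le_mul_of_nonneg_right hR hA))
      (by rwa [opn_transpose]) (opn_nonneg _) (by positivity))
  have h3 := (opn_smul_PT _ T).trans (tr_le h0 h1 hn Tᶜ (A - A'))
  have h4 : ((Tᶜ).card / n : ℝ) ≤ 1 := (div_le_one hn').2 (by
    exact_mod_cast (Finset.card_le_univ _).trans (Fintype.card_fin n).le)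
  nlinarith

lemma g1_le {β : ℝ} (h0 : 0 ≤ β) (h1 : β ≤ 1) (hn : 0 < n) (A : Mx n) :
    opn (Rw T W * A * (Rw T W)ᵀ - (β ^ 2 * ((∑ i, A i i) / n)) • PT T) ≤
      Dev β T W A + T.card / n * opn A := by
  have e : Rw T W * A * (Rw T W)ᵀ - (β ^ 2 * ((∑ i, A i i) / n)) • PT T =
      (Rw T W * A * (Rw T W)ᵀ - (β ^ 2 / n * ∑ i ∈ Tᶜ, A i i) • PT T) -
        (β ^ 2 / n * ∑ i ∈ T, A i i) • PT T := by
    rw [sub_sub, ← add_smul, ← Finset.sum_add_sum_compl T]; congr 2; ring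
  rw [e]
  exact (opn_sub_le _ _).trans (add_le_add le_rfl ((opn_smul_PT _ T).trans (tr_le h0 h1 hn T A)))

lemma sq_le (β : ℝ) (B : Mx n) :
    opn (B * (Rw T W)ᵀ) ^ 2 ≤ Dev β T W (Bᵀ * B) + β ^ 2 * (fp B B / n) := by
  have e : (B * (Rw T W)ᵀ)ᵀ * (B * (Rw T W)ᵀ) =
      (Rw T W * (Bᵀ * B) * (Rw T W)ᵀ - (β ^ 2 / n * ∑ i ∈ Tᶜ, (Bᵀ * B) i i) • PT T) +
        (β ^ 2 / n * ∑ i ∈ Tᶜ, (Bᵀ * B) i i) • PT T := by
    rw [sub_add_cancel, transpose_mul, transpose_transpose]; simp only [Matrix.mul_assoc]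
  have h : ∀ i, 0 ≤ (Bᵀ * B) i i := fun i => by
    simp only [mul_apply, transpose_apply]; exact Finset.sum_nonneg fun k _ => mul_self_nonneg _
  rw [sq, ← opn_transpose_mul_self, e]
  refine (opn_add_le _ _).trans (add_le_add le_rfl ((opn_smul_PT _ T).trans ?_))
  rw [abs_of_nonneg (mul_nonneg (by positivity) (Finset.sum_nonneg fun i _ => h i)),
    ← mul_div_assoc, mul_div_right_comm]
  refine mul_le_mul_of_nonneg_left ((Finset.sum_le_univ_sum_of_nonneg h).trans (le_of_eq ?_))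
    (by positivity)
  simp only [mul_apply, transpose_apply, fp]
  exact Finset.sum_comm

lemma fp_PT (S : Finset (Fin n)) (B : Mx n) : fp (PT S * B) (PT S * B) ≤ S.card * opn B ^ 2 := by
  have h : ∀ i, ∑ j, (PT S * B) i j * (PT S * B) i j ≤ if i ∈ S then opn B ^ 2 else 0 := fun i => by
    simp only [PT, diagonal_mul]
    split_ifs
    · have h1 := nrm_mulVec_le Bᵀ (Pi.single i 1)
      rw [opn_transpose, nrm_single, mul_one] at h1
      have h2 := pow_le_pow_left₀ (nrm_nonneg _) h1 2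
      rw [nrm_sq] at h2
      simpa [dotProduct] using h2
    · simp
  refine (Finset.sum_le_sum fun i _ => h i).trans (le_of_eq ?_)
  rw [← Finset.sum_filter]; simp

lemma sum_quarter {i j : Fin n} (h : i ≠ j) :
    ∑ x : Cube n, (if x i = true then (1 : ℝ) else 0) * (if x j = true then 0 else 1) = 2 ^ n / 4 := by
  have e : ∀ x : Cube n, (if x i = true then (1 : ℝ) else 0) * (if x j = true then 0 else 1) =
      (1 + sv x i) * (1 - sv x j) / 4 := fun x => by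
    simp only [sv]; cases x i <;> cases x j <;> norm_num [spin]
  have f1 : ∀ (x : Cube n) (k : Fin n), sv (fl x k) k = -sv x k := fun x k => by
    simp [sv, fl, spin_not]
  have sf : ∀ (k : Fin n) (F : Cube n → ℝ), ∑ x, F (fl x k) = ∑ x, F x := fun k F =>
    Equiv.sum_comp (Function.Involutive.toPerm (fun x : Cube n => fl x k) fun x => by simp [fl]) F
  have h1 := sf i fun x => (1 + sv x i) * (1 - sv x j) / 4
  have h2 := sf j fun x => (1 - sv x j) / 2
  have h3 : ∑ x : Cube n, (1 : ℝ) = 2 ^ n := by simp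
  simp only [f1, sv_fl_ne _ h.symm] at h1 h2
  have h4 : ∑ x : Cube n, (1 + -sv x i) * (1 - sv x j) / 4 + ∑ x : Cube n, (1 + sv x i) * (1 - sv x j) / 4 =
      ∑ x : Cube n, (1 - sv x j) / 2 := by
    rw [← Finset.sum_add_distrib]; exact Finset.sum_congr rfl fun x _ => by ring
  have h5 : ∑ x : Cube n, (1 - -sv x j) / 2 + ∑ x : Cube n, (1 - sv x j) / 2 = ∑ x : Cube n, (1 : ℝ) := by
    rw [← Finset.sum_add_distrib]; exact Finset.sum_congr rfl fun x _ => by ring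
  simp only [e]
  linarith

/-- decoupling of a principal block -/
lemma decouple (hd : ∀ i, W i i = 0) (U : Finset (Fin n)) {δ : ℝ}
    (h : ∀ A B : Finset (Fin n), A ⊆ U → B ⊆ U → opn (PT B * (Rw A W)ᵀ) ≤ δ) :
    opn (PT U * W * PT U) ≤ 4 * δ := by
  have e : ∑ x : Cube n, (PT (U.filter fun i => ¬ x i = true) *
      (Rw (U.filter fun i => x i = true) W)ᵀ)ᵀ = (2 ^ n / 4 : ℝ) • (PT U * W * PT U) := by
    ext i j
    simp only [Matrix.sum_apply, transpose_apply, PT, diagonal_mul, mul_diagonal, Rw, of_apply,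
      Matrix.smul_apply, smul_eq_mul, Finset.mem_filter]
    rcases eq_or_ne i j with rfl | hij
    · simp [hd]
    · rw [← sum_quarter hij, Finset.sum_mul]
      refine Finset.sum_congr rfl fun x _ => ?_
      by_cases h1 : i ∈ U <;> by_cases h2 : j ∈ U <;> cases x i <;> cases x j <;> simp [h1, h2]
  have h2 := (opn_sum_le Finset.univ fun x : Cube n => (PT (U.filter fun i => ¬ x i = true) *
      (Rw (U.filter fun i => x i = true) W)ᵀ)ᵀ).trans (Finset.sum_le_card_nsmul _ _ δ fun x _ => by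
    rw [opn_transpose]; exact h _ _ (Finset.filter_subset _ _) (Finset.filter_subset _ _))
  rw [e, opn_smul, abs_of_nonneg (by positivity), Finset.card_univ, nsmul_eq_mul, Pl.card_cube] at h2
  have : (0 : ℝ) < 2 ^ n := by positivity
  nlinarith

lemma PT_mul {S U : Finset (Fin n)} (h : S ⊆ U) : PT S * PT U = PT S ∧ PT U * PT S = PT S := by
  simp only [PT, diagonal_mul_diagonal]
  constructor <;> congr 1 <;> funext i <;> by_cases h1 : i ∈ S
  exacts [by simp [h1, h h1], by simp [h1], by simp [h1, h h1], by simp [h1]]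

lemma sub_le (hd : ∀ i, W i i = 0) (S T : Finset (Fin n)) {δ : ℝ}
    (h : ∀ A B : Finset (Fin n), A.card ≤ S.card + T.card → B.card ≤ S.card + T.card →
      opn (PT B * (Rw A W)ᵀ) ≤ δ) : opn (PT S * W * PT T) ≤ 4 * δ := by
  have e : PT S * W * PT T = PT S * (PT (S ∪ T) * W * PT (S ∪ T)) * PT T := by
    simp only [← Matrix.mul_assoc]
    rw [(PT_mul Finset.subset_union_left).1, Matrix.mul_assoc (PT S * W),
      (PT_mul Finset.subset_union_right).2]
  rw [e]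
  exact (opn_sand _ _ _).trans (decouple hd _ fun A B hA hB => h A B
    ((Finset.card_le_card hA).trans (Finset.card_union_le _ _))
    ((Finset.card_le_card hB).trans (Finset.card_union_le _ _)))

/-- the four test matrices -/
def F4 (W : Mx n) (y : Cube n) (v : ℝ) (S : Finset (Fin n)) : Fin 4 → Mx n :=
  ![diagonal (cc W y) * Mg W v y, (Mg W v y)ᵀ * Mg W v y,
    (PT S * am W y * Mg W v y)ᵀ * (PT S * am W y * Mg W v y), (PT S)ᵀ * PT S]

lemma opn_gram {A B : Mx n} {Λ d : ℝ} (hA : opn A ≤ Λ) (hB : opn B ≤ Λ) (h : opn (A - B) ≤ d) :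
    opn (Aᵀ * A - Bᵀ * B) ≤ 2 * Λ * d := by
  have e : Aᵀ * A - Bᵀ * B = Aᵀ * (A - B) + (A - B)ᵀ * B := by
    simp only [transpose_sub, Matrix.mul_sub, Matrix.sub_mul]; abel
  have hΛ := (opn_nonneg _).trans hA
  have hd := (opn_nonneg _).trans h
  have h1 : opn (Aᵀ * (A - B)) ≤ Λ * d := (opn_mul_le _ _).trans
    (mul_le_mul (by rwa [opn_transpose]) h (opn_nonneg _) hΛ)
  have h2 : opn ((A - B)ᵀ * B) ≤ d * Λ := (opn_mul_le _ _).trans
    (mul_le_mul (by rwa [opn_transpose]) hB (opn_nonneg _) hd)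
  rw [e]; linarith [opn_add_le (Aᵀ * (A - B)) ((A - B)ᵀ * B)]

lemma opn_three (S : Finset (Fin n)) {A M : Mx n} {a b : ℝ} (hA : opn A ≤ a) (hM : opn M ≤ b) :
    opn (PT S * A * M) ≤ a * b :=
  (opn_mul_le _ _).trans (mul_le_mul ((opn_mul_le _ _).trans ((mul_le_mul (opn_PT S) hA
    (opn_nonneg _) zero_le_one).trans (one_mul _).le)) hM (opn_nonneg _) ((opn_nonneg _).trans hA))

lemma opn_F4 {y : Cube n} {v Λ : ℝ} (h1 : 1 ≤ Λ) (hM : opn (Mg W v y) ≤ Λ) (ha : opn (am W y) ≤ Λ)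
    (S : Finset (Fin n)) (j : Fin 4) : opn (F4 W y v S j) ≤ Λ ^ 4 := by
  have p1 : Λ ≤ Λ ^ 4 := le_self_pow₀ h1 (by norm_num)
  have p2 : Λ * Λ ≤ Λ ^ 4 := by rw [← sq]; exact pow_le_pow_right₀ h1 (by norm_num)
  fin_cases j
  · exact (opn_mul_le _ _).trans ((mul_le_mul (opn_cc W y) hM (opn_nonneg _) zero_le_one).trans
      ((one_mul _).le.trans p1))
  · exact (opn_transpose_mul_self _).le.trans ((mul_self_le_mul_self (opn_nonneg _) hM).trans p2)
  · exact (opn_transpose_mul_self _).le.trans ((mul_self_le_mul_self (opn_nonneg _)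
      (opn_three S ha hM)).trans (le_of_eq (by ring)))
  · exact (opn_transpose_mul_self _).le.trans ((mul_self_le_mul_self (opn_nonneg _)
      (opn_PT S)).trans ((one_mul _).le.trans (h1.trans p1)))

lemma F4_lip {y : Cube n} {v v' Λ d : ℝ} (h1 : 1 ≤ Λ) (hM : opn (Mg W v y) ≤ Λ)
    (hM' : opn (Mg W v' y) ≤ Λ) (ha : opn (am W y) ≤ Λ) (hd : opn (Mg W v y - Mg W v' y) ≤ d)
    (S : Finset (Fin n)) (j : Fin 4) : opn (F4 W y v S j - F4 W y v' S j) ≤ 2 * d * Λ ^ 4 := by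
  have d0 := (opn_nonneg _).trans hd
  have p0 : 1 ≤ Λ ^ 4 := one_le_pow₀ h1
  have p1 : Λ ≤ Λ ^ 4 := le_self_pow₀ h1 (by norm_num)
  have p3 : Λ ^ 3 ≤ Λ ^ 4 := pow_le_pow_right₀ h1 (by norm_num)
  fin_cases j
  · refine le_trans (le_of_eq (congrArg opn (Matrix.mul_sub _ _ _).symm)) ((opn_mul_le _ _).trans
      ((mul_le_mul (opn_cc W y) hd (opn_nonneg _) zero_le_one).trans ?_))
    nlinarith
  · exact (opn_gram hM hM' hd).trans (by nlinarith)
  · refine (opn_gram (opn_three S ha hM) (opn_three S ha hM') (d := Λ * d) (by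
      rw [← Matrix.mul_sub]; exact opn_three S ha hd)).trans ?_
    nlinarith
  · exact (le_of_eq (by simp [F4])).trans (show (0 : ℝ) ≤ _ by positivity)

/-- the test family on a time grid -/
def fam (τ : ℝ) (N : ℕ) (p : ℕ × Fin 4 × Finset (Fin n)) (W : Mx n) (y : Cube n) : Mx n :=
  F4 W y (τ * p.1 / N) p.2.2 p.2.1

/-- its index set -/
def idx (n N m : ℕ) : Finset (ℕ × Fin 4 × Finset (Fin n)) :=
  Finset.range (N + 1) ×ˢ Finset.univ ×ˢ Finset.univ.filter fun T : Finset (Fin n) => T.card ≤ m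

lemma card_idx (n N m : ℕ) : ((idx n N m).card : ℝ) ≤ (N + 1) * (4 * (n + 1) ^ m) := by
  have := card_small (n := n) m
  simp only [idx, Finset.card_product, Finset.card_range, Finset.card_univ, Fintype.card_fin]
  exact_mod_cast Nat.mul_le_mul_left _ (Nat.mul_le_mul_left _ this)

lemma grid {τ v : ℝ} {N : ℕ} (hN : 0 < N) (hv : v ∈ Icc 0 τ) :
    ∃ j ≤ N, τ * j / N ∈ Icc 0 τ ∧ |v - τ * j / N| ≤ τ / N := by
  have hN' : (0 : ℝ) < N := Nat.cast_pos.2 hN
  have hτ : 0 ≤ τ := hv.1.trans hv.2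
  rcases hτ.eq_or_lt with rfl | hτ'
  · exact ⟨0, Nat.zero_le _, by simp, by simp [le_antisymm hv.2 hv.1]⟩
  have h0 : 0 ≤ v * N / τ := by have := hv.1; positivity
  have h1 := Nat.floor_le h0
  have h2 := Nat.lt_floor_add_one (v * N / τ)
  have h3 : v * N / τ ≤ N := by rw [div_le_iff₀ hτ']; nlinarith [hv.2]
  rw [le_div_iff₀ hτ'] at h1
  rw [div_lt_iff₀ hτ'] at h2
  have h4 : τ * ⌊v * N / τ⌋₊ / N ≤ v := by rw [div_le_iff₀ hN']; linarith
  refine ⟨⌊v * N / τ⌋₊, Nat.floor_le_of_le h3, ⟨by positivity, h4.trans hv.2⟩, ?_⟩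
  rw [abs_of_nonneg (sub_nonneg.2 h4), sub_le_iff_le_add, ← add_div, le_div_iff₀ hN']
  linarith

/-- off the bad set all deviations are small, at all times -/
lemma dev_le {β K s τ Λ : ℝ} {N m : ℕ} (h0 : 0 ≤ β) (h1 : β ≤ 1) (hn : 0 < n) (hN : 0 < N)
    (hW : Wᵀ = W) (hK : opn W ≤ K) (hs : 0 ≤ s) (hΛ : 1 ≤ Λ) {y : Cube n}
    (hM : ∀ v ∈ Icc 0 τ, opn (Mg (cav T W) v y) ≤ Λ) (ha : opn (am (cav T W) y) ≤ Λ)
    (hy : y ∉ Bad β K s (idx n N m) (fam τ N) T W) {v : ℝ} (hv : v ∈ Icc 0 τ)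
    {S : Finset (Fin n)} (hS : S.card ≤ m) (j : Fin 4) :
    Dev β T W (F4 (cav T W) y v S j) ≤ (s + (K ^ 2 + 1) * (4 * n * τ / N)) * Λ ^ 4 := by
  obtain ⟨i, hi, hi2, hi3⟩ := grid hN hv
  have h2 : Dev β T W (F4 (cav T W) y (τ * i / N) S j) ≤ s * Λ ^ 4 := by
    by_contra hc
    refine hy ⟨hK, (i, j, S), by simp [idx, Nat.lt_succ_of_le hi, hS], ?_⟩
    exact lt_of_le_of_lt (mul_le_mul_of_nonneg_left (opn_F4 hΛ (hM _ hi2) ha S j) hs) (not_le.1 hc)
  have h3 := F4_lip hΛ (hM v hv) (hM _ hi2) ha ((Mg_lip hn (cav_symm hW) hv.1 hi2.1 y).trans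
    (mul_le_mul_of_nonneg_left hi3 (by positivity))) S j
  refine (Dev_lip h0 h1 hn hK _ _).trans ((add_le_add h2 (mul_le_mul_of_nonneg_left h3
    (by positivity))).trans (le_of_eq (by ring)))

end Crest.Agent.T157.S6p

end
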