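import Crest.Agent.T157.EntE_34

/-!
# Row 157, part B, block S6, (S), part 1 (helper22): the binary channel

Given `a` with small coordinates, the output `g` has independent spins of means `a j`;
`Lk a g` is its density with respect to the uniform law `un`.
-/

set_option autoImplicit false

noncomputable section

namespace Crest.Agent.T157.S6s

open Finset Matrix Real
open Crest.Agent.T157.Chain22 Crest.Agent.T157.Ent
open Crest.Agent.T157.E (Cube)
open Crest.ProbabilityR.SpinGlassDynamics (spin)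

section prod
variable {ι α : Type*} [Fintype ι] [DecidableEq ι] [Fintype α] {p : ι → α → ℝ}

theorem mean_prod (p f : ι → α → ℝ) :
    mean (ppi p) (fun g => ∏ j, f j (g j)) = ∏ j, mean (p j) (f j) := by
  have := prod_univ_sum (fun _ : ι => (univ : Finset α)) fun j a => p j a * f j a
  simp only [Fintype.piFinset_univ] at this
  simp only [mean, ppi, ← prod_mul_distrib]
  exact this.symm

theorem mean_sum_coord (hp : ∀ i, IsP (p i)) (f : ι → α → ℝ) :
    mean (ppi p) (fun g => ∑ j, f j (g j)) = ∑ j, mean (p j) (f j) := by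
  rw [mean_sum']
  refine sum_congr rfl fun j _ => ?_
  rw [← mean_ppi_update hp j]
  simp only [Function.update_self]
  exact (isP_ppi hp).mean_const _

end prod

variable {n : ℕ} {l : ℝ} {a a' : Fin n → ℝ}

def pa (t : ℝ) (b : Bool) : ℝ := 1 + spin b * t
def pb (t : ℝ) (b : Bool) : ℝ := pa t b / 2
/-- uniform law -/
def un (n : ℕ) : Cube n → ℝ := ppi fun _ => pb 0
/-- density of the output -/
def Lk (a : Fin n → ℝ) (g : Cube n) : ℝ := ∏ j, pa (a j) (g j)

theorem mean_pb (t : ℝ) (f : Bool → ℝ) :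
    mean (pb t) f = (1 + t) / 2 * f true + (1 - t) / 2 * f false := by
  simp [mean, pb, pa, spin, sub_eq_add_neg]

theorem pa_ge {t : ℝ} (h : |t| ≤ l) (b : Bool) : 1 - l ≤ pa t b := by
  have := abs_le.1 h
  cases b <;> simp [pa, spin] <;> linarith [this.1, this.2]

theorem pa_le {t : ℝ} (h : |t| ≤ l) (b : Bool) : pa t b ≤ 1 + l := by
  have := abs_le.1 h
  cases b <;> simp [pa, spin] <;> linarith [this.1, this.2]

theorem pa_pos {t : ℝ} (h : |t| ≤ 1 / 2) (b : Bool) : 0 < pa t b := by linarith [pa_ge h b]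

theorem pa_sub_sq (t s : ℝ) (b : Bool) : (pa t b - pa s b) ^ 2 = (t - s) ^ 2 := by
  cases b <;> simp [pa, spin]; ring

theorem isP_pb {t : ℝ} (h : |t| ≤ 1 / 2) : IsP (pb t) where
  nn b := (half_pos (pa_pos h b)).le
  sum1 := by simp [pb, pa, spin]; ring

theorem isP_un : IsP (un n) := isP_ppi fun _ => isP_pb (by norm_num)

theorem Lk_pos (h : ∀ j, |a j| ≤ 1 / 2) (g : Cube n) : 0 < Lk a g :=
  prod_pos fun j _ => pa_pos (h j) _

theorem mean_Lk (a : Fin n → ℝ) (F : Cube n → ℝ) :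
    mean (un n) (fun g => Lk a g * F g) = mean (ppi fun j => pb (a j)) F := by
  refine sum_congr rfl fun g _ => ?_
  rw [← mul_assoc, un, Lk, ppi, ppi, ← prod_mul_distrib]
  congr 1
  exact prod_congr rfl fun j _ => by simp only [pb, pa]; ring

theorem mean_Lk_one (h : ∀ j, |a j| ≤ 1 / 2) : mean (un n) (Lk a) = 1 := by
  have := mean_Lk a fun _ => 1
  simp only [mul_one] at this
  exact this.trans ((isP_ppi fun j => isP_pb (h j)).mean_const 1)

theorem log_Lk (h : ∀ j, |a j| ≤ 1 / 2) (g : Cube n) :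
    log (Lk a g) = ∑ j, log (pa (a j) (g j)) := log_prod fun j _ => (pa_pos (h j) _).ne'

theorem lg_le {p q : ℝ} (hp : 0 < p) (hq : 0 < q) : log q - log p ≤ (q - p) / p := by
  rw [← log_div hq.ne' hp.ne', sub_div, div_self hp.ne']
  exact log_le_sub_one_of_pos (by positivity)

theorem Lk_le (hl : l ≤ 1 / 2) (h : ∀ j, |a j| ≤ l) (g : Cube n) :
    exp (-(2 * l * n)) ≤ Lk a g ∧ Lk a g ≤ exp (l * n) := by
  have h' := fun j => (h j).trans hl
  rw [← exp_log (Lk_pos h' g), exp_le_exp, exp_le_exp, log_Lk h']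
  have k : ∀ j, -(2 * l) ≤ log (pa (a j) (g j)) ∧ log (pa (a j) (g j)) ≤ l := fun j => by
    have p0 := pa_pos (h' j) (g j)
    have p1 := pa_ge (h j) (g j)
    have p2 := lg_le p0 one_pos
    have l0 := (abs_nonneg _).trans (h j)
    rw [log_one, le_div_iff₀ p0] at p2
    refine ⟨?_, by linarith [log_le_sub_one_of_pos p0, pa_le (h j) (g j)]⟩
    by_contra hc
    nlinarith [mul_pos p0 (sub_pos.2 (not_le.1 hc))]
  constructor
  · have := card_nsmul_le_sum univ _ _ fun j _ => (k j).1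
    simp only [card_univ, Fintype.card_fin, nsmul_eq_mul] at this
    linarith
  · have := sum_le_card_nsmul univ _ _ fun j _ => (k j).2
    simp only [card_univ, Fintype.card_fin, nsmul_eq_mul] at this
    linarith

theorem fenchel {y : ℝ} (hy : 0 < y) (c : ℝ) : y * c - exp c + y ≤ y * log y := by
  have := lg_le hy (exp_pos c)
  rw [log_exp, le_div_iff₀ hy] at this
  linarith

/-- the information carried by the output -/
theorem info_ge (h : ∀ j, |a j| ≤ 1 / 2) :
    a ⬝ᵥ a / 2 ≤ mean (un n) fun g => Lk a g * log (Lk a g) := by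
  simp only [log_Lk h]
  rw [mean_Lk, mean_sum_coord (fun j => isP_pb (h j)) fun j b => log (pa (a j) b), dotProduct,
    sum_div]
  refine sum_le_sum fun j _ => ?_
  have h1 := fenchel (pa_pos (h j) true) (a j - a j ^ 2 / 2)
  have h2 := fenchel (pa_pos (h j) false) (-a j - a j ^ 2 / 2)
  have h3 := cosh_le_exp_half_sq (a j)
  have h4 : exp (a j - a j ^ 2 / 2) + exp (-a j - a j ^ 2 / 2) ≤ 2 := by
    rw [exp_sub, exp_sub, ← add_div, div_le_iff₀ (exp_pos _)]
    rw [cosh_eq] at h3; linarith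
  rw [mean_pb]
  have e1 : pa (a j) true = 1 + a j := by simp [pa, spin]
  have e2 : pa (a j) false = 1 - a j := by simp [pa, spin, sub_eq_add_neg]
  rw [e1] at h1 ⊢
  rw [e2] at h2 ⊢
  linarith

/-- second moment -/
theorem two_le (h : ∀ j, |a j| ≤ 1 / 2) (h' : ∀ j, |a' j| ≤ 1 / 2) :
    mean (un n) (fun g => Lk a g * Lk a' g) ≤ exp (a ⬝ᵥ a') := by
  rw [mean_Lk]
  unfold Lk
  rw [mean_prod _ fun j b => pa (a' j) b, dotProduct, exp_sum]
  refine prod_le_prod (fun j _ => (isP_pb (h j)).mean_nonneg fun b => (pa_pos (h' j) b).le)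
    fun j _ => ?_
  rw [mean_pb]
  have := add_one_le_exp (a j * a' j)
  simp only [pa, spin, if_true, Bool.false_eq_true, if_false]
  linarith

theorem sym_le {p q : ℝ} (hl0 : 0 ≤ l) (hl : l ≤ 1 / 2) (hp : 1 - l ≤ p) (hq : 1 - l ≤ q) :
    (p - q) * (log p - log q) ≤ (1 + 2 * l) * (p - q) ^ 2 := by
  wlog h : q ≤ p generalizing p q
  · have := this hq hp (le_of_not_ge h)
    linarith
  have q0 : 0 < q := by linarith
  have h1 := lg_le q0 (show 0 < p by linarith)
  have h2 : (p - q) / q ≤ (1 + 2 * l) * (p - q) := by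
    rw [div_le_iff₀ q0]
    have : 1 ≤ (1 + 2 * l) * q := by nlinarith
    nlinarith
  nlinarith

/-- symmetrised entropy -/
theorem sym_Lk (hl : l ≤ 1 / 2) (h : ∀ j, |a j| ≤ l) (h' : ∀ j, |a' j| ≤ l) :
    mean (un n) (fun g => (Lk a g - Lk a' g) * (log (Lk a g) - log (Lk a' g))) ≤
      (1 + 2 * l) * ∑ j, (a j - a' j) ^ 2 := by
  have k := fun j => (h j).trans hl
  have k' := fun j => (h' j).trans hl
  simp only [log_Lk k, log_Lk k', ← sum_sub_distrib, sub_mul]
  rw [mean_sub', mean_Lk, mean_Lk,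
    mean_sum_coord (fun j => isP_pb (k j)) fun j b => log (pa (a j) b) - log (pa (a' j) b),
    mean_sum_coord (fun j => isP_pb (k' j)) fun j b => log (pa (a j) b) - log (pa (a' j) b),
    ← sum_sub_distrib, mul_sum]
  refine sum_le_sum fun j _ => ?_
  have l0 := (abs_nonneg _).trans (h j)
  have h1 := fun b => sym_le l0 hl (pa_ge (h j) b) (pa_ge (h' j) b)
  have h2 := h1 true
  have h3 := h1 false
  rw [pa_sub_sq] at h2 h3
  simp only [mean, Fintype.sum_bool, pb]
  linarith

theorem lg3 {p q : ℝ} (hp : 1 / 2 ≤ p) (hq : 1 / 2 ≤ q) : |log q - log p| ≤ 2 * |q - p| ∧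
    p * (log q - log p) ≤ q - p ∧ q - p - 2 * (q - p) ^ 2 ≤ p * (log q - log p) := by
  have p0 : 0 < p := by linarith
  have q0 : 0 < q := by linarith
  have h1 := lg_le p0 q0
  have h2 := lg_le q0 p0
  rw [le_div_iff₀ p0] at h1
  rw [le_div_iff₀ q0, ← neg_sub (log q)] at h2
  generalize log q - log p = z at *
  have h3 : |z| ≤ 2 * |q - p| := by
    have := abs_le.1 (le_refl |q - p|)
    rcases abs_cases z with e | e <;> rw [e.1] <;> nlinarith [e.2, this.1, this.2]
  have h4 : (q - p) * z ≤ |q - p| * (2 * |q - p|) := (le_abs_self _).trans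
    (by rw [abs_mul]; exact mul_le_mul_of_nonneg_left h3 (abs_nonneg _))
  exact ⟨h3, by linarith, by nlinarith [sq_abs (q - p)]⟩

theorem mgf_one {t s θ : ℝ} (ht : |t| ≤ 1 / 2) (hs : |s| ≤ 1 / 2) (h : |θ| * (2 * |s - t|) ≤ 1) :
    mean (pb t) (fun b => exp (θ * (log (pa s b) - log (pa t b)))) ≤
      exp ((2 * |θ| + 4 * θ ^ 2) * (s - t) ^ 2) := by
  have hp := isP_pb ht
  set ξ : Bool → ℝ := fun b => log (pa s b) - log (pa t b) with hξ
  have k : ∀ b, |ξ b| ≤ 2 * |s - t| ∧ pa t b * ξ b ≤ pa s b - pa t b ∧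
      pa s b - pa t b - 2 * (s - t) ^ 2 ≤ pa t b * ξ b := fun b => by
    have e := pa_sub_sq s t b
    rw [← e, ← (sq_eq_sq_iff_abs_eq_abs _ _).1 e]
    exact lg3 (by linarith [pa_ge ht b]) (by linarith [pa_ge hs b])
  have m1 : |mean (pb t) ξ| ≤ 2 * (s - t) ^ 2 := by
    have a1 := (k true).2
    have a2 := (k false).2
    have e : pa s true - pa t true + (pa s false - pa t false) = 0 := by simp [pa, spin]
    simp only [mean, Fintype.sum_bool, pb]
    exact abs_le.2 ⟨by linarith [a1.2, a2.2], by nlinarith [a1.1, a2.1, sq_nonneg (s - t)]⟩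
  have m2 : mean (pb t) (fun b => exp (θ * ξ b)) ≤
      mean (pb t) fun b => θ * ξ b + (1 + 4 * θ ^ 2 * (s - t) ^ 2) := hp.mean_mono fun b => by
    have b1 : |θ * ξ b| ≤ |θ| * (2 * |s - t|) := by
      rw [abs_mul]; exact mul_le_mul_of_nonneg_left (k b).1 (abs_nonneg _)
    have b2 := (abs_le.1 (abs_exp_sub_one_sub_id_le (b1.trans h))).2
    have b3 := pow_le_pow_left₀ (abs_nonneg _) b1 2
    rw [sq_abs, mul_pow (|θ|), mul_pow 2, sq_abs, sq_abs] at b3
    linarith
  rw [mean_add', mean_const_mul, hp.mean_const] at m2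
  have m3 : θ * mean (pb t) ξ ≤ |θ| * (2 * (s - t) ^ 2) :=
    (le_abs_self _).trans (by rw [abs_mul]; exact mul_le_mul_of_nonneg_left m1 (abs_nonneg _))
  linarith [add_one_le_exp ((2 * |θ| + 4 * θ ^ 2) * (s - t) ^ 2)]

/-- third moment of the score -/
theorem cube_Lk {σ : ℝ} (h : ∀ j, |a j| ≤ 1 / 2) (h' : ∀ j, |a' j| ≤ 1 / 2) (h0 : 0 < σ)
    (h1 : σ ≤ 1) (hs : ∑ j, (a' j - a j) ^ 2 ≤ σ ^ 2) :
    mean (un n) (fun g => Lk a g * |log (Lk a' g) - log (Lk a g)| ^ 3) ≤ 720 * σ ^ 3 := by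
  have hp := isP_ppi fun j => isP_pb (h j)
  have m : ∀ θ : ℝ, |θ| = 1 / (2 * σ) → mean (ppi fun j => pb (a j))
      (fun g => exp (θ * (log (Lk a' g) - log (Lk a g)))) ≤ 7.5 := fun θ hθ => by
    simp only [log_Lk h, log_Lk h', ← sum_sub_distrib, mul_sum, exp_sum]
    rw [mean_prod _ fun j b => exp (θ * (log (pa (a' j) b) - log (pa (a j) b)))]
    refine (prod_le_prod (fun j _ => (isP_pb (h j)).mean_nonneg fun b => (exp_pos _).le)
      fun j _ => mgf_one (h j) (h' j) ?_).trans ?_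
    · have : |a' j - a j| ≤ σ := abs_le_of_sq_le_sq ((single_le_sum
        (f := fun j => (a' j - a j) ^ 2) (fun _ _ => sq_nonneg _) (mem_univ j)).trans hs) h0.le
      rw [hθ, div_mul_eq_mul_div, div_le_one (by positivity)]; linarith
    rw [← exp_sum, ← mul_sum, ← sq_abs θ, hθ]
    have e : (2 * (1 / (2 * σ)) + 4 * (1 / (2 * σ)) ^ 2) * σ ^ 2 = σ + 1 := by field_simp; ring
    have e2 : exp 2 = exp 1 * exp 1 := by rw [← exp_add]; norm_num
    have := exp_one_lt_d9
    refine (exp_le_exp.2 ((mul_le_mul_of_nonneg_left hs (by positivity)).trans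
      (show _ ≤ 2 by linarith))).trans (by nlinarith [exp_pos 1])
  rw [mean_Lk]
  have m1 := m (1 / (2 * σ)) (abs_of_pos (by positivity))
  have m2 := m (-(1 / (2 * σ))) (by rw [abs_neg, abs_of_pos (by positivity)])
  refine (hp.mean_mono (g := fun g => 48 * σ ^ 3 *
    (exp (1 / (2 * σ) * (log (Lk a' g) - log (Lk a g))) +
      exp (-(1 / (2 * σ)) * (log (Lk a' g) - log (Lk a g))))) fun g => ?_).trans ?_
  · generalize log (Lk a' g) - log (Lk a g) = z
    have b1 := pow_div_factorial_le_exp (|1 / (2 * σ) * z|) (abs_nonneg _) 3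
    have b2 : exp |1 / (2 * σ) * z| ≤ exp (1 / (2 * σ) * z) + exp (-(1 / (2 * σ)) * z) := by
      rw [neg_mul]
      rcases abs_cases (1 / (2 * σ) * z) with e | e <;> rw [e.1] <;>
        linarith [exp_pos (1 / (2 * σ) * z), exp_pos (-(1 / (2 * σ) * z))]
    have e : |z| ^ 3 = 48 * σ ^ 3 * (|1 / (2 * σ) * z| ^ 3 / (Nat.factorial 3 : ℕ)) := by
      rw [abs_mul, abs_of_pos (show 0 < 1 / (2 * σ) by positivity)]
      simp only [Nat.factorial]; push_cast; field_simp; ring
    rw [e]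
    exact mul_le_mul_of_nonneg_left (b1.trans b2) (by positivity)
  · rw [mean_const_mul, mean_add']
    nlinarith [pow_pos h0 3]

end Crest.Agent.T157.S6s

end
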