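import Crest.Agent.T157.S6SA_22
import Crest.Agent.T157.UeD_83
import Crest.Agent.T157.BDefB_95

/-!
# Row 157, part B, block S6, (S), part 2 (helper22): linearisation of the entropy inequality
-/

set_option autoImplicit false

noncomputable section

namespace Crest.Agent.T157.S6s

open Finset Matrix Real
open Crest.Agent.T157.Chain22 Crest.Agent.T157.Ent
open Crest.Agent.T157.E (Cube prob siteM dir dir2 sv)
open Crest.Agent.T157.Rec (grad fl)
open Crest.Agent.T157.Rv (Warm II)
open Crest.Agent.T157.B (Df dn kS)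

variable {n : ℕ} {w F : Cube n → ℝ}

theorem sub_siteM (hw : ∀ x, 0 < w x) (F : Cube n → ℝ) (i : Fin n) (x : Cube n) :
    F x - siteM w F i x = cnd w i x (!x i) * (F x - F (fl x i)) := by
  have h := (den_pos hw i x).ne'
  have e : F x = F (Function.update x i (x i)) := by rw [Function.update_eq_self]
  rw [siteM, cnd, fl, e]
  cases x i <;> simp only [Bool.not_true, Bool.not_false] <;> field_simp <;> ring

theorem dir2_fl (hw : ∀ x, 0 < w x) (F G : Cube n → ℝ) : dir2 w F G = ∑ i, mean (prob w) fun x =>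
    cnd w i x (!x i) ^ 2 * ((F x - F (fl x i)) * (G x - G (fl x i))) :=
  sum_congr rfl fun i _ => sum_congr rfl fun x _ => by rw [sub_siteM hw, sub_siteM hw]; ring

/-- third moment of the scores -/
def D3 (w F : Cube n → ℝ) : ℝ :=
  ∑ i, mean (prob w) fun x => F x * |log (F (fl x i)) - log (F x)| ^ 3

theorem klr_sub (h k : ℝ) : Hd.klr h k - Hd.klr k h ≤ 2 * |k - h| ^ 3 := by
  have h1 := Ue.quiet (le_refl |k - h|)
  have h2 := Ue.klr_le_sq h k
  have h3 := mul_le_mul_of_nonneg_right (add_one_le_exp (-(4 * |k - h|))) (Ue.klr_nonneg h k)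
  have h4 := mul_le_mul_of_nonneg_left h2 (abs_nonneg (k - h))
  rw [← sq_abs (k - h)] at h4
  linarith

theorem Df_le (hw : ∀ x, 0 < w x) (hF : ∀ x, 0 < F x) (h1 : mean (prob w) F = 1) :
    Df (dn w F) w ≤ D3 w F / 4 := by
  have hS := sum_w_pos hw
  have e : ∀ x, prob (dn w F) x = prob w x * F x := fun x => by
    have : ∑ y, dn w F y = ∑ y, w y := by
      simp only [mean, prob, div_mul_eq_mul_div, ← sum_div] at h1
      exact (div_eq_one_iff_eq hS.ne').1 h1
    rw [prob, this, prob, dn]; ring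
  rw [Df, D3, sum_div]
  refine sum_le_sum fun i _ => ?_
  rw [E.mean, mean, sum_div]
  refine sum_le_sum fun x _ => ?_
  have f1 : Ue.Fr w i x := ⟨hw _, hw _⟩
  have f2 := f1.mul hF
  have k1 : kS (dn w F) w i x = _ := f2.kls f1
  have k2 : kS w (dn w F) i x = Hd.klr (Hd.hl (fun x => w x * F x) i x) _ := f1.kls f2
  have k3 := klr_sub (Hd.hl w i x) (Hd.hl (fun x => w x * F x) i x)
  have k4 : |Hd.hl (fun x => w x * F x) i x - Hd.hl w i x| =
      |log (F (fl x i)) - log (F x)| / 2 := by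
    rw [f1.hl_mul hF, add_sub_cancel_left, Rec.grad_eq, abs_div, abs_mul, abs_two, abs_sub_comm,
      show |sv x i| = 1 from abs_eq_abs.2 (mul_self_eq_one_iff.1 (Rec.sv_mul_self x i)) |>.trans
        abs_one, one_mul]
  rw [e, k1, k2, mul_assoc, mul_div_assoc, mul_div_assoc]
  refine mul_le_mul_of_nonneg_left (mul_le_mul_of_nonneg_left (max_le ?_ (by positivity))
    (hF x).le) (prob_pos' hw x).le
  rw [k4] at k3
  linarith

theorem II_smul (hw : ∀ x, 0 < w x) (hF : ∀ x, 0 < F x) {c : ℝ} (hc : 0 < c) :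
    II w (c • F) = c * II w F := by
  simp only [II, dir2_fl hw, mul_sum, ← mean_const_mul, Pi.smul_apply, smul_eq_mul,
    log_mul hc.ne' (hF _).ne']
  exact sum_congr rfl fun i _ => mean_congr fun x => by ring

theorem D3_smul (hF : ∀ x, 0 < F x) {c : ℝ} (hc : 0 < c) : D3 w (c • F) = c * D3 w F := by
  simp only [D3, mul_sum, ← mean_const_mul, Pi.smul_apply, smul_eq_mul,
    log_mul hc.ne' (hF _).ne', add_sub_add_left_eq_sub, mul_assoc]

theorem D3_nonneg (hw : ∀ x, 0 < w x) (hF : ∀ x, 0 < F x) : 0 ≤ D3 w F :=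
  sum_nonneg fun _ _ => (isP_prob' hw).mean_nonneg fun x => mul_nonneg (hF x).le (by positivity)

/-- homogeneous form of the hypothesis -/
theorem hom (hw : ∀ x, 0 < w x) {m a θ N lo hi : ℝ} {Q : Cube n → ℝ} (θ0 : 0 ≤ θ) (θ1 : θ ≤ 1)
    (hP : ∀ f, Warm w m f → 2 * a * E.ent w f ≤
      II w f + (θ * Df (dn w f) w + E.mean w fun x => f x * Q x) + N)
    (h1 : ∀ x, exp lo ≤ F x) (h2 : ∀ x, F x ≤ exp hi) (hm : hi - lo ≤ m) :
    2 * a * ent (prob w) F ≤ II w F + D3 w F / 4 + mean (prob w) (fun x => F x * Q x) +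
      N * mean (prob w) F := by
  have hp := isP_prob' hw
  have hF : ∀ x, 0 < F x := fun x => (exp_pos _).trans_le (h1 x)
  have z0 := mean_pos hp hF
  have z1 : exp lo ≤ mean (prob w) F := (hp.mean_const _).symm.le.trans (hp.mean_mono h1)
  set Z := mean (prob w) F with hZ
  have zi := inv_pos.2 z0
  have f0 : ∀ x, 0 < (Z⁻¹ • F) x := fun x => mul_pos zi (hF x)
  have f1 : mean (prob w) (Z⁻¹ • F) = 1 := by rw [mean_smul, inv_mul_cancel₀ z0.ne']
  have k := hP (Z⁻¹ • F) ⟨f0, f1, fun x => by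
    rw [Pi.smul_apply, smul_eq_mul, inv_mul_le_iff₀ z0]
    refine (h2 x).trans (le_trans ?_ (mul_le_mul_of_nonneg_right z1 (exp_pos _).le))
    rw [← exp_add]; exact exp_le_exp.2 (by linarith)⟩
  have d := Df_le hw f0 f1
  have d0 := D3_nonneg hw f0
  have d1 : θ * Df (dn w (Z⁻¹ • F)) w ≤ D3 w (Z⁻¹ • F) / 4 :=
    (mul_le_mul_of_nonneg_left d θ0).trans (mul_le_of_le_one_left (by linarith) θ1)
  have e : (E.mean w fun x => (Z⁻¹ • F) x * Q x) = Z⁻¹ * mean (prob w) fun x => F x * Q x := by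
    rw [← mean_const_mul]; exact mean_congr fun x => mul_assoc _ _ _
  rw [eent_eq, ent_smul, II_smul hw hF zi, e] at k
  rw [D3_smul hF zi] at d1
  have k2 : Z⁻¹ * (2 * a * ent (prob w) F) ≤ Z⁻¹ * (II w F + D3 w F / 4 +
      mean (prob w) (fun x => F x * Q x) + N * Z) := by
    have : Z⁻¹ * (N * Z) = N := by field_simp
    linarith
  exact le_of_mul_le_mul_left k2 zi

/-- **linearisation** -/
theorem core (hw : ∀ x, 0 < w x) {v : Cube n → Fin n → ℝ} {l m a θ N σ B : ℝ} {Q : Cube n → ℝ}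
    (hl : l ≤ 1 / 2) (hv : ∀ x j, |v x j| ≤ l) (hm : 3 * l * n ≤ m) (ha : 0 ≤ a) (θ0 : 0 ≤ θ)
    (θ1 : θ ≤ 1) (hP : ∀ f, Warm w m f → 2 * a * E.ent w f ≤
      II w f + (θ * Df (dn w f) w + E.mean w fun x => f x * Q x) + N)
    (s0 : 0 < σ) (s1 : σ ≤ 1) (hs : ∀ x i, ∑ j, (v (fl x i) j - v x j) ^ 2 ≤ σ ^ 2)
    (hB : ∀ x, mean (prob w) (fun y => exp (v x ⬝ᵥ v y)) ≤ 1 + B) :
    a * mean (prob w) (fun x => v x ⬝ᵥ v x) ≤ (1 + 2 * l) * ∑ j, dir w (fun x => v x j) +
      180 * n * σ ^ 3 + mean (prob w) Q + N + 2 * a * B := by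
  have hp := isP_prob' hw
  have hu : IsP (un n) := isP_un
  have hv' := fun x j => (hv x j).trans hl
  have L0 := fun x g => Lk_pos (hv' x) g
  have k := hu.mean_mono fun g => hom hw (F := fun x => Lk (v x) g) θ0 θ1 hP
    (fun x => (Lk_le hl (hv x) g).1) (fun x => (Lk_le hl (hv x) g).2) (by linarith)
  have e1 : mean (un n) (fun g => mean (prob w) fun x => Lk (v x) g) = 1 := by
    rw [mean_comm]
    exact (mean_congr fun x => mean_Lk_one (hv' x)).trans (hp.mean_const 1)
  have e2 : mean (un n) (fun g => mean (prob w) fun x => Lk (v x) g * Q x) = mean (prob w) Q := by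
    rw [mean_comm]
    exact mean_congr fun x => by rw [mean_mul_const, mean_Lk_one (hv' x), one_mul]
  have e3 : mean (un n) (fun g => D3 w fun x => Lk (v x) g) ≤ n * (720 * σ ^ 3) := by
    simp only [D3]
    rw [mean_sum']
    refine (sum_le_card_nsmul _ _ (720 * σ ^ 3) fun i _ => ?_).trans_eq (by simp)
    rw [mean_comm]
    exact (hp.mean_mono fun x => cube_Lk (hv' x) (hv' _) s0 s1 (hs x i)).trans_eq (hp.mean_const _)
  have e4 : mean (un n) (fun g => II w fun x => Lk (v x) g) ≤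
      (1 + 2 * l) * ∑ j, dir w (fun x => v x j) := by
    simp only [II, dir_eq_dir2', dir2_fl hw]
    rw [mean_sum', sum_comm, mul_sum]
    refine sum_le_sum fun i _ => ?_
    rw [mean_comm, ← mean_sum', ← mean_const_mul]
    refine hp.mean_mono fun x => ?_
    rw [mean_const_mul, ← mul_sum, mul_left_comm]
    refine mul_le_mul_of_nonneg_left ((sym_Lk hl (hv x) (hv _)).trans_eq ?_) (sq_nonneg _)
    simp only [sq]
  have e5 : mean (prob w) (fun x => v x ⬝ᵥ v x) / 2 ≤
      mean (un n) fun g => mean (prob w) fun x => Lk (v x) g * log (Lk (v x) g) := by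
    rw [mean_comm, div_eq_mul_inv, ← mean_mul_const]
    exact hp.mean_mono fun x => info_ge (hv' x)
  have e6 : mean (un n) (fun g => mean (prob w) (fun x => Lk (v x) g) *
      log (mean (prob w) fun x => Lk (v x) g)) ≤ B := by
    have b1 : mean (un n) (fun g => mean (prob w) fun x => mean (prob w) fun y =>
        Lk (v x) g * Lk (v y) g) ≤ 1 + B := by
      rw [mean_comm]
      refine (hp.mean_mono fun x => ?_).trans_eq (hp.mean_const _)
      rw [mean_comm]
      exact (hp.mean_mono fun y => two_le (hv' x) (hv' y)).trans (hB x)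
    simp only [mean_const_mul, mean_mul_const] at b1
    refine (hu.mean_mono (g := fun g => mean (prob w) (fun x => Lk (v x) g) *
      mean (prob w) (fun x => Lk (v x) g) - mean (prob w) fun x => Lk (v x) g) fun g => ?_).trans ?_
    · have z := mean_pos hp fun x => L0 x g
      nlinarith [mul_le_mul_of_nonneg_left (log_le_sub_one_of_pos z) z.le]
    · rw [mean_sub', e1]; linarith
  simp only [ent_eq, mean_add', mean_const_mul, mean_sub', div_eq_mul_inv, mean_mul_const, e1,
    e2] at k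
  nlinarith [mul_le_mul_of_nonneg_left e5 ha, mul_le_mul_of_nonneg_left e6 ha]

end Crest.Agent.T157.S6s

end
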