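import Crest.Agent.T157.S6SB_22
import Crest.Agent.T157.S3Hb_80

/-!
# Row 157, part B, block S6, (S), part 3 (helper22): decay of the mean autocorrelation
-/

set_option autoImplicit false

noncomputable section

namespace Crest.Agent.T157.S6s

open Finset Matrix Real Filter
open Crest.ProbabilityR.SpinGlassDynamics
open Crest.Agent.T157.Chain22 Crest.Agent.T157.Ent
open Crest.Agent.T157.E (Cube prob siteM dir dir2 sv gen mag)
open Crest.Agent.T157.Rec (grad fl GR)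
open Crest.Agent.T157.Rv (Warm II)
open Crest.Agent.T157.B (Df dn)
open Crest.Agent.T157.Top (Whp)

variable {n : ℕ} {w : Cube n → ℝ}

/-- mean autocorrelation -/
def Cw (w : Cube n → ℝ) (v : ℝ) : ℝ :=
  (∑ a, mean (prob w) fun x => sv x a * sg w v (fun z => sv z a) x) / n
/-- mean energy -/
def Ew (w : Cube n → ℝ) (v : ℝ) : ℝ := (∑ a, dir w (sg w v fun z => sv z a)) / n

theorem hd_ip (hn : 0 < n) (hw : ∀ x, 0 < w x) (g f : Cube n → ℝ) (v : ℝ) :
    HasDerivAt (fun u => ip (prob w) g (sg w u f)) (ip (prob w) g (gen w (sg w v f))) v :=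
  HasDerivAt.fun_sum fun x _ => ((hasDerivAt_sg hn hw f x v).const_mul _).const_mul _

theorem ip_half (hn : 0 < n) (hw : ∀ x, 0 < w x) (f : Cube n → ℝ) (v : ℝ) :
    ip (prob w) f (sg w v f) = ip (prob w) (sg w (v / 2) f) (sg w (v / 2) f) := by
  rw [← ip_sg_symm hn hw, ← sg_add hn hw, add_halves]

theorem dir2_half (hn : 0 < n) (hw : ∀ x, 0 < w x) (f : Cube n → ℝ) (v : ℝ) :
    dir2 w f (sg w v f) = dir w (sg w (v / 2) f) := by
  rw [dir_eq_dir2', dir2_eq_gen hw, dir2_eq_gen hw, ← ip_sg_symm hn hw,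
    ← funext (Rec.gen_sg hn hw (v / 2) _), ← sg_add hn hw, add_halves]

theorem hd_Cw (hn : 0 < n) (hw : ∀ x, 0 < w x) (v : ℝ) : HasDerivAt (Cw w) (-Ew w (v / 2)) v := by
  refine ((HasDerivAt.fun_sum fun a _ => hd_ip hn hw (fun z => sv z a) (fun z => sv z a) v).div_const
    (n : ℝ)).congr_deriv ?_
  simp only [Ew, ← dir2_half hn hw, dir2_eq_gen hw, sum_neg_distrib, neg_div, neg_neg]

theorem cont_Ew (hn : 0 < n) (hw : ∀ x, 0 < w x) : Continuous fun v => Ew w (v / 2) := by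
  simp only [Ew, ← dir2_half hn hw, dir2_eq_gen hw, funext (Rec.gen_sg hn hw _ _)]
  exact (continuous_finsetSum _ fun a _ => (continuous_iff_continuousAt.2 fun v =>
    (hd_ip hn hw _ _ v).continuousAt).neg).div_const _

theorem Cw_eq (hn : 0 < n) (hw : ∀ x, 0 < w x) (v : ℝ) : n * Cw w v = mean (prob w) fun x =>
    (fun a => sg w (v / 2) (fun z => sv z a) x) ⬝ᵥ fun a => sg w (v / 2) (fun z => sv z a) x := by
  have n0 : (n : ℝ) ≠ 0 := by exact_mod_cast hn.ne'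
  rw [Cw, mul_div_cancel₀ _ n0]
  simp only [dotProduct, mean_sum']
  exact sum_congr rfl fun a _ => ip_half hn hw _ v

theorem Cw_nonneg (hn : 0 < n) (hw : ∀ x, 0 < w x) (v : ℝ) : 0 ≤ Cw w v := by
  have n0 : (0 : ℝ) < n := by exact_mod_cast hn
  refine le_of_mul_le_mul_left ?_ n0
  rw [mul_zero, Cw_eq hn hw]
  exact (isP_prob' hw).mean_nonneg fun x => Eig.dot_self_nonneg _

theorem Cw_zero (hn : 0 < n) (hw : ∀ x, 0 < w x) : Cw w 0 = 1 := by
  have n0 : (n : ℝ) ≠ 0 := by exact_mod_cast hn.ne'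
  simp [Cw, sg_zero hn hw, Rec.sv_mul_self, (isP_prob' hw).mean_const, n0]

theorem Ew_nonneg (hw : ∀ x, 0 < w x) (v : ℝ) : 0 ≤ Ew w v :=
  div_nonneg (sum_nonneg fun _ _ => dir_nonneg hw _) (Nat.cast_nonneg _)

theorem Ew_anti (hn : 0 < n) (hw : ∀ x, 0 < w x) {s t : ℝ} (h : s ≤ t) : Ew w t ≤ Ew w s :=
  div_le_div_of_nonneg_right (sum_le_sum fun _ _ => Rec.dir_sg_anti hn hw h _) (Nat.cast_nonneg _)

theorem Ew_le_one (hn : 0 < n) (hw : ∀ x, 0 < w x) {v : ℝ} (hv : 0 ≤ v) : Ew w v ≤ 1 := by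
  have n0 : (0 : ℝ) < n := by exact_mod_cast hn
  refine (Ew_anti hn hw hv).trans ?_
  rw [Ew, div_le_one n0]
  refine (sum_le_card_nsmul _ _ 1 fun a _ => ?_).trans_eq (by simp)
  rw [sg_zero hn hw]
  refine (Rec.dir_le_grad hw _).trans_eq ((mean_congr fun x => ?_).trans
    ((isP_prob' hw).mean_const 1))
  simp [dotProduct, Da.Gr.grad_sv]

theorem gron {f f' : ℝ → ℝ} {b ε T : ℝ} (hd : ∀ v, HasDerivAt f (f' v) v) (h0 : f 0 ≤ 1)
    (hε : 0 ≤ ε) (h : ∀ v ∈ Set.Icc 0 T, f' v ≤ -(b * (f v - ε))) :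
    ∀ v ∈ Set.Icc 0 T, f v ≤ exp (-(b * v)) + ε := fun v hv => by
  have d : ∀ u, HasDerivAt (fun u => exp (b * u) * (f u - ε))
      (exp (b * u) * (b * (f u - ε) + f' u)) u := fun u =>
    (((hasDerivAt_id' u).const_mul b).exp.mul ((hd u).sub_const ε)).congr_deriv (by ring)
  have := antitoneOn_of_deriv_nonpos (convex_Icc 0 T)
    (fun q _ => (d q).continuousAt.continuousWithinAt)
    (fun q _ => (d q).differentiableAt.differentiableWithinAt) (fun u hu => by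
      rw [(d u).deriv]
      exact mul_nonpos_of_nonneg_of_nonpos (exp_pos _).le (by linarith [h u (interior_subset hu)]))
    (Set.left_mem_Icc.2 (hv.1.trans hv.2)) hv hv.1
  simp only [mul_zero, exp_zero, one_mul] at this
  rw [exp_neg, ← sub_le_iff_le_add, ← one_div, le_div_iff₀' (exp_pos _)]
  linarith

/-- gradients of the linear combinations of `P_r s_j` -/
theorem grad_comb (hn : 0 < n) (hw : ∀ x, 0 < w x) {C r : ℝ} (hG : GR w C) (hr : 0 ≤ r)
    (c : Fin n → ℝ) (x : Cube n) :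
    grad (fun y => c ⬝ᵥ fun j => sg w r (fun z => sv z j) y) x ⬝ᵥ
      grad (fun y => c ⬝ᵥ fun j => sg w r (fun z => sv z j) y) x ≤ exp (C * r) * (c ⬝ᵥ c) := by
  have e : (fun y => c ⬝ᵥ fun j => sg w r (fun z => sv z j) y) = sg w r fun z => c ⬝ᵥ sv z :=
    funext fun y => by simp only [dotProduct, Rec.sg_sum, Rec.sg_const_mul]
  have := hG r hr (fun z => c ⬝ᵥ sv z) x
  simp only [Rec.grad_lin, Rec.sg_const hn hw] at this
  rwa [e]

/-- **deterministic form of (S)**; `n = y ^ 16` -/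
theorem dec (hn : 0 < n) (hw : ∀ x, 0 < w x) {C K y a a0 θ T D : ℝ} {Q : Cube n → ℝ} (hG : GR w C)
    (hC : 0 ≤ C) (hA : AT w K 0) (hK : 0 ≤ K) (hm : mag w = 0) (hy : (n : ℝ) = y ^ 16) (y3 : 3 ≤ y)
    (yK : 4 * K ≤ y) (hT : exp (C * T) ≤ y ^ 2) (a0p : 0 < a0) (haa : a0 * (1 + 2 / y) ≤ a)
    (θ0 : 0 ≤ θ) (θ1 : θ ≤ 1) (hP : ∀ f, Warm w (y ^ 12) f → 2 * a * E.ent w f ≤
      II w f + (θ * Df (dn w f) w + E.mean w fun x => f x * Q x) + y)
    (hD : 0 ≤ D) (hQ : mean (prob w) Q ≤ D * y) :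
    ∀ v ∈ Set.Icc 0 T, Cw w v ≤ exp (-(a0 * v)) + (1441 + D + 4 * a) / (a0 * y) := by
  have hp := isP_prob' hw
  have y0 : 0 < y := by linarith
  have y1 : 1 ≤ y := by linarith
  have pw : ∀ i j : ℕ, i ≤ j → y ^ i ≤ y ^ j := fun i j h => pow_le_pow_right₀ y1 h
  have a0' : 0 ≤ a := le_trans (by positivity) haa
  refine gron (hd_Cw hn hw) (Cw_zero hn hw).le (by positivity) fun v hv => ?_
  set u : Cube n → Fin n → ℝ := fun x j => sg w (v / 2) (fun z => sv z j) x with hu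
  have r0 : 0 ≤ v / 2 := by linarith [hv.1]
  have g1 : ∀ (c : Fin n → ℝ) x, grad (fun y => c ⬝ᵥ u y) x ⬝ᵥ grad (fun y => c ⬝ᵥ u y) x ≤
      y ^ 2 * (c ⬝ᵥ c) := fun c x => (grad_comb hn hw hG r0 c x).trans
    (mul_le_mul_of_nonneg_right ((exp_le_exp.2 (mul_le_mul_of_nonneg_left
      (by linarith [hv.1, hv.2]) hC)).trans hT) (Eig.dot_self_nonneg _))
  have u1 : ∀ x j, |u x j| ≤ 1 := fun x j => (isP_hbCt hn hw r0 x).abs_mean_le fun z =>
    (abs_eq_abs.2 (mul_self_eq_one_iff.1 (Rec.sv_mul_self z j))).trans_le abs_one.le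
  have u2 : ∀ x, u x ⬝ᵥ u x ≤ y ^ 16 := fun x => by
    rw [← hy]
    exact (sum_le_card_nsmul _ _ 1 fun j _ => abs_le_one_iff_mul_self_le_one.1 (u1 x j)).trans_eq
      (by simp)
  have u3 : ∀ x i, ∑ j, (u (fl x i) j - u x j) ^ 2 ≤ 4 * y ^ 2 := fun x i => by
    set d := u (fl x i) - u x with hd
    have h1 := (single_le_sum (f := fun k => grad (fun y => d ⬝ᵥ u y) x k *
      grad (fun y => d ⬝ᵥ u y) x k) (fun _ _ => mul_self_nonneg _) (mem_univ i)).trans (g1 d x)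
    have h2 : grad (fun y => d ⬝ᵥ u y) x i = -(sv x i * (d ⬝ᵥ d) / 2) := by
      rw [Rec.grad_eq, ← dotProduct_sub, ← neg_sub, dotProduct_neg]; ring
    have h3 : ∑ j, (u (fl x i) j - u x j) ^ 2 = d ⬝ᵥ d := by simp only [dotProduct, sq, hd, Pi.sub_apply]
    have h4 := Rec.sv_mul_self x i
    have h5 := Eig.dot_self_nonneg d
    rw [h3]
    rw [h2] at h1
    by_contra hc
    nlinarith [mul_pos (lt_of_le_of_lt (by positivity) (not_le.1 hc)) (sub_pos.2 (not_le.1 hc))]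
  have l0 : 0 < 1 / y ^ 7 := by positivity
  have l1 : 1 / y ^ 7 ≤ 1 / y := one_div_le_one_div_of_le y0 (by simpa using pw 1 7 (by norm_num))
  have l2 : 1 / y ≤ 1 / 2 := one_div_le_one_div_of_le two_pos (by linarith)
  have k := core hw (v := fun x => (1 / y ^ 7) • u x) (l := 1 / y ^ 7) (σ := 2 / y ^ 6) (B := 2)
    (l1.trans l2) (fun x j => by
      rw [Pi.smul_apply, smul_eq_mul, abs_mul, abs_of_pos l0]
      exact mul_le_of_le_one_right l0.le (u1 x j))
    (by rw [hy, show 3 * (1 / y ^ 7) * y ^ 16 = 3 * y ^ 9 by field_simp]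
        nlinarith [pw 9 11 (by norm_num), pow_pos y0 11])
    a0' θ0 θ1 hP (by positivity)
    (by rw [div_le_one (by positivity)]; linarith [pw 1 6 (by norm_num)])
    (fun x i => by
      simp only [Pi.smul_apply, smul_eq_mul, ← mul_sub, mul_pow, ← mul_sum]
      exact (mul_le_mul_of_nonneg_left (u3 x i) (by positivity)).trans_eq (by field_simp; ring))
    fun x => by
      have h1 := S3.Hb.mgf_le_grad hw hK hA (F := fun z => u x ⬝ᵥ u z) (A := y ^ 2 * y ^ 16)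
        (fun z => (g1 _ z).trans (mul_le_mul_of_nonneg_left (u2 x) (by positivity)))
        ((1 / y ^ 7) ^ 2)
      have h2 : mean (prob w) (fun z => u x ⬝ᵥ u z) = 0 := by
        simp only [dotProduct, mean_sum', mean_const_mul]
        exact sum_eq_zero fun j _ => by
          rw [show mean (prob w) (fun z => u z j) = 0 from (mean_sg hn hw _ _).trans (congrFun hm j),
            mul_zero]
      simp only [smul_dotProduct, dotProduct_smul, smul_eq_mul, ← mul_assoc, ← sq]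
      refine h1.trans ((exp_le_exp.2 (show _ ≤ 1 from ?_)).trans (by linarith [exp_one_lt_d9]))
      rw [h2, mul_zero, zero_add, show 4 * K * (y ^ 2 * y ^ 16) * ((1 / y ^ 7) ^ 2) ^ 2 =
        4 * K / y ^ 10 by field_simp, div_le_one (by positivity)]
      linarith [pw 1 10 (by norm_num)]
  have e1 : mean (prob w) (fun x => ((1 / y ^ 7) • u x) ⬝ᵥ ((1 / y ^ 7) • u x)) =
      y ^ 2 * Cw w v := by
    simp only [smul_dotProduct, dotProduct_smul, smul_eq_mul, mean_const_mul]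
    rw [← Cw_eq hn hw, hy]; field_simp
  have e2 : ∑ j, dir w (fun x => ((1 / y ^ 7) • u x) j) = y ^ 2 * Ew w (v / 2) := by
    have : ∀ j, dir w (fun x => ((1 / y ^ 7) • u x) j) = (1 / y ^ 7) ^ 2 * dir w fun x => u x j :=
      fun j => by
        rw [dir_eq_D hn hw, dir_eq_D hn hw, mul_left_comm, ← RC.D_smul]; rfl
    simp only [this, ← mul_sum]
    rw [Ew, hy]; field_simp; rfl
  rw [e1, e2, hy, show 180 * y ^ 16 * (2 / y ^ 6) ^ 3 = 1440 / y ^ 2 by field_simp; norm_num] at k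
  have b1 : 1440 / y ^ 2 ≤ 1440 * y := (div_le_self (by norm_num) (one_le_pow₀ y1)).trans (by linarith)
  have b2 : 4 * a ≤ 4 * a * y := le_mul_of_one_le_right (by linarith) y1
  have c0 := Cw_nonneg hn hw v
  have e0 := Ew_nonneg hw (v / 2)
  have k2 : a * Cw w v ≤ (1 + 2 / y) * Ew w (v / 2) + (1441 + D + 4 * a) / y := by
    refine le_of_mul_le_mul_left ?_ (pow_pos y0 2)
    have b3 := mul_le_mul_of_nonneg_right l1 (mul_nonneg (sq_nonneg y) e0)
    have : y ^ 2 * ((1 + 2 / y) * Ew w (v / 2) + (1441 + D + 4 * a) / y) =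
      (1 + 2 * (1 / y)) * (y ^ 2 * Ew w (v / 2)) + (1441 + D + 4 * a) * y := by field_simp
    rw [this]; linarith
  have k3 : (1 + 2 / y) * (a0 * Cw w v) ≤ (1 + 2 / y) * (Ew w (v / 2) + (1441 + D + 4 * a) / y) := by
    have : 0 ≤ 2 / y * ((1441 + D + 4 * a) / y) := by positivity
    nlinarith [mul_le_mul_of_nonneg_right haa c0]
  have k4 := le_of_mul_le_mul_left k3 (by positivity)
  have : a0 * ((1441 + D + 4 * a) / (a0 * y)) = (1441 + D + 4 * a) / y := by field_simp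
  linarith

/-- **(S)** -/
theorem whp_S (hA : Rv.At0) {β l : ℝ} {𝒬 : Set B.Ob} (b0 : 0 ≤ β) (b1 : β < 1) (hE : B.Eq0 β 𝒬)
    (hS : B.Stat0 β l 𝒬) {a : ℝ} (a0 : 0 < a) (a1 : a < l) : ∃ δ > (0 : ℝ), Whp disorderLaw
    fun n g => ∀ v ∈ Set.Icc 0 (δ * log n),
      Cw (gibbsWeight n β g) v ≤ exp (-(a * v)) + (n : ℝ) ^ (-(1 / 32 : ℝ)) := by
  obtain ⟨K, hK, hA⟩ := hA β b0 b1
  obtain ⟨C, hC, hG⟩ := Low.whp_gr β
  obtain ⟨m, Q, D, θ, q, D0, θ0, θ1, -, hP⟩ := hS ((a + l) / 2) (by linarith) (by linarith)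
    (1 / 4) (by norm_num) (1 / 16) (by norm_num)
  have hQ := Whp.fintype fun k => hE _ (q k) (1 / 16) (by norm_num)
  refine ⟨1 / (8 * (C + 1)), by positivity, (hA.and (hG.and (hQ.and hP))).mono ?_⟩
  have s16 : (0 : ℝ) < 1 / 16 := by norm_num
  filter_upwards [eventually_gt_atTop 0, Rv.ev_le 3 s16, Rv.ev_le (4 * K) s16,
    Rv.ev_le (4 * a / (l - a)) s16, B.ev_mul ((1441 + D * m + 4 * ((a + l) / 2)) / a)
      (show (1 / 32 : ℝ) < 1 / 16 by norm_num)] with n hn y3 yK ya yD g hg v hv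
  obtain ⟨g1, g2, g3, g4⟩ := hg
  have n0 : (0 : ℝ) < n := by exact_mod_cast hn
  have pw : ∀ k : ℕ, ((n : ℝ) ^ (1 / 16 : ℝ)) ^ k = (n : ℝ) ^ (k / 16 : ℝ) := fun k => by
    rw [← rpow_natCast, ← rpow_mul n0.le]; congr 1; ring
  have y0 : 0 < (n : ℝ) ^ (1 / 16 : ℝ) := by positivity
  refine (dec hn (E.gibbsWeight_pos β g) (y := (n : ℝ) ^ (1 / 16 : ℝ)) (a := (a + l) / 2)
    (T := 1 / (8 * (C + 1)) * log n) (D := D * m) (Q := fun x => D * ∑ k, Q k n g x) g2 hC g1 hK.le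
    (by rw [E.gibbsWeight_eq_ising]; exact TopL.mag_ising_zero _) (by rw [pw]; norm_num) y3 yK ?_
    a0 ?_ θ0 θ1 (fun f hf => ?_) (by positivity) ?_ v hv).trans (add_le_add le_rfl ?_)
  · rw [pw, Rv.rp hn, exp_le_exp, ← mul_assoc]
    refine mul_le_mul_of_nonneg_right ?_ (log_natCast_nonneg n)
    rw [mul_one_div, div_le_iff₀ (by positivity)]; push_cast; linarith
  · rw [div_le_iff₀ (sub_pos.2 a1)] at ya
    have : a * (2 / (n : ℝ) ^ (1 / 16 : ℝ)) ≤ (l - a) / 2 := by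
      rw [← mul_div_assoc, div_le_iff₀ y0]; linarith
    linarith
  · have := g4 f (by rw [pw] at hf; convert hf using 2; norm_num)
    refine this.trans_eq ?_
    simp only [B.DfF, B.Mom, emean_eq, mul_left_comm _ D, mul_sum, mean_sum', mean_const_mul]
  · rw [mean_const_mul, mean_sum', mul_assoc]
    exact mul_le_mul_of_nonneg_left ((sum_le_card_nsmul _ _ _ fun k _ => g3 k).trans_eq (by simp)) D0
  · rw [← div_div, div_le_iff₀ y0, rpow_neg n0.le, ← div_eq_inv_mul,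
      le_div_iff₀ (by positivity)]
    exact yD

/-- from the autocorrelation to the energy -/
theorem Ew_le (hn : 0 < n) (hw : ∀ x, 0 < w x) {a e τ v : ℝ} (a0 : 0 ≤ a) (a1 : a ≤ 1) (he : 0 ≤ e)
    (h : ∀ v ∈ Set.Icc 0 (2 * τ), Cw w v ≤ exp (-(a * v)) + e) (hv : v ∈ Set.Icc 0 τ) :
    Ew w v ≤ 3 * exp (-(2 * a * v)) + e := by
  have e3 : ∀ s, s ≤ 1 - 2 * a * v → exp s ≤ 3 * exp (-(2 * a * v)) := fun s hs => by
    refine (exp_le_exp.2 hs).trans ?_
    rw [sub_eq_add_neg, exp_add]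
    exact mul_le_mul_of_nonneg_right (by linarith [exp_one_lt_d9]) (exp_pos _).le
  rcases le_total (2 * v) 1 with h1 | h1
  · have := e3 0 (by nlinarith [hv.1])
    rw [exp_zero] at this
    linarith [Ew_le_one hn hw hv.1]
  obtain ⟨u, hu, e1⟩ := exists_hasDerivAt_eq_slope (Cw w) (fun u => -Ew w (u / 2))
    (show 2 * v - 1 < 2 * v by linarith)
    (fun s _ => (hd_Cw hn hw s).continuousAt.continuousWithinAt) fun s _ => hd_Cw hn hw s
  have b1 := Ew_anti hn hw (show u / 2 ≤ v by linarith [hu.2])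
  have b2 := h (2 * v - 1) ⟨by linarith, by linarith [hv.2]⟩
  have b3 := e3 (-(a * (2 * v - 1))) (by linarith)
  have b4 := Cw_nonneg hn hw (2 * v)
  rw [sub_sub_cancel, div_one] at e1
  linarith

/-- weighted integral of the kernel -/
theorem int_Ew_le (hn : 0 < n) (hw : ∀ x, 0 < w x) {a σ e v : ℝ} (s0 : 0 ≤ σ) (s1 : σ < a)
    (he : 0 ≤ e) (hv : 0 ≤ v) (h : ∀ u ∈ Set.Icc 0 v, Cw w u ≤ exp (-(a * u)) + e) :
    ∫ u in (0 : ℝ)..v, Ew w (u / 2) * exp (σ * u) ≤ a / (a - σ) + e * exp (σ * v) := by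
  have s2 := sub_pos.2 s1
  have d : ∀ u, HasDerivAt (fun u => (e - Cw w u) * exp (σ * u) -
      σ / (a - σ) * exp (-((a - σ) * u))) (Ew w (u / 2) * exp (σ * u) +
        σ * (exp (σ * u) * (exp (-(a * u)) + e - Cw w u))) u := fun u => by
    refine ((((hd_Cw hn hw u).const_sub e).mul ((hasDerivAt_id' u).const_mul σ).exp).sub
      (((hasDerivAt_id' u).const_mul (a - σ)).neg.exp.const_mul (σ / (a - σ)))).congr_deriv ?_
    have : exp (-((a - σ) * u)) = exp (σ * u) * exp (-(a * u)) := by rw [← exp_add]; congr 1; ring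
    simp only [Pi.neg_apply, this]
    field_simp
    ring
  have c1 : Continuous fun u => Ew w (u / 2) * exp (σ * u) := (cont_Ew hn hw).mul (by fun_prop)
  have c0 : Continuous (Cw w) := continuous_iff_continuousAt.2 fun u => (hd_Cw hn hw u).continuousAt
  have c2 : Continuous fun u => Ew w (u / 2) * exp (σ * u) +
      σ * (exp (σ * u) * (exp (-(a * u)) + e - Cw w u)) := c1.add (by fun_prop)
  refine (intervalIntegral.integral_mono_on hv (c1.intervalIntegrable _ _)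
    (c2.intervalIntegrable _ _) fun u hu => le_add_of_nonneg_right
      (mul_nonneg s0 (mul_nonneg (exp_pos _).le (by linarith [h u hu])))).trans ?_
  rw [intervalIntegral.integral_eq_sub_of_hasDerivAt (fun u _ => d u) (c2.intervalIntegrable _ _)]
  have b1 := mul_nonneg (Cw_nonneg hn hw v) (exp_pos (σ * v)).le
  have b2 : 0 ≤ σ / (a - σ) * exp (-((a - σ) * v)) := by positivity
  have b3 : a / (a - σ) = 1 + σ / (a - σ) := by field_simp; ring
  simp only [Cw_zero hn hw, mul_zero, neg_zero, exp_zero, mul_one]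
  linarith

end Crest.Agent.T157.S6s

end
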