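import Crest.Agent.T157.S6DefC_93
import Crest.Agent.T157.S6Lp_28
import Crest.Agent.T157.S6Cmp_20

/-!
# Row 157, block S6 (helper93): tools for the end step
-/

set_option autoImplicit false

noncomputable section

namespace Crest.Agent.T157.S6a.St93

open Matrix Real Filter Finset intervalIntegral
open Crest.Agent.T157.E
open Crest.Agent.T157.Tap (V Mx)
open Crest.Agent.T157.Chain22 (sg sg_add ip_sg_symm)
open Crest.Agent.T157.Reg (VF mu)
open Crest.Agent.T157.Rv (Warm II)
open Crest.Agent.T157.S6h (FrV dv)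

variable {n : ℕ} {W : Mx n} {f F G : Cube n → ℝ}

theorem mu_pos (W : Mx n) (x : Cube n) : 0 < mu W x := exp_pos _

theorem pr_nn (W : Mx n) (x : Cube n) : 0 ≤ prob (mu W) x :=
  div_nonneg (mu_pos W x).le (sum_nonneg fun y _ => (mu_pos W y).le)

theorem ev_eq (W : Mx n) (f F : Cube n → ℝ) : ev W f F = ∑ x, prob (mu W) x * (f x * F x) := rfl

theorem ev_sg (hn : 0 < n) (s : ℝ) (f F : Cube n → ℝ) :
    ev W f (sg (mu W) s F) = ev W (sg (mu W) s f) F := ip_sg_symm hn (mu_pos W) s f F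

theorem ev_mono (hf : ∀ x, 0 < f x) (h : ∀ x, F x ≤ G x) : ev W f F ≤ ev W f G :=
  sum_le_sum fun x _ => mul_le_mul_of_nonneg_left (mul_le_mul_of_nonneg_left (h x) (hf x).le)
    (pr_nn W x)

theorem ev_nn (hf : ∀ x, 0 < f x) (h : ∀ x, 0 ≤ F x) : 0 ≤ ev W f F :=
  sum_nonneg fun x _ => mul_nonneg (pr_nn W x) (mul_nonneg (hf x).le (h x))

theorem ev_add (W : Mx n) (f F G : Cube n → ℝ) :
    ev W f (fun x => F x + G x) = ev W f F + ev W f G := by
  simp only [ev_eq, mul_add, sum_add_distrib]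

theorem ev_sub (W : Mx n) (f F G : Cube n → ℝ) :
    ev W f (fun x => F x - G x) = ev W f F - ev W f G := by
  simp only [ev_eq, mul_sub, sum_sub_distrib]

theorem ev_mul (W : Mx n) (c : ℝ) (f F : Cube n → ℝ) :
    ev W f (fun x => c * F x) = c * ev W f F := by
  simp only [ev_eq, mul_sum]; exact sum_congr rfl fun x _ => by ring

theorem ev_int (W : Mx n) (f : Cube n → ℝ) {H : ℝ → Cube n → ℝ} (h : ∀ x, Continuous fun u => H u x)
    (a b : ℝ) : ev W f (fun x => ∫ u in a..b, H u x) = ∫ u in a..b, ev W f (H u) := by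
  simp only [ev_eq]
  rw [integral_finsetSum (f := fun x u => prob (mu W) x * (f x * H u x)) fun x _ =>
    ((continuous_const.mul (continuous_const.mul (h x))).intervalIntegrable a b)]
  exact sum_congr rfl fun x _ => by rw [integral_const_mul, integral_const_mul]

theorem cont_ev (W : Mx n) {Y : Type*} [TopologicalSpace Y] {g H : Y → Cube n → ℝ}
    (hg : ∀ x, Continuous fun y => g y x) (h : ∀ x, Continuous fun y => H y x) :
    Continuous fun y => ev W (g y) (H y) :=
  continuous_finsetSum _ fun x _ => continuous_const.mul ((hg x).mul (h x))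

theorem cont_dv (W : Mx n) {Y : Type*} [TopologicalSpace Y] {U : Y → VF n}
    (h : ∀ x k, Continuous fun y => U y x k) (x : Cube n) : Continuous fun y => dv W (U y) x :=
  continuous_finsetSum _ fun k _ => continuous_const.mul (h x k)

theorem cont_in {H : ℝ → ℝ → ℝ} (h : Continuous fun p : ℝ × ℝ => H p.1 p.2) (s : ℝ) :
    Continuous fun u => ∫ v in (0 : ℝ)..(s - u), H u v :=
  continuous_parametric_intervalIntegral_of_continuous (f := H) h (by fun_prop)

/-- enlarging the triangle -/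
theorem tri_mono {H : ℝ → ℝ → ℝ} (h : Continuous fun p : ℝ × ℝ => H p.1 p.2) {s t : ℝ} (s0 : 0 ≤ s)
    (st : s ≤ t) (h0 : ∀ u v, 0 ≤ u → 0 ≤ v → u + v ≤ t → 0 ≤ H u v) :
    ∫ u in (0 : ℝ)..s, ∫ v in (0 : ℝ)..(s - u), H u v ≤
      ∫ u in (0 : ℝ)..t, ∫ v in (0 : ℝ)..(t - u), H u v := by
  have c : ∀ u, Continuous (H u) := fun u => h.comp (continuous_const.prodMk continuous_id)
  calc _ ≤ ∫ u in (0 : ℝ)..s, ∫ v in (0 : ℝ)..(t - u), H u v := by
        refine integral_mono_on s0 ((cont_in h s).intervalIntegrable _ _)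
          ((cont_in h t).intervalIntegrable _ _) fun u hu => ?_
        refine integral_mono_interval le_rfl (by linarith [hu.2]) (by linarith) ?_
          ((c u).intervalIntegrable _ _)
        exact (MeasureTheory.ae_restrict_iff' measurableSet_Ioc).2 (.of_forall fun v hv =>
          h0 u v hu.1 hv.1.le (by linarith [hv.2]))
    _ ≤ _ := by
        refine integral_mono_interval le_rfl s0 st ?_ ((cont_in h t).intervalIntegrable _ _)
        exact (MeasureTheory.ae_restrict_iff' measurableSet_Ioc).2 (.of_forall fun u hu =>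
          integral_nonneg (by linarith [hu.2]) fun v hv => h0 u v hu.1.le hv.1 (by linarith [hv.2]))

/-! ### the markers -/

/-- the marker form -/
def om (η : ℝ) (d : VF n) : VF n := fun x k => if η ≤ |d x k| then d x k * |d x k| else 0
/-- the loud part of `∑ |d_k|³` -/
def xb (η : ℝ) (d : VF n) (x : Cube n) : ℝ := ∑ k, if η ≤ |d x k| then |d x k| ^ 3 else 0

variable {η : ℝ} {d : VF n}

theorem frV_om (h : FrV d) : FrV (om η d) := fun k x => by
  have e : d (Rec.fl x k) k = d x k := h k x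
  show om η d (Rec.fl x k) k = om η d x k
  simp only [om, e]

theorem xb_nn (η : ℝ) (d : VF n) (x : Cube n) : 0 ≤ xb η d x :=
  sum_nonneg fun k _ => by split_ifs <;> positivity

theorem dot_om (η : ℝ) (d : VF n) (x : Cube n) : d x ⬝ᵥ om η d x = xb η d x :=
  sum_congr rfl fun k _ => by
    simp only [om]
    split_ifs
    · rw [← mul_assoc, ← abs_mul_abs_self]; ring
    · simp

theorem abs_om (h : ∀ x k, |d x k| ≤ 2) (x : Cube n) (k : Fin n) : |om η d x k| ≤ 4 := by
  simp only [om]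
  split_ifs
  · rw [abs_mul, abs_abs]; nlinarith [h x k, abs_nonneg (d x k)]
  · simp

theorem om_32 (η : ℝ) (d : VF n) (x : Cube n) : ∑ k, |om η d x k| ^ (3 / 2 : ℝ) = xb η d x :=
  sum_congr rfl fun k _ => by
    simp only [om]
    split_ifs
    · rw [abs_mul, abs_abs, ← sq, ← rpow_natCast, ← rpow_mul (abs_nonneg _), ← rpow_natCast]
      norm_num
    · simp

theorem om_sq (h : ∀ x k, |d x k| ≤ 2) (x : Cube n) : om η d x ⬝ᵥ om η d x ≤ 2 * xb η d x := by
  rw [xb, mul_sum]
  refine sum_le_sum fun k _ => ?_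
  simp only [om]
  split_ifs
  · have e : d x k * |d x k| * (d x k * |d x k|) = |d x k| * |d x k| ^ 3 := by
      have := abs_mul_abs_self (d x k)
      linear_combination (-(|d x k| ^ 2)) * this
    rw [e]; exact mul_le_mul_of_nonneg_right (h x k) (by positivity)
  · simp

theorem cnt_om (hη : 0 < η) (d : VF n) (x : Cube n) : cnt (om η d) x ≤ (η ^ 3)⁻¹ * xb η d x := by
  rw [xb, mul_sum]
  refine sum_le_sum fun k _ => ?_
  by_cases h : η ≤ |d x k|
  · rw [if_pos h]
    have : 1 ≤ (η ^ 3)⁻¹ * |d x k| ^ 3 := by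
      rw [inv_mul_eq_div, one_le_div (by positivity)]; exact pow_le_pow_left₀ hη.le h 3
    split_ifs <;> linarith
  · simp [om, h]

theorem cnt_bd (ω : VF n) (x : Cube n) : 0 ≤ cnt ω x ∧ cnt ω x ≤ n := by
  refine ⟨sum_nonneg fun k _ => by split_ifs <;> norm_num, ?_⟩
  calc _ ≤ ∑ _k : Fin n, (1 : ℝ) := sum_le_sum fun k _ => by split_ifs <;> norm_num
    _ = n := by simp

theorem xb_le (η : ℝ) (d : VF n) (x : Cube n) : xb η d x ≤ ∑ k, |d x k| ^ 3 :=
  sum_le_sum fun k _ => by split_ifs <;> [exact le_rfl; positivity]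

theorem le_xb (hη : 0 ≤ η) (d : VF n) (x : Cube n) :
    ∑ k, |d x k| ^ 3 ≤ xb η d x + η * (d x ⬝ᵥ d x) := by
  rw [xb, dotProduct, mul_sum, ← sum_add_distrib]
  refine sum_le_sum fun k _ => ?_
  have e := abs_mul_abs_self (d x k)
  have p := mul_self_nonneg (d x k)
  split_ifs with h
  · nlinarith
  · have : |d x k| ^ 3 = |d x k| * (d x k * d x k) := by rw [← e]; ring
    rw [this, zero_add]; exact mul_le_mul_of_nonneg_right (le_of_not_ge h) p

theorem sqrt_mul_le {q g l : ℝ} (hq : 0 ≤ q) (hg : 0 ≤ g) (hl : 0 < l) :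
    √q * g ≤ l⁻¹ * (q * g) + l / 4 * g := by
  have h : √q ≤ l⁻¹ * q + l / 4 := by
    have e := mul_self_sqrt hq
    have : l⁻¹ * q + l / 4 - √q = l⁻¹ * (√q - l / 2) ^ 2 := by
      field_simp; linear_combination (-16) * e
    have p : 0 ≤ l⁻¹ * (√q - l / 2) ^ 2 := by positivity
    linarith
  nlinarith [mul_le_mul_of_nonneg_right h hg]

/-- the pairing, split into the two halves -/
theorem split (hD : DuStmt) (hC : ContStmt) (hW : Ok W 1 1) {ρ : ℝ → ℝ} (hρ : Continuous ρ)
    {ω : VF n} (hω : FrV ω) (g : Cube n → ℝ) {s : ℝ} (hs : 0 ≤ s) :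
    ev W (sg (mu W) s g) (dv W ω) =
      (ev W g (dv W (alf W ω s)) + ∫ u in (0 : ℝ)..s, ∫ v in (0 : ℝ)..(s - u),
        ev W g (sg (mu W) (s - u - v) (dv W (Ret W ρ (alf W ω u) v)))) +
      ∫ u in (0 : ℝ)..s, (ev W g (dv W (Phi W ρ (alf W ω u) (s - u))) -
        ∫ v in (0 : ℝ)..(s - u), ev W g (sg (mu W) (s - u - v) (dv W (Err W ρ (alf W ω u) v)))) := by
  have hn := hW.pos
  have c := hC n W hW ρ hρ ω
  have c1 : ∀ x, Continuous fun u => dv W (Phi W ρ (alf W ω u) (s - u)) x := fun x =>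
    cont_dv W (U := fun u => Phi W ρ (alf W ω u) (s - u)) (fun x k => (c x k).2.2.2.2.1.comp
      (f := fun u : ℝ => (u, s - u)) (by fun_prop)) x
  have c2 : ∀ x, Continuous fun p : ℝ × ℝ =>
      sg (mu W) (s - p.1 - p.2) (dv W (Ret W ρ (alf W ω p.1) p.2)) x := fun x =>
    S6b.cont_sg_fam hn (mu_pos W) (by fun_prop)
      (cont_dv W (U := fun p : ℝ × ℝ => Ret W ρ (alf W ω p.1) p.2) fun x k => (c x k).2.2.2.2.2.1) x
  have c3 : ∀ x, Continuous fun p : ℝ × ℝ =>
      sg (mu W) (s - p.1 - p.2) (dv W (Err W ρ (alf W ω p.1) p.2)) x := fun x =>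
    S6b.cont_sg_fam hn (mu_pos W) (by fun_prop)
      (cont_dv W (U := fun p : ℝ × ℝ => Err W ρ (alf W ω p.1) p.2)
        fun x k => (c x k).2.2.2.2.2.2.1) x
  have d2 := cont_ev W (g := fun _ : ℝ × ℝ => g) (fun _ => continuous_const) c2
  have d3 := cont_ev W (g := fun _ : ℝ × ℝ => g) (fun _ => continuous_const) c3
  have d1 := cont_ev W (g := fun _ : ℝ => g) (fun _ => continuous_const) c1
  have sl : ∀ {H : ℝ × ℝ → ℝ}, Continuous H → ∀ u, Continuous fun v => H (u, v) := fun h u =>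
    h.comp (continuous_const.prodMk continuous_id)
  set P : ℝ → Cube n → ℝ := fun u => dv W (Phi W ρ (alf W ω u) (s - u)) with hP
  set R : ℝ → ℝ → Cube n → ℝ := fun u v => sg (mu W) (s - u - v) (dv W (Ret W ρ (alf W ω u) v))
    with hR
  set E : ℝ → ℝ → Cube n → ℝ := fun u v => sg (mu W) (s - u - v) (dv W (Err W ρ (alf W ω u) v))
    with hE
  have e1 : sg (mu W) s (dv W ω) = fun x => dv W (alf W ω s) x +
      ∫ u in (0 : ℝ)..s, (P u x + ∫ v in (0 : ℝ)..(s - u), (R u v x - E u v x)) :=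
    funext ((hD n W hW ρ hρ ω hω).2.2 s hs)
  have e2 := ev_int W g (H := fun u x => P u x + ∫ v in (0 : ℝ)..(s - u), (R u v x - E u v x))
    (fun x => (c1 x).add (cont_in (H := fun u v => R u v x - E u v x) ((c2 x).sub (c3 x)) s)) 0 s
  have e3 : ∀ u, ev W g (fun x => P u x + ∫ v in (0 : ℝ)..(s - u), (R u v x - E u v x)) =
      (∫ v in (0 : ℝ)..(s - u), ev W g (R u v)) +
        (ev W g (P u) - ∫ v in (0 : ℝ)..(s - u), ev W g (E u v)) := fun u => by
    rw [ev_add, ev_int W g (H := fun v x => R u v x - E u v x)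
      (fun x => (sl (c2 x) u).sub (sl (c3 x) u))]
    simp only [ev_sub]
    rw [integral_sub (f := fun v => ev W g (R u v)) (g := fun v => ev W g (E u v))
      ((sl d2 u).intervalIntegrable _ _) ((sl d3 u).intervalIntegrable _ _)]
    ring
  have e4 := integral_add (μ := MeasureTheory.volume) (a := 0) (b := s)
    (f := fun u => ∫ v in (0 : ℝ)..(s - u), ev W g (R u v))
    (g := fun u => ev W g (P u) - ∫ v in (0 : ℝ)..(s - u), ev W g (E u v))
    ((cont_in (H := fun u v => ev W g (R u v)) d2 s).intervalIntegrable _ _)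
    ((d1.sub (cont_in (H := fun u v => ev W g (E u v)) d3 s)).intervalIntegrable _ _)
  rw [← ev_sg hn, e1, ev_add, e2]
  simp only [e3]
  rw [e4, add_assoc]

end Crest.Agent.T157.S6a.St93

end
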