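import Crest.Agent.T157.S6ShA_74
import Crest.Agent.T157.RegJac_75
import Crest.Agent.T157.RegBas_66

/-!
# Row 157, block S6 (helper74): (OB) for stacked Jacobians of free fields
-/

set_option autoImplicit false
set_option linter.unusedSectionVars false
set_option linter.unusedSimpArgs false

noncomputable section

namespace Crest.Agent.T157.S6o

open Matrix Real Finset
open Crest.Agent.T157.E hiding mean
open Crest.Agent.T157.Eig Crest.Agent.T157.Reg
open Crest.Agent.T157.Tap (V Mx)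
open Crest.Agent.T157.Rec (grad fl)

variable {n : ℕ} {A : Type} [Fintype A] [DecidableEq A]

/-- stacked Jacobians -/
def JS (ω : A → VF n) (x : Cube n) : Sk A n := of fun p j => jac (ω p.1) x p.2 j
/-- their velocity -/
def DJ (W : Mx n) (ω σ : A → VF n) (x : Cube n) : Sk A n :=
  offS (of fun p j => dj W (ω p.1) (σ p.1) x p.2 j)
/-- the component `i` does not depend on the spin `i` -/
def FrS (ω : A → VF n) : Prop := ∀ a x i, ω a (fl x i) i = ω a x i

lemma FrS.diag {ω : A → VF n} (h : FrS ω) (x : Cube n) (p : A × Fin n) : JS ω x p p.2 = 0 := by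
  simp [JS, jac, h p.1 x p.2]

lemma abs_sv (x : Cube n) (i : Fin n) : |sv x i| = 1 :=
  (abs_eq zero_le_one).2 (mul_self_eq_one_iff.1 (Rec.sv_mul_self x i))

lemma nice_entry {W : Mx n} {K : ℝ} (h : Nice W K) (i k : Fin n) : W i k ^ 2 * √n ≤ K ^ 2 := by
  have hn : (0 : ℝ) < n := Nat.cast_pos.2 (Fin.pos k)
  have h1 : W i k ^ 4 ≤ K ^ 4 / n :=
    (single_le_sum (f := fun k => W i k ^ 4) (fun k _ => by positivity) (mem_univ k)).trans
      (h.2.2 i)
  rw [le_div_iff₀ hn] at h1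
  refine (le_abs_self _).trans (abs_le_of_sq_le_sq ?_ (sq_nonneg K))
  rw [mul_pow, sq_sqrt hn.le]
  nlinarith

lemma wb_sq {W : Mx n} {K : ℝ} (h : Nice W K) {w : V n} (hw : w ⬝ᵥ w = 1) (k : Fin n) :
    wb W w k ^ 2 * √n ≤ K ^ 2 := by
  rw [wb, nrm_sq, dotProduct, sum_mul, ← mul_one (K ^ 2), ← hw, dotProduct, mul_sum]
  refine sum_le_sum fun j _ => ?_
  nlinarith [mul_le_mul_of_nonneg_right (nice_entry h j k) (mul_self_nonneg (w j))]

lemma bil_sum {I L ι : Type*} [Fintype I] [Fintype L] [Fintype ι] (u : I → ℝ) (w : L → ℝ)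
    (M : ι → Matrix I L ℝ) : u ⬝ᵥ (∑ k, M k) *ᵥ w = ∑ k, u ⬝ᵥ M k *ᵥ w := by
  rw [sum_mulVec, dotProduct_sum]

/-- the velocity of the stacked Jacobians has the structure of (OB) -/
theorem str_dj (K : ℝ) : ∃ C ≥ (1 : ℝ), ∀ (n : ℕ) (W : Mx n), Nice W K →
    ∀ (A : Type) [Fintype A] [DecidableEq A] (ω σ : A → VF n), FrS ω → ∀ x,
    Str (Tk W x) (JS ω x) (fun l => JS ω (fl x l)) (DJ W ω σ x) C (opn (offS (JS σ x))) := by
  obtain ⟨c, c1, hc⟩ := coefStmt K
  have c0 : 0 ≤ c := by linarith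
  set C1 := 2 * c ^ 2 + c ^ 3 + c * K ^ 2 with hC1
  set C2 := c ^ 2 + C1 * c * K ^ 2 with hC2
  set C3 := 4 * c ^ 2 + 2 * c ^ 3 + c * K ^ 4 with hC3
  have p1 : 0 ≤ C1 := by positivity
  have p2 : 0 ≤ C2 := by positivity
  have p3 : 0 ≤ C3 := by positivity
  have p4 : 0 ≤ C2 * K ^ 2 := by positivity
  have p5 : 0 ≤ C1 * K ^ 2 := by positivity
  refine ⟨2 * (C2 * K ^ 2) + C1 * K ^ 2 + (4 * c + C3 + 2), by linarith,
    fun n W hN A _ _ ω σ hω x u w hu hw => ?_⟩
  obtain ⟨hT, -, hal, opal, -, hmx, d, P, q, od, oP, hdP, hq, hrem⟩ := hc n W hN x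
  have hF : Fac W K c (mx W x) d P q :=
    ⟨hN.1, hN.2.1, c0, od, oP, fun i k => (hdP i k).1, fun i k => (hdP i k).2, hq, hrem⟩
  have a0 : ∀ k, 0 ≤ wa W u k := fun k => nrm_nonneg _
  have b0 : ∀ k, 0 ≤ wb W w k := fun k => nrm_nonneg _
  have sa := sum_wa hN.2.1 hu
  have sb := sum_wb hN.2.1 hw
  have tt1 : ∀ k, Tk W x k * (1 - Tk W x k) ≤ Tk W x k := fun k => by nlinarith [hT k]
  have hal' : ∀ i k, |al W x i k| ≤ c * Tk W x k * |W i k| := fun i k => (hal i k).trans (by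
    nlinarith [mul_le_mul_of_nonneg_left (tt1 k) (mul_nonneg c0 (abs_nonneg (W i k)))])
  have sq1 : ∀ k {z a b : ℝ}, 0 ≤ z → z ≤ c * Tk W x k * a →
      z ^ 2 ≤ Tk W x k * (C2 * (a ^ 2 + b ^ 2)) := fun k {z a b} z0 h => by
    have h1 := pow_le_pow_left₀ z0 h 2
    have h2 : Tk W x k ^ 2 ≤ Tk W x k := by nlinarith [hT k]
    have h3 : c ^ 2 * a ^ 2 ≤ C2 * (a ^ 2 + b ^ 2) := by
      have : 0 ≤ C1 * c * K ^ 2 := by positivity
      nlinarith [mul_nonneg this (sq_nonneg a), mul_nonneg p2 (sq_nonneg b)]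
    nlinarith [mul_le_mul_of_nonneg_left h2 (by positivity : 0 ≤ c ^ 2 * a ^ 2),
      mul_le_mul_of_nonneg_left h3 (hT k).1.le]
  set X := JS ω x with hX
  set Y : Fin n → Sk A n := fun k => JS ω (fl x k) - X with hY
  have Y0 : ∀ k p, Y k p p.2 = 0 := fun k p => by
    simp only [hY, Matrix.sub_apply, hX, hω.diag, sub_zero]
  refine ⟨fun k p => u p * al W x p.2 k, fun k j => w j * al W x j k,
    fun k => C2 * (wa W u k ^ 2 + wb W w k ^ 2),
    fun k => min (C1 * (wa W u k * wb W w k)) (c * Tk W x k * √n * (wa W u k * wb W w k)),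
    fun k => ⟨?_, ?_, by positivity, ?_, ?_⟩, ?_, ?_, ?_⟩
  · rw [← nrm_sq]
    refine sq1 k (nrm_nonneg _) (nrm_mono (mul_nonneg c0 (hT k).1.le) fun p => ?_)
    rw [abs_mul, abs_mul]
    nlinarith [mul_le_mul_of_nonneg_left (hal' p.2 k) (abs_nonneg (u p))]
  · dsimp only
    rw [← nrm_sq, add_comm]
    refine sq1 k (nrm_nonneg _) (nrm_mono (mul_nonneg c0 (hT k).1.le) fun p => ?_)
    rw [abs_mul, abs_mul]
    nlinarith [mul_le_mul_of_nonneg_left (hal' p k) (abs_nonneg (w p))]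
  · have := (hT k).1
    have := a0 k
    have := b0 k
    exact le_min (by positivity) (by positivity)
  · have t0 := (hT k).1
    have := a0 k
    have := b0 k
    have h1 : (min (C1 * (wa W u k * wb W w k)) (c * Tk W x k * √n * (wa W u k * wb W w k))) ^ 2 ≤
        C1 * (wa W u k * wb W w k) * (c * Tk W x k * √n * (wa W u k * wb W w k)) := by
      rw [sq]
      exact mul_le_mul (min_le_left _ _) (min_le_right _ _)
        (le_min (by positivity) (by positivity)) (by positivity)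
    have h2 := mul_le_mul_of_nonneg_left (wb_sq hN hw k)
      (by positivity : 0 ≤ Tk W x k * (C1 * c * wa W u k ^ 2))
    have h3 : C1 * c * K ^ 2 * wa W u k ^ 2 ≤ C2 * (wa W u k ^ 2 + wb W w k ^ 2) := by
      nlinarith [mul_nonneg (sq_nonneg c) (sq_nonneg (wa W u k)),
        mul_nonneg p2 (sq_nonneg (wb W w k))]
    nlinarith [mul_le_mul_of_nonneg_left h3 t0.le]
  · rw [← mul_sum, sum_add_distrib]
    nlinarith [mul_le_mul_of_nonneg_left (add_le_add sa sb) p2]
  · have h1 : ∑ k, min (C1 * (wa W u k * wb W w k)) (c * Tk W x k * √n * (wa W u k * wb W w k)) ≤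
        ∑ k, C1 / 2 * (wa W u k ^ 2 + wb W w k ^ 2) := sum_le_sum fun k _ =>
      (min_le_left _ _).trans (by nlinarith [mul_nonneg p1 (sq_nonneg (wa W u k - wb W w k))])
    rw [← mul_sum, sum_add_distrib] at h1
    nlinarith [mul_le_mul_of_nonneg_left (add_le_add sa sb) p1]
  · set Z : Sk A n := offS (X * (al W x)ᵀ) + offS (of fun p j => ∑ k, mx W x p.2 j k * X p k) +
      X * diagonal (fun j => 2 * Tk W x j - 2) + (2 : ℝ) • ha (al W x) X with hZ
    have x0 := opn_nonneg X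
    have hZ1 : opn Z ≤ 2 * (opn X * c) + C3 * opn X + opn X * 2 + 2 * (c * opn X) := by
      refine add_le (add_le (add_le ((offS_le _).trans ?_) (hF.right X))
        (mul_le le_rfl (opn_diagonal_le zero_le_two fun j => ?_))) ?_
      · exact mul_le_mul_of_nonneg_left (mul_le le_rfl (by rw [opn_transpose]; exact opal))
          zero_le_two
      · rw [abs_le]; constructor <;> linarith [hT j]
      · rw [opn_smul, abs_two]
        exact mul_le_mul_of_nonneg_left (((mul_opn X).2 _).1.trans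
          (mul_le_mul_of_nonneg_right opal x0)) zero_le_two
    have key : DJ W ω σ x = ∑ k, (Tk W x k • Y k + (of fun p j => al W x p.2 k * Y k p j) +
        Y k * diagonal (fun j => al W x j k) + of fun p j => mx W x p.2 j k * Y k p j) + Z +
        offS (JS σ x) := by
      ext p j
      simp only [DJ, offS, hZ, of_apply, Matrix.add_apply, Matrix.sum_apply, Matrix.smul_apply,
        diagonal_mul, mul_diagonal, smul_eq_mul, ha]
      by_cases e : p.2 = j
      · simp only [if_pos e]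
        subst e
        simp only [Y0, hX, hω.diag, mul_zero, zero_mul, add_zero, sum_const_zero]
      · simp only [if_neg e, jacStmt.offd n W _ _ x _ _ e, mul_apply, transpose_apply, hY, hX, JS,
          of_apply, Matrix.sub_apply, add_mul, sum_add_distrib]
        simp only [mul_comm]
        linarith
    have e1 : ∀ k, u ⬝ᵥ (of fun p j => al W x p.2 k * Y k p j : Sk A n) *ᵥ w =
        (fun p => u p * al W x p.2 k) ⬝ᵥ Y k *ᵥ w := fun k => by
      simp only [bil_eq, of_apply, mul_assoc]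
    have e2 : ∀ k, u ⬝ᵥ (Y k * diagonal (fun j => al W x j k)) *ᵥ w =
        u ⬝ᵥ Y k *ᵥ fun j => w j * al W x j k := fun k => by
      simp only [bil_eq, mul_diagonal]
      exact sum_congr rfl fun p _ => sum_congr rfl fun j _ => by ring
    have b1 := (le_abs_self _).trans (abs_bil_le Z u w)
    have b2 := (le_abs_self _).trans (abs_bil_le (offS (JS σ x)) u w)
    rw [nrm_one_of hu, nrm_one_of hw, mul_one, mul_one] at b1 b2
    rw [key, add_mulVec, add_mulVec, dotProduct_add, dotProduct_add, bil_sum]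
    refine add_le_add (add_le_add (sum_le_sum fun k _ => ?_) ?_) b2
    · rw [add_mulVec, add_mulVec, add_mulVec, dotProduct_add, dotProduct_add, dotProduct_add, e1,
        e2, smul_mulVec, dotProduct_smul, smul_eq_mul]
      refine add_le_add le_rfl ?_
      rw [min_mul_of_nonneg _ _ (opn_nonneg _)]
      refine le_min (hF.first (Y0 k) u w k) (first_crude (mul_nonneg c0 (hT k).1.le)
        (fun i j e => (hmx i j k e).trans ?_) (Y0 k) u w)
      nlinarith [mul_le_mul_of_nonneg_left (tt1 k)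
        (by positivity : 0 ≤ c * |W i k| * |W j k|)]
    · nlinarith [mul_nonneg p4 x0, mul_nonneg p5 x0]

/-- the source of the intertwined equation -/
theorem src_bb (K : ℝ) : ∃ C ≥ (1 : ℝ), ∀ (n : ℕ) (W : Mx n), Nice W K →
    ∀ (A : Type) [Fintype A] [DecidableEq A] (ω : A → VF n) (x : Cube n) (z : ℝ), 0 ≤ z →
    (∀ k, ∑ a, ω a x k ^ 2 ≤ z ^ 2) →
    opn (offS (JS (fun a => bb W (ω a)) x)) ≤ C * (opn (JS ω x) + z) := by
  obtain ⟨c, c1, hc⟩ := coefStmt K
  have c0 : 0 ≤ c := by linarith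
  have p3 : 0 ≤ 4 * c ^ 2 + 2 * c ^ 3 + c * K ^ 4 := by positivity
  refine ⟨2 * c + (4 * c ^ 2 + 2 * c ^ 3 + c * K ^ 4), by linarith,
    fun n W hN A _ _ ω x z z0 hz => ?_⟩
  obtain ⟨-, -, -, -, opam, -, d, P, q, od, oP, hdP, hq, hrem⟩ := hc n W hN x
  have hF : Fac W K c (mx W x) d P q :=
    ⟨hN.1, hN.2.1, c0, od, oP, fun i k => (hdP i k).1, fun i k => (hdP i k).2, hq, hrem⟩
  have key : offS (JS (fun a => bb W (ω a)) x) = offS (bk (am W x) (JS ω x)) +
      offS (of fun p j => ∑ k, sv x p.2 * sv x k * mx W x p.2 j k * JS ω x (p.1, k) j) +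
      offS (of fun p j => ∑ k, sv x p.2 * sv x k * mx W x p.2 j k *
        cr (fun a => ω a x) (p.1, k) j) := by
    ext p j
    simp only [offS, of_apply, Matrix.add_apply]
    by_cases e : p.2 = j
    · simp only [if_pos e, add_zero]
    · simp only [if_neg e, JS, of_apply, jacStmt.jb, bk, cr, mul_apply, mul_add, sum_add_distrib,
        add_assoc]
  have x0 := opn_nonneg (JS ω x)
  have h1 := add_le (add_le ((offS_le _).trans (mul_le_mul_of_nonneg_left ((bk_le _ _).trans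
    (mul_le_mul_of_nonneg_right opam x0)) zero_le_two)) (hF.left (mul_opn (JS ω x)) (abs_sv x)))
    (hF.left (mul_cr (ω := fun a => ω a x) z0 hz) (abs_sv x))
  rw [key]
  nlinarith [mul_nonneg c0 z0]

lemma Str.shift {ι I L : Type*} [Fintype ι] [Fintype I] [DecidableEq I] [Fintype L]
    [DecidableEq L] {r : ι → ℝ} {S S' : Matrix I L ℝ} {Sl : ι → Matrix I L ℝ} {C D E E' : ℝ}
    (h : Str r S Sl S' C E) (hD : 0 ≤ D) (hE : E ≤ D * opn S + E') : Str r S Sl S' (C + D) E' :=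
  fun u w hu hw => by
  obtain ⟨p, q, ϖ, θ, h1, h2, h3, h4⟩ := h u w hu hw
  exact ⟨p, q, ϖ, θ, h1, by linarith, by linarith, by linarith⟩

/-- the velocity of a field with source `σ` -/
def vel (W : Mx n) (ω σ : VF n) : VF n := fun x i =>
  ∑ k, (Tk W x k + al W x i k) * jac ω x i k - ω x i + σ x i

lemma jac_vel (W : Mx n) (ω σ : VF n) (x : Cube n) (i j : Fin n) :
    vel W ω σ (fl x j) i - vel W ω σ x i = dj W ω σ x i j := by
  simp only [dj, Matrix.sub_apply, jac, of_apply, stp, vel]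
  ring

lemma hasDerivAt_JS {W : Mx n} {ω : ℝ → A → VF n} {σ : A → VF n} {c : A → V n} {v : ℝ}
    (hf : ∀ t, FrS (ω t))
    (hd : ∀ a x i, HasDerivAt (fun t => ω t a x i) (vel W (ω v a) (σ a) x i + c a i) v)
    (x : Cube n) (p : A × Fin n) (j : Fin n) :
    HasDerivAt (fun t => JS (ω t) x p j) (DJ W (ω v) σ x p j) v := by
  by_cases e : p.2 = j
  · simp only [DJ, offS, of_apply, if_pos e]
    subst e
    simp only [(hf _).diag]
    exact hasDerivAt_const _ _
  · simp only [DJ, offS, of_apply, if_neg e, JS, jac, ← jac_vel]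
    exact ((hd p.1 (fl x j) p.2).sub (hd p.1 x p.2)).congr_deriv (by ring)

/-- **(OB) for free fields with an arbitrary source** -/
theorem tch_src (K : ℝ) : ∃ C ≥ (1 : ℝ), ∀ (n : ℕ) (W : Mx n), Nice W K →
    ∀ (A : Type) [Fintype A] [DecidableEq A] (ω : ℝ → A → VF n) (σ : A → VF n) (c : A → V n)
      (v : ℝ), (∀ t, FrS (ω t)) →
    (∀ a x i, HasDerivAt (fun t => ω t a x i) (vel W (ω v a) (σ a) x i + c a i) v) →
    ∀ x, S6b.Tch (fun t => opn (JS (ω t) x) ^ 4) v
      (gen (mu W) (fun y => opn (JS (ω v) y) ^ 4) x + C * opn (JS (ω v) x) ^ 4 +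
        opn (offS (JS σ x)) ^ 4) := by
  obtain ⟨C, C1, h⟩ := str_dj K
  obtain ⟨c, -, hc⟩ := coefStmt K
  refine ⟨21 * C + 3, by linarith, fun n W hN A _ _ ω σ c v hf hd x => ?_⟩
  rw [Bas66.gen_eq hN.1]
  exact ob_tch (S := fun t => JS (ω t) x) (fun l => ((hc n W hN x).1 l).1.le)
    (hasDerivAt_JS hf hd x) (h n W hN A (ω v) σ (hf v) x)

/-- **(SHs)**, differential form -/
theorem tch_bb (K : ℝ) : ∃ C ≥ (1 : ℝ), ∀ (n : ℕ) (W : Mx n), Nice W K →
    ∀ (A : Type) [Fintype A] [DecidableEq A] (ω : ℝ → A → VF n) (c : A → V n) (v : ℝ),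
    (∀ t, FrS (ω t)) →
    (∀ a x i, HasDerivAt (fun t => ω t a x i) (vel W (ω v a) (bb W (ω v a)) x i + c a i) v) →
    ∀ (x : Cube n) (z : ℝ), (∀ k, ∑ a, ω v a x k ^ 2 ≤ z ^ 2) →
    S6b.Tch (fun t => opn (JS (ω t) x) ^ 4) v
      (gen (mu W) (fun y => opn (JS (ω v) y) ^ 4) x + C * opn (JS (ω v) x) ^ 4 + C * z ^ 4) := by
  obtain ⟨C, C1, h⟩ := str_dj K
  obtain ⟨D, D1, hD⟩ := src_bb K
  obtain ⟨c, -, hc⟩ := coefStmt K
  have D4 : 0 ≤ D ^ 4 := by positivity
  refine ⟨21 * (C + D) + 3 + D ^ 4, by linarith, fun n W hN A _ _ ω c v hf hd x z hz => ?_⟩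
  rw [Bas66.gen_eq hN.1]
  have h1 := hD n W hN A (ω v) x |z| (abs_nonneg z) (by simpa only [sq_abs] using hz)
  refine (ob_tch (S := fun t => JS (ω t) x) (fun l => ((hc n W hN x).1 l).1.le)
    (hasDerivAt_JS hf hd x) ((h n W hN A (ω v) _ (hf v) x).shift (E' := D * |z|) (by linarith)
      (h1.trans_eq (mul_add _ _ _)))).mono ?_
  rw [mul_pow, (by decide : Even 4).pow_abs]
  have h2 : 0 ≤ opn (JS (ω v) x) ^ 4 := by positivity
  have h3 : 0 ≤ z ^ 4 := by positivity
  nlinarith [mul_nonneg D4 h2, mul_nonneg (by linarith : 0 ≤ 21 * (C + D) + 3) h3]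

end Crest.Agent.T157.S6o

end
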