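import Crest.Agent.T157.S6Cmp_20
import Crest.Agent.T157.RegSb_51
import Crest.Agent.T157.RegS4_2
import Crest.Agent.T157.RegCoef_54
import Crest.Agent.T157.RegBas_66
import Crest.Agent.T157.RegTool_31

/-!
# Row 157, block S6 (helper2): (ST), stability and concentration of `M = D P_v s`
-/

set_option autoImplicit false

noncomputable section

namespace Crest.Agent.T157.S6t

open Matrix Real Finset
open Crest.Agent.T157.E hiding mean
open Crest.Agent.T157.Eig
open Crest.Agent.T157.Tap (V Mx)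
open Crest.Agent.T157.Rec (grad fl grad_eq grad_sub grad_add grad_const grad_const_mul grad_lin GR)
open Crest.Agent.T157.Da.Gr
open Crest.Agent.T157.Chain22 (sg IsP mean)
open Crest.Agent.T157.Reg

variable {n : ℕ}

/-- rows and columns of `T` zeroed -/
def cav (T : Finset (Fin n)) (W : Mx n) : Mx n := of fun i j => if i ∈ T ∨ j ∈ T then 0 else W i j
/-- `M i a = D_i P_v s_a` -/
def Mg (W : Mx n) (v : ℝ) (x : Cube n) : Mx n :=
  of fun i a => grad (sg (mu W) v fun z => sv z a) x i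
/-- the stacked Hessians `(a, i), j ↦ D_j D_i P_v s_a` -/
def Hs (W : Mx n) (v : ℝ) (x : Cube n) : Matrix (Fin n × Fin n) (Fin n) ℝ :=
  of fun p j => grad (fun z => Mg W v z p.2 p.1) x j
/-- `tr (c M) / n` -/
def vr (W : Mx n) (v : ℝ) (x : Cube n) : ℝ := (∑ i, (1 - tt W 0 x i ^ 2) * Mg W v x i i) / n
/-- `|M|_F² / n` -/
def Fq (W : Mx n) (v : ℝ) (x : Cube n) : ℝ := fp (Mg W v x) (Mg W v x) / n
/-- averaged Dirichlet form of `P_v s_a` -/
def Ee (W : Mx n) (v : ℝ) : ℝ := (∑ a, dir (mu W) (sg (mu W) v fun z => sv z a)) / n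
/-- the constant of the gradient estimate -/
def Gc (K : ℝ) : ℝ := 4 * K + 8 * K ^ 2 + 4 * exp (4 * K) * K ^ 2

variable {W : Mx n} {K : ℝ}

theorem cav_symm (hW : Wᵀ = W) (T : Finset (Fin n)) : (cav T W)ᵀ = cav T W := by
  ext i j
  have : W j i = W i j := congrFun (congrFun hW i) j
  simp [cav, or_comm, this]

theorem cav_empty (W : Mx n) : cav ∅ W = W := by ext i j; simp [cav]

theorem opn_cav (T : Finset (Fin n)) (W : Mx n) : opn (cav T W) ≤ opn W := by
  have e : cav T W = diagonal (fun i => if i ∈ T then (0 : ℝ) else 1) * W *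
      diagonal (fun i => if i ∈ T then (0 : ℝ) else 1) := by
    ext i j
    by_cases hi : i ∈ T <;> by_cases hj : j ∈ T <;> simp [cav, hi, hj]
  have d : opn (diagonal fun i : Fin n => if i ∈ T then (0 : ℝ) else 1) ≤ 1 :=
    opn_diagonal_le zero_le_one fun i => by split_ifs <;> simp
  rw [e]
  exact (opn_mul_le _ _).trans ((mul_le_of_le_one_right (opn_nonneg _) d).trans
    ((opn_mul_le _ _).trans (mul_le_of_le_one_left (opn_nonneg _) d)))

theorem col_sq {ι κ : Type*} [Fintype ι] [Fintype κ] [DecidableEq ι] [DecidableEq κ]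
    (A : Matrix ι κ ℝ) (j : κ) : ∑ p, A p j ^ 2 ≤ opn A ^ 2 := by
  simpa [dotProduct, sq, Pi.single_apply] using mulVec_dot_le A (Pi.single j 1)

theorem row_sq {ι κ : Type*} [Fintype ι] [Fintype κ] [DecidableEq ι] [DecidableEq κ]
    (A : Matrix ι κ ℝ) (i : ι) : ∑ j, A i j ^ 2 ≤ opn A ^ 2 := by
  have := col_sq Aᵀ i
  rwa [opn_transpose] at this

theorem Mg_mulVec (W : Mx n) (v : ℝ) (x : Cube n) (w : V n) :
    Mg W v x *ᵥ w = grad (sg (mu W) v fun z => w ⬝ᵥ sv z) x := by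
  ext i
  have : (sg (mu W) v fun z => w ⬝ᵥ sv z) = fun y => ∑ a, w a * sg (mu W) v (fun z => sv z a) y := by
    funext y
    simp only [dotProduct, Rec.sg_sum, Rec.sg_const_mul]
  rw [this, grad_sum]
  simp only [grad_const_mul, Mg, mulVec, dotProduct, of_apply, Pi.smul_apply, smul_eq_mul, mul_comm]

theorem opn_Mg (hn : 0 < n) (hW : Wᵀ = W) (hK : opn W ≤ K) {v : ℝ} (hv : 0 ≤ v) (x : Cube n) :
    opn (Mg W v x) ^ 2 ≤ exp (Gc K * v) := by
  have e : exp (Gc K * v / 2) ^ 2 = exp (Gc K * v) := by rw [← exp_nat_mul]; congr 1; push_cast; ring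
  rw [← e]
  refine pow_le_pow_left₀ (opn_nonneg _) (opn_le_of_sq (exp_pos _).le fun w => ?_) 2
  have := gr_of hn (ising_pos W 0) (gam2 hW hK 0) v hv (fun z => w ⬝ᵥ sv z) x
  simp only [grad_lin, Rec.sg_const hn (ising_pos W 0)] at this
  rw [e, Mg_mulVec]
  exact this

theorem Hs_symm (W : Mx n) (v : ℝ) (x : Cube n) (a i j : Fin n) :
    Hs W v x (a, i) j = Hs W v x (a, j) i := grad_comm _ x i j

/-! ### change of the conditional means -/

theorem abs_am (W : Mx n) (x : Cube n) (j i : Fin n) : |am W x j i| ≤ |W i j| := by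
  have h := tanh_lip (loc W 0 x i) (loc W 0 (fl x j) i)
  rw [loc_fl, sub_sub_cancel] at h
  have h2 : |if j = i then (0 : ℝ) else 2 * sv x j * W i j| ≤ 2 * |W i j| := by
    split_ifs
    · simp
    · simp [abs_mul, S42.abs_sv]
  simp only [am, of_apply, grad_eq, tt, loc_fl, abs_div, abs_mul, S42.abs_sv, abs_two]
  linarith

theorem th2 (h h' c : ℝ) :
    |tanh h - tanh (h - c) - (tanh h' - tanh (h' - c))| ≤ 2 * |c| * |h - h'| := by
  have d : ∀ u, HasDerivAt (fun u => tanh u - tanh (u - c))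
      (1 - tanh u ^ 2 - (1 - tanh (u - c) ^ 2)) u := fun u =>
    (hasDerivAt_tanh u).sub (by simpa using (hasDerivAt_tanh (u - c)).comp_sub_const u c)
  refine convex_univ.norm_image_sub_le_of_norm_hasDerivWithin_le (C := 2 * |c|)
    (fun u _ => (d u).hasDerivWithinAt) (fun u _ => ?_) (Set.mem_univ h') (Set.mem_univ h)
  have h1 := tanh_lip u (u - c)
  rw [sub_sub_cancel] at h1
  have h2 : |tanh u + tanh (u - c)| ≤ 2 := (abs_add_le _ _).trans
    (by linarith [abs_tanh_lt_one u, abs_tanh_lt_one (u - c)])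
  rw [Real.norm_eq_abs, show 1 - tanh u ^ 2 - (1 - tanh (u - c) ^ 2) =
    -((tanh u + tanh (u - c)) * (tanh u - tanh (u - c))) by ring, abs_neg, abs_mul]
  exact mul_le_mul h2 h1 (abs_nonneg _) zero_le_two

/-- the field of the spins of `T` -/
def fT (T : Finset (Fin n)) (W : Mx n) (x : Cube n) : V n := W *ᵥ fun k => if k ∈ T then sv x k else 0

theorem fT_sq (hK : opn W ≤ K) (T : Finset (Fin n)) (x : Cube n) :
    ∑ i, fT T W x i ^ 2 ≤ K ^ 2 * T.card := by
  have h := mulVec_dot_le W fun k => if k ∈ T then sv x k else 0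
  have e : (fun k => if k ∈ T then sv x k else 0) ⬝ᵥ (fun k => if k ∈ T then sv x k else 0) =
      T.card := by simp [dotProduct, Rec.sv_mul_self]
  rw [e] at h
  refine le_trans (le_of_eq ?_) (h.trans (mul_le_mul_of_nonneg_right
    (pow_le_pow_left₀ (opn_nonneg _) hK 2) (Nat.cast_nonneg _)))
  simp only [dotProduct, sq, fT]

theorem loc_cav {T : Finset (Fin n)} {i : Fin n} (hi : i ∉ T) (W : Mx n) (x : Cube n) :
    loc W 0 x i - loc (cav T W) 0 x i = fT T W x i := by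
  have : ∑ k, W i k * sv x k - ∑ k, (if k ∈ T then 0 else W i k) * sv x k =
      ∑ k, W i k * if k ∈ T then sv x k else 0 := by
    rw [← sum_sub_distrib]; exact sum_congr rfl fun k _ => by split_ifs <;> ring
  simp only [loc, fT, cav, mulVec, dotProduct, of_apply, hi, false_or, if_false, ← this]
  ring

theorem sum_ind (T : Finset (Fin n)) (c : ℝ) : ∑ i, (if i ∈ T then c else 0) = c * T.card := by
  simp [mul_comm]

theorem de_sq (hK : opn W ≤ K) (T : Finset (Fin n)) (x : Cube n) :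
    ∑ i, (tt W 0 x i - tt (cav T W) 0 x i) ^ 2 ≤ (4 + K ^ 2) * T.card := by
  have : ∑ i, (tt W 0 x i - tt (cav T W) 0 x i) ^ 2 ≤
      ∑ i, ((if i ∈ T then (4 : ℝ) else 0) + fT T W x i ^ 2) := sum_le_sum fun i _ => by
    split_ifs with hi
    · nlinarith [abs_le.1 (S42.abs_tt W x i), abs_le.1 (S42.abs_tt (cav T W) x i),
        sq_nonneg (fT T W x i)]
    · rw [zero_add, ← loc_cav hi]
      exact sq_le_sq.2 (tanh_lip _ _)
  rw [sum_add_distrib, sum_ind] at this
  linarith [fT_sq hK T x]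

theorem dde_sq (hK : opn W ≤ K) (T : Finset (Fin n)) (x : Cube n) :
    ∑ j, ∑ i, (am W x j i - am (cav T W) x j i) ^ 2 ≤ (2 * K ^ 2 + 4 * K ^ 4) * T.card := by
  have k2 := pow_le_pow_left₀ (opn_nonneg _) hK 2
  have h : ∀ j i, (am W x j i - am (cav T W) x j i) ^ 2 ≤ (if i ∈ T then W i j ^ 2 else 0) +
      (if j ∈ T then W i j ^ 2 else 0) + 4 * fT T W x i ^ 2 * W i j ^ 2 := fun j i => by
    by_cases hij : i ∈ T ∨ j ∈ T
    · have a : am (cav T W) x j i = 0 := by simpa [cav, hij] using abs_am (cav T W) x j i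
      have b := sq_le_sq.2 (abs_am W x j i)
      have c : 0 ≤ 4 * fT T W x i ^ 2 * W i j ^ 2 := by positivity
      have d := sq_nonneg (W i j)
      rw [a, sub_zero]
      split_ifs <;> first | linarith | tauto
    · have hi : i ∉ T := fun h => hij (.inl h)
      have hj : j ∉ T := fun h => hij (.inr h)
      have e : cav T W i j = W i j := by simp [cav, hij]
      have t := th2 (loc W 0 x i) (loc (cav T W) 0 x i) (if j = i then 0 else 2 * sv x j * W i j)
      have h2 : |if j = i then (0 : ℝ) else 2 * sv x j * W i j| ≤ 2 * |W i j| := by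
        split_ifs
        · simp
        · simp [abs_mul, S42.abs_sv]
      rw [loc_cav hi] at t
      rw [if_neg hi, if_neg hj, zero_add, zero_add, show 4 * fT T W x i ^ 2 * W i j ^ 2 =
        (2 * fT T W x i * W i j) ^ 2 by ring, sq_le_sq]
      simp only [am, of_apply, grad_eq, tt, loc_fl, e]
      rw [← sub_div, ← mul_sub, abs_div, abs_mul, S42.abs_sv, abs_mul, abs_mul, abs_two]
      nlinarith [mul_le_mul_of_nonneg_right h2 (abs_nonneg (fT T W x i))]
  refine (sum_le_sum fun j _ => sum_le_sum fun i _ => h j i).trans ?_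
  have a : ∑ j, ∑ i, (if i ∈ T then W i j ^ 2 else 0) ≤ K ^ 2 * T.card := by
    rw [sum_comm, ← sum_ind]
    exact sum_le_sum fun i _ => by
      split_ifs
      · exact (row_sq W i).trans k2
      · simp
  have b : ∑ j, ∑ i, (if j ∈ T then W i j ^ 2 else 0) ≤ K ^ 2 * T.card := by
    rw [← sum_ind]
    exact sum_le_sum fun j _ => by
      split_ifs
      · exact (col_sq W j).trans k2
      · simp
  have c : ∑ j, ∑ i, 4 * fT T W x i ^ 2 * W i j ^ 2 ≤ 4 * K ^ 2 * ∑ i, fT T W x i ^ 2 := by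
    rw [sum_comm, mul_sum]
    exact sum_le_sum fun i _ => by
      rw [← mul_sum]
      nlinarith [mul_le_mul_of_nonneg_left ((row_sq W i).trans k2) (sq_nonneg (fT T W x i))]
  simp only [sum_add_distrib]
  nlinarith [mul_le_mul_of_nonneg_left (fT_sq hK T x) (sq_nonneg K)]

/-! ### stability under removal of `T` -/

theorem three_sq (x : Cube n) (j : Fin n) (A B C : ℝ) :
    (A + B - 2 * sv x j * C) ^ 2 ≤ 3 * (A ^ 2 + B ^ 2 + 4 * C ^ 2) := by
  have : (sv x j * C) ^ 2 = C ^ 2 := by rw [mul_pow, sq (sv x j), Rec.sv_mul_self, one_mul]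
  nlinarith [sq_nonneg (A - B), sq_nonneg (A + 2 * (sv x j * C)), sq_nonneg (B + 2 * (sv x j * C))]

theorem src_le (W : Mx n) (s : ℝ) (x : Cube n) (de : Cube n → V n) :
    ∑ a, grad (fun z => ∑ i, de z i * Mg W s z i a) x ⬝ᵥ grad (fun z => ∑ i, de z i * Mg W s z i a) x ≤
      3 * (opn (Hs W s x) ^ 2 * ∑ i, de x i ^ 2 + (opn (Mg W s x) ^ 2 + 4 * opn (Hs W s x) ^ 2) *
        ∑ j, ∑ i, grad (fun z => de z i) x j ^ 2) := by
  set X := Hs W s x
  set D : Fin n → Fin n → ℝ := fun j i => grad (fun z => de z i) x j with hD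
  have e : ∀ a j, grad (fun z => ∑ i, de z i * Mg W s z i a) x j = (X *ᵥ de x) (a, j) +
      ((Mg W s x)ᵀ *ᵥ D j) a - 2 * sv x j * ∑ i, D j i * X (a, i) j := fun a j => by
    simp only [grad_sum, grad_mul, mulVec, dotProduct, transpose_apply, mul_sum, ← sum_add_distrib,
      ← sum_sub_distrib]
    exact sum_congr rfl fun i _ => by
      rw [show X (a, j) i = X (a, i) j from Hs_symm W s x a j i, mul_comm (de x i)]; rfl
  have hA := mulVec_dot_le X (de x)
  have hB : ∑ j, ∑ a, ((Mg W s x)ᵀ *ᵥ D j) a ^ 2 ≤ ∑ j, opn (Mg W s x) ^ 2 * ∑ i, D j i ^ 2 :=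
    sum_le_sum fun j _ => by
      simpa only [opn_transpose, dotProduct, ← sq] using mulVec_dot_le (Mg W s x)ᵀ (D j)
  have hC : ∑ j, ∑ a, (∑ i, D j i * X (a, i) j) ^ 2 ≤ ∑ j, opn X ^ 2 * ∑ i, D j i ^ 2 :=
    sum_le_sum fun j _ => by
      refine (sum_le_sum fun a _ => sum_mul_sq_le_sq_mul_sq _ _ _).trans ?_
      rw [← mul_sum, mul_comm, ← Fintype.sum_prod_type' (fun a i => X (a, i) j ^ 2)]
      exact mul_le_mul_of_nonneg_right (col_sq X j) (by positivity)
  simp only [dotProduct, ← sq, Fintype.sum_prod_type] at hA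
  rw [sum_comm, ← mul_sum] at hB hC
  simp only [dotProduct, ← sq, e]
  refine (sum_le_sum fun a _ => sum_le_sum fun j _ => three_sq x j _ _ _).trans ?_
  simp only [← mul_sum, sum_add_distrib]
  nlinarith

theorem Gc_nonneg (hK : 0 ≤ K) : 0 ≤ Gc K := by unfold Gc; positivity

/-- comparison of two dynamics -/
theorem stab (hn : 0 < n) {W' : Mx n} (hW : Wᵀ = W) (hW' : W'ᵀ = W') (hK' : opn W' ≤ K) {v S : ℝ}
    (hv : 0 ≤ v) (hS : 0 ≤ S) (h : ∀ s ∈ Set.Icc 0 v, ∀ x,
      ∑ a, grad (fun z => ∑ i, (tt W 0 z i - tt W' 0 z i) * Mg W s z i a) x ⬝ᵥ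
        grad (fun z => ∑ i, (tt W 0 z i - tt W' 0 z i) * Mg W s z i a) x ≤ S) (x : Cube n) :
    fp (Mg W v x - Mg W' v x) (Mg W v x - Mg W' v x) ≤ S * v * exp ((Gc K + 1) * v) := by
  set G : Fin n → ℝ → Cube n → ℝ := fun a s z =>
    sg (mu W) s (fun z => sv z a) z - sg (mu W') s (fun z => sv z a) z with hG
  have dG : ∀ a s z, HasDerivAt (fun u => G a u z) (gen (mu W') (G a s) z +
      ∑ i, (tt W 0 z i - tt W' 0 z i) * Mg W s z i a) s := fun a s z => by
    refine ((Chain22.hasDerivAt_sg hn (S42.mu_pos W) _ z s).sub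
      (Chain22.hasDerivAt_sg hn (S42.mu_pos W') _ z s)).congr_deriv ?_
    rw [hG, S6b.gen_sub]
    simp only [mu, gen_ising hW, gen_ising hW', Mg, of_apply, ← sum_sub_distrib, ← sum_add_distrib]
    exact sum_congr rfl fun i _ => by ring
  have dΦ : ∀ s z, HasDerivAt (fun u => ∑ a, grad (G a u) z ⬝ᵥ grad (G a u) z)
      (∑ a, 2 * (grad (G a s) z ⬝ᵥ (grad (gen (mu W') (G a s)) z +
        grad (fun z => ∑ i, (tt W 0 z i - tt W' 0 z i) * Mg W s z i a) z))) s := fun s z =>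
    HasDerivAt.fun_sum fun a _ => by
      refine (HasDerivAt.fun_sum (u := univ) fun i _ =>
        (hasDerivAt_grad (dG a s) z i).mul (hasDerivAt_grad (dG a s) z i)).congr_deriv ?_
      rw [grad_add, dotProduct, mul_sum]
      exact sum_congr rfl fun i _ => by ring
  have k := S6b.cmp_super (S42.mu_pos W') (Φ := fun u z => ∑ a, grad (G a u) z ⬝ᵥ grad (G a u) z)
    (U := fun u _ => S * u * exp ((Gc K + 1) * u)) (g := fun _ _ => S) (C := Gc K + 1) (T := v)
    (U' := fun u _ => S * exp ((Gc K + 1) * u) + S * u * (exp ((Gc K + 1) * u) * (Gc K + 1)))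
    (fun z u _ => (dΦ u z).continuousAt.continuousWithinAt)
    (fun s hs z => .of_deriv (dΦ s z) ?_)
    (fun s _ _ => by
      simpa using ((hasDerivAt_id s).const_mul S).fun_mul
        ((hasDerivAt_id s).const_mul (Gc K + 1)).exp)
    (fun s hs z => ?_) (fun z => ?_) v ⟨hv, le_rfl⟩ x
  · refine le_trans (le_of_eq ?_) k
    rw [fp, sum_comm]
    simp only [hG, grad_sub, dotProduct, Mg, Matrix.sub_apply, of_apply, Pi.sub_apply]
  · have e : gen (mu W') (fun z => ∑ a, grad (G a s) z ⬝ᵥ grad (G a s) z) z =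
        ∑ a, gen (mu W') (fun z => grad (G a s) z ⬝ᵥ grad (G a s) z) z := by
      simp only [mu, gen_ising hW', grad_sum, mul_sum]; exact sum_comm
    refine le_trans ?_ (add_le_add le_rfl (h s ⟨hs.1.le, hs.2⟩ z))
    rw [e, mul_sum, ← sum_add_distrib, ← sum_add_distrib]
    refine sum_le_sum fun a _ => ?_
    have h1 := gam2 hW' hK' 0 (G a s) z
    have h2 := dot_self_nonneg (grad (G a s) z -
      grad (fun z => ∑ i, (tt W 0 z i - tt W' 0 z i) * Mg W s z i a) z)
    simp only [dotProduct_sub, sub_dotProduct] at h2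
    rw [dotProduct_comm (grad (fun z => ∑ i, (tt W 0 z i - tt W' 0 z i) * Mg W s z i a) z)] at h2
    rw [dotProduct_add, mu, Gc]
    linarith
  · have e : 1 ≤ exp ((Gc K + 1) * s) := one_le_exp
      (mul_nonneg (by linarith [Gc_nonneg ((opn_nonneg _).trans hK')]) hs.1.le)
    simp only [mu, gen_ising hW', grad_const, Pi.zero_apply, mul_zero, sum_const_zero]
    nlinarith
  · simp [hG, Chain22.sg_zero hn (S42.mu_pos W), Chain22.sg_zero hn (S42.mu_pos W'), grad_const]

/-- (ST1) -/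
theorem st_fro (hn : 0 < n) (hW : Wᵀ = W) (hK : opn W ≤ K) {v Λ : ℝ} (hv : 0 ≤ v)
    (hX : ∀ s ∈ Set.Icc 0 v, ∀ x, opn (Hs W s x) ≤ Λ) (T : Finset (Fin n)) (x : Cube n) :
    fp (Mg W v x - Mg (cav T W) v x) (Mg W v x - Mg (cav T W) v x) ≤
      (12 + 27 * K ^ 2 + 48 * K ^ 4) * exp ((2 * Gc K + 2) * v) * (1 + Λ ^ 2) * T.card := by
  have K0 : 0 ≤ K := (opn_nonneg _).trans hK
  have G0 := Gc_nonneg K0
  have e1 : 1 ≤ exp (Gc K * v) := one_le_exp (by positivity)
  refine (stab hn hW (cav_symm hW T) ((opn_cav T W).trans hK) hv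
    (S := (12 + 27 * K ^ 2 + 48 * K ^ 4) * exp (Gc K * v) * (1 + Λ ^ 2) * T.card) (by positivity)
    (fun s hs z => (src_le W s z fun z i => tt W 0 z i - tt (cav T W) 0 z i).trans ?_) x).trans ?_
  · have a := pow_le_pow_left₀ (opn_nonneg _) (hX s hs z) 2
    have b := (opn_Mg hn hW hK hs.1 z).trans (exp_le_exp.2 (mul_le_mul_of_nonneg_left hs.2 G0))
    have c := de_sq hK T z
    have d : ∑ j, ∑ i, grad (fun z => tt W 0 z i - tt (cav T W) 0 z i) z j ^ 2 ≤
        (2 * K ^ 2 + 4 * K ^ 4) * T.card := by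
      simp only [grad_sub, Pi.sub_apply]; exact dde_sq hK T z
    have p := mul_le_mul a c (by positivity) (sq_nonneg Λ)
    have q := mul_le_mul (add_le_add b (mul_le_mul_of_nonneg_left a zero_le_four)) d (by positivity)
      (by positivity)
    refine (mul_le_mul_of_nonneg_left (add_le_add p q) zero_le_three).trans ?_
    have t : (0 : ℝ) ≤ T.card := Nat.cast_nonneg _
    generalize exp (Gc K * v) = E at *
    have r : 3 * (Λ ^ 2 * (4 + K ^ 2) + (E + 4 * Λ ^ 2) * (2 * K ^ 2 + 4 * K ^ 4)) ≤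
        (12 + 27 * K ^ 2 + 48 * K ^ 4) * E * (1 + Λ ^ 2) := by
      have : 0 ≤ (12 + 27 * K ^ 2 + 48 * K ^ 4) * Λ ^ 2 * (E - 1) :=
        mul_nonneg (by positivity) (by linarith)
      have : 0 ≤ (12 + 21 * K ^ 2 + 36 * K ^ 4) * E := by positivity
      nlinarith
    nlinarith [mul_le_mul_of_nonneg_right r t]
  · have : exp (Gc K * v) * v * exp ((Gc K + 1) * v) ≤ exp ((2 * Gc K + 2) * v) := by
      rw [show (2 * Gc K + 2) * v = Gc K * v + v + (Gc K + 1) * v by ring, exp_add, exp_add]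
      gcongr
      linarith [add_one_le_exp v]
    have t : 0 ≤ (12 + 27 * K ^ 2 + 48 * K ^ 4) * (1 + Λ ^ 2) * T.card := by positivity
    nlinarith [mul_le_mul_of_nonneg_left this t]

theorem diag_le_fp (A : Mx n) : ∑ i, A i i ^ 2 ≤ fp A A :=
  sum_le_sum fun i _ => by
    rw [sq]; exact single_le_sum (f := fun j => A i j * A i j) (fun _ _ => mul_self_nonneg _) (mem_univ i)

theorem st_vr (hn : 0 < n) (W W' : Mx n) (v : ℝ) (x : Cube n) :
    (vr W v x - vr W' v x) ^ 2 ≤ (8 * opn (Mg W v x) ^ 2 * ∑ i, (tt W 0 x i - tt W' 0 x i) ^ 2 +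
      2 * fp (Mg W v x - Mg W' v x) (Mg W v x - Mg W' v x)) / n := by
  have n0 : (0 : ℝ) < n := by exact_mod_cast hn
  have h := sq_sum_le_card_mul_sum_sq (s := univ) (f := fun i =>
    (1 - tt W 0 x i ^ 2) * Mg W v x i i - (1 - tt W' 0 x i ^ 2) * Mg W' v x i i)
  have h2 : ∑ i, ((1 - tt W 0 x i ^ 2) * Mg W v x i i - (1 - tt W' 0 x i ^ 2) * Mg W' v x i i) ^ 2 ≤
      ∑ i, (8 * opn (Mg W v x) ^ 2 * (tt W 0 x i - tt W' 0 x i) ^ 2 +
        2 * (Mg W v x - Mg W' v x) i i ^ 2) := sum_le_sum fun i _ => by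
    have a := abs_le.1 (S42.abs_tt W x i)
    have b := abs_le.1 (S42.abs_tt W' x i)
    have c := sq_le_sq.2 ((abs_entry_le (Mg W v x) i i).trans (le_abs_self _))
    rw [Matrix.sub_apply]
    generalize tt W 0 x i = t at *
    generalize tt W' 0 x i = t' at *
    generalize Mg W v x i i = p at *
    generalize Mg W' v x i i = q at *
    have d : ((t + t') * (t - t') * p) ^ 2 ≤ 4 * (t - t') ^ 2 * opn (Mg W v x) ^ 2 := by
      rw [mul_pow, mul_pow]
      exact mul_le_mul (mul_le_mul_of_nonneg_right (by nlinarith) (sq_nonneg _)) c (sq_nonneg _)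
        (by positivity)
    have e : ((1 - t' ^ 2) * (p - q)) ^ 2 ≤ (p - q) ^ 2 := by
      rw [mul_pow]
      exact mul_le_of_le_one_left (sq_nonneg _) (pow_le_one₀ (by nlinarith) (by nlinarith))
    nlinarith [sq_nonneg ((t + t') * (t - t') * p + (1 - t' ^ 2) * (p - q))]
  rw [sum_add_distrib, ← mul_sum, ← mul_sum] at h2
  rw [card_univ, Fintype.card_fin] at h
  rw [vr, vr, ← sub_div, ← sum_sub_distrib, div_pow, div_le_div_iff₀ (by positivity) n0]
  nlinarith [mul_le_mul_of_nonneg_left (h2.trans (add_le_add le_rfl (mul_le_mul_of_nonneg_left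
    (diag_le_fp _) zero_le_two))) n0.le]

/-! ### concentration -/

theorem grad_c (W : Mx n) (x : Cube n) (j i : Fin n) : grad (fun z => 1 - tt W 0 z i ^ 2) x j =
    -(2 * (tt W 0 x i * am W x j i)) + 2 * sv x j * am W x j i ^ 2 := by
  simp only [grad_sub, grad_const, sq, Pi.sub_apply, Pi.zero_apply, grad_mul, am, of_apply]; ring

theorem abs_grad_c (W : Mx n) (x : Cube n) (j i : Fin n) :
    grad (fun z => 1 - tt W 0 z i ^ 2) x j ^ 2 ≤ 4 * W i j ^ 2 := by
  have e : grad (fun z => 1 - tt W 0 z i ^ 2) x j =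
      -((tt W 0 x i + tt W 0 (fl x j) i) * am W x j i) := by
    simp only [am, of_apply, grad_eq]; ring
  have a := abs_le.1 (S42.abs_tt W x i)
  have b := abs_le.1 (S42.abs_tt W (fl x j) i)
  rw [e, neg_sq, mul_pow]
  exact mul_le_mul (by nlinarith) (sq_le_sq.2 (abs_am W x j i)) (sq_nonneg _) zero_le_four

theorem vr_lip (hK : opn W ≤ K) (v : ℝ) (x : Cube n) :
    ∑ j, grad (fun z => ∑ i, (1 - tt W 0 z i ^ 2) * Mg W v z i i) x j ^ 2 ≤
      3 * n * ((1 + 16 * K ^ 2) * opn (Hs W v x) ^ 2 +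
        8 * (opn (am W x) ^ 2 + K ^ 4) * opn (Mg W v x) ^ 2) := by
  have k2 := pow_le_pow_left₀ (opn_nonneg _) hK 2
  set X := Hs W v x
  set m := opn (Mg W v x)
  set D : Fin n → Fin n → ℝ := fun j i => grad (fun z => 1 - tt W 0 z i ^ 2) x j with hD
  set y : Fin n × Fin n → ℝ := fun p => if p.1 = p.2 then 1 - tt W 0 x p.2 ^ 2 else 0 with hy
  have hm : ∀ i, |Mg W v x i i| ≤ m := fun i => abs_entry_le _ i i
  have e : ∀ j, grad (fun z => ∑ i, (1 - tt W 0 z i ^ 2) * Mg W v z i i) x j = (Xᵀ *ᵥ y) j +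
      ∑ i, Mg W v x i i * D j i - 2 * sv x j * ∑ i, D j i * X (i, i) j := fun j => by
    have : (Xᵀ *ᵥ y) j = ∑ i, (1 - tt W 0 x i ^ 2) * X (i, i) j := by
      simp [mulVec, dotProduct, hy, Fintype.sum_prod_type, mul_comm]
    simp only [this, grad_sum, grad_mul, mul_sum, ← sum_add_distrib, ← sum_sub_distrib]
    rfl
  have hA : ∑ j, (Xᵀ *ᵥ y) j ^ 2 ≤ opn X ^ 2 * n := by
    have h := mulVec_dot_le Xᵀ y
    have : y ⬝ᵥ y ≤ ∑ _i : Fin n, (1 : ℝ) := by
      simp only [dotProduct, hy, Fintype.sum_prod_type, ite_mul, zero_mul, mul_ite, mul_zero,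
        sum_ite_eq, mem_univ, if_true]
      exact sum_le_sum fun i _ => by
        have := abs_le.1 (S42.abs_tt W x i)
        exact mul_le_one₀ (by nlinarith) (by nlinarith) (by nlinarith)
    simp only [opn_transpose, dotProduct, ← sq, sum_const, card_univ, Fintype.card_fin,
      nsmul_eq_mul, mul_one] at h this
    exact h.trans (mul_le_mul_of_nonneg_left this (sq_nonneg _))
  have hB : ∑ j, (∑ i, Mg W v x i i * D j i) ^ 2 ≤
      ∑ j, (8 * (am W x *ᵥ fun i => tt W 0 x i * Mg W v x i i) j ^ 2 + 8 * (K ^ 4 * m ^ 2)) :=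
    sum_le_sum fun j _ => by
      have a : ∑ i, Mg W v x i i * D j i = -(2 * (am W x *ᵥ fun i => tt W 0 x i * Mg W v x i i) j) +
          2 * (sv x j * ∑ i, Mg W v x i i * am W x j i ^ 2) := by
        simp only [hD, grad_c, mulVec, dotProduct, mul_sum, ← sum_neg_distrib, ← sum_add_distrib]
        exact sum_congr rfl fun i _ => by ring
      have b : |sv x j * ∑ i, Mg W v x i i * am W x j i ^ 2| ≤ |K ^ 2 * m| := by
        rw [abs_mul, S42.abs_sv, one_mul]
        refine (abs_sum_le_sum_abs _ _).trans ((sum_le_sum (g := fun i => m * W i j ^ 2)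
          fun i _ => ?_).trans (le_trans ?_ (le_abs_self _)))
        · rw [abs_mul, abs_sq]
          exact mul_le_mul (hm i) (sq_le_sq.2 (abs_am W x j i)) (sq_nonneg _) (opn_nonneg _)
        · rw [← mul_sum, mul_comm]
          exact mul_le_mul_of_nonneg_right ((col_sq W j).trans k2) (opn_nonneg _)
      have c := sq_le_sq.2 b
      rw [a]
      nlinarith [sq_nonneg ((am W x *ᵥ fun i => tt W 0 x i * Mg W v x i i) j +
        sv x j * ∑ i, Mg W v x i i * am W x j i ^ 2)]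
  have hB2 : ∑ j, (am W x *ᵥ fun i => tt W 0 x i * Mg W v x i i) j ^ 2 ≤
      opn (am W x) ^ 2 * ∑ _i : Fin n, m ^ 2 := by
    have h := mulVec_dot_le (am W x) fun i => tt W 0 x i * Mg W v x i i
    simp only [dotProduct, ← sq] at h
    refine h.trans (mul_le_mul_of_nonneg_left (sum_le_sum fun i _ => ?_) (sq_nonneg _))
    rw [← sq_abs, abs_mul]
    exact pow_le_pow_left₀ (by positivity)
      ((mul_le_of_le_one_left (abs_nonneg _) (S42.abs_tt W x i)).trans (hm i)) 2
  have hC : ∑ j, (∑ i, D j i * X (i, i) j) ^ 2 ≤ ∑ _j : Fin n, 4 * K ^ 2 * opn X ^ 2 :=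
    sum_le_sum fun j _ => by
      refine (sum_mul_sq_le_sq_mul_sq _ _ _).trans (mul_le_mul
        ((sum_le_sum fun i _ => abs_grad_c W x j i).trans ?_) (le_trans ?_ (col_sq X j))
        (by positivity) (by positivity))
      · rw [← mul_sum]; linarith [(col_sq W j).trans k2]
      · rw [Fintype.sum_prod_type]
        exact sum_le_sum fun i _ => single_le_sum (f := fun k => X (i, k) j ^ 2)
          (fun _ _ => sq_nonneg _) (mem_univ i)
  simp only [e]
  refine (sum_le_sum fun j _ => three_sq x j _ _ _).trans ?_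
  simp only [← mul_sum, sum_add_distrib, sum_const, card_univ, Fintype.card_fin,
    nsmul_eq_mul] at hB hB2 hC ⊢
  nlinarith

theorem two_tail {w : Cube n → ℝ} (hn : 0 < n) (hw : ∀ x, 0 < w x) (hK : 0 < K) (h : Ent.AT w K 0)
    {γ : ℝ} (γ0 : 0 < γ) {F : Cube n → ℝ} (hγ : ∀ x, ∑ j, grad F x j ^ 2 ≤ γ) {r : ℝ} (hr : 0 ≤ r) :
    mean (prob w) (Ent.ind fun x => r ≤ |F x - mean (prob w) F|) ≤
      2 * exp (-(r ^ 2 / (16 * K * γ))) := by
  have hp := Chain22.isP_prob' hw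
  have g : ∀ x, ∑ j, (F (fl x j) - F x) ^ 2 ≤ 4 * γ := fun x => by
    have := S42.grad_sq F x
    simp only [dotProduct, ← sq, ← sum_div] at this
    linarith [hγ x]
  have a := S42.tail_le hn hw hK h (γ := 4 * γ) (by positivity) (F := fun x => F x - mean (prob w) F)
    (fun x => by simpa using g x) (by rw [Ent.mean_sub', hp.mean_const, sub_self]) hr
  have b := S42.tail_le hn hw hK h (γ := 4 * γ) (by positivity) (F := fun x => mean (prob w) F - F x)
    (fun x => by simpa [sub_sq_comm (F x)] using g x)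
    (by rw [Ent.mean_sub', hp.mean_const, sub_self]) hr
  rw [show 4 * (K * (4 * γ)) = 16 * K * γ by ring] at a b
  refine le_trans (hp.mean_mono fun x => ?_) ((Ent.mean_add' _ _).trans_le (add_le_add a b) |>.trans
    (by linarith))
  by_cases e : r ≤ |F x - mean (prob w) F|
  · rw [Ent.ind_pos (p := fun x => r ≤ |F x - mean (prob w) F|) e]
    rcases le_abs'.1 e with e | e
    · rw [Ent.ind_pos (p := fun x => r ≤ mean (prob w) F - F x) (by linarith)]
      linarith [Ent.ind_nonneg (fun x => r ≤ F x - mean (prob w) F) x]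
    · rw [Ent.ind_pos (p := fun x => r ≤ F x - mean (prob w) F) e]
      linarith [Ent.ind_nonneg (fun x => r ≤ mean (prob w) F - F x) x]
  · rw [Ent.ind_neg (p := fun x => r ≤ |F x - mean (prob w) F|) e]
    exact add_nonneg (Ent.ind_nonneg _ _) (Ent.ind_nonneg _ _)

/-- upper tail of a self-bounding function -/
theorem sb_tail {w : Cube n → ℝ} (hw : ∀ x, 0 < w x) (hK : 0 < K) (h : Ent.AT w K 0)
    {f : Cube n → ℝ} {B : ℝ} (hB : 0 < B) (hf : ∀ x, ∑ j, max (f x - f (fl x j)) 0 ^ 2 ≤ B * f x)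
    (r : ℝ) : mean (prob w) (Ent.ind fun x => 2 * mean (prob w) f + r ≤ f x) ≤
      exp (-(r / (K * B))) := by
  have hp := Chain22.isP_prob' hw
  set A := Ent.ind fun x => 2 * mean (prob w) f + r ≤ f x with hA
  rcases le_or_gt (mean (prob w) A) 0 with h0 | h0
  · exact h0.trans (exp_pos _).le
  have hv : IsP fun x => (mean (prob w) A)⁻¹ * (prob w x * A x) :=
    ⟨fun x => mul_nonneg (inv_pos.2 h0).le (mul_nonneg (hp.nn x) (Ent.ind_nonneg _ _)), by
      rw [← mul_sum]; exact inv_mul_cancel₀ h0.ne'⟩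
  have h1 := Sb51.gen hw hK h f hB hf hv
  have h2 := Ent.kl_le_log hv hp (M := (mean (prob w) A)⁻¹) fun x => mul_le_mul_of_nonneg_left
    (mul_le_of_le_one_right (hp.nn x) (Ent.ind_le_one _ _)) (inv_pos.2 h0).le
  have h3 : 2 * mean (prob w) f + r ≤ mean (fun x => (mean (prob w) A)⁻¹ * (prob w x * A x)) f := by
    rw [← hv.mean_const (2 * mean (prob w) f + r)]
    refine sum_le_sum fun x _ => ?_
    by_cases e : 2 * mean (prob w) f + r ≤ f x
    · exact mul_le_mul_of_nonneg_left e (hv.nn x)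
    · beta_reduce
      rw [show A x = 0 from Ent.ind_neg (p := fun x => 2 * mean (prob w) f + r ≤ f x) e]; simp
  rw [← exp_log h0, exp_le_exp, le_neg, div_le_iff₀ (by positivity)]
  rw [log_inv] at h2
  nlinarith [mul_le_mul_of_nonneg_left h2 (mul_pos hK hB).le]

theorem Fq_sb (hn : 0 < n) (W : Mx n) (v : ℝ) (x : Cube n) :
    ∑ j, max (Fq W v x - Fq W v (fl x j)) 0 ^ 2 ≤ 16 * opn (Hs W v x) ^ 2 / n * Fq W v x := by
  have n0 : (0 : ℝ) < n := by exact_mod_cast hn
  set y : Fin n × Fin n → ℝ := fun p => Mg W v x p.2 p.1 with hy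
  have h := mulVec_dot_le (Hs W v x)ᵀ y
  have e : y ⬝ᵥ y = fp (Mg W v x) (Mg W v x) := by
    rw [dotProduct, Fintype.sum_prod_type, sum_comm]; rfl
  rw [opn_transpose, e] at h
  have h2 : ∑ j, max (Fq W v x - Fq W v (fl x j)) 0 ^ 2 ≤
      ∑ j, 16 / n ^ 2 * (((Hs W v x)ᵀ *ᵥ y) j * ((Hs W v x)ᵀ *ᵥ y) j) := sum_le_sum fun j _ => by
    have a : fp (Mg W v x) (Mg W v x) - fp (Mg W v (fl x j)) (Mg W v (fl x j)) ≤
        4 * (sv x j * ((Hs W v x)ᵀ *ᵥ y) j) := by
      simp only [fp, mulVec, dotProduct, transpose_apply, Fintype.sum_prod_type]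
      rw [sum_comm (f := fun a i => Hs W v x (a, i) j * y (a, i))]
      simp only [mul_sum, ← sum_sub_distrib]
      refine sum_le_sum fun i _ => sum_le_sum fun a _ => ?_
      have := val_fl (fun z => Mg W v z i a) x j
      rw [this]
      change _ ≤ 4 * (sv x j * (grad (fun z => Mg W v z i a) x j * Mg W v x i a))
      nlinarith [sq_nonneg (sv x j * grad (fun z => Mg W v z i a) x j)]
    have b : max (Fq W v x - Fq W v (fl x j)) 0 ≤ |4 / n * ((Hs W v x)ᵀ *ᵥ y) j| := by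
      refine max_le ?_ (abs_nonneg _)
      rw [Fq, Fq, ← sub_div, abs_mul, abs_of_pos (by positivity : 0 < 4 / (n : ℝ)), div_mul_eq_mul_div]
      refine div_le_div_of_nonneg_right (a.trans (mul_le_mul_of_nonneg_left
        ((le_abs_self _).trans_eq ?_) zero_le_four)) n0.le
      rw [abs_mul, S42.abs_sv, one_mul]
    refine (pow_le_pow_left₀ (le_max_right _ _) b 2).trans_eq ?_
    rw [sq_abs]; ring
  rw [← mul_sum] at h2
  refine h2.trans ((mul_le_mul_of_nonneg_left h (by positivity)).trans_eq ?_)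
  rw [Fq]; ring

theorem mean_Fq (hn : 0 < n) (hW : Wᵀ = W) {v m R : ℝ} (hm : ∀ x, opn (Mg W v x) ^ 2 ≤ m) :
    mean (prob (mu W)) (Fq W v) ≤ exp (2 * R) * Ee W v +
      m / n * mean (prob (mu W)) fun x => ∑ k, if R < |loc W 0 x k| then (1 : ℝ) else 0 := by
  have n0 : (0 : ℝ) < n := by exact_mod_cast hn
  have e : exp (2 * R) * Ee W v = mean (prob (mu W)) fun x =>
      exp (2 * R) / n * ∑ a, ∑ k, (1 - tt W 0 x k ^ 2) * Mg W v x k a ^ 2 := by
    rw [Ent.mean_const_mul, Ent.mean_sum', Ee]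
    simp only [basStmt.dir_eq n W hW, Mg, of_apply]
    ring
  rw [e, ← Ent.mean_const_mul, ← Ent.mean_add']
  refine (S42.isP_mu W).mean_mono fun x => ?_
  rw [Fq, div_mul_eq_mul_div, div_mul_eq_mul_div, ← add_div, sum_comm, mul_sum, mul_sum,
    ← sum_add_distrib]
  refine div_le_div_of_nonneg_right (sum_le_sum fun k _ => ?_) n0.le
  have c := sech_nonneg (loc W 0 x k)
  have r := (row_sq (Mg W v x) k).trans (hm x)
  have s : 0 ≤ ∑ a, Mg W v x k a ^ 2 := by positivity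
  simp only [← sq, ← mul_sum, tt]
  split_ifs with h
  · linarith [mul_nonneg (exp_pos (2 * R)).le (mul_nonneg c s)]
  · have t := sech_le (loc W 0 x k) 0
    rw [zero_sub, abs_neg, tanh_zero] at t
    have u : exp (2 * |loc W 0 x k|) ≤ exp (2 * R) := exp_le_exp.2 (by linarith [not_lt.1 h])
    nlinarith [mul_le_mul_of_nonneg_right (t.trans (mul_le_mul_of_nonneg_right u c)) s]

/-- **(ST)** -/
def StStmt : Prop := ∀ K > (0 : ℝ), ∃ C ≥ (1 : ℝ), ∀ (n : ℕ) (W : Mx n), 0 < n → Nice W K →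
  ∀ v Λ : ℝ, 0 ≤ v → (∀ T x, opn (Mg (cav T W) v x) ≤ exp (C * v)) ∧
  ((∀ s ∈ Set.Icc 0 v, ∀ x, opn (Hs W s x) ≤ Λ) →
  (∀ T x, fp (Mg W v x - Mg (cav T W) v x) (Mg W v x - Mg (cav T W) v x) ≤
      C * exp (C * v) * (1 + Λ ^ 2) * T.card ∧
    (vr W v x - vr (cav T W) v x) ^ 2 ≤ C * exp (C * v) * (1 + Λ ^ 2) * T.card / n) ∧
  (Ent.AT (mu W) K 0 → ∀ r ≥ (0 : ℝ),
    mean (prob (mu W)) (Ent.ind fun x => r ≤ |vr W v x - mean (prob (mu W)) (vr W v)|) ≤
      2 * exp (-(r ^ 2 * n / (C * exp (C * v) * (1 + Λ ^ 2)))) ∧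
    mean (prob (mu W)) (Ent.ind fun x => 2 * mean (prob (mu W)) (Fq W v) + r ≤ Fq W v x) ≤
      exp (-(r * n / (C * (1 + Λ ^ 2)))) ∧
    mean (prob (mu W)) (Fq W v) ≤ exp (2 * r) * Ee W v + 2 * exp (C * v) * exp (-(r ^ 2 / C))))

theorem stStmt : StStmt := fun K K0 => by
  obtain ⟨A, A1, hA⟩ := coefStmt K
  obtain ⟨P, P1, hP⟩ := p4Glue toolStmt basStmt K K0
  have G0 := Gc_nonneg K0.le
  obtain ⟨C, C1, c1, c2, c3, c4, c5⟩ : ∃ C : ℝ, 1 ≤ C ∧ 2 * Gc K + 2 ≤ C ∧ P ≤ C ∧ 16 * K ≤ C ∧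
      56 + 62 * K ^ 2 + 96 * K ^ 4 ≤ C ∧ 48 * K * (1 + 16 * K ^ 2 + 8 * (A ^ 2 + K ^ 4)) ≤ C := by
    have a : 0 ≤ 48 * K * (1 + 16 * K ^ 2 + 8 * (A ^ 2 + K ^ 4)) := by positivity
    have b : 0 ≤ 56 + 62 * K ^ 2 + 96 * K ^ 4 := by positivity
    exact ⟨2 * Gc K + 2 + P + 16 * K + (56 + 62 * K ^ 2 + 96 * K ^ 4) +
      48 * K * (1 + 16 * K ^ 2 + 8 * (A ^ 2 + K ^ 4)), by linarith, by linarith, by linarith,
      by linarith, by linarith, by linarith⟩
  refine ⟨C, C1, fun n W hn hW v Λ hv => ?_⟩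
  have n0 : (0 : ℝ) < n := by exact_mod_cast hn
  have e1 : exp (Gc K * v) ≤ exp (C * v) := exp_le_exp.2 (by nlinarith)
  have e2 : exp ((2 * Gc K + 2) * v) ≤ exp (C * v) := exp_le_exp.2 (by nlinarith)
  have e3 : 1 ≤ exp (C * v) := one_le_exp (by positivity)
  have hM : ∀ x, opn (Mg W v x) ^ 2 ≤ exp (C * v) := fun x => (opn_Mg hn hW.1 hW.2.1 hv x).trans e1
  refine ⟨fun T x => ?_, fun hX => ⟨fun T x => ?_, fun hAT r hr => ⟨?_, ?_, ?_⟩⟩⟩
  · have := (opn_Mg hn (cav_symm hW.1 T) ((opn_cav T W).trans hW.2.1) hv x).trans e1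
    exact abs_le_of_sq_le_sq' (by nlinarith) (by positivity) |>.2
  · have a := st_fro hn hW.1 hW.2.1 hv hX T x
    have b := st_vr hn W (cav T W) v x
    have c := mul_le_mul (hM x) (de_sq hW.2.1 T x) (by positivity) (by positivity)
    have t : (0 : ℝ) ≤ T.card := Nat.cast_nonneg _
    have d : (12 + 27 * K ^ 2 + 48 * K ^ 4) * exp ((2 * Gc K + 2) * v) * (1 + Λ ^ 2) * T.card ≤
        (12 + 27 * K ^ 2 + 48 * K ^ 4) * (exp (C * v) * (1 + Λ ^ 2) * T.card) := by
      rw [← mul_assoc, ← mul_assoc]; gcongr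
    have e : exp (C * v) * ((4 + K ^ 2) * T.card) ≤
        (4 + K ^ 2) * (exp (C * v) * (1 + Λ ^ 2) * T.card) := by
      nlinarith [mul_nonneg (mul_nonneg (exp_pos (C * v)).le (sq_nonneg Λ))
        (mul_nonneg (by positivity : 0 ≤ 4 + K ^ 2) t)]
    have f : 0 ≤ exp (C * v) * (1 + Λ ^ 2) * T.card := by positivity
    have g := mul_le_mul_of_nonneg_right c4 f
    have k : 0 ≤ (12 + 27 * K ^ 2 + 48 * K ^ 4) * (exp (C * v) * (1 + Λ ^ 2) * T.card) := by
      positivity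
    have l : 0 ≤ (4 + K ^ 2) * (exp (C * v) * (1 + Λ ^ 2) * T.card) := by positivity
    refine ⟨by nlinarith, b.trans (div_le_div_of_nonneg_right (by nlinarith) n0.le)⟩
  · refine (two_tail hn (S42.mu_pos W) K0 hAT (γ := C * exp (C * v) * (1 + Λ ^ 2) / (16 * K * n))
      (by positivity) (fun x => ?_) hr).trans_eq (by congr 3; field_simp)
    have a := vr_lip hW.2.1 v x
    have b := pow_le_pow_left₀ (opn_nonneg _) (hX v ⟨hv, le_rfl⟩ x) 2
    have c := pow_le_pow_left₀ (opn_nonneg _) (hA n W hW x).2.2.2.2.1 2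
    have d : (1 + 16 * K ^ 2) * opn (Hs W v x) ^ 2 +
        8 * (opn (am W x) ^ 2 + K ^ 4) * opn (Mg W v x) ^ 2 ≤
        (1 + 16 * K ^ 2) * (exp (C * v) * (1 + Λ ^ 2)) +
          8 * (A ^ 2 + K ^ 4) * (exp (C * v) * (1 + Λ ^ 2)) := by
      gcongr
      · nlinarith [sq_nonneg Λ]
      · nlinarith [sq_nonneg Λ, hM x]
    have e : vr W v = fun z => (n : ℝ)⁻¹ * ∑ i, (1 - tt W 0 z i ^ 2) * Mg W v z i i :=
      funext fun z => div_eq_inv_mul _ _
    simp only [e, grad_const_mul, Pi.smul_apply, smul_eq_mul, mul_pow, ← mul_sum]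
    refine (mul_le_mul_of_nonneg_left (a.trans (mul_le_mul_of_nonneg_left d (by positivity)))
      (by positivity)).trans ?_
    rw [le_div_iff₀ (by positivity)]
    refine le_trans (le_of_eq ?_) ((mul_le_mul_of_nonneg_right c5
      (by positivity : 0 ≤ exp (C * v) * (1 + Λ ^ 2))).trans_eq (by ring))
    field_simp
    ring
  · refine (sb_tail (S42.mu_pos W) K0 hAT (B := C * (1 + Λ ^ 2) / (K * n)) (by positivity)
      (fun x => (Fq_sb hn W v x).trans (mul_le_mul_of_nonneg_right ?_ ?_)) r).trans_eq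
      (by congr 2; field_simp)
    · have b := pow_le_pow_left₀ (opn_nonneg _) (hX v ⟨hv, le_rfl⟩ x) 2
      rw [div_le_div_iff₀ n0 (by positivity)]
      have := mul_le_mul c3 (b.trans (le_add_of_nonneg_left zero_le_one)) (sq_nonneg _) (by linarith)
      nlinarith
    · exact div_nonneg (sum_nonneg fun _ _ => sum_nonneg fun _ _ => mul_self_nonneg _) n0.le
  · refine (mean_Fq hn hW.1 (R := r) hM).trans (add_le_add le_rfl ?_)
    refine (mul_le_mul_of_nonneg_left ((hP n W hW hAT).2 r hr) (by positivity)).trans ?_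
    have : exp (-(r ^ 2 / P)) ≤ exp (-(r ^ 2 / C)) :=
      exp_le_exp.2 (neg_le_neg (div_le_div_of_nonneg_left (sq_nonneg _) (by linarith) c2))
    calc _ = 2 * exp (C * v) * exp (-(r ^ 2 / P)) := by field_simp
      _ ≤ _ := by gcongr

end Crest.Agent.T157.S6t

end
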