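import Crest.Agent.T157.SLA_23
import Crest.Agent.T157.EDef_39
import Crest.Agent.T157.Chain_22
import Crest.Agent.T145.GsA_85

/-!
# Row 157: stochastic localisation on a finite set, without paths (helper23)

The channel `y_s = s φ(X) + B_s`.  Posterior `pw φ w (s, y)`, Itô differentials of posterior means and
covariances, Bayes formula, Markov property, change of the driving law, the generator formula.
-/

set_option autoImplicit false
set_option linter.unusedSectionVars false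

noncomputable section

namespace Crest.Agent.T157.SL

open MeasureTheory ProbabilityTheory Filter Topology Set Real Matrix
open Crest.Agent.T157.E

variable {Ω ι : Type*} [Fintype Ω] [Fintype ι] [DecidableEq ι] {φ : Ω → ι → ℝ} {v w f g : Ω → ℝ}
  {I : Set ℝ} {G a : Pt ι → ℝ} {b d : ι → Pt ι → ℝ}

/-! ### weights -/

/-- admissible weights -/
structure Wt (w : Ω → ℝ) : Prop where
  nn : ∀ x, 0 ≤ w x
  pos : 0 < ∑ x, w x

/-- third cumulant -/
def cum3 (w f g h : Ω → ℝ) : ℝ :=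
  mean w fun x => (f x - mean w f) * (g x - mean w g) * (h x - mean w h)

theorem mean_add (w f g : Ω → ℝ) : mean w (fun x => f x + g x) = mean w f + mean w g := by
  simp [mean, mul_add, Finset.sum_add_distrib]

theorem mean_sub (w f g : Ω → ℝ) : mean w (fun x => f x - g x) = mean w f - mean w g := by
  simp [mean, mul_sub, Finset.sum_sub_distrib]

theorem mean_const_mul (w f : Ω → ℝ) (c : ℝ) : mean w (fun x => c * f x) = c * mean w f := by
  simp only [mean, Finset.mul_sum, mul_left_comm]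

theorem mean_mul_const (w f : Ω → ℝ) (c : ℝ) : mean w (fun x => f x * c) = mean w f * c := by
  simp only [mean, Finset.sum_mul, mul_assoc]

theorem mean_div_const (w f : Ω → ℝ) (c : ℝ) : mean w (fun x => f x / c) = mean w f / c :=
  mean_mul_const w f c⁻¹

theorem mean_neg (w f : Ω → ℝ) : mean w (fun x => -f x) = -mean w f := by simp [mean]

theorem mean_sum {κ : Type*} (w : Ω → ℝ) (s : Finset κ) (f : κ → Ω → ℝ) :
    mean w (fun x => ∑ k ∈ s, f k x) = ∑ k ∈ s, mean w (f k) := by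
  simp only [mean, Finset.mul_sum]; exact Finset.sum_comm

theorem mean_eq_div (w f : Ω → ℝ) : mean w f = (∑ x, w x * f x) / ∑ x, w x := by
  simp only [mean, prob, Finset.sum_div, div_mul_eq_mul_div]

theorem mean_single [DecidableEq Ω] (w : Ω → ℝ) (x : Ω) : mean w (Pi.single x 1) = prob w x := by
  simp [mean, Pi.single_apply]

theorem cov_eq_mean (w f g : Ω → ℝ) :
    cov w f g = mean w fun x => (f x - mean w f) * (g x - mean w g) := rfl

theorem var_eq_cov (w f : Ω → ℝ) : var w f = cov w f f := by simp only [var, cov, sq]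

theorem cov_comm (w f g : Ω → ℝ) : cov w f g = cov w g f := by simp only [cov, mul_comm]

theorem cov_sum {κ : Type*} (w f : Ω → ℝ) (s : Finset κ) (g : κ → Ω → ℝ) :
    cov w f (fun x => ∑ k ∈ s, g k x) = ∑ k ∈ s, cov w f (g k) := by
  simp only [cov_eq_mean, mean_sum, ← Finset.sum_sub_distrib, Finset.mul_sum]

theorem cov_const_mul (w f g : Ω → ℝ) (c : ℝ) : cov w f (fun x => c * g x) = c * cov w f g := by
  simp only [cov_eq_mean, mean_const_mul, ← mul_sub, mul_left_comm _ c]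

theorem cov_add (w f g h : Ω → ℝ) : cov w f (fun x => g x + h x) = cov w f g + cov w f h := by
  rw [cov_eq_mean w f g, cov_eq_mean w f h, ← mean_add, cov_eq_mean, mean_add]
  congr 1; ext; ring

theorem cov_sub (w f g h : Ω → ℝ) : cov w f (fun x => g x - h x) = cov w f g - cov w f h := by
  rw [cov_eq_mean w f g, cov_eq_mean w f h, ← mean_sub, cov_eq_mean, mean_sub]
  congr 1; ext; ring

theorem covV_dot (w f : Ω → ℝ) (φ : Ω → ι → ℝ) (u : ι → ℝ) :
    u ⬝ᵥ covV w f φ = cov w f fun x => u ⬝ᵥ φ x := by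
  simp only [dotProduct, covV, cov_sum, cov_const_mul]

theorem meanV_dot (w : Ω → ℝ) (φ : Ω → ι → ℝ) (u : ι → ℝ) :
    u ⬝ᵥ meanV w φ = mean w fun x => u ⬝ᵥ φ x := by
  simp only [dotProduct, meanV, mean_sum, mean_const_mul]

theorem covMat_mulVec (w : Ω → ℝ) (φ : Ω → ι → ℝ) (u : ι → ℝ) :
    covMat w φ *ᵥ u = covV w (fun x => u ⬝ᵥ φ x) φ := by
  ext i
  rw [covV, cov_comm, ← covV_dot, dotProduct_comm]
  rfl

theorem covMat_quad (w : Ω → ℝ) (φ : Ω → ι → ℝ) (u u' : ι → ℝ) :
    u ⬝ᵥ covMat w φ *ᵥ u' = cov w (fun x => u' ⬝ᵥ φ x) fun x => u ⬝ᵥ φ x := by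
  rw [covMat_mulVec, covV_dot]

theorem covMat_transpose (w : Ω → ℝ) (φ : Ω → ι → ℝ) : (covMat w φ)ᵀ = covMat w φ := by
  ext i j; exact cov_comm _ _ _

theorem mean_mul_weight (w f g : Ω → ℝ) (hw : ∑ x, w x ≠ 0) :
    mean (fun x => w x * f x) g = mean w (fun x => f x * g x) / mean w f := by
  simp only [mean_eq_div, mul_assoc]
  rw [div_div_div_cancel_right₀ hw]

theorem prob_mul_weight (w f : Ω → ℝ) (hw : ∑ x, w x ≠ 0) (x : Ω) :
    prob (fun x => w x * f x) x = prob w x * f x / mean w f := by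
  simp only [mean_eq_div, prob]
  rw [div_mul_eq_mul_div, div_div_div_cancel_right₀ hw]

namespace Wt

theorem of_pos [Nonempty Ω] (h : ∀ x, 0 < w x) : Wt w :=
  ⟨fun x => (h x).le, Finset.sum_pos (fun x _ => h x) Finset.univ_nonempty⟩

theorem exists_pos (h : Wt w) : ∃ x, 0 < w x := by
  by_contra H
  push Not at H
  exact absurd h.pos (not_lt.2 (Finset.sum_nonpos fun x _ => H x))

theorem mul_pos (h : Wt w) (hf : ∀ x, 0 < f x) : Wt fun x => w x * f x :=
  ⟨fun x => mul_nonneg (h.nn x) (hf x).le, by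
    obtain ⟨x, hx⟩ := h.exists_pos
    exact Finset.sum_pos' (fun x _ => mul_nonneg (h.nn x) (hf x).le)
      ⟨x, Finset.mem_univ _, _root_.mul_pos hx (hf x)⟩⟩

theorem post (h : Wt w) (φ : Ω → ι → ℝ) (s : ℝ) (y : ι → ℝ) : Wt (post φ w s y) :=
  h.mul_pos fun _ => exp_pos _

theorem prob_nonneg (h : Wt w) (x : Ω) : 0 ≤ prob w x := div_nonneg (h.nn x) h.pos.le

theorem sum_prob (h : Wt w) : ∑ x, prob w x = 1 := by
  simp only [prob, ← Finset.sum_div]; exact div_self h.pos.ne'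

theorem isP (h : Wt w) : Chain22.IsP (prob w) := ⟨h.prob_nonneg, h.sum_prob⟩

theorem prob (h : Wt w) : Wt (prob w) := ⟨h.prob_nonneg, by rw [h.sum_prob]; exact one_pos⟩

theorem prob_le_one (h : Wt w) (x : Ω) : E.prob w x ≤ 1 :=
  h.sum_prob ▸ Finset.single_le_sum (fun y _ => h.prob_nonneg y) (Finset.mem_univ x)

theorem mean_const (h : Wt w) (c : ℝ) : mean w (fun _ => c) = c := h.isP.mean_const c

theorem mean_mono (h : Wt w) (hfg : ∀ x, f x ≤ g x) : mean w f ≤ mean w g := h.isP.mean_mono hfg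

theorem mean_nonneg (h : Wt w) (hf : ∀ x, 0 ≤ f x) : 0 ≤ mean w f := h.isP.mean_nonneg hf

theorem mean_le (h : Wt w) {c : ℝ} (hf : ∀ x, f x ≤ c) : mean w f ≤ c :=
  (h.mean_mono hf).trans_eq (h.mean_const c)

theorem le_mean (h : Wt w) {c : ℝ} (hf : ∀ x, c ≤ f x) : c ≤ mean w f :=
  (h.mean_const c).symm.trans_le (h.mean_mono hf)

theorem abs_mean_le (h : Wt w) {c : ℝ} (hf : ∀ x, |f x| ≤ c) : |mean w f| ≤ c :=
  abs_le.2 ⟨h.le_mean fun x => (abs_le.1 (hf x)).1, h.mean_le fun x => (abs_le.1 (hf x)).2⟩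

theorem var_nonneg (h : Wt w) (f : Ω → ℝ) : 0 ≤ var w f := h.isP.var_nonneg f

theorem mul (h : Wt w) (hf : ∀ x, 0 ≤ f x) (h0 : 0 < mean w f) : Wt fun x => w x * f x :=
  ⟨fun x => mul_nonneg (h.nn x) (hf x), by
    rw [mean_eq_div] at h0; exact (div_pos_iff_of_pos_right h.pos).1 h0⟩

theorem mean_pos_iff (h : Wt w) (hf : ∀ x, 0 ≤ f x) : 0 < mean w f ↔ ∃ x, 0 < w x ∧ 0 < f x := by
  refine ⟨fun h0 => ?_, fun ⟨x, h1, h2⟩ => ?_⟩
  · obtain ⟨x, hx⟩ := (h.mul hf h0).exists_pos
    exact ⟨x, pos_of_mul_pos_left hx (hf x), pos_of_mul_pos_right hx (h.nn x)⟩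
  · rw [mean_eq_div]
    exact div_pos (Finset.sum_pos' (fun x _ => mul_nonneg (h.nn x) (hf x))
      ⟨x, Finset.mem_univ _, _root_.mul_pos h1 h2⟩) h.pos

theorem mean_post_pos (h : Wt w) (hf : ∀ x, 0 ≤ f x) (h0 : 0 < mean w f) (φ : Ω → ι → ℝ) (s : ℝ)
    (y : ι → ℝ) : 0 < mean (E.post φ w s y) f := by
  obtain ⟨x, h1, h2⟩ := (h.mean_pos_iff hf).1 h0
  exact ((h.post φ s y).mean_pos_iff hf).2 ⟨x, _root_.mul_pos h1 (exp_pos _), h2⟩

theorem cov_eq (h : Wt w) (f g : Ω → ℝ) :
    cov w f g = mean w (fun x => f x * g x) - mean w f * mean w g := by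
  simp only [cov_eq_mean, sub_mul, mul_sub, mean_sub, mean_mul_const, mean_const_mul, h.mean_const]
  ring

theorem cov_eq' (h : Wt w) (f g : Ω → ℝ) : cov w f g = mean w fun x => f x * (g x - mean w g) := by
  simp only [h.cov_eq, mul_sub, mean_sub, mean_mul_const]

theorem cov_const (h : Wt w) (f : Ω → ℝ) (c : ℝ) : cov w f (fun _ => c) = 0 := by
  simp [cov, h.mean_const]

theorem cum3_eq (h : Wt w) (f g k : Ω → ℝ) : cum3 w f g k =
    cov w (fun x => f x * g x) k - (cov w f k * mean w g + mean w f * cov w g k) := by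
  simp only [cum3, h.cov_eq, sub_mul, mul_sub, mean_sub, mean_mul_const, h.mean_const,
    mul_assoc (mean w f), mean_const_mul, mul_right_comm _ (mean w g)]
  ring

/-- Cauchy–Schwarz -/
theorem cov_sq_le (h : Wt w) (f g : Ω → ℝ) : cov w f g ^ 2 ≤ var w f * var w g := by
  simp only [var_eq_cov]
  exact h.isP.ip_sq_le (fun x => f x - mean w f) fun x => g x - mean w g

theorem covMat_quad_nonneg (h : Wt w) (φ : Ω → ι → ℝ) (u : ι → ℝ) : 0 ≤ u ⬝ᵥ covMat w φ *ᵥ u := by
  rw [covMat_quad, ← var_eq_cov]; exact h.var_nonneg _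

theorem covMat_psd (h : Wt w) (φ : Ω → ι → ℝ) : (covMat w φ).PosSemidef :=
  .of_dotProduct_mulVec_nonneg (by
    rw [IsHermitian, conjTranspose_eq_transpose_of_trivial, covMat_transpose]) fun u => by
    simpa using h.covMat_quad_nonneg φ u

theorem dot_covV_sq_le (h : Wt w) (f : Ω → ℝ) (φ : Ω → ι → ℝ) (u : ι → ℝ) :
    (u ⬝ᵥ covV w f φ) ^ 2 ≤ var w f * (u ⬝ᵥ covMat w φ *ᵥ u) := by
  rw [covV_dot, covMat_quad, ← var_eq_cov]; exact h.cov_sq_le _ _

/-- `|Cov(f, φ)|² ≤ ‖Cov φ‖ Var f` -/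
theorem covV_sq_le (h : Wt w) (f : Ω → ℝ) {κ : ℝ} (hκ : 0 ≤ κ)
    (hC : ∀ u, u ⬝ᵥ covMat w φ *ᵥ u ≤ κ * (u ⬝ᵥ u)) :
    covV w f φ ⬝ᵥ covV w f φ ≤ κ * var w f := by
  have h1 := (h.dot_covV_sq_le f φ (covV w f φ)).trans
    (mul_le_mul_of_nonneg_left (hC _) (h.var_nonneg f))
  have h2 := h.var_nonneg f
  rcases (dotProduct_self_star_nonneg (covV w f φ)).eq_or_lt with h0 | h0 <;>
    simp only [star_trivial] at h0
  · rw [← h0]; positivity
  · nlinarith

end Wt

theorem prob_prob (h : Wt w) : prob (prob w) = prob w := by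
  ext x; rw [prob, h.sum_prob, div_one]

/-! ### the posterior as a function of space-time -/

/-- the posterior weight at the space-time point `p` -/
abbrev pw (φ : Ω → ι → ℝ) (w : Ω → ℝ) (p : Pt ι) : Ω → ℝ := post φ w p.1 p.2

/-- the drift field of the localisation driven by `w` -/
def md (φ : Ω → ι → ℝ) (w : Ω → ℝ) (i : ι) (p : Pt ι) : ℝ := meanV (pw φ w p) φ i

theorem post_zero (φ : Ω → ι → ℝ) (w : Ω → ℝ) : post φ w 0 0 = w := by ext; simp [post]

theorem post_post (φ : Ω → ι → ℝ) (w : Ω → ℝ) (s h : ℝ) (y z : ι → ℝ) :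
    post φ (post φ w s y) h z = post φ w (s + h) (y + z) := by
  ext x
  simp only [post, mul_assoc, ← exp_add, add_dotProduct]
  congr 2; ring

theorem post_mul (φ : Ω → ι → ℝ) (w f : Ω → ℝ) (s : ℝ) (y : ι → ℝ) :
    post φ (fun x => w x * f x) s y = fun x => post φ w s y x * f x := by
  ext x; simp only [post]; ring

theorem cont_pw (φ : Ω → ι → ℝ) (w : Ω → ℝ) (x : Ω) : Continuous fun p : Pt ι => pw φ w p x := by
  simp only [pw, post, dotProduct]; fun_prop

theorem cont_prob (hw : Wt w) (φ : Ω → ι → ℝ) (x : Ω) :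
    Continuous fun p : Pt ι => prob (pw φ w p) x :=
  (cont_pw φ w x).div (continuous_finsetSum _ fun x _ => cont_pw φ w x)
    fun _ => (hw.post _ _ _).pos.ne'

theorem eg_prob (hw : Wt w) (x : Ω) : EG I fun p => prob (pw φ w p) x :=
  .of_bdd (cont_prob hw φ x).continuousOn 1 fun _ _ =>
    (abs_of_nonneg ((hw.post _ _ _).prob_nonneg x)).trans_le ((hw.post _ _ _).prob_le_one x)

/-- posterior means of space-time dependent observables -/
theorem eg_mean' (hw : Wt w) {F : Ω → Pt ι → ℝ} (hF : ∀ x, EG I (F x)) :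
    EG I fun p => mean (pw φ w p) fun x => F x p := .sum _ fun x _ => (eg_prob hw x).mul (hF x)

theorem eg_mean (hw : Wt w) (f : Ω → ℝ) : EG I fun p => mean (pw φ w p) f :=
  eg_mean' hw fun x => .const (f x)

theorem eg_md (hw : Wt w) (i : ι) : EG I (md φ w i) := eg_mean hw _

theorem eg_cov (hw : Wt w) (f g : Ω → ℝ) : EG I fun p => cov (pw φ w p) f g :=
  eg_mean' hw fun _ => ((EG.const _).sub (eg_mean hw f)).mul ((EG.const _).sub (eg_mean hw g))

theorem eg_var (hw : Wt w) (f : Ω → ℝ) : EG I fun p => var (pw φ w p) f := by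
  simpa only [var_eq_cov] using eg_cov hw f f

theorem eg_cum3 (hw : Wt w) (f g k : Ω → ℝ) : EG I fun p => cum3 (pw φ w p) f g k :=
  eg_mean' hw fun _ => (((EG.const _).sub (eg_mean hw f)).mul ((EG.const _).sub (eg_mean hw g))).mul
    ((EG.const _).sub (eg_mean hw k))

theorem eg_pw (hI : Bornology.IsBounded I) (w : Ω → ℝ) (x : Ω) : EG I fun p => pw φ w p x := by
  obtain ⟨T, hT⟩ := hI.exists_norm_le
  refine (EG.const (w x)).mul (.exp (by simp only [dotProduct]; fun_prop)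
    (T / 2 * (φ x ⬝ᵥ φ x)) (∑ i, |φ x i|) fun p hp => ?_)
  have h1 : p.2 ⬝ᵥ φ x ≤ (∑ i, |φ x i|) * ‖p.2‖ := by
    rw [Finset.sum_mul]
    refine Finset.sum_le_sum fun i _ => (le_abs_self _).trans ?_
    rw [abs_mul, mul_comm]
    gcongr
    exact norm_le_pi_norm p.2 i
  have h2 : 0 ≤ φ x ⬝ᵥ φ x := by simpa using dotProduct_self_star_nonneg (φ x)
  nlinarith [(abs_le.1 (hT _ hp)).1]

/-- the inverse of a posterior mean has exponential growth on bounded time intervals -/
theorem eg_inv_mean (hI : Bornology.IsBounded I) (hw : Wt w) (hf : ∀ x, 0 ≤ f x)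
    (h0 : 0 < mean w f) : EG I fun p => (mean (pw φ w p) f)⁻¹ := by
  obtain ⟨x, h1, h2⟩ := (hw.mean_pos_iff hf).1 h0
  have e := ((EG.sum Finset.univ fun y _ => eg_pw (φ := φ) hI w y).mul
    ((eg_pw (φ := φ) hI.neg (fun _ => 1) x).comp (φ := fun p : Pt ι => (-p.1, -p.2)) (J := I)
      (by fun_prop) (fun p hp => by simpa using hp) 0 1 fun p _ => by simp)).const_mul (w x * f x)⁻¹
  refine e.of_le ((eg_mean hw f).cont.inv₀ fun p _ => (hw.mean_post_pos hf h0 _ _ _).ne')
    fun p _ => ?_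
  have h3 := hw.mean_post_pos hf h0 φ p.1 p.2
  have h4 := hw.post φ p.1 p.2
  have h5 : 0 < pw φ w p x * f x := mul_pos (mul_pos h1 (exp_pos _)) h2
  refine (abs_of_pos (inv_pos.2 h3)).trans_le (le_trans ?_ (le_abs_self _))
  rw [mean_eq_div, inv_div]
  refine (div_le_div_of_nonneg_left h4.pos.le h5 (Finset.single_le_sum
    (f := fun x => pw φ w p x * f x) (fun x _ => mul_nonneg (h4.nn x) (hf x))
    (Finset.mem_univ x))).trans_eq ?_
  have e2 : -p.2 ⬝ᵥ φ x - -p.1 / 2 * φ x ⬝ᵥ φ x = -(p.2 ⬝ᵥ φ x - p.1 / 2 * φ x ⬝ᵥ φ x) := by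
    rw [neg_dotProduct]; ring
  have e3 : pw φ (fun _ => 1) (-p.1, -p.2) x = (pw φ w p x * f x)⁻¹ * (w x * f x) := by
    simp only [pw, post, e2, exp_neg]
    field_simp
  have := (mul_pos h1 h2).ne'
  rw [e3]
  field_simp

theorem hasDerivAt_mean {u : ℝ → Ω → ℝ} {l : Ω → ℝ} {s : ℝ} (hu : Wt (u s))
    (hd : ∀ x, HasDerivAt (fun s => u s x) (u s x * l x) s) (f : Ω → ℝ) :
    HasDerivAt (fun s => mean (u s) f) (cov (u s) f l) s := by
  simp only [mean_eq_div, hu.cov_eq]
  refine ((HasDerivAt.fun_sum fun x _ => (hd x).mul_const (f x)).div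
    (HasDerivAt.fun_sum fun x _ => hd x) hu.pos.ne').congr_deriv ?_
  have := hu.pos.ne'
  simp only [mul_right_comm _ (l _), mul_assoc]
  field_simp

theorem df_mean (hw : Wt w) (f : Ω → ℝ) : Df I (fun p => mean (pw φ w p) f)
    (fun p => -(cov (pw φ w p) f fun x => φ x ⬝ᵥ φ x) / 2) fun i p => covV (pw φ w p) f φ i :=
  fun c c' s hc _ => by
  refine (hasDerivAt_mean (u := fun s => pw φ w (c s))
    (l := fun x => c'.2 ⬝ᵥ φ x - c'.1 / 2 * (φ x ⬝ᵥ φ x)) (hw.post _ _ _) (fun x => ?_) f).congr_deriv ?_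
  · exact (((HasDerivAt.fun_sum fun i _ => (hasDerivAt_pi.1 hc.snd i).mul_const (φ x i)).sub
      (((show HasDerivAt (fun s => (c s).1) c'.1 s from hc.fst).div_const 2).mul_const _)).exp.const_mul (w x)).congr_deriv (mul_assoc _ _ _).symm
  · rw [cov_sub, cov_const_mul, ← covV_dot, dotProduct_comm c'.2]
    simp only [dotProduct]
    ring

/-- Itô differential of a posterior mean, for any drift -/
theorem ito_mean_gen (hw : Wt w) (f : Ω → ℝ) : Ito d I (fun p => mean (pw φ w p) f)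
    (fun p => ∑ i, (d i p - md φ w i p) * covV (pw φ w p) f φ i) fun i p => covV (pw φ w p) f φ i := by
  refine ⟨_, fun i p => covV (pw φ w p) (fun x => f x * φ x i) φ i - (covV (pw φ w p) f φ i *
    md φ w i p + mean (pw φ w p) f * covV (pw φ w p) (fun x => φ x i) φ i), eg_mean hw f,
    (eg_cov hw _ _).neg.div_const 2, fun i => eg_cov hw _ _, fun i => (eg_cov hw _ _).sub
      (((eg_cov hw _ _).mul (eg_md hw i)).add ((eg_mean hw f).mul (eg_cov hw _ _))),
    df_mean hw f, fun i p hp => ?_, fun p _ => ?_⟩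
  · have e : ∀ p : Pt ι, covV (pw φ w p) f φ i = mean (pw φ w p) (fun x => f x * φ x i) -
        mean (pw φ w p) f * mean (pw φ w p) fun x => φ x i := fun p => (hw.post _ _ _).cov_eq _ _
    simp only [e]
    refine (((df_mean hw _).dp i p hp).sub (((df_mean hw _).dp i p hp).mul
      ((df_mean hw _).dp i p hp))).congr_deriv ?_
    simp only [Function.update_eq_self, e, md, meanV]
  · simp only [dotProduct, cov_sum, neg_div, Finset.sum_div, ← Finset.sum_neg_distrib,
      ← Finset.sum_add_distrib]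
    refine Finset.sum_congr rfl fun i _ => ?_
    simp only [covV, md, meanV, (hw.post φ p.1 p.2).cov_eq, mul_assoc]
    ring

/-- posterior means are martingales -/
theorem ito_mean (hw : Wt w) (f : Ω → ℝ) : Ito (md φ w) I (fun p => mean (pw φ w p) f)
    (fun _ => 0) fun i p => covV (pw φ w p) f φ i :=
  (ito_mean_gen hw f).congr (fun _ _ => by simp) fun _ _ _ => rfl

theorem ito_prob (hw : Wt w) (x : Ω) : Ito (md φ w) I (fun p => prob (pw φ w p) x)
    (fun _ => 0) fun i p => prob (pw φ w p) x * (φ x i - md φ w i p) := by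
  classical
  simpa [mean_single, covV, (hw.post φ _ _).cov_eq', mean, Pi.single_apply, md, meanV]
    using ito_mean (φ := φ) (I := I) hw (Pi.single x 1)

/-- `dm = C dB` -/
theorem ito_md (hw : Wt w) (j : ι) : Ito (md φ w) I (md φ w j) (fun _ => 0)
    fun i p => covMat (pw φ w p) φ j i := ito_mean hw _

/-- `d Cov(f,g) = κ₃(f,g,φ) · dB - Cov(f,φ) · Cov(g,φ) dt` -/
theorem ito_cov (hw : Wt w) (f g : Ω → ℝ) : Ito (md φ w) I (fun p => cov (pw φ w p) f g)
    (fun p => -(covV (pw φ w p) f φ ⬝ᵥ covV (pw φ w p) g φ))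
    fun i p => cum3 (pw φ w p) f g fun x => φ x i := by
  simp only [(hw.post φ _ _).cov_eq f g]
  exact ((ito_mean hw _).sub ((ito_mean hw f).mul (ito_mean hw g))).congr
    (fun _ _ => by simp [dotProduct]) fun _ _ _ => (hw.post φ _ _).cum3_eq _ _ _

theorem ito_var (hw : Wt w) (f : Ω → ℝ) : Ito (md φ w) I (fun p => var (pw φ w p) f)
    (fun p => -(covV (pw φ w p) f φ ⬝ᵥ covV (pw φ w p) f φ))
    fun i p => cum3 (pw φ w p) f f fun x => φ x i := by
  simpa only [var_eq_cov] using ito_cov hw f f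

/-- `dC = T dB - C² dt` -/
theorem ito_covMat (hw : Wt w) (j k : ι) : Ito (md φ w) I (fun p => covMat (pw φ w p) φ j k)
    (fun p => -(covMat (pw φ w p) φ * covMat (pw φ w p) φ) j k)
    fun i p => cum3 (pw φ w p) (fun x => φ x j) (fun x => φ x k) fun x => φ x i :=
  (ito_cov hw _ _).congr (fun _ _ => congrArg _ (Finset.sum_congr rfl fun _ _ =>
    congrArg _ (cov_comm _ _ _))) fun _ _ _ => rfl

/-- posterior mean of a space-time dependent observable -/
theorem ito_mean' (hw : Wt w) {F A : Ω → Pt ι → ℝ} {B : Ω → ι → Pt ι → ℝ}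
    (h : ∀ x, Ito (fun i _ => φ x i) I (F x) (A x) (B x)) :
    Ito (md φ w) I (fun p => mean (pw φ w p) fun x => F x p) (fun p => mean (pw φ w p) fun x => A x p)
      fun i p => covV (pw φ w p) (fun x => F x p) φ i + mean (pw φ w p) fun x => B x i p := by
  refine (Ito.sum Finset.univ fun x _ => (ito_prob hw x).mul ((h x).drift (md φ w))).congr
    (fun p _ => Finset.sum_congr rfl fun x _ => ?_) fun i p _ => ?_
  · simp only [zero_mul, zero_add, mul_add, Finset.mul_sum, add_assoc, ← Finset.sum_add_distrib]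
    simp only [left_eq_add]
    exact Finset.sum_eq_zero fun i _ => by ring
  · simp only [covV, (hw.post φ _ _).cov_eq', mean, ← Finset.sum_add_distrib, md, meanV]
    exact Finset.sum_congr rfl fun x _ => by ring

/-- `d Ent(f) = … - |Cov(f,φ)|² / (2 E f) dt` -/
theorem ito_ent (hI : Bornology.IsBounded I) (hw : Wt w) (hf : ∀ x, 0 ≤ f x) (h0 : 0 < mean w f) :
    Ito (md φ w) I (fun p => ent (pw φ w p) f)
      (fun p => -(covV (pw φ w p) f φ ⬝ᵥ covV (pw φ w p) f φ) / (2 * mean (pw φ w p) f))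
      fun i p => covV (pw φ w p) (fun x => f x * log (f x)) φ i -
        covV (pw φ w p) f φ i * (log (mean (pw φ w p) f) + 1) := by
  have h1 := fun p : Pt ι => (hw.mean_post_pos hf h0 φ p.1 p.2).ne'
  refine ((ito_mean hw fun x => f x * log (f x)).sub ((ito_mean hw f).mul
    ((ito_mean hw f).log (fun p _ => h1 p) (eg_inv_mean hI hw hf h0)))).congr (fun p _ => ?_)
    fun i p _ => ?_
  · have := h1 p
    simp only [dotProduct, ← mul_div_assoc, ← Finset.sum_div, ← sq]
    field_simp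
    ring
  · have := h1 p
    field_simp

theorem eg_ent (hw : Wt w) (f : Ω → ℝ) : EG I fun p => ent (pw φ w p) f := by
  refine (eg_mean hw fun x => f x * log (f x)).sub ?_
  obtain ⟨C, hC⟩ := (isCompact_Icc (a := -∑ x, |f x|) (b := ∑ x, |f x|)).exists_bound_of_continuousOn
    continuous_mul_log.continuousOn
  exact .of_bdd (continuous_mul_log.comp_continuousOn (eg_mean hw f).cont) C fun p _ => hC _
    (abs_le.1 ((hw.post _ _ _).abs_mean_le fun x =>
      Finset.single_le_sum (f := fun x => |f x|) (fun _ _ => abs_nonneg _) (Finset.mem_univ x)))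

end Crest.Agent.T157.SL
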