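import Crest.Agent.T157.ScB_68
import Crest.Agent.T157.VgB_54
import Crest.Agent.T157.PfB_56

/-!
Row 157, part D (helper68): the Guerra bound for the soft maximum (`CoreStmt`).
-/

set_option autoImplicit false

noncomputable section

namespace Crest.Agent.T157.Sc

open MeasureTheory ProbabilityTheory Matrix Set Real
open Crest.Agent.T157.E Crest.Agent.T157.St Crest.Agent.T157.Cond
open Crest.Agent.T157.Casc (Lv X step Mono)
open Crest.Agent.T157.Vg (VL)
open Crest.Agent.T157.Pf (Par)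
open Crest.Agent.R164.GC Crest.Agent.R339.B Crest.Agent.R339.Var
open Crest.ProbabilityR.InvariantGlass (gaussOp)

theorem lip1_cont {f : ℝ → ℝ} (hf : Lip1 f) : Continuous f := by
  refine (LipschitzWith.of_dist_le_mul (K := 1) fun x y => ?_).continuous
  have h1 := hf x y
  have h2 := hf y x
  rw [abs_sub_comm] at h2
  rw [Real.dist_eq, Real.dist_eq, NNReal.coe_one, one_mul]
  exact abs_le.2 ⟨by linarith, by linarith⟩

section site

variable {𝒜 : Type} [Fintype 𝒜]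

/-- the terminal function of a site -/
def Gf (h a : 𝒜 → ℝ) (M x : ℝ) : ℝ := M⁻¹ * log (∑ c, exp (h c + M * a c * x))

theorem lip1_Gf [Nonempty 𝒜] (h : 𝒜 → ℝ) {a : 𝒜 → ℝ} (ha : ∀ c, |a c| ≤ 1) {M : ℝ} (hM : 0 < M) :
    Lip1 (Gf h a M) := by
  intro x y
  have hp : ∀ x, 0 < ∑ c, exp (h c + M * a c * x) := fun x =>
    Finset.sum_pos (fun _ _ => exp_pos _) Finset.univ_nonempty
  have h1 : ∑ c, exp (h c + M * a c * x) ≤ exp (M * |x - y|) * ∑ c, exp (h c + M * a c * y) := by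
    rw [Finset.mul_sum]
    refine Finset.sum_le_sum fun c _ => ?_
    rw [← exp_add, exp_le_exp]
    have h2 : a c * (x - y) ≤ |x - y| := by
      refine (le_abs_self _).trans ?_
      rw [abs_mul]
      exact mul_le_of_le_one_left (abs_nonneg _) (ha c)
    nlinarith [mul_le_mul_of_nonneg_left h2 hM.le]
  have h2 := log_le_log (hp x) h1
  rw [log_mul (exp_pos _).ne' (hp y).ne', log_exp] at h2
  have h3 := mul_le_mul_of_nonneg_left h2 (inv_pos.2 hM).le
  rw [mul_add, ← mul_assoc, inv_mul_cancel₀ hM.ne', one_mul] at h3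
  unfold Gf
  linarith

theorem Gf_le [Nonempty 𝒜] {h a : 𝒜 → ℝ} {M x B : ℝ} (hM : 0 < M)
    (hB : ∀ c, h c + M * a c * x ≤ M * B) : Gf h a M x ≤ B + log (Fintype.card 𝒜) / M := by
  have hc : (0 : ℝ) < Fintype.card 𝒜 := by exact_mod_cast Fintype.card_pos
  have h1 : ∑ c, exp (h c + M * a c * x) ≤ Fintype.card 𝒜 * exp (M * B) := by
    have := Finset.sum_le_card_nsmul Finset.univ (fun c => exp (h c + M * a c * x)) (exp (M * B))
      fun c _ => exp_le_exp.2 (hB c)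
    rwa [Finset.card_univ, nsmul_eq_mul] at this
  have h2 := log_le_log (Finset.sum_pos (fun _ _ => exp_pos _) Finset.univ_nonempty) h1
  rw [log_mul hc.ne' (exp_pos _).ne', log_exp] at h2
  have h3 := mul_le_mul_of_nonneg_left h2 (inv_pos.2 hM).le
  rw [mul_add, ← mul_assoc, inv_mul_cancel₀ hM.ne', one_mul] at h3
  unfold Gf
  rw [div_eq_inv_mul]
  linarith

/-- a cascade of one-dimensional levels is the Parisi recursion -/
theorem X_bridge (h a : 𝒜 → ℝ) {M : ℝ} (hM : 0 < M) (hG : Lip1 (Gf h a M)) :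
    ∀ {L : List (Lv 𝒜)} {l : List (ℝ × ℝ)}, List.Forall₂ (fun (k : Lv 𝒜) (p : ℝ × ℝ) =>
      k.m = p.1 / M ∧ ∃ i, ∀ g, k.fld g = fun c => M * a c * (√p.2 * g i)) L l → Pos 1 l → ∀ x,
      X (fun _ => 1) L (fun c => h c + M * a c * x) = M * Rec l (Gf h a M) x
  | _, _, List.Forall₂.nil, _, x => by
    simp only [X, Rec, Gf, one_mul]
    rw [← mul_assoc, mul_inv_cancel₀ hM.ne', one_mul]
  | k :: L, p :: l, List.Forall₂.cons ⟨hm, i, hf⟩ hL, hl, x => by
    have hp := hl.head.1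
    have hc := lip1_cont (lip1_rec hG hl.tail)
    have e : ∀ g : k.ι → ℝ, exp (k.m * X (fun _ => 1) L ((fun c => h c + M * a c * x) + k.fld g)) =
        (fun z => exp (p.1 * Rec l (Gf h a M) (x + √p.2 * z))) (g i) := by
      intro g
      have : (fun c => h c + M * a c * x) + k.fld g = fun c => h c + M * a c * (x + √p.2 * g i) := by
        rw [hf]; funext c; simp only [Pi.add_apply]; ring
      rw [this, X_bridge h a hM hG hL hl.tail, hm]
      congr 1
      field_simp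
    have mp : MeasurePreserving (fun g : k.ι → ℝ => g i) (gv k.ι) (gaussianReal 0 1) :=
      measurePreserving_eval _ i
    have hm0 : k.m ≠ 0 := by rw [hm]; positivity
    rw [X, step, if_neg hm0]
    simp only [e]
    rw [← integral_map (f := fun z => exp (p.1 * Rec l (Gf h a M) (x + √p.2 * z)))
      mp.measurable.aemeasurable (by
      refine Continuous.aestronglyMeasurable ?_
      fun_prop), mp.map_eq, Rec, gaussOp_ne hp.ne', hm]
    unfold H
    field_simp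

/-- the constant `1 × 1` matrix -/
def cst (x : ℝ) : Matrix Unit Unit ℝ := Matrix.of fun _ _ => x

theorem cst_add (x y : ℝ) : cst x + cst y = cst (x + y) := rfl
theorem cst_zero : cst 0 = 0 := rfl
theorem fr2_cst (x : ℝ) : Vg.fr2 (cst x) = x ^ 2 := by simp [Vg.fr2, cst]

variable (𝒜) in
/-- an interpolated level -/
def lvJ (β M : ℝ) (p : ℝ × ℝ) : VL Unit 𝒜 :=
  ⟨Unit, cst (√(M * p.2) / β), Unit, fun _ _ => 0, p.1 / M⟩

/-- the level of the external field -/
def lvY (b : 𝒜 → ℝ) (M t : ℝ) : VL Unit 𝒜 := ⟨Unit, cst 0, Unit, fun c _ => M * √t * b c, 1 / M⟩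

omit [Fintype 𝒜] in
theorem C_lvJ (β : ℝ) {M : ℝ} (hM : 0 ≤ M) {p : ℝ × ℝ} (hp : 0 ≤ p.2) :
    (lvJ 𝒜 β M p).C = cst (M * p.2 / β ^ 2) := by
  ext i j
  show ∑ _k : Unit, √(M * p.2) / β * (√(M * p.2) / β) = M * p.2 / β ^ 2
  rw [Fintype.sum_unique, div_mul_div_comm, mul_self_sqrt (by positivity), sq]

omit [Fintype 𝒜] in
theorem C_lvY (b : 𝒜 → ℝ) (M t : ℝ) : (lvY b M t).C = cst 0 := by
  ext i j
  show ∑ _k : Unit, (0 : ℝ) * 0 = 0
  simp

omit [Fintype 𝒜] in
theorem Qtop_lv (β : ℝ) {M : ℝ} (hM : 0 ≤ M) (b : 𝒜 → ℝ) (t : ℝ) : ∀ {l : List (ℝ × ℝ)},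
    (∀ p ∈ l, 0 ≤ p.2) → Vg.Qtop (l.map (lvJ 𝒜 β M) ++ [lvY b M t]) = cst (M * TT l / β ^ 2)
  | [], _ => by
    rw [List.map_nil, List.nil_append, Vg.Qtop_cons, Vg.Qtop_nil, C_lvY, add_zero]
    simp [TT]
  | p :: l, h => by
    rw [List.map_cons, List.cons_append, Vg.Qtop_cons,
      Qtop_lv β hM b t fun q hq => h q (List.mem_cons_of_mem _ hq),
      C_lvJ β hM (h p List.mem_cons_self), cst_add, TT_cons]
    congr 1; ring

omit [Fintype 𝒜] in
theorem corr_lv {β M : ℝ} (hM : 0 < M) (b : 𝒜 → ℝ) (t : ℝ) : ∀ {l : List (ℝ × ℝ)},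
    (∀ p ∈ l, 0 ≤ p.2) → ∀ q, Vg.corr (cst (M * q / β ^ 2)) (l.map (lvJ 𝒜 β M) ++ [lvY b M t]) =
      M / β ^ 4 * R339.Guerra.pen q l
  | [], _, q => by
    rw [List.map_nil, List.nil_append, Vg.corr, Vg.corr, C_lvY, cst_add, add_zero]
    simp [R339.Guerra.pen]
  | p :: l, h, q => by
    have e : M * q / β ^ 2 + M * p.2 / β ^ 2 = M * (q + p.2) / β ^ 2 := by ring
    rw [List.map_cons, List.cons_append, Vg.corr, C_lvJ β hM.le (h p List.mem_cons_self), cst_add, e,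
      corr_lv hM b t fun q hq => h q (List.mem_cons_of_mem _ hq), fr2_cst, fr2_cst,
      R339.Guerra.pen]
    show p.1 / M * _ + _ = _
    field_simp

omit [Fintype 𝒜] in
theorem mono_lv (β : ℝ) {M : ℝ} (hM : 1 ≤ M) (b : 𝒜 → ℝ) (t : ℝ) : ∀ {l : List (ℝ × ℝ)}, Adm 1 l →
    ∀ m0, m0 ≤ headLv 1 l / M → Mono m0 ((l.map (lvJ 𝒜 β M) ++ [lvY b M t]).map VL.fix)
  | [], _, _, h0 => ⟨h0, (div_le_one (by linarith)).2 hM⟩
  | _ :: _, h, _, h0 => ⟨h0, mono_lv β hM b t h.2.2.2 _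
      (div_le_div_of_nonneg_right h.2.1 (by linarith))⟩

theorem headLv_cut (β : ℝ) : ∀ (l : List (ℝ × ℝ)) (t : ℝ), headLv β (cut l t) = headLv β l
  | [], _ => rfl
  | p :: l, t => by
    unfold cut
    split_ifs <;> rfl

theorem adm_cut {β : ℝ} : ∀ {l : List (ℝ × ℝ)}, Adm β l → ∀ {t : ℝ}, 0 ≤ t → Adm β (cut l t)
  | [], _, _, _ => trivial
  | p :: l, h, t, ht => by
    unfold cut
    split_ifs with h1
    · exact ⟨h.1, h.2.1.trans h.2.2.2.head_le, ht, trivial⟩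
    · exact ⟨h.1, by rw [headLv_cut]; exact h.2.1, h.2.2.1, adm_cut h.2.2.2 (by linarith)⟩

omit [Fintype 𝒜] in
theorem forall2_lv {β M : ℝ} (hβ : β ≠ 0) (hM : 0 ≤ M) {a b : 𝒜 → ℝ} {t t' : ℝ}
    (hab : ∀ c, √t * b c = √t' * a c) : ∀ l : List (ℝ × ℝ),
    List.Forall₂ (fun (k : Lv 𝒜) (p : ℝ × ℝ) =>
      k.m = p.1 / M ∧ ∃ i, ∀ g, k.fld g = fun c => M * a c * (√p.2 * g i))
      ((l.map (lvJ 𝒜 β M) ++ [lvY b M t]).map (VL.site β fun c _ => √M * a c)) (l ++ [(1, t')])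
  | [] => by
    refine List.Forall₂.cons ⟨rfl, Sum.inr (), fun g => funext fun c => ?_⟩ List.Forall₂.nil
    show ∑ i : Unit ⊕ Unit, Sum.elim (fun _ => β * ∑ _c : Unit, √M * a c * 0)
      (fun _ => M * √t * b c) i * g i = M * a c * (√t' * g (Sum.inr ()))
    simp only [Fintype.sum_sum_type, Fintype.sum_unique, Sum.elim_inl, Sum.elim_inr,
      PUnit.default_eq_unit]
    rw [mul_assoc M, hab]
    ring_nf
    rfl
  | p :: l => by
    refine List.Forall₂.cons ⟨rfl, Sum.inl (), fun g => funext fun c => ?_⟩ (forall2_lv hβ hM hab l)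
    show ∑ i : Unit ⊕ Unit, Sum.elim (fun _ => β * ∑ _c : Unit, √M * a c * (√(M * p.2) / β))
      (fun _ => (0 : ℝ)) i * g i = M * a c * (√p.2 * g (Sum.inl ()))
    simp only [Fintype.sum_sum_type, Fintype.sum_unique, Sum.elim_inl, Sum.elim_inr,
      PUnit.default_eq_unit]
    rw [sqrt_mul hM]
    have := mul_self_sqrt hM
    field_simp
    rw [sq, this]
    ring_nf
    rfl

end site

variable {β C b : ℝ}

theorem abs_bk {N : ℕ} (hN : 0 < N) (k : Fin (2 * N + 1)) : |bk N k| ≤ 1 := by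
  have hN' : (0 : ℝ) < N := by exact_mod_cast hN
  have h1 : ((k : ℕ) : ℝ) ≤ 2 * N := by exact_mod_cast Nat.lt_succ_iff.1 k.2
  have h0 : (0 : ℝ) ≤ (k : ℕ) := Nat.cast_nonneg _
  unfold bk
  rw [abs_div, abs_of_pos hN', div_le_one hN']
  exact abs_le.2 ⟨by linarith, by linarith⟩

theorem abs_ak {N : ℕ} (hN : 0 < N) {δ : ℝ} (h0 : 0 < δ) (h1 : δ < 1) (k : Fin (2 * N + 1)) :
    |(1 - δ) * bk N k| < 1 := by
  rw [abs_mul, abs_of_pos (by linarith : 0 < 1 - δ)]
  nlinarith [abs_bk hN k]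

/-- the quadratic gain in the Legendre inequality -/
theorem Lam_add_le (S : Site β C b) {s : ℝ} (hs : s ∈ Icc (0 : ℝ) 1) {a : ℝ} (ha : |a| < 1) (x : ℝ) :
    S.Lam s a + a * x ≤ S.Φ s x - (a - S.p1 s x) ^ 2 / 2 := by
  set d := a - S.p1 s x with hd
  have h1 := S.Lam_le hs ha (x + d)
  have hD : ∀ y, HasDerivAt (fun y => S.p1 s x * (y * d) + (y * d) ^ 2 / 2 - S.Φ s (x + y * d))
      (S.p1 s x * d + y * d * d - S.p1 s (x + y * d) * d) y := by
    intro y
    have e1 : HasDerivAt (fun y : ℝ => y * d) d y := by simpa using (hasDerivAt_id y).mul_const d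
    have e2 := (S.d1 s hs (x + y * d)).comp y (e1.const_add x)
    refine (((e1.const_mul (S.p1 s x)).add ((e1.pow 2).div_const 2)).sub e2).congr_deriv ?_
    simp only [Nat.cast_ofNat, Nat.add_one_sub_one, pow_one]
    ring
  have hD2 : ∀ y, HasDerivAt (fun y => y * d * d - S.p1 s (x + y * d) * d)
      (d * d - S.p2 s (x + y * d) * d * d) y := by
    intro y
    have e1 : HasDerivAt (fun y : ℝ => y * d) d y := by simpa using (hasDerivAt_id y).mul_const d
    have e2 := (S.d2 s hs (x + y * d)).comp y (e1.const_add x)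
    exact (e1.mul_const d).sub (e2.mul_const d)
  have h2 := Site.le_of_deriv hD zero_le_one fun y hy _ => by
    have h3 := Site.le_of_deriv hD2 hy fun z _ _ => by
      nlinarith [S.le2 s hs (x + z * d), mul_self_nonneg d]
    simp only [zero_mul, add_zero, zero_sub] at h3
    linarith
  simp only [zero_mul, add_zero, mul_zero, one_mul] at h2
  have e : a = S.p1 s x + d := by rw [hd]; ring
  rw [e] at h1 ⊢
  nlinarith

theorem Tst.bc {g : ℝ → ℝ} {G L : ℝ} (hg : Tst g G L) (S : Site β C b) {s : ℝ}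
    (hs : s ∈ Icc (0 : ℝ) 1) : BC (fun x => g (S.p1 s x)) G := by
  refine ⟨?_, fun x => hg.1 _ (S.abs1 s hs x)⟩
  have hc : Continuous (S.p1 s) := continuous_iff_continuousAt.2 fun x => (S.d2 s hs x).continuousAt
  refine continuous_iff_continuousAt.2 fun x => tendsto_iff_dist_tendsto_zero.2 ?_
  refine squeeze_zero (fun _ => dist_nonneg)
    (fun y => hg.2 _ _ (S.abs1 s hs y) (S.abs1 s hs x)) ?_
  have : Continuous fun y => L * |S.p1 s y - S.p1 s x| := by fun_prop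
  simpa using this.tendsto x

/-- the site bound -/
theorem site_bound {P : Par} (hβ : 0 < β) (h : P.OK) (S : Site β C P.b) (hS : Rel P S)
    {N : ℕ} {δ M q ε t G L : ℝ} {g : ℝ → ℝ} (hN : 0 < N) (h0 : 0 < δ) (h1 : δ < 1) (hM : 0 < M)
    (hq : q ∈ Icc (0 : ℝ) 1) (ht : 0 ≤ t) (hc : t = 0 ∨ P.b ≤ q) (hg : Tst g G L)
    (hε : |ε| * G ≤ 1) :
    Rec (cut (P.lst β P.K) (β ^ 2 * q) ++ [(1, t)])
      (Gf (fun k => M * (S.Lam q ((1 - δ) * bk N k) + ε * g ((1 - δ) * bk N k) - S.pen q))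
        (fun k => (1 - δ) * bk N k) M) 0 ≤
      S.Φ 0 0 - S.pen q + t / 2 + ε * P.E β (q + t / β ^ 2) (fun x => g (S.p1 q x)) +
        ε ^ 2 * (G ^ 2 + L ^ 2 / 2) + log (2 * N + 1) / M := by
  have hA := adm_lst h β P.K
  have hP := pos_of_adm hA
  have hq0 : 0 ≤ β ^ 2 * q := mul_nonneg (sq_nonneg _) hq.1
  have hP' : Pos 1 (cut (P.lst β P.K) (β ^ 2 * q) ++ [(1, t)]) := by
    intro p hp
    rcases List.mem_append.1 hp with hp | hp
    · exact hP.cut _ p hp
    · rw [List.mem_singleton.1 hp]; exact ⟨one_pos, le_rfl⟩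
  have hL : Lip1 (P.Ph β q) := (PhiT_prof one_pos _ _).lip
  have hb := hg.bc S hq
  have hψ : BC (fun x => ε * g (S.p1 q x)) (|ε| * G) :=
    ⟨continuous_const.mul hb.cont, fun x => by
      rw [abs_mul]; exact mul_le_mul_of_nonneg_left (hb.bd x) (abs_nonneg _)⟩
  have key := rec_le one_pos (lip1_Gf (fun k => M * (S.Lam q ((1 - δ) * bk N k) +
      ε * g ((1 - δ) * bk N k) - S.pen q)) (fun k => (abs_ak hN h0 h1 k).le) hM) hL hψ
    (c := ε ^ 2 * L ^ 2 / 2 - S.pen q + log (2 * N + 1) / M) (by rwa [one_mul]) (fun x => by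
      refine (Gf_le (B := P.Ph β q x + ε * g (S.p1 q x) + (ε ^ 2 * L ^ 2 / 2 - S.pen q)) hM
        fun k => ?_).trans (le_of_eq ?_)
      · have a1 := Lam_add_le S hq (abs_ak hN h0 h1 k) x
        have a2 := hg.2 _ _ (abs_ak hN h0 h1 k) (S.abs1 q hq x)
        rw [hS.1] at a1
        set a := (1 - δ) * bk N k
        have a3 : ε * (g a - g (S.p1 q x)) ≤ |ε| * (L * |a - S.p1 q x|) := by
          refine (le_abs_self _).trans ?_
          rw [abs_mul]
          exact mul_le_mul_of_nonneg_left a2 (abs_nonneg _)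
        have a4 := sq_nonneg (|ε| * L - |a - S.p1 q x|)
        rw [sub_sq, mul_pow, sq_abs, sq_abs] at a4
        rw [mul_assoc M a x, ← mul_add]
        refine mul_le_mul_of_nonneg_left ?_ hM.le
        nlinarith
      · rw [Fintype.card_fin]; push_cast; ring) hP' 0
  have e1 : Rec [((1 : ℝ), t)] (P.Ph β q) = fun x => P.Ph β q x + t / 2 := by
    show gaussOp 1 t (P.Ph β q) = _
    rcases hc with rfl | hc
    · rw [R339.Var.gaussOp_v0 one_ne_zero]; funext x; ring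
    · rw [Ph_top (β := β) h ⟨hc, hq.2⟩, gaussOp_add_const lip1_phi0 one_ne_zero, gaussOp_phi0 ht]
      funext x; ring
  have e2 : Rec (cut (P.lst β P.K) (β ^ 2 * q) ++ [(1, t)]) (P.Ph β q) 0 = S.Φ 0 0 + t / 2 := by
    rw [rec_append, e1, rec_add_const hL _ (hP.cut _), hS.1]
    show Rec _ (PhiT 1 (P.lst β P.K) (β ^ 2 * q)) 0 + _ = PhiT 1 (P.lst β P.K) (β ^ 2 * 0) 0 + _
    rw [rec_cut one_pos hP hq0, mul_zero, Pf.PhiT_zero (adm_nonneg hA)]
  have e3 := EL_affine hL hb 0 ε hP' 0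
  simp only [zero_add] at e3
  rw [e2, e3, ← eId β P hβ h q hq t ht hc _ _ hb, mul_pow, sq_abs] at key
  linarith

theorem cont_LN {n : ℕ} (S : Site β C b) (A : Matrix (Fin n) (Fin n) ℝ) (N : ℕ) (δ M q ε : ℝ)
    (g : ℝ → ℝ) : Continuous (LN S A N δ M q ε g) := by
  unfold LN
  refine continuous_const.mul (Continuous.log (by fun_prop) fun y => ne_of_gt ?_)
  exact Finset.sum_pos (fun _ _ => exp_pos _) Finset.univ_nonempty

theorem val_lv {n : ℕ} (S : Site β C b) (hβ : 0 < β) (W : Matrix (Fin n) (Fin n) ℝ)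
    (N : ℕ) (δ : ℝ) {M q : ℝ} (hM : 0 < M) (ε t : ℝ) (g : ℝ → ℝ) {l : List (ℝ × ℝ)}
    (hl : ∀ p ∈ l, 0 ≤ p.2) (hT : TT l = β ^ 2 * q) :
    Vg.val β (fun k (_ : Unit) => √M * ((1 - δ) * bk N k)) (fun (_ : Fin n) _ => 1)
      (fun _ k => M * (S.Lam q ((1 - δ) * bk N k) + ε * g ((1 - δ) * bk N k) - S.pen q))
      (l.map (lvJ _ β M) ++ [lvY (bk N) M t]) W =
      M * log (∫ z, exp (LN S (β • W) N δ M q ε g (√t • z)) ∂gv (Fin n)) := by
  have hm : (Vg.prodL n (lvY (bk N) M t).fix).m ≠ 0 := by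
    show 1 / M ≠ 0
    positivity
  rw [Vg.val_eq_step _ _ _ _ _ (fun k hk => by
    obtain ⟨p, _, rfl⟩ := List.mem_map.1 hk
    exact fun _ _ => rfl) (by simp), step, if_neg hm, Qtop_lv β hM.le _ _ hl, hT,
    ← Vg.int_sel (fun i : Fin n => (i, ())) (fun i j hij => congrArg Prod.fst hij)
      (G := fun z => exp (LN S (β • W) N δ M q ε g (√t • z)))
      (by have := cont_LN S (β • W) N δ M q ε g; fun_prop)]
  congr 1
  · show (1 / M)⁻¹ = M
    simp
  congr 1
  refine integral_congr_ae (Filter.Eventually.of_forall fun z => ?_)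
  show exp (1 / M * log _) = exp (M⁻¹ * log _)
  rw [one_div]
  congr 3
  refine Finset.sum_congr rfl fun s _ => ?_
  rw [Finset.prod_const_one, one_mul]
  congr 1
  set a : Fin n → ℝ := fun i => (1 - δ) * bk N (s i) with ha
  have e0 : ∀ c, Vg.fv (fun k (_ : Unit) => √M * ((1 - δ) * bk N k)) s c = √M • a := fun _ => rfl
  have hs := mul_self_sqrt hM.le
  have e1 : Vg.HW β (fun k (_ : Unit) => √M * ((1 - δ) * bk N k)) W s =
      M * (1 / 2 * (a ⬝ᵥ (β • W) *ᵥ a)) := by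
    rw [Vg.HW, Fintype.sum_unique, e0, mulVec_smul, smul_mulVec, dotProduct_smul, smul_dotProduct,
      dotProduct_smul, smul_eq_mul, smul_eq_mul, smul_eq_mul, ← mul_assoc √M, hs]
    ring
  have e2 : Vg.pen β (fun k (_ : Unit) => √M * ((1 - δ) * bk N k)) (cst (M * (β ^ 2 * q) / β ^ 2)) s =
      M * (M * β ^ 2 * n / 4 * (qq a - q) ^ 2) := by
    have : Vg.ov (fun k (_ : Unit) => √M * ((1 - δ) * bk N k)) s s - cst (M * (β ^ 2 * q) / β ^ 2) =
        cst (M * (qq a - q)) := by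
      ext i j
      show Vg.fv _ s i ⬝ᵥ Vg.fv _ s j / n - M * (β ^ 2 * q) / β ^ 2 = M * (a ⬝ᵥ a / n - q)
      rw [e0 i, dotProduct_smul, smul_dotProduct, smul_eq_mul, smul_eq_mul, ← mul_assoc, hs]
      field_simp
    rw [Vg.pen, this, fr2_cst]
    ring
  have e3 : (Vg.prodL n (lvY (bk N) M t).fix).fld z s =
      M * ((fun i => bk N (s i)) ⬝ᵥ √t • fun i => z (i, ())) := by
    show ∑ p : Fin n × Unit, M * √t * bk N (s p.1) * z p = _
    rw [Fintype.sum_prod_type, dotProduct, Finset.mul_sum]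
    refine Finset.sum_congr rfl fun i _ => ?_
    rw [Fintype.sum_unique]
    show M * √t * bk N (s i) * z (i, ()) = M * (bk N (s i) * (√t * z (i, ())))
    ring
  rw [Pi.add_apply, e1, e2, e3, ← Finset.mul_sum, Finset.sum_sub_distrib, Finset.sum_add_distrib,
    ← Finset.mul_sum, Finset.sum_const, Finset.card_univ, Fintype.card_fin, nsmul_eq_mul]
  show _ = M * (En S (β • W) M q ε g a + (fun i => bk N (s i)) ⬝ᵥ √t • fun i => z (i, ()))
  unfold En Psi
  simp only [ha]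
  ring

theorem coreStmt : CoreStmt := by
  intro β C P hβ h S hS n hn N δ M q ε t G L u g hN h0 h1 hM hq ht hc hg hε hu
  have hM0 : 0 < M := by linarith
  have hn' : (0 : ℝ) < n := by exact_mod_cast hn
  have hA := adm_lst h β P.K
  have hq0 : 0 ≤ β ^ 2 * q := mul_nonneg (sq_nonneg _) hq.1
  have hq1 : β ^ 2 * q ≤ TT (P.lst β P.K) := by
    rw [TT_lst h]; exact mul_le_of_le_one_right (sq_nonneg _) hq.2
  set l := cut (P.lst β P.K) (β ^ 2 * q) with hl
  have hl0 : ∀ p ∈ l, 0 ≤ p.2 := cut_nonneg (adm_nonneg hA) hq0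
  have hd : 0 < 1 - δ := by linarith
  set t' := t / (1 - δ) ^ 2 with ht'
  have ht0 : 0 ≤ t' := by positivity
  have hP' : Pos 1 (l ++ [(1, t')]) := by
    intro p hp
    rcases List.mem_append.1 hp with hp | hp
    · exact (pos_of_adm hA).cut _ p hp
    · rw [List.mem_singleton.1 hp]; exact ⟨one_pos, le_rfl⟩
  have key := Vg.vg_tail β (fun k (_ : Unit) => √M * ((1 - δ) * bk N k)) hn (fun (_ : Fin n) _ => 1)
    (fun _ k => M * (S.Lam q ((1 - δ) * bk N k) + ε * g ((1 - δ) * bk N k) - S.pen q))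
    (fun _ => SL.Wt.of_pos fun _ => one_pos) (l.map (lvJ _ β M) ++ [lvY (bk N) M t])
    (mono_lv β hM _ _ (adm_cut hA hq0) 0 (by
      have := (adm_cut hA hq0).head_pos one_pos
      positivity)) hM0.le (fun _ k _ => by
      rw [Fintype.sum_unique, mul_pow, sq_sqrt hM0.le]
      exact mul_le_of_le_one_right hM0.le (sq_lt_one (abs_ak hN h0 h1 k)).le)
    (t := M * u) (by positivity)
  have e : -(M * u) ^ 2 / (β ^ 2 * n * M ^ 2) = -u ^ 2 / (β ^ 2 * n) := by field_simp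
  rw [e] at key
  refine le_trans (measureReal_mono fun W hW => ?_) key
  simp only [mem_ofPred_eq] at hW ⊢
  have hb := X_bridge (fun k => M * (S.Lam q ((1 - δ) * bk N k) + ε * g ((1 - δ) * bk N k) - S.pen q))
    (fun k => (1 - δ) * bk N k) hM0 (lip1_Gf _ (fun k => (abs_ak hN h0 h1 k).le) hM0)
    (forall2_lv (b := bk N) (t := t) (t' := t') hβ.ne' hM0.le (fun k => by
      rw [ht', sqrt_div' _ (sq_nonneg _), sqrt_sq hd.le]
      field_simp) l) hP' 0
  simp only [mul_zero, add_zero] at hb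
  have hs := site_bound hβ h S hS hN h0 h1 hM0 hq ht0 (hc.imp_left fun h => by
    rw [ht', h, zero_div]) hg hε
  have hcorr := corr_lv (β := β) hM0 (bk N) t hl0 0
  rw [mul_zero, zero_div, cst_zero, hl, pen_cut h hβ hq, ← hS.2.2.2, ← hl] at hcorr
  rw [val_lv S hβ W N δ hM0 ε t g hl0 (TT_cut hq0 hq1), hcorr, Finset.sum_const, Finset.card_univ,
    Fintype.card_fin, nsmul_eq_mul, hb]
  have e4 : β ^ 2 * n / 4 * (M / β ^ 4 * (4 * β ^ 2 * (S.pen 0 - S.pen q))) =
      M * (n * (S.pen 0 - S.pen q)) := by field_simp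
  rw [e4]
  refine le_trans ?_ (mul_le_mul_of_nonneg_left hW hM0.le)
  have := mul_le_mul_of_nonneg_left (mul_le_mul_of_nonneg_left hs hn'.le) hM0.le
  unfold Site.P
  nlinarith

end Crest.Agent.T157.Sc

end
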