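import Crest.Agent.T157.Sc3_68
import Crest.Agent.T157.PfGL_56

/-!
Row 157, part D (helper68): (SC) for a finite family of tilts, and the optimisation of the tilt.
-/

set_option autoImplicit false

noncomputable section

namespace Crest.Agent.T157.Sc

open MeasureTheory Matrix Set Real
open Crest.Agent.T157.E Crest.Agent.T157.Eig Crest.Agent.T157.Conc Crest.Agent.T157.St
open Crest.Agent.T157.Cond
open Crest.Agent.T157.Pf (Par)

variable {n : ℕ} {β C b : ℝ}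

theorem elip_lse {I ι : Type} [Fintype I] [Nonempty I] [Fintype ι] {K : ℝ} {F : I → (ι → ℝ) → ℝ}
    (h : ∀ i, ELip K (F i)) : ELip K fun y => log (∑ i, exp (F i y)) := by
  have hp : ∀ y, 0 < ∑ i, exp (F i y) := fun y =>
    Finset.sum_pos (fun _ _ => exp_pos _) Finset.univ_nonempty
  have key : ∀ x y, log (∑ i, exp (F i x)) - log (∑ i, exp (F i y)) ≤ K * en (x - y) := by
    intro x y
    have h1 : ∑ i, exp (F i x) ≤ exp (K * en (x - y)) * ∑ i, exp (F i y) := by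
      rw [Finset.mul_sum]
      refine Finset.sum_le_sum fun i _ => ?_
      rw [← exp_add, exp_le_exp]
      linarith [le_of_abs_le (h i x y)]
    have h2 := log_le_log (hp x) h1
    rw [log_mul (exp_pos _).ne' (hp y).ne', log_exp] at h2
    linarith
  intro x y
  have h2 := key y x
  rw [en_sub_comm] at h2
  exact abs_le.2 ⟨by linarith, key x y⟩

theorem int_exp_smul {K : ℝ} {F : (Fin n → ℝ) → ℝ} (h : ELip K F) (s : ℝ) :
    Integrable (fun z => exp (F (s • z))) (E.gv (Fin n)) := by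
  have h1 : ELip (K * |s|) fun z => F (s • z) := fun x y => by
    have := h (s • x) (s • y)
    rwa [← smul_sub, en_smul, ← mul_assoc] at this
  simpa using h1.integrable_exp 1

/-- a common majorant for a family of tilts -/
def Fam (S : Site β C b) (A : Matrix (Fin n) (Fin n) ℝ) {I : Type} (q ε r : I → ℝ) (g : I → ℝ → ℝ)
    (δ K t e : ℝ) : Prop :=
  ∃ L : (Fin n → ℝ) → ℝ, ELip (√n) L ∧
    (∀ y, ∀ m ∈ box n, ∀ i, |qq m - q i| ≤ 2 * δ → V S A m + y ⬝ᵥ m +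
      n * (ε i * (av (fun j => g i (m j)) - r i) - ε i ^ 2 * K) ≤ L y) ∧
    ∫ z, exp (L (√t • z)) ∂E.gv (Fin n) ≤ exp e

theorem fam (hR : RoundStmt) (hβ : 1 ≤ β) (hC : 1 ≤ C) : ∃ C2 : ℝ, 1 ≤ C2 ∧
    ∀ (P : Par), P.OK → ∀ S : Site β C P.b, Rel P S → ∀ n : ℕ, 0 < n →
    ∀ (N : ℕ) (δ M t G L u : ℝ), 0 < δ → δ ≤ 1 / 2 → 1 ≤ δ * N → 1 ≤ M → 0 ≤ t → 1 ≤ G → 0 ≤ L →
    0 ≤ u → ∀ (I : Type) [Fintype I] [Nonempty I] (q ε : I → ℝ) (g : I → ℝ → ℝ),
    (∀ i, q i ∈ Icc (0 : ℝ) 1 ∧ (t = 0 ∨ P.b ≤ q i) ∧ Tst (g i) G L ∧ |ε i| * G ≤ 1) →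
    goe (Fin n) (1 / √n) {W | opn W ≤ 3 ∧ ¬ Fam S (β • W) q ε
      (fun i => P.E β (q i + t / (1 - δ) ^ 2 / β ^ 2) fun x => g i (S.p1 (q i) x)) g δ
      (G ^ 2 + L ^ 2 / 2) t (n * (S.P + t / (1 - δ) ^ 2 / 2 + log (2 * N + 1) / M +
        C2 * δ * (1 + L + M * δ)) + u + log (Fintype.card I))} ≤
      ENNReal.ofReal (Fintype.card I * exp (-u ^ 2 / (β ^ 2 * n))) := by
  obtain ⟨C2, hC2, hR⟩ := hR β C hβ hC
  refine ⟨C2, hC2, fun P h S hS n hn N δ M t G L u h0 h1 hN hM ht hG hL hu I _ _ q ε g hi => ?_⟩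
  have hn' : (0 : ℝ) < n := by exact_mod_cast hn
  have hN0 : 0 < N := Nat.pos_of_ne_zero fun e => by rw [e] at hN; norm_num at hN
  set r : I → ℝ := fun i => P.E β (q i + t / (1 - δ) ^ 2 / β ^ 2) fun x => g i (S.p1 (q i) x)
    with hr
  set K := G ^ 2 + L ^ 2 / 2 with hK
  set B : I → Set (Matrix (Fin n) (Fin n) ℝ) := fun i => {W | n * (S.P + t / (1 - δ) ^ 2 / 2 +
    ε i * r i + ε i ^ 2 * K + log (2 * N + 1) / M) + u ≤
      log (∫ z, exp (LN S (β • W) N δ M (q i) (ε i) (g i) (√t • z)) ∂E.gv (Fin n))} with hB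
  have hb : ∀ i, goe (Fin n) (1 / √n) (B i) ≤ ENNReal.ofReal (exp (-u ^ 2 / (β ^ 2 * n))) :=
    fun i => by
    rw [← ofReal_measureReal]
    exact ENNReal.ofReal_le_ofReal (coreStmt β C P (by linarith) h S hS n hn N δ M (q i) (ε i) t G
      L u (g i) hN0 h0 (by linarith) hM (hi i).1 ht (hi i).2.1 (hi i).2.2.1 (hi i).2.2.2 hu)
  refine le_trans (measure_mono (t := ⋃ i, B i) fun W hW => ?_)
    ((measure_iUnion_fintype_le _ _).trans ?_)
  swap
  · refine (Finset.sum_le_sum fun i _ => hb i).trans (le_of_eq ?_)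
    rw [Finset.sum_const, Finset.card_univ, nsmul_eq_mul, ENNReal.ofReal_mul (Nat.cast_nonneg _),
      ENNReal.ofReal_natCast]
  by_contra hc
  refine hW.2 ?_
  simp only [mem_iUnion, not_exists, hB, mem_ofPred_eq, not_le] at hc
  have hRi := fun i => hR P.b S n hn W N δ M (q i) (ε i) G L (g i) hW.1 h0 h1 hN (by linarith)
    (hi i).1 (hi i).2.2.1 hL
  set c : I → ℝ := fun i => n * (ε i * r i + ε i ^ 2 * K - C2 * δ * (1 + L + M * δ)) with hc'
  have hF : ∀ i, ELip (√n) fun y => LN S (β • W) N δ M (q i) (ε i) (g i) y - c i := fun i =>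
    (hRi i).1.sub_const _
  refine ⟨_, elip_lse hF, fun y m hm i hq => ?_, ?_⟩
  · have a1 := (hRi i).2 y m hm hq
    have a2 : exp (LN S (β • W) N δ M (q i) (ε i) (g i) y - c i) ≤
        ∑ i, exp (LN S (β • W) N δ M (q i) (ε i) (g i) y - c i) :=
      Finset.single_le_sum (f := fun i => exp (LN S (β • W) N δ M (q i) (ε i) (g i) y - c i))
        (fun _ _ => (exp_pos _).le) (Finset.mem_univ i)
    have a3 := log_le_log (exp_pos _) a2
    rw [log_exp] at a3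
    have a4 : |ε i| * L ≤ L := mul_le_of_le_one_left hL (by nlinarith [(hi i).2.2.2, abs_nonneg (ε i)])
    have a5 : n * (C2 * δ * (1 + |ε i| * L + M * δ)) ≤ n * (C2 * δ * (1 + L + M * δ)) := by gcongr
    have a6 : n * av (fun j => g i (m j)) = ∑ j, g i (m j) := by unfold av; field_simp
    refine le_trans ?_ a3
    rw [← a6] at a1
    simp only [hc']
    nlinarith
  · have hcard : (0 : ℝ) < Fintype.card I := by exact_mod_cast Fintype.card_pos
    have e : ∀ z : Fin n → ℝ, exp (log (∑ i, exp (LN S (β • W) N δ M (q i) (ε i) (g i) (√t • z) -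
        c i))) = ∑ i, exp (LN S (β • W) N δ M (q i) (ε i) (g i) (√t • z)) * exp (-c i) := fun z => by
      rw [exp_log (Finset.sum_pos (fun _ _ => exp_pos _) Finset.univ_nonempty)]
      exact Finset.sum_congr rfl fun i _ => by rw [← exp_add, sub_eq_add_neg]
    simp only [e]
    rw [integral_finsetSum _ fun i _ => (int_exp_smul (hRi i).1 _).mul_const _, exp_add,
      exp_log hcard, mul_comm, ← nsmul_eq_mul, ← Finset.card_univ]
    refine Finset.sum_le_card_nsmul _ _ _ fun i _ => ?_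
    rw [integral_mul_const]
    refine (mul_le_mul_of_nonneg_right ((le_exp_log _).trans (exp_le_exp.2 (hc i).le))
      (exp_pos _).le).trans (le_of_eq ?_)
    rw [← exp_add]
    congr 1
    simp only [hc']
    ring

theorem exists_bk {J : ℕ} (hJ : 0 < J) {x : ℝ} (hx : |x| ≤ 1) :
    ∃ k : Fin (2 * J + 1), |bk J k - x| ≤ 1 / J := by
  have hJ' : (0 : ℝ) < J := by exact_mod_cast hJ
  have hx' := abs_le.1 hx
  have h0 : 0 ≤ J * x + J := by nlinarith
  have h1 : J * x + J ≤ ((2 * J : ℕ) : ℝ) := by push_cast; nlinarith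
  refine ⟨⟨⌊J * x + J⌋₊, Nat.lt_succ_of_le (Nat.floor_le_of_le h1)⟩, ?_⟩
  have h2 := Nat.floor_le h0
  have h3 := Nat.lt_floor_add_one (J * x + J)
  show |((⌊J * x + J⌋₊ : ℝ) - J) / J - x| ≤ 1 / J
  rw [show ((⌊J * x + J⌋₊ : ℝ) - J) / J - x = (⌊J * x + J⌋₊ - (J * x + J)) / J by field_simp; ring,
    abs_div, abs_of_pos hJ']
  exact div_le_div_of_nonneg_right (abs_le.2 ⟨by linarith, by linarith⟩) hJ'.le

theorem exists_eps {J : ℕ} (hJ : 0 < J) {G K D η : ℝ} (hG : 1 ≤ G) (hK : G ^ 2 ≤ K)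
    (hD : |D| ≤ 2 * G) (hη : 1 / J ≤ η) : ∃ k : Fin (2 * J + 1),
      D ^ 2 / (4 * K) - K * η ^ 2 ≤ bk J k / G * D - (bk J k / G) ^ 2 * K := by
  have hG0 : 0 < G := by linarith
  have hK0 : 0 < K := lt_of_lt_of_le (by positivity) hK
  obtain ⟨k, hk⟩ := exists_bk hJ (x := G * D / (2 * K)) (by
    rw [abs_div, abs_mul, abs_of_pos hG0, abs_of_pos (by positivity : 0 < 2 * K),
      div_le_one (by positivity)]
    nlinarith)
  refine ⟨k, ?_⟩
  have e : bk J k / G * D - (bk J k / G) ^ 2 * K =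
      D ^ 2 / (4 * K) - K * ((bk J k - G * D / (2 * K)) ^ 2 / G ^ 2) := by field_simp; ring
  have h1 : (bk J k - G * D / (2 * K)) ^ 2 ≤ η ^ 2 := by
    rw [← sq_abs]; exact pow_le_pow_left₀ (abs_nonneg _) (hk.trans hη) 2
  have h2 : (bk J k - G * D / (2 * K)) ^ 2 / G ^ 2 ≤ η ^ 2 :=
    (div_le_self (sq_nonneg _) (by nlinarith)).trans h1
  rw [e]
  nlinarith

theorem sq_le_of_le_abs {x D e B : ℝ} (h0 : 0 ≤ x) (hB : x ≤ B) (he : 0 ≤ e) (h : x ≤ |D| + e) :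
    x ^ 2 ≤ D ^ 2 + 2 * B * e := by
  have h1 := mul_le_mul_of_nonneg_left h h0
  have h2 := mul_le_mul_of_nonneg_right hB he
  nlinarith [sq_nonneg (x - |D|), sq_abs D]

theorem abs_av_le (hn : 0 < n) {f : Fin n → ℝ} {G : ℝ} (h : ∀ i, |f i| ≤ G) : |av f| ≤ G := by
  have hn' : (0 : ℝ) < n := by exact_mod_cast hn
  unfold av
  rw [abs_div, abs_of_pos hn', div_le_iff₀ hn']
  refine (Finset.abs_sum_le_sum_abs _ _).trans ?_
  have := Finset.sum_le_card_nsmul Finset.univ (fun i => |f i|) G fun i _ => h i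
  rw [Finset.card_univ, Fintype.card_fin, nsmul_eq_mul] at this
  linarith

/-- the two tilts -/
def gT (S : Site β C b) (τ : Bool) (q a : ℝ) : ℝ := if τ then a ^ 2 else -β ^ 2 * S.aa q a ^ 2

theorem tst_gT (hβ : 1 ≤ β) (hC : 1 ≤ C) (S : Site β C b) (τ : Bool) {q : ℝ}
    (hq : q ∈ Icc (0 : ℝ) 1) : Tst (gT S τ q) (β ^ 2) (2 * C * β ^ 2) := by
  have hb : 1 ≤ β ^ 2 := one_le_pow₀ hβ
  cases τ
  · refine ⟨fun a _ => ?_, fun a a' ha ha' => ?_⟩
    · show |-β ^ 2 * S.aa q a ^ 2| ≤ _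
      rw [abs_mul, abs_neg, abs_of_pos (by positivity), abs_of_nonneg (sq_nonneg _)]
      exact mul_le_of_le_one_right (by positivity)
        (pow_le_one₀ (S.aa_pos hq a).le (S.aa_le hq a))
    · show |-β ^ 2 * S.aa q a ^ 2 - -β ^ 2 * S.aa q a' ^ 2| ≤ _
      rw [← mul_sub, abs_mul, abs_neg, abs_of_pos (by positivity)]
      have := mul_le_mul_of_nonneg_left (S.aa_sq_lip (by linarith) hq ha ha') (sq_nonneg β)
      linarith
  · refine ⟨fun a ha => ?_, fun a a' ha ha' => ?_⟩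
    · show |a ^ 2| ≤ _
      rw [abs_of_nonneg (sq_nonneg _)]
      linarith [sq_lt_one ha]
    · show |a ^ 2 - a' ^ 2| ≤ _
      rw [sq_sub_sq, abs_mul]
      refine mul_le_mul_of_nonneg_right ?_ (abs_nonneg _)
      nlinarith [abs_add_le a a']

/-- the levels -/
def lev (b0 : ℝ) (N : ℕ) (j : Fin (N + 1)) : ℝ := max ((j : ℕ) / N) b0

theorem lev_mem {b0 : ℝ} (hb : b0 ∈ Icc (0 : ℝ) 1) (N : ℕ) (j : Fin (N + 1)) :
    lev b0 N j ∈ Icc (0 : ℝ) 1 :=
  ⟨hb.1.trans (le_max_right _ _), max_le (div_le_one_of_le₀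
    (by exact_mod_cast Nat.lt_succ_iff.1 j.2) (Nat.cast_nonneg _)) hb.2⟩

theorem exists_lev {b0 δ x : ℝ} {N : ℕ} (h0 : 0 < δ) (hN : 1 ≤ δ * N) (hx : x ∈ Icc (0 : ℝ) 1)
    (hb : b0 - δ ≤ x) : ∃ j : Fin (N + 1), lev b0 N j ≤ max x b0 ∧ max x b0 - δ ≤ lev b0 N j ∧
      |x - lev b0 N j| ≤ 2 * δ := by
  have hN' : (0 : ℝ) < N := by
    by_contra hc
    nlinarith [mul_nonneg h0.le (neg_nonneg.2 (not_lt.1 hc))]
  have h1 : x * N ≤ (N : ℕ) := mul_le_of_le_one_left hN'.le hx.2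
  have h2 := Nat.floor_le (mul_nonneg hx.1 hN'.le)
  have h3 := Nat.lt_floor_add_one (x * N)
  have h4 : (⌊x * N⌋₊ : ℝ) / N ≤ x := by rw [div_le_iff₀ hN']; exact h2
  have h5 : x - δ ≤ (⌊x * N⌋₊ : ℝ) / N := by rw [le_div_iff₀ hN']; nlinarith
  refine ⟨⟨⌊x * N⌋₊, Nat.lt_succ_of_le (Nat.floor_le_of_le h1)⟩, max_le_max h4 le_rfl, ?_, ?_⟩
  · show max x b0 - δ ≤ max ((⌊x * N⌋₊ : ℝ) / N) b0
    rcases le_total x b0 with h | h
    · rw [max_eq_right h]; linarith [le_max_right ((⌊x * N⌋₊ : ℝ) / N) b0]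
    · rw [max_eq_left h]; exact h5.trans (le_max_left _ _)
  · show |x - max ((⌊x * N⌋₊ : ℝ) / N) b0| ≤ 2 * δ
    have h6 : max ((⌊x * N⌋₊ : ℝ) / N) b0 ≤ x + δ := max_le (by linarith) (by linarith)
    exact abs_le.2 ⟨by linarith, by linarith [le_max_left ((⌊x * N⌋₊ : ℝ) / N) b0]⟩

end Crest.Agent.T157.Sc

end
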