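import Crest.Agent.T157.Sc4_68

/-!
Row 157, part D (helper68): (SC) from the rounding lemma.
-/

set_option autoImplicit false

noncomputable section

namespace Crest.Agent.T157.Sc

open MeasureTheory Matrix Set Real
open Crest.Agent.T157.E Crest.Agent.T157.Eig Crest.Agent.T157.Conc Crest.Agent.T157.St
open Crest.Agent.T157.Cond
open Crest.Agent.T157.Pf (Par)

variable {n : ℕ} {β C b : ℝ}

theorem int_shift {L : (Fin n → ℝ) → ℝ} {s e : ℝ} (h : ∫ z, exp (L (s • z)) ∂E.gv (Fin n) ≤ exp e)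
    (c : ℝ) : ∫ z, exp (L (s • z) - -c) ∂E.gv (Fin n) ≤ exp (e + c) := by
  simp only [sub_neg_eq_add, exp_add]
  rw [integral_mul_const]
  exact mul_le_mul_of_nonneg_right h (exp_pos _).le

/-- both tilts, optimised -/
def Two (S : Site β C b) (A : Matrix (Fin n) (Fin n) ℝ) (r : Bool → ℝ → ℝ) (b0 δ K t e : ℝ) : Prop :=
  ∃ L : (Fin n → ℝ) → ℝ, ELip (√n) L ∧
    (∀ y, ∀ m ∈ box n, b0 - δ ≤ qq m → ∃ q ∈ Icc b0 1, q ≤ max (qq m) b0 ∧
      max (qq m) b0 - δ ≤ q ∧ |qq m - q| ≤ 2 * δ ∧ ∀ τ, V S A m + y ⬝ᵥ m +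
        n * ((av (fun j => gT S τ q (m j)) - r τ q) ^ 2 / (4 * K)) ≤ L y) ∧
    ∫ z, exp (L (√t • z)) ∂E.gv (Fin n) ≤ exp (n * (S.P + t / 2 + e))

theorem tp_le {η t : ℝ} (h0 : 0 < η) (h1 : η ≤ 1 / 2) (ht : 0 ≤ t) :
    t ≤ t / (1 - η ^ 4) ^ 2 ∧ t / (1 - η ^ 4) ^ 2 ≤ t + t * η ^ 2 := by
  have h2 : η ^ 2 ≤ 1 / 4 := by nlinarith
  have h4 : η ^ 4 ≤ η ^ 2 / 4 := by nlinarith [sq_nonneg η]
  have h5 : 0 < η ^ 4 := by positivity
  have h6 : 0 < (1 - η ^ 4) ^ 2 := pow_pos (by linarith) 2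
  refine ⟨le_div_self ht h6 (by nlinarith), ?_⟩
  rw [div_le_iff₀ h6]
  have h7 : 1 ≤ (1 + η ^ 2) * (1 - η ^ 4) ^ 2 := by nlinarith [sq_nonneg η, sq_nonneg (η ^ 4)]
  nlinarith [mul_le_mul_of_nonneg_left h7 ht]

theorem log_le_pow {x r : ℝ} (hx : 0 < x) (hr : 0 < r) (k : ℕ) (h : x ≤ r ^ k) : log x ≤ k * r := by
  have h1 := log_le_log hx h
  rw [log_pow] at h1
  exact h1.trans (mul_le_mul_of_nonneg_left ((log_le_sub_one_of_pos hr).trans (by linarith))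
    (Nat.cast_nonneg _))

theorem two (hR : RoundStmt) (hβ : 1 ≤ β) (hC : 1 ≤ C) : ∃ C3 : ℝ, 1 ≤ C3 ∧
    ∀ (P : Par), P.OK → ∀ S : Site β C P.b, Rel P S → ∀ η : ℝ, 0 < η → η ≤ 1 / 2 → ∀ n : ℕ,
    1 ≤ n * η ^ 4 → ∀ t b0 : ℝ, 0 ≤ t → b0 ∈ Icc (0 : ℝ) 1 → (t = 0 ∨ P.b ≤ b0) →
    goe (Fin n) (1 / √n) {W | opn W ≤ 3 ∧ ¬ Two S (β • W)
      (fun τ q => P.E β (q + t / (1 - η ^ 4) ^ 2 / β ^ 2) fun x => gT S τ q (S.p1 q x)) b0 (η ^ 4)
      ((β ^ 2) ^ 2 + (2 * C * β ^ 2) ^ 2 / 2) t (C3 * (1 + t) * η ^ 2)} ≤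
      ENNReal.ofReal (32 / η ^ 5 * exp (-(n * η ^ 4 / β ^ 2))) := by
  obtain ⟨C2, hC2, hF⟩ := fam hR hβ hC
  have hb : 1 ≤ β ^ 2 := one_le_pow₀ hβ
  set K := (β ^ 2) ^ 2 + (2 * C * β ^ 2) ^ 2 / 2 with hK
  have hK1 : (β ^ 2) ^ 2 ≤ K := by rw [hK]; exact le_add_of_nonneg_right (by positivity)
  have hK0 : 0 < K := lt_of_lt_of_le (by positivity) hK1
  have hL : 0 ≤ 2 * C * β ^ 2 := by positivity
  refine ⟨20 + C2 * (2 + 2 * C * β ^ 2) + K, by nlinarith, fun P h S hS η h0 h1 n hn t b0 ht hb0 hc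
    => ?_⟩
  have hn' : (0 : ℝ) < n := Nat.cast_pos.2 (Nat.pos_of_ne_zero fun e => by
    rw [e] at hn; norm_num at hn)
  have hn0 : 0 < n := by exact_mod_cast hn'
  set ρ := η⁻¹ with hρ
  have hρη : ρ * η = 1 := inv_mul_cancel₀ h0.ne'
  have hρ2 : 2 ≤ ρ := by nlinarith
  have hρ0 : 0 < ρ := by linarith
  have hρ4 : 16 ≤ ρ ^ 4 := by
    have := pow_le_pow_left₀ zero_le_two hρ2 4
    linarith
  set N := ⌈ρ ^ 4⌉₊ with hN
  set J := ⌈ρ⌉₊ with hJ
  have hN1 : ρ ^ 4 ≤ N := Nat.le_ceil _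
  have hN2 : (N : ℝ) ≤ ρ ^ 4 + 1 := (Nat.ceil_lt_add_one (by positivity)).le
  have hJ1 : ρ ≤ J := Nat.le_ceil _
  have hJ2 : (J : ℝ) ≤ ρ + 1 := (Nat.ceil_lt_add_one (by positivity)).le
  have hJ0 : 0 < J := Nat.ceil_pos.2 hρ0
  have e4 : η ^ 4 * ρ ^ 4 = 1 := by rw [← mul_pow, mul_comm, hρη, one_pow]
  have hδN : 1 ≤ η ^ 4 * N := by rw [← e4]; gcongr
  have h2 : η ^ 2 ≤ 1 / 4 := by nlinarith
  have h4 : η ^ 4 ≤ η ^ 2 := by nlinarith [sq_nonneg η]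
  have hcard : (Fintype.card (Bool × Fin (N + 1) × Fin (2 * J + 1)) : ℝ) ≤ (2 * ρ) ^ 5 := by
    simp only [Fintype.card_prod, Fintype.card_bool, Fintype.card_fin]
    push_cast
    have a1 : (N : ℝ) + 1 ≤ 2 * ρ ^ 4 := by linarith
    have a2 : 2 * (J : ℝ) + 1 ≤ 4 * ρ := by linarith
    have a3 := mul_le_mul a1 a2 (by positivity) (by positivity)
    nlinarith [pow_pos hρ0 5]
  have hε : ∀ k, |bk J k / β ^ 2| * β ^ 2 ≤ 1 := fun k => by
    rw [abs_div, abs_of_pos (by positivity : 0 < β ^ 2), div_mul_cancel₀ _ (by positivity)]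
    exact abs_bk hJ0 k
  have key := hF P h S hS n hn0 N (η ^ 4) (ρ ^ 3) t (β ^ 2) (2 * C * β ^ 2) (n * η ^ 2)
    (by positivity) (by linarith) hδN (one_le_pow₀ (by linarith)) ht hb hL (by positivity)
    (Bool × Fin (N + 1) × Fin (2 * J + 1)) (fun i => lev b0 N i.2.1) (fun i => bk J i.2.2 / β ^ 2)
    (fun i => gT S i.1 (lev b0 N i.2.1)) fun i => ⟨lev_mem hb0 N _,
      hc.imp_right fun h => h.trans (le_max_right _ _), tst_gT hβ hC S _ (lev_mem hb0 N _), hε _⟩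
  clear hF
  refine le_trans (measure_mono ?_) (key.trans (ENNReal.ofReal_le_ofReal ?_))
  · refine fun W hW => ⟨hW.1, fun hf => hW.2 ?_⟩
    obtain ⟨L, hL1, hL2, hL3⟩ := hf
    refine ⟨_, hL1.sub_const (-(n * (K * η ^ 2))), fun y m hm hq => ?_,
      (int_shift hL3 _).trans (exp_le_exp.2 ?_)⟩
    · obtain ⟨j, a1, a2, a3⟩ := exists_lev (by positivity) hδN (qq_mem hm) hq
      have hj := lev_mem hb0 N j
      refine ⟨lev b0 N j, ⟨le_max_right _ _, hj.2⟩, a1, a2, a3, fun τ => ?_⟩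
      have hT := tst_gT hβ hC S τ hj
      obtain ⟨k, hk⟩ := exists_eps hJ0 hb hK1 (η := η)
        (D := av (fun i => gT S τ (lev b0 N j) (m i)) - P.E β (lev b0 N j +
          t / (1 - η ^ 4) ^ 2 / β ^ 2) fun x => gT S τ (lev b0 N j) (S.p1 (lev b0 N j) x))
        ((abs_sub _ _).trans (by
          linarith [abs_av_le hn0 fun i => hT.1 _ (hm i), P.E_abs_le β (lev b0 N j +
            t / (1 - η ^ 4) ^ 2 / β ^ 2) (hT.bc S hj)]))
        (by rw [div_le_iff₀ (by linarith)]; nlinarith)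
      have a4 := hL2 y m hm (τ, j, k) a3
      have a5 := mul_le_mul_of_nonneg_left hk hn'.le
      simp only [← hK] at a4 ⊢
      rw [mul_sub] at a5
      linarith
    · have a1 := (tp_le h0 h1 ht).2
      have a2 : log (2 * N + 1) / ρ ^ 3 ≤ 8 * η ^ 2 := by
        have := log_le_pow (x := 2 * N + 1) (r := 2 * ρ) (by positivity) (by positivity) 4
          (by nlinarith)
        rw [div_le_iff₀ (by positivity),
          show 8 * η ^ 2 * ρ ^ 3 = 8 * ρ * (ρ * η) ^ 2 by ring, hρη]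
        push_cast at this
        linarith
      have a3 : log (Fintype.card (Bool × Fin (N + 1) × Fin (2 * J + 1))) ≤ n * (10 * η ^ 2) := by
        have := log_le_pow (by exact_mod_cast Fintype.card_pos) (by positivity) 5 hcard
        have b1 : ρ ≤ n * η ^ 2 := by
          have b2 := mul_le_mul_of_nonneg_left hn hρ0.le
          rw [show ρ * (n * η ^ 4) = n * η ^ 2 * η * (ρ * η) by ring, hρη] at b2
          nlinarith [mul_pos hn' (pow_pos h0 2)]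
        push_cast at this
        linarith
      have a4 : C2 * η ^ 4 * (1 + 2 * C * β ^ 2 + ρ ^ 3 * η ^ 4) ≤
          C2 * (2 + 2 * C * β ^ 2) * η ^ 2 := by
        rw [show ρ ^ 3 * η ^ 4 = (ρ * η) ^ 3 * η by ring, hρη, one_pow, one_mul,
          mul_right_comm C2 (2 + 2 * C * β ^ 2)]
        exact mul_le_mul (mul_le_mul_of_nonneg_left h4 (by linarith)) (by linarith) (by positivity)
          (by positivity)
      have a5 : 0 ≤ (19 + C2 * (2 + 2 * C * β ^ 2) + K) * t * η ^ 2 := by positivity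
      have a6 : S.P + t / (1 - η ^ 4) ^ 2 / 2 + log (2 * N + 1) / ρ ^ 3 +
          C2 * η ^ 4 * (1 + 2 * C * β ^ 2 + ρ ^ 3 * η ^ 4) + η ^ 2 + 10 * η ^ 2 + K * η ^ 2 ≤
          S.P + t / 2 + (20 + C2 * (2 + 2 * C * β ^ 2) + K) * (1 + t) * η ^ 2 := by
        nlinarith [mul_nonneg ht (sq_nonneg η), sq_nonneg η]
      nlinarith [mul_le_mul_of_nonneg_left a6 hn'.le]
  · have e1 : -(n * η ^ 2) ^ 2 / (β ^ 2 * n) = -(n * η ^ 4 / β ^ 2) := by field_simp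
    have e2 : (2 * ρ) ^ 5 = 32 / η ^ 5 := by rw [hρ]; field_simp; norm_num
    rw [e1, ← e2]
    exact mul_le_mul_of_nonneg_right hcard (exp_pos _).le

theorem r_false {P : Par} (hβ : 0 < β) (h : P.OK) (S : Site β C P.b) (hS : Rel P S) {q u : ℝ}
    (hq : q ∈ Icc (0 : ℝ) 1) (hu : 0 ≤ u) (hc : u = 0 ∨ P.b ≤ q) :
    P.E β (q + u) (fun x => gT S false q (S.p1 q x)) = -P.Gam' β (q + u) := by
  have e : P.Pxx β q = P.Pxx β (q + u) := by
    rcases hc with rfl | hc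
    · rw [add_zero]
    · show deriv (P.Px β q) = deriv (P.Px β (q + u))
      rw [h.Px_top hβ hc, h.Px_top hβ (by linarith)]
  have e2 : (fun x => gT S false q (S.p1 q x)) = fun x => -β ^ 2 * P.Pxx β (q + u) x ^ 2 := by
    funext x
    show -β ^ 2 * S.p2 q (S.X q (S.p1 q x)) ^ 2 = _
    rw [S.X_p1 hq, hS.2.2.1, e]
  rw [e2, Par.E_const_mul, Par.Gam', neg_mul]

theorem r_true {P : Par} (hβ : 0 < β) (h : P.OK) (S : Site β C P.b) (hS : Rel P S) {q u : ℝ}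
    (hu : 0 ≤ u) (hc : P.b ≤ q) :
    P.E β (q + u) (fun x => gT S true q (S.p1 q x)) = P.Gam β (q + u) := by
  have e2 : (fun x => gT S true q (S.p1 q x)) = fun x => P.Px β (q + u) x ^ 2 := by
    funext x
    show S.p1 q x ^ 2 = _
    rw [hS.2.1, h.Px_top hβ hc, h.Px_top hβ (by linarith)]
  rw [e2, Par.Gam]

theorem av_true (S : Site β C b) (q : ℝ) (m : Fin n → ℝ) :
    av (fun j => gT S true q (m j)) = qq m := by
  unfold av qq
  rw [dot_self_eq]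
  rfl

theorem av_false (hn : 0 < n) (hC : 1 ≤ C) (S : Site β C b) {q η : ℝ} (hq : q ∈ Icc (0 : ℝ) 1)
    {m : Fin n → ℝ} (hm : m ∈ box n) (h : |qq m - q| ≤ 2 * η ^ 4) :
    |av (fun j => gT S false q (m j)) - (kap S m - 1)| ≤ 12 * C * β ^ 2 * η ^ 2 := by
  have e : av (fun j => gT S false q (m j)) - (kap S m - 1) =
      av fun j => β ^ 2 * (S.aa (qq m) (m j) ^ 2 - S.aa q (m j) ^ 2) := by
    show av (fun j => -β ^ 2 * S.aa q (m j) ^ 2) - (kap S m - 1) = _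
    unfold kap av
    rw [← Finset.mul_sum, ← Finset.mul_sum, Finset.sum_sub_distrib]
    ring
  rw [e]
  refine abs_av_le hn fun j => ?_
  have h1 := S.aa_time hC hq (qq_mem hm) (hm j)
  have h2 : √|qq m - q| ≤ 2 * η ^ 2 := sqrt_le_iff.2 ⟨by positivity, by nlinarith [sq_nonneg (η ^ 2)]⟩
  have h3 : |S.aa (qq m) (m j) + S.aa q (m j)| ≤ 2 := by
    rw [abs_of_pos (add_pos (S.aa_pos (qq_mem hm) _) (S.aa_pos hq _))]
    linarith [S.aa_le (qq_mem hm) (m j), S.aa_le hq (m j)]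
  have h4 := mul_le_mul h3 (h1.trans (mul_le_mul_of_nonneg_left h2 (by positivity)))
    (abs_nonneg _) zero_le_two
  rw [abs_mul, abs_of_nonneg (sq_nonneg β), sq_sub_sq, abs_mul]
  nlinarith [mul_le_mul_of_nonneg_left h4 (sq_nonneg β)]

theorem abs_kap_le (hn : 0 < n) (hβ : 1 ≤ β) (S : Site β C b) {m : Fin n → ℝ} (hm : m ∈ box n) :
    |kap S m| ≤ β ^ 2 := by
  have hb : 1 ≤ β ^ 2 := one_le_pow₀ hβ
  have h1 : |av fun i => S.aa (qq m) (m i) ^ 2| ≤ 1 := abs_av_le hn fun i => by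
    rw [abs_of_nonneg (sq_nonneg _)]
    exact pow_le_one₀ (S.aa_pos (qq_mem hm) _).le (S.aa_le (qq_mem hm) _)
  have h2 : 0 ≤ av fun i => S.aa (qq m) (m i) ^ 2 := by unfold av; positivity
  unfold kap
  exact abs_le.2 ⟨by nlinarith [le_of_abs_le h1], by nlinarith⟩

theorem sc_of_round (hR : RoundStmt) : ScStmt := by
  intro β C c0 C0 hβ hC hc0
  obtain ⟨C3, hC3, hT⟩ := two hR hβ hC
  have hb : 1 ≤ β ^ 2 := one_le_pow₀ hβ
  have hβ0 : 0 < β := by linarith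
  set K := (β ^ 2) ^ 2 + (2 * C * β ^ 2) ^ 2 / 2 with hK
  have hK1 : 1 ≤ K := by rw [hK]; nlinarith [sq_nonneg (2 * C * β ^ 2)]
  set C4 := 2 * β ^ 2 * (12 * C * β ^ 2 + 1) with hC4
  have hC40 : 0 ≤ C4 := by positivity
  set c := 1 / (8 * K) with hc
  have hc1 : c ≤ 1 := (div_le_one (by linarith)).2 (by linarith)
  have hcp : 0 < c := by positivity
  have hcK : ∀ D : ℝ, D ^ 2 / (4 * K) = 2 * c * D ^ 2 := fun D => by rw [hc]; field_simp; ring
  refine ⟨c, C3 + C4 + 32 + 2 * β ^ 2, hcp, hc1, by linarith,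
    fun P η h hG S hS h0 h1 n hn => ?_⟩
  have hn' : (0 : ℝ) < n := Nat.cast_pos.2 (Nat.pos_of_ne_zero fun e => by
    rw [e] at hn; norm_num at hn)
  have hn0 : 0 < n := by exact_mod_cast hn'
  have hη2 : 0 < η ^ 2 := by positivity
  have hη : η ^ 4 ≤ η ^ 2 := by nlinarith [show η ^ 2 ≤ 1 by nlinarith]
  have hpr : ENNReal.ofReal (32 / η ^ 5 * exp (-(n * η ^ 4 / β ^ 2))) ≤
      ENNReal.ofReal ((C3 + C4 + 32 + 2 * β ^ 2) / η ^ 5 *
        exp (-(n * η ^ 4 / (C3 + C4 + 32 + 2 * β ^ 2)))) := by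
    refine ENNReal.ofReal_le_ofReal ?_
    gcongr <;> linarith
  refine ⟨le_trans (measure_mono ?_)
    ((hT P h S hS η h0 h1 n hn 0 0 le_rfl ⟨le_rfl, zero_le_one⟩ (Or.inl rfl)).trans hpr),
    fun t ht => le_trans (measure_mono ?_)
    ((hT P h S hS η h0 h1 n hn t P.b ht ⟨S.b0, S.b1⟩ (Or.inr le_rfl)).trans hpr)⟩
  · refine fun W hW => ⟨hW.1, fun hf => hW.2 ?_⟩
    obtain ⟨L, -, hL2, hL3⟩ := hf
    intro m hm hq
    have hqm := qq_mem hm
    obtain ⟨q, hq1, a1, -, a3, a4⟩ := hL2 0 m hm (by linarith [hqm.1, pow_pos h0 4])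
    have a5 := a4 false
    simp only [sqrt_zero, zero_smul, integral_const, probReal_univ, smul_eq_mul, one_mul,
      exp_le_exp] at hL3
    rw [max_eq_left hqm.1] at a1
    simp only [zero_div] at a5 hL3
    rw [r_false hβ0 h S hS hq1 le_rfl (Or.inl rfl), add_zero, zero_dotProduct, hcK] at a5
    have a6 := av_false (β := β) hn0 hC S hq1 hm a3
    have a7 := hG.gam' q ⟨hq1.1, a1.trans hq⟩
    set D := av (fun j => gT S false q (m j)) - -P.Gam' β q with hD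
    have a8 := sq_le_of_le_abs (D := D) (e := (12 * C * β ^ 2 + 1) * η ^ 2) (abs_nonneg _)
      (abs_kap_le hn0 hβ S hm) (by positivity) (abs_le.2
        ⟨by linarith [neg_abs_le D, abs_le.1 a6, abs_le.1 a7],
          by linarith [le_abs_self D, abs_le.1 a6, abs_le.1 a7]⟩)
    rw [sq_abs] at a8
    have a9 : c * kap S m ^ 2 ≤ 2 * c * D ^ 2 + (C4 + 32 + 2 * β ^ 2) * η ^ 2 := by
      have b1 := mul_le_mul_of_nonneg_left a8 hcp.le
      have b2 := mul_le_mul_of_nonneg_right hc1 (mul_nonneg hC40 hη2.le)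
      have b3 := mul_nonneg hcp.le (sq_nonneg D)
      rw [hC4] at b2 ⊢
      nlinarith
    nlinarith [mul_le_mul_of_nonneg_left a9 hn'.le]
  · refine fun W hW => ⟨hW.1, fun hf => hW.2 ?_⟩
    obtain ⟨L, hL1, hL2, hL3⟩ := hf
    obtain ⟨t1, t2⟩ := tp_le h0 h1 ht
    set t' := t / (1 - η ^ 4) ^ 2 with ht'
    refine ⟨_, hL1.sub_const (-(n * ((C4 + 32 + 2 * β ^ 2) * (1 + t) * η ^ 2))),
      fun y m hm hq => ?_, (int_shift hL3 _).trans (le_of_eq (by congr 1; ring))⟩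
    have hqm := qq_mem hm
    obtain ⟨q, hq1, a1, a2, a3, a4⟩ := hL2 y m hm hq
    have hq0 : q ∈ Icc (0 : ℝ) 1 := ⟨S.b0.trans hq1.1, hq1.2⟩
    have hu : 0 ≤ t' / β ^ 2 := div_nonneg (ht.trans t1) (by positivity)
    have a5 := a4 false
    have a5' := a4 true
    simp only at a5 a5'
    rw [r_false hβ0 h S hS hq0 hu (Or.inr hq1.1), hcK] at a5
    rw [r_true hβ0 h S hS hu hq1.1, av_true, hcK] at a5'
    have a6 := av_false (β := β) hn0 hC S hq0 hm a3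
    have a7 := hG.top (q + t' / β ^ 2) (by linarith [hq1.1])
    have a7' := mul_nonneg hc0 (le_min (by linarith [hq1.1] : 0 ≤ q + t' / β ^ 2 - P.b) zero_le_one)
    set D := av (fun j => gT S false q (m j)) - -P.Gam' β (q + t' / β ^ 2) with hD
    have a8 := sq_le_of_le_abs (x := max (-kap S m) 0) (D := D) (e := (12 * C * β ^ 2 + 1) * η ^ 2)
      (le_max_right _ _) (max_le ((neg_le_abs _).trans (abs_kap_le hn0 hβ S hm)) (by positivity))
      (by positivity) (max_le (by linarith [neg_abs_le D, abs_le.1 a6]) (by positivity))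
    set s := max (qq m) P.b + t / β ^ 2 with hs
    have hs0 : 0 ≤ s := add_nonneg (hqm.1.trans (le_max_left _ _)) (by positivity)
    have g1 := h.Gam_lip hβ0 (add_nonneg hq0.1 hu) hs0
    have g2 : β ^ 2 * |q + t' / β ^ 2 - s| ≤ (β ^ 2 + t) * η ^ 2 := by
      rw [← abs_of_pos (by positivity : 0 < β ^ 2), ← abs_mul, abs_of_pos (by positivity : 0 < β ^ 2),
        show β ^ 2 * (q + t' / β ^ 2 - s) = β ^ 2 * (q - max (qq m) P.b) + (t' - t) by
          rw [hs]; field_simp; ring]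
      exact abs_le.2 ⟨by nlinarith, by nlinarith⟩
    set D' := qq m - P.Gam β (q + t' / β ^ 2) with hD'
    have a8' := sq_le_of_le_abs (x := |qq m - P.Gam β s|) (D := D') (B := 1)
      (e := (β ^ 2 + t) * η ^ 2) (abs_nonneg _) (abs_le.2
        ⟨by linarith [hqm.1, h.Gam_le_one β s], by linarith [hqm.2, h.Gam_nonneg β s]⟩)
      (by positivity) (abs_le.2
        ⟨by linarith [neg_abs_le D', abs_le.1 g1], by linarith [le_abs_self D', abs_le.1 g1]⟩)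
    rw [sq_abs] at a8'
    have a9 : c * (max (-kap S m) 0 ^ 2 + (qq m - P.Gam β s) ^ 2) ≤ c * D ^ 2 + c * D' ^ 2 +
        (C4 + 32 + 2 * β ^ 2) * (1 + t) * η ^ 2 := by
      have b1 := mul_le_mul_of_nonneg_left (add_le_add a8 a8') hcp.le
      have b2 := mul_le_mul_of_nonneg_right hc1
        (show 0 ≤ C4 * η ^ 2 + 2 * ((β ^ 2 + t) * η ^ 2) by positivity)
      have b3 : 0 ≤ (C4 + 30 + 2 * β ^ 2) * t * η ^ 2 := by positivity
      rw [hC4] at b2 b3 ⊢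
      nlinarith
    nlinarith [mul_le_mul_of_nonneg_left a9 hn'.le]

end Crest.Agent.T157.Sc

end
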