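import Crest.Agent.T157.Sc2b_68
import Crest.Agent.T157.StA_44

/-!
Row 157, part D (helper68): the two halves of (SC), definitions and statements.
-/

set_option autoImplicit false

noncomputable section

namespace Crest.Agent.T157.Sc

open MeasureTheory Matrix Set
open Crest.Agent.T157.E Crest.Agent.T157.Eig Crest.Agent.T157.Conc Crest.Agent.T157.St
open Crest.Agent.T157.Pf Crest.Agent.T157.Cond

variable {n : ℕ} {β C b : ℝ}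

/-- the grid `(k - N) / N` of `[-1, 1]` -/
def bk (N : ℕ) (k : Fin (2 * N + 1)) : ℝ := ((k : ℝ) - N) / N

/-- the penalised and tilted energy at the level `q` -/
def En (S : Site β C b) (A : Matrix (Fin n) (Fin n) ℝ) (M q ε : ℝ) (g : ℝ → ℝ) (a : Fin n → ℝ) :
    ℝ := Psi S A q a + ε * ∑ i, g (a i) - M * β ^ 2 * n / 4 * (qq a - q) ^ 2

/-- the soft maximum over the grid, in the field `y` -/
def LN (S : Site β C b) (A : Matrix (Fin n) (Fin n) ℝ) (N : ℕ) (δ M q ε : ℝ) (g : ℝ → ℝ)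
    (y : Fin n → ℝ) : ℝ :=
  M⁻¹ * Real.log (∑ s : Fin n → Fin (2 * N + 1), Real.exp (M *
    (En S A M q ε g (fun i => (1 - δ) * bk N (s i)) + (fun i => bk N (s i)) ⬝ᵥ y)))

/-- `g` is bounded by `G` and `L`-Lipschitz on `(-1, 1)` -/
def Tst (g : ℝ → ℝ) (G L : ℝ) : Prop :=
  (∀ a, |a| < 1 → |g a| ≤ G) ∧ ∀ a a', |a| < 1 → |a'| < 1 → |g a - g a'| ≤ L * |a - a'|

/-- the probabilistic half: the Guerra bound for the soft maximum -/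
def CoreStmt : Prop :=
  ∀ (β C : ℝ) (P : Par), 0 < β → P.OK → ∀ S : Site β C P.b, Rel P S → ∀ n : ℕ, 0 < n →
    ∀ (N : ℕ) (δ M q ε t G L u : ℝ) (g : ℝ → ℝ), 0 < N → 0 < δ → δ < 1 → 1 ≤ M →
    q ∈ Icc (0 : ℝ) 1 → 0 ≤ t → (t = 0 ∨ P.b ≤ q) → Tst g G L → |ε| * G ≤ 1 → 0 ≤ u →
    (goe (Fin n) (1 / √n)).real {W | n * (S.P + t / (1 - δ) ^ 2 / 2 +
        ε * P.E β (q + t / (1 - δ) ^ 2 / β ^ 2) (fun x => g (S.p1 q x)) +
        ε ^ 2 * (G ^ 2 + L ^ 2 / 2) + Real.log (2 * N + 1) / M) + u ≤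
      Real.log (∫ z, Real.exp (LN S (β • W) N δ M q ε g (√t • z)) ∂E.gv (Fin n))} ≤
      Real.exp (-u ^ 2 / (β ^ 2 * n))

/-- the deterministic half: rounding to the grid -/
def RoundStmt : Prop :=
  ∀ β C : ℝ, 1 ≤ β → 1 ≤ C → ∃ C2 : ℝ, 1 ≤ C2 ∧ ∀ (b : ℝ) (S : Site β C b) (n : ℕ), 0 < n →
    ∀ (W : Matrix (Fin n) (Fin n) ℝ) (N : ℕ) (δ M q ε G L : ℝ) (g : ℝ → ℝ), opn W ≤ 3 →
    0 < δ → δ ≤ 1 / 2 → 1 ≤ δ * N → 0 < M → q ∈ Icc (0 : ℝ) 1 → Tst g G L → 0 ≤ L →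
    ELip (√n) (LN S (β • W) N δ M q ε g) ∧
    ∀ y, ∀ m ∈ box n, |qq m - q| ≤ 2 * δ →
      V S (β • W) m + y ⬝ᵥ m + ε * ∑ i, g (m i) - n * (C2 * δ * (1 + |ε| * L + M * δ)) ≤
        LN S (β • W) N δ M q ε g y

end Crest.Agent.T157.Sc

end
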