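import Mathlib

/-!
Row 157, part D (helper49): the linear Schwinger–Dyson system in the (discrete) Parisi algebra,
its explicit solution, and the size of the solution at the spectral edge.
-/

set_option autoImplicit false

noncomputable section

namespace Crest.Agent.T157.SdA

open Finset

section alg
variable {F : Type*} [Field F]

/-- jumps of the exponents -/
def D (m : ℕ → F) (j : ℕ) : F := m (j + 1) - m j

/-- `ĝ_j = g_d - m_{j+1} g_j - ∑_{j<l≤K} D_l g_l` -/
def hat (K : ℕ) (m : ℕ → F) (gd : F) (g : ℕ → F) (j : ℕ) : F :=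
  gd - m (j + 1) * g j - ∑ l ∈ Ioc j K, D m l * g l

/-- diagonal entry of the product of `(1, q)` and `(g_d, g)` -/
def prD (K : ℕ) (m q : ℕ → F) (gd : F) (g : ℕ → F) : F :=
  gd - ∑ l ∈ range (K + 1), D m l * q l * g l

/-- level `j` entry of the product of `(1, q)` and `(g_d, g)` -/
def pr (K : ℕ) (m q : ℕ → F) (gd : F) (g : ℕ → F) (j : ℕ) : F :=
  g j * hat K m 1 q j + q j * hat K m gd g j - ∑ l ∈ range j, D m l * q l * g l + m j * q j * g j

/-- defect of the diagonal equation -/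
def errD (K : ℕ) (m q : ℕ → F) (a b : F) (gd : F) (g : ℕ → F) : F :=
  a * gd - 1 - b * prD K m q gd g

/-- defect of the level `j` equation -/
def err (K : ℕ) (m q : ℕ → F) (a b : F) (gd : F) (g : ℕ → F) (j : ℕ) : F :=
  a * g j - q j - b * pr K m q gd g j

/-- `a - b λ_j` -/
def ww (K : ℕ) (m q : ℕ → F) (a b : F) (j : ℕ) : F := a - b * hat K m 1 q j

/-- level entries of `(a - b R)⁻¹` -/
def M (K : ℕ) (m q : ℕ → F) (a b : F) (j : ℕ) : F :=
  b * q 0 / (ww K m q a b 0 * ww K m q a b 0) +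
    ∑ l ∈ range j, b * (q (l + 1) - q l) / (ww K m q a b l * ww K m q a b (l + 1))

/-- diagonal entry of `(a - b R)⁻¹` -/
def Md (K : ℕ) (m q : ℕ → F) (a b : F) : F := 1 / ww K m q a b K + M K m q a b K

/-- the diagonal entry of the exact solution -/
def gId (K : ℕ) (m q : ℕ → F) (a b : F) : F := prD K m q (Md K m q a b) (M K m q a b)

variable {K : ℕ} {m q : ℕ → F} {a b : F}

theorem hat_succ (gd : F) (g : ℕ → F) {j : ℕ} (hj : j < K) :
    hat K m gd g j = hat K m gd g (j + 1) + m (j + 1) * (g (j + 1) - g j) := by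
  rw [hat, hat, ← sum_Ioc_consecutive _ (Nat.le_succ j) hj, Nat.Ioc_succ_singleton, sum_singleton,
    D]
  ring

theorem hat_top (hm : m (K + 1) = 1) (gd : F) (g : ℕ → F) : hat K m gd g K = gd - g K := by
  simp [hat, hm]

theorem pr_succ (gd : F) (g : ℕ → F) {j : ℕ} (hj : j < K) :
    pr K m q gd g (j + 1) = pr K m q gd g j + hat K m 1 q (j + 1) * (g (j + 1) - g j) +
      hat K m gd g j * (q (j + 1) - q j) := by
  rw [pr, pr, hat_succ 1 q hj, hat_succ gd g hj, sum_range_succ, D]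
  ring

theorem prD_eq (hm : m (K + 1) = 1) (gd : F) (g : ℕ → F) :
    prD K m q gd g = pr K m q gd g K + hat K m 1 q K * hat K m gd g K := by
  rw [prD, pr, hat_top hm, hat_top hm, sum_range_succ, D, hm]
  ring

theorem swap (f h : ℕ → F) : ∑ j ∈ range (K + 1), ∑ l ∈ range j, f j * h l =
    ∑ j ∈ range (K + 1), ∑ l ∈ Ioc j K, h j * f l := by
  rw [sum_comm' (t' := range (K + 1)) (s' := fun l => Ioc l K)]
  · exact sum_congr rfl fun l _ => sum_congr rfl fun j _ => mul_comm _ _
  · intro j l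
    simp only [mem_range, mem_Ioc]
    omega

/-- the product is self-adjoint for the trace form -/
theorem symm (ud gd : F) (u g : ℕ → F) :
    ud * prD K m q gd g - ∑ j ∈ range (K + 1), D m j * u j * pr K m q gd g j =
      gd * prD K m q ud u - ∑ j ∈ range (K + 1), D m j * g j * pr K m q ud u j := by
  have key : ∀ (ud gd : F) (u g : ℕ → F),
      ud * prD K m q gd g - ∑ j ∈ range (K + 1), D m j * u j * pr K m q gd g j =
      ud * gd - ∑ j ∈ range (K + 1), (ud * (D m j * q j * g j) + gd * (D m j * q j * u j) +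
        D m j * u j * g j * (1 - 2 * m (j + 1) * q j + m j * q j)) +
      ∑ j ∈ range (K + 1), ∑ l ∈ Ioc j K, (D m j * u j * g j) * (D m l * q l) +
      ∑ j ∈ range (K + 1), ∑ l ∈ Ioc j K, (D m j * q j * u j) * (D m l * g l) +
      ∑ j ∈ range (K + 1), ∑ l ∈ Ioc j K, (D m j * q j * g j) * (D m l * u l) := by
    intro ud gd u g
    rw [← swap (fun j => D m j * u j) (fun l => D m l * q l * g l), prD, mul_sub, mul_sum,
      sub_sub, ← sum_add_distrib, add_assoc, add_assoc, ← sum_add_distrib, ← sum_add_distrib,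
      sub_add, ← sum_sub_distrib]
    congr 1
    refine sum_congr rfl fun j _ => ?_
    simp only [pr, hat, ← mul_sum]
    ring
  rw [key, key]
  have e1 : ∀ j, D m j * u j * g j = D m j * g j * u j := fun j => by ring
  simp only [e1]
  have e2 : ∑ j ∈ range (K + 1), (ud * (D m j * q j * g j) + gd * (D m j * q j * u j) +
        D m j * g j * u j * (1 - 2 * m (j + 1) * q j + m j * q j)) =
      ∑ j ∈ range (K + 1), (gd * (D m j * q j * u j) + ud * (D m j * q j * g j) +
        D m j * g j * u j * (1 - 2 * m (j + 1) * q j + m j * q j)) :=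
    sum_congr rfl fun j _ => by ring
  rw [e2]
  ring

theorem ww_succ {j : ℕ} (hj : j < K) :
    ww K m q a b (j + 1) = ww K m q a b j + b * (m (j + 1) * (q (j + 1) - q j)) := by
  rw [ww, ww, hat_succ 1 q hj]; ring

theorem M_succ (j : ℕ) : M K m q a b (j + 1) = M K m q a b j +
    b * (q (j + 1) - q j) / (ww K m q a b j * ww K m q a b (j + 1)) := by
  rw [M, M, sum_range_succ, add_assoc]

theorem hat_M (hm : m (K + 1) = 1) (hw : ∀ j ≤ K, ww K m q a b j ≠ 0) :
    ∀ j ≤ K, hat K m (Md K m q a b) (M K m q a b) j = 1 / ww K m q a b j := by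
  intro j hj
  induction hj using Nat.decreasingInduction with
  | self => rw [hat_top hm, Md]; ring
  | of_succ j hj ih =>
    have h1 := hw j hj.le
    have h2 := hw (j + 1) hj
    rw [hat_succ _ _ hj, ih, M_succ]
    field_simp
    rw [ww_succ hj]; ring

theorem pr_M (hm0 : m 0 = 0) (hm : m (K + 1) = 1) (hw : ∀ j ≤ K, ww K m q a b j ≠ 0) :
    ∀ j ≤ K, a * M K m q a b j = b * pr K m q (Md K m q a b) (M K m q a b) j := by
  intro j
  induction j with
  | zero =>
    intro h0
    have h1 := hw 0 h0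
    rw [pr, hat_M hm hw 0 h0, hm0]
    have e : M K m q a b 0 = b * q 0 / (ww K m q a b 0 * ww K m q a b 0) := by simp [M]
    have e2 : a = ww K m q a b 0 + b * hat K m 1 q 0 := by rw [ww]; ring
    rw [e]
    generalize ww K m q a b 0 = w at *
    rw [e2]
    simp only [range_zero, sum_empty]
    field_simp
    ring
  | succ j ih =>
    intro hj
    have h1 := hw j (by omega)
    have h2 := hw (j + 1) hj
    rw [pr_succ _ _ hj, mul_add, mul_add, ← ih (by omega), hat_M hm hw j (by omega), M_succ]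
    have e2 : a = ww K m q a b (j + 1) + b * hat K m 1 q (j + 1) := by rw [ww]; ring
    generalize ww K m q a b (j + 1) = w' at *
    generalize ww K m q a b j = w at *
    generalize M K m q a b j = Mj at *
    rw [e2]
    field_simp
    ring

theorem gId_eq (hm0 : m 0 = 0) (hm : m (K + 1) = 1) (hw : ∀ j ≤ K, ww K m q a b j ≠ 0) :
    b * gId K m q a b = a * Md K m q a b - 1 := by
  have h1 := hw K le_rfl
  rw [gId, prD_eq hm, mul_add, ← pr_M hm0 hm hw K le_rfl, hat_M hm hw K le_rfl, Md]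
  have e2 : a = ww K m q a b K + b * hat K m 1 q K := by rw [ww]; ring
  generalize ww K m q a b K = w at *
  generalize M K m q a b K = Mj at *
  rw [e2]
  field_simp
  ring

/-- **solution of the Schwinger–Dyson system** -/
theorem solve (hm0 : m 0 = 0) (hm : m (K + 1) = 1) (hw : ∀ j ≤ K, ww K m q a b j ≠ 0)
    (gd : F) (g : ℕ → F) :
    gd = gId K m q a b + Md K m q a b * errD K m q a b gd g -
      ∑ j ∈ range (K + 1), D m j * M K m q a b j * err K m q a b gd g j := by
  have h1 := symm (K := K) (m := m) (q := q) (Md K m q a b) gd (M K m q a b) g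
  have h2 := gId_eq hm0 hm hw
  have h3 : ∑ j ∈ range (K + 1), D m j * M K m q a b j * err K m q a b gd g j =
      b * ∑ j ∈ range (K + 1), D m j * g j * pr K m q (Md K m q a b) (M K m q a b) j -
      ∑ j ∈ range (K + 1), D m j * q j * M K m q a b j -
      b * ∑ j ∈ range (K + 1), D m j * M K m q a b j * pr K m q gd g j := by
    rw [mul_sum, mul_sum, ← sum_sub_distrib, ← sum_sub_distrib]
    refine sum_congr rfl fun j hj => ?_
    have := pr_M hm0 hm hw j (Nat.lt_succ_iff.1 (mem_range.1 hj))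
    rw [err]
    linear_combination (D m j * g j) * this
  have h4 : gId K m q a b = Md K m q a b - ∑ j ∈ range (K + 1), D m j * q j * M K m q a b j := rfl
  rw [h3, errD]
  rw [← gId] at h1
  linear_combination b * h1 + gd * h2 - h4

end alg

/-! ### the point `z = 2 + iη` -/

/-- `a = 1 / m_sc(2 + iη)`: the root of `a² - z a + 1` in the upper half plane -/
structure Root (η : ℝ) (a : ℂ) : Prop where
  eq : a * a - (2 + η * Complex.I) * a + 1 = 0
  im_pos : 0 < a.im

theorem exists_root {η : ℝ} (hη : 0 < η) : ∃ a, Root η a := by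
  obtain ⟨s, hs⟩ := IsAlgClosed.exists_pow_nat_eq ((2 + η * Complex.I) ^ 2 - 4 : ℂ) two_pos
  have key : ∀ s : ℂ, s ^ 2 = (2 + η * Complex.I) ^ 2 - 4 → 0 ≤ s.im →
      Root η ((2 + η * Complex.I + s) / 2) := fun s hs h0 =>
    ⟨by linear_combination (1 / 4 : ℂ) * hs, by simp; linarith⟩
  rcases le_total 0 s.im with h | h
  · exact ⟨_, key s hs h⟩
  · exact ⟨_, key (-s) (by rw [neg_sq, hs]) (by simpa using h)⟩

theorem Root.ne {η : ℝ} {a : ℂ} (h : Root η a) : a ≠ 0 := fun e => by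
  have := h.im_pos; simp [e] at this

theorem Root.inv {η : ℝ} {a : ℂ} (h : Root η a) : a⁻¹ = 2 + η * Complex.I - a := by
  have := h.ne
  field_simp
  linear_combination h.eq

/-- size of the root, `η = s²` -/
theorem Root.bd {s : ℝ} {a : ℂ} (h : Root (s ^ 2) a) (hs : 0 < s) (hs1 : s ≤ 1) :
    s / 4 ≤ a.re - 1 ∧ a.re - 1 ≤ s ∧ s / 2 ≤ a.im ∧ a.im ≤ 2 * s := by
  have h1 := congrArg Complex.re h.eq
  have h2 := congrArg Complex.im h.eq
  have hv := h.im_pos
  simp only [Complex.add_re, Complex.sub_re, Complex.mul_re, Complex.ofReal_re, Complex.I_re,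
    Complex.ofReal_im, Complex.I_im, Complex.add_im, Complex.mul_im, Complex.sub_im, Complex.one_re,
    Complex.one_im, Complex.zero_re, Complex.zero_im, Complex.re_ofNat, Complex.im_ofNat] at h1 h2
  obtain ⟨p, hp⟩ : ∃ p, a.re = 1 + p := ⟨a.re - 1, by ring⟩
  generalize a.im = v at *
  rw [hp] at h1 h2 ⊢
  have e1 : p ^ 2 = v ^ 2 - s ^ 2 * v := by linarith
  have e2 : 2 * p * v = s ^ 2 * (1 + p) := by linarith
  have hs2 : 0 < s ^ 2 := by positivity
  have hvs : s ^ 2 ≤ v := by nlinarith [sq_nonneg p]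
  have hp0 : 0 < p := by
    by_contra hc
    have : p ≤ 0 := not_lt.1 hc
    nlinarith
  have hp1 : p ≤ 1 := by nlinarith
  have hpv : p ≤ v := by nlinarith
  have b1 : p ≤ s := by nlinarith
  have b2 : s / 2 ≤ v := by nlinarith
  have b3 : v ≤ 2 * s := by
    by_contra hc
    have h3 : 2 * s < v := not_le.1 hc
    have h4 : s ≤ v - s ^ 2 := by nlinarith
    nlinarith [mul_le_mul h3.le h4 hs.le hv.le]
  refine ⟨by nlinarith, by linarith, b2, b3⟩

/-! ### size of the solution -/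

section size
variable {K : ℕ} {m q : ℕ → ℝ} {b : ℝ} {a : ℂ}

/-- complexification of a sequence -/
abbrev cx (q : ℕ → ℝ) : ℕ → ℂ := fun j => (q j : ℂ)

theorem hat_cx (j : ℕ) : hat K (cx m) 1 (cx q) j = ((hat K m 1 q j : ℝ) : ℂ) := by
  simp [hat, D]

theorem D_cx (j : ℕ) : D (cx m) j = ((D m j : ℝ) : ℂ) := by simp [D]

theorem ww_re (j : ℕ) : (ww K (cx m) (cx q) a b j).re = a.re - b * hat K m 1 q j := by
  rw [ww, hat_cx]; simp

theorem ww_im (j : ℕ) : (ww K (cx m) (cx q) a b j).im = a.im := by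
  rw [ww, hat_cx]; simp

theorem im_le_ww (j : ℕ) : a.im ≤ ‖ww K (cx m) (cx q) a b j‖ := by
  rw [← ww_im (K := K) (m := m) (q := q) (b := b) j]
  exact (le_abs_self _).trans (Complex.abs_im_le_norm _)

theorem ww_ne (ha : 0 < a.im) (j : ℕ) : ww K (cx m) (cx q) a b j ≠ 0 :=
  norm_pos_iff.1 (ha.trans_le (im_le_ww j))

theorem norm_term (ha : 0 < a.im) (hb : 0 ≤ b) {x : ℝ} (hx : 0 ≤ x) (i j : ℕ) :
    ‖(b : ℂ) * (x : ℂ) / (ww K (cx m) (cx q) a b i * ww K (cx m) (cx q) a b j)‖ ≤
      b * x / a.im ^ 2 := by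
  rw [norm_div, norm_mul, norm_mul, Complex.norm_real, Complex.norm_real, Real.norm_of_nonneg hb,
    Real.norm_of_nonneg hx, sq]
  exact div_le_div_of_nonneg_left (by positivity) (by positivity)
    (mul_le_mul (im_le_ww i) (im_le_ww j) ha.le (norm_nonneg _))

theorem norm_M (ha : 0 < a.im) (hb : 0 ≤ b) (hq0 : 0 ≤ q 0) (hq : ∀ j < K, q j ≤ q (j + 1)) :
    ∀ j ≤ K, ‖M K (cx m) (cx q) a b j‖ ≤ b * q j / a.im ^ 2 := by
  intro j
  induction j with
  | zero => intro _; simpa [M] using norm_term (K := K) (m := m) (q := q) ha hb hq0 0 0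
  | succ j ih =>
    intro hj
    rw [M_succ]
    refine (norm_add_le _ _).trans ?_
    have h := norm_term (K := K) (m := m) (q := q) ha hb (sub_nonneg.2 (hq j hj)) j (j + 1)
    push_cast at h
    calc _ ≤ b * q j / a.im ^ 2 + b * (q (j + 1) - q j) / a.im ^ 2 := add_le_add (ih (by omega)) h
      _ = _ := by ring

theorem norm_Md (ha : 0 < a.im) (hb : 0 ≤ b) (hq0 : 0 ≤ q 0) (hq : ∀ j < K, q j ≤ q (j + 1)) :
    ‖Md K (cx m) (cx q) a b‖ ≤ 1 / a.im + b * q K / a.im ^ 2 := by
  refine (norm_add_le _ _).trans (add_le_add ?_ (norm_M ha hb hq0 hq K le_rfl))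
  rw [norm_div, norm_one]
  exact one_div_le_one_div_of_le ha (im_le_ww K)

/-- **error form of the solution** -/
theorem norm_sub_gId (hm0 : m 0 = 0) (hm : m (K + 1) = 1) (hD : ∀ j ≤ K, 0 ≤ D m j)
    (ha : 0 < a.im) (hb : 0 ≤ b) (hq0 : 0 ≤ q 0) (hq : ∀ j < K, q j ≤ q (j + 1))
    (hq1 : ∀ j ≤ K, q j ≤ 1) (gd : ℂ) (g : ℕ → ℂ) :
    ‖gd - gId K (cx m) (cx q) a b‖ ≤ (1 / a.im + b / a.im ^ 2) *
      (‖errD K (cx m) (cx q) a b gd g‖ +
        ∑ j ∈ range (K + 1), D m j * ‖err K (cx m) (cx q) a b gd g j‖) := by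
  have h := solve (K := K) (m := cx m) (q := cx q) (a := a) (b := (b : ℂ)) (by simp [hm0])
    (by simp [hm]) (fun j _ => ww_ne ha j) gd g
  have e : gd - gId K (cx m) (cx q) a b = Md K (cx m) (cx q) a b * errD K (cx m) (cx q) a b gd g -
      ∑ j ∈ range (K + 1), D (cx m) j * M K (cx m) (cx q) a b j * err K (cx m) (cx q) a b gd g j := by
    linear_combination h
  have hle : ∀ j ≤ K, b * q j / a.im ^ 2 ≤ b / a.im ^ 2 := fun j hj =>
    div_le_div_of_nonneg_right (mul_le_of_le_one_right hb (hq1 j hj)) (by positivity)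
  rw [e, mul_add, mul_sum]
  refine (norm_sub_le _ _).trans (add_le_add ?_ ((norm_sum_le _ _).trans (sum_le_sum fun j hj => ?_)))
  · rw [norm_mul]
    refine mul_le_mul_of_nonneg_right ((norm_Md ha hb hq0 hq).trans ?_) (norm_nonneg _)
    linarith [hle K le_rfl]
  · have hj' := Nat.lt_succ_iff.1 (mem_range.1 hj)
    rw [norm_mul, norm_mul, D_cx, Complex.norm_real, Real.norm_of_nonneg (hD j hj'), mul_assoc,
      mul_left_comm (1 / a.im + b / a.im ^ 2)]
    refine mul_le_mul_of_nonneg_left (mul_le_mul_of_nonneg_right ?_ (norm_nonneg _)) (hD j hj')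
    have : 0 ≤ 1 / a.im := by positivity
    linarith [norm_M (K := K) (m := m) ha hb hq0 hq j hj', hle j hj']

theorem neg_im_div (a w w' : ℂ) (h : w.im = a.im) (h' : w'.im = a.im) :
    -(a / (w * w')).im = a.im * (a.re * (w.re + w'.re) - w.re * w'.re + a.im ^ 2) /
      ((w.re ^ 2 + a.im ^ 2) * (w'.re ^ 2 + a.im ^ 2)) := by
  rw [Complex.div_im, map_mul, Complex.normSq_apply, Complex.normSq_apply, Complex.mul_re,
    Complex.mul_im, h, h']
  ring

/-- **size of the exact solution**: `η = e⁴` -/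
theorem size {e C : ℝ} (he : 0 < e) (he1 : e ≤ 1) (hC : 0 ≤ C) (ha : Root (e ^ 4) a)
    (hm0 : m 0 = 0) (hm : m (K + 1) = 1) (hb : 0 < b) (hq0 : 0 ≤ q 0)
    (hq : ∀ j < K, q j ≤ q (j + 1))
    (h0 : ∀ j ≤ K, 0 ≤ b * hat K m 1 q j) (h1 : ∀ j ≤ K, b * hat K m 1 q j ≤ 1)
    {j0 : ℕ} (hj0 : j0 ≤ K) (h2 : ∀ j ≤ j0, 1 - b * hat K m 1 q j ≤ C * e ^ 2) :
    (q j0 - q 0) / (8 * ((1 + C) ^ 2 + 4) ^ 2 * e ^ 4) ≤ -(gId K (cx m) (cx q) a b).im := by
  obtain ⟨r1, r2, r3, r4⟩ := Root.bd (s := e ^ 2) (by rwa [← pow_mul]) (by positivity)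
    (pow_le_one₀ he.le he1)
  have hv := ha.im_pos
  have he2 : 0 < e ^ 2 := by positivity
  have hg := gId_eq (K := K) (m := cx m) (q := cx q) (a := a) (b := (b : ℂ)) (by simp [hm0])
    (by simp [hm]) (fun j _ => ww_ne hv j)
  set w := ww K (cx m) (cx q) a b with hw
  have hre : ∀ j ≤ K, e ^ 2 / 4 ≤ (w j).re ∧ (w j).re ≤ a.re := fun j hj => by
    rw [hw, ww_re]; constructor <;> linarith [h0 j hj, h1 j hj]
  have hnum : ∀ i ≤ K, ∀ j ≤ K, e ^ 4 / 8 ≤
      a.im * (a.re * ((w i).re + (w j).re) - (w i).re * (w j).re + a.im ^ 2) := by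
    intro i hi j hj
    obtain ⟨i1, i2⟩ := hre i hi
    obtain ⟨j1, j2⟩ := hre j hj
    have k1 : e ^ 2 / 4 ≤ a.re * ((w i).re + (w j).re) - (w i).re * (w j).re + a.im ^ 2 := by
      nlinarith [mul_nonneg (sub_nonneg.2 i2) (le_trans (by positivity) j1), sq_nonneg a.im]
    calc e ^ 4 / 8 = e ^ 2 / 2 * (e ^ 2 / 4) := by ring
      _ ≤ _ := mul_le_mul r3 k1 (by positivity) hv.le
  have hpos : ∀ i ≤ K, ∀ j ≤ K, 0 ≤ -(a / (w i * w j)).im := fun i hi j hj => by
    rw [neg_im_div a _ _ (ww_im i) (ww_im j)]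
    exact div_nonneg (le_trans (by positivity) (hnum i hi j hj)) (by positivity)
  set c : ℝ := 1 / (8 * ((1 + C) ^ 2 + 4) ^ 2 * e ^ 4) with hc
  have hbig : ∀ i ≤ j0, ∀ j ≤ j0, c ≤ -(a / (w i * w j)).im := fun i hi j hj => by
    have hden : ∀ i ≤ j0, (w i).re ^ 2 + a.im ^ 2 ≤ ((1 + C) ^ 2 + 4) * e ^ 4 := fun i hi => by
      have k1 : (w i).re ≤ (1 + C) * e ^ 2 := by rw [hw, ww_re]; linarith [h2 i hi]
      have k2 : 0 ≤ (w i).re := le_trans (by positivity) (hre i (hi.trans hj0)).1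
      have k3 := pow_le_pow_left₀ k2 k1 2
      have k4 := pow_le_pow_left₀ hv.le r4 2
      nlinarith
    rw [neg_im_div a _ _ (ww_im i) (ww_im j)]
    calc c = e ^ 4 / 8 / ((((1 + C) ^ 2 + 4) * e ^ 4) * (((1 + C) ^ 2 + 4) * e ^ 4)) := by
          rw [hc]; field_simp
      _ ≤ _ := div_le_div₀ (le_trans (by positivity) (hnum i (hi.trans hj0) j (hj.trans hj0)))
          (hnum i (hi.trans hj0) j (hj.trans hj0)) (by positivity)
          (mul_le_mul (hden i hi) (hden j hj) (by positivity) (by positivity))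
  have hM : ∀ j ≤ K, b * c * (q (min j j0) - q 0) ≤ -(a * M K (cx m) (cx q) a b j).im := by
    intro j
    induction j with
    | zero =>
      intro h
      have e1 : a * M K (cx m) (cx q) a b 0 = ((b * q 0 : ℝ) : ℂ) * (a / (w 0 * w 0)) := by
        simp only [M, range_zero, sum_empty, add_zero, ← hw]; push_cast; ring
      rw [e1, Complex.im_ofReal_mul, Nat.zero_min, sub_self, mul_zero, ← mul_neg]
      exact mul_nonneg (by positivity) (hpos 0 h 0 h)
    | succ j ih =>
      intro h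
      have e1 : a * M K (cx m) (cx q) a b (j + 1) = a * M K (cx m) (cx q) a b j +
          ((b * (q (j + 1) - q j) : ℝ) : ℂ) * (a / (w j * w (j + 1))) := by
        rw [M_succ, ← hw]; push_cast; ring
      have hq' : 0 ≤ b * (q (j + 1) - q j) := mul_nonneg hb.le (sub_nonneg.2 (hq j h))
      have ih' := ih (by omega)
      rw [e1, Complex.add_im, Complex.im_ofReal_mul]
      by_cases hj : j + 1 ≤ j0
      · rw [min_eq_left hj]
        rw [min_eq_left (by omega)] at ih'
        have := mul_le_mul_of_nonneg_left (hbig j (by omega) (j + 1) hj) hq'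
        linarith
      · rw [min_eq_right (by omega)]
        rw [min_eq_right (by omega)] at ih'
        have := mul_nonneg hq' (hpos j (by omega) (j + 1) h)
        linarith
  have hK := hM K le_rfl
  rw [min_eq_right hj0] at hK
  have hfirst : (a * (1 / w K)).im ≤ 0 := by
    rw [mul_one_div, Complex.div_im, ww_im, ← sub_div]
    refine div_nonpos_of_nonpos_of_nonneg ?_ (Complex.normSq_nonneg _)
    nlinarith [(hre K le_rfl).2]
  have him := congrArg Complex.im hg
  rw [Complex.im_ofReal_mul, Md, ← hw, mul_add, Complex.sub_im, Complex.add_im, Complex.one_im]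
    at him
  refine le_of_mul_le_mul_left ?_ hb
  have : b * ((q j0 - q 0) / (8 * ((1 + C) ^ 2 + 4) ^ 2 * e ^ 4)) = b * c * (q j0 - q 0) := by
    rw [hc]; ring
  rw [this]
  linarith

end size

end Crest.Agent.T157.SdA
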