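import Crest.Agent.T157.CascB_65
import Crest.Agent.T157.SdAlg_49

/-!
Row 157, part D (helper12): the gradient of the two-replica laws of a cascade and its evaluation on
kernels `R(x,ρ) g(ρ,y)` when the overlaps are synchronised.
-/

set_option autoImplicit false
set_option linter.unusedSectionVars false

noncomputable section

namespace Crest.Agent.T157.Sd

open Finset Real
open Crest.Agent.T157.E Crest.Agent.T157.Casc Crest.Agent.T157.SdA
open Crest.Agent.T157.SL (Wt)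

variable {Ω : Type*} [Fintype Ω] {w : Ω → ℝ}

/-- law of two replicas sharing `j` levels -/
def pl (w : Ω → ℝ) : List (Lv Ω) → ℕ → Ω → Ω → (Ω → ℝ) → ℝ
  | L, 0, x, y => fun h => P w L h x * P w L h y
  | [], _ + 1, x, y => fun h => P w [] h x * P w [] h y
  | l :: L, j + 1, x, y => tE l (X w L) (pl w L j x y)

/-- its gradient -/
def dp (w : Ω → ℝ) : List (Lv Ω) → ℕ → Ω → Ω → Ω → (Ω → ℝ) → ℝ
  | L, 0, x, y, ρ => fun h => Hs w L h x ρ * P w L h y + P w L h x * Hs w L h y ρ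
  | [], _ + 1, x, y, ρ => fun h => Hs w [] h x ρ * P w [] h y + P w [] h x * Hs w [] h y ρ
  | l :: L, j + 1, x, y, ρ => fun h =>
      tE l (X w L) (fun h => dp w L j x y ρ h + l.m * (pl w L j x y h * P w L h ρ)) h -
        l.m * (tE l (X w L) (pl w L j x y) h * P w (l :: L) h ρ)

theorem gr_pl (hw : Wt w) : ∀ (L : List (Lv Ω)) (j : ℕ) (x y : Ω),
    Gr (pl w L j x y) fun ρ => dp w L j x y ρ
  | L, 0, x, y => by
    unfold pl dp
    exact (gr_P hw L x).mul (gr_P hw L y)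
  | [], _ + 1, x, y => (gr_P hw [] x).mul (gr_P hw [] y)
  | l :: L, j + 1, x, y => (gr_pl hw L j x y).tE (gr_X hw L) (lg_X hw L) l

theorem eg_pl (hw : Wt w) (L : List (Lv Ω)) (j : ℕ) (x y : Ω) : Eg (pl w L j x y) :=
  (gr_pl hw L j x y).eg

theorem eg_dp (hw : Wt w) (L : List (Lv Ω)) (j : ℕ) (x y ρ : Ω) : Eg (dp w L j x y ρ) :=
  (gr_pl hw L j x y).eg' ρ

theorem pl_zero (L : List (Lv Ω)) (x y : Ω) (h : Ω → ℝ) :
    pl w L 0 x y h = P w L h x * P w L h y := by unfold pl; rfl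

theorem dp_zero (L : List (Lv Ω)) (x y ρ : Ω) (h : Ω → ℝ) :
    dp w L 0 x y ρ h = Hs w L h x ρ * P w L h y + P w L h x * Hs w L h y ρ := by unfold dp; rfl

theorem pl_nonneg (hw : Wt w) : ∀ (L : List (Lv Ω)) (j : ℕ) (x y : Ω) (h : Ω → ℝ),
    0 ≤ pl w L j x y h
  | L, 0, x, y, h => by rw [pl_zero]; exact mul_nonneg (P_nonneg hw L h x) (P_nonneg hw L h y)
  | [], _ + 1, x, y, h => mul_nonneg (P_nonneg hw [] h x) (P_nonneg hw [] h y)
  | l :: L, j + 1, x, y, h => tE_nonneg l _ (pl_nonneg hw L j x y) h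

theorem sum_pl_snd (hw : Wt w) : ∀ (L : List (Lv Ω)) (j : ℕ) (x : Ω) (h : Ω → ℝ),
    ∑ y, pl w L j x y h = P w L h x
  | L, 0, x, h => by simp only [pl_zero, ← mul_sum, sum_P hw, mul_one]
  | [], _ + 1, x, h => by simp only [pl, ← mul_sum, sum_P hw, mul_one]
  | l :: L, j + 1, x, h => by
    simp only [pl]
    rw [← tE_sum (lg_X hw L) _ fun y _ => eg_pl hw L j x y]
    simp only [sum_pl_snd hw L j x]
    rfl

theorem sum_pl_fst (hw : Wt w) : ∀ (L : List (Lv Ω)) (j : ℕ) (y : Ω) (h : Ω → ℝ),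
    ∑ x, pl w L j x y h = P w L h y
  | L, 0, y, h => by simp only [pl_zero, ← sum_mul, sum_P hw, one_mul]
  | [], _ + 1, y, h => by simp only [pl, ← sum_mul, sum_P hw, one_mul]
  | l :: L, j + 1, y, h => by
    simp only [pl]
    rw [← tE_sum (lg_X hw L) _ fun x _ => eg_pl hw L j x y]
    simp only [sum_pl_fst hw L j y]
    rfl

theorem pl_symm : ∀ (L : List (Lv Ω)) (j : ℕ) (x y : Ω), pl w L j x y = pl w L j y x
  | L, 0, x, y => funext fun h => by rw [pl_zero, pl_zero, mul_comm]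
  | [], _ + 1, x, y => funext fun h => mul_comm _ _
  | l :: L, j + 1, x, y => by simp only [pl, pl_symm L j x y]

/-- expectation of a kernel -/
def p2 (w : Ω → ℝ) (L : List (Lv Ω)) (j : ℕ) (K : Ω → Ω → ℝ) (h : Ω → ℝ) : ℝ :=
  ∑ x, ∑ y, pl w L j x y h * K x y

theorem eg_p2 (hw : Wt w) (L : List (Lv Ω)) (j : ℕ) (K : Ω → Ω → ℝ) : Eg (p2 w L j K) :=
  Eg.sum _ fun x _ => Eg.sum _ fun y _ => (eg_pl hw L j x y).mul_const _

theorem tE_sum2 (hw : Wt w) (l : Lv Ω) (L : List (Lv Ω)) {Φ : Ω → Ω → (Ω → ℝ) → ℝ}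
    (hΦ : ∀ x y, Eg (Φ x y)) (K : Ω → Ω → ℝ) (h : Ω → ℝ) :
    tE l (X w L) (fun h => ∑ x, ∑ y, Φ x y h * K x y) h =
      ∑ x, ∑ y, tE l (X w L) (Φ x y) h * K x y := by
  rw [tE_sum (lg_X hw L) _ fun x _ => Eg.sum _ fun y _ => (hΦ x y).mul_const _]
  refine sum_congr rfl fun x _ => ?_
  rw [tE_sum (lg_X hw L) _ fun y _ => (hΦ x y).mul_const _]
  exact sum_congr rfl fun y _ => tE_mul_const _ _ _ _ _

theorem p2_succ (hw : Wt w) (l : Lv Ω) (L : List (Lv Ω)) (j : ℕ) (K : Ω → Ω → ℝ) (h : Ω → ℝ) :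
    p2 w (l :: L) (j + 1) K h = tE l (X w L) (p2 w L j K) h :=
  (tE_sum2 hw l L (eg_pl hw L j) K h).symm

theorem pi2_eq (hw : Wt w) : ∀ (L : List (Lv Ω)) (j : ℕ) (K : Ω → Ω → ℝ) (h : Ω → ℝ),
    pi2 w L j K h = p2 w L j K h
  | L, 0, K, h => by
    simp only [pi2, p2, pl_zero, List.drop_zero]
    unfold node
    rfl
  | [], _ + 1, K, h => rfl
  | l :: L, j + 1, K, h => by
    rw [p2_succ hw, ← funext (pi2_eq hw L j K)]
    rfl

theorem p2_mono (hw : Wt w) (L : List (Lv Ω)) (j : ℕ) {K K' : Ω → Ω → ℝ}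
    (e : ∀ x y, K x y ≤ K' x y) (h : Ω → ℝ) : p2 w L j K h ≤ p2 w L j K' h :=
  sum_le_sum fun x _ => sum_le_sum fun y _ =>
    mul_le_mul_of_nonneg_left (e x y) (pl_nonneg hw L j x y h)

theorem p2_fst (hw : Wt w) (L : List (Lv Ω)) (j : ℕ) (f : Ω → ℝ) (h : Ω → ℝ) :
    p2 w L j (fun x _ => f x) h = ∑ x, P w L h x * f x := by
  simp only [p2, ← sum_mul, sum_pl_snd hw]

theorem p2_snd (hw : Wt w) (L : List (Lv Ω)) (j : ℕ) (f : Ω → ℝ) (h : Ω → ℝ) :
    p2 w L j (fun _ y => f y) h = ∑ y, P w L h y * f y := by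
  rw [p2, sum_comm]
  simp only [← sum_mul, sum_pl_fst hw]

theorem p2_const (hw : Wt w) (L : List (Lv Ω)) (j : ℕ) (c : ℝ) (h : Ω → ℝ) :
    p2 w L j (fun _ _ => c) h = c := by
  rw [p2_fst hw L j fun _ => c, ← sum_mul, sum_P hw, one_mul]

theorem p2_add (L : List (Lv Ω)) (j : ℕ) (K K' : Ω → Ω → ℝ) (h : Ω → ℝ) :
    p2 w L j (fun x y => K x y + K' x y) h = p2 w L j K h + p2 w L j K' h := by
  simp only [p2, mul_add, sum_add_distrib]

theorem p2_smul (L : List (Lv Ω)) (j : ℕ) (c : ℝ) (K : Ω → Ω → ℝ) (h : Ω → ℝ) :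
    p2 w L j (fun x y => c * K x y) h = c * p2 w L j K h := by
  simp only [p2, mul_sum, mul_left_comm c]

theorem p2_swap (L : List (Lv Ω)) (j : ℕ) (K : Ω → Ω → ℝ) (h : Ω → ℝ) :
    p2 w L j (fun x y => K y x) h = p2 w L j K h := by
  rw [p2, sum_comm]
  simp only [p2, pl_symm (w := w) L j _ _]

theorem p2_nonneg (hw : Wt w) (L : List (Lv Ω)) (j : ℕ) {K : Ω → Ω → ℝ} (e : ∀ x y, 0 ≤ K x y)
    (h : Ω → ℝ) : 0 ≤ p2 w L j K h := by
  simpa only [p2_const hw] using p2_mono hw L j (K := fun _ _ => 0) e h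

/-- the basic comparison -/
theorem abs_p2_sub (hw : Wt w) (L : List (Lv Ω)) (j : ℕ) {K K' E : Ω → Ω → ℝ}
    (e : ∀ x y, |K x y - K' x y| ≤ E x y) (h : Ω → ℝ) :
    |p2 w L j K h - p2 w L j K' h| ≤ p2 w L j E h := by
  have h1 := p2_mono hw L j (K := K) (K' := fun x y => K' x y + E x y)
    (fun x y => by linarith [(abs_le.1 (e x y)).2]) h
  have h2 := p2_mono hw L j (K := K') (K' := fun x y => K x y + E x y)
    (fun x y => by linarith [(abs_le.1 (e x y)).1]) h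
  rw [p2_add] at h1 h2
  rw [abs_le]; constructor <;> linarith

theorem abs_p2_le (hw : Wt w) (L : List (Lv Ω)) (j : ℕ) {K : Ω → Ω → ℝ} {S : ℝ}
    (e : ∀ x y, |K x y| ≤ S) (h : Ω → ℝ) : |p2 w L j K h| ≤ S := by
  simpa only [p2_const hw, sub_zero] using
    abs_p2_sub hw L j (K := K) (K' := fun _ _ => 0) (E := fun _ _ => S) (by simpa using e) h

theorem abs_P_sub (hw : Wt w) (L : List (Lv Ω)) {f f' e : Ω → ℝ} (he : ∀ x, |f x - f' x| ≤ e x)
    (h : Ω → ℝ) : |∑ x, P w L h x * f x - ∑ x, P w L h x * f' x| ≤ ∑ x, P w L h x * e x := by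
  simpa only [p2_fst hw] using
    abs_p2_sub hw L 0 (K := fun x _ => f x) (K' := fun x _ => f' x) (E := fun x _ => e x)
      (fun x _ => he x) h

theorem abs_P_le (hw : Wt w) (L : List (Lv Ω)) {f : Ω → ℝ} {S : ℝ} (he : ∀ x, |f x| ≤ S)
    (h : Ω → ℝ) : |∑ x, P w L h x * f x| ≤ S := by
  simpa only [p2_fst hw] using abs_p2_le hw L 0 (K := fun x _ => f x) (fun x _ => he x) h

/-! ### exponents -/

theorem exP_succ (l : Lv Ω) (L : List (Lv Ω)) (m0 : ℝ) (k : ℕ) :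
    exP (l :: L) m0 (k + 1) = exP L l.m k := by
  cases k <;> simp [exP, ex]

theorem D_succ (l : Lv Ω) (L : List (Lv Ω)) (m0 : ℝ) (k : ℕ) :
    D (exP (l :: L) m0) (k + 1) = D (exP L l.m) k := by
  simp only [D, exP_succ]

theorem D_zero (l : Lv Ω) (L : List (Lv Ω)) (m0 : ℝ) : D (exP (l :: L) m0) 0 = l.m - m0 := by
  simp [D, exP, ex]

theorem exP_top : ∀ (L : List (Lv Ω)) (m0 : ℝ), exP L m0 (L.length + 1) = 1 := by
  intro L m0; simp [exP, ex]

theorem D_nonneg : ∀ {L : List (Lv Ω)} {m0 : ℝ}, Mono m0 L → ∀ k, 0 ≤ D (exP L m0) k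
  | [], m0, h, 0 => by simpa [D, exP, ex, Mono] using h
  | [], m0, _, k + 1 => by simp [D, exP, ex]
  | l :: L, m0, h, 0 => by rw [D_zero]; exact sub_nonneg.2 h.1
  | l :: L, m0, h, k + 1 => by rw [D_succ]; exact D_nonneg h.2 k

theorem sum_D (L : List (Lv Ω)) (m0 : ℝ) :
    ∑ k ∈ range (L.length + 1), D (exP L m0) k = 1 - m0 := by
  unfold D
  rw [sum_range_sub, exP_top]; rfl

theorem mono_le_one : ∀ {L : List (Lv Ω)} {m0 : ℝ}, Mono m0 L → m0 ≤ 1
  | [], _, h => h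
  | _ :: _, _, h => h.1.trans (mono_le_one h.2)

theorem mono_zero {L : List (Lv Ω)} {m0 : ℝ} (h : Mono m0 L) (h0 : 0 ≤ m0) : Mono 0 L := by
  cases L with
  | nil => exact zero_le_one
  | cons l L => exact ⟨h0.trans h.1, h.2⟩

theorem exP_pos (L : List (Lv Ω)) (m0 m1 : ℝ) (k : ℕ) : exP L m0 (k + 1) = exP L m1 (k + 1) := rfl

/-- contraction of the Hessian with a kernel -/
theorem sum_Hs (hw : Wt w) : ∀ (L : List (Lv Ω)) (m0 : ℝ) (K : Ω → Ω → ℝ) (h : Ω → ℝ),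
    ∑ x, ∑ y, Hs w L h x y * K x y + m0 * p2 w L 0 K h =
      ∑ x, P w L h x * K x x - ∑ k ∈ range (L.length + 1), D (exP L m0) k * p2 w L k K h
  | [], m0, K, h => by
    classical
    simp only [Hs, List.length_nil, zero_add, sum_range_one, D, exP, ex, sub_mul, ite_mul,
      zero_mul, sum_sub_distrib, sum_ite_eq, mem_univ, if_true, p2, pl_zero,
      List.getElem?_nil]
    ring
  | l :: L, m0, K, h => by
    have e1 : ∑ x, ∑ y, Hs w (l :: L) h x y * K x y =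
        tE l (X w L) (fun h => ∑ x, ∑ y, Hs w L h x y * K x y + l.m * p2 w L 0 K h) h -
          l.m * p2 w (l :: L) 0 K h := by
      have e2 := tE_sum2 hw l L (Φ := fun x y h => Hs w L h x y + l.m * (P w L h x * P w L h y))
        (fun x y => (eg_Hs hw L x y).add (((eg_P hw L x).mul (eg_P hw L y)).const_mul _)) K h
      simp only [Hs, sub_mul, sum_sub_distrib, ← e2]
      congr 1
      · congr 1
        funext h
        simp only [add_mul, sum_add_distrib, p2, pl_zero, mul_sum, mul_assoc]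
      · simp only [p2, pl_zero, mul_sum, mul_assoc]
    rw [e1, funext (sum_Hs hw L l.m K), tE_sub (lg_X hw L)
      (Eg.sum _ fun x _ => (eg_P hw L x).mul_const _)
      (Eg.sum _ fun k _ => (eg_p2 hw L k K).const_mul _),
      tE_sum (lg_X hw L) _ fun x _ => (eg_P hw L x).mul_const _,
      tE_sum (lg_X hw L) _ fun k _ => (eg_p2 hw L k K).const_mul _, List.length_cons,
      sum_range_succ' _ (L.length + 1)]
    simp only [tE_mul_const, tE_const_mul, D_succ, D_zero, p2_succ hw]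
    have : ∀ x, tE l (X w L) (fun z => P w L z x) h = P w (l :: L) h x := fun _ => rfl
    simp only [this]
    ring

theorem sum_Hs0 (hw : Wt w) (L : List (Lv Ω)) (K : Ω → Ω → ℝ) (h : Ω → ℝ) :
    ∑ x, ∑ y, Hs w L h x y * K x y =
      ∑ x, P w L h x * K x x - ∑ k ∈ range (L.length + 1), D (exP L 0) k * p2 w L k K h := by
  simpa using sum_Hs hw L 0 K h

theorem abs_sumD_le {L : List (Lv Ω)} {m0 : ℝ} (hM : Mono m0 L) {a b e : ℕ → ℝ}
    (he : ∀ k, |a k - b k| ≤ e k) :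
    |∑ k ∈ range (L.length + 1), D (exP L m0) k * a k -
      ∑ k ∈ range (L.length + 1), D (exP L m0) k * b k| ≤
      ∑ k ∈ range (L.length + 1), D (exP L m0) k * e k := by
  rw [← sum_sub_distrib]
  refine (abs_sum_le_sum_abs _ _).trans (sum_le_sum fun k _ => ?_)
  rw [← mul_sub, abs_mul, abs_of_nonneg (D_nonneg hM k)]
  exact mul_le_mul_of_nonneg_left (he k) (D_nonneg hM k)

theorem abs_sum_Hs_le (hw : Wt w) {L : List (Lv Ω)} (hM : Mono 0 L) {K : Ω → Ω → ℝ} {S : ℝ}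
    (e : ∀ x y, |K x y| ≤ S) (h : Ω → ℝ) : |∑ x, ∑ y, Hs w L h x y * K x y| ≤ 2 * S := by
  rw [sum_Hs0 hw]
  have h1 := abs_P_le hw L (f := fun x => K x x) (fun x => e x x) h
  have h2 := abs_sumD_le hM (a := fun k => p2 w L k K h) (b := fun _ => 0) (e := fun _ => S)
    (fun k => by simpa using abs_p2_le hw L k e h)
  rw [← sum_mul, ← sum_mul, sum_D] at h2
  simp only [mul_zero, sub_zero, one_mul] at h2
  exact (abs_sub _ _).trans (by linarith)

/-! ### three replicas -/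

/-- the derivative functional -/
def D3 (w : Ω → ℝ) (L : List (Lv Ω)) (j : ℕ) (K : Ω → Ω → Ω → ℝ) (h : Ω → ℝ) : ℝ :=
  ∑ ρ, ∑ x, ∑ y, dp w L j x y ρ h * K x y ρ

/-- a third replica branching at the root -/
def T3 (w : Ω → ℝ) (L : List (Lv Ω)) (j : ℕ) (K : Ω → Ω → Ω → ℝ) (h : Ω → ℝ) : ℝ :=
  ∑ ρ, P w L h ρ * p2 w L j (fun x y => K x y ρ) h

theorem eg_D3 (hw : Wt w) (L : List (Lv Ω)) (j : ℕ) (K : Ω → Ω → Ω → ℝ) : Eg (D3 w L j K) :=
  Eg.sum _ fun ρ _ => Eg.sum _ fun x _ => Eg.sum _ fun y _ => (eg_dp hw L j x y ρ).mul_const _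

theorem eg_T3 (hw : Wt w) (L : List (Lv Ω)) (j : ℕ) (K : Ω → Ω → Ω → ℝ) : Eg (T3 w L j K) :=
  Eg.sum _ fun ρ _ => (eg_P hw L ρ).mul (eg_p2 hw L j _)

theorem D3_succ (hw : Wt w) (l : Lv Ω) (L : List (Lv Ω)) (j : ℕ) (K : Ω → Ω → Ω → ℝ)
    (h : Ω → ℝ) : D3 w (l :: L) (j + 1) K h =
      tE l (X w L) (fun h => D3 w L j K h + l.m * T3 w L j K h) h -
        l.m * T3 w (l :: L) (j + 1) K h := by
  have hΦ : ∀ ρ x y, Eg fun h => dp w L j x y ρ h + l.m * (pl w L j x y h * P w L h ρ) :=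
    fun ρ x y => (eg_dp hw L j x y ρ).add (((eg_pl hw L j x y).mul (eg_P hw L ρ)).const_mul _)
  have e1 : (fun h => D3 w L j K h + l.m * T3 w L j K h) = fun h => ∑ ρ, ∑ x, ∑ y,
      (dp w L j x y ρ h + l.m * (pl w L j x y h * P w L h ρ)) * K x y ρ := by
    funext h
    simp only [D3, T3, p2, add_mul, sum_add_distrib, mul_sum]
    congr 1
    exact sum_congr rfl fun ρ _ => sum_congr rfl fun x _ => sum_congr rfl fun y _ => by ring
  rw [e1, tE_sum (lg_X hw L) _ fun ρ _ => Eg.sum _ fun x _ => Eg.sum _ fun y _ =>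
    (hΦ ρ x y).mul_const _]
  simp only [tE_sum2 hw l L (hΦ _), D3, T3, p2, dp, pl, sub_mul, sum_sub_distrib, mul_sum]
  congr 1
  exact sum_congr rfl fun ρ _ => sum_congr rfl fun x _ => sum_congr rfl fun y _ => by ring

theorem D3_zero (L : List (Lv Ω)) (K : Ω → Ω → Ω → ℝ) (h : Ω → ℝ) : D3 w L 0 K h =
    ∑ x, ∑ ρ, Hs w L h x ρ * ∑ y, P w L h y * K x y ρ +
      ∑ y, ∑ ρ, Hs w L h y ρ * ∑ x, P w L h x * K x y ρ := by
  simp only [D3, dp_zero, add_mul, sum_add_distrib, mul_sum]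
  congr 1
  · rw [sum_comm]
    exact sum_congr rfl fun x _ => sum_congr rfl fun ρ _ => sum_congr rfl fun y _ => by ring
  · rw [sum_comm]
    refine (sum_congr rfl fun x _ => sum_comm).trans (sum_comm.trans ?_)
    refine sum_congr rfl fun y _ => sum_comm.trans ?_
    exact sum_congr rfl fun ρ _ => sum_congr rfl fun x _ => by ring

theorem abs_T3_le (hw : Wt w) (L : List (Lv Ω)) (j : ℕ) {K : Ω → Ω → Ω → ℝ} {S : ℝ}
    (e : ∀ x y ρ, |K x y ρ| ≤ S) (h : Ω → ℝ) : |T3 w L j K h| ≤ S :=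
  abs_P_le hw L (fun ρ => abs_p2_le hw L j (fun x y => e x y ρ) h) h

theorem abs_tE_sub (hw : Wt w) (l : Lv Ω) (L : List (Lv Ω)) {Φ Φ' E : (Ω → ℝ) → ℝ} (h1 : Eg Φ)
    (h2 : Eg Φ') (h3 : Eg E) (e : ∀ z, |Φ z - Φ' z| ≤ E z) (z : Ω → ℝ) :
    |tE l (X w L) Φ z - tE l (X w L) Φ' z| ≤ tE l (X w L) E z := by
  have a1 := tE_mono (lg_X hw L) h1 (h2.add h3) (fun z => by linarith [(abs_le.1 (e z)).2]) l z
  have a2 := tE_mono (lg_X hw L) h2 (h1.add h3) (fun z => by linarith [(abs_le.1 (e z)).1]) l z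
  rw [tE_add (lg_X hw L) h2 h3] at a1
  rw [tE_add (lg_X hw L) h1 h3] at a2
  rw [abs_le]; constructor <;> linarith

theorem abs_D3_aux (hw : Wt w) {K : Ω → Ω → Ω → ℝ} {S : ℝ} (e : ∀ x y ρ, |K x y ρ| ≤ S) :
    ∀ (j : ℕ) (L : List (Lv Ω)) (m0 : ℝ), j ≤ L.length → 0 ≤ m0 → Mono m0 L → ∀ h,
      |D3 w L j K h + m0 * T3 w L j K h| ≤ (6 - m0) * S
  | 0, L, m0, _, h0, hM, h => by
    have a1 := abs_sum_Hs_le hw (mono_zero hM h0) (K := fun x ρ => ∑ y, P w L h y * K x y ρ)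
      (fun x ρ => abs_P_le hw L (fun y => e x y ρ) h) h
    have a2 := abs_sum_Hs_le hw (mono_zero hM h0) (K := fun y ρ => ∑ x, P w L h x * K x y ρ)
      (fun y ρ => abs_P_le hw L (fun x => e x y ρ) h) h
    have a3 := abs_T3_le hw L 0 e h
    have hS : 0 ≤ S := (abs_nonneg _).trans a3
    have a4 := mono_le_one hM
    rw [D3_zero]
    refine (abs_add_le _ _).trans ?_
    rw [abs_mul, abs_of_nonneg h0]
    have a5 := abs_add_le (∑ x, ∑ ρ, Hs w L h x ρ * ∑ y, P w L h y * K x y ρ)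
      (∑ y, ∑ ρ, Hs w L h y ρ * ∑ x, P w L h x * K x y ρ)
    nlinarith [mul_le_mul_of_nonneg_left a3 h0]
  | j + 1, [], _, hj, _, _, _ => by simp at hj
  | j + 1, l :: L, m0, hj, h0, hM, h => by
    have ih := abs_D3_aux hw e j L l.m (by simpa using hj) (h0.trans hM.1) hM.2
    have a1 := abs_tE_sub hw l L ((eg_D3 hw L j K).add ((eg_T3 hw L j K).const_mul l.m))
      (Eg.const 0) (Eg.const ((6 - l.m) * S)) (fun z => by simpa using ih z) h
    rw [tE_const (lg_X hw L), tE_const (lg_X hw L), sub_zero] at a1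
    have a3 := abs_T3_le hw (l :: L) (j + 1) e h
    have a4 : 0 ≤ l.m - m0 := sub_nonneg.2 hM.1
    rw [D3_succ hw, show ∀ a b : ℝ, a - l.m * b + m0 * b = a - (l.m - m0) * b from
      fun a b => by ring]
    refine (abs_sub _ _).trans ?_
    rw [abs_mul, abs_of_nonneg a4]
    nlinarith [mul_le_mul_of_nonneg_left a3 a4]

/-- total variation of the gradient -/
theorem abs_D3_le (hw : Wt w) {L : List (Lv Ω)} (hM : Mono 0 L) {j : ℕ} (hj : j ≤ L.length)
    {K : Ω → Ω → Ω → ℝ} {S : ℝ} (e : ∀ x y ρ, |K x y ρ| ≤ S) (h : Ω → ℝ) :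
    |D3 w L j K h| ≤ 6 * S := by
  simpa using abs_D3_aux hw e j L 0 hj le_rfl hM h

/-! ### synchronised kernels -/

theorem hat_shift (K : ℕ) (m : ℕ → ℝ) (gd : ℝ) (g : ℕ → ℝ) (j : ℕ) :
    hat (K + 1) m gd g (j + 1) = hat K (fun k => m (k + 1)) gd (fun k => g (k + 1)) j := by
  rw [hat, hat, ← Finset.map_add_right_Ioc, sum_map]
  rfl

theorem pr_shift (K : ℕ) (m q : ℕ → ℝ) (gd : ℝ) (g : ℕ → ℝ) (j : ℕ) :
    pr (K + 1) m q gd g (j + 1) =
      pr K (fun k => m (k + 1)) (fun k => q (k + 1)) gd (fun k => g (k + 1)) j -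
        D m 0 * q 0 * g 0 := by
  rw [pr, pr, hat_shift, hat_shift, sum_range_succ']
  simp only [D]
  ring

theorem eg_pr {gd : (Ω → ℝ) → ℝ} {g : ℕ → (Ω → ℝ) → ℝ} (h1 : Eg gd) (h2 : ∀ k, Eg (g k)) (K : ℕ)
    (m q : ℕ → ℝ) (j : ℕ) : Eg fun z => pr K m q (gd z) (fun k => g k z) j := by
  unfold pr hat
  exact ((((h2 j).mul_const _).add (((h1.sub ((h2 j).const_mul _)).sub
    (Eg.sum _ fun k _ => (h2 k).const_mul _)).const_mul _)).sub
    (Eg.sum _ fun k _ => (h2 k).const_mul _)).add ((h2 j).const_mul _)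

theorem tE_pr {F gd : (Ω → ℝ) → ℝ} (hF : Lg F) {g : ℕ → (Ω → ℝ) → ℝ} (h1 : Eg gd)
    (h2 : ∀ k, Eg (g k)) (K : ℕ) (m q : ℕ → ℝ) (j : ℕ) (l : Lv Ω) (z : Ω → ℝ) :
    tE l F (fun z => pr K m q (gd z) (fun k => g k z) j) z =
      pr K m q (tE l F gd z) (fun k => tE l F (g k) z) j := by
  have s1 : ∀ (s : Finset ℕ) (c : ℕ → ℝ), Eg fun z => ∑ k ∈ s, c k * g k z :=
    fun s c => Eg.sum _ fun k _ => (h2 k).const_mul _
  have s2 : ∀ (s : Finset ℕ) (c : ℕ → ℝ), tE l F (fun z => ∑ k ∈ s, c k * g k z) z =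
      ∑ k ∈ s, c k * tE l F (g k) z := fun s c => by
    rw [tE_sum hF _ fun k _ => (h2 k).const_mul _]
    simp only [tE_const_mul]
  have e3 := (h1.sub ((h2 j).const_mul (m (j + 1)))).sub (s1 (Ioc j K) (D m))
  change tE l F (fun z => g j z * hat K m 1 q j +
      q j * (gd z - m (j + 1) * g j z - ∑ k ∈ Ioc j K, D m k * g k z) -
      ∑ k ∈ range j, (fun k => D m k * q k) k * g k z + m j * q j * g j z) z = _
  rw [tE_add hF ((((h2 j).mul_const _).add (Eg.const_mul _ e3)).sub (s1 _ _))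
    ((h2 j).const_mul _), tE_sub hF (((h2 j).mul_const _).add (Eg.const_mul _ e3)) (s1 _ _),
    tE_add hF ((h2 j).mul_const _) (Eg.const_mul _ e3), s2, tE_mul_const, tE_const_mul,
    tE_const_mul, tE_sub hF (h1.sub ((h2 j).const_mul _)) (s1 _ _),
    tE_sub hF h1 ((h2 j).const_mul _), s2, tE_const_mul]
  rfl

section sync
variable {R g : Ω → Ω → ℝ} {B : ℝ}

theorem T3_approx (hw : Wt w) (hg : ∀ x y, |g x y| ≤ B) (L : List (Lv Ω)) (j : ℕ) (q : ℝ)
    (h : Ω → ℝ) : |T3 w L j (fun x y ρ => R x ρ * g ρ y) h - q * p2 w L 0 g h| ≤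
      B * p2 w L 0 (fun x y => |R x y - q|) h := by
  have e1 : q * p2 w L 0 g h = ∑ ρ, P w L h ρ * p2 w L j (fun _ y => q * g ρ y) h := by
    simp only [p2_snd hw]
    simp only [p2, pl_zero, mul_sum]
    exact sum_congr rfl fun ρ _ => sum_congr rfl fun y _ => by ring
  have e2 : B * p2 w L 0 (fun x y => |R x y - q|) h =
      ∑ ρ, P w L h ρ * p2 w L j (fun x _ => B * |R x ρ - q|) h := by
    simp only [p2_fst hw]
    rw [← p2_swap]
    simp only [p2, pl_zero, mul_sum]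
    exact sum_congr rfl fun ρ _ => sum_congr rfl fun y _ => by ring
  rw [e1, e2]
  refine abs_P_sub hw L (fun ρ => abs_p2_sub hw L j (fun x y => ?_) h) h
  rw [← sub_mul, abs_mul, mul_comm]
  exact mul_le_mul_of_nonneg_right (hg ρ y) (abs_nonneg _)

theorem diag_approx (hw : Wt w) (hR : ∀ x, R x x = 1) (hs : ∀ x y, g x y = g y x)
    (hg : ∀ x y, |g x y| ≤ B) {L : List (Lv Ω)} (hM : Mono 0 L) (q : ℕ → ℝ) (h : Ω → ℝ) :
    |∑ x, ∑ ρ, Hs w L h x ρ * (R x ρ * g ρ x) -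
      prD L.length (exP L 0) q (∑ x, P w L h x * g x x) fun k => p2 w L k g h| ≤
      B * ∑ k ∈ range (L.length + 1), D (exP L 0) k * p2 w L k (fun x y => |R x y - q k|) h := by
  rw [sum_Hs0 hw, prD]
  simp only [hR, one_mul, mul_assoc]
  rw [sub_sub_sub_cancel_left, abs_sub_comm, mul_sum]
  simp only [mul_left_comm B]
  refine abs_sumD_le hM fun k => ?_
  rw [← p2_smul, ← p2_smul]
  refine abs_p2_sub hw L k (fun x y => ?_) h
  rw [hs y x, ← sub_mul, abs_mul, mul_comm]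
  exact mul_le_mul_of_nonneg_right (hg x y) (abs_nonneg _)

theorem base_approx (hw : Wt w) (hR : ∀ x, R x x = 1) (hs : ∀ x y, g x y = g y x)
    (hg : ∀ x y, |g x y| ≤ B) {L : List (Lv Ω)} {m0 : ℝ} (h0 : 0 ≤ m0) (hM : Mono m0 L)
    (q : ℕ → ℝ) (h : Ω → ℝ) :
    |D3 w L 0 (fun x y ρ => R x ρ * g ρ y) h + m0 * T3 w L 0 (fun x y ρ => R x ρ * g ρ y) h -
      pr L.length (exP L m0) q (∑ x, P w L h x * g x x) (fun k => p2 w L k g h) 0| ≤
      B * (4 * p2 w L 0 (fun x y => |R x y - q 0|) h +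
        ∑ k ∈ range (L.length + 1), D (exP L m0) k * p2 w L k (fun x y => |R x y - q k|) h) := by
  set r : ℕ → ℝ := fun k => p2 w L k (fun x y => |R x y - q k|) h with hr
  set γ : ℕ → ℝ := fun k => p2 w L k g h with hγ
  set gd := ∑ x, P w L h x * g x x with hgd
  have hB : 0 ≤ B := (abs_nonneg _).trans (abs_p2_le hw L 0 hg h)
  have hr0 : 0 ≤ r 0 := p2_nonneg hw L 0 (fun _ _ => abs_nonneg _) h
  have hm1 := mono_le_one hM
  -- averaged kernels
  set gh : Ω → ℝ := fun ρ => ∑ y, P w L h y * g ρ y with hgh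
  set Rh : Ω → ℝ := fun ρ => ∑ x, P w L h x * R x ρ with hRh
  have hghB : ∀ ρ, |gh ρ| ≤ B := fun ρ => abs_P_le hw L (hg ρ) h
  have hγ0 : ∑ ρ, P w L h ρ * gh ρ = γ 0 := by
    simp only [hgh, hγ, p2, pl_zero, mul_sum, mul_assoc]
  have hRh0 : ∑ ρ, P w L h ρ * |Rh ρ - q 0| ≤ r 0 := by
    have : r 0 = ∑ ρ, P w L h ρ * ∑ x, P w L h x * |R x ρ - q 0| := by
      simp only [hr]
      rw [← p2_swap]
      simp only [p2, pl_zero, mul_sum, mul_assoc]
    rw [this]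
    refine sum_le_sum fun ρ _ => mul_le_mul_of_nonneg_left ?_ (P_nonneg hw L h ρ)
    have := abs_P_sub hw L (f := fun x => R x ρ) (f' := fun _ => q 0) (fun x => le_rfl) h
    rwa [← sum_mul, sum_P hw, one_mul] at this
  -- first Hessian term
  have a1 := sum_Hs hw L m0 (fun x ρ => R x ρ * gh ρ) h
  have a2 := sum_Hs hw L m0 (fun y ρ => Rh ρ * g ρ y) h
  simp only [hR, one_mul] at a1
  rw [hγ0] at a1
  have b1 : ∀ k, |p2 w L k (fun x ρ => R x ρ * gh ρ) h - q k * γ 0| ≤ B * r k := fun k => by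
    rw [← hγ0, ← p2_snd hw L k, ← p2_smul, ← p2_smul]
    refine abs_p2_sub hw L k (fun x y => ?_) h
    rw [← sub_mul, abs_mul, mul_comm]
    exact mul_le_mul_of_nonneg_right (hghB y) (abs_nonneg _)
  have b2 : ∀ k, |p2 w L k (fun y ρ => Rh ρ * g ρ y) h - q 0 * γ k| ≤ B * r 0 := fun k => by
    rw [← p2_smul]
    refine (abs_p2_sub hw L k (E := fun _ ρ => B * |Rh ρ - q 0|) (fun x y => ?_) h).trans ?_
    · rw [hs y x, ← sub_mul, abs_mul, mul_comm]
      exact mul_le_mul_of_nonneg_right (hg x y) (abs_nonneg _)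
    · rw [p2_smul, p2_snd hw]
      exact mul_le_mul_of_nonneg_left hRh0 hB
  have b3 : |∑ x, P w L h x * (Rh x * g x x) - q 0 * gd| ≤ B * r 0 := by
    rw [hgd, mul_sum]
    simp only [mul_left_comm (q 0)]
    refine (abs_P_sub hw L (e := fun ρ => B * |Rh ρ - q 0|) (fun x => ?_) h).trans ?_
    · rw [← sub_mul, abs_mul, mul_comm]
      exact mul_le_mul_of_nonneg_right (hg x x) (abs_nonneg _)
    · simp only [mul_left_comm _ B, ← mul_sum]
      exact mul_le_mul_of_nonneg_left hRh0 hB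
  have b4 := T3_approx (R := R) hw hg L 0 (q 0) h
  have c1 := abs_sumD_le hM b1
  have c2 := abs_sumD_le hM b2
  rw [← sum_mul _ _ (B * r 0), sum_D] at c2
  have e1 : D3 w L 0 (fun x y ρ => R x ρ * g ρ y) h =
      ∑ x, ∑ ρ, Hs w L h x ρ * (R x ρ * gh ρ) + ∑ y, ∑ ρ, Hs w L h y ρ * (Rh ρ * g ρ y) := by
    rw [D3_zero]
    simp only [hgh, hRh, mul_sum, sum_mul, mul_left_comm (R _ _), mul_assoc]
  have e2 : pr L.length (exP L m0) q gd γ 0 =
      γ 0 - m0 * (q 0 * γ 0) - ∑ k ∈ range (L.length + 1), D (exP L m0) k * (q k * γ 0) +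
      (q 0 * gd - m0 * (q 0 * γ 0) - ∑ k ∈ range (L.length + 1), D (exP L m0) k * (q 0 * γ k)) +
      m0 * (q 0 * γ 0) := by
    have s : ∀ f : ℕ → ℝ, ∑ k ∈ range (L.length + 1), f k = f 0 + ∑ k ∈ Ioc 0 L.length, f k := by
      intro f
      rw [add_comm (f 0), sum_Ioc_add_eq_sum_Icc (Nat.zero_le _), range_eq_Ico]
      rfl
    rw [s, s, pr, hat, hat]
    simp only [range_zero, sum_empty, mul_sub, mul_sum, D, exP]
    have t1 : ∀ k, γ 0 * ((exP L m0 (k + 1) - exP L m0 k) * q k) =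
      (exP L m0 (k + 1) - exP L m0 k) * (q k * γ 0) := fun k => by ring
    have t2 : ∀ k, q 0 * ((exP L m0 (k + 1) - exP L m0 k) * γ k) =
      (exP L m0 (k + 1) - exP L m0 k) * (q 0 * γ k) := fun k => by ring
    simp only [exP] at t1 t2
    simp only [t1, t2]
    ring
  have c3 : ∑ k ∈ range (L.length + 1), D (exP L m0) k * (B * r k) =
      B * ∑ k ∈ range (L.length + 1), D (exP L m0) k * r k := by
    rw [mul_sum]; exact sum_congr rfl fun k _ => by ring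
  rw [c3] at c1
  rw [e1, e2, eq_sub_of_add_eq a1, eq_sub_of_add_eq a2]
  have d1 := abs_le.1 (b1 0)
  have d2 := abs_le.1 (b2 0)
  have d3 := abs_le.1 b3
  have d4 := abs_le.1 b4
  have d5 := abs_le.1 c1
  have d6 := abs_le.1 c2
  have f1 := mul_le_mul_of_nonneg_left d1.1 h0
  have f2 := mul_le_mul_of_nonneg_left d1.2 h0
  have f3 := mul_le_mul_of_nonneg_left d2.1 h0
  have f4 := mul_le_mul_of_nonneg_left d2.2 h0
  have f5 := mul_le_mul_of_nonneg_left d4.1 h0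
  have f6 := mul_le_mul_of_nonneg_left d4.2 h0
  have f7 : m0 * (B * r 0) ≤ B * r 0 := mul_le_of_le_one_left (mul_nonneg hB hr0) hm1
  change _ ≤ B * (4 * r 0 + ∑ k ∈ range (L.length + 1), D (exP L m0) k * r k)
  change -(B * r 0) ≤ _ - q 0 * γ 0 ∧ _ - q 0 * γ 0 ≤ B * r 0 at d4
  change m0 * -(B * r 0) ≤ m0 * (_ - q 0 * γ 0) at f5
  change m0 * (_ - q 0 * γ 0) ≤ m0 * (B * r 0) at f6
  rw [abs_le]
  constructor <;> nlinarith

theorem D3_approx_aux (hw : Wt w) (hR : ∀ x, R x x = 1) (hs : ∀ x y, g x y = g y x)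
    (hg : ∀ x y, |g x y| ≤ B) : ∀ (j : ℕ) (L : List (Lv Ω)) (m0 : ℝ) (q : ℕ → ℝ),
    j ≤ L.length → 0 ≤ m0 → Mono m0 L → ∀ h,
    |D3 w L j (fun x y ρ => R x ρ * g ρ y) h + m0 * T3 w L j (fun x y ρ => R x ρ * g ρ y) h -
      pr L.length (exP L m0) q (∑ x, P w L h x * g x x) (fun k => p2 w L k g h) j| ≤
      B * (4 * p2 w L j (fun x y => |R x y - q j|) h +
        ∑ k ∈ range (L.length + 1), D (exP L m0) k * p2 w L k (fun x y => |R x y - q k|) h)
  | 0, _, _, q, _, h0, hM, h => base_approx hw hR hs hg h0 hM q h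
  | j + 1, [], _, _, hj, _, _, _ => by simp at hj
  | j + 1, l :: L, m0, q, hj, h0, hM, h => by
    have ih := D3_approx_aux hw hR hs hg j L l.m (fun k => q (k + 1)) (by simpa using hj)
      (h0.trans hM.1) hM.2
    have egd : Eg fun h => ∑ x, P w L h x * g x x := Eg.sum _ fun x _ => (eg_P hw L x).mul_const _
    have es : Eg fun h => ∑ k ∈ range (L.length + 1),
        D (exP L l.m) k * p2 w L k (fun x y => |R x y - q (k + 1)|) h :=
      Eg.sum _ fun k _ => (eg_p2 hw L k _).const_mul _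
    have a1 := abs_tE_sub hw l L ((eg_D3 hw L j _).add ((eg_T3 hw L j _).const_mul l.m))
      (eg_pr egd (fun k => eg_p2 hw L k g) _ _ _ _)
      ((((eg_p2 hw L j _).const_mul 4).add es).const_mul B) ih h
    rw [tE_pr (lg_X hw L) egd (fun k => eg_p2 hw L k g), tE_const_mul,
      tE_add (lg_X hw L) ((eg_p2 hw L j _).const_mul 4) es, tE_const_mul,
      tE_sum (lg_X hw L) _ fun k _ => (eg_p2 hw L k _).const_mul _,
      tE_sum (lg_X hw L) _ fun x _ => (eg_P hw L x).mul_const _] at a1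
    simp only [tE_const_mul, tE_mul_const, ← p2_succ hw] at a1
    have a2 := T3_approx (R := R) hw hg (l :: L) (j + 1) (q 0) h
    have a4 : 0 ≤ l.m - m0 := sub_nonneg.2 hM.1
    rw [D3_succ hw, List.length_cons, pr_shift, sum_range_succ' _ (L.length + 1)]
    simp only [exP_succ, D_succ, D_zero]
    have : ∀ x, tE l (X w L) (fun z => P w L z x) h = P w (l :: L) h x := fun _ => rfl
    simp only [this] at a1
    have d1 := abs_le.1 a1
    have d2 := abs_le.1 a2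
    have f1 := mul_le_mul_of_nonneg_left d2.1 a4
    have f2 := mul_le_mul_of_nonneg_left d2.2 a4
    rw [abs_le]
    constructor <;> nlinarith

/-- **the three-replica term of the Schwinger–Dyson equation** -/
theorem D3_approx (hw : Wt w) (hR : ∀ x, R x x = 1) (hs : ∀ x y, g x y = g y x)
    (hg : ∀ x y, |g x y| ≤ B) {L : List (Lv Ω)} (hM : Mono 0 L) {j : ℕ} (hj : j ≤ L.length)
    (q : ℕ → ℝ) (h : Ω → ℝ) :
    |D3 w L j (fun x y ρ => R x ρ * g ρ y) h -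
      pr L.length (exP L 0) q (∑ x, P w L h x * g x x) (fun k => p2 w L k g h) j| ≤
      B * (4 * p2 w L j (fun x y => |R x y - q j|) h +
        ∑ k ∈ range (L.length + 1), D (exP L 0) k * p2 w L k (fun x y => |R x y - q k|) h) := by
  simpa using D3_approx_aux hw hR hs hg j L 0 q hj le_rfl hM h

end sync

end Crest.Agent.T157.Sd
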