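import Crest.Agent.T157.FrA_98
import Crest.Agent.T157.ConcM_16
import Crest.Agent.T157.PsiDef_33
import Crest.Agent.T157.SdAlg_49

/-!
Row 157, part D (helper49): the random-matrix half of the Schwinger–Dyson equations.
Gaussian integration by parts for `u·(z - J)⁻¹ v` against a weight, the averaged semicircle law
at `z = 2 + iη`, `Tau`, and the edge weight `Am` as the imaginary part of the resolvent.
-/

set_option autoImplicit false

noncomputable section

namespace Crest.Agent.T157.SdM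

open Matrix Finset MeasureTheory Function
open Crest.Agent.T157.Cond Crest.Agent.T157.Conc Crest.Agent.T157.Fr Crest.Agent.T157.SdA

/-! ### complex Stein identity -/

theorem steinC {κ : Type*} [Fintype κ] [DecidableEq κ] (j : κ) {f f' : (κ → ℝ) → ℂ}
    (hf : Continuous f) (hf' : Measurable f')
    (hd : ∀ g : κ → ℝ, HasDerivAt (fun t => f (update g j t)) (f' g) (g j))
    {C C' : ℝ} (hC : ∀ g, ‖f g‖ ≤ C) (hC' : ∀ g, ‖f' g‖ ≤ C') :
    Integrable (fun g => (g j : ℂ) * f g) (gv κ) ∧ Integrable f' (gv κ) ∧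
      ∫ g, (g j : ℂ) * f g ∂(gv κ) = ∫ g, f' g ∂(gv κ) := by
  have i1 : Integrable (fun g => (g j : ℂ) * f g) (gv κ) := by
    refine ((R339.Guerra.integrable_coord j).norm.const_mul C).mono' (by fun_prop)
      (Filter.Eventually.of_forall fun x => ?_)
    rw [norm_mul, Complex.norm_real, mul_comm]
    exact mul_le_mul_of_nonneg_right (hC x) (norm_nonneg _)
  have i2 : Integrable f' (gv κ) :=
    (integrable_const C').mono' hf'.aestronglyMeasurable (Filter.Eventually.of_forall hC')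
  refine ⟨i1, i2, Complex.ext ?_ ?_⟩
  · have h := R339.Guerra.steinG j (f := fun g => (f g).re) (f' := fun g => (f' g).re)
      (Complex.continuous_re.comp hf) (Complex.measurable_re.comp hf')
      (fun g => Complex.reCLM.hasFDerivAt.comp_hasDerivAt _ (hd g))
      (fun g => (Complex.abs_re_le_norm _).trans (hC g))
      (fun g => (Complex.abs_re_le_norm _).trans (hC' g))
    have e1 := integral_re i1
    have e2 := integral_re i2
    simp only [RCLike.re_to_complex, Complex.re_ofReal_mul] at e1 e2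
    rw [← e1, ← e2]; exact h
  · have h := R339.Guerra.steinG j (f := fun g => (f g).im) (f' := fun g => (f' g).im)
      (Complex.continuous_im.comp hf) (Complex.measurable_im.comp hf')
      (fun g => Complex.imCLM.hasFDerivAt.comp_hasDerivAt _ (hd g))
      (fun g => (Complex.abs_im_le_norm _).trans (hC g))
      (fun g => (Complex.abs_im_le_norm _).trans (hC' g))
    have e1 := integral_im i1
    have e2 := integral_im i2
    simp only [RCLike.im_to_complex, Complex.im_ofReal_mul] at e1 e2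
    rw [← e1, ← e2]; exact h

variable {ι : Type*} [Fintype ι] [DecidableEq ι]

/-! ### bilinear forms and the direction matrices -/

/-- the bilinear form `u·A v` -/
def bl (A : Matrix ι ι ℂ) (u v : ι → ℂ) : ℂ := u ⬝ᵥ A *ᵥ v

theorem norm_bl_le (A : Matrix ι ι ℂ) (u v : ι → ℂ) : ‖bl A u v‖ ≤ cop A * (cn u * cn v) := by
  refine (norm_sum_mul_le u (A *ᵥ v)).trans ?_
  have := mul_le_mul_of_nonneg_left (cn_mulVec_le A v) (cn_nonneg u)
  linarith

theorem norm_bl_le' {A : Matrix ι ι ℂ} {c : ℝ} (h : cop A ≤ c) (u v : ι → ℂ) :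
    ‖bl A u v‖ ≤ c * (cn u * cn v) :=
  (norm_bl_le A u v).trans (mul_le_mul_of_nonneg_right h (mul_nonneg (cn_nonneg u) (cn_nonneg v)))

omit [DecidableEq ι] in
theorem bl_add (A B : Matrix ι ι ℂ) (u v : ι → ℂ) : bl (A + B) u v = bl A u v + bl B u v := by
  simp [bl, add_mulVec]
omit [DecidableEq ι] in
theorem bl_sub (A B : Matrix ι ι ℂ) (u v : ι → ℂ) : bl (A - B) u v = bl A u v - bl B u v := by
  simp [bl, sub_mulVec]
omit [DecidableEq ι] in
theorem bl_smul (c : ℂ) (A : Matrix ι ι ℂ) (u v : ι → ℂ) : bl (c • A) u v = c * bl A u v := by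
  simp [bl, smul_mulVec]
theorem bl_one (u v : ι → ℂ) : bl 1 u v = u ⬝ᵥ v := by simp [bl]
omit [DecidableEq ι] in
theorem bl_sum {κ : Type*} (S : Finset κ) (A : κ → Matrix ι ι ℂ) (u v : ι → ℂ) :
    bl (∑ k ∈ S, A k) u v = ∑ k ∈ S, bl (A k) u v := by
  simp [bl, sum_mulVec, dotProduct_sum]
omit [DecidableEq ι] in
theorem bl_mul (A B : Matrix ι ι ℂ) (u v : ι → ℂ) : bl (A * B) u v = bl A u (B *ᵥ v) := by
  simp [bl]
omit [DecidableEq ι] in
theorem bl_mul' (A B : Matrix ι ι ℂ) (u v : ι → ℂ) : bl (A * B) u v = bl B (Aᵀ *ᵥ u) v := by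
  simp [bl, ← mulVec_mulVec, dotProduct_mulVec, mulVec_transpose]
omit [DecidableEq ι] in
theorem bl_transpose (A : Matrix ι ι ℂ) (u v : ι → ℂ) : bl Aᵀ u v = bl A v u := by
  simp [bl, dotProduct_mulVec, mulVec_transpose, dotProduct_comm]
theorem bl_single (A : Matrix ι ι ℂ) (i j : ι) : bl A (Pi.single i 1) (Pi.single j 1) = A i j := by
  simp [bl]
omit [DecidableEq ι] in
theorem Continuous.bl {X : Type*} [TopologicalSpace X] {A : X → Matrix ι ι ℂ} (h : Continuous A)
    (u v : ι → ℂ) : Continuous fun x => bl (A x) u v :=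
  continuous_const.dotProduct (h.matrix_mulVec continuous_const)

omit [Fintype ι] in
theorem Ap_apply (s : ℝ) (p : ι × ι) (i j : ι) : Ap s p i j =
    ((s / √2 : ℝ) : ℂ) * ((if (i, j) = p then 1 else 0) + if (j, i) = p then 1 else 0) := by
  simp only [Ap, cx_apply, symG, of_apply, Pi.single_apply]
  split_ifs <;> simp

theorem sum_Ap (s : ℝ) (c : ι × ι → ℝ) : ∑ p, (c p : ℂ) • Ap s p = cx (symG s c) := by
  ext i j
  simp only [Matrix.sum_apply, Matrix.smul_apply, Ap_apply, smul_eq_mul, cx_apply, symG, of_apply,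
    mul_add, mul_ite, mul_one, mul_zero, sum_add_distrib, sum_ite_eq, mem_univ, if_true]
  push_cast; ring

theorem bl_Ap (s : ℝ) (p : ι × ι) (u v : ι → ℂ) :
    bl (Ap s p) u v = ((s / √2 : ℝ) : ℂ) * (u p.1 * v p.2 + u p.2 * v p.1) := by
  obtain ⟨a, b⟩ := p
  simp only [bl, dotProduct, mulVec, Ap_apply, Prod.mk.injEq, mul_add, add_mul, mul_ite, ite_mul,
    mul_one, mul_zero, zero_mul, sum_add_distrib, ite_and, mul_sum]
  congr 1
  · rw [sum_eq_single a (by simp +contextual) (by simp)]; simp; ring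
  · rw [sum_comm, sum_eq_single a (by simp +contextual) (by simp)]; simp; ring

theorem sum_Ap_mul (s : ℝ) (M : Matrix ι ι ℂ) :
    ∑ p, Ap s p * M * Ap s p = ((s ^ 2 : ℝ) : ℂ) • (M.trace • (1 : Matrix ι ι ℂ) + Mᵀ) := by
  ext i j
  have h2 : ((s / √2 : ℝ) : ℂ) * ((s / √2 : ℝ) : ℂ) * 2 = ((s ^ 2 : ℝ) : ℂ) := by
    have : s / √2 * (s / √2) * 2 = s ^ 2 := by
      rw [div_mul_div_comm, Real.mul_self_sqrt (by norm_num)]; ring
    exact_mod_cast this
  have e : ∀ p : ι × ι, (Ap s p * M * Ap s p) i j = ((s / √2 : ℝ) : ℂ) * ((s / √2 : ℝ) : ℂ) *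
      ((if p.1 = i then (if p.2 = j then M p.2 p.1 else 0) else 0) +
       (if p.1 = i then (if p.1 = j then M p.2 p.2 else 0) else 0) +
       (if p.2 = i then (if p.2 = j then M p.1 p.1 else 0) else 0) +
       (if p.2 = i then (if p.1 = j then M p.1 p.2 else 0) else 0)) := fun p => by
    rw [← bl_single (Ap s p * M * Ap s p), Matrix.mul_assoc, bl_mul, bl_Ap]
    have e1 : ∀ k, ((M * Ap s p) *ᵥ Pi.single j 1) k = ((s / √2 : ℝ) : ℂ) *
        (M k p.1 * (if p.2 = j then 1 else 0) + M k p.2 * (if p.1 = j then 1 else 0)) := fun k => by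
      have := bl_Ap s p (M k) (Pi.single j 1)
      simp only [Pi.single_apply] at this
      rw [← this, ← mulVec_mulVec]; rfl
    rw [e1, e1]
    simp only [Pi.single_apply]
    split_ifs <;> ring
  simp only [Matrix.sum_apply, e, ← mul_sum, sum_add_distrib, Fintype.sum_prod_type]
  rw [sum_comm (f := fun a b => if b = i then (if b = j then M a a else 0) else 0),
    sum_comm (f := fun a b => if b = i then (if a = j then M a b else 0) else 0), ← h2]
  by_cases h : i = j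
  · subst h; simp [Matrix.trace]; ring
  · simp [h]; ring

theorem cop_symG_le (s : ℝ) (c : ι × ι → ℝ) : cop (cx (symG s c)) ≤ √2 * |s| * en c :=
  (cop_le_hs _).trans (hs_symG_le s c)

theorem cop_Ap_le (s : ℝ) (p : ι × ι) : cop (Ap s p) ≤ √2 * |s| := by
  have := cop_symG_le s (Pi.single p (1 : ℝ))
  have e : en (Pi.single p (1 : ℝ) : ι × ι → ℝ) = 1 := by
    rw [en, Finset.sum_eq_single p] <;> simp +contextual
  rwa [e, mul_one] at this

/-! ### the resolvent along Gaussian coordinates -/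

section res
variable {d : ι → ℂ} {η : ℝ}

theorem hasDerivAt_res (hη : 0 < η) (hd : ∀ i, η ≤ (d i).im) (s : ℝ) (x : ι × ι → ℝ) (p : ι × ι)
    (u v : ι → ℂ) : HasDerivAt (fun t => bl (res d (symG s (update x p t))) u v)
      (bl (res d (symG s x) * Ap s p * res d (symG s x)) u v) (x p) := by
  have hc : Continuous fun t : ℝ => update x p t := continuous_const.update p continuous_id
  have h := hasDerivAt_of_eq (f := fun t => bl (res d (symG s (update x p t))) u v)
    (φ := fun t => bl (res d (symG s (update x p t)) * Ap s p * res d (symG s x)) u v) (a := x p)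
    (Continuous.bl ((((continuous_res hη hd s).comp hc).matrix_mul continuous_const).matrix_mul
      continuous_const) u v) (fun t => by
      rw [update_eq_self, ← bl_sub, res_sub_res (unit_Zm hη hd (symG_transpose _ _))
        (unit_Zm hη hd (symG_transpose _ _)), symG_update, cx_smul, ← bl_smul, Ap]
      simp)
  simpa only [update_eq_self] using h

/-- **Stein's identity for `w · u·J G v`** -/
theorem stein_res (hη : 0 < η) (hd : ∀ i, η ≤ (d i).im) (s : ℝ) (u v : ι → ℂ)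
    {w : (ι × ι → ℝ) → ℝ} {w' : ι × ι → (ι × ι → ℝ) → ℝ} (hw : Continuous w)
    (hw' : ∀ p, Measurable (w' p))
    (hD : ∀ p x, HasDerivAt (fun t => w (update x p t)) (w' p x) (x p))
    {C C' : ℝ} (hC : ∀ x, |w x| ≤ C) (hC' : ∀ p x, |w' p x| ≤ C') :
    ∫ x, (w x : ℂ) * bl (cx (symG s x) * res d (symG s x)) u v ∂(gv (ι × ι)) =
      ∫ x, ((w x : ℂ) * (((s ^ 2 : ℝ) : ℂ) * ((res d (symG s x)).trace * bl (res d (symG s x)) u v +
          bl (res d (symG s x) * res d (symG s x)) u v)) +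
        bl (cx (symG s fun p => w' p x) * res d (symG s x)) u v) ∂(gv (ι × ι)) := by
  have hG := continuous_res hη hd s
  have hb : ∀ x, cop (res d (symG s x)) ≤ 1 / η := fun x => cop_res_le hη hd (symG_transpose s x)
  have key : ∀ p : ι × ι, _ := fun p => steinC p
    (f := fun x => (w x : ℂ) * bl (Ap s p * res d (symG s x)) u v)
    (f' := fun x => (w' p x : ℂ) * bl (Ap s p * res d (symG s x)) u v +
      (w x : ℂ) * bl (Ap s p * res d (symG s x) * Ap s p * res d (symG s x)) u v)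
    ((Complex.continuous_ofReal.comp hw).mul (Continuous.bl (continuous_const.matrix_mul hG) u v))
    (((Complex.measurable_ofReal.comp (hw' p)).mul
      (Continuous.bl (continuous_const.matrix_mul hG) u v).measurable).add
      ((Complex.continuous_ofReal.comp hw).mul (Continuous.bl (((continuous_const.matrix_mul
        hG).matrix_mul continuous_const).matrix_mul hG) u v)).measurable)
    (fun x => by
      have h1 := (hD p x).ofReal_comp
      have h2 := hasDerivAt_res hη hd s x p ((Ap s p)ᵀ *ᵥ u) v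
      have h3 := h1.mul h2
      simp only [update_eq_self, ← bl_mul', ← Matrix.mul_assoc] at h3
      exact h3)
    (C := C * ((√2 * |s|) * (1 / η) * (cn u * cn v)))
    (C' := C' * ((√2 * |s|) * (1 / η) * (cn u * cn v)) +
      C * ((√2 * |s|) * (1 / η) * (√2 * |s|) * (1 / η) * (cn u * cn v)))
    (fun x => by
      rw [norm_mul, Complex.norm_real]
      exact mul_le_mul (hC x) (norm_bl_le' (cop_mul_le' (cop_Ap_le s p) (hb x)) u v)
        (norm_nonneg _) ((abs_nonneg _).trans (hC x)))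
    (fun x => by
      refine (norm_add_le _ _).trans (add_le_add ?_ ?_)
      · rw [norm_mul, Complex.norm_real]
        exact mul_le_mul (hC' p x) (norm_bl_le' (cop_mul_le' (cop_Ap_le s p) (hb x)) u v)
          (norm_nonneg _) ((abs_nonneg _).trans (hC' p x))
      · rw [norm_mul, Complex.norm_real]
        exact mul_le_mul (hC x) (norm_bl_le' (cop_mul_le' (cop_mul_le' (cop_mul_le'
          (cop_Ap_le s p) (hb x)) (cop_Ap_le s p)) (hb x)) u v)
          (norm_nonneg _) ((abs_nonneg _).trans (hC x)))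
  have e1 : ∀ x : ι × ι → ℝ, (w x : ℂ) * bl (cx (symG s x) * res d (symG s x)) u v =
      ∑ p, (x p : ℂ) * ((w x : ℂ) * bl (Ap s p * res d (symG s x)) u v) := fun x => by
    conv_lhs => rw [← sum_Ap s x]
    rw [Finset.sum_mul, bl_sum, mul_sum]
    exact sum_congr rfl fun p _ => by rw [smul_mul_assoc, bl_smul]; ring
  simp only [e1]
  rw [integral_finsetSum _ fun p _ => (key p).1, sum_congr rfl fun p _ => (key p).2.2,
    ← integral_finsetSum _ fun p _ => (key p).2.1]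
  refine integral_congr_ae (Filter.Eventually.of_forall fun x => ?_)
  simp only
  rw [sum_add_distrib, ← mul_sum, ← bl_sum, ← Finset.sum_mul, sum_Ap_mul,
    res_transpose d (symG_transpose s x), ← sum_Ap s fun p => w' p x, Finset.sum_mul, bl_sum,
    add_comm, smul_mul_assoc, bl_smul, Matrix.add_mul, bl_add, smul_mul_assoc, bl_smul,
    Matrix.one_mul]
  congr 1
  exact sum_congr rfl fun p _ => by rw [smul_mul_assoc, bl_smul]

end res

/-! ### the averaged semicircle law at `z = 2 + iη` -/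

/-- `G = (2 + iη - W)⁻¹` -/
def Gz (η : ℝ) (W : Matrix ι ι ℝ) : Matrix ι ι ℂ := res (fun _ => 2 + η * Complex.I) W

/-- `m = s² tr G` -/
def mN (η s : ℝ) (x : ι × ι → ℝ) : ℂ := ((s ^ 2 : ℝ) : ℂ) * (Gz η (symG s x)).trace

section law
variable {η s : ℝ}

omit [Fintype ι] [DecidableEq ι] in
theorem im_z (η : ℝ) (i : ι) : η ≤ ((fun _ : ι => (2 + η * Complex.I : ℂ)) i).im := by simp

theorem cop_Gz (hη : 0 < η) {W : Matrix ι ι ℝ} (hW : Wᵀ = W) : cop (Gz η W) ≤ 1 / η :=
  cop_res_le hη (im_z η) hW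

theorem Gz_transpose (η : ℝ) {W : Matrix ι ι ℝ} (hW : Wᵀ = W) : (Gz η W)ᵀ = Gz η W :=
  res_transpose _ hW

theorem continuous_Gz (hη : 0 < η) (s : ℝ) : Continuous fun x : ι × ι → ℝ => Gz η (symG s x) :=
  continuous_res hη (im_z η) s

theorem mul_Gz (hη : 0 < η) {W : Matrix ι ι ℝ} (hW : Wᵀ = W) :
    cx W * Gz η W = (2 + η * Complex.I : ℂ) • Gz η W - 1 := by
  have h := Zm_mul_res (unit_Zm hη (im_z η) hW)
  rw [Zm, Matrix.sub_mul, ← smul_one_eq_diagonal, smul_mul_assoc, Matrix.one_mul] at h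
  rw [← h]; simp [Gz]

theorem continuous_mN (hη : 0 < η) (s : ℝ) : Continuous (mN (ι := ι) η s) :=
  continuous_const.mul (continuous_Gz hη s).matrix_trace

theorem norm_mN (hη : 0 < η) (hs : s ^ 2 * Fintype.card ι = 1) (x : ι × ι → ℝ) :
    ‖mN η s x‖ ≤ 1 / η := by
  rw [mN, norm_mul, Complex.norm_real, Real.norm_of_nonneg (sq_nonneg s)]
  have h1 := (trace_le (Gz η (symG s x))).trans (mul_le_mul_of_nonneg_left
    (cop_Gz hη (symG_transpose s x)) (Nat.cast_nonneg _))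
  calc _ ≤ s ^ 2 * (Fintype.card ι * (1 / η)) := mul_le_mul_of_nonneg_left h1 (sq_nonneg s)
    _ = _ := by rw [← mul_assoc, hs, one_mul]

theorem integrable_mN (hη : 0 < η) (hs : s ^ 2 * Fintype.card ι = 1) :
    Integrable (mN (ι := ι) η s) (gv (ι × ι)) :=
  (integrable_const (1 / η)).mono' (continuous_mN hη s).aestronglyMeasurable
    (Filter.Eventually.of_forall (norm_mN hη hs))

theorem im_mN (hη : 0 < η) (x : ι × ι → ℝ) : (mN η s x).im ≤ 0 := by
  rw [mN, Complex.im_ofReal_mul, Matrix.trace, Complex.im_sum]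
  exact mul_nonpos_of_nonneg_of_nonpos (sq_nonneg s)
    (sum_nonpos fun i _ => im_res_nonpos hη (im_z η) (symG_transpose s x) i)

theorem lip_mN (hη : 0 < η) (hs : s ^ 2 * Fintype.card ι = 1) (x y : ι × ι → ℝ) :
    ‖mN η s x - mN η s y‖ ≤ √2 * s ^ 2 / η ^ 2 * en (x - y) := by
  have hx := symG_transpose s x
  have hy := symG_transpose s y
  rw [mN, mN, ← mul_sub, ← trace_sub, Gz, Gz, res_sub_res (unit_Zm hη (im_z η) hx)
    (unit_Zm hη (im_z η) hy), symG_sub, norm_mul, Complex.norm_real,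
    Real.norm_of_nonneg (sq_nonneg s)]
  have h1 := cn_diag_mul3 (Gz η (symG s x)) (cx (symG s (x - y))) (Gz η (symG s y))
  have h2 : cop (Gz η (symG s x)) * Fr.hs (cx (symG s (x - y))) * cop (Gz η (symG s y)) ≤
      1 / η * (√2 * |s| * en (x - y)) * (1 / η) :=
    mul_le_mul (mul_le_mul (cop_Gz hη hx) (hs_symG_le s _) (hs_nonneg _) (by positivity))
      (cop_Gz hη hy) (cop_nonneg _) (by have := en_nonneg (x - y); positivity)
  have h3 := (norm_sum_le _ _).trans ((sum_norm_le_cn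
    (Gz η (symG s x) * cx (symG s (x - y)) * Gz η (symG s y)).diag).trans
      (mul_le_mul_of_nonneg_left (h1.trans h2) (Real.sqrt_nonneg _)))
  have h4 : √(Fintype.card ι) * |s| = 1 := by
    rw [← Real.sqrt_sq_eq_abs, ← Real.sqrt_mul (Nat.cast_nonneg _), mul_comm, hs, Real.sqrt_one]
  refine (mul_le_mul_of_nonneg_left h3 (sq_nonneg s)).trans (le_of_eq ?_)
  calc _ = (√(Fintype.card ι) * |s|) * (√2 * s ^ 2 / η ^ 2 * en (x - y)) := by ring
    _ = _ := by rw [h4, one_mul]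

/-- deviation of a complex Lipschitz function -/
theorem dev_lip {κ : Type*} [Fintype κ] {F : (κ → ℝ) → ℂ} {L : ℝ} (hL : 0 ≤ L)
    (h : ∀ x y, ‖F x - F y‖ ≤ L * en (x - y)) (hi : Integrable F (gv κ)) :
    ∫ x, ‖F x - ∫ y, F y ∂(gv κ)‖ ∂(gv κ) ≤ 2 * L ∧
      ∫ x, ‖F x - ∫ y, F y ∂(gv κ)‖ ^ 2 ∂(gv κ) ≤ 2 * L ^ 2 := by
  have h1 : ELip L fun x => (F x).re := fun x y =>
    (Complex.abs_re_le_norm (F x - F y)).trans (h x y)
  have h2 : ELip L fun x => (F x).im := fun x y =>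
    (Complex.abs_im_le_norm (F x - F y)).trans (h x y)
  have e1 : ∫ y, (F y).re ∂(gv κ) = (∫ y, F y ∂(gv κ)).re := integral_re hi
  have e2 : ∫ y, (F y).im ∂(gv κ) = (∫ y, F y ∂(gv κ)).im := integral_im hi
  constructor
  · have a1 := abs_dev_lip h1
    have a2 := abs_dev_lip h2
    rw [abs_of_nonneg hL, e1] at a1
    rw [abs_of_nonneg hL, e2] at a2
    have i1 := (h1.sub_const (∫ y, F y ∂(gv κ)).re).integrable.abs
    have i2 := (h2.sub_const (∫ y, F y ∂(gv κ)).im).integrable.abs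
    refine (integral_mono_of_nonneg (Filter.Eventually.of_forall fun x => norm_nonneg _) (i1.add i2)
      (Filter.Eventually.of_forall fun x => Complex.norm_le_abs_re_add_abs_im _)).trans ?_
    simp only [Pi.add_apply]
    rw [integral_add i1 i2]
    linarith
  · have a1 := var_lip h1
    have a2 := var_lip h2
    have i1 := subG_integrable_sq (subG_lip h1)
    have i2 := subG_integrable_sq (subG_lip h2)
    rw [e1] at a1 i1
    rw [e2] at a2 i2
    have e : ∀ x, ‖F x - ∫ y, F y ∂(gv κ)‖ ^ 2 = ((F x).re - (∫ y, F y ∂(gv κ)).re) ^ 2 +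
        ((F x).im - (∫ y, F y ∂(gv κ)).im) ^ 2 := fun x => by
      rw [Complex.sq_norm, Complex.normSq_apply]; simp [sq]
    simp only [e]
    rw [integral_add i1 i2]
    linarith

omit [DecidableEq ι] in
theorem card_ge (hs : s ^ 2 * Fintype.card ι = 1) : s ^ 2 ≤ 1 := by
  have h : Fintype.card ι ≠ 0 := fun h => by simp [h] at hs
  have : (1 : ℝ) ≤ Fintype.card ι := by exact_mod_cast Nat.one_le_iff_ne_zero.2 h
  nlinarith [sq_nonneg s]

/-- the self-consistent equation for the mean -/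
theorem mean_eq (hη : 0 < η) (hs : s ^ 2 * Fintype.card ι = 1) :
    ‖(∫ y, mN η s y ∂(gv (ι × ι))) * (∫ y, mN η s y ∂(gv (ι × ι))) -
      (2 + η * Complex.I) * (∫ y, mN η s y ∂(gv (ι × ι))) + 1‖ ≤
      4 * s ^ 4 / η ^ 4 + s ^ 2 / η ^ 2 := by
  have hG := continuous_Gz (ι := ι) hη s
  have hb : ∀ x : ι × ι → ℝ, cop (Gz η (symG s x)) ≤ 1 / η :=
    fun x => cop_Gz hη (symG_transpose s x)
  have hi := integrable_mN hη hs
  have hs' : ((s ^ 2 : ℝ) : ℂ) * Fintype.card ι = 1 := by exact_mod_cast hs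
  obtain ⟨μ, hμ⟩ : ∃ μ, μ = ∫ y, mN η s y ∂(gv (ι × ι)) := ⟨_, rfl⟩
  have bd : ∀ {A : (ι × ι → ℝ) → Matrix ι ι ℂ} {c : ℝ}, Continuous A → (∀ x, cop (A x) ≤ c) →
      ∀ i, Integrable (fun x => A x i i) (gv (ι × ι)) := fun {A c} h1 h2 i =>
    (integrable_const c).mono' (h1.matrix_elem i i).aestronglyMeasurable
      (Filter.Eventually.of_forall fun x => (entry_le _ i i).trans (h2 x))
  have iG := bd hG hb
  have iGG := bd (hG.matrix_mul hG) fun x => cop_mul_le' (hb x) (hb x)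
  have itG := bd (A := fun x => (Gz η (symG s x)).trace • Gz η (symG s x))
      (hG.matrix_trace.smul hG) (c := Fintype.card ι * (1 / η) * (1 / η)) fun x => by
    rw [cop_smul]
    exact mul_le_mul ((trace_le _).trans (mul_le_mul_of_nonneg_left (hb x) (Nat.cast_nonneg _)))
      (hb x) (cop_nonneg _) (by positivity)
  have st : ∀ i : ι, ∫ x, ((2 + η * Complex.I) * Gz η (symG s x) i i - 1) ∂(gv (ι × ι)) =
      ∫ x, ((s ^ 2 : ℝ) : ℂ) * (((Gz η (symG s x)).trace • Gz η (symG s x)) i i +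
        (Gz η (symG s x) * Gz η (symG s x)) i i) ∂(gv (ι × ι)) := fun i => by
    have h := stein_res hη (im_z η) s (Pi.single i 1) (Pi.single i 1) (w := fun _ => 1)
      (w' := fun _ _ => 0) continuous_const (fun _ => measurable_const)
      (fun _ _ => hasDerivAt_const _ _) (C := 1) (C' := 0) (by simp) (by simp)
    have z : cx (symG s fun _ : ι × ι => (0 : ℝ)) = 0 := by ext; simp [symG]
    simp only [bl_single, z, Matrix.zero_mul, Matrix.zero_apply, add_zero, Complex.ofReal_one,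
      one_mul] at h
    refine Eq.trans (integral_congr_ae (Filter.Eventually.of_forall fun x => ?_)) h
    have := congrFun (congrFun (mul_Gz hη (symG_transpose s x)) i) i
    simp only [Matrix.sub_apply, Matrix.smul_apply, smul_eq_mul, one_apply_eq] at this
    exact this.symm
  obtain ⟨T, hT⟩ : ∃ T : (ι × ι → ℝ) → ℂ, T = fun x =>
    ((s ^ 2 : ℝ) : ℂ) ^ 2 * (Gz η (symG s x) * Gz η (symG s x)).trace := ⟨_, rfl⟩
  have iT : Integrable T (gv (ι × ι)) := hT ▸ (integrable_finsetSum _ fun i _ => iGG i).const_mul _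
  have i2 : Integrable (fun x => mN η s x * mN η s x) (gv (ι × ι)) :=
    hi.bdd_mul (continuous_mN hη s).aestronglyMeasurable
      (Filter.Eventually.of_forall (norm_mN hη hs))
  have s1 : (2 + η * Complex.I) * μ - 1 =
      ∫ x, mN η s x * mN η s x ∂(gv (ι × ι)) + ∫ x, T x ∂(gv (ι × ι)) := by
    have h := sum_congr (rfl : (univ : Finset ι) = univ) fun i _ => st i
    rw [← integral_finsetSum _ fun i _ => ((iG i).const_mul _).sub' (integrable_const _),
      ← integral_finsetSum _ fun i _ => ((itG i).fun_add (iGG i)).const_mul _] at h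
    have h' := congrArg (fun t => ((s ^ 2 : ℝ) : ℂ) * t) h
    simp only [← integral_const_mul] at h'
    rw [← integral_add i2 iT, hμ, ← integral_const_mul]
    calc _ = ∫ x, ((2 + η * Complex.I) * mN η s x - 1) ∂(gv (ι × ι)) := by
          rw [integral_sub (hi.const_mul _) (integrable_const _)]; simp
      _ = _ := by
        refine Eq.trans (integral_congr_ae (Filter.Eventually.of_forall fun x => ?_))
          (h'.trans (integral_congr_ae (Filter.Eventually.of_forall fun x => ?_)))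
        · simp only [sum_sub_distrib, ← mul_sum, mN, Matrix.trace, Matrix.diag, sum_const, card_univ,
            nsmul_eq_mul, mul_one]
          linear_combination hs'
        · simp only [sum_add_distrib, ← mul_sum, mN, hT, Matrix.trace, Matrix.diag,
            Matrix.smul_apply, smul_eq_mul]
          ring
  have s2 : ∫ x, (mN η s x - μ) * (mN η s x - μ) ∂(gv (ι × ι)) =
      ∫ x, mN η s x * mN η s x ∂(gv (ι × ι)) - μ * μ := by
    have e : ∀ x : ι × ι → ℝ, (mN η s x - μ) * (mN η s x - μ) =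
        mN η s x * mN η s x - ((2 * μ) * mN η s x - μ * μ) := fun x => by ring
    simp only [e]
    rw [integral_sub i2 ((hi.const_mul _).sub' (integrable_const _)),
      integral_sub (hi.const_mul _) (integrable_const _), integral_const_mul, ← hμ]
    simp; ring
  have b1 : ‖∫ x, (mN η s x - μ) * (mN η s x - μ) ∂(gv (ι × ι))‖ ≤ 4 * s ^ 4 / η ^ 4 := by
    have h := (dev_lip (by positivity) (lip_mN hη hs) hi).2
    refine (norm_integral_le_integral_norm _).trans ?_
    simp only [← sq, norm_pow, hμ]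
    refine h.trans (le_of_eq ?_)
    rw [div_pow, mul_pow, Real.sq_sqrt (by norm_num)]; ring
  have b2 : ‖∫ x, T x ∂(gv (ι × ι))‖ ≤ s ^ 2 / η ^ 2 := by
    have := norm_integral_le_of_norm_le_const (μ := gv (ι × ι)) (f := T) (C := s ^ 2 / η ^ 2)
      (Filter.Eventually.of_forall fun x => by
        rw [hT, norm_mul, norm_pow, Complex.norm_real, Real.norm_of_nonneg (sq_nonneg s)]
        have h1 := (trace_le _).trans (mul_le_mul_of_nonneg_left (cop_mul_le' (hb x) (hb x))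
          (Nat.cast_nonneg (Fintype.card ι)))
        refine (mul_le_mul_of_nonneg_left h1 (sq_nonneg _)).trans (le_of_eq ?_)
        calc _ = (s ^ 2 * Fintype.card ι) * (s ^ 2 / η ^ 2) := by ring
          _ = _ := by rw [hs, one_mul])
    simpa using this
  rw [← hμ]
  have e : μ * μ - (2 + η * Complex.I) * μ + 1 =
      -(∫ x, (mN η s x - μ) * (mN η s x - μ) ∂(gv (ι × ι)) + ∫ x, T x ∂(gv (ι × ι))) := by
    rw [s2]; linear_combination -s1
  rw [e, norm_neg]
  exact (norm_add_le _ _).trans (add_le_add b1 b2)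

theorem Root.im_ge {a : ℂ} (ha : Root η a) (hη : 0 < η) (hη1 : η ≤ 1) :
    √η / 2 ≤ a.im ∧ a.im ≤ 2 * √η ∧ η ≤ √η := by
  have h1 : √η ≤ 1 := Real.sqrt_le_one.2 hη1
  have h0 : 0 < √η := Real.sqrt_pos.2 hη
  have h2 : √η ^ 2 = η := Real.sq_sqrt hη.le
  obtain ⟨-, -, h3, h4⟩ := Root.bd (s := √η) (a := a) (by rwa [h2]) h0 h1
  exact ⟨h3, h4, by nlinarith⟩

theorem mean_close {a : ℂ} (ha : Root η a) (hη : 0 < η) (hη1 : η ≤ 1)
    (hs : s ^ 2 * Fintype.card ι = 1) :
    ‖(∫ y, mN η s y ∂(gv (ι × ι))) - a⁻¹‖ ≤ 10 * s ^ 2 / η ^ 5 := by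
  have h := mean_eq hη hs
  have him : (∫ y, mN η s y ∂(gv (ι × ι))).im ≤ 0 := by
    have e : ∫ y, (mN η s y).im ∂(gv (ι × ι)) = (∫ y, mN η s y ∂(gv (ι × ι))).im :=
      integral_im (integrable_mN hη hs)
    rw [← e]; exact integral_nonpos fun x => im_mN hη x
  generalize (∫ y, mN η s y ∂(gv (ι × ι))) = μ at *
  have e : μ * μ - (2 + η * Complex.I) * μ + 1 = (μ - a⁻¹) * (μ - a) := by
    rw [ha.inv]; linear_combination ha.eq
  obtain ⟨h1, -, h3⟩ := Root.im_ge ha hη hη1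
  have h4 : η / 2 ≤ ‖μ - a‖ := by
    have := Complex.abs_im_le_norm (μ - a)
    have := neg_abs_le (μ - a).im
    have := neg_le_abs (μ - a).im
    rw [Complex.sub_im] at *
    linarith
  rw [e, norm_mul] at h
  have h5 : 4 * s ^ 4 / η ^ 4 + s ^ 2 / η ^ 2 ≤ 5 * s ^ 2 / η ^ 4 := by
    have := card_ge hs
    have e : s ^ 2 / η ^ 2 = s ^ 2 * η ^ 2 / η ^ 4 := by field_simp
    rw [e, ← add_div]
    refine div_le_div_of_nonneg_right ?_ (by positivity)
    have : η ^ 2 ≤ 1 := pow_le_one₀ hη.le hη1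
    nlinarith [sq_nonneg s]
  have h6 := (mul_le_mul_of_nonneg_left h4 (norm_nonneg (μ - a⁻¹))).trans (h.trans h5)
  rw [le_div_iff₀ (by positivity)] at h6 ⊢
  nlinarith

/-- **averaged semicircle law** -/
theorem law {a : ℂ} (ha : Root η a) (hη : 0 < η) (hη1 : η ≤ 1)
    (hs : s ^ 2 * Fintype.card ι = 1) :
    ∫ x, ‖mN η s x - a⁻¹‖ ∂(gv (ι × ι)) ≤ 13 * s ^ 2 / η ^ 5 := by
  have hi := integrable_mN hη hs
  have h1 := (dev_lip (by positivity) (lip_mN hη hs) hi).1
  have h2 := mean_close ha hη hη1 hs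
  generalize (∫ y, mN η s y ∂(gv (ι × ι))) = μ at *
  have i1 := (hi.sub' (integrable_const μ)).norm
  have h3 : ∫ x, ‖mN η s x - a⁻¹‖ ∂(gv (ι × ι)) ≤
      ∫ x, (‖mN η s x - μ‖ + ‖μ - a⁻¹‖) ∂(gv (ι × ι)) :=
    integral_mono_of_nonneg (Filter.Eventually.of_forall fun x => norm_nonneg _)
      (i1.add (integrable_const _))
      (Filter.Eventually.of_forall fun x => norm_sub_le_norm_sub_add_norm_sub _ _ _)
  rw [integral_add i1 (integrable_const _)] at h3
  simp only [integral_const, probReal_univ, smul_eq_mul, one_mul] at h3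
  have h4 : 2 * (√2 * s ^ 2 / η ^ 2) ≤ 3 * s ^ 2 / η ^ 5 := by
    have e : 2 * (√2 * s ^ 2 / η ^ 2) = (2 * √2 * η ^ 3) * s ^ 2 / η ^ 5 := by field_simp
    rw [e]
    refine div_le_div_of_nonneg_right (mul_le_mul_of_nonneg_right ?_ (sq_nonneg s)) (by positivity)
    have : η ^ 3 ≤ 1 := pow_le_one₀ hη.le hη1
    have h : √2 ≤ 3 / 2 := Real.sqrt_le_iff.2 (by norm_num)
    nlinarith [Real.sqrt_nonneg 2, pow_pos hη 3]
  have e : 13 * s ^ 2 / η ^ 5 = 3 * s ^ 2 / η ^ 5 + 10 * s ^ 2 / η ^ 5 := by ring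
  linarith

/-! ### the Schwinger–Dyson defect -/

/-- **SD identity for a finite family of weights**: `w ω` are the (pair) weights, `w' ω p` their
derivatives in the Gaussian coordinate `p`. -/
theorem sd_defect {a : ℂ} (ha : Root η a) (hη : 0 < η) (hη1 : η ≤ 1)
    (hs : s ^ 2 * Fintype.card ι = 1) {Ω : Type*} [Fintype Ω] (u v : Ω → ι → ℂ)
    {w : Ω → (ι × ι → ℝ) → ℝ} {w' : Ω → ι × ι → (ι × ι → ℝ) → ℝ} (hw : ∀ ω, Continuous (w ω))
    (hw' : ∀ ω p, Measurable (w' ω p))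
    (hD : ∀ ω p x, HasDerivAt (fun t => w ω (update x p t)) (w' ω p x) (x p))
    {C C' R : ℝ} (hC : ∀ x, ∑ ω, |w ω x| ≤ C) (hC' : ∀ ω p x, |w' ω p x| ≤ C')
    (hR0 : 0 ≤ R) (hR : ∀ ω, cn (u ω) * cn (v ω) ≤ R) :
    ‖∫ x, ∑ ω, ((w ω x : ℂ) * (a * bl (Gz η (symG s x)) (u ω) (v ω) - u ω ⬝ᵥ v ω) -
        bl (cx (symG s fun p => w' ω p x) * Gz η (symG s x)) (u ω) (v ω)) ∂(gv (ι × ι))‖ ≤
      C * R * (14 * s ^ 2 / η ^ 6) := by
  have hG := continuous_Gz (ι := ι) hη s
  have hb : ∀ x : ι × ι → ℝ, cop (Gz η (symG s x)) ≤ 1 / η :=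
    fun x => cop_Gz hη (symG_transpose s x)
  have hC1 : ∀ ω x, |w ω x| ≤ C := fun ω x =>
    (single_le_sum (f := fun ω => |w ω x|) (fun _ _ => abs_nonneg _) (mem_univ ω)).trans (hC x)
  have hC0 : 0 ≤ C := (sum_nonneg fun _ _ => abs_nonneg _).trans (hC 0)
  have iw : ∀ ω {f : (ι × ι → ℝ) → ℂ} {c : ℝ}, Continuous f → (∀ x, ‖f x‖ ≤ c) →
      Integrable (fun x => (w ω x : ℂ) * f x) (gv (ι × ι)) := fun ω {f c} h1 h2 =>
    (integrable_const (C * c)).mono'
      ((Complex.continuous_ofReal.comp (hw ω)).mul h1).aestronglyMeasurable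
      (Filter.Eventually.of_forall fun x => by
        rw [norm_mul, Complex.norm_real]
        exact mul_le_mul (hC1 ω x) (h2 x) (norm_nonneg _) hC0)
  -- the defect
  obtain ⟨E, hE⟩ : ∃ E : Ω → (ι × ι → ℝ) → ℂ, E = fun ω x =>
    (mN η s x - a⁻¹) * bl (Gz η (symG s x)) (u ω) (v ω) +
      ((s ^ 2 : ℝ) : ℂ) * bl (Gz η (symG s x) * Gz η (symG s x)) (u ω) (v ω) := ⟨_, rfl⟩
  have cE : ∀ ω, Continuous (E ω) := fun ω => hE ▸
    (((continuous_mN hη s).sub continuous_const).mul (Continuous.bl hG _ _)).add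
      (continuous_const.mul (Continuous.bl (hG.matrix_mul hG) _ _))
  have bE : ∀ ω x, ‖E ω x‖ ≤ R * (‖mN η s x - a⁻¹‖ / η + s ^ 2 / η ^ 2) := fun ω x => by
    have h1 := (norm_bl_le' (hb x) (u ω) (v ω)).trans
      (mul_le_mul_of_nonneg_left (hR ω) (by positivity))
    have h2 := (norm_bl_le' (cop_mul_le' (hb x) (hb x)) (u ω) (v ω)).trans
      (mul_le_mul_of_nonneg_left (hR ω) (by positivity))
    rw [hE]
    refine (norm_add_le _ _).trans ?_
    rw [norm_mul, norm_mul, Complex.norm_real, Real.norm_of_nonneg (sq_nonneg s)]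
    refine (add_le_add (mul_le_mul_of_nonneg_left h1 (norm_nonneg _))
      (mul_le_mul_of_nonneg_left h2 (sq_nonneg s))).trans (le_of_eq ?_)
    ring
  have bE' : ∀ ω x, ‖E ω x‖ ≤ R * ((1 / η + ‖a⁻¹‖) / η + s ^ 2 / η ^ 2) := fun ω x =>
    (bE ω x).trans (by
      have := (norm_sub_le (mN η s x) a⁻¹).trans (add_le_add_left (norm_mN hη hs x) _)
      gcongr)
  have iE := fun ω => iw ω (cE ω) (bE' ω)
  have iB : ∀ ω, Integrable (fun x =>
      bl (cx (symG s fun p => w' ω p x) * Gz η (symG s x)) (u ω) (v ω)) (gv (ι × ι)) := fun ω => by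
    simp only [← sum_Ap s fun p => w' ω p _, Finset.sum_mul, bl_sum, smul_mul_assoc, bl_smul]
    refine integrable_finsetSum _ fun p _ => (integrable_const (C' * ((√2 * |s|) * (1 / η) *
      (cn (u ω) * cn (v ω))))).mono' ((Complex.measurable_ofReal.comp (hw' ω p)).mul
      (Continuous.bl (continuous_const.matrix_mul hG) _ _).measurable).aestronglyMeasurable
      (Filter.Eventually.of_forall fun x => ?_)
    rw [norm_mul, Complex.norm_real]
    exact mul_le_mul (hC' ω p x) (norm_bl_le' (cop_mul_le' (cop_Ap_le s p) (hb x)) _ _)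
      (norm_nonneg _) ((abs_nonneg _).trans (hC' ω p x))
  have iG := fun ω => iw ω (Continuous.bl hG (u ω) (v ω)) fun x => norm_bl_le' (hb x) _ _
  have i1 := fun ω => iw ω (f := fun _ => u ω ⬝ᵥ v ω) continuous_const fun _ => le_rfl
  have key : ∀ ω, Integrable (fun x => (w ω x : ℂ) *
        (a * bl (Gz η (symG s x)) (u ω) (v ω) - u ω ⬝ᵥ v ω) -
        bl (cx (symG s fun p => w' ω p x) * Gz η (symG s x)) (u ω) (v ω)) (gv (ι × ι)) ∧
      ∫ x, ((w ω x : ℂ) * (a * bl (Gz η (symG s x)) (u ω) (v ω) - u ω ⬝ᵥ v ω) -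
        bl (cx (symG s fun p => w' ω p x) * Gz η (symG s x)) (u ω) (v ω)) ∂(gv (ι × ι)) =
      ∫ x, (w ω x : ℂ) * E ω x ∂(gv (ι × ι)) := fun ω => by
    have h := stein_res hη (im_z η) s (u ω) (v ω) (hw ω) (hw' ω) (hD ω) (hC1 ω) (hC' ω)
    have j1 : Integrable (fun x => (w ω x : ℂ) *
        bl (cx (symG s x) * Gz η (symG s x)) (u ω) (v ω)) (gv (ι × ι)) := by
      refine (((iG ω).const_mul (2 + η * Complex.I)).sub (i1 ω)).congr
        (Filter.Eventually.of_forall fun x => ?_)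
      simp only [mul_Gz hη (symG_transpose s x), bl_sub, bl_smul, bl_one, Pi.sub_apply]; ring
    have j2 := (iG ω).const_mul a⁻¹
    have e1 : ∀ x, (w ω x : ℂ) * (a * bl (Gz η (symG s x)) (u ω) (v ω) - u ω ⬝ᵥ v ω) -
        bl (cx (symG s fun p => w' ω p x) * Gz η (symG s x)) (u ω) (v ω) =
        (w ω x : ℂ) * bl (cx (symG s x) * Gz η (symG s x)) (u ω) (v ω) -
          (a⁻¹ * ((w ω x : ℂ) * bl (Gz η (symG s x)) (u ω) (v ω)) +
          bl (cx (symG s fun p => w' ω p x) * Gz η (symG s x)) (u ω) (v ω)) := fun x => by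
      rw [mul_Gz hη (symG_transpose s x), bl_sub, bl_smul, bl_one, ha.inv]; ring
    simp only [e1]
    refine ⟨j1.sub (j2.add (iB ω)), ?_⟩
    rw [integral_sub j1 (j2.fun_add (iB ω)), sub_eq_iff_eq_add,
      ← integral_add (iE ω) (j2.fun_add (iB ω))]
    refine h.trans (integral_congr_ae (Filter.Eventually.of_forall fun x => ?_))
    simp only [hE, mN, Gz]; ring
  rw [integral_finsetSum _ fun ω _ => (key ω).1, sum_congr rfl fun ω _ => (key ω).2,
    ← integral_finsetSum _ fun ω _ => iE ω]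
  have im := ((integrable_mN hη hs).sub' (integrable_const a⁻¹)).norm
  refine (norm_integral_le_of_norm_le ((((im.div_const η).fun_add
    (integrable_const (s ^ 2 / η ^ 2))).const_mul R).const_mul C)
    (Filter.Eventually.of_forall fun x => ?_)).trans ?_
  · refine (norm_sum_le _ _).trans ((sum_le_sum fun ω _ => ?_).trans ((sum_mul ..).ge.trans
      (mul_le_mul_of_nonneg_right (hC x) (by positivity))))
    rw [norm_mul, Complex.norm_real]
    exact mul_le_mul_of_nonneg_left (bE ω x) (norm_nonneg _)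
  · rw [integral_const_mul, integral_const_mul, integral_add (im.div_const η) (integrable_const _),
      integral_div, mul_assoc]
    simp only [integral_const, probReal_univ, smul_eq_mul, one_mul]
    have h1 := div_le_div_of_nonneg_right (law ha hη hη1 hs) hη.le
    have h2 : s ^ 2 / η ^ 2 ≤ s ^ 2 / η ^ 6 :=
      div_le_div_of_nonneg_left (sq_nonneg s) (by positivity)
        (pow_le_pow_of_le_one hη.le hη1 (by norm_num))
    have e : 14 * s ^ 2 / η ^ 6 = 13 * s ^ 2 / η ^ 5 / η + s ^ 2 / η ^ 6 := by field_simp; ring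
    rw [e]
    gcongr

end law

/-! ### the edge weight and the tilted Hamiltonian -/

/-- complexification of a vector -/
def cv (u : ι → ℝ) : ι → ℂ := fun i => (u i : ℂ)

omit [DecidableEq ι] in
theorem bl_cx (W : Matrix ι ι ℝ) (u v : ι → ℝ) : bl (cx W) (cv u) (cv v) = (u ⬝ᵥ W *ᵥ v : ℝ) := by
  simp [bl, cv, dotProduct, mulVec]

omit [DecidableEq ι] in
theorem cv_dot (u v : ι → ℝ) : cv u ⬝ᵥ cv v = (u ⬝ᵥ v : ℝ) := by simp [cv, dotProduct]

omit [DecidableEq ι] in
theorem cn_cv (u : ι → ℝ) : cn (cv u) = √(u ⬝ᵥ u) := by simp [cn, cv, dotProduct, sq]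

omit [DecidableEq ι] in
theorem im_bl_cv (A : Matrix ι ι ℂ) (u v : ι → ℝ) :
    (bl A (cv u) (cv v)).im = u ⬝ᵥ (A.map Complex.im) *ᵥ v := by
  simp [bl, cv, dotProduct, mulVec, Complex.im_sum]

theorem im_Gz {η : ℝ} (hη : 0 < η) {W : Matrix ι ι ℝ} (hW : Wᵀ = W) :
    η ^ 2 • (((2 : ℝ) • 1 - W) * ((2 : ℝ) • 1 - W) + η ^ 2 • (1 : Matrix ι ι ℝ))⁻¹ =
      (-η) • (Gz η W).map Complex.im := by
  obtain ⟨B, hB⟩ : ∃ B : Matrix ι ι ℝ, B = (2 : ℝ) • 1 - W := ⟨_, rfl⟩
  have hBt : Bᴴ = B := by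
    rw [conjTranspose_eq_transpose_of_trivial, hB, transpose_sub, transpose_smul, transpose_one, hW]
  rw [← hB]
  obtain ⟨M, hM⟩ : ∃ M : Matrix ι ι ℝ, M = B * B + η ^ 2 • 1 := ⟨_, rfl⟩
  have hpd : M.PosDef := by
    have h1 := posSemidef_conjTranspose_mul_self B
    rw [hBt] at h1
    exact hM ▸ Matrix.PosDef.posSemidef_add h1 (Matrix.PosDef.one.smul (by positivity))
  have hu : M * M⁻¹ = 1 := mul_nonsing_inv _ ((isUnit_iff_isUnit_det _).1 hpd.isUnit)
  have hZ : Zm (fun _ => (2 + η * Complex.I : ℂ)) W = cx B + (η * Complex.I : ℂ) • 1 := by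
    rw [Zm, hB, cx_sub, cx_smul, cx_one, ← smul_one_eq_diagonal, add_smul]
    push_cast; abel
  have hG : Gz η W = cx (B * M⁻¹) - (η * Complex.I : ℂ) • cx M⁻¹ := by
    refine inv_eq_right_inv ?_
    have e : (cx B + (η * Complex.I : ℂ) • 1) * (cx B - (η * Complex.I : ℂ) • 1) = cx M := by
      rw [hM, cx_add, cx_mul, cx_smul, cx_one]
      simp only [Matrix.add_mul, Matrix.mul_sub, smul_mul_assoc, mul_smul_comm, Matrix.one_mul,
        Matrix.mul_one, smul_add, smul_smul]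
      have : (η * Complex.I : ℂ) * (η * Complex.I) = -((η ^ 2 : ℝ) : ℂ) := by
        push_cast; linear_combination (η : ℂ) ^ 2 * Complex.I_mul_I
      rw [this, neg_smul]; abel
    have e2 : cx (B * M⁻¹) - (η * Complex.I : ℂ) • cx M⁻¹ =
        (cx B - (η * Complex.I : ℂ) • 1) * cx M⁻¹ := by
      rw [cx_mul, Matrix.sub_mul, smul_mul_assoc, Matrix.one_mul]
    rw [hZ, e2, ← Matrix.mul_assoc, e, ← cx_mul, hu, cx_one]
  rw [← hM, hG]
  ext i j
  simp; ring

/-- the derivative of `τ·A(J)τ = -η Im τ·Gτ` in the coordinate `p` -/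
def dQ (η s : ℝ) (τ : ι → ℝ) (x : ι × ι → ℝ) (p : ι × ι) : ℝ :=
  -η * (bl (Gz η (symG s x) * Ap s p * Gz η (symG s x)) (cv τ) (cv τ)).im

/-- the derivative of `τ·Jτ` in the coordinate `p` -/
def dH (s : ℝ) (τ : ι → ℝ) (p : ι × ι) : ℝ := √2 * s * (τ p.1 * τ p.2)

theorem hasDerivAt_dQ {η : ℝ} (hη : 0 < η) (s : ℝ) (τ : ι → ℝ) (x : ι × ι → ℝ) (p : ι × ι) :
    HasDerivAt (fun t => -η * (bl (Gz η (symG s (update x p t))) (cv τ) (cv τ)).im)
      (dQ η s τ x p) (x p) :=
  (Complex.imCLM.hasFDerivAt.comp_hasDerivAt _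
    (hasDerivAt_res hη (im_z η) s x p (cv τ) (cv τ))).const_mul (-η)

theorem continuous_dQ {η : ℝ} (hη : 0 < η) (s : ℝ) (τ : ι → ℝ) (p : ι × ι) :
    Continuous fun x => dQ η s τ x p :=
  continuous_const.mul (Complex.continuous_im.comp (Continuous.bl (((continuous_Gz hη s).matrix_mul
    continuous_const).matrix_mul (continuous_Gz hη s)) _ _))

theorem sqrt2 (s : ℝ) : s / √2 * 2 = √2 * s := by
  have h : √2 * √2 = 2 := Real.mul_self_sqrt (by norm_num)
  have h0 : √2 ≠ 0 := by positivity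
  field_simp; rw [sq, h]

theorem hasDerivAt_dH (s : ℝ) (τ : ι → ℝ) (x : ι × ι → ℝ) (p : ι × ι) :
    HasDerivAt (fun t => τ ⬝ᵥ symG s (update x p t) *ᵥ τ) (dH s τ p) (x p) := by
  have e0 : τ ⬝ᵥ symG s (Pi.single p 1) *ᵥ τ = dH s τ p := by
    have h := bl_Ap s p (cv τ) (cv τ)
    rw [Ap, bl_cx] at h
    have h' : τ ⬝ᵥ symG s (Pi.single p 1) *ᵥ τ = s / √2 * (τ p.1 * τ p.2 + τ p.2 * τ p.1) := by
      simp only [cv] at h; exact_mod_cast h
    rw [h', dH, ← sqrt2]; ring
  have e : ∀ t, τ ⬝ᵥ symG s (update x p t) *ᵥ τ = τ ⬝ᵥ symG s x *ᵥ τ + (t - x p) * dH s τ p :=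
    fun t => by
      rw [← e0, ← smul_eq_mul, ← dotProduct_smul, ← smul_mulVec, ← symG_update, sub_mulVec,
        dotProduct_sub]
      ring
  simp only [e]
  simpa using (((hasDerivAt_id (x p)).sub_const (x p)).mul_const (dH s τ p)).const_add
    (τ ⬝ᵥ symG s x *ᵥ τ)

omit [DecidableEq ι] in
/-- the Hamiltonian direction produces overlaps -/
theorem bl_dH (s : ℝ) (τ : ι → ℝ) (u y : ι → ℂ) :
    bl (cx (symG s (dH s τ))) u y = 2 * ((s ^ 2 : ℝ) : ℂ) * ((u ⬝ᵥ cv τ) * (cv τ ⬝ᵥ y)) := by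
  have e : ∀ i j, symG s (dH s τ) i j = 2 * s ^ 2 * (τ i * τ j) := fun i j => by
    have h : √2 * √2 = 2 := Real.mul_self_sqrt (by norm_num)
    simp only [symG, of_apply, dH]
    linear_combination (√2 * s * τ i * τ j) * sqrt2 s + (s ^ 2 * τ i * τ j) * h
  rw [dotProduct, dotProduct, sum_mul_sum]
  simp only [bl, dotProduct, mulVec, cx_apply, e, cv, mul_sum]
  refine sum_congr rfl fun i _ => sum_congr rfl fun j _ => ?_
  push_cast; ring

/-- the tilt direction is small -/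
theorem en_dQ {η : ℝ} (hη : 0 < η) (s : ℝ) (τ : ι → ℝ) (x : ι × ι → ℝ) :
    en (dQ η s τ x) ≤ √2 * |s| * (τ ⬝ᵥ τ) / η := by
  have hW := symG_transpose s x
  have h0 : 0 ≤ τ ⬝ᵥ τ := sum_nonneg fun i _ => mul_self_nonneg _
  obtain ⟨y, hy⟩ : ∃ y, y = Gz η (symG s x) *ᵥ cv τ := ⟨_, rfl⟩
  have h1 : cn y ≤ 1 / η * √(τ ⬝ᵥ τ) := by
    rw [hy, ← cn_cv]
    exact (cn_mulVec_le _ _).trans (mul_le_mul_of_nonneg_right (cop_Gz hη hW) (cn_nonneg _))
  have h2 : ∀ p : ι × ι, dQ η s τ x p ^ 2 ≤ (η * (√2 * s)) ^ 2 * (‖y p.1‖ ^ 2 * ‖y p.2‖ ^ 2) :=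
    fun p => by
      rw [dQ, bl_mul, bl_mul', Gz_transpose η hW, ← hy, bl_Ap]
      have e : ((s / √2 : ℝ) : ℂ) * (y p.1 * y p.2 + y p.2 * y p.1) =
          ((√2 * s : ℝ) : ℂ) * (y p.1 * y p.2) := by
        rw [← sqrt2]; push_cast; ring
      rw [e, Complex.im_ofReal_mul]
      have h3 := pow_le_pow_left₀ (abs_nonneg _) (Complex.abs_im_le_norm (y p.1 * y p.2)) 2
      rw [sq_abs, norm_mul, mul_pow] at h3
      calc _ = (η * (√2 * s)) ^ 2 * (y p.1 * y p.2).im ^ 2 := by ring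
        _ ≤ _ := mul_le_mul_of_nonneg_left h3 (sq_nonneg _)
  refine Real.sqrt_le_iff.2 ⟨by positivity, (sum_le_sum fun p _ => h2 p).trans ?_⟩
  rw [← mul_sum, Fintype.sum_prod_type]
  simp only
  rw [← sum_mul_sum, ← cn_sq]
  have h4 := pow_le_pow_left₀ (cn_nonneg y) h1 2
  rw [mul_pow, Real.sq_sqrt h0] at h4
  refine (mul_le_mul_of_nonneg_left (mul_le_mul h4 h4 (sq_nonneg _) (by positivity))
    (sq_nonneg _)).trans (le_of_eq ?_)
  rw [div_pow (√2 * |s| * _), mul_pow (√2 * |s|), mul_pow √2 |s|, sq_abs]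
  field_simp

theorem norm_bl_dQ {η : ℝ} (hη : 0 < η) (s : ℝ) (τ : ι → ℝ) (x : ι × ι → ℝ) (u v : ι → ℂ) :
    ‖bl (cx (symG s (dQ η s τ x)) * Gz η (symG s x)) u v‖ ≤
      2 * s ^ 2 * (τ ⬝ᵥ τ) / η ^ 2 * (cn u * cn v) := by
  have h1 := (cop_symG_le s (dQ η s τ x)).trans
    (mul_le_mul_of_nonneg_left (en_dQ hη s τ x) (by positivity))
  refine (norm_bl_le' (cop_mul_le' h1 (cop_Gz hη (symG_transpose s x))) u v).trans (le_of_eq ?_)
  have h : √2 * √2 = 2 := Real.mul_self_sqrt (by norm_num)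
  congr 1
  calc _ = (√2 * √2) * |s| ^ 2 * (τ ⬝ᵥ τ) / η ^ 2 := by ring
    _ = _ := by rw [h, sq_abs]

omit [Fintype ι] [DecidableEq ι] in
theorem cx_symG_sum {κ : Type*} (S : Finset κ) (s : ℝ) (k : κ → ℝ) (c : κ → ι × ι → ℝ) :
    cx (symG s fun p => ∑ t ∈ S, k t * c t p) = ∑ t ∈ S, (k t : ℂ) • cx (symG s (c t)) := by
  ext i j
  simp only [cx_apply, symG, of_apply, Matrix.sum_apply, Matrix.smul_apply, smul_eq_mul,
    ← sum_add_distrib, mul_sum]
  push_cast
  exact sum_congr rfl fun t _ => by ring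

omit [Fintype ι] [DecidableEq ι] in
theorem cx_symG_comb (s α β : ℝ) (c c' : ι × ι → ℝ) :
    cx (symG s fun p => α * c p - β * c' p) =
      (α : ℂ) • cx (symG s c) - (β : ℂ) • cx (symG s c') := by
  ext i j
  simp only [cx_apply, symG, of_apply, Matrix.sub_apply, Matrix.smul_apply, smul_eq_mul]
  push_cast; ring

/-! ### the words of `PsiDef_33` -/

open Crest.Agent.T157.Ac
open Crest.Agent.T157.E (Cube sv)

variable {n : ℕ} {η : ℝ}

theorem hs_fin (hn : 0 < n) : (1 / √(n : ℝ)) ^ 2 * Fintype.card (Fin n) = 1 := by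
  have : (0 : ℝ) < n := by exact_mod_cast hn
  rw [div_pow, Real.sq_sqrt this.le, Fintype.card_fin]; field_simp

theorem sq_fin (n : ℕ) : (1 / √(n : ℝ)) ^ 2 = 1 / n := by
  rw [div_pow, Real.sq_sqrt (Nat.cast_nonneg n), one_pow]

theorem sv_dot (σ : Cube n) : sv σ ⬝ᵥ sv σ = n := by
  have : ∀ i, sv σ i * sv σ i = 1 := fun i => by
    unfold sv; cases σ i <;> simp [Crest.ProbabilityR.SpinGlassDynamics.spin]
  simp [dotProduct, this]

theorem cn_sv (σ : Cube n) : cn (cv (sv σ)) = √n := by rw [cn_cv, sv_dot]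

theorem cn_sv_mul (σ τ : Cube n) : cn (cv (sv σ)) * cn (cv (sv τ)) = n := by
  rw [cn_sv, cn_sv, Real.mul_self_sqrt (Nat.cast_nonneg n)]

theorem Qf_Am (hη : 0 < η) {J : Matrix (Fin n) (Fin n) ℝ} (hJ : Jᵀ = J) (σ : Cube n) :
    Qf (Am η J) σ = -η * (bl (Gz η J) (cv (sv σ)) (cv (sv σ))).im := by
  rw [Qf, Am, im_Gz hη hJ, im_bl_cv, smul_mulVec, dotProduct_smul, smul_eq_mul]

theorem hasDerivAt_Qf (hη : 0 < η) (σ : Cube n) (x : Fin n × Fin n → ℝ) (p : Fin n × Fin n) :
    HasDerivAt (fun t => Qf (Am η (Jg n (update x p t))) σ) (dQ η (1 / √n) (sv σ) x p) (x p) := by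
  simp only [Jg, fun t => Qf_Am hη (symG_transpose (1 / √n) (update x p t)) σ]
  exact hasDerivAt_dQ hη _ _ x p

theorem Tau_eq (hn : 0 < n) (hη : 0 < η) :
    Tau n η = -η * n * (∫ x, mN η (1 / √n) x ∂(gv (Fin n × Fin n))).im := by
  have e : ∫ y, (mN η (1 / √n) y).im ∂(gv (Fin n × Fin n)) =
      (∫ y, mN η (1 / √n) y ∂(gv (Fin n × Fin n))).im := integral_im (integrable_mN hη (hs_fin hn))
  rw [← e, ← integral_const_mul, Tau]
  refine integral_congr_ae (Filter.Eventually.of_forall fun x => ?_)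
  have : (n : ℝ) ≠ 0 := by exact_mod_cast hn.ne'
  simp only [Am, Jg, im_Gz hη (symG_transpose _ x), mN, sq_fin, Complex.im_ofReal_mul, trace_smul,
    smul_eq_mul]
  simp only [Matrix.trace, Matrix.diag, map_apply, Complex.im_sum]
  field_simp

/-- **the trace of the edge weight** -/
theorem Tau_le (hn : 0 < n) (hη : 0 < η) (hη1 : η ≤ 1) :
    Tau n η ≤ 2 * n * (η * √η) + 10 / η ^ 4 := by
  obtain ⟨a, ha⟩ := exists_root hη
  have h := mean_close ha hη hη1 (hs_fin hn)
  obtain ⟨-, h2, -⟩ := Root.im_ge ha hη hη1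
  have hn' : (0 : ℝ) < n := by exact_mod_cast hn
  rw [Tau_eq hn hη]
  rw [sq_fin] at h
  generalize (∫ y, mN η (1 / √n) y ∂(gv (Fin n × Fin n))) = μ at *
  have h3 := (neg_le_abs _).trans ((Complex.abs_im_le_norm (μ - a⁻¹)).trans h)
  have h4 : (μ - a⁻¹).im = μ.im - η + a.im := by rw [ha.inv]; simp; ring
  have h5 : -μ.im ≤ 2 * √η + 10 * (1 / n) / η ^ 5 := by linarith
  calc _ = η * n * -μ.im := by ring
    _ ≤ η * n * (2 * √η + 10 * (1 / n) / η ^ 5) := mul_le_mul_of_nonneg_left h5 (by positivity)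
    _ = _ := by field_simp

end Crest.Agent.T157.SdM
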