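import Crest.Agent.T157.SdA_12
import Crest.Agent.T157.SdM_49

/-!
Row 157, part D (helper12): the Schwinger–Dyson equations for the resolvent kernel
`σ·(z - J)⁻¹ τ / n` under the pair laws of an arbitrary cascade started at the energy
`b/2 σ·Jσ - l Q(σ)`.
-/

set_option autoImplicit false
set_option linter.unusedSectionVars false

noncomputable section

namespace Crest.Agent.T157.Sd

open Finset Matrix MeasureTheory Function
open Crest.Agent.T157.E Crest.Agent.T157.Casc Crest.Agent.T157.SdA Crest.Agent.T157.SdM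
open Crest.Agent.T157.Ac Crest.Agent.T157.Cond
open Crest.Agent.T157.SL (Wt)

/-! ### complex kernels -/

section cplx
variable {Ω : Type*} [Fintype Ω] {w : Ω → ℝ}

/-- complex kernel against the pair law -/
def p2c (w : Ω → ℝ) (L : List (Lv Ω)) (j : ℕ) (g : Ω → Ω → ℂ) (h : Ω → ℝ) : ℂ :=
  ∑ x, ∑ y, (pl w L j x y h : ℂ) * g x y

/-- diagonal of a complex kernel against the one-point law -/
def p1c (w : Ω → ℝ) (L : List (Lv Ω)) (g : Ω → Ω → ℂ) (h : Ω → ℝ) : ℂ :=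
  ∑ x, (P w L h x : ℂ) * g x x

theorem norm_D3c (hw : Wt w) {L : List (Lv Ω)} (hM : Mono 0 L) {j : ℕ} (hj : j ≤ L.length)
    {K : Ω → Ω → Ω → ℂ} {S : ℝ} (e : ∀ x y ρ, ‖K x y ρ‖ ≤ S) (h : Ω → ℝ) :
    ‖∑ ρ, ∑ x, ∑ y, (dp w L j x y ρ h : ℂ) * K x y ρ‖ ≤ 12 * S := by
  have h1 := abs_D3_le hw hM hj (K := fun x y ρ => (K x y ρ).re)
    (fun x y ρ => (Complex.abs_re_le_norm _).trans (e x y ρ)) h
  have h2 := abs_D3_le hw hM hj (K := fun x y ρ => (K x y ρ).im)
    (fun x y ρ => (Complex.abs_im_le_norm _).trans (e x y ρ)) h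
  refine (Complex.norm_le_abs_re_add_abs_im _).trans ?_
  simp only [Complex.re_sum, Complex.im_sum, Complex.re_ofReal_mul, Complex.im_ofReal_mul]
  simp only [D3] at h1 h2
  linarith

theorem norm_Hsc (hw : Wt w) {L : List (Lv Ω)} (hM : Mono 0 L)
    {K : Ω → Ω → ℂ} {S : ℝ} (e : ∀ x y, ‖K x y‖ ≤ S) (h : Ω → ℝ) :
    ‖∑ x, ∑ y, (Hs w L h x y : ℂ) * K x y‖ ≤ 4 * S := by
  have h1 := abs_sum_Hs_le hw hM (K := fun x y => (K x y).re)
    (fun x y => (Complex.abs_re_le_norm _).trans (e x y)) h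
  have h2 := abs_sum_Hs_le hw hM (K := fun x y => (K x y).im)
    (fun x y => (Complex.abs_im_le_norm _).trans (e x y)) h
  refine (Complex.norm_le_abs_re_add_abs_im _).trans ?_
  simp only [Complex.re_sum, Complex.im_sum, Complex.re_ofReal_mul, Complex.im_ofReal_mul]
  linarith

theorem pr_re (K : ℕ) (m q : ℕ → ℝ) (gd : ℂ) (g : ℕ → ℂ) (j : ℕ) :
    (pr K (SdA.cx m) (SdA.cx q) gd g j).re = pr K m q gd.re (fun k => (g k).re) j := by
  simp [pr, hat, D, Complex.re_sum, Complex.im_sum]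

theorem pr_im (K : ℕ) (m q : ℕ → ℝ) (gd : ℂ) (g : ℕ → ℂ) (j : ℕ) :
    (pr K (SdA.cx m) (SdA.cx q) gd g j).im = pr K m q gd.im (fun k => (g k).im) j := by
  simp [pr, hat, D, Complex.re_sum, Complex.im_sum]

theorem prD_re (K : ℕ) (m q : ℕ → ℝ) (gd : ℂ) (g : ℕ → ℂ) :
    (prD K (SdA.cx m) (SdA.cx q) gd g).re = prD K m q gd.re fun k => (g k).re := by
  simp [prD, D, Complex.re_sum]

theorem prD_im (K : ℕ) (m q : ℕ → ℝ) (gd : ℂ) (g : ℕ → ℂ) :
    (prD K (SdA.cx m) (SdA.cx q) gd g).im = prD K m q gd.im fun k => (g k).im := by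
  simp [prD, D, Complex.im_sum]

variable {R : Ω → Ω → ℝ} {g : Ω → Ω → ℂ} {B : ℝ}

theorem D3c_approx (hw : Wt w) (hR : ∀ x, R x x = 1) (hs : ∀ x y, g x y = g y x)
    (hg : ∀ x y, ‖g x y‖ ≤ B) {L : List (Lv Ω)} (hM : Mono 0 L) {j : ℕ} (hj : j ≤ L.length)
    (q : ℕ → ℝ) (h : Ω → ℝ) :
    ‖∑ ρ, ∑ x, ∑ y, (dp w L j x y ρ h : ℂ) * (R x ρ * g ρ y) -
      pr L.length (SdA.cx (exP L 0)) (SdA.cx q) (p1c w L g h) (fun k => p2c w L k g h) j‖ ≤
      2 * B * (4 * p2 w L j (fun x y => |R x y - q j|) h +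
        ∑ k ∈ range (L.length + 1), D (exP L 0) k * p2 w L k (fun x y => |R x y - q k|) h) := by
  have h1 := D3_approx hw hR (g := fun x y => (g x y).re) (fun x y => by rw [hs])
    (fun x y => (Complex.abs_re_le_norm _).trans (hg x y)) hM hj q h
  have h2 := D3_approx hw hR (g := fun x y => (g x y).im) (fun x y => by rw [hs])
    (fun x y => (Complex.abs_im_le_norm _).trans (hg x y)) hM hj q h
  refine (Complex.norm_le_abs_re_add_abs_im _).trans ?_
  simp only [Complex.sub_re, Complex.sub_im, pr_re, pr_im, p1c, p2c, Complex.re_sum,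
    Complex.im_sum, Complex.re_ofReal_mul, Complex.im_ofReal_mul]
  simp only [D3, p2] at h1 h2 ⊢
  linarith

theorem diagc_approx (hw : Wt w) (hR : ∀ x, R x x = 1) (hs : ∀ x y, g x y = g y x)
    (hg : ∀ x y, ‖g x y‖ ≤ B) {L : List (Lv Ω)} (hM : Mono 0 L) (q : ℕ → ℝ) (h : Ω → ℝ) :
    ‖∑ x, ∑ ρ, (Hs w L h x ρ : ℂ) * (R x ρ * g ρ x) -
      prD L.length (SdA.cx (exP L 0)) (SdA.cx q) (p1c w L g h) fun k => p2c w L k g h‖ ≤
      2 * B *
        ∑ k ∈ range (L.length + 1), D (exP L 0) k * p2 w L k (fun x y => |R x y - q k|) h := by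
  have h1 := diag_approx hw hR (g := fun x y => (g x y).re) (fun x y => by rw [hs])
    (fun x y => (Complex.abs_re_le_norm _).trans (hg x y)) hM q h
  have h2 := diag_approx hw hR (g := fun x y => (g x y).im) (fun x y => by rw [hs])
    (fun x y => (Complex.abs_im_le_norm _).trans (hg x y)) hM q h
  refine (Complex.norm_le_abs_re_add_abs_im _).trans ?_
  simp only [Complex.sub_re, Complex.sub_im, prD_re, prD_im, p1c, p2c, Complex.re_sum,
    Complex.im_sum, Complex.re_ofReal_mul, Complex.im_ofReal_mul]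
  simp only [p2] at h1 h2 ⊢
  linarith

theorem abs_dp_le (hw : Wt w) {L : List (Lv Ω)} (hM : Mono 0 L) {j : ℕ} (hj : j ≤ L.length)
    (x y ρ : Ω) (h : Ω → ℝ) : |dp w L j x y ρ h| ≤ 6 := by
  classical
  have := abs_D3_le hw hM hj (S := 1)
    (K := fun x' y' ρ' => if ρ' = ρ then if x' = x then if y' = y then 1 else 0 else 0 else 0)
    (fun x' y' ρ' => by split_ifs <;> simp) h
  simpa [D3] using this

theorem abs_Hs_le (hw : Wt w) {L : List (Lv Ω)} (hM : Mono 0 L) (x y : Ω) (h : Ω → ℝ) :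
    |Hs w L h x y| ≤ 2 := by
  classical
  have := abs_sum_Hs_le hw hM (S := 1)
    (K := fun x' y' => if x' = x then if y' = y then 1 else 0 else 0)
    (fun x' y' => by split_ifs <;> simp) h
  simpa using this

theorem norm_wsum {κ : Type*} [Fintype κ] {a : κ → ℝ} (h0 : ∀ k, 0 ≤ a k) (h1 : ∑ k, a k = 1)
    {z : κ → ℂ} {S : ℝ} (hz : ∀ k, ‖z k‖ ≤ S) : ‖∑ k, (a k : ℂ) * z k‖ ≤ S := by
  refine (norm_sum_le _ _).trans ?_
  calc ∑ k, ‖(a k : ℂ) * z k‖ ≤ ∑ k, a k * S := sum_le_sum fun k _ => by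
        rw [norm_mul, Complex.norm_real, Real.norm_of_nonneg (h0 k)]
        exact mul_le_mul_of_nonneg_left (hz k) (h0 k)
    _ = S := by rw [← sum_mul, h1, one_mul]

theorem sum_pl (hw : Wt w) (L : List (Lv Ω)) (j : ℕ) (h : Ω → ℝ) :
    ∑ k : Ω × Ω, pl w L j k.1 k.2 h = 1 := by
  rw [Fintype.sum_prod_type]
  simp only [sum_pl_snd hw, sum_P hw]

theorem norm_p2c (hw : Wt w) (L : List (Lv Ω)) (j : ℕ) (hg : ∀ x y, ‖g x y‖ ≤ B) (h : Ω → ℝ) :
    ‖p2c w L j g h‖ ≤ B := by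
  rw [p2c, ← Fintype.sum_prod_type (f := fun k : Ω × Ω => (pl w L j k.1 k.2 h : ℂ) * g k.1 k.2)]
  exact norm_wsum (fun k => pl_nonneg hw L j _ _ h) (sum_pl hw L j h) fun k => hg _ _

theorem norm_p1c (hw : Wt w) (L : List (Lv Ω)) (hg : ∀ x y, ‖g x y‖ ≤ B) (h : Ω → ℝ) :
    ‖p1c w L g h‖ ≤ B :=
  norm_wsum (P_nonneg hw L h) (sum_P hw L h) fun _ => hg _ _

end cplx

section lin
variable {X : Type*} [MeasurableSpace X] {μ : Measure X}

theorem integral_prD {gd : X → ℂ} {g : ℕ → X → ℂ} (h1 : Integrable gd μ)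
    (h2 : ∀ k, Integrable (g k) μ) (K : ℕ) (m q : ℕ → ℂ) :
    Integrable (fun x => prD K m q (gd x) fun k => g k x) μ ∧
      ∫ x, prD K m q (gd x) (fun k => g k x) ∂μ = prD K m q (∫ x, gd x ∂μ) fun k => ∫ x, g k x ∂μ := by
  have s1 : ∀ (s : Finset ℕ) (c : ℕ → ℂ), Integrable (fun z => ∑ k ∈ s, c k * g k z) μ :=
    fun s c => integrable_finsetSum _ fun k _ => (h2 k).const_mul _
  unfold prD
  refine ⟨h1.sub (s1 _ _), ?_⟩
  rw [integral_sub h1 (s1 _ _), integral_finsetSum _ fun k _ => (h2 k).const_mul _]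
  simp only [integral_const_mul]

theorem integral_pr {gd : X → ℂ} {g : ℕ → X → ℂ} (h1 : Integrable gd μ)
    (h2 : ∀ k, Integrable (g k) μ) (K : ℕ) (m q : ℕ → ℂ) (j : ℕ) :
    Integrable (fun x => pr K m q (gd x) (fun k => g k x) j) μ ∧
      ∫ x, pr K m q (gd x) (fun k => g k x) j ∂μ =
        pr K m q (∫ x, gd x ∂μ) (fun k => ∫ x, g k x ∂μ) j := by
  have s1 : ∀ (s : Finset ℕ) (c : ℕ → ℂ), Integrable (fun z => ∑ k ∈ s, c k * g k z) μ :=
    fun s c => integrable_finsetSum _ fun k _ => (h2 k).const_mul _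
  have s2 : ∀ (s : Finset ℕ) (c : ℕ → ℂ), ∫ z, ∑ k ∈ s, c k * g k z ∂μ =
      ∑ k ∈ s, c k * ∫ z, g k z ∂μ := fun s c => by
    rw [integral_finsetSum _ fun k _ => (h2 k).const_mul _]
    simp only [integral_const_mul]
  have a1 : Integrable (fun x => gd x - m (j + 1) * g j x) μ := h1.sub ((h2 j).const_mul _)
  have a2 : Integrable (fun x => hat K m (gd x) (fun k => g k x) j) μ := a1.sub (s1 _ _)
  have a3 : ∫ x, hat K m (gd x) (fun k => g k x) j ∂μ =
      hat K m (∫ x, gd x ∂μ) (fun k => ∫ x, g k x ∂μ) j := by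
    unfold hat
    rw [integral_sub a1 (s1 _ _), s2, integral_sub h1 ((h2 j).const_mul _), integral_const_mul]
  have b1 : Integrable (fun x => g j x * hat K m 1 q j + q j * hat K m (gd x) (fun k => g k x) j) μ :=
    ((h2 j).mul_const _).add (a2.const_mul _)
  have b2 := b1.sub (s1 (range j) fun l => D m l * q l)
  unfold pr
  refine ⟨b2.add ((h2 j).const_mul _), ?_⟩
  rw [integral_add (by exact b2) ((h2 j).const_mul _), integral_sub b1 (s1 _ _), s2,
    integral_add ((h2 j).mul_const _) (a2.const_mul _), integral_const_mul, integral_const_mul,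
    integral_mul_const, a3]

end lin

/-! ### the SK objects -/

variable {n : ℕ} {b η l : ℝ}

/-- the energy after the first (GOE) level -/
def h0 (b η l : ℝ) (x : Fin n × Fin n → ℝ) (σ : Cube n) : ℝ :=
  b / 2 * (sv σ ⬝ᵥ Jg n x *ᵥ sv σ) - l * Qf (Am η (Jg n x)) σ

/-- its derivative in a Gaussian coordinate -/
def dh (b η l : ℝ) (x : Fin n × Fin n → ℝ) (p : Fin n × Fin n) (σ : Cube n) : ℝ :=
  b / 2 * dH (1 / √n) (sv σ) p - l * dQ η (1 / √n) (sv σ) x p

/-- the resolvent kernel -/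
def gk (η : ℝ) (x : Fin n × Fin n → ℝ) (σ τ : Cube n) : ℂ :=
  bl (Gz η (Jg n x)) (cv (sv σ)) (cv (sv τ)) / n

/-- the overlap -/
def Rv (σ τ : Cube n) : ℝ := sv σ ⬝ᵥ sv τ / n

/-- the kernel produced by the tilt -/
def Wk (η : ℝ) (x : Fin n × Fin n → ℝ) (σ τ ρ : Cube n) : ℂ :=
  bl (Fr.cx (symG (1 / √n) (dQ η (1 / √n) (sv ρ) x)) * Gz η (Jg n x)) (cv (sv σ)) (cv (sv τ)) / n

theorem Jg_t (x : Fin n × Fin n → ℝ) : (Jg n x)ᵀ = Jg n x := symG_transpose _ x

theorem Rv_self (hn : 0 < n) (σ : Cube n) : Rv σ σ = 1 := by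
  have : (n : ℝ) ≠ 0 := by positivity
  rw [Rv, sv_dot, div_self this]

theorem Rv_symm (σ τ : Cube n) : Rv σ τ = Rv τ σ := by rw [Rv, Rv, dotProduct_comm]

theorem gk_symm (η : ℝ) (x : Fin n × Fin n → ℝ) (σ τ : Cube n) : gk η x σ τ = gk η x τ σ := by
  rw [gk, gk, ← bl_transpose, Gz_transpose η (Jg_t x)]

theorem norm_gk (hη : 0 < η) (x : Fin n × Fin n → ℝ) (σ τ : Cube n) : ‖gk η x σ τ‖ ≤ 1 / η := by
  have h := norm_bl_le' (cop_Gz hη (symG_transpose (1 / √n) x)) (cv (sv σ)) (cv (sv τ))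
  rw [cn_sv_mul] at h
  rw [gk, norm_div, Complex.norm_natCast]
  exact div_le_of_le_mul₀ (Nat.cast_nonneg n) (by positivity) h

theorem norm_Wk (hn : 0 < n) (hη : 0 < η) (x : Fin n × Fin n → ℝ) (σ τ ρ : Cube n) :
    ‖Wk η x σ τ ρ‖ ≤ 2 / η ^ 2 := by
  have h := norm_bl_dQ hη (1 / √n) (sv ρ) x (cv (sv σ)) (cv (sv τ))
  have hn' : (0 : ℝ) < n := by exact_mod_cast hn
  rw [cn_sv_mul, sv_dot, sq_fin] at h
  rw [Wk, norm_div, Complex.norm_natCast]
  refine div_le_of_le_mul₀ (Nat.cast_nonneg n) (by positivity) (h.trans (le_of_eq ?_))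
  field_simp

theorem Qf_gk (hn : 0 < n) (hη : 0 < η) (x : Fin n × Fin n → ℝ) (σ : Cube n) :
    Qf (Am η (Jg n x)) σ = -η * n * (gk η x σ σ).im := by
  have hn' : (n : ℝ) ≠ 0 := by positivity
  rw [Qf_Am hη (Jg_t x), gk, Complex.div_natCast_im]
  field_simp

theorem continuous_gk (hη : 0 < η) (σ τ : Cube n) : Continuous fun x => gk η x σ τ :=
  (Continuous.bl (continuous_Gz hη _) _ _).div_const _

theorem continuous_Qf (hη : 0 < η) (σ : Cube n) :
    Continuous fun x : Fin n × Fin n → ℝ => Qf (Am η (Jg n x)) σ := by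
  simp only [Jg, fun x => Qf_Am hη (symG_transpose (1 / √n) x) σ]
  exact continuous_const.mul
    (Complex.continuous_im.comp (Continuous.bl (continuous_Gz hη _) _ _))

theorem continuous_quad (v : Fin n → ℝ) :
    Continuous fun x : Fin n × Fin n → ℝ => v ⬝ᵥ Jg n x *ᵥ v := by
  simp only [Jg, dotProduct, mulVec, symG, of_apply]
  fun_prop

theorem continuous_h0 (hη : 0 < η) (b l : ℝ) : Continuous (h0 (n := n) b η l) :=
  continuous_pi fun σ => (continuous_const.mul (continuous_quad _)).sub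
    (continuous_const.mul (continuous_Qf hη σ))

theorem continuous_Wk (hη : 0 < η) (σ τ ρ : Cube n) : Continuous fun x => Wk η x σ τ ρ := by
  refine (Continuous.bl (Continuous.matrix_mul ?_ (continuous_Gz hη _)) _ _).div_const _
  exact (Fr.continuous_cx_symG _).comp (continuous_pi fun p => continuous_dQ hη _ _ p)

theorem hasDerivAt_h0 (hη : 0 < η) (b l : ℝ) (x : Fin n × Fin n → ℝ) (p : Fin n × Fin n) :
    HasDerivAt (fun t => h0 b η l (update x p t)) (dh b η l x p) (x p) :=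
  hasDerivAt_pi.2 fun σ => ((hasDerivAt_dH _ _ x p).const_mul _).sub
    ((hasDerivAt_Qf hη σ x p).const_mul _)

theorem exists_dh (hη : 0 < η) (b l : ℝ) :
    ∃ C, ∀ (x : Fin n × Fin n → ℝ) p σ, |dh b η l x p σ| ≤ C := by
  obtain ⟨C, hC⟩ := (Set.toFinite (Set.range fun k : Cube n × (Fin n × Fin n) =>
    |b / 2 * dH (1 / √n) (sv k.1) k.2|)).bddAbove
  refine ⟨C + |l| * (√2 * |1 / √(n : ℝ)| * n / η), fun x p σ => ?_⟩
  refine (abs_sub _ _).trans (add_le_add (hC ⟨(σ, p), rfl⟩) ?_)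
  rw [abs_mul]
  refine mul_le_mul_of_nonneg_left ?_ (abs_nonneg l)
  have h := en_dQ hη (1 / √n) (sv σ) x
  rw [sv_dot] at h
  refine le_trans ?_ h
  exact Real.le_sqrt_of_sq_le ((sq_abs _).le.trans (single_le_sum
    (f := fun i => dQ η (1 / √n) (sv σ) x i ^ 2) (fun _ _ => sq_nonneg _) (mem_univ p)))

theorem bl_dh (hn : 0 < n) (x : Fin n × Fin n → ℝ) (c : Cube n → ℝ) (σ τ : Cube n) :
    bl (Fr.cx (symG (1 / √n) fun p => ∑ ρ, c ρ * dh b η l x p ρ) * Gz η (symG (1 / √n) x))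
      (cv (sv σ)) (cv (sv τ)) =
      n * ∑ ρ, (c ρ : ℂ) * (b * (Rv σ ρ * gk η x ρ τ) - l * Wk η x σ τ ρ) := by
  have hn' : (n : ℂ) ≠ 0 := by exact_mod_cast hn.ne'
  rw [cx_symG_sum, sum_mul, bl_sum, mul_sum]
  refine sum_congr rfl fun ρ _ => ?_
  unfold dh
  rw [cx_symG_comb, smul_mul_assoc, bl_smul, Matrix.sub_mul, bl_sub, smul_mul_assoc,
    smul_mul_assoc, bl_smul, bl_smul, bl_mul (Fr.cx (symG _ (dH _ _))), bl_dH, sq_fin, cv_dot]
  simp only [Rv, gk, Wk, Jg, bl]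
  push_cast
  field_simp

section gen
variable {κ : Type} [Fintype κ] {s t : κ → Cube n} {Φ : κ → (Cube n → ℝ) → ℝ}
  {Ψ : κ → Cube n → (Cube n → ℝ) → ℝ} {a : ℂ}

theorem sd_gen (hn : 0 < n) (ha : Root η a) (hη : 0 < η) (hη1 : η ≤ 1)
    (hG : ∀ k, Gr (Φ k) (Ψ k)) (h0' : ∀ k h, 0 ≤ Φ k h) (h1 : ∀ h, ∑ k, Φ k h = 1) {C : ℝ}
    (hC : ∀ k ρ h, |Ψ k ρ h| ≤ C) (s t : κ → Cube n) (b l : ℝ) :
    ‖∫ x, ∑ k, ((Φ k (h0 b η l x) : ℂ) * (a * gk η x (s k) (t k) - Rv (s k) (t k)) -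
      ∑ ρ, (Ψ k ρ (h0 b η l x) : ℂ) * (b * (Rv (s k) ρ * gk η x ρ (t k)) -
        l * Wk η x (s k) (t k) ρ)) ∂(gv (Fin n × Fin n))‖ ≤ 14 / (n * η ^ 6) := by
  obtain ⟨C', hC'⟩ := exists_dh (n := n) hη b l
  have hc := continuous_h0 (n := n) hη b l
  have hn' : (0 : ℝ) < n := by exact_mod_cast hn
  have hnc : (n : ℂ) ≠ 0 := by exact_mod_cast hn.ne'
  have key := sd_defect ha hη hη1 (hs_fin hn) (fun k => cv (sv (s k))) (fun k => cv (sv (t k)))
    (w := fun k x => Φ k (h0 b η l x))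
    (w' := fun k p x => ∑ ρ, Ψ k ρ (h0 b η l x) * dh b η l x p ρ)
    (fun k => (hG k).eg.cont.comp hc)
    (fun k p => Continuous.measurable (continuous_finsetSum _ fun ρ _ =>
      (((hG k).eg' ρ).cont.comp hc).mul (continuous_const.sub
        (continuous_const.mul (continuous_dQ hη _ _ p)))))
    (fun k p x => by
      have := (hG k).hasDerivAt (hasDerivAt_h0 hη b l x p)
      simpa only [update_eq_self] using this)
    (C := 1) (C' := ∑ _ρ : Cube n, C * C') (R := n)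
    (fun x => by simp only [abs_of_nonneg (h0' _ _), h1, le_refl])
    (fun k p x => (abs_sum_le_sum_abs _ _).trans (sum_le_sum fun ρ _ => by
      rw [abs_mul]
      exact mul_le_mul (hC _ _ _) (hC' _ _ _) (abs_nonneg _) ((abs_nonneg _).trans (hC k ρ 0))))
    hn'.le (fun k => (cn_sv_mul _ _).le)
  have e : ∀ x, ∑ k, ((Φ k (h0 b η l x) : ℂ) * (a * bl (Gz η (symG (1 / √n) x)) (cv (sv (s k)))
      (cv (sv (t k))) - cv (sv (s k)) ⬝ᵥ cv (sv (t k))) -
      bl (Fr.cx (symG (1 / √n) fun p => ∑ ρ, Ψ k ρ (h0 b η l x) * dh b η l x p ρ) *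
        Gz η (symG (1 / √n) x)) (cv (sv (s k))) (cv (sv (t k)))) =
      n * ∑ k, ((Φ k (h0 b η l x) : ℂ) * (a * gk η x (s k) (t k) - Rv (s k) (t k)) -
      ∑ ρ, (Ψ k ρ (h0 b η l x) : ℂ) * (b * (Rv (s k) ρ * gk η x ρ (t k)) -
        l * Wk η x (s k) (t k) ρ)) := fun x => by
    rw [mul_sum]
    refine sum_congr rfl fun k _ => ?_
    rw [bl_dh hn, mul_sub (n : ℂ), cv_dot]
    congr 1
    simp only [Rv, gk, Jg]
    push_cast
    field_simp
  simp only [e] at key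
  rw [integral_const_mul, norm_mul, Complex.norm_natCast, sq_fin] at key
  refine le_of_mul_le_mul_left (key.trans (le_of_eq ?_)) hn'
  field_simp

theorem err_gen (hn : 0 < n) (ha : Root η a) (hη : 0 < η) (hη1 : η ≤ 1)
    (hG : ∀ k, Gr (Φ k) (Ψ k)) (h0' : ∀ k h, 0 ≤ Φ k h) (h1 : ∀ h, ∑ k, Φ k h = 1) {C : ℝ}
    (hC : ∀ k ρ h, |Ψ k ρ h| ≤ C) (s t : κ → Cube n) (b l : ℝ) (q : ℂ)
    {T : (Fin n × Fin n → ℝ) → ℂ} (hT : Integrable T (gv (Fin n × Fin n)))
    {E : (Fin n × Fin n → ℝ) → ℝ} (hE : Integrable E (gv (Fin n × Fin n)))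
    (hb : ∀ x, ‖(∑ k, (Φ k (h0 b η l x) : ℂ) * Rv (s k) (t k) - q) +
      b * (∑ k, ∑ ρ, (Ψ k ρ (h0 b η l x) : ℂ) * (Rv (s k) ρ * gk η x ρ (t k)) - T x) -
      l * ∑ k, ∑ ρ, (Ψ k ρ (h0 b η l x) : ℂ) * Wk η x (s k) (t k) ρ‖ ≤ E x) :
    ‖a * ∫ x, ∑ k, (Φ k (h0 b η l x) : ℂ) * gk η x (s k) (t k) ∂(gv (Fin n × Fin n)) - q -
      b * ∫ x, T x ∂(gv (Fin n × Fin n))‖ ≤ 14 / (n * η ^ 6) + ∫ x, E x ∂(gv (Fin n × Fin n)) := by
  have hc := continuous_h0 (n := n) hη b l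
  have c1 : ∀ k, Continuous fun x => (Φ k (h0 b η l x) : ℂ) := fun k =>
    Complex.continuous_ofReal.comp ((hG k).eg.cont.comp hc)
  have c2 : ∀ k ρ, Continuous fun x => (Ψ k ρ (h0 b η l x) : ℂ) := fun k ρ =>
    Complex.continuous_ofReal.comp (((hG k).eg' ρ).cont.comp hc)
  have i1 : Integrable (fun x => ∑ k, (Φ k (h0 b η l x) : ℂ) * gk η x (s k) (t k))
      (gv (Fin n × Fin n)) :=
    Integrable.of_bound (continuous_finsetSum _ fun k _ =>
      (c1 k).mul (continuous_gk hη _ _)).aestronglyMeasurable (1 / η)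
      (ae_of_all _ fun x => norm_wsum (fun k => h0' k _) (h1 _) fun k => norm_gk hη x _ _)
  have i2 : Integrable (fun x => (∑ k, (Φ k (h0 b η l x) : ℂ) * Rv (s k) (t k) - q) +
      b * (∑ k, ∑ ρ, (Ψ k ρ (h0 b η l x) : ℂ) * (Rv (s k) ρ * gk η x ρ (t k)) - T x) -
      l * ∑ k, ∑ ρ, (Ψ k ρ (h0 b η l x) : ℂ) * Wk η x (s k) (t k) ρ) (gv (Fin n × Fin n)) := by
    refine hE.mono' ?_ (ae_of_all _ hb)
    refine AEStronglyMeasurable.sub (AEStronglyMeasurable.add (Continuous.aestronglyMeasurable ?_)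
      (AEStronglyMeasurable.const_mul (AEStronglyMeasurable.sub
        (Continuous.aestronglyMeasurable ?_) hT.1) _)) (Continuous.aestronglyMeasurable ?_)
    · exact (continuous_finsetSum _ fun k _ => (c1 k).mul continuous_const).sub continuous_const
    · exact continuous_finsetSum _ fun k _ => continuous_finsetSum _ fun ρ _ =>
        (c2 k ρ).mul (continuous_const.mul (continuous_gk hη _ _))
    · exact continuous_const.mul (continuous_finsetSum _ fun k _ => continuous_finsetSum _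
        fun ρ _ => (c2 k ρ).mul (continuous_Wk hη _ _ _))
  have i3 := ((i1.const_mul a).sub (integrable_const q)).sub (hT.const_mul (b : ℂ))
  have key := sd_gen hn ha hη hη1 hG h0' h1 hC s t b l
  have e : ∀ x, ∑ k, ((Φ k (h0 b η l x) : ℂ) * (a * gk η x (s k) (t k) - Rv (s k) (t k)) -
      ∑ ρ, (Ψ k ρ (h0 b η l x) : ℂ) * (b * (Rv (s k) ρ * gk η x ρ (t k)) -
        l * Wk η x (s k) (t k) ρ)) =
      (a * ∑ k, (Φ k (h0 b η l x) : ℂ) * gk η x (s k) (t k) - q - b * T x) -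
      ((∑ k, (Φ k (h0 b η l x) : ℂ) * Rv (s k) (t k) - q) +
      b * (∑ k, ∑ ρ, (Ψ k ρ (h0 b η l x) : ℂ) * (Rv (s k) ρ * gk η x ρ (t k)) - T x) -
      l * ∑ k, ∑ ρ, (Ψ k ρ (h0 b η l x) : ℂ) * Wk η x (s k) (t k) ρ) := fun x => by
    simp only [mul_sub, sum_sub_distrib, mul_sum, mul_left_comm a, mul_left_comm (b : ℂ),
      mul_left_comm (l : ℂ)]
    ring
  simp only [e] at key
  rw [integral_sub (by exact i3) i2, integral_sub (by exact (i1.const_mul a).sub (integrable_const q))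
    (hT.const_mul _), integral_sub (i1.const_mul a) (integrable_const q), integral_const_mul,
    integral_const_mul, integral_const, probReal_univ, one_smul] at key
  have k2 := (norm_integral_le_integral_norm _).trans
    (integral_mono i2.norm hE hb)
  exact (norm_le_norm_sub_add _ _).trans (add_le_add key k2)

end gen

section main
variable {w : Cube n → ℝ} {L : List (Lv (Cube n))} {a : ℂ}

/-- averaged level entry -/
def gam (w : Cube n → ℝ) (L : List (Lv (Cube n))) (b η l : ℝ) (j : ℕ) : ℂ :=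
  ∫ x, p2c w L j (gk η x) (h0 b η l x) ∂(gv (Fin n × Fin n))

/-- averaged diagonal entry -/
def gamd (w : Cube n → ℝ) (L : List (Lv (Cube n))) (b η l : ℝ) : ℂ :=
  ∫ x, p1c w L (gk η x) (h0 b η l x) ∂(gv (Fin n × Fin n))

/-- synchronisation defect of the level `j` -/
def rho (w : Cube n → ℝ) (L : List (Lv (Cube n))) (b η l : ℝ) (q : ℕ → ℝ) (j : ℕ) : ℝ :=
  ∫ x, p2 w L j (fun σ τ => |Rv σ τ - q j|) (h0 b η l x) ∂(gv (Fin n × Fin n))

/-- total synchronisation defect -/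
def rhoT (w : Cube n → ℝ) (L : List (Lv (Cube n))) (b η l : ℝ) (q : ℕ → ℝ) : ℝ :=
  ∑ k ∈ range (L.length + 1), D (exP L 0) k * rho w L b η l q k

theorem int_p2 (hw : Wt w) (hη : 0 < η) (L : List (Lv (Cube n))) (j : ℕ)
    (K : Cube n → Cube n → ℝ) (b l : ℝ) :
    Integrable (fun x => p2 w L j K (h0 b η l x)) (gv (Fin n × Fin n)) := by
  obtain ⟨C, hC⟩ := (Set.toFinite (Set.range fun k : Cube n × Cube n => |K k.1 k.2|)).bddAbove
  exact Integrable.of_bound ((eg_p2 hw L j K).cont.comp (continuous_h0 hη b l)).aestronglyMeasurable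
    C (ae_of_all _ fun x => abs_p2_le hw L j (fun σ τ => hC ⟨(σ, τ), rfl⟩) _)

theorem int_p2c (hw : Wt w) (hη : 0 < η) (L : List (Lv (Cube n))) (j : ℕ) (b l : ℝ) :
    Integrable (fun x => p2c w L j (gk η x) (h0 b η l x)) (gv (Fin n × Fin n)) :=
  Integrable.of_bound (continuous_finsetSum _ fun σ _ => continuous_finsetSum _ fun τ _ =>
    (Complex.continuous_ofReal.comp ((eg_pl hw L j σ τ).cont.comp (continuous_h0 hη b l))).mul
      (continuous_gk hη σ τ)).aestronglyMeasurable (1 / η)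
    (ae_of_all _ fun x => norm_p2c hw L j (norm_gk hη x) _)

theorem int_p1c (hw : Wt w) (hη : 0 < η) (L : List (Lv (Cube n))) (b l : ℝ) :
    Integrable (fun x => p1c w L (gk η x) (h0 b η l x)) (gv (Fin n × Fin n)) :=
  Integrable.of_bound (continuous_finsetSum _ fun σ _ =>
    (Complex.continuous_ofReal.comp ((eg_P hw L σ).cont.comp (continuous_h0 hη b l))).mul
      (continuous_gk hη σ σ)).aestronglyMeasurable (1 / η)
    (ae_of_all _ fun x => norm_p1c hw L (norm_gk hη x) _)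

theorem int_sumD (hw : Wt w) (hη : 0 < η) (L : List (Lv (Cube n))) (q : ℕ → ℝ) (b l : ℝ) :
    Integrable (fun x => ∑ k ∈ range (L.length + 1), D (exP L 0) k *
      p2 w L k (fun σ τ => |Rv σ τ - q k|) (h0 b η l x)) (gv (Fin n × Fin n)) ∧
    ∫ x, ∑ k ∈ range (L.length + 1), D (exP L 0) k *
      p2 w L k (fun σ τ => |Rv σ τ - q k|) (h0 b η l x) ∂(gv (Fin n × Fin n)) =
      rhoT w L b η l q := by
  refine ⟨integrable_finsetSum _ fun k _ => (int_p2 hw hη L k _ b l).const_mul _, ?_⟩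
  rw [integral_finsetSum _ fun k _ => (int_p2 hw hη L k _ b l).const_mul _]
  simp only [integral_const_mul, rhoT, rho]

theorem errD_le (hn : 0 < n) (ha : Root η a) (hη : 0 < η) (hη1 : η ≤ 1) (hw : Wt w)
    (hM : Mono 0 L) (hb : 0 ≤ b) (l : ℝ) (q : ℕ → ℝ) :
    ‖errD L.length (SdA.cx (exP L 0)) (SdA.cx q) a b (gamd w L b η l) (gam w L b η l)‖ ≤
      14 / (n * η ^ 6) + (2 * b / η * rhoT w L b η l q + 8 * |l| / η ^ 2) := by
  obtain ⟨i1, e1⟩ := integral_prD (int_p1c hw hη L b l) (fun k => int_p2c hw hη L k b l)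
    L.length (SdA.cx (exP L 0)) (SdA.cx q)
  obtain ⟨i2, e2⟩ := int_sumD hw hη L q b l
  have key := err_gen (κ := Cube n) (Φ := fun σ h => P w L h σ) (Ψ := fun σ ρ h => Hs w L h σ ρ)
    hn ha hη hη1 (gr_P hw L) (fun σ h => P_nonneg hw L h σ) (sum_P hw L) (C := 2)
    (fun σ ρ h => abs_Hs_le hw hM σ ρ h) id id b l 1 i1
    ((i2.const_mul (2 * b / η)).add (integrable_const (8 * |l| / η ^ 2))) fun x => by
      have f1 := diagc_approx hw (Rv_self hn) (gk_symm η x) (norm_gk hη x) hM q (h0 b η l x)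
      have f2 := norm_Hsc hw hM (K := fun σ ρ => Wk η x σ σ ρ)
        (fun σ ρ => norm_Wk hn hη x σ σ ρ) (h0 b η l x)
      have f3 : ∑ σ, (P w L (h0 b η l x) σ : ℂ) * (Rv σ σ : ℝ) - 1 = 0 := by
        simp only [Rv_self hn, Complex.ofReal_one, mul_one]
        rw [← Complex.ofReal_sum, sum_P hw]; simp
      simp only [id, Pi.add_apply]
      rw [f3, zero_add]
      refine (norm_sub_le _ _).trans (add_le_add ?_ ?_)
      · rw [norm_mul, Complex.norm_real, Real.norm_of_nonneg hb]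
        refine (mul_le_mul_of_nonneg_left f1 hb).trans (le_of_eq ?_)
        ring
      · rw [norm_mul, Complex.norm_real, Real.norm_eq_abs]
        refine (mul_le_mul_of_nonneg_left f2 (abs_nonneg l)).trans (le_of_eq ?_)
        ring
  rw [e1] at key
  simp only [Pi.add_apply] at key
  rw [integral_add (i2.const_mul _) (integrable_const _), integral_const_mul, e2, integral_const,
    probReal_univ, one_smul] at key
  exact key

theorem err_le (hn : 0 < n) (ha : Root η a) (hη : 0 < η) (hη1 : η ≤ 1) (hw : Wt w)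
    (hM : Mono 0 L) (hb : 0 ≤ b) (l : ℝ) (q : ℕ → ℝ) {j : ℕ} (hj : j ≤ L.length) :
    ‖err L.length (SdA.cx (exP L 0)) (SdA.cx q) a b (gamd w L b η l) (gam w L b η l) j‖ ≤
      14 / (n * η ^ 6) + ((1 + 8 * b / η) * rho w L b η l q j +
        2 * b / η * rhoT w L b η l q + 24 * |l| / η ^ 2) := by
  obtain ⟨i1, e1⟩ := integral_pr (int_p1c hw hη L b l) (fun k => int_p2c hw hη L k b l)
    L.length (SdA.cx (exP L 0)) (SdA.cx q) j
  obtain ⟨i2, e2⟩ := int_sumD hw hη L q b l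
  have i3 := int_p2 hw hη L j (fun σ τ => |Rv σ τ - q j|) b l
  have key := err_gen (κ := Cube n × Cube n) (Φ := fun k => pl w L j k.1 k.2)
    (Ψ := fun k ρ => dp w L j k.1 k.2 ρ)
    hn ha hη hη1 (fun k => gr_pl hw L j k.1 k.2) (fun k h => pl_nonneg hw L j _ _ h)
    (sum_pl hw L j) (C := 6) (fun k ρ h => abs_dp_le hw hM hj _ _ ρ h) Prod.fst Prod.snd b l
    (q j) i1 (((i3.const_mul (1 + 8 * b / η)).add (i2.const_mul (2 * b / η))).add
      (integrable_const (24 * |l| / η ^ 2))) fun x => by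
      have f1 := D3c_approx hw (Rv_self hn) (gk_symm η x) (norm_gk hη x) hM hj q (h0 b η l x)
      have f2 := norm_D3c hw hM hj (K := fun σ τ ρ => Wk η x σ τ ρ)
        (fun σ τ ρ => norm_Wk hn hη x σ τ ρ) (h0 b η l x)
      have f3 := abs_p2_sub hw L j (K := Rv) (K' := fun _ _ => q j)
        (E := fun σ τ => |Rv σ τ - q j|) (fun _ _ => le_rfl) (h0 b η l x)
      rw [p2_const hw] at f3
      have f4 : ∑ k : Cube n × Cube n, (pl w L j k.1 k.2 (h0 b η l x) : ℂ) * (Rv k.1 k.2 : ℝ) -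
          (q j : ℂ) = ((p2 w L j Rv (h0 b η l x) - q j : ℝ) : ℂ) := by
        rw [Fintype.sum_prod_type, p2]; push_cast; rfl
      simp only [Pi.add_apply]
      rw [f4, sum_comm, sum_comm (f := fun (k : Cube n × Cube n) ρ =>
        (dp w L j k.1 k.2 ρ (h0 b η l x) : ℂ) * Wk η x k.1 k.2 ρ)]
      simp only [Fintype.sum_prod_type]
      refine (norm_sub_le _ _).trans (add_le_add ((norm_add_le _ _).trans ?_) ?_)
      · rw [norm_mul, Complex.norm_real, Complex.norm_real, Real.norm_of_nonneg hb,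
          Real.norm_eq_abs]
        refine (add_le_add f3 (mul_le_mul_of_nonneg_left f1 hb)).trans (le_of_eq ?_)
        ring
      · rw [norm_mul, Complex.norm_real, Real.norm_eq_abs]
        refine (mul_le_mul_of_nonneg_left f2 (abs_nonneg l)).trans (le_of_eq ?_)
        ring
  rw [e1] at key
  simp only [Pi.add_apply, Fintype.sum_prod_type] at key
  rw [integral_add (by exact (i3.const_mul _).add (i2.const_mul _)) (integrable_const _),
    integral_add (i3.const_mul _) (i2.const_mul _), integral_const_mul, integral_const_mul, e2,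
    integral_const, probReal_univ, one_smul] at key
  exact key

theorem rho_nonneg (hw : Wt w) (L : List (Lv (Cube n))) (b η l : ℝ) (q : ℕ → ℝ) (j : ℕ) :
    0 ≤ rho w L b η l q j := integral_nonneg fun _ => p2_nonneg hw L j (fun _ _ => abs_nonneg _) _

/-- **the solution of the Schwinger–Dyson system** -/
theorem sd_main (hn : 0 < n) (ha : Root η a) (hη : 0 < η) (hη1 : η ≤ 1) (hw : Wt w)
    (hM : Mono 0 L) (hb : 0 ≤ b) (l : ℝ) {q : ℕ → ℝ} (hq0 : 0 ≤ q 0)
    (hq : ∀ j < L.length, q j ≤ q (j + 1)) (hq1 : ∀ j ≤ L.length, q j ≤ 1) :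
    ‖gamd w L b η l - gId L.length (SdA.cx (exP L 0)) (SdA.cx q) a b‖ ≤
      (1 / a.im + b / a.im ^ 2) *
        (28 / (n * η ^ 6) + (1 + 12 * b / η) * rhoT w L b η l q + 32 * |l| / η ^ 2) := by
  refine (norm_sub_gId rfl (exP_top L 0) (fun j _ => D_nonneg hM j) ha.im_pos hb hq0 hq hq1 _
    (gam w L b η l)).trans (mul_le_mul_of_nonneg_left ?_ (by have := ha.im_pos; positivity))
  have h1 := errD_le hn ha hη hη1 hw hM hb l q
  have h2 : ∑ j ∈ range (L.length + 1), D (exP L 0) j *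
      ‖err L.length (SdA.cx (exP L 0)) (SdA.cx q) a b (gamd w L b η l) (gam w L b η l) j‖ ≤
      ∑ j ∈ range (L.length + 1), (D (exP L 0) j * (14 / (n * η ^ 6) +
        2 * b / η * rhoT w L b η l q + 24 * |l| / η ^ 2) +
        (1 + 8 * b / η) * (D (exP L 0) j * rho w L b η l q j)) := sum_le_sum fun j hj =>
    (mul_le_mul_of_nonneg_left (err_le hn ha hη hη1 hw hM hb l q
      (Nat.lt_succ_iff.1 (mem_range.1 hj))) (D_nonneg hM j)).trans (le_of_eq (by ring))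
  rw [sum_add_distrib, ← sum_mul, ← mul_sum, sum_D, ← rhoT] at h2
  have e : (28 : ℝ) / (n * η ^ 6) = 14 / (n * η ^ 6) + 14 / (n * η ^ 6) := by ring
  have e1 : (1 + 12 * b / η) * rhoT w L b η l q = 2 * b / η * rhoT w L b η l q +
    2 * b / η * rhoT w L b η l q + (1 + 8 * b / η) * rhoT w L b η l q := by ring
  have e2 : 32 * |l| / η ^ 2 = 8 * |l| / η ^ 2 + 24 * |l| / η ^ 2 := by ring
  linarith

/-- mean of the edge observable under the one-point law -/
def EQ (w : Cube n → ℝ) (L : List (Lv (Cube n))) (b η l : ℝ) : ℝ :=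
  ∫ x, ∑ σ, P w L (h0 b η l x) σ * Qf (Am η (Jg n x)) σ ∂(gv (Fin n × Fin n))

theorem EQ_eq (hn : 0 < n) (hη : 0 < η) (hw : Wt w) (L : List (Lv (Cube n))) (b l : ℝ) :
    EQ w L b η l = -η * n * (gamd w L b η l).im := by
  have e : ∫ x, (p1c w L (gk η x) (h0 b η l x)).im ∂(gv (Fin n × Fin n)) = (gamd w L b η l).im :=
    integral_im (int_p1c hw hη L b l)
  rw [← e, ← integral_const_mul, EQ]
  refine integral_congr_ae (ae_of_all _ fun x => ?_)
  simp only [p1c, Complex.im_sum, Complex.im_ofReal_mul, Qf_gk hn hη, mul_sum]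
  exact sum_congr rfl fun σ _ => by ring

end main

end Crest.Agent.T157.Sd
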