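import Crest.Agent.T157.SdB_12
import Crest.Agent.T157.G1Def_52
import Crest.Agent.T157.CascP_52
import Crest.Agent.T157.CascC_65
import Crest.Agent.T157.Psi_33

/-!
Row 157, part D (helper12): the tilted free energy `Psi` is bounded through Guerra's interpolation
in the last part of the disorder and the Schwinger–Dyson equations.
-/

set_option autoImplicit false
set_option linter.unusedSectionVars false

noncomputable section

namespace Crest.Agent.T157.Sd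

open Finset Matrix MeasureTheory Function Real
open Crest.Agent.T157.E Crest.Agent.T157.Casc Crest.Agent.T157.SdA Crest.Agent.T157.SdM
open Crest.Agent.T157.Ac Crest.Agent.T157.Cond Crest.Agent.T157.G1
open Crest.Agent.T157.SL (Wt)
open Crest.Agent.R339.B Crest.Agent.R339.Var

variable {n : ℕ} {β d η l : ℝ} {ℓ : List (ℝ × ℝ)}

theorem wt1 : Wt fun _ : Cube n => (1 : ℝ) :=
  ⟨fun _ => zero_le_one, by simp⟩

theorem fld_Jw (β : ℝ) (g : Fin n × Fin n → ℝ) (σ : Cube n) :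
    (Jw n β).fld g σ = β / 2 * (sv σ ⬝ᵥ Jg n g *ᵥ sv σ) := by
  rw [quad_Jg, Lv.fld, mul_sum, mul_sum]
  exact sum_congr rfl fun p _ => by ring

theorem fld_sc {Ω : Type*} (s : ℝ) (J : Lv Ω) (g : J.ι → ℝ) : (sc s J).fld g = s • J.fld g := by
  funext x
  simp only [Lv.fld, Pi.smul_apply, smul_eq_mul, mul_sum, mul_assoc]

theorem cov_sc {Ω : Type*} (s : ℝ) (J : Lv Ω) (x y : Ω) : (sc s J).cov x y = s ^ 2 * J.cov x y := by
  simp only [Lv.cov, mul_sum]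
  exact sum_congr rfl fun i _ => by ring

theorem h0_zero (β d η : ℝ) (x : Fin n × Fin n → ℝ) :
    h0 (β * √(1 - d)) η 0 x = √(1 - d) • (Jw n β).fld x := by
  funext σ
  simp only [h0, Pi.smul_apply, fld_Jw, smul_eq_mul]
  ring

theorem h0_add (b η l : ℝ) (x : Fin n × Fin n → ℝ) :
    (h0 b η l x + fun σ => l * Qf (Am η (Jg n x)) σ) = h0 b η 0 x := by
  funext σ
  simp only [h0, Pi.add_apply]
  ring

theorem abs_Qf (hη : 0 < η) (x : Fin n × Fin n → ℝ) (σ : Cube n) : |Qf (Am η (Jg n x)) σ| ≤ n := by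
  have hA := good_Am (Jg_t x) hη
  rw [Qf, abs_of_nonneg (hA.nonneg _), ← sv_dot σ]
  exact hA.le _

theorem abs_h0_sub (hη : 0 < η) (b l : ℝ) (x : Fin n × Fin n → ℝ) (σ : Cube n) :
    |h0 b η l x σ - h0 b η 0 x σ| ≤ |l| * n := by
  have : h0 b η l x σ - h0 b η 0 x σ = -(l * Qf (Am η (Jg n x)) σ) := by simp only [h0]; ring
  rw [this, abs_neg, abs_mul]
  exact mul_le_mul_of_nonneg_left (abs_Qf hη x σ) (abs_nonneg l)

theorem int_h0 (hη : 0 < η) (b l : ℝ) : Integrable (h0 (n := n) b η l) (gv (Fin n × Fin n)) := by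
  refine Integrable.of_eval fun σ => Integrable.sub (Integrable.const_mul ?_ _)
    (Integrable.const_mul (Integrable.of_bound (continuous_Qf hη σ).aestronglyMeasurable n
      (ae_of_all _ fun x => abs_Qf hη x σ)) _)
  simp only [quad_Jg]
  exact (integrable_finsetSum _ fun p _ =>
    (Crest.Agent.R339.Guerra.integrable_coord p).const_mul _).const_mul _

theorem int_X {w : Cube n → ℝ} (hw : Wt w) (hη : 0 < η) (L : List (Lv (Cube n))) (b l : ℝ) :
    Integrable (fun x => X w L (h0 b η l x)) (gv (Fin n × Fin n)) := by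
  have hL := C.lp_X hw L
  refine Integrable.mono' ((integrable_const |X w L 0|).add (int_h0 hη b l).norm)
    (hL.cont.comp (continuous_h0 hη b l)).aestronglyMeasurable (ae_of_all _ fun x => ?_)
  have := hL.abs_sub (h0 b η l x) 0
  rw [sub_zero] at this
  have h2 := abs_sub_abs_le_abs_sub (X w L (h0 b η l x)) (X w L 0)
  simp only [Real.norm_eq_abs, Pi.add_apply]
  linarith

theorem Fe_eq {J : Lv (Cube n)} (hJ : J.m = 0) (w : Cube n → ℝ) (s : ℝ) (h : Cube n → ℝ) :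
    Fe J w s h = X w [sc s J] h := by
  rw [C.X_cons, C.step_zero (l := sc s J) hJ]
  simp only [fld_sc]
  rfl

theorem phi_one {J : Lv (Cube n)} (hJ : J.m = 0) (w : Cube n → ℝ) (ℓ : List (ℝ × ℝ)) (d : ℝ)
    (h : Cube n → ℝ) : phi J w ℓ (1 - d) 1 h = Fe J w √d h := by
  have e := C.X_of_zero w (L := FL n √(1 - 1) ℓ) (fun l hl x i => by
    obtain ⟨p, -, rfl⟩ := List.mem_map.1 hl
    simp) []
  rw [List.append_nil] at e
  rw [phi, Lt, C.X_cons, e, Fe_eq hJ, C.X_cons, sub_sub_cancel]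

theorem Psi_eq (n : ℕ) (β d η l : ℝ) : Psi n β d η l =
    ∫ x, Fe (Jw n β) (fun _ => 1) √d (h0 (β * √(1 - d)) η l x) ∂gv (Fin n × Fin n) := by
  refine integral_congr_ae (ae_of_all _ fun x => integral_congr_ae (ae_of_all _ fun g => ?_))
  simp only [psi, Hm_eq, h0, fld_Jw, one_mul]
  congr 1
  refine sum_congr rfl fun σ _ => ?_
  congr 1
  ring

theorem int_first (β d η : ℝ) (L : List (Lv (Cube n))) (w : Cube n → ℝ) :
    ∫ x, X w L (h0 (β * √(1 - d)) η 0 x) ∂gv (Fin n × Fin n) =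
      X w (sc √(1 - d) (Jw n β) :: L) 0 := by
  rw [C.X_cons, C.step_zero (l := sc √(1 - d) (Jw n β)) rfl]
  simp only [fld_sc, zero_add, h0_zero]

/-- the SK free energy in the GOE words -/
def FE (n : ℕ) (β : ℝ) : ℝ := ∫ g, log (∑ x, exp ((Jw n β).fld g x)) ∂gv (Fin n × Fin n)

theorem Psi_zero (hd : 0 ≤ d) (hd1 : d ≤ 1) (n : ℕ) (β η : ℝ) : Psi n β d η 0 = FE n β := by
  rw [Psi_eq]
  simp only [Fe_eq (J := Jw n β) rfl]
  rw [int_first, ← C.X_split wt1 (l := Jw n β) (l1 := sc √(1 - d) (Jw n β))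
    (l2 := sc √d (Jw n β)) rfl rfl fun x y => by
    rw [cov_sc, cov_sc, sq_sqrt hd, sq_sqrt (sub_nonneg.2 hd1)]; ring]
  rw [C.X_cons, C.step_zero (l := Jw n β) rfl]
  simp only [X, zero_add, one_mul, FE]

theorem phi_first (hd1 : d ≤ 1) {t : ℝ} (ht : 1 - d ≤ t) (β η : ℝ) (ℓ : List (ℝ × ℝ)) :
    ∫ x, phi (Jw n β) (fun _ => 1) ℓ (1 - d) t (h0 (β * √(1 - d)) η 0 x) ∂gv (Fin n × Fin n) =
      phi (Jw n β) (fun _ => 1) ℓ 0 t 0 := by
  simp only [phi, Lt]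
  rw [int_first, ← C.X_split wt1 (l := sc √(t - 0) (Jw n β)) (l1 := sc √(1 - d) (Jw n β))
    (l2 := sc √(t - (1 - d)) (Jw n β)) rfl rfl fun x y => by
    rw [cov_sc, cov_sc, cov_sc, sq_sqrt (by linarith), sq_sqrt (sub_nonneg.2 hd1),
      sq_sqrt (sub_nonneg.2 ht)]; ring]

theorem phi_mono {J : Lv (Cube n)} (hG : G1 β J ℓ) {w : Cube n → ℝ} (hw : Wt w) {a t : ℝ}
    (ha : a < t) (ht : t < 1) (h : Cube n → ℝ) :
    phi J w ℓ a 1 h ≤ phi J w ℓ a t h - (1 - t) * (n * cor β ℓ) := by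
  obtain ⟨s, hs, e⟩ := exists_hasDerivAt_eq_slope (fun t => phi J w ℓ a t h) _ ht
    ((hG.cont w hw a h).mono (Set.Icc_subset_Icc_left ha.le))
    fun s hs => hG.der w hw a s h (ha.trans hs.1) hs.2
  have h1 : 0 ≤ Rem J w β ℓ a s h := integral_nonneg fun g => hG.rem_nonneg w hw _ _
  rw [eq_div_iff (sub_pos.2 ht).ne'] at e
  have h2 : 0 ≤ β ^ 2 * n / 4 * Rem J w β ℓ a s h * (1 - t) :=
    mul_nonneg (mul_nonneg (by positivity) h1) (sub_pos.2 ht).le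
  linarith

theorem mono_FL (n : ℕ) (s : ℝ) : ∀ {ℓ : List (ℝ × ℝ)} {m0 : ℝ}, Adm 1 ℓ → m0 ≤ headLv 1 ℓ →
    Mono m0 (FL n s ℓ)
  | [], _, _, h => h
  | _ :: _, _, hA, h => ⟨h, mono_FL n s hA.2.2.2 hA.2.1⟩

theorem mono_Lt (hA : Adm 1 ℓ) (n : ℕ) (β a t : ℝ) : Mono 0 (Lt (Jw n β) ℓ a t) :=
  ⟨le_rfl, mono_FL n _ hA (hA.head_pos one_pos).le⟩

theorem int_Q (hη : 0 < η) (L : List (Lv (Cube n))) (b l : ℝ) :
    Integrable (fun x => ∑ σ, P (fun _ => 1) L (h0 b η l x) σ * Qf (Am η (Jg n x)) σ)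
      (gv (Fin n × Fin n)) := by
  have hc : Continuous fun x => ∑ σ, P (fun _ => 1) L (h0 b η l x) σ * Qf (Am η (Jg n x)) σ :=
    continuous_finsetSum _ fun σ _ =>
      ((eg_P wt1 L σ).cont.comp (continuous_h0 hη b l)).mul (continuous_Qf hη σ)
  exact Integrable.of_bound hc.aestronglyMeasurable n
    (ae_of_all _ fun x => abs_P_le wt1 L (abs_Qf hη x) (h0 b η l x))

theorem int_tilt (hη : 0 < η) {L : List (Lv (Cube n))} (hL : Mono 0 L) (b l : ℝ) :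
    ∫ x, X (fun _ => 1) L (h0 b η l x) ∂gv (Fin n × Fin n) ≤
      ∫ x, X (fun _ => 1) L (h0 b η 0 x) ∂gv (Fin n × Fin n) - l * EQ (fun _ => 1) L b η l := by
  rw [EQ, ← integral_const_mul, ← integral_sub (int_X wt1 hη L b 0) ((int_Q hη L b l).const_mul l)]
  refine integral_mono (int_X wt1 hη L b l) ((int_X wt1 hη L b 0).sub
    ((int_Q hη L b l).const_mul l)) fun x => ?_
  have h2 := X_add_ge wt1 L (hL.nn le_rfl) (h0 b η l x) fun σ => l * Qf (Am η (Jg n x)) σ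
  rw [h0_add] at h2
  simp only [mul_left_comm _ l, ← mul_sum] at h2
  exact le_sub_iff_add_le.2 h2

/-- the upper bound by the tilted mean of `Q` at time `t` -/
theorem Psi_le (hG : G1 β (Jw n β) ℓ) (hA : Adm 1 ℓ) (hd1 : d ≤ 1) (hη : 0 < η) (l : ℝ) {t : ℝ}
    (ht : 1 - d < t) (ht1 : t < 1) :
    Psi n β d η l ≤ n * val β ℓ -
      l * EQ (fun _ => 1) (Lt (Jw n β) ℓ (1 - d) t) (β * √(1 - d)) η l := by
  have iF : Integrable (fun x => Fe (Jw n β) (fun _ => 1) √d (h0 (β * √(1 - d)) η l x))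
      (gv (Fin n × Fin n)) := by
    simp only [Fe_eq (J := Jw n β) rfl]; exact int_X wt1 hη _ _ _
  have i0 := int_X (n := n) wt1 hη (Lt (Jw n β) ℓ (1 - d) t) (β * √(1 - d)) l
  have key := integral_mono iF (i0.sub (integrable_const ((1 - t) * (n * cor β ℓ)))) fun x => by
    have h1 := phi_mono hG wt1 ht ht1 (h0 (β * √(1 - d)) η l x)
    rwa [phi_one rfl] at h1
  simp only [Pi.sub_apply] at key
  rw [integral_sub i0 (integrable_const _), integral_const, probReal_univ, one_smul,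
    ← Psi_eq] at key
  have h2 := int_tilt hη (mono_Lt hA n β (1 - d) t) (β * √(1 - d)) l
  have h3 := phi_first (n := n) hd1 ht.le β η ℓ
  have h4 := hG.phi_le t (by linarith) ht1.le
  unfold phi at h3 h4
  rw [G1.val]
  linarith

/-- overlaps attached to the levels of `Lt` -/
def qq (β : ℝ) (ℓ : List (ℝ × ℝ)) : ℕ → ℝ
  | 0 => 0
  | k + 1 => qs β ℓ k

/-- exponents of `Lt` -/
def mm (ℓ : List (ℝ × ℝ)) : ℕ → ℝ
  | 0 => 0
  | 1 => 0
  | k + 2 => (ℓ[k]?.map Prod.fst).getD 1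

theorem exP_Lt (n : ℕ) (β : ℝ) (ℓ : List (ℝ × ℝ)) (a t : ℝ) :
    exP (Lt (Jw n β) ℓ a t) 0 = mm ℓ := by
  funext k
  match k with
  | 0 => rfl
  | 1 => rfl
  | k + 2 =>
    simp only [exP, ex, Lt, FL, mm, List.getElem?_cons_succ, List.getElem?_map]
    cases ℓ[k]? <;> rfl

theorem length_Lt (J : Lv (Cube n)) (ℓ : List (ℝ × ℝ)) (a t : ℝ) :
    (Lt J ℓ a t).length = ℓ.length + 1 := by simp [Lt, FL]

theorem Rem_eq (β : ℝ) (ℓ : List (ℝ × ℝ)) (a t : ℝ) (h : Cube n → ℝ) :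
    Rem (Jw n β) (fun _ => 1) β ℓ a t h =
      ∑ k ∈ range ((Lt (Jw n β) ℓ a t).length + 1), D (exP (Lt (Jw n β) ℓ a t) 0) k *
        p2 (fun _ => 1) (Lt (Jw n β) ℓ a t) k (fun σ τ => (Rv σ τ - qq β ℓ k) ^ 2) h := by
  have e := pair_eq_sum wt1 (Lt (Jw n β) ℓ a t) 0 (fun k σ τ => (Rv σ τ - qq β ℓ k) ^ 2) h
  simp only [pi2_eq wt1] at e
  refine Eq.trans ?_ e
  rw [Lt, Casc.pair, C.tE_zero (l := sc √(t - a) (Jw n β)) rfl]
  simp only [fld_sc, sub_self, zero_mul, zero_add]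
  rfl

theorem rhoT_le (hη : 0 < η) (hA : Adm 1 ℓ) (β a t b l : ℝ) {δ : ℝ} (hδ : 0 < δ) :
    rhoT (fun _ => 1) (Lt (Jw n β) ℓ a t) b η l (qq β ℓ) ≤ δ / 2 + 1 / (2 * δ) *
      ∫ x, Rem (Jw n β) (fun _ => 1) β ℓ a t (h0 b η l x) ∂gv (Fin n × Fin n) := by
  obtain ⟨i1, e1⟩ := int_sumD wt1 hη (Lt (Jw n β) ℓ a t) (qq β ℓ) b l
  have i2 : Integrable (fun x => Rem (Jw n β) (fun _ => 1) β ℓ a t (h0 b η l x))
      (gv (Fin n × Fin n)) := by
    simp only [Rem_eq]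
    exact integrable_finsetSum _ fun k _ => (int_p2 wt1 hη _ k _ b l).const_mul _
  have key := integral_mono i1 ((integrable_const (δ / 2)).add (i2.const_mul (1 / (2 * δ))))
    fun x => by
      have hM := mono_Lt hA n β a t
      simp only [Pi.add_apply]
      have hD : δ / 2 = ∑ k ∈ range ((Lt (Jw n β) ℓ a t).length + 1),
          D (exP (Lt (Jw n β) ℓ a t) 0) k * (δ / 2) := by rw [← sum_mul, sum_D]; ring
      rw [Rem_eq, mul_sum, hD, ← sum_add_distrib]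
      refine sum_le_sum fun k _ => ?_
      have h1 := p2_mono wt1 (Lt (Jw n β) ℓ a t) k (K := fun σ τ => |Rv σ τ - qq β ℓ k|)
        (K' := fun σ τ => δ / 2 + 1 / (2 * δ) * (Rv σ τ - qq β ℓ k) ^ 2) (fun σ τ => by
          rw [← sq_abs]
          have : δ / 2 + 1 / (2 * δ) * |Rv σ τ - qq β ℓ k| ^ 2 - |Rv σ τ - qq β ℓ k| =
            1 / (2 * δ) * (|Rv σ τ - qq β ℓ k| - δ) ^ 2 := by field_simp; ring
          have h2 : 0 ≤ 1 / (2 * δ) * (|Rv σ τ - qq β ℓ k| - δ) ^ 2 := by positivity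
          linarith) (h0 b η l x)
      rw [p2_add, p2_const wt1, p2_smul] at h1
      refine (mul_le_mul_of_nonneg_left h1 (D_nonneg hM k)).trans (le_of_eq ?_)
      ring
  rw [e1] at key
  simp only [Pi.add_apply] at key
  rwa [integral_add (integrable_const _) (i2.const_mul _), integral_const_mul, integral_const,
    probReal_univ, one_smul] at key

theorem exists_time (hG : G1 β (Jw n β) ℓ) (hd : 0 < d) (hd1 : d ≤ 1) (hη : 0 < η) (l : ℝ) :
    ∃ t ∈ Set.Ioo (1 - d) 1, d * (β ^ 2 * n / 4 * ∫ x, Rem (Jw n β) (fun _ => 1) β ℓ (1 - d) t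
      (h0 (β * √(1 - d)) η l x) ∂gv (Fin n × Fin n)) ≤ n * val β ℓ - FE n β + 2 * |l| * n := by
  obtain ⟨t, ht, e⟩ := hG.mvt_avg _ wt1 d hd _ (gv (Fin n × Fin n)) (h0 (β * √(1 - d)) η l)
    (continuous_h0 hη _ l).measurable (int_h0 hη _ l)
  refine ⟨t, ht, ?_⟩
  obtain ⟨i1, h1⟩ := hG.avg d hd.le hd1
  have i2 : Integrable (fun x => Y (Jw n β) (fun _ => 1) β ℓ d (h0 (β * √(1 - d)) η l x))
      (gv (Fin n × Fin n)) := by
    simp only [Y, Fe_eq (J := Jw n β) rfl]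
    exact ((int_X wt1 hη _ _ _).sub (integrable_const _)).sub (int_X wt1 hη _ _ _)
  have key := integral_mono i2 (i1.add (integrable_const (2 * |l| * n))) fun x => by
    have a1 := abs_X_sub_le wt1 (FL n √d ℓ) fun σ _ => abs_h0_sub hη (β * √(1 - d)) l x σ
    have a2 := abs_X_sub_le wt1 [sc √d (Jw n β)] fun σ _ => abs_h0_sub hη (β * √(1 - d)) l x σ
    simp only [Pi.add_apply, Y, Fe_eq (J := Jw n β) rfl, ← h0_zero β d η]
    linarith [(abs_le.1 a1).2, (abs_le.1 a2).1]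
  simp only [Pi.add_apply] at key
  rw [integral_add i1 (integrable_const _), integral_const, probReal_univ, one_smul, e] at key
  unfold FE
  linarith

/-- the exact solution of the limiting system -/
def g0 (β : ℝ) (ℓ : List (ℝ × ℝ)) (a : ℂ) (b : ℝ) : ℂ :=
  gId (ℓ.length + 1) (SdA.cx (mm ℓ)) (SdA.cx (qq β ℓ)) a b

/-- the total error per site -/
def er (n : ℕ) (β d η l δ e0 : ℝ) : ℝ :=
  (2 + 4 * β) * (28 / (n * η ^ 6) +
    (1 + 12 * β / η) * (δ / 2 + 2 * (e0 + 2 * |l|) / (δ * d * β ^ 2)) + 32 * |l| / η ^ 2)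

/-- **the non-asymptotic bound** -/
theorem core (hn : 0 < n) (hβ : 0 < β) (hG : G1 β (Jw n β) ℓ) (hA : Adm 1 ℓ) (hd : 0 < d)
    (hd1 : d ≤ 1) (hη : 0 < η) (hη1 : η ≤ 1) {a : ℂ} (ha : Root η a)
    (hq : ∀ j < ℓ.length + 1, qq β ℓ j ≤ qq β ℓ (j + 1)) (hq1 : ∀ j ≤ ℓ.length + 1, qq β ℓ j ≤ 1)
    {e0 δ : ℝ} (he : n * val β ℓ - FE n β ≤ e0 * n) (hδ : 0 < δ) (l : ℝ) :
    Psi n β d η l - Psi n β d η 0 ≤ e0 * n + l * n * (η * (g0 β ℓ a (β * √(1 - d))).im) +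
      |l| * n * er n β d η l δ e0 := by
  obtain ⟨t, ht, h1⟩ := exists_time hG hd hd1 hη l
  have hn' : (0 : ℝ) < n := by exact_mod_cast hn
  have h2 := Psi_le hG hA hd1 hη l ht.1 ht.2
  have h3 := rhoT_le (n := n) hη hA β (1 - d) t (β * √(1 - d)) l hδ
  have hb0 : 0 ≤ β * √(1 - d) := by positivity
  have hb1 : β * √(1 - d) ≤ β := mul_le_of_le_one_right hβ.le (sqrt_le_one.2 (by linarith))
  have h4 := sd_main hn ha hη hη1 wt1 (mono_Lt hA n β (1 - d) t) hb0 l (q := qq β ℓ) le_rfl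
    (by rwa [length_Lt]) (by rwa [length_Lt])
  rw [length_Lt, exP_Lt, ← g0] at h4
  rw [EQ_eq hn hη wt1] at h2
  rw [Psi_zero hd.le hd1]
  have h0' : 0 ≤ rhoT (fun _ => 1) (Lt (Jw n β) ℓ (1 - d) t) (β * √(1 - d)) η l (qq β ℓ) :=
    sum_nonneg fun k _ => mul_nonneg (D_nonneg (mono_Lt hA n β _ t) k) (rho_nonneg wt1 _ _ _ _ _ _)
  generalize gamd (fun _ => 1) (Lt (Jw n β) ℓ (1 - d) t) (β * √(1 - d)) η l = γ at *
  generalize rhoT (fun _ => 1) (Lt (Jw n β) ℓ (1 - d) t) (β * √(1 - d)) η l (qq β ℓ) = ρ at *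
  generalize g0 β ℓ a (β * √(1 - d)) = γ0 at *
  generalize ∫ x, Rem (Jw n β) (fun _ => 1) β ℓ (1 - d) t
      (h0 (β * √(1 - d)) η l x) ∂gv (Fin n × Fin n) = r at *
  generalize β * √(1 - d) = b at *
  have h5 : r ≤ 4 * (e0 + 2 * |l|) / (d * β ^ 2) := by
    rw [le_div_iff₀ (by positivity)]
    refine le_of_mul_le_mul_right ?_ hn'
    linarith
  have h6 : ρ ≤ δ / 2 + 2 * (e0 + 2 * |l|) / (δ * d * β ^ 2) := by
    refine h3.trans (add_le_add le_rfl ((mul_le_mul_of_nonneg_left h5 (by positivity)).trans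
      (le_of_eq ?_)))
    field_simp
    ring
  obtain ⟨h7, -, h8⟩ := Root.im_ge ha hη hη1
  have hs : 0 < √η := sqrt_pos.2 hη
  have hs1 : √η ≤ 1 := sqrt_le_one.2 hη1
  have hss : √η * √η = η := mul_self_sqrt hη.le
  have h9 : η * (1 / a.im + b / a.im ^ 2) ≤ 2 + 4 * β := by
    have k1 : 1 / a.im ≤ 1 / (√η / 2) := one_div_le_one_div_of_le (by positivity) h7
    have k2 : b / a.im ^ 2 ≤ β / (√η / 2) ^ 2 := by gcongr
    have k3 : η * (1 / (√η / 2) + β / (√η / 2) ^ 2) = 2 * √η + 4 * β := by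
      field_simp
      rw [sq_sqrt hη.le]
      ring
    have := mul_le_mul_of_nonneg_left (add_le_add k1 k2) hη.le
    linarith
  have h10 : 28 / (n * η ^ 6) + (1 + 12 * b / η) * ρ + 32 * |l| / η ^ 2 ≤ 28 / (n * η ^ 6) +
      (1 + 12 * β / η) * (δ / 2 + 2 * (e0 + 2 * |l|) / (δ * d * β ^ 2)) + 32 * |l| / η ^ 2 := by
    gcongr
  have h11 : η * ‖γ - γ0‖ ≤ er n β d η l δ e0 := by
    refine (mul_le_mul_of_nonneg_left h4 hη.le).trans ?_
    rw [← mul_assoc, er]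
    exact mul_le_mul h9 h10 (by positivity) (by positivity)
  have h12 : l * (η * (γ.im - γ0.im)) ≤ |l| * er n β d η l δ e0 := by
    refine (le_abs_self _).trans ?_
    rw [abs_mul, abs_mul, abs_of_pos hη]
    refine mul_le_mul_of_nonneg_left (le_trans (mul_le_mul_of_nonneg_left ?_ hη.le) h11)
      (abs_nonneg l)
    rw [← Complex.sub_im]
    exact Complex.abs_im_le_norm _
  have h13 := mul_le_mul_of_nonneg_left h12 hn'.le
  linarith

end Crest.Agent.T157.Sd
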