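import Crest.Agent.T157.SdBr_12
import Crest.Agent.T157.G1_52
import Crest.Agent.T157.Plb_78
import Crest.Agent.T157.PfC_56

/-!
Row 157, part D (helper12): the lower half of S0231, unconditionally.
-/

namespace Crest.Agent.T157.Sd

theorem psiStmt : Ac.PsiStmt := psi_of' G1.g1Stmt Plb.plbStmt Pf.parStmt

theorem barStmt : Bar.BarStmt := Ac.bar_of_psi psiStmt

end Crest.Agent.T157.Sd
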