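import Crest.Agent.T157.SdC_12
import Crest.Agent.T157.PfSite_56
import Crest.Agent.T157.AnDef_51

/-!
Row 157, part D (helper12): `PsiStmt` from Guerra's interpolation, the free energy lower bound and
the grid minimiser of the Parisi functional.
-/

set_option autoImplicit false
set_option linter.unusedSectionVars false

noncomputable section

namespace Crest.Agent.T157.Sd

open Finset MeasureTheory Real Filter Topology
open Crest.Agent.T157.E Crest.Agent.T157.Casc Crest.Agent.T157.SdA Crest.Agent.T157.SdM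
open Crest.Agent.T157.Ac Crest.Agent.T157.G1 Crest.Agent.T157.Pf
open Crest.Agent.R339.B Crest.Agent.R339.Var
open Crest.ProbabilityR.SpinGlassDynamics

variable {P : Par} {β : ℝ}

theorem TT_const {c : ℝ} : ∀ {l : List (ℝ × ℝ)}, (∀ p ∈ l, p.2 = c) → TT l = l.length * c
  | [], _ => by simp [TT]
  | p :: l, h => by
    have ih := TT_const (l := l) fun q hq => h q (List.mem_cons_of_mem _ hq)
    unfold TT at ih ⊢
    rw [List.map_cons, List.sum_cons, ih, h p List.mem_cons_self, List.length_cons]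
    push_cast; ring

theorem length_lst (P : Par) (β : ℝ) (N : ℕ) : (P.lst β N).length = N := by simp [Par.lst]

theorem qq_lst (h : P.OK) (hβ : 0 < β) {k : ℕ} (hk : k ≤ P.K) :
    qq β (P.lst β P.K) (k + 1) = k / P.K := by
  have hK := h.Kp
  rw [qq, qs, TT_const fun p hp => Par.lst_snd P β P.K p (List.mem_of_mem_take hp),
    List.length_take, length_lst, min_eq_left hk]
  field_simp

theorem mm_lst (P : Par) (β : ℝ) {k : ℕ} (hk : k < P.K) : mm (P.lst β P.K) (k + 2) = P.z k := by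
  simp [mm, Par.lst, hk]

theorem mm_top (ℓ : List (ℝ × ℝ)) : mm ℓ (ℓ.length + 1 + 1) = 1 := by simp [mm]

theorem qq_mono (h : P.OK) (hβ : 0 < β) : ∀ j < (P.lst β P.K).length + 1,
    qq β (P.lst β P.K) j ≤ qq β (P.lst β P.K) (j + 1)
  | 0, _ => by rw [qq_lst h hβ (Nat.zero_le _)]; simp [qq]
  | k + 1, hk => by
    rw [length_lst] at hk
    have hK := h.Kp
    rw [qq_lst h hβ (by omega), qq_lst h hβ (by omega)]
    gcongr
    exact Nat.le_succ k

theorem qq_le (h : P.OK) (hβ : 0 < β) : ∀ j ≤ (P.lst β P.K).length + 1, qq β (P.lst β P.K) j ≤ 1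
  | 0, _ => zero_le_one
  | k + 1, hk => by
    rw [length_lst] at hk
    rw [qq_lst h hβ (by omega), div_le_one h.Kp]
    exact_mod_cast (by omega : k ≤ P.K)

/-- `∫_{k/K}^1 ζ` -/
def lam (P : Par) (k : ℕ) : ℝ := ∑ i ∈ Ico k P.K, P.z i / P.K

theorem hat_lst (h : P.OK) (hβ : 0 < β) : ∀ k ≤ P.K,
    hat ((P.lst β P.K).length + 1) (mm (P.lst β P.K)) 1 (qq β (P.lst β P.K)) (k + 1) = lam P k := by
  have hK := h.Kp
  intro k hk
  induction hk using Nat.decreasingInduction with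
  | self =>
    have := hat_top (K := (P.lst β P.K).length + 1) (mm_top _) 1 (qq β (P.lst β P.K))
    rw [length_lst] at this ⊢
    rw [this, qq_lst h hβ le_rfl, div_self hK.ne', lam]
    simp
  | of_succ k hk ih =>
    rw [hat_succ _ _ (by rw [length_lst]; omega), ih, mm_lst P β hk, qq_lst h hβ hk,
      qq_lst h hβ hk.le, lam, lam, sum_eq_sum_Ico_succ_bot hk]
    push_cast
    field_simp
    ring

theorem hat_lst' (h : P.OK) (hβ : 0 < β) (j : ℕ) (hj : j ≤ (P.lst β P.K).length + 1) :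
    hat ((P.lst β P.K).length + 1) (mm (P.lst β P.K)) 1 (qq β (P.lst β P.K)) j =
      lam P (j - 1) := by
  cases j with
  | zero =>
    rw [hat_succ _ _ (Nat.succ_pos _), hat_lst h hβ 0 (Nat.zero_le _)]
    simp [mm]
  | succ k =>
    rw [length_lst] at hj
    exact hat_lst h hβ k (by omega)

theorem lam_nonneg (h : P.OK) (k : ℕ) : 0 ≤ lam P k :=
  sum_nonneg fun i _ => div_nonneg (h.pos i).le h.Kp.le

theorem lam_split (P : Par) {k : ℕ} (hk : k ≤ P.K) :
    lam P 0 = ∑ i ∈ range k, P.z i / P.K + lam P k := by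
  rw [lam, lam, range_eq_Ico, sum_Ico_consecutive _ (Nat.zero_le k) hk]

theorem Zi_zero (h : P.OK) : P.Zi 0 = lam P 0 := by
  have hK := h.Kp
  have e := intervalIntegral.sum_integral_adjacent_intervals (f := P.zeta) (μ := volume)
    (a := fun i : ℕ => (i : ℝ) / P.K) (n := P.K) fun _ _ => h.zeta_mono.intervalIntegrable
  simp only [Nat.cast_zero, zero_div, div_self hK.ne'] at e
  rw [Par.Zi, ← e, lam, ← range_eq_Ico]
  refine sum_congr rfl fun i _ => ?_
  have hi : (i : ℝ) / P.K ≤ ((i + 1 : ℕ) : ℝ) / P.K := by gcongr; exact Nat.le_succ i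
  rw [intervalIntegral.integral_of_le hi, integral_Ioc_eq_integral_Ioo,
    setIntegral_congr_fun measurableSet_Ioo (g := fun _ => P.z i) fun r hr => by
      have h1 := (div_lt_iff₀ hK).1 hr.1
      have h2 := (lt_div_iff₀ hK).1 hr.2
      simp only [Par.zeta]
      congr 1
      rw [Nat.floor_eq_iff ((Nat.cast_nonneg i).trans h1.le)]
      exact ⟨h1.le, by exact_mod_cast h2⟩]
  rw [setIntegral_const, Real.volume_real_Ioo_of_le hi, smul_eq_mul]
  push_cast
  field_simp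
  ring

/-- the size of the exact solution -/
theorem size_lst (h : P.OK) (hβ : 1 < β) {c C ηP e : ℝ} (hC : 0 ≤ C) (hP : P.Good β c C ηP)
    (he : 0 < e) (he1 : e ≤ 1 / 2) (hη : ηP ≤ e ^ 2 / 2) (hK : 2 / e ≤ P.K) {a : ℂ}
    (ha : Root (e ^ 4) a) :
    e ^ 4 * (g0 β (P.lst β P.K) a (β * √(1 - e ^ 2))).im ≤
      -(e / (16 * ((1 + (2 + β * (C + 1))) ^ 2 + 4) ^ 2)) := by
  have hβ0 : 0 < β := by linarith
  have hK0 := h.Kp
  have hd : e ^ 2 ≤ 1 / 4 := by nlinarith
  have hd0 : 0 < e ^ 2 := by positivity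
  have s1 : √(1 - e ^ 2) ≤ 1 - e ^ 2 / 2 := sqrt_le_iff.2 ⟨by linarith, by nlinarith⟩
  have s2 : 1 - e ^ 2 ≤ √(1 - e ^ 2) := le_sqrt_of_sq_le (by nlinarith)
  have s0 : 0 < √(1 - e ^ 2) := by linarith
  have l0 := abs_le.1 hP.lam0
  rw [Zi_zero h] at l0
  have hη0 : 0 ≤ ηP := by linarith [l0.1, l0.2]
  have k0 : ⌊e * P.K⌋₊ ≤ P.K := Nat.floor_le_of_le (by nlinarith)
  have k1 : (⌊e * P.K⌋₊ : ℝ) ≤ e * P.K := Nat.floor_le (by positivity)
  have k2 : e / 2 ≤ (⌊e * P.K⌋₊ : ℝ) / P.K := by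
    have := Nat.lt_floor_add_one (e * P.K)
    rw [div_le_iff₀ he] at hK
    rw [le_div_iff₀ hK0]
    linarith
  have key := size (K := (P.lst β P.K).length + 1) (m := mm (P.lst β P.K))
    (q := qq β (P.lst β P.K)) (b := β * √(1 - e ^ 2)) (C := 2 + β * (C + 1)) he (by linarith)
    (by positivity) ha rfl (mm_top _) (by positivity) le_rfl (qq_mono h hβ0)
    (fun j hj => by rw [hat_lst' h hβ0 j hj]; exact mul_nonneg (by positivity) (lam_nonneg h _))
    (fun j hj => by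
      rw [hat_lst' h hβ0 j hj]
      rw [length_lst] at hj
      have h1 := lam_split P (k := j - 1) (by omega)
      have h2 : 0 ≤ ∑ i ∈ range (j - 1), P.z i / P.K :=
        sum_nonneg fun i _ => div_nonneg (h.pos i).le hK0.le
      have h3 : β * lam P (j - 1) ≤ 1 + e ^ 2 / 2 := by nlinarith [l0.2]
      have h4 := mul_le_mul s1 h3 (mul_nonneg hβ0.le (lam_nonneg h _)) (by linarith)
      nlinarith)
    (j0 := ⌊e * P.K⌋₊ + 1) (by rw [length_lst]; omega)
    (fun j hj => by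
      rw [hat_lst' h hβ0 j (by rw [length_lst]; omega)]
      have h1 := lam_split P (k := j - 1) (by omega)
      have hj' : ((j - 1 : ℕ) : ℝ) ≤ e * P.K := le_trans (by exact_mod_cast (by omega)) k1
      have h2 : ∑ i ∈ range (j - 1), P.z i / P.K ≤ e * (C * e + ηP) := by
        calc _ ≤ ∑ _i ∈ range (j - 1), (C * e + ηP) / P.K := sum_le_sum fun i hi => by
              have hi' : (i : ℝ) / P.K ≤ e := by
                rw [div_le_iff₀ hK0]
                exact le_trans (by exact_mod_cast (mem_range.1 hi).le) hj'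
              have := hP.zlin (i / P.K) ⟨by positivity, by linarith⟩
              rw [Par.zeta, div_mul_cancel₀ _ hK0.ne', Nat.floor_natCast] at this
              gcongr
              nlinarith
          _ ≤ _ := by
              rw [sum_const, card_range, nsmul_eq_mul, ← mul_div_assoc, div_le_iff₀ hK0]
              nlinarith [mul_le_mul_of_nonneg_right hj' (by positivity : 0 ≤ C * e + ηP)]
      have h3 : e * (C * e + ηP) ≤ (C + 1) * e ^ 2 := by nlinarith
      have h4 : 1 - e ^ 2 / 2 - β * ((C + 1) * e ^ 2) ≤ β * lam P (j - 1) := by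
        nlinarith [l0.1, mul_le_mul_of_nonneg_left (h2.trans h3) hβ0.le]
      have h5 := mul_le_mul_of_nonneg_right s2 (mul_nonneg hβ0.le (lam_nonneg h (j - 1)))
      have h6 := mul_le_mul_of_nonneg_left h4 (by linarith : 0 ≤ 1 - e ^ 2)
      have h7 : 0 ≤ e ^ 2 * (e ^ 2 / 2 + β * ((C + 1) * e ^ 2)) := by positivity
      nlinarith)
  rw [qq_lst h hβ0 k0, ← g0] at key
  have e0 : qq β (P.lst β P.K) 0 = 0 := rfl
  rw [e0, sub_zero, div_le_iff₀ (by positivity)] at key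
  rw [le_neg, div_le_iff₀ (by positivity)]
  linarith

/-- the three bridges between the words of `G1` and the words of the statement -/
def Bridge : Prop := ∀ (n : ℕ), 0 < n → ∀ β : ℝ, 0 < β → IsJ β (Jw n β) ∧
  FE n β = ∫ g, log (∑ x, gibbsWeight n β g x) ∂disorderLaw n ∧
  ∀ P : Par, P.OK → G1.val β (P.lst β P.K) = P.val β

theorem er_le {n : ℕ} {C1 e l : ℝ} (hβ : 1 < β) (hC : 0 ≤ C1) (he : 0 < e) (he1 : e ≤ 1)
    (hn : n * e ^ 400 = 1) (hl : |l| = e ^ 16) :
    er n β (e ^ 2) (e ^ 4) l (e ^ 6) ((1 + C1) * e ^ 18) ≤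
      (2 + 4 * β) * (60 + (1 + 12 * β) * (7 + 2 * C1)) * e ^ 2 := by
  have hn' : (n : ℝ) = 1 / e ^ 400 := by rw [eq_div_iff (pow_pos he 400).ne', hn]
  have p : ∀ {i j : ℕ}, i ≤ j → e ^ j ≤ e ^ i := fun h => pow_le_pow_of_le_one he.le he1 h
  rw [er, hl, hn', mul_assoc (2 + 4 * β)]
  refine mul_le_mul_of_nonneg_left ?_ (by linarith)
  have h1 : 28 / (1 / e ^ 400 * (e ^ 4) ^ 6) = 28 * e ^ 376 := by field_simp
  have h2 : 32 * e ^ 16 / (e ^ 4) ^ 2 = 32 * e ^ 8 := by field_simp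
  have h3 : 1 + 12 * β / e ^ 4 ≤ (1 + 12 * β) / e ^ 4 := by
    rw [add_div]
    exact add_le_add (one_le_one_div (pow_pos he 4) (pow_le_one₀ he.le he1)) le_rfl
  have h4 : e ^ 6 / 2 + 2 * ((1 + C1) * e ^ 18 + 2 * e ^ 16) / (e ^ 6 * e ^ 2 * β ^ 2) ≤
      (7 + 2 * C1) * e ^ 6 := by
    have : 2 * ((1 + C1) * e ^ 18 + 2 * e ^ 16) / (e ^ 6 * e ^ 2 * β ^ 2) ≤
        (6 + 2 * C1) * e ^ 6 := by
      rw [div_le_iff₀ (by positivity)]
      have a1 : e ^ 18 ≤ e ^ 14 := p (by norm_num)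
      have a2 : e ^ 16 ≤ e ^ 14 := p (by norm_num)
      have a3 : 1 ≤ β ^ 2 := one_le_pow₀ hβ.le
      have a4 : (6 + 2 * C1) * e ^ 14 * 1 ≤ (6 + 2 * C1) * e ^ 14 * β ^ 2 := by gcongr
      nlinarith [mul_le_mul_of_nonneg_left a1 hC]
    have : 0 < e ^ 6 := by positivity
    linarith
  have h5 := mul_le_mul h3 h4 (by positivity) (by positivity)
  have h6 : (1 + 12 * β) / e ^ 4 * ((7 + 2 * C1) * e ^ 6) =
    (1 + 12 * β) * (7 + 2 * C1) * e ^ 2 := by field_simp
  have a1 : e ^ 376 ≤ e ^ 2 := p (by norm_num)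
  have a2 : e ^ 8 ≤ e ^ 2 := p (by norm_num)
  rw [h1, h2]
  linarith

/-- the finite `n` statement -/
theorem fin_bound (hG : G1Stmt) (hB : Bridge) (hF : An.FreeStmt) (hP : ParStmt) (hβ : 1 < β) :
    ∃ c1 C4 : ℝ, 0 < c1 ∧ 0 < C4 ∧ ∀ (n : ℕ) (e : ℝ), 0 < n → 0 < e → e ≤ 1 / 2 →
      n * e ^ 400 = 1 → (n : ℝ) ^ (10 / 11 : ℝ) ≤ n * e ^ 18 →
      Psi n β (e ^ 2) (e ^ 4) (e ^ 16) - Psi n β (e ^ 2) (e ^ 4) 0 ≤ n * e ^ 17 * (C4 * e - c1) ∧
      Psi n β (e ^ 2) (e ^ 4) (e ^ 16) + Psi n β (e ^ 2) (e ^ 4) (-e ^ 16) -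
        2 * Psi n β (e ^ 2) (e ^ 4) 0 ≤ 2 * C4 * n * e ^ 18 := by
  have hβ0 : 0 < β := by linarith
  obtain ⟨C1, hC1, hF⟩ := hF β hβ
  obtain ⟨c, C, -, -, hC, K0, hP⟩ := hP β hβ
  refine ⟨1 / (16 * ((1 + (2 + β * (C + 1))) ^ 2 + 4) ^ 2),
    1 + C1 + (2 + 4 * β) * (60 + (1 + 12 * β) * (7 + 2 * C1)), by positivity, by positivity,
    fun n e hn he he1 h400 h18 => ?_⟩
  have he1' : e ≤ 1 := by linarith
  have t1 : Tendsto (fun K : ℕ => C * (K : ℝ) ^ (-(1 / 8 : ℝ))) atTop (𝓝 0) := by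
    simpa using ((tendsto_rpow_neg_atTop (by norm_num : (0 : ℝ) < 1 / 8)).comp
      tendsto_natCast_atTop_atTop).const_mul C
  obtain ⟨K, hK1, hK2, hK3⟩ := ((eventually_ge_atTop K0).and
    ((t1.eventually (ge_mem_nhds (by positivity : 0 < e ^ 18 / 2))).and
      (tendsto_natCast_atTop_atTop.eventually (eventually_ge_atTop (2 / e))))).exists
  obtain ⟨P, rfl, hO, hP⟩ := hP K hK1
  obtain ⟨b1, b2, b3⟩ := hB n hn β hβ0
  obtain ⟨a, ha⟩ := exists_root (η := e ^ 4) (by positivity)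
  have p : ∀ {i j : ℕ}, i ≤ j → e ^ j ≤ e ^ i := fun h => pow_le_pow_of_le_one he.le he1' h
  have h1 := size_lst hO hβ (by linarith) hP he he1
    (hK2.trans (by linarith [p (by norm_num : 2 ≤ 18)])) hK3 ha
  have h2 := hF _ _ _ P hO hP n
  have hn' : (0 : ℝ) < n := by exact_mod_cast hn
  have h3 : n * G1.val β (P.lst β P.K) - FE n β ≤ (1 + C1) * e ^ 18 * n := by
    rw [b3 P hO, b2]
    have a1 := mul_le_mul_of_nonneg_left h18 hC1
    have a2 := mul_le_mul_of_nonneg_left hK2 hn'.le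
    have a3 : 0 < n * e ^ 18 := by positivity
    linarith
  have key := core hn hβ0 (hG n hn β hβ0 _ b1 _ (hO.adm β _) (hO.TT_K β)) (hO.adm β _)
    (d := e ^ 2) (η := e ^ 4) (by positivity) (pow_le_one₀ he.le he1') (by positivity)
    (pow_le_one₀ he.le he1') ha (qq_mono hO hβ0) (qq_le hO hβ0) h3 (δ := e ^ 6) (by positivity)
  have l1 : |e ^ 16| = e ^ 16 := abs_of_pos (by positivity)
  have l2 : |-e ^ 16| = e ^ 16 := by rw [abs_neg, l1]
  have k1 := key (e ^ 16)
  have k2 := key (-e ^ 16)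
  have r1 := mul_le_mul_of_nonneg_left (er_le hβ hC1 he he1' h400 l1)
    (by positivity : 0 ≤ e ^ 16 * n)
  have r2 := mul_le_mul_of_nonneg_left (er_le hβ hC1 he he1' h400 l2)
    (by positivity : 0 ≤ e ^ 16 * n)
  have r3 := mul_le_mul_of_nonneg_left h1 (by positivity : 0 ≤ e ^ 16 * n)
  rw [l1] at k1
  rw [l2] at k2
  rw [div_eq_mul_one_div] at r3
  constructor <;> linarith

/-- **(L2)+(L3)** -/
theorem psi_of (hG : G1Stmt) (hB : Bridge) (hF : An.FreeStmt) (hP : ParStmt) : PsiStmt := by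
  intro β hβ
  have hβ0 : 0 < β := by linarith
  obtain ⟨c1, C4, hc1, hC4, H⟩ := fin_bound hG hB hF hP hβ
  obtain ⟨e, he⟩ : ∃ e : ℕ → ℝ, e = fun n : ℕ => (n : ℝ) ^ (-(1 / 400 : ℝ)) := ⟨_, rfl⟩
  have t1 : Tendsto e atTop (𝓝 0) := he ▸
    (tendsto_rpow_neg_atTop (by norm_num : (0 : ℝ) < 1 / 400)).comp tendsto_natCast_atTop_atTop
  have t2 : Tendsto (fun n : ℕ => (n : ℝ) ^ (1 / 1000 : ℝ) * e n) atTop (𝓝 0) := by
    refine ((tendsto_rpow_neg_atTop (by norm_num : (0 : ℝ) < 3 / 2000)).comp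
      tendsto_natCast_atTop_atTop).congr' ?_
    filter_upwards [eventually_gt_atTop 0] with n hn
    rw [he, ← rpow_add (by exact_mod_cast hn)]
    norm_num
  have ev : ∀ᶠ n : ℕ in atTop, 0 < n ∧ 0 < e n ∧ e n ≤ 1 / 2 ∧ e n ≤ c1 / (2 * C4) ∧
      n * e n ^ 400 = 1 ∧ (n : ℝ) ^ (10 / 11 : ℝ) ≤ n * e n ^ 18 := by
    filter_upwards [eventually_gt_atTop 0, t1.eventually (ge_mem_nhds one_half_pos),
      t1.eventually (ge_mem_nhds (by positivity : 0 < c1 / (2 * C4)))] with n hn h1 h2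
    have hn' : (0 : ℝ) < n := by exact_mod_cast hn
    refine ⟨hn, he ▸ rpow_pos_of_pos hn' _, h1, h2, ?_, ?_⟩
    · rw [he, ← rpow_mul_natCast hn'.le]
      norm_num [rpow_neg_one, hn.ne']
    · rw [he, ← rpow_mul_natCast hn'.le, ← rpow_one_add' hn'.le (by norm_num)]
      exact rpow_le_rpow_of_exponent_le (by exact_mod_cast hn) (by norm_num)
  refine ⟨1 / 1000, by norm_num, fun n => e n ^ 2, fun n => e n ^ 4, fun n => e n ^ 16,
    fun n => c1 / 4 * e n, ?_, ?_, ?_⟩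
  · filter_upwards [ev] with n ⟨hn, h0, h1, h2, h3, h4⟩
    have h1' : e n ≤ 1 := by linarith
    refine ⟨by positivity, pow_le_one₀ h0.le h1', by positivity, pow_le_one₀ h0.le h1',
      by positivity, by positivity, (H n (e n) hn h0 h1 h3 h4).1.trans ?_⟩
    rw [le_div_iff₀ (by positivity)] at h2
    have : n * e n ^ 17 * (C4 * e n - c1) ≤ n * e n ^ 17 * (-(c1 / 2)) :=
      mul_le_mul_of_nonneg_left (by linarith) (by positivity)
    linarith
  · refine squeeze_zero' ?_ ?_ (by simpa using t2.const_mul (4 * (2 * C4 + 5) / c1))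
    · filter_upwards [ev] with n ⟨hn, h0, h1, h2, h3, h4⟩
      have := bound_aux (β := β) (d := e n ^ 2) (η := e n ^ 4) (l := e n ^ 16) hn hβ0
        (by positivity) (pow_le_one₀ h0.le (by linarith)) (by positivity) (by positivity)
      positivity
    · filter_upwards [ev] with n ⟨hn, h0, h1, h2, h3, h4⟩
      have h1' : e n ≤ 1 := by linarith
      have hn' : (0 : ℝ) < n := by exact_mod_cast hn
      have p : ∀ {i j : ℕ}, i ≤ j → e n ^ j ≤ e n ^ i := fun h => pow_le_pow_of_le_one h0.le h1' h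
      have a1 := (H n (e n) hn h0 h1 h3 h4).2
      have a2 : (Psi n β (e n ^ 2) (e n ^ 4) (e n ^ 16) + Psi n β (e n ^ 2) (e n ^ 4) (-e n ^ 16) -
          2 * Psi n β (e n ^ 2) (e n ^ 4) 0 + 1) / (e n ^ 16 * n) ≤ (2 * C4 + 1) * e n ^ 2 := by
        rw [div_le_iff₀ (by positivity)]
        have := mul_le_mul_of_nonneg_left (p (by norm_num : 18 ≤ 400)) hn'.le
        linarith
      have a3 : √(Tau n (e n ^ 4) / (n * e n ^ 2)) ≤ 4 * e n ^ 2 := by
        refine sqrt_le_iff.2 ⟨by positivity, ?_⟩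
        have b1 := Tau_le hn (η := e n ^ 4) (by positivity) (pow_le_one₀ h0.le h1')
        rw [show √(e n ^ 4) = e n ^ 2 by
          rw [show e n ^ 4 = (e n ^ 2) ^ 2 by ring, sqrt_sq (by positivity)]] at b1
        have b2 : 10 / (e n ^ 4) ^ 4 ≤ 10 * (n * e n ^ 6) := by
          rw [div_le_iff₀ (by positivity)]
          have := mul_le_mul_of_nonneg_left (p (by norm_num : 22 ≤ 400)) hn'.le
          linarith
        rw [div_le_iff₀ (by positivity)]
        have b3 : 0 < n * e n ^ 6 := by positivity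
        linarith
      rw [div_le_iff₀ (by positivity)]
      refine (mul_le_mul_of_nonneg_left (add_le_add a2 a3) (by positivity)).trans (le_of_eq ?_)
      field_simp
      ring
  · refine squeeze_zero' ?_ ?_ (by simpa using t1.const_mul (8 / c1))
    · filter_upwards [ev] with n ⟨hn, h0, h1, h2, h3, h4⟩
      positivity
    · filter_upwards [ev] with n ⟨hn, h0, h1, h2, h3, h4⟩
      have h1' : e n ≤ 1 := by linarith
      have hn' : (0 : ℝ) < n := by exact_mod_cast hn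
      have p : ∀ {i j : ℕ}, i ≤ j → e n ^ j ≤ e n ^ i := fun h => pow_le_pow_of_le_one h0.le h1' h
      have a1 : 1 / e n ^ 4 ≤ 1 / e n ^ 16 :=
        one_div_le_one_div_of_le (by positivity) (p (by norm_num))
      have a2 : 1 / e n ^ 18 ≤ √n := by
        refine le_sqrt_of_sq_le ?_
        rw [div_pow, div_le_iff₀ (by positivity)]
        have := mul_le_mul_of_nonneg_left (p (by norm_num : 36 ≤ 400)) hn'.le
        linarith
      calc _ ≤ (1 / e n ^ 16 + 1 / e n ^ 16) / (c1 / 4 * e n * (1 / e n ^ 18)) := by gcongr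
        _ = _ := by field_simp; ring

end Crest.Agent.T157.Sd
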