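import Crest.Agent.T157.Quench_90

/-!
# Row 157, part C: comparison of two reversible semigroups through their forms (helper90)

`c`, `d` are reversible chains with the same stationary law, run at rates `a`, `b`.  If the forms
`a · c.D` and `b · d.D` are comparable on bounded vector functions (`I1`: lower bound, `I2`:
recovery), the resolvents (`s1`) and the semigroups (`s2`) are close in `L²` on bounded vectors.
-/

set_option autoImplicit false

noncomputable section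

namespace Crest.Agent.T157.Sg

open Finset Matrix
open Crest.Agent.T157.Chain22 Crest.Agent.T157.Soft

variable {Ω ι : Type*} [Fintype Ω] [Fintype ι]

/-- inner product of vector functions -/
def ipV (π : Ω → ℝ) (f g : ι → Ω → ℝ) : ℝ := ∑ i, ip π (f i) (g i)
/-- `L²` norm of a vector function -/
def nv (π : Ω → ℝ) (g : ι → Ω → ℝ) : ℝ := √(ipV π g g)
/-- Dirichlet form of a vector function -/
def DV (c : RC Ω) (g : ι → Ω → ℝ) : ℝ := ∑ i, c.D (g i) (g i)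
/-- pointwise bound of the squared Euclidean norm -/
def Sup (g : ι → Ω → ℝ) (B : ℝ) : Prop := ∀ x, ∑ i, g i x ^ 2 ≤ B

/-- the form `a · c.D` dominates `b · d.D` on bounded vectors -/
def I1 (ι : Type*) [Fintype ι] (c d : RC Ω) (a b e : ℝ) : Prop :=
  ∀ (g : ι → Ω → ℝ) (B : ℝ), Sup g B → b * DV d g ≤ (1 + e) * (a * DV c g) + e * B

/-- recovery sequences -/
def I2 (ι : Type*) [Fintype ι] (c d : RC Ω) (a b e : ℝ) : Prop :=
  ∀ (g : ι → Ω → ℝ) (B : ℝ), Sup g B → ∃ f : ι → Ω → ℝ,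
    ipV c.π (f - g) (f - g) ≤ e * (B + b * DV d g) ∧ a * DV c f ≤ (1 + e) * (b * DV d g) + e * B

section basic
variable {π : Ω → ℝ}

lemma ipV_comm (f g : ι → Ω → ℝ) : ipV π f g = ipV π g f :=
  sum_congr rfl fun _ _ => ip_comm _ _ _

lemma ipV_add_left (f g h : ι → Ω → ℝ) : ipV π (f + g) h = ipV π f h + ipV π g h := by
  simp only [ipV, Pi.add_apply, ip_add_left, sum_add_distrib]

lemma ipV_sub_left (f g h : ι → Ω → ℝ) : ipV π (f - g) h = ipV π f h - ipV π g h := by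
  simp only [ipV, Pi.sub_apply, ip_sub_left, sum_sub_distrib]

lemma ipV_add_right (f g h : ι → Ω → ℝ) : ipV π f (g + h) = ipV π f g + ipV π f h := by
  simp only [ipV, Pi.add_apply, ip_add_right, sum_add_distrib]

lemma ipV_sub_right (f g h : ι → Ω → ℝ) : ipV π f (g - h) = ipV π f g - ipV π f h := by
  simp only [ipV, Pi.sub_apply, ip_sub_right, sum_sub_distrib]

lemma ipV_self_nonneg (hπ : IsP π) (g : ι → Ω → ℝ) : 0 ≤ ipV π g g :=
  sum_nonneg fun i _ => hπ.ip_self_nonneg (g i)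

lemma nv_nonneg (g : ι → Ω → ℝ) : 0 ≤ nv π g := Real.sqrt_nonneg _

lemma nv_sq (hπ : IsP π) (g : ι → Ω → ℝ) : nv π g ^ 2 = ipV π g g :=
  Real.sq_sqrt (ipV_self_nonneg hπ g)

lemma abs_ipV_le (hπ : IsP π) (f g : ι → Ω → ℝ) : |ipV π f g| ≤ nv π f * nv π g := by
  refine (abs_sum_le_sum_abs _ _).trans (le_trans (sum_le_sum fun i _ => ?_)
    (Real.sum_sqrt_mul_sqrt_le univ (fun i => hπ.ip_self_nonneg (f i))
      fun i => hπ.ip_self_nonneg (g i)))
  rw [← Real.sqrt_mul (hπ.ip_self_nonneg _)]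
  exact Real.abs_le_sqrt (hπ.ip_sq_le _ _)

lemma nv_le_of_sq {g : ι → Ω → ℝ} {r : ℝ} (hr : 0 ≤ r) (h : ipV π g g ≤ r ^ 2) : nv π g ≤ r :=
  Real.sqrt_le_iff.2 ⟨hr, h⟩

lemma nv_add_le (hπ : IsP π) (f g : ι → Ω → ℝ) : nv π (f + g) ≤ nv π f + nv π g := by
  refine nv_le_of_sq (add_nonneg (nv_nonneg _) (nv_nonneg _)) ?_
  rw [ipV_add_left, ipV_add_right, ipV_add_right, ipV_comm g f, ← nv_sq hπ f, ← nv_sq hπ g]
  nlinarith [le_abs_self (ipV π f g), abs_ipV_le hπ f g]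

lemma nv_sub_comm (f g : ι → Ω → ℝ) : nv π (f - g) = nv π (g - f) := by
  unfold nv
  simp only [ipV_sub_left, ipV_sub_right]
  congr 1; ring

lemma nv_tri (hπ : IsP π) (f g h : ι → Ω → ℝ) : nv π (f - h) ≤ nv π (f - g) + nv π (g - h) := by
  simpa using nv_add_le hπ (f - g) (g - h)

lemma nv_sub_le (hπ : IsP π) (f g : ι → Ω → ℝ) : nv π (f - g) ≤ nv π f + nv π g := by
  have := nv_tri hπ f 0 g
  rwa [nv_sub_comm 0 g, sub_zero, sub_zero] at this

lemma ipV_self_eq (g : ι → Ω → ℝ) : ipV π g g = mean π fun x => ∑ i, g i x ^ 2 := by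
  simp only [ipV, ip, mean, mul_sum, sq]
  exact sum_comm

lemma Sup.ipV_le (hπ : IsP π) {g : ι → Ω → ℝ} {B : ℝ} (h : Sup g B) : ipV π g g ≤ B := by
  rw [ipV_self_eq, ← hπ.mean_const B]
  exact hπ.mean_mono h

lemma Sup.nv_le (hπ : IsP π) {g : ι → Ω → ℝ} {B : ℝ} (h : Sup g B) : nv π g ≤ √B :=
  Real.sqrt_le_sqrt (h.ipV_le hπ)

lemma Sup.nonneg (hπ : IsP π) {g : ι → Ω → ℝ} {B : ℝ} (h : Sup g B) : 0 ≤ B :=
  (ipV_self_nonneg hπ g).trans (h.ipV_le hπ)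

lemma DV_nonneg (c : RC Ω) (g : ι → Ω → ℝ) : 0 ≤ DV c g := sum_nonneg fun i _ => c.D_nonneg (g i)

/-- a Markov kernel keeps the pointwise bound -/
lemma Sup.P (c : RC Ω) {g : ι → Ω → ℝ} {B : ℝ} (h : Sup g B) : Sup (fun i => c.P *ᵥ g i) B :=
  fun x => by
  refine le_trans ?_ (Sup.ipV_le (c.isP_row x) h)
  exact sum_le_sum fun i _ => (c.isP_row x).mean_sq_le (g i)

end basic

variable [DecidableEq Ω]

/-- resolvent `(1 + τ (1 - P))⁻¹` on vector functions -/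
def RV (c : RC Ω) (τ : ℝ) (g : ι → Ω → ℝ) : ι → Ω → ℝ := fun i => resV c 1 τ (g i)
/-- semigroup on vector functions -/
def HV (c : RC Ω) (t : ℝ) (g : ι → Ω → ℝ) : ι → Ω → ℝ := fun i => c.H t *ᵥ g i

lemma Sup.HV (c : RC Ω) {t : ℝ} (ht : 0 ≤ t) {g : ι → Ω → ℝ} {B : ℝ} (h : Sup g B) :
    Sup (HV c t g) B := h.P (c.heat t ht)

lemma resV_strong (c : RC Ω) {α τ : ℝ} (hα : 0 < α) (hτ : 0 ≤ τ) (g : Ω → ℝ) (x : Ω) :
    α * resV c α τ g x + τ * (resV c α τ g x - (c.P *ᵥ resV c α τ g) x) = g x := by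
  have h := resV_weak (c := c) hα hτ (c.del x) g
  rwa [RC.D, ip_comm _ (c.del x), ip_comm _ (c.del x), ip_comm _ (c.del x), c.ip_del, c.ip_del,
    c.ip_del] at h

lemma resV_sub (c : RC Ω) (α τ : ℝ) (f g : Ω → ℝ) :
    resV c α τ (f - g) = resV c α τ f - resV c α τ g := by
  simp only [resV, ip_sub_left, sub_div, sub_smul, sum_sub_distrib]

omit [Fintype ι] in
lemma RV_sub (c : RC Ω) (τ : ℝ) (f g : ι → Ω → ℝ) : RV c τ (f - g) = RV c τ f - RV c τ g :=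
  funext fun i => resV_sub c 1 τ (f i) (g i)

omit [Fintype ι] in
lemma HV_sub (c : RC Ω) (t : ℝ) (f g : ι → Ω → ℝ) : HV c t (f - g) = HV c t f - HV c t g :=
  funext fun i => mulVec_sub _ (f i) (g i)

/-- maximum principle for the resolvent -/
lemma Sup.RV (c : RC Ω) {τ : ℝ} (hτ : 0 ≤ τ) {h : ι → Ω → ℝ} {B : ℝ} (hh : Sup h B) :
    Sup (RV c τ h) B := by
  have := c.nonempty
  set g := Sg.RV c τ h with hg
  obtain ⟨x, -, hx⟩ := exists_max_image univ (fun x => ∑ i, g i x ^ 2) univ_nonempty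
  have hS : Sup g (∑ i, g i x ^ 2) := fun y => hx y (mem_univ y)
  have h1 := hS.P c x
  have h2 := hh x
  have h3 : ∀ i, (1 + 2 * τ - τ) * g i x ^ 2 ≤ h i x ^ 2 + τ * (c.P *ᵥ g i) x ^ 2 := fun i => by
    have e : 1 * g i x + τ * (g i x - (c.P *ᵥ g i) x) = h i x := resV_strong c one_pos hτ (h i) x
    have e2 : g i x * (1 * g i x + τ * (g i x - (c.P *ᵥ g i) x)) = g i x * h i x := by rw [e]
    nlinarith [sq_nonneg (g i x - h i x), mul_nonneg hτ (sq_nonneg (g i x - (c.P *ᵥ g i) x))]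
  have h4 := sum_le_sum fun i (_ : i ∈ univ) => h3 i
  rw [← mul_sum, sum_add_distrib, ← mul_sum] at h4
  intro y
  have h5 := mul_le_mul_of_nonneg_left h1 hτ
  have := hS y
  linarith

lemma RV_weak (c : RC Ω) {τ : ℝ} (hτ : 0 ≤ τ) (h : ι → Ω → ℝ) :
    ipV c.π (RV c τ h) (RV c τ h) + τ * DV c (RV c τ h) = ipV c.π (RV c τ h) h := by
  simp only [ipV, DV, mul_sum, ← sum_add_distrib]
  refine sum_congr rfl fun i _ => ?_
  have := resV_weak (c := c) one_pos hτ (resV c 1 τ (h i)) (h i)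
  rwa [one_mul] at this

lemma nv_RV_le (c : RC Ω) {τ : ℝ} (hτ : 0 ≤ τ) (h : ι → Ω → ℝ) : nv c.π (RV c τ h) ≤ nv c.π h := by
  have h1 := RV_weak c hτ h
  have h2 := (le_abs_self _).trans (abs_ipV_le c.isP (RV c τ h) h)
  have h3 := mul_nonneg hτ (DV_nonneg c (RV c τ h))
  rw [← nv_sq c.isP] at h1
  by_contra hlt
  have := not_le.1 hlt
  nlinarith [nv_nonneg (π := c.π) h]

lemma DV_RV_le (c : RC Ω) {τ : ℝ} (hτ : 0 ≤ τ) (h : ι → Ω → ℝ) :
    τ * DV c (RV c τ h) ≤ ipV c.π h h := by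
  have h1 := RV_weak c hτ h
  have h2 := (le_abs_self _).trans (abs_ipV_le c.isP (RV c τ h) h)
  rw [← nv_sq c.isP] at h1 ⊢
  nlinarith [sq_nonneg (nv c.π (RV c τ h) - nv c.π h), sq_nonneg (nv c.π h),
    sq_nonneg (nv c.π (RV c τ h))]

lemma nv_HV_le (c : RC Ω) {t : ℝ} (ht : 0 ≤ t) (h : ι → Ω → ℝ) : nv c.π (HV c t h) ≤ nv c.π h :=
  Real.sqrt_le_sqrt (sum_le_sum fun i _ => (c.heat t ht).ip_P_P_le (h i))

/-- the variational functional -/
def JV (c : RC Ω) (τ : ℝ) (h g : ι → Ω → ℝ) : ℝ := 2 * ipV c.π h g - ipV c.π g g - τ * DV c g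

lemma JV_le (c : RC Ω) {τ : ℝ} (hτ : 0 ≤ τ) (h g : ι → Ω → ℝ) :
    JV c τ h g + ipV c.π (g - RV c τ h) (g - RV c τ h) ≤ JV c τ h (RV c τ h) := by
  simp only [JV, ipV, DV, mul_sum, ← sum_sub_distrib, ← sum_add_distrib]
  refine sum_le_sum fun i _ => ?_
  have h1 := res_var (c := c) one_pos hτ (h i) (g i)
  have h2 := res_eq (c := c) one_pos hτ (h i)
  have h3 := mul_nonneg hτ (c.D_nonneg (g i - resV c 1 τ (h i)))
  simp only [RV, Pi.sub_apply] at *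
  linarith

/-- the error of `s1` -/
def dd (τ e : ℝ) : ℝ := 2 * e * (1 + τ) + e * (1 + 1 / τ) + 4 * √(e * (1 + 1 / τ))

/-- **(S1)** comparable forms have close resolvents -/
theorem s1 {c d : RC Ω} (hπ : d.π = c.π) {a b e τ : ℝ} (ha : 0 ≤ a) (hb : 0 ≤ b) (he : 0 ≤ e)
    (hτ : 0 < τ) (h1 : I1 ι c d a b e) (h2 : I2 ι c d a b e) {h : ι → Ω → ℝ} {B : ℝ}
    (hh : Sup h B) :
    ipV c.π (RV c (τ * a) h - RV d (τ * b) h) (RV c (τ * a) h - RV d (τ * b) h) ≤ dd τ e * B := by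
  have hta := mul_nonneg hτ.le ha
  have htb := mul_nonneg hτ.le hb
  have hB := hh.nonneg c.isP
  set gc := RV c (τ * a) h with hgc
  set gd := RV d (τ * b) h with hgd
  have hhB := hh.ipV_le c.isP
  have a1 := h1 gc B (hh.RV c hta)
  have a2 : τ * a * DV c gc ≤ B := (DV_RV_le c hta h).trans hhB
  have a3 : τ * b * DV d gd ≤ B := (DV_RV_le d htb h).trans (by rw [hπ]; exact hhB)
  obtain ⟨f, f1, f2⟩ := h2 gd B (hh.RV d htb)
  have b1 := JV_le d htb h gc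
  have b2 := JV_le c hta h f
  have b3 := ipV_self_nonneg c.isP (f - gc)
  rw [← hgd] at b1
  rw [← hgc] at b2
  simp only [JV, hπ] at b1 b2
  have c1 : ipV c.π (f - gd) (f - gd) ≤ e * (1 + 1 / τ) * B := by
    have : b * DV d gd ≤ 1 / τ * B := by
      rw [one_div, inv_mul_eq_div, le_div_iff₀ hτ]; linarith
    calc _ ≤ e * (B + b * DV d gd) := f1
      _ ≤ e * (B + 1 / τ * B) := by gcongr
      _ = _ := by ring
  have c2 : nv c.π (f - gd) ≤ √(e * (1 + 1 / τ)) * √B := by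
    rw [← Real.sqrt_mul (by positivity)]; exact Real.sqrt_le_sqrt c1
  have c3 : nv c.π (h - gd) ≤ 2 * √B := by
    have := (hh.RV d htb).nv_le c.isP
    linarith [nv_sub_le c.isP h gd, hh.nv_le c.isP]
  have c4 : |ipV c.π (h - gd) (f - gd)| ≤ 2 * √(e * (1 + 1 / τ)) * B :=
    calc _ ≤ nv c.π (h - gd) * nv c.π (f - gd) := abs_ipV_le c.isP _ _
      _ ≤ 2 * √B * (√(e * (1 + 1 / τ)) * √B) :=
          mul_le_mul c3 c2 (nv_nonneg _) (by positivity)
      _ = 2 * √(e * (1 + 1 / τ)) * (√B * √B) := by ring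
      _ = _ := by rw [Real.mul_self_sqrt hB]
  have c5 : 2 * ipV c.π h f - ipV c.π f f = 2 * ipV c.π h gd - ipV c.π gd gd +
      2 * ipV c.π (h - gd) (f - gd) - ipV c.π (f - gd) (f - gd) := by
    simp only [ipV_sub_left, ipV_sub_right, ipV_comm gd f]; ring
  have d1 := mul_le_mul_of_nonneg_left a1 hτ.le
  have d2 := mul_le_mul_of_nonneg_left f2 hτ.le
  have d3 := mul_le_mul_of_nonneg_left a2 he
  have d4 := mul_le_mul_of_nonneg_left a3 he
  have d5 := (abs_le.1 c4).1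
  unfold dd
  nlinarith

lemma Sup.iter (c : RC Ω) {τ : ℝ} (hτ : 0 ≤ τ) {h : ι → Ω → ℝ} {B : ℝ} (hh : Sup h B) (j : ℕ) :
    Sup ((Sg.RV c τ)^[j] h) B := by
  induction j with
  | zero => exact hh
  | succ j ih => rw [Function.iterate_succ_apply']; exact ih.RV c hτ

/-- telescoping: only the finitely many functions `R_d^i h` are tested -/
theorem tele (c d : RC Ω) {σ τ r : ℝ} (hσ : 0 ≤ σ) (h : ι → Ω → ℝ) (j : ℕ)
    (hr : ∀ i < j, nv c.π (RV c σ ((RV d τ)^[i] h) - RV d τ ((RV d τ)^[i] h)) ≤ r) :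
    nv c.π ((RV c σ)^[j] h - (RV d τ)^[j] h) ≤ j * r := by
  induction j with
  | zero => simp [nv, ipV, ip]
  | succ j ih =>
    rw [Function.iterate_succ_apply', Function.iterate_succ_apply']
    have h1 := nv_tri c.isP (RV c σ ((RV c σ)^[j] h)) (RV c σ ((RV d τ)^[j] h))
      (RV d τ ((RV d τ)^[j] h))
    rw [← RV_sub] at h1
    have h2 := nv_RV_le c hσ ((RV c σ)^[j] h - (RV d τ)^[j] h)
    have h3 := ih fun i hi => hr i (hi.trans (Nat.lt_succ_self j))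
    have h4 := hr j (Nat.lt_succ_self j)
    push_cast
    linarith

lemma abs_exp_sub_pow_le {u : ℝ} (hu : 0 ≤ u) {m : ℕ} (hm : 0 < m) :
    |Real.exp (-(2 * m * u)) - (1 / (1 + u)) ^ (2 * m)| ≤ 2 / m := by
  have hm' : (0 : ℝ) < m := by exact_mod_cast hm
  have e : Real.exp (-(2 * m * u)) = Real.exp (-u) ^ (2 * m) := by
    rw [← Real.exp_nat_mul]; congr 1; push_cast; ring
  have h0 : 0 < 1 / (1 + u) := by positivity
  have h1 : Real.exp (-u) ≤ 1 / (1 + u) := by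
    rw [Real.exp_neg, ← one_div]
    exact one_div_le_one_div_of_le (by positivity) (by linarith [Real.add_one_le_exp u])
  have h2 : 1 / (1 + u) - Real.exp (-u) ≤ u ^ 2 * (1 / (1 + u)) := by
    have : 1 / (1 + u) - (1 - u) = u ^ 2 * (1 / (1 + u)) := by field_simp; ring
    linarith [Real.add_one_le_exp (-u)]
  have h3 := abs_pow_sub_pow_le (1 / (1 + u)) (Real.exp (-u)) (2 * m)
  rw [abs_of_nonneg (sub_nonneg.2 h1), abs_of_pos h0, abs_of_pos (Real.exp_pos _),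
    max_eq_left h1] at h3
  rw [e, abs_sub_comm]
  refine h3.trans ?_
  have h4 : (1 / (1 + u)) * (1 / (1 + u)) ^ (2 * m - 1) = ((1 / (1 + u)) ^ m) ^ 2 := by
    rw [← pow_succ', ← pow_mul, mul_comm m 2]; congr 1; omega
  have h5 : m * u * (1 / (1 + u)) ^ m ≤ 1 := by
    rw [_root_.one_div_pow, mul_one_div, div_le_one (by positivity)]
    linarith [one_add_mul_le_pow (show (-2 : ℝ) ≤ u by linarith) m]
  have h6 : (m * u * (1 / (1 + u)) ^ m) ^ 2 ≤ 1 := pow_le_one₀ (by positivity) h5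
  calc _ ≤ u ^ 2 * (1 / (1 + u)) * ((2 * m : ℕ) : ℝ) * (1 / (1 + u)) ^ (2 * m - 1) := by gcongr
    _ = 2 / m * (m * u) ^ 2 * ((1 / (1 + u)) * (1 / (1 + u)) ^ (2 * m - 1)) := by
        push_cast; field_simp
    _ = 2 / m * (m * u * (1 / (1 + u)) ^ m) ^ 2 := by rw [h4]; ring
    _ ≤ 2 / m := mul_le_of_le_one_right (by positivity) h6

omit [Fintype ι] in
lemma ip_iter_φ (c : RC Ω) (τ : ℝ) (h : ι → Ω → ℝ) (j : ℕ) (i : ι) (k : Ω) :
    ip c.π ((RV c τ)^[j] h i) (c.φ k) =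
      (1 / (1 + τ * (1 - c.ev k))) ^ j * ip c.π (h i) (c.φ k) := by
  induction j with
  | zero => simp
  | succ j ih => rw [Function.iterate_succ_apply', RV, ip_resV_φ, ih, pow_succ]; ring

/-- the semigroup is a limit of powers of the resolvent, uniformly -/
theorem nv_HV_sub_iter (c : RC Ω) {τ : ℝ} (hτ : 0 ≤ τ) (h : ι → Ω → ℝ) {m : ℕ} (hm : 0 < m) :
    nv c.π (HV c (2 * m * τ) h - (RV c τ)^[2 * m] h) ≤ 2 / m * nv c.π h := by
  refine nv_le_of_sq (mul_nonneg (by positivity) (nv_nonneg _)) ?_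
  rw [mul_pow, nv_sq c.isP, ipV, ipV, mul_sum]
  refine sum_le_sum fun i _ => ?_
  rw [c.parseval, c.parseval (h i), mul_sum]
  refine sum_le_sum fun k _ => ?_
  have h1 := abs_exp_sub_pow_le (mul_nonneg hτ (sub_nonneg.2 (c.ev_le_one k))) hm
  rw [Pi.sub_apply, ip_sub_left, ip_iter_φ, HV, c.ip_H_φ, ← sub_mul, mul_mul_mul_comm,
    mul_assoc (2 * m : ℝ) τ, ← sq]
  refine mul_le_mul_of_nonneg_right ?_ (mul_self_nonneg _)
  exact sq_le_sq' (abs_le.1 h1).1 (abs_le.1 h1).2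

/-- **(S2), finite form**: resolvent closeness on the `2m` functions `R_d^i h` -/
theorem s2_fin {c d : RC Ω} (hπ : d.π = c.π) {σ τ r : ℝ} (hσ : 0 ≤ σ) (hτ : 0 ≤ τ)
    (h : ι → Ω → ℝ) {m : ℕ} (hm : 0 < m)
    (hr : ∀ i < 2 * m, nv c.π (RV c σ ((RV d τ)^[i] h) - RV d τ ((RV d τ)^[i] h)) ≤ r) :
    nv c.π (HV c (2 * m * σ) h - HV d (2 * m * τ) h) ≤ 4 / m * nv c.π h + 2 * m * r := by
  have h1 := nv_HV_sub_iter c hσ h hm
  have h2 := nv_HV_sub_iter d hτ h hm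
  have h3 := tele c d hσ h (2 * m) hr
  rw [hπ, nv_sub_comm] at h2
  have h4 := nv_tri c.isP (HV c (2 * m * σ) h) ((RV c σ)^[2 * m] h) (HV d (2 * m * τ) h)
  have h5 := nv_tri c.isP ((RV c σ)^[2 * m] h) ((RV d τ)^[2 * m] h) (HV d (2 * m * τ) h)
  push_cast at h3
  have e : 4 / (m : ℝ) * nv c.π h = 2 / m * nv c.π h + 2 / m * nv c.π h := by ring
  linarith

lemma exists_dd {τ₁ τ₂ ρ : ℝ} (h₁ : 0 < τ₁) (hρ : 0 < ρ) :
    ∃ e : ℝ, 0 < e ∧ ∀ τ, τ₁ ≤ τ → τ ≤ τ₂ → dd τ e ≤ ρ := by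
  have hc : ContinuousAt (fun e : ℝ => 2 * e * (1 + |τ₂|) + e * (1 + 1 / τ₁) +
      4 * √(e * (1 + 1 / τ₁))) 0 := by fun_prop
  have h0 := (hc.eventually_lt continuousAt_const (show 2 * 0 * (1 + |τ₂|) + 0 * (1 + 1 / τ₁) +
    4 * √(0 * (1 + 1 / τ₁)) < ρ by simpa using hρ)).filter_mono
      (nhdsWithin_le_nhds (s := Set.Ioi 0))
  obtain ⟨e, he, he0⟩ := (h0.and self_mem_nhdsWithin).exists
  have he0 : 0 < e := he0
  refine ⟨e, he0, fun τ ht1 ht2 => le_trans ?_ he.le⟩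
  have ht3 : τ ≤ |τ₂| := ht2.trans (le_abs_self _)
  unfold dd
  gcongr

end Crest.Agent.T157.Sg

namespace Crest.Agent.T157.Sg

open Finset Matrix
open Crest.Agent.T157.Chain22 Crest.Agent.T157.Soft

universe u v

/-- **(S2)** comparable forms have close semigroups, uniformly on compact time intervals -/
theorem s2 {t₁ t₂ δ : ℝ} (h₁ : 0 < t₁) (hδ : 0 < δ) : ∃ e : ℝ, 0 < e ∧
    ∀ (Ω : Type u) (ι : Type v) [Fintype Ω] [Fintype ι] [DecidableEq Ω] (c d : RC Ω), d.π = c.π →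
      ∀ a b : ℝ, 0 ≤ a → 0 ≤ b → I1 ι c d a b e → I2 ι c d a b e →
      ∀ t, t₁ ≤ t → t ≤ t₂ → ∀ (h : ι → Ω → ℝ) (B : ℝ), Sup h B →
        nv c.π (HV c (a * t) h - HV d (b * t) h) ≤ δ * √B := by
  obtain ⟨m, hm⟩ := exists_nat_gt (8 / δ)
  have hm0 : (0 : ℝ) < m := lt_trans (by positivity) hm
  obtain ⟨e, he, hd⟩ := exists_dd (τ₁ := t₁ / (2 * m)) (τ₂ := t₂ / (2 * m))
    (ρ := (δ / (4 * m)) ^ 2) (by positivity) (by positivity)
  refine ⟨e, he, fun Ω ι _ _ _ c d hπ a b ha hb i1 i2 t ht1 ht2 h B hh => ?_⟩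
  have ht : 0 < t := h₁.trans_le ht1
  have hτ : 0 < t / (2 * m) := by positivity
  have hB := hh.nonneg c.isP
  have key := s2_fin hπ (σ := t / (2 * m) * a) (τ := t / (2 * m) * b) (r := δ / (4 * m) * √B)
    (by positivity) (by positivity) h (m := m) (by exact_mod_cast hm0) fun i _ => by
      refine nv_le_of_sq (by positivity) ?_
      refine (s1 hπ ha hb he.le hτ i1 i2 (hh.iter d (by positivity) i)).trans ?_
      rw [mul_pow, Real.sq_sqrt hB]
      exact mul_le_mul_of_nonneg_right (hd _ (by gcongr) (by gcongr)) hB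
  have e1 : 2 * m * (t / (2 * m) * a) = a * t := by field_simp
  have e2 : 2 * m * (t / (2 * m) * b) = b * t := by field_simp
  have e3 : 2 * m * (δ / (4 * m) * √B) = δ / 2 * √B := by field_simp; ring
  rw [e1, e2, e3] at key
  have h4 : 4 / (m : ℝ) ≤ δ / 2 := by
    rw [div_lt_iff₀ hδ] at hm
    rw [div_le_iff₀ hm0]; linarith
  have h5 : 4 / (m : ℝ) * nv c.π h ≤ δ / 2 * √B :=
    mul_le_mul h4 (hh.nv_le c.isP) (nv_nonneg _) (by positivity)
  linarith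

end Crest.Agent.T157.Sg

end
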