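import Crest.Agent.T157.SgA_90

/-!
# Row 157, part C: static replacement of the two-time autocorrelation (helper90)

Under an entropy bound from every start (`EC`), the pair `(σ_s, σ_{s+t})` is contiguous to the
product of two stationary copies.  So the features can be replaced by bounded static ones
(`EC.BB_sub`), and the semigroup by a comparison semigroup (`EC.BB_static`, `AA_static`).
-/

set_option autoImplicit false

noncomputable section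

namespace Crest.Agent.T157.Sg

open Finset Matrix
open Crest.Agent.T157.Chain22 Crest.Agent.T157.Soft Crest.Agent.T157.Ent

section one
variable {Ω : Type*} [Fintype Ω]

/-- contiguity: small in `L²(π)` with an exponential moment gives small under bounded entropy -/
lemma small_of_kl {ν π Y : Ω → ℝ} (hν : IsP ν) (hπ : IsP π) (hac : AC ν π) {C θ κ X : ℝ}
    (hC : kl ν π ≤ C) (hθ : 0 < θ) (hκ0 : 0 ≤ κ) (hκ : ip π Y Y ≤ κ ^ 2)
    (hX : mean π (fun x => Real.exp (2 * θ * |Y x|)) ≤ X) : |mean ν Y| ≤ C / θ + κ * √X := by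
  have h1 : |mean ν Y| ≤ mean ν fun x => |Y x| :=
    (abs_sum_le_sum_abs _ _).trans (le_of_eq (sum_congr rfl fun x _ => by
      rw [abs_mul, abs_of_nonneg (hν.nn x)]))
  have h2 := mean_le_kl_theta hν hπ hac (fun x => |Y x|) hθ
  have h3 := Real.log_le_sub_one_of_pos (mean_exp_pos hπ fun x => θ * |Y x|)
  have h4 : mean π (fun x => Real.exp (θ * |Y x|)) ≤
      1 + θ * ip π (fun x => |Y x|) fun x => Real.exp (θ * |Y x|) := by
    rw [ip_eq_mean, ← mean_const_mul, ← hπ.mean_const 1, ← mean_add']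
    refine hπ.mean_mono fun x => ?_
    have a := Real.add_one_le_exp (-(θ * |Y x|))
    have b : Real.exp (-(θ * |Y x|)) * Real.exp (θ * |Y x|) = 1 := by rw [← Real.exp_add]; simp
    nlinarith [Real.exp_pos (θ * |Y x|)]
  have h5 := hπ.ip_sq_le (fun x => |Y x|) fun x => Real.exp (θ * |Y x|)
  have e1 : ip π (fun x => |Y x|) (fun x => |Y x|) = ip π Y Y := by
    simp only [ip, abs_mul_abs_self]
  have e2 : ip π (fun x => Real.exp (θ * |Y x|)) (fun x => Real.exp (θ * |Y x|)) =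
      mean π fun x => Real.exp (2 * θ * |Y x|) :=
    mean_congr fun x => by rw [← Real.exp_add]; ring_nf
  have hX0 : 0 ≤ X := (mean_exp_pos hπ _).le.trans hX
  have h6 : ip π (fun x => |Y x|) (fun x => Real.exp (θ * |Y x|)) ≤ κ * √X := by
    refine (abs_le_of_sq_le_sq' (h5.trans ?_) (by positivity)).2
    rw [e1, e2, mul_pow, Real.sq_sqrt hX0]
    exact mul_le_mul hκ hX (mean_exp_pos hπ _).le (sq_nonneg _)
  refine h1.trans (h2.trans ?_)
  rw [div_le_iff₀ hθ, add_mul, div_mul_cancel₀ _ hθ.ne']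
  nlinarith [mul_le_mul_of_nonneg_left h6 hθ.le]

/-- the bounded case -/
lemma small_of_kl_bdd {ν π Y : Ω → ℝ} (hν : IsP ν) (hπ : IsP π) (hac : AC ν π) {C θ κ M : ℝ}
    (hC : kl ν π ≤ C) (hθ : 0 < θ) (hκ0 : 0 ≤ κ) (hκ : ip π Y Y ≤ κ ^ 2) (hM : ∀ x, |Y x| ≤ M) :
    |mean ν Y| ≤ C / θ + κ * Real.exp (θ * M) := by
  have := small_of_kl hν hπ hac hC hθ hκ0 hκ (X := Real.exp (θ * M) ^ 2) (by
    rw [← hπ.mean_const (Real.exp (θ * M) ^ 2)]
    refine hπ.mean_mono fun x => ?_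
    rw [← Real.exp_nat_mul]
    refine Real.exp_le_exp.2 ?_
    push_cast
    nlinarith [mul_le_mul_of_nonneg_left (hM x) hθ.le])
  rwa [Real.sqrt_sq (Real.exp_pos _).le] at this

/-- product law -/
def prd (π : Ω → ℝ) : Ω × Ω → ℝ := fun p => π p.1 * π p.2

lemma mean_prd (π : Ω → ℝ) (F : Ω × Ω → ℝ) :
    mean (prd π) F = ∑ x, ∑ y, π x * π y * F (x, y) := Fintype.sum_prod_type _

lemma isP_prd {π : Ω → ℝ} (h : IsP π) : IsP (prd π) :=
  ⟨fun p => mul_nonneg (h.nn _) (h.nn _), by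
    simp only [prd, Fintype.sum_prod_type, ← mul_sum, h.sum1, mul_one]⟩

lemma mean_prd_fst {π : Ω → ℝ} (h : IsP π) (f : Ω → ℝ) :
    mean (prd π) (fun p => f p.1) = mean π f := by
  rw [mean_prd]
  exact sum_congr rfl fun x _ => by simp only [← sum_mul, ← mul_sum, h.sum1, mul_one]

lemma mean_prd_snd {π : Ω → ℝ} (h : IsP π) (f : Ω → ℝ) :
    mean (prd π) (fun p => f p.2) = mean π f := by
  rw [mean_prd]
  simp only [mul_assoc, ← mul_sum, ← sum_mul, h.sum1, one_mul]; rfl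

/-- product of two copies of a chain -/
def prC (d : RC Ω) : RC (Ω × Ω) where
  π := prd d.π
  P p q := d.P p.1 q.1 * d.P p.2 q.2
  pos p := mul_pos (d.pos _) (d.pos _)
  sum1 := (isP_prd d.isP).sum1
  nn p q := mul_nonneg (d.nn _ _) (d.nn _ _)
  row p := by simp only [Fintype.sum_prod_type, ← mul_sum, d.row, mul_one]
  rev p q := by
    have h1 := d.rev p.1 q.1
    have h2 := d.rev p.2 q.2
    simp only [prd]
    calc _ = d.π p.1 * d.P p.1 q.1 * (d.π p.2 * d.P p.2 q.2) := by ring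
      _ = _ := by rw [h1, h2]; ring

variable {ι κ : Type*} [Fintype ι] [Fintype κ]

/-- squared distance of the overlap kernels under two independent copies -/
def KK (π : Ω → ℝ) (a : ι → Ω → ℝ) (b : κ → Ω → ℝ) : ℝ :=
  mean (prd π) fun p => (rr a p.1 p.2 - rr b p.1 p.2) ^ 2

lemma XX_eq (c : RC Ω) (a : ι → Ω → ℝ) (θ : ℝ) :
    XX c a θ = mean (prd c.π) fun p => Real.exp (θ * |rr a p.1 p.2|) := by
  rw [mean_prd]; rfl

lemma XX_mono (c : RC Ω) (a : ι → Ω → ℝ) {θ θ' : ℝ} (h : θ ≤ θ') : XX c a θ ≤ XX c a θ' := by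
  rw [XX_eq, XX_eq]
  exact (isP_prd c.isP).mean_mono fun p =>
    Real.exp_le_exp.2 (mul_le_mul_of_nonneg_right h (abs_nonneg _))

lemma KK_nonneg {π : Ω → ℝ} (h : IsP π) (a : ι → Ω → ℝ) (b : κ → Ω → ℝ) : 0 ≤ KK π a b :=
  (isP_prd h).mean_nonneg fun _ => sq_nonneg _

lemma KK_tri {π : Ω → ℝ} (h : IsP π) {μ : Type*} [Fintype μ] (a : ι → Ω → ℝ) (b : κ → Ω → ℝ)
    (e : μ → Ω → ℝ) : KK π a e ≤ 2 * KK π a b + 2 * KK π b e := by
  unfold KK
  rw [← mean_const_mul, ← mean_const_mul, ← mean_add']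
  refine (isP_prd h).mean_mono fun p => ?_
  nlinarith [sq_nonneg (rr a p.1 p.2 - rr b p.1 p.2 - (rr b p.1 p.2 - rr e p.1 p.2))]

lemma rr_mulVec (Q : Matrix Ω Ω ℝ) (a : ι → Ω → ℝ) (x y : Ω) :
    rr (fun i => Q *ᵥ a i) x y = ∑ q : Ω × Ω, Q x q.1 * Q y q.2 * rr a q.1 q.2 := by
  simp only [rr, mulVec, dotProduct, Fintype.sum_prod_type, sum_mul_sum]
  rw [sum_comm]
  refine sum_congr rfl fun x' _ => ?_
  rw [sum_comm]
  refine sum_congr rfl fun y' _ => ?_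
  rw [mul_sum]
  exact sum_congr rfl fun i _ => by ring

/-- `Q` is a part of the kernel of `d` of total mass at least `1 - δ` -/
structure SubK (d : RC Ω) (Q : Matrix Ω Ω ℝ) (δ : ℝ) : Prop where
  nn : ∀ x y, 0 ≤ Q x y
  le : ∀ x y, Q x y ≤ d.P x y
  mass : 1 - δ ≤ mean d.π fun x => ∑ y, Q x y

lemma subK_self (d : RC Ω) : SubK d d.P 0 :=
  ⟨d.nn, fun _ _ => le_rfl, by simp only [d.row, d.isP.mean_const, sub_zero, le_refl]⟩

lemma SubK.abs_rr_le {d : RC Ω} {Q : Matrix Ω Ω ℝ} {δ : ℝ} (h : SubK d Q δ) (a : ι → Ω → ℝ)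
    (p : Ω × Ω) : |rr (fun i => Q *ᵥ a i) p.1 p.2| ≤
      ((prC d).P *ᵥ fun q => |rr a q.1 q.2|) p := by
  rw [rr_mulVec]
  refine (abs_sum_le_sum_abs _ _).trans (sum_le_sum fun q _ => ?_)
  rw [abs_mul, abs_of_nonneg (mul_nonneg (h.nn _ _) (h.nn _ _))]
  exact mul_le_mul_of_nonneg_right (mul_le_mul (h.le _ _) (h.le _ _) (h.nn _ _) (d.nn _ _))
    (abs_nonneg _)

/-- exponential moments are inherited by conditional expectations -/
lemma SubK.XX_le {c d : RC Ω} (hπ : d.π = c.π) {Q : Matrix Ω Ω ℝ} {δ : ℝ} (h : SubK d Q δ)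
    (a : ι → Ω → ℝ) {θ : ℝ} (hθ : 0 ≤ θ) : XX c (fun i => Q *ᵥ a i) θ ≤ XX c a θ := by
  rw [XX_eq, XX_eq, ← hπ]
  refine le_trans ((isP_prd d.isP).mean_mono fun p => ?_)
    ((prC d).mean_P fun p => Real.exp (θ * |rr a p.1 p.2|)).le
  have h1 := mean_le_log_mean_exp ((prC d).isP_row p) fun q => θ * |rr a q.1 q.2|
  rw [mean_const_mul, Real.le_log_iff_exp_le (mean_exp_pos ((prC d).isP_row p) _)] at h1
  exact (Real.exp_le_exp.2 (mul_le_mul_of_nonneg_left (h.abs_rr_le a p) hθ)).trans h1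

lemma mean_rr_sq_le (c : RC Ω) (a : ι → Ω → ℝ) :
    mean (prd c.π) (fun p => rr a p.1 p.2 ^ 2) ≤ 2 * XX c a 1 := by
  rw [XX_eq, ← mean_const_mul]
  refine (isP_prd c.isP).mean_mono fun p => ?_
  have := Real.pow_div_factorial_le_exp _ (abs_nonneg (rr a p.1 p.2)) 2
  rw [sq_abs] at this
  norm_num [Nat.factorial] at this ⊢
  linarith

lemma mean_rr_four_le (c : RC Ω) (a : ι → Ω → ℝ) :
    mean (prd c.π) (fun p => rr a p.1 p.2 ^ 2 * rr a p.1 p.2 ^ 2) ≤ 24 * XX c a 1 := by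
  rw [XX_eq, ← mean_const_mul]
  refine (isP_prd c.isP).mean_mono fun p => ?_
  have := Real.pow_div_factorial_le_exp _ (abs_nonneg (rr a p.1 p.2)) 4
  rw [show (4 : ℕ) = 2 * 2 from rfl, pow_mul, sq_abs] at this
  norm_num [Nat.factorial] at this ⊢
  linarith

/-- truncation costs little -/
lemma SubK.KK_le {c d : RC Ω} (hπ : d.π = c.π) {Q : Matrix Ω Ω ℝ} {δ : ℝ} (h : SubK d Q δ)
    (a : ι → Ω → ℝ) :
    KK c.π (fun i => d.P *ᵥ a i) (fun i => Q *ᵥ a i) ≤ √(48 * δ * XX c a 1) := by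
  set e := prC d with he
  set m : Ω × Ω → ℝ := fun p => 1 - (∑ y, Q p.1 y) * ∑ y, Q p.2 y with hm
  have q0 : ∀ x, 0 ≤ ∑ y, Q x y := fun x => sum_nonneg fun y _ => h.nn x y
  have q1 : ∀ x, ∑ y, Q x y ≤ 1 := fun x => (sum_le_sum fun y _ => h.le x y).trans_eq (d.row x)
  have m0 : ∀ p, 0 ≤ m p := fun p => sub_nonneg.2 (mul_le_one₀ (q1 _) (q0 _) (q1 _))
  have m1 : ∀ p, m p ≤ 1 := fun p => sub_le_self _ (mul_nonneg (q0 _) (q0 _))
  have hP := isP_prd d.isP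
  have hm2 : ip (prd d.π) m m ≤ 2 * δ := by
    have : ip (prd d.π) m m ≤ mean (prd d.π) fun p => (1 - ∑ y, Q p.1 y) + (1 - ∑ y, Q p.2 y) :=
      hP.mean_mono (f := fun p => m p * m p) fun p => by
        have := mul_le_mul_of_nonneg_left (m1 p) (m0 p)
        nlinarith [mul_nonneg (sub_nonneg.2 (q1 p.1)) (sub_nonneg.2 (q1 p.2))]
    rw [mean_add', mean_prd_fst d.isP fun x => 1 - ∑ y, Q x y,
      mean_prd_snd d.isP fun x => 1 - ∑ y, Q x y, mean_sub', d.isP.mean_const] at this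
    linarith [h.mass]
  set G : Ω × Ω → ℝ := e.P *ᵥ fun q => rr a q.1 q.2 ^ 2 with hG
  have hG2 : ip (prd d.π) G G ≤ 24 * XX c a 1 :=
    (e.ip_P_P_le _).trans (by
      have := mean_rr_four_le c a
      rw [← hπ] at this
      exact this)
  have hpt : ∀ p : Ω × Ω, (rr (fun i => d.P *ᵥ a i) p.1 p.2 - rr (fun i => Q *ᵥ a i) p.1 p.2) ^ 2 ≤
      m p * G p := fun p => by
    set u : Ω × Ω → ℝ := fun q => d.P p.1 q.1 * d.P p.2 q.2 - Q p.1 q.1 * Q p.2 q.2 with hu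
    have u0 : ∀ q, 0 ≤ u q := fun q =>
      sub_nonneg.2 (mul_le_mul (h.le _ _) (h.le _ _) (h.nn _ _) (d.nn _ _))
    have e1 : rr (fun i => d.P *ᵥ a i) p.1 p.2 - rr (fun i => Q *ᵥ a i) p.1 p.2 =
        ∑ q, √(u q) * (√(u q) * rr a q.1 q.2) := by
      rw [rr_mulVec, rr_mulVec, ← sum_sub_distrib]
      exact sum_congr rfl fun q _ => by rw [← mul_assoc, Real.mul_self_sqrt (u0 q), hu]; ring
    have e2 : ∑ q, √(u q) ^ 2 = m p := by
      simp only [Real.sq_sqrt (u0 _)]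
      simp only [hu, hm, sum_sub_distrib, Fintype.sum_prod_type, ← mul_sum, ← sum_mul, d.row,
        mul_one]
    have e3 : ∑ q, (√(u q) * rr a q.1 q.2) ^ 2 ≤ G p := sum_le_sum fun q _ => by
      rw [mul_pow, Real.sq_sqrt (u0 q)]
      exact mul_le_mul_of_nonneg_right (sub_le_self _ (mul_nonneg (h.nn _ _) (h.nn _ _)))
        (sq_nonneg _)
    rw [e1]
    refine (sum_mul_sq_le_sq_mul_sq _ _ _).trans ?_
    rw [e2]
    exact mul_le_mul_of_nonneg_left e3 (m0 p)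
  rw [KK, ← hπ]
  refine (hP.mean_mono hpt).trans ((le_abs_self _).trans (Real.abs_le_sqrt ?_))
  refine (hP.ip_sq_le m G).trans ((mul_le_mul hm2 hG2 (hP.ip_self_nonneg _)
    ((hP.ip_self_nonneg _).trans hm2)).trans (le_of_eq (by ring)))

lemma abs_dot_le {u v : ι → ℝ} {A B : ℝ} (hu : ∑ i, u i ^ 2 ≤ A) (hv : ∑ i, v i ^ 2 ≤ B) :
    (∑ i, u i * v i) ^ 2 ≤ A * B :=
  (sum_mul_sq_le_sq_mul_sq _ _ _).trans (mul_le_mul hu hv (sum_nonneg fun _ _ => sq_nonneg _)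
    ((sum_nonneg fun _ _ => sq_nonneg _).trans hu))

end one

variable {Ω ι κ : Type*} [Fintype Ω] [DecidableEq Ω] [Fintype ι] [Fintype κ] {c d : RC Ω}
  {ν : Ω → ℝ}

/-- the law of `(σ_s, σ_{s+t})` -/
def pairL (c : RC Ω) (ν : Ω → ℝ) (s t : ℝ) : Ω × Ω → ℝ := fun p => (ν ᵥ* c.H s) p.1 * c.H t p.1 p.2

lemma isP_pairL (hν : IsP ν) {s t : ℝ} (hs : 0 ≤ s) (ht : 0 ≤ t) : IsP (pairL c ν s t) :=
  ⟨fun p => mul_nonneg ((isP_vecMul hν hs).nn _) (c.H_nn ht _ _), by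
    simp only [pairL, Fintype.sum_prod_type, ← mul_sum, c.H_row, mul_one]
    exact (isP_vecMul hν hs).sum1⟩

lemma BB_eq_pair (a : ι → Ω → ℝ) (s t : ℝ) :
    BB c a ν s t = mean (pairL c ν s t) fun p => rr a p.1 p.2 := by
  simp only [BB, Gt, mean, pairL, Fintype.sum_prod_type, mul_sum, mul_assoc]

lemma kl_pairL {b C s t : ℝ} (h : EC c b C) (hb : 0 ≤ b) (hν : IsP ν) (hs : b ≤ s) (ht : b ≤ t) :
    kl (pairL c ν s t) (prd c.π) ≤ 2 * C := by
  have h1 := kl_chain (ν := ν ᵥ* c.H s) (μ := c.π) (AC.of_pos _ c.pos) (K := c.H t)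
    (L := fun _ => c.π) (isP_H (hb.trans ht)) fun _ _ => AC.of_pos _ c.pos
  have h2 := (h.mono hb hs).kl_le (hb.trans hs) hν
  have hP := isP_vecMul (c := c) hν (hb.trans hs)
  have h3 := (hP.mean_mono (h.mono hb ht)).trans_eq (hP.mean_const C)
  exact h1.trans_le (by linarith)

/-- **replacement of the features** -/
theorem BB_sub {b C s t θ X k : ℝ} (h : EC c b C) (hb : 0 ≤ b) (hν : IsP ν) (hs : b ≤ s)
    (ht : b ≤ t) (hθ : 0 < θ) (hk : 0 ≤ k) {a : ι → Ω → ℝ} {a' : κ → Ω → ℝ}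
    (h1 : XX c a (4 * θ) ≤ X) (h2 : XX c a' (4 * θ) ≤ X) (h3 : KK c.π a a' ≤ k ^ 2) :
    |BB c a ν s t - BB c a' ν s t| ≤ 2 * C / θ + k * √X := by
  rw [BB_eq_pair, BB_eq_pair, ← mean_sub']
  refine small_of_kl (isP_pairL hν (hb.trans hs) (hb.trans ht)) (isP_prd c.isP)
    (AC.of_pos _ (prC c).pos) (kl_pairL h hb hν hs ht) hθ hk ?_ ?_
  · simpa only [KK, sq, ip_eq_mean] using h3
  · rw [XX_eq] at h1 h2
    have h0 : (0 : ℝ) ≤ 1 / 2 := by norm_num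
    refine le_trans ?_ ((add_le_add (mul_le_mul_of_nonneg_left h1 h0)
      (mul_le_mul_of_nonneg_left h2 h0)).trans_eq (by ring))
    rw [← mean_const_mul, ← mean_const_mul, ← mean_add']
    refine (isP_prd c.isP).mean_mono fun p => ?_
    have e : ∀ u : ℝ, Real.exp (4 * θ * u) = Real.exp (2 * θ * u) ^ 2 := fun u => by
      rw [← Real.exp_nat_mul]; push_cast; ring_nf
    have h4 : Real.exp (2 * θ * |rr a p.1 p.2 - rr a' p.1 p.2|) ≤
        Real.exp (2 * θ * |rr a p.1 p.2|) * Real.exp (2 * θ * |rr a' p.1 p.2|) := by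
      rw [← Real.exp_add, ← mul_add]
      exact Real.exp_le_exp.2 (mul_le_mul_of_nonneg_left (abs_sub _ _) (by positivity))
    rw [e, e]
    nlinarith [sq_nonneg (Real.exp (2 * θ * |rr a p.1 p.2|) - Real.exp (2 * θ * |rr a' p.1 p.2|))]

lemma pi_vecMul_H (c : RC Ω) {s : ℝ} (hs : 0 ≤ s) : c.π ᵥ* c.H s = c.π := (c.heat s hs).vecMul_π

lemma BB_pi (a : ι → Ω → ℝ) {s : ℝ} (hs : 0 ≤ s) (t : ℝ) : BB c a c.π s t = AA c a t := by
  rw [BB, pi_vecMul_H c hs, AA_eq]; rfl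

theorem AA_sub {b C t θ X k : ℝ} (h : EC c b C) (hb : 0 ≤ b) (ht : b ≤ t) (hθ : 0 < θ)
    (hk : 0 ≤ k) {a : ι → Ω → ℝ} {a' : κ → Ω → ℝ} (h1 : XX c a (4 * θ) ≤ X)
    (h2 : XX c a' (4 * θ) ≤ X) (h3 : KK c.π a a' ≤ k ^ 2) :
    |AA c a t - AA c a' t| ≤ 2 * C / θ + k * √X := by
  rw [← BB_pi a hb, ← BB_pi a' hb]
  exact BB_sub h hb c.isP le_rfl ht hθ hk h1 h2 h3

lemma Gt_eq (c : RC Ω) (a : ι → Ω → ℝ) (t : ℝ) (x : Ω) :
    Gt c a t x = ∑ i, a i x * HV c t a i x := by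
  simp only [Gt, rr, HV, mulVec, dotProduct, mul_sum]
  rw [sum_comm]
  exact sum_congr rfl fun i _ => sum_congr rfl fun y _ => by ring

lemma Sup.abs_Gt_le (c : RC Ω) {a : ι → Ω → ℝ} {L t : ℝ} (ha : Sup a L) (ht : 0 ≤ t) (x : Ω) :
    |Gt c a t x| ≤ L := by
  rw [Gt_eq]
  refine abs_le_of_sq_le_sq' ?_ (ha.nonneg c.isP) |> abs_le.2
  exact (abs_dot_le (ha x) (ha.HV c ht x)).trans_eq (sq L).symm

lemma Sup.sup_Gt (c : RC Ω) {a : ι → Ω → ℝ} {L t : ℝ} (ha : Sup a L) (ht : 0 ≤ t) :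
    Sup (fun _ : Unit => Gt c a t) (L ^ 2) := fun x => by
  simpa using sq_le_sq' (abs_le.1 (ha.abs_Gt_le c ht x)).1 (abs_le.1 (ha.abs_Gt_le c ht x)).2

lemma Gt_sub_le {a : ι → Ω → ℝ} {L t t' δ : ℝ} (ha : Sup a L)
    (h : nv c.π (HV c t a - HV d t' a) ≤ δ) :
    ip c.π (Gt c a t - Gt d a t') (Gt c a t - Gt d a t') ≤ (√L * δ) ^ 2 := by
  have h1 : ipV c.π (HV c t a - HV d t' a) (HV c t a - HV d t' a) ≤ δ ^ 2 := by
    rw [← nv_sq c.isP]; exact pow_le_pow_left₀ (nv_nonneg _) h 2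
  have hL := ha.nonneg c.isP
  rw [mul_pow, Real.sq_sqrt hL]
  refine le_trans ?_ (mul_le_mul_of_nonneg_left h1 hL)
  rw [ipV_self_eq, ← mean_const_mul]
  refine c.isP.mean_mono (f := fun x => _ * _) fun x => ?_
  rw [Pi.sub_apply, Gt_eq, Gt_eq, ← sum_sub_distrib, ← sq]
  simp only [← mul_sub]
  exact abs_dot_le (ha x) le_rfl

/-- **stationary autocorrelation of bounded features** -/
theorem AA_static (hπ : d.π = c.π) {a : ι → Ω → ℝ} {L t t' δ : ℝ} (ha : Sup a L) (hδ : 0 ≤ δ)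
    (h : nv c.π (HV c t a - HV d t' a) ≤ δ) : |AA c a t - AA d a t'| ≤ √L * δ := by
  rw [AA_eq, AA_eq, hπ, ← mean_sub]
  exact abs_le.2 (abs_le_of_sq_le_sq' ((c.isP.mean_sq_le _).trans (Gt_sub_le ha h))
    (by positivity))

omit [DecidableEq Ω] in
lemma mean_vecMul (ν : Ω → ℝ) (K : Matrix Ω Ω ℝ) (f : Ω → ℝ) :
    mean (ν ᵥ* K) f = mean ν (K *ᵥ f) := mean_mix K f

/-- **quench autocorrelation of bounded features** -/
theorem BB_static {b C s t s' t' θ L δ₁ δ₂ : ℝ} (h : EC c b C) (hb : 0 ≤ b)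
    (hν : IsP ν) (hs : b ≤ s) (ht : 0 ≤ t) (hs' : 0 ≤ s') (ht' : 0 ≤ t') (hθ : 0 < θ)
    {a : ι → Ω → ℝ} (ha : Sup a L) (hδ₁ : 0 ≤ δ₁) (hδ₂ : 0 ≤ δ₂)
    (h1 : nv c.π (HV c t a - HV d t' a) ≤ δ₁)
    (h2 : nv c.π (HV c (s - b) (fun _ : Unit => Gt d a t') -
      HV d s' fun _ : Unit => Gt d a t') ≤ δ₂) :
    |BB c a ν s t - mean (ν ᵥ* c.H b) (d.H s' *ᵥ Gt d a t')| ≤
      2 * C / θ + (√L * δ₁ + δ₂) * Real.exp (θ * (2 * L)) := by
  have hac := fun ρ : Ω → ℝ => AC.of_pos ρ c.pos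
  have k1 := small_of_kl_bdd (isP_vecMul (c := c) hν (hb.trans hs)) c.isP (hac _)
    ((h.mono hb hs).kl_le (hb.trans hs) hν) hθ (by positivity) (Gt_sub_le ha h1)
    (M := 2 * L) fun x => (abs_sub _ _).trans (by
      linarith [ha.abs_Gt_le c ht x, ha.abs_Gt_le d ht' x])
  have h3 : ip c.π (c.H (s - b) *ᵥ Gt d a t' - d.H s' *ᵥ Gt d a t')
      (c.H (s - b) *ᵥ Gt d a t' - d.H s' *ᵥ Gt d a t') ≤ δ₂ ^ 2 := by
    have := pow_le_pow_left₀ (nv_nonneg _) h2 2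
    rw [nv_sq c.isP] at this
    simpa [ipV, HV] using this
  have k2 := small_of_kl_bdd (isP_vecMul (c := c) hν hb) c.isP (hac _) (h.kl_le hb hν) hθ hδ₂ h3
    (M := 2 * L) fun x => (abs_sub _ _).trans (by
      linarith [abs_H_le (c := c) (sub_nonneg.2 hs) (ha.abs_Gt_le d ht') x,
        abs_H_le (c := d) hs' (ha.abs_Gt_le d ht') x])
  have e1 : mean (ν ᵥ* c.H b) (c.H (s - b) *ᵥ Gt d a t') = mean (ν ᵥ* c.H s) (Gt d a t') := by
    rw [← mean_vecMul, vecMul_vecMul, ← c.H_add, add_sub_cancel]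
  rw [mean_sub] at k1 k2
  rw [e1] at k2
  have e2 : BB c a ν s t = mean (ν ᵥ* c.H s) (Gt c a t) := rfl
  rw [e2]
  refine (abs_sub_le _ _ _).trans ((add_le_add k1 k2).trans (le_of_eq (by ring)))

end Crest.Agent.T157.Sg

end
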