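import Crest.Agent.T157.SLE_23
import Crest.Agent.T157.ConcG_16

/-!
# Row 157, part D (helper4): one good path of the stochastic localisation, general tools

`path` (one path that realises all first-moment bounds at once), good times, overlaps of
consecutive barycentres, pair variance, increments, planted Markov inequality, scalar channel.
-/

set_option autoImplicit false
set_option linter.unusedSectionVars false

noncomputable section

namespace Crest.Agent.T157.Sla

open MeasureTheory ProbabilityTheory Filter Topology Set Real Matrix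
open Crest.Agent.T157.E Crest.Agent.T157.SL
open Crest.Agent.T157.Conc (en ELip)
open Crest.ProbabilityR.SpinGlassDynamics (spin)

section general
variable {Ω ι : Type*} [Fintype Ω] [Fintype ι] [DecidableEq ι] {φ : Ω → ι → ℝ} {v w f : Ω → ℝ}
  {s t : ℝ}

theorem exists_le_slE (hv : Wt v) (s : ℝ) {K : (ι → ℝ) → ℝ} (h : MG K) :
    ∃ y, K y ≤ slE φ v s fun _ => K := by
  have := isProb_law (φ := φ) (s := s) hv
  rw [← integral_law hv h.meas (.of_mg fun _ => h)]
  exact exists_le_integral h.int_law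

theorem mg_shift {K : (ι → ℝ) → ℝ} (h : MG K) (u : ι → ℝ) : MG fun z => K (u + z) := by
  simpa using h.affine u 1

/-- conditional expectations are again of exponential growth -/
theorem mg_cond (hv : Wt v) (s r : ℝ) {K : (ι → ℝ) → ℝ} (h : MG K) :
    MG fun y => slE φ (post φ v s y) r fun _ z => K (y + z) :=
  mg_mean hv s fun x => h.conv (r • φ x) √r

/-- **One path below the mean.** `F j` = costs at the times `t j`, `G i y` = cost of the increment
after the time `t i` at the position `y` (no measurability in `y`). -/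
theorem path (N : ℕ) : ∀ (v : Ω → ℝ) (_ : Wt v) (t : ℕ → ℝ) (_ : t 0 = 0) (_ : Monotone t)
    (F : ℕ → (ι → ℝ) → ℝ) (_ : ∀ j, MG (F j)) (G : ℕ → (ι → ℝ) → (ι → ℝ) → ℝ)
    (_ : ∀ i y, MG (G i y)) (g : ℕ → ℝ)
    (_ : ∀ i < N, ∀ y, (slE φ (post φ v (t i) y) (t (i + 1) - t i) fun _ => G i y) ≤ g i),
    ∃ y : ℕ → ι → ℝ, y 0 = 0 ∧
      ∑ j ∈ Finset.range (N + 1), F j (y j) + ∑ i ∈ Finset.range N, G i (y i) (y (i + 1) - y i) ≤
        ∑ j ∈ Finset.range (N + 1), (slE φ v (t j) fun _ => F j) + ∑ i ∈ Finset.range N, g i := by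
  induction N with
  | zero =>
    intro v hv t t0 _ F _ G _ g _
    refine ⟨fun _ => 0, rfl, ?_⟩
    simp only [zero_add, Finset.range_one, Finset.sum_singleton, Finset.range_zero,
      Finset.sum_empty, add_zero, t0, slE_zero, hv.mean_const, le_refl]
  | succ N ih =>
    intro v hv t t0 ht F hF G hG g hg
    have t1 : 0 ≤ t 1 := t0 ▸ ht (Nat.zero_le 1)
    have hK : ∀ j, MG fun z => slE φ (post φ v (t 1) z) (t (j + 1) - t 1) fun _ y =>
        F (j + 1) (z + y) := fun j => mg_cond hv _ _ (hF _)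
    obtain ⟨z, hz⟩ := exists_le_slE (φ := φ) hv (t 1)
      ((hG 0 0).add (MG.sum (Finset.range (N + 1)) fun j _ => hK j))
    rw [slE_add (.of_mg fun _ => hG 0 0) (.of_mg fun _ => MG.sum _ fun j _ => hK j),
      slE_sum _ fun j _ => .of_mg fun _ => hK j] at hz
    have e1 : ∀ j, (slE φ v (t 1) fun _ z => slE φ (post φ v (t 1) z) (t (j + 1) - t 1) fun _ y =>
        F (j + 1) (z + y)) = slE φ v (t (j + 1)) fun _ => F (j + 1) := fun j => by
      rw [← markov hv t1 (sub_nonneg.2 (ht (Nat.le_add_left 1 j))) fun _ => hF (j + 1),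
        add_sub_cancel]
    simp only [e1] at hz
    have g0 := hg 0 (Nat.succ_pos N) 0
    rw [t0, post_zero, zero_add, sub_zero] at g0
    obtain ⟨y, y0, hy⟩ := ih (post φ v (t 1) z) (hv.post _ _ _) (fun j => t (j + 1) - t 1)
      (by simp) (fun a b hab => sub_le_sub_right (ht (Nat.succ_le_succ hab)) _)
      (fun j y => F (j + 1) (z + y)) (fun j => mg_shift (hF _) z)
      (fun i y => G (i + 1) (z + y)) (fun i y => hG _ _) (fun i => g (i + 1)) fun i hi y => by
        rw [post_post, add_sub_cancel, sub_sub_sub_cancel_right]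
        exact hg (i + 1) (Nat.succ_lt_succ hi) _
    obtain ⟨Y, Y0, Y1⟩ : ∃ Y : ℕ → ι → ℝ, Y 0 = 0 ∧ ∀ j, Y (j + 1) = z + y j :=
      ⟨fun k => Nat.casesOn k 0 fun j => z + y j, rfl, fun _ => rfl⟩
    refine ⟨Y, Y0, ?_⟩
    rw [Finset.sum_range_succ' (fun j => F j (Y j)) (N + 1),
      Finset.sum_range_succ' (fun i => G i (Y i) (Y (i + 1) - Y i)) N,
      Finset.sum_range_succ' (fun j => slE φ v (t j) fun _ => F j) (N + 1),
      Finset.sum_range_succ' g N]
    simp only [Y0, Y1, add_sub_add_left_eq_sub, y0, add_zero, sub_zero, t0, slE_zero,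
      hv.mean_const]
    linarith

/-- squared Frobenius norm of the covariance matrix -/
def fr (φ : Ω → ι → ℝ) (w : Ω → ℝ) : ℝ := ∑ i, ∑ j, covMat w φ i j ^ 2
/-- trace of the covariance matrix -/
def trc (φ : Ω → ι → ℝ) (w : Ω → ℝ) : ℝ := ∑ i, covMat w φ i i

theorem fr_nonneg (φ : Ω → ι → ℝ) (w : Ω → ℝ) : 0 ≤ fr φ w := by unfold fr; positivity

theorem trc_nonneg (hw : Wt w) : 0 ≤ trc φ w :=
  Finset.sum_nonneg fun i _ => by
    have := hw.var_nonneg fun x => φ x i
    rwa [var_eq_cov] at this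

theorem eg_fr (hw : Wt w) (I : Set ℝ) : EG I fun p => fr φ (pw φ w p) :=
  EG.sum _ fun _ _ => EG.sum _ fun _ _ => (eg_cov hw _ _).pow 2

theorem eg_trc (hw : Wt w) (I : Set ℝ) : EG I fun p => trc φ (pw φ w p) :=
  EG.sum _ fun _ _ => eg_cov hw _ _

theorem mg_fr (hw : Wt w) (s : ℝ) : MG fun y => fr φ (post φ w s y) :=
  (eg_fr hw univ).mg (mem_univ s)

theorem mg_trc (hw : Wt w) (s : ℝ) : MG fun y => trc φ (post φ w s y) :=
  (eg_trc hw univ).mg (mem_univ s)

theorem ex_trc_sub (hw : Wt w) (hs : 0 ≤ s) (hst : s ≤ t) :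
    ex φ w (fun p => trc φ (pw φ w p)) s - ex φ w (fun p => trc φ (pw φ w p)) t =
      ∫ r in s..t, ex φ w (fun p => fr φ (pw φ w p)) r := by
  have h := (Ito.sum (Finset.univ : Finset ι) fun i _ =>
    ito_cov (φ := φ) (I := Icc s t) hw (fun x => φ x i) fun x => φ x i).neg.ex_sub' hw hs hst
  simp only [ex_neg] at h
  have e : ∀ r, -ex φ w (fun p => ∑ k, -(covV (pw φ w p) (fun x => φ x k) φ ⬝ᵥ
      covV (pw φ w p) (fun x => φ x k) φ)) r = ex φ w (fun p => fr φ (pw φ w p)) r := fun r => by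
    rw [← ex_neg]
    refine ex_congr fun y => ?_
    simp only [Finset.sum_neg_distrib, neg_neg, fr, dotProduct, covV, covMat, sq]
  simp only [e] at h
  rw [← h]
  simp only [trc, covMat]
  ring

/-- **good times** -/
theorem exists_good (hw : Wt w) {D : ℝ} (hD : ∀ u : Ω → ℝ, Wt u → trc φ u ≤ D) (hs : 0 ≤ s)
    (hst : s < t) :
    ∃ r ∈ Icc s t, (slE φ w r fun _ y => fr φ (post φ w r y)) ≤ D / (t - s) := by
  have hc := (eg_fr (φ := φ) hw (Icc s t)).continuousOn_ex (φ := φ) (v := w)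
  obtain ⟨r, hr, hm⟩ := isCompact_Icc.exists_isMinOn (nonempty_Icc.2 hst.le) hc
  refine ⟨r, hr, ?_⟩
  rw [le_div_iff₀ (sub_pos.2 hst)]
  have h1 := intervalIntegral.integral_mono_on hst.le
    (intervalIntegrable_const (μ := volume) (c := ex φ w (fun p => fr φ (pw φ w p)) r))
    (hc.intervalIntegrable_of_Icc hst.le) fun x hx => hm hx
  rw [intervalIntegral.integral_const, smul_eq_mul, ← ex_trc_sub hw hs hst.le] at h1
  have h2 : ex φ w (fun p => trc φ (pw φ w p)) s ≤ ex φ w (fun _ => D) s :=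
    ex_mono hw (mg_trc hw s) (MG.const D) fun y => hD _ (hw.post _ _ _)
  have h3 : 0 ≤ ex φ w (fun p => trc φ (pw φ w p)) t :=
    ex_nonneg hw fun y => trc_nonneg (hw.post _ _ _)
  rw [ex_const hw] at h2
  change ex φ w (fun p => fr φ (pw φ w p)) r * (t - s) ≤ D
  linarith

/-- a posterior mean fluctuates less than the observable -/
theorem slE_mean_sq_le (hw : Wt w) (ht : 0 ≤ t) (f : Ω → ℝ) :
    (slE φ w t fun _ y => (mean (post φ w t y) f - mean w f) ^ 2) ≤ var w f := by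
  have h := total_cov (φ := φ) hw (fun x => f x - mean w f) (fun x => f x - mean w f) ht
  have h0 : 0 ≤ ex φ w (fun p => cov (pw φ w p) (fun x => f x - mean w f)
      fun x => f x - mean w f) t := ex_nonneg hw fun y => by
    rw [← var_eq_cov]; exact (hw.post _ _ _).var_nonneg _
  have e : ex φ w (fun p => mean (pw φ w p) (fun x => f x - mean w f) *
      mean (pw φ w p) fun x => f x - mean w f) t =
      slE φ w t fun _ y => (mean (post φ w t y) f - mean w f) ^ 2 := by
    unfold ex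
    congr 1
    funext _ y
    simp only [mean_sub, (hw.post _ _ _).mean_const, sq]
  rw [var_eq_cov, cov_eq_mean]
  linarith

theorem quad_le_fr (w : Ω → ℝ) (u : ι → ℝ) :
    u ⬝ᵥ covMat w φ *ᵥ u ≤ √(fr φ w) * (u ⬝ᵥ u) := by
  have h := Finset.sum_mul_sq_le_sq_mul_sq (Finset.univ : Finset (ι × ι))
    (fun p => covMat w φ p.1 p.2) fun p => u p.1 * u p.2
  have e1 : ∑ p : ι × ι, covMat w φ p.1 p.2 * (u p.1 * u p.2) = u ⬝ᵥ covMat w φ *ᵥ u := by
    simp only [Fintype.sum_prod_type, dotProduct, mulVec, Finset.mul_sum]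
    exact Finset.sum_congr rfl fun i _ => Finset.sum_congr rfl fun j _ => by ring
  have e2 : ∑ p : ι × ι, (u p.1 * u p.2) ^ 2 = (u ⬝ᵥ u) ^ 2 := by
    simp only [Fintype.sum_prod_type, dotProduct, sq, Finset.sum_mul_sum]
    exact Finset.sum_congr rfl fun i _ => Finset.sum_congr rfl fun j _ => by ring
  have e3 : ∑ p : ι × ι, covMat w φ p.1 p.2 ^ 2 = √(fr φ w) ^ 2 := by
    rw [sq_sqrt (fr_nonneg _ _), fr, Fintype.sum_prod_type]
  rw [e1, e2, e3, ← mul_pow] at h
  exact (abs_le_of_sq_le_sq' h (mul_nonneg (sqrt_nonneg _) (dot_self_nonneg u))).2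

/-- second moment of the overlap of two replicas around `|m|²` -/
theorem pair_eq (hw : Wt w) :
    (mean w fun x => mean w fun x' => (φ x ⬝ᵥ φ x' - meanV w φ ⬝ᵥ meanV w φ) ^ 2) =
      fr φ w + 2 * (meanV w φ ⬝ᵥ covMat w φ *ᵥ meanV w φ) := by
  set m := meanV w φ with hm
  have e1 : ∀ x, (mean w fun x' => (φ x ⬝ᵥ φ x' - m ⬝ᵥ m) ^ 2) =
      φ x ⬝ᵥ covMat w φ *ᵥ φ x + (m ⬝ᵥ φ x - m ⬝ᵥ m) ^ 2 := fun x => by
    have a1 : (mean w fun x' => φ x ⬝ᵥ φ x') = m ⬝ᵥ φ x := by
      rw [← meanV_dot, dotProduct_comm]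
    rw [covMat_quad, hw.cov_eq, a1]
    have : (fun x' => (φ x ⬝ᵥ φ x' - m ⬝ᵥ m) ^ 2) = fun x' => (φ x ⬝ᵥ φ x') * (φ x ⬝ᵥ φ x') +
        ((-2 * (m ⬝ᵥ m)) * (φ x ⬝ᵥ φ x') + (m ⬝ᵥ m) ^ 2) := by
      funext x'; ring
    rw [this, mean_add, mean_add, mean_const_mul, a1, hw.mean_const]
    ring
  have a2 : (mean w fun x => m ⬝ᵥ φ x) = m ⬝ᵥ m := by rw [← meanV_dot]
  have e2 : (mean w fun x => (m ⬝ᵥ φ x - m ⬝ᵥ m) ^ 2) = m ⬝ᵥ covMat w φ *ᵥ m := by
    rw [covMat_quad, cov_eq_mean, a2]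
    simp only [sq]
  have e3 : (mean w fun x => φ x ⬝ᵥ covMat w φ *ᵥ φ x) = fr φ w + m ⬝ᵥ covMat w φ *ᵥ m := by
    simp only [dotProduct, mulVec, Finset.mul_sum, mean_sum, fr, ← Finset.sum_add_distrib]
    refine Finset.sum_congr rfl fun i _ => Finset.sum_congr rfl fun j _ => ?_
    have : (fun x => φ x i * (covMat w φ i j * φ x j)) =
        fun x => covMat w φ i j * (φ x i * φ x j) := by funext x; ring
    have b : covMat w φ i j = mean w (fun x => φ x i * φ x j) - m i * m j := hw.cov_eq _ _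
    rw [this, mean_const_mul, show mean w (fun x => φ x i * φ x j) = covMat w φ i j + m i * m j by
      linarith]
    ring
  simp only [e1, mean_add, e2, e3]
  ring

theorem mg_exp {L : ℝ} {F : (ι → ℝ) → ℝ} (h : ELip L F) : MG fun y => exp (F y) := by
  refine ⟨(continuous_exp.comp h.continuous).measurable, exp |F 0|, |L| * Fintype.card ι,
    (exp_pos _).le, by positivity, fun y => ?_⟩
  rw [abs_of_pos (exp_pos _), ← exp_add]
  refine exp_le_exp.2 ((le_abs_self _).trans ((h.abs_le y).trans ?_))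
  rw [mul_assoc]
  gcongr
  calc ∑ i, |y i| ≤ ∑ _i : ι, ‖y‖ := Finset.sum_le_sum fun i _ => norm_le_pi_norm y i
    _ = _ := by simp

end general

end Crest.Agent.T157.Sla

end
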