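import Crest.Agent.T157.SlaA_4
import Crest.Agent.T157.NrmG_84

/-!
# Row 157, part D (helper4): stochastic localisation on the cube

planted Markov identity, shift of the time, size of the increments, overlaps, scalar channel,
relative entropy of the posterior.
-/

set_option autoImplicit false
set_option linter.unusedSectionVars false

noncomputable section

namespace Crest.Agent.T157.Sla

open MeasureTheory ProbabilityTheory Filter Topology Set Real Matrix
open Crest.Agent.T157.E Crest.Agent.T157.SL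
open Crest.Agent.T157.Conc (en ELip)
open Crest.Agent.T157.Eig (nrm nrm_nonneg nrm_add_le nrm_smul nrm_sq)
open Crest.Agent.T157.Nrm (en_eq_nrm)
open Crest.ProbabilityR.SpinGlassDynamics (spin)

variable {n : ℕ} {γ μ : Cube n → ℝ} {s t h : ℝ}

/-- logarithm of the tilted partition function -/
def lz (γ : Cube n → ℝ) (y : Fin n → ℝ) : ℝ := log (Zw (tilt γ y))

theorem nrm_sv (x : Cube n) : nrm (sv x) = √n := by rw [nrm, sv_dot_self]

theorem exp_lz (hγ : Wt γ) (y : Fin n → ℝ) : exp (lz γ y) = Zw (tilt γ y) :=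
  exp_log (hγ.tilt y).pos

theorem lz_zero (γ : Cube n → ℝ) : lz γ 0 = log (Zw γ) := by rw [lz, tilt_zero]

theorem lz_le (hγ : Wt γ) (y y' : Fin n → ℝ) : lz γ y ≤ lz γ y' + √n * en (y - y') := by
  rw [← exp_le_exp, exp_add, exp_lz hγ, exp_lz hγ, Zw, Zw, Finset.sum_mul]
  refine Finset.sum_le_sum fun x _ => ?_
  rw [tilt, tilt, mul_assoc, ← exp_add]
  refine mul_le_mul_of_nonneg_left (exp_le_exp.2 ?_) (hγ.nn x)
  have := Eig.dot_le (y - y') (sv x)
  rw [nrm_sv, sub_dotProduct, ← en_eq_nrm] at this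
  linarith

theorem elip_lz (hγ : Wt γ) : ELip (√n) (lz γ) := fun y y' => by
  have h1 := lz_le hγ y y'
  have h2 := lz_le hγ y' y
  rw [Conc.en_sub_comm] at h2
  rw [abs_le]
  constructor <;> linarith

theorem mg_planted (hγ : Wt γ) {K : ℝ} {L : (Fin n → ℝ) → ℝ} (hL : ELip K L) :
    MG fun y => exp (L y - lz γ y) := by
  simpa only [sub_eq_add_neg] using mg_exp (hL.add (elip_lz hγ).neg)

/-- **planted Markov identity** -/
theorem planted (hγ : Wt γ) (hs : 0 ≤ s) {K : ℝ} {L : (Fin n → ℝ) → ℝ} (hL : ELip K L) :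
    (slE sv γ s fun _ y => exp (L y - lz γ y)) =
      exp (-(s / 2 * n) - lz γ 0) * ∫ z, exp (L (√s • z)) ∂gv (Fin n) := by
  rw [slE_eq_ref' hs (.of_mg fun _ => mg_planted hγ hL), exp_sub, exp_lz hγ, tilt_zero,
    div_mul_eq_mul_div, ← integral_const_mul]
  congr 2
  funext z
  have := (hγ.tilt (√s • z)).pos
  simp only [post_sv]
  rw [← Finset.sum_mul, ← Finset.sum_mul, exp_sub, exp_lz hγ, Zw]
  field_simp

theorem int_en_le : ∫ z, en z ∂gv (Fin n) ≤ √n := by
  have := Nrm.integral_nrm_le (ι := Fin n)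
  rw [Fintype.card_fin] at this
  simpa only [en_eq_nrm] using this

theorem elip_affine {K : ℝ} {L : (Fin n → ℝ) → ℝ} (hL : ELip K L) (u : Fin n → ℝ) (c : ℝ) :
    ELip (K * |c|) fun z => L (u + c • z) := fun z z' => by
  have := hL (u + c • z) (u + c • z')
  rwa [add_sub_add_left_eq_sub, ← smul_sub, Conc.en_smul, ← mul_assoc] at this

/-- an earlier time costs `K √(t-s) √n` in the exponent -/
theorem shift_time (hs : 0 ≤ s) (hst : s ≤ t) {K : ℝ} (hK : 0 ≤ K) {L : (Fin n → ℝ) → ℝ}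
    (hL : ELip K L) : ∫ z, exp (L (√s • z)) ∂gv (Fin n) ≤
      exp (K * √(t - s) * √n) * ∫ z, exp (L (√t • z)) ∂gv (Fin n) := by
  have hw : Wt fun _ : Unit => (1 : ℝ) := Wt.of_pos fun _ => one_pos
  have e : ∀ (v : Unit → ℝ) (_ : Wt v) (r : ℝ) (F : (Fin n → ℝ) → ℝ),
      slE (fun _ : Unit => (0 : Fin n → ℝ)) v r (fun _ => F) = ∫ z, F (√r • z) ∂gv (Fin n) := by
    intro v hv r F
    rw [slE_eq_mean]
    simp only [smul_zero, zero_add, hv.mean_const]
  have h := markov (φ := fun _ : Unit => (0 : Fin n → ℝ)) hw hs (sub_nonneg.2 hst)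
    (F := fun _ y => exp (L y)) fun _ => mg_exp hL
  rw [add_sub_cancel, e _ hw] at h
  rw [h, ← e _ hw s fun y => exp (L y), ← slE_const_mul]
  refine slE_mono hw (.of_mg fun _ => mg_exp hL)
    (.of_mg fun _ => (mg_cond hw _ _ (mg_exp hL)).const_mul _) fun _ y => ?_
  rw [e _ (hw.post _ _ _)]
  have hl := elip_affine hL y √(t - s)
  have h1 := Conc.exp_integral_le hl.integrable (by simpa using hl.integrable_exp 1)
  have h2 : ∫ z, (L y - K * √(t - s) * en z) ∂gv (Fin n) ≤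
      ∫ z, L (y + √(t - s) • z) ∂gv (Fin n) :=
    integral_mono ((integrable_const _).sub (Conc.elip_en.integrable.const_mul _)) hl.integrable
      fun z => by
        have := (abs_le.1 (hL (y + √(t - s) • z) y)).1
        rw [add_sub_cancel_left, Conc.en_smul, abs_of_nonneg (sqrt_nonneg _)] at this
        simp only
        linarith
  rw [integral_sub (integrable_const _) (Conc.elip_en.integrable.const_mul _), integral_const,
    integral_const_mul] at h2
  simp only [probReal_univ, smul_eq_mul, one_mul] at h2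
  refine le_trans ?_ (mul_le_mul_of_nonneg_left h1 (exp_pos _).le)
  rw [← exp_add, exp_le_exp]
  have := mul_le_mul_of_nonneg_left (int_en_le (n := n)) (mul_nonneg hK (sqrt_nonneg (t - s)))
  linarith

/-- planted Markov bound at an earlier time -/
theorem planted_le (hγ : Wt γ) (hs : 0 ≤ s) (hst : s ≤ t) {L : (Fin n → ℝ) → ℝ}
    (hL : ELip (√n) L) {a : ℝ} (ha : ∫ z, exp (L (√t • z)) ∂gv (Fin n) ≤ exp (a + n * t / 2)) :
    (slE sv γ s fun _ y => exp (L y - lz γ y)) ≤
      exp (a - lz γ 0 + n * ((t - s) / 2 + √(t - s))) := by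
  rw [planted hγ hs hL]
  refine (mul_le_mul_of_nonneg_left ((shift_time hs hst (sqrt_nonneg _) hL).trans
    (mul_le_mul_of_nonneg_left ha (exp_pos _).le)) (exp_pos _).le).trans (le_of_eq ?_)
  rw [← exp_add, ← exp_add]
  congr 1
  have : √n * √n = (n : ℝ) := mul_self_sqrt (Nat.cast_nonneg n)
  linear_combination √(t - s) * this

/-- the cost that controls the size of the field -/
def szc (n : ℕ) (h : ℝ) (z : Fin n → ℝ) : ℝ := exp ((√h)⁻¹ * en z - (√h * √n + √n))

theorem mg_szc (h : ℝ) : MG (szc n h) := mg_exp ((Conc.elip_en.const_mul (√h)⁻¹).sub_const _)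

theorem slE_szc (hγ : Wt γ) (hh : 0 < h) : (slE sv γ h fun _ => szc n h) ≤ 2 := by
  rw [slE_eq_mean]
  refine hγ.mean_le fun x => ?_
  have h0 : 0 < √h := sqrt_pos.2 hh
  have h1 := Conc.mgf_lip (Conc.elip_en (ι := Fin n)) 1
  have h2 : exp ((1 : ℝ) ^ 2 * 1 ^ 2 / 2) ≤ 2 := by
    have := Real.exp_one_lt_d9
    have h3 : exp ((1 : ℝ) ^ 2 * 1 ^ 2 / 2) ^ 2 = exp 1 := by rw [← exp_nat_mul]; norm_num
    nlinarith [exp_pos ((1 : ℝ) ^ 2 * 1 ^ 2 / 2)]
  refine le_trans (integral_mono (((mg_szc h).affine _ _).int)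
    ((Conc.elip_en.sub_const _).integrable_exp 1) fun z => ?_) (h1.trans h2)
  refine exp_le_exp.2 ?_
  have h4 := Conc.en_add_le (h • sv x) (√h • z)
  rw [Conc.en_smul, Conc.en_smul, abs_of_pos hh, abs_of_pos h0, en_eq_nrm (sv x), nrm_sv] at h4
  have h5 := mul_le_mul_of_nonneg_left h4 (inv_pos.2 h0).le
  have h6 : (√h)⁻¹ * (h * √n + √h * en z) = √h * √n + en z := by
    nth_rewrite 2 [← mul_self_sqrt hh.le]
    field_simp
  have := int_en_le (n := n)
  linarith

theorem nrm_le_of_szc (hh : 0 < h) {z : Fin n → ℝ} {M : ℝ} (hz : szc n h z ≤ M) :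
    nrm z ≤ h * √n + √h * (√n + log M) := by
  have h0 : 0 < √h := sqrt_pos.2 hh
  have h1 := (le_log_iff_exp_le ((exp_pos _).trans_le hz)).2 hz
  have h2 := mul_le_mul_of_nonneg_left h1 h0.le
  rw [mul_sub, ← mul_assoc, mul_inv_cancel₀ h0.ne', one_mul, en_eq_nrm, mul_add, ← mul_assoc,
    mul_self_sqrt hh.le] at h2
  linarith

theorem mag_dot_le (hγ : Wt γ) : mag γ ⬝ᵥ mag γ ≤ n := by
  calc mag γ ⬝ᵥ mag γ ≤ ∑ _i : Fin n, (1 : ℝ) := Finset.sum_le_sum fun i _ => by
        have := hγ.abs_mean_le (f := fun x => sv x i) (c := 1) fun x => (abs_spin _).le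
        exact abs_le_one_iff_mul_self_le_one.1 this
    _ = n := by simp

theorem trc_eq (hγ : Wt γ) : trc sv γ = n - mag γ ⬝ᵥ mag γ := by
  have : ∀ i, covMat γ sv i i = 1 - mag γ i * mag γ i := fun i => by
    rw [covMat, hγ.cov_eq]
    simp only [sv, spin_mul_self, hγ.mean_const, mag, meanV]
  simp only [trc, this, Finset.sum_sub_distrib, dotProduct]
  simp

theorem trc_le (hγ : Wt γ) : trc sv γ ≤ n := by
  rw [trc_eq hγ]; linarith [dot_self_nonneg (mag γ)]

theorem mean_dist_eq (γ : Cube n → ℝ) :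
    (mean γ fun x => (sv x - mag γ) ⬝ᵥ (sv x - mag γ)) = trc sv γ := by
  simp only [dotProduct, mean_sum, trc, covMat, cov_eq_mean, Pi.sub_apply, mag, meanV]

theorem fr_post (γ : Cube n → ℝ) (s : ℝ) (y : Fin n → ℝ) :
    fr sv (post sv γ s y) = fr sv (tilt γ y) := by
  simp only [fr, covMat_post_sv, covM]

theorem trc_post (γ : Cube n → ℝ) (s : ℝ) (y : Fin n → ℝ) :
    trc sv (post sv γ s y) = trc sv (tilt γ y) := by
  simp only [trc, covMat_post_sv, covM]

theorem slE_post (γ : Cube n → ℝ) (s : ℝ) (y : Fin n → ℝ) (h : ℝ)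
    (F : Cube n → (Fin n → ℝ) → ℝ) : slE sv (post sv γ s y) h F = slE sv (tilt γ y) h F := by
  simp only [slE, prob_post_sv]

/-- the overlap with a fixed vector -/
def ovc (γ : Cube n → ℝ) (u z : Fin n → ℝ) : ℝ := (u ⬝ᵥ (mag (tilt γ z) - mag γ)) ^ 2

theorem ovc_eq (γ : Cube n → ℝ) (u : Fin n → ℝ) (h : ℝ) : ovc γ u = fun z =>
    (mean (post sv γ h z) (fun x => u ⬝ᵥ sv x) - mean γ fun x => u ⬝ᵥ sv x) ^ 2 := by
  funext z
  rw [ovc, dotProduct_sub, mag, mag, meanV_dot, meanV_dot, mean_post_sv]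

theorem mg_ovc (hγ : Wt γ) (u : Fin n → ℝ) : MG (ovc γ u) := by
  rw [ovc_eq γ u 0]
  have := (mg_mean (φ := sv) hγ 0 fun x => MG.const (u ⬝ᵥ sv x)).sub
    (MG.const (mean γ fun x => u ⬝ᵥ sv x))
  simpa only [sq] using this.mul this

theorem slE_ovc (hγ : Wt γ) (hh : 0 ≤ h) (u : Fin n → ℝ) :
    (slE sv γ h fun _ => ovc γ u) ≤ u ⬝ᵥ covM γ *ᵥ u := by
  rw [ovc_eq γ u h, covM, covMat_quad, ← var_eq_cov]
  exact slE_mean_sq_le hγ hh _

theorem sign_err (b : Bool) (u : ℝ) :
    (spin b - spin (decide (0 ≤ u))) ^ 2 ≤ 4 * exp (-(spin b * u)) := by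
  have e0 := exp_pos (-(spin b * u))
  have e1 := add_one_le_exp (-(spin b * u))
  generalize exp (-(spin b * u)) = E at e0 e1 ⊢
  by_cases hy : 0 ≤ u
  · cases b <;> simp only [hy, spin, decide_true] at e1 ⊢ <;> norm_num at e1 ⊢ <;> linarith
  · have := not_le.1 hy
    cases b <;> simp only [hy, spin, decide_false] at e1 ⊢ <;> norm_num at e1 ⊢ <;> linarith

/-- **scalar channel** -/
theorem slE_trc (hγ : Wt γ) (hs : 0 ≤ s) :
    (slE sv γ s fun _ y => trc sv (tilt γ y)) ≤ 4 * n * exp (-(s / 2)) := by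
  have hm : ∀ (i : Fin n) (x : Cube n), MG fun y : Fin n → ℝ => 4 * exp (-(sv x i * y i)) := by
    intro i x
    have := mg_exp (Conc.elip_dot (Pi.single i (-(sv x i)) : Fin n → ℝ))
    refine MG.const_mul 4 ?_
    simpa [Pi.single_apply] using this
  have h1 : (slE sv γ s fun _ y => trc sv (tilt γ y)) ≤ slE sv γ s fun _ y =>
      mean (post sv γ s y) fun x => ∑ i, 4 * exp (-(sv x i * y i)) := by
    refine slE_mono hγ (.of_mg fun _ => by simpa only [trc_post] using mg_trc (φ := sv) hγ s)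
      (.of_mg fun _ => mg_mean hγ s fun x => MG.sum _ fun i _ => hm i x) fun _ y => ?_
    rw [← trc_post γ s, mean_sum]
    refine Finset.sum_le_sum fun i _ => ?_
    have hp := hγ.post sv s y
    refine (var_eq_cov _ _).symm.trans_le ((hp.var_le_mean _ (spin (decide (0 ≤ y i)))).trans
      (hp.mean_mono fun x => ?_))
    exact sign_err (x i) (y i)
  rw [← bayes hγ hs (.of_mg fun x => MG.sum _ fun i _ => hm i x), slE_eq_mean] at h1
  refine h1.trans (hγ.mean_le fun x => le_of_eq ?_)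
  rw [integral_finsetSum _ fun i _ => ((hm i x).affine _ _).int]
  have : ∀ i, ∫ z, 4 * exp (-(sv x i * (s • sv x + √s • z) i)) ∂Gs (Fin n) =
      4 * exp (-(s / 2)) := fun i => by
    have c := cm (Pi.single i (-(√s * sv x i)) : Fin n → ℝ) fun _ => exp (-(s / 2))
    rw [integral_const_mul]
    simp only [integral_const, probReal_univ, smul_eq_mul, one_mul] at c
    rw [c]
    congr 2
    funext z
    rw [← exp_add]
    congr 1
    have a1 : sv x i * sv x i = 1 := spin_mul_self _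
    have a2 : √s * √s = s := mul_self_sqrt hs
    simp only [dotProduct_single, Pi.single_eq_same, Pi.add_apply, Pi.smul_apply, smul_eq_mul]
    linear_combination (-s + √s * √s / 2) * a1 + 1 / 2 * a2
  simp only [this, Finset.sum_const, Finset.card_univ, Fintype.card_fin, nsmul_eq_mul]
  ring

/-- relative entropy of the posterior of a dominated law -/
theorem kl_tilt_le (hγ : Wt γ) (hμ : ∀ x, 0 < μ x) {Λ : ℝ}
    (h : ∀ x, prob γ x ≤ exp Λ * prob μ x) (y : Fin n → ℝ) :
    kl (tilt γ y) (tilt μ y) ≤ Λ + (lz μ y - lz μ 0) - (lz γ y - lz γ 0) := by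
  have hμ' : Wt μ := Wt.of_pos hμ
  have hp := hγ.tilt y
  rw [← hp.mean_const (Λ + (lz μ y - lz μ 0) - (lz γ y - lz γ 0))]
  refine Finset.sum_le_sum fun x _ => ?_
  rcases (hγ.nn x).eq_or_lt with h0 | h0
  · simp [prob, tilt, ← h0]
  refine mul_le_mul_of_nonneg_left ?_ (hp.prob_nonneg x)
  have a1 := hp.pos
  have a2 := (hμ'.tilt y).pos
  have a3 := hγ.pos
  have a4 := hμ'.pos
  have a5 := hμ x
  have e : prob (tilt γ y) x / prob (tilt μ y) x = prob γ x / prob μ x *
      exp (lz μ y - lz μ 0 - (lz γ y - lz γ 0)) := by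
    simp only [exp_sub, exp_lz hγ, exp_lz hμ', tilt_zero, Zw, prob]
    simp only [tilt] at a1 a2 ⊢
    field_simp
  have b1 : 0 < prob μ x := div_pos a5 a4
  have b2 : 0 < prob γ x := div_pos h0 a3
  beta_reduce
  rw [e, log_le_iff_le_exp (mul_pos (div_pos b2 b1) (exp_pos _)), add_sub_assoc, exp_add]
  exact mul_le_mul_of_nonneg_right ((div_le_iff₀ b1).2 (h x)) (exp_pos _).le

/-- a vertex of the support that is close to the barycentre -/
theorem exists_vertex (hγ : Wt γ) (y : Fin n → ℝ) : ∃ x, 0 < γ x ∧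
    (sv x - mag (tilt γ y)) ⬝ᵥ (sv x - mag (tilt γ y)) ≤ trc sv (tilt γ y) := by
  have hp := hγ.tilt y
  by_contra hc
  push Not at hc
  have h1 : 0 < mean (tilt γ y) fun x => (if 0 < γ x then (sv x - mag (tilt γ y)) ⬝ᵥ
      (sv x - mag (tilt γ y)) - trc sv (tilt γ y) else 0) := by
    rw [hp.mean_pos_iff fun x => by split_ifs with h; exacts [(sub_pos.2 (hc x h)).le, le_rfl]]
    obtain ⟨x, hx⟩ := hγ.exists_pos
    exact ⟨x, mul_pos hx (exp_pos _), by rw [if_pos hx]; exact sub_pos.2 (hc x hx)⟩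
  have h2 : (mean (tilt γ y) fun x => (if 0 < γ x then (sv x - mag (tilt γ y)) ⬝ᵥ
      (sv x - mag (tilt γ y)) - trc sv (tilt γ y) else 0)) = mean (tilt γ y) fun x =>
      (sv x - mag (tilt γ y)) ⬝ᵥ (sv x - mag (tilt γ y)) - trc sv (tilt γ y) := by
    refine Finset.sum_congr rfl fun x _ => ?_
    beta_reduce
    split_ifs with h
    · rfl
    · have : γ x = 0 := le_antisymm (not_lt.1 h) (hγ.nn x)
      simp [prob, tilt, this]
  rw [h2, mean_sub, mean_dist_eq, hp.mean_const, sub_self] at h1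
  exact lt_irrefl _ h1

end Crest.Agent.T157.Sla

end
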