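import Crest.Agent.T157.SlaB_4

/-!
# Row 157, part D (helper4): the good path of the stochastic localisation on the cube
-/

set_option autoImplicit false
set_option linter.unusedSectionVars false

noncomputable section

namespace Crest.Agent.T157.Sla

open MeasureTheory ProbabilityTheory Filter Topology Set Real Matrix
open Crest.Agent.T157.E Crest.Agent.T157.SL
open Crest.Agent.T157.Conc (en ELip)
open Crest.Agent.T157.Eig (nrm nrm_nonneg nrm_add_le nrm_smul nrm_sq)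

variable {n : ℕ} {γ : Cube n → ℝ}

/-- a good path: times `s k`, fields `y k`, posteriors `tilt γ (y k)` -/
structure Path {κ : Type*} (γ : Cube n → ℝ) (Δ : ℝ) (K : ℕ) (M : ℝ)
    (L : κ → (Fin n → ℝ) → ℝ) (T a : κ → ℝ) (s : ℕ → ℝ) (y : ℕ → Fin n → ℝ) : Prop where
  s0 : s 0 = 0
  y0 : y 0 = 0
  win : ∀ k, (2 * k - 1) * Δ ≤ s k ∧ s k ≤ 2 * k * Δ
  pure : ∀ k ≤ K, k ≠ 0 → fr sv (tilt γ (y k)) ≤ M * (n / Δ)
  size : ∀ k ≤ K, nrm (y k) ≤ s k * √n + √(s k) * (√n + log M)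
  incr : ∀ k < K, nrm (y (k + 1) - y k) ≤ 3 * Δ * √n + √(3 * Δ) * (√n + log M)
  ovl : ∀ k < K, (mag (tilt γ (y k)) ⬝ᵥ (mag (tilt γ (y (k + 1))) - mag (tilt γ (y k)))) ^ 2 ≤
    M * (mag (tilt γ (y k)) ⬝ᵥ covM (tilt γ (y k)) *ᵥ mag (tilt γ (y k)) + 1)
  plant : ∀ k ≤ K, ∀ i, s k ≤ T i → L i (y k) ≤ lz γ (y k) - lz γ 0 + a i +
    n * ((T i - s k) / 2 + √(T i - s k)) + log M
  last : trc sv (tilt γ (y K)) ≤ 20 * n * exp (-(s K / 2))

theorem exists_times (hγ : Wt γ) {Δ : ℝ} (hΔ : 0 < Δ) : ∃ s : ℕ → ℝ, s 0 = 0 ∧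
    (∀ k : ℕ, (2 * k - 1) * Δ ≤ s k ∧ s k ≤ 2 * k * Δ) ∧
    ∀ k ≠ 0, (slE sv γ (s k) fun _ y => fr sv (tilt γ y)) ≤ n / Δ := by
  have h : ∀ k : ℕ, ∃ r ∈ Icc ((2 * (k + 1 : ℕ) - 1) * Δ) (2 * (k + 1 : ℕ) * Δ),
      (slE sv γ r fun _ y => fr sv (tilt γ y)) ≤ n / Δ := fun k => by
    have hk : (0 : ℝ) ≤ k := Nat.cast_nonneg k
    obtain ⟨r, hr, h⟩ := exists_good (φ := sv) hγ (fun u hu => trc_le hu)
      (s := (2 * (k + 1 : ℕ) - 1) * Δ) (t := 2 * (k + 1 : ℕ) * Δ)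
      (by push_cast; nlinarith) (by linarith)
    refine ⟨r, hr, ?_⟩
    simp only [fr_post] at h
    rwa [show 2 * ((k + 1 : ℕ) : ℝ) * Δ - (2 * (k + 1 : ℕ) - 1) * Δ = Δ by ring] at h
  choose r hr hr' using h
  refine ⟨fun k => Nat.casesOn k 0 r, rfl, fun k => ?_, fun k hk => ?_⟩
  · cases k with
    | zero => simp [hΔ.le]
    | succ k => exact hr k
  · cases k with
    | zero => exact absurd rfl hk
    | succ k => exact hr' k

theorem le_of_sum_le {N : ℕ} {f : ℕ → ℝ} {c B : ℝ} (hf : ∀ k, 0 ≤ f k) (hc : 0 ≤ c)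
    (h : ∑ k ∈ Finset.range N, f k + c ≤ B) {k : ℕ} (hk : k < N) : f k ≤ B := by
  have := Finset.single_le_sum (f := f) (fun k _ => hf k) (Finset.mem_range.2 hk)
  linarith

/-- **existence of a good path** -/
theorem exists_path {κ : Type*} [Fintype κ] (hγ : Wt γ) (hn : 0 < n) {Δ : ℝ} (hΔ : 0 < Δ) (K : ℕ)
    {L : κ → (Fin n → ℝ) → ℝ} {T a : κ → ℝ} (hL : ∀ i, ELip (√n) (L i))
    (ha : ∀ i, ∫ z, exp (L i (√(T i) • z)) ∂gv (Fin n) ≤ exp (a i + n * T i / 2)) :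
    ∃ s y, Path γ Δ K (10 * ((K + 1) * (Fintype.card κ + 1))) L T a s y := by
  obtain ⟨s, s0, win, hs⟩ := exists_times hγ hΔ
  have gap : ∀ k, Δ ≤ s (k + 1) - s k ∧ s (k + 1) - s k ≤ 3 * Δ := fun k => by
    have h1 := win k
    have h2 := win (k + 1)
    push_cast at h2
    constructor <;> nlinarith [h1.1, h1.2, h2.1, h2.2]
  have mono : Monotone s := monotone_nat_of_le_succ fun k => by linarith [(gap k).1]
  have sn : ∀ k, 0 ≤ s k := fun k => s0 ▸ mono (Nat.zero_le k)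
  have sp : ∀ k ≠ 0, 0 < s k := fun k hk => by
    obtain ⟨k, rfl⟩ := Nat.exists_eq_succ_of_ne_zero hk
    linarith [(gap k).1, sn k]
  have hn' : (0 : ℝ) < n := Nat.cast_pos.2 hn
  set W : ℝ := (K + 1) * (Fintype.card κ + 1) with hW
  have hc : (0 : ℝ) ≤ Fintype.card κ := Nat.cast_nonneg _
  have hK : (0 : ℝ) ≤ K := Nat.cast_nonneg _
  have W1 : 1 ≤ W := by nlinarith
  have W0 : 0 < W := by linarith
  -- the costs
  set c1 : ℕ → (Fin n → ℝ) → ℝ := fun k y =>
    (if k = 0 then 0 else (n / Δ)⁻¹) * fr sv (tilt γ y) with hc1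
  set b5 : ℕ → κ → ℝ := fun k i => a i - lz γ 0 + n * ((T i - s k) / 2 + √(T i - s k)) with hb5
  set c5 : ℕ → κ → (Fin n → ℝ) → ℝ := fun k i y =>
    (if s k ≤ T i then exp (-b5 k i) else 0) * exp (L i y - lz γ y) with hc5
  set c6 : ℕ → (Fin n → ℝ) → ℝ := fun k y =>
    (if k = K then (4 * n * exp (-(s K / 2)))⁻¹ else 0) * trc sv (tilt γ y) with hc6
  set D : (Fin n → ℝ) → ℝ := fun y => mag (tilt γ y) ⬝ᵥ covM (tilt γ y) *ᵥ mag (tilt γ y) + 1
    with hD
  have D0 : ∀ y, 0 < D y := fun y => by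
    have := (hγ.tilt y).covMat_quad_nonneg sv (mag (tilt γ y))
    exact add_pos_of_nonneg_of_pos this one_pos
  have m1 : ∀ k, MG (c1 k) := fun k =>
    MG.const_mul _ (by simpa only [fr_post] using mg_fr (φ := sv) hγ 0)
  have m5 : ∀ k i, MG (c5 k i) := fun k i => MG.const_mul _ (mg_planted hγ (hL i))
  have m6 : ∀ k, MG (c6 k) := fun k =>
    MG.const_mul _ (by simpa only [trc_post] using mg_trc (φ := sv) hγ 0)
  have p1 : ∀ k y, 0 ≤ c1 k y := fun k y =>
    mul_nonneg (by split_ifs <;> positivity) (fr_nonneg _ _)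
  have p5 : ∀ k i y, 0 ≤ c5 k i y := fun k i y =>
    mul_nonneg (by split_ifs <;> positivity) (exp_pos _).le
  have p6 : ∀ k y, 0 ≤ c6 k y := fun k y =>
    mul_nonneg (by split_ifs <;> positivity) (trc_nonneg (hγ.tilt y))
  have p3 : ∀ h z, 0 ≤ szc n h z := fun h z => (exp_pos _).le
  have e1 : ∀ k, (slE sv γ (s k) fun _ => c1 k) ≤ 1 := fun k => by
    rw [hc1, slE_const_mul]
    split_ifs with h
    · simp
    · rw [inv_mul_le_iff₀ (by positivity), mul_one]; exact hs k h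
  have e3 : ∀ k, (slE sv γ (s k) fun _ => szc n (s k)) ≤ 2 := fun k => by
    by_cases h : k = 0
    · rw [h, s0, slE_zero, hγ.mean_const, szc]
      refine le_trans (exp_le_one_iff.2 ?_) one_le_two
      simp
    · exact slE_szc hγ (sp k h)
  have e5 : ∀ k i, (slE sv γ (s k) fun _ => c5 k i) ≤ 1 := fun k i => by
    rw [hc5, slE_const_mul]
    split_ifs with h
    · rw [exp_neg, inv_mul_le_iff₀ (exp_pos _), mul_one]
      exact planted_le hγ (sn k) h (hL i) (ha i)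
    · simp
  have e6 : ∀ k, (slE sv γ (s k) fun _ => c6 k) ≤ if k = K then 1 else 0 := fun k => by
    rw [hc6, slE_const_mul]
    split_ifs with h
    · rw [inv_mul_le_iff₀ (by positivity), mul_one, h]; exact slE_trc hγ (sn K)
    · simp
  have mF : ∀ k, MG fun y => c1 k y + (2⁻¹ * szc n (s k) y + ∑ i, c5 k i y) := fun k =>
    (m1 k).add (((mg_szc _).const_mul _).add (MG.sum _ fun i _ => m5 k i))
  obtain ⟨y, y0, hy⟩ := path (φ := sv) K γ hγ s s0 mono
    (fun k y => W⁻¹ * (c1 k y + (2⁻¹ * szc n (s k) y + ∑ i, c5 k i y)) + c6 k y)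
    (fun k => ((mF k).const_mul _).add (m6 k))
    (fun k y z => W⁻¹ * (2⁻¹ * szc n (s (k + 1) - s k) z +
      (D y)⁻¹ * ovc (tilt γ y) (mag (tilt γ y)) z))
    (fun k y => (((mg_szc _).const_mul _).add ((mg_ovc (hγ.tilt y) _).const_mul _)).const_mul _)
    (fun _ => W⁻¹ * 2) fun k _ y => by
      have h0 : 0 < s (k + 1) - s k := hΔ.trans_le (gap k).1
      rw [slE_post, slE_const_mul, slE_add (.of_mg fun _ => (mg_szc _).const_mul _)
        (.of_mg fun _ => (mg_ovc (hγ.tilt y) _).const_mul _), slE_const_mul, slE_const_mul]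
      refine mul_le_mul_of_nonneg_left ?_ (inv_pos.2 W0).le
      have a1 := slE_szc (hγ.tilt y) h0
      have a2 : (D y)⁻¹ * (slE sv (tilt γ y) (s (k + 1) - s k) fun _ =>
          ovc (tilt γ y) (mag (tilt γ y))) ≤ 1 := by
        rw [inv_mul_le_iff₀ (D0 y), mul_one]
        exact (slE_ovc (hγ.tilt y) h0.le _).trans (le_add_of_nonneg_right zero_le_one)
      linarith
  have hB : ∑ k ∈ Finset.range (K + 1), (slE sv γ (s k) fun _ y =>
      W⁻¹ * (c1 k y + (2⁻¹ * szc n (s k) y + ∑ i, c5 k i y)) + c6 k y) +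
      ∑ _k ∈ Finset.range K, W⁻¹ * 2 ≤ 5 := by
    have a1 : ∀ k, (slE sv γ (s k) fun _ y =>
        W⁻¹ * (c1 k y + (2⁻¹ * szc n (s k) y + ∑ i, c5 k i y)) + c6 k y) ≤
        W⁻¹ * (2 + Fintype.card κ) + if k = K then 1 else 0 := fun k => by
      rw [slE_add (.of_mg fun _ => (mF k).const_mul _) (.of_mg fun _ => m6 k), slE_const_mul,
        slE_add (.of_mg fun _ => m1 k) (.of_mg fun _ =>
          ((mg_szc _).const_mul _).add (MG.sum _ fun i _ => m5 k i)),
        slE_add (.of_mg fun _ => (mg_szc _).const_mul _)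
          (.of_mg fun _ => MG.sum _ fun i _ => m5 k i), slE_const_mul 2⁻¹,
        slE_sum _ fun i _ => .of_mg fun _ => m5 k i]
      refine add_le_add (mul_le_mul_of_nonneg_left ?_ (inv_pos.2 W0).le) (e6 k)
      have a2 := Finset.sum_le_sum (s := Finset.univ) fun i _ => e5 k i
      simp only [Finset.sum_const, Finset.card_univ, nsmul_eq_mul, mul_one] at a2
      linarith [e1 k, e3 k]
    refine (add_le_add_left (Finset.sum_le_sum fun k _ => a1 k) _).trans ?_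
    rw [Finset.sum_add_distrib, Finset.sum_ite_eq' (Finset.range (K + 1)) K fun _ => (1 : ℝ)]
    simp only [Finset.sum_const, Finset.card_range, nsmul_eq_mul, Finset.mem_range,
      Nat.lt_succ_self, if_true]
    push_cast
    have a3 : ((K : ℝ) + 1) * (W⁻¹ * (2 + Fintype.card κ)) ≤ 2 := by
      rw [mul_left_comm, inv_mul_le_iff₀ W0, hW]; nlinarith
    have a4 : (K : ℝ) * (W⁻¹ * 2) ≤ 2 := by
      rw [mul_left_comm, inv_mul_le_iff₀ W0, hW]; nlinarith
    linarith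
  replace hy := hy.trans hB
  have pF : ∀ k, 0 ≤ c1 k (y k) + (2⁻¹ * szc n (s k) (y k) + ∑ i, c5 k i (y k)) := fun k =>
    add_nonneg (p1 _ _) (add_nonneg (mul_nonneg (by norm_num) (p3 _ _))
      (Finset.sum_nonneg fun i _ => p5 _ _ _))
  have pG : ∀ k, 0 ≤ (D (y k))⁻¹ * ovc (tilt γ (y k)) (mag (tilt γ (y k))) (y (k + 1) - y k) :=
    fun k => mul_nonneg (inv_pos.2 (D0 _)).le (sq_nonneg _)
  have pG' : ∀ k, 0 ≤ W⁻¹ * (2⁻¹ * szc n (s (k + 1) - s k) (y (k + 1) - y k) +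
      (D (y k))⁻¹ * ovc (tilt γ (y k)) (mag (tilt γ (y k))) (y (k + 1) - y k)) := fun k =>
    mul_nonneg (inv_pos.2 W0).le (add_nonneg (mul_nonneg (by norm_num) (p3 _ _)) (pG k))
  have pF' : ∀ k, 0 ≤ W⁻¹ * (c1 k (y k) + (2⁻¹ * szc n (s k) (y k) + ∑ i, c5 k i (y k))) +
      c6 k (y k) := fun k => add_nonneg (mul_nonneg (inv_pos.2 W0).le (pF k)) (p6 _ _)
  have hF := fun k (hk : k ≤ K) => le_of_sum_le pF' (Finset.sum_nonneg fun k _ => pG' k) hy
    (Nat.lt_succ_of_le hk)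
  have hG := fun k (hk : k < K) => le_of_sum_le pG' (Finset.sum_nonneg fun k _ => pF' k)
    ((add_comm _ _).trans_le hy) hk
  have hF' : ∀ k ≤ K, c1 k (y k) + (2⁻¹ * szc n (s k) (y k) + ∑ i, c5 k i (y k)) ≤ W * 5 :=
    fun k hk => (inv_mul_le_iff₀ W0).1 (le_trans (le_add_of_nonneg_right (p6 _ _)) (hF k hk))
  have hG' := fun k (hk : k < K) => (inv_mul_le_iff₀ W0).1 (hG k hk)
  have l0 : 0 ≤ log (10 * W) := log_nonneg (by linarith)
  refine ⟨s, y, s0, y0, win, fun k hk h0 => ?_, fun k hk => ?_, fun k hk => ?_, fun k hk => ?_,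
    fun k hk i hi => ?_, ?_⟩
  · have a1 : c1 k (y k) ≤ 10 * W := by
      have := hF' k hk
      have := p3 (s k) (y k)
      have := Finset.sum_nonneg (s := Finset.univ) fun i _ => p5 k i (y k)
      linarith
    simp only [hc1, if_neg h0] at a1
    rwa [inv_mul_le_iff₀ (by positivity), mul_comm] at a1
  · by_cases h0 : k = 0
    · simp [h0, y0, s0]
    refine nrm_le_of_szc (sp k h0) ?_
    have := hF' k hk
    have := p1 k (y k)
    have := Finset.sum_nonneg (s := Finset.univ) fun i _ => p5 k i (y k)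
    linarith
  · have h0 : 0 < s (k + 1) - s k := hΔ.trans_le (gap k).1
    refine (nrm_le_of_szc h0 (M := 10 * W) (by linarith [hG' k hk, pG k])).trans ?_
    gcongr
    exacts [(gap k).2, (gap k).2]
  · have a1 : (D (y k))⁻¹ * ovc (tilt γ (y k)) (mag (tilt γ (y k))) (y (k + 1) - y k) ≤
        10 * W := by linarith [hG' k hk, p3 (s (k + 1) - s k) (y (k + 1) - y k)]
    rwa [inv_mul_le_iff₀ (D0 _), ovc, tilt_tilt, add_sub_cancel, mul_comm] at a1
  · have a1 : c5 k i (y k) ≤ 10 * W := by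
      have := hF' k hk
      have := p3 (s k) (y k)
      have := p1 k (y k)
      have := Finset.single_le_sum (f := fun i => c5 k i (y k)) (fun i _ => p5 k i (y k))
        (Finset.mem_univ i)
      linarith
    simp only [hc5, if_pos hi] at a1
    rw [← exp_add, ← le_log_iff_exp_le (by linarith)] at a1
    simp only [hb5] at a1
    linarith
  · have a1 : c6 K (y K) ≤ 5 :=
      le_trans (le_add_of_nonneg_left (mul_nonneg (inv_pos.2 W0).le (pF K))) (hF K le_rfl)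
    simp only [hc6, if_true] at a1
    rw [inv_mul_le_iff₀ (by positivity)] at a1
    linarith

end Crest.Agent.T157.Sla

end
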