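import Crest.Agent.T157.SlaC_4

/-!
# Row 157, part D (helper4): the good path, sharp bookkeeping
-/

set_option autoImplicit false
set_option linter.unusedSectionVars false

noncomputable section

namespace Crest.Agent.T157.Sla

open MeasureTheory ProbabilityTheory Filter Topology Set Real Matrix
open Crest.Agent.T157.E Crest.Agent.T157.SL
open Crest.Agent.T157.Conc (en ELip)
open Crest.Agent.T157.Eig (nrm nrm_nonneg nrm_add_le nrm_smul nrm_sq)
open Crest.Agent.T157.Nrm (en_eq_nrm)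
open Crest.ProbabilityR.SpinGlassDynamics (spin)

section general
variable {Ω ι : Type*} [Fintype Ω] [Fintype ι] [DecidableEq ι] {φ : Ω → ι → ℝ} {v w f : Ω → ℝ}
  {s t : ℝ}

theorem ex_trc_anti (hw : Wt w) (hs : 0 ≤ s) (hst : s ≤ t) :
    ex φ w (fun p => trc φ (pw φ w p)) t ≤ ex φ w (fun p => trc φ (pw φ w p)) s := by
  have h := ex_trc_sub (φ := φ) hw hs hst
  have h0 : 0 ≤ ∫ r in s..t, ex φ w (fun p => fr φ (pw φ w p)) r :=
    intervalIntegral.integral_nonneg hst fun r _ => ex_nonneg hw fun _ => fr_nonneg _ _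
  linarith

/-- good times, with the exact budget -/
theorem exists_good' (hw : Wt w) (hs : 0 ≤ s) (hst : s < t) :
    ∃ r ∈ Icc s t, (slE φ w r fun _ y => fr φ (post φ w r y)) * (t - s) ≤
      ex φ w (fun p => trc φ (pw φ w p)) s - ex φ w (fun p => trc φ (pw φ w p)) t := by
  have hc := (eg_fr (φ := φ) hw (Icc s t)).continuousOn_ex (φ := φ) (v := w)
  obtain ⟨r, hr, hm⟩ := isCompact_Icc.exists_isMinOn (nonempty_Icc.2 hst.le) hc
  refine ⟨r, hr, ?_⟩
  have h1 := intervalIntegral.integral_mono_on hst.le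
    (intervalIntegrable_const (μ := volume) (c := ex φ w (fun p => fr φ (pw φ w p)) r))
    (hc.intervalIntegrable_of_Icc hst.le) fun x hx => hm hx
  rw [intervalIntegral.integral_const, smul_eq_mul, ← ex_trc_sub hw hs hst.le, mul_comm] at h1
  exact h1

/-- a point of the support below the mean -/
theorem exists_le_mean (hw : Wt w) (f : Ω → ℝ) : ∃ x, 0 < w x ∧ f x ≤ mean w f := by
  by_contra hc
  push Not at hc
  have h1 : 0 < mean w fun x => (if 0 < w x then f x - mean w f else 0) := by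
    rw [hw.mean_pos_iff fun x => by split_ifs with h; exacts [(sub_pos.2 (hc x h)).le, le_rfl]]
    obtain ⟨x, hx⟩ := hw.exists_pos
    exact ⟨x, hx, by rw [if_pos hx]; exact sub_pos.2 (hc x hx)⟩
  have h2 : (mean w fun x => (if 0 < w x then f x - mean w f else 0)) =
      mean w fun x => f x - mean w f := by
    refine Finset.sum_congr rfl fun x _ => ?_
    beta_reduce
    split_ifs with h
    · rfl
    · have : w x = 0 := le_antisymm (not_lt.1 h) (hw.nn x)
      simp [prob, this]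
  rw [h2, mean_sub, hw.mean_const, sub_self] at h1
  exact lt_irrefl _ h1

end general

variable {n : ℕ} {γ : Cube n → ℝ} {h : ℝ}

/-- variance of the overlap with the barycentre -/
def mcm (γ : Cube n → ℝ) : ℝ := mag γ ⬝ᵥ covM γ *ᵥ mag γ

theorem mcm_nonneg (hγ : Wt γ) : 0 ≤ mcm γ := hγ.covMat_quad_nonneg sv _

theorem mcm_le (hγ : Wt γ) : mcm γ ≤ n * √(fr sv γ) :=
  (quad_le_fr γ _).trans ((mul_le_mul_of_nonneg_left (mag_dot_le hγ) (sqrt_nonneg _)).trans_eq
    (mul_comm _ _))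

theorem mcm_eq (γ : Cube n → ℝ) :
    mcm γ = mean γ fun x => (sv x ⬝ᵥ mag γ - mag γ ⬝ᵥ mag γ) ^ 2 := by
  have a2 : (mean γ fun x => mag γ ⬝ᵥ sv x) = mag γ ⬝ᵥ mag γ := by rw [← meanV_dot]; rfl
  rw [mcm, covM, covMat_quad, cov_eq_mean, a2]
  simp only [sq, dotProduct_comm (sv _)]

theorem mg_mcm (hγ : Wt γ) : MG fun y => mcm (tilt γ y) := by
  have h : EG univ fun p : Pt (Fin n) => ∑ i, md sv γ i p * ∑ j,
      cov (pw sv γ p) (fun x => sv x i) (fun x => sv x j) * md sv γ j p :=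
    EG.sum _ fun i _ => (eg_md hγ i).mul (EG.sum _ fun j _ => (eg_cov hγ _ _).mul (eg_md hγ j))
  have h2 := h.mg (mem_univ 0)
  simp only [md_sv, cov_post_sv] at h2
  exact h2

theorem fr_le (hγ : Wt γ) : fr sv γ ≤ (n : ℝ) ^ 2 := by
  have hv : ∀ i, var γ (fun x => sv x i) ≤ 1 := fun i =>
    (hγ.var_le_mean _ 0).trans (hγ.mean_le fun x => by simp [sv, spin_sq])
  calc fr sv γ ≤ ∑ _i : Fin n, ∑ _j : Fin n, (1 : ℝ) :=
        Finset.sum_le_sum fun i _ => Finset.sum_le_sum fun j _ =>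
          (hγ.cov_sq_le _ _).trans (mul_le_one₀ (hv i) (hγ.var_nonneg _) (hv j))
    _ = _ := by simp [sq]

/-- the cost that controls the size of the field, Gaussian tails -/
def szg (n : ℕ) (h : ℝ) (z : Fin n → ℝ) : ℝ :=
  exp (√n * ((√h)⁻¹ * en z) - (√n * (√h * √n + √n) + n / 2))

theorem mg_szg (h : ℝ) : MG (szg n h) :=
  mg_exp (((Conc.elip_en.const_mul (√h)⁻¹).const_mul √n).sub_const _)

theorem slE_szg (hγ : Wt γ) (hh : 0 < h) : (slE sv γ h fun _ => szg n h) ≤ 1 := by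
  rw [slE_eq_mean]
  refine hγ.mean_le fun x => ?_
  have h0 : 0 < √h := sqrt_pos.2 hh
  have h1 := Conc.mgf_lip (Conc.elip_en (ι := Fin n)) √n
  rw [one_pow, one_mul, sq_sqrt (Nat.cast_nonneg n)] at h1
  have h2 := mul_le_mul_of_nonneg_left h1 (exp_pos (-((n : ℝ) / 2))).le
  rw [← exp_add, neg_add_cancel, exp_zero, ← integral_const_mul] at h2
  refine le_trans (integral_mono (((mg_szg h).affine _ _).int)
    (((Conc.elip_en.sub_const _).integrable_exp √n).const_mul _) fun z => ?_) h2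
  simp only [szg]
  rw [← exp_add]
  refine exp_le_exp.2 ?_
  have h4 := Conc.en_add_le (h • sv x) (√h • z)
  rw [Conc.en_smul, Conc.en_smul, abs_of_pos hh, abs_of_pos h0, en_eq_nrm (sv x), nrm_sv] at h4
  have h5 := mul_le_mul_of_nonneg_left h4 (inv_pos.2 h0).le
  have h6 : (√h)⁻¹ * (h * √n + √h * en z) = √h * √n + en z := by
    nth_rewrite 2 [← mul_self_sqrt hh.le]
    field_simp
  have h7 := mul_le_mul_of_nonneg_left (int_en_le (n := n)) (sqrt_nonneg (n : ℝ))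
  have h8 := mul_le_mul_of_nonneg_left (h5.trans_eq h6) (sqrt_nonneg (n : ℝ))
  linarith

theorem nrm_le_of_szg (hn : 0 < n) (hh : 0 < h) {z : Fin n → ℝ} {M : ℝ} (hz : szg n h z ≤ M) :
    nrm z ≤ (h + √h * (3 / 2 + log M / n)) * √n := by
  have h0 : 0 < √h := sqrt_pos.2 hh
  have hn' : (0 : ℝ) < n := Nat.cast_pos.2 hn
  have n0 : 0 < √(n : ℝ) := sqrt_pos.2 hn'
  have h1 := (le_log_iff_exp_le ((exp_pos _).trans_le hz)).2 hz
  have e1 : √h * √h = h := mul_self_sqrt hh.le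
  have e2 : √(n : ℝ) * √n = n := mul_self_sqrt hn'.le
  rw [← en_eq_nrm, ← mul_le_mul_iff_right₀ (mul_pos n0 (inv_pos.2 h0))]
  have e3 : √(n : ℝ) * (√h)⁻¹ * ((h + √h * (3 / 2 + log M / n)) * √n) =
      √n * (√h * √n + √n) + n / 2 + log M := by
    generalize √h = a at *
    generalize √(n : ℝ) = b at *
    rw [← e1, ← e2]
    field_simp
    ring
  rw [e3]
  linarith

theorem exists_times' (hγ : Wt γ) {Δ : ℝ} (hΔ : 0 < Δ) : ∃ s : ℕ → ℝ, s 0 = 0 ∧
    (∀ k : ℕ, (2 * k - 1) * Δ ≤ s k ∧ s k ≤ 2 * k * Δ) ∧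
    ∀ K, ∑ k ∈ Finset.range K, (slE sv γ (s (k + 1)) fun _ y => fr sv (tilt γ y)) ≤ n / Δ := by
  set u : ℝ → ℝ := ex sv γ fun p => trc sv (pw sv γ p) with hu
  have h : ∀ k : ℕ, ∃ r ∈ Icc ((2 * (k + 1 : ℕ) - 1) * Δ) (2 * (k + 1 : ℕ) * Δ),
      (slE sv γ r fun _ y => fr sv (tilt γ y)) * Δ ≤
        u (2 * k * Δ) - u (2 * (k + 1 : ℕ) * Δ) := fun k => by
    have hk : (0 : ℝ) ≤ k := Nat.cast_nonneg k
    obtain ⟨r, hr, h⟩ := exists_good' (φ := sv) hγ
      (s := (2 * (k + 1 : ℕ) - 1) * Δ) (t := 2 * (k + 1 : ℕ) * Δ)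
      (by push_cast; nlinarith) (by linarith)
    refine ⟨r, hr, ?_⟩
    simp only [fr_post] at h
    rw [show 2 * ((k + 1 : ℕ) : ℝ) * Δ - (2 * (k + 1 : ℕ) - 1) * Δ = Δ by ring] at h
    have := ex_trc_anti (φ := sv) hγ (s := 2 * k * Δ) (t := (2 * (k + 1 : ℕ) - 1) * Δ)
      (by positivity) (by push_cast; nlinarith)
    linarith
  choose r hr hr' using h
  refine ⟨fun k => Nat.casesOn k 0 r, rfl, fun k => ?_, fun K => ?_⟩
  · cases k with
    | zero => simp [hΔ.le]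
    | succ k => exact hr k
  · rw [le_div_iff₀ hΔ, Finset.sum_mul]
    refine (Finset.sum_le_sum fun k _ => hr' k).trans ?_
    rw [Finset.sum_range_sub' fun k : ℕ => u (2 * k * Δ)]
    have h1 : 0 ≤ u (2 * K * Δ) := ex_nonneg hγ fun y => trc_nonneg (hγ.post _ _ _)
    have h2 : u (2 * (0 : ℕ) * Δ) ≤ ex sv γ (fun _ => (n : ℝ)) (2 * (0 : ℕ) * Δ) :=
      ex_mono hγ (mg_trc hγ _) (MG.const _) fun y => trc_le (hγ.post _ _ _)
    rw [ex_const hγ] at h2
    linarith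

/-- **existence of a good path**, sharp form -/
theorem exists_path2 {κ : Type*} [Fintype κ] (hγ : Wt γ) (hn : 0 < n) {Δ : ℝ} (hΔ : 0 < Δ)
    (hΔ1 : Δ ≤ 1) (K : ℕ) {L : κ → (Fin n → ℝ) → ℝ} {T a : κ → ℝ} (hL : ∀ i, ELip (√n) (L i))
    (ha : ∀ i, ∫ z, exp (L i (√(T i) • z)) ∂gv (Fin n) ≤ exp (a i + n * T i / 2)) {ρ : ℝ}
    (hρ : mcm γ ≤ ρ) (hρ' : n * √n ≤ ρ) {M : ℝ} (hM : M = 6 * ((K + 1) * (Fintype.card κ + 1))) :
    ∃ (s : ℕ → ℝ) (y : ℕ → Fin n → ℝ), s 0 = 0 ∧ y 0 = 0 ∧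
      (∀ k : ℕ, (2 * k - 1) * Δ ≤ s k ∧ s k ≤ 2 * k * Δ) ∧
      (∀ k ≤ K, (k ≠ 0 → fr sv (tilt γ (y k)) ≤ 6 * (n / Δ)) ∧
        ovc γ (mag γ) (y k) ≤ 6 * (ρ * (K + 2 / Δ)) ∧
        nrm (y k) ≤ (s k + √(s k) * (3 / 2 + log M / n)) * √n ∧
        ∀ i, s k ≤ T i → L i (y k) ≤ lz γ (y k) - lz γ 0 + a i +
          n * ((T i - s k) / 2 + √(T i - s k)) + log M) ∧
      ∀ k < K, nrm (y (k + 1) - y k) ≤ (3 * Δ + √(3 * Δ) * (3 / 2 + log M / n)) * √n ∧
        (mag (tilt γ (y k)) ⬝ᵥ (mag (tilt γ (y (k + 1))) - mag (tilt γ (y k)))) ^ 2 ≤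
          6 * (ρ * (K + 2 / Δ)) := by
  obtain ⟨s, s0, win, hs⟩ := exists_times' hγ hΔ
  have gap : ∀ k, Δ ≤ s (k + 1) - s k ∧ s (k + 1) - s k ≤ 3 * Δ := fun k => by
    have h1 := win k
    have h2 := win (k + 1)
    push_cast at h2
    constructor <;> nlinarith [h1.1, h1.2, h2.1, h2.2]
  have mono : Monotone s := monotone_nat_of_le_succ fun k => by linarith [(gap k).1]
  have sn : ∀ k, 0 ≤ s k := fun k => s0 ▸ mono (Nat.zero_le k)
  have sp : ∀ k ≠ 0, 0 < s k := fun k hk => by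
    obtain ⟨k, rfl⟩ := Nat.exists_eq_succ_of_ne_zero hk
    linarith [(gap k).1, sn k]
  have hn' : (0 : ℝ) < n := Nat.cast_pos.2 hn
  have n0 : 0 < √(n : ℝ) := sqrt_pos.2 hn'
  set W : ℝ := (K + 1) * (Fintype.card κ + 1) with hW
  have hc : (0 : ℝ) ≤ Fintype.card κ := Nat.cast_nonneg _
  have hK : (0 : ℝ) ≤ K := Nat.cast_nonneg _
  have W1 : 1 ≤ W := by nlinarith
  have W0 : 0 < W := by linarith
  have ρ0 : 0 < ρ := lt_of_lt_of_le (by positivity) hρ'
  have d1 : 1 ≤ 1 / Δ := by rw [le_div_iff₀ hΔ]; linarith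
  have d2 : 2 / Δ = 2 * (1 / Δ) := by ring
  set R : ℝ := ρ * (K + 2 / Δ) with hR
  have R0 : 0 < R := by positivity
  -- the costs
  set c1 : ℕ → (Fin n → ℝ) → ℝ := fun k y =>
    (if k = 0 then 0 else (n / Δ)⁻¹) * fr sv (tilt γ y) with hc1
  set b5 : ℕ → κ → ℝ := fun k i => a i - lz γ 0 + n * ((T i - s k) / 2 + √(T i - s k)) with hb5
  set c5 : ℕ → κ → (Fin n → ℝ) → ℝ := fun k i y =>
    (if s k ≤ T i then exp (-b5 k i) else 0) * exp (L i y - lz γ y) with hc5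
  have mfr : MG fun y => fr sv (tilt γ y) := by simpa only [fr_post] using mg_fr (φ := sv) hγ 0
  have m1 : ∀ k, MG (c1 k) := fun k => MG.const_mul _ mfr
  have m5 : ∀ k i, MG (c5 k i) := fun k i => MG.const_mul _ (mg_planted hγ (hL i))
  have p1 : ∀ k y, 0 ≤ c1 k y := fun k y =>
    mul_nonneg (by split_ifs <;> positivity) (fr_nonneg _ _)
  have p5 : ∀ k i y, 0 ≤ c5 k i y := fun k i y =>
    mul_nonneg (by split_ifs <;> positivity) (exp_pos _).le
  have p3 : ∀ h z, 0 ≤ szg n h z := fun h z => (exp_pos _).le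
  have p2 : ∀ (w : Cube n → ℝ) u z, 0 ≤ ovc w u z := fun _ _ _ => sq_nonneg _
  have e1 : ∑ k ∈ Finset.range (K + 1), (slE sv γ (s k) fun _ => c1 k) ≤ 1 := by
    rw [Finset.sum_range_succ']
    simp only [hc1, slE_const_mul]
    simp only [Nat.succ_ne_zero, if_true, if_false, zero_mul, add_zero]
    rw [← Finset.mul_sum, inv_mul_le_iff₀ (by positivity), mul_one]
    exact hs K
  have e4 : ∑ k ∈ Finset.range (K + 1), (slE sv γ (s k) fun _ y => mcm (tilt γ y)) ≤ R := by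
    rw [Finset.sum_range_succ', s0, slE_zero, hγ.mean_const, tilt_zero]
    have a1 : ∀ k, (slE sv γ (s (k + 1)) fun _ y => mcm (tilt γ y)) ≤
        √n * (slE sv γ (s (k + 1)) fun _ y => fr sv (tilt γ y)) + n * √n := fun k => by
      rw [← slE_const_mul, ← hγ.mean_const (n * √n), ← slE_fun (φ := sv) (s := s (k + 1)),
        ← slE_add (.of_mg fun _ => mfr.const_mul _) (.of_mg fun _ => MG.const _)]
      refine slE_mono hγ (.of_mg fun _ => mg_mcm hγ)
        (.of_mg fun _ => (mfr.const_mul _).add (MG.const _)) fun _ y => ?_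
      refine (mcm_le (hγ.tilt y)).trans ?_
      have b1 := sq_sqrt (fr_nonneg sv (tilt γ y))
      have b2 := sqrt_nonneg (fr sv (tilt γ y))
      have b3 := sq_sqrt hn'.le
      generalize √(fr sv (tilt γ y)) = u at *
      generalize √(n : ℝ) = b at *
      rw [← b1, ← b3]
      nlinarith [mul_nonneg n0.le (sq_nonneg (u - b)), mul_nonneg n0.le (sq_nonneg u),
        mul_nonneg n0.le (sq_nonneg b)]
    refine (add_le_add (Finset.sum_le_sum fun k _ => a1 k) hρ).trans ?_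
    rw [Finset.sum_add_distrib, ← Finset.mul_sum, Finset.sum_const, Finset.card_range,
      nsmul_eq_mul]
    have a2 := mul_le_mul_of_nonneg_left (hs K) n0.le
    have a3 : √(n : ℝ) * (n / Δ) = n * √n * (1 / Δ) := by ring
    have a4 := mul_le_mul_of_nonneg_right hρ' (zero_le_one.trans d1)
    have a5 := mul_le_mul_of_nonneg_left hρ' hK
    have a6 := mul_le_mul_of_nonneg_left d1 ρ0.le
    rw [hR, d2]
    linarith
  have e2 : ∀ k, (slE sv γ (s k) fun _ => ovc γ (mag γ)) ≤ ρ := fun k =>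
    (slE_ovc hγ (sn k) _).trans hρ
  have e3 : ∀ k, (slE sv γ (s k) fun _ => szg n (s k)) ≤ 1 := fun k => by
    by_cases h : k = 0
    · rw [h, s0, slE_zero, hγ.mean_const, szg]
      refine exp_le_one_iff.2 ?_
      simp only [sqrt_zero, _root_.inv_zero, zero_mul, mul_zero, zero_add, zero_sub, neg_nonpos]
      positivity
    · exact slE_szg hγ (sp k h)
  have e5 : ∀ k i, (slE sv γ (s k) fun _ => c5 k i) ≤ 1 := fun k i => by
    rw [hc5, slE_const_mul]
    split_ifs with h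
    · rw [Real.exp_neg, inv_mul_le_iff₀ (exp_pos _), mul_one]
      exact planted_le hγ (sn k) h (hL i) (ha i)
    · simp
  have mA : ∀ k, MG fun y => szg n (s k) y + ∑ i, c5 k i y := fun k =>
    (mg_szg _).add (MG.sum _ fun i _ => m5 k i)
  have mB : MG fun y => ovc γ (mag γ) y + mcm (tilt γ y) := (mg_ovc hγ _).add (mg_mcm hγ)
  obtain ⟨y, y0, hy⟩ := path (φ := sv) K γ hγ s s0 mono
    (fun k y => c1 k y + (W⁻¹ * (szg n (s k) y + ∑ i, c5 k i y) +
      R⁻¹ * (ovc γ (mag γ) y + mcm (tilt γ y))))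
    (fun k => (m1 k).add (((mA k).const_mul _).add (mB.const_mul _)))
    (fun k y z => W⁻¹ * szg n (s (k + 1) - s k) z +
      R⁻¹ * (ovc (tilt γ y) (mag (tilt γ y)) z - mcm (tilt γ y)))
    (fun k y => ((mg_szg _).const_mul _).add
      (((mg_ovc (hγ.tilt y) _).sub (MG.const _)).const_mul _))
    (fun _ => W⁻¹) fun k _ y => by
      have h0 : 0 < s (k + 1) - s k := hΔ.trans_le (gap k).1
      rw [slE_post, slE_add (.of_mg fun _ => (mg_szg _).const_mul _)
        (.of_mg fun _ => ((mg_ovc (hγ.tilt y) _).sub (MG.const _)).const_mul _), slE_const_mul,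
        slE_const_mul, slE_sub (.of_mg fun _ => mg_ovc (hγ.tilt y) _) (.of_mg fun _ => MG.const _),
        slE_fun, (hγ.tilt y).mean_const]
      have a1 := mul_le_mul_of_nonneg_left (slE_szg (hγ.tilt y) h0) (inv_pos.2 W0).le
      have a2 := mul_nonneg (inv_pos.2 R0).le
        (sub_nonneg.2 (slE_ovc (hγ.tilt y) h0.le (mag (tilt γ y))))
      unfold mcm
      linarith
  have hB : ∑ k ∈ Finset.range (K + 1), (slE sv γ (s k) fun _ y =>
      c1 k y + (W⁻¹ * (szg n (s k) y + ∑ i, c5 k i y) +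
        R⁻¹ * (ovc γ (mag γ) y + mcm (tilt γ y)))) + ∑ _k ∈ Finset.range K, W⁻¹ ≤ 6 := by
    have a1 : ∀ k, (slE sv γ (s k) fun _ y => c1 k y + (W⁻¹ * (szg n (s k) y + ∑ i, c5 k i y) +
        R⁻¹ * (ovc γ (mag γ) y + mcm (tilt γ y)))) ≤ (slE sv γ (s k) fun _ => c1 k) +
          (W⁻¹ * (1 + Fintype.card κ) +
            R⁻¹ * (ρ + slE sv γ (s k) fun _ y => mcm (tilt γ y))) := fun k => by
      rw [slE_add (.of_mg fun _ => m1 k)
          (.of_mg fun _ => ((mA k).const_mul _).add (mB.const_mul _)),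
        slE_add (.of_mg fun _ => (mA k).const_mul _) (.of_mg fun _ => mB.const_mul _),
        slE_const_mul W⁻¹, slE_const_mul R⁻¹,
        slE_add (.of_mg fun _ => mg_szg _) (.of_mg fun _ => MG.sum _ fun i _ => m5 k i),
        slE_add (.of_mg fun _ => mg_ovc hγ _) (.of_mg fun _ => mg_mcm hγ),
        slE_sum _ fun i _ => .of_mg fun _ => m5 k i]
      have a2 := Finset.sum_le_sum (s := Finset.univ) fun i _ => e5 k i
      simp only [Finset.sum_const, Finset.card_univ, nsmul_eq_mul, mul_one] at a2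
      exact add_le_add_right (add_le_add
        (mul_le_mul_of_nonneg_left (add_le_add (e3 k) a2) (inv_pos.2 W0).le)
        (mul_le_mul_of_nonneg_left (add_le_add_left (e2 k) _) (inv_pos.2 R0).le)) _
    refine (add_le_add_left (Finset.sum_le_sum fun k _ => a1 k) _).trans ?_
    rw [Finset.sum_add_distrib, Finset.sum_add_distrib, ← Finset.mul_sum _ _ R⁻¹,
      Finset.sum_add_distrib]
    simp only [Finset.sum_const, Finset.card_range, nsmul_eq_mul]
    push_cast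
    have a3 : ((K : ℝ) + 1) * (W⁻¹ * (1 + Fintype.card κ)) ≤ 1 := by
      rw [mul_left_comm, inv_mul_le_iff₀ W0, hW]; nlinarith
    have a4 : (K : ℝ) * W⁻¹ ≤ 1 := by
      rw [mul_comm, inv_mul_le_iff₀ W0, hW]; nlinarith
    have a5 : R⁻¹ * (((K : ℝ) + 1) * ρ + ∑ k ∈ Finset.range (K + 1),
        (slE sv γ (s k) fun _ y => mcm (tilt γ y))) ≤ 2 := by
      rw [inv_mul_le_iff₀ R0]
      have : ((K : ℝ) + 1) * ρ ≤ R := by rw [hR, d2]; nlinarith
      linarith
    linarith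
  replace hy := hy.trans hB
  -- regroup into nonnegative terms
  set A : ℕ → ℝ := fun k => c1 k (y k) + (W⁻¹ * (szg n (s k) (y k) + ∑ i, c5 k i (y k)) +
    R⁻¹ * ovc γ (mag γ) (y k)) with hA
  set B : ℕ → ℝ := fun k => W⁻¹ * szg n (s (k + 1) - s k) (y (k + 1) - y k) +
    R⁻¹ * ovc (tilt γ (y k)) (mag (tilt γ (y k))) (y (k + 1) - y k) with hB'
  have hAB : ∑ k ∈ Finset.range (K + 1), A k + ∑ k ∈ Finset.range K, B k ≤ 6 := by
    refine le_trans ?_ hy
    have a1 := mul_nonneg (inv_pos.2 R0).le (mcm_nonneg (hγ.tilt (y K)))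
    simp only [hA, hB', mul_add, mul_sub, Finset.sum_add_distrib, Finset.sum_sub_distrib]
    rw [Finset.sum_range_succ fun k => R⁻¹ * mcm (tilt γ (y k))]
    linarith
  have q1 : ∀ k, 0 ≤ W⁻¹ * (szg n (s k) (y k) + ∑ i, c5 k i (y k)) := fun k =>
    mul_nonneg (inv_pos.2 W0).le (add_nonneg (p3 _ _) (Finset.sum_nonneg fun i _ => p5 _ _ _))
  have q2 : ∀ (w : Cube n → ℝ) u z, 0 ≤ R⁻¹ * ovc w u z := fun _ _ _ =>
    mul_nonneg (inv_pos.2 R0).le (p2 _ _ _)
  have q3 : ∀ h z, 0 ≤ W⁻¹ * szg n h z := fun _ _ => mul_nonneg (inv_pos.2 W0).le (p3 _ _)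
  have pA : ∀ k, 0 ≤ A k := fun k => add_nonneg (p1 _ _) (add_nonneg (q1 k) (q2 _ _ _))
  have pB : ∀ k, 0 ≤ B k := fun k => add_nonneg (q3 _ _) (q2 _ _ _)
  have hF := fun k (hk : k ≤ K) => le_of_sum_le pA (Finset.sum_nonneg fun k _ => pB k) hAB
    (Nat.lt_succ_of_le hk)
  have hG := fun k (hk : k < K) => le_of_sum_le pB (Finset.sum_nonneg fun k _ => pA k)
    ((add_comm _ _).trans_le hAB) hk
  simp only [hA] at hF
  simp only [hB'] at hG
  have hF' : ∀ k ≤ K, szg n (s k) (y k) + ∑ i, c5 k i (y k) ≤ M := fun k hk => by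
    rw [hM, mul_comm, ← inv_mul_le_iff₀ W0]
    linarith [hF k hk, p1 k (y k), q2 γ (mag γ) (y k)]
  have l0 : 0 ≤ log M := log_nonneg (by rw [hM]; linarith)
  refine ⟨s, y, s0, y0, win, fun k hk => ⟨fun h0 => ?_, ?_, ?_, fun i hi => ?_⟩,
    fun k hk => ⟨?_, ?_⟩⟩
  · have a1 : c1 k (y k) ≤ 6 := by linarith [hF k hk, q1 k, q2 γ (mag γ) (y k)]
    simp only [hc1, if_neg h0] at a1
    rwa [inv_mul_le_iff₀ (by positivity), mul_comm] at a1
  · rw [mul_comm, ← inv_mul_le_iff₀ R0]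
    linarith [hF k hk, q1 k, p1 k (y k)]
  · by_cases h0 : k = 0
    · simp [h0, y0, s0]
    refine nrm_le_of_szg hn (sp k h0) ?_
    have := Finset.sum_nonneg (s := Finset.univ) fun i _ => p5 k i (y k)
    linarith [hF' k hk]
  · have a1 : c5 k i (y k) ≤ M := by
      have := Finset.single_le_sum (f := fun i => c5 k i (y k)) (fun i _ => p5 k i (y k))
        (Finset.mem_univ i)
      linarith [hF' k hk, p3 (s k) (y k)]
    simp only [hc5, if_pos hi] at a1
    rw [← exp_add, ← le_log_iff_exp_le (by rw [hM]; linarith)] at a1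
    simp only [hb5] at a1
    linarith
  · have h0 : 0 < s (k + 1) - s k := hΔ.trans_le (gap k).1
    have a1 : szg n (s (k + 1) - s k) (y (k + 1) - y k) ≤ M := by
      rw [hM, mul_comm, ← inv_mul_le_iff₀ W0]
      linarith [hG k hk, q2 (tilt γ (y k)) (mag (tilt γ (y k))) (y (k + 1) - y k)]
    refine (nrm_le_of_szg hn h0 a1).trans ?_
    gcongr
    exacts [(gap k).2, (gap k).2]
  · have a1 : R⁻¹ * ovc (tilt γ (y k)) (mag (tilt γ (y k))) (y (k + 1) - y k) ≤ 6 := by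
      linarith [hG k hk, q3 (s (k + 1) - s k) (y (k + 1) - y k)]
    rwa [inv_mul_le_iff₀ R0, ovc, tilt_tilt, add_sub_cancel, mul_comm] at a1

end Crest.Agent.T157.Sla

end
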