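import Crest.Agent.T157.SpChiB_87
import Crest.Agent.T157.StAll_87

/-!
# Row 157 (helper87): the cube is `χ²`-close to the sphere after the channel, `ChiGlue`
-/

set_option autoImplicit false

noncomputable section

namespace Crest.Agent.T157.Sp.Ch87

open MeasureTheory ProbabilityTheory Matrix Filter Topology Finset Real
open scoped ENNReal
open Crest.Agent.T157.E Crest.Agent.T157.Cond Crest.Agent.T157.Ed Crest.Agent.T157.St
open Crest.Agent.T157.St.Cl28 Crest.Agent.T157.Top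

variable {n : ℕ}

lemma rr_sq_le (hS : SphStmt) (hK : LnkStmt) (hR : RotStmt) (hL : LamStmt) {B : ℝ} (hB : 1 ≤ B) :
    ∃ κ₂ C : ℝ, 0 < κ₂ ∧ 0 ≤ C ∧ ∀ n : ℕ, 2 ≤ n → ∀ κ, κ ≤ κ₂ →
      ∫⁻ W in GS n B κ, ENNReal.ofReal (rr n W ^ 2) ∂GOE n ≤ ENNReal.ofReal C := by
  obtain ⟨κ₂, C, h0, -, hC, H⟩ := main hS hK hR hL hB
  refine ⟨κ₂, B + ((exp 1 + C) * B + C), h0, by positivity, fun n hn2 κ hκ => ?_⟩
  have hn : 1 ≤ n := by omega
  obtain ⟨-, H2, H3⟩ := H n hn2 1 le_rfl 0 le_rfl (mul_nonneg h0.le (tau_nonneg n))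
  simp only [Xk_zero (cp_mu hK hn _) (cp_mu hK hn _), mul_one, zero_rpow
    (show (3 / 2 : ℝ) ≠ 0 by norm_num), mul_zero, exp_zero] at H2 H3
  have hsub : GS n B κ ⊆ GS n B κ₂ := fun W hW => ⟨hW.1, le_trans (exp_le_exp.2
    (mul_le_mul_of_nonneg_left (by linarith) (Nat.cast_nonneg n))) hW.2⟩
  refine (lintegral_mono_set hsub).trans (H3.trans ?_)
  rw [ENNReal.ofReal_add (p := B) (by linarith) (by positivity)]
  refine add_le_add H2 (ENNReal.ofReal_le_ofReal ?_)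
  have hs := one_le_pow₀ (n := 2) (one_le_sx hn)
  have g2 : exp (((1 : ℕ) : ℝ) ^ 4 / (4 * sx n ^ 2)) ≤ exp 1 := by
    rw [exp_le_exp, div_le_one (by positivity)]; push_cast; linarith
  have g3 : exp (-(n * κ₂)) ≤ 1 := exp_le_one_iff.2 (neg_nonpos.2 (by positivity))
  have g4 := mul_le_mul_of_nonneg_left g3 hC
  have g5 := mul_le_mul_of_nonneg_right g2 (by linarith : 0 ≤ B)
  rw [Nat.cast_one, div_one] at *
  nlinarith

lemma sum_le {g B S A : ℝ} (hg : 0 < g) (hB : 0 ≤ B) (hgB : 54 * B * g = 1) (hS : 0 ≤ S)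
    (hA1 : 1 ≤ A) (hA : g ^ 2 * A = 16 * (27 * B + 1)) {J : ℕ} (hJ : 1 ≤ J) (hAJ : A * S ≤ J)
    (N : ℕ) : ∑ k ∈ Ico J N, exp (-((g ^ 2 / 4 - 2 * (g ^ 2 / 32)) * (k : ℝ) ^ 3)) *
      (2 * (1 * (2 * (B * exp (B * (2 * (3 / 2 * g * k) ^ 3 + 2 * (3 * S) ^ 3) / 2))))) ≤
      128 * B / g ^ 2 * exp (-S ^ 3) := by
  have hJ1 : (1 : ℝ) ≤ J := by exact_mod_cast hJ
  have h1 : ∀ k ∈ Ico J N, exp (-((g ^ 2 / 4 - 2 * (g ^ 2 / 32)) * (k : ℝ) ^ 3)) *
      (2 * (1 * (2 * (B * exp (B * (2 * (3 / 2 * g * k) ^ 3 + 2 * (3 * S) ^ 3) / 2))))) ≤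
      64 * B / g ^ 2 * exp (-S ^ 3) * ((k : ℝ) ^ 2)⁻¹ := fun k hk => by
    have hJk : (J : ℝ) ≤ k := by exact_mod_cast (mem_Ico.1 hk).1
    have hk1 : (1 : ℝ) ≤ k := hJ1.trans hJk
    have h2 : (A * S) ^ 3 ≤ (k : ℝ) ^ 3 := pow_le_pow_left₀ (by positivity) (hAJ.trans hJk) 3
    have h3 : A * S ^ 3 ≤ (A * S) ^ 3 := by
      rw [mul_pow]
      exact mul_le_mul_of_nonneg_right (le_self_pow₀ hA1 (by norm_num)) (by positivity)
    have h4 := mul_le_mul_of_nonneg_left (h3.trans h2) (sq_nonneg g)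
    rw [← mul_assoc, hA] at h4
    have h5 : exp (-(g ^ 2 * (k : ℝ) ^ 3 / 16)) ≤ 16 / g ^ 2 * ((k : ℝ) ^ 2)⁻¹ := by
      have h6 : g ^ 2 * (k : ℝ) ^ 2 / 16 ≤ exp (g ^ 2 * (k : ℝ) ^ 3 / 16) := by
        have h7 := add_one_le_exp (g ^ 2 * (k : ℝ) ^ 3 / 16)
        have h8 : (k : ℝ) ^ 2 ≤ (k : ℝ) ^ 3 := pow_le_pow_right₀ hk1 (by norm_num)
        have h9 := mul_le_mul_of_nonneg_left h8 (sq_nonneg g)
        linarith
      rw [Real.exp_neg]
      refine (inv_anti₀ (by positivity) h6).trans (le_of_eq ?_)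
      field_simp
    have e : B * (2 * (3 / 2 * g * k) ^ 3 + 2 * (3 * S) ^ 3) / 2 =
        g ^ 2 * (k : ℝ) ^ 3 / 16 + 27 * B * S ^ 3 := by
      have : B * (2 * (3 / 2 * g * k) ^ 3 + 2 * (3 * S) ^ 3) / 2 =
        54 * B * g * (g ^ 2 * (k : ℝ) ^ 3 / 16) + 27 * B * S ^ 3 := by ring
      rw [this, hgB, one_mul]
    calc _ = 4 * B * exp (-((g ^ 2 / 4 - 2 * (g ^ 2 / 32)) * (k : ℝ) ^ 3) +
          (g ^ 2 * (k : ℝ) ^ 3 / 16 + 27 * B * S ^ 3)) := by rw [e, exp_add (-_)]; ring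
      _ ≤ 4 * B * exp (-S ^ 3 + -(g ^ 2 * (k : ℝ) ^ 3 / 16)) :=
          mul_le_mul_of_nonneg_left (exp_le_exp.2 (by linarith)) (by positivity)
      _ ≤ 4 * B * (exp (-S ^ 3) * (16 / g ^ 2 * ((k : ℝ) ^ 2)⁻¹)) := by rw [exp_add]; gcongr
      _ = _ := by ring
  refine (sum_le_sum h1).trans ?_
  rw [← mul_sum]
  have h2 := sum_Ioo_inv_sq_le (α := ℝ) (J - 1) N
  have h3 : Ioo (J - 1) N = Ico J N := by ext k; simp only [mem_Ioo, mem_Ico]; omega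
  rw [h3, Nat.cast_sub hJ, Nat.cast_one, sub_add_cancel] at h2
  calc _ ≤ 64 * B / g ^ 2 * exp (-S ^ 3) * 2 :=
        mul_le_mul_of_nonneg_left (h2.trans (div_le_self zero_le_two hJ1)) (by positivity)
    _ = _ := by ring

lemma eps_le {T t R : ℝ} (hT : 0 ≤ T) (ht : 0 < t) (hR : |R| ≤ t) :
    3 * T / t * R ^ 2 ≤ 3 * T * |R| := by
  rw [← sq_abs, div_mul_eq_mul_div, div_le_iff₀ ht]
  have := mul_le_mul_of_nonneg_left hR (show 0 ≤ 3 * T * |R| by positivity)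
  nlinarith

lemma exp_abs_le (s c R : ℝ) : exp (s * R + c * |R|) ≤ exp ((s + c) * R) + exp ((s - c) * R) := by
  rcases abs_cases R with h | h <;> rw [h.1]
  · exact le_add_of_le_of_nonneg (le_of_eq (by congr 1; ring)) (exp_pos _).le
  · exact le_add_of_nonneg_of_le (exp_pos _).le (le_of_eq (by congr 1; ring))

set_option maxHeartbeats 600000 in
/-- **the second moment estimate with a field** -/
lemma mainY (hS : SphStmt) (hK : LnkStmt) (hR : RotStmt) (hL : LamStmt) (hRY : RotYStmt)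
    (hP : PlStmt) {B : ℝ} (hB : 1 ≤ B) : ∃ κ C : ℝ, 0 < κ ∧ 2 ≤ C ∧ ∀ n : ℕ, 2 ≤ n →
    ∀ T : ℝ, 1 ≤ T → 6 * (sx n ^ 2 * T) ≤ n * κ → C * T ^ 2 ≤ sx n ^ 2 →
      ∫⁻ W in GS n B κ, ENNReal.ofReal (rr n W ^ 2) * Chi T (muW n W) (nuW n W) ∂GOE n ≤
        GOE n (GS n B κ) + ENNReal.ofReal (C * (T ^ 2 / sx n ^ 2 + exp (-T))) := by
  obtain ⟨g, hg0, hgB⟩ : ∃ g : ℝ, 0 < g ∧ 54 * B * g = 1 :=
    ⟨1 / (54 * B), by positivity, by field_simp⟩
  have hg1 : g ≤ 1 := by nlinarith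
  have hδ0 : 0 < g ^ 2 / 32 := by positivity
  have hδ1 : g ^ 2 / 32 ≤ 1 := by nlinarith
  obtain ⟨κ₁, hκ₁, hκ₁', hκc⟩ := cosh_far hδ0
  obtain ⟨κ₂, C₃, hκ₂, hC₃, H₃⟩ := rr_sq_le hS hK hR hL hB
  obtain ⟨κ, hκ0, hk1, hk2⟩ : ∃ κ : ℝ, 0 < κ ∧ κ ≤ κ₁ ∧ κ ≤ κ₂ :=
    ⟨min κ₁ κ₂, lt_min hκ₁ hκ₂, min_le_left _ _, min_le_right _ _⟩
  have hκ : ∀ u : ℝ, g ^ 2 / 32 ≤ |u| → cosh u ≤ exp ((1 - κ) * u ^ 2 / 2 - 8 * κ) := fun u hu =>
    (hκc u hu).trans (exp_le_exp.2 (by nlinarith [sq_nonneg u]))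
  obtain ⟨C₀, hC₀, hC⟩ := far_gauss hκ0 (by linarith)
  obtain ⟨A, hA1, hA⟩ : ∃ A : ℝ, 1 ≤ A ∧ g ^ 2 * A = 16 * (27 * B + 1) :=
    ⟨16 * (27 * B + 1) / g ^ 2, by rw [le_div_iff₀ (by positivity)]; nlinarith, by field_simp⟩
  obtain ⟨c₁, hc₁⟩ : ∃ c₁ : ℝ, c₁ = (A + 1) ^ 4 / 4 + 3 * (14 * B + 1) ^ 2 := ⟨_, rfl⟩
  have hc₁0 : 0 ≤ c₁ := by rw [hc₁]; positivity
  obtain ⟨c₂, hc₂⟩ : ∃ c₂ : ℝ, c₂ = 6 * B + 128 * B / g ^ 2 + C₀ + 2 * C₃ := ⟨_, rfl⟩
  have hc₂0 : 0 ≤ c₂ := by rw [hc₂]; positivity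
  refine ⟨κ, 2 + 2 * c₁ + c₂, hκ0, by linarith, fun n hn2 T hT hTκ hCT => ?_⟩
  have hn : 1 ≤ n := by omega
  have hn0 : (0 : ℝ) < n := by exact_mod_cast hn
  have hs := sx_pos hn
  have ht : 0 < sx n ^ 2 := pow_pos hs 2
  have hτ := tau_pos hn
  have hT0 : 0 ≤ T := by linarith
  obtain ⟨S, hS1, rfl⟩ : ∃ S : ℝ, 1 ≤ S ∧ T = S ^ 2 :=
    ⟨√T, one_le_sqrt.2 hT, (sq_sqrt hT0).symm⟩
  have hS0 : 0 ≤ S := by linarith
  obtain ⟨i, j, hij⟩ : ∃ i j : Fin n, i ≠ j := ⟨⟨0, by omega⟩, ⟨1, by omega⟩, by simp⟩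
  have oc := onS_omc hn
  have mw := meas_wt hS hK hn i j B κ (S ^ 2)
  have mv := meas_vv (n := n) i j
  have mL := measurable_LL hS hn i
  have hm' : ∀ f : PY n → ℝ≥0∞, Measurable f →
      ∫⁻ p, f p ∂((GOE n).prod (gK (Fin n) (S ^ 2))).withDensity (wt n i j B κ (S ^ 2)) =
      ∫⁻ p, wt n i j B κ (S ^ 2) p * f p ∂(GOE n).prod (gK (Fin n) (S ^ 2)) :=
    fun f hf => lintegral_withDensity_eq_lintegral_mul _ mw hf
  obtain ⟨J, hJ, hAJ, hJA⟩ : ∃ J : ℕ, 1 ≤ J ∧ A * S ≤ J ∧ (J : ℝ) ≤ (A + 1) * S :=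
    ⟨⌈A * S⌉₊, Nat.one_le_ceil_iff.2 (by positivity), Nat.le_ceil _,
      (Nat.ceil_lt_add_one (by positivity)).le.trans (by linarith)⟩
  have hs2 : ∀ (k : ℕ) (s : ℝ), |s| = g ^ 2 * (k : ℝ) ^ 2 →
      ∫⁻ p, ENNReal.ofReal (LL n i (vv n i j p + s))
        ∂((GOE n).prod (gK (Fin n) (S ^ 2))).withDensity (wt n i j B κ (S ^ 2)) ≤ ENNReal.ofReal
        (1 * (2 * (B * exp (B * (2 * (3 / 2 * g * k) ^ 3 + 2 * (3 * S) ^ 3) / 2)))) := by
    intro k s h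
    have hb : ∀ u : ℝ, |u - s| ≤ 3 * S ^ 2 → |2 * u + S ^ 2| ^ (3 / 2 : ℝ) ≤
        2 * (3 / 2 * g * k) ^ 3 + 2 * (3 * S) ^ 3 := fun u hu => by
      refine (rp_mono (abs_nonneg _) (y := (3 / 2 * g * k) ^ 2 + (3 * S) ^ 2) ?_).trans
        ((rp_add (sq_nonneg _) (sq_nonneg _)).trans (le_of_eq ?_))
      · obtain ⟨h1, h2⟩ := abs_le.1 hu
        obtain ⟨h3, h4⟩ := abs_le.1 h.le
        have : 0 ≤ g ^ 2 * (k : ℝ) ^ 2 := by positivity
        rw [abs_le]; constructor <;> linarith [show (3 / 2 * g * k) ^ 2 + (3 * S) ^ 2 =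
          9 / 4 * (g ^ 2 * (k : ℝ) ^ 2) + 9 * S ^ 2 by ring]
      · rw [rp_sq (by positivity), rp_sq (by positivity)]
    rw [hm' _ (by fun_prop)]
    have := sph_le hS hK hn (κ := κ) hRY hP hij hT0 hB (a₀ := 0) (a₁ := 1) (s := s)
      (u₁ := s + 3 * S ^ 2) (u₂ := s - 3 * S ^ 2) le_rfl zero_le_one (fun R hR => by
        rw [zero_add, one_mul]
        exact (exp_le_exp.2 (add_le_add le_rfl (eps_le hT0 ht hR))).trans (exp_abs_le _ _ _))
      (hb _ (by rw [add_sub_cancel_left, abs_of_nonneg (by positivity)]))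
      (hb _ (by rw [sub_sub_cancel_left, abs_neg, abs_of_nonneg (by positivity)]))
    rwa [ENNReal.ofReal_zero, zero_mul, zero_add] at this
  set N := ⌊g ^ 2 / 32 * sx n ^ 2⌋₊ + 1 with hN
  have key := integ (((GOE n).prod (gK (Fin n) (S ^ 2))).withDensity (wt n i j B κ (S ^ 2)))
    (d := vv n i j) mv mL (LL_pos hL hn i) (K := fun p => cosh (vv n i j p / tau n) ^ n)
    (F := fun p => exp (n * ((1 - κ) * (vv n i j p / tau n) ^ 2 / 2 - 8 * κ)))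
    (Ico J N) (a := fun k => exp (-((g ^ 2 / 4 - 2 * (g ^ 2 / 32)) * (k : ℝ) ^ 3)))
    (s := fun k => g ^ 2 * (k : ℝ) ^ 2)
    (b := fun k => 1 * (2 * (B * exp (B * (2 * (3 / 2 * g * k) ^ 3 + 2 * (3 * S) ^ 3) / 2))))
    (e := exp ((J : ℝ) ^ 4 / (4 * sx n ^ 2))) (exp_pos _).le (fun _ => (exp_pos _).le)
    (fun _ => by positivity) (fun p => ?_)
    (fun k => hs2 k _ (abs_of_nonneg (by positivity)))
    (fun k => by
      simp only [sub_eq_add_neg]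
      exact hs2 k _ (by rw [abs_neg, abs_of_nonneg (by positivity)]))
  swap
  · set v := vv n i j p
    by_cases hv : |v| ≤ g ^ 2 / 32 * (sx n ^ 2) ^ 2
    · have h1 := near (L := LL n i) (c := g ^ 2) ht hδ0.le hδ1 (sq_nonneg g)
        (LL_pos hL hn i) (LL_neg hS hn i) (LL_ge hL hn i) (LL_conv hS hL hn i) hJ (N := N)
        (by rw [hN]; push_cast; exact Nat.lt_floor_add_one _) hv
      refine le_add_of_le_of_nonneg (le_trans ?_ h1) (exp_pos _).le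
      refine (pow_le_pow_left₀ (cosh_pos _).le (cosh_le_exp_half_sq _) n).trans (le_of_eq ?_)
      rw [← exp_nat_mul, tau_eq, ← sx_pow_six n]
      congr 1
      generalize sx n = x at hs
      field_simp
    · refine le_add_of_nonneg_of_le (add_nonneg (mul_nonneg (exp_pos _).le (LL_pos hL hn i _).le)
        (sum_nonneg fun k _ => mul_nonneg (exp_pos _).le
          (add_nonneg (LL_pos hL hn i _).le (LL_pos hL hn i _).le))) ?_
      rw [exp_nat_mul]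
      refine pow_le_pow_left₀ (cosh_pos _).le (hκ _ ?_) n
      rw [abs_div, abs_of_pos hτ, le_div_iff₀ hτ, tau_eq]
      rw [not_le] at hv
      linarith [show (sx n ^ 2) ^ 2 = sx n ^ 4 by ring]
  rw [hm' _ (by fun_prop), hm' _ (by fun_prop), hm' _ (by fun_prop)] at key
  have hb0 : ∀ u : ℝ, |u| ≤ 4 * S ^ 2 → |2 * u + S ^ 2| ^ (3 / 2 : ℝ) ≤ (3 * S) ^ 3 := fun u hu => by
    refine (rp_mono (abs_nonneg _) (y := (3 * S) ^ 2) ?_).trans (rp_sq (by positivity)).le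
    obtain ⟨h1, h2⟩ := abs_le.1 hu
    rw [abs_le]; constructor <;> linarith [show (3 * S) ^ 2 = 9 * S ^ 2 by ring]
  have p1 := sph_le hS hK hn (κ := κ) hRY hP hij hT0 hB (s := 0)
    (a₀ := exp (3 * S ^ 2 / sx n ^ 2 * ((14 * B + 1) * S) ^ 2))
    (a₁ := exp (-(S ^ 2 * ((14 * B + 1) * S)))) (u₁ := 0 + 4 * S ^ 2) (u₂ := 0 - 4 * S ^ 2)
    (exp_pos _).le (exp_pos _).le (fun R hR => ?_)
    (hb0 _ (by rw [zero_add, abs_of_nonneg (by positivity)]))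
    (hb0 _ (by rw [zero_sub, abs_neg, abs_of_nonneg (by positivity)]))
  swap
  · by_cases h : |R| ≤ (14 * B + 1) * S
    · refine le_add_of_le_of_nonneg (exp_le_exp.2 ?_) (by positivity)
      rw [zero_mul, zero_add, ← sq_abs R]
      exact mul_le_mul_of_nonneg_left (pow_le_pow_left₀ (abs_nonneg _) h 2) (by positivity)
    · refine le_add_of_nonneg_of_le (exp_pos _).le (le_trans ?_
        (mul_le_mul_of_nonneg_left (exp_abs_le 0 (4 * S ^ 2) R) (exp_pos _).le))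
      rw [← exp_add, exp_le_exp]
      have h1 := eps_le hT0 ht hR
      have h2 := mul_le_mul_of_nonneg_left (not_le.1 h).le hT0
      linarith
  simp only [add_zero] at p1
  have p2 := sum_le hg0 (by linarith) hgB hS0 hA1 hA hJ hAJ N
  have p3 := far_le hS hK hn (B := B) hκ0 hT0 hTκ (hC n hn i j hij)
  have p4 := cube_off hK hn (B := B) (κ := κ) hR hij hT0
  have mK : Measurable fun p => wt n i j B κ (S ^ 2) p *
      ENNReal.ofReal (cosh (vv n i j p / tau n) ^ n) := mw.fun_mul (by fun_prop)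
  simp only [← G1_cube hS hK hn]
  rw [← lint_GG hS hK hn (meas_YX oc measurable_const), swapY hRY hij hT0
    (meas_GG hS hK hn B κ _) (GG_rot hS hK hn) oc measurable_const]
  refine (lintegral_mono (cube_pt hS hK hn)).trans ?_
  rw [lintegral_add_left mK, p4]
  refine (add_le_add (key.trans (add_le_add (add_le_add (mul_le_mul_right p1 _)
    (ENNReal.ofReal_le_ofReal p2)) p3)) (mul_le_mul_left (mul_le_mul_right
      (H₃ n hn2 κ hk2) _) _)).trans ?_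
  -- numerics
  obtain ⟨x, hx⟩ : ∃ x, x = (S ^ 2) ^ 2 / sx n ^ 2 := ⟨_, rfl⟩
  have hx0 : 0 ≤ x := by rw [hx]; positivity
  have hS4 : 1 ≤ (S ^ 2) ^ 2 := one_le_pow₀ hT
  have hcx : c₁ * x ≤ 1 := by
    rw [hx, ← mul_div_assoc, div_le_one ht]
    exact le_trans (mul_le_mul_of_nonneg_right (by linarith) (by positivity)) hCT
  have ht2 : 2 ≤ sx n ^ 2 :=
    le_trans (le_trans (by linarith) (le_mul_of_one_le_right (by linarith) hS4)) hCT
  have q1 : (J : ℝ) ^ 4 / (4 * sx n ^ 2) ≤ (A + 1) ^ 4 / 4 * x := by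
    rw [hx, div_mul_div_comm]
    refine div_le_div_of_nonneg_right ((pow_le_pow_left₀ (Nat.cast_nonneg J) hJA 4).trans
      (le_of_eq (by ring))) (by positivity)
  have q2 : 3 * S ^ 2 / sx n ^ 2 * ((14 * B + 1) * S) ^ 2 = 3 * (14 * B + 1) ^ 2 * x := by
    rw [hx]; ring
  have q3 : exp ((J : ℝ) ^ 4 / (4 * sx n ^ 2)) *
      exp (3 * S ^ 2 / sx n ^ 2 * ((14 * B + 1) * S) ^ 2) ≤ 1 + 2 * c₁ * x := by
    rw [← exp_add, q2]
    have h1 : exp ((J : ℝ) ^ 4 / (4 * sx n ^ 2) + 3 * (14 * B + 1) ^ 2 * x) ≤ exp (c₁ * x) :=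
      exp_le_exp.2 (by rw [hc₁, add_mul]; linarith)
    have h2 := Real.abs_exp_sub_one_le (x := c₁ * x) (by rwa [abs_of_nonneg (by positivity)])
    rw [abs_of_nonneg (show 0 ≤ c₁ * x by positivity)] at h2
    linarith [le_abs_self (exp (c₁ * x) - 1)]
  have q4 : exp ((J : ℝ) ^ 4 / (4 * sx n ^ 2)) ≤ 3 := by
    have h1 : 1 ≤ exp (3 * S ^ 2 / sx n ^ 2 * ((14 * B + 1) * S) ^ 2) := one_le_exp (by positivity)
    have h2 := mul_le_mul_of_nonneg_left h1 (exp_pos ((J : ℝ) ^ 4 / (4 * sx n ^ 2))).le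
    linarith
  have hS3 : S ^ 2 ≤ S ^ 3 := pow_le_pow_right₀ hS1 (by norm_num)
  have q5 : exp (-(S ^ 2 * ((14 * B + 1) * S))) * (2 * (B * exp (B * (3 * S) ^ 3 / 2))) ≤
      2 * B * exp (-S ^ 2) := by
    rw [mul_left_comm, mul_left_comm _ B, ← exp_add, mul_assoc]
    have : 0 ≤ B * S ^ 3 := by positivity
    gcongr
    linarith
  have q6 : exp (-S ^ 3) ≤ exp (-S ^ 2) := exp_le_exp.2 (by linarith)
  have q9 := mul_le_mul_of_nonneg_right ht2 hT0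
  have q7 : exp (-(4 * (n * κ))) ≤ exp (-S ^ 2) := exp_le_exp.2 (by linarith)
  have q8 : exp (-(S ^ 2 * sx n ^ 2 / 2)) ≤ exp (-S ^ 2) := exp_le_exp.2 (by linarith)
  have r1 : ENNReal.ofReal (exp ((J : ℝ) ^ 4 / (4 * sx n ^ 2))) *
      (ENNReal.ofReal (exp (3 * S ^ 2 / sx n ^ 2 * ((14 * B + 1) * S) ^ 2)) * GOE n (GS n B κ) +
        ENNReal.ofReal (exp (-(S ^ 2 * ((14 * B + 1) * S))) *
          (2 * (B * exp (B * (3 * S) ^ 3 / 2))))) ≤
      GOE n (GS n B κ) + ENNReal.ofReal (2 * c₁ * x + 3 * (2 * B * exp (-S ^ 2))) := by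
    rw [mul_add, ← mul_assoc, ← ENNReal.ofReal_mul (exp_pos _).le,
      ← ENNReal.ofReal_mul (exp_pos _).le, ENNReal.ofReal_add (by positivity) (by positivity),
      ← add_assoc]
    refine add_le_add ((mul_le_mul_left (ENNReal.ofReal_le_ofReal q3) _).trans ?_)
      (ENNReal.ofReal_le_ofReal (mul_le_mul q4 q5 (by positivity) (by norm_num)))
    rw [ENNReal.ofReal_add zero_le_one (by positivity), ENNReal.ofReal_one, add_mul, one_mul]
    exact add_le_add le_rfl (mul_le_of_le_one_right' prob_le_one)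
  refine (add_le_add (add_le_add (add_le_add r1 le_rfl) le_rfl) le_rfl).trans ?_
  rw [add_assoc, add_assoc, add_assoc, ← ENNReal.ofReal_mul (exp_pos _).le,
    ← ENNReal.ofReal_ofNat 2, ← ENNReal.ofReal_mul (by positivity),
    ← ENNReal.ofReal_add (by positivity) (by positivity),
    ← ENNReal.ofReal_add (by positivity) (by positivity),
    ← ENNReal.ofReal_add (by positivity) (by positivity), ← hx]
  refine add_le_add le_rfl (ENNReal.ofReal_le_ofReal ?_)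
  have s1 := mul_le_mul_of_nonneg_left q6 (show 0 ≤ 128 * B / g ^ 2 by positivity)
  have s2 := mul_le_mul_of_nonneg_right q7 hC₀
  have s3 := mul_le_mul_of_nonneg_right q8 hC₃
  have s4 := exp_pos (-S ^ 2)
  generalize exp (-S ^ 2) = E at *
  have s5 : c₂ * E = 6 * B * E + 128 * B / g ^ 2 * E + E * C₀ + 2 * (E * C₃) := by rw [hc₂]; ring
  linarith [mul_nonneg hc₁0 s4.le, mul_nonneg hc₂0 hx0]

lemma rate (C : ℝ) : Tendsto (fun n : ℕ => C * (Tw n ^ 2 / sx n ^ 2 + exp (-Tw n)) /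
    ((n : ℝ) ^ (-(1 / 4) : ℝ) / 4)) atTop (𝓝 0) := by
  have t1 : Tendsto (fun n : ℕ => (n : ℝ) ^ (-(13 / 300 : ℝ))) atTop (𝓝 0) :=
    (tendsto_rpow_neg_atTop (by norm_num)).comp tendsto_natCast_atTop_atTop
  have t2 : Tendsto Tw atTop atTop :=
    (tendsto_rpow_atTop (by norm_num)).comp tendsto_natCast_atTop_atTop
  have t3 := (tendsto_rpow_mul_exp_neg_mul_atTop_nhds_zero (25 / 2) 1 one_pos).comp t2
  have t4 := (t1.add t3).const_mul (4 * C)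
  rw [add_zero, mul_zero] at t4
  refine t4.congr' ?_
  filter_upwards [eventually_ge_atTop 1] with n hn
  have hn0 : (0 : ℝ) < n := by exact_mod_cast hn
  have e1 : Tw n ^ (25 / 2 : ℝ) = ((n : ℝ) ^ (-(1 / 4) : ℝ))⁻¹ := by
    rw [Tw, ← rpow_mul hn0.le, ← rpow_neg hn0.le]; norm_num
  have e2 : (n : ℝ) ^ (-(13 / 300 : ℝ)) = Tw n ^ 2 / sx n ^ 2 * ((n : ℝ) ^ (-(1 / 4) : ℝ))⁻¹ := by
    rw [Tw, sx_pow, ← rpow_natCast, ← rpow_mul hn0.le, ← rpow_neg hn0.le, ← rpow_sub hn0,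
      ← rpow_add hn0]
    norm_num
  simp only [Function.comp_apply, e1, e2, neg_mul, one_mul]
  have := rpow_pos_of_pos hn0 (-(1 / 4) : ℝ)
  field_simp

lemma chi_on (hRY : RotYStmt) (hP : PlStmt) {B : ℝ} (hB : 1 ≤ B) : ∃ κ : ℝ, 0 < κ ∧
    Whp GOE fun n W => W ∈ GS n B κ → ENNReal.ofReal (rr n W ^ 2) * Chi (Tw n) (muW n W) (nuW n W) ≤
      ENNReal.ofReal (rr n W ^ 2) + ENNReal.ofReal ((n : ℝ) ^ (-(1 / 4) : ℝ) / 4) := by
  have hS := sphStmt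
  have hK := All.lnkStmt
  obtain ⟨κ, C, hκ, hC, H⟩ := mainY hS hK rotStmt All.lamStmt hRY hP hB
  refine ⟨κ, hκ, whp_iff.2 fun ε hε => ?_⟩
  have t2 : Tendsto Tw atTop atTop :=
    (tendsto_rpow_atTop (by norm_num)).comp tendsto_natCast_atTop_atTop
  have t3 := ((tendsto_pow_atTop two_ne_zero).comp tendsto_sx).atTop_mul_const hκ
  filter_upwards [(rate C).eventually (gt_mem_nhds (lt_min hε one_pos)), eventually_ge_atTop 2,
    t2.eventually_ge_atTop 1, t3.eventually_ge_atTop 6] with n h1 hn2 hT h6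
  have hn : 1 ≤ n := by omega
  have hn1 : (1 : ℝ) ≤ n := by exact_mod_cast hn
  have ht : 0 < sx n ^ 2 := pow_pos (sx_pos hn) 2
  have ha : 0 < (n : ℝ) ^ (-(1 / 4) : ℝ) / 4 := by positivity
  have ha1 : (n : ℝ) ^ (-(1 / 4) : ℝ) / 4 ≤ 1 :=
    (div_le_self (by positivity) (by norm_num)).trans
      (rpow_le_one_of_one_le_of_nonpos hn1 (by norm_num))
  have hCT : C * Tw n ^ 2 ≤ sx n ^ 2 := by
    have h2 := (div_le_iff₀ ha).1 (h1.le.trans (min_le_right _ _))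
    have h3 : 0 ≤ C * exp (-Tw n) := by positivity
    rw [mul_add, ← mul_div_assoc] at h2
    exact (div_le_one ht).1 (by linarith)
  have hTt : Tw n ≤ sx n ^ 2 := le_trans (by nlinarith) hCT
  have hTκ : 6 * (sx n ^ 2 * Tw n) ≤ n * κ := by
    simp only [Function.comp_apply] at h6
    rw [← sx_pow_six n, show sx n ^ 6 * κ = sx n ^ 2 * κ * (sx n ^ 2 * sx n ^ 2) by ring]
    exact mul_le_mul h6 (mul_le_mul_of_nonneg_left hTt ht.le) (by positivity) (by positivity)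
  have H1 := H n hn2 _ hT hTκ hCT
  have mS := meas_GS hK hn B κ
  have mr := meas_rr hK hn
  have mr2 : Measurable fun W => ENNReal.ofReal (rr n W ^ 2) := (mr.pow_const 2).ennreal_ofReal
  have mA : Measurable fun W : Mat n =>
      ENNReal.ofReal (rr n W ^ 2) * Chi (Tw n) (muW n W) (nuW n W) := by
    simp only [← G1_cube hS hK hn]
    exact Measurable.lintegral_prod_right' ((meas_G1 hS hK hn _).fun_mul
      (meas_YX (onS_omc hn) measurable_const))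
  have hfin : GOE n (GS n B κ) ≠ ∞ := measure_ne_top _ _
  have i0 : ∀ i j : Fin n, i ≠ j → GOE n (GS n B κ) ≤
      ∫⁻ W in GS n B κ, ENNReal.ofReal (rr n W ^ 2) ∂GOE n := fun i j hij => by
    refine (ENNReal.add_le_add_iff_right hfin).1 ?_
    conv_lhs => rw [← lint_rr hS hK hn rotStmt hij]
    conv_rhs => rw [← setLIntegral_one]
    rw [← lintegral_add_left mr.ennreal_ofReal, ← lintegral_add_left mr2]
    refine lintegral_mono fun W => ?_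
    have := (rr_pos hK hn W).le
    simp only
    rw [← ENNReal.ofReal_add this this, ← ENNReal.ofReal_one,
      ← ENNReal.ofReal_add (sq_nonneg _) zero_le_one]
    exact ENNReal.ofReal_le_ofReal (by nlinarith [sq_nonneg (rr n W - 1)])
  have i1 := i0 ⟨0, by omega⟩ ⟨1, by omega⟩ (by simp)
  have mX := mA.fun_sub mr2
  have i2 : ∫⁻ W in GS n B κ, (ENNReal.ofReal (rr n W ^ 2) * Chi (Tw n) (muW n W) (nuW n W) -
      ENNReal.ofReal (rr n W ^ 2)) ∂GOE n ≤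
      ENNReal.ofReal (C * (Tw n ^ 2 / sx n ^ 2 + exp (-Tw n))) := by
    refine (ENNReal.add_le_add_iff_left hfin).1 (le_trans ?_ H1)
    refine (add_le_add i1 le_rfl).trans (le_of_eq ?_)
    rw [← lintegral_add_left mr2]
    exact lintegral_congr fun W => add_tsub_cancel_of_le (le_mul_of_one_le_right'
      (one_le_Chi (cp_mu hK hn W) (cp_nu hK hn W) (by linarith)))
  have i3 := meas_ge_le_lintegral_div (μ := (GOE n).restrict (GS n B κ)) mX.aemeasurable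
    (ε := ENNReal.ofReal ((n : ℝ) ^ (-(1 / 4) : ℝ) / 4)) (ENNReal.ofReal_pos.2 ha).ne'
    ENNReal.ofReal_ne_top
  rw [Measure.restrict_apply (measurableSet_le measurable_const mX)] at i3
  refine le_trans (measure_mono fun W hW => ?_) (i3.trans ((ENNReal.div_le_div_right i2 _).trans ?_))
  · rw [Set.mem_ofPred_eq, Classical.not_imp, not_le] at hW
    exact ⟨ENNReal.le_sub_of_add_le_left ENNReal.ofReal_ne_top hW.2.le, hW.1⟩
  · rw [← ENNReal.ofReal_div_of_pos ha]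
    exact ENNReal.ofReal_le_ofReal (h1.le.trans (min_le_left _ _))

end Crest.Agent.T157.Sp.Ch87

namespace Crest.Agent.T157.Sp

open Filter Crest.Agent.T157.St Crest.Agent.T157.St.Cl28 Crest.Agent.T157.Top

/-- **the cube is `χ²`-close to the sphere after the channel** -/
theorem chiGlue : ChiGlue := fun hRY hP => by
  refine whp_of_approx fun ε hε => ?_
  obtain ⟨B, hB, h1⟩ := good All.lnkStmt All.zsStmt All.sphTightStmt hε
  obtain ⟨κ, hκ, h2⟩ := Ch87.chi_on hRY hP hB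
  refine ⟨fun n W => W ∈ GS n B κ, h1 κ hκ, (h2.and (rr_whp mmdStmt sphStmt All.lnkStmt rotStmt
    All.lamStmt All.zsStmt All.sphTightStmt (ε := 1 / 2) (by norm_num))).mono ?_⟩
  refine Eventually.of_forall fun n W hW hG => ?_
  have h3 : 1 / 4 ≤ rr n W ^ 2 := by nlinarith [(abs_le.1 hW.2).1]
  have h4 : 0 ≤ (n : ℝ) ^ (-(1 / 4) : ℝ) := by positivity
  refine (ENNReal.mul_le_mul_iff_right (a := ENNReal.ofReal (rr n W ^ 2))
    (ENNReal.ofReal_pos.2 (by linarith)).ne' ENNReal.ofReal_ne_top).1 ((hW.1 hG).trans ?_)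
  rw [← ENNReal.ofReal_add (sq_nonneg _) (by positivity), ← ENNReal.ofReal_mul (sq_nonneg _)]
  exact ENNReal.ofReal_le_ofReal (by nlinarith)

end Crest.Agent.T157.Sp

end
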