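import Crest.Agent.T157.SpDef_87
import Crest.Agent.T157.StShell_38

/-!
# Row 157, sphere side: from soft to hard conditioning (helper85)

`Sp.hardGlue : HardGlue`.  The soft bound holds for every stiffness `κ`; as `κ → ∞` the weight
`exp (-(κ/8) (|x|² - t)²)` concentrates on the sphere (`peak`).
-/

set_option autoImplicit false

noncomputable section

namespace Crest.Agent.T157.Sp

open MeasureTheory ProbabilityTheory Matrix Filter Topology Finset Real
open scoped ENNReal
open Crest.Agent.T157.E Crest.Agent.T157.St Crest.Agent.T157.St.Sph38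

namespace Hard85

variable {ι : Type*} [Fintype ι]

/-- one-dimensional peak lemma -/
lemma peak1 {g : ℝ → ℝ} (hg : Continuous g) {t B : ℝ} (ht : 0 < t)
    (h : ∀ η, 0 < η → η < t → ∀ κ, 0 < κ →
      ∫ r in √(t - η)..√(t + η), exp (-(κ / 8) * (r ^ 2 - t) ^ 2) * g r ≤
        B * exp (-(κ / 8) * η ^ 2)) : g √t ≤ 0 := by
  by_contra hc
  have hc : 0 < g √t := not_le.1 hc
  have hcs : ContinuousAt (fun s => g √s) t := (hg.comp continuous_sqrt).continuousAt
  obtain ⟨e, he, H⟩ := Metric.continuousAt_iff.1 hcs (g √t / 2) (by positivity)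
  set γ := g √t / 2 with hγ
  have hγ0 : 0 < γ := by positivity
  set η := min (e / 2) (t / 2) with hη
  have h0 : 0 < η := by positivity
  have h1 : η ≤ e / 2 := min_le_left _ _
  have h2 : η ≤ t / 2 := min_le_right _ _
  have hlow : ∀ r ∈ Set.Icc √(t - η) √(t + η), γ ≤ g r := fun r hr => by
    have hr0 : 0 ≤ r := (sqrt_nonneg _).trans hr.1
    have a1 : t - η ≤ r ^ 2 := (sqrt_le_left hr0).1 hr.1
    have a2 : r ^ 2 ≤ t + η := (le_sqrt hr0 (by linarith)).1 hr.2
    have a3 := H (x := r ^ 2) (by rw [Real.dist_eq, abs_lt]; constructor <;> linarith)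
    rw [sqrt_sq hr0, Real.dist_eq, abs_lt] at a3
    linarith [a3.1]
  have b1 : √(t - η) ≤ √t := sqrt_le_sqrt (by linarith)
  have b2 : √t < √(t + η / 2) := sqrt_lt_sqrt ht.le (by linarith)
  have b3 : √(t + η / 2) ≤ √(t + η) := sqrt_le_sqrt (by linarith)
  set l := √(t + η / 2) - √t with hl
  have hl0 : 0 < l := by linarith
  have key : ∀ κ, 0 < κ → l * (exp (-(κ / 8) * (η / 2) ^ 2) * γ) ≤ B * exp (-(κ / 8) * η ^ 2) :=
    fun κ hκ => by
    refine le_trans ?_ (h η h0 (by linarith) κ hκ)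
    have hw : Continuous fun r : ℝ => exp (-(κ / 8) * (r ^ 2 - t) ^ 2) * g r := by fun_prop
    refine le_trans ?_ (intervalIntegral.integral_mono_interval b1 b2.le b3 ?_
      (hw.intervalIntegrable _ _))
    · have e1 : l * (exp (-(κ / 8) * (η / 2) ^ 2) * γ) =
          ∫ _ in √t..√(t + η / 2), exp (-(κ / 8) * (η / 2) ^ 2) * γ := by
        rw [intervalIntegral.integral_const, smul_eq_mul]
      rw [e1]
      refine intervalIntegral.integral_mono_on b2.le (continuous_const.intervalIntegrable _ _)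
        (hw.intervalIntegrable _ _) fun r hr => ?_
      have hr0 : 0 ≤ r := (sqrt_nonneg _).trans hr.1
      have a1 : t ≤ r ^ 2 := (sqrt_le_left hr0).1 hr.1
      have a2 : r ^ 2 ≤ t + η / 2 := (le_sqrt hr0 (by linarith)).1 hr.2
      refine mul_le_mul (exp_le_exp.2 ?_) (hlow r ⟨b1.trans hr.1, hr.2.trans b3⟩) hγ0.le
        (exp_pos _).le
      have : (r ^ 2 - t) ^ 2 ≤ (η / 2) ^ 2 := pow_le_pow_left₀ (by linarith) (by linarith) 2
      nlinarith
    · filter_upwards [ae_restrict_mem measurableSet_Ioc] with r hr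
      exact mul_nonneg (exp_pos _).le (hγ0.le.trans (hlow r ⟨hr.1.le, hr.2⟩))
  have hq : 0 < l * γ := mul_pos hl0 hγ0
  set κ := (|B| / (l * γ) + 1) * 32 / (3 * η ^ 2) with hκ
  have hκ0 : 0 < κ := by positivity
  have k1 := key κ hκ0
  have k2 : exp (-(κ / 8) * (η / 2) ^ 2) =
      exp (-(κ / 8) * η ^ 2) * exp (|B| / (l * γ) + 1) := by
    rw [← exp_add]
    congr 1
    rw [hκ]; field_simp; ring
  have k3 : |B| / (l * γ) + 1 + 1 ≤ exp (|B| / (l * γ) + 1) := add_one_le_exp _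
  have k4 : l * γ * exp (|B| / (l * γ) + 1) ≤ B := by
    refine le_of_mul_le_mul_right ?_ (exp_pos (-(κ / 8) * η ^ 2))
    rw [k2] at k1
    linarith
  have k5 : l * γ * (|B| / (l * γ) + 1 + 1) = |B| + 2 * (l * γ) := by field_simp; ring
  have k6 := mul_le_mul_of_nonneg_left k3 hq.le
  linarith [le_abs_self B]

/-- peak lemma on the sphere -/
lemma peak [Nonempty ι] {G : (ι → ℝ) → ℝ} (hG : Continuous G) {t B : ℝ} (ht : 0 < t)
    (h : ∀ η, 0 < η → η < t → ∀ κ, 0 < κ →
      ∫ x in shell (t - η) (2 * η), exp (-(κ / 8) * (x ⬝ᵥ x - t) ^ 2) * G x ≤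
        B * exp (-(κ / 8) * η ^ 2)) : ∫ x, G x ∂sphR ι √t ≤ 0 := by
  set g : ℝ → ℝ := fun r => kap ι * r ^ (Fintype.card ι - 1) * ∫ x, G (r • x) ∂sphR ι 1 with hg
  have hc : Continuous g := by
    have : Continuous fun r : ℝ => ∫ x, G (r • x) ∂sphR ι 1 :=
      continuous_sphR 1 (F := fun (r : ℝ) x => G (r • x)) (hG.comp (by fun_prop))
    fun_prop
  have h1 := peak1 hc (B := B) ht fun η h0 h1 κ hκ => by
    refine le_trans (le_of_eq ?_) (h η h0 h1 κ hκ)
    have hd := continuous_dot (ι := ι)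
    rw [integral_shell (by fun_prop) (by linarith) (by linarith),
      show t - η + 2 * η = t + η by ring]
    refine intervalIntegral.integral_congr fun r _ => ?_
    simp only [hg]
    rw [mul_left_comm, ← integral_const_mul]
    congr 1
    refine integral_congr_ae ?_
    filter_upwards [sphR_ae (ι := ι) 1] with x hx
    rw [dot_smul, hx, one_pow, mul_one]
  rw [integral_sphR √t hG.measurable]
  have hk : 0 < kap ι * √t ^ (Fintype.card ι - 1) := by
    have := kap_pos (ι := ι)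
    have := sqrt_pos.2 ht
    positivity
  exact nonpos_of_mul_nonpos_right h1 hk

/-- the soft bound, restricted to a shell -/
lemma shell_bd (μ : Measure (ι → ℝ)) [IsProbabilityMeasure μ] {F : (ι → ℝ) → ℝ}
    (hF : Continuous F) (h0 : ∀ x, 0 ≤ F x) {B t κ η : ℝ} (hB : 0 ≤ B) (hκ : 0 < κ) (hη : 0 < η)
    (h : ∫⁻ x, ENNReal.ofReal (F x) ∂μ.tilted (fun x => -(κ / 8) * (x ⬝ᵥ x - t) ^ 2) ≤
      ENNReal.ofReal B) :
    ∫ x in shell (t - η) (2 * η), exp (-(κ / 8) * (x ⬝ᵥ x - t) ^ 2) * (F x - B) ∂μ ≤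
      B * exp (-(κ / 8) * η ^ 2) := by
  have hd := continuous_dot (ι := ι)
  set w : (ι → ℝ) → ℝ := fun x => exp (-(κ / 8) * (x ⬝ᵥ x - t) ^ 2) with hw
  have hwc : Continuous w := by fun_prop
  have hwi : Integrable w μ := by
    refine Integrable.of_bound hwc.aestronglyMeasurable 1 (ae_of_all _ fun x => ?_)
    rw [Real.norm_eq_abs, abs_of_pos (exp_pos _), exp_le_one_iff]
    nlinarith [sq_nonneg (x ⬝ᵥ x - t)]
  have hZ : 0 < ∫ x, w x ∂μ := integral_exp_pos hwi
  set Z := ∫ x, w x ∂μ with hZd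
  set S : Set (ι → ℝ) := shell (t - η) (2 * η) with hS
  have hSm : MeasurableSet S := measurableSet_shell _ _
  have hSc : IsCompact S := isCompact_shell _ _
  have hi : ∀ {H : (ι → ℝ) → ℝ}, Continuous H → IntegrableOn H S μ := fun hH =>
    hH.continuousOn.integrableOn_compact hSc
  rw [lintegral_tilted] at h
  have h1 : ∫ x in S, w x / Z * F x ∂μ ≤ B := by
    refine (ENNReal.ofReal_le_ofReal_iff hB).1 (le_trans ?_ h)
    rw [ofReal_integral_eq_lintegral_ofReal (hi (by fun_prop))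
      (ae_of_all _ fun x => mul_nonneg (div_nonneg (exp_pos _).le hZ.le) (h0 x))]
    refine (setLIntegral_le_lintegral _ _).trans (le_of_eq (lintegral_congr fun x => ?_))
    exact ENNReal.ofReal_mul (div_nonneg (exp_pos _).le hZ.le)
  have h2 : ∫ x in S, w x / Z * F x ∂μ = (∫ x in S, w x * F x ∂μ) / Z := by
    rw [← integral_div]
    exact integral_congr_ae (ae_of_all _ fun x => by ring)
  rw [h2, div_le_iff₀ hZ] at h1
  have h3 : ∫ x in Sᶜ, w x ∂μ ≤ exp (-(κ / 8) * η ^ 2) := by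
    have a1 : ∫ x in Sᶜ, w x ∂μ ≤ ∫ _ in Sᶜ, exp (-(κ / 8) * η ^ 2) ∂μ := by
      refine setIntegral_mono_on hwi.integrableOn (integrable_const _).integrableOn hSm.compl
        fun x hx => exp_le_exp.2 ?_
      have : η ^ 2 ≤ (x ⬝ᵥ x - t) ^ 2 := by
        by_cases hx1 : t - η ≤ x ⬝ᵥ x
        · have hx2 : ¬ x ⬝ᵥ x ≤ t - η + 2 * η := fun h' => hx ⟨hx1, h'⟩
          exact pow_le_pow_left₀ hη.le (by linarith) 2
        · nlinarith
      nlinarith
    refine a1.trans ?_
    rw [setIntegral_const, smul_eq_mul]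
    exact mul_le_of_le_one_left (exp_pos _).le measureReal_le_one
  have h4 := integral_add_compl hSm hwi
  have h5 : ∫ x in S, w x * (F x - B) ∂μ = ∫ x in S, w x * F x ∂μ - B * ∫ x in S, w x ∂μ := by
    rw [← integral_const_mul, ← integral_sub (hi (by fun_prop)) (hi (by fun_prop))]
    exact integral_congr_ae (ae_of_all _ fun x => by ring)
  have h6 := mul_le_mul_of_nonneg_left h3 hB
  have h7 : B * Z = B * ∫ x in S, w x ∂μ + B * ∫ x in Sᶜ, w x ∂μ := by rw [← mul_add, h4]
  show ∫ x in S, w x * (F x - B) ∂μ ≤ _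
  linarith

lemma setIntegral_gs (m : ι → ℝ) {c : ι → ℝ} (hc : ∀ k, 0 < c k) (F : (ι → ℝ) → ℝ)
    {S : Set (ι → ℝ)} (hS : MeasurableSet S) :
    ∫ x in S, F x ∂gs m c = ∫ x in S, den c (x - m) * F x := by
  have hm : Measurable fun x : ι → ℝ => ENNReal.ofReal (den c (x - m)) :=
    ((continuous_den c).comp (by fun_prop)).measurable.ennreal_ofReal
  rw [gs_eq' m hc, setIntegral_withDensity_eq_setIntegral_toReal_smul hm
    (ae_of_all _ fun _ => ENNReal.ofReal_lt_top) _ hS]
  refine integral_congr_ae (ae_of_all _ fun x => ?_)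
  simp only
  rw [ENNReal.toReal_ofReal (den_nonneg c _), smul_eq_mul]

lemma den_eq {a : ι → ℝ} (ha : ∀ k, 0 < a k) (y : ι → ℝ) : ∃ K : ℝ, 0 < K ∧ ∀ x : ι → ℝ,
    den (fun k => 1 / a k) (x - fun k => y k / a k) =
      K * exp (y ⬝ᵥ x - 1 / 2 * ∑ k, a k * x k ^ 2) := by
  refine ⟨(√(2 * π))⁻¹ ^ Fintype.card ι * (∏ k, (√(1 / a k))⁻¹) *
    exp (-(1 / 2) * ∑ k, y k ^ 2 / a k), ?_, fun x => ?_⟩
  · have : 0 < ∏ k, (√(1 / a k))⁻¹ := Finset.prod_pos fun k _ => by have := ha k; positivity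
    positivity
  · rw [den, mul_assoc _ (exp _) (exp _), ← exp_add]
    congr 2
    rw [dotProduct, mul_sum, mul_sum, mul_sum, ← sum_sub_distrib, ← sum_add_distrib]
    refine sum_congr rfl fun k _ => ?_
    have := (ha k).ne'
    simp only [Pi.sub_apply]
    field_simp
    ring

/-- soft conditioning for every stiffness gives hard conditioning -/
theorem hard_of [Nonempty ι] {a : ι → ℝ} (ha : ∀ k, 0 < a k) (y : ι → ℝ) {t B : ℝ} (ht : 0 < t)
    (hB : 0 ≤ B) {F : (ι → ℝ) → ℝ} (hF : Continuous F) (h0 : ∀ x, 0 ≤ F x)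
    (h : ∀ κ, 0 < κ → ∫⁻ x, ENNReal.ofReal (F x) ∂gw (fun k => y k / a k) (fun k => 1 / a k) κ t ≤
      ENNReal.ofReal B) :
    ∫⁻ x, ENNReal.ofReal (F x) ∂((sphR ι √t).tilted
      fun x => y ⬝ᵥ x - 1 / 2 * ∑ k, a k * x k ^ 2) ≤ ENNReal.ofReal B := by
  obtain ⟨K, hK, hden⟩ := den_eq ha y
  set w : (ι → ℝ) → ℝ := fun x => exp (y ⬝ᵥ x - 1 / 2 * ∑ k, a k * x k ^ 2) with hw
  have hwc : Continuous w := by unfold w dotProduct; fun_prop
  have h1 := peak (G := fun x => K * (w x * (F x - B))) (B := B) (by fun_prop) ht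
    fun η h1 h2 κ hκ => by
      refine le_trans (le_of_eq ?_) (shell_bd _ hF h0 hB hκ h1 (h κ hκ))
      rw [setIntegral_gs _ (fun k => one_div_pos.2 (ha k)) _ (measurableSet_shell _ _)]
      refine integral_congr_ae (ae_of_all _ fun x => ?_)
      simp only
      rw [hden x]
      ring
  rw [integral_const_mul] at h1
  have h2 := nonpos_of_mul_nonpos_right h1 hK
  have hwi : Integrable w (sphR ι √t) := integrable_sphR _ hwc
  have hZ : 0 < ∫ x, w x ∂sphR ι √t := integral_exp_pos hwi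
  set Z := ∫ x, w x ∂sphR ι √t with hZd
  have h3 : ∫ x, w x * (F x - B) ∂sphR ι √t = ∫ x, w x * F x ∂sphR ι √t - B * Z := by
    rw [← integral_const_mul, ← integral_sub (integrable_sphR _ (by fun_prop))
      (integrable_sphR _ (by fun_prop))]
    exact integral_congr_ae (ae_of_all _ fun x => by ring)
  have h4 : ∫ x, w x / Z * F x ∂sphR ι √t = (∫ x, w x * F x ∂sphR ι √t) / Z := by
    rw [← integral_div]
    exact integral_congr_ae (ae_of_all _ fun x => by ring)
  have h5 : ∫ x, w x / Z * F x ∂sphR ι √t ≤ B := by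
    rw [h4, div_le_iff₀ hZ]; linarith
  rw [lintegral_tilted]
  refine le_trans (le_of_eq ?_) (ENNReal.ofReal_le_ofReal h5)
  rw [ofReal_integral_eq_lintegral_ofReal (integrable_sphR _ (by fun_prop))
    (ae_of_all _ fun x => mul_nonneg (div_nonneg (exp_pos _).le hZ.le) (h0 x))]
  exact lintegral_congr fun x => (ENNReal.ofReal_mul (div_nonneg (exp_pos _).le hZ.le)).symm

end Hard85

theorem hardGlue : HardGlue := by
  rintro ⟨C, hC, H⟩
  refine ⟨C, hC, fun ι _ _ a y b t hb ht ha hab hs hq v hv => ?_⟩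
  have : Nonempty ι := by
    by_contra hn
    rw [not_nonempty_iff] at hn
    rw [Finset.univ_eq_empty, sum_empty] at hs
    have : 0 < C ^ 2 * b ^ 2 := by positivity
    linarith
  refine Hard85.hard_of ha y ht (by positivity) (by unfold dotProduct; fun_prop)
    (fun x => (exp_pos _).le) fun κ hκ => ?_
  rw [← hq]
  exact H ι _ _ b κ hb hκ (fun k => one_div_pos.2 (ha k)) hab hs v hv

end Crest.Agent.T157.Sp

end
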