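import Crest.Agent.T157.SpDef_87
import Crest.Agent.T157.StIso_42
import Crest.Agent.T157.StA_87
import Crest.Agent.Lib.PrekopaLeindler

/-!
# Row 157, sphere side of the window: `LargeStmt`, `PlStmt`, `RotYStmt` (helper13)
-/

set_option autoImplicit false

noncomputable section

namespace Crest.Agent.T157.Sp

open MeasureTheory ProbabilityTheory Matrix Filter Topology Finset Real
open scoped ENNReal
open Crest.ProbabilityR.SpinGlassDynamics Crest.Agent.T157.E Crest.Agent.T157.St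
open Crest.Agent.T157.Cond Crest.Agent.T157.Ed Crest.Agent.T157.Top

namespace Large13

lemma two_add_sq_le (u : ℝ) : 2 + u ^ 2 ≤ exp u + exp (-u) := by
  have h1 : |u / 2| ≤ |sinh (u / 2)| := by
    rw [abs_sinh]; exact self_le_sinh_iff.2 (abs_nonneg _)
  have h2 := sq_le_sq.2 h1
  have h3 := cosh_two_mul (u / 2)
  have h4 := cosh_sq (u / 2)
  rw [show 2 * (u / 2) = u by ring, cosh_eq] at h3
  nlinarith

lemma var_le {Ω : Type*} [MeasurableSpace Ω] {μ : Measure Ω} [IsProbabilityMeasure μ] {X : Ω → ℝ}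
    {s : ℝ} (hi : ∀ l : ℝ, Integrable (fun x => exp (l * X x)) μ)
    (h : ∀ l : ℝ, (∫ x, exp (l * X x) ∂μ) * ∫ x, exp (-l * X x) ∂μ ≤ exp (l ^ 2 * s)) :
    MemLp X 2 μ ∧ Var[X; μ] ≤ s := by
  have hm : MemLp X 2 μ := by
    have : integrableExpSet X μ = Set.univ := Set.eq_univ_of_forall hi
    exact memLp_of_mem_interior_integrableExpSet (by simp [this]) 2
  refine ⟨hm, ?_⟩
  have i1 : Integrable X μ := hm.integrable one_le_two
  have i2 : Integrable (fun x => X x ^ 2) μ := hm.integrable_sq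
  have i0 : Integrable (fun _ : Ω => (1 : ℝ)) μ := integrable_const _
  have key : ∀ l : ℝ, 1 + l ^ 2 * Var[X; μ] ≤ exp (l ^ 2 * s) := fun l => by
    have j0 := (i0.mul_prod i0).const_mul 2
    have j1 : Integrable (fun p : Ω × Ω => X p.1 ^ 2 * 1 + 1 * X p.2 ^ 2) (μ.prod μ) :=
      (i2.mul_prod i0).add (i0.mul_prod i2)
    have j2 := (i1.mul_prod i1).const_mul 2
    have j3 : Integrable (fun p : Ω × Ω =>
        l ^ 2 * (X p.1 ^ 2 * 1 + 1 * X p.2 ^ 2 - 2 * (X p.1 * X p.2))) (μ.prod μ) :=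
      (j1.sub j2).const_mul _
    have a := integral_mono (μ := μ.prod μ)
      (f := fun p => 2 * (1 * 1) + l ^ 2 * (X p.1 ^ 2 * 1 + 1 * X p.2 ^ 2 - 2 * (X p.1 * X p.2)))
      (g := fun p => exp (l * X p.1) * exp (-l * X p.2) + exp (-l * X p.1) * exp (l * X p.2))
      (j0.add j3) (((hi l).mul_prod (hi (-l))).add ((hi (-l)).mul_prod (hi l))) fun p => by
        have := two_add_sq_le (l * X p.1 + -l * X p.2)
        rw [show -(l * X p.1 + -l * X p.2) = -l * X p.1 + l * X p.2 by ring, exp_add,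
          exp_add] at this
        refine le_trans (le_of_eq ?_) this
        ring
    rw [integral_add ((hi l).mul_prod (hi (-l))) ((hi (-l)).mul_prod (hi l)),
      integral_add j0 j3, integral_const_mul 2, integral_const_mul (l ^ 2), integral_sub j1 j2,
      integral_add (i2.mul_prod i0) (i0.mul_prod i2), integral_const_mul 2,
      integral_prod_mul (fun x => exp (l * X x)) fun x => exp (-l * X x),
      integral_prod_mul (fun x => exp (-l * X x)) fun x => exp (l * X x),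
      integral_prod_mul (fun x => X x ^ 2) fun _ => (1 : ℝ),
      integral_prod_mul (fun _ => (1 : ℝ)) fun x => X x ^ 2,
      integral_prod_mul (fun _ => (1 : ℝ)) fun _ => (1 : ℝ), integral_prod_mul X X] at a
    simp only [integral_const, probReal_univ, one_smul] at a
    rw [variance_eq_sub hm]
    have e : μ[X ^ 2] = ∫ x, X x ^ 2 ∂μ := rfl
    rw [e]
    nlinarith [h l]
  have d : HasDerivAt (fun e : ℝ => exp (e * s)) s 0 := by
    simpa using ((hasDerivAt_id (0 : ℝ)).mul_const s).exp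
  refine ge_of_tendsto d.tendsto_slope_zero_right (eventually_nhdsWithin_of_forall fun e he => ?_)
  have he : 0 < e := he
  have := key √e
  rw [sq_sqrt he.le] at this
  simp only [zero_add, zero_mul, exp_zero, smul_eq_mul]
  rw [← div_eq_inv_mul, le_div_iff₀ he]
  linarith

variable {n : ℕ}

lemma int_gauss {a : ℝ} (ha : 0 < a) (w : Fin n → ℝ) (C : ℝ) {f : (Fin n → ℝ) → ℝ}
    (hf : Measurable f) (h : ∀ x, f x ≤ C + (w ⬝ᵥ x - a / 2 * (x ⬝ᵥ x))) :
    Integrable fun x => exp (f x) := by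
  have h1 : Integrable fun x : Fin n → ℝ => ∏ k, exp (w k ^ 2 / a) * exp (-(a / 4) * x k ^ 2) :=
    Integrable.fintype_prod (f := fun k (z : ℝ) => exp (w k ^ 2 / a) * exp (-(a / 4) * z ^ 2))
      fun k => (integrable_exp_neg_mul_sq (by positivity)).const_mul _
  refine (h1.const_mul (exp C)).mono' hf.exp.aestronglyMeasurable (.of_forall fun x => ?_)
  simp only [← exp_add, ← exp_sum, norm_eq_abs, abs_exp, exp_le_exp]
  refine (h x).trans (add_le_add_right ?_ C)
  rw [dotProduct, dotProduct, mul_sum, ← sum_sub_distrib]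
  refine sum_le_sum fun k _ => ?_
  have : w k * x k ≤ w k ^ 2 / a + a / 4 * x k ^ 2 := by
    rw [div_add' _ _ _ ha.ne', le_div_iff₀ ha]
    nlinarith [sq_nonneg (w k - a / 2 * x k)]
  nlinarith

/-- strongly log-concave laws have small covariance -/
lemma cov_le {a : ℝ} (ha : 0 < a) {W : (Fin n → ℝ) → ℝ} (hW : Measurable W) (w : Fin n → ℝ) (C : ℝ)
    (hb : ∀ x, W x ≤ C + (w ⬝ᵥ x - a / 2 * (x ⬝ᵥ x)))
    (hc : ∀ x x', (W x + W x') / 2 + a / 8 * ((x - x') ⬝ᵥ (x - x')) ≤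
      W ((1 / 2 : ℝ) • x + (1 / 2 : ℝ) • x')) :
    IsProbabilityMeasure (volume.tilted W) ∧ CovB (volume.tilted W) (1 / a) := by
  have i0 := int_gauss ha w C hW hb
  have hp := isProbabilityMeasure_tilted i0
  refine ⟨hp, fun v => ?_⟩
  have mv : Measurable fun x : Fin n → ℝ => v ⬝ᵥ x := by unfold dotProduct; fun_prop
  have i1 : ∀ l : ℝ, Integrable fun x => exp (W x + l * (v ⬝ᵥ x)) := fun l =>
    int_gauss ha (w + l • v) C (hW.add (mv.const_mul l)) fun x => by
      rw [add_dotProduct, smul_dotProduct, smul_eq_mul]; linarith [hb x]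
  have hZ : 0 < ∫ x, exp (W x) := integral_exp_pos i0
  refine var_le (fun l => (integrable_tilted_iff i0 _).2 (by simpa [exp_add] using i1 l)) fun l => ?_
  have e : ∀ l : ℝ, ∫ x, exp (l * (v ⬝ᵥ x)) ∂volume.tilted W =
      (∫ x, exp (W x + l * (v ⬝ᵥ x))) / ∫ x, exp (W x) := fun l => by
    rw [integral_tilted, ← integral_div]
    refine integral_congr_ae (.of_forall fun x => ?_)
    simp only [exp_add, smul_eq_mul]; ring
  set s := l ^ 2 * (1 / a * (v ⬝ᵥ v)) with hs
  have hPL := Lib.PrekopaLeindler.PL_pi n (1 / 2) (by norm_num) (by norm_num)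
    (fun x => ENNReal.ofReal (exp (W x + l * (v ⬝ᵥ x))))
    (fun x => ENNReal.ofReal (exp (W x + -l * (v ⬝ᵥ x))))
    (fun x => ENNReal.ofReal (exp (W x) * exp (s / 2)))
    (hW.add (mv.const_mul _)).exp.ennreal_ofReal (hW.add (mv.const_mul _)).exp.ennreal_ofReal
    (hW.exp.mul_const _).ennreal_ofReal fun x x' => by
      rw [show (1 : ℝ) - 1 / 2 = 1 / 2 by norm_num,
        ENNReal.ofReal_rpow_of_nonneg (exp_pos _).le (by norm_num),
        ENNReal.ofReal_rpow_of_nonneg (exp_pos _).le (by norm_num),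
        ← ENNReal.ofReal_mul (by positivity), ← exp_mul, ← exp_mul, ← exp_add, ← exp_add]
      refine ENNReal.ofReal_le_ofReal (exp_le_exp.2 ?_)
      have k : l / 2 * (v ⬝ᵥ (x - x')) ≤ s / 2 + a / 8 * ((x - x') ⬝ᵥ (x - x')) := by
        simp only [hs, dotProduct, mul_sum, sum_div, ← sum_add_distrib]
        refine sum_le_sum fun k _ => ?_
        have : l ^ 2 * (1 / a * (v k * v k)) / 2 = (l * v k) ^ 2 / 2 / a := by field_simp
        rw [this, div_add' _ _ _ ha.ne', le_div_iff₀ ha]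
        nlinarith [sq_nonneg (2 * l * v k - a * (x - x') k)]
      rw [dotProduct_sub] at k
      linarith [hc x x']
  rw [← ofReal_integral_eq_lintegral_ofReal (i1 l) (ae_of_all _ fun _ => (exp_pos _).le),
    ← ofReal_integral_eq_lintegral_ofReal (i1 (-l)) (ae_of_all _ fun _ => (exp_pos _).le),
    ← ofReal_integral_eq_lintegral_ofReal (i0.mul_const _) (ae_of_all _ fun _ => by positivity),
    integral_mul_const] at hPL
  rw [e, e]
  have z1 := integral_exp_pos (i1 l)
  have z2 := integral_exp_pos (i1 (-l))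
  rw [show (1 : ℝ) - 1 / 2 = 1 / 2 by norm_num, ENNReal.ofReal_rpow_of_nonneg z1.le (by norm_num),
    ENNReal.ofReal_rpow_of_nonneg z2.le (by norm_num), ← ENNReal.ofReal_mul (by positivity),
    ENNReal.ofReal_le_ofReal_iff (by positivity), ← mul_rpow z1.le z2.le, ← sqrt_eq_rpow] at hPL
  have h1 := pow_le_pow_left₀ (sqrt_nonneg _) hPL 2
  rw [sq_sqrt (by positivity), mul_pow, ← exp_nat_mul] at h1
  rw [div_mul_div_comm, div_le_iff₀ (by positivity)]
  refine h1.trans (le_of_eq ?_)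
  rw [show ((2 : ℕ) : ℝ) * (s / 2) = s by push_cast; ring]; ring

lemma gK_map {ι : Type*} [Fintype ι] [DecidableEq ι] (T : ℝ) {O : Matrix ι ι ℝ} (hO : Oᵀ * O = 1) :
    (gK ι T).map (fun y => Oᵀ *ᵥ y) = gK ι T := by
  conv_rhs => rw [gK, ← Iso42.gv_map hO]
  rw [gK, Measure.map_map (by fun_prop) (by fun_prop), Measure.map_map (by fun_prop) (by fun_prop)]
  congr 1
  funext z
  simp [mulVec_smul]

instance gK_prob (ι : Type*) [Fintype ι] (T : ℝ) : IsProbabilityMeasure (gK ι T) :=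
  Measure.isProbabilityMeasure_map (by fun_prop)

end Large13

open Large13

theorem largeStmt : LargeStmt := by
  intro n η t κ r a y hκ ha h
  have mq : Measurable fun x : Fin n → ℝ => x ⬝ᵥ x := by unfold dotProduct; fun_prop
  have my : Measurable fun x : Fin n → ℝ => y ⬝ᵥ x := by unfold dotProduct; fun_prop
  have mU : Measurable fun x : Fin n → ℝ =>
      -(1 / 2) * ∑ k : Fin n, η k * x k ^ 2 - κ / 8 * (x ⬝ᵥ x - t) ^ 2 := by fun_prop
  have q0 : ∀ x : Fin n → ℝ, 0 ≤ x ⬝ᵥ x := fun x => sum_nonneg fun k _ => mul_self_nonneg _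
  have lo : ∀ x : Fin n → ℝ, (a + κ * t / 2 - r) * (x ⬝ᵥ x) ≤ ∑ k : Fin n, η k * x k ^ 2 := fun x => by
    rw [dotProduct, mul_sum]
    exact sum_le_sum fun k _ => by nlinarith [h k, mul_self_nonneg (x k)]
  have iU := int_gauss (a := 1) one_pos 0
    ((1 + r - a - κ * t / 2) / 2 * t + (1 + r - a - κ * t / 2) ^ 2 / 2 / κ) mU fun x => by
      have : (1 + r - a - κ * t / 2) / 2 * (x ⬝ᵥ x - t) - κ / 8 * (x ⬝ᵥ x - t) ^ 2 ≤
          (1 + r - a - κ * t / 2) ^ 2 / 2 / κ := by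
        rw [le_div_iff₀ hκ]
        nlinarith [sq_nonneg (2 * (1 + r - a - κ * t / 2) - κ * (x ⬝ᵥ x - t))]
      rw [zero_dotProduct]
      nlinarith [lo x]
  rw [pst, piD, tilted_tilted iU]
  refine cov_le ha (mU.add (my.sub (mq.const_mul _))) y 0 (fun x => ?_) fun x x' => ?_
  · simp only [Pi.add_apply]
    nlinarith [lo x, mul_nonneg hκ.le (sq_nonneg (x ⬝ᵥ x)), mul_nonneg hκ.le (sq_nonneg t)]
  · set z := (1 / 2 : ℝ) • x + (1 / 2 : ℝ) • x' with hz
    simp only [Pi.add_apply _ _ z, Pi.add_apply _ _ x, Pi.add_apply _ _ x']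
    have e1 : z ⬝ᵥ z = (x ⬝ᵥ x + x' ⬝ᵥ x') / 2 - (x - x') ⬝ᵥ (x - x') / 4 := by
      simp only [hz, add_dotProduct, dotProduct_add, sub_dotProduct, dotProduct_sub,
        smul_dotProduct, dotProduct_smul, smul_eq_mul]
      ring
    have e2 : y ⬝ᵥ z = (y ⬝ᵥ x + y ⬝ᵥ x') / 2 := by
      simp only [hz, dotProduct_add, dotProduct_smul, smul_eq_mul]; ring
    have e3 : ∑ k : Fin n, η k * z k ^ 2 = (∑ k : Fin n, η k * x k ^ 2 +
        ∑ k : Fin n, η k * x' k ^ 2) / 2 - (∑ k : Fin n, η k * (x - x') k ^ 2) / 4 := by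
      simp only [← sum_add_distrib, sum_div, ← sum_sub_distrib]
      refine sum_congr rfl fun k _ => ?_
      simp only [hz, Pi.add_apply, Pi.smul_apply, Pi.sub_apply, smul_eq_mul]; ring
    have e4 : (z ⬝ᵥ z) ^ 2 ≤ ((x ⬝ᵥ x) ^ 2 + (x' ⬝ᵥ x') ^ 2) / 2 := by
      have : z ⬝ᵥ z ≤ (x ⬝ᵥ x + x' ⬝ᵥ x') / 2 := by linarith [q0 (x - x')]
      nlinarith [q0 z, sq_nonneg (x ⬝ᵥ x - x' ⬝ᵥ x')]
    have e5 := mul_le_mul_of_nonneg_left e4 hκ.le
    have e6 := lo (x - x')
    have e7 : κ * t * (z ⬝ᵥ z) = κ * t * ((x ⬝ᵥ x + x' ⬝ᵥ x') / 2 - (x - x') ⬝ᵥ (x - x') / 4) := by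
      rw [e1]
    have e8 : r * (z ⬝ᵥ z) = r * ((x ⬝ᵥ x + x' ⬝ᵥ x') / 2 - (x - x') ⬝ᵥ (x - x') / 4) := by
      rw [e1]
    rw [e2, e3]
    nlinarith

theorem plStmt : PlStmt := by
  intro ι _ ν hν K hK F hF
  classical
  have := hν.prob
  have mw : Measurable fun p : (ι → ℝ) × (ι → ℝ) × (ι → ℝ) =>
      ENNReal.ofReal (ew K p.1 p.2.1 * ew K p.1 p.2.2) :=
    ((A87.measurable_ew K measurable_fst measurable_snd.fst).mul
      (A87.measurable_ew K measurable_fst measurable_snd.snd)).ennreal_ofReal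
  have hc : (2 : ℝ).HolderConjugate 2 := Real.HolderConjugate.two_two
  have m2 : Measurable fun y => ∫⁻ q, F q ^ 2 * ENNReal.ofReal (ew K y q.1 * ew K y q.2) ∂ν.prod ν :=
    (((hF.comp measurable_snd).pow_const 2).mul mw).lintegral_prod_right'
  have step : ∀ y, (∫⁻ q, F q * ENNReal.ofReal (ew K y q.1 * ew K y q.2) ∂ν.prod ν) /
      ENNReal.ofReal (Mf K ν y) ≤
      (∫⁻ q, F q ^ 2 * ENNReal.ofReal (ew K y q.1 * ew K y q.2) ∂ν.prod ν) ^ (1 / 2 : ℝ) := by
    intro y
    have my : Measurable fun q : (ι → ℝ) × (ι → ℝ) => ENNReal.ofReal (ew K y q.1 * ew K y q.2) :=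
      ((A87.measurable_ew K measurable_const measurable_fst).mul
        (A87.measurable_ew K measurable_const measurable_snd)).ennreal_ofReal
    have hM := A87.Mf_pos hν hK y
    have ie := (A87.Bs.ew hν hK y).int hν
    have h1 := ENNReal.lintegral_mul_le_Lp_mul_Lq (ν.prod ν) hc
      (f := fun q => F q * ENNReal.ofReal (ew K y q.1 * ew K y q.2) ^ (1 / 2 : ℝ))
      (g := fun q => ENNReal.ofReal (ew K y q.1 * ew K y q.2) ^ (1 / 2 : ℝ))
      (hF.mul (my.pow_const _)).aemeasurable (my.pow_const _).aemeasurable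
    have r1 : ∀ u : ℝ≥0∞, (u ^ (1 / 2 : ℝ)) ^ (2 : ℝ) = u := fun u => by
      rw [← ENNReal.rpow_mul]; norm_num
    have r2 : ∀ u : ℝ≥0∞, u ^ (1 / 2 : ℝ) * u ^ (1 / 2 : ℝ) = u := fun u => by
      rw [← sq, ← ENNReal.rpow_natCast]; exact r1 u
    simp only [Pi.mul_apply, mul_assoc, r2, ENNReal.mul_rpow_of_nonneg _ _ (zero_le_two), r1] at h1
    rw [← ofReal_integral_eq_lintegral_ofReal (ie.mul_prod ie)
      (ae_of_all _ fun q => (mul_pos (A87.ew_pos _ _ _) (A87.ew_pos _ _ _)).le),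
      integral_prod_mul (ew K y) (ew K y), ← Mf, ENNReal.ofReal_mul hM.le,
      ENNReal.mul_rpow_of_nonneg _ _ (by norm_num), r2] at h1
    refine ENNReal.div_le_of_le_mul (h1.trans (le_of_eq ?_))
    simp only [ENNReal.rpow_ofNat]
  refine (lintegral_mono step).trans ?_
  have h2 := ENNReal.lintegral_mul_le_Lp_mul_Lq (gK ι K) hc (g := fun _ => 1)
    (m2.pow_const (1 / 2 : ℝ)).aemeasurable measurable_const.aemeasurable
  simp only [Pi.mul_apply, mul_one, ENNReal.one_rpow, lintegral_const, measure_univ,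
    ← ENNReal.rpow_mul] at h2
  refine h2.trans (le_of_eq ?_)
  congr 1
  norm_num only [ENNReal.rpow_one]
  rw [lintegral_lintegral_swap (((hF.comp measurable_snd).pow_const 2).mul mw).aemeasurable]
  refine lintegral_congr fun q => ?_
  have mq : Measurable fun y => ew K y q.1 * ew K y q.2 :=
    (A87.measurable_ew K measurable_id measurable_const).mul
      (A87.measurable_ew K measurable_id measurable_const)
  rw [lintegral_const_mul _ mq.ennreal_ofReal, ← A87.IK_ew_ew hK, ← A87.integral_gK mq,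
    ofReal_integral_eq_lintegral_ofReal _
      (ae_of_all _ fun y => (mul_pos (A87.ew_pos _ _ _) (A87.ew_pos _ _ _)).le)]
  rw [gK, integrable_map_measure mq.aestronglyMeasurable (by fun_prop)]
  exact A87.intK ((A87.mg_ew hK q.1).mul (A87.mg_ew hK q.2)) K

theorem rotYStmt : RotYStmt := by
  intro n i j hij T _ G hG hinv x x' hx hx'
  have hc : x' ⬝ᵥ x = x ⬝ᵥ x' := dotProduct_comm _ _
  obtain ⟨O, hO, ha, hb⟩ := Iso42.exists_orth hij (x + x') (x - x') (by
    simp only [add_dotProduct, dotProduct_sub, hx, hx', hc]; ring)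
  have la : len (x + x') ^ 2 = 2 * sx n ^ 2 + 2 * (x ⬝ᵥ x') := by
    rw [len_sq]; simp only [add_dotProduct, dotProduct_add, hx, hx', hc]; ring
  have lb : len (x - x') ^ 2 = 2 * sx n ^ 2 - 2 * (x ⬝ᵥ x') := by
    rw [len_sq]; simp only [sub_dotProduct, dotProduct_sub, hx, hx', hc]; ring
  have hO' : Oᵀᵀ * Oᵀ = 1 := by rw [transpose_transpose]; exact mul_eq_one_comm.1 hO
  have hmap := goe_conj (ι := Fin n) (1 / Real.sqrt n) Oᵀ (by rw [transpose_transpose]; exact hO)
  have hm : Measurable fun p : Mat n × (Fin n → ℝ) => G p * ENNReal.ofReal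
      (exp (n * (p.1 i i + p.1 j j) / 2 + tau n * (x ⬝ᵥ x') * (p.1 i i - p.1 j j) / 2 +
        p.2 i * √(2 * sx n ^ 2 + 2 * (x ⬝ᵥ x')))) := by
    have hi : Measurable fun p : Mat n × (Fin n → ℝ) => p.1 i i := measurable_fst.t157_entry i i
    have hj : Measurable fun p : Mat n × (Fin n → ℝ) => p.1 j j := measurable_fst.t157_entry j j
    exact hG.mul (by fun_prop)
  have m1 : Measurable fun W : Mat n => Oᵀ * W * Oᵀᵀ := by fun_prop
  have m2 : Measurable fun y : Fin n → ℝ => Oᵀ *ᵥ y := by fun_prop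
  conv_rhs => rw [GOE, ← hmap, ← gK_map T hO, Measure.map_prod_map _ _ m1 m2,
    lintegral_map hm (m1.prodMap m2)]
  refine lintegral_congr fun p => ?_
  obtain ⟨W, y⟩ := p
  simp only [Prod.map_apply]
  rw [hinv W Oᵀ y hO']
  congr 3
  have qa := Iso42.quad_col O W (len (x + x')) i
  have qb := Iso42.quad_col O W (len (x - x')) j
  have qy : y ⬝ᵥ (x + x') = (Oᵀ *ᵥ y) i * √(2 * sx n ^ 2 + 2 * (x ⬝ᵥ x')) := by
    rw [← la, sqrt_sq (len_nonneg _)]
    conv_lhs => rw [ha]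
    rw [dotProduct_smul, smul_eq_mul, mul_comm, dotProduct_comm]
    rfl
  rw [← ha, la] at qa
  rw [← hb, lb] at qb
  rw [qy]
  simp only [mulVec_add, mulVec_sub, add_dotProduct, dotProduct_add, sub_dotProduct,
    dotProduct_sub] at qa qb
  have ht := Iso42.sx_mul_tau n
  simp only [Hh]
  rw [← ht]
  linear_combination (tau n / 4) * qa + (tau n / 4) * qb

end Crest.Agent.T157.Sp

end
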