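import Crest.Agent.T157.SpDef_87

/-!
# Row 157, sphere side (helper46): `Sp.lcltGlue`, the local limit theorem for `|x|²`
-/

set_option autoImplicit false

noncomputable section

namespace Crest.Agent.T157.Sp

open MeasureTheory ProbabilityTheory Matrix Filter Topology Finset Real
open Crest.Agent.T157.E Crest.Agent.T157.St

namespace Lclt46

/-- the centred Gaussian law of variance `v` -/
abbrev rho (v : ℝ) : Measure ℝ := gaussianReal 0 v.toNNReal

variable {v : ℝ}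

lemma int_rho (hv : 0 < v) (f : ℝ → ℝ) :
    ∫ θ, f θ ∂rho v = ∫ θ, (√(2 * π * v))⁻¹ * exp (-θ ^ 2 / (2 * v)) * f θ := by
  rw [integral_gaussianReal_eq_integral_smul (by simpa using hv)]
  simp only [gaussianPDFReal, Real.coe_toNNReal _ hv.le, sub_zero, smul_eq_mul]

lemma int_G (hv : 0 < v) {a : ℝ} (ha : 0 ≤ a) :
    ∫ θ, exp (-(θ ^ 2 * a / 2)) ∂rho v = (√(1 + v * a))⁻¹ := by
  rw [int_rho hv]
  have e : ∀ θ : ℝ, (√(2 * π * v))⁻¹ * exp (-θ ^ 2 / (2 * v)) * exp (-(θ ^ 2 * a / 2)) =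
      (√(2 * π * v))⁻¹ * exp (-((1 + v * a) / (2 * v)) * θ ^ 2) := fun θ => by
    rw [mul_assoc, ← exp_add]
    congr 2
    field_simp
    ring
  simp only [e]
  have h1 : 0 < 1 + v * a := by positivity
  rw [integral_const_mul, integral_gaussian,
    show π / ((1 + v * a) / (2 * v)) = 2 * π * v / (1 + v * a) by field_simp,
    sqrt_div (by positivity), div_eq_mul_inv, ← mul_assoc,
    inv_mul_cancel₀ (sqrt_pos.2 (by positivity)).ne', one_mul]

lemma integrable_bd {f : ℝ → ℝ} (hf : Continuous f) (h0 : ∀ θ, 0 ≤ f θ) (h1 : ∀ θ, f θ ≤ 1) :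
    Integrable f (rho v) :=
  Integrable.of_bound hf.aestronglyMeasurable 1 (ae_of_all _ fun θ => by
    rw [Real.norm_eq_abs, abs_of_nonneg (h0 θ)]; exact h1 θ)

lemma integrable_G {a : ℝ} (ha : 0 ≤ a) : Integrable (fun θ => exp (-(θ ^ 2 * a / 2))) (rho v) :=
  integrable_bd (by fun_prop) (fun _ => (exp_pos _).le) fun θ =>
    exp_le_one_iff.2 (neg_nonpos.2 (by positivity))

lemma continuous_K (b : ℝ) : Continuous fun θ : ℝ => (1 + (2 * θ * b) ^ 2)⁻¹ :=
  Continuous.inv₀ (by fun_prop) fun θ => by positivity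

lemma K_le_one (b θ : ℝ) : (1 + (2 * θ * b) ^ 2)⁻¹ ≤ 1 :=
  inv_le_one_of_one_le₀ (by nlinarith [sq_nonneg (2 * θ * b)])

lemma integrable_K (b : ℝ) : Integrable (fun θ : ℝ => (1 + (2 * θ * b) ^ 2)⁻¹) (rho v) :=
  integrable_bd (continuous_K b) (fun θ => by positivity) (K_le_one b)

lemma G_div_le (hv : 0 < v) {V a : ℝ} (hV : 0 ≤ V) (ha : 1 ≤ a) :
    (√(1 + v * (V / a)))⁻¹ ≤ a * (√(1 + v * V))⁻¹ := by
  have ha0 : 0 < a := by linarith
  have h1 : 0 < √(1 + v * (V / a)) := sqrt_pos.2 (by positivity)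
  have h2 : 0 < √(1 + v * V) := sqrt_pos.2 (by positivity)
  rw [← div_eq_mul_inv, inv_eq_one_div, div_le_div_iff₀ h1 h2, one_mul]
  refine sqrt_le_iff.2 ⟨by positivity, ?_⟩
  rw [mul_pow, sq_sqrt (by positivity)]
  have e : a ^ 2 * (1 + v * (V / a)) = a ^ 2 + a * (v * V) := by field_simp
  rw [e]
  nlinarith [mul_nonneg hv.le hV]

lemma int_K (hv : 0 < v) {b L : ℝ} (hb : 0 < b) (hL : 1 ≤ L) :
    ∫ θ, (1 + (2 * θ * b) ^ 2)⁻¹ ∂rho v ≤ 2 * L * (√(1 + v * (L * b) ^ 2))⁻¹ := by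
  set J := ∫ θ, (1 + (2 * θ * b) ^ 2)⁻¹ ∂rho v with hJ
  have J0 : 0 ≤ J := integral_nonneg fun θ => by positivity
  have J1 : J ≤ 1 := by
    have := integral_mono (integrable_K (v := v) b) (integrable_const 1) (K_le_one b)
    simpa using this
  have hs : 0 < √v := sqrt_pos.2 hv
  have J2 : J * (√v * b) ≤ 1 := by
    have i0 : Integrable fun θ : ℝ => (1 + (2 * b * θ) ^ 2)⁻¹ :=
      integrable_inv_one_add_sq.comp_mul_left' (R := 2 * b) (by positivity)
    have h1 : J ≤ ∫ θ : ℝ, (√(2 * π * v))⁻¹ * (1 + (2 * b * θ) ^ 2)⁻¹ := by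
      rw [hJ, int_rho hv]
      refine integral_mono_of_nonneg (ae_of_all _ fun θ => by positivity) (i0.const_mul _)
        (ae_of_all _ fun θ => ?_)
      have : exp (-θ ^ 2 / (2 * v)) ≤ 1 :=
        exp_le_one_iff.2 (div_nonpos_of_nonpos_of_nonneg (neg_nonpos.2 (sq_nonneg θ))
          (by positivity))
      simp only [mul_right_comm 2 θ b]
      exact mul_le_mul_of_nonneg_right (mul_le_of_le_one_right (by positivity) this)
        (by positivity)
    rw [integral_const_mul, Measure.integral_comp_mul_left (fun y => (1 + y ^ 2)⁻¹),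
      integral_univ_inv_one_add_sq, abs_of_pos (by positivity), smul_eq_mul] at h1
    have h2 : 2 * √v ≤ √(2 * π * v) := by
      refine le_sqrt_of_sq_le ?_
      rw [mul_pow, sq_sqrt hv.le]
      nlinarith [pi_gt_three]
    have h3 : (√(2 * π * v))⁻¹ * ((2 * b)⁻¹ * π) ≤ (2 * √v)⁻¹ * ((2 * b)⁻¹ * 4) := by
      gcongr
      exact pi_le_four
    have h4 := mul_le_mul_of_nonneg_right (h1.trans h3) (by positivity : 0 ≤ √v * b)
    refine h4.trans (le_of_eq ?_)
    field_simp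
    norm_num
  have h5 : √(1 + v * (L * b) ^ 2) ≤ 1 + L * (√v * b) := by
    refine sqrt_le_iff.2 ⟨by positivity, ?_⟩
    have : (L * (√v * b)) ^ 2 = v * (L * b) ^ 2 := by
      rw [mul_pow, mul_pow, sq_sqrt hv.le]; ring
    nlinarith [(by positivity : 0 ≤ L * (√v * b))]
  rw [← div_eq_mul_inv, le_div_iff₀ (sqrt_pos.2 (by positivity))]
  nlinarith [mul_le_mul_of_nonneg_left h5 J0, mul_le_mul_of_nonneg_left J2 (by linarith : 0 ≤ L)]

/-- the tail factor -/
lemma tail_le {L x : ℝ} (hL : 8 ≤ L ^ 2) (hL0 : 0 < L) (hx : 1 / L ≤ x) :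
    exp (-((L ^ 2 / 8 - 1) * (x / (1 + x)))) ≤ 384 / L ^ 2 := by
  have hx0 : 0 < x := lt_of_lt_of_le (by positivity) hx
  have h1 : 1 / (L + 1) ≤ x / (1 + x) := by
    rw [div_le_iff₀ hL0] at hx
    rw [div_le_div_iff₀ (by positivity) (by positivity)]
    nlinarith
  have h2 : L / 8 - 1 ≤ (L ^ 2 / 8 - 1) * (1 / (L + 1)) := by
    rw [mul_one_div, le_div_iff₀ (by positivity)]
    nlinarith
  have h3 := mul_le_mul_of_nonneg_left h1 (by linarith : 0 ≤ L ^ 2 / 8 - 1)
  refine (exp_le_exp.2 (by linarith : _ ≤ 1 - L / 8)).trans ?_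
  have h4 := quadratic_le_exp_of_nonneg (by positivity : 0 ≤ L / 8)
  rw [exp_sub, div_le_div_iff₀ (exp_pos _) (by positivity)]
  nlinarith [exp_one_lt_three, sq_nonneg L]

section pt
variable {φ : ℂ} {L b θ : ℝ}

lemma pt_up (hL : 8 ≤ L ^ 2) (hL0 : 0 < L)
    (ha : ‖φ‖ ≤ exp (-(θ ^ 2 * (L * b) ^ 2 / (2 * (1 + (2 * θ * b) ^ 2)))))
    (hb : ‖φ‖ ≤ (1 + (2 * θ * b) ^ 2)⁻¹ *
      exp (-((L ^ 2 / 8 - 1) * ((2 * θ * b) ^ 2 / (1 + (2 * θ * b) ^ 2))))) :
    ‖φ‖ ≤ exp (-(θ ^ 2 * ((L * b) ^ 2 / (1 + 1 / L)) / 2)) +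
      384 / L ^ 2 * (1 + (2 * θ * b) ^ 2)⁻¹ := by
  rcases le_total ((2 * θ * b) ^ 2) (1 / L) with h | h
  · refine le_add_of_le_of_nonneg (ha.trans (exp_le_exp.2 (neg_le_neg ?_))) (by positivity)
    rw [← mul_div_assoc, div_div, mul_comm (1 + 1 / L) 2]
    gcongr
  · refine le_add_of_nonneg_of_le (exp_pos _).le (hb.trans ?_)
    rw [mul_comm]
    exact mul_le_mul_of_nonneg_right (tail_le hL hL0 h) (by positivity)

lemma pt_lo (hL : 4 ≤ L)
    (ha : ‖φ‖ ≤ exp (-(θ ^ 2 * (L * b) ^ 2 / (2 * (1 + (2 * θ * b) ^ 2)))))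
    (hb : ‖φ‖ ≤ (1 + (2 * θ * b) ^ 2)⁻¹ *
      exp (-((L ^ 2 / 8 - 1) * ((2 * θ * b) ^ 2 / (1 + (2 * θ * b) ^ 2)))))
    (hc : |2 * θ * b| ≤ 1 / 2 → exp (-(θ ^ 2 * (L * b) ^ 2 / 2)) -
      ‖φ‖ * (|2 * θ * b| * (θ ^ 2 * (L * b) ^ 2)) ≤ φ.re) :
    exp (-(θ ^ 2 * (L * b) ^ 2 / 2)) - 90 / L * exp (-(θ ^ 2 * ((L * b) ^ 2 / 2) / 2)) -
      384 / L ^ 2 * (1 + (2 * θ * b) ^ 2)⁻¹ ≤ φ.re := by
  have hL0 : 0 < L := by linarith
  have e0 : θ ^ 2 * ((L * b) ^ 2 / 2) / 2 = θ ^ 2 * (L * b) ^ 2 / 4 := by ring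
  rw [e0]
  have e1 : ((2 * θ * b) * L) ^ 2 = 4 * (θ ^ 2 * (L * b) ^ 2) := by ring
  have hy : 0 ≤ θ ^ 2 * (L * b) ^ 2 := by positivity
  generalize θ ^ 2 * (L * b) ^ 2 = y at *
  generalize 2 * θ * b = x at *
  rcases le_total (x ^ 2) (1 / L) with h | h
  · have h4 : x ^ 2 ≤ (1 / 2) ^ 2 :=
      h.trans ((one_div_le_one_div_of_le (by norm_num) hL).trans (by norm_num))
    have h5 := hc (abs_le_of_sq_le_sq h4 (by norm_num))
    have h6 : ‖φ‖ ≤ exp (-(y / 4)) * exp (-(3 / 20 * y)) := by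
      rw [← exp_add]
      refine ha.trans (exp_le_exp.2 ?_)
      have : 2 / 5 * y ≤ y / (2 * (1 + x ^ 2)) := by
        rw [le_div_iff₀ (by positivity)]
        nlinarith
      linarith
    have h7 : |x| * L ≤ 1 + y := by
      have : (|x| * L) ^ 2 = 4 * y := by rw [mul_pow, sq_abs, ← mul_pow, e1]
      nlinarith [sq_nonneg (|x| * L - 2)]
    have h8 : exp (-(3 / 20 * y)) * (|x| * y) ≤ 90 / L := by
      have a1 := quadratic_le_exp_of_nonneg (by positivity : 0 ≤ 3 / 20 * y)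
      rw [exp_neg, inv_mul_le_iff₀ (exp_pos _), ← mul_div_assoc, le_div_iff₀ hL0]
      nlinarith [mul_le_mul_of_nonneg_right h7 hy]
    have h9 := mul_le_mul_of_nonneg_right h6 (by positivity : 0 ≤ |x| * y)
    have h10 := mul_le_mul_of_nonneg_left h8 (exp_pos (-(y / 4))).le
    have h11 : 0 ≤ 384 / L ^ 2 * (1 + x ^ 2)⁻¹ := by positivity
    linarith
  · have h5 : ‖φ‖ ≤ 384 / L ^ 2 * (1 + x ^ 2)⁻¹ := by
      refine hb.trans ?_
      rw [mul_comm]
      exact mul_le_mul_of_nonneg_right (tail_le (by nlinarith) hL0 h) (by positivity)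
    have h6 := (abs_le.1 (Complex.abs_re_le_norm φ)).1
    have h7 : L ≤ 4 * y := by
      rw [div_le_iff₀ hL0] at h
      nlinarith [mul_le_mul_of_nonneg_right h hL0.le]
    have h8 : exp (-(y / 4)) ≤ 90 / L := by
      rw [exp_neg, inv_eq_one_div, div_le_div_iff₀ (exp_pos _) hL0]
      nlinarith [add_one_le_exp (y / 4)]
    have h9 : exp (-(y / 2)) = exp (-(y / 4)) * exp (-(y / 4)) := by
      rw [← exp_add]; congr 1; ring
    nlinarith [mul_le_mul_of_nonneg_right h8 (exp_pos (-(y / 4))).le]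

end pt

variable {ι : Type} [Fintype ι]

instance instProbGs46 (m c : ι → ℝ) : IsProbabilityMeasure (gs m c) := by
  unfold gs; infer_instance

lemma integrable_joint (m c : ι → ℝ) (v s : ℝ) : Integrable (Function.uncurry
    fun (x : ι → ℝ) (θ : ℝ) => Complex.exp ((θ * (x ⬝ᵥ x - s) : ℝ) * Complex.I))
      ((gs m c).prod (rho v)) := by
  refine Integrable.of_bound (Continuous.aestronglyMeasurable ?_) 1 (ae_of_all _ fun p => ?_)
  · unfold Function.uncurry dotProduct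
    fun_prop
  · exact (Complex.norm_exp_ofReal_mul_I _).le

lemma integrable_chf (m c : ι → ℝ) (v : ℝ) : Integrable (chf m c) (rho v) :=
  (integrable_joint m c v (qm m c)).integral_prod_right

lemma fourier (m c : ι → ℝ) {κ : ℝ} (hκ : 0 < κ) (s : ℝ) :
    ((∫ x, exp (-(κ / 8) * (x ⬝ᵥ x - s) ^ 2) ∂gs m c : ℝ) : ℂ) =
      ∫ θ, chf m c θ * Complex.exp ((θ * (qm m c - s) : ℝ) * Complex.I) ∂rho (κ / 4) := by
  have h1 : ∀ u : ℝ, ((exp (-(κ / 8) * u ^ 2) : ℝ) : ℂ) =
      ∫ θ, Complex.exp ((θ * u : ℝ) * Complex.I) ∂rho (κ / 4) := fun u => by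
    have h := charFun_gaussianReal (μ := 0) (v := (κ / 4).toNNReal) u
    rw [charFun_apply_real, Real.coe_toNNReal _ (by positivity)] at h
    simp only [Complex.ofReal_mul, mul_comm _ (u : ℂ)]
    rw [h, Complex.ofReal_exp]
    congr 1
    push_cast
    ring
  rw [← integral_complex_ofReal]
  simp only [h1]
  rw [integral_integral_swap (integrable_joint m c _ s)]
  refine integral_congr_ae (ae_of_all _ fun θ => ?_)
  simp only [chf]
  rw [← integral_mul_const]
  refine integral_congr_ae (ae_of_all _ fun x => ?_)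
  simp only
  rw [← Complex.exp_add]
  congr 1
  push_cast
  ring

end Lclt46

open Lclt46 in
/-- **local limit theorem** -/
theorem lcltGlue : LcltGlue := by
  intro hC
  refine ⟨1000, by norm_num, fun ι _ m c b κ hb hκ hc hcb hs => ?_⟩
  have hV : 8 * b ^ 2 ≤ qv m c := by
    have : ∑ k, 2 * c k ^ 2 ≤ qv m c := sum_le_sum fun k _ =>
      le_add_of_nonneg_right (by have := hc k; positivity)
    rw [← mul_sum] at this
    linarith
  have hV0 : 0 < qv m c := lt_of_lt_of_le (by positivity) hV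
  set L : ℝ := √(qv m c) / b with hLd
  have hL0 : 0 < L := div_pos (sqrt_pos.2 hV0) hb
  have eV : qv m c = (L * b) ^ 2 := by
    rw [hLd, div_mul_cancel₀ _ hb.ne', sq_sqrt hV0.le]
  have hL : 8 ≤ L ^ 2 := by
    rw [eV, mul_pow] at hV
    exact le_of_mul_le_mul_right hV (by positivity)
  have hL1 : 1 ≤ L := by nlinarith
  have e1 : 1000 * b / √(qv m c) = 1000 / L := by rw [hLd]; field_simp
  have e2 : qv m c / (8 * b ^ 2) = L ^ 2 / 8 := by rw [eV]; field_simp
  have hv : 0 < κ / 4 := by positivity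
  have e3 : κ * qv m c / 4 = κ / 4 * (L * b) ^ 2 := by rw [eV]; ring
  rw [e1, e3]
  simp only [div_eq_mul_inv _ (√_)]
  set G := (√(1 + κ / 4 * (L * b) ^ 2))⁻¹ with hG
  have hG0 : 0 ≤ G := by positivity
  have hch := fun θ => hC ι m c b θ hb hc hcb
  simp only [e2] at hch
  simp only [eV] at hch
  have hK : 384 / L ^ 2 * ∫ θ, (1 + (2 * θ * b) ^ 2)⁻¹ ∂rho (κ / 4) ≤ 768 / L * G :=
    (mul_le_mul_of_nonneg_left (int_K hv hb hL1) (by positivity)).trans
      (le_of_eq (by rw [← hG]; field_simp; ring))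
  have hi : ∀ a : ℝ, a / L * G = a * (1 / L * G) := fun a => by ring
  have hi0 : 0 ≤ 1 / L * G := by positivity
  refine ⟨fun s => ?_, ?_⟩
  · have h1 := congrArg norm (fourier m c hκ s)
    rw [Complex.norm_real, Real.norm_eq_abs] at h1
    refine (le_abs_self _).trans (h1.le.trans ((norm_integral_le_integral_norm _).trans ?_))
    simp only [norm_mul, Complex.norm_exp_ofReal_mul_I, mul_one]
    have i1 := integrable_G (v := κ / 4) (a := (L * b) ^ 2 / (1 + 1 / L)) (by positivity)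
    have i2 := (integrable_K (v := κ / 4) b).const_mul (384 / L ^ 2)
    refine (integral_mono (integrable_chf m c _).norm (i1.add i2) fun θ =>
      pt_up hL hL0 (hch θ).1 ((hch θ).2.1 hs)).trans ?_
    simp only [Pi.add_apply]
    rw [integral_add i1 i2, integral_const_mul, int_G hv (by positivity)]
    have h2 := G_div_le hv (sq_nonneg (L * b)) (a := 1 + 1 / L)
      (le_add_of_nonneg_right (by positivity))
    rw [← hG, add_mul] at h2
    rw [hi] at hK
    rw [add_mul, hi]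
    linarith
  · rcases le_total L 4 with h4 | h4
    · refine le_trans (mul_nonpos_of_nonpos_of_nonneg ?_ hG0)
        (integral_nonneg fun x => (exp_pos _).le)
      rw [sub_nonpos, le_div_iff₀ hL0]
      linarith
    have h1 := congrArg Complex.re (fourier m c hκ (qm m c))
    simp only [sub_self, mul_zero, Complex.ofReal_zero, zero_mul, Complex.exp_zero, mul_one,
      Complex.ofReal_re] at h1
    have h2 := integral_re (integrable_chf m c (κ / 4))
    simp only [RCLike.re_to_complex] at h2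
    rw [h1, ← h2]
    have i0 := integrable_G (v := κ / 4) (sq_nonneg (L * b))
    have i1 := (integrable_G (v := κ / 4) (a := (L * b) ^ 2 / 2) (by positivity)).const_mul (90 / L)
    have i2 := (integrable_K (v := κ / 4) b).const_mul (384 / L ^ 2)
    refine le_trans ?_ (integral_mono ((i0.sub i1).sub i2) (integrable_chf m c _).re fun θ =>
      pt_lo h4 (hch θ).1 ((hch θ).2.1 hs) (hch θ).2.2)
    simp only [Pi.sub_apply]
    have i3 : Integrable (fun θ => exp (-(θ ^ 2 * (L * b) ^ 2 / 2)) -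
        90 / L * exp (-(θ ^ 2 * ((L * b) ^ 2 / 2) / 2))) (rho (κ / 4)) := i0.sub i1
    rw [integral_sub i3 i2, integral_sub i0 i1, integral_const_mul, integral_const_mul,
      int_G hv (by positivity), int_G hv (by positivity), ← hG]
    have h3 := mul_le_mul_of_nonneg_left (G_div_le hv (sq_nonneg (L * b)) (a := 2) (by norm_num))
      (by positivity : 0 ≤ 90 / L)
    rw [← hG, mul_left_comm, hi] at h3
    rw [hi] at hK
    rw [sub_mul, hi]
    linarith

end Crest.Agent.T157.Sp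

end
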