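import Crest.Agent.T157.SpDef_87
import Crest.Agent.T157.StShell_38

/-!
# Row 157, the sphere side of the window: the posterior covariance of the spherical models (helper89)

`Sp.sWinGlue : SWinGlue`.  Off a bad set of outputs the saddle point `v` is at least `(1 - e) r`;
the posterior law is then a Gaussian law conditioned (softly or exactly) on `|x|²` at its mean.
-/

set_option autoImplicit false

noncomputable section

namespace Crest.Agent.T157.Sp

open MeasureTheory ProbabilityTheory Matrix Filter Topology Finset Real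
open scoped ENNReal
open Crest.Agent.T157.E Crest.Agent.T157.St Crest.Agent.T157.St.Sph38 Crest.Agent.T157.Ed

namespace SW89

lemma tilt_const {α : Type*} [MeasurableSpace α] (μ : Measure α) (f : α → ℝ) (c : ℝ) :
    (μ.tilted fun x => f x + c) = μ.tilted f := by
  simp only [Measure.tilted, exp_add, integral_mul_const]
  congr 1
  funext x
  rw [mul_div_mul_right _ _ (exp_pos c).ne']

/-- a probability density proportional to `exp g` -/
lemma eq_tilted {α : Type*} [MeasurableSpace α] (μ : Measure α) {g : α → ℝ} (hg : Measurable g)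
    {A : ℝ} (hA : 0 < A)
    (h : IsProbabilityMeasure (μ.withDensity fun x => ENNReal.ofReal (A * exp (g x)))) :
    Integrable (fun x => exp (g x)) μ ∧
      (μ.withDensity fun x => ENNReal.ofReal (A * exp (g x))) = μ.tilted g := by
  have h1 : ∫⁻ x, ENNReal.ofReal (A * exp (g x)) ∂μ = 1 := by
    have := h.measure_univ
    rwa [withDensity_apply _ MeasurableSet.univ, Measure.restrict_univ] at this
  have hn : 0 ≤ᵐ[μ] fun x => A * exp (g x) := ae_of_all _ fun x => by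
    show 0 ≤ A * exp (g x)
    positivity
  have hm : AEStronglyMeasurable (fun x => A * exp (g x)) μ :=
    (hg.exp.const_mul A).aestronglyMeasurable
  have hi : Integrable (fun x => A * exp (g x)) μ :=
    ⟨hm, (hasFiniteIntegral_iff_ofReal hn).2 (by rw [h1]; simp)⟩
  have h2 : A * ∫ x, exp (g x) ∂μ = 1 := by
    rw [← integral_const_mul, integral_eq_lintegral_of_nonneg_ae hn hm, h1]; simp
  refine ⟨(integrable_const_mul_iff (isUnit_iff_ne_zero.2 hA.ne') _).1 hi, ?_⟩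
  unfold Measure.tilted
  congr 1
  funext x
  rw [eq_one_div_of_mul_eq_one_right h2]
  congr 1
  field_simp

variable {ι : Type} [Fintype ι]

lemma sum_sq (x : ι → ℝ) : ∑ k, x k ^ 2 = x ⬝ᵥ x := by simp [dotProduct, sq]

lemma gs_tilt {a : ι → ℝ} (ha : ∀ k, 0 < a k) (y : ι → ℝ) :
    Integrable (fun x : ι → ℝ => exp (y ⬝ᵥ x - 1 / 2 * ∑ k, a k * x k ^ 2)) volume ∧
    gs (fun k => y k / a k) (fun k => 1 / a k) =
      (volume : Measure (ι → ℝ)).tilted fun x => y ⬝ᵥ x - 1 / 2 * ∑ k, a k * x k ^ 2 := by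
  have hc : ∀ k, 0 < 1 / a k := fun k => one_div_pos.2 (ha k)
  have e : ∀ x : ι → ℝ, den (fun k => 1 / a k) (x - fun k => y k / a k) =
      ((√(2 * π))⁻¹ ^ Fintype.card ι * (∏ k, (√(1 / a k))⁻¹) *
        exp (-(1 / 2) * ∑ k, y k ^ 2 / a k)) * exp (y ⬝ᵥ x - 1 / 2 * ∑ k, a k * x k ^ 2) := by
    intro x
    unfold den
    rw [mul_assoc _ (exp _) (exp _), ← exp_add]
    congr 2
    simp only [dotProduct, Finset.mul_sum, ← Finset.sum_sub_distrib, ← Finset.sum_add_distrib,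
      Pi.sub_apply]
    refine Finset.sum_congr rfl fun k _ => ?_
    have := (ha k).ne'
    field_simp
    ring
  have h := gs_eq' (fun k => y k / a k) hc
  simp only [e] at h
  have hP : 0 < ∏ k, (√(1 / a k))⁻¹ := Finset.prod_pos fun k _ => inv_pos.2 (sqrt_pos.2 (hc k))
  have hA : 0 < (√(2 * π))⁻¹ ^ Fintype.card ι * (∏ k, (√(1 / a k))⁻¹) *
      exp (-(1 / 2) * ∑ k, y k ^ 2 / a k) := by positivity
  have hg : Continuous fun x : ι → ℝ => y ⬝ᵥ x - 1 / 2 * ∑ k, a k * x k ^ 2 := by fun_prop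
  obtain ⟨h1, h2⟩ := eq_tilted volume hg.measurable hA (h ▸ inferInstance)
  exact ⟨h1, h.trans h2⟩

/-- the posterior law of the soft model -/
lemma pst_piD {n : ℕ} {η : ℕ → ℝ} {t κ v : ℝ} (r : ℝ) (hκ : κ ≠ 0)
    (hP : IsProbabilityMeasure (piD n η t κ)) (ha : ∀ k : Fin n, 0 < v + η k) (y : Fin n → ℝ) :
    pst r (piD n η t κ) y =
      gw (fun k => y k / (v + η k)) (fun k : Fin n => 1 / (v + η k)) κ (t + 2 / κ * (v - r)) := by
  obtain ⟨h1, h2⟩ := gs_tilt ha y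
  have hi : Integrable (fun x : Fin n → ℝ =>
      exp (-(1 / 2) * ∑ k : Fin n, η k * x k ^ 2 - κ / 8 * (x ⬝ᵥ x - t) ^ 2)) volume := by
    by_contra h
    have := hP.measure_univ
    rw [piD, tilted_of_not_integrable h] at this
    simp at this
  rw [pst, piD, gw, h2, tilted_tilted hi, tilted_tilted h1,
    ← tilt_const _ _ (κ / 8 * (t ^ 2 - (t + 2 / κ * (v - r)) ^ 2))]
  congr 1
  funext x
  simp only [Pi.add_apply, add_mul, Finset.sum_add_distrib, ← Finset.mul_sum, sum_sq]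
  field_simp
  ring

/-- the posterior law of the spherical model -/
lemma pst_nuD {n : ℕ} [Nonempty (Fin n)] (η : ℕ → ℝ) {t : ℝ} (ht : 0 ≤ t) (r v : ℝ)
    (y : Fin n → ℝ) : pst r (nuD n η t) y = (sphR (Fin n) √t).tilted fun x =>
      y ⬝ᵥ x - 1 / 2 * ∑ k : Fin n, (v + η k) * x k ^ 2 := by
  rw [pst, nuD, tilted_tilted (integrable_sphR _ (by fun_prop)),
    ← tilt_const _ _ ((r - v) / 2 * t)]
  refine tilted_congr ?_
  filter_upwards [sphR_ae (ι := Fin n) √t] with x hx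
  rw [sq_sqrt ht] at hx
  simp only [Pi.add_apply, add_mul, Finset.sum_add_distrib, ← Finset.mul_sum, sum_sq, hx]
  ring

lemma prob_gw (m c : ι → ℝ) {κ : ℝ} (hκ : 0 ≤ κ) (s : ℝ) : IsProbabilityMeasure (gw m c κ s) := by
  refine isProbabilityMeasure_tilted (Integrable.of_bound
    (Continuous.aestronglyMeasurable (by fun_prop)) 1 (ae_of_all _ fun x => ?_))
  rw [norm_of_nonneg (exp_pos _).le, exp_le_one_iff]
  have : 0 ≤ κ / 8 * (x ⬝ᵥ x - s) ^ 2 := by positivity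
  linarith

/-- the saddle point -/
lemma saddle {η y : ι → ℝ} {L t r w α : ℝ} (hη : ∀ k, -L ≤ η k) (hw : L < w) (hwr : w ≤ r)
    (ht : 0 < t) (hα : 0 ≤ α)
    (h : t < qm (fun k => y k / (w + η k)) (fun k => 1 / (w + η k))) :
    ∃ v, w ≤ v ∧ qm (fun k => y k / (v + η k)) (fun k => 1 / (v + η k)) = t + α * (v - r) := by
  obtain ⟨S, hS⟩ : ∃ S, S = ∑ k, (y k ^ 2 + 1) := ⟨_, rfl⟩
  have hS0 : 0 ≤ S := hS ▸ Finset.sum_nonneg fun k _ => by positivity
  obtain ⟨M, hM⟩ : ∃ M, M = 1 + S / t := ⟨_, rfl⟩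
  have hM1 : 1 ≤ M := by
    have : 0 ≤ S / t := by positivity
    linarith
  have hc : ContinuousOn (fun v => qm (fun k => y k / (v + η k)) (fun k => 1 / (v + η k)) -
      α * (v - r)) (Set.Icc w (r + M)) := by
    unfold qm
    refine ContinuousOn.sub (continuousOn_finsetSum _ fun k _ => ?_) (by fun_prop)
    have hk : ∀ v ∈ Set.Icc w (r + M), v + η k ≠ 0 := fun v hv => by
      have := hv.1; have := hη k; linarith
    exact ((continuousOn_const.div (by fun_prop) hk).pow 2).add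
      (continuousOn_const.div (by fun_prop) hk)
  have h1 : qm (fun k => y k / (r + M + η k)) (fun k => 1 / (r + M + η k)) ≤ t := by
    have h2 : qm (fun k => y k / (r + M + η k)) (fun k => 1 / (r + M + η k)) ≤ S / M := by
      rw [hS, Finset.sum_div]
      refine Finset.sum_le_sum fun k _ => ?_
      have hk : M ≤ r + M + η k := by have := hη k; linarith
      have hk2 : M ≤ (r + M + η k) ^ 2 := by nlinarith
      rw [add_div, div_pow]
      exact add_le_add (div_le_div_of_nonneg_left (sq_nonneg _) (by linarith) hk2)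
        (div_le_div_of_nonneg_left zero_le_one (by linarith) hk)
    refine h2.trans ((div_le_iff₀ (by linarith)).2 ?_)
    rw [hM, mul_add, mul_div_cancel₀ _ ht.ne']
    linarith
  obtain ⟨v, hv, e⟩ := intermediate_value_Icc' (by linarith : w ≤ r + M) hc
    (show t ∈ Set.Icc _ _ from ⟨by
      have : 0 ≤ α * (r + M - r) := mul_nonneg hα (by linarith)
      show _ - _ ≤ t
      linarith, by
      have : 0 ≤ α * (r - w) := mul_nonneg hα (by linarith)
      show t ≤ _ - _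
      linarith⟩)
  refine ⟨v, hv.1, ?_⟩
  have e' : _ - _ = t := e
  linarith

lemma mom_mono {μ : Measure (ι → ℝ)} {a a' : ℝ} (h : Mom μ a) (ha : 0 ≤ a) (h' : a ≤ a') :
    Mom μ a' := by
  obtain ⟨hp, m, hm⟩ := h
  refine ⟨hp, m, fun v => ?_⟩
  have hv : 0 ≤ v ⬝ᵥ v := by rw [← sum_sq]; positivity
  have h1 : a * (v ⬝ᵥ v) ≤ a' * (v ⬝ᵥ v) := mul_le_mul_of_nonneg_right h' hv
  exact ⟨(hm v).1, (hm v).2.1.trans h1, (hm v).2.2.trans (mul_le_mul_of_nonneg_left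
    (pow_le_pow_left₀ (mul_nonneg ha hv) h1 2) (by norm_num))⟩

/-- the exponent of the bad set -/
lemma expo {c D e m u S₁ S₂ : ℝ} (hc : 0 < c) (hD : 0 < D) (he : 0 < e) (hm0 : 0 ≤ m)
    (hem : 1 ≤ e ^ 2 * m) (hm : (2 * D / c) ^ 2 ≤ m) (h1 : u + c * e * m - D ≤ S₁) (h2 : S₂ ≤ D) :
    ∃ l, 0 ≤ l ∧ l * u - l * S₁ + l ^ 2 * S₂ ≤ -(c ^ 2 / (16 * D) * m) := by
  have h3 : m ≤ (e * m) ^ 2 := by nlinarith
  have h4 : 2 * D / c ≤ e * m :=
    (pow_le_pow_iff_left₀ (by positivity) (by positivity) two_ne_zero).1 (hm.trans h3)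
  rw [div_le_iff₀ hc] at h4
  obtain ⟨g, hg⟩ : ∃ g, g = c * e * m - D := ⟨_, rfl⟩
  have h5 : c * (e * m) / 2 ≤ g := by linarith
  have h6 : 0 ≤ c * (e * m) / 2 := by positivity
  have h7 : (c * (e * m) / 2) ^ 2 ≤ g ^ 2 := pow_le_pow_left₀ h6 h5 2
  have h8 : c ^ 2 * m ≤ c ^ 2 * (e * m) ^ 2 := mul_le_mul_of_nonneg_left h3 (by positivity)
  have hl : 0 ≤ g / (2 * D) := div_nonneg (h6.trans h5) (by positivity)
  refine ⟨g / (2 * D), hl, ?_⟩
  have h9 : g / (2 * D) * (u + g) ≤ g / (2 * D) * S₁ :=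
    mul_le_mul_of_nonneg_left (by linarith) hl
  have h10 : (g / (2 * D)) ^ 2 * S₂ ≤ (g / (2 * D)) ^ 2 * D :=
    mul_le_mul_of_nonneg_left h2 (by positivity)
  have h11 : -(g / (2 * D) * g) + (g / (2 * D)) ^ 2 * D = -(g ^ 2 / (4 * D)) := by
    field_simp
    ring
  have h12 : c ^ 2 / (16 * D) * m ≤ g ^ 2 / (4 * D) := by
    rw [div_mul_eq_mul_div, div_le_div_iff₀ (by positivity) (by positivity)]
    nlinarith
  linarith

/-- the constants of the covariance bound -/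
lemma num {C c S X e r z B₁ B : ℝ} (hC : 1 ≤ C) (hc : 0 < c) (he : 0 < e) (he4 : e ≤ 1 / 4)
    (hr : 0 < r) (hz : (1 - 2 * e) * r ≤ z) (hS : c * X * (1 / z) ^ 2 ≤ S) (hX : C ^ 2 / c ≤ X)
    (hXe : 1 ≤ X * e ^ 4) (hB₁ : C ^ 2 / c + 1 ≤ B₁) (hB : 10 * B₁ + 4 ≤ B) :
    0 < 1 / z ∧ C ^ 2 * (1 / z) ^ 2 ≤ S ∧ 0 < C * (1 / z) / √S ∧ C * (1 / z) / √S ≤ 1 ∧
      (1 + 5 * √(C * (1 / z) / √S)) * (1 / z) ≤ (1 + B * e) / r := by
  have h2e : 0 < (1 - 2 * e) * r := mul_pos (by linarith) hr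
  have hz0 : 0 < z := h2e.trans_le hz
  have hb : 0 < 1 / z := one_div_pos.2 hz0
  have hCc : 0 < C ^ 2 / c := by positivity
  have hX' : C ^ 2 ≤ c * X := by rw [div_le_iff₀ hc] at hX; linarith
  have h1 : C ^ 2 * (1 / z) ^ 2 ≤ S := (mul_le_mul_of_nonneg_right hX' (by positivity)).trans hS
  have hS0 : 0 < S := lt_of_lt_of_le (by positivity) h1
  have hsq : (C * (1 / z) / √S) ^ 2 = C ^ 2 * (1 / z) ^ 2 / S := by
    rw [div_pow, sq_sqrt hS0.le, mul_pow]
  have hδ : 0 < C * (1 / z) / √S := by positivity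
  generalize C * (1 / z) / √S = δ at hsq hδ ⊢
  have hB1 : 1 ≤ B₁ := by linarith
  have h3 : δ ^ 2 ≤ ((B₁ * e) ^ 2) ^ 2 := by
    have h4 : δ ^ 2 ≤ C ^ 2 / c * e ^ 4 := by
      rw [hsq, div_le_iff₀ hS0]
      have h5 : C ^ 2 / c * e ^ 4 * (c * X * (1 / z) ^ 2) ≤ C ^ 2 / c * e ^ 4 * S :=
        mul_le_mul_of_nonneg_left hS (by positivity)
      have h6 : C ^ 2 / c * e ^ 4 * (c * X * (1 / z) ^ 2) =
          C ^ 2 * (1 / z) ^ 2 * (X * e ^ 4) := by field_simp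
      have h7 : C ^ 2 * (1 / z) ^ 2 * 1 ≤ C ^ 2 * (1 / z) ^ 2 * (X * e ^ 4) :=
        mul_le_mul_of_nonneg_left hXe (by positivity)
      linarith
    have h8 : B₁ ≤ B₁ ^ 4 := le_self_pow₀ hB1 (by norm_num)
    have h9 : C ^ 2 / c * e ^ 4 ≤ B₁ ^ 4 * e ^ 4 :=
      mul_le_mul_of_nonneg_right (by linarith) (by positivity)
    calc δ ^ 2 ≤ B₁ ^ 4 * e ^ 4 := h4.trans h9
      _ = _ := by ring
  have h10 : √δ ≤ B₁ * e := sqrt_le_iff.2 ⟨by positivity,
    (pow_le_pow_iff_left₀ hδ.le (by positivity) two_ne_zero).1 h3⟩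
  refine ⟨hb, h1, hδ, ?_, ?_⟩
  · refine (pow_le_one_iff_of_nonneg hδ.le two_ne_zero).1 ?_
    rw [hsq]
    exact div_le_one_of_le₀ h1 hS0.le
  · have h11 : 1 + 5 * √δ ≤ (1 + B * e) * (1 - 2 * e) := by
      have h12 : B * e * e ≤ B * e * (1 / 4) :=
        mul_le_mul_of_nonneg_left he4 (mul_nonneg (by linarith) he.le)
      have h13 : (10 * B₁ + 4) * e ≤ B * e := mul_le_mul_of_nonneg_right hB he.le
      nlinarith
    have h14 : 0 ≤ 1 + B * e := by
      have : 0 ≤ B * e := mul_nonneg (by linarith) he.le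
      linarith
    rw [mul_one_div, div_le_div_iff₀ hz0 hr]
    calc (1 + 5 * √δ) * r ≤ (1 + B * e) * (1 - 2 * e) * r := mul_le_mul_of_nonneg_right h11 hr.le
      _ = (1 + B * e) * ((1 - 2 * e) * r) := by ring
      _ ≤ _ := mul_le_mul_of_nonneg_left hz h14

lemma sx_cube (n : ℕ) : (sx n ^ 2) ^ 3 = n := by
  rw [← pow_mul, sx, ← rpow_natCast, ← rpow_mul (Nat.cast_nonneg n)]
  norm_num

/-- the small parameter -/
lemma efacts {r x : ℝ} (hr : 0 < r) (hs : 16 ≤ √r) (hx : 0 ≤ x) (hx2 : 16 ≤ x ^ 2) :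
    0 < max (r ^ (-(1 / 4) : ℝ)) x⁻¹ ∧ max (r ^ (-(1 / 4) : ℝ)) x⁻¹ ≤ 1 / 4 ∧
      1 ≤ max (r ^ (-(1 / 4) : ℝ)) x⁻¹ ^ 2 * min √r (x ^ 2) := by
  have h0 : 0 < r ^ (-(1 / 4) : ℝ) := rpow_pos_of_pos hr _
  have h1 : (r ^ (-(1 / 4) : ℝ)) ^ 2 * √r = 1 := by
    rw [sqrt_eq_rpow, ← rpow_natCast, ← rpow_mul hr.le, ← rpow_add hr]
    norm_num
  generalize r ^ (-(1 / 4) : ℝ) = ρ at h0 h1 ⊢
  have hx4 : 4 ≤ x := by nlinarith
  have hx0 : 0 < x := by linarith
  have hi : 0 < x⁻¹ := inv_pos.2 hx0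
  refine ⟨lt_max_of_lt_left h0, max_le ?_ ?_, ?_⟩
  · by_contra h
    push Not at h
    have h2 : (1 / 4) ^ 2 < ρ ^ 2 := pow_lt_pow_left₀ h (by norm_num) two_ne_zero
    nlinarith
  · rw [one_div]
    exact inv_anti₀ (by norm_num) hx4
  · rcases le_total √r (x ^ 2) with h | h
    · rw [min_eq_left h, ← h1]
      exact mul_le_mul_of_nonneg_right (pow_le_pow_left₀ h0.le (le_max_left _ _) 2)
        (sqrt_nonneg _)
    · rw [min_eq_right h]
      have h2 : (1 : ℝ) = x⁻¹ ^ 2 * x ^ 2 := by field_simp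
      rw [h2]
      exact mul_le_mul_of_nonneg_right (pow_le_pow_left₀ hi.le (le_max_right _ _) 2)
        (sq_nonneg _)

end SW89

open SW89

set_option maxHeartbeats 800000 in
/-- **the posterior covariance of the spherical models** -/
theorem sWinGlue : SWinGlue := by
  rintro ⟨C₁, hC₁, hS⟩ ⟨C₂, hC₂, hH⟩ hM hD hLow hG L C hL
  obtain ⟨w₂, hw₂, hD⟩ := hD L C hL
  refine ⟨w₂, fun w hw => ?_⟩
  obtain ⟨B₀, hB₀, hD⟩ := hD w hw
  obtain ⟨c, D, K, hc, hD0, hK, hG⟩ := hG L C w hL (hw₂.trans hw)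
  obtain ⟨B₁, hB₁⟩ : ∃ B₁, B₁ = C₁ ^ 2 / c + C₂ ^ 2 / c + 1 := ⟨_, rfl⟩
  obtain ⟨Q, hQ⟩ : ∃ Q, Q = K + (2 * D / c) ^ 2 + B₁ := ⟨_, rfl⟩
  have p1 : 0 < C₁ ^ 2 / c := by positivity
  have p2 : 0 < C₂ ^ 2 / c := by positivity
  have p3 : 0 ≤ (2 * D / c) ^ 2 := sq_nonneg _
  have hQ16 : 16 ≤ Q := by linarith
  refine ⟨B₀ + 10 * B₁ + 4, Q ^ 2, c ^ 2 / (16 * D), by linarith, one_le_pow₀ (by linarith),
    by positivity, ?_⟩
  filter_upwards [hD, hG, tendsto_natCast_atTop_atTop.eventually_ge_atTop (Q ^ 3),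
    eventually_ge_atTop 2] with n hD hG hnQ hn2 η hη r hr
  have hx0 : 0 ≤ sx n := rpow_nonneg (Nat.cast_nonneg n) _
  have htQ : Q ≤ sx n ^ 2 :=
    (pow_le_pow_iff_left₀ (by linarith) (sq_nonneg _) three_ne_zero).1 (by rwa [sx_cube])
  have ht0 : 0 < sx n ^ 2 := by linarith
  have hr0 : 0 < r := lt_of_lt_of_le (by positivity) hr
  have hsQ : Q ≤ √r := le_sqrt_of_sq_le hr
  have hrQ : Q ≤ r := (le_self_pow₀ (by linarith) two_ne_zero).trans hr
  obtain ⟨he0, he4, hem⟩ := efacts hr0 (hQ16.trans hsQ) hx0 (hQ16.trans htQ)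
  generalize max (r ^ (-(1 / 4) : ℝ)) (sx n)⁻¹ = e at he0 he4 hem ⊢
  have hmQ : Q ≤ min √r (sx n ^ 2) := le_min hsQ htQ
  have hms : min √r (sx n ^ 2) ≤ √r := min_le_left _ _
  have hmt : min √r (sx n ^ 2) ≤ sx n ^ 2 := min_le_right _ _
  obtain ⟨hG1, hG2⟩ := hG η hη
  have hG1 := hG1 ⟨0, by omega⟩ ⟨1, by omega⟩ r e (by linarith) he0.le (by linarith)
  obtain ⟨hD1, hD2⟩ := hD η _ ht0 hη ⟨0, by omega⟩ ⟨1, by omega⟩ rfl rfl
  generalize min √r (sx n ^ 2) = m at hem hmQ hms hmt hG1 ⊢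
  have hm0 : 0 ≤ m := by linarith
  have hcube := sx_cube n
  generalize sx n ^ 2 = t at *
  have hlo : ∀ k : Fin n, -L ≤ η k := fun k => by
    have h1 := hη.lo k k.2
    have h2 : 0 ≤ (((k : ℕ) : ℝ) + 1) ^ (2 / 3 : ℝ) / 256 := by positivity
    linarith
  have hrr : √r ^ 2 = r := sq_sqrt hr0.le
  have her : e * r ≤ 1 / 4 * r := mul_le_mul_of_nonneg_right he4 hr0.le
  have her0 : 0 ≤ e * r := by positivity
  have hLe : L ≤ e * r := by
    have h1 : e ^ 2 * m ≤ e ^ 2 * √r := mul_le_mul_of_nonneg_left hms (sq_nonneg _)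
    have h2 : e ^ 2 * √r ≤ e * √r :=
      mul_le_mul_of_nonneg_right (pow_le_of_le_one he0.le (by linarith) two_ne_zero)
        (sqrt_nonneg _)
    have h3 : 1 * √r ≤ e * √r * √r := mul_le_mul_of_nonneg_right (by linarith) (sqrt_nonneg _)
    have h4 : e * √r * √r = e * r := by rw [mul_assoc, mul_self_sqrt hr0.le]
    linarith
  -- the bad set
  have hoff : ∀ (μ : Measure (Fin n → ℝ)) (P : (Fin n → ℝ) → Prop), IsProbabilityMeasure μ →
      DomC μ (cw n η w) ⟨0, by omega⟩ ⟨1, by omega⟩ B₀ →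
      (∀ y : Fin n → ℝ, t < qm (fun k => y k / ((1 - e) * r + η k))
        (fun k : Fin n => 1 / ((1 - e) * r + η k)) → P y) →
      OffY r μ ((B₀ + 10 * B₁ + 4) * exp (-(c ^ 2 / (16 * D) * m))) P := by
    intro μ P hμ hd hP
    obtain ⟨l, hl, hl'⟩ := expo hc hD0 he0 hm0 hem (by linarith) hG1.1 hG1.2
    refine ⟨{y | ∑ k, cw n η ((1 - e) * r) k ^ 2 * y k ^ 2 ≤ t - ∑ k, cw n η ((1 - e) * r) k},
      measurableSet_le (by fun_prop) measurable_const, ?_, fun y hy => hP y ?_⟩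
    · refine (hLow _ μ _ (fun k => cw n η ((1 - e) * r) k ^ 2) _ _ B₀ r l _ hμ
        (fun k => one_div_pos.2 (by have := hlo k; linarith)) (fun k => sq_nonneg _) hB₀.le hr0.le
        hl hd).trans (ENNReal.ofReal_le_ofReal ?_)
      exact mul_le_mul (by linarith) (exp_le_exp.2 hl') (exp_pos _).le (by linarith)
    · have hy' : t - ∑ k, cw n η ((1 - e) * r) k < ∑ k, cw n η ((1 - e) * r) k ^ 2 * y k ^ 2 :=
        not_le.1 hy
      have e1 : qm (fun k => y k / ((1 - e) * r + η k))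
          (fun k : Fin n => 1 / ((1 - e) * r + η k)) =
          ∑ k, cw n η ((1 - e) * r) k ^ 2 * y k ^ 2 + ∑ k, cw n η ((1 - e) * r) k := by
        rw [qm, ← Finset.sum_add_distrib]
        refine Finset.sum_congr rfl fun k _ => ?_
        simp only [cw]
        ring
      linarith
  -- the covariance at the saddle point
  have hfin : ∀ (v C' : ℝ) (μ : Measure (Fin n → ℝ)) (y : Fin n → ℝ), (1 - e) * r ≤ v → 1 ≤ C' →
      C' ^ 2 / c + 1 ≤ B₁ → IsProbabilityMeasure μ →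
      (0 < 1 / (v - L) → (∀ k : Fin n, 0 < v + η k) →
        (∀ k : Fin n, 1 / (v + η k) ≤ 1 / (v - L)) →
        C' ^ 2 * (1 / (v - L)) ^ 2 ≤ ∑ k : Fin n, (1 / (v + η k)) ^ 2 →
        SubG μ (fun k => y k / (v + η k)) (fun k => 1 / (v + η k))
          (C' * (1 / (v - L)) / √(∑ k : Fin n, (1 / (v + η k)) ^ 2))) →
      Mom μ ((1 + (B₀ + 10 * B₁ + 4) * e) / r) := by
    intro v C' μ y hv hC' hB hμ hsub
    have hv1 : r / 2 ≤ v := by linarith
    have hsv : 2 ≤ √v := le_sqrt_of_sq_le (by linarith)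
    have hX1 : r ≤ v * √v := by
      have := mul_le_mul_of_nonneg_left hsv (by linarith : 0 ≤ v)
      linarith
    have hm2 : m ^ 2 ≤ min (v * √v) n := by
      refine le_min ((pow_le_pow_left₀ hm0 hms 2).trans (hrr.le.trans hX1)) ?_
      rw [← hcube]
      exact (pow_le_pow_left₀ hm0 hmt 2).trans (pow_le_pow_right₀ (by linarith) (by norm_num))
    have hm1 : m ≤ m ^ 2 := le_self_pow₀ (by linarith) two_ne_zero
    have hXe : 1 ≤ min (v * √v) n * e ^ 4 := by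
      have h1 : 1 ≤ (e ^ 2 * m) ^ 2 := one_le_pow₀ hem
      have h2 : m ^ 2 * e ^ 4 ≤ min (v * √v) n * e ^ 4 :=
        mul_le_mul_of_nonneg_right hm2 (by positivity)
      linarith [show (e ^ 2 * m) ^ 2 = m ^ 2 * e ^ 4 by ring]
    obtain ⟨a1, a2, a3, a4, a5⟩ := num (z := v - L) (B := B₀ + 10 * B₁ + 4) hC' hc he0 he4 hr0
      (by linarith) (hG2 v (by linarith)) (by linarith) hXe hB (by linarith)
    have hz : 0 < v - L := one_div_pos.1 a1
    have b1 : ∀ k : Fin n, 0 < v + η k := fun k => by have := hlo k; linarith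
    have b2 : ∀ k : Fin n, 1 / (v + η k) ≤ 1 / (v - L) := fun k =>
      one_div_le_one_div_of_le hz (by have := hlo k; linarith)
    exact mom_mono (hM _ μ _ _ _ _ hμ (fun k => one_div_pos.2 (b1 k)) b2 a3 a4
      (hsub a1 b1 b2 a2)).1 (by positivity) a5
  have hLw : L < (1 - e) * r := by linarith
  have hwr : (1 - e) * r ≤ r := by linarith
  have : Nonempty (Fin n) := ⟨⟨0, by omega⟩⟩
  refine ⟨hoff _ _ (isProbabilityMeasure_tilted (integrable_sphR _ (by fun_prop))) hD1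
    fun y hy => ?_, fun κ hκ => hoff _ _ (hD2 κ hκ).1 (hD2 κ hκ).2.2 fun y hy => ?_⟩
  · obtain ⟨v, hv, hq⟩ := saddle hlo hLw hwr ht0 le_rfl hy
    rw [pst_nuD η ht0.le r v]
    exact hfin v C₂ _ y hv hC₂ (by linarith)
      (isProbabilityMeasure_tilted (integrable_sphR _ (by fun_prop))) fun a1 b1 b2 a2 =>
      hH _ (fun k : Fin n => v + η k) y _ t a1 ht0 b1 b2 a2 (by rw [hq]; ring)
  · have hκ0 : 0 < κ := by linarith
    obtain ⟨v, hv, hq⟩ := saddle (α := 2 / κ) hlo hLw hwr ht0 (by positivity) hy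
    have b1 : ∀ k : Fin n, 0 < v + η k := fun k => by have := hlo k; linarith
    rw [pst_piD r hκ0.ne' (hD2 κ hκ).1 b1, ← hq]
    exact hfin v C₁ _ y hv hC₁ (by linarith) (prob_gw _ _ hκ0.le _) fun a1 b1 b2 a2 =>
      hS _ _ _ _ κ a1 hκ0 (fun k => one_div_pos.2 (b1 k)) b2 a2

end Crest.Agent.T157.Sp

end
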