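import Crest.Agent.T157.SpDef_87
import Crest.Agent.T157.StShell_38
import Crest.Agent.T157.ConcHW_16

/-!
# Row 157, sphere side (helper46): `Sp.softGlue`, `Sp.momStmt`
-/

set_option autoImplicit false

noncomputable section

namespace Crest.Agent.T157.Sp

open MeasureTheory ProbabilityTheory Matrix Filter Topology Finset Real
open scoped ENNReal
open Crest.Agent.T157.E Crest.Agent.T157.St Crest.Agent.T157.St.Sph38

namespace Soft46

variable {ι : Type} [Fintype ι]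

lemma den_shift {c : ι → ℝ} (hc : ∀ k, 0 < c k) (v y : ι → ℝ) :
    den c y * exp (v ⬝ᵥ y) =
      exp ((∑ k, c k * v k ^ 2) / 2) * den c (y - fun k => c k * v k) := by
  rw [den, den, mul_left_comm, mul_assoc, ← exp_add, ← exp_add]
  congr 2
  rw [dotProduct, mul_sum, mul_sum, sum_div, ← sum_add_distrib, ← sum_add_distrib]
  refine sum_congr rfl fun k _ => ?_
  have := (hc k).ne'
  simp only [Pi.sub_apply]
  field_simp
  ring

/-- Cameron-Martin -/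
lemma lint_cm (m : ι → ℝ) {c : ι → ℝ} (hc : ∀ k, 0 < c k) (v : ι → ℝ) {g : (ι → ℝ) → ℝ≥0∞}
    (hg : Measurable g) :
    ∫⁻ x, g x * ENNReal.ofReal (exp (v ⬝ᵥ (x - m))) ∂gs m c =
      ENNReal.ofReal (exp ((∑ k, c k * v k ^ 2) / 2)) *
        ∫⁻ x, g x ∂gs (m + fun k => c k * v k) c := by
  have hd : ∀ m' : ι → ℝ, Measurable fun x => ENNReal.ofReal (den c (x - m')) := fun m' =>
    ((continuous_den c).comp (continuous_id.sub continuous_const)).measurable.ennreal_ofReal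
  have he : Measurable fun x : ι → ℝ => ENNReal.ofReal (exp (v ⬝ᵥ (x - m))) :=
    (Continuous.measurable (by unfold dotProduct; fun_prop)).ennreal_ofReal
  have hge : Measurable fun x : ι → ℝ => g x * ENNReal.ofReal (exp (v ⬝ᵥ (x - m))) := hg.mul he
  rw [gs_eq' m hc, gs_eq' _ hc, lintegral_withDensity_eq_lintegral_mul _ (hd _) hge,
    lintegral_withDensity_eq_lintegral_mul _ (hd _) hg,
    ← lintegral_const_mul' _ _ ENNReal.ofReal_ne_top]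
  refine lintegral_congr fun x => ?_
  simp only [Pi.mul_apply]
  rw [mul_left_comm, ← ENNReal.ofReal_mul (den_nonneg _ _), den_shift hc, sub_sub,
    ENNReal.ofReal_mul (exp_pos _).le, mul_left_comm, mul_comm (g x)]

lemma sq_le_qv (m : ι → ℝ) {c : ι → ℝ} (hc : ∀ k, 0 < c k) : 2 * ∑ k, c k ^ 2 ≤ qv m c := by
  rw [mul_sum]
  exact sum_le_sum fun k _ => le_add_of_nonneg_right (by have := hc k; positivity)

lemma qv_le (m v : ι → ℝ) {c : ι → ℝ} {b t : ℝ} (hc : ∀ k, 0 < c k) (hcb : ∀ k, c k ≤ b)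
    (ht : 0 < t) : qv m c ≤ (1 + t) * qv (m + fun k => c k * v k) c +
      4 * (1 + 1 / t) * b ^ 2 * ∑ k, c k * v k ^ 2 := by
  rw [qv, qv, mul_sum, mul_sum, ← sum_add_distrib]
  refine sum_le_sum fun k _ => ?_
  simp only [Pi.add_apply]
  have h0 := hc k
  have h1 : m k ^ 2 ≤ (1 + t) * (m k + c k * v k) ^ 2 + (1 + 1 / t) * (c k * v k) ^ 2 := by
    have e : (1 + t) * (m k + c k * v k) ^ 2 + (1 + 1 / t) * (c k * v k) ^ 2 - m k ^ 2 =
        (t * (m k + c k * v k) + c k * v k) ^ 2 / t := by field_simp; ring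
    have : 0 ≤ (t * (m k + c k * v k) + c k * v k) ^ 2 / t := by positivity
    linarith
  have h2 : (c k * v k) ^ 2 ≤ b ^ 2 * v k ^ 2 := by
    rw [mul_pow]
    exact mul_le_mul_of_nonneg_right (pow_le_pow_left₀ h0.le (hcb k) 2) (sq_nonneg _)
  have h3 := mul_le_mul_of_nonneg_left h2 (by positivity : 0 ≤ 1 + 1 / t)
  nlinarith [mul_le_mul_of_nonneg_left (h1.trans (add_le_add le_rfl h3)) h0.le,
    mul_pos ht (pow_pos h0 2)]

lemma ratio {C ε A A' I Z x x' : ℝ} (hC : 0 < C) (hε : 0 < ε) (hε1 : (3 * C + 8) * ε ≤ 1)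
    (hA : 0 < A) (hA' : 0 < A') (hAA : A ≤ (1 + 5 * ε) * A') (hx : x ≤ C * ε) (hx' : x' ≤ C * ε)
    (hI : I ≤ (1 + x') / A') (hZ : (1 - x) / A ≤ Z) : I / Z ≤ 1 + (3 * C + 8) * ε := by
  have h0 : 0 < C * ε := by positivity
  have h1 : C * ε ≤ 1 / 3 := by nlinarith
  have hZ1 : (1 - C * ε) / A ≤ Z := le_trans (by gcongr) hZ
  have hZ0 : 0 < Z := lt_of_lt_of_le (div_pos (by linarith) hA) hZ1
  have hI1 : I ≤ (1 + C * ε) / A' := hI.trans (by gcongr)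
  rw [div_le_iff₀ hZ0]
  refine hI1.trans (le_trans ?_ (mul_le_mul_of_nonneg_left hZ1 (by positivity)))
  rw [← mul_div_assoc, div_le_div_iff₀ hA' hA]
  have h2 : (1 + C * ε) * (1 + 5 * ε) ≤ (1 + (3 * C + 8) * ε) * (1 - C * ε) := by
    nlinarith [mul_le_mul_of_nonneg_right hε1 h0.le, mul_le_mul_of_nonneg_right h1 hε.le]
  nlinarith [mul_le_mul_of_nonneg_left hAA (by positivity : 0 ≤ 1 + C * ε),
    mul_le_mul_of_nonneg_right h2 hA'.le]

section mom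
variable {μ : Measure (ι → ℝ)} {m c : ι → ℝ} {δ : ℝ}

lemma exp_mom (h : SubG μ m c δ) (hδ : 0 < δ) (v : ι → ℝ) {t : ℝ}
    (ht : t ^ 2 * ∑ k, c k * v k ^ 2 ≤ 1) :
    Integrable (fun x => exp (t * (v ⬝ᵥ (x - m)))) μ ∧ ∫ x, exp (t * (v ⬝ᵥ (x - m))) ∂μ ≤
      (1 + δ) * exp (t ^ 2 * (∑ k, c k * v k ^ 2) / 2) := by
  have e : ∑ k, c k * (t • v) k ^ 2 = t ^ 2 * ∑ k, c k * v k ^ 2 := by
    rw [mul_sum]
    exact sum_congr rfl fun k _ => by simp only [Pi.smul_apply, smul_eq_mul]; ring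
  have h1 := h (t • v) (e ▸ ht)
  simp only [e, smul_dotProduct, smul_eq_mul] at h1
  have hm : Continuous fun x : ι → ℝ => exp (t * (v ⬝ᵥ (x - m))) := by
    unfold dotProduct; fun_prop
  have hi : Integrable (fun x => exp (t * (v ⬝ᵥ (x - m)))) μ :=
    (lintegral_ofReal_ne_top_iff_integrable hm.aestronglyMeasurable
      (ae_of_all _ fun x => (exp_pos _).le)).1 (ne_top_of_le_ne_top ENNReal.ofReal_ne_top h1)
  refine ⟨hi, ?_⟩
  rw [← ofReal_integral_eq_lintegral_ofReal hi (ae_of_all _ fun x => (exp_pos _).le)] at h1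
  exact (ENNReal.ofReal_le_ofReal_iff (by positivity)).1 h1

lemma poly_mom [IsProbabilityMeasure μ] (h : SubG μ m c δ) (hδ : 0 < δ) (v : ι → ℝ) {t : ℝ}
    (ht0 : t ≠ 0) (ht : t ^ 2 * ∑ k, c k * v k ^ 2 ≤ 1) :
    Integrable (fun x => (v ⬝ᵥ (x - m)) ^ 2) μ ∧ Integrable (fun x => (v ⬝ᵥ (x - m)) ^ 4) μ ∧
      1 + t ^ 2 / 2 * ∫ x, (v ⬝ᵥ (x - m)) ^ 2 ∂μ + t ^ 4 / 24 * ∫ x, (v ⬝ᵥ (x - m)) ^ 4 ∂μ ≤
        (1 + δ) * exp (t ^ 2 * (∑ k, c k * v k ^ 2) / 2) := by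
  obtain ⟨i1, h1⟩ := exp_mom h hδ v ht
  obtain ⟨i2, h2⟩ := exp_mom h hδ v (t := -t) (by rwa [neg_sq])
  rw [neg_sq] at h2
  have hu : Continuous fun x : ι → ℝ => v ⬝ᵥ (x - m) := by unfold dotProduct; fun_prop
  have i3 : Integrable (fun x => (exp (t * (v ⬝ᵥ (x - m))) + exp (-t * (v ⬝ᵥ (x - m)))) / 2) μ :=
    (i1.add i2).div_const 2
  have hp : ∀ x, 1 + t ^ 2 / 2 * (v ⬝ᵥ (x - m)) ^ 2 + t ^ 4 / 24 * (v ⬝ᵥ (x - m)) ^ 4 ≤
      (exp (t * (v ⬝ᵥ (x - m))) + exp (-t * (v ⬝ᵥ (x - m)))) / 2 := fun x => by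
    have := Conc.poly_le_cosh (t * (v ⬝ᵥ (x - m)))
    rw [neg_mul]
    linarith
  have t2 : 0 < t ^ 2 / 2 := by positivity
  have t4 : 0 < t ^ 4 / 24 := by positivity
  have j2 : Integrable (fun x => t ^ 2 / 2 * (v ⬝ᵥ (x - m)) ^ 2) μ :=
    i3.mono' (Continuous.aestronglyMeasurable (by fun_prop)) (ae_of_all _ fun x => by
      rw [Real.norm_eq_abs, abs_of_nonneg (by positivity)]
      have : 0 ≤ t ^ 4 / 24 * (v ⬝ᵥ (x - m)) ^ 4 := by positivity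
      linarith [hp x])
  have j4 : Integrable (fun x => t ^ 4 / 24 * (v ⬝ᵥ (x - m)) ^ 4) μ :=
    i3.mono' (Continuous.aestronglyMeasurable (by fun_prop)) (ae_of_all _ fun x => by
      rw [Real.norm_eq_abs, abs_of_nonneg (by positivity)]
      have : 0 ≤ t ^ 2 / 2 * (v ⬝ᵥ (x - m)) ^ 2 := by positivity
      linarith [hp x])
  refine ⟨(integrable_const_mul_iff (IsUnit.mk0 _ t2.ne') _).1 j2,
    (integrable_const_mul_iff (IsUnit.mk0 _ t4.ne') _).1 j4, ?_⟩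
  have j1 : Integrable (fun x => 1 + t ^ 2 / 2 * (v ⬝ᵥ (x - m)) ^ 2) μ := (integrable_const _).add j2
  have h3 := integral_mono (j1.add j4) i3 hp
  simp only [Pi.add_apply] at h3
  rw [integral_add j1 j4, integral_add (integrable_const _) j2, integral_const_mul,
    integral_const_mul, integral_div, integral_add i1 i2] at h3
  simp only [integral_const, probReal_univ, smul_eq_mul, mul_one] at h3
  linarith

lemma mom [IsProbabilityMeasure μ] (h : SubG μ m c δ) (hc : ∀ k, 0 < c k) (hδ : 0 < δ)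
    (hδ1 : δ ≤ 1) (v : ι → ℝ) :
    Integrable (fun x => (v ⬝ᵥ (x - m)) ^ 2) μ ∧ Integrable (fun x => (v ⬝ᵥ (x - m)) ^ 4) μ ∧
      ∫ x, (v ⬝ᵥ (x - m)) ^ 2 ∂μ ≤ (1 + 5 * √δ) * ∑ k, c k * v k ^ 2 ∧
      ∫ x, (v ⬝ᵥ (x - m)) ^ 4 ∂μ ≤ 100 * (∑ k, c k * v k ^ 2) ^ 2 := by
  have h0 : ∀ k ∈ univ, 0 ≤ c k * v k ^ 2 := fun k _ => mul_nonneg (hc k).le (sq_nonneg _)
  rcases (sum_nonneg h0).eq_or_lt with hρ | hρ
  · have : v = 0 := funext fun k => by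
      have := (sum_eq_zero_iff_of_nonneg h0).1 hρ.symm k (mem_univ k)
      simpa [(hc k).ne'] using this
    simp [this]
  set ρ := ∑ k, c k * v k ^ 2 with hρd
  set s := √δ with hs
  have hs0 : 0 < s := sqrt_pos.2 hδ
  have hs1 : s ≤ 1 := sqrt_le_one.2 hδ1
  have hss : s ^ 2 = δ := sq_sqrt hδ.le
  have key : ∀ r : ℝ, 0 < r → r ≤ 1 →
      Integrable (fun x => (v ⬝ᵥ (x - m)) ^ 2) μ ∧ Integrable (fun x => (v ⬝ᵥ (x - m)) ^ 4) μ ∧
      1 + r / ρ / 2 * ∫ x, (v ⬝ᵥ (x - m)) ^ 2 ∂μ +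
        (r / ρ) ^ 2 / 24 * ∫ x, (v ⬝ᵥ (x - m)) ^ 4 ∂μ ≤ (1 + δ) * (1 + r / 2 + (r / 2) ^ 2) := by
    intro r hr hr1
    have e1 : √(r / ρ) ^ 2 = r / ρ := sq_sqrt (by positivity)
    have e2 : √(r / ρ) ^ 4 = (r / ρ) ^ 2 := by rw [← e1, ← pow_mul, e1]
    have e3 : r / ρ * ρ = r := div_mul_cancel₀ _ hρ.ne'
    have := poly_mom h hδ v (t := √(r / ρ)) (sqrt_pos.2 (by positivity)).ne'
      (by rw [e1, ← hρd, e3]; exact hr1)
    rw [e1, e2, ← hρd, e3] at this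
    refine ⟨this.1, this.2.1, this.2.2.trans (mul_le_mul_of_nonneg_left ?_ (by positivity))⟩
    have := (abs_le.1 (abs_exp_sub_one_sub_id_le (x := r / 2)
      (by rw [abs_of_pos (by positivity)]; linarith))).2
    linarith
  obtain ⟨i2, i4, k1⟩ := key 1 one_pos le_rfl
  obtain ⟨-, -, k2⟩ := key s hs0 hs1
  have p2 : 0 ≤ ∫ x, (v ⬝ᵥ (x - m)) ^ 2 ∂μ := integral_nonneg fun x => by positivity
  have p4 : 0 ≤ ∫ x, (v ⬝ᵥ (x - m)) ^ 4 ∂μ := integral_nonneg fun x => by positivity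
  refine ⟨i2, i4, ?_, ?_⟩
  · have a1 : 0 ≤ (s / ρ) ^ 2 / 24 * ∫ x, (v ⬝ᵥ (x - m)) ^ 4 ∂μ := by positivity
    have a2 : (1 + δ) * (1 + s / 2 + (s / 2) ^ 2) ≤ 1 + s / 2 * (1 + 5 * s) := by
      rw [← hss]
      nlinarith [mul_le_mul_of_nonneg_left hs1 (sq_nonneg s),
        mul_le_mul_of_nonneg_left (pow_le_one₀ hs0.le hs1 : s ^ 2 ≤ 1) (sq_nonneg s)]
    have a3 : s / ρ / 2 * ∫ x, (v ⬝ᵥ (x - m)) ^ 2 ∂μ ≤ s / ρ / 2 * ((1 + 5 * s) * ρ) := by
      have : s / ρ / 2 * ((1 + 5 * s) * ρ) = s / 2 * (1 + 5 * s) := by field_simp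
      linarith
    exact le_of_mul_le_mul_left a3 (by positivity)
  · have a1 : 0 ≤ 1 / ρ / 2 * ∫ x, (v ⬝ᵥ (x - m)) ^ 2 ∂μ := by positivity
    have a3 : (1 / ρ) ^ 2 / 24 * ∫ x, (v ⬝ᵥ (x - m)) ^ 4 ∂μ ≤ (1 / ρ) ^ 2 / 24 * (100 * ρ ^ 2) := by
      have : (1 / ρ) ^ 2 / 24 * (100 * ρ ^ 2) = 100 / 24 := by field_simp
      linarith
    exact le_of_mul_le_mul_left a3 (by positivity)

end mom

end Soft46

open Soft46

/-- **the softly conditioned Gaussian is almost Gaussian** -/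
theorem softGlue : SoftGlue := by
  rintro ⟨C, hC, h⟩
  refine ⟨3 * C + 8, by linarith, fun ι _ m c b κ hb hκ hc hcb hs v hv => ?_⟩
  set S := √(∑ k, c k ^ 2) with hS
  have hS2 : S ^ 2 = ∑ k, c k ^ 2 := sq_sqrt (sum_nonneg fun k _ => sq_nonneg _)
  have h1 : (3 * C + 8) * b ≤ S := le_sqrt_of_sq_le (by rw [mul_pow]; exact hs)
  have hS0 : 0 < S := lt_of_lt_of_le (by positivity) h1
  set ε := b / S with hε
  have hε0 : 0 < ε := by positivity
  have hε1 : (3 * C + 8) * ε ≤ 1 := by rw [hε, ← mul_div_assoc, div_le_one hS0]; exact h1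
  have h4 : 4 * b ^ 2 ≤ ∑ k, c k ^ 2 :=
    le_trans (mul_le_mul_of_nonneg_right (by nlinarith) (sq_nonneg b)) hs
  set m' : ι → ℝ := m + fun k => c k * v k with hm'
  have hx : ∀ m'' : ι → ℝ, C * b / √(qv m'' c) ≤ C * ε := fun m'' => by
    have : S ≤ √(qv m'' c) := sqrt_le_sqrt (by nlinarith [sq_le_qv m'' hc])
    rw [hε, mul_div_assoc]
    gcongr
  have hV' := sq_le_qv m' hc
  have hV := sq_le_qv m hc
  have hp : 0 < S ^ 2 := by positivity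
  have hVV : qv m c ≤ (1 + 5 * ε) * qv m' c := by
    have a1 := qv_le m v hc hcb hε0
    have a2 : 4 * (1 + 1 / ε) * b ^ 2 = 4 * (ε + 1) * ε * S ^ 2 := by
      rw [hε]; field_simp
    have a3 : ε ≤ 1 := by nlinarith
    have a4 : 4 * (1 + 1 / ε) * b ^ 2 * ∑ k, c k * v k ^ 2 ≤ 4 * (1 + 1 / ε) * b ^ 2 :=
      mul_le_of_le_one_right (by positivity) hv
    have a5 : 4 * (ε + 1) * ε * S ^ 2 ≤ 4 * ε * qv m' c := by
      nlinarith [mul_le_mul_of_nonneg_left a3 (mul_pos hε0 hp).le,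
        mul_le_mul_of_nonneg_left (hS2 ▸ hV' : 2 * S ^ 2 ≤ qv m' c) hε0.le]
    linarith
  have hq : 0 ≤ κ * qv m' c / 4 := by
    have : 0 ≤ qv m' c := by linarith
    positivity
  have hq' : 0 ≤ κ * qv m c / 4 := by
    have : 0 ≤ qv m c := by linarith
    positivity
  have hAA : √(1 + κ * qv m c / 4) ≤ (1 + 5 * ε) * √(1 + κ * qv m' c / 4) := by
    refine sqrt_le_iff.2 ⟨by positivity, ?_⟩
    rw [mul_pow, sq_sqrt (by positivity)]
    have a1 := mul_le_mul_of_nonneg_left hVV hκ.le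
    have a2 : 1 + 5 * ε ≤ (1 + 5 * ε) ^ 2 := by nlinarith
    nlinarith [mul_le_mul_of_nonneg_right a2 (by positivity : 0 ≤ 1 + κ * qv m' c / 4)]
  have hR := ratio hC hε0 hε1 (sqrt_pos.2 (by positivity)) (sqrt_pos.2 (by positivity)) hAA (hx m)
    (hx m') ((h ι m' c b κ hb hκ hc hcb h4).1 (qm m c)) (h ι m c b κ hb hκ hc hcb h4).2
  have hf : Continuous fun x : ι → ℝ => exp (-(κ / 8) * (x ⬝ᵥ x - qm m c) ^ 2) := by
    unfold dotProduct; fun_prop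
  have hi : Integrable (fun x : ι → ℝ => exp (-(κ / 8) * (x ⬝ᵥ x - qm m c) ^ 2)) (gs m' c) :=
    Integrable.of_bound hf.aestronglyMeasurable 1 (ae_of_all _ fun x => by
      rw [Real.norm_eq_abs, abs_of_pos (exp_pos _), exp_le_one_iff, neg_mul, neg_nonpos]
      positivity)
  have hZ : 0 ≤ ∫ x, exp (-(κ / 8) * (x ⬝ᵥ x - qm m c) ^ 2) ∂gs m c :=
    integral_nonneg fun x => (exp_pos _).le
  rw [gw, lintegral_tilted, lint_cm m hc v (hf.measurable.div_const _).ennreal_ofReal,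
    ← ofReal_integral_eq_lintegral_ofReal (hi.div_const _)
      (ae_of_all _ fun x => div_nonneg (exp_pos _).le hZ), integral_div,
    ← ENNReal.ofReal_mul (exp_pos _).le, mul_comm, mul_div_assoc]
  exact ENNReal.ofReal_le_ofReal (mul_le_mul_of_nonneg_right hR (exp_pos _).le)

/-- **moments from almost Gaussian exponential moments** -/
theorem momStmt : MomStmt := by
  intro ι _ μ m c b δ hμ hc hcb hδ hδ1 h
  have hs : 0 ≤ √δ := sqrt_nonneg δ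
  have hρ : ∀ v : ι → ℝ, ∑ k, c k * v k ^ 2 ≤ b * (v ⬝ᵥ v) := fun v => by
    rw [dotProduct, mul_sum]
    exact sum_le_sum fun k _ => by
      rw [sq]; exact mul_le_mul_of_nonneg_right (hcb k) (mul_self_nonneg _)
  have hρ0 : ∀ v : ι → ℝ, 0 ≤ ∑ k, c k * v k ^ 2 := fun v =>
    sum_nonneg fun k _ => mul_nonneg (hc k).le (sq_nonneg _)
  have h2 : ∀ v : ι → ℝ, ∫ x, (v ⬝ᵥ (x - m)) ^ 2 ∂μ ≤ (1 + 5 * √δ) * b * (v ⬝ᵥ v) := fun v => by
    rw [mul_assoc]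
    exact (mom h hc hδ hδ1 v).2.2.1.trans (mul_le_mul_of_nonneg_left (hρ v) (by positivity))
  refine ⟨⟨hμ, m, fun v => ⟨(mom h hc hδ hδ1 v).2.1, h2 v, (mom h hc hδ hδ1 v).2.2.2.trans ?_⟩⟩,
    fun v => ?_, fun v => (mom h hc hδ hδ1 v).2.2.1⟩
  · refine mul_le_mul_of_nonneg_left (pow_le_pow_left₀ (hρ0 v) ((hρ v).trans ?_) 2) (by norm_num)
    rw [mul_assoc]
    exact le_mul_of_one_le_left ((hρ0 v).trans (hρ v)) (by linarith)
  · have hu : Continuous fun x : ι → ℝ => v ⬝ᵥ (x - m) := by unfold dotProduct; fun_prop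
    have h3 : MemLp (fun x => v ⬝ᵥ (x - m)) 2 μ :=
      (memLp_two_iff_integrable_sq hu.aestronglyMeasurable).2 (mom h hc hδ hδ1 v).1
    have e : (fun x => v ⬝ᵥ x) = fun x => v ⬝ᵥ (x - m) + v ⬝ᵥ m := funext fun x => by
      rw [dotProduct_sub, sub_add_cancel]
    rw [e]
    refine ⟨h3.add (memLp_const _), ?_⟩
    rw [variance_add_const hu.aestronglyMeasurable]
    exact (variance_le_expectation_sq hu.aestronglyMeasurable).trans (h2 v)

end Crest.Agent.T157.Sp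

end
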