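import Crest.Agent.T157.SpWinA_34
import Crest.Agent.T157.StAll_87

/-!
# Row 157: `WinGlue`, unconditional (helper34)
-/

namespace Crest.Agent.T157.Sp

theorem winGlue : WinGlue := Win34.win_of St.All.goodStmt St.All.lnkStmt

end Crest.Agent.T157.Sp
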