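import Crest.Agent.T157.SpChar_15
import Crest.Agent.T157.SpLclt_46
import Crest.Agent.T157.SpSoft_46
import Crest.Agent.T157.SpHard_85
import Crest.Agent.T157.SpDom_15
import Crest.Agent.T157.SpLow_15
import Crest.Agent.T157.SpGap_15
import Crest.Agent.T157.SpLarge_13
import Crest.Agent.T157.SpTrf_85
import Crest.Agent.T157.SpSW_89
import Crest.Agent.T157.SpChi_87
import Crest.Agent.T157.SpWin_34

/-!
# Row 157: the sphere side of the critical window, unconditional (assembly, helper87)
-/

set_option autoImplicit false

namespace Crest.Agent.T157.Sp.All

theorem lcltStmt : LcltStmt := lcltGlue charStmt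
theorem softStmt : SoftStmt := softGlue lcltStmt
theorem hardStmt : HardStmt := hardGlue softStmt
/-- **the posterior covariance of the spherical models** -/
theorem sWinStmt : SWinStmt := sWinGlue softStmt hardStmt momStmt domStmt lowStmt gapStmt
/-- **the cube is `χ²`-close to the sphere after the channel** -/
theorem chiStmt : ChiStmt := chiGlue rotYStmt plStmt
theorem win_of (h : WinGlue) : WinStmt := h sWinStmt trfStmt chiStmt
/-- **the covariance bound on the cube at the bottom of the window** -/
theorem winStmt : WinStmt := win_of winGlue

end Crest.Agent.T157.Sp.All
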