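import Crest.Agent.T157.SpDef_87

/-!
# Row 157: the characteristic function of `|x|²` under a Gaussian law (`Sp.CharStmt`) (helper15)
-/

set_option autoImplicit false

noncomputable section

namespace Crest.Agent.T157.Sp

open MeasureTheory ProbabilityTheory Finset Real Crest.Agent.T157.St

namespace Char15

/-- the exponent of one coordinate -/
def zz (m c θ : ℝ) : ℂ :=
  -(1 / 2) * Complex.log (1 + -((2 * θ * c : ℝ) : ℂ) * Complex.I) - (θ * c : ℝ) * Complex.I -
    (2 * θ ^ 2 * c * m ^ 2 : ℝ) / (1 + -((2 * θ * c : ℝ) : ℂ) * Complex.I)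

theorem one_d (m θ : ℝ) {c : ℝ} (hc : 0 < c) :
    ∫ x, Complex.exp ((θ * (x * x - (m ^ 2 + c)) : ℝ) * Complex.I) ∂gaussianReal m c.toNNReal =
      Complex.exp (zz m c θ) := by
  set w : ℂ := 1 + -((2 * θ * c : ℝ) : ℂ) * Complex.I with hw
  have hre : w.re = 1 := by simp [hw]
  have hw0 : w ≠ 0 := fun h => by simp [h] at hre
  have hc0 : (c : ℂ) ≠ 0 := by exact_mod_cast hc.ne'
  have h2 : 0 < 2 * π * c := by positivity
  rw [integral_gaussianReal_eq_integral_smul (by simpa using hc)]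
  have e : ∀ x : ℝ, gaussianPDFReal m c.toNNReal x •
      Complex.exp ((θ * (x * x - (m ^ 2 + c)) : ℝ) * Complex.I) = ((√(2 * π * c))⁻¹ : ℝ) *
        Complex.exp (-(w / (2 * c)) * x ^ 2 + m / c * x +
          (-m ^ 2 / (2 * c) - (θ * (m ^ 2 + c) : ℝ) * Complex.I)) := fun x => by
    rw [gaussianPDFReal, Real.coe_toNNReal _ hc.le, Complex.real_smul, Complex.ofReal_mul,
      Complex.ofReal_exp, mul_assoc, ← Complex.exp_add, hw]
    congr 2
    push_cast
    field_simp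
    ring
  simp_rw [e]
  have hb : (-(w / (2 * c))).re < 0 := by
    have : (2 * c : ℂ) = (2 * c : ℝ) := by push_cast; rfl
    rw [Complex.neg_re, this, Complex.div_ofReal_re, hre]
    exact neg_lt_zero.2 (by positivity)
  have e2 : (π : ℂ) / - -(w / (2 * c)) = (2 * π * c : ℝ) * w⁻¹ := by push_cast; field_simp
  have e3 : ((√(2 * π * c))⁻¹ : ℝ) = Complex.exp (-(Real.log (2 * π * c) * (1 / 2))) := by
    rw [Real.sqrt_eq_rpow, Real.rpow_def_of_pos h2, ← Real.exp_neg, Complex.ofReal_exp]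
    push_cast; rfl
  rw [integral_const_mul, integral_cexp_quadratic hb, e2, Complex.cpow_def_of_ne_zero
    (mul_ne_zero (by exact_mod_cast h2.ne') (inv_ne_zero hw0)),
    Complex.log_ofReal_mul h2 (inv_ne_zero hw0), Complex.log_inv _ (fun h => by
      have := (Complex.arg_eq_pi_iff.1 h).1; linarith), e3, ← Complex.exp_add, ← Complex.exp_add, zz,
    ← hw]
  congr 1
  have : (θ : ℂ) * Complex.I * (2 * c) = 1 - w := by rw [hw]; push_cast; ring
  have hI := Complex.I_mul_I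
  clear_value w
  push_cast
  field_simp
  linear_combination (-(8 * m ^ 2 * c * θ * Complex.I) - 4 * m ^ 2) * this +
    16 * m ^ 2 * c ^ 2 * θ ^ 2 * hI

theorem div_w (r a : ℝ) : (r : ℂ) / (1 + -(a : ℂ) * Complex.I) =
    (r / (1 + a ^ 2) : ℝ) + (r * a / (1 + a ^ 2) : ℝ) * Complex.I := by
  have h1 : (1 + -(a : ℂ) * Complex.I) ≠ 0 := fun h => by simpa using congrArg Complex.re h
  have h2 : (1 + (a : ℂ) ^ 2) ≠ 0 := by exact_mod_cast (by positivity : (1 + a ^ 2 : ℝ) ≠ 0)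
  rw [div_eq_iff h1]
  push_cast
  field_simp
  linear_combination (r * a ^ 2) * Complex.I_mul_I

theorem zz_re (m c θ : ℝ) : (zz m c θ).re =
    -(1 / 4) * log (1 + (2 * θ * c) ^ 2) - 2 * θ ^ 2 * c * m ^ 2 / (1 + (2 * θ * c) ^ 2) := by
  have e : (-(1 / 2) : ℂ) = (-(1 / 2) : ℝ) := by push_cast; rfl
  have e2 : ∀ a : ℝ, log ‖1 + -(a : ℂ) * Complex.I‖ = log (1 + a ^ 2) / 2 := fun a => by
    rw [Complex.norm_eq_sqrt_sq_add_sq, Real.log_sqrt (by positivity)]
    simp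
  rw [zz, div_w, e]
  simp only [Complex.sub_re, Complex.add_re, Complex.re_ofReal_mul, Complex.ofReal_re, Complex.I_re,
    Complex.log_re, e2]
  ring

theorem zz_im (m θ : ℝ) {c x : ℝ} (hc : 0 < c) (h : |2 * θ * c| ≤ x) (hx : x ≤ 1 / 2) :
    |(zz m c θ).im| ≤ x * (θ ^ 2 * (2 * c ^ 2 + 4 * c * m ^ 2)) := by
  have e : (-(1 / 2) : ℂ) = (-(1 / 2) : ℝ) := by push_cast; rfl
  set a := 2 * θ * c with ha
  have hn : ‖-(a : ℂ) * Complex.I‖ = |a| := by simp
  have h0 := abs_nonneg a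
  have h1 := (Complex.abs_im_le_norm _).trans
    (Complex.norm_log_sub_logTaylor_le 2 (z := -(a : ℂ) * Complex.I) (by rw [hn]; linarith))
  have h2 : (Complex.logTaylor (2 + 1) (-(a : ℂ) * Complex.I)).im = -a := by
    simp [Complex.logTaylor, Finset.sum_range_succ, pow_succ]
  have h3 : (1 - |a|)⁻¹ ≤ 2 := by rw [inv_le_comm₀ (by linarith) two_pos]; linarith
  rw [Complex.sub_im, h2, hn] at h1
  have h4 : |(Complex.log (1 + -(a : ℂ) * Complex.I)).im + a| ≤ x * a ^ 2 := by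
    have h5 : 0 ≤ x * a ^ 2 := mul_nonneg (h0.trans h) (sq_nonneg a)
    have : |a| ^ (2 + 1) * (1 - |a|)⁻¹ ≤ x * a ^ 2 * 2 := by
      rw [pow_succ', sq_abs]
      exact mul_le_mul (mul_le_mul_of_nonneg_right h (sq_nonneg a)) h3 (inv_nonneg.2 (by linarith)) h5
    push_cast at h1
    rw [sub_neg_eq_add] at h1
    linarith
  have h5 : |2 * θ ^ 2 * c * m ^ 2 * a / (1 + a ^ 2)| ≤ 2 * θ ^ 2 * c * m ^ 2 * x := by
    rw [abs_div, abs_mul, abs_of_nonneg (by positivity), abs_of_nonneg (a := 1 + a ^ 2) (by positivity)]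
    refine (div_le_self (by positivity) (by nlinarith [sq_nonneg a])).trans ?_
    gcongr
  have h6 : (zz m c θ).im = -(1 / 2) * ((Complex.log (1 + -(a : ℂ) * Complex.I)).im + a) -
      2 * θ ^ 2 * c * m ^ 2 * a / (1 + a ^ 2) := by
    rw [zz, div_w, e, ← ha]
    simp only [Complex.sub_im, Complex.add_im, Complex.im_ofReal_mul, Complex.ofReal_im, Complex.I_im]
    rw [ha]; ring
  have h7 : 0 ≤ θ ^ 2 * c * m ^ 2 * x := mul_nonneg (by positivity) (h0.trans h)
  have h8 : x * a ^ 2 = 4 * (x * (θ ^ 2 * c ^ 2)) := by rw [ha]; ring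
  rw [h6, abs_le]
  constructor <;> nlinarith [abs_le.1 h4, abs_le.1 h5]

theorem chf_eq {ι : Type} [Fintype ι] (m : ι → ℝ) {c : ι → ℝ} (hc : ∀ k, 0 < c k) (θ : ℝ) :
    chf m c θ = Complex.exp (∑ k, zz (m k) (c k) θ) := by
  rw [Complex.exp_sum, ← Finset.prod_congr rfl fun k _ => one_d (m k) θ (hc k),
    ← integral_fintype_prod_eq_prod]
  refine integral_congr_ae (ae_of_all _ fun x => ?_)
  simp only [← Complex.exp_sum, ← Finset.sum_mul, ← Complex.ofReal_sum, ← Finset.mul_sum,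
    Finset.sum_sub_distrib, qm, dotProduct]

theorem log_ge {u : ℝ} (hu : 0 ≤ u) : u / (1 + u) ≤ log (1 + u) := by
  have := one_sub_inv_le_log_of_pos (x := 1 + u) (by linarith)
  rwa [show 1 - (1 + u)⁻¹ = u / (1 + u) by field_simp; ring] at this

end Char15

open Char15 in
theorem charStmt : CharStmt := by
  intro ι _ m c b θ hb hc hcb
  set X := (2 * θ * b) ^ 2 with hX
  have hX0 : 0 ≤ X := sq_nonneg _
  have hab : ∀ k, |2 * θ * c k| ≤ |2 * θ * b| := fun k => by
    rw [abs_mul _ b, abs_mul _ (c k), abs_of_pos hb, abs_of_pos (hc k)]; gcongr; exact hcb k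
  have ha : ∀ k, (2 * θ * c k) ^ 2 ≤ X := fun k => sq_le_sq.2 (hab k)
  have hm : ∀ k, 2 * θ ^ 2 * c k * m k ^ 2 / (1 + X) ≤
      2 * θ ^ 2 * c k * m k ^ 2 / (1 + (2 * θ * c k) ^ 2) := fun k => by
    have := hc k
    gcongr
    exact ha k
  have hn : ‖chf m c θ‖ = exp (∑ k, (zz (m k) (c k) θ).re) := by
    rw [chf_eq m hc, Complex.norm_exp, Complex.re_sum]
  refine ⟨?_, fun h4 => ?_, fun hx => ?_⟩
  · rw [hn, exp_le_exp, qv, Finset.mul_sum, Finset.sum_div, ← Finset.sum_neg_distrib]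
    refine Finset.sum_le_sum fun k _ => ?_
    have h1 := log_ge (sq_nonneg (2 * θ * c k))
    have h2 : (2 * θ * c k) ^ 2 / (1 + X) ≤ (2 * θ * c k) ^ 2 / (1 + (2 * θ * c k) ^ 2) := by
      gcongr; exact ha k
    have h3 : θ ^ 2 * (2 * c k ^ 2 + 4 * c k * m k ^ 2) / (2 * (1 + X)) =
        (2 * θ * c k) ^ 2 / (1 + X) / 4 + 2 * θ ^ 2 * c k * m k ^ 2 / (1 + X) := by field_simp; ring
    rw [zz_re, h3]
    linarith [hm k]
  · have h1 : ∑ k, (zz (m k) (c k) θ).re ≤ ∑ k, (-(c k ^ 2 / (4 * b ^ 2)) * log (1 + X) -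
        c k * m k ^ 2 / (2 * b ^ 2) * (X / (1 + X))) := Finset.sum_le_sum fun k _ => by
      have e1 : c k ^ 2 / b ^ 2 ≤ 1 := by
        rw [div_le_one (by positivity)]; have := hc k; gcongr; exact hcb k
      have e2 := log_le_log (by positivity)
        (rpow_one_add_le_one_add_mul_self (s := X) (by linarith) (by positivity) e1)
      have e3 : c k ^ 2 / b ^ 2 * X = (2 * θ * c k) ^ 2 := by rw [hX]; field_simp
      have e4 : c k * m k ^ 2 / (2 * b ^ 2) * (X / (1 + X)) = 2 * θ ^ 2 * c k * m k ^ 2 / (1 + X) := by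
        rw [← mul_div_assoc]; congr 1; rw [hX]; field_simp
      have e5 : c k ^ 2 / (4 * b ^ 2) = c k ^ 2 / b ^ 2 / 4 := by field_simp
      rw [log_rpow (by positivity), e3] at e2
      rw [zz_re, e4, e5]
      linarith [hm k]
    have h2 : qv m c / (8 * b ^ 2) = (∑ k, c k ^ 2) / (4 * b ^ 2) +
        ∑ k, c k * m k ^ 2 / (2 * b ^ 2) := by
      rw [qv, Finset.sum_div, Finset.sum_div, ← Finset.sum_add_distrib]
      exact Finset.sum_congr rfl fun k _ => by field_simp; ring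
    have h3 : 1 ≤ (∑ k, c k ^ 2) / (4 * b ^ 2) := (one_le_div (by positivity)).2 h4
    rw [Finset.sum_sub_distrib, ← Finset.sum_mul, ← Finset.sum_mul, Finset.sum_neg_distrib,
      ← Finset.sum_div] at h1
    rw [hn, ← exp_log (x := (1 + X)⁻¹) (by positivity), ← exp_add, exp_le_exp, log_inv, h2]
    nlinarith [mul_nonneg (sub_nonneg.2 h3) (sub_nonneg.2 (log_ge hX0))]
  · have h1 : exp (-(θ ^ 2 * qv m c / 2)) ≤ ‖chf m c θ‖ := by
      rw [hn, exp_le_exp, qv, Finset.mul_sum, Finset.sum_div, ← Finset.sum_neg_distrib]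
      refine Finset.sum_le_sum fun k _ => ?_
      have := hc k
      have e1 := log_le_sub_one_of_pos (x := 1 + (2 * θ * c k) ^ 2) (by positivity)
      have e2 : 2 * θ ^ 2 * c k * m k ^ 2 / (1 + (2 * θ * c k) ^ 2) ≤ 2 * θ ^ 2 * c k * m k ^ 2 :=
        div_le_self (by positivity) (by nlinarith [sq_nonneg (2 * θ * c k)])
      rw [zz_re]
      nlinarith
    have h2 : |(∑ k, zz (m k) (c k) θ).im| ≤ |2 * θ * b| * (θ ^ 2 * qv m c) := by
      rw [Complex.im_sum, qv, Finset.mul_sum, Finset.mul_sum]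
      exact (Finset.abs_sum_le_sum_abs _ _).trans
        (Finset.sum_le_sum fun k _ => zz_im _ _ (hc k) (hab k) hx)
    have h3 : (chf m c θ).re = ‖chf m c θ‖ * cos (∑ k, zz (m k) (c k) θ).im := by
      rw [chf_eq m hc, Complex.exp_re, Complex.norm_exp]
    have h4 := abs_cos_sub_cos_le (∑ k, zz (m k) (c k) θ).im 0
    rw [cos_zero, sub_zero] at h4
    rw [h3]
    nlinarith [mul_le_mul_of_nonneg_left ((neg_le_neg (h4.trans h2)).trans (neg_abs_le _))
      (norm_nonneg (chf m c θ))]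

end Crest.Agent.T157.Sp

end
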