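import Crest.Agent.T157.SpDef_87
import Crest.Agent.T157.StCl_28
import Crest.Agent.T157.StA_87

/-!
# Row 157, cube versus sphere after the channel, file A (helper87): two-replica identities
-/

set_option autoImplicit false

noncomputable section

namespace Crest.Agent.T157.Sp.Ch87

open MeasureTheory ProbabilityTheory Matrix Filter Topology Finset Real
open scoped ENNReal
open Crest.Agent.T157.E Crest.Agent.T157.Cond Crest.Agent.T157.Ed Crest.Agent.T157.St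
open Crest.Agent.T157.St.Cl28

variable {n : ℕ}

instance {ι : Type*} [Fintype ι] (T : ℝ) : IsProbabilityMeasure (gK ι T) :=
  Measure.isProbabilityMeasure_map (by fun_prop)

/-- matrix and field -/
abbrev PY (n : ℕ) : Type := Mat n × (Fin n → ℝ)
/-- two replicas -/
abbrev PX (n : ℕ) : Type := (Fin n → ℝ) × (Fin n → ℝ)

/-- exponent of two replicas -/
def Ex (n : ℕ) (p : PY n) (q : PX n) : ℝ := Hh n p.1 q.1 + Hh n p.1 q.2 + p.2 ⬝ᵥ (q.1 + q.2)
/-- exponent after the rotation -/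
def Ey (n : ℕ) (i j : Fin n) (p : PY n) (R : ℝ) : ℝ := n * (p.1 i i + p.1 j j) / 2 +
  tau n * R * (p.1 i i - p.1 j j) / 2 + p.2 i * √(2 * sx n ^ 2 + 2 * R)
/-- partition function with a field -/
def Zy (n : ℕ) (ω : Measure (Fin n → ℝ)) (p : PY n) : ℝ :=
  ∫ x, exp (Hh n p.1 x + p.2 ⬝ᵥ x) ∂ω
/-- two-replica sums -/
def YX (n : ℕ) (ω : Measure (Fin n → ℝ)) (F : ℝ → ℝ≥0∞) (p : PY n) : ℝ≥0∞ :=
  ∫⁻ q, F (q.1 ⬝ᵥ q.2) * ENNReal.ofReal (exp (Ex n p q)) ∂ω.prod ω
def YR (n : ℕ) (i j : Fin n) (ω : Measure (Fin n → ℝ)) (F : ℝ → ℝ≥0∞) (p : PY n) : ℝ≥0∞ :=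
  ∫⁻ q, F (q.1 ⬝ᵥ q.2) * ENNReal.ofReal (exp (Ey n i j p (q.1 ⬝ᵥ q.2))) ∂ω.prod ω

lemma meas_ent (i j : Fin n) : Measurable fun p : PY n => p.1 i j :=
  ((measurable_id (α := Mat n)).t157_entry i j).comp measurable_fst

lemma meas_dot : Measurable fun q : PX n => q.1 ⬝ᵥ q.2 := by fun_prop

lemma meas_Ex : Measurable fun z : PY n × PX n => Ex n z.1 z.2 :=
  ((meas_Hh (measurable_fst.comp measurable_fst) (by fun_prop)).add
    (meas_Hh (measurable_fst.comp measurable_fst) (by fun_prop))).add (by fun_prop)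

lemma meas_Ey (i j : Fin n) : Measurable fun z : PY n × PX n => Ey n i j z.1 (z.2.1 ⬝ᵥ z.2.2) := by
  have h1 : Measurable fun z : PY n × PX n => z.1.1 i i := (meas_ent i i).comp measurable_fst
  have h2 : Measurable fun z : PY n × PX n => z.1.1 j j := (meas_ent j j).comp measurable_fst
  have h3 : Measurable fun z : PY n × PX n => z.2.1 ⬝ᵥ z.2.2 := meas_dot.comp measurable_snd
  have h4 : Measurable fun z : PY n × PX n => z.1.2 i := by fun_prop
  exact ((((h1.add h2).const_mul _).div_const _).add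
    (((h3.const_mul _).mul (h1.sub h2)).div_const _)).add
    (h4.mul ((h3.const_mul _).const_add _).sqrt)

lemma meas_YX {ω : Measure (Fin n → ℝ)} (h : OnS n ω) {F : ℝ → ℝ≥0∞} (hF : Measurable F) :
    Measurable (YX n ω F) := by
  have := h.prob
  exact Measurable.lintegral_prod_right' (f := fun z : PY n × PX n =>
    F (z.2.1 ⬝ᵥ z.2.2) * ENNReal.ofReal (exp (Ex n z.1 z.2)))
    ((hF.comp (meas_dot.comp measurable_snd)).mul meas_Ex.exp.ennreal_ofReal)

lemma meas_YR (i j : Fin n) {ω : Measure (Fin n → ℝ)} (h : OnS n ω) {F : ℝ → ℝ≥0∞}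
    (hF : Measurable F) : Measurable (YR n i j ω F) := by
  have := h.prob
  exact Measurable.lintegral_prod_right' (f := fun z : PY n × PX n =>
    F (z.2.1 ⬝ᵥ z.2.2) * ENNReal.ofReal (exp (Ey n i j z.1 (z.2.1 ⬝ᵥ z.2.2))))
    ((hF.comp (meas_dot.comp measurable_snd)).mul (meas_Ey i j).exp.ennreal_ofReal)

/-- **the two-replica identity with a field** -/
lemma swapY (hR : RotYStmt) {i j : Fin n} (hij : i ≠ j) {T : ℝ} (hT : 0 ≤ T) {G : PY n → ℝ≥0∞}
    (hG : Measurable G)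
    (hinv : ∀ (W O : Mat n) (y : Fin n → ℝ), Oᵀ * O = 1 → G (O * W * Oᵀ, O *ᵥ y) = G (W, y))
    {ω : Measure (Fin n → ℝ)} (h : OnS n ω) {F : ℝ → ℝ≥0∞} (hF : Measurable F) :
    ∫⁻ p, G p * YX n ω F p ∂(GOE n).prod (gK (Fin n) T) =
      ∫⁻ p, G p * YR n i j ω F p ∂(GOE n).prod (gK (Fin n) T) := by
  have := h.prob
  have key : ∀ {E : PY n × PX n → ℝ}, Measurable E →
      ∫⁻ p, G p * ∫⁻ q, F (q.1 ⬝ᵥ q.2) * ENNReal.ofReal (exp (E (p, q))) ∂ω.prod ω
        ∂(GOE n).prod (gK (Fin n) T) =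
      ∫⁻ q, F (q.1 ⬝ᵥ q.2) * ∫⁻ p, G p * ENNReal.ofReal (exp (E (p, q)))
        ∂(GOE n).prod (gK (Fin n) T) ∂ω.prod ω := by
    intro E hE
    have e : ∀ p, G p * ∫⁻ q, F (q.1 ⬝ᵥ q.2) * ENNReal.ofReal (exp (E (p, q))) ∂ω.prod ω =
        ∫⁻ q, F (q.1 ⬝ᵥ q.2) * (G p * ENNReal.ofReal (exp (E (p, q)))) ∂ω.prod ω := fun p => by
      have hm : Measurable fun q : PX n =>
          F (q.1 ⬝ᵥ q.2) * ENNReal.ofReal (exp (E (p, q))) := (hF.comp meas_dot).mul
        (hE.comp (measurable_const.prodMk measurable_id)).exp.ennreal_ofReal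
      rw [← lintegral_const_mul _ hm]
      exact lintegral_congr fun q => mul_left_comm _ _ _
    simp only [e]
    rw [lintegral_lintegral_swap]
    · refine lintegral_congr fun q => lintegral_const_mul _ ?_
      exact hG.mul (hE.comp (measurable_id.prodMk measurable_const)).exp.ennreal_ofReal
    · exact ((hF.comp (meas_dot.comp measurable_snd)).mul
        ((hG.comp measurable_fst).mul hE.exp.ennreal_ofReal)).aemeasurable
  refine (key meas_Ex).trans (Eq.trans ?_ (key (meas_Ey i j)).symm)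
  refine lintegral_congr_ae ((h.ae_pair h).mono fun q hq => ?_)
  simp only
  rw [show (∫⁻ p, G p * ENNReal.ofReal (exp (Ex n p q)) ∂(GOE n).prod (gK (Fin n) T)) = _ from
    hR n i j hij T hT G hG hinv q.1 q.2 hq.1 hq.2]
  rfl

lemma cont_Zi (p : PY n) : Continuous fun x => Hh n p.1 x + p.2 ⬝ᵥ x :=
  (cont_Hh p.1).add (by fun_prop)

lemma Zy_pos {ω : Measure (Fin n → ℝ)} (h : OnS n ω) (p : PY n) : 0 < Zy n ω p := by
  have := h.prob
  exact integral_exp_pos (integrable_sph (sx_nonneg n) h.nrm (cont_Zi p).rexp)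

lemma meas_Zy {ω : Measure (Fin n → ℝ)} (h : OnS n ω) : Measurable (Zy n ω) := by
  have := h.prob
  refine (StronglyMeasurable.integral_prod_right (f := fun (p : PY n) (x : Fin n → ℝ) =>
    exp (Hh n p.1 x + p.2 ⬝ᵥ x)) (Measurable.stronglyMeasurable ?_)).measurable
  exact ((meas_Hh (measurable_fst.comp measurable_fst) measurable_snd).add (by fun_prop)).exp

lemma YX_one {ω : Measure (Fin n → ℝ)} (h : OnS n ω) (p : PY n) :
    YX n ω (fun _ => 1) p = ENNReal.ofReal (Zy n ω p ^ 2) := by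
  have hc : Continuous (Ex n p) :=
    (((cont_Hh p.1).comp continuous_fst).add ((cont_Hh p.1).comp continuous_snd)).add (by fun_prop)
  simp only [YX, one_mul]
  rw [← h.ofReal_pair h hc, sq, Zy, ← integral_mul_const]
  congr 1
  refine integral_congr_ae (ae_of_all _ fun x => ?_)
  simp only
  rw [← integral_const_mul]
  refine integral_congr_ae (ae_of_all _ fun x' => ?_)
  simp only [Ex, dotProduct_add, ← exp_add]
  congr 1; ring

lemma Mf_tilt {μ ω : Measure (Fin n → ℝ)} {W : Mat n} {Z : ℝ} (h : Tilt μ ω (Hh n W) Z)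
    (ho : OnS n ω) (T : ℝ) (y : Fin n → ℝ) :
    Mf T μ y = exp (-(T * sx n ^ 2 / 2)) * Zy n ω (W, y) / Z := by
  rw [Mf, h, Zy, ← integral_const_mul, ← integral_div]
  refine integral_congr_ae (ho.nrm.mono fun x hx => ?_)
  simp only [ew, hx]
  rw [div_mul_eq_mul_div, ← exp_add, ← exp_add]
  congr 2; ring

lemma Hh_rot {O : Mat n} (hO : Oᵀ * O = 1) (W : Mat n) (x : Fin n → ℝ) :
    Hh n (O * W * Oᵀ) (O *ᵥ x) = Hh n W x := by
  rw [Hh, Hh, mulVec_mulVec, Matrix.mul_assoc, hO, Matrix.mul_one, ← mulVec_mulVec,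
    dotProduct_mulVec, ← mulVec_transpose, mulVec_mulVec, hO, one_mulVec]

lemma dot_rot {O : Mat n} (hO : Oᵀ * O = 1) (y x : Fin n → ℝ) : (O *ᵥ y) ⬝ᵥ (O *ᵥ x) = y ⬝ᵥ x := by
  rw [dotProduct_mulVec, ← mulVec_transpose, mulVec_mulVec, hO, one_mulVec]

lemma Zy_rot (hS : SphStmt) (hn : 1 ≤ n) {O : Mat n} (hO : Oᵀ * O = 1) (W : Mat n)
    (y : Fin n → ℝ) :
    Zy n (sphR (Fin n) (sx n)) (O * W * Oᵀ, O *ᵥ y) = Zy n (sphR (Fin n) (sx n)) (W, y) := by
  have : Nonempty (Fin n) := ⟨⟨0, hn⟩⟩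
  rw [Zy, Zy]
  conv_lhs => rw [← ((hS (Fin n)).1 (sx n)).2.2.2 O hO]
  rw [integral_map (by fun_prop) (cont_Zi _).rexp.aestronglyMeasurable]
  simp only [Hh_rot hO, dot_rot hO]

lemma Zs_le (hS : SphStmt) (hn : 1 ≤ n) (p : PY n) : Zs n p.1 ≤ Zy n (sphR (Fin n) (sx n)) p := by
  have os := onS_oms hS hn
  have := os.prob
  have h1 := Zy_rot hS hn (O := -1) (by simp) p.1 p.2
  simp only [transpose_neg, transpose_one, Matrix.neg_mul, Matrix.mul_neg, Matrix.one_mul,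
    Matrix.mul_one, neg_neg, neg_mulVec, one_mulVec] at h1
  have i1 := integrable_sph (sx_nonneg n) os.nrm (cont_Zi p).rexp
  have i2 := integrable_sph (sx_nonneg n) os.nrm (cont_Zi (p.1, -p.2)).rexp
  have i0 := integrable_sph (sx_nonneg n) os.nrm (cont_Hh p.1).rexp
  have h2 := integral_mono (i0.const_mul 2) (i1.add i2) fun x => by
    simp only [Pi.add_apply, neg_dotProduct, exp_add]
    nlinarith [add_one_le_exp (p.2 ⬝ᵥ x), add_one_le_exp (-(p.2 ⬝ᵥ x)), exp_pos (Hh n p.1 x)]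
  simp only [Pi.add_apply] at h2
  rw [integral_const_mul, integral_add i1 i2] at h2
  change 2 * Zs n p.1 ≤ Zy n _ p + Zy n _ (p.1, -p.2) at h2
  rw [h1] at h2
  linarith

lemma onS_nu (hS : SphStmt) (hK : LnkStmt) (hn : 1 ≤ n) (W : Mat n) : OnS n (nuW n W) :=
  ⟨(cp_nu hK hn W).prob, (tilted_absolutelyContinuous _ _).ae_le (onS_oms hS hn).nrm⟩

lemma lint_Mf {μ : Measure (Fin n → ℝ)} (h : Cp μ) {T : ℝ} (hT : 0 ≤ T) :
    ∫⁻ y, ENNReal.ofReal (Mf T μ y) ∂gK (Fin n) T = 1 := by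
  rw [gK, lintegral_map (A87.measurable_Mf h).ennreal_ofReal (by fun_prop),
    ← ofReal_integral_eq_lintegral_ofReal (A87.intK (A87.mg_Mf h hT) T)
      (ae_of_all _ fun _ => (A87.Mf_pos h hT _).le)]
  exact (congrArg ENNReal.ofReal (A87.IK_Mf h hT)).trans ENNReal.ofReal_one

lemma one_le_Chi {μ ν : Measure (Fin n → ℝ)} (h : Cp μ) (h' : Cp ν) {T : ℝ} (hT : 0 ≤ T) :
    1 ≤ Chi T μ ν := by
  have m1 := (A87.measurable_Mf (K := T) h).ennreal_ofReal
  have m2 := (A87.measurable_Mf (K := T) h').ennreal_ofReal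
  have h1 : (1 : ℝ≥0∞) + 1 ≤ Chi T μ ν + 1 := by
    conv_lhs => rw [← lint_Mf h hT]
    conv_rhs => rw [← lint_Mf h' hT]
    rw [Chi, ← lintegral_add_left m1, ← lintegral_add_right _ m2]
    refine lintegral_mono fun y => ?_
    have a := A87.Mf_pos h hT y
    have b := A87.Mf_pos h' hT y
    simp only
    rw [← ENNReal.ofReal_add a.le a.le, ← ENNReal.ofReal_add (by positivity) b.le]
    refine ENNReal.ofReal_le_ofReal ?_
    rw [div_add' _ _ _ b.ne', le_div_iff₀ b]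
    nlinarith [sq_nonneg (Mf T μ y - Mf T ν y)]
  exact (ENNReal.add_le_add_iff_right ENNReal.one_ne_top).1 h1

/-- the weight -/
def G1 (n : ℕ) (T : ℝ) (p : PY n) : ℝ≥0∞ := ENNReal.ofReal
  (exp (-(T * sx n ^ 2 / 2)) / (Zs n p.1 * Zy n (sphR (Fin n) (sx n)) p))

section lnk
variable (hS : SphStmt) (hK : LnkStmt) (hn : 1 ≤ n)
include hS hK hn

lemma meas_G1 (T : ℝ) : Measurable (G1 n T) :=
  (measurable_const.div (((cont_Zs hK hn).measurable.comp measurable_fst).mul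
    (meas_Zy (onS_oms hS hn)))).ennreal_ofReal

lemma G1_rot (T : ℝ) (W O : Mat n) (y : Fin n → ℝ) (hO : Oᵀ * O = 1) :
    G1 n T (O * W * Oᵀ, O *ᵥ y) = G1 n T (W, y) := by
  simp only [G1, Zy_rot hS hn hO, ((hK n hn).2.2.2.2.1 W O hO).2]

lemma G1_le (T : ℝ) (p : PY n) :
    G1 n T p ≤ ENNReal.ofReal (exp (-(T * sx n ^ 2 / 2)) * (Zs n p.1 ^ 2)⁻¹) := by
  have := Zs_pos hK hn p.1
  refine ENNReal.ofReal_le_ofReal ?_
  rw [← div_eq_mul_inv, sq (Zs n p.1)]
  exact div_le_div_of_nonneg_left (exp_pos _).le (by positivity)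
    (mul_le_mul_of_nonneg_left (Zs_le hS hn p) this.le)

lemma G1_cube (T : ℝ) (W : Mat n) :
    ∫⁻ y, G1 n T (W, y) * YX n (omc n) (fun _ => 1) (W, y) ∂gK (Fin n) T =
      ENNReal.ofReal (rr n W ^ 2) * Chi T (muW n W) (nuW n W) := by
  rw [Chi, ← lintegral_const_mul' _ _ ENNReal.ofReal_ne_top]
  refine lintegral_congr fun y => ?_
  have h1 := Zs_pos hK hn W
  have h2 := Zc_pos hK hn W
  have h3 := Zy_pos (onS_oms hS hn) (W, y)
  rw [YX_one (onS_omc hn), G1, ← ENNReal.ofReal_mul (by positivity),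
    ← ENNReal.ofReal_mul (sq_nonneg _), Mf_tilt (tilt_c hn W) (onS_omc hn),
    Mf_tilt (tilt_s W) (onS_oms hS hn), rr]
  congr 1
  field_simp

lemma G1_one {T : ℝ} (hT : 0 ≤ T) (W : Mat n) :
    ∫⁻ y, G1 n T (W, y) * YX n (sphR (Fin n) (sx n)) (fun _ => 1) (W, y) ∂gK (Fin n) T = 1 := by
  refine Eq.trans (lintegral_congr fun y => ?_) (lint_Mf (cp_nu hK hn W) hT)
  have h1 := Zs_pos hK hn W
  have h3 := Zy_pos (onS_oms hS hn) (W, y)
  rw [YX_one (onS_oms hS hn), G1, ← ENNReal.ofReal_mul (by positivity),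
    Mf_tilt (tilt_s W) (onS_oms hS hn)]
  congr 1
  field_simp

lemma G1_sph (T : ℝ) (W : Mat n) (y : Fin n → ℝ) {F : ℝ → ℝ≥0∞} (hF : Measurable F) :
    G1 n T (W, y) * YX n (sphR (Fin n) (sx n)) F (W, y) =
      (∫⁻ q, F (q.1 ⬝ᵥ q.2) * ENNReal.ofReal (ew T y q.1 * ew T y q.2)
        ∂(nuW n W).prod (nuW n W)) / ENNReal.ofReal (Mf T (nuW n W) y) := by
  have os := onS_oms hS hn
  have := os.prob
  have h1 := Zs_pos hK hn W
  have h3 := Zy_pos os (W, y)
  have md : Measurable fun x => ENNReal.ofReal (exp (Hh n W x) / Zs n W) :=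
    ((cont_Hh W).measurable.exp.div_const _).ennreal_ofReal
  have e : nuW n W = (sphR (Fin n) (sx n)).withDensity
    fun x => ENNReal.ofReal (exp (Hh n W x) / Zs n W) := rfl
  have me : Measurable fun q : PX n => F (q.1 ⬝ᵥ q.2) * ENNReal.ofReal (ew T y q.1 * ew T y q.2) :=
    (hF.comp meas_dot).mul ((A87.measurable_ew T measurable_const measurable_fst).mul
      (A87.measurable_ew T measurable_const measurable_snd)).ennreal_ofReal
  have md2 : Measurable fun z : PX n => ENNReal.ofReal (exp (Hh n W z.1) / Zs n W) *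
      ENNReal.ofReal (exp (Hh n W z.2) / Zs n W) :=
    (md.comp measurable_fst).mul (md.comp measurable_snd)
  rw [Mf_tilt (tilt_s W) os]
  conv_rhs => rw [e, prod_withDensity md md, lintegral_withDensity_eq_lintegral_mul _ md2 me]
  rw [ENNReal.eq_div_iff (ENNReal.ofReal_pos.2 (by positivity)).ne' ENNReal.ofReal_ne_top,
    ← mul_assoc, YX, G1, ← lintegral_const_mul' _ _
      (ENNReal.mul_ne_top ENNReal.ofReal_ne_top ENNReal.ofReal_ne_top)]
  refine lintegral_congr_ae ((os.ae_pair os).mono fun q hq => ?_)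
  simp only [Pi.mul_apply]
  rw [mul_left_comm, mul_left_comm _ (F _), ← ENNReal.ofReal_mul (by positivity),
    ← ENNReal.ofReal_mul (by positivity), ← ENNReal.ofReal_mul (by positivity),
    ← ENNReal.ofReal_mul (by positivity)]
  congr 2
  simp only [ew, Ex, hq.1, hq.2, dotProduct_add, exp_add, exp_sub, Real.exp_neg]
  rw [show T / 2 * sx n ^ 2 = T * sx n ^ 2 / 2 by ring]
  field_simp

lemma G1_exp (hP : PlStmt) {T B κ : ℝ} (hT : 0 ≤ T) (hB : 1 ≤ B) {W : Mat n} (hW : W ∈ GS n B κ)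
    (u : ℝ) : ∫⁻ y, G1 n T (W, y) *
      YX n (sphR (Fin n) (sx n)) (fun R => ENNReal.ofReal (exp (u * R))) (W, y) ∂gK (Fin n) T ≤
      ENNReal.ofReal (B * exp (B * |2 * u + T| ^ (3 / 2 : ℝ) / 2)) := by
  have mF : Measurable fun R : ℝ => ENNReal.ofReal (exp (u * R)) := by fun_prop
  simp only [G1_sph hS hK hn T W _ mF]
  refine (hP _ _ (cp_nu hK hn W) T hT _ (mF.comp meas_dot)).trans ?_
  have on := onS_nu hS hK hn W
  have e : ∀ q : PX n, ENNReal.ofReal (exp (u * (q.1 ⬝ᵥ q.2))) ^ 2 *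
      ENNReal.ofReal (exp (T * (q.1 ⬝ᵥ q.2))) =
      ENNReal.ofReal (exp ((2 * u + T) * (q.1 ⬝ᵥ q.2))) := fun q => by
    rw [← ENNReal.ofReal_pow (exp_pos _).le, ← ENNReal.ofReal_mul (by positivity), ← exp_nat_mul,
      ← exp_add]
    congr 2; push_cast; ring
  simp only [Function.comp_apply, e]
  rw [← on.ofReal_pair on (F := fun q => (2 * u + T) * (q.1 ⬝ᵥ q.2)) (by fun_prop)]
  refine (ENNReal.rpow_le_rpow (ENNReal.ofReal_le_ofReal ((hW.1 (2 * u + T)).trans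
    (c := (B * exp (B * |2 * u + T| ^ (3 / 2 : ℝ) / 2)) ^ 2) ?_)) (by norm_num)).trans_eq ?_
  · rw [mul_pow, ← exp_nat_mul, show ((2 : ℕ) : ℝ) * (B * |2 * u + T| ^ (3 / 2 : ℝ) / 2) =
      B * |2 * u + T| ^ (3 / 2 : ℝ) by push_cast; ring]
    exact mul_le_mul_of_nonneg_right (by nlinarith) (exp_pos _).le
  · rw [ENNReal.ofReal_rpow_of_nonneg (by positivity) (by norm_num), ← sqrt_eq_rpow,
      sqrt_sq (by positivity)]

end lnk

end Crest.Agent.T157.Sp.Ch87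

end
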