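import Crest.Agent.T157.SpChiA_87

/-!
# Row 157, cube versus sphere after the channel, file B (helper87): the pieces
-/

set_option autoImplicit false

noncomputable section

namespace Crest.Agent.T157.Sp.Ch87

open MeasureTheory ProbabilityTheory Matrix Filter Topology Finset Real
open scoped ENNReal
open Crest.Agent.T157.E Crest.Agent.T157.Cond Crest.Agent.T157.Ed Crest.Agent.T157.St
open Crest.Agent.T157.St.Cl28

variable {n : ℕ}

lemma sqrt_facts {t R : ℝ} (ht : 0 < t) (hR : |R| ≤ t) :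
    √(2 * t + 2 * R) ≤ √(2 * t) + √(2 * t) / (2 * t) * R ∧
    √(2 * t) + √(2 * t) / (2 * t) * R ≤ √(2 * t + 2 * R) + √(2 * t) * (R ^ 2 / (2 * t ^ 2)) ∧
    √(2 * t + 2 * R) ≤ 3 / 2 * √(2 * t) := by
  obtain ⟨h1, h2⟩ := abs_le.1 hR
  have hc : 0 < √(2 * t) := sqrt_pos.2 (by linarith)
  have hu := sqrt_nonneg (2 * t + 2 * R)
  have ec := sq_sqrt (show 0 ≤ 2 * t by linarith)
  have eu := sq_sqrt (show 0 ≤ 2 * t + 2 * R by linarith)
  generalize √(2 * t) = c at *
  generalize √(2 * t + 2 * R) = u at *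
  obtain rfl : t = c ^ 2 / 2 := by linarith
  obtain rfl : R = (u ^ 2 - c ^ 2) / 2 := by linarith
  have e1 : c + c / (2 * (c ^ 2 / 2)) * ((u ^ 2 - c ^ 2) / 2) = u + (u - c) ^ 2 / (2 * c) := by
    field_simp; ring
  have e2 : c * (((u ^ 2 - c ^ 2) / 2) ^ 2 / (2 * (c ^ 2 / 2) ^ 2)) =
      (u - c) ^ 2 / (2 * c) * ((u + c) / c) ^ 2 := by field_simp; ring
  have h3 : 0 ≤ (u - c) ^ 2 / (2 * c) := by positivity
  rw [e1, e2]
  refine ⟨by linarith, add_le_add le_rfl (le_mul_of_one_le_right h3 (one_le_pow₀ ?_)), ?_⟩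
  · rw [le_div_iff₀ hc]; linarith
  · exact abs_le_of_sq_le_sq' (by nlinarith) (by positivity) |>.2

lemma abs_dot_le {t : ℝ} {x x' : Fin n → ℝ} (h : x ⬝ᵥ x = t) (h' : x' ⬝ᵥ x' = t) :
    |x ⬝ᵥ x'| ≤ t := by
  have h1 := Cond.dot_self_nonneg (x + x')
  have h2 := Cond.dot_self_nonneg (x - x')
  simp only [add_dotProduct, dotProduct_add, sub_dotProduct, dotProduct_sub, h, h',
    dotProduct_comm x' x] at h1 h2
  rw [abs_le]; constructor <;> linarith

lemma lint_Xk {ω : Measure (Fin n → ℝ)} (h : OnS n ω) (c : ℝ≥0∞) (v : ℝ) :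
    ∫⁻ q, c * ENNReal.ofReal (exp (v * (q.1 ⬝ᵥ q.2))) ∂ω.prod ω = c * ENNReal.ofReal (Xk v ω ω) := by
  rw [lintegral_const_mul _ (by fun_prop),
    ← h.ofReal_pair h (F := fun q => v * (q.1 ⬝ᵥ q.2)) (by fun_prop)]
  rfl

/-- the rescaled field -/
def bb (n : ℕ) (i : Fin n) (p : PY n) : ℝ := p.2 i * √(2 * sx n ^ 2)
/-- the weight on the good set -/
def GG (n : ℕ) (B κ T : ℝ) : PY n → ℝ≥0∞ := {p : PY n | p.1 ∈ GS n B κ}.indicator (G1 n T)
/-- the weight without field -/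
def G0 (n : ℕ) (B κ : ℝ) : Mat n → ℝ≥0∞ :=
  (GS n B κ).indicator fun W => ENNReal.ofReal ((Zs n W ^ 2)⁻¹)
/-- the effective overlap parameter -/
def vv (n : ℕ) (i j : Fin n) (p : PY n) : ℝ :=
  tau n * (p.1 i i - p.1 j j) / 2 + bb n i p / (2 * sx n ^ 2)
/-- typical fields -/
def AA (n : ℕ) (i : Fin n) (T : ℝ) : Set (PY n) :=
  {p | 0 ≤ bb n i p ∧ bb n i p ≤ 6 * (sx n ^ 2 * T)}
/-- the density of the reduced measure -/
def wt (n : ℕ) (i j : Fin n) (B κ T : ℝ) : PY n → ℝ≥0∞ := (AA n i T).indicator fun p =>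
  GG n B κ T p * ENNReal.ofReal (exp (n * (p.1 i i + p.1 j j) / 2 + bb n i p))

lemma meas_bb (i : Fin n) : Measurable (bb n i) := by unfold bb; fun_prop

lemma meas_vv (i j : Fin n) : Measurable (vv n i j) :=
  ((((meas_ent i i).sub (meas_ent j j)).const_mul _).div_const _).add ((meas_bb i).div_const _)

lemma lint_bb (i : Fin n) {T : ℝ} (hT : 0 ≤ T) :
    ∫⁻ y, (1 + ENNReal.ofReal (exp (3 * (y i * √(2 * sx n ^ 2)) - 9 * (sx n ^ 2 * T))))
      ∂gK (Fin n) T = 2 := by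
  rw [lintegral_add_left measurable_const, lintegral_const, measure_univ, mul_one, gK,
    lintegral_map (by fun_prop) (by fun_prop)]
  have e : ∀ z : Fin n → ℝ, ENNReal.ofReal
      (exp (3 * ((√T • z) i * √(2 * sx n ^ 2)) - 9 * (sx n ^ 2 * T))) =
      ENNReal.ofReal (exp (-(9 * (sx n ^ 2 * T)))) * ENNReal.ofReal
        (exp ((Pi.single i (3 * √T * √(2 * sx n ^ 2)) : Fin n → ℝ) ⬝ᵥ z)) := fun z => by
    rw [← ENNReal.ofReal_mul (exp_pos _).le, ← exp_add, single_dotProduct]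
    simp only [Pi.smul_apply, smul_eq_mul]
    congr 2; ring
  simp only [e]
  rw [lintegral_const_mul _ (by fun_prop), lint_exp_dot, ← ENNReal.ofReal_mul (exp_pos _).le,
    ← exp_add, single_dotProduct, Pi.single_eq_same]
  have h1 := sq_sqrt hT
  have h2 := sq_sqrt (show 0 ≤ 2 * sx n ^ 2 by positivity)
  rw [show -(9 * (sx n ^ 2 * T)) + 3 * √T * √(2 * sx n ^ 2) * (3 * √T * √(2 * sx n ^ 2)) / 2 =
    -(9 * (sx n ^ 2 * T)) + 9 * √T ^ 2 * √(2 * sx n ^ 2) ^ 2 / 2 by ring, h1, h2,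
    show -(9 * (sx n ^ 2 * T)) + 9 * T * (2 * sx n ^ 2) / 2 = 0 by ring, exp_zero,
    ENNReal.ofReal_one, one_add_one_eq_two]

lemma YX_lin {ω : Measure (Fin n → ℝ)} (a₀ a₁ : ℝ≥0∞) {F₁ F₂ : ℝ → ℝ≥0∞} (h₁ : Measurable F₁)
    (h₂ : Measurable F₂) (p : PY n) : YX n ω (fun R => a₀ + a₁ * (F₁ R + F₂ R)) p =
      a₀ * YX n ω (fun _ => 1) p + a₁ * (YX n ω F₁ p + YX n ω F₂ p) := by
  have mE : Measurable fun q : PX n => ENNReal.ofReal (exp (Ex n p q)) :=
    (meas_Ex.comp (measurable_const.prodMk measurable_id)).exp.ennreal_ofReal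
  have m1 : Measurable fun q : PX n => F₁ (q.1 ⬝ᵥ q.2) * ENNReal.ofReal (exp (Ex n p q)) :=
    (h₁.comp meas_dot).mul mE
  have m2 : Measurable fun q : PX n => F₂ (q.1 ⬝ᵥ q.2) * ENNReal.ofReal (exp (Ex n p q)) :=
    (h₂.comp meas_dot).mul mE
  simp only [YX, one_mul]
  rw [← lintegral_add_left m1, ← lintegral_const_mul _ mE, ← lintegral_const_mul _ (m1.fun_add m2),
    ← lintegral_add_left (mE.const_mul _)]
  exact lintegral_congr fun q => by ring

section lnk
variable (hS : SphStmt) (hK : LnkStmt) (hn : 1 ≤ n) {i j : Fin n} {B κ T : ℝ}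
include hS hK hn

lemma meas_GG (B κ T : ℝ) : Measurable (GG n B κ T) :=
  (meas_G1 hS hK hn T).indicator (measurable_fst (meas_GS hK hn B κ))

lemma meas_wt (i j : Fin n) (B κ T : ℝ) : Measurable (wt n i j B κ T) :=
  ((meas_GG hS hK hn B κ T).mul (((((meas_ent i i).add (meas_ent j j)).const_mul _).div_const
    _).add (meas_bb i)).exp.ennreal_ofReal).indicator
    ((measurableSet_le measurable_const (meas_bb i)).inter
      (measurableSet_le (meas_bb i) measurable_const))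

lemma GG_rot (W O : Mat n) (y : Fin n → ℝ) (hO : Oᵀ * O = 1) :
    GG n B κ T (O * W * Oᵀ, O *ᵥ y) = GG n B κ T (W, y) := by
  classical
  simp only [GG, Set.indicator_apply, Set.mem_ofPred_eq, GS_inv hK hn B κ W O hO,
    G1_rot hS hK hn T W O y hO]

lemma GG_le (p : PY n) :
    GG n B κ T p ≤ ENNReal.ofReal (exp (-(T * sx n ^ 2 / 2))) * G0 n B κ p.1 := by
  by_cases h : p.1 ∈ GS n B κ
  · rw [GG, G0, Set.indicator_of_mem h, Set.indicator_of_mem (by exact h),
      ← ENNReal.ofReal_mul (exp_pos _).le]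
    exact G1_le hS hK hn T p
  · rw [GG, Set.indicator_of_notMem (by exact h)]; exact zero_le

/-- integration of the field first -/
lemma lint_GG {Y : PY n → ℝ≥0∞} (hY : Measurable Y) :
    ∫⁻ p, GG n B κ T p * Y p ∂(GOE n).prod (gK (Fin n) T) =
      ∫⁻ W in GS n B κ, ∫⁻ y, G1 n T (W, y) * Y (W, y) ∂gK (Fin n) T ∂GOE n := by
  rw [lintegral_prod _ ((meas_GG hS hK hn B κ T).fun_mul hY).aemeasurable,
    ← lintegral_indicator (meas_GS hK hn B κ)]
  refine lintegral_congr fun W => ?_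
  by_cases h : W ∈ GS n B κ
  · rw [Set.indicator_of_mem h]
    refine lintegral_congr fun y => ?_
    rw [GG, Set.indicator_of_mem (by exact h)]
  · rw [Set.indicator_of_notMem h]
    refine (lintegral_congr fun y => ?_).trans lintegral_zero
    rw [GG, Set.indicator_of_notMem (by exact h), zero_mul]

lemma cube_pt (p : PY n) : GG n B κ T p * YR n i j (omc n) (fun _ => 1) p ≤
    wt n i j B κ T p * ENNReal.ofReal (cosh (vv n i j p / tau n) ^ n) +
      ENNReal.ofReal (exp (-(T * sx n ^ 2 / 2))) * (G0 n B κ p.1 *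
        ENNReal.ofReal (exp (n * (p.1 i i + p.1 j j) / 2)) *
        ENNReal.ofReal (Xk (tau n * (p.1 i i - p.1 j j) / 2 + 0) (omc n) (omc n))) *
        (1 + ENNReal.ofReal (exp (3 * bb n i p - 9 * (sx n ^ 2 * T)))) := by
  have oc := onS_omc hn
  have ht : 0 < sx n ^ 2 := pow_pos (sx_pos hn) 2
  have hc : 0 < √(2 * sx n ^ 2) := sqrt_pos.2 (by linarith)
  by_cases hA : p ∈ AA n i T
  · refine le_add_right ?_
    rw [wt, Set.indicator_of_mem hA, mul_assoc, ← Xk_cc hn, ← lint_Xk oc]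
    refine mul_le_mul_right (lintegral_mono_ae ((oc.ae_pair oc).mono fun q hq => ?_)) _
    rw [one_mul, ← ENNReal.ofReal_mul (exp_pos _).le, ← exp_add]
    refine ENNReal.ofReal_le_ofReal (exp_le_exp.2 ?_)
    have hz : 0 ≤ p.2 i := nonneg_of_mul_nonneg_left hA.1 hc
    have h1 := mul_le_mul_of_nonneg_left (sqrt_facts ht (abs_dot_le hq.1 hq.2)).1 hz
    simp only [Ey, vv, bb]
    refine (add_le_add le_rfl h1).trans (le_of_eq ?_)
    ring
  · refine le_add_left ?_
    rw [← mul_assoc, ← mul_assoc, mul_assoc, mul_assoc]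
    refine mul_le_mul' (GG_le hS hK hn p) ?_
    rw [mul_comm (ENNReal.ofReal (Xk _ _ _)), ← mul_assoc, ← lint_Xk oc]
    refine lintegral_mono_ae ((oc.ae_pair oc).mono fun q hq => ?_)
    rw [one_mul, ← ENNReal.ofReal_one, ← ENNReal.ofReal_add zero_le_one (exp_pos _).le,
      ← ENNReal.ofReal_mul (exp_pos _).le, ← ENNReal.ofReal_mul (by positivity), mul_right_comm,
      ← exp_add]
    refine ENNReal.ofReal_le_ofReal ?_
    rw [Ey, exp_add]
    refine mul_le_mul (le_of_eq (by congr 1; ring)) ?_ (exp_pos _).le (exp_pos _).le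
    by_cases hz : 0 ≤ p.2 i
    · refine le_add_of_nonneg_of_le zero_le_one (exp_le_exp.2 ?_)
      have h1 := mul_le_mul_of_nonneg_left (sqrt_facts ht (abs_dot_le hq.1 hq.2)).2.2 hz
      have h2 : 6 * (sx n ^ 2 * T) < bb n i p :=
        not_le.1 fun h => hA ⟨mul_nonneg hz hc.le, h⟩
      simp only [bb] at h2 ⊢
      linarith
    · exact le_add_of_le_of_nonneg (exp_le_one_iff.2
        (mul_nonpos_of_nonpos_of_nonneg (not_le.1 hz).le (sqrt_nonneg _))) (exp_pos _).le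

omit hS in
lemma G0_facts (B κ : ℝ) : Measurable (G0 n B κ) ∧
    (∀ W O : Mat n, Oᵀ * O = 1 → G0 n B κ (O * W * Oᵀ) = G0 n B κ W) ∧
    ∀ y : Mat n → ℝ, ∫⁻ W, G0 n B κ W * ENNReal.ofReal (y W) ∂GOE n =
      ∫⁻ W in GS n B κ, ENNReal.ofReal ((Zs n W ^ 2)⁻¹ * y W) ∂GOE n := by
  have mS := meas_GS hK hn B κ
  refine ⟨(((cont_Zs hK hn).measurable.pow_const 2).inv.ennreal_ofReal).indicator mS,
    fun W O hO => ?_, fun y => ?_⟩
  · classical
    simp only [G0, Set.indicator_apply, GS_inv hK hn B κ W O hO, ((hK n hn).2.2.2.2.1 W O hO).2]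
  · rw [← lintegral_indicator mS]
    refine lintegral_congr fun W => ?_
    by_cases hW : W ∈ GS n B κ
    · simp only [G0, Set.indicator_of_mem hW]
      rw [ENNReal.ofReal_mul (by positivity)]
    · simp only [G0, Set.indicator_of_notMem hW, zero_mul]

lemma lint_rr (hR : RotStmt) (hij : i ≠ j) :
    ∫⁻ W in GS n B κ, ENNReal.ofReal (rr n W) ∂GOE n = GOE n (GS n B κ) := by
  obtain ⟨mG, hinv, hGy⟩ := G0_facts hK hn B κ
  have oc := onS_omc hn
  have os := onS_oms hS hn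
  have h1 := swap hR hij mG hinv os os 0
  have h2 := swap hR hij mG hinv oc os 0
  simp only [Xk_s hS hn i os, Xk_s hS hn i oc] at h1 h2
  rw [← h2, hGy, hGy] at h1
  refine Eq.trans (lintegral_congr fun W => ?_) (h1.symm.trans
    ((lintegral_congr fun W => ?_).trans (setLIntegral_one _)))
  · have := (Zs_pos hK hn W).ne'
    rw [YY_eq (tilt_c hn W) (tilt_s W) (Zc_pos hK hn W).ne' this,
      Xk_zero (cp_mu hK hn W) (cp_nu hK hn W), rr]
    congr 1; field_simp
  · have := (Zs_pos hK hn W).ne'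
    rw [YY_eq (tilt_s W) (tilt_s W) this this, Xk_zero (cp_nu hK hn W) (cp_nu hK hn W),
      ← ENNReal.ofReal_one]
    congr 1; field_simp

omit hS in
lemma cube_off (hR : RotStmt) (hij : i ≠ j) (hT : 0 ≤ T) :
    ∫⁻ p, ENNReal.ofReal (exp (-(T * sx n ^ 2 / 2))) * (G0 n B κ p.1 *
        ENNReal.ofReal (exp (n * (p.1 i i + p.1 j j) / 2)) *
        ENNReal.ofReal (Xk (tau n * (p.1 i i - p.1 j j) / 2 + 0) (omc n) (omc n))) *
        (1 + ENNReal.ofReal (exp (3 * bb n i p - 9 * (sx n ^ 2 * T))))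
        ∂(GOE n).prod (gK (Fin n) T) = ENNReal.ofReal (exp (-(T * sx n ^ 2 / 2))) *
      (∫⁻ W in GS n B κ, ENNReal.ofReal (rr n W ^ 2) ∂GOE n) * 2 := by
  obtain ⟨mG, hinv, hGy⟩ := G0_facts hK hn B κ
  have oc := onS_omc hn
  have hii := (measurable_id (α := Mat n)).t157_entry i i
  have hjj := (measurable_id (α := Mat n)).t157_entry j j
  have h3 : Measurable fun W : Mat n => W i i := hii
  have h4 : Measurable fun W : Mat n => W j j := hjj
  have m1 : Measurable fun W : Mat n => G0 n B κ W *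
      ENNReal.ofReal (exp (n * (W i i + W j j) / 2)) *
      ENNReal.ofReal (Xk (tau n * (W i i - W j j) / 2 + 0) (omc n) (omc n)) := by
    simp only [Xk_cc hn]; fun_prop
  have := lintegral_prod_mul (μ := GOE n) (ν := gK (Fin n) T)
    (m1.const_mul (ENNReal.ofReal (exp (-(T * sx n ^ 2 / 2))))).aemeasurable
    (g := fun y => 1 + ENNReal.ofReal (exp (3 * (y i * √(2 * sx n ^ 2)) - 9 * (sx n ^ 2 * T))))
    (Measurable.aemeasurable (by fun_prop))
  refine this.trans ?_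
  rw [lint_bb i hT, lintegral_const_mul _ m1, ← swap hR hij mG hinv oc oc 0, hGy]
  congr 2
  refine lintegral_congr fun W => ?_
  have := (Zs_pos hK hn W).ne'
  rw [YY_eq (tilt_c hn W) (tilt_c hn W) (Zc_pos hK hn W).ne' (Zc_pos hK hn W).ne',
    Xk_zero (cp_mu hK hn W) (cp_mu hK hn W), rr]
  congr 1; field_simp

omit hK in
lemma sph_pt {F : ℝ → ℝ≥0∞} {s : ℝ} (hF : ∀ R, |R| ≤ sx n ^ 2 →
    ENNReal.ofReal (exp (s * R + 3 * T / sx n ^ 2 * R ^ 2)) ≤ F R) (p : PY n) :
    wt n i j B κ T p * ENNReal.ofReal (LL n i (vv n i j p + s)) ≤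
      GG n B κ T p * YR n i j (sphR (Fin n) (sx n)) F p := by
  have os := onS_oms hS hn
  have ht : 0 < sx n ^ 2 := pow_pos (sx_pos hn) 2
  have hc : 0 < √(2 * sx n ^ 2) := sqrt_pos.2 (by linarith)
  by_cases hA : p ∈ AA n i T
  · rw [wt, Set.indicator_of_mem hA, mul_assoc, ← Xk_s hS hn i os, ← lint_Xk os]
    refine mul_le_mul_right (lintegral_mono_ae ((os.ae_pair os).mono fun q hq => ?_)) _
    have hR := abs_dot_le hq.1 hq.2
    refine le_trans ?_ (mul_le_mul_left (hF _ hR) _)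
    rw [← ENNReal.ofReal_mul (exp_pos _).le, ← exp_add, ← ENNReal.ofReal_mul (exp_pos _).le,
      ← exp_add]
    refine ENNReal.ofReal_le_ofReal (exp_le_exp.2 ?_)
    have hz : 0 ≤ p.2 i := nonneg_of_mul_nonneg_left hA.1 hc
    have h1 := mul_le_mul_of_nonneg_left (sqrt_facts ht hR).2.1 hz
    have h2 := mul_le_mul_of_nonneg_right hA.2
      (show 0 ≤ (q.1 ⬝ᵥ q.2) ^ 2 / (2 * (sx n ^ 2) ^ 2) by positivity)
    have h3 : 6 * (sx n ^ 2 * T) * ((q.1 ⬝ᵥ q.2) ^ 2 / (2 * (sx n ^ 2) ^ 2)) =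
        3 * T / sx n ^ 2 * (q.1 ⬝ᵥ q.2) ^ 2 := by field_simp; ring
    rw [h3] at h2
    simp only [Ey, vv, bb] at h2 ⊢
    have h4 : (tau n * (p.1 i i - p.1 j j) / 2 + p.2 i * √(2 * sx n ^ 2) / (2 * sx n ^ 2) + s) *
        (q.1 ⬝ᵥ q.2) = tau n * (q.1 ⬝ᵥ q.2) * (p.1 i i - p.1 j j) / 2 +
        p.2 i * (√(2 * sx n ^ 2) / (2 * sx n ^ 2) * (q.1 ⬝ᵥ q.2)) + s * (q.1 ⬝ᵥ q.2) := by ring
    rw [h4]
    linarith
  · rw [wt, Set.indicator_of_notMem hA, zero_mul]; exact zero_le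

lemma sph_le (hRY : RotYStmt) (hP : PlStmt) (hij : i ≠ j) (hT : 0 ≤ T) (hB : 1 ≤ B)
    {a₀ a₁ u₁ u₂ s b : ℝ} (h₀ : 0 ≤ a₀) (h₁ : 0 ≤ a₁) (hF : ∀ R, |R| ≤ sx n ^ 2 →
      exp (s * R + 3 * T / sx n ^ 2 * R ^ 2) ≤ a₀ + a₁ * (exp (u₁ * R) + exp (u₂ * R)))
    (hu₁ : |2 * u₁ + T| ^ (3 / 2 : ℝ) ≤ b) (hu₂ : |2 * u₂ + T| ^ (3 / 2 : ℝ) ≤ b) :
    ∫⁻ p, wt n i j B κ T p * ENNReal.ofReal (LL n i (vv n i j p + s))
        ∂(GOE n).prod (gK (Fin n) T) ≤
      ENNReal.ofReal a₀ * GOE n (GS n B κ) + ENNReal.ofReal (a₁ * (2 * (B * exp (B * b / 2)))) := by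
  have os := onS_oms hS hn
  have mS := meas_GS hK hn B κ
  have mF : ∀ u : ℝ, Measurable fun R : ℝ => ENNReal.ofReal (exp (u * R)) := fun u => by fun_prop
  have mG := meas_GG hS hK hn B κ T
  have hu : ∀ u : ℝ, |2 * u + T| ^ (3 / 2 : ℝ) ≤ b → ∫⁻ p, GG n B κ T p *
      YX n (sphR (Fin n) (sx n)) (fun R => ENNReal.ofReal (exp (u * R))) p
      ∂(GOE n).prod (gK (Fin n) T) ≤ ENNReal.ofReal (B * exp (B * b / 2)) := fun u h => by
    rw [lint_GG hS hK hn (meas_YX os (mF u))]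
    refine (setLIntegral_mono' (g := fun _ => ENNReal.ofReal (B * exp (B * b / 2))) mS
      fun W hW => (G1_exp hS hK hn hP hT hB hW u).trans (ENNReal.ofReal_le_ofReal ?_)).trans ?_
    · have : 0 ≤ B := by linarith
      gcongr
    · rw [setLIntegral_const]
      exact mul_le_of_le_one_right' prob_le_one
  refine (lintegral_mono fun p => sph_pt hS hn (F := fun R => ENNReal.ofReal a₀ +
    ENNReal.ofReal a₁ * (ENNReal.ofReal (exp (u₁ * R)) + ENNReal.ofReal (exp (u₂ * R))))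
    (fun R hR => ?_) p).trans ?_
  · rw [← ENNReal.ofReal_add (exp_pos _).le (exp_pos _).le, ← ENNReal.ofReal_mul h₁,
      ← ENNReal.ofReal_add h₀ (by positivity)]
    exact ENNReal.ofReal_le_ofReal (hF R hR)
  rw [← swapY hRY hij hT mG (GG_rot hS hK hn) os (by fun_prop)]
  have m0 := mG.fun_mul (meas_YX os (F := fun _ => 1) measurable_const)
  have m1 := mG.fun_mul (meas_YX os (mF u₁))
  have m2 := mG.fun_mul (meas_YX os (mF u₂))
  calc _ = ∫⁻ p, ENNReal.ofReal a₀ * (GG n B κ T p * YX n (sphR (Fin n) (sx n)) (fun _ => 1) p) +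
        ENNReal.ofReal a₁ * (GG n B κ T p *
          YX n (sphR (Fin n) (sx n)) (fun R => ENNReal.ofReal (exp (u₁ * R))) p + GG n B κ T p *
          YX n (sphR (Fin n) (sx n)) (fun R => ENNReal.ofReal (exp (u₂ * R))) p)
        ∂(GOE n).prod (gK (Fin n) T) := by
        refine lintegral_congr fun p => ?_
        rw [YX_lin _ _ (mF u₁) (mF u₂) p]
        ring
    _ ≤ _ := by
        rw [lintegral_add_left (m0.const_mul _), lintegral_const_mul _ m0,
          lintegral_const_mul _ (m1.fun_add m2), lintegral_add_left m1,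
          lint_GG hS hK hn (meas_YX os measurable_const)]
        simp only [G1_one hS hK hn hT, setLIntegral_one]
        rw [ENNReal.ofReal_mul h₁, two_mul, ENNReal.ofReal_add (by positivity) (by positivity)]
        exact add_le_add le_rfl (mul_le_mul_right (add_le_add (hu u₁ hu₁) (hu u₂ hu₂)) _)

lemma far_le {C : ℝ} (hκ : 0 < κ) (hT : 0 ≤ T) (hTκ : 6 * (sx n ^ 2 * T) ≤ n * κ)
    (hC : ∀ θ : ℝ, |θ| ≤ κ → ∫⁻ W, ENNReal.ofReal (exp (n * (W i i + W j j) / 2)) *
      ENNReal.ofReal (exp (n * ((1 - κ) * ((W i i - W j j) / 2 + θ) ^ 2 / 2))) ∂GOE n ≤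
      ENNReal.ofReal (exp (n / 2 + n * κ) * C)) :
    ∫⁻ p, wt n i j B κ T p * ENNReal.ofReal
      (exp (n * ((1 - κ) * (vv n i j p / tau n) ^ 2 / 2 - 8 * κ))) ∂(GOE n).prod (gK (Fin n) T) ≤
      ENNReal.ofReal (exp (-(4 * (n * κ))) * C) := by
  have hn0 : (0 : ℝ) < n := by exact_mod_cast hn
  have hs := sx_pos hn
  have mv := meas_vv (n := n) i j
  have h3 : Measurable fun W : Mat n => W i i := (measurable_id (α := Mat n)).t157_entry i i
  have h4 : Measurable fun W : Mat n => W j j := (measurable_id (α := Mat n)).t157_entry j j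
  rw [lintegral_prod_symm _ ((meas_wt hS hK hn i j B κ T).fun_mul (by fun_prop)).aemeasurable]
  refine (lintegral_mono (g := fun _ => ENNReal.ofReal (exp (-(4 * (n * κ))) * C))
    fun y => ?_).trans (by rw [lintegral_const, measure_univ, mul_one])
  set b := y i * √(2 * sx n ^ 2) with hb
  by_cases hA : 0 ≤ b ∧ b ≤ 6 * (sx n ^ 2 * T)
  · have h1 := hC (b / (2 * n)) (by
      rw [abs_of_nonneg (by have := hA.1; positivity), div_le_iff₀ (by positivity)]
      nlinarith [hA.2, mul_pos hn0 hκ])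
    calc _ ≤ ∫⁻ W, ENNReal.ofReal (exp (-(n / 2) - 5 * (n * κ))) *
          (ENNReal.ofReal (exp (n * (W i i + W j j) / 2)) * ENNReal.ofReal
            (exp (n * ((1 - κ) * ((W i i - W j j) / 2 + b / (2 * n)) ^ 2 / 2)))) ∂GOE n := by
          refine lintegral_mono fun W => ?_
          have h5 : GG n B κ T (W, y) ≤ ENNReal.ofReal (exp (-(n / 2) + 2 * (n * κ))) := by
            refine (GG_le hS hK hn _).trans ((mul_le_of_le_one_left' (ENNReal.ofReal_le_one.2
              (exp_le_one_iff.2 (neg_nonpos.2 (by positivity))))).trans ?_)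
            by_cases hW : W ∈ GS n B κ
            · simp only [G0, Set.indicator_of_mem hW]
              refine ENNReal.ofReal_le_ofReal ?_
              have h6 := pow_le_pow_left₀ (exp_pos _).le hW.2 2
              refine (inv_anti₀ (by positivity) h6).trans (le_of_eq ?_)
              rw [← exp_nat_mul, ← Real.exp_neg]; congr 1; push_cast; ring
            · simp only [G0, Set.indicator_of_notMem hW, zero_le]
          have hu : vv n i j (W, y) / tau n = (W i i - W j j) / 2 + b / (2 * n) := by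
            simp only [vv, bb, ← hb]
            rw [tau_eq, ← sx_pow_six n]
            generalize sx n = x at hs
            field_simp
          simp only
          rw [wt, Set.indicator_of_mem (by exact hA), hu]
          refine (mul_le_mul_left (mul_le_mul_left h5 _) _).trans ?_
          simp only [← ENNReal.ofReal_mul (exp_pos _).le, ← exp_add]
          refine ENNReal.ofReal_le_ofReal (exp_le_exp.2 ?_)
          have : bb n i (W, y) ≤ n * κ := hA.2.trans hTκ
          linarith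
      _ ≤ ENNReal.ofReal (exp (-(n / 2) - 5 * (n * κ))) *
          ENNReal.ofReal (exp (n / 2 + n * κ) * C) := by
          rw [lintegral_const_mul _ (by fun_prop)]
          exact mul_le_mul_right h1 _
      _ = _ := by
          rw [← ENNReal.ofReal_mul (exp_pos _).le, ← mul_assoc, ← exp_add]
          congr 3; ring
  · refine (le_of_eq ((lintegral_congr fun W => ?_).trans lintegral_zero)).trans zero_le
    rw [wt, Set.indicator_of_notMem (by exact hA), zero_mul]

end lnk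

end Crest.Agent.T157.Sp.Ch87

end
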