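import Crest.Agent.T157.LpUfE_14
import Crest.Agent.T157.TapFrz_25
import Crest.Agent.T157.TapCov_15

/-!
# Row 157: exponential levels of the static events (helper5)
-/

set_option autoImplicit false

noncomputable section

namespace Crest.Agent.T157.Ks.St0

open MeasureTheory ProbabilityTheory Matrix Filter Set Topology
open Crest.Agent.T157.E Crest.Agent.T157.Eig Crest.Agent.T157.Cond Crest.Agent.T157.Tap
open Crest.Agent.T157.Kr (fro fro_nonneg FLip)
open Crest.Agent.T157.Tap.Uf14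

section
variable {X : ℕ → Type*} [∀ n, MeasurableSpace (X n)] {μ : ∀ n, Measure (X n)} {e e' : ℝ}
  {P Q : ∀ n, X n → Prop}

/-- `P` fails with probability at most `exp (-e n)` -/
def Lv (μ : ∀ n, Measure (X n)) (e : ℝ) (P : ∀ n, X n → Prop) : Prop :=
  ∀ᶠ n : ℕ in atTop, μ n {W | ¬ P n W} ≤ ENNReal.ofReal (Real.exp (-(e * n)))

theorem ev_poly (A : ℝ) (h : e' < e) :
    ∀ᶠ n : ℕ in atTop, (A * n + A) * Real.exp (-(e * n)) ≤ Real.exp (-(e' * n)) := by
  have hk : 0 < e - e' := sub_pos.2 h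
  filter_upwards [tendsto_natCast_atTop_atTop.eventually_ge_atTop (4 * |A| / (e - e') ^ 2),
    eventually_ge_atTop 1] with n hn hn1
  have h1 : (1 : ℝ) ≤ n := by exact_mod_cast hn1
  rw [div_le_iff₀ (by positivity)] at hn
  have h2 := Real.quadratic_le_exp_of_nonneg (x := (e - e') * n) (by positivity)
  have h3 : A * n + A ≤ Real.exp ((e - e') * n) := by
    have a1 : A * n ≤ |A| * n := mul_le_mul_of_nonneg_right (le_abs_self A) (by linarith)
    have a2 : 0 ≤ (e - e') * n := by positivity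
    nlinarith [mul_le_mul_of_nonneg_right hn (show (0 : ℝ) ≤ n by linarith), le_abs_self A,
      mul_le_mul_of_nonneg_left h1 (abs_nonneg A)]
  calc _ ≤ Real.exp ((e - e') * n) * Real.exp (-(e * n)) := by gcongr
    _ = _ := by rw [← Real.exp_add]; congr 1; ring

theorem ev_const (A : ℝ) (h : e' < e) :
    ∀ᶠ n : ℕ in atTop, A * Real.exp (-(e * n)) ≤ Real.exp (-(e' * n)) := by
  filter_upwards [ev_poly |A| h] with n hn
  refine le_trans (mul_le_mul_of_nonneg_right ?_ (Real.exp_pos _).le) hn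
  linarith [le_abs_self A, mul_nonneg (abs_nonneg A) (Nat.cast_nonneg (α := ℝ) n)]

theorem Lv.mono (h : Lv μ e P) (hPQ : ∀ᶠ n in atTop, ∀ W, P n W → Q n W) : Lv μ e Q := by
  filter_upwards [h, hPQ] with n h1 h2
  exact le_trans (measure_mono fun W (hW : ¬ Q n W) hp => hW (h2 W hp)) h1

theorem Lv.imp (h : Lv μ e P) (hPQ : ∀ n W, P n W → Q n W) : Lv μ e Q := h.mono (.of_forall hPQ)

theorem exp_anti (h : e' ≤ e) (n : ℕ) : Real.exp (-(e * n)) ≤ Real.exp (-(e' * n)) :=
  Real.exp_le_exp.2 (neg_le_neg (mul_le_mul_of_nonneg_right h n.cast_nonneg))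

theorem Lv.le (h : Lv μ e P) (he : e' ≤ e) : Lv μ e' P :=
  Filter.Eventually.mono h fun n hn => hn.trans (ENNReal.ofReal_le_ofReal (exp_anti he n))

theorem Lv.fin {ι : Type*} [Fintype ι] {R : ι → ∀ n, X n → Prop} (h : ∀ j, Lv μ e (R j))
    (he : e' < e) : Lv μ e' fun n W => ∀ j, R j n W := by
  filter_upwards [eventually_all.2 h, ev_const (Fintype.card ι) he] with n h1 h2
  have : {W | ¬ ∀ j, R j n W} = ⋃ j, {W | ¬ R j n W} := by ext W; simp
  rw [this]
  refine (measure_iUnion_fintype_le _ _).trans ((Finset.sum_le_sum fun j _ => h1 j).trans ?_)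
  rw [← ENNReal.ofReal_sum_of_nonneg fun _ _ => (Real.exp_pos _).le]
  exact ENNReal.ofReal_le_ofReal (by simpa using h2)

theorem Lv.and (h : Lv μ e P) (h' : Lv μ e Q) (he : e' < e) : Lv μ e' fun n W => P n W ∧ Q n W :=
  (Lv.fin (ι := Bool) (R := fun b => if b then P else Q) (fun b => by cases b; exacts [h', h])
    he).imp fun _ _ hW => ⟨hW true, hW false⟩

theorem Lv.of_real [∀ n, IsFiniteMeasure (μ n)] {A : ℝ} (he : e' < e)
    (h : ∀ᶠ n : ℕ in atTop, (μ n).real {W | ¬ P n W} ≤ A * Real.exp (-(e * n))) : Lv μ e' P := by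
  filter_upwards [h, ev_const A he] with n h1 h2
  rw [← ofReal_measureReal]
  exact ENNReal.ofReal_le_ofReal (h1.trans h2)

theorem Lv.real (h : Lv μ e P) :
    ∀ᶠ n : ℕ in atTop, (μ n).real {W | ¬ P n W} ≤ Real.exp (-(e * n)) :=
  Filter.Eventually.mono h fun _ hn => ENNReal.toReal_le_of_le_ofReal (Real.exp_pos _).le hn

theorem Lv.whp [∀ n, IsFiniteMeasure (μ n)] (h : Lv μ e P) (he : 0 < e) : Top.Whp μ P :=
  Top.whp_of_real_le (Real.tendsto_exp_neg_atTop_nhds_zero.comp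
    (tendsto_natCast_atTop_atTop.const_mul_atTop he)) h.real

end

variable {n : ℕ} {P : ∀ n, Mx n → Prop}

/-- a property that holds near every point of a likely set fails with exponentially small probability -/
theorem boost (h : Top.Whp GOE fun n W => ∀ X, fro (X - W) ≤ 1 → P n X) : Lv GOE (1 / 16) P := by
  have h2 : Tendsto (fun n : ℕ => Real.exp (-(1 / 16 * n))) atTop (𝓝 0) :=
    Real.tendsto_exp_neg_atTop_nhds_zero.comp
      (tendsto_natCast_atTop_atTop.const_mul_atTop (by norm_num))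
  filter_upwards [h.real.eventually (gt_mem_nhds one_half_pos),
    h2.eventually (gt_mem_nhds one_half_pos), eventually_gt_atTop 0] with n h3 h4 hn
  rcases isEmpty_or_nonempty {X : Mx n | ¬ P n X} with hE | hE
  · rw [Set.isEmpty_coe_sort.1 hE, measure_empty]; exact zero_le
  have hn' : (0 : ℝ) < n := by exact_mod_cast hn
  set Λ : Mx n → ℝ := fun W => ⨅ X : {X : Mx n | ¬ P n X}, fro (X.1 - W) with hΛ
  have bd : ∀ W : Mx n, BddBelow (range fun X : {X : Mx n | ¬ P n X} => fro (X.1 - W)) := fun W =>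
    ⟨0, by rintro _ ⟨X, rfl⟩; exact fro_nonneg _⟩
  have l1 : ∀ W W' : Mx n, Λ W - fro (W - W') ≤ Λ W' := fun W W' => le_ciInf fun X => by
    have h5 := fro_add_le (X.1 - W') (W' - W)
    rw [sub_add_sub_cancel, fro_sub_comm W'] at h5
    linarith [ciInf_le (bd W) X]
  have l2 : ∀ W W' : Mx n, |Λ W - Λ W'| ≤ 1 * fro (W - W') := fun W W' => by
    have := l1 W' W
    rw [fro_sub_comm] at this
    rw [abs_le]; constructor <;> linarith [l1 W W']
  have lc : Continuous Λ := continuous_iff_continuousAt.2 fun W => by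
    refine tendsto_iff_dist_tendsto_zero.2 (squeeze_zero (fun _ => dist_nonneg)
      (fun W' => (l2 W' W).trans_eq (one_mul _)) ?_)
    exact Continuous.tendsto' (f := fun W' : Mx n => fro (W' - W)) ((continuous_fro (n := n)).comp
      (continuous_id.sub continuous_const)) W 0 (by simp [fro_zero])
  have he : -(1 / 2 : ℝ) ^ 2 / (4 * (1 / √(n : ℝ)) ^ 2 * 1 ^ 2) = -(1 / 16 * n) := by
    rw [div_pow (1 : ℝ) √n, Real.sq_sqrt hn'.le]; field_simp; norm_num
  have t1 := Kr.goe_tail zero_le_one (fun W W' _ _ => l2 W W') lc.measurable (1 / √n) one_half_pos.le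
  have t2 := Kr.goe_tail_lower zero_le_one (fun W W' _ _ => l2 W W') lc.measurable (1 / √n)
    one_half_pos.le
  rw [he] at t1 t2
  rw [← ofReal_measureReal]
  refine ENNReal.ofReal_le_ofReal (le_trans (measureReal_mono fun W hW => ?_) t2)
  have h0 : Λ W ≤ 0 := (ciInf_le (bd W) ⟨W, hW⟩).trans_eq (by rw [sub_self, fro_zero])
  by_contra hc
  have hm : ∫ W', Λ W' ∂GOE n < 1 / 2 := by
    simp only [mem_ofPred_eq, not_le] at hc
    linarith
  have h5 := measureReal_mono (μ := GOE n) (s₁ := univ)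
    (s₂ := {W | ¬ ∀ X, fro (X - W) ≤ 1 → P n X} ∪ {W | 1 / 2 ≤ Λ W - ∫ W', Λ W' ∂GOE n})
    fun W _ => by
      by_cases hW : ∀ X, fro (X - W) ≤ 1 → P n X
      · have : 1 ≤ Λ W := le_ciInf fun X => (not_le.1 fun hX => X.2 (hW _ hX)).le
        exact .inr (by simp only [mem_ofPred_eq]; linarith)
      · exact .inl hW
  rw [probReal_univ] at h5
  linarith [measureReal_union_le (μ := GOE n) {W | ¬ ∀ X, fro (X - W) ≤ 1 → P n X}
    {W | 1 / 2 ≤ Λ W - ∫ W', Λ W' ∂GOE n}]

theorem lv_symm (e : ℝ) : Lv GOE e fun _ W => Wᵀ = W :=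
  .of_forall fun _ => (ae_iff.1 (goe_ae_symm _)).trans_le zero_le

theorem lv_opn : Lv GOE (1 / 8) fun _ W => opn W ≤ 3 :=
  .of_real (e := 1 / 4) (A := 2) (by norm_num) (.of_forall fun n => by rw [mul_comm (1 / 4)]; exact opn_tail)

theorem lv_ufr {c : ℝ} (hc : 0 < c) (ρ : ℝ) :
    ∃ K : ℝ, 0 ≤ K ∧ Lv GOE (1 / 16) fun _ W => UFR W ρ c K := by
  obtain ⟨K, hK, h⟩ := ufR hc (ρ + 1)
  refine ⟨K, hK, boost (h.imp fun n W hW X hX Y hY => hW Y ?_)⟩
  have := fro_add_le (Y - X) (X - W)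
  rw [sub_add_sub_cancel] at this
  linarith

theorem lv_uf {c : ℝ} (hc : 0 < c) : ∃ K : ℝ, Lv GOE (1 / 16) fun _ W => UF W 1 c K := by
  obtain ⟨K, -, h⟩ := lv_ufr hc 0
  refine ⟨K, h.imp fun n W hW θ hθ d hd h1 h2 => ?_⟩
  obtain ⟨a, b, -⟩ := hW W (by rw [sub_self, fro_zero]) θ hθ d hd h1 h2
  exact ⟨a, b⟩

open TapFrz in
theorem quad_tail : ∃ ε > (0 : ℝ), ∀ n : ℕ, 0 < n → (GOE n).real {W | ¬
    ∀ d u : V n, Ub d → avg (fun i => d i ^ 2) ≤ ε → u ⬝ᵥ u ≤ 1 →
      (d * u) ⬝ᵥ W *ᵥ (d * u) ≤ 1 / 8} ≤ 1 * Real.exp (-(1 / 4096 * n)) := by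
  have hm := m4_nonneg
  set a : ℝ := 1 / (2048 * (m4 + 1)) with ha
  have ha0 : 0 < a := by positivity
  refine ⟨a / 512, by positivity, fun n hn => ?_⟩
  have hn0 : (0 : ℝ) < n := by exact_mod_cast hn
  have hi : Integrable (fun ξ : V n => ∑ i, ξ i ^ 4) (gv (Fin n)) :=
    integrable_finsetSum _ fun i _ => integrable_four_coord i
  have h := Kr.sf_goe_tail (T := TS n (a / 512)) (1 / Real.sqrt n)
    (u := fun t => t.1.1 * t.1.2) (f := fun _ => 0)
    ((continuous_fst.comp continuous_subtype_val).mul (continuous_snd.comp continuous_subtype_val))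
    continuous_const (ρ := 1) (fun t => (mul_dot_le t.2.1).trans t.2.2.2)
    (Γ := fun ξ => 1 / 32 + 32 * (a * ((∑ i, ξ i ^ 4) / n) + a / 512 / (4 * a)))
    ((integrable_const _).add ((((hi.div_const _).const_mul _).add (integrable_const _)).const_mul _))
    (fun ξ t => gam_bound hn ha0 t.2.1 t.2.2.1 t.2.2.2 ξ) (r := 1 / 32) (by norm_num)
  have hE : ∫ ξ : V n, (1 / 32 + 32 * (a * ((∑ i, ξ i ^ 4) / n) + a / 512 / (4 * a))) ∂gv (Fin n) =
      1 / 32 + 32 * (a * m4 + 1 / 2048) := by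
    have i1 : Integrable (fun ξ : V n => a * ((∑ i, ξ i ^ 4) / n)) (gv (Fin n)) :=
      (hi.div_const _).const_mul _
    have i2 : Integrable (fun ξ : V n => 32 * (a * ((∑ i, ξ i ^ 4) / n) + a / 512 / (4 * a)))
        (gv (Fin n)) := (i1.add (integrable_const _)).const_mul _
    rw [integral_add (integrable_const _) i2, integral_const_mul,
      integral_add i1 (integrable_const _), integral_const_mul, integral_div (n : ℝ),
      integral_finsetSum _ fun i _ => integrable_four_coord i]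
    simp only [integral_four_coord, integral_const, probReal_univ, smul_eq_mul, one_mul,
      Finset.sum_const, Finset.card_univ, Fintype.card_fin, nsmul_eq_mul]
    field_simp
    ring
  rw [hE] at h
  have ham : a * m4 ≤ 1 / 2048 := by
    rw [ha, div_mul_eq_mul_div, div_le_div_iff₀ (by positivity) (by norm_num)]
    linarith
  have he : -(1 / 32 : ℝ) ^ 2 / (4 * (1 / Real.sqrt n) ^ 2 * 1 ^ 2) = -(1 / 4096 * n) := by
    rw [div_pow (1 : ℝ) (Real.sqrt n), Real.sq_sqrt hn0.le]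
    field_simp
    norm_num
  rw [he] at h
  rw [one_mul]
  refine le_trans (measureReal_mono (fun W hW => ?_) (measure_ne_top _ _)) h
  simp only [mem_ofPred_eq] at hW ⊢
  push Not at hW
  obtain ⟨d, u, h1, h2, h3, h4⟩ := hW
  exact ⟨⟨(d, u), h1, h2, h3⟩, by dsimp only; linarith⟩

theorem Lv.neg {e : ℝ} (h : Lv GOE e P) : Lv GOE e fun n W => P n (-W) :=
  Filter.Eventually.mono h fun n hn => le_trans
    ((⟨measurable_neg, goe_neg _⟩ : MeasurePreserving (fun W : Mx n => -W) (GOE n)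
      (GOE n)).measure_preimage_le {W | ¬ P n W}) hn

theorem lv_frz : ∃ ε > (0 : ℝ), Lv GOE (1 / 8192) fun _ W => Frz W ε := by
  obtain ⟨ε, hε, h0⟩ := quad_tail
  have h := Lv.of_real (μ := GOE) (e' := 1 / 5000) (by norm_num) ((eventually_gt_atTop 0).mono h0)
  refine ⟨ε, hε, ((h.and h.neg (e' := 1 / 6000) (by norm_num)).and (lv_symm _) (by norm_num)).imp ?_⟩
  rintro n W ⟨⟨h1, h2⟩, h3⟩ d hd hav
  have hA : (diagonal d * W * diagonal d).IsHermitian := by
    have := herm_compress (herm_iff.2 h3) (diagonal d)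
    rwa [diagonal_transpose] at this
  refine opn_le_of_lam hA (by norm_num) fun k hk => ?_
  rw [← quad_vec hA hk, TapFrz.quad_diag, abs_le]
  have h4 := h1 d _ hd hav (vec_dot_self hA hk).le
  have h5 := h2 d _ hd hav (vec_dot_self hA hk).le
  rw [neg_mulVec, dotProduct_neg] at h5
  constructor <;> linarith

open Lp Lp.E14 in
theorem lv_det {c ε : ℝ} (hc : 0 < c) (hε : 0 < ε) : Lv GOE (1 / 64) fun _ W => DET W 1 c ε := by
  have hβ : (1 : ℝ) ∈ Ioc (0 : ℝ) 1 := ⟨one_pos, le_rfl⟩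
  obtain ⟨c', hc', L, hL, r, ρ, hρ, hcκ, hU⟩ := U2.u2_tail hc
  have hU' := Lv.of_real (μ := GOE) (P := fun _ W => U2.Ev W 1 c c' L ρ r) (e := 1 / 4) (e' := 1 / 16)
    (A := 3) (by norm_num) ((eventually_gt_atTop 0).mono fun n hn => by
      rw [one_div_mul_eq_div]; exact hU 1 ⟨zero_le_one, le_rfl⟩ n hn)
  obtain ⟨K, hK, h⟩ := lv_ufr hc' ((2 + L * r) / 1)
  set κ := 3 + (2 + L * r) / 1 with hκ
  have hκ0 : 0 ≤ κ := by positivity
  obtain ⟨m, hm⟩ := exists_nat_gt ((κ + 2) / (ε / 4))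
  have hm0 : (0 : ℝ) < m := lt_of_le_of_lt (by positivity) hm
  refine (((hU'.and h (e' := 1 / 20) (by norm_num)).and (lv_symm _) (e' := 1 / 30) (by norm_num)).and
    (lv_opn.le (by norm_num)) (by norm_num)).mono ?_
  filter_upwards [ev_sqrt (2 * K * m) (show 0 < ε / 4 by positivity),
    (tendsto_natCast_atTop_atTop.atTop_mul_const (half_pos hε)).eventually_ge_atTop
      ((r.factorial : ℝ) * (1 + L / c') ^ r)] with n h1 hn W ⟨⟨⟨hW, hF⟩, hS⟩, h3⟩ p hp ha
  have a1 : avg (fun i => DD p i ^ 2) ≤ avg (DD p) :=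
    div_le_div_of_nonneg_right (Finset.sum_le_sum fun i _ => by
      rw [sq]; exact mul_le_of_le_one_right (U2.DD_nonneg hp i) (U2.DD_le_one p i)) (Nat.cast_nonneg n)
  obtain ⟨U, hU, a2⟩ := hW p hp (by rw [one_pow, one_mul]; exact a1.trans ha)
  have hE := hU.pen L
  have hpos := (a2 p hp (by rw [sub_self, nrm_eq_zero.2 rfl]; positivity)).2
  refine (det_remove ub_dd hc' hL hE hpos).trans ((mul_le_mul (b := Real.exp (n * ((1 : ℝ) ^ 2 *
    avg (DD p) ^ 2 / 2 + ε / 2))) ?_ (hn.trans ((le_add_of_nonneg_right zero_le_one).trans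
      (Real.add_one_le_exp _))) (by positivity) (Real.exp_pos _).le).trans ?_)
  swap
  · rw [← Real.exp_add, Real.exp_le_exp]; linarith
  obtain ⟨X, hX, hs, e⟩ := pert hβ hL W hp hE
  have ha' : (1 : ℝ) ^ 2 * avg (DD p) ≤ 1 - c' := by rw [one_pow, one_mul]; linarith
  rw [e] at hpos ⊢
  rw [← avg_dd hp] at ha' ⊢
  have hop : opn X ≤ κ := by
    have h4 := opn_add_le (X - W) W
    rw [sub_add_cancel] at h4
    linarith [opn_le_sqrt_frob (X - W), show √(∑ i, ∑ j, (X - W) i j ^ 2) ≤ _ from hX]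
  have key := det_path (hs hS) ub_dd hc' hβ hop hpos ha' (K := K * √n)
    (fun θ hθ h2 h3 => (hF X hX θ hθ _ ub_dd h2 h3).2.2) (m := m) (by exact_mod_cast hm0)
  refine (abs_of_nonneg (psd hc' (Nt_symm (hs hS) _ 1) hpos).det_nonneg).trans_le
    (key.trans (Real.exp_le_exp.2 ?_))
  have h2 : (κ + 2) / m ≤ ε / 4 := by
    rw [div_lt_iff₀ (by positivity)] at hm
    rw [div_le_iff₀ hm0]
    linarith
  have h3 := mul_le_mul_of_nonneg_right h1 (Real.sqrt_nonneg (n : ℝ))
  rw [mul_assoc (ε / 4), Real.mul_self_sqrt (Nat.cast_nonneg n)] at h3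
  have h4 := mul_le_mul_of_nonneg_left h2 (Nat.cast_nonneg (α := ℝ) n)
  linarith

end Crest.Agent.T157.Ks.St0
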