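import Crest.Agent.T157.St0_44
import Crest.Agent.T157.ConcM_16
import Crest.Agent.R166.GaussQ_286

/-!
# Row 157, part D (helper44): clipped Gaussian increments, means and tails
-/

set_option autoImplicit false
set_option linter.unusedSectionVars false

noncomputable section

namespace Crest.Agent.T157.St

open MeasureTheory ProbabilityTheory Matrix Set
open Crest.Agent.T157.Eig Crest.Agent.T157.Conc

variable {n : ℕ} {ι : Type*} [Fintype ι] [DecidableEq ι]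

/-! ### clipping -/

theorem abs_clip_le {c : ℝ} (hc : 0 ≤ c) (z : ℝ) : |clip c z| ≤ c := by
  unfold clip
  exact abs_le.2 ⟨le_max_left _ _, max_le (by linarith) (min_le_left _ _)⟩

theorem clip_neg {c : ℝ} (hc : 0 ≤ c) (z : ℝ) : clip c (-z) = -clip c z := by
  unfold clip
  rcases le_total z (-c) with h | h
  · rw [min_eq_left (by linarith), max_eq_right (by linarith), min_eq_right (by linarith),
      max_eq_left h, neg_neg]
  · rcases le_total z c with h' | h'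
    · rw [min_eq_right (by linarith), max_eq_right (by linarith), min_eq_right h', max_eq_right h]
    · rw [min_eq_right (by linarith), max_eq_left (by linarith), min_eq_left h',
        max_eq_right (by linarith)]

theorem clip_lip (c z z' : ℝ) : |clip c z - clip c z'| ≤ |z - z'| := by
  unfold clip
  refine (abs_max_sub_max_le_max _ _ _ _).trans (max_le (by simp) ?_)
  refine (abs_min_sub_min_le_max _ _ _ _).trans (max_le (by simp) le_rfl)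

theorem clip_zero {c : ℝ} (hc : 0 ≤ c) : clip c 0 = 0 := by
  unfold clip
  rw [min_eq_right hc, max_eq_right (by linarith)]

theorem clip_of_le {c z : ℝ} (h : |z| ≤ c) : clip c z = z := by
  unfold clip
  rw [min_eq_right (abs_le.1 h).2, max_eq_right (abs_le.1 h).1]

theorem abs_clip_le_abs {c : ℝ} (hc : 0 ≤ c) (z : ℝ) : |clip c z| ≤ |z| := by
  simpa [clip_zero hc] using clip_lip c z 0

theorem abs_sub_clip_le {c : ℝ} (hc : 0 ≤ c) (z : ℝ) : |z - clip c z| ≤ |z| := by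
  unfold clip
  rcases le_total z (-c) with h | h
  · rw [min_eq_right (by linarith), max_eq_left h, abs_of_nonpos (by linarith),
      abs_of_nonpos (by linarith)]
    linarith
  · rcases le_total z c with h' | h'
    · rw [min_eq_right h', max_eq_right h]; simp
    · rw [min_eq_left h', max_eq_right (by linarith), abs_of_nonneg (by linarith),
        abs_of_nonneg (by linarith)]
      linarith

theorem sub_clip_sq_le {c : ℝ} (hc : 0 ≤ c) (z : ℝ) : (z - clip c z) ^ 2 ≤ z ^ 2 :=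
  sq_le_sq.2 (abs_sub_clip_le hc z)

theorem sub_clip_sq_le4 {c c0 : ℝ} (hc0 : 0 < c0) (hc : c0 ≤ c) (z : ℝ) :
    (z - clip c z) ^ 2 ≤ |z| ^ 4 / c0 ^ 2 := by
  rcases le_total |z| c with h | h
  · rw [clip_of_le h, sub_self, zero_pow two_ne_zero]; positivity
  · refine (sub_clip_sq_le (hc0.le.trans hc) z).trans ?_
    rw [le_div_iff₀ (by positivity), ← sq_abs z]
    have h1 : c0 ^ 2 ≤ |z| ^ 2 := pow_le_pow_left₀ hc0.le (hc.trans h) 2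
    calc |z| ^ 2 * c0 ^ 2 ≤ |z| ^ 2 * |z| ^ 2 := mul_le_mul_of_nonneg_left h1 (by positivity)
      _ = |z| ^ 4 := by ring

theorem abs_sub_clip_le_sq {R : ℝ} (hR : 0 < R) (z : ℝ) : |z - clip R z| ≤ z ^ 2 / R := by
  rcases le_total |z| R with h | h
  · rw [clip_of_le h, sub_self, abs_zero]; positivity
  · refine (abs_sub_clip_le hR.le z).trans ?_
    rw [le_div_iff₀ hR, ← sq_abs z, sq]
    exact mul_le_mul_of_nonneg_left h (abs_nonneg _)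

/-! ### balls of seeds -/

theorem en_eq_nrm (x : ι → ℝ) : en x = nrm x := by
  unfold en nrm
  simp only [dotProduct, sq]

theorem Ball.mono {p p' ρ : ℝ} {Q Q' : (ι → ℝ) → Prop} (h : Ball p ρ Q) (hp : p ≤ p')
    (hQ : ∀ ξ, Q ξ → Q' ξ) : Ball p' ρ Q' := by
  obtain ⟨B, hB, h⟩ := h
  exact ⟨B, hB.trans (ENNReal.ofReal_le_ofReal hp), fun ξ hξ ξ' h' => hQ _ (h ξ hξ ξ' h')⟩

theorem Ball.and {p p' ρ : ℝ} {Q Q' : (ι → ℝ) → Prop} (h : Ball p ρ Q) (h' : Ball p' ρ Q')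
    (hp : 0 ≤ p) (hp' : 0 ≤ p') : Ball (p + p') ρ fun ξ => Q ξ ∧ Q' ξ := by
  obtain ⟨B, hB, h⟩ := h
  obtain ⟨B', hB', h'⟩ := h'
  refine ⟨B ∪ B', (measure_union_le _ _).trans ?_, fun ξ hξ ξ' hξ' =>
    ⟨h ξ (fun hh => hξ (Or.inl hh)) ξ' hξ', h' ξ (fun hh => hξ (Or.inr hh)) ξ' hξ'⟩⟩
  rw [ENNReal.ofReal_add hp hp']
  exact add_le_add hB hB'

theorem ball_upper {L : ℝ} {F : (ι → ℝ) → ℝ} (h : ELip L F) (hL : 0 ≤ L) {x : ℝ} (hx : 1 ≤ x) :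
    Ball (Real.exp (-x ^ 2 / 2)) 1 fun ξ => F ξ ≤ ∫ y, F y ∂E.gv ι + 2 * x * L := by
  rcases hL.eq_or_lt with h0 | h0
  · refine ⟨∅, by simp, fun ξ _ ξ' _ => ?_⟩
    have hc : ∀ y, F y = F ξ' := fun y => by
      have := h y ξ'
      rw [← h0, zero_mul] at this
      exact sub_eq_zero.1 (abs_nonpos_iff.1 this)
    simp [hc, ← h0]
  refine ⟨{ξ | x * L ≤ F ξ - ∫ y, F y ∂E.gv ι}, ?_, fun ξ hξ ξ' hξ' => ?_⟩
  · have h1 := tail_lip h (t := x * L) (by positivity)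
    rw [show -(x * L) ^ 2 / (2 * L ^ 2) = -x ^ 2 / 2 by field_simp] at h1
    rw [← ofReal_measureReal]
    exact ENNReal.ofReal_le_ofReal h1
  · have h1 : F ξ - ∫ y, F y ∂E.gv ι < x * L := not_le.1 hξ
    have h2 := (abs_le.1 (h ξ' ξ)).2
    have h3 : L * en (ξ' - ξ) ≤ L * 1 := mul_le_mul_of_nonneg_left hξ' hL
    have h4 : L ≤ x * L := le_mul_of_one_le_left hL hx
    linarith

theorem ball_lower {L : ℝ} {F : (ι → ℝ) → ℝ} (h : ELip L F) (hL : 0 ≤ L) {x : ℝ} (hx : 1 ≤ x) :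
    Ball (Real.exp (-x ^ 2 / 2)) 1 fun ξ => ∫ y, F y ∂E.gv ι - 2 * x * L ≤ F ξ := by
  refine (ball_upper h.neg hL hx).mono le_rfl fun ξ hξ => ?_
  rw [integral_neg] at hξ
  linarith

theorem ball_abs {L : ℝ} {F : (ι → ℝ) → ℝ} (h : ELip L F) (hL : 0 ≤ L) {x : ℝ} (hx : 1 ≤ x) :
    Ball (2 * Real.exp (-x ^ 2 / 2)) 1 fun ξ => |F ξ - ∫ y, F y ∂E.gv ι| ≤ 2 * x * L := by
  refine ((ball_upper h hL hx).and (ball_lower h hL hx) (Real.exp_pos _).le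
    (Real.exp_pos _).le).mono (by linarith) fun ξ hξ => ?_
  exact abs_le.2 ⟨by linarith [hξ.2], by linarith [hξ.1]⟩

/-! ### Gaussian moments of linear forms -/

theorem elip_lin (a : ι → ℝ) : ELip (nrm a) fun ξ => a ⬝ᵥ ξ := by
  rw [← en_eq_nrm]; exact elip_dot a

theorem mp_neg : MeasurePreserving (fun ξ : ι → ℝ => -ξ) (E.gv ι) (E.gv ι) := by
  have h : MeasurePreserving (fun x : ℝ => -x) (gaussianReal 0 1) (gaussianReal 0 1) := by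
    refine ⟨measurable_neg, ?_⟩
    rw [gaussianReal_map_neg, neg_zero]
  exact measurePreserving_pi _ _ fun _ : ι => h

theorem int_odd {F : (ι → ℝ) → ℝ} (hF : Continuous F) (ho : ∀ ξ, F (-ξ) = -F ξ) :
    ∫ ξ, F ξ ∂E.gv ι = 0 := by
  have h1 : ∫ ξ, F ξ ∂E.gv ι = ∫ ξ, F (-ξ) ∂E.gv ι := by
    conv_lhs => rw [← (mp_neg (ι := ι)).map_eq]
    rw [integral_map (mp_neg (ι := ι)).measurable.aemeasurable hF.aestronglyMeasurable]
  simp only [ho, integral_neg] at h1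
  linarith

theorem elip_int_pow {L : ℝ} {F : (ι → ℝ) → ℝ} (h : ELip L F) (k : ℕ) :
    Integrable (fun ξ => |F ξ| ^ k) (E.gv ι) := by
  have hc := h.continuous
  refine (((h.integrable_exp 1).add (h.integrable_exp (-1))).const_mul
    (k.factorial / 1 ^ k : ℝ)).mono' (by fun_prop) (ae_of_all _ fun ξ => ?_)
  rw [Real.norm_eq_abs, abs_of_nonneg (by positivity)]
  exact abs_pow_le_exp (F ξ) one_pos k

theorem elip_int_mul {L L' : ℝ} {F G : (ι → ℝ) → ℝ} (h : ELip L F) (h' : ELip L' G) :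
    Integrable (fun ξ => F ξ * G ξ) (E.gv ι) := by
  have hc := h.continuous
  have hc' := h'.continuous
  refine ((elip_int_pow h 2).add (elip_int_pow h' 2)).mono' (by fun_prop) (ae_of_all _ fun ξ => ?_)
  rw [Real.norm_eq_abs, abs_mul]
  simp only [Pi.add_apply]
  nlinarith [sq_nonneg (|F ξ| - |G ξ|), abs_nonneg (F ξ), abs_nonneg (G ξ)]

theorem int_lin_mul (a b : ι → ℝ) : ∫ ξ, (a ⬝ᵥ ξ) * (b ⬝ᵥ ξ) ∂E.gv ι = a ⬝ᵥ b := by
  have h1 := R166.Gauss286.lin_sq (a + b)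
  have h2 := R166.Gauss286.lin_sq (a - b)
  have i1 := elip_int_mul (elip_lin (a + b)) (elip_lin (a + b))
  have i2 := elip_int_mul (elip_lin (a - b)) (elip_lin (a - b))
  have e : ∀ ξ : ι → ℝ, (a ⬝ᵥ ξ) * (b ⬝ᵥ ξ) =
      1 / 4 * (((a + b) ⬝ᵥ ξ) * ((a + b) ⬝ᵥ ξ) - ((a - b) ⬝ᵥ ξ) * ((a - b) ⬝ᵥ ξ)) := fun ξ => by
    rw [add_dotProduct, sub_dotProduct]; ring
  simp only [e]
  rw [integral_const_mul, integral_sub i1 i2]
  simp only [← sq]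
  have h1' : ∫ ξ, ((a + b) ⬝ᵥ ξ) ^ 2 ∂E.gv ι = ∑ i, (a + b) i ^ 2 := h1
  have h2' : ∫ ξ, ((a - b) ⬝ᵥ ξ) ^ 2 ∂E.gv ι = ∑ i, (a - b) i ^ 2 := h2
  rw [h1', h2', ← Finset.sum_sub_distrib, dotProduct, Finset.mul_sum]
  refine Finset.sum_congr rfl fun i _ => ?_
  simp only [Pi.add_apply, Pi.sub_apply]
  ring

theorem int_lin4 (a : ι → ℝ) {s : ℝ} (hs : 0 < s) (ha : a ⬝ᵥ a ≤ s) :
    ∫ ξ, |a ⬝ᵥ ξ| ^ 4 ∂E.gv ι ≤ 300 * s ^ 2 := by
  have h0 : ∫ ξ, a ⬝ᵥ ξ ∂E.gv ι = 0 :=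
    int_odd (elip_lin a).continuous fun ξ => dotProduct_neg a ξ
  have h1 := subG_lip' (elip_lin a) (c := NNReal.mk s hs.le) (by rw [nrm_sq]; exact ha)
  have h2 := subG_moment h1 (by exact hs) (p := 4) (by norm_num)
  simp only [show (∫ ξ, a ⬝ᵥ ξ ∂Conc.gv ι) = 0 from h0, sub_zero, NNReal.coe_mk] at h2
  refine h2.trans ?_
  have h3 : √(Real.exp 1 * s * (4 : ℕ)) ^ 4 = (Real.exp 1 * s * 4) ^ 2 := by
    rw [show (4 : ℕ) = 2 * 2 from rfl, pow_mul, Real.sq_sqrt (by positivity)]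
    norm_num
  rw [h3]
  have h4 : Real.exp 1 ≤ 3 := by linarith [Real.exp_one_lt_d9]
  have h5 : Real.exp 1 ^ 2 ≤ 9 := by nlinarith [Real.exp_pos 1]
  have h6 : (Real.exp 1 * s * 4) ^ 2 = 16 * (Real.exp 1 ^ 2 * s ^ 2) := by ring
  rw [h6]
  nlinarith [sq_nonneg s]

/-! ### the clipped increment -/

/-- clipped linear image of the seed -/
def del (c : Fin n → ℝ) (N : Matrix (Fin n) ι ℝ) (ξ : ι → ℝ) : Fin n → ℝ :=
  fun i => clip (c i) ((N *ᵥ ξ) i)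

variable {c : Fin n → ℝ} {N : Matrix (Fin n) ι ℝ}

theorem del_neg (hc : ∀ i, 0 ≤ c i) (ξ : ι → ℝ) : del c N (-ξ) = -del c N ξ := by
  funext i
  simp only [del, mulVec_neg, Pi.neg_apply, clip_neg (hc i)]

theorem nrm_le_of_abs {κ : Type*} [Fintype κ] [DecidableEq κ] {u v : κ → ℝ} (h : ∀ i, |u i| ≤ |v i|) :
    nrm u ≤ nrm v := by
  unfold nrm
  refine Real.sqrt_le_sqrt (Finset.sum_le_sum fun i _ => ?_)
  rw [← sq, ← sq]
  exact sq_le_sq.2 (h i)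

theorem nrm_le_of_bdd {u : Fin n → ℝ} {r : ℝ} (hr : 0 ≤ r) (h : ∀ i, |u i| ≤ r) :
    nrm u ≤ r * √n := by
  rw [nrm_le_iff (by positivity), mul_pow, Real.sq_sqrt (Nat.cast_nonneg n)]
  calc u ⬝ᵥ u ≤ ∑ _i : Fin n, r ^ 2 := Finset.sum_le_sum fun i _ => by
        rw [← sq, ← sq_abs]; exact pow_le_pow_left₀ (abs_nonneg _) (h i) 2
    _ = r ^ 2 * n := by simp [mul_comm]

theorem nrm_del_sub {ν : ℝ} (hN : opn N ≤ ν) (ξ ξ' : ι → ℝ) :
    nrm (del c N ξ - del c N ξ') ≤ ν * en (ξ - ξ') := by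
  have h1 : nrm (del c N ξ - del c N ξ') ≤ nrm (N *ᵥ (ξ - ξ')) := nrm_le_of_abs fun i => by
    rw [mulVec_sub]; exact clip_lip _ _ _
  rw [en_eq_nrm]
  exact h1.trans ((nrm_mulVec_le _ _).trans (mul_le_mul_of_nonneg_right hN (nrm_nonneg _)))

theorem elip_del_lin {ν : ℝ} (hN : opn N ≤ ν) (v : Fin n → ℝ) :
    ELip (nrm v * ν) fun ξ => v ⬝ᵥ del c N ξ := fun ξ ξ' => by
  rw [← dotProduct_sub, mul_assoc]
  exact (Eig.abs_dot_le _ _).trans (mul_le_mul_of_nonneg_left (nrm_del_sub hN ξ ξ') (nrm_nonneg _))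

theorem ball_lin {ν : ℝ} (hc : ∀ i, 0 ≤ c i) (hN : opn N ≤ ν) (v : Fin n → ℝ) {x : ℝ}
    (hx : 1 ≤ x) :
    Ball (2 * Real.exp (-x ^ 2 / 2)) 1 fun ξ => |v ⬝ᵥ del c N ξ| ≤ 2 * x * (nrm v * ν) := by
  have h := elip_del_lin (c := c) hN v
  have h0 : ∫ ξ, v ⬝ᵥ del c N ξ ∂E.gv ι = 0 :=
    int_odd h.continuous fun ξ => by rw [del_neg hc, dotProduct_neg]
  have := ball_abs h (mul_nonneg (nrm_nonneg _) ((opn_nonneg N).trans hN)) hx
  simpa only [h0, sub_zero] using this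

theorem elip_del_quad {ν cb a : ℝ} (hc : ∀ i, 0 ≤ c i) (hcb : ∀ i, c i ≤ cb) (hcb0 : 0 ≤ cb)
    (hN : opn N ≤ ν) {Q : Matrix (Fin n) (Fin n) ℝ} (hQ : opn Q ≤ a) :
    ELip (2 * a * (cb * √n) * ν) fun ξ => del c N ξ ⬝ᵥ Q *ᵥ del c N ξ := fun ξ ξ' => by
  have hb : ∀ ξ, nrm (del c N ξ) ≤ cb * √n := fun ξ =>
    nrm_le_of_bdd hcb0 fun i => (abs_clip_le (hc i) _).trans (hcb i)
  have ha : 0 ≤ a := (opn_nonneg Q).trans hQ
  set u := del c N ξ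
  set v := del c N ξ'
  have e : u ⬝ᵥ Q *ᵥ u - v ⬝ᵥ Q *ᵥ v = (u - v) ⬝ᵥ Q *ᵥ u + v ⬝ᵥ Q *ᵥ (u - v) := by
    rw [sub_dotProduct, mulVec_sub, dotProduct_sub]; ring
  have h1 := abs_bil_le Q (u - v) u
  have h2 := abs_bil_le Q v (u - v)
  have h3 : nrm (u - v) ≤ ν * en (ξ - ξ') := nrm_del_sub hN ξ ξ'
  have h4 : nrm (u - v) * nrm u ≤ (ν * en (ξ - ξ')) * (cb * √n) :=
    mul_le_mul h3 (hb ξ) (nrm_nonneg _) ((nrm_nonneg _).trans h3)
  have h5 : nrm v * nrm (u - v) ≤ (cb * √n) * (ν * en (ξ - ξ')) :=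
    mul_le_mul (hb ξ') h3 (nrm_nonneg _) (by positivity)
  have h6 := mul_le_mul hQ h4 (mul_nonneg (nrm_nonneg _) (nrm_nonneg _)) ha
  have h7 := mul_le_mul hQ h5 (mul_nonneg (nrm_nonneg _) (nrm_nonneg _)) ha
  rw [e]
  refine (abs_add_le _ _).trans ?_
  nlinarith

theorem elip_row (N : Matrix (Fin n) ι ℝ) (i : Fin n) : ELip (nrm (N i)) fun ξ => (N *ᵥ ξ) i :=
  elip_lin (N i)

theorem elip_del (c : Fin n → ℝ) (N : Matrix (Fin n) ι ℝ) (i : Fin n) :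
    ELip (nrm (N i)) fun ξ => del c N ξ i := fun ξ ξ' =>
  (clip_lip _ _ _).trans (elip_row N i ξ ξ')

theorem elip_rem (c : Fin n → ℝ) (N : Matrix (Fin n) ι ℝ) (i : Fin n) :
    ELip (nrm (N i) + nrm (N i)) fun ξ => (N *ᵥ ξ - del c N ξ) i := by
  have := (elip_row N i).add (elip_del c N i).neg
  simpa only [Pi.sub_apply, sub_eq_add_neg] using this

theorem quad_sum (Q : Matrix (Fin n) (Fin n) ℝ) (u : Fin n → ℝ) :
    u ⬝ᵥ Q *ᵥ u = ∑ i, ∑ j, Q i j * (u i * u j) := by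
  simp only [dotProduct, mulVec, Finset.mul_sum]
  exact Finset.sum_congr rfl fun i _ => Finset.sum_congr rfl fun j _ => by ring

theorem int_quad_vec {u : (ι → ℝ) → Fin n → ℝ} {L : Fin n → ℝ}
    (h : ∀ i, ELip (L i) fun ξ => u ξ i) (Q : Matrix (Fin n) (Fin n) ℝ) :
    Integrable (fun ξ => u ξ ⬝ᵥ Q *ᵥ u ξ) (E.gv ι) := by
  simp only [quad_sum]
  exact integrable_finsetSum _ fun i _ => integrable_finsetSum _ fun j _ =>
    (elip_int_mul (h i) (h j)).const_mul _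

theorem int_dot_vec {u v : (ι → ℝ) → Fin n → ℝ} {L L' : Fin n → ℝ}
    (h : ∀ i, ELip (L i) fun ξ => u ξ i) (h' : ∀ i, ELip (L' i) fun ξ => v ξ i) :
    Integrable (fun ξ => u ξ ⬝ᵥ v ξ) (E.gv ι) :=
  integrable_finsetSum _ fun i _ => elip_int_mul (h i) (h' i)

theorem mean_quad0 (N : Matrix (Fin n) ι ℝ) (Q : Matrix (Fin n) (Fin n) ℝ) :
    ∫ ξ, (N *ᵥ ξ) ⬝ᵥ Q *ᵥ (N *ᵥ ξ) ∂E.gv ι = (Q * (N * Nᵀ)).trace := by
  simp only [quad_sum]
  refine (integral_finsetSum _ fun i _ => integrable_finsetSum _ fun j _ =>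
    (elip_int_mul (elip_row N i) (elip_row N j)).const_mul (Q i j)).trans ?_
  simp only [trace, diag_apply, Matrix.mul_apply (M := Q)]
  refine Finset.sum_congr rfl fun i _ => ?_
  refine (integral_finsetSum _ fun j _ =>
    (elip_int_mul (elip_row N i) (elip_row N j)).const_mul (Q i j)).trans ?_
  refine Finset.sum_congr rfl fun j _ => ?_
  rw [integral_const_mul]
  congr 1
  have := int_lin_mul (N i) (N j)
  refine this.trans ?_
  simp only [Matrix.mul_apply, transpose_apply, dotProduct, mul_comm]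

theorem mean_sq0 (N : Matrix (Fin n) ι ℝ) :
    ∫ ξ, (N *ᵥ ξ) ⬝ᵥ (N *ᵥ ξ) ∂E.gv ι = (N * Nᵀ).trace := by
  simpa using mean_quad0 N 1

/-- the mean square of the clipped part -/
def R2 (c : Fin n → ℝ) (N : Matrix (Fin n) ι ℝ) : ℝ :=
  ∫ ξ, (N *ᵥ ξ - del c N ξ) ⬝ᵥ (N *ᵥ ξ - del c N ξ) ∂E.gv ι

theorem R2_le (hc : ∀ i, 0 ≤ c i) {c0 s r : ℝ} (hc0 : 0 < c0) (hs : 0 < s)
    (h1 : ∀ i, (N * Nᵀ) i i ≤ s) (h2 : ∀ i, c i < c0 → (N * Nᵀ) i i ≤ r) (hr : 0 ≤ r) :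
    R2 c N ≤ n * (r + 300 * s ^ 2 / c0 ^ 2) := by
  unfold R2
  simp only [dotProduct]
  rw [integral_finsetSum _ fun i _ => elip_int_mul (elip_rem c N i) (elip_rem c N i)]
  have hd : ∀ i, (N * Nᵀ) i i = N i ⬝ᵥ N i := fun i => by
    simp only [Matrix.mul_apply, transpose_apply, dotProduct]
  have key : ∀ i, ∫ ξ, (N *ᵥ ξ - del c N ξ) i * (N *ᵥ ξ - del c N ξ) i ∂E.gv ι ≤
      r + 300 * s ^ 2 / c0 ^ 2 := fun i => by
    have hi := elip_int_mul (elip_rem c N i) (elip_rem c N i)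
    rcases lt_or_ge (c i) c0 with h | h
    · have h3 := integral_mono hi (elip_int_mul (elip_row N i) (elip_row N i)) fun ξ => by
        have := sub_clip_sq_le (hc i) ((N *ᵥ ξ) i)
        rw [sq, sq] at this
        exact this
      have h4 : ∫ ξ, (N *ᵥ ξ) i * (N *ᵥ ξ) i ∂E.gv ι = N i ⬝ᵥ N i := int_lin_mul (N i) (N i)
      have h5 := h2 i h
      have h6 : 0 ≤ 300 * s ^ 2 / c0 ^ 2 := by positivity
      rw [hd] at h5
      linarith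
    · have h3 := integral_mono hi ((elip_int_pow (elip_row N i) 4).div_const (c0 ^ 2)) fun ξ => by
        have := sub_clip_sq_le4 hc0 h ((N *ᵥ ξ) i)
        rw [sq] at this
        exact this
      rw [integral_div] at h3
      have h4 : ∫ ξ, |(N *ᵥ ξ) i| ^ 4 ∂E.gv ι ≤ 300 * s ^ 2 :=
        int_lin4 (N i) hs (hd i ▸ h1 i)
      have h5 := div_le_div_of_nonneg_right h4 (sq_nonneg c0)
      linarith
  calc _ ≤ ∑ _i : Fin n, (r + 300 * s ^ 2 / c0 ^ 2) := Finset.sum_le_sum fun i _ => key i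
    _ = _ := by simp [mul_add]

theorem mean_quad (hc : ∀ i, 0 ≤ c i) {Q : Matrix (Fin n) (Fin n) ℝ} {a l : ℝ} (hQ : opn Q ≤ a)
    (hl : 0 < l) :
    |∫ ξ, del c N ξ ⬝ᵥ Q *ᵥ del c N ξ ∂E.gv ι - (Q * (N * Nᵀ)).trace| ≤
      a * (R2 c N / l + l * (N * Nᵀ).trace) := by
  have ha : 0 ≤ a := (opn_nonneg Q).trans hQ
  have i1 := int_quad_vec (u := del c N) (elip_del c N) Q
  have i2 := int_quad_vec (u := fun ξ => N *ᵥ ξ) (elip_row N) Q
  have i3 := int_dot_vec (u := fun ξ => N *ᵥ ξ - del c N ξ) (v := fun ξ => N *ᵥ ξ - del c N ξ)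
    (elip_rem c N) (elip_rem c N)
  have i4 := int_dot_vec (u := fun ξ => N *ᵥ ξ) (v := fun ξ => N *ᵥ ξ) (elip_row N) (elip_row N)
  rw [← mean_quad0, ← integral_sub i1 i2, ← mean_sq0, R2, ← integral_div, ← integral_const_mul,
    ← integral_add (i3.div_const l) (i4.const_mul l), ← integral_const_mul]
  refine (abs_integral_le_integral_abs).trans (integral_mono (i1.sub i2).abs
    (((i3.div_const l).add (i4.const_mul l)).const_mul a) fun ξ => ?_)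
  set u := del c N ξ
  set z := N *ᵥ ξ
  have e : u ⬝ᵥ Q *ᵥ u - z ⬝ᵥ Q *ᵥ z = -((z - u) ⬝ᵥ Q *ᵥ u + z ⬝ᵥ Q *ᵥ (z - u)) := by
    rw [sub_dotProduct, mulVec_sub, dotProduct_sub]; ring
  have h1 := abs_bil_le Q (z - u) u
  have h2 := abs_bil_le Q z (z - u)
  have h3 : nrm u ≤ nrm z := nrm_le_of_abs fun i => abs_clip_le_abs (hc i) _
  have h4 : nrm (z - u) * nrm u ≤ nrm (z - u) * nrm z := mul_le_mul_of_nonneg_left h3 (nrm_nonneg _)
  have h5 : 2 * (nrm (z - u) * nrm z) ≤ nrm (z - u) ^ 2 / l + l * nrm z ^ 2 := by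
    rw [div_add' _ _ _ hl.ne', le_div_iff₀ hl]
    nlinarith [sq_nonneg (nrm (z - u) - l * nrm z)]
  have h6 := mul_le_mul hQ h4 (mul_nonneg (nrm_nonneg _) (nrm_nonneg _)) ha
  have h7 := mul_le_mul hQ (le_refl (nrm z * nrm (z - u)))
    (mul_nonneg (nrm_nonneg _) (nrm_nonneg _)) ha
  have h8 := mul_le_mul_of_nonneg_left h5 ha
  show |u ⬝ᵥ Q *ᵥ u - z ⬝ᵥ Q *ᵥ z| ≤ a * ((z - u) ⬝ᵥ (z - u) / l + l * z ⬝ᵥ z)
  rw [e, abs_neg, ← nrm_sq, ← nrm_sq]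
  refine (abs_add_le _ _).trans ?_
  nlinarith

theorem ball_quad {ν cb a l : ℝ} (hc : ∀ i, 0 ≤ c i) (hcb : ∀ i, c i ≤ cb) (hcb0 : 0 ≤ cb)
    (hN : opn N ≤ ν) {Q : Matrix (Fin n) (Fin n) ℝ} (hQ : opn Q ≤ a) (hl : 0 < l) {x : ℝ}
    (hx : 1 ≤ x) :
    Ball (2 * Real.exp (-x ^ 2 / 2)) 1 fun ξ =>
      |del c N ξ ⬝ᵥ Q *ᵥ del c N ξ - (Q * (N * Nᵀ)).trace| ≤
        a * (R2 c N / l + l * (N * Nᵀ).trace) + 2 * x * (2 * a * (cb * √n) * ν) := by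
  have ha : 0 ≤ a := (opn_nonneg Q).trans hQ
  have hν : 0 ≤ ν := (opn_nonneg N).trans hN
  refine (ball_abs (elip_del_quad hc hcb hcb0 hN hQ) (by positivity) hx).mono le_rfl
    fun ξ hξ => ?_
  have h1 := mean_quad (N := N) hc hQ hl
  have h2 := abs_sub_le (del c N ξ ⬝ᵥ Q *ᵥ del c N ξ)
    (∫ ξ, del c N ξ ⬝ᵥ Q *ᵥ del c N ξ ∂E.gv ι) (Q * (N * Nᵀ)).trace
  linarith

theorem ball_diag {ν cb a : ℝ} (hc : ∀ i, 0 ≤ c i) (hcb : ∀ i, c i ≤ cb) (hcb0 : 0 ≤ cb)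
    (hN : opn N ≤ ν) {D : Fin n → ℝ} (hD0 : ∀ i, 0 ≤ D i) (hD : ∀ i, D i ≤ a) (ha : 0 ≤ a) {x : ℝ}
    (hx : 1 ≤ x) :
    Ball (Real.exp (-x ^ 2 / 2)) 1 fun ξ =>
      del c N ξ ⬝ᵥ diagonal D *ᵥ del c N ξ ≤
        (diagonal D * (N * Nᵀ)).trace + 2 * x * (2 * a * (cb * √n) * ν) := by
  have hν : 0 ≤ ν := (opn_nonneg N).trans hN
  have hQ : opn (diagonal D) ≤ a := opn_diagonal_le ha fun i => by rw [abs_of_nonneg (hD0 i)]; exact hD i
  refine (ball_upper (elip_del_quad hc hcb hcb0 hN hQ) (by positivity) hx).mono le_rfl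
    fun ξ hξ => ?_
  have h1 := integral_mono (int_quad_vec (u := del c N) (elip_del c N) (diagonal D))
    (int_quad_vec (u := fun ξ => N *ᵥ ξ) (elip_row N) (diagonal D)) fun ξ => by
      simp only [dotProduct, mulVec_diagonal]
      refine Finset.sum_le_sum fun i _ => ?_
      have h2 : del c N ξ i ^ 2 ≤ (N *ᵥ ξ) i ^ 2 := sq_le_sq.2 (abs_clip_le_abs (hc i) _)
      nlinarith [hD0 i]
  rw [mean_quad0] at h1
  linarith

/-! ### the first half of the seed -/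

/-- the first half of the seed -/
def fst (ξ : Fin n ⊕ Fin n → ℝ) : Fin n → ℝ := fun i => ξ (Sum.inl i)

theorem nrm_fst_le (ξ : Fin n ⊕ Fin n → ℝ) : nrm (fst ξ) ≤ en ξ := by
  unfold nrm en
  refine Real.sqrt_le_sqrt ?_
  rw [Fintype.sum_sum_type]
  have : 0 ≤ ∑ i : Fin n, ξ (Sum.inr i) ^ 2 := by positivity
  simp only [dotProduct, fst, ← sq]
  linarith

theorem elip_fst (i : Fin n) : ELip 1 fun ξ : Fin n ⊕ Fin n → ℝ => fst ξ i := fun ξ ξ' => by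
  rw [one_mul]; exact abs_le_en (ξ - ξ') (Sum.inl i)

theorem fst_eq (ξ : Fin n ⊕ Fin n → ℝ) (i : Fin n) : fst ξ i = Pi.single (Sum.inl i) 1 ⬝ᵥ ξ := by
  simp [fst]

theorem mean_fst_sq : ∫ ξ : Fin n ⊕ Fin n → ℝ, fst ξ ⬝ᵥ fst ξ ∂E.gv _ = n := by
  refine (integral_finsetSum _ fun i _ => elip_int_mul (elip_fst i) (elip_fst i)).trans ?_
  simp only [fst_eq, int_lin_mul]
  simp

theorem ball_fst {x : ℝ} (hx : 1 ≤ x) :
    Ball (Real.exp (-x ^ 2 / 2)) 1 fun ξ : Fin n ⊕ Fin n → ℝ => nrm (fst ξ) ≤ √n + 2 * x := by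
  have h : ELip 1 fun ξ : Fin n ⊕ Fin n → ℝ => nrm (fst ξ) := fun ξ ξ' => by
    show |nrm (fst ξ) - nrm (fst ξ')| ≤ _
    rw [one_mul, ← en_eq_nrm, ← en_eq_nrm]
    refine (abs_en_sub_le _ _).trans ?_
    rw [en_eq_nrm]
    exact nrm_fst_le (ξ - ξ')
  refine (ball_upper h zero_le_one hx).mono le_rfl fun ξ hξ => ?_
  have i2 : Integrable (fun ξ : Fin n ⊕ Fin n → ℝ => nrm (fst ξ) ^ 2) (E.gv _) := by
    simpa only [sq] using elip_int_mul h h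
  have h1 := integral_abs_le_sqrt h.integrable i2
  simp only [abs_of_nonneg (nrm_nonneg _), nrm_sq] at h1
  have h2 : (∫ ξ : Fin n ⊕ Fin n → ℝ, fst ξ ⬝ᵥ fst ξ ∂Conc.gv _) = n := mean_fst_sq
  rw [h2] at h1
  have h3 : (∫ ξ : Fin n ⊕ Fin n → ℝ, nrm (fst ξ) ∂E.gv _) ≤ √n := h1
  linarith

theorem ball_cross {c : Fin n → ℝ} {N : Matrix (Fin n) (Fin n ⊕ Fin n) ℝ} {ν cb R l : ℝ}
    (hc : ∀ i, 0 ≤ c i) (hcb : ∀ i, c i ≤ cb) (hcb0 : 0 ≤ cb) (hN : opn N ≤ ν) (hR : 0 < R)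
    (hl : 0 < l) {x : ℝ} (hx : 1 ≤ x) :
    Ball (Real.exp (-x ^ 2 / 2)) 1 fun ξ =>
      ∑ i, N i (Sum.inl i) - (l * n + R2 c N / l) - 2 * cb * n / R -
        2 * x * ((R * ν + 2 * cb + cb) * √n) ≤ fst ξ ⬝ᵥ del c N ξ := by
  have hν : 0 ≤ ν := (opn_nonneg N).trans hN
  set gc : (Fin n ⊕ Fin n → ℝ) → Fin n → ℝ := fun ξ i => clip R (fst ξ i) with hgc
  set T : (Fin n ⊕ Fin n → ℝ) → ℝ := fun ξ => ∑ i, |fst ξ i - gc ξ i| with hT
  have hb : ∀ ξ, nrm (del c N ξ) ≤ cb * √n := fun ξ =>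
    nrm_le_of_bdd hcb0 fun i => (abs_clip_le (hc i) _).trans (hcb i)
  have hg : ∀ ξ, nrm (gc ξ) ≤ R * √n := fun ξ => nrm_le_of_bdd hR.le fun i => abs_clip_le hR.le _
  have hgl : ∀ ξ ξ', nrm (gc ξ - gc ξ') ≤ en (ξ - ξ') := fun ξ ξ' =>
    (nrm_le_of_abs (v := fst (ξ - ξ')) fun i => clip_lip _ _ _).trans (nrm_fst_le _)
  have hl1 : ELip ((R * ν + cb) * √n) fun ξ => gc ξ ⬝ᵥ del c N ξ := fun ξ ξ' => by
    have e : gc ξ ⬝ᵥ del c N ξ - gc ξ' ⬝ᵥ del c N ξ' =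
        gc ξ ⬝ᵥ (del c N ξ - del c N ξ') + (gc ξ - gc ξ') ⬝ᵥ del c N ξ' := by
      rw [dotProduct_sub, sub_dotProduct]; ring
    have h1 := (Eig.abs_dot_le (gc ξ) (del c N ξ - del c N ξ')).trans
      (mul_le_mul (hg ξ) (nrm_del_sub hN ξ ξ') (nrm_nonneg _) (by positivity))
    have h2 := (Eig.abs_dot_le (gc ξ - gc ξ') (del c N ξ')).trans
      (mul_le_mul (hgl ξ ξ') (hb ξ') (nrm_nonneg _) (en_nonneg _))
    show |gc ξ ⬝ᵥ del c N ξ - gc ξ' ⬝ᵥ del c N ξ'| ≤ _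
    rw [e]
    refine (abs_add_le _ _).trans ?_
    linarith
  have hl2 : ELip (2 * √n) T := fun ξ ξ' => by
    have h1 : |T ξ - T ξ'| ≤ ∑ i, 2 * |fst (ξ - ξ') i| := by
      simp only [hT]
      rw [← Finset.sum_sub_distrib]
      refine (Finset.abs_sum_le_sum_abs _ _).trans (Finset.sum_le_sum fun i _ => ?_)
      refine (abs_abs_sub_abs_le _ _).trans ?_
      have h2 := clip_lip R (fst ξ i) (fst ξ' i)
      have h3 : fst (ξ - ξ') i = fst ξ i - fst ξ' i := rfl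
      rw [h3, show fst ξ i - gc ξ i - (fst ξ' i - gc ξ' i) =
        (fst ξ i - fst ξ' i) - (gc ξ i - gc ξ' i) by ring]
      refine (abs_sub _ _).trans ?_
      simp only [hgc]
      linarith
    have h2 : ∑ i, |fst (ξ - ξ') i| ≤ √n * nrm (fst (ξ - ξ')) := by
      have h3 := Eig.dot_le (fun _ : Fin n => (1 : ℝ)) fun i => |fst (ξ - ξ') i|
      have h4 : nrm (fun _ : Fin n => (1 : ℝ)) ≤ 1 * √n := nrm_le_of_bdd zero_le_one fun _ => by simp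
      have h5 : nrm (fun i => |fst (ξ - ξ') i|) ≤ nrm (fst (ξ - ξ')) :=
        nrm_le_of_abs fun i => by rw [abs_abs]
      simp only [dotProduct, one_mul] at h3 h4
      exact h3.trans (mul_le_mul h4 h5 (nrm_nonneg _) (Real.sqrt_nonneg _))
    rw [← Finset.mul_sum] at h1
    have h3 := mul_le_mul_of_nonneg_left (nrm_fst_le (ξ - ξ')) (Real.sqrt_nonneg (n : ℝ))
    linarith
  have hF := hl1.add ((hl2.const_mul cb).neg)
  have hcmp : ∀ ξ, |fst ξ ⬝ᵥ del c N ξ - gc ξ ⬝ᵥ del c N ξ| ≤ cb * T ξ := fun ξ => by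
    rw [← sub_dotProduct, hT, Finset.mul_sum]
    refine (Finset.abs_sum_le_sum_abs _ _).trans (Finset.sum_le_sum fun i _ => ?_)
    rw [abs_mul, mul_comm]
    exact mul_le_mul_of_nonneg_right ((abs_clip_le (hc i) _).trans (hcb i)) (abs_nonneg _)
  -- the means
  have i1 := int_dot_vec (u := fst) (v := del c N) elip_fst (elip_del c N)
  have i2 := int_dot_vec (u := fst) (v := fun ξ => N *ᵥ ξ) elip_fst (elip_row N)
  have i3 := int_dot_vec (u := fun ξ => N *ᵥ ξ - del c N ξ) (v := fun ξ => N *ᵥ ξ - del c N ξ)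
    (elip_rem c N) (elip_rem c N)
  have i4 := int_dot_vec (u := fst (n := n)) (v := fst) elip_fst elip_fst
  have m2 : ∫ ξ, fst ξ ⬝ᵥ (N *ᵥ ξ) ∂E.gv _ = ∑ i, N i (Sum.inl i) := by
    refine (integral_finsetSum _ fun i _ => elip_int_mul (elip_fst i) (elip_row N i)).trans ?_
    refine Finset.sum_congr rfl fun i _ => ?_
    simp only [fst_eq]
    refine (int_lin_mul (Pi.single (Sum.inl i) 1) (N i)).trans ?_
    simp
  have mT : ∫ ξ, T ξ ∂E.gv _ ≤ n / R := by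
    have h1 := integral_mono hl2.integrable (i4.div_const R) fun ξ => by
      show T ξ ≤ fst ξ ⬝ᵥ fst ξ / R
      simp only [hT, dotProduct, Finset.sum_div, ← sq]
      exact Finset.sum_le_sum fun i _ => abs_sub_clip_le_sq hR _
    rw [integral_div, mean_fst_sq] at h1
    exact h1
  have m1 : ∫ ξ, (fst ξ ⬝ᵥ (N *ᵥ ξ) - (l * fst ξ ⬝ᵥ fst ξ +
      (N *ᵥ ξ - del c N ξ) ⬝ᵥ (N *ᵥ ξ - del c N ξ) / l) - 2 * cb * T ξ) ∂E.gv _ ≤
      ∫ ξ, (gc ξ ⬝ᵥ del c N ξ + -(cb * T ξ)) ∂E.gv _ := by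
    refine integral_mono ((i2.sub ((i4.const_mul l).add (i3.div_const l))).sub
      (hl2.integrable.const_mul _)) hF.integrable fun ξ => ?_
    have h1 := (abs_le.1 (hcmp ξ)).2
    have h2 := Eig.dot_le (fst ξ) (N *ᵥ ξ - del c N ξ)
    rw [dotProduct_sub] at h2
    have h3 : nrm (fst ξ) * nrm (N *ᵥ ξ - del c N ξ) ≤
        l * nrm (fst ξ) ^ 2 + nrm (N *ᵥ ξ - del c N ξ) ^ 2 / l := by
      rw [add_div' _ _ _ hl.ne', le_div_iff₀ hl]
      nlinarith [sq_nonneg (l * nrm (fst ξ) - nrm (N *ᵥ ξ - del c N ξ)),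
        mul_nonneg (mul_nonneg (nrm_nonneg (fst ξ)) (nrm_nonneg (N *ᵥ ξ - del c N ξ))) hl.le]
    rw [nrm_sq, nrm_sq] at h3
    show _ ≤ gc ξ ⬝ᵥ del c N ξ + -(cb * T ξ)
    linarith
  have i5 : Integrable (fun ξ : Fin n ⊕ Fin n → ℝ => l * fst ξ ⬝ᵥ fst ξ +
      (N *ᵥ ξ - del c N ξ) ⬝ᵥ (N *ᵥ ξ - del c N ξ) / l) (E.gv _) :=
    (i4.const_mul l).add (i3.div_const l)
  have i6 : Integrable (fun ξ : Fin n ⊕ Fin n → ℝ => fst ξ ⬝ᵥ (N *ᵥ ξ) - (l * fst ξ ⬝ᵥ fst ξ +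
      (N *ᵥ ξ - del c N ξ) ⬝ᵥ (N *ᵥ ξ - del c N ξ) / l)) (E.gv _) := i2.sub i5
  rw [integral_sub i6 (hl2.integrable.const_mul _), integral_sub i2 i5,
    integral_add (i4.const_mul l) (i3.div_const l), integral_const_mul, integral_const_mul,
    integral_div, m2, mean_fst_sq] at m1
  have mT' : 2 * cb * ∫ ξ, T ξ ∂E.gv _ ≤ 2 * cb * n / R := by
    rw [mul_div_assoc]; exact mul_le_mul_of_nonneg_left mT (by positivity)
  refine (ball_lower hF (by positivity) hx).mono le_rfl fun ξ hξ => ?_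
  have h1 := (abs_le.1 (hcmp ξ)).1
  rw [abs_of_nonneg hcb0] at hξ
  have e : (R * ν + cb) * √n + cb * (2 * √n) = (R * ν + 2 * cb + cb) * √n := by ring
  rw [e] at hξ
  unfold R2
  linarith

end Crest.Agent.T157.St

end
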