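import Crest.Agent.T157.StA_44
import Crest.Agent.T157.StB_44

/-!
# Row 157, part D (helper44): the matrices `K`, `M` and the deterministic step of the potential
-/

set_option autoImplicit false

noncomputable section

namespace Crest.Agent.T157.St

open MeasureTheory Matrix Set Finset
open Crest.Agent.T157.Eig Crest.Agent.T157.Conc

variable {n : ℕ} {A : Matrix (Fin n) (Fin n) ℝ} {D : Fin n → ℝ} {w1 w2 : ℝ}

theorem Bm_herm (hA : A.IsHermitian) (D : Fin n → ℝ) (w1 : ℝ) : (Bm A D w1).IsHermitian :=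
  (isHermitian_diagonal _).sub hA

theorem herm_T {B : Matrix (Fin n) (Fin n) ℝ} (h : B.IsHermitian) : Bᵀ = B := by
  rw [← conjTranspose_eq_transpose_of_trivial]; exact h

theorem sq_add_eq {B : Matrix (Fin n) (Fin n) ℝ} (hB : B.IsHermitian) (w : ℝ) :
    B * B + (w ^ 2) • (1 : Matrix (Fin n) (Fin n) ℝ) = fnK (fun x : ℝ => x * x + w ^ 2) B := by
  rw [fnK_add, ← fnK_mul hB, fnK_id_real hB, fnK_const hB]

theorem Km_eq (hA : A.IsHermitian) (hw : 0 < w2) :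
    Km A D w1 w2 = fnK (fun x : ℝ => (x * x + w2 ^ 2)⁻¹) (Bm A D w1) := by
  have hB := Bm_herm hA D w1
  unfold Km
  rw [sq_add_eq hB, fnK_inv hB fun k _ => by
    have := mul_self_nonneg (lam (Bm A D w1) k)
    positivity]

theorem Km_herm (hA : A.IsHermitian) (hw : 0 < w2) : (Km A D w1 w2).IsHermitian := by
  rw [Km_eq hA hw]; exact fnK_herm _ _

theorem BK_eq (hA : A.IsHermitian) (hw : 0 < w2) :
    Bm A D w1 * Km A D w1 w2 = fnK (fun x : ℝ => x * (x * x + w2 ^ 2)⁻¹) (Bm A D w1) := by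
  have hB := Bm_herm hA D w1
  rw [Km_eq hA hw, ← fnK_mul hB (fun x => x), fnK_id_real hB]

theorem MMt (hA : A.IsHermitian) (hw : 0 < w2) :
    Mm A D w1 w2 * (Mm A D w1 w2)ᵀ = Km A D w1 w2 := by
  have hB := Bm_herm hA D w1
  unfold Mm
  rw [transpose_fromCols, fromCols_mul_fromRows, transpose_smul, BK_eq hA hw, Km_eq hA hw,
    herm_T (fnK_herm _ _), herm_T (fnK_herm _ _), ← fnK_smul, fnK_mul hB, fnK_mul hB, ← fnK_add]
  refine fnK_congr fun k _ => ?_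
  have := mul_self_nonneg (lam (Bm A D w1) k)
  field_simp

theorem opn_Km (hA : A.IsHermitian) (hw : 0 < w2) : opn (Km A D w1 w2) ≤ (w2 ^ 2)⁻¹ := by
  rw [Km_eq hA hw]
  refine opn_fnK_le (Bm_herm hA D w1) (by positivity) fun k _ => ?_
  have := mul_self_nonneg (lam (Bm A D w1) k)
  rw [abs_of_pos (by positivity)]
  exact inv_anti₀ (by positivity) (by linarith)

theorem opn_Mm (hA : A.IsHermitian) (hw : 0 < w2) : opn (Mm A D w1 w2) ≤ w2⁻¹ := by
  have h1 := opn_transpose_mul_self (Mm A D w1 w2)ᵀ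
  rw [transpose_transpose, MMt hA hw, opn_transpose] at h1
  have h2 := opn_Km (D := D) (w1 := w1) hA hw
  rw [h1, ← sq, ← inv_pow] at h2
  exact (pow_le_pow_iff_left₀ (opn_nonneg _) (by positivity) two_ne_zero).1 h2

theorem Km_quad (hA : A.IsHermitian) (hw : 0 < w2) (v : Fin n → ℝ) :
    v ⬝ᵥ Km A D w1 w2 *ᵥ v = nrm ((Mm A D w1 w2)ᵀ *ᵥ v) ^ 2 := by
  rw [← MMt hA hw, nrm_sq, ← mulVec_mulVec, dotProduct_mulVec, ← mulVec_transpose]

theorem Km_diag_eq (K : Matrix (Fin n) (Fin n) ℝ) (i : Fin n) :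
    K i i = Pi.single i 1 ⬝ᵥ K *ᵥ Pi.single i 1 := by
  simp

theorem Km_diag_nonneg (hA : A.IsHermitian) (hw : 0 < w2) (i : Fin n) : 0 ≤ Km A D w1 w2 i i := by
  rw [Km_diag_eq (Km A D w1 w2) i, Km_quad hA hw]; positivity

theorem Km_diag_le (hA : A.IsHermitian) (hw : 0 < w2) (i : Fin n) :
    Km A D w1 w2 i i ≤ (w2 ^ 2)⁻¹ :=
  (le_abs_self _).trans ((abs_entry_le _ i i).trans (opn_Km hA hw))

theorem trK_nonneg (hA : A.IsHermitian) (hw : 0 < w2) : 0 ≤ (Km A D w1 w2).trace :=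
  Finset.sum_nonneg fun i _ => Km_diag_nonneg hA hw i

theorem nrm_MB (hA : A.IsHermitian) (hw : 0 < w2) (v : Fin n → ℝ) :
    nrm ((Mm A D w1 w2)ᵀ *ᵥ (Bm A D w1 *ᵥ v)) ≤ nrm v := by
  have hB := Bm_herm hA D w1
  have h1 : opn (Bm A D w1 * Km A D w1 w2 * Bm A D w1) ≤ 1 := by
    rw [BK_eq hA hw]
    nth_rewrite 2 [← fnK_id_real hB]
    rw [fnK_mul hB]
    refine opn_fnK_le hB zero_le_one fun k _ => ?_
    have := mul_self_nonneg (lam (Bm A D w1) k)
    set x := lam (Bm A D w1) k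
    rw [show x * (x * x + w2 ^ 2)⁻¹ * x = x * x / (x * x + w2 ^ 2) by ring,
      abs_of_nonneg (by positivity)]
    exact div_le_one_of_le₀ (by nlinarith) (by positivity)
  have h2 := Km_quad (D := D) (w1 := w1) hA hw (Bm A D w1 *ᵥ v)
  have h3 : (Bm A D w1 *ᵥ v) ⬝ᵥ Km A D w1 w2 *ᵥ (Bm A D w1 *ᵥ v) =
      v ⬝ᵥ (Bm A D w1 * Km A D w1 w2 * Bm A D w1) *ᵥ v := by
    rw [← mulVec_mulVec, ← mulVec_mulVec, dotProduct_mulVec v, ← mulVec_transpose, herm_T hB]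
  have h4 := (le_abs_self _).trans (abs_quad_le (Bm A D w1 * Km A D w1 w2 * Bm A D w1) v)
  have h5 : opn (Bm A D w1 * Km A D w1 w2 * Bm A D w1) * (v ⬝ᵥ v) ≤ 1 * (v ⬝ᵥ v) :=
    mul_le_mul_of_nonneg_right h1 (by rw [← nrm_sq]; positivity)
  refine (pow_le_pow_iff_left₀ (nrm_nonneg _) (nrm_nonneg _) two_ne_zero).1 ?_
  rw [← h2, h3, nrm_sq]
  linarith

/-- the diagonal of `K` is small where `D` is large -/
theorem Km_diag_D (hA : A.IsHermitian) (hw : 0 < w2) {CA : ℝ} (hCA : opn A ≤ CA) (i : Fin n) :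
    D i ^ 2 * Km A D w1 w2 i i ≤ (1 + (CA + |w1|) / w2) ^ 2 := by
  set e : Fin n → ℝ := Pi.single i 1 with he
  have h1 : D i • e = Bm A D w1 *ᵥ e + (A *ᵥ e - w1 • e) := by
    unfold Bm
    rw [sub_mulVec]
    funext j
    simp only [Pi.add_apply, Pi.sub_apply, Pi.smul_apply, smul_eq_mul, mulVec_diagonal, he]
    by_cases h : j = i
    · subst h; simp
    · simp [h]
  have h2 : nrm (A *ᵥ e - w1 • e) ≤ CA + |w1| := by
    refine (nrm_sub_le _ _).trans (add_le_add ?_ ?_)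
    · refine (nrm_mulVec_le _ _).trans ?_
      rw [he, nrm_single, mul_one]; exact hCA
    · rw [nrm_smul, he, nrm_single, mul_one]
  have h3 : nrm ((Mm A D w1 w2)ᵀ *ᵥ (D i • e)) ≤ 1 + (CA + |w1|) / w2 := by
    rw [h1, mulVec_add]
    refine (nrm_add_le _ _).trans (add_le_add ?_ ?_)
    · refine (nrm_MB hA hw e).trans ?_
      rw [he, nrm_single]
    · refine (nrm_mulVec_le _ _).trans ?_
      rw [opn_transpose, div_eq_inv_mul]
      exact mul_le_mul (opn_Mm hA hw) h2 (nrm_nonneg _) (by positivity)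
  rw [Km_diag_eq (Km A D w1 w2) i, Km_quad hA hw, ← he, ← sq_abs (D i), ← mul_pow, ← nrm_smul, ← mulVec_smul]
  exact pow_le_pow_left₀ (nrm_nonneg _) h3 2

theorem trace_BK (A : Matrix (Fin n) (Fin n) ℝ) (D : Fin n → ℝ) (w1 : ℝ)
    (K : Matrix (Fin n) (Fin n) ℝ) :
    (Bm A D w1 * K).trace = (diagonal D * K).trace + w1 * K.trace - (A * K).trace := by
  have e : Bm A D w1 = diagonal D + w1 • (1 : Matrix (Fin n) (Fin n) ℝ) - A := by
    unfold Bm
    congr 1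
    ext i j
    by_cases h : i = j
    · subst h; simp
    · simp [h]
  rw [e, sub_mul, add_mul, trace_sub, trace_add, smul_mul_assoc, one_mul, trace_smul, smul_eq_mul]

theorem trace_DK_le (hA : A.IsHermitian) (hw : 0 < w2) {D' : Fin n → ℝ} {a : ℝ}
    (h : ∀ i, D' i ≤ a) : (diagonal D' * Km A D w1 w2).trace ≤ a * (Km A D w1 w2).trace := by
  simp only [trace, diag_apply, diagonal_mul, Finset.mul_sum]
  exact Finset.sum_le_sum fun i _ => mul_le_mul_of_nonneg_right (h i) (Km_diag_nonneg hA hw i)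

theorem sum_Mm_inl (A : Matrix (Fin n) (Fin n) ℝ) (D : Fin n → ℝ) (w1 w2 : ℝ) :
    ∑ i, Mm A D w1 w2 i (Sum.inl i) = (Bm A D w1 * Km A D w1 w2).trace := by
  simp only [Mm, fromCols_apply_inl, trace, diag_apply]

/-! ### the deterministic step -/

variable {β C b : ℝ}

/-- the field on the active sites -/
def xt (S : Site β C b) (η : ℝ) (m : Fin n → ℝ) (i : Fin n) : ℝ :=
  if η ^ 6 < S.aa (qq m) (m i) then S.X (qq m) (m i) else 0

theorem cl_nonneg (S : Site β C b) (hC : 0 < C) (η : ℝ) (m : Fin n → ℝ) (i : Fin n) :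
    0 ≤ cl S η m i := by
  unfold cl
  have : 0 ≤ max (S.aa (qq m) (m i) - η ^ 6) 0 := le_max_right _ _
  positivity

theorem cl_le (S : Site β C b) (hC : 1 ≤ C) {η : ℝ} (hη : 0 < η) {m : Fin n → ℝ}
    (hm : m ∈ box n) (i : Fin n) : cl S η m i ≤ η ^ 14 / 2 := by
  unfold cl
  have h1 : max (S.aa (qq m) (m i) - η ^ 6) 0 ≤ 1 :=
    max_le (by linarith [S.aa_le (qq_mem hm) (m i), pow_pos hη 6]) zero_le_one
  rw [div_le_div_iff₀ (by positivity) (by norm_num)]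
  have h2 : 0 ≤ η ^ 14 := by positivity
  nlinarith [mul_le_mul_of_nonneg_left h1 h2]

theorem cl_le_sq (S : Site β C b) (hC : 0 < C) {η : ℝ} (hη : 0 < η) {m : Fin n → ℝ}
    (hm : m ∈ box n) (i : Fin n) :
    cl S η m i ≤ η ^ 8 * S.aa (qq m) (m i) ^ 2 / (2 * C) := by
  unfold cl
  refine div_le_div_of_nonneg_right ?_ (by positivity)
  have ha := S.aa_pos (qq_mem hm) (m i)
  set a := S.aa (qq m) (m i)
  have h6 : 0 < η ^ 6 := by positivity
  have h1 : η ^ 6 * max (a - η ^ 6) 0 ≤ a ^ 2 := by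
    rcases le_total (a - η ^ 6) 0 with h | h
    · rw [max_eq_right h, mul_zero]; positivity
    · rw [max_eq_left h]; nlinarith
  calc η ^ 14 * max (a - η ^ 6) 0 = η ^ 8 * (η ^ 6 * max (a - η ^ 6) 0) := by ring
    _ ≤ η ^ 8 * a ^ 2 := mul_le_mul_of_nonneg_left h1 (by positivity)

theorem cl_zero (S : Site β C b) {η : ℝ} {m : Fin n → ℝ} {i : Fin n}
    (h : ¬ η ^ 6 < S.aa (qq m) (m i)) : cl S η m i = 0 := by
  unfold cl
  rw [max_eq_right (by linarith [not_lt.1 h])]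
  simp

theorem cl_small (S : Site β C b) (hC : 0 < C) {η : ℝ} (hη : 0 < η) {m : Fin n → ℝ} {i : Fin n}
    (h : cl S η m i < η ^ 20 / (2 * C)) : (2 * η ^ 6)⁻¹ ≤ Dt S η m i := by
  unfold cl at h
  rw [div_lt_div_iff_of_pos_right (by positivity),
    show η ^ 20 = η ^ 14 * η ^ 6 by ring] at h
  have h1 := lt_of_mul_lt_mul_left h (by positivity)
  have h2 := (max_lt_iff.1 h1).1
  have h6 : 0 < η ^ 6 := by positivity
  unfold Dt
  exact inv_anti₀ (lt_max_of_lt_right h6) (max_le (by linarith) (by linarith))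

theorem Dt_mem (S : Site β C b) {η : ℝ} (hη : 0 < η) (hη1 : η ≤ 1) {m : Fin n → ℝ}
    (hm : m ∈ box n) (i : Fin n) : 1 ≤ Dt S η m i ∧ Dt S η m i ≤ (η ^ 6)⁻¹ := by
  have h6 : 0 < η ^ 6 := by positivity
  unfold Dt
  refine ⟨?_, inv_anti₀ h6 (le_max_right _ _)⟩
  rw [one_le_inv₀ (lt_max_of_lt_right h6)]
  exact max_le (S.aa_le (qq_mem hm) _) (pow_le_one₀ hη.le hη1)

theorem abs_xt_le (S : Site β C b) (hC : 0 < C) {η : ℝ} (hη : 0 < η) {m : Fin n → ℝ}
    (hm : m ∈ box n) (i : Fin n) : |xt S η m i| ≤ C / η ^ 6 := by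
  unfold xt
  split_ifs with h
  · have h1 := S.X_aa (qq_mem hm) (m i)
    rw [le_div_iff₀ (by positivity)]
    exact (mul_le_mul_of_nonneg_left h.le (abs_nonneg _)).trans h1
  · rw [abs_zero]; positivity

theorem V_step (S : Site β C b) (hC : 1 ≤ C) (hn : 0 < n) (hA : A.IsHermitian) {η : ℝ}
    (hη : 0 < η) (hη1 : η ≤ 1 / 2) {m : Fin n → ℝ} (hm : m ∈ box n) {δ : Fin n → ℝ}
    (hδ : ∀ i, |δ i| ≤ cl S η m i) :
    m + δ ∈ box n ∧
      V S A m + (A *ᵥ m - xt S η m - (β ^ 2 * av fun i => S.aa (qq m) (m i)) • m) ⬝ᵥ δ +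
          1 / 2 * (δ ⬝ᵥ A *ᵥ δ) - (1 + 2 * η ^ 8) / 2 * (δ ⬝ᵥ diagonal (Dt S η m) *ᵥ δ) -
          (β ^ 2 * av fun i => S.aa (qq m) (m i)) / 2 * (δ ⬝ᵥ δ) -
          (4 * C * β ^ 2 + 4 * C) * η ^ 7 * |2 * (m ⬝ᵥ δ) + δ ⬝ᵥ δ| ≤ V S A (m + δ) := by
  have hC0 : 0 < C := by linarith
  have hn' : (0 : ℝ) < n := by exact_mod_cast hn
  have hq := qq_mem hm
  have h8 : η ^ 8 ≤ 1 / 2 := by
    calc η ^ 8 ≤ η ^ 1 := pow_le_pow_of_le_one hη.le (by linarith) (by norm_num)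
      _ ≤ 1 / 2 := by rw [pow_one]; exact hη1
  have hsp := fun i => S.space_step hC0 hq (hm i) (by positivity : 0 < η ^ 8) h8
    ((hδ i).trans (cl_le_sq S hC0 hη hm i))
  have hm' : m + δ ∈ box n := fun i => (hsp i).1
  refine ⟨hm', ?_⟩
  have hq' := qq_mem hm'
  set q := qq m with hqd
  set q' := qq (m + δ) with hqd'
  have hdq : n * (q' - q) = 2 * (m ⬝ᵥ δ) + δ ⬝ᵥ δ := by
    rw [mul_sub, hqd, hqd', n_qq hn, n_qq hn, add_dotProduct, dotProduct_add, dotProduct_add,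
      dotProduct_comm δ m]
    ring
  have hδb : ∀ i, |δ i| ≤ η ^ 14 / 2 := fun i => (hδ i).trans (cl_le S hC hη hm i)
  have h14 : η ^ 14 ≤ 1 := pow_le_one₀ hη.le (by linarith)
  have hdq2 : |q' - q| ≤ 2 * η ^ 14 := by
    have h1 : |2 * (m ⬝ᵥ δ) + δ ⬝ᵥ δ| ≤ ∑ _i : Fin n, 2 * η ^ 14 := by
      simp only [dotProduct, Finset.mul_sum, ← Finset.sum_add_distrib]
      refine (Finset.abs_sum_le_sum_abs _ _).trans (Finset.sum_le_sum fun i _ => ?_)
      have h2 := hδb i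
      have h3 := (hm i).le
      have h4 := abs_nonneg (δ i)
      have h5 := abs_nonneg (m i)
      have h6 : 0 ≤ η ^ 14 := by positivity
      refine (abs_add_le _ _).trans ?_
      rw [abs_mul, abs_mul, abs_mul, abs_two]
      nlinarith
    rw [← hdq, abs_mul, abs_of_pos hn'] at h1
    simp only [Finset.sum_const, Finset.card_univ, Fintype.card_fin, nsmul_eq_mul] at h1
    exact le_of_mul_le_mul_left h1 hn'
  have hsq : √|q' - q| ≤ 2 * η ^ 7 := by
    refine Real.sqrt_le_iff.2 ⟨by positivity, hdq2.trans ?_⟩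
    have : 0 ≤ η ^ 14 := by positivity
    nlinarith
  have h87 : η ^ 8 ≤ η ^ 7 := pow_le_pow_of_le_one hη.le (by linarith) (by norm_num)
  have h7 : 0 < η ^ 7 := by positivity
  -- per site
  have key : ∀ i, S.Lam q (m i) - xt S η m i * δ i - (1 + 2 * η ^ 8) / 2 * (δ i * (Dt S η m i * δ i))
      - β ^ 2 / 2 * ((q' - q) * S.aa q (m i) + (S.Zc q' - S.Zc q) * (m + δ) i ^ 2)
      - (4 * C * β ^ 2 + 2 * C) * η ^ 7 * |q' - q| ≤ S.Lam q' ((m + δ) i) := fun i => by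
    obtain ⟨h1, h2, h3⟩ := hsp i
    have h4 := S.time_step hq hq' h1
    have h5 := S.aa_time hC hq hq' h1
    have e1 : S.X q (m i) * δ i = xt S η m i * δ i ∧
        (1 + 2 * η ^ 8) * δ i ^ 2 / (2 * S.aa q (m i)) =
          (1 + 2 * η ^ 8) / 2 * (δ i * (Dt S η m i * δ i)) := by
      by_cases h : η ^ 6 < S.aa q (m i)
      · refine ⟨by unfold xt; rw [if_pos h], ?_⟩
        unfold Dt
        rw [max_eq_left h.le]
        have := S.aa_pos hq (m i)
        field_simp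
      · have h0 : δ i = 0 := abs_nonpos_iff.1 ((hδ i).trans (cl_zero S h).le)
        simp [h0]
    rw [e1.1, e1.2] at h3
    have h6 : |S.aa q' (m i + δ i) - S.aa q (m i)| ≤ 7 * C * η ^ 7 := by
      have h61 := abs_sub_le (S.aa q' (m i + δ i)) (S.aa q (m i + δ i)) (S.aa q (m i))
      have h62 : 3 * C * √|q' - q| ≤ 3 * C * (2 * η ^ 7) :=
        mul_le_mul_of_nonneg_left hsq (by positivity)
      have h63 : η ^ 7 ≤ C * η ^ 7 := le_mul_of_one_le_left h7.le hC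
      linarith
    have h9 : (q' - q) * S.aa q' (m i + δ i) ≤ (q' - q) * S.aa q (m i) +
        7 * C * η ^ 7 * |q' - q| := by
      have h91 : (q' - q) * (S.aa q' (m i + δ i) - S.aa q (m i)) ≤
          |q' - q| * (7 * C * η ^ 7) := by
        refine (le_abs_self _).trans ?_
        rw [abs_mul]
        exact mul_le_mul_of_nonneg_left h6 (abs_nonneg _)
      linarith
    have h10 : C * (|q' - q| * √|q' - q|) ≤ C * (|q' - q| * (2 * η ^ 7)) :=
      mul_le_mul_of_nonneg_left (mul_le_mul_of_nonneg_left hsq (abs_nonneg _)) hC0.le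
    have h11 := mul_le_mul_of_nonneg_left h9 (by positivity : 0 ≤ β ^ 2 / 2)
    have h12 : 0 ≤ C * β ^ 2 * (η ^ 7 * |q' - q|) := by positivity
    show _ ≤ S.Lam q' (m i + δ i)
    rw [show (m + δ) i = m i + δ i from rfl]
    linarith
  have hsum := Finset.sum_le_sum fun i (_ : i ∈ Finset.univ) => key i
  simp only [Finset.sum_sub_distrib, ← Finset.mul_sum, Finset.sum_add_distrib, Finset.sum_const,
    Finset.card_univ, Fintype.card_fin, nsmul_eq_mul] at hsum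
  have e2 : ∑ i, (m + δ) i ^ 2 = n * q' := by rw [hqd', n_qq hn, dot_self_eq]
  have e3 : ∑ i, xt S η m i * δ i = xt S η m ⬝ᵥ δ := rfl
  have e4 : ∑ i, δ i * (Dt S η m i * δ i) = δ ⬝ᵥ diagonal (Dt S η m) *ᵥ δ := by
    simp only [dotProduct, mulVec_diagonal]
  have e5 : ∑ i, S.aa q (m i) = n * av fun i => S.aa q (m i) := by
    unfold av; field_simp
  rw [e2, e3, e4, e5] at hsum
  have hpen := (abs_le.1 (S.penD q hq q' hq')).1
  have h10 : C * (|q' - q| * √|q' - q|) ≤ C * (|q' - q| * (2 * η ^ 7)) :=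
    mul_le_mul_of_nonneg_left (mul_le_mul_of_nonneg_left hsq (abs_nonneg _)) hC0.le
  have hpen2 := mul_le_mul_of_nonneg_left (hpen.trans' (neg_le_neg h10)) hn'.le
  have e6 : (m + δ) ⬝ᵥ A *ᵥ (m + δ) = m ⬝ᵥ A *ᵥ m + 2 * ((A *ᵥ m) ⬝ᵥ δ) + δ ⬝ᵥ A *ᵥ δ := by
    rw [mulVec_add, add_dotProduct, dotProduct_add, dotProduct_add, dotProduct_mulVec m A δ,
      ← mulVec_transpose, herm_T hA, dotProduct_comm δ (A *ᵥ m)]
    ring
  have e7 : |2 * (m ⬝ᵥ δ) + δ ⬝ᵥ δ| = n * |q' - q| := by rw [← hdq, abs_mul, abs_of_pos hn']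
  obtain ⟨g0, hg0⟩ : ∃ g0, g0 = av fun i => S.aa q (m i) := ⟨_, rfl⟩
  rw [← hg0] at hsum ⊢
  have e8 : β ^ 2 / 2 * ((q' - q) * (n * g0)) =
      β ^ 2 * g0 * (m ⬝ᵥ δ) + β ^ 2 * g0 / 2 * (δ ⬝ᵥ δ) := by
    rw [show β ^ 2 / 2 * ((q' - q) * (n * g0)) = β ^ 2 * g0 / 2 * (n * (q' - q)) by ring, hdq]
    ring
  unfold V Psi
  rw [← hqd, ← hqd', e6, e7, sub_dotProduct, sub_dotProduct, smul_dotProduct, smul_eq_mul]
  linarith

end Crest.Agent.T157.St

end
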