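import Crest.Agent.T157.StDef_87
import Crest.Agent.T157.EdTri_62

/-!
# Row 157, part C4 (D), file A (helper28): one-dimensional and Gaussian estimates
-/

set_option autoImplicit false

noncomputable section

namespace Crest.Agent.T157.St.Cl28

open MeasureTheory ProbabilityTheory Matrix Filter Topology Finset Real
open scoped ENNReal
open Crest.Agent.T157.E Crest.Agent.T157.Cond Crest.Agent.T157.Ed

lemma rp_eq {x : ℝ} (hx : 0 ≤ x) : x ^ (3 / 2 : ℝ) = x * √x := by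
  rw [show (3 / 2 : ℝ) = 1 + 1 / 2 by norm_num, Real.rpow_add' hx (by norm_num), Real.rpow_one,
    Real.sqrt_eq_rpow]

lemma rp_mono {x y : ℝ} (hx : 0 ≤ x) (h : x ≤ y) : x ^ (3 / 2 : ℝ) ≤ y ^ (3 / 2 : ℝ) :=
  Real.rpow_le_rpow hx h (by norm_num)

lemma rp_add {a b : ℝ} (ha : 0 ≤ a) (hb : 0 ≤ b) :
    (a + b) ^ (3 / 2 : ℝ) ≤ 2 * a ^ (3 / 2 : ℝ) + 2 * b ^ (3 / 2 : ℝ) := by
  rw [rp_eq ha, rp_eq hb, rp_eq (add_nonneg ha hb)]
  obtain ⟨p, hp, rfl⟩ : ∃ p, 0 ≤ p ∧ a = p ^ 2 := ⟨√a, sqrt_nonneg _, (sq_sqrt ha).symm⟩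
  obtain ⟨q, hq, rfl⟩ : ∃ q, 0 ≤ q ∧ b = q ^ 2 := ⟨√b, sqrt_nonneg _, (sq_sqrt hb).symm⟩
  rw [sqrt_sq hp, sqrt_sq hq]
  have h1 : √(p ^ 2 + q ^ 2) ≤ p + q := by
    rw [sqrt_le_left (by positivity)]; nlinarith [mul_nonneg hp hq]
  have h2 := mul_le_mul_of_nonneg_left h1 (by positivity : 0 ≤ p ^ 2 + q ^ 2)
  nlinarith [mul_nonneg (sq_nonneg (p - q)) (add_nonneg hp hq)]

lemma rp_sq {g : ℝ} (hg : 0 ≤ g) : (g ^ 2) ^ (3 / 2 : ℝ) = g ^ 3 := by
  rw [rp_eq (sq_nonneg g), sqrt_sq hg]; ring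

/-- a quantitative improvement of `cosh u ≤ exp (u² / 2)` away from the origin -/
lemma cosh_far {δ : ℝ} (hδ : 0 < δ) : ∃ κ : ℝ, 0 < κ ∧ κ ≤ 1 / 16 ∧ ∀ u : ℝ, δ ≤ |u| →
    cosh u ≤ exp ((1 - κ) * u ^ 2 / 2 - 8 * κ) := by
  set a := exp (-(δ ^ 2 / 4)) with ha
  have ha0 : 0 < a := exp_pos _
  have ha1 : a < 1 := by rw [ha, exp_lt_one_iff]; have := pow_pos hδ 2; linarith
  refine ⟨(1 - a) ^ 2 / 16, by have := pow_pos (sub_pos.2 ha1) 2; linarith, by nlinarith,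
    fun u hu => ?_⟩
  set κ := (1 - a) ^ 2 / 16 with hκ
  have hκ0 : 0 < κ := by have := pow_pos (sub_pos.2 ha1) 2; linarith
  have hκ1 : κ ≤ 1 / 16 := by nlinarith
  by_cases h4 : |u| ≤ 4
  · have hu2 : δ ^ 2 ≤ u ^ 2 := by rw [← sq_abs u]; exact pow_le_pow_left₀ hδ.le hu 2
    have hu4 : u ^ 2 ≤ 16 := by rw [← sq_abs u]; nlinarith [abs_nonneg u]
    set E := exp (u ^ 2 / 4) with hE
    set b := exp (-(u ^ 2 / 4)) with hb
    have hb0 : 0 < b := exp_pos _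
    have hE0 : 0 < E := exp_pos _
    have hba : b ≤ a := exp_le_exp.2 (by linarith)
    have hEb : E * b = 1 := by rw [hE, hb, ← exp_add]; simp
    have h1 : cosh (u / 2) ^ 2 ≤ E := by
      have := pow_le_pow_left₀ (cosh_pos _).le (cosh_le_exp_half_sq (u / 2)) 2
      rwa [← exp_nat_mul, show ((2 : ℕ) : ℝ) * ((u / 2) ^ 2 / 2) = u ^ 2 / 4 by push_cast; ring]
        at this
    have h2 : cosh u = 2 * cosh (u / 2) ^ 2 - 1 := by
      have h3 := cosh_two_mul (u / 2)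
      have h5 := cosh_sq (u / 2)
      rw [show 2 * (u / 2) = u by ring] at h3
      linarith
    have h3 : 2 * E - 1 = E ^ 2 * (1 - (1 - b) ^ 2) := by
      have : E ^ 2 * (1 - (1 - b) ^ 2) = 2 * E * (E * b) - (E * b) ^ 2 := by ring
      rw [this, hEb]; ring
    have h5 : 1 - (1 - b) ^ 2 ≤ exp (-(16 * κ)) := by
      have := add_one_le_exp (-(16 * κ))
      have h6 : (1 - a) ^ 2 ≤ (1 - b) ^ 2 := pow_le_pow_left₀ (by linarith) (by linarith) 2
      linarith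
    calc cosh u ≤ E ^ 2 * (1 - (1 - b) ^ 2) := by linarith
      _ ≤ E ^ 2 * exp (-(16 * κ)) := mul_le_mul_of_nonneg_left h5 (by positivity)
      _ = exp (u ^ 2 / 2 - 16 * κ) := by
        rw [hE, ← exp_nat_mul, ← exp_add]; congr 1; push_cast; ring
      _ ≤ _ := exp_le_exp.2 (by nlinarith)
  · rw [not_le] at h4
    have h1 : cosh u ≤ exp |u| := by
      rw [← cosh_abs, cosh_eq]
      have : exp (-|u|) ≤ exp |u| := exp_le_exp.2 (by linarith)
      linarith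
    refine h1.trans (exp_le_exp.2 ?_)
    rw [← sq_abs u]
    nlinarith [mul_nonneg hκ0.le (sq_nonneg |u|)]

/-- the slicing inequality -/
lemma near {L : ℝ → ℝ} {t δ c : ℝ} (ht : 0 < t) (hδ : 0 ≤ δ) (hδ1 : δ ≤ 1) (hc : 0 ≤ c)
    (hpos : ∀ v, 0 < L v) (hev : ∀ v, L (-v) = L v)
    (h1 : ∀ v, exp (v ^ 2 / (2 * t) - v ^ 4 / (4 * t ^ 5)) ≤ L v)
    (h2 : ∀ v s, 0 < v → 0 ≤ s → (v + s) * log (L v) ≤ v * log (L (v + s)))
    {J N : ℕ} (hJ : 1 ≤ J) (hN : δ * t < N) {v : ℝ} (hv : |v| ≤ δ * t ^ 2) :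
    exp (v ^ 2 / (2 * t)) ≤ exp ((J : ℝ) ^ 4 / (4 * t)) * L v +
      ∑ j ∈ Ico J N, exp (-((c / 4 - 2 * δ) * (j : ℝ) ^ 3)) *
        (L (v + c * (j : ℝ) ^ 2) + L (v - c * (j : ℝ) ^ 2)) := by
  have hterm : ∀ j ∈ Ico J N, 0 ≤ exp (-((c / 4 - 2 * δ) * (j : ℝ) ^ 3)) *
      (L (v + c * (j : ℝ) ^ 2) + L (v - c * (j : ℝ) ^ 2)) := fun j _ =>
    mul_nonneg (exp_pos _).le (add_nonneg (hpos _).le (hpos _).le)
  obtain ⟨r, hr0, hr⟩ : ∃ r, 0 ≤ r ∧ |v| = r * t := ⟨|v| / t, by positivity, by field_simp⟩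
  have hv2 : v ^ 2 = r ^ 2 * t ^ 2 := by rw [← sq_abs, hr]; ring
  have hv4 : v ^ 4 / (4 * t ^ 5) = r ^ 4 / (4 * t) := by
    rw [show v ^ 4 = (v ^ 2) ^ 2 by ring, hv2]; field_simp
  have hrδ : r ≤ δ * t := by
    rw [hr] at hv
    exact le_of_mul_le_mul_right (by nlinarith) ht
  have h0 : exp (v ^ 2 / (2 * t)) ≤ exp (r ^ 4 / (4 * t)) * L v := by
    have := mul_le_mul_of_nonneg_left (h1 v) (exp_pos (r ^ 4 / (4 * t))).le
    rwa [← exp_add, hv4, add_sub_cancel] at this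
  by_cases hrJ : r ≤ J
  · refine h0.trans (le_add_of_le_of_nonneg ?_ (sum_nonneg hterm))
    refine mul_le_mul_of_nonneg_right (exp_le_exp.2 ?_) (hpos v).le
    exact div_le_div_of_nonneg_right (pow_le_pow_left₀ hr0 hrJ 4) (by positivity)
  rw [not_le] at hrJ
  set j := ⌊r⌋₊ with hj
  have hjr : (j : ℝ) ≤ r := Nat.floor_le hr0
  have hrj : r < j + 1 := Nat.lt_floor_add_one r
  have hJj : J ≤ j := Nat.le_floor hrJ.le
  have hj1 : (1 : ℝ) ≤ j := by exact_mod_cast hJ.trans hJj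
  have hjN : j < N := by exact_mod_cast (hjr.trans hrδ).trans_lt hN
  have hmem : j ∈ Ico J N := mem_Ico.2 ⟨hJj, hjN⟩
  refine h0.trans (le_add_of_nonneg_of_le (mul_nonneg (exp_pos _).le (hpos v).le)
    (le_trans ?_ (single_le_sum hterm hmem)))
  have hrpos : 0 < r := by linarith
  have hw : 0 < |v| := by rw [hr]; positivity
  have hLv : L |v| = L v := by
    rcases abs_cases v with h | h
    · rw [h.1]
    · rw [h.1, hev]
  have hs : 0 ≤ c * (j : ℝ) ^ 2 := by positivity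
  have hA : L (|v| + c * (j : ℝ) ^ 2) ≤ L (v + c * (j : ℝ) ^ 2) + L (v - c * (j : ℝ) ^ 2) := by
    rcases abs_cases v with h | h
    · rw [h.1]; linarith [hpos (v - c * (j : ℝ) ^ 2)]
    · rw [h.1, ← hev (v - _), show -(v - c * (j : ℝ) ^ 2) = -v + c * (j : ℝ) ^ 2 by ring]
      linarith [hpos (v + c * (j : ℝ) ^ 2)]
  have hlog : r ^ 2 * t / 4 ≤ log (L v) := by
    have := (le_log_iff_exp_le (hpos v)).2 (h1 v)
    rw [hv4, hv2] at this
    have e1 : r ^ 2 * t ^ 2 / (2 * t) = r ^ 2 * t / 2 := by field_simp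
    have hrt : r ≤ t := hrδ.trans (by nlinarith)
    have e2 : r ^ 4 / (4 * t) ≤ r ^ 2 * t / 4 := by
      rw [div_le_iff₀ (by positivity)]
      have : r ^ 2 ≤ t ^ 2 := pow_le_pow_left₀ hr0 hrt 2
      nlinarith [sq_nonneg r]
    linarith
  have hgain : log (L v) + c * (j : ℝ) ^ 3 / 4 ≤ log (L (|v| + c * (j : ℝ) ^ 2)) := by
    have h3 := h2 |v| _ hw hs
    rw [hLv] at h3
    refine le_of_mul_le_mul_left ?_ hw
    have h4 : |v| * (c * (j : ℝ) ^ 3 / 4) ≤ c * (j : ℝ) ^ 2 * log (L v) := by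
      refine le_trans ?_ (mul_le_mul_of_nonneg_left hlog hs)
      rw [hr]
      have := mul_le_mul_of_nonneg_left hjr (by positivity : 0 ≤ c * (j : ℝ) ^ 2 * r * t / 4)
      nlinarith
    nlinarith
  have hB : L v ≤ exp (-(c * (j : ℝ) ^ 3 / 4)) * L (|v| + c * (j : ℝ) ^ 2) := by
    rw [← exp_log (hpos v), ← exp_log (hpos (|v| + _)), ← exp_add]
    exact exp_le_exp.2 (by linarith)
  have hloss : r ^ 4 / (4 * t) ≤ 2 * δ * (j : ℝ) ^ 3 := by
    rw [div_le_iff₀ (by positivity)]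
    have h3 : r ^ 3 ≤ (2 * j) ^ 3 := pow_le_pow_left₀ hr0 (by linarith) 3
    have h4 : r ^ 4 ≤ δ * t * r ^ 3 := by
      have := mul_le_mul_of_nonneg_right hrδ (by positivity : 0 ≤ r ^ 3)
      nlinarith
    have h5 := mul_le_mul_of_nonneg_left h3 (by positivity : 0 ≤ δ * t)
    nlinarith
  calc exp (r ^ 4 / (4 * t)) * L v
      ≤ exp (2 * δ * (j : ℝ) ^ 3) * (exp (-(c * (j : ℝ) ^ 3 / 4)) *
          (L (v + c * (j : ℝ) ^ 2) + L (v - c * (j : ℝ) ^ 2))) :=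
        mul_le_mul (exp_le_exp.2 hloss)
          (hB.trans (mul_le_mul_of_nonneg_left hA (exp_pos _).le)) (hpos v).le (exp_pos _).le
    _ = _ := by rw [← mul_assoc, ← exp_add]; congr 2; ring

/-! ### Gaussian integrals -/

lemma lint_exp_mul (a : ℝ) :
    ∫⁻ g, ENNReal.ofReal (exp (a * g)) ∂gaussianReal 0 1 = ENNReal.ofReal (exp (a ^ 2 / 2)) := by
  rw [← ofReal_integral_eq_lintegral_ofReal (integrable_exp_mul_gaussianReal a)
    (ae_of_all _ fun _ => (exp_pos _).le)]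
  have := congrFun (mgf_fun_id_gaussianReal (μ := 0) (v := 1)) a
  simp only [mgf, zero_mul, zero_add, NNReal.coe_one, one_mul] at this
  rw [this]

lemma lint_exp_dot {ι : Type*} [Fintype ι] (u : ι → ℝ) :
    ∫⁻ g, ENNReal.ofReal (exp (u ⬝ᵥ g)) ∂gv ι = ENNReal.ofReal (exp (u ⬝ᵥ u / 2)) := by
  have e : ∀ g : ι → ℝ, exp (u ⬝ᵥ g) = ∏ i, exp (u i * g i) := fun g => by
    rw [dotProduct, exp_sum]
  have hi : Integrable (fun g : ι → ℝ => ∏ i, exp (u i * g i)) (gv ι) :=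
    Integrable.fintype_prod (f := fun i x => exp (u i * x)) fun i =>
      integrable_exp_mul_gaussianReal (u i)
  simp only [e]
  rw [← ofReal_integral_eq_lintegral_ofReal hi
    (ae_of_all _ fun _ => prod_nonneg fun _ _ => (exp_pos _).le),
    integral_fintype_prod_eq_prod (f := fun i x => exp (u i * x))]
  congr 1
  rw [dotProduct, sum_div, exp_sum]
  refine prod_congr rfl fun i _ => ?_
  have := congrFun (mgf_fun_id_gaussianReal (μ := 0) (v := 1)) (u i)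
  simp only [mgf, zero_mul, zero_add, NNReal.coe_one, one_mul] at this
  rw [this, sq]

lemma lint_exp_sq {l : ℝ} (hl : l < 1) :
    ∫⁻ g, ENNReal.ofReal (exp (l * g ^ 2 / 2)) ∂gaussianReal 0 1 ≠ ∞ := by
  rw [gaussianReal_of_var_ne_zero 0 one_ne_zero,
    lintegral_withDensity_eq_lintegral_mul _ (measurable_gaussianPDF 0 1) (by fun_prop)]
  have hi := (integrable_exp_neg_mul_sq (b := (1 - l) / 2) (by linarith)).const_mul (√(2 * π))⁻¹
  refine ne_of_lt (lt_of_le_of_lt (le_of_eq ?_) hi.lintegral_lt_top)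
  refine lintegral_congr fun g => ?_
  simp only [Pi.mul_apply, gaussianPDF]
  rw [← ENNReal.ofReal_mul (gaussianPDFReal_nonneg _ _ _)]
  congr 1
  simp only [gaussianPDFReal, NNReal.coe_one, mul_one, sub_zero]
  rw [mul_assoc, ← exp_add]
  congr 2; ring

/-- moment generating function of two diagonal entries of the GOE -/
lemma lint_diag {n : ℕ} (hn : 1 ≤ n) {i j : Fin n} (hij : i ≠ j) (a b : ℝ) :
    ∫⁻ W, ENNReal.ofReal (exp (a * W i i + b * W j j)) ∂GOE n =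
      ENNReal.ofReal (exp ((a ^ 2 + b ^ 2) / n)) := by
  have hn0 : (0 : ℝ) < n := by exact_mod_cast hn
  have hm : Measurable fun W : Mat n => ENNReal.ofReal (exp (a * W i i + b * W j j)) := by
    have h1 := (measurable_id (α := Mat n)).t157_entry i i
    have h2 := (measurable_id (α := Mat n)).t157_entry j j
    exact ((h1.const_mul a).add (h2.const_mul b)).exp.ennreal_ofReal
  rw [GOE, goe, lintegral_map hm (measurable_symG _)]
  set k : ℝ := 1 / √n / √2 * 2 with hk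
  have hk2 : k ^ 2 = 2 / n := by
    rw [hk, mul_pow, div_pow, div_pow, sq_sqrt hn0.le, sq_sqrt (by norm_num)]; field_simp
  have hne : (i, i) ≠ (j, j) := fun h => hij (congrArg Prod.fst h)
  have e : ∀ x : Fin n × Fin n → ℝ, a * symG (1 / √n) x i i + b * symG (1 / √n) x j j =
      (Pi.single (i, i) (a * k) + Pi.single (j, j) (b * k) : Fin n × Fin n → ℝ) ⬝ᵥ x := fun x => by
    rw [add_dotProduct, single_dotProduct, single_dotProduct]
    simp only [symG, Matrix.of_apply, hk]; ring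
  simp only [e]
  rw [lint_exp_dot, add_dotProduct, single_dotProduct, single_dotProduct]
  simp only [Pi.add_apply, Pi.single_eq_same, Pi.single_eq_of_ne hne, Pi.single_eq_of_ne hne.symm]
  congr 2
  have : (a * k * (a * k + 0) + b * k * (0 + b * k)) / 2 = (a ^ 2 + b ^ 2) * k ^ 2 / 2 := by ring
  rw [this, hk2]; field_simp

/-- the far part of the second moment -/
lemma far_gauss {κ : ℝ} (hκ : 0 < κ) (hκ1 : κ ≤ 1) : ∃ C : ℝ, 0 ≤ C ∧ ∀ n : ℕ, 1 ≤ n →
    ∀ i j : Fin n, i ≠ j → ∀ θ : ℝ, |θ| ≤ κ →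
    ∫⁻ W, ENNReal.ofReal (exp (n * (W i i + W j j) / 2)) *
      ENNReal.ofReal (exp (n * ((1 - κ) * ((W i i - W j j) / 2 + θ) ^ 2 / 2))) ∂GOE n ≤
      ENNReal.ofReal (exp (n / 2 + n * κ) * C) := by
  have hfin := lint_exp_sq (l := 1 - κ / 2) (by linarith)
  refine ⟨_, ENNReal.toReal_nonneg (a := ∫⁻ g, ENNReal.ofReal (exp ((1 - κ / 2) * g ^ 2 / 2))
    ∂gaussianReal 0 1), fun n hn i j hij θ hθ => ?_⟩
  have hn0 : (0 : ℝ) < n := by exact_mod_cast hn
  set p := √(n * (1 - κ)) with hp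
  have hp2 : p ^ 2 = n * (1 - κ) := sq_sqrt (by nlinarith)
  have h1 := (measurable_id (α := Mat n)).t157_entry i i
  have h2 := (measurable_id (α := Mat n)).t157_entry j j
  have e : ∀ W : Mat n, ENNReal.ofReal (exp (n * (W i i + W j j) / 2)) *
      ENNReal.ofReal (exp (n * ((1 - κ) * ((W i i - W j j) / 2 + θ) ^ 2 / 2))) =
      ∫⁻ g, ENNReal.ofReal (exp (p * θ * g)) * ENNReal.ofReal
        (exp ((n / 2 + p * g / 2) * W i i + (n / 2 - p * g / 2) * W j j)) ∂gaussianReal 0 1 := by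
    intro W
    have := lint_exp_mul (p * ((W i i - W j j) / 2 + θ))
    rw [mul_pow, hp2, show n * (1 - κ) * ((W i i - W j j) / 2 + θ) ^ 2 / 2 =
      n * ((1 - κ) * ((W i i - W j j) / 2 + θ) ^ 2 / 2) by ring] at this
    rw [← this, ← lintegral_const_mul _ (by fun_prop)]
    refine lintegral_congr fun g => ?_
    rw [← ENNReal.ofReal_mul (exp_pos _).le, ← ENNReal.ofReal_mul (exp_pos _).le, ← exp_add,
      ← exp_add]
    congr 2; ring
  simp only [e]
  rw [lintegral_lintegral_swap]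
  · rw [ENNReal.ofReal_mul (exp_pos _).le, ENNReal.ofReal_toReal hfin,
      ← lintegral_const_mul _ (by fun_prop)]
    refine lintegral_mono fun g => ?_
    have hm : Measurable fun W : Mat n => ENNReal.ofReal
        (exp ((n / 2 + p * g / 2) * W i i + (n / 2 - p * g / 2) * W j j)) :=
      ((h1.const_mul _).add (h2.const_mul _)).exp.ennreal_ofReal
    simp only
    rw [lintegral_const_mul _ hm, lint_diag hn hij, ← ENNReal.ofReal_mul (exp_pos _).le,
      ← ENNReal.ofReal_mul (exp_pos _).le, ← exp_add, ← exp_add]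
    refine ENNReal.ofReal_le_ofReal (exp_le_exp.2 ?_)
    have e1 : ((n / 2 + p * g / 2) ^ 2 + (n / 2 - p * g / 2) ^ 2) / n =
        n / 2 + (1 - κ) * g ^ 2 / 2 := by
      have : (n / 2 + p * g / 2) ^ 2 + (n / 2 - p * g / 2) ^ 2 = n ^ 2 / 2 + p ^ 2 * g ^ 2 / 2 := by
        ring
      rw [this, hp2]; field_simp
    rw [e1]
    have hθ2 : θ ^ 2 ≤ κ ^ 2 := by rw [← sq_abs θ]; exact pow_le_pow_left₀ (abs_nonneg _) hθ 2
    have h3 : p * θ * g ≤ n * κ + κ * g ^ 2 / 4 := by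
      refine le_of_mul_le_mul_left ?_ hκ
      have h4 : p ^ 2 * θ ^ 2 ≤ n * κ ^ 2 := by
        rw [hp2]
        have := mul_le_mul_of_nonneg_left hθ2 hn0.le
        nlinarith [mul_nonneg (mul_nonneg hn0.le hκ.le) (sq_nonneg θ)]
      nlinarith [sq_nonneg (p * θ - κ * g / 2)]
    linarith
  · have h3 : Measurable fun q : Mat n × ℝ => q.1 i i := h1.comp measurable_fst
    have h4 : Measurable fun q : Mat n × ℝ => q.1 j j := h2.comp measurable_fst
    refine Measurable.aemeasurable ?_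
    unfold Function.uncurry
    fun_prop

end Crest.Agent.T157.St.Cl28

end
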