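import Crest.Agent.T157.StClA_28

/-!
# Row 157, part C4 (D), file B (helper28): the two-replica identities
-/

set_option autoImplicit false

noncomputable section

namespace Crest.Agent.T157.St.Cl28

open MeasureTheory ProbabilityTheory Matrix Filter Topology Finset Real
open scoped ENNReal
open Crest.ProbabilityR.SpinGlassDynamics
open Crest.Agent.T157.E Crest.Agent.T157.Cond Crest.Agent.T157.Ed

variable {n : ℕ}

lemma int_dm {Ω ι : Type*} [Fintype Ω] [Fintype ι] {w : Ω → ℝ} (hw : ∀ x, 0 ≤ w x)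
    (φ : Ω → ι → ℝ) (g : (ι → ℝ) → ℝ) : ∫ x, g x ∂dm w φ = ∑ x, prob w x * g (φ x) := by
  rw [dm, integral_finsetSum_measure fun x _ =>
    (integrable_dirac (by simp)).smul_measure ENNReal.ofReal_ne_top]
  refine sum_congr rfl fun x _ => ?_
  have : 0 ≤ prob w x := div_nonneg (hw x) (sum_nonneg fun y _ => hw y)
  rw [integral_smul_measure, integral_dirac, smul_eq_mul, ENNReal.toReal_ofReal this]

/-- uniform law on the rescaled cube -/
def omc (n : ℕ) : Measure (Fin n → ℝ) := dm (fun _ : Cube n => (1 : ℝ)) (hat n)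

/-- probability laws on the sphere -/
structure OnS (n : ℕ) (ω : Measure (Fin n → ℝ)) : Prop where
  prob : IsProbabilityMeasure ω
  nrm : ∀ᵐ x ∂ω, x ⬝ᵥ x = sx n ^ 2

lemma prob_one (x : Cube n) : prob (fun _ : Cube n => (1 : ℝ)) x = (2 ^ n)⁻¹ := by
  simp [prob]

lemma int_omc (g : (Fin n → ℝ) → ℝ) : ∫ x, g x ∂omc n = (2 ^ n)⁻¹ * ∑ x, g (hat n x) := by
  rw [omc, int_dm (fun _ => zero_le_one), mul_sum]
  simp only [prob_one]

lemma spin_sq (b : Bool) : spin b * spin b = 1 := by cases b <;> simp [spin]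

lemma hat_dot (hn : 1 ≤ n) (x y : Cube n) :
    hat n x ⬝ᵥ hat n y = (tau n)⁻¹ * (sv x ⬝ᵥ sv y) := by
  have := sx_pos hn
  rw [hat, hat, smul_dotProduct, dotProduct_smul, tau_eq, smul_eq_mul, smul_eq_mul]
  field_simp

lemma onS_omc (hn : 1 ≤ n) : OnS n (omc n) := by
  have hs := sx_pos hn
  constructor
  · constructor
    simp only [omc, dm, Measure.coe_finsetSum, Finset.sum_apply, Measure.smul_apply, prob_one,
      measure_univ, smul_eq_mul, mul_one]
    rw [← ENNReal.ofReal_sum_of_nonneg fun _ _ => by positivity]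
    simp
  · rw [ae_iff]
    simp only [omc, dm, Measure.coe_finsetSum, Finset.sum_apply, Measure.smul_apply, smul_eq_mul]
    refine sum_eq_zero fun x _ => ?_
    rw [Measure.dirac_apply, Set.indicator_of_notMem, mul_zero]
    simp only [Set.mem_ofPred_eq, not_not]
    rw [hat_dot hn, tau_eq]
    have : sv x ⬝ᵥ sv x = sx n ^ 6 := by
      rw [sx_pow_six]; simp [dotProduct, sv, spin_sq]
    rw [this]; field_simp

lemma onS_oms (hS : SphStmt) (hn : 1 ≤ n) : OnS n (sphR (Fin n) (sx n)) := by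
  have : Nonempty (Fin n) := ⟨⟨0, hn⟩⟩
  exact ⟨((hS (Fin n)).1 (sx n)).1, ((hS (Fin n)).1 (sx n)).2.1⟩

/-- `μ` is the tilt of `ω` by `f`, with normaliser `Z` -/
def Tilt (μ ω : Measure (Fin n → ℝ)) (f : (Fin n → ℝ) → ℝ) (Z : ℝ) : Prop :=
  ∀ g : (Fin n → ℝ) → ℝ, ∫ x, g x ∂μ = ∫ x, exp (f x) / Z * g x ∂ω

lemma tilt_s (W : Mat n) : Tilt (nuW n W) (sphR (Fin n) (sx n)) (Hh n W) (Zs n W) := fun g => by
  rw [nuW, integral_tilted]; rfl

lemma Hh_hat (hn : 1 ≤ n) (W : Mat n) (x : Cube n) :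
    exp (Hh n W (hat n x)) = ising W 0 x := by
  have := sx_pos hn
  rw [Hh, ising, hat, mulVec_smul, smul_dotProduct, dotProduct_smul, tau_eq, zero_dotProduct]
  congr 1
  simp only [smul_eq_mul]
  field_simp
  ring

lemma tilt_c (hn : 1 ≤ n) (W : Mat n) : Tilt (muW n W) (omc n) (Hh n W) (Zc n W) := fun g => by
  rw [muW, int_dm (w := ising W 0) (fun _ => (exp_pos _).le), int_omc, mul_sum]
  refine sum_congr rfl fun x _ => ?_
  rw [Hh_hat hn, Zc, prob, Zw]
  field_simp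

/-- unnormalised two-replica sum -/
def YY (θ : ℝ) (W : Mat n) (ω ω' : Measure (Fin n → ℝ)) : ℝ :=
  ∫ x, ∫ x', exp (Hh n W x + Hh n W x' + θ * (x ⬝ᵥ x')) ∂ω' ∂ω

lemma YY_eq {μ μ' ω ω' : Measure (Fin n → ℝ)} {W : Mat n} {Z Z' : ℝ} (h : Tilt μ ω (Hh n W) Z)
    (h' : Tilt μ' ω' (Hh n W) Z') (hZ : Z ≠ 0) (hZ' : Z' ≠ 0) (θ : ℝ) :
    YY θ W ω ω' = Z * Z' * Xk θ μ μ' := by
  rw [Xk, h, ← integral_const_mul]
  refine integral_congr_ae (ae_of_all _ fun x => ?_)
  simp only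
  rw [h', ← integral_const_mul, ← integral_const_mul]
  refine integral_congr_ae (ae_of_all _ fun x' => ?_)
  simp only [exp_add]
  field_simp

lemma mem_ball_of {x : Fin n → ℝ} {s : ℝ} (hs : 0 ≤ s) (h : x ⬝ᵥ x = s ^ 2) :
    x ∈ Metric.closedBall (0 : Fin n → ℝ) s := by
  rw [mem_closedBall_zero_iff, pi_norm_le_iff_of_nonneg hs]
  intro i
  rw [Real.norm_eq_abs]
  refine abs_le_of_sq_le_sq' ?_ hs |> abs_le.2
  rw [← h, sq]
  exact single_le_sum (f := fun i => x i * x i) (fun j _ => mul_self_nonneg _) (mem_univ i)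

lemma integrable_sph {ω : Measure (Fin n → ℝ)} [IsFiniteMeasure ω] {s : ℝ} (hs : 0 ≤ s)
    (h : ∀ᵐ x ∂ω, x ⬝ᵥ x = s ^ 2) {F : (Fin n → ℝ) → ℝ} (hF : Continuous F) :
    Integrable F ω := by
  have h1 := hF.continuousOn.integrableOn_compact (μ := ω) (isCompact_closedBall 0 s)
  rwa [IntegrableOn, Measure.restrict_eq_self_of_ae_mem (h.mono fun x hx => mem_ball_of hs hx)]
    at h1

lemma OnS.ae_pair {ω ω' : Measure (Fin n → ℝ)} (h : OnS n ω) (h' : OnS n ω') :
    ∀ᵐ p ∂ω.prod ω', p.1 ⬝ᵥ p.1 = sx n ^ 2 ∧ p.2 ⬝ᵥ p.2 = sx n ^ 2 := by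
  have := h.prob; have := h'.prob
  exact (Measure.quasiMeasurePreserving_fst.ae h.nrm).and
    (Measure.quasiMeasurePreserving_snd.ae h'.nrm)

lemma OnS.ofReal_pair {ω ω' : Measure (Fin n → ℝ)} (h : OnS n ω) (h' : OnS n ω')
    {F : (Fin n → ℝ) × (Fin n → ℝ) → ℝ} (hF : Continuous F) :
    ENNReal.ofReal (∫ x, ∫ x', exp (F (x, x')) ∂ω' ∂ω) =
      ∫⁻ p, ENNReal.ofReal (exp (F p)) ∂ω.prod ω' := by
  have := h.prob; have := h'.prob
  have hi : Integrable (fun p => exp (F p)) (ω.prod ω') := by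
    have h1 := hF.rexp.continuousOn.integrableOn_compact (μ := ω.prod ω')
      ((isCompact_closedBall 0 (sx n)).prod (isCompact_closedBall 0 (sx n)))
    rwa [IntegrableOn, Measure.restrict_eq_self_of_ae_mem ((h.ae_pair h').mono fun p hp =>
      Set.mk_mem_prod (mem_ball_of (sx_nonneg n) hp.1) (mem_ball_of (sx_nonneg n) hp.2))] at h1
  rw [← ofReal_integral_eq_lintegral_ofReal hi (ae_of_all _ fun _ => (exp_pos _).le),
    integral_prod _ hi]

lemma meas_Hh {Ω : Type*} [MeasurableSpace Ω] {W : Ω → Mat n} {x : Ω → Fin n → ℝ}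
    (hW : Measurable W) (hx : Measurable x) : Measurable fun q => Hh n (W q) (x q) := by
  unfold Hh; fun_prop

lemma cont_Hh (W : Mat n) : Continuous (Hh n W) := by
  unfold Hh; fun_prop

/-- **the two-replica identity** -/
lemma swap (hR : RotStmt) {i j : Fin n} (hij : i ≠ j) {G : Mat n → ℝ≥0∞} (hG : Measurable G)
    (hinv : ∀ W O : Mat n, Oᵀ * O = 1 → G (O * W * Oᵀ) = G W) {ω ω' : Measure (Fin n → ℝ)}
    (h : OnS n ω) (h' : OnS n ω') (θ : ℝ) :
    ∫⁻ W, G W * ENNReal.ofReal (YY θ W ω ω') ∂GOE n =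
      ∫⁻ W, G W * ENNReal.ofReal (exp (n * (W i i + W j j) / 2)) *
        ENNReal.ofReal (Xk (tau n * (W i i - W j j) / 2 + θ) ω ω') ∂GOE n := by
  have := h.prob; have := h'.prob
  have hi := (measurable_id (α := Mat n)).t157_entry i i
  have hj := (measurable_id (α := Mat n)).t157_entry j j
  have hdot : Measurable fun p : (Fin n → ℝ) × (Fin n → ℝ) => p.1 ⬝ᵥ p.2 := by fun_prop
  have m1 : Measurable fun q : Mat n × ((Fin n → ℝ) × (Fin n → ℝ)) =>
      Hh n q.1 q.2.1 + Hh n q.1 q.2.2 :=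
    (meas_Hh measurable_fst (by fun_prop)).add (meas_Hh measurable_fst (by fun_prop))
  have m2 : Measurable fun q : Mat n × ((Fin n → ℝ) × (Fin n → ℝ)) =>
      n * (q.1 i i + q.1 j j) / 2 + tau n * (q.2.1 ⬝ᵥ q.2.2) * (q.1 i i - q.1 j j) / 2 := by
    have h3 : Measurable fun q : Mat n × ((Fin n → ℝ) × (Fin n → ℝ)) => q.1 i i :=
      hi.comp measurable_fst
    have h4 : Measurable fun q : Mat n × ((Fin n → ℝ) × (Fin n → ℝ)) => q.1 j j :=
      hj.comp measurable_fst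
    have h5 : Measurable fun q : Mat n × ((Fin n → ℝ) × (Fin n → ℝ)) => q.2.1 ⬝ᵥ q.2.2 :=
      hdot.comp measurable_snd
    exact (((h3.add h4).const_mul _).div_const _).add
      (((h5.const_mul _).mul (h3.sub h4)).div_const _)
  have key : ∀ {F : Mat n × ((Fin n → ℝ) × (Fin n → ℝ)) → ℝ}, Measurable F →
      ∫⁻ W, ∫⁻ p, ENNReal.ofReal (exp (θ * (p.1 ⬝ᵥ p.2))) *
        (G W * ENNReal.ofReal (exp (F (W, p)))) ∂ω.prod ω' ∂GOE n =
      ∫⁻ p, ENNReal.ofReal (exp (θ * (p.1 ⬝ᵥ p.2))) *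
        ∫⁻ W, G W * ENNReal.ofReal (exp (F (W, p))) ∂GOE n ∂ω.prod ω' := by
    intro F hF
    rw [lintegral_lintegral_swap]
    · refine lintegral_congr fun p => lintegral_const_mul _ ?_
      exact hG.mul (hF.comp (measurable_id.prodMk measurable_const)).exp.ennreal_ofReal
    · exact (((hdot.comp measurable_snd).const_mul θ).exp.ennreal_ofReal.mul
        ((hG.comp measurable_fst).mul hF.exp.ennreal_ofReal)).aemeasurable
  have e1 : ∀ W : Mat n, G W * ENNReal.ofReal (YY θ W ω ω') =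
      ∫⁻ p, ENNReal.ofReal (exp (θ * (p.1 ⬝ᵥ p.2))) *
        (G W * ENNReal.ofReal (exp (Hh n W p.1 + Hh n W p.2))) ∂ω.prod ω' := by
    intro W
    have hc : Continuous fun p : (Fin n → ℝ) × (Fin n → ℝ) =>
        Hh n W p.1 + Hh n W p.2 + θ * (p.1 ⬝ᵥ p.2) :=
      (((cont_Hh W).comp continuous_fst).add ((cont_Hh W).comp continuous_snd)).add (by fun_prop)
    rw [YY, h.ofReal_pair h' hc, ← lintegral_const_mul _ hc.measurable.exp.ennreal_ofReal]
    refine lintegral_congr fun p => ?_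
    rw [exp_add _ (θ * _), ENNReal.ofReal_mul (exp_pos _).le]; ring
  have e2 : ∀ W : Mat n, G W * ENNReal.ofReal (exp (n * (W i i + W j j) / 2)) *
      ENNReal.ofReal (Xk (tau n * (W i i - W j j) / 2 + θ) ω ω') =
      ∫⁻ p, ENNReal.ofReal (exp (θ * (p.1 ⬝ᵥ p.2))) * (G W * ENNReal.ofReal (exp
        (n * (W i i + W j j) / 2 + tau n * (p.1 ⬝ᵥ p.2) * (W i i - W j j) / 2))) ∂ω.prod ω' := by
    intro W
    have hc : Continuous fun p : (Fin n → ℝ) × (Fin n → ℝ) =>
        (tau n * (W i i - W j j) / 2 + θ) * (p.1 ⬝ᵥ p.2) := by fun_prop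
    rw [Xk, h.ofReal_pair h' hc, ← lintegral_const_mul _ hc.measurable.exp.ennreal_ofReal]
    refine lintegral_congr fun p => ?_
    rw [mul_assoc, mul_left_comm (ENNReal.ofReal _) (G W), ← ENNReal.ofReal_mul (exp_pos _).le,
      ← ENNReal.ofReal_mul (exp_pos _).le, ← exp_add, ← exp_add]
    congr 3; ring
  simp only [e1, e2]
  rw [key m1, key m2]
  refine lintegral_congr_ae ((h.ae_pair h').mono fun p hp => ?_)
  simp only
  rw [hR n i j hij G hG hinv p.1 p.2 hp.1 hp.2]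

/-! ### the kernels -/

lemma Xk_cc (hn : 1 ≤ n) (v : ℝ) : Xk v (omc n) (omc n) = cosh (v / tau n) ^ n := by
  have e : ∀ x : Cube n, (2 ^ n : ℝ)⁻¹ * ∑ y : Cube n, exp (v * (hat n x ⬝ᵥ hat n y)) =
      cosh (v / tau n) ^ n := fun x => by
    have e1 : ∑ y : Cube n, exp (v * (hat n x ⬝ᵥ hat n y)) =
        ∏ i, ∑ b : Bool, exp (v / tau n * (spin (x i) * spin b)) := by
      rw [Finset.prod_univ_sum, Fintype.piFinset_univ]
      refine sum_congr rfl fun y _ => ?_
      rw [hat_dot hn, ← exp_sum, ← mul_sum, ← mul_assoc, ← div_eq_mul_inv]; rfl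
    have e2 : ∀ a : Bool, ∑ b : Bool, exp (v / tau n * (spin a * spin b)) =
        2 * cosh (v / tau n) := fun a => by
      rw [cosh_eq]; cases a <;> simp [spin] <;> ring
    rw [e1]
    simp only [e2, prod_const, card_univ, Fintype.card_fin, mul_pow]
    field_simp
  rw [Xk, int_omc]
  simp only [int_omc, e, sum_const, card_univ, nsmul_eq_mul]
  simp

/-- moment generating function of the spherical overlap -/
def LL (n : ℕ) (i : Fin n) (v : ℝ) : ℝ :=
  ∫ y, exp (v * sx n ^ 2 * ((Pi.single i 1 : Fin n → ℝ) ⬝ᵥ y)) ∂sphR (Fin n) 1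

lemma single_unit (i : Fin n) : (Pi.single i 1 : Fin n → ℝ) ⬝ᵥ Pi.single i 1 = 1 := by
  simp

lemma sph_dir (hS : SphStmt) (hn : 1 ≤ n) {e e' : Fin n → ℝ} (h : e ⬝ᵥ e = e' ⬝ᵥ e') (a : ℝ) :
    ∫ y, exp (a * (e ⬝ᵥ y)) ∂sphR (Fin n) 1 = ∫ y, exp (a * (e' ⬝ᵥ y)) ∂sphR (Fin n) 1 := by
  have : Nonempty (Fin n) := ⟨⟨0, hn⟩⟩
  obtain ⟨O, hO, hw⟩ := Tri62.exists_orth e' e h.symm
  have h1 := ((hS (Fin n)).1 1).2.2.2 Oᵀ (by rwa [transpose_transpose])
  conv_lhs => rw [← h1]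
  rw [integral_map (by fun_prop) (by fun_prop)]
  refine integral_congr_ae (ae_of_all _ fun y => ?_)
  simp only
  rw [dotProduct_mulVec, vecMul_transpose, hw]

lemma Xk_s (hS : SphStmt) (hn : 1 ≤ n) (i : Fin n) {ω : Measure (Fin n → ℝ)} (h : OnS n ω)
    (v : ℝ) : Xk v ω (sphR (Fin n) (sx n)) = LL n i v := by
  have : Nonempty (Fin n) := ⟨⟨0, hn⟩⟩
  have := h.prob
  have : ∀ᵐ x ∂ω, ∫ x', exp (v * (x ⬝ᵥ x')) ∂sphR (Fin n) (sx n) = LL n i v := by
    filter_upwards [h.nrm] with x hx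
    rw [← ((hS (Fin n)).1 (sx n)).2.2.1, integral_map (by fun_prop) (by fun_prop)]
    have h1 := sph_dir hS hn (e := x) (e' := sx n • Pi.single i 1) (by
      rw [hx, smul_dotProduct, dotProduct_smul, single_unit]; simp [sq]) (v * sx n)
    simp only [dotProduct_smul, smul_eq_mul, ← mul_assoc]
    rw [h1, LL]
    simp only [smul_dotProduct, smul_eq_mul, ← mul_assoc, sq]
  rw [Xk, integral_congr_ae this]
  simp

lemma LL_neg (hS : SphStmt) (hn : 1 ≤ n) (i : Fin n) (v : ℝ) : LL n i (-v) = LL n i v := by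
  have := sph_dir hS hn (e := -Pi.single i 1) (e' := Pi.single i 1) (by simp) (v * sx n ^ 2)
  rw [LL, LL, ← this]
  simp only [neg_dotProduct, mul_neg, neg_mul]

lemma LL_ge (hL : LamStmt) (hn : 1 ≤ n) (i : Fin n) (v : ℝ) :
    exp (v ^ 2 / (2 * sx n ^ 2) - v ^ 4 / (4 * (sx n ^ 2) ^ 5)) ≤ LL n i v := by
  have hs := sx_pos hn
  have := hL n _ (single_unit i) (v * sx n ^ 2)
  refine le_trans (le_of_eq ?_) this
  rw [← sx_pow_six n]
  congr 1
  field_simp

lemma LL_pos (hL : LamStmt) (hn : 1 ≤ n) (i : Fin n) (v : ℝ) : 0 < LL n i v :=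
  (exp_pos _).trans_le (LL_ge hL hn i v)

lemma measurable_LL (hS : SphStmt) (hn : 1 ≤ n) (i : Fin n) : Measurable (LL n i) := by
  have : Nonempty (Fin n) := ⟨⟨0, hn⟩⟩
  have := ((hS (Fin n)).1 1).1
  refine (StronglyMeasurable.integral_prod_right (f := fun (v : ℝ) (y : Fin n → ℝ) =>
    exp (v * sx n ^ 2 * ((Pi.single i 1 : Fin n → ℝ) ⬝ᵥ y))) ?_).measurable
  refine Measurable.stronglyMeasurable ?_
  unfold Function.uncurry
  fun_prop

lemma LL_conv (hS : SphStmt) (hL : LamStmt) (hn : 1 ≤ n) (i : Fin n) (v s : ℝ) (hv : 0 < v)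
    (hs : 0 ≤ s) : (v + s) * log (LL n i v) ≤ v * log (LL n i (v + s)) := by
  have : Nonempty (Fin n) := ⟨⟨0, hn⟩⟩
  have := ((hS (Fin n)).1 1).1
  have hae := ((hS (Fin n)).1 1).2.1
  have hA := LL_pos hL hn i (v + s)
  set A := LL n i (v + s) with hAdef
  have hvs : 0 < v + s := by linarith
  set p := v / (v + s) with hp
  have hp0 : 0 ≤ p := by positivity
  have hp1 : p ≤ 1 := (div_le_one hvs).2 (by linarith)
  have hi : ∀ a : ℝ, Integrable (fun y : Fin n → ℝ =>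
      exp (a * sx n ^ 2 * ((Pi.single i 1 : Fin n → ℝ) ⬝ᵥ y))) (sphR (Fin n) 1) := fun a =>
    integrable_sph zero_le_one hae (by fun_prop)
  have h1 : LL n i v ≤ exp (p * log A) := by
    have h2 : ∀ X : ℝ, exp (v * X) ≤ exp (p * log A) * (p / A * exp ((v + s) * X) + (1 - p)) := by
      intro X
      have h3 := convexOn_exp.2 (Set.mem_univ ((v + s) * X - log A)) (Set.mem_univ 0) hp0
        (sub_nonneg.2 hp1) (by ring)
      simp only [smul_eq_mul, mul_zero, add_zero, exp_zero, mul_one] at h3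
      rw [exp_sub _ (log A), exp_log hA] at h3
      have h4 : v * X = p * log A + p * ((v + s) * X - log A) := by
        rw [hp]; field_simp; ring
      rw [h4, exp_add]
      refine mul_le_mul_of_nonneg_left (h3.trans (le_of_eq ?_)) (exp_pos _).le
      ring
    have h5 := integral_mono (hi v)
      ((((hi (v + s)).const_mul (p / A)).add (integrable_const (1 - p))).const_mul
        (exp (p * log A))) fun y => by
        have := h2 (sx n ^ 2 * ((Pi.single i 1 : Fin n → ℝ) ⬝ᵥ y))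
        simpa only [mul_assoc, Pi.add_apply] using this
    refine h5.trans (le_of_eq ?_)
    simp only [Pi.add_apply]
    rw [integral_const_mul, integral_add ((hi (v + s)).const_mul _) (integrable_const _),
      integral_const_mul, integral_const]
    change _ * (p / A * A + _) = _
    simp only [probReal_univ, smul_eq_mul, one_mul]
    rw [div_mul_cancel₀ _ hA.ne']
    simp
  have h6 := (log_le_iff_le_exp (LL_pos hL hn i v)).2 h1
  have h7 := mul_le_mul_of_nonneg_left h6 hvs.le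
  rwa [hp, ← mul_assoc, mul_div_cancel₀ _ hvs.ne'] at h7

/-- invariance of the overlap moments under a common rotation -/
lemma Xk_map {μ : Measure (Fin n → ℝ)} [SFinite μ] {O : Mat n} (hO : Oᵀ * O = 1) (θ : ℝ) :
    Xk θ (μ.map fun x => O *ᵥ x) (μ.map fun x => O *ᵥ x) = Xk θ μ μ := by
  have hm : StronglyMeasurable fun x : Fin n → ℝ =>
      ∫ x', exp (θ * (x ⬝ᵥ x')) ∂(μ.map fun x => O *ᵥ x) := by
    refine StronglyMeasurable.integral_prod_right (f := fun (x x' : Fin n → ℝ) =>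
      exp (θ * (x ⬝ᵥ x'))) (Measurable.stronglyMeasurable ?_)
    unfold Function.uncurry
    fun_prop
  rw [Xk, integral_map (by fun_prop) hm.aestronglyMeasurable, Xk]
  refine integral_congr_ae (ae_of_all _ fun x => ?_)
  simp only
  rw [integral_map (by fun_prop) (by fun_prop)]
  refine integral_congr_ae (ae_of_all _ fun y => ?_)
  simp only
  rw [dotProduct_mulVec, ← mulVec_transpose, mulVec_mulVec, hO, one_mulVec]

lemma Xk_neg {μ : Measure (Fin n → ℝ)} (h : μ.map (fun x => -x) = μ) (θ : ℝ) :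
    Xk (-θ) μ μ = Xk θ μ μ := by
  refine integral_congr_ae (ae_of_all _ fun x => ?_)
  simp only
  conv_rhs => rw [← h]
  rw [integral_map (by fun_prop) (by fun_prop)]
  simp only [dotProduct_neg, mul_neg, neg_mul]

lemma Xk_zero {μ ν : Measure (Fin n → ℝ)} (h : Cp μ) (h' : Cp ν) : Xk 0 μ ν = 1 := by
  have := h.prob; have := h'.prob
  simp [Xk]

lemma Xk_nonneg (θ : ℝ) (μ ν : Measure (Fin n → ℝ)) : 0 ≤ Xk θ μ ν :=
  integral_nonneg fun _ => integral_nonneg fun _ => (exp_pos _).le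

/-- the trivial bound on the cube -/
lemma Xk_triv (hn : 1 ≤ n) (W : Mat n) {θ : ℝ} (hθ : 0 ≤ θ) :
    Xk θ (muW n W) (muW n W) ≤ exp (θ * sx n ^ 2) := by
  have hw : ∀ x, 0 ≤ ising W 0 x := fun _ => (exp_pos _).le
  have hZ : 0 < ∑ x, ising W 0 x := sum_pos (fun _ _ => exp_pos _) univ_nonempty
  have hp : ∀ x, 0 ≤ prob (ising W 0) x := fun x => div_nonneg (hw x) hZ.le
  have h1 : ∑ x, prob (ising W 0) x = 1 := by
    simp only [prob]; rw [← sum_div, div_self hZ.ne']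
  have hb : ∀ x y : Cube n, hat n x ⬝ᵥ hat n y ≤ sx n ^ 2 := fun x y => by
    have hs := sx_pos hn
    have h2 : sv x ⬝ᵥ sv y ≤ sx n ^ 6 := by
      rw [sx_pow_six]
      refine (sum_le_card_nsmul univ _ 1 fun i _ => ?_).trans (by simp)
      simp only [sv]
      cases x i <;> cases y i <;> simp [spin]
    rw [hat_dot hn, tau_eq, inv_mul_le_iff₀ (by positivity)]
    linarith [show sx n ^ 4 * sx n ^ 2 = sx n ^ 6 by ring]
  rw [Xk, muW, int_dm hw]
  calc _ ≤ ∑ x, prob (ising W 0) x * exp (θ * sx n ^ 2) := by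
        refine sum_le_sum fun x _ => mul_le_mul_of_nonneg_left ?_ (hp x)
        rw [int_dm hw]
        calc _ ≤ ∑ y, prob (ising W 0) y * exp (θ * sx n ^ 2) :=
              sum_le_sum fun y _ => mul_le_mul_of_nonneg_left
                (exp_le_exp.2 (mul_le_mul_of_nonneg_left (hb x y) hθ)) (hp y)
          _ = _ := by rw [← sum_mul, h1, one_mul]
    _ = _ := by rw [← sum_mul, h1, one_mul]

end Crest.Agent.T157.St.Cl28

end
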