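import Crest.Agent.T157.St0_44

/-!
Row 157, part D (helper49): scalar algebra for the choice of the spectral parameter `u` in the
two steps of the self-correcting ascent.
-/

set_option autoImplicit false

noncomputable section

namespace Crest.Agent.T157.St.D49

open Finset

variable {n : ℕ}

theorem av_le {f g : Fin n → ℝ} (h : ∀ i, f i ≤ g i) : av f ≤ av g :=
  div_le_div_of_nonneg_right (sum_le_sum fun i _ => h i) (Nat.cast_nonneg n)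

theorem av_const (hn : 0 < n) (c : ℝ) : av (fun _ : Fin n => c) = c := by
  have : (n : ℝ) ≠ 0 := by exact_mod_cast hn.ne'
  simp only [av, sum_const, card_univ, Fintype.card_fin, nsmul_eq_mul]
  field_simp

theorem av_add (f g : Fin n → ℝ) : av (fun i => f i + g i) = av f + av g := by
  simp only [av, sum_add_distrib, add_div]

theorem av_sub (f g : Fin n → ℝ) : av (fun i => f i - g i) = av f - av g := by
  simp only [av, sum_sub_distrib, sub_div]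

theorem av_mul (c : ℝ) (f : Fin n → ℝ) : av (fun i => c * f i) = c * av f := by
  simp only [av, ← mul_sum, mul_div_assoc]

theorem av_nonneg {f : Fin n → ℝ} (h : ∀ i, 0 ≤ f i) : 0 ≤ av f :=
  div_nonneg (sum_nonneg fun i _ => h i) (Nat.cast_nonneg n)

theorem av_pos (hn : 0 < n) {f : Fin n → ℝ} (h : ∀ i, 0 < f i) : 0 < av f :=
  div_pos (sum_pos (fun i _ => h i) ⟨⟨0, hn⟩, mem_univ _⟩) (by exact_mod_cast hn)

theorem av_le_const (hn : 0 < n) {f : Fin n → ℝ} {c : ℝ} (h : ∀ i, f i ≤ c) : av f ≤ c :=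
  (av_le h).trans (av_const hn c).le

theorem abs_av_le {f g : Fin n → ℝ} (h : ∀ i, |f i| ≤ g i) : |av f| ≤ av g := by
  have h1 := av_le fun i => (abs_le.1 (h i)).2
  have h2 := av_le fun i => (abs_le.1 (h i)).1
  have e : av (fun i => -g i) = -av g := by simp only [av, sum_neg_distrib, neg_div]
  rw [abs_le]; constructor <;> linarith

theorem sq_av_le (hn : 0 < n) (f : Fin n → ℝ) : av f ^ 2 ≤ av fun i => f i ^ 2 := by
  have h := av_nonneg (f := fun i => (f i - av f) ^ 2) fun i => sq_nonneg _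
  have e : (fun i => (f i - av f) ^ 2) = fun i => (f i ^ 2 - (2 * av f) * f i) + av f ^ 2 := by
    ext i; ring
  rw [e, av_add, av_sub, av_mul, av_const hn] at h
  nlinarith

/-- the remainder in the expansion of `gr` -/
def hh (D : Fin n → ℝ) (u1 u2 : ℝ) : ℝ := av fun i => (D i * ((D i + u1) ^ 2 + u2 ^ 2))⁻¹

variable {D : Fin n → ℝ} {β u1 u2 η : ℝ}

theorem den_ge (hD : ∀ i, 1 ≤ D i) (hu : -(1 / 2) ≤ u1) (u2 : ℝ) (i : Fin n) :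
    1 / 4 ≤ (D i + u1) ^ 2 + u2 ^ 2 := by
  have := hD i
  nlinarith [sq_nonneg u2]

/-- **(D0)** -/
theorem ident (hD : ∀ i, 1 ≤ D i) (hu : -(1 / 2) ≤ u1) (u2 : ℝ) :
    gr D u1 u2 - av (fun i => (D i)⁻¹) = -u1 * g2 D u1 u2 - (u1 ^ 2 + u2 ^ 2) * hh D u1 u2 := by
  rw [gr, g2, hh, ← av_sub, ← av_mul, ← av_mul, ← av_sub]
  congr 1
  ext i
  have h1 := den_ge hD hu u2 i
  have h2 := hD i
  have h3 : (D i + u1) ^ 2 + u2 ^ 2 ≠ 0 := by linarith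
  have h4 : D i ≠ 0 := by linarith
  field_simp
  ring

theorem hh_nonneg (hD : ∀ i, 1 ≤ D i) (u1 u2 : ℝ) : 0 ≤ hh D u1 u2 :=
  av_nonneg fun i => by have := hD i; positivity

theorem hh_le (hD : ∀ i, 1 ≤ D i) (hu : -(1 / 2) ≤ u1) (u2 : ℝ) : hh D u1 u2 ≤ g2 D u1 u2 :=
  av_le fun i => by
    have h1 := den_ge hD hu u2 i
    have h2 := hD i
    exact inv_anti₀ (by linarith) (by nlinarith)

theorem g2_pos (hn : 0 < n) (hD : ∀ i, 1 ≤ D i) (hu : -(1 / 2) ≤ u1) (u2 : ℝ) : 0 < g2 D u1 u2 :=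
  av_pos hn fun i => inv_pos.2 (by linarith [den_ge hD hu u2 i])

theorem g2_le (hn : 0 < n) (hD : ∀ i, 1 ≤ D i) (hu : -(1 / 2) ≤ u1) (u2 : ℝ) : g2 D u1 u2 ≤ 4 :=
  av_le_const hn fun i => by
    have := inv_anti₀ (by norm_num) (den_ge hD hu u2 i)
    norm_num at this ⊢; exact this

theorem abs_gr_le (hn : 0 < n) (hD : ∀ i, 1 ≤ D i) (hu : -(1 / 2) ≤ u1) (u2 : ℝ) :
    |gr D u1 u2| ≤ 2 := by
  refine (abs_av_le (g := fun _ => 2) fun i => ?_).trans (av_const hn 2).le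
  have h1 := den_ge hD hu u2 i
  have h2 := hD i
  rw [abs_of_nonneg (mul_nonneg (by linarith) (by positivity)), ← div_eq_mul_inv,
    div_le_iff₀ (by linarith)]
  nlinarith [sq_nonneg u2]

theorem ku_le_one (β : ℝ) (D : Fin n → ℝ) (u1 u2 : ℝ) : ku β D u1 u2 ≤ 1 := by
  have : 0 ≤ g2 D u1 u2 := av_nonneg fun i => by positivity
  rw [ku]; nlinarith [sq_nonneg β]

theorem ku_zero (β : ℝ) (D : Fin n → ℝ) : ku β D 0 0 = 1 - β ^ 2 * av fun i => (D i)⁻¹ ^ 2 := by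
  simp [ku, g2]

/-- `u₁ + β² (gr - g₀) = u₁ κ_u - β² |u|² h` -/
theorem ident' (hD : ∀ i, 1 ≤ D i) (hu : -(1 / 2) ≤ u1) (β u2 : ℝ) :
    u1 + β ^ 2 * (gr D u1 u2 - av fun i => (D i)⁻¹) =
      u1 * ku β D u1 u2 - β ^ 2 * (u1 ^ 2 + u2 ^ 2) * hh D u1 u2 := by
  rw [ident hD hu, ku]; ring

theorem inv_mem (hD : ∀ i, 1 ≤ D i) (i : Fin n) : 0 < (D i)⁻¹ ∧ (D i)⁻¹ ≤ 1 :=
  ⟨inv_pos.2 (by linarith [hD i]), inv_le_one_of_one_le₀ (hD i)⟩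

theorem cube_ge (hn : 0 < n) (hD : ∀ i, 1 ≤ D i) (β : ℝ) :
    (1 - ku β D 0 0) ^ 2 ≤ β ^ 4 * av fun i => (D i)⁻¹ ^ 3 := by
  have h1 := sq_av_le hn fun i => (D i)⁻¹ ^ 2
  have h2 : av (fun i => ((D i)⁻¹ ^ 2) ^ 2) ≤ av fun i => (D i)⁻¹ ^ 3 := av_le fun i => by
    rw [← pow_mul]; exact pow_le_pow_of_le_one (inv_mem hD i).1.le (inv_mem hD i).2 (by norm_num)
  rw [ku_zero]
  have := mul_le_mul_of_nonneg_left (h1.trans h2) (by positivity : 0 ≤ β ^ 4)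
  nlinarith

theorem cube_le (hn : 0 < n) (hD : ∀ i, 1 ≤ D i) : (av fun i => (D i)⁻¹ ^ 3) ≤ 1 :=
  av_le_const hn fun i => pow_le_one₀ (inv_mem hD i).1.le (inv_mem hD i).2

theorem pt2 {d u v : ℝ} (hd : 1 ≤ d) (h0 : 0 ≤ u) (h1 : u ≤ 1 / 3) :
    ((d + u) ^ 2 + v ^ 2)⁻¹ ≤ d⁻¹ ^ 2 - u * d⁻¹ ^ 3 := by
  have e : d⁻¹ ^ 2 - u * d⁻¹ ^ 3 = (d - u) / d ^ 3 := by field_simp
  rw [e, inv_eq_one_div, div_le_div_iff₀ (by positivity) (by positivity)]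
  have h2 : 0 ≤ (d - u) * v ^ 2 := mul_nonneg (by linarith) (sq_nonneg v)
  have h3 : 0 ≤ u * (d ^ 2 - d * u - u ^ 2) := mul_nonneg h0 (by nlinarith)
  nlinarith

/-- **(D2)** -/
theorem d2 (hn : 0 < n) (hβ : 1 ≤ β) (hD : ∀ i, 1 ≤ D i) (hη : 0 < η) (h1 : 24 * β ^ 2 * η ≤ 1)
    (h2 : 24 * β ^ 2 * max (-ku β D 0 0) 0 ≤ 1)
    (hu : u1 = 4 * β ^ 2 * (max (-ku β D 0 0) 0 + η)) (u2 : ℝ) :
    0 ≤ u1 ∧ u1 ≤ 1 ∧ max (ku β D 0 0) η ≤ ku β D u1 u2 ∧ ku β D u1 u2 ≤ 1 ∧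
      -(g2 D u1 u2 / ku β D u1 u2) * (u1 ^ 2 + u2 ^ 2) ≤
        (gr D u1 u2 - av fun i => (D i)⁻¹) +
          (u1 + β ^ 2 * (gr D u1 u2 - av fun i => (D i)⁻¹)) * (g2 D u1 u2 / ku β D u1 u2) := by
  have hm := le_max_right (-ku β D 0 0) 0
  have hm' := le_max_left (-ku β D 0 0) 0
  have hb : 1 ≤ β ^ 2 := one_le_pow₀ hβ
  have u0 : 0 ≤ u1 := by rw [hu]; positivity
  have u3 : u1 ≤ 1 / 3 := by rw [hu]; linarith
  have hc := cube_ge hn hD β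
  have hA : 0 ≤ av fun i => (D i)⁻¹ ^ 3 := av_nonneg fun i => pow_nonneg (inv_mem hD i).1.le 3
  have k1 : ku β D 0 0 + β ^ 2 * (u1 * av fun i => (D i)⁻¹ ^ 3) ≤ ku β D u1 u2 := by
    have : g2 D u1 u2 ≤ av (fun i => (D i)⁻¹ ^ 2) - u1 * av fun i => (D i)⁻¹ ^ 3 := by
      rw [← av_mul, ← av_sub]; exact av_le fun i => pt2 (hD i) u0 u3
    rw [ku_zero, ku]
    nlinarith
  have k2 : max (ku β D 0 0) η ≤ ku β D u1 u2 := by
    have p : 0 ≤ β ^ 2 * (u1 * av fun i => (D i)⁻¹ ^ 3) := by positivity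
    rcases le_total η (ku β D 0 0) with h | h
    · rw [max_eq_left h]; linarith
    · rw [max_eq_right h]
      have e : β ^ 2 * (u1 * av fun i => (D i)⁻¹ ^ 3) =
          4 * (max (-ku β D 0 0) 0 + η) * (β ^ 4 * av fun i => (D i)⁻¹ ^ 3) := by rw [hu]; ring
      have h3 : η ≤ 1 / 2 := by nlinarith
      have h4 : 1 / 4 ≤ β ^ 4 * av fun i => (D i)⁻¹ ^ 3 := by nlinarith
      nlinarith
  have k0 : 0 < ku β D u1 u2 := hη.trans_le ((le_max_right _ _).trans k2)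
  refine ⟨u0, by linarith, k2, ku_le_one .., ?_⟩
  have hu' : -(1 / 2) ≤ u1 := by linarith
  rw [ident' hD hu', ident hD hu']
  have e : -u1 * g2 D u1 u2 - (u1 ^ 2 + u2 ^ 2) * hh D u1 u2 +
      (u1 * ku β D u1 u2 - β ^ 2 * (u1 ^ 2 + u2 ^ 2) * hh D u1 u2) * (g2 D u1 u2 / ku β D u1 u2) =
      -(hh D u1 u2 / ku β D u1 u2) * (u1 ^ 2 + u2 ^ 2) := by
    have e1 : β ^ 2 * g2 D u1 u2 = 1 - ku β D u1 u2 := by rw [ku]; ring
    field_simp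
    linear_combination (-(u1 ^ 2 + u2 ^ 2) * hh D u1 u2) * e1
  rw [e]
  exact mul_le_mul_of_nonneg_right (neg_le_neg (div_le_div_of_nonneg_right (hh_le hD hu' u2) k0.le))
    (by positivity)

theorem pt1 {d u v : ℝ} (hd : 1 ≤ d) (h : |u| ≤ 1 / 4) :
    |((d + u) ^ 2 + v ^ 2)⁻¹ - (d⁻¹ ^ 2 - 2 * u * d⁻¹ ^ 3)| ≤ 7 * (u ^ 2 + v ^ 2) * d⁻¹ ^ 2 := by
  obtain ⟨h1, h2⟩ := abs_le.1 h
  have hN : 9 / 16 * d ^ 2 ≤ (d + u) ^ 2 + v ^ 2 := by nlinarith [sq_nonneg v]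
  have hN0 : 0 < (d + u) ^ 2 + v ^ 2 := by nlinarith
  have hd0 : 0 < d := by linarith
  have e : ((d + u) ^ 2 + v ^ 2)⁻¹ - (d⁻¹ ^ 2 - 2 * u * d⁻¹ ^ 3) =
      ((4 * u ^ 2 - (u ^ 2 + v ^ 2)) * d + 2 * u * (u ^ 2 + v ^ 2)) / (d * ((d + u) ^ 2 + v ^ 2)) *
        d⁻¹ ^ 2 := by
    field_simp; ring
  rw [e, abs_mul, abs_of_nonneg (sq_nonneg d⁻¹)]
  refine mul_le_mul_of_nonneg_right ?_ (sq_nonneg _)
  rw [abs_div, abs_of_pos (mul_pos hd0 hN0), div_le_iff₀ (mul_pos hd0 hN0)]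
  have hr : 0 ≤ u ^ 2 + v ^ 2 := by positivity
  have h3 : 9 / 16 * d ≤ d * ((d + u) ^ 2 + v ^ 2) := by nlinarith
  have h4 := mul_le_mul_of_nonneg_left h3 hr
  have h5 := mul_le_mul_of_nonneg_left hd hr
  have h6 := mul_le_mul_of_nonneg_right h1 hr
  have h7 := mul_le_mul_of_nonneg_right h2 hr
  have h8 := mul_nonneg (sq_nonneg u) hd0.le
  have h9 := mul_nonneg (sq_nonneg v) hd0.le
  rw [abs_le]; constructor <;> nlinarith

set_option maxHeartbeats 800000 in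
/-- **(D1)** -/
theorem d1 (hn : 0 < n) (hβ : 1 ≤ β) (hD : ∀ i, 1 ≤ D i) (hη : 0 < η) {t : ℝ}
    (ht : t = |ku β D 0 0| + η) (h1 : 1200 * β ^ 10 * t ≤ 1)
    (hu : u1 = -ku β D 0 0 / (2 * β ^ 2 * av fun i => (D i)⁻¹ ^ 3) + 200 * β ^ 8 * t ^ 2) :
    |u1| ≤ 3 * β ^ 2 * t ∧ t ^ 2 ≤ ku β D u1 (η ^ 2) ∧ ku β D u1 (η ^ 2) ≤ 600 * β ^ 10 * t ^ 2 ∧
      1 / (2 * β ^ 2) ≤ g2 D u1 (η ^ 2) ∧
      |u1 + β ^ 2 * (gr D u1 (η ^ 2) - av fun i => (D i)⁻¹)| ≤ 600 * β ^ 10 * t ^ 2 := by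
  have hk := abs_nonneg (ku β D 0 0)
  have t0 : 0 < t := by linarith
  have b2 : 1 ≤ β ^ 2 := one_le_pow₀ hβ
  have b4 : β ^ 2 ≤ β ^ 4 := pow_le_pow_right₀ hβ (by norm_num)
  have b6 : β ^ 4 ≤ β ^ 6 := pow_le_pow_right₀ hβ (by norm_num)
  have b10 : β ^ 6 ≤ β ^ 10 := pow_le_pow_right₀ hβ (by norm_num)
  have t6 : β ^ 6 * t ≤ 1 / 1200 := by nlinarith
  have t2 : β ^ 2 * t ≤ 1 / 1200 := by nlinarith
  have t1 : t ≤ 1 / 1200 := by nlinarith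
  obtain ⟨A, hA⟩ : ∃ A, A = av fun i => (D i)⁻¹ ^ 3 := ⟨_, rfl⟩
  obtain ⟨k, hk0⟩ : ∃ k, k = ku β D 0 0 := ⟨_, rfl⟩
  have hc := cube_ge hn hD β
  have A1 := cube_le hn hD
  have A0 : 0 < av fun i => (D i)⁻¹ ^ 3 := av_pos hn fun i => pow_pos (inv_mem hD i).1 3
  have kz := ku_zero β D
  rw [← hA] at hc A1 A0 hu
  rw [← hk0] at hc kz hu ht hk
  have k0 : |k| ≤ t := by linarith
  obtain ⟨k1, k2⟩ := abs_le.1 k0
  have A2 : 1 / 2 ≤ β ^ 4 * A := by nlinarith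
  have q1 : |-k / (2 * β ^ 2 * A)| ≤ β ^ 2 * t := by
    rw [abs_div, abs_neg, abs_of_pos (by positivity : 0 < 2 * β ^ 2 * A), div_le_iff₀ (by positivity)]
    nlinarith [mul_le_mul_of_nonneg_left A2 t0.le]
  have q2 : 200 * β ^ 8 * t ^ 2 ≤ 2 * β ^ 2 * t := by
    have : β ^ 8 * t ^ 2 = (β ^ 6 * t) * (β ^ 2 * t) := by ring
    nlinarith [mul_pos (by positivity : 0 < β ^ 2) t0]
  have q3 : |u1| ≤ 3 * β ^ 2 * t := by
    rw [hu]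
    refine (abs_add_le _ _).trans ?_
    rw [abs_of_nonneg (by positivity : 0 ≤ 200 * β ^ 8 * t ^ 2)]
    linarith
  have q4 : |u1| ≤ 1 / 4 := by linarith
  have hu' : -(1 / 2) ≤ u1 := by linarith [(abs_le.1 q4).1]
  have r1 : u1 ^ 2 + (η ^ 2) ^ 2 ≤ 10 * β ^ 4 * t ^ 2 := by
    have a1 := pow_le_pow_left₀ (abs_nonneg _) q3 2
    rw [sq_abs] at a1
    have a2 : η ^ 2 ≤ t := by nlinarith
    have a3 := pow_le_pow_left₀ (sq_nonneg _) a2 2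
    nlinarith [sq_nonneg t]
  have r2 : |g2 D u1 (η ^ 2) - ((av fun i => (D i)⁻¹ ^ 2) - 2 * u1 * A)| ≤
      7 * (u1 ^ 2 + (η ^ 2) ^ 2) * av fun i => (D i)⁻¹ ^ 2 := by
    rw [hA, ← av_mul, ← av_sub, g2, ← av_sub, ← av_mul]
    exact abs_av_le fun i => pt1 (hD i) q4
  have r3 : |ku β D u1 (η ^ 2) - 400 * β ^ 10 * A * t ^ 2| ≤ 140 * β ^ 4 * t ^ 2 := by
    have e : ku β D u1 (η ^ 2) - 400 * β ^ 10 * A * t ^ 2 =
        -β ^ 2 * (g2 D u1 (η ^ 2) - ((av fun i => (D i)⁻¹ ^ 2) - 2 * u1 * A)) := by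
      have e1 : 2 * β ^ 2 * A * u1 = -k + 400 * β ^ 10 * A * t ^ 2 := by rw [hu]; field_simp; ring
      rw [ku]; linear_combination e1 - kz
    rw [e, abs_mul, abs_neg, abs_of_nonneg (sq_nonneg β)]
    refine (mul_le_mul_of_nonneg_left r2 (sq_nonneg β)).trans ?_
    have e2 : β ^ 2 * (7 * (u1 ^ 2 + (η ^ 2) ^ 2) * av fun i => (D i)⁻¹ ^ 2) =
        7 * (u1 ^ 2 + (η ^ 2) ^ 2) * (1 - k) := by rw [kz]; ring
    rw [e2]
    calc _ ≤ 7 * (10 * β ^ 4 * t ^ 2) * 2 :=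
          mul_le_mul (by linarith) (by linarith) (by linarith) (by positivity)
      _ = _ := by ring
  obtain ⟨r4, r5⟩ := abs_le.1 r3
  have tt : 0 < t ^ 2 := by positivity
  have s1 : 200 * β ^ 6 * t ^ 2 ≤ 400 * β ^ 10 * A * t ^ 2 := by
    refine mul_le_mul_of_nonneg_right ?_ tt.le
    have := mul_le_mul_of_nonneg_left A2 (by positivity : 0 ≤ β ^ 6)
    linarith
  have s2 : 400 * β ^ 10 * A * t ^ 2 ≤ 400 * β ^ 10 * t ^ 2 := by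
    refine mul_le_mul_of_nonneg_right ?_ tt.le
    have := mul_le_mul_of_nonneg_left A1 (by positivity : 0 ≤ β ^ 10)
    linarith
  have c4 := mul_le_mul_of_nonneg_right (b2.trans b4) tt.le
  have c6 := mul_le_mul_of_nonneg_right b6 tt.le
  have c10 := mul_le_mul_of_nonneg_right b10 tt.le
  have s3 : t ^ 2 ≤ ku β D u1 (η ^ 2) := by linarith
  have s4 : ku β D u1 (η ^ 2) ≤ 540 * β ^ 10 * t ^ 2 := by linarith
  refine ⟨q3, s3, by linarith, ?_, ?_⟩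
  · have : ku β D u1 (η ^ 2) ≤ 1 / 2 := by
      have := mul_le_mul h1 (show t ≤ 1 by linarith) t0.le zero_le_one
      linarith
    rw [ku] at this
    rw [div_le_iff₀ (by positivity)]; linarith
  · rw [ident' hD hu']
    refine (abs_sub _ _).trans ?_
    have a1 := hh_nonneg hD u1 (η ^ 2)
    have a2 := (hh_le hD hu' (η ^ 2)).trans (g2_le hn hD hu' _)
    rw [abs_mul, abs_of_nonneg (tt.le.trans s3), abs_of_nonneg (mul_nonneg (by positivity) a1)]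
    have a3 : |u1| * ku β D u1 (η ^ 2) ≤ 1 * ku β D u1 (η ^ 2) :=
      mul_le_mul_of_nonneg_right (by linarith) (tt.le.trans s3)
    have a4 : β ^ 2 * (u1 ^ 2 + (η ^ 2) ^ 2) * hh D u1 (η ^ 2) ≤ β ^ 2 * (10 * β ^ 4 * t ^ 2) * 4 := by
      gcongr
    linarith

end Crest.Agent.T157.St.D49
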