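import Crest.Agent.T157.StC_44

/-!
# Row 157, part D (helper44): the core of one step (both stages)
-/

set_option autoImplicit false

noncomputable section

namespace Crest.Agent.T157.St

open MeasureTheory Matrix Set Finset
open Crest.Agent.T157.Eig Crest.Agent.T157.Conc

variable {n : ℕ} {β C b : ℝ} {A : Matrix (Fin n) (Fin n) ℝ}

/-- the constant in the bound on the clipped part -/
def CR (C CA W : ℝ) : ℝ := 4 * (1 + CA + W) ^ 2 + 1200 * C ^ 2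

theorem av_mono {f g : Fin n → ℝ} (h : ∀ i, f i ≤ g i) : av f ≤ av g :=
  div_le_div_of_nonneg_right (Finset.sum_le_sum fun i _ => h i) (Nat.cast_nonneg n)

theorem av_const (hn : 0 < n) (c : ℝ) : av (fun _ : Fin n => c) = c := by
  have hn' : (n : ℝ) ≠ 0 := by exact_mod_cast hn.ne'
  unfold av
  simp only [Finset.sum_const, Finset.card_univ, Fintype.card_fin, nsmul_eq_mul]
  field_simp

theorem av_nonneg {f : Fin n → ℝ} (h : ∀ i, 0 ≤ f i) : 0 ≤ av f :=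
  div_nonneg (Finset.sum_nonneg fun i _ => h i) (Nat.cast_nonneg n)

theorem NNt (hA : A.IsHermitian) {D : Fin n → ℝ} {w1 w2 τ : ℝ} (hw : 0 < w2) (hτ : 0 ≤ τ) :
    (√τ • Mm A D w1 w2) * (√τ • Mm A D w1 w2)ᵀ = τ • Km A D w1 w2 := by
  rw [transpose_smul, Matrix.smul_mul, Matrix.mul_smul, smul_smul, Real.mul_self_sqrt hτ, MMt hA hw]

theorem opn_N (hA : A.IsHermitian) {D : Fin n → ℝ} {w1 w2 τ τ0 η : ℝ} (hη : 0 < η)
    (hw : η ^ 4 ≤ w2) (hτ : τ ≤ τ0) : opn (√τ • Mm A D w1 w2) ≤ √τ0 / η ^ 4 := by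
  have h4 : 0 < η ^ 4 := by positivity
  rw [opn_smul, abs_of_nonneg (Real.sqrt_nonneg _), div_eq_mul_inv]
  exact mul_le_mul (Real.sqrt_le_sqrt hτ) ((opn_Mm hA (h4.trans_le hw)).trans (inv_anti₀ h4 hw))
    (opn_nonneg _) (Real.sqrt_nonneg _)

theorem R2_bound (S : Site β C b) (hC : 1 ≤ C) (hA : A.IsHermitian) {CA W : ℝ} (hCA : opn A ≤ CA)
    {η w1 w2 τ τ0 : ℝ} (hη : 0 < η) (hη1 : η ≤ 1) (hw1 : |w1| ≤ W) (hw : η ^ 4 ≤ w2)
    (hτ0 : 0 ≤ τ) (hτ : τ ≤ τ0) (hτ1 : 0 < τ0) (hτ2 : τ0 ≤ η ^ 60) (m : Fin n → ℝ) :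
    R2 (cl S η m) (√τ • Mm A (Dt S η m) w1 w2) ≤ CR C CA W * (n * τ0 * η ^ 4) := by
  have hC0 : 0 < C := by linarith
  have h4 : 0 < η ^ 4 := by positivity
  have hw0 : 0 < w2 := h4.trans_le hw
  have hCA0 : 0 ≤ CA := (opn_nonneg A).trans hCA
  have hW0 : 0 ≤ W := (abs_nonneg _).trans hw1
  have hK : ∀ i, Km A (Dt S η m) w1 w2 i i ≤ (η ^ 8)⁻¹ := fun i =>
    (Km_diag_le hA hw0 i).trans (inv_anti₀ (by positivity) (by
      rw [show η ^ 8 = (η ^ 4) ^ 2 by ring]; exact pow_le_pow_left₀ h4.le hw 2))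
  have h := R2_le (c := cl S η m) (N := √τ • Mm A (Dt S η m) w1 w2) (cl_nonneg S hC0 η m)
    (c0 := η ^ 20 / (2 * C)) (s := τ0 * (η ^ 8)⁻¹) (r := 4 * (1 + CA + W) ^ 2 * (τ0 * η ^ 4))
    (by positivity) (by positivity) (fun i => by
      rw [NNt hA hw0 hτ0, Matrix.smul_apply, smul_eq_mul]
      exact mul_le_mul hτ (hK i) (Km_diag_nonneg hA hw0 i) hτ1.le) (fun i hi => by
      rw [NNt hA hw0 hτ0, Matrix.smul_apply, smul_eq_mul]
      have h1 := cl_small S hC0 hη hi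
      have h2 := Km_diag_D (D := Dt S η m) (w1 := w1) hA hw0 hCA i
      have h3 := Km_diag_nonneg (D := Dt S η m) (w1 := w1) hA hw0 i
      set k := Km A (Dt S η m) w1 w2 i i
      have h5 : ((2 * η ^ 6)⁻¹) ^ 2 * k ≤ Dt S η m i ^ 2 * k :=
        mul_le_mul_of_nonneg_right (pow_le_pow_left₀ (by positivity) h1 2) h3
      have h6 : 1 + (CA + |w1|) / w2 ≤ (1 + CA + W) / η ^ 4 := by
        have h7 : (CA + |w1|) / w2 ≤ (CA + W) / η ^ 4 :=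
          div_le_div₀ (by positivity) (by linarith) h4 hw
        have h8 : 1 ≤ 1 / η ^ 4 := by
          rw [le_div_iff₀ h4, one_mul]; exact pow_le_one₀ hη.le hη1
        rw [add_assoc, add_div 1]
        linarith
      have h7 := (h5.trans h2).trans (pow_le_pow_left₀ (by positivity) h6 2)
      have h8 : k ≤ 4 * (1 + CA + W) ^ 2 * η ^ 4 := by
        have e1 : k = (2 * η ^ 6) ^ 2 * (((2 * η ^ 6)⁻¹) ^ 2 * k) := by field_simp
        have e2 : 4 * (1 + CA + W) ^ 2 * η ^ 4 = (2 * η ^ 6) ^ 2 * ((1 + CA + W) / η ^ 4) ^ 2 := by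
          field_simp; ring
        rw [e1, e2]
        exact mul_le_mul_of_nonneg_left h7 (by positivity)
      calc τ * k ≤ τ0 * (4 * (1 + CA + W) ^ 2 * η ^ 4) := mul_le_mul hτ h8 h3 hτ1.le
        _ = _ := by ring) (by positivity)
  refine h.trans ?_
  have e : 300 * (τ0 * (η ^ 8)⁻¹) ^ 2 / (η ^ 20 / (2 * C)) ^ 2 =
      1200 * C ^ 2 * (τ0 * (τ0 / η ^ 56)) := by field_simp; ring
  have h9 : τ0 / η ^ 56 ≤ η ^ 4 := by
    rw [div_le_iff₀ (by positivity)]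
    calc τ0 ≤ η ^ 60 := hτ2
      _ = η ^ 4 * η ^ 56 := by ring
  have h10 : 1200 * C ^ 2 * (τ0 * (τ0 / η ^ 56)) ≤ 1200 * C ^ 2 * (τ0 * η ^ 4) :=
    mul_le_mul_of_nonneg_left (mul_le_mul_of_nonneg_left h9 hτ1.le) (by positivity)
  rw [e]
  unfold CR
  have h11 := mul_le_mul_of_nonneg_left h10 (Nat.cast_nonneg (α := ℝ) n)
  nlinarith

theorem nrm_box {m : Fin n → ℝ} (hm : m ∈ box n) : nrm m ≤ √n := by
  simpa using nrm_le_of_bdd (u := m) zero_le_one fun i => (hm i).le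

theorem num_core {V0 V1 lin zd qa qd qi md tA tD T g0 gt β CA CRc C4 η u L G w1 : ℝ}
    (hβ : 1 ≤ β) (hCA : 1 ≤ CA) (hCR : 1 ≤ CRc) (hC4 : 0 ≤ C4) (hη : 0 < η) (hη1 : η ≤ 1 / 2)
    (hu : 0 ≤ u) (hL : 0 ≤ L) (hG : 1 ≤ G) (hT : 0 ≤ T) (hg1 : g0 ≤ gt) (hg2 : gt ≤ 1)
    (hg3 : 0 ≤ gt) (hqi0 : 0 ≤ qi)
    (hV : V0 + lin + 1 / 2 * qa - (1 + 2 * η ^ 8) / 2 * qd - β ^ 2 * g0 / 2 * qi -
      C4 * η ^ 7 * |2 * md + qi| ≤ V1)
    (h1 : |lin + zd| ≤ G * L) (h2 : |md| ≤ 2 * L)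
    (h3 : |qa - tA| ≤ CA * (CRc * (u * η ^ 2) + η ^ 2 * T) + 2 * CA * L)
    (h4 : |qi - T| ≤ CRc * (u * η ^ 2) + η ^ 2 * T + 2 * L)
    (h5 : qd ≤ tD + 2 * L) (h6 : η ^ 6 * tD ≤ T) :
    V0 - 1 / 2 * (tD + w1 * T - tA) + 1 / 2 * (w1 - β ^ 2 * gt) * T -
      ((CA + β ^ 2 + 6 * C4 + 2) * CRc) * (η ^ 2 * (u + T) + G * L) - G * L ≤ V1 + zd := by
  have h21 : η ^ 2 ≤ 1 := pow_le_one₀ hη.le (by linarith)
  have h72 : η ^ 7 ≤ η ^ 2 := pow_le_pow_of_le_one hη.le (by linarith) (by norm_num)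
  have h81 : η ^ 8 ≤ 1 / 2 := by
    calc η ^ 8 ≤ η ^ 1 := pow_le_pow_of_le_one hη.le (by linarith) (by norm_num)
      _ ≤ 1 / 2 := by rw [pow_one]; exact hη1
  have hη2 : 0 ≤ η ^ 2 := by positivity
  obtain ⟨E, hE⟩ : ∃ E, E = CRc * (η ^ 2 * (u + T) + G * L) := ⟨_, rfl⟩
  have hGL : L ≤ G * L := le_mul_of_one_le_left hL hG
  have hx1 : 0 ≤ η ^ 2 * u := by positivity
  have hx2 : 0 ≤ η ^ 2 * T := by positivity
  have hE1 : CRc * (u * η ^ 2) + η ^ 2 * T + L ≤ E := by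
    rw [hE]
    have a1 : η ^ 2 * T ≤ CRc * (η ^ 2 * T) := le_mul_of_one_le_left hx2 hCR
    have a2 : G * L ≤ CRc * (G * L) := le_mul_of_one_le_left (hL.trans hGL) hCR
    linarith
  have hx3 : 0 ≤ CRc * (u * η ^ 2) := by positivity
  have hE0 : 0 ≤ E := by linarith
  have a1 : tA - 2 * (CA * E) ≤ qa := by
    have b1 := (abs_le.1 h3).1
    have b2 := mul_le_mul_of_nonneg_left hE1 (by linarith : 0 ≤ CA)
    have b3 : 0 ≤ CA * (CRc * (u * η ^ 2) + η ^ 2 * T) := by positivity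
    linarith
  have a2 : qi ≤ T + 2 * E := by linarith [(abs_le.1 h4).2]
  have a3 : (1 + 2 * η ^ 8) / 2 * qd ≤ 1 / 2 * tD + 2 * E := by
    have b1 := mul_le_mul_of_nonneg_left h5 (by positivity : 0 ≤ (1 + 2 * η ^ 8) / 2)
    have b2 := mul_le_mul_of_nonneg_left h6 hη2
    have b3 : η ^ 8 * L ≤ 1 / 2 * L := mul_le_mul_of_nonneg_right h81 hL
    have e : (1 + 2 * η ^ 8) / 2 * (tD + 2 * L) =
        1 / 2 * tD + η ^ 2 * (η ^ 6 * tD) + L + 2 * (η ^ 8 * L) := by ring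
    linarith
  have a4 : β ^ 2 * g0 / 2 * qi ≤ β ^ 2 * gt / 2 * T + β ^ 2 * E := by
    have b0 : 0 ≤ β ^ 2 := by positivity
    have b1 : g0 * qi ≤ gt * qi := mul_le_mul_of_nonneg_right hg1 hqi0
    have b2 : gt * qi ≤ gt * (T + 2 * E) := mul_le_mul_of_nonneg_left a2 hg3
    have b3 : gt * E ≤ 1 * E := mul_le_mul_of_nonneg_right hg2 hE0
    have b4 : g0 * qi ≤ gt * T + 2 * E := by linarith
    have b5 := mul_le_mul_of_nonneg_left b4 b0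
    linarith
  have a5 : C4 * η ^ 7 * |2 * md + qi| ≤ 6 * C4 * E := by
    have b1 : |2 * md + qi| ≤ 4 * L + (T + 2 * E) := by
      refine (abs_add_le _ _).trans ?_
      rw [abs_mul, abs_two, abs_of_nonneg hqi0]
      linarith
    have b2 : η ^ 7 * |2 * md + qi| ≤ η ^ 2 * (4 * L + (T + 2 * E)) :=
      mul_le_mul h72 b1 (abs_nonneg _) hη2
    have b3 : η ^ 2 * L ≤ 1 / 4 * L := mul_le_mul_of_nonneg_right (by nlinarith) hL
    have b4 : η ^ 2 * E ≤ 1 * E := mul_le_mul_of_nonneg_right h21 hE0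
    have b5 : η ^ 7 * |2 * md + qi| ≤ 6 * E := by linarith
    have b6 := mul_le_mul_of_nonneg_left b5 hC4
    linarith
  have a6 := (abs_le.1 h1).1
  have e : ((CA + β ^ 2 + 6 * C4 + 2) * CRc) * (η ^ 2 * (u + T) + G * L) =
      CA * E + β ^ 2 * E + 6 * C4 * E + 2 * E := by rw [hE]; ring
  rw [e]
  linarith

set_option maxHeartbeats 800000 in
theorem core (β C CA W : ℝ) (hβ : 1 ≤ β) (hC : 1 ≤ C) (hCA : 1 ≤ CA) : ∃ C2 : ℝ, 1 ≤ C2 ∧
    ∀ (n : ℕ) (b : ℝ) (S : Site β C b) (A : Matrix (Fin n) (Fin n) ℝ) (η w1 w2 τ τ0 : ℝ), 0 < n →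
    A.IsHermitian → opn A ≤ CA → 0 < η → η ≤ 1 / 2 → |w1| ≤ W → η ^ 4 ≤ w2 → 0 ≤ τ → τ ≤ τ0 →
    0 < τ0 → τ0 ≤ η ^ 60 → ∀ m ∈ box n, ∀ (z : Fin n → ℝ) (G : ℝ), 1 ≤ G → nrm z ≤ G * √n →
    ∀ x : ℝ, 1 ≤ x → ∀ δ : (Fin n ⊕ Fin n → ℝ) → Fin n → ℝ,
    δ = del (cl S η m) (√τ • Mm A (Dt S η m) w1 w2) →
    Ball (9 * Real.exp (-x ^ 2 / 2)) 1 fun ξ =>
      m + δ ξ ∈ box n ∧
      V S A m - 1 / 2 * (τ * (Bm A (Dt S η m) w1 * Km A (Dt S η m) w1 w2).trace) +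
          1 / 2 * (w1 - β ^ 2 * av fun i => (Dt S η m i)⁻¹) * (τ * (Km A (Dt S η m) w1 w2).trace) -
          C2 * (η ^ 2 * (n * τ0 + τ * (Km A (Dt S η m) w1 w2).trace) +
            G * (x * √(n * τ0) / η ^ 10)) ≤ V S A (m + δ ξ) + z ⬝ᵥ δ ξ ∧
      |δ ξ ⬝ᵥ δ ξ - τ * (Km A (Dt S η m) w1 w2).trace| ≤
        C2 * (η ^ 2 * (n * τ0 + τ * (Km A (Dt S η m) w1 w2).trace) + x * √(n * τ0) / η ^ 10) ∧
      |m ⬝ᵥ δ ξ| ≤ 2 * (x * √(n * τ0) / η ^ 10) := by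
  have hCR : 1 ≤ CR C CA W := by
    unfold CR
    nlinarith [sq_nonneg (1 + CA + W)]
  obtain ⟨G0, hG0⟩ : ∃ G0, G0 = 2 * (CA + C + β ^ 2 + 1) := ⟨_, rfl⟩
  have hG1 : 1 ≤ G0 := by rw [hG0]; nlinarith
  obtain ⟨C3, hC3⟩ : ∃ C3, C3 = (CA + β ^ 2 + 6 * (4 * C * β ^ 2 + 4 * C) + 2) * CR C CA W :=
    ⟨_, rfl⟩
  have hC31 : 2 * CR C CA W ≤ C3 := by
    rw [hC3]
    refine mul_le_mul_of_nonneg_right ?_ (by linarith)
    have : 0 ≤ CA + β ^ 2 + 6 * (4 * C * β ^ 2 + 4 * C) := by positivity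
    linarith
  have hC32 : C3 ≤ (C3 + 1) * G0 := by nlinarith
  refine ⟨(C3 + 1) * G0, by linarith, ?_⟩
  intro n b S A η w1 w2 τ τ0 hn hA hAop hη hη1 hw1 hw hτ0 hτ hτ1 hτ2 m hm z G hG hz x hx δ hδ
  have hC0 : 0 < C := by linarith
  have h4 : 0 < η ^ 4 := by positivity
  have hw0 : 0 < w2 := h4.trans_le hw
  have hη1' : η ≤ 1 := by linarith
  have hq := qq_mem hm
  have hc := cl_nonneg S hC0 η m
  have hcb := cl_le S hC hη hm
  have hN := opn_N (D := Dt S η m) (w1 := w1) hA hη hw hτ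
  have hR := R2_bound S hC hA hAop hη hη1' hw1 hw hτ0 hτ hτ1 hτ2 m
  have hNN := NNt (D := Dt S η m) (w1 := w1) hA hw0 hτ0
  have hD := Dt_mem S hη hη1' hm
  set D := Dt S η m with hDd
  set K := Km A D w1 w2 with hK
  set N := √τ • Mm A D w1 w2 with hNd
  have hT : 0 ≤ τ * K.trace := mul_nonneg hτ0 (trK_nonneg hA hw0)
  set g0 := av fun i => S.aa (qq m) (m i) with hg0
  set v := A *ᵥ m - xt S η m - (β ^ 2 * g0) • m with hv
  have hg00 : 0 ≤ g0 := av_nonneg fun i => (S.aa_pos hq _).le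
  have hg01 : g0 ≤ av fun i => (D i)⁻¹ := av_mono fun i => by
    simp only [hDd, Dt, inv_inv]; exact le_max_left _ _
  have hg02 : (av fun i => (D i)⁻¹) ≤ 1 := by
    rw [← av_const hn 1]
    exact av_mono fun i => inv_le_one_of_one_le₀ (hD i).1
  have hsn : 0 ≤ √(n : ℝ) := Real.sqrt_nonneg _
  have hst : 0 ≤ √τ0 := Real.sqrt_nonneg _
  have hs : √(n * τ0) = √n * √τ0 := Real.sqrt_mul (Nat.cast_nonneg n) _
  have hp : ∀ k : ℕ, k ≤ 10 → √n * √τ0 / η ^ k ≤ √n * √τ0 / η ^ 10 := fun k hk =>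
    div_le_div_of_nonneg_left (by positivity) (by positivity) (pow_le_pow_of_le_one hη.le hη1' hk)
  obtain ⟨L, hL⟩ : ∃ L, L = x * √(n * τ0) / η ^ 10 := ⟨_, rfl⟩
  have hL' : L = x * (√n * √τ0 / η ^ 10) := by rw [hL, hs]; ring
  have hx0 : 0 ≤ x := by linarith
  have hL0 : 0 ≤ L := by rw [hL]; positivity
  have hvz : nrm (v + z) ≤ G0 / 2 * G * (√n / η ^ 6) := by
    have h6 : √(n : ℝ) ≤ √n / η ^ 6 := by
      rw [le_div_iff₀ (by positivity)]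
      exact mul_le_of_le_one_right hsn (pow_le_one₀ hη.le hη1')
    have h1 : nrm (A *ᵥ m) ≤ CA * (√n / η ^ 6) := (nrm_mulVec_le _ _).trans
      (mul_le_mul hAop ((nrm_box hm).trans h6) (nrm_nonneg _) (by linarith))
    have h2 : nrm (xt S η m) ≤ C * (√n / η ^ 6) := by
      have := nrm_le_of_bdd (by positivity) (abs_xt_le S hC0 hη hm)
      rwa [show C / η ^ 6 * √n = C * (√n / η ^ 6) by ring] at this
    have h3 : nrm ((β ^ 2 * g0) • m) ≤ β ^ 2 * (√n / η ^ 6) := by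
      rw [nrm_smul, abs_of_nonneg (by positivity)]
      exact mul_le_mul (mul_le_of_le_one_right (by positivity) (hg01.trans hg02))
        ((nrm_box hm).trans h6) (nrm_nonneg _) (by positivity)
    have h5 : nrm z ≤ G * (√n / η ^ 6) := hz.trans (mul_le_mul_of_nonneg_left h6 (by linarith))
    have h7 := nrm_add_le v z
    have h8 := nrm_sub_le (A *ᵥ m - xt S η m) ((β ^ 2 * g0) • m)
    have h9 := nrm_sub_le (A *ᵥ m) (xt S η m)
    have h10 : (CA + C + β ^ 2) * (√n / η ^ 6) ≤ (CA + C + β ^ 2) * G * (√n / η ^ 6) :=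
      mul_le_mul_of_nonneg_right (le_mul_of_one_le_right (by positivity) hG) (by positivity)
    rw [hG0]
    linarith
  have B1 := ball_lin (N := N) hc hN (v + z) hx
  have B2 := ball_lin (N := N) hc hN m hx
  have B3 := ball_quad (N := N) hc hcb (by positivity) hN hAop (l := η ^ 2) (by positivity) hx
  have B4 := ball_quad (N := N) hc hcb (by positivity) hN (opn_one_le (ι := Fin n)) (l := η ^ 2)
    (by positivity) hx
  have B5 := ball_diag (N := N) hc hcb (by positivity) hN (D := D) (a := (η ^ 6)⁻¹)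
    (fun i => by linarith [(hD i).1]) (fun i => (hD i).2) (by positivity) hx
  have he := (Real.exp_pos (-x ^ 2 / 2)).le
  refine ((((B1.and B2 (by positivity) (by positivity)).and B3 (by positivity)
    (by positivity)).and B4 (by positivity) (by positivity)).and B5 (by positivity)
    (by positivity)).mono (by linarith) fun ξ hξ => ?_
  obtain ⟨⟨⟨⟨b1, b2⟩, b3⟩, b4⟩, b5⟩ := hξ
  rw [← hδ] at b1 b2 b3 b4 b5
  have hδc : ∀ i, |δ ξ i| ≤ cl S η m i := fun i => by rw [hδ]; exact abs_clip_le (hc i) _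
  obtain ⟨hbox, hV⟩ := V_step S hC hn hA hη hη1 hm hδc
  rw [hNN, Matrix.mul_smul, trace_smul, smul_eq_mul] at b3 b4 b5
  rw [trace_smul, smul_eq_mul] at b3 b4
  rw [one_mulVec, one_mul] at b4
  have hR' : R2 (cl S η m) N / η ^ 2 ≤ CR C CA W * (n * τ0 * η ^ 2) := by
    rw [div_le_iff₀ (by positivity)]
    calc _ ≤ _ := hR
      _ = _ := by ring
  have hq14 : 2 * x * (2 * (η ^ 14 / 2 * √n) * (√τ0 / η ^ 4)) ≤ 2 * L := by
    have e : 2 * x * (2 * (η ^ 14 / 2 * √n) * (√τ0 / η ^ 4)) =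
        η ^ 20 * (2 * (x * (√n * √τ0 / η ^ 10))) := by field_simp
    rw [e, ← hL']
    exact mul_le_of_le_one_left (by positivity) (pow_le_one₀ hη.le hη1')
  have c1 : |v ⬝ᵥ δ ξ + z ⬝ᵥ δ ξ| ≤ G0 * G * L := by
    rw [← add_dotProduct]
    refine b1.trans ?_
    have h1 : nrm (v + z) * (√τ0 / η ^ 4) ≤ G0 / 2 * G * (√n / η ^ 6) * (√τ0 / η ^ 4) :=
      mul_le_mul_of_nonneg_right hvz (by positivity)
    have e : G0 * G * L = 2 * x * (G0 / 2 * G * (√n / η ^ 6) * (√τ0 / η ^ 4)) := by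
      rw [hL']; field_simp
    rw [e]
    exact mul_le_mul_of_nonneg_left h1 (by positivity)
  have c2 : |m ⬝ᵥ δ ξ| ≤ 2 * L := by
    refine b2.trans ?_
    have h1 : nrm m * (√τ0 / η ^ 4) ≤ √n * √τ0 / η ^ 10 := by
      refine le_trans ?_ (hp 4 (by norm_num))
      rw [mul_div_assoc]
      exact mul_le_mul_of_nonneg_right (nrm_box hm) (by positivity)
    rw [hL', mul_assoc]
    exact mul_le_mul_of_nonneg_left (mul_le_mul_of_nonneg_left h1 hx0) (by norm_num)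
  have c3 : |δ ξ ⬝ᵥ A *ᵥ δ ξ - τ * (A * K).trace| ≤
      CA * (CR C CA W * (n * τ0 * η ^ 2) + η ^ 2 * (τ * K.trace)) + 2 * CA * L := by
    refine b3.trans (add_le_add (mul_le_mul_of_nonneg_left (by linarith) (by linarith)) ?_)
    have := mul_le_mul_of_nonneg_left hq14 (by linarith : 0 ≤ CA)
    linarith
  have c4 : |δ ξ ⬝ᵥ δ ξ - τ * K.trace| ≤
      CR C CA W * (n * τ0 * η ^ 2) + η ^ 2 * (τ * K.trace) + 2 * L := by
    refine b4.trans ?_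
    linarith
  have c5 : δ ξ ⬝ᵥ diagonal D *ᵥ δ ξ ≤ τ * (diagonal D * K).trace + 2 * L := by
    refine b5.trans (add_le_add le_rfl ?_)
    have e : 2 * x * (2 * (η ^ 6)⁻¹ * (η ^ 14 / 2 * √n) * (√τ0 / η ^ 4)) =
        η ^ 14 * (2 * (x * (√n * √τ0 / η ^ 10))) := by field_simp
    rw [e, ← hL']
    exact mul_le_of_le_one_left (by positivity) (pow_le_one₀ hη.le hη1')
  have c6 : η ^ 6 * (τ * (diagonal D * K).trace) ≤ τ * K.trace := by
    have h1 := trace_DK_le (D := D) (w1 := w1) hA hw0 (D' := D) fun i => (hD i).2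
    have h2 := mul_le_mul_of_nonneg_left h1 (by positivity : 0 ≤ η ^ 6 * τ)
    have e : η ^ 6 * τ * ((η ^ 6)⁻¹ * K.trace) = τ * K.trace := by field_simp
    rw [e] at h2
    linarith
  have hqi : 0 ≤ δ ξ ⬝ᵥ δ ξ := by rw [← nrm_sq]; positivity
  have hu : 0 ≤ n * τ0 := by positivity
  have hGG : 1 ≤ G0 * G := one_le_mul_of_one_le_of_one_le hG1 hG
  have main := num_core (w1 := w1) hβ hCA hCR (by positivity : 0 ≤ 4 * C * β ^ 2 + 4 * C) hη hη1 hu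
    hL0 hGG hT hg01 hg02 (hg00.trans hg01) hqi hV c1 c2 c3 c4 c5 c6
  rw [← hC3] at main
  rw [← hL]
  have hy : 0 ≤ η ^ 2 * (n * τ0 + τ * K.trace) := by positivity
  have hC30 : 0 ≤ C3 := by linarith
  have hGL : 0 ≤ G * L := by positivity
  refine ⟨hbox, ?_, ?_, c2⟩
  · rw [trace_BK]
    have d1 : C3 * (η ^ 2 * (n * τ0 + τ * K.trace)) ≤
        (C3 + 1) * G0 * (η ^ 2 * (n * τ0 + τ * K.trace)) :=
      mul_le_mul_of_nonneg_right hC32 hy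
    have e1 : τ * ((diagonal D * K).trace + w1 * K.trace - (A * K).trace) =
        τ * (diagonal D * K).trace + w1 * (τ * K.trace) - τ * (A * K).trace := by ring
    rw [e1]
    linarith
  · refine c4.trans ?_
    have d0 : 2 * CR C CA W ≤ (C3 + 1) * G0 := hC31.trans hC32
    have d1 : 2 * CR C CA W * (η ^ 2 * (n * τ0 + τ * K.trace) + L) ≤
        (C3 + 1) * G0 * (η ^ 2 * (n * τ0 + τ * K.trace) + L) :=
      mul_le_mul_of_nonneg_right d0 (by positivity)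
    have d2 : η ^ 2 * (τ * K.trace) ≤ CR C CA W * (η ^ 2 * (τ * K.trace)) :=
      le_mul_of_one_le_left (by positivity) hCR
    have d3 : L ≤ CR C CA W * L := le_mul_of_one_le_left hL0 hCR
    have d4 : 0 ≤ CR C CA W * (η ^ 2 * (n * τ0)) := by positivity
    have d5 : 0 ≤ CR C CA W * (η ^ 2 * (τ * K.trace)) := by positivity
    linarith

theorem core_cross (S : Site β C b) (hC : 1 ≤ C) (hA : A.IsHermitian) {CA W : ℝ} (hCA : opn A ≤ CA)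
    {η w1 w2 τ : ℝ} (hη : 0 < η) (hη1 : η ≤ 1) (hw1 : |w1| ≤ W) (hw : η ^ 4 ≤ w2)
    (hτ1 : 0 < τ) (hτ2 : τ ≤ η ^ 60) {m : Fin n → ℝ} (hm : m ∈ box n) {x : ℝ} (hx : 1 ≤ x) :
    Ball (Real.exp (-x ^ 2 / 2)) 1 fun ξ =>
      τ * (Bm A (Dt S η m) w1 * Km A (Dt S η m) w1 w2).trace -
        (CR C CA W + 2) * (η ^ 2 * (n * τ)) - 6 * (x * √(n * τ) / η ^ 10) ≤
      √τ * (fst ξ ⬝ᵥ del (cl S η m) (√τ • Mm A (Dt S η m) w1 w2) ξ) := by
  have hC0 : 0 < C := by linarith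
  have hst : 0 < √τ := Real.sqrt_pos.2 hτ1
  have hss : √τ * √τ = τ := Real.mul_self_sqrt hτ1.le
  have hN := opn_N (D := Dt S η m) (w1 := w1) hA hη hw (le_refl τ)
  have hR := R2_bound S hC hA hCA hη hη1 hw1 hw hτ1.le le_rfl hτ1 hτ2 m
  refine (ball_cross (cl_nonneg S hC0 η m) (cl_le S hC hη hm) (by positivity) hN
    (R := (√τ)⁻¹) (l := √τ * η ^ 2) (by positivity) (by positivity) hx).mono le_rfl fun ξ hξ => ?_
  have e1 : ∑ i, (√τ • Mm A (Dt S η m) w1 w2) i (Sum.inl i) =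
      √τ * (Bm A (Dt S η m) w1 * Km A (Dt S η m) w1 w2).trace := by
    rw [← sum_Mm_inl, Finset.mul_sum]; rfl
  rw [e1] at hξ
  refine le_trans ?_ (mul_le_mul_of_nonneg_left hξ hst.le)
  obtain ⟨r, hr⟩ : ∃ r, r = R2 (cl S η m) (√τ • Mm A (Dt S η m) w1 w2) := ⟨_, rfl⟩
  obtain ⟨t, ht⟩ : ∃ t, t = (Bm A (Dt S η m) w1 * Km A (Dt S η m) w1 w2).trace := ⟨_, rfl⟩
  rw [← hr] at hR ⊢
  rw [← ht, Real.sqrt_mul (Nat.cast_nonneg n)]
  have hsn : 0 ≤ √(n : ℝ) := Real.sqrt_nonneg _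
  have hx0 : 0 ≤ x := by linarith
  obtain ⟨s, hs⟩ : ∃ s, s = √τ := ⟨_, rfl⟩
  rw [← hs] at hst hss ⊢
  have e2 : s * (s * t - (s * η ^ 2 * n + r / (s * η ^ 2)) - 2 * (η ^ 14 / 2) * n / s⁻¹ -
      2 * x * ((s⁻¹ * (s / η ^ 4) + 2 * (η ^ 14 / 2) + η ^ 14 / 2) * √n)) =
      (s * s) * t - η ^ 2 * (n * (s * s)) - r / η ^ 2 - η ^ 14 * (n * (s * s)) -
        (2 * η ^ 6 + 3 * η ^ 24) * (x * (√n * s) / η ^ 10) := by
    field_simp; ring
  rw [e2, hss]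
  have h1 : r / η ^ 2 ≤ CR C CA W * (η ^ 2 * (n * τ)) := by
    rw [div_le_iff₀ (by positivity)]
    calc _ ≤ _ := hR
      _ = _ := by ring
  have h2 : η ^ 14 * (n * τ) ≤ η ^ 2 * (n * τ) :=
    mul_le_mul_of_nonneg_right (pow_le_pow_of_le_one hη.le hη1 (by norm_num)) (by positivity)
  have h3 : (2 * η ^ 6 + 3 * η ^ 24) * (x * (√n * s) / η ^ 10) ≤ 6 * (x * (√n * s) / η ^ 10) := by
    refine mul_le_mul_of_nonneg_right ?_ (by positivity)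
    have := pow_le_one₀ (n := 6) hη.le hη1
    have := pow_le_one₀ (n := 24) hη.le hη1
    linarith
  linarith

end Crest.Agent.T157.St

end
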