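import Crest.Agent.T157.StDef_87

/-!
# Row 157, part C4: `FinGlue`, part A (helper85): Gaussian splitting, smoothed densities
-/

set_option autoImplicit false

noncomputable section

namespace Crest.Agent.T157.St.Fin85

open MeasureTheory ProbabilityTheory Matrix Filter Topology Finset Real
open scoped ENNReal
open Crest.Agent.T157.E

/-! ### scaling and splitting -/

/-- coordinatewise scaling -/
def sc {ι : Type*} (c z : ι → ℝ) : ι → ℝ := fun k => √(c k) * z k

lemma continuous_sc {ι : Type*} (c : ι → ℝ) : Continuous (sc c) :=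
  continuous_pi fun k => continuous_const.mul (continuous_apply k)

lemma mp_sc {ι : Type*} [Fintype ι] {c : ι → ℝ} (hc : ∀ k, 0 ≤ c k) :
    MeasurePreserving (sc c) (gv ι) (gs 0 c) := by
  refine ⟨(continuous_sc c).measurable, ?_⟩
  have h := Measure.pi_map_pi (μ := fun _ : ι => gaussianReal 0 1)
    (f := fun k x => √(c k) * x) (fun k => by fun_prop)
  refine h.trans ?_
  unfold gs
  congr 1
  funext k
  rw [gaussianReal_map_const_mul]
  congr 1
  · simp
  · ext
    simp [sq_sqrt (hc k), hc k]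

lemma sc_dot {ι : Type*} [Fintype ι] {c : ι → ℝ} (hc : ∀ k, 0 ≤ c k) (z : ι → ℝ) :
    sc c z ⬝ᵥ sc c z = ∑ k, c k * z k ^ 2 := by
  refine sum_congr rfl fun k _ => ?_
  simp only [sc]
  have := mul_self_sqrt (hc k)
  calc √(c k) * z k * (√(c k) * z k) = (√(c k) * √(c k)) * z k ^ 2 := by ring
    _ = _ := by rw [this]

/-- first block -/
def lft (a b : ℕ) (z : Fin (a + b) → ℝ) : Fin a → ℝ := fun i => z (Fin.castAdd b i)
/-- second block -/
def rgt (a b : ℕ) (z : Fin (a + b) → ℝ) : Fin b → ℝ := fun j => z (Fin.natAdd a j)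

lemma mp_split (a b : ℕ) : MeasurePreserving (fun z => (lft a b z, rgt a b z))
    (gv (Fin (a + b))) ((gv (Fin a)).prod (gv (Fin b))) := by
  have h1 := (measurePreserving_piCongrLeft (α := fun _ : Fin (a + b) => ℝ)
    (fun _ => gaussianReal 0 1) (finSumFinEquiv (m := a) (n := b))).symm
  have h2 := measurePreserving_sumPiEquivProdPi (X := fun _ : Fin a ⊕ Fin b => ℝ)
    (fun _ => gaussianReal 0 1)
  exact h2.comp h1

/-- weighted sum of squares of a block of modes -/
def S (c : ℕ → ℝ) (i m : ℕ) (z : Fin m → ℝ) : ℝ := ∑ k : Fin m, c (i + k) * z k ^ 2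

lemma continuous_S (c : ℕ → ℝ) (i m : ℕ) : Continuous (S c i m) := by
  unfold S; fun_prop

lemma S_nonneg {c : ℕ → ℝ} (hc : ∀ k, 0 ≤ c k) (i m : ℕ) (z : Fin m → ℝ) : 0 ≤ S c i m z :=
  sum_nonneg fun _ _ => mul_nonneg (hc _) (sq_nonneg _)

lemma S_split (c : ℕ → ℝ) (i a b : ℕ) (z : Fin (a + b) → ℝ) :
    S c i (a + b) z = S c i a (lft a b z) + S c (i + a) b (rgt a b z) := by
  unfold S
  rw [Fin.sum_univ_add]
  simp [lft, rgt, add_assoc]

lemma S_congr {c c' : ℕ → ℝ} {i m : ℕ} (h : ∀ k, k < m → c (i + k) = c' (i + k)) :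
    S c i m = S c' i m := by
  funext z
  exact sum_congr rfl fun k _ => by rw [h k k.2]

/-! ### Lipschitz densities on the half line -/

/-- bounded Lipschitz nonnegative function vanishing on the negative half line -/
structure Dn (P : ℝ → ℝ) (Λ : ℝ) : Prop where
  nn : ∀ s, 0 ≤ P s
  le : ∀ s, P s ≤ Λ
  lip : ∀ s s', |P s - P s'| ≤ Λ * |s - s'|
  zero : ∀ s, s ≤ 0 → P s = 0

lemma Dn.pos {P : ℝ → ℝ} {Λ : ℝ} (h : Dn P Λ) : 0 ≤ Λ := (h.nn 0).trans (h.le 0)

lemma Dn.cont {P : ℝ → ℝ} {Λ : ℝ} (h : Dn P Λ) : Continuous P := by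
  refine (LipschitzWith.of_dist_le_mul (K := ⟨Λ, h.pos⟩) fun s s' => ?_).continuous
  rw [Real.dist_eq, Real.dist_eq]
  exact h.lip s s'

lemma Dn.abs_le {P : ℝ → ℝ} {Λ : ℝ} (h : Dn P Λ) (s : ℝ) : |P s| ≤ Λ := by
  rw [abs_of_nonneg (h.nn s)]; exact h.le s

lemma int_bdd {α : Type*} [MeasurableSpace α] {μ : Measure α} [IsFiniteMeasure μ] {f : α → ℝ}
    (hf : Measurable f) {A : ℝ} (hA : ∀ x, |f x| ≤ A) : Integrable f μ :=
  Integrable.of_bound hf.aestronglyMeasurable A (ae_of_all _ hA)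

lemma abs_int_le {α : Type*} [MeasurableSpace α] {μ : Measure α} [IsProbabilityMeasure μ]
    {f : α → ℝ} {A : ℝ} (hA : ∀ x, |f x| ≤ A) : |∫ x, f x ∂μ| ≤ A := by
  simpa using norm_integral_le_of_norm_le_const (μ := μ) (f := f) (C := A) (ae_of_all _ hA)

/-- the density after adding a block of modes -/
def qf (P : ℝ → ℝ) (c : ℕ → ℝ) (i m : ℕ) (s : ℝ) : ℝ := ∫ z, P (s - S c i m z) ∂gv (Fin m)

lemma Dn.int {P : ℝ → ℝ} {Λ : ℝ} (h : Dn P Λ) (c : ℕ → ℝ) (i m : ℕ) (s : ℝ) :
    Integrable (fun z => P (s - S c i m z)) (gv (Fin m)) :=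
  int_bdd (h.cont.comp (continuous_const.sub (continuous_S c i m))).measurable fun _ => h.abs_le _

lemma Dn.qf {P : ℝ → ℝ} {Λ : ℝ} (h : Dn P Λ) {c : ℕ → ℝ} (hc : ∀ k, 0 ≤ c k) (i m : ℕ) :
    Dn (qf P c i m) Λ where
  nn _ := integral_nonneg fun _ => h.nn _
  le s := (le_abs_self _).trans (abs_int_le fun _ => h.abs_le _)
  lip s s' := by
    unfold Fin85.qf
    rw [← integral_sub (h.int c i m s) (h.int c i m s')]
    refine abs_int_le fun z => (h.lip _ _).trans (le_of_eq ?_)
    congr 2; ring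
  zero s hs := by
    unfold Fin85.qf
    have : ∀ z, P (s - S c i m z) = 0 := fun z => h.zero _ (by linarith [S_nonneg hc i m z])
    simp [this]

lemma qf_congr (P : ℝ → ℝ) {c c' : ℕ → ℝ} {i m : ℕ} (h : ∀ k, k < m → c (i + k) = c' (i + k)) :
    qf P c i m = qf P c' i m := by
  funext s
  unfold qf
  rw [S_congr h]

/-! ### fluctuations of the tail -/

lemma memLp_sq : MemLp (fun x : ℝ => x ^ 2) 2 (gaussianReal 0 1) := by
  have h := memLp_id_gaussianReal' (μ := 0) (v := 1) 4 (by simp)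
  have h2 := h.norm_rpow_div 2
  have e : (4 : ℝ≥0∞) / 2 = 2 := by
    rw [show (4 : ℝ≥0∞) = 2 * 2 by norm_num, ENNReal.mul_div_cancel_right (by simp) (by simp)]
  rw [e] at h2
  simpa using h2

lemma int_sq : ∫ x : ℝ, x ^ 2 ∂gaussianReal 0 1 = 1 := by
  have h := variance_fun_id_gaussianReal (μ := 0) (v := 1)
  rw [variance_eq_integral measurable_id'.aemeasurable] at h
  simpa using h

/-- variance of a squared Gaussian -/
def V0 : ℝ := Var[fun x : ℝ => x ^ 2; gaussianReal 0 1]

lemma V0_nonneg : 0 ≤ V0 := variance_nonneg _ _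

lemma memLp_S (c : ℕ → ℝ) (i m : ℕ) : MemLp (S c i m) 2 (gv (Fin m)) := by
  unfold S
  exact memLp_finsetSum _ fun k _ =>
    (memLp_sq.const_mul (c (i + k))).comp_measurePreserving
      (measurePreserving_eval (fun _ : Fin m => gaussianReal 0 1) k)

lemma int_S (c : ℕ → ℝ) (i m : ℕ) : ∫ z, S c i m z ∂gv (Fin m) = ∑ k : Fin m, c (i + k) := by
  unfold S
  rw [integral_finsetSum]
  · refine sum_congr rfl fun k _ => ?_
    rw [integral_const_mul]
    have h2 : ∫ z : Fin m → ℝ, z k ^ 2 ∂gv (Fin m) = ∫ x : ℝ, x ^ 2 ∂gaussianReal 0 1 := by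
      have h3 := integral_map (μ := gv (Fin m)) (φ := Function.eval k)
        (f := fun x : ℝ => x ^ 2) (measurable_pi_apply k).aemeasurable (by fun_prop)
      rw [(measurePreserving_eval (fun _ : Fin m => gaussianReal 0 1) k).map_eq] at h3
      exact h3.symm
    rw [h2, int_sq, mul_one]
  · intro k _
    exact ((memLp_sq.const_mul (c (i + k))).comp_measurePreserving
      (measurePreserving_eval (fun _ : Fin m => gaussianReal 0 1) k)).integrable one_le_two

lemma var_S (c : ℕ → ℝ) (i m : ℕ) :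
    Var[S c i m; gv (Fin m)] = V0 * ∑ k : Fin m, c (i + k) ^ 2 := by
  have h := variance_sum_pi (μ := fun _ : Fin m => gaussianReal 0 1)
    (X := fun k x => c (i + k) * x ^ 2) fun k => memLp_sq.const_mul _
  have e : S c i m = ∑ k : Fin m, fun ω : Fin m → ℝ => c (i + k) * ω k ^ 2 := by
    funext z; simp [S]
  rw [e, h, mul_sum]
  refine sum_congr rfl fun k _ => ?_
  rw [variance_const_mul, V0, mul_comm]

lemma dev_S (c : ℕ → ℝ) (i m : ℕ) {l : ℝ} (hl : 0 < l) :
    ∫ z, |S c i m z - ∑ k : Fin m, c (i + k)| ∂gv (Fin m) ≤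
      (V0 * (∑ k : Fin m, c (i + k) ^ 2) / l + l) / 2 := by
  have hm := memLp_S c i m
  rw [← var_S, ← int_S, variance_eq_integral hm.aemeasurable]
  set M := ∫ z, S c i m z ∂gv (Fin m)
  have h2 : Integrable (fun z => (S c i m z - M) ^ 2) (gv (Fin m)) :=
    (hm.sub (memLp_const M)).integrable_sq
  have h1 : Integrable (fun z => |S c i m z - M|) (gv (Fin m)) :=
    ((hm.integrable one_le_two).sub (integrable_const M)).abs
  calc ∫ z, |S c i m z - M| ∂gv (Fin m)
      ≤ ∫ z, ((S c i m z - M) ^ 2 / l + l) / 2 ∂gv (Fin m) := by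
        refine integral_mono h1 (((h2.div_const l).add (integrable_const l)).div_const 2)
          fun z => ?_
        have : 0 ≤ (|S c i m z - M| - l) ^ 2 / l := by positivity
        have e : (|S c i m z - M| - l) ^ 2 / l =
            (S c i m z - M) ^ 2 / l - 2 * |S c i m z - M| + l := by
          rw [← sq_abs (S c i m z - M)]; field_simp; ring
        simp only
        linarith
    _ = _ := by
        rw [integral_div, integral_add (h2.div_const l) (integrable_const l), integral_div]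
        simp

lemma Dn.qf_split {P : ℝ → ℝ} {Λ : ℝ} (h : Dn P Λ) (c : ℕ → ℝ) (i a b : ℕ) (s s' : ℝ) {l : ℝ}
    (hl : 0 < l) :
    |Fin85.qf P c i (a + b) s - Fin85.qf P c i a s'| ≤
      Λ * (|s - ∑ k : Fin b, c (i + a + k) - s'| +
        (V0 * (∑ k : Fin b, c (i + a + k) ^ 2) / l + l) / 2) := by
  set M := ∑ k : Fin b, c (i + a + k)
  have c1 : Continuous fun q : (Fin a → ℝ) × (Fin b → ℝ) =>
      P (s - (S c i a q.1 + S c (i + a) b q.2)) :=
    h.cont.comp (continuous_const.sub (((continuous_S c i a).comp continuous_fst).add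
      ((continuous_S c (i + a) b).comp continuous_snd)))
  have c2 : Continuous fun q : (Fin a → ℝ) × (Fin b → ℝ) => P (s' - S c i a q.1) :=
    h.cont.comp (continuous_const.sub ((continuous_S c i a).comp continuous_fst))
  have e1 : Fin85.qf P c i (a + b) s = ∫ q, P (s - (S c i a q.1 + S c (i + a) b q.2))
      ∂(gv (Fin a)).prod (gv (Fin b)) := by
    rw [← (mp_split a b).map_eq, integral_map (mp_split a b).measurable.aemeasurable
      c1.aestronglyMeasurable]
    simp only [Fin85.qf, S_split]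
  have e2 : Fin85.qf P c i a s' = ∫ q, P (s' - S c i a q.1) ∂(gv (Fin a)).prod (gv (Fin b)) := by
    rw [integral_fun_fst (fun z => P (s' - S c i a z))]
    simp [Fin85.qf]
  have i3 : Integrable (fun z => |S c (i + a) b z - M|) (gv (Fin b)) :=
    (((memLp_S c (i + a) b).integrable one_le_two).sub (integrable_const M)).abs
  have i4 : Integrable (fun q : (Fin a → ℝ) × (Fin b → ℝ) => |S c (i + a) b q.2 - M|)
      ((gv (Fin a)).prod (gv (Fin b))) := i3.comp_snd _
  have i1 := int_bdd (μ := (gv (Fin a)).prod (gv (Fin b))) c1.measurable fun _ => h.abs_le _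
  have i2 := int_bdd (μ := (gv (Fin a)).prod (gv (Fin b))) c2.measurable fun _ => h.abs_le _
  rw [e1, e2, ← integral_sub i1 i2]
  calc _ ≤ ∫ q : (Fin a → ℝ) × (Fin b → ℝ), Λ * (|s - M - s'| + |S c (i + a) b q.2 - M|)
        ∂(gv (Fin a)).prod (gv (Fin b)) := by
        refine (abs_integral_le_integral_abs).trans (integral_mono (i1.sub i2).abs
          (((integrable_const _).add i4).const_mul Λ) fun q => ?_)
        refine (h.lip _ _).trans (mul_le_mul_of_nonneg_left ?_ h.pos)
        have : s - (S c i a q.1 + S c (i + a) b q.2) - (s' - S c i a q.1) =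
            (s - M - s') - (S c (i + a) b q.2 - M) := by ring
        rw [this]
        exact abs_sub _ _
    _ = Λ * (|s - M - s'| + ∫ z, |S c (i + a) b z - M| ∂gv (Fin b)) := by
        rw [integral_const_mul, integral_add (integrable_const _) i4,
          integral_fun_snd (fun z => |S c (i + a) b z - M|)]
        simp
    _ ≤ _ := by
        have := dev_S c (i + a) b hl
        exact mul_le_mul_of_nonneg_left (by linarith) h.pos

end Crest.Agent.T157.St.Fin85

end
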