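import Crest.Agent.T157.StFinA_85

/-!
# Row 157, part C4: `FinGlue`, part B (helper85): shells, projected laws, the kernel
-/

set_option autoImplicit false

noncomputable section

namespace Crest.Agent.T157.St.Fin85

open MeasureTheory ProbabilityTheory Matrix Filter Topology Finset Real
open scoped ENNReal BoundedContinuousFunction
open Crest.Agent.T157.E

/-! ### thin intervals -/

/-- indicator of a thin interval -/
def ind (u ε s : ℝ) : ℝ := if u ≤ s ∧ s ≤ u + ε then 1 else 0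

lemma ind_abs (u ε s : ℝ) : |ind u ε s| ≤ 1 := by unfold ind; split_ifs <;> simp

lemma meas_ind {α : Type*} [MeasurableSpace α] {u s : α → ℝ} (hu : Measurable u)
    (hs : Measurable s) (ε : ℝ) : Measurable fun a => ind (u a) ε (s a) :=
  Measurable.ite ((measurableSet_le hu hs).inter (measurableSet_le hs (hu.add_const ε)))
    measurable_const measurable_const

lemma ind_shift (u ε s r : ℝ) : ind u ε (r + s) = ind (u - r) ε s := by
  unfold ind
  congr 1
  exact propext ⟨fun h => ⟨by linarith [h.1], by linarith [h.2]⟩,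
    fun h => ⟨by linarith [h.1], by linarith [h.2]⟩⟩

/-- `P` is the density of the block `S c i m` -/
def Iv (P : ℝ → ℝ) (Λ : ℝ) (c : ℕ → ℝ) (i m : ℕ) : Prop := ∀ u ε : ℝ, 0 ≤ ε →
  |∫ z, ind u ε (S c i m z) ∂gv (Fin m) - ε * P u| ≤ Λ * ε ^ 2

lemma iv_four {P : ℝ → ℝ} {Λ : ℝ} (h : Dn P Λ) {c : ℕ → ℝ} (hc : ∀ k, 0 ≤ c k) (i : ℕ)
    (hP : ∀ h : ℝ → ℝ≥0∞, Measurable h →
      ∫⁻ x, h (x ⬝ᵥ x) ∂gs 0 (fun k : Fin 4 => c (i + k)) = ∫⁻ s, h s * ENNReal.ofReal (P s)) :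
    Iv P Λ c i 4 := by
  intro u ε hε
  have hm : Measurable ((Set.Icc u (u + ε)).indicator (1 : ℝ → ℝ≥0∞)) :=
    measurable_one.indicator measurableSet_Icc
  have h1 := hP _ hm
  have hd : Measurable fun x : Fin 4 → ℝ => x ⬝ᵥ x := by unfold dotProduct; fun_prop
  have hm' : Measurable fun x : Fin 4 → ℝ =>
      (Set.Icc u (u + ε)).indicator (1 : ℝ → ℝ≥0∞) (x ⬝ᵥ x) := hm.comp hd
  rw [← (mp_sc (c := fun k : Fin 4 => c (i + k)) fun k => hc _).lintegral_comp hm'] at h1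
  simp only [sc_dot (c := fun k : Fin 4 => c (i + k)) fun k => hc _] at h1
  have hS : MeasurableSet {z | S c i 4 z ∈ Set.Icc u (u + ε)} :=
    (continuous_S c i 4).measurable measurableSet_Icc
  have e1 : ∫⁻ z, (Set.Icc u (u + ε)).indicator (1 : ℝ → ℝ≥0∞)
      (∑ k : Fin 4, c (i + k) * z k ^ 2) ∂gv (Fin 4) =
      gv (Fin 4) {z | S c i 4 z ∈ Set.Icc u (u + ε)} := by
    rw [← lintegral_indicator_one hS]
    rfl
  have iP : IntegrableOn P (Set.Icc u (u + ε)) := h.cont.integrableOn_Icc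
  have e2 : ∫⁻ s, (Set.Icc u (u + ε)).indicator (1 : ℝ → ℝ≥0∞) s * ENNReal.ofReal (P s) =
      ENNReal.ofReal (∫ s in Set.Icc u (u + ε), P s) := by
    rw [ofReal_integral_eq_lintegral_ofReal iP (ae_of_all _ h.nn),
      ← lintegral_indicator measurableSet_Icc]
    refine lintegral_congr fun s => ?_
    by_cases hs : s ∈ Set.Icc u (u + ε) <;> simp [hs]
  have e3 : ∫ z, ind u ε (S c i 4 z) ∂gv (Fin 4) = ∫ s in Set.Icc u (u + ε), P s := by
    have : (fun z => ind u ε (S c i 4 z)) =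
        {z | S c i 4 z ∈ Set.Icc u (u + ε)}.indicator fun _ => (1 : ℝ) := by
      funext z
      simp only [ind, Set.indicator, Set.mem_ofPred_eq, Set.mem_Icc]
    rw [this, integral_indicator hS, setIntegral_const, smul_eq_mul, mul_one, measureReal_def,
      ← e1, h1, e2, ENNReal.toReal_ofReal (integral_nonneg h.nn)]
  have e4 : ε * P u = ∫ _ in Set.Icc u (u + ε), P u := by
    rw [setIntegral_const, Real.volume_real_Icc_of_le (by linarith)]
    simp
  rw [e3, e4, ← integral_sub iP (continuous_const.integrableOn_Icc)]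
  have := norm_setIntegral_le_of_norm_le_const (μ := volume) (s := Set.Icc u (u + ε))
    (f := fun s => P s - P u) (C := Λ * ε) (by simp) fun s hs => by
      refine (h.lip s u).trans (mul_le_mul_of_nonneg_left ?_ h.pos)
      rw [abs_of_nonneg (by linarith [hs.1])]
      linarith [hs.2]
  rw [Real.volume_real_Icc_of_le (by linarith)] at this
  refine this.trans (le_of_eq (by ring))

lemma Iv.add {P : ℝ → ℝ} {Λ : ℝ} (h : Dn P Λ) {c : ℕ → ℝ} {i a : ℕ} (hI : Iv P Λ c i a) (b : ℕ) :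
    Iv (qf P c (i + a) b) Λ c i (a + b) := by
  intro u ε hε
  have m1 : Measurable fun q : (Fin a → ℝ) × (Fin b → ℝ) =>
      ind (u - S c (i + a) b q.2) ε (S c i a q.1) :=
    meas_ind (continuous_const.sub ((continuous_S c (i + a) b).comp continuous_snd)).measurable
      ((continuous_S c i a).comp continuous_fst).measurable ε
  have i1 := int_bdd (μ := (gv (Fin a)).prod (gv (Fin b))) m1 fun _ => ind_abs _ _ _
  have e1 : ∫ z, ind u ε (S c i (a + b) z) ∂gv (Fin (a + b)) =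
      ∫ y, ∫ x, ind (u - S c (i + a) b y) ε (S c i a x) ∂gv (Fin a) ∂gv (Fin b) := by
    rw [← integral_prod_symm _ i1, ← (mp_split a b).map_eq,
      integral_map (mp_split a b).measurable.aemeasurable m1.aestronglyMeasurable]
    refine integral_congr_ae (ae_of_all _ fun z => ?_)
    simp only [S_split]
    rw [add_comm (S c i a _), ind_shift]
  rw [e1, qf, ← integral_const_mul, ← integral_sub i1.integral_prod_right
    ((h.int c (i + a) b u).const_mul ε)]
  exact abs_int_le fun y => hI (u - S c (i + a) b y) ε hε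

/-- the shell integral of a function of the first block -/
lemma shell_approx {q : ℝ → ℝ} {Λ : ℝ} (h : Dn q Λ) {c : ℕ → ℝ} (hc : ∀ k, 0 ≤ c k) {a b : ℕ}
    (hI : Iv q Λ c a b) {F : (Fin a → ℝ) → ℝ} (hF : Continuous F) {A : ℝ} (hA : ∀ x, |F x| ≤ A)
    (t : ℝ) {ε : ℝ} (hε : 0 ≤ ε) :
    |∫ x in shell t ε, F (lft a b x) ∂gs 0 (fun k : Fin (a + b) => c k) -
      ε * ∫ x, F (sc (fun k : Fin a => c k) x) * q (t - S c 0 a x) ∂gv (Fin a)| ≤
      A * (Λ * ε ^ 2) := by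
  set cA : Fin a → ℝ := fun k => c k
  have hA0 : 0 ≤ A := (abs_nonneg _).trans (hA 0)
  have cF : Continuous fun x => F (sc cA x) := hF.comp (continuous_sc cA)
  have m0 : Measurable fun q : (Fin a → ℝ) × (Fin b → ℝ) =>
      ind (t - S c 0 a q.1) ε (S c a b q.2) :=
    meas_ind (continuous_const.sub ((continuous_S c 0 a).comp continuous_fst)).measurable
      ((continuous_S c a b).comp continuous_snd).measurable ε
  have m1 : Measurable fun q : (Fin a → ℝ) × (Fin b → ℝ) =>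
      F (sc cA q.1) * ind (t - S c 0 a q.1) ε (S c a b q.2) :=
    (cF.comp continuous_fst).measurable.mul m0
  have i1 := int_bdd (μ := (gv (Fin a)).prod (gv (Fin b))) (A := A * 1) m1 fun q => by
    rw [abs_mul]; exact mul_le_mul (hA _) (ind_abs _ _ _) (abs_nonneg _) hA0
  have hd : Continuous fun x : Fin (a + b) → ℝ => x ⬝ᵥ x := by unfold dotProduct; fun_prop
  have hsh : MeasurableSet (shell (ι := Fin (a + b)) t ε) :=
    (measurableSet_le measurable_const hd.measurable).inter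
      (measurableSet_le hd.measurable measurable_const)
  have cl : Continuous (lft a b) := continuous_pi fun i => continuous_apply _
  have mp := mp_sc (c := fun k : Fin (a + b) => c k) fun k => hc _
  have e1 : ∫ x in shell t ε, F (lft a b x) ∂gs 0 (fun k : Fin (a + b) => c k) =
      ∫ x, F (sc cA x) * ∫ y, ind (t - S c 0 a x) ε (S c a b y) ∂gv (Fin b) ∂gv (Fin a) := by
    have e : ∀ x, F (sc cA x) * ∫ y, ind (t - S c 0 a x) ε (S c a b y) ∂gv (Fin b) =
        ∫ y, F (sc cA x) * ind (t - S c 0 a x) ε (S c a b y) ∂gv (Fin b) := fun x =>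
      (integral_const_mul _ _).symm
    simp only [e]
    have m3 : Measurable ((shell t ε).indicator fun x => F (lft a b x)) :=
      (hF.comp cl).measurable.indicator hsh
    rw [← integral_prod _ i1, ← (mp_split a b).map_eq,
      integral_map (mp_split a b).measurable.aemeasurable m1.aestronglyMeasurable,
      ← integral_indicator hsh, ← mp.map_eq, integral_map mp.measurable.aemeasurable
        m3.aestronglyMeasurable]
    refine integral_congr_ae (ae_of_all _ fun z => ?_)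
    have e2 : sc (fun k : Fin (a + b) => c k) z ⬝ᵥ sc (fun k : Fin (a + b) => c k) z =
        S c 0 a (lft a b z) + S c a b (rgt a b z) := by
      rw [sc_dot (c := fun k : Fin (a + b) => c k) fun k => hc _]
      have := S_split c 0 a b z
      simpa [S] using this
    have e3 : lft a b (sc (fun k : Fin (a + b) => c k) z) = sc cA (lft a b z) := rfl
    simp only [Set.indicator, shell, Set.mem_ofPred_eq, e2, e3, ← ind_shift]
    unfold ind
    split_ifs <;> simp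
  have i2 : Integrable (fun x => F (sc cA x) * q (t - S c 0 a x)) (gv (Fin a)) :=
    int_bdd (A := A * Λ) (cF.mul (h.cont.comp (continuous_const.sub
      (continuous_S c 0 a)))).measurable fun x => by
        rw [abs_mul]; exact mul_le_mul (hA _) (h.abs_le _) (abs_nonneg _) hA0
  have i3 : Integrable (fun x => F (sc cA x) *
      ∫ y, ind (t - S c 0 a x) ε (S c a b y) ∂gv (Fin b)) (gv (Fin a)) := by
    refine i1.integral_prod_left.congr (ae_of_all _ fun x => ?_)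
    exact integral_const_mul (F (sc cA x)) fun y => ind (t - S c 0 a x) ε (S c a b y)
  rw [e1, ← integral_const_mul, ← integral_sub i3 (i2.const_mul ε)]
  refine abs_int_le fun x => ?_
  have := hI (t - S c 0 a x) ε hε
  calc _ = |F (sc cA x)| * |∫ y, ind (t - S c 0 a x) ε (S c a b y) ∂gv (Fin b) -
        ε * q (t - S c 0 a x)| := by rw [← abs_mul]; congr 1; ring
    _ ≤ _ := mul_le_mul (hA _) this (abs_nonneg _) hA0

lemma shell_tendsto {q : ℝ → ℝ} {Λ : ℝ} (h : Dn q Λ) {c : ℕ → ℝ} (hc : ∀ k, 0 ≤ c k) {a b : ℕ}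
    (hI : Iv q Λ c a b) {F : (Fin a → ℝ) → ℝ} (hF : Continuous F) {A : ℝ} (hA : ∀ x, |F x| ≤ A)
    (t : ℝ) :
    Tendsto (fun ε => (∫ x in shell t ε, F (lft a b x) ∂gs 0 (fun k : Fin (a + b) => c k)) / ε)
      (𝓝[>] 0) (𝓝 (∫ x, F (sc (fun k : Fin a => c k) x) * q (t - S c 0 a x) ∂gv (Fin a))) := by
  rw [tendsto_iff_norm_sub_tendsto_zero]
  have h0 : Tendsto (fun ε : ℝ => A * Λ * ε) (𝓝[>] 0) (𝓝 0) := by
    have : Tendsto (fun ε : ℝ => A * Λ * ε) (𝓝 0) (𝓝 (A * Λ * 0)) :=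
      (continuous_const.mul continuous_id).tendsto 0
    rw [mul_zero] at this
    exact this.mono_left nhdsWithin_le_nhds
  refine squeeze_zero' (Eventually.of_forall fun _ => norm_nonneg _) ?_ h0
  filter_upwards [self_mem_nhdsWithin] with ε hε
  have hε' : 0 < ε := hε
  have := shell_approx h hc hI hF hA t hε'.le
  rw [Real.norm_eq_abs, div_sub' hε'.ne', abs_div, abs_of_pos hε', div_le_iff₀ hε']
  refine this.trans (le_of_eq (by ring))

/-! ### laws with a density -/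

/-- Gaussian law with covariance `c` and unnormalised density `f` -/
def mu0 {ι : Type*} [Fintype ι] (c : ι → ℝ) (f : (ι → ℝ) → ℝ) : Measure (ι → ℝ) :=
  ((gv ι).withDensity fun a => ENNReal.ofReal (f a / ∫ x, f x ∂gv ι)).map (sc c)

section mu0
variable {ι : Type*} [Fintype ι]

lemma integral_mu0 (c : ι → ℝ) {f : (ι → ℝ) → ℝ} (hf : Continuous f) (h0 : ∀ a, 0 ≤ f a)
    {F : (ι → ℝ) → ℝ} (hF : Measurable F) :
    ∫ x, F x ∂mu0 c f = ∫ a, f a / (∫ x, f x ∂gv ι) * F (sc c a) ∂gv ι := by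
  have hZ : 0 ≤ ∫ x, f x ∂gv ι := integral_nonneg h0
  unfold mu0
  rw [integral_map (continuous_sc c).measurable.aemeasurable hF.aestronglyMeasurable,
    integral_withDensity_eq_integral_toReal_smul
      (hf.measurable.div_const _).ennreal_ofReal (ae_of_all _ fun _ => ENNReal.ofReal_lt_top)]
  refine integral_congr_ae (ae_of_all _ fun a => ?_)
  simp only [smul_eq_mul]
  rw [ENNReal.toReal_ofReal (div_nonneg (h0 a) hZ)]

lemma prob_mu0 (c : ι → ℝ) {f : (ι → ℝ) → ℝ} (h0 : ∀ a, 0 ≤ f a)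
    (hZ : 0 < ∫ x, f x ∂gv ι) : IsProbabilityMeasure (mu0 c f) := by
  have hi : Integrable f (gv ι) := by
    by_contra hn
    rw [integral_undef hn] at hZ
    exact lt_irrefl _ hZ
  have : IsProbabilityMeasure
      ((gv ι).withDensity fun a => ENNReal.ofReal (f a / ∫ x, f x ∂gv ι)) := by
    constructor
    rw [withDensity_apply _ MeasurableSet.univ, Measure.restrict_univ,
      ← ofReal_integral_eq_lintegral_ofReal (hi.div_const _)
        (ae_of_all _ fun a => div_nonneg (h0 a) hZ.le), integral_div, div_self hZ.ne']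
    simp
  exact Measure.isProbabilityMeasure_map (continuous_sc c).measurable.aemeasurable

lemma cp_mu0 {c : ι → ℝ} {f : (ι → ℝ) → ℝ} (hf : Continuous f) (h0 : ∀ a, 0 ≤ f a)
    (hZ : 0 < ∫ x, f x ∂gv ι) {r : ℝ} (hr : ∀ a, f a ≠ 0 → sc c a ⬝ᵥ sc c a ≤ r) :
    Cp (mu0 c f) := by
  refine ⟨prob_mu0 c h0 hZ, r, ?_⟩
  have hd : Continuous fun x : ι → ℝ => x ⬝ᵥ x := by unfold dotProduct; fun_prop
  unfold mu0
  rw [ae_map_iff (continuous_sc c).measurable.aemeasurable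
    (measurableSet_le hd.measurable measurable_const),
    ae_withDensity_iff (hf.measurable.div_const _).ennreal_ofReal]
  refine ae_of_all _ fun a ha => hr a fun h => ha ?_
  simp [h]

/-- the dominating function -/
def G (a : ι → ℝ) : ℝ := ∏ k, exp (a k ^ 2 / 4)

lemma G_pos (a : ι → ℝ) : 0 < G a := prod_pos fun _ _ => exp_pos _

lemma integrable_exp_sq : Integrable (fun x : ℝ => exp (x ^ 2 / 4)) (gaussianReal 0 1) := by
  rw [gaussianReal_of_var_ne_zero _ one_ne_zero,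
    integrable_withDensity_iff (measurable_gaussianPDF _ _) (ae_of_all _ fun _ => gaussianPDF_lt_top)]
  refine ((integrable_exp_neg_mul_sq (b := 1 / 4) (by norm_num)).const_mul
    (√(2 * π * 1))⁻¹).congr (ae_of_all _ fun x => ?_)
  simp only [toReal_gaussianPDF, gaussianPDFReal, NNReal.coe_one, sub_zero]
  rw [mul_left_comm, ← exp_add]
  congr 2
  ring

lemma integrable_G : Integrable (G (ι := ι)) (gv ι) :=
  Integrable.fintype_prod (f := fun _ x => exp (x ^ 2 / 4)) fun _ => integrable_exp_sq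

lemma ker_le {c c' : ι → ℝ} {θ : ℝ} (hθ : 0 ≤ θ) (h0 : ∀ k, 0 ≤ c k) (h0' : ∀ k, 0 ≤ c' k)
    (h1 : ∀ k, θ * c k ≤ 1 / 2) (h1' : ∀ k, θ * c' k ≤ 1 / 2) (a a' : ι → ℝ) :
    exp (θ * (sc c a ⬝ᵥ sc c' a')) ≤ G a * G a' := by
  unfold G
  rw [← exp_sum, ← exp_sum, ← exp_add, ← sum_add_distrib, exp_le_exp, dotProduct, mul_sum]
  refine sum_le_sum fun k _ => ?_
  have e1 : sc c a k ^ 2 = c k * a k ^ 2 := by simp only [sc]; rw [mul_pow, sq_sqrt (h0 k)]
  have e2 : sc c' a' k ^ 2 = c' k * a' k ^ 2 := by simp only [sc]; rw [mul_pow, sq_sqrt (h0' k)]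
  have h2 : sc c a k * sc c' a' k ≤ (c k * a k ^ 2 + c' k * a' k ^ 2) / 2 := by
    rw [← e1, ← e2]; nlinarith [sq_nonneg (sc c a k - sc c' a' k)]
  have h3 := mul_le_mul_of_nonneg_left h2 hθ
  have h4 := mul_le_mul_of_nonneg_right (h1 k) (sq_nonneg (a k))
  have h5 := mul_le_mul_of_nonneg_right (h1' k) (sq_nonneg (a' k))
  nlinarith

lemma continuous_ker (c c' : ι → ℝ) (θ : ℝ) :
    Continuous fun z : (ι → ℝ) × (ι → ℝ) => exp (θ * (sc c z.1 ⬝ᵥ sc c' z.2)) := by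
  unfold dotProduct sc; fun_prop

lemma int_ker {c c' : ι → ℝ} {θ : ℝ} (hθ : 0 ≤ θ) (h0 : ∀ k, 0 ≤ c k) (h0' : ∀ k, 0 ≤ c' k)
    (h1 : ∀ k, θ * c k ≤ 1 / 2) (h1' : ∀ k, θ * c' k ≤ 1 / 2) {g g' : (ι → ℝ) → ℝ}
    (hg : Continuous g) (hg' : Continuous g') {A A' : ℝ} (hA : ∀ a, |g a| ≤ A)
    (hA' : ∀ a, |g' a| ≤ A') :
    (∀ z : (ι → ℝ) × (ι → ℝ), |g z.1 * g' z.2 * exp (θ * (sc c z.1 ⬝ᵥ sc c' z.2))| ≤
      A * A' * (G z.1 * G z.2)) ∧
    Integrable (fun z : (ι → ℝ) × (ι → ℝ) => g z.1 * g' z.2 * exp (θ * (sc c z.1 ⬝ᵥ sc c' z.2)))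
      ((gv ι).prod (gv ι)) := by
  have hA0 : 0 ≤ A := (abs_nonneg _).trans (hA 0)
  have hA0' : 0 ≤ A' := (abs_nonneg _).trans (hA' 0)
  have hb : ∀ z : (ι → ℝ) × (ι → ℝ), |g z.1 * g' z.2 * exp (θ * (sc c z.1 ⬝ᵥ sc c' z.2))| ≤
      A * A' * (G z.1 * G z.2) := fun z => by
    rw [abs_mul, abs_mul, abs_of_pos (exp_pos _)]
    exact mul_le_mul (mul_le_mul (hA _) (hA' _) (abs_nonneg _) hA0)
      (ker_le hθ h0 h0' h1 h1' _ _) (exp_pos _).le (mul_nonneg hA0 hA0')
  exact ⟨hb, Integrable.mono' ((integrable_G.mul_prod integrable_G).const_mul (A * A'))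
    (((hg.comp continuous_fst).mul (hg'.comp continuous_snd)).mul
      (continuous_ker c c' θ)).aestronglyMeasurable (ae_of_all _ hb)⟩

lemma Xk_mu0 {c c' : ι → ℝ} {θ : ℝ} (hθ : 0 ≤ θ) (h0 : ∀ k, 0 ≤ c k) (h0' : ∀ k, 0 ≤ c' k)
    (h1 : ∀ k, θ * c k ≤ 1 / 2) (h1' : ∀ k, θ * c' k ≤ 1 / 2) {f f' : (ι → ℝ) → ℝ}
    (hf : Continuous f) (hf' : Continuous f') (n : ∀ a, 0 ≤ f a) (n' : ∀ a, 0 ≤ f' a)
    (hZ' : 0 < ∫ x, f' x ∂gv ι) {A A' : ℝ} (hA : ∀ a, f a ≤ A) (hA' : ∀ a, f' a ≤ A') :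
    Xk θ (mu0 c f) (mu0 c' f') =
      ∫ z : (ι → ℝ) × (ι → ℝ), (f z.1 / ∫ x, f x ∂gv ι) * (f' z.2 / ∫ x, f' x ∂gv ι) *
        exp (θ * (sc c z.1 ⬝ᵥ sc c' z.2)) ∂(gv ι).prod (gv ι) := by
  have := prob_mu0 c' n' hZ'
  have hZ : 0 ≤ ∫ x, f x ∂gv ι := integral_nonneg n
  have b1 : ∀ a, |f a / ∫ x, f x ∂gv ι| ≤ A / ∫ x, f x ∂gv ι := fun a => by
    rw [abs_of_nonneg (div_nonneg (n a) hZ)]; exact div_le_div_of_nonneg_right (hA a) hZ
  have b2 : ∀ a, |f' a / ∫ x, f' x ∂gv ι| ≤ A' / ∫ x, f' x ∂gv ι := fun a => by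
    rw [abs_of_nonneg (div_nonneg (n' a) hZ'.le)]
    exact div_le_div_of_nonneg_right (hA' a) hZ'.le
  rw [integral_prod _ (int_ker hθ h0 h0' h1 h1' (hf.div_const _) (hf'.div_const _) b1 b2).2]
  have ck : Continuous fun z : (ι → ℝ) × (ι → ℝ) => exp (θ * (z.1 ⬝ᵥ z.2)) := by
    unfold dotProduct; fun_prop
  unfold Xk
  rw [integral_mu0 c hf n (ck.stronglyMeasurable.integral_prod_right').measurable]
  refine integral_congr_ae (ae_of_all _ fun a => ?_)
  simp only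
  have m : Measurable fun y : ι → ℝ => exp (θ * (sc c a ⬝ᵥ y)) :=
    (ck.comp (Continuous.prodMk_right (sc c a))).measurable
  rw [integral_mu0 c' hf' n' m, ← integral_const_mul]
  refine integral_congr_ae (ae_of_all _ fun a' => ?_)
  simp only
  ring

lemma D2_mu0 {c : ι → ℝ} {θ : ℝ} (hθ : 0 ≤ θ) (h0 : ∀ k, 0 ≤ c k)
    (h1 : ∀ k, θ * c k ≤ 1 / 2) {f f' : (ι → ℝ) → ℝ}
    (hf : Continuous f) (hf' : Continuous f') (n : ∀ a, 0 ≤ f a) (n' : ∀ a, 0 ≤ f' a)
    {Λ d e : ℝ} (hA : ∀ a, f a ≤ Λ) (hA' : ∀ a, f' a ≤ Λ) (hd : 0 < d)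
    (hZ : d ≤ ∫ x, f x ∂gv ι) (he : ∀ a, |f a - f' a| ≤ e) (hed : e ≤ d / 2) :
    D2 θ (mu0 c f) (mu0 c f') ≤ (e * (1 / d + 2 * Λ / d ^ 2) * ∫ a, G a ∂gv ι) ^ 2 := by
  have a1 : ∀ a, |f a| ≤ Λ := fun a => by rw [abs_of_nonneg (n a)]; exact hA a
  have a2 : ∀ a, |f' a| ≤ Λ := fun a => by rw [abs_of_nonneg (n' a)]; exact hA' a
  have hΛ : 0 ≤ Λ := (n 0).trans (hA 0)
  have he0 : 0 ≤ e := (abs_nonneg _).trans (he 0)
  set Z := ∫ x, f x ∂gv ι with hZd
  set Z' := ∫ x, f' x ∂gv ι with hZd'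
  have hZZ : |Z - Z'| ≤ e := by
    rw [hZd, hZd', ← integral_sub (int_bdd hf.measurable a1) (int_bdd hf'.measurable a2)]
    exact abs_int_le he
  have hZ' : d / 2 ≤ Z' := by linarith [(abs_le.1 hZZ).2]
  have pZ : 0 < Z := hd.trans_le hZ
  have pZ' : 0 < Z' := lt_of_lt_of_le (by positivity) hZ'
  set g : (ι → ℝ) → ℝ := fun a => f a / Z
  set g' : (ι → ℝ) → ℝ := fun a => f' a / Z'
  have cg : Continuous g := hf.div_const _
  have cg' : Continuous g' := hf'.div_const _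
  have b1 : ∀ a, |g a| ≤ Λ / Z := fun a => by
    simp only [g]; rw [abs_div, abs_of_pos pZ]; exact div_le_div_of_nonneg_right (a1 a) pZ.le
  have b2 : ∀ a, |g' a| ≤ Λ / Z' := fun a => by
    simp only [g']; rw [abs_div, abs_of_pos pZ']; exact div_le_div_of_nonneg_right (a2 a) pZ'.le
  set s := e * (1 / d + 2 * Λ / d ^ 2)
  have b3 : ∀ a, |g a - g' a| ≤ s := fun a => by
    have e1 : g a - g' a = (f a - f' a) / Z + f' a * (Z' - Z) / (Z * Z') := by
      simp only [g, g']; field_simp; ring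
    have t1 : |(f a - f' a) / Z| ≤ e * (1 / d) := by
      rw [abs_div, abs_of_pos pZ, mul_one_div]
      exact div_le_div₀ he0 (he a) hd hZ
    have t2 : |f' a * (Z' - Z) / (Z * Z')| ≤ e * (2 * Λ / d ^ 2) := by
      rw [abs_div, abs_mul, abs_of_pos (mul_pos pZ pZ'), abs_sub_comm]
      calc _ ≤ Λ * e / (d * (d / 2)) :=
            div_le_div₀ (mul_nonneg hΛ he0) (mul_le_mul (a2 a) hZZ (abs_nonneg _) hΛ)
              (by positivity) (mul_le_mul hZ hZ' (by positivity) pZ.le)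
        _ = _ := by field_simp
    rw [e1]
    refine (abs_add_le _ _).trans ((add_le_add t1 t2).trans (le_of_eq ?_))
    simp only [s]; ring
  set k : (ι → ℝ) × (ι → ℝ) → ℝ := fun z => exp (θ * (sc c z.1 ⬝ᵥ sc c z.2))
  have i11 := (int_ker hθ h0 h0 h1 h1 cg cg b1 b1).2
  have i12 := (int_ker hθ h0 h0 h1 h1 cg cg' b1 b2).2
  have i21 := (int_ker hθ h0 h0 h1 h1 cg' cg b2 b1).2
  have i22 := (int_ker hθ h0 h0 h1 h1 cg' cg' b2 b2).2
  obtain ⟨bd, id⟩ := int_ker hθ h0 h0 h1 h1 (cg.sub cg') (cg.sub cg') b3 b3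
  have sw : ∫ z : (ι → ℝ) × (ι → ℝ), g z.1 * g' z.2 * k z ∂(gv ι).prod (gv ι) =
      ∫ z : (ι → ℝ) × (ι → ℝ), g' z.1 * g z.2 * k z ∂(gv ι).prod (gv ι) := by
    rw [← integral_prod_swap]
    refine integral_congr_ae (ae_of_all _ fun z => ?_)
    simp only [k, Prod.fst_swap, Prod.snd_swap]
    rw [dotProduct_comm]; ring
  have e : D2 θ (mu0 c f) (mu0 c f') = ∫ z : (ι → ℝ) × (ι → ℝ),
      (g z.1 - g' z.1) * (g z.2 - g' z.2) * k z ∂(gv ι).prod (gv ι) := by
    unfold D2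
    rw [Xk_mu0 hθ h0 h0 h1 h1 hf hf n n pZ hA hA, Xk_mu0 hθ h0 h0 h1 h1 hf hf' n n' pZ' hA hA',
      Xk_mu0 hθ h0 h0 h1 h1 hf' hf' n' n' pZ' hA' hA']
    have e2 : ∀ z : (ι → ℝ) × (ι → ℝ), (g z.1 - g' z.1) * (g z.2 - g' z.2) * k z =
        (g z.1 * g z.2 * k z - g z.1 * g' z.2 * k z) -
          (g' z.1 * g z.2 * k z - g' z.1 * g' z.2 * k z) := fun z => by ring
    simp only [e2]
    have j1 : Integrable (fun z : (ι → ℝ) × (ι → ℝ) =>
      g z.1 * g z.2 * k z - g z.1 * g' z.2 * k z) ((gv ι).prod (gv ι)) := i11.sub i12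
    have j2 : Integrable (fun z : (ι → ℝ) × (ι → ℝ) =>
      g' z.1 * g z.2 * k z - g' z.1 * g' z.2 * k z) ((gv ι).prod (gv ι)) := i21.sub i22
    rw [integral_sub j1 j2, integral_sub i11 i12, integral_sub i21 i22, ← sw]
    ring
  rw [e]
  calc _ ≤ ∫ z : (ι → ℝ) × (ι → ℝ), s * s * (G z.1 * G z.2) ∂(gv ι).prod (gv ι) :=
        integral_mono id ((integrable_G.mul_prod integrable_G).const_mul _)
          fun z => (le_abs_self _).trans (bd z)
    _ = _ := by rw [integral_const_mul, integral_prod_mul]; ring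

end mu0

end Crest.Agent.T157.St.Fin85

end
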