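import Crest.Agent.T157.StF_44
import Crest.Agent.T157.StD_49

/-!
# Row 157, part D (helper44): the step below `b`
-/

set_option autoImplicit false

noncomputable section

namespace Crest.Agent.T157.St

open MeasureTheory Matrix Set Finset
open Crest.Agent.T157.Eig Crest.Agent.T157.Conc

variable {n : ℕ} {β C b : ℝ} {A : Matrix (Fin n) (Fin n) ℝ}

/-- scalar algebra, stage 1 -/
def D1P : Prop :=
  ∀ β : ℝ, 1 ≤ β → ∃ C1 : ℝ, 1 ≤ C1 ∧ ∀ (n : ℕ) (D : Fin n → ℝ) (η u1 : ℝ), 0 < n →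
    (∀ i, 1 ≤ D i) → 0 < η → C1 * (|ku β D 0 0| + η) ≤ 1 →
    u1 = -ku β D 0 0 / (2 * β ^ 2 * av fun i => (D i)⁻¹ ^ 3) +
      200 * β ^ 8 * (|ku β D 0 0| + η) ^ 2 →
    |u1| ≤ 3 * β ^ 2 * (|ku β D 0 0| + η) ∧ (|ku β D 0 0| + η) ^ 2 ≤ ku β D u1 (η ^ 2) ∧
      ku β D u1 (η ^ 2) ≤ C1 * (|ku β D 0 0| + η) ^ 2 ∧ 1 / (2 * β ^ 2) ≤ g2 D u1 (η ^ 2) ∧
      |u1 + β ^ 2 * (gr D u1 (η ^ 2) - av fun i => (D i)⁻¹)| ≤ C1 * (|ku β D 0 0| + η) ^ 2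

theorem kt_kap (S : Site β C b) (hn : 0 < n) {η : ℝ} (hη : 0 < η) {m : Fin n → ℝ}
    (hm : m ∈ box n) : kt S η m ≤ kap S m ∧ kap S m - β ^ 2 * η ^ 12 ≤ kt S η m := by
  have hq := qq_mem hm
  have e : g2 (Dt S η m) 0 0 = av fun i => max (S.aa (qq m) (m i)) (η ^ 6) ^ 2 := by
    unfold g2 Dt
    simp
  have h6 : 0 < η ^ 6 := by positivity
  have h1 : (av fun i => S.aa (qq m) (m i) ^ 2) ≤ g2 (Dt S η m) 0 0 := by
    rw [e]
    exact av_mono fun i => pow_le_pow_left₀ (S.aa_pos hq _).le (le_max_left _ _) 2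
  have h2 : g2 (Dt S η m) 0 0 ≤ (av fun i => S.aa (qq m) (m i) ^ 2) + η ^ 12 := by
    rw [e, ← av_const hn (η ^ 12)]
    unfold av
    rw [← add_div, ← Finset.sum_add_distrib]
    refine div_le_div_of_nonneg_right (Finset.sum_le_sum fun i _ => ?_) (Nat.cast_nonneg n)
    rcases le_total (S.aa (qq m) (m i)) (η ^ 6) with h | h
    · rw [max_eq_right h]; nlinarith [sq_nonneg (S.aa (qq m) (m i))]
    · rw [max_eq_left h]
      have : 0 ≤ η ^ 12 := by positivity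
      linarith
  have hb : 0 ≤ β ^ 2 := sq_nonneg β
  unfold kt ku kap
  constructor
  · linarith [mul_le_mul_of_nonneg_left h1 hb]
  · linarith [mul_le_mul_of_nonneg_left h2 hb]

theorem inc_eq (S : Site β C b) (A : Matrix (Fin n) (Fin n) ℝ) (η u1 u2 τ : ℝ) (m : Fin n → ℝ) :
    inc S A η u1 u2 τ m = del (cl S η m) (√τ • Mm A (Dt S η m)
      (u1 + β ^ 2 * gr (Dt S η m) u1 u2) (max (u2 * ku β (Dt S η m) u1 u2) (η ^ 4))) := by
  funext ξ i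
  simp only [inc, del, smul_mulVec, Pi.smul_apply, smul_eq_mul]

theorem n_dq (hn : 0 < n) (m δ : Fin n → ℝ) :
    n * (qq (m + δ) - qq m) = 2 * (m ⬝ᵥ δ) + δ ⬝ᵥ δ := by
  rw [mul_sub, n_qq hn, n_qq hn, add_dotProduct, dotProduct_add, dotProduct_add,
    dotProduct_comm δ m]
  ring

theorem num_step1 {β Cd η κ t k g u tB tK N Δ gr' : ℝ} (hβ : 1 ≤ β) (hCd : 1 ≤ Cd)
    (hη : 0 < η) (hN : 0 < N) (hΔ : 0 < Δ) (ht0 : 0 ≤ t) (ht : t ≤ |κ| + 2 * η)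
    (ht1 : Cd * t ≤ 1) (ht2 : 2 * β ^ 2 * t ≤ 1) (hη1 : 2 * β ^ 2 * η ≤ 1) (hk0 : 0 < k)
    (hk : k ≤ Cd * t ^ 2) (hg : 1 / (2 * β ^ 2) ≤ g) (hu : |u| ≤ Cd * t ^ 2) (hgr : |gr'| ≤ 2)
    (r1 : |tB / N - gr'| ≤ η ^ 4) (r2 : |η ^ 2 * k * tK / N - η ^ 2 * g| ≤ η ^ 4) :
    Δ * k / g ≤ Δ ∧ |Δ * k / g * tK - N * Δ| ≤ 2 * β ^ 2 * η ^ 2 * (N * Δ) ∧
      Δ * k / g * tK ≤ 2 * (N * Δ) ∧
      -(32 * β ^ 2 * Cd * (N * Δ * (κ ^ 2 + η ^ 2))) ≤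
        -(1 / 2 * (Δ * k / g * tB)) + 1 / 2 * u * (Δ * k / g * tK) := by
  have hb : 0 < β ^ 2 := by positivity
  have hb1 : 1 ≤ β ^ 2 := one_le_pow₀ hβ
  have hg0 : 0 < g := lt_of_lt_of_le (by positivity) hg
  have hgi : 1 / g ≤ 2 * β ^ 2 := by
    rw [div_le_iff₀ hg0]; rw [div_le_iff₀ (by positivity)] at hg; linarith
  have hη2 : η ≤ 1 / 2 := by nlinarith
  have hkg : k / g ≤ 2 * β ^ 2 * (Cd * t ^ 2) := by
    rw [show k / g = 1 / g * k by ring]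
    exact mul_le_mul hgi hk hk0.le (by positivity)
  have hkg1 : k / g ≤ 1 := by
    refine hkg.trans ?_
    have : 2 * β ^ 2 * (Cd * t ^ 2) = (2 * β ^ 2 * t) * (Cd * t) := by ring
    rw [this]
    exact mul_le_one₀ ht2 (by positivity) ht1
  have a1 : Δ * k / g ≤ Δ := by
    rw [mul_div_assoc]; exact mul_le_of_le_one_right hΔ.le hkg1
  have a2 : |Δ * k / g * tK - N * Δ| ≤ 2 * β ^ 2 * η ^ 2 * (N * Δ) := by
    have e : Δ * k / g * tK - N * Δ =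
        (η ^ 2 * k * tK / N - η ^ 2 * g) * (1 / g * (N * Δ) / η ^ 2) := by field_simp
    rw [e, abs_mul, abs_of_nonneg (by positivity : 0 ≤ 1 / g * (N * Δ) / η ^ 2)]
    calc _ ≤ η ^ 4 * (2 * β ^ 2 * (N * Δ) / η ^ 2) :=
          mul_le_mul r2 (div_le_div_of_nonneg_right
            (mul_le_mul_of_nonneg_right hgi (by positivity)) (by positivity)) (by positivity)
            (by positivity)
      _ = _ := by field_simp
  have hND : 0 < N * Δ := by positivity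
  have a3 : Δ * k / g * tK ≤ 2 * (N * Δ) := by
    have h1 := (abs_le.1 a2).2
    have h2 : 2 * β ^ 2 * η ^ 2 ≤ 1 := by nlinarith
    nlinarith
  have a3' : 0 ≤ Δ * k / g * tK := by
    have h1 := (abs_le.1 a2).1
    have h2 : 2 * β ^ 2 * η ^ 2 ≤ 1 := by nlinarith
    nlinarith
  refine ⟨a1, a2, a3, ?_⟩
  have h4 : η ^ 4 ≤ 1 := pow_le_one₀ hη.le (by linarith)
  have b1 : tB ≤ 3 * N := by
    have h1 := (abs_le.1 r1).2
    have h2 := (abs_le.1 hgr).2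
    have h3 : tB / N ≤ 3 := by linarith
    rwa [div_le_iff₀ hN] at h3
  have b2 : Δ * k / g * tB ≤ Δ * (2 * β ^ 2 * (Cd * t ^ 2)) * (3 * N) := by
    calc Δ * k / g * tB ≤ Δ * k / g * (3 * N) := mul_le_mul_of_nonneg_left b1 (by positivity)
      _ ≤ _ := by
        rw [mul_div_assoc]
        exact mul_le_mul_of_nonneg_right (mul_le_mul_of_nonneg_left hkg hΔ.le) (by positivity)
  have b3 : -(Cd * t ^ 2 * (2 * (N * Δ))) ≤ u * (Δ * k / g * tK) := by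
    have h1 : |u * (Δ * k / g * tK)| ≤ Cd * t ^ 2 * (2 * (N * Δ)) := by
      rw [abs_mul, abs_of_nonneg a3']
      exact mul_le_mul hu a3 a3' (by positivity)
    exact (abs_le.1 h1).1
  have b4 : t ^ 2 ≤ 8 * (κ ^ 2 + η ^ 2) := by
    have h1 : t ^ 2 ≤ (|κ| + 2 * η) ^ 2 := pow_le_pow_left₀ ht0 ht 2
    nlinarith [sq_nonneg (|κ| - 2 * η), sq_abs κ, sq_nonneg κ]
  have b5 : Cd * (N * Δ) * t ^ 2 ≤ Cd * (N * Δ) * (8 * (κ ^ 2 + η ^ 2)) :=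
    mul_le_mul_of_nonneg_left b4 (by positivity)
  have b6 := mul_le_mul_of_nonneg_left b5 hb.le
  have b7 : Cd * (N * Δ) * (8 * (κ ^ 2 + η ^ 2)) ≤ β ^ 2 * (Cd * (N * Δ) * (8 * (κ ^ 2 + η ^ 2))) :=
    le_mul_of_one_le_left (by positivity) hb1
  linarith

theorem step1_of (hD : D1P) : Step1Stmt := by
  intro β C CA hβ hC hCA
  obtain ⟨Cd, hCd, hD⟩ := hD β hβ
  obtain ⟨C2, hC2, hcore⟩ := core β C CA (1 + 2 * β ^ 2) hβ hC hCA
  have hb1 : 1 ≤ β ^ 2 := one_le_pow₀ hβ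
  have hbC : Cd ≤ β ^ 2 * Cd := le_mul_of_one_le_left (by linarith) hb1
  obtain ⟨C1, hC1⟩ : ∃ C1, C1 = 40 * (β ^ 2 * Cd) + 20 * β ^ 2 + 4 * C2 + 4 := ⟨_, rfl⟩
  refine ⟨C1, by linarith, ?_⟩
  intro n b S A η Δ H m hm hκ x hx
  have hn := H.n0
  have hn' : (0 : ℝ) < n := by exact_mod_cast hn
  have hη := H.η0
  have hη' := H.η1
  have hκ0 := abs_nonneg (kap S m)
  have hsm : ∀ c z : ℝ, 0 ≤ z → C1 * z ≤ 1 → c ≤ C1 → c * z ≤ 1 := fun c z h0 h1 h2 =>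
    (mul_le_mul_of_nonneg_right h2 h0).trans h1
  have hη2 : η ≤ 1 / 2 := by linarith [hsm 2 η hη.le hη' (by linarith)]
  have hη1 : η ≤ 1 := by linarith
  have hDm := Dt_mem S hη hη1 hm
  obtain ⟨k1, k2⟩ := kt_kap S hn hη hm
  have ht : |kt S η m| + η ≤ |kap S m| + 2 * η := by
    have h1 : β ^ 2 * η ^ 12 ≤ η := by
      have h2 : η ^ 12 ≤ η ^ 2 := pow_le_pow_of_le_one hη.le hη1 (by norm_num)
      have h3 := hsm (β ^ 2) η hη.le hη' (by linarith)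
      nlinarith
    have h2 := abs_sub_abs_le_abs_sub (kt S η m) (kap S m)
    have h3 : |kt S η m - kap S m| ≤ η := abs_le.2 ⟨by linarith, by linarith⟩
    linarith
  have ht0 : 0 ≤ |kt S η m| + η := by positivity
  have htc : ∀ c : ℝ, 0 ≤ c → 3 * c ≤ C1 → c * (|kt S η m| + η) ≤ 1 := fun c h0 h1 => by
    have h2 := hsm (3 * c) _ hκ0 hκ h1
    have h3 := hsm (3 * c) _ hη.le hη' h1
    have h4 := mul_le_mul_of_nonneg_left ht h0
    linarith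
  obtain ⟨d1, d2, d3, d4, d5⟩ := hD n (Dt S η m) η (u11 S η m) hn (fun i => (hDm i).1) hη
    (htc Cd (by linarith) (by linarith)) rfl
  change _ ≤ 3 * β ^ 2 * (|kt S η m| + η) at d1
  change (|kt S η m| + η) ^ 2 ≤ _ at d2
  change _ ≤ Cd * (|kt S η m| + η) ^ 2 at d3 d5
  have hu : |u11 S η m| ≤ 1 / 2 := by linarith [htc (6 * β ^ 2) (by positivity) (by linarith)]
  have hu' := abs_le.1 hu
  have hku : η ^ 2 ≤ ku β (Dt S η m) (u11 S η m) (η ^ 2) :=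
    (pow_le_pow_left₀ hη.le (le_add_of_nonneg_left (abs_nonneg _)) 2).trans d2
  have hη22 : 0 < η ^ 2 := by positivity
  have hw : η ^ 4 ≤ η ^ 2 * ku β (Dt S η m) (u11 S η m) (η ^ 2) := by
    rw [show η ^ 4 = η ^ 2 * η ^ 2 by ring]
    exact mul_le_mul_of_nonneg_left hku hη22.le
  obtain ⟨r1, r2⟩ := H.rmt (Dt S η m) hDm (u11 S η m) (η ^ 2) hu'.1 (by linarith) le_rfl
    (pow_le_one₀ hη.le hη1) hku
  have hgr := D49.abs_gr_le hn (fun i => (hDm i).1) hu'.1 (η ^ 2)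
  have hw1 : |u11 S η m + β ^ 2 * gr (Dt S η m) (u11 S η m) (η ^ 2)| ≤ 1 + 2 * β ^ 2 := by
    refine (abs_add_le _ _).trans ?_
    rw [abs_mul, abs_of_nonneg (sq_nonneg β)]
    nlinarith
  obtain ⟨a1, a2, a3, a4⟩ := num_step1 hβ hCd hη hn' H.τ0 ht0 ht
    (htc Cd (by linarith) (by linarith)) (htc (2 * β ^ 2) (by positivity) (by linarith))
    (hsm _ η hη.le hη' (by linarith)) (hη22.trans_le hku) d3 d4 d5 hgr r1 r2
  have hτ : tau1 S η Δ m = Δ * ku β (Dt S η m) (u11 S η m) (η ^ 2) /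
      g2 (Dt S η m) (u11 S η m) (η ^ 2) := by
    unfold tau1
    rw [max_eq_left (hη22.le.trans hku)]
  rw [← hτ] at a1 a2 a3 a4
  have hτ0 : 0 ≤ tau1 S η Δ m := by
    rw [hτ]
    exact div_nonneg (mul_nonneg H.τ0.le (hη22.le.trans hku)) (le_trans (by positivity) d4)
  have hδ := inc_eq S A η (u11 S η m) (η ^ 2) (tau1 S η Δ m) m
  rw [max_eq_left hw] at hδ
  have hB := hcore n b S A η _ _ _ Δ hn H.sym H.opA hη hη2 hw1 hw hτ0 a1 H.τ0 H.τ1 m hm 0 1 le_rfl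
    (by simp [nrm]) x hx _ hδ
  refine hB.mono (by linarith [Real.exp_pos (-x ^ 2 / 2)]) fun ξ hξ => ?_
  obtain ⟨c1, c2, c3, c4⟩ := hξ
  have e0 : step1 S A η Δ m ξ = m + inc S A η (u11 S η m) (η ^ 2) (tau1 S η Δ m) m ξ := rfl
  rw [e0, add_sub_cancel_left]
  have hdq := n_dq hn m (inc S A η (u11 S η m) (η ^ 2) (tau1 S η Δ m) m ξ)
  rw [zero_dotProduct, add_zero, one_mul] at c2
  have e1 : u11 S η m + β ^ 2 * gr (Dt S η m) (u11 S η m) (η ^ 2) -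
      β ^ 2 * (av fun i => (Dt S η m i)⁻¹) =
      u11 S η m + β ^ 2 * (gr (Dt S η m) (u11 S η m) (η ^ 2) - av fun i => (Dt S η m i)⁻¹) := by
    ring
  rw [e1] at c2
  have e2 : ∀ c : ℝ, c * x * √(n * Δ) / η ^ 10 = c * (x * √(n * Δ) / η ^ 10) := fun c => by ring
  rw [e2]
  have e3 : n * |qq (m + inc S A η (u11 S η m) (η ^ 2) (tau1 S η Δ m) m ξ) - qq m - Δ| =
      |2 * (m ⬝ᵥ inc S A η (u11 S η m) (η ^ 2) (tau1 S η Δ m) m ξ) +
        inc S A η (u11 S η m) (η ^ 2) (tau1 S η Δ m) m ξ ⬝ᵥ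
          inc S A η (u11 S η m) (η ^ 2) (tau1 S η Δ m) m ξ - n * Δ| := by
    rw [← hdq, ← mul_sub, abs_mul, abs_of_pos hn']
  rw [e3]
  have hL0 : 0 ≤ x * √(n * Δ) / η ^ 10 := by positivity
  have hU0 : 0 ≤ n * Δ := by have := H.τ0; positivity
  rw [mul_assoc 2 (n : ℝ) Δ]
  generalize x * √(n * Δ) / η ^ 10 = L at *
  generalize (n : ℝ) * Δ = U at *
  generalize m ⬝ᵥ inc S A η (u11 S η m) (η ^ 2) (tau1 S η Δ m) m ξ = md at *
  generalize inc S A η (u11 S η m) (η ^ 2) (tau1 S η Δ m) m ξ ⬝ᵥ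
    inc S A η (u11 S η m) (η ^ 2) (tau1 S η Δ m) m ξ = dd at *
  have f1 : C2 * (η ^ 2 * (U + tau1 S η Δ m * (Km A (Dt S η m)
      (u11 S η m + β ^ 2 * gr (Dt S η m) (u11 S η m) (η ^ 2))
      (η ^ 2 * ku β (Dt S η m) (u11 S η m) (η ^ 2))).trace) + L) ≤
      3 * C2 * (U * η ^ 2) + C2 * L := by
    have h1 := mul_le_mul_of_nonneg_left a3 (by positivity : 0 ≤ C2 * η ^ 2)
    linarith
  have hUη : 0 ≤ U * η ^ 2 := by positivity
  have hUκ : 0 ≤ U * kap S m ^ 2 := by positivity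
  have g1 : (C2 + 4) * L ≤ C1 * L := mul_le_mul_of_nonneg_right (by linarith) hL0
  have g2' : (32 * (β ^ 2 * Cd) + 3 * C2) * (U * η ^ 2) ≤ C1 * (U * η ^ 2) :=
    mul_le_mul_of_nonneg_right (by linarith) hUη
  have g3 : 32 * (β ^ 2 * Cd) * (U * kap S m ^ 2) ≤ C1 * (U * kap S m ^ 2) :=
    mul_le_mul_of_nonneg_right (by linarith) hUκ
  have g4 : (2 * β ^ 2 + 3 * C2) * (U * η ^ 2) ≤ C1 * (U * η ^ 2) :=
    mul_le_mul_of_nonneg_right (by linarith) hUη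
  have g5 : C1 * (U * η ^ 2) ≤ U := by
    have h1 : C1 * η * η ≤ 1 := mul_le_one₀ hη' hη.le hη1
    calc C1 * (U * η ^ 2) = (C1 * η * η) * U := by ring
      _ ≤ U := mul_le_of_le_one_left hU0 h1
  have hC2L : 0 ≤ C2 * L := by positivity
  have hbU : 0 ≤ β ^ 2 * (U * η ^ 2) := by positivity
  have hCU : 0 ≤ C2 * (U * η ^ 2) := by positivity
  have c3' := abs_le.1 (c3.trans f1)
  have c4' := abs_le.1 c4
  have a2' := abs_le.1 a2
  refine ⟨c1, by linarith, abs_le.2 ⟨by linarith, by linarith⟩, by linarith,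
    abs_le.2 ⟨by linarith, by linarith⟩⟩

theorem d1P : D1P := fun β hβ =>
  ⟨1200 * β ^ 10, by nlinarith [one_le_pow₀ (n := 10) hβ], fun n D η u1 hn hD hη h1 hu => by
    obtain ⟨a1, a2, a3, a4, a5⟩ := D49.d1 hn hβ hD hη rfl h1 hu
    have h : 600 * β ^ 10 * (|ku β D 0 0| + η) ^ 2 ≤ 1200 * β ^ 10 * (|ku β D 0 0| + η) ^ 2 :=
      mul_le_mul_of_nonneg_right (by nlinarith [one_le_pow₀ (n := 10) hβ]) (sq_nonneg _)
    exact ⟨a1, a2, a3.trans h, a4, a5.trans h⟩⟩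

/-- **one step below `b`** -/
theorem step1Stmt : Step1Stmt := step1_of d1P

end Crest.Agent.T157.St

end
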