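import Crest.Agent.T157.EDef_39
import Crest.Agent.R339.GTools

/-!
# Row 157, part C, SWAP for coins (helper77), A: Stein identities on a product of Gaussians and
coins, and the derivative of a mean along a flow
-/

set_option autoImplicit false
set_option linter.all false

noncomputable section

namespace Crest.Agent.T157.Sw77

open MeasureTheory ProbabilityTheory Filter Function Finset
open Crest.Agent.T157.E

variable {ι : Type} [Fintype ι] [DecidableEq ι]

theorem mp_upd (ν : ι → Measure ℝ) [∀ c, IsProbabilityMeasure (ν c)] (j : ι) :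
    MeasurePreserving (fun p : (ι → ℝ) × ℝ => update p.1 j p.2) ((Measure.pi ν).prod (ν j))
      (Measure.pi ν) := by
  have hm : Measurable (fun p : (ι → ℝ) × ℝ => update p.1 j p.2) := measurable_update'
  refine ⟨hm, (Measure.pi_eq fun s hs => ?_).symm⟩
  rw [Measure.map_apply hm (MeasurableSet.univ_pi hs)]
  have : (fun p : (ι → ℝ) × ℝ => update p.1 j p.2) ⁻¹' (Set.univ.pi s) =
      (Set.univ.pi (update s j Set.univ)) ×ˢ (s j) := by
    ext ⟨g, t⟩
    simp only [Set.mem_preimage, Set.mem_pi, Set.mem_univ, true_implies, Set.mem_prod]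
    constructor
    · intro h
      refine ⟨fun i => ?_, by simpa using h j⟩
      by_cases hi : i = j
      · subst hi; simp
      · simpa [update_of_ne hi] using h i
    · rintro ⟨h1, h2⟩ i
      by_cases hi : i = j
      · subst hi; simpa using h2
      · simpa [update_of_ne hi] using h1 i
  rw [this, Measure.prod_prod, Measure.pi_pi, ← Finset.mul_prod_erase univ _ (mem_univ j),
    ← Finset.mul_prod_erase univ (fun i => ν i (s i)) (mem_univ j), update_self, measure_univ,
    one_mul, mul_comm]
  congr 1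
  exact prod_congr rfl fun i hi => by rw [update_of_ne (ne_of_mem_erase hi)]

theorem int_upd (ν : ι → Measure ℝ) [∀ c, IsProbabilityMeasure (ν c)] (j : ι) {F : (ι → ℝ) → ℝ}
    (hF : Integrable F (Measure.pi ν)) :
    ∫ y, F y ∂Measure.pi ν = ∫ y, ∫ t, F (update y j t) ∂ν j ∂Measure.pi ν := by
  have hmp := mp_upd ν j
  refine Eq.trans ?_ (integral_prod _ (hmp.integrable_comp_of_integrable hF))
  conv_lhs => rw [← hmp.map_eq]
  rw [integral_map hmp.measurable.aemeasurable (by rw [hmp.map_eq]; exact hF.aestronglyMeasurable)]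
  rfl

theorem int_coin (f : ℝ → ℝ) (hf : Measurable f) : ∫ t, f t ∂coin = (f 1 + f (-1)) / 2 := by
  have i : ∀ a : ℝ, Integrable f ((1 / 2 : ENNReal) • Measure.dirac a) := fun a =>
    (integrable_dirac (by simp)).smul_measure (by simp)
  rw [integral_add_measure (i 1) (i (-1)), integral_smul_measure, integral_smul_measure,
    integral_dirac, integral_dirac]
  simp; ring

/-- partial derivative -/
def pd (h : (ι → ℝ) → ℝ) (c : ι) (y : ι → ℝ) : ℝ := fderiv ℝ h y (Pi.single c 1)

theorem upd_eq (y : ι → ℝ) (c : ι) (t : ℝ) :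
    update y c t = update y c 0 + t • (Pi.single c 1 : ι → ℝ) := by
  funext i
  by_cases hi : i = c
  · subst hi; simp
  · simp [hi]

theorem hasDerivAt_upd (y : ι → ℝ) (c : ι) (t : ℝ) :
    HasDerivAt (fun t => update y c t) (Pi.single c 1 : ι → ℝ) t := by
  have := ((hasDerivAt_id t).smul_const (Pi.single c 1 : ι → ℝ)).const_add (update y c 0)
  simp only [one_smul, id] at this
  exact this.congr_of_eventuallyEq (.of_forall fun s => upd_eq y c s)

theorem hasDerivAt_pd {h : (ι → ℝ) → ℝ} (y : ι → ℝ) (c : ι) (t : ℝ)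
    (hd : DifferentiableAt ℝ h (update y c t)) :
    HasDerivAt (fun t => h (update y c t)) (pd h c (update y c t)) t :=
  hd.hasFDerivAt.comp_hasDerivAt t (hasDerivAt_upd y c t)

theorem deriv_upd {h : (ι → ℝ) → ℝ} (y : ι → ℝ) (c : ι) (t : ℝ)
    (hd : DifferentiableAt ℝ h (update y c t)) :
    deriv (fun t => h (update y c t)) t = pd h c (update y c t) := (hasDerivAt_pd y c t hd).deriv

theorem cont_pd {h : (ι → ℝ) → ℝ} (hh : ContDiff ℝ 1 h) (c : ι) : Continuous (pd h c) :=
  (hh.continuous_fderiv (by simp)).clm_apply continuous_const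

theorem supp_pd {h : (ι → ℝ) → ℝ} (hc : HasCompactSupport h) (c : ι) :
    HasCompactSupport (pd h c) :=
  (hc.fderiv ℝ).comp_left (g := fun L : (ι → ℝ) →L[ℝ] ℝ => L (Pi.single c 1)) (by simp)

theorem sum_pd (h : (ι → ℝ) → ℝ) (y v : ι → ℝ) : ∑ c, v c * pd h c y = fderiv ℝ h y v := by
  conv_rhs => rw [← univ_sum_single v]
  rw [map_sum]
  refine sum_congr rfl fun c _ => ?_
  rw [pd, ← smul_eq_mul, ← map_smul]
  congr 1
  funext i
  by_cases hi : i = c
  · subst hi; simp
  · simp [hi]

/-- the error of the trapezoid rule in the coordinate `c` -/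
def er (h : (ι → ℝ) → ℝ) (c : ι) (y : ι → ℝ) : ℝ :=
  (pd h c (update y c 1) + pd h c (update y c (-1))) / 2 -
    (h (update y c 1) - h (update y c (-1))) / 2

theorem int_cc {μ : Measure (ι → ℝ)} [IsFiniteMeasure μ] {F : (ι → ℝ) → ℝ} (h : Continuous F)
    (hc : HasCompactSupport F) : Integrable F μ := by
  obtain ⟨C, hC⟩ := h.bounded_above_of_compact_support hc
  exact (integrable_const C).mono' h.aestronglyMeasurable (.of_forall hC)

/-- Stein's operator -/
def st (h : (ι → ℝ) → ℝ) (c : ι) (y : ι → ℝ) : ℝ := pd h c y - y c * h y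

theorem cont_st {h : (ι → ℝ) → ℝ} (hh : ContDiff ℝ 1 h) (c : ι) : Continuous (st h c) :=
  (cont_pd hh c).sub ((continuous_apply c).mul hh.continuous)

theorem supp_st {h : (ι → ℝ) → ℝ} (hc : HasCompactSupport h) (c : ι) :
    HasCompactSupport (st h c) := (supp_pd hc c).sub hc.mul_left

theorem stein_g (ν : ι → Measure ℝ) [∀ c, IsProbabilityMeasure (ν c)] {c : ι}
    (hν : ν c = gaussianReal 0 1) {h : (ι → ℝ) → ℝ} (hh : ContDiff ℝ 1 h)
    (hc : HasCompactSupport h) : ∫ y, st h c y ∂Measure.pi ν = 0 := by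
  obtain ⟨C, hC⟩ := hh.continuous.bounded_above_of_compact_support hc
  obtain ⟨C', hC'⟩ := (cont_pd hh c).bounded_above_of_compact_support (supp_pd hc c)
  obtain ⟨C'', hC''⟩ := (cont_st hh c).bounded_above_of_compact_support (supp_st hc c)
  rw [int_upd ν c (int_cc (cont_st hh c) (supp_st hc c)), hν]
  refine integral_eq_zero_of_ae (.of_forall fun y => ?_)
  have cu : Continuous fun t : ℝ => update y c t := continuous_const.update c continuous_id
  have c1 := (cont_pd hh c).comp cu
  have c2 := (cont_st hh c).comp cu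
  have i1 : Integrable (fun t => pd h c (update y c t)) (gaussianReal 0 1) :=
    (integrable_const C').mono' c1.aestronglyMeasurable (.of_forall fun t => hC' _)
  have i2 : Integrable (fun t => st h c (update y c t)) (gaussianReal 0 1) :=
    (integrable_const C'').mono' c2.aestronglyMeasurable (.of_forall fun t => hC'' _)
  have i3 : Integrable (fun t => t * h (update y c t)) (gaussianReal 0 1) :=
    (i1.sub i2).congr (.of_forall fun t => by simp [st])
  have := R339.Guerra.stein1 (f := fun t => h (update y c t)) (f' := fun t => pd h c (update y c t))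
    (fun t => hasDerivAt_pd y c t (hh.differentiable (by simp) _)) c1.measurable
    (fun t => hC _) fun t => hC' _
  simp only [st, update_self, Pi.zero_apply]
  rw [integral_sub i1 i3, this, sub_self]

theorem stein_c (ν : ι → Measure ℝ) [∀ c, IsProbabilityMeasure (ν c)] {c : ι}
    (hν : ν c = coin) {h : (ι → ℝ) → ℝ} (hh : ContDiff ℝ 1 h)
    (hc : HasCompactSupport h) : ∫ y, st h c y ∂Measure.pi ν = ∫ y, er h c y ∂Measure.pi ν := by
  rw [int_upd ν c (int_cc (cont_st hh c) (supp_st hc c)), hν]
  refine integral_congr_ae (.of_forall fun y => ?_)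
  have cu : Continuous fun t : ℝ => update y c t := continuous_const.update c continuous_id
  have := int_coin _ ((cont_st hh c).comp cu).measurable
  refine this.trans ?_
  simp only [comp_def, st, er, update_self]
  ring

theorem cont_er {h : (ι → ℝ) → ℝ} (hh : ContDiff ℝ 1 h) (c : ι) : Continuous (er h c) := by
  have cu : ∀ t : ℝ, Continuous fun y : ι → ℝ => update y c t := fun t =>
    continuous_id.update c continuous_const
  exact ((((cont_pd hh c).comp (cu 1)).add ((cont_pd hh c).comp (cu (-1)))).div_const 2).sub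
    (((hh.continuous.comp (cu 1)).sub (hh.continuous.comp (cu (-1)))).div_const 2)

theorem int_er {μ : Measure (ι → ℝ)} [IsFiniteMeasure μ] {h : (ι → ℝ) → ℝ} (hh : ContDiff ℝ 1 h)
    (hc : HasCompactSupport h) (c : ι) : Integrable (er h c) μ := by
  obtain ⟨C, hC⟩ := hh.continuous.bounded_above_of_compact_support hc
  obtain ⟨C', hC'⟩ := (cont_pd hh c).bounded_above_of_compact_support (supp_pd hc c)
  refine (integrable_const (C' + C)).mono' (cont_er hh c).aestronglyMeasurable
    (.of_forall fun y => ?_)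
  have a1 := abs_le.1 (hC (update y c 1))
  have a2 := abs_le.1 (hC (update y c (-1)))
  have a3 := abs_le.1 (hC' (update y c 1))
  have a4 := abs_le.1 (hC' (update y c (-1)))
  rw [Real.norm_eq_abs, abs_le, er]
  constructor <;> linarith [a1.1, a1.2, a2.1, a2.2, a3.1, a3.2, a4.1, a4.2]

/-- derivative of a mean in a parameter -/
theorem hasDerivAt_int {E : Type} [NormedAddCommGroup E] [NormedSpace ℝ E] [MeasurableSpace E]
    [BorelSpace E] [SecondCountableTopology E] (μ : Measure E) [IsFiniteMeasure μ]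
    {G : ℝ × E → ℝ} (hG : ContDiff ℝ 1 G) {K : Set E} (hK : IsCompact K)
    (h0 : ∀ φ y, y ∉ K → G (φ, y) = 0) (φ : ℝ) :
    HasDerivAt (fun φ => ∫ y, G (φ, y) ∂μ) (∫ y, fderiv ℝ G (φ, y) (1, 0) ∂μ) φ := by
  have c1 : Continuous fun p : ℝ × E => fderiv ℝ G p (1, 0) :=
    (hG.continuous_fderiv (by simp)).clm_apply continuous_const
  have hd : ∀ y ψ, HasDerivAt (fun ψ => G (ψ, y)) (fderiv ℝ G (ψ, y) (1, 0)) ψ := fun y ψ =>
    (hG.differentiable (by simp) (ψ, y)).hasFDerivAt.comp_hasDerivAt ψ
      ((hasDerivAt_id ψ).prodMk (hasDerivAt_const ψ y))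
  have z : ∀ ψ y, y ∉ K → fderiv ℝ G (ψ, y) (1, 0) = 0 := fun ψ y hy =>
    (hd y ψ).unique (by simpa only [h0 _ y hy] using hasDerivAt_const ψ (0 : ℝ))
  have hc := (isCompact_closedBall φ 1).prod hK
  obtain ⟨B, hB⟩ := hc.exists_bound_of_continuousOn c1.continuousOn
  obtain ⟨B', hB'⟩ := hc.exists_bound_of_continuousOn hG.continuous.continuousOn
  have cG : ∀ ψ, Continuous fun y => G (ψ, y) := fun ψ => hG.continuous.comp (by fun_prop)
  refine (hasDerivAt_integral_of_dominated_loc_of_deriv_le (bound := fun _ => |B|)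
    (F' := fun ψ y => fderiv ℝ G (ψ, y) (1, 0)) (Metric.ball_mem_nhds φ one_pos)
    (.of_forall fun ψ => (cG ψ).aestronglyMeasurable) ?_
    (c1.comp (by fun_prop : Continuous fun y : E => (φ, y))).aestronglyMeasurable
    (.of_forall fun y ψ hψ => ?_) (integrable_const _) (.of_forall fun y ψ _ => hd y ψ)).2
  · refine (integrable_const |B'|).mono' (cG φ).aestronglyMeasurable (.of_forall fun y => ?_)
    by_cases hy : y ∈ K
    · exact (hB' _ ⟨Metric.mem_closedBall_self zero_le_one, hy⟩).trans (le_abs_self _)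
    · simp [h0 _ _ hy]
  · by_cases hy : y ∈ K
    · exact (hB _ ⟨Metric.ball_subset_closedBall hψ, hy⟩).trans (le_abs_self _)
    · simp [z _ _ hy]

end Crest.Agent.T157.Sw77

end
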