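import Crest.Agent.T157.CqSwap_44
import Crest.Agent.T157.CqRdA_7

/-!
# Row 157, part C, SWAP for coins (helper77), B: smoothness of the objects of the swap
-/

set_option autoImplicit false
set_option linter.all false

noncomputable section

namespace Crest.Agent.T157.Sw77

open Matrix Filter Topology Finset Real Function
open Crest.ProbabilityR.SpinGlassDynamics Crest.Agent.T157.E Crest.Agent.T157.Eig
open Crest.Agent.T157.St Crest.Agent.T157.Ed Crest.Agent.T157.Cond Crest.Agent.T157.Cq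

variable {F : Type} [NormedAddCommGroup F] [NormedSpace ℝ F] {p : F} {n : ℕ}

/-- a vector with smooth entries -/
def SV {κ : Type} (v : F → κ → ℝ) (p : F) : Prop := ∀ i, ContDiffAt ℝ (⊤ : ℕ∞) (fun q => v q i) p
/-- a matrix with smooth entries -/
def SM (M : F → Mat n) (p : F) : Prop := ∀ i j, ContDiffAt ℝ (⊤ : ℕ∞) (fun q => M q i j) p

variable {u v : F → Fin n → ℝ} {M N : F → Mat n} {c : F → ℝ}

theorem SV.const {κ : Type} (v : κ → ℝ) : SV (fun _ : F => v) p := fun _ => contDiffAt_const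
theorem SM.const (M : Mat n) : SM (fun _ : F => M) p := fun _ _ => contDiffAt_const
theorem SV.sub (h : SV u p) (h' : SV v p) : SV (fun q => u q - v q) p := fun i =>
  ContDiffAt.sub (h i) (h' i)
theorem SV.smul (hc : ContDiffAt ℝ (⊤ : ℕ∞) c p) (h : SV u p) : SV (fun q => c q • u q) p := fun i =>
  hc.mul (h i)
theorem SV.dot (h : SV u p) (h' : SV v p) : ContDiffAt ℝ (⊤ : ℕ∞) (fun q => u q ⬝ᵥ v q) p :=
  ContDiffAt.sum fun i _ => (h i).mul (h' i)
theorem SM.add (h : SM M p) (h' : SM N p) : SM (fun q => M q + N q) p := fun i j =>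
  ContDiffAt.add (h i j) (h' i j)
theorem SM.sub (h : SM M p) (h' : SM N p) : SM (fun q => M q - N q) p := fun i j =>
  ContDiffAt.sub (h i j) (h' i j)
theorem SM.smul (hc : ContDiffAt ℝ (⊤ : ℕ∞) c p) (h : SM M p) : SM (fun q => c q • M q) p := fun i j =>
  hc.mul (h i j)
theorem SM.mul (h : SM M p) (h' : SM N p) : SM (fun q => M q * N q) p := fun i j =>
  ContDiffAt.sum (s := univ) (f := fun k q => M q i k * N q k j) fun k _ => (h i k).mul (h' k j)
theorem SM.tr (h : SM M p) : SM (fun q => (M q)ᵀ) p := fun i j => h j i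
theorem SM.mulVec (h : SM M p) (h' : SV v p) : SV (fun q => M q *ᵥ v q) p := fun i =>
  ContDiffAt.sum (s := univ) (f := fun k q => M q i k * v q k) fun k _ => (h i k).mul (h' k)
theorem SV.vmv (h : SV u p) (h' : SV v p) : SM (fun q => vecMulVec (u q) (v q)) p := fun i j =>
  (h i).mul (h' j)

theorem SM.det (h : SM M p) : ContDiffAt ℝ (⊤ : ℕ∞) (fun q => (M q).det) p := by
  simp only [Matrix.det_apply']
  exact ContDiffAt.sum fun σ _ => contDiffAt_const.mul (contDiffAt_prod fun i _ => h _ _)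

theorem SM.inv (h : SM M p) (hd : (M p).det ≠ 0) : SM (fun q => (M q)⁻¹) p := fun a b => by
  have h1 : (fun q => (M q)⁻¹ a b) = fun q => ((M q).det)⁻¹ * (M q).adjugate a b := by
    funext q
    rw [Matrix.inv_def, Ring.inverse_eq_inv', Matrix.smul_apply, smul_eq_mul]
  rw [h1]
  refine (h.det.inv hd).mul ?_
  simp only [Matrix.adjugate_apply]
  refine SM.det fun c d => ?_
  by_cases hc : c = b
  · subst hc
    simp only [Matrix.updateRow_self]
    exact contDiffAt_const
  · simp only [Matrix.updateRow_ne hc]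
    exact h c d

theorem SM.fl (h : SM M p) (hM : ∀ q, (M q).IsHermitian) {l : ℝ} (hl : l ≠ 0) :
    SM (fun q => fl n l (M q)) p := by
  simp only [Swap44.fl_eq (hM _) hl]
  have h1 : SM (fun q => tau n • ((2 : ℝ) • (1 : Mat n) - M q)) p :=
    SM.smul contDiffAt_const ((SM.const _).sub h)
  refine SM.smul contDiffAt_const (SM.inv ((h1.mul h1).add (SM.const _)) ?_)
  have := fnK_isUnit_det (hM p) (f := fun x => (tau n * (2 - x)) ^ 2 + l ^ 2)
    fun k _ => by positivity
  rw [← Swap44.den_eq (hM p)] at this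
  exact this.ne_zero

theorem SV.unitv (h : SV u p) (h0 : u p ≠ 0) : SV (fun q => unitv (u q)) p := by
  have h1 : u p ⬝ᵥ u p ≠ 0 := fun e => h0 (dotProduct_self_eq_zero.1 e)
  exact SV.smul (((h.dot h).sqrt h1).inv fun e => h0 (len_eq_zero.1 e)) h

theorem SV.prp (h : SV u p) (h' : SV v p) (h0 : 0 < u p ⬝ᵥ u p)
    (h1 : (u p ⬝ᵥ v p) ^ 2 < u p ⬝ᵥ u p * v p ⬝ᵥ v p) : SV (fun q => prp (u q) (v q)) p := by
  refine SV.unitv (h'.sub (SV.smul ((h.dot h').div (h.dot h) h0.ne') h)) fun e => ?_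
  have := (Swap44.frame h0 h1).2.1
  rw [Cq.prp, e, unitv_zero] at this
  simp at this

theorem SV.rot (h : SV u p) (h' : SV v p) (hc : ContDiffAt ℝ (⊤ : ℕ∞) c p) :
    SM (fun q => rot (u q) (v q) (c q)) p :=
  ((SM.const _).add (SM.smul (hc.cos.sub contDiffAt_const) ((h.vmv h).add (h'.vmv h')))).add
    (SM.smul hc.sin ((h'.vmv h).sub (h.vmv h')))

theorem SM.ising (h : SM M p) : SV (fun q => ising (M q) 0) p := fun x =>
  ((contDiffAt_const.mul ((SV.const _).dot (h.mulVec (SV.const _)))).add contDiffAt_const).exp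

theorem SM.kil (h : SM M p) {V : F → Cube n → ℝ} (hV : SV V p) (m : ℕ) :
    SV (fun q => kil (E.ising (M q) 0) (V q) m) p := by
  induction m with
  | zero => exact SV.const _
  | succ m ih =>
    intro x
    simp only [Cq.kil, iterate_succ_apply'] at ih ⊢
    refine ((hV x).div_const _).neg.exp.mul (contDiffAt_const.mul (ContDiffAt.sum fun l _ => ?_))
    exact (((h.ising _).mul (ih _)).add ((h.ising _).mul (ih _))).div
      ((h.ising _).add (h.ising _)) (add_pos (exp_pos _) (exp_pos _)).ne'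

theorem SM.kap (h : SM M p) (ε : ℝ) {V : F → Cube n → ℝ} (hV : SV V p) :
    ContDiffAt ℝ (⊤ : ℕ∞) (fun q => kap (M q) ε (V q)) p :=
  contDiffAt_const.sub (ContDiffAt.sum fun x _ => contDiffAt_const.mul (h.kil hV _ x))

theorem SV.sl (h : SV u p) (s : ℝ) : SV (fun q x => s * sl (u q) x) p := fun x =>
  contDiffAt_const.mul ((h.dot (SV.const _)).pow 2)

theorem SV.contDiffAt {κ : Type} [Fintype κ] {v : F → κ → ℝ} (h : SV v p) : ContDiffAt ℝ (⊤ : ℕ∞) v p :=
  contDiffAt_pi.2 h

end Crest.Agent.T157.Sw77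

end
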