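import Crest.Agent.T157.SwA_77
import Crest.Agent.T157.SwB_77
import Crest.Agent.T157.SwDef_14

/-!
# Row 157, part C, SWAP for coins (helper77), C: coordinates, the action of the orthogonal group,
the vector field of the swap and its divergence
-/

set_option autoImplicit false
set_option linter.all false

noncomputable section

namespace Crest.Agent.T157.Sw77

open Matrix Filter Topology Finset Real Function
open Crest.ProbabilityR.SpinGlassDynamics Crest.Agent.T157.E Crest.Agent.T157.Eig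
open Crest.Agent.T157.St Crest.Agent.T157.Ed Crest.Agent.T157.Cond Crest.Agent.T157.Cq

variable {n : ℕ}

/-- all independent coordinates -/
abbrev Jx (n : ℕ) : Type := Sw14.I4 n
/-- the matrix -/
def Wq (y : Jx n → ℝ) : Mat n := Wmat n (fun p => y (.inl (.inl p))) fun i => y (.inl (.inr i))
/-- first Gaussian vector -/
def x1 (y : Jx n → ℝ) : Fin n → ℝ := fun i => y (.inr (.inl i))
/-- second Gaussian vector -/
def x2 (y : Jx n → ℝ) : Fin n → ℝ := fun i => y (.inr (.inr i))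
/-- coordinates of a triple -/
def co (S : Mat n) (u v : Fin n → ℝ) : Jx n → ℝ :=
  Sum.elim (Sum.elim (fun p => √(n : ℝ) * S p.1.1 p.1.2) fun i => √(n : ℝ) / √2 * S i i)
    (Sum.elim u v)
/-- action of a matrix -/
def act (R : Mat n) (y : Jx n → ℝ) : Jx n → ℝ := co (R * Wq y * Rᵀ) (R *ᵥ x1 y) (R *ᵥ x2 y)
/-- infinitesimal action -/
def gen (θ : Mat n) (y : Jx n → ℝ) : Jx n → ℝ :=
  co (θ * Wq y - Wq y * θ) (θ *ᵥ x1 y) (θ *ᵥ x2 y)

theorem Wq_herm (y : Jx n → ℝ) : (Wq y).IsHermitian := Wmat_isHermitian _ _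
theorem Wq_tr (y : Jx n → ℝ) : (Wq y)ᵀ = Wq y := Wmat_transpose _ _

theorem Wq_lt (y : Jx n → ℝ) {i j : Fin n} (h : i < j) :
    Wq y i j = y (.inl (.inl ⟨(i, j), h⟩)) / √(n : ℝ) := by
  simp [Wq, Wmat, Jmat_apply_lt _ h, diagonal_apply_ne _ (ne_of_lt h)]

theorem Wq_diag (y : Jx n → ℝ) (i : Fin n) : Wq y i i = √2 * y (.inl (.inr i)) / √(n : ℝ) := by
  simp [Wq, Wmat, Jmat_diag]

theorem Wq_symm (y : Jx n → ℝ) (i j : Fin n) : Wq y i j = Wq y j i := herm_apply (Wq_herm y) i j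

theorem sq_ne (i : Fin n) : √(n : ℝ) ≠ 0 := (sqrt_pos.2 (by exact_mod_cast i.pos)).ne'

theorem Wq_co {S : Mat n} (hS : Sᵀ = S) (u v : Fin n → ℝ) : Wq (co S u v) = S := by
  have h2 : √(2 : ℝ) ≠ 0 := by positivity
  ext k l
  have h0 := sq_ne k
  rcases lt_trichotomy k l with h | h | h
  · rw [Wq_lt _ h]; simp only [co, Sum.elim_inl]; field_simp
  · subst h
    rw [Wq_diag]; simp only [co, Sum.elim_inl, Sum.elim_inr]; field_simp
  · have : S l k = S k l := congrFun (congrFun hS k) l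
    rw [Wq_symm, Wq_lt _ h, ← this]; simp only [co, Sum.elim_inl]; field_simp

theorem x1_co (S : Mat n) (u v : Fin n → ℝ) : x1 (co S u v) = u := rfl
theorem x2_co (S : Mat n) (u v : Fin n → ℝ) : x2 (co S u v) = v := rfl

theorem co_self (y : Jx n → ℝ) : co (Wq y) (x1 y) (x2 y) = y := by
  have h2 : √(2 : ℝ) ≠ 0 := by positivity
  funext c
  rcases c with (p | i) | i | i
  · have := sq_ne p.1.1
    simp only [co, Sum.elim_inl, Wq_lt _ p.2]; field_simp
  · have := sq_ne i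
    simp only [co, Sum.elim_inl, Sum.elim_inr, Wq_diag]; field_simp
  · rfl
  · rfl

theorem co_dot {S T : Mat n} (hS : Sᵀ = S) (hT : Tᵀ = T) (u v u' v' : Fin n → ℝ) :
    co S u v ⬝ᵥ co T u' v' = n / 2 * (S * T).trace + u ⬝ᵥ u' + v ⬝ᵥ v' := by
  have s1 : ∀ i j, S j i = S i j := fun i j => congrFun (congrFun hS i) j
  have s2 : ∀ i j, T j i = T i j := fun i j => congrFun (congrFun hT i) j
  have h := sum_sum_eq_two_mul_pair (fun i j => S i j * T i j - if i = j then S i i * T i i else 0)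
    (fun i j => by
      by_cases e : i = j
      · subst e; rfl
      · rw [if_neg e, if_neg (Ne.symm e), s1 i j, s2 i j]) fun i => by simp
  simp only [sum_sub_distrib, sum_ite_eq, mem_univ, if_true] at h
  have h3 : ∑ p : Pair n, (if p.1.1 = p.1.2 then S p.1.1 p.1.1 * T p.1.1 p.1.1 else 0) = 0 :=
    sum_eq_zero fun p _ => if_neg (ne_of_lt p.2)
  have ht : (S * T).trace = ∑ i, ∑ j, S i j * T i j := by
    simp only [trace, Matrix.diag_apply, mul_apply, s2]
  have e1 : ∀ a b : ℝ, √(n : ℝ) * a * (√(n : ℝ) * b) = n * (a * b) := fun a b => by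
    rw [mul_mul_mul_comm, mul_self_sqrt (Nat.cast_nonneg n)]
  have e2 : ∀ a b : ℝ, √(n : ℝ) / √2 * a * (√(n : ℝ) / √2 * b) = n / 2 * (a * b) := fun a b => by
    rw [mul_mul_mul_comm, div_mul_div_comm, mul_self_sqrt (Nat.cast_nonneg n),
      mul_self_sqrt (by norm_num)]
  simp only [dotProduct, Fintype.sum_sum_type, co, Sum.elim_inl, Sum.elim_inr, e1, e2, ← mul_sum]
  rw [h3] at h
  rw [ht]
  linear_combination (-(n : ℝ) / 2) * h

theorem conj_tr (R : Mat n) (y : Jx n → ℝ) : (R * Wq y * Rᵀ)ᵀ = R * Wq y * Rᵀ := by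
  simp only [transpose_mul, transpose_transpose, Wq_tr, Matrix.mul_assoc]

theorem Wq_act (R : Mat n) (y : Jx n → ℝ) : Wq (act R y) = R * Wq y * Rᵀ := Wq_co (conj_tr R y) _ _

theorem act_one (y : Jx n → ℝ) : act 1 y = y := by
  simp only [act, Matrix.one_mul, transpose_one, Matrix.mul_one, one_mulVec, co_self]

theorem act_dot {R : Mat n} (hR : Rᵀ * R = 1) (y : Jx n → ℝ) : act R y ⬝ᵥ act R y = y ⬝ᵥ y := by
  conv_rhs => rw [← co_self y]
  rw [act, co_dot (conj_tr R y) (conj_tr R y), co_dot (Wq_tr y) (Wq_tr y), Swap44.dot_orth hR,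
    Swap44.dot_orth hR]
  have : (R * Wq y * Rᵀ * (R * Wq y * Rᵀ)).trace = (Wq y * Wq y).trace := by
    have e : R * Wq y * Rᵀ * (R * Wq y * Rᵀ) = R * (Wq y * (Rᵀ * R) * Wq y * Rᵀ) := by
      simp only [Matrix.mul_assoc]
    rw [e, hR, trace_mul_comm, Matrix.mul_assoc, hR, Matrix.mul_one, Matrix.mul_one]
  rw [this]

theorem dot_gen {θ : Mat n} (hθ : θᵀ = -θ) (y : Jx n → ℝ) : y ⬝ᵥ gen θ y = 0 := by
  have k : ∀ u : Fin n → ℝ, u ⬝ᵥ θ *ᵥ u = 0 := fun u => by
    have : u ⬝ᵥ θ *ᵥ u = -(u ⬝ᵥ θ *ᵥ u) := by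
      conv_lhs => rw [dotProduct_mulVec, ← mulVec_transpose, hθ, neg_mulVec, neg_dotProduct,
        dotProduct_comm]
    linarith
  have hs : (θ * Wq y - Wq y * θ)ᵀ = θ * Wq y - Wq y * θ := by
    simp only [transpose_sub, transpose_mul, Wq_tr, hθ, Matrix.mul_neg, Matrix.neg_mul]; abel
  conv_lhs => enter [1]; rw [← co_self y]
  rw [gen, co_dot (Wq_tr y) hs, k, k, Matrix.mul_sub, trace_sub, ← Matrix.mul_assoc,
    trace_mul_comm (Wq y * θ)]
  simp

/-- generator of the rotation from `a` to `b` -/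
def th (a b : Fin n → ℝ) : Mat n := vecMulVec b a - vecMulVec a b

theorem th_tr (a b : Fin n → ℝ) : (th a b)ᵀ = -th a b := by
  simp [th, transpose_sub, transpose_vecMulVec]

theorem rd_zero (a b : Fin n → ℝ) : Rd7.rd a b 0 = th a b := by simp [Rd7.rd, th]

theorem Nm_zero (a b : Fin n → ℝ) (H : Mat n) : Rd7.Nm a b H 0 = th a b * H - H * th a b := by
  rw [Rd7.Nm, rd_zero, Rd7.rot_zero, th_tr]; simp [sub_eq_add_neg]

theorem hasDerivAt_act (a b : Fin n → ℝ) (y : Jx n → ℝ) :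
    HasDerivAt (fun t => act (rot a b t) y) (gen (th a b) y) 0 := by
  have k : ∀ (u : Fin n → ℝ) (i : Fin n),
      HasDerivAt (fun t => (rot a b t *ᵥ u) i) ((th a b *ᵥ u) i) 0 := fun u i => by
    rw [← rd_zero]
    exact HasDerivAt.fun_sum (u := univ) (A := fun k t => rot a b t i k * u k)
      fun k _ => (Rd7.hasDerivAt_rot a b 0 i k).mul_const (u k)
  refine hasDerivAt_pi.2 fun c => ?_
  rcases c with (p | i) | i | i
  · have := (Rd7.hasDerivAt_conj a b (Wq y) 0 p.1.1 p.1.2).const_mul √(n : ℝ)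
    rwa [Nm_zero] at this
  · have := (Rd7.hasDerivAt_conj a b (Wq y) 0 i i).const_mul (√(n : ℝ) / √2)
    rwa [Nm_zero] at this
  · exact k _ i
  · exact k _ i

theorem Wq_lin : IsLinearMap ℝ (Wq : (Jx n → ℝ) → Mat n) := by
  constructor
  · intro y z
    ext k l
    rcases lt_trichotomy k l with h | h | h
    · simp [Wq_lt _ h, add_div]
    · subst h; simp [Wq_diag, mul_add, add_div]
    · simp [Wq_symm _ k l, Wq_lt _ h, add_div]
  · intro c y
    ext k l
    rcases lt_trichotomy k l with h | h | h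
    · simp [Wq_lt _ h, mul_div_assoc]
    · subst h; simp only [Wq_diag, Pi.smul_apply, smul_eq_mul, Matrix.smul_apply]; ring
    · simp [Wq_symm _ k l, Wq_lt _ h, mul_div_assoc]

theorem co_add (S T : Mat n) (u v u' v' : Fin n → ℝ) :
    co (S + T) (u + u') (v + v') = co S u v + co T u' v' := by
  funext c
  rcases c with (p | i) | i | i <;> simp [co, mul_add]

theorem co_smul (r : ℝ) (S : Mat n) (u v : Fin n → ℝ) :
    co (r • S) (r • u) (r • v) = r • co S u v := by
  funext c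
  rcases c with (p | i) | i | i <;> simp [co, mul_left_comm]

theorem gen_lin (θ : Mat n) : IsLinearMap ℝ (gen θ) := by
  constructor
  · intro y z
    rw [gen, gen, gen, ← co_add, Wq_lin.map_add, ← mulVec_add, ← mulVec_add]
    congr 1
    simp only [Matrix.mul_add, Matrix.add_mul]; abel
  · intro c y
    rw [gen, gen, ← co_smul, Wq_lin.map_smul, ← mulVec_smul, ← mulVec_smul]
    congr 1
    simp only [Matrix.mul_smul, Matrix.smul_mul, smul_sub]

theorem gen_lin' (y : Jx n → ℝ) : IsLinearMap ℝ fun θ : Mat n => gen θ y := by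
  constructor
  · intro θ θ'
    rw [gen, gen, gen, ← co_add, add_mulVec, add_mulVec]
    congr 1
    simp only [Matrix.mul_add, Matrix.add_mul]; abel
  · intro c θ
    rw [gen, gen, ← co_smul, smul_mulVec, smul_mulVec]
    congr 1
    simp only [Matrix.mul_smul, Matrix.smul_mul, smul_sub]

theorem hasFDerivAt_gen (θ : Mat n) (y : Jx n → ℝ) : ∃ L : (Jx n → ℝ) →L[ℝ] (Jx n → ℝ),
    (∀ z, L z = gen θ z) ∧ HasFDerivAt (gen θ) L y :=
  ⟨LinearMap.toContinuousLinearMap ((gen_lin θ).mk' _), fun _ => rfl,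
    (LinearMap.toContinuousLinearMap ((gen_lin θ).mk' _)).hasFDerivAt⟩

theorem pd_gen {θ : Mat n} (hθ : θᵀ = -θ) (y : Jx n → ℝ) (c : Jx n) :
    DifferentiableAt ℝ (fun y => gen θ y c) y ∧ pd (fun y => gen θ y c) c y = 0 := by
  obtain ⟨L, h1, h2⟩ := hasFDerivAt_gen θ y
  have h3 := (hasFDerivAt_pi'.1 h2) c
  refine ⟨h3.differentiableAt, ?_⟩
  rw [pd, h3.fderiv]
  simpa [h1] using dot_gen hθ (Pi.single c 1)

/-! ### smoothness -/

section smooth
variable {F : Type} [NormedAddCommGroup F] [NormedSpace ℝ F] {p : F} {Y : F → Jx n → ℝ}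

theorem SV.Wq (h : SV Y p) : SM (fun q => Wq (Y q)) p := fun k l => by
  rcases lt_trichotomy k l with e | e | e
  · simp only [Wq_lt _ e]; exact (h _).div_const _
  · subst e; simp only [Wq_diag]; exact (contDiffAt_const.mul (h _)).div_const _
  · simp only [Wq_symm _ k l, Wq_lt _ e]; exact (h _).div_const _

theorem SV.x1 (h : SV Y p) : SV (fun q => x1 (Y q)) p := fun _ => h _
theorem SV.x2 (h : SV Y p) : SV (fun q => x2 (Y q)) p := fun _ => h _

theorem SV.gen (h : SV Y p) {θ : F → Mat n} (hθ : SM θ p) : SV (fun q => gen (θ q) (Y q)) p := by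
  intro c
  rcases c with (e | i) | i | i
  · exact contDiffAt_const.mul (((hθ.mul h.Wq).sub (h.Wq.mul hθ)) _ _)
  · exact contDiffAt_const.mul (((hθ.mul h.Wq).sub (h.Wq.mul hθ)) _ _)
  · exact hθ.mulVec h.x1 i
  · exact hθ.mulVec h.x2 i

end smooth

theorem SV.id {ι : Type} [Fintype ι] (y : ι → ℝ) : SV (fun y : ι → ℝ => y) y := fun i =>
  contDiffAt_apply ℝ ℝ i y

/-! ### the vector field -/

/-- `f_l(W) ξ` -/
def av (l : ℝ) (y : Jx n → ℝ) : Fin n → ℝ := fl n l (Wq y) *ᵥ x1 y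
/-- `f_l(W) ξ'` -/
def bv (l : ℝ) (y : Jx n → ℝ) : Fin n → ℝ := fl n l (Wq y) *ᵥ x2 y
/-- the field of the swap, not normalised -/
def X0 (l l' : ℝ) (y : Jx n → ℝ) : Jx n → ℝ := gen (th (av l' y) (bv l y)) y

variable {l l' : ℝ}

theorem av_act {R : Mat n} (hR : Rᵀ * R = 1) (hl : l ≠ 0) (y : Jx n → ℝ) :
    av l (act R y) = R *ᵥ av l y := by
  rw [av, Wq_act, Swap44.fl_conj hR hl, act, x1_co, av]
  simp only [mulVec_mulVec, Matrix.mul_assoc, hR, Matrix.mul_one]

theorem bv_act {R : Mat n} (hR : Rᵀ * R = 1) (hl : l ≠ 0) (y : Jx n → ℝ) :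
    bv l (act R y) = R *ᵥ bv l y := by
  rw [bv, Wq_act, Swap44.fl_conj hR hl, act, x2_co, bv]
  simp only [mulVec_mulVec, Matrix.mul_assoc, hR, Matrix.mul_one]

section smooth
variable {F : Type} [NormedAddCommGroup F] [NormedSpace ℝ F] {p : F} {Y : F → Jx n → ℝ}

theorem SV.av (h : SV Y p) (hl : l ≠ 0) : SV (fun q => av l (Y q)) p :=
  (h.Wq.fl (fun _ => Wq_herm _) hl).mulVec h.x1
theorem SV.bv (h : SV Y p) (hl : l ≠ 0) : SV (fun q => bv l (Y q)) p :=
  (h.Wq.fl (fun _ => Wq_herm _) hl).mulVec h.x2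
theorem SV.th {u v : F → Fin n → ℝ} (h : SV u p) (h' : SV v p) :
    SM (fun q => th (u q) (v q)) p := (h'.vmv h).sub (h.vmv h')
theorem SV.X0 (h : SV Y p) (hl : l ≠ 0) (hl' : l' ≠ 0) : SV (fun q => X0 l l' (Y q)) p :=
  h.gen ((h.av hl').th (h.bv hl))

end smooth

theorem rot_orth' {a b : Fin n → ℝ} (h : Rd7.ON a b) (s : ℝ) : (rot a b s)ᵀ * rot a b s = 1 :=
  mul_eq_one_comm.1 (h.rot_orth s)

theorem skew_eq {Ω : Mat n} (h : Ωᵀ = -Ω) :
    Ω = ∑ j, ∑ k, (Ω k j / 2) • th (Pi.single j 1) (Pi.single k 1) := by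
  ext r s
  have e : Ω s r = -Ω r s := congrFun (congrFun h r) s
  simp only [Matrix.sum_apply, Matrix.smul_apply, th, Matrix.sub_apply, vecMulVec_apply,
    Pi.single_apply, smul_eq_mul, mul_sub, sum_sub_distrib, mul_ite, mul_one, mul_zero, ite_mul,
    one_mul, zero_mul, sum_ite_eq, sum_ite_eq', mem_univ, if_true]
  rw [sum_comm (f := fun j k => if s = j then if r = k then Ω k j / 2 else 0 else 0)]
  simp only [sum_ite_eq, mem_univ, if_true, e]
  ring

/-- **the field is divergence free** -/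
theorem div_X0 (hl : l ≠ 0) (hl' : l' ≠ 0) (y : Jx n → ℝ) :
    ∑ c, pd (fun y => X0 l l' y c) c y = 0 := by
  set Ω : (Jx n → ℝ) → Mat n := fun y => th (av l' y) (bv l y) with hΩ
  have sΩ : SM Ω y := ((SV.id y).av hl').th ((SV.id y).bv hl)
  have dΩ : ∀ j k, DifferentiableAt ℝ (fun y => Ω y k j / 2) y := fun j k =>
    ((sΩ k j).div_const 2).differentiableAt (by simp)
  have e : ∀ c, (fun y => X0 l l' y c) = fun y =>
      ∑ j, ∑ k, Ω y k j / 2 * gen (th (Pi.single j 1) (Pi.single k 1)) y c := fun c => by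
    funext z
    have := congrArg ((gen_lin' z).mk' _) (skew_eq (th_tr (av l' z) (bv l z)))
    simp only [map_sum, map_smul, IsLinearMap.mk'_apply] at this
    rw [X0, this]
    simp only [Finset.sum_apply, Pi.smul_apply, smul_eq_mul, hΩ]
  have e2 : ∀ c, pd (fun y => X0 l l' y c) c y = ∑ j, ∑ k,
      gen (th (Pi.single j 1) (Pi.single k 1)) y c * pd (fun y => Ω y k j / 2) c y := fun c => by
    have d := fun j k => (dΩ j k).fun_mul (pd_gen (th_tr (Pi.single j 1) (Pi.single k 1)) y c).1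
    rw [e c, pd, fderiv_fun_sum fun j _ => DifferentiableAt.fun_sum fun k _ => d j k,
      ContinuousLinearMap.sum_apply]
    refine sum_congr rfl fun j _ => ?_
    rw [fderiv_fun_sum fun k _ => d j k, ContinuousLinearMap.sum_apply]
    refine sum_congr rfl fun k _ => ?_
    obtain ⟨g1, g2⟩ := pd_gen (th_tr (Pi.single j 1) (Pi.single k 1)) y c
    rw [fderiv_fun_mul (dΩ j k) g1]
    simp only [pd] at g2 ⊢
    simp [g2]
  simp only [e2]
  rw [sum_comm]
  refine sum_eq_zero fun j _ => ?_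
  rw [sum_comm]
  refine sum_eq_zero fun k _ => ?_
  rw [sum_pd]
  by_cases hjk : j = k
  · subst hjk
    have : gen (th (Pi.single j 1) (Pi.single j 1)) y = 0 := by
      rw [th, sub_self]; exact (gen_lin' y).map_zero
    rw [this, map_zero]
  · have hon : Rd7.ON (Pi.single j 1 : Fin n → ℝ) (Pi.single k 1) :=
      ⟨by simp, by simp, by simp [Pi.single_apply, hjk, Ne.symm hjk]⟩
    have h1 := hasDerivAt_act (Pi.single j 1) (Pi.single k 1) y
    have h2 := (dΩ j k).hasFDerivAt.comp_hasDerivAt_of_eq 0 h1 (by rw [Rd7.rot_zero, act_one])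
    have h3 := (Rd7.hasDerivAt_conj (Pi.single j 1) (Pi.single k 1) (Ω y) 0 k j).div_const 2
    have h4 : ((fun y => Ω y k j / 2) ∘ fun t => act (rot (Pi.single j 1) (Pi.single k 1) t) y) =
        fun t => (rot (Pi.single j 1) (Pi.single k 1) t * Ω y *
          (rot (Pi.single j 1) (Pi.single k 1) t)ᵀ) k j / 2 := by
      funext t
      simp only [Function.comp_apply, hΩ, av_act (rot_orth' hon t) hl', bv_act (rot_orth' hon t) hl, th,
        Swap44.vmv_conj, Matrix.mul_sub, Matrix.sub_mul]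
    rw [h4] at h2
    rw [h2.unique h3, Nm_zero]
    simp [th, hΩ, Matrix.sub_mul, Matrix.mul_sub, vecMulVec_mul, mul_vecMulVec, vecMulVec_apply,
      Pi.single_apply, hjk, Ne.symm hjk, vecMul, mulVec, dotProduct, mul_comm]

end Crest.Agent.T157.Sw77

end
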