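import Crest.Agent.T157.CqDef_72

/-!
# Row 157, coin SWAP: the complex killed chain on a disc (helper82)

`kapC` is `Cq.kap` for complex matrices and complex killing rates.  `core` is the abstract
`L²` telescoping bound.
-/

set_option autoImplicit false

noncomputable section

namespace Crest.Agent.T157.SwD

open Matrix Finset Function
open Crest.ProbabilityR.SpinGlassDynamics Crest.Agent.T157.E
open Crest.Agent.T157.St Crest.Agent.T157.Ed Crest.Agent.T157.Cq
open Crest.Agent.T157.Soft (unif)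

variable {n : ℕ}

/-- complex conditional mean -/
def siteC (w f : Cube n → ℂ) (i : Fin n) (x : Cube n) : ℂ :=
  (w (update x i true) * f (update x i true) + w (update x i false) * f (update x i false)) /
    (w (update x i true) + w (update x i false))
/-- complex heat-bath step -/
def PhC (w f : Cube n → ℂ) (x : Cube n) : ℂ := (n : ℂ)⁻¹ * ∑ l, siteC w f l x
/-- complex killed step -/
def stC (w m u : Cube n → ℂ) (x : Cube n) : ℂ := m x * PhC w u x
/-- real killed step -/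
def st (w m u : Cube n → ℝ) (x : Cube n) : ℝ := m x * Ph w u x
/-- conditional variance at a site -/
def varl (w u : Cube n → ℝ) (l : Fin n) (x : Cube n) : ℝ :=
  siteM w (fun y => u y ^ 2) l x - siteM w u l x ^ 2
/-- accumulated variance of the site `l` -/
def Sw (w m : Cube n → ℝ) (l : Fin n) : ℕ → Cube n → ℝ
  | 0 => 0
  | k + 1 => fun x => m x * (Ph w (Sw w m l k) x + varl w ((st w m)^[k] 1) l x / n)

/-! ### one site -/

lemma site_d {a b : ℝ} (ha : 0 < a) (hb : 0 < b) {z z' : ℂ} (h : ‖z - z'‖ ≤ 9 / 25) :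
    (a : ℂ) * Complex.exp z + b * Complex.exp z' ≠ 0 ∧ ∃ d : ℂ,
      ‖d‖ ≤ 4 * (a / (a + b)) * (b / (a + b)) * ‖z - z'‖ ∧ ∀ f g : ℂ,
      ((a : ℂ) * Complex.exp z * f + b * Complex.exp z' * g) /
        (a * Complex.exp z + b * Complex.exp z') =
        ((a / (a + b) : ℝ) : ℂ) * f + ((b / (a + b) : ℝ) : ℂ) * g + d * (f - g) := by
  set p : ℝ := a / (a + b) with hp
  set q : ℝ := b / (a + b) with hq
  have hab : 0 < a + b := by positivity
  have hp0 : 0 < p := by positivity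
  have hq0 : 0 < q := by positivity
  have hpq : p + q = 1 := by rw [hp, hq]; field_simp
  set e : ℂ := Complex.exp (z - z') with he
  have he1 : ‖e - 1‖ ≤ 2 * ‖z - z'‖ := Complex.norm_exp_sub_one_le (by linarith)
  have hz : Complex.exp z = e * Complex.exp z' := by rw [he, ← Complex.exp_add]; ring_nf
  have hqc : (q : ℂ) = 1 - p := by rw [← Complex.ofReal_one, ← hpq]; push_cast; ring
  have hden : (1 / 2 : ℝ) ≤ ‖(p : ℂ) * e + q‖ := by
    have h1 : (p : ℂ) * e + q = 1 + p * (e - 1) := by rw [hqc]; ring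
    have h2 : ‖(p : ℂ) * (e - 1)‖ ≤ 1 / 2 := by
      rw [norm_mul, Complex.norm_real, Real.norm_of_nonneg hp0.le]
      have : p ≤ 1 := by linarith
      have f1 : ‖e - 1 - (z - z')‖ ≤ ‖z - z'‖ ^ 2 :=
        Complex.norm_exp_sub_one_sub_id_le (by linarith)
      have f2 := norm_add_le (e - 1 - (z - z')) (z - z')
      rw [sub_add_cancel] at f2
      have f3 : ‖z - z'‖ ^ 2 ≤ (9 / 25) ^ 2 := pow_le_pow_left₀ (norm_nonneg _) h 2
      calc p * ‖e - 1‖ ≤ 1 * (1 / 2) :=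
            mul_le_mul this (by linarith) (norm_nonneg _) zero_le_one
        _ = 1 / 2 := by norm_num
    have h3 := norm_sub_norm_le (1 : ℂ) (-((p : ℂ) * (e - 1)))
    rw [norm_neg, norm_one, sub_neg_eq_add] at h3
    rw [h1]; linarith
  have hd0 : (p : ℂ) * e + q ≠ 0 := fun h0 => by rw [h0, norm_zero] at hden; norm_num at hden
  have habc : ((a : ℂ) + b) ≠ 0 := by exact_mod_cast hab.ne'
  have hpa : (a : ℂ) = p * (a + b) := by rw [hp]; push_cast; field_simp
  have hqb : (b : ℂ) = q * (a + b) := by rw [hq]; push_cast; field_simp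
  have hE := Complex.exp_ne_zero z'
  have hsum : (a : ℂ) * Complex.exp z + b * Complex.exp z' =
      ((a + b) * Complex.exp z') * (p * e + q) := by
    rw [hz]; linear_combination (e * Complex.exp z') * hpa + Complex.exp z' * hqb
  refine ⟨by rw [hsum]; exact mul_ne_zero (mul_ne_zero habc hE) hd0,
    p * q * (e - 1) / (p * e + q), ?_, fun f g => ?_⟩
  · rw [norm_div, div_le_iff₀ (by linarith), norm_mul, norm_mul, Complex.norm_real,
      Complex.norm_real, Real.norm_of_nonneg hp0.le, Real.norm_of_nonneg hq0.le]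
    have h1 : p * q * ‖e - 1‖ ≤ p * q * (2 * ‖z - z'‖) :=
      mul_le_mul_of_nonneg_left he1 (by positivity)
    have h2 : 4 * p * q * ‖z - z'‖ * (1 / 2) ≤ 4 * p * q * ‖z - z'‖ * ‖(p : ℂ) * e + q‖ :=
      mul_le_mul_of_nonneg_left hden (by positivity)
    linarith
  · have hnum : (a : ℂ) * Complex.exp z * f + b * Complex.exp z' * g =
        ((a + b) * Complex.exp z') * (p * e * f + q * g) := by
      rw [hz]; linear_combination (e * Complex.exp z' * f) * hpa + (Complex.exp z' * g) * hqb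
    rw [hsum, hnum, mul_div_mul_left _ _ (mul_ne_zero habc hE), div_eq_iff hd0]
    have : (p : ℂ) * q * (e - 1) / (p * e + q) * (f - g) * (p * e + q) =
        p * q * (e - 1) * (f - g) := by field_simp
    rw [add_mul, this, hqc]; ring

lemma site_cs {p q A : ℝ} (hp : 0 < p) (hq : 0 < q) (hpq : p + q = 1) {d : ℂ}
    (hd : ‖d‖ ≤ 4 * p * q * A) (f g : ℂ) :
    ‖(p : ℂ) * f + q * g + d * (f - g)‖ ^ 2 ≤ (1 + 4 * A ^ 2) * (p * ‖f‖ ^ 2 + q * ‖g‖ ^ 2) := by
  have h1 : (p : ℂ) * f + q * g + d * (f - g) = (p + d) * f + (q - d) * g := by ring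
  have h2 : ‖(p + d) * f + (q - d) * g‖ ≤ ‖(p : ℂ) + d‖ * ‖f‖ + ‖(q : ℂ) - d‖ * ‖g‖ := by
    refine (norm_add_le _ _).trans ?_
    rw [norm_mul, norm_mul]
  have e1 : ‖(p : ℂ) + d‖ ^ 2 = p ^ 2 + 2 * p * d.re + ‖d‖ ^ 2 := by
    rw [Complex.sq_norm, Complex.sq_norm, Complex.normSq_apply, Complex.normSq_apply]
    simp; ring
  have e2 : ‖(q : ℂ) - d‖ ^ 2 = q ^ 2 - 2 * q * d.re + ‖d‖ ^ 2 := by
    rw [Complex.sq_norm, Complex.sq_norm, Complex.normSq_apply, Complex.normSq_apply]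
    simp; ring
  have hd2 : ‖d‖ ^ 2 ≤ (4 * p * q * A) ^ 2 := pow_le_pow_left₀ (norm_nonneg _) hd 2
  have hpq4 : p * q ≤ 1 / 4 := by nlinarith [sq_nonneg (p - q)]
  set X := ‖(p : ℂ) + d‖
  set Y := ‖(q : ℂ) - d‖
  have h3 : X ^ 2 / p + Y ^ 2 / q ≤ 1 + 4 * A ^ 2 := by
    have h4 : X ^ 2 / p + Y ^ 2 / q = 1 + ‖d‖ ^ 2 / (p * q) := by
      rw [e1, e2]; field_simp
      have : q = 1 - p := by linarith
      subst this; ring
    have h5 : ‖d‖ ^ 2 / (p * q) ≤ 4 * A ^ 2 := by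
      rw [div_le_iff₀ (by positivity)]
      have : (4 * p * q * A) ^ 2 = 16 * (p * q) * (A ^ 2 * (p * q)) := by ring
      have h6 : 0 ≤ A ^ 2 * (p * q) := by positivity
      nlinarith
    linarith
  have h6 : (X * ‖f‖ + Y * ‖g‖) ^ 2 ≤ (X ^ 2 / p + Y ^ 2 / q) * (p * ‖f‖ ^ 2 + q * ‖g‖ ^ 2) := by
    have : (X ^ 2 / p + Y ^ 2 / q) * (p * ‖f‖ ^ 2 + q * ‖g‖ ^ 2) - (X * ‖f‖ + Y * ‖g‖) ^ 2 =
        (X * q * ‖g‖ - Y * p * ‖f‖) ^ 2 / (p * q) := by field_simp; ring
    have h7 : 0 ≤ (X * q * ‖g‖ - Y * p * ‖f‖) ^ 2 / (p * q) := by positivity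
    linarith
  rw [h1]
  calc _ ≤ (X * ‖f‖ + Y * ‖g‖) ^ 2 := pow_le_pow_left₀ (norm_nonneg _) h2 2
    _ ≤ _ := h6
    _ ≤ _ := mul_le_mul_of_nonneg_right h3 (by positivity)

/-! ### the real chain -/

section real
variable {w : Cube n → ℝ}

/-- probability of `+` -/
def pp (w : Cube n → ℝ) (l : Fin n) (x : Cube n) : ℝ :=
  w (update x l true) / (w (update x l true) + w (update x l false))
/-- probability of `-` -/
def qq (w : Cube n → ℝ) (l : Fin n) (x : Cube n) : ℝ :=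
  w (update x l false) / (w (update x l true) + w (update x l false))

lemma pp_pos (hw : ∀ x, 0 < w x) (l : Fin n) (x : Cube n) : 0 < pp w l x :=
  div_pos (hw _) (add_pos (hw _) (hw _))
lemma qq_pos (hw : ∀ x, 0 < w x) (l : Fin n) (x : Cube n) : 0 < qq w l x :=
  div_pos (hw _) (add_pos (hw _) (hw _))
lemma pp_add (hw : ∀ x, 0 < w x) (l : Fin n) (x : Cube n) : pp w l x + qq w l x = 1 := by
  unfold pp qq; rw [← add_div]; exact div_self (add_pos (hw _) (hw _)).ne'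
lemma siteM_eq (f : Cube n → ℝ) (l : Fin n) (x : Cube n) :
    siteM w f l x = pp w l x * f (update x l true) + qq w l x * f (update x l false) := by
  unfold siteM pp qq; ring

lemma varl_eq (hw : ∀ x, 0 < w x) (u : Cube n → ℝ) (l : Fin n) (x : Cube n) :
    varl w u l x = pp w l x * qq w l x * (u (update x l true) - u (update x l false)) ^ 2 := by
  unfold varl
  rw [siteM_eq, siteM_eq]
  have : qq w l x = 1 - pp w l x := by linarith [pp_add hw l x]
  rw [this]; ring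

lemma varl_nonneg (hw : ∀ x, 0 < w x) (u : Cube n → ℝ) (l : Fin n) (x : Cube n) :
    0 ≤ varl w u l x := by
  rw [varl_eq hw]
  have := pp_pos hw l x
  have := qq_pos hw l x
  positivity

lemma Ph_mono (hw : ∀ x, 0 < w x) {f g : Cube n → ℝ} (h : ∀ x, f x ≤ g x) (x : Cube n) :
    Ph w f x ≤ Ph w g x := by
  unfold Ph
  refine mul_le_mul_of_nonneg_left (sum_le_sum fun l _ => ?_) (by positivity)
  rw [siteM_eq, siteM_eq]
  exact add_le_add (mul_le_mul_of_nonneg_left (h _) (pp_pos hw l x).le)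
    (mul_le_mul_of_nonneg_left (h _) (qq_pos hw l x).le)

lemma Ph_add (f g : Cube n → ℝ) (x : Cube n) :
    Ph w (fun y => f y + g y) x = Ph w f x + Ph w g x := by
  unfold Ph
  rw [← mul_add, ← sum_add_distrib]
  congr 1
  exact sum_congr rfl fun l _ => by rw [siteM_eq, siteM_eq, siteM_eq]; ring

lemma Ph_mul (c : ℝ) (f : Cube n → ℝ) (x : Cube n) :
    Ph w (fun y => c * f y) x = c * Ph w f x := by
  unfold Ph
  rw [mul_left_comm, mul_sum univ _ c]
  congr 1
  exact sum_congr rfl fun l _ => by rw [siteM_eq, siteM_eq]; ring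

lemma Ph_sub (f g : Cube n → ℝ) (x : Cube n) :
    Ph w (fun y => f y - g y) x = Ph w f x - Ph w g x := by
  unfold Ph
  rw [← mul_sub, ← sum_sub_distrib]
  congr 1
  exact sum_congr rfl fun l _ => by rw [siteM_eq, siteM_eq, siteM_eq]; ring

lemma Ph_sum {ι : Type*} (S : Finset ι) (f : ι → Cube n → ℝ) (x : Cube n) :
    Ph w (fun y => ∑ i ∈ S, f i y) x = ∑ i ∈ S, Ph w (f i) x := by
  unfold Ph
  rw [← mul_sum, sum_comm]
  congr 1
  refine sum_congr rfl fun l _ => ?_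
  rw [siteM_eq, mul_sum, mul_sum, ← sum_add_distrib]
  exact sum_congr rfl fun i _ => by rw [siteM_eq]

lemma Ph_const (hn : 0 < n) (hw : ∀ x, 0 < w x) (c : ℝ) (x : Cube n) :
    Ph w (fun _ => c) x = c := by
  unfold Ph
  have : ∀ l, siteM w (fun _ => c) l x = c := fun l => by
    rw [siteM_eq, ← add_mul, pp_add hw, one_mul]
  have hn' : (n : ℝ) ≠ 0 := by positivity
  simp only [this, sum_const, card_univ, Fintype.card_fin, nsmul_eq_mul]
  field_simp

lemma sum_varl (hn : 0 < n) (u : Cube n → ℝ) (x : Cube n) :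
    ∑ l, varl w u l x / n ≤ Ph w (fun y => u y ^ 2) x - Ph w u x ^ 2 := by
  have hn' : (0 : ℝ) < n := by positivity
  unfold varl Ph
  have h := sq_sum_le_card_mul_sum_sq (s := univ) (f := fun l => siteM w u l x)
  simp only [card_univ, Fintype.card_fin] at h
  rw [← sum_div, sum_sub_distrib]
  have h2 : ((n : ℝ)⁻¹ * ∑ l, siteM w u l x) ^ 2 ≤ (∑ l, siteM w u l x ^ 2) / n := by
    rw [mul_pow, le_div_iff₀ hn']
    calc (n : ℝ)⁻¹ ^ 2 * (∑ l, siteM w u l x) ^ 2 * n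
        ≤ (n : ℝ)⁻¹ ^ 2 * (n * ∑ l, siteM w u l x ^ 2) * n := by gcongr
      _ = _ := by field_simp
  rw [sub_div, div_eq_inv_mul (∑ l, siteM w (fun y => u y ^ 2) l x)]
  linarith

variable {m : Cube n → ℝ}

lemma it_mem (hn : 0 < n) (hw : ∀ x, 0 < w x) (hm : ∀ x, 0 ≤ m x ∧ m x ≤ 1) (k : ℕ) (x : Cube n) :
    0 ≤ (st w m)^[k] 1 x ∧ (st w m)^[k] 1 x ≤ 1 := by
  induction k generalizing x with
  | zero => simp
  | succ k ih =>
    rw [iterate_succ_apply']
    have h0 : 0 ≤ Ph w ((st w m)^[k] 1) x := by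
      have := Ph_mono hw (f := fun _ => 0) (g := (st w m)^[k] 1) (fun y => (ih y).1) x
      rwa [Ph_const hn hw] at this
    have h1 : Ph w ((st w m)^[k] 1) x ≤ 1 := by
      have := Ph_mono hw (g := fun _ => 1) (f := (st w m)^[k] 1) (fun y => (ih y).2) x
      rwa [Ph_const hn hw] at this
    exact ⟨mul_nonneg (hm x).1 h0, mul_le_one₀ (hm x).2 h0 h1⟩

lemma Sw_nonneg (hn : 0 < n) (hw : ∀ x, 0 < w x) (hm : ∀ x, 0 ≤ m x ∧ m x ≤ 1) (l : Fin n) (k : ℕ)
    (x : Cube n) : 0 ≤ Sw w m l k x := by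
  induction k generalizing x with
  | zero => simp [Sw]
  | succ k ih =>
    have h0 := Ph_mono hw (f := fun _ => 0) (g := Sw w m l k) ih x
    rw [Ph_const hn hw] at h0
    exact mul_nonneg (hm x).1 (add_nonneg h0 (div_nonneg (varl_nonneg hw _ _ _) (by positivity)))

/-- the variance step -/
lemma var_step (hn : 0 < n) (hw : ∀ x, 0 < w x) (hm : ∀ x, 0 ≤ m x ∧ m x ≤ 1) (u : Cube n → ℝ)
    (x : Cube n) : m x * (Ph w (fun y => u y - u y ^ 2) x + ∑ l, varl w u l x / n) ≤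
      st w m u x - st w m u x ^ 2 := by
  have h1 := sum_varl (w := w) hn u x
  rw [Ph_sub]
  unfold st
  have h2 : m x * (Ph w u x - Ph w (fun y => u y ^ 2) x + ∑ l, varl w u l x / n) ≤
      m x * (Ph w u x - Ph w u x ^ 2) := mul_le_mul_of_nonneg_left (by linarith) (hm x).1
  have h3 : 0 ≤ m x * (1 - m x) * Ph w u x ^ 2 :=
    mul_nonneg (mul_nonneg (hm x).1 (by linarith [(hm x).2])) (sq_nonneg _)
  nlinarith

lemma sum_Sw (hn : 0 < n) (hw : ∀ x, 0 < w x) (hm : ∀ x, 0 ≤ m x ∧ m x ≤ 1) (k : ℕ) (x : Cube n) :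
    ∑ l, Sw w m l k x ≤ (st w m)^[k] 1 x - (st w m)^[k] 1 x ^ 2 := by
  induction k generalizing x with
  | zero => simp [Sw]
  | succ k ih =>
    rw [iterate_succ_apply']
    refine le_trans ?_ (var_step hn hw hm _ x)
    simp only [Sw]
    rw [← mul_sum, sum_add_distrib, ← Ph_sum]
    exact mul_le_mul_of_nonneg_left (add_le_add (Ph_mono hw ih x) le_rfl) (hm x).1

end real

/-! ### the complex chain -/

lemma PhC_add (w f g : Cube n → ℂ) (x : Cube n) :
    PhC w (fun y => f y + g y) x = PhC w f x + PhC w g x := by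
  unfold PhC siteC
  rw [← mul_add, ← sum_add_distrib]
  congr 1
  exact sum_congr rfl fun l _ => by ring

section cplx
variable {w : Cube n → ℝ} {φ : Cube n → ℂ}

/-- the local perturbation -/
def aa (φ : Cube n → ℂ) (l : Fin n) (x : Cube n) : ℝ :=
  ‖φ (update x l true) - φ (update x l false)‖

lemma siteC_d (hw : ∀ x, 0 < w x) {l : Fin n} {x : Cube n} (h : aa φ l x ≤ 9 / 25) : ∃ d : ℂ,
    ‖d‖ ≤ 4 * pp w l x * qq w l x * aa φ l x ∧ ∀ f : Cube n → ℂ,
      siteC (fun y => w y * Complex.exp (φ y)) f l x =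
        pp w l x * f (update x l true) + qq w l x * f (update x l false) +
          d * (f (update x l true) - f (update x l false)) := by
  obtain ⟨-, d, hd, h'⟩ := site_d (hw (update x l true)) (hw (update x l false)) h
  exact ⟨d, hd, fun f => h' _ _⟩

lemma PhC_sq (hn : 0 < n) (hw : ∀ x, 0 < w x) {x : Cube n} (h : ∀ l, aa φ l x ≤ 9 / 25) {R : ℝ}
    (hR : ∑ l, aa φ l x ^ 2 ≤ R) (f : Cube n → ℂ) :
    ‖PhC (fun y => w y * Complex.exp (φ y)) f x‖ ^ 2 ≤
      (1 + 4 * R / n) * Ph w (fun y => ‖f y‖ ^ 2) x := by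
  have hn' : (0 : ℝ) < n := by positivity
  have h1 : ∀ l ∈ (univ : Finset (Fin n)), ‖siteC (fun y => w y * Complex.exp (φ y)) f l x‖ ^ 2 ≤
      (1 + 4 * aa φ l x ^ 2) * siteM w (fun y => ‖f y‖ ^ 2) l x := fun l _ => by
    obtain ⟨d, hd, h'⟩ := siteC_d hw (h l)
    rw [h', siteM_eq]
    exact site_cs (pp_pos hw l x) (qq_pos hw l x) (pp_add hw l x) hd _ _
  have hE : ∀ l ∈ (univ : Finset (Fin n)), 0 ≤ siteM w (fun y => ‖f y‖ ^ 2) l x := fun l _ => by
    rw [siteM_eq]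
    have := pp_pos hw l x
    have := qq_pos hw l x
    positivity
  have h2 := sum_sq_le_sum_mul_sum_of_sq_le_mul univ
    (f := fun l => 1 + 4 * aa φ l x ^ 2) (fun l _ => by positivity) hE h1
  have h3 : ∑ l : Fin n, (1 + 4 * aa φ l x ^ 2) ≤ n + 4 * R := by
    rw [sum_add_distrib, ← mul_sum]; simp; linarith
  have h4 : ‖PhC (fun y => w y * Complex.exp (φ y)) f x‖ ≤
      (n : ℝ)⁻¹ * ∑ l, ‖siteC (fun y => w y * Complex.exp (φ y)) f l x‖ := by
    unfold PhC
    rw [norm_mul, norm_inv, Complex.norm_natCast]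
    exact mul_le_mul_of_nonneg_left (norm_sum_le _ _) (by positivity)
  have h5 : 0 ≤ ∑ l, siteM w (fun y => ‖f y‖ ^ 2) l x := sum_nonneg hE
  calc _ ≤ ((n : ℝ)⁻¹ * ∑ l, ‖siteC (fun y => w y * Complex.exp (φ y)) f l x‖) ^ 2 :=
        pow_le_pow_left₀ (norm_nonneg _) h4 2
    _ ≤ (n : ℝ)⁻¹ ^ 2 * ((n + 4 * R) * ∑ l, siteM w (fun y => ‖f y‖ ^ 2) l x) := by
        rw [mul_pow]
        exact mul_le_mul_of_nonneg_left (h2.trans (mul_le_mul_of_nonneg_right h3 h5))
          (by positivity)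
    _ = _ := by unfold Ph; field_simp

lemma PhC_diff (hn : 0 < n) (hw : ∀ x, 0 < w x) {x : Cube n} (h : ∀ l, aa φ l x ≤ 9 / 25)
    {S : Finset (Fin n)} {α ρ : ℝ} {b : Fin n → ℝ} (hα : 0 ≤ α)
    (ha : ∀ l, aa φ l x ≤ (if l ∈ S then α else 0) + b l) (hb : ∑ l, b l ^ 2 ≤ ρ)
    (u : Cube n → ℝ) :
    ‖PhC (fun y => w y * Complex.exp (φ y)) (fun y => u y) x - (Ph w u x : ℝ)‖ ^ 2 ≤
      8 / n * (α ^ 2 * #S * ∑ l ∈ S, varl w u l x / n + ρ * ∑ l, varl w u l x / n) := by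
  have hn' : (0 : ℝ) < n := by positivity
  set v : Fin n → ℝ := fun l =>
    4 * pp w l x * qq w l x * |u (update x l true) - u (update x l false)| with hv
  have hv0 : ∀ l, 0 ≤ v l := fun l => by
    have := pp_pos hw l x
    have := qq_pos hw l x
    simp only [hv]; positivity
  have hv2 : ∀ l, v l ^ 2 ≤ 4 * varl w u l x := fun l => by
    have h1 := pp_pos hw l x
    have h2 := qq_pos hw l x
    have h3 := pp_add hw l x
    have h4 : pp w l x * qq w l x ≤ 1 / 4 := by nlinarith [sq_nonneg (pp w l x - qq w l x)]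
    have h5 := varl_nonneg hw u l x
    have h6 : v l ^ 2 = 16 * (pp w l x * qq w l x) * varl w u l x := by
      rw [varl_eq hw]; simp only [hv, mul_pow, sq_abs]; ring
    rw [h6]; nlinarith
  have h1 : ∀ l, ‖siteC (fun y => w y * Complex.exp (φ y)) (fun y => u y) l x -
      (siteM w u l x : ℝ)‖ ≤ (if l ∈ S then α * v l else 0) + b l * v l := fun l => by
    obtain ⟨d, hd, h'⟩ := siteC_d hw (h l)
    rw [h', siteM_eq]
    push_cast
    rw [add_sub_cancel_left, norm_mul, ← Complex.ofReal_sub, Complex.norm_real, Real.norm_eq_abs]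
    calc _ ≤ 4 * pp w l x * qq w l x * aa φ l x * |u (update x l true) - u (update x l false)| :=
          mul_le_mul_of_nonneg_right hd (abs_nonneg _)
      _ = aa φ l x * v l := by simp only [hv]; ring
      _ ≤ ((if l ∈ S then α else 0) + b l) * v l := mul_le_mul_of_nonneg_right (ha l) (hv0 l)
      _ = _ := by split_ifs <;> ring
  have h2 : ‖PhC (fun y => w y * Complex.exp (φ y)) (fun y => u y) x - (Ph w u x : ℝ)‖ ≤
      (n : ℝ)⁻¹ * (α * ∑ l ∈ S, v l + ∑ l, b l * v l) := by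
    unfold PhC Ph
    push_cast
    rw [← mul_sub, ← sum_sub_distrib, norm_mul, norm_inv, Complex.norm_natCast]
    refine mul_le_mul_of_nonneg_left ((norm_sum_le _ _).trans ?_) (by positivity)
    refine (sum_le_sum fun l _ => h1 l).trans (le_of_eq ?_)
    rw [sum_add_distrib, sum_ite_mem, univ_inter, mul_sum]
  have h3 : (∑ l ∈ S, v l) ^ 2 ≤ #S * (4 * ∑ l ∈ S, varl w u l x) := by
    refine sq_sum_le_card_mul_sum_sq.trans (mul_le_mul_of_nonneg_left ?_ (by positivity))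
    rw [mul_sum]; exact sum_le_sum fun l _ => hv2 l
  have h4 : (∑ l, b l * v l) ^ 2 ≤ ρ * (4 * ∑ l, varl w u l x) := by
    refine (sum_mul_sq_le_sq_mul_sq _ _ _).trans (mul_le_mul hb ?_
      (sum_nonneg fun l _ => sq_nonneg _) ((sum_nonneg fun l _ => sq_nonneg _).trans hb))
    rw [mul_sum]; exact sum_le_sum fun l _ => hv2 l
  have h5 : (α * ∑ l ∈ S, v l + ∑ l, b l * v l) ^ 2 ≤
      2 * (α ^ 2 * (#S * (4 * ∑ l ∈ S, varl w u l x))) + 2 * (ρ * (4 * ∑ l, varl w u l x)) := by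
    have h6 : (α * ∑ l ∈ S, v l) ^ 2 ≤ α ^ 2 * (#S * (4 * ∑ l ∈ S, varl w u l x)) := by
      rw [mul_pow]; exact mul_le_mul_of_nonneg_left h3 (sq_nonneg _)
    nlinarith [sq_nonneg (α * ∑ l ∈ S, v l - ∑ l, b l * v l)]
  calc _ ≤ ((n : ℝ)⁻¹ * (α * ∑ l ∈ S, v l + ∑ l, b l * v l)) ^ 2 :=
        pow_le_pow_left₀ (norm_nonneg _) h2 2
    _ ≤ (n : ℝ)⁻¹ ^ 2 * (2 * (α ^ 2 * (#S * (4 * ∑ l ∈ S, varl w u l x))) +
          2 * (ρ * (4 * ∑ l, varl w u l x))) := by
        rw [mul_pow]; exact mul_le_mul_of_nonneg_left h5 (by positivity)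
    _ = _ := by rw [← sum_div, ← sum_div]; field_simp; ring

end cplx

lemma norm_add_sq_le (a b : ℂ) {M : ℝ} (hM : 0 < M) :
    ‖a + b‖ ^ 2 ≤ (1 + M⁻¹) * ‖a‖ ^ 2 + (1 + M) * ‖b‖ ^ 2 := by
  have h1 : ‖a + b‖ ^ 2 ≤ (‖a‖ + ‖b‖) ^ 2 := pow_le_pow_left₀ (norm_nonneg _) (norm_add_le _ _) 2
  have h2 : (1 + M⁻¹) * ‖a‖ ^ 2 + (1 + M) * ‖b‖ ^ 2 - (‖a‖ + ‖b‖) ^ 2 =
      (‖a‖ - M * ‖b‖) ^ 2 / M := by field_simp; ring
  have h3 : 0 ≤ (‖a‖ - M * ‖b‖) ^ 2 / M := by positivity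
  linarith

/-- **the abstract telescoping bound** -/
theorem core (hn : 0 < n) {w m : Cube n → ℝ} (hw : ∀ x, 0 < w x) (hm : ∀ x, 0 ≤ m x ∧ m x ≤ 1)
    {φ m' : Cube n → ℂ} {S : Finset (Fin n)} {α ρ κ β₁ β₂ M : ℝ} {b : Fin n → Cube n → ℝ}
    (hα : 0 ≤ α) (hκ : 1 ≤ κ) (hβ₁ : 0 ≤ β₁) (hβ₂ : 0 ≤ β₂) (hM : 0 < M) (hρ : 0 ≤ ρ)
    (h4 : ∀ l x, aa φ l x ≤ 9 / 25)
    (ha : ∀ l x, aa φ l x ≤ (if l ∈ S then α else 0) + b l x) (hb : ∀ x, ∑ l, b l x ^ 2 ≤ ρ)
    (hm1 : ∀ x, ‖m' x‖ ^ 2 ≤ κ * m x) (hm2 : ∀ x, ‖m' x - m x‖ ^ 2 ≤ β₁ * (1 - m x) + β₂)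
    (k : ℕ) (x : Cube n) :
    ‖(stC (fun y => w y * Complex.exp (φ y)) m')^[k] 1 x - ((st w m)^[k] 1 x : ℝ)‖ ^ 2 ≤
      ((1 + M⁻¹) * κ * (1 + 8 * (α ^ 2 * #S + ρ) / n)) ^ k * ((1 + M) *
        (16 * κ / n * (α ^ 2 * #S * ∑ l ∈ S, Sw w m l k x +
          ρ * ((st w m)^[k] 1 x - (st w m)^[k] 1 x ^ 2)) +
          2 * (β₁ * (1 - (st w m)^[k] 1 x) + β₂ * k))) := by
  have hn' : (0 : ℝ) < n := by positivity
  set lam := (1 + M⁻¹) * κ * (1 + 8 * (α ^ 2 * #S + ρ) / n) with hlam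
  have hl1 : 1 ≤ lam := by
    have e1 : 1 ≤ 1 + M⁻¹ := by have := inv_pos.2 hM; linarith
    have e2 : 1 ≤ 1 + 8 * (α ^ 2 * #S + ρ) / n := by
      have : 0 ≤ 8 * (α ^ 2 * #S + ρ) / n := by positivity
      linarith
    exact one_le_mul_of_one_le_of_one_le (one_le_mul_of_one_le_of_one_le e1 hκ) e2
  have hR : ∀ x, ∑ l, aa φ l x ^ 2 ≤ 2 * (α ^ 2 * #S + ρ) := fun x => by
    have e1 : ∀ l, aa φ l x ^ 2 ≤ 2 * (if l ∈ S then α ^ 2 else 0) + 2 * b l x ^ 2 := fun l => by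
      have e0 : 0 ≤ aa φ l x := norm_nonneg _
      have e2 := pow_le_pow_left₀ e0 (ha l x) 2
      split_ifs at e2 ⊢
      · nlinarith [sq_nonneg (α - b l x)]
      · nlinarith [sq_nonneg (b l x)]
    refine (sum_le_sum fun l _ => e1 l).trans ?_
    rw [sum_add_distrib, ← mul_sum, ← mul_sum, sum_ite_mem, univ_inter, sum_const, nsmul_eq_mul]
    linarith [hb x]
  induction k generalizing x with
  | zero => simp [Sw]
  | succ k ih =>
    set u := (st w m)^[k] 1 with hu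
    set U := (stC (fun y => w y * Complex.exp (φ y)) m')^[k] 1 with hU
    have hu01 := it_mem hn hw hm k
    rw [← hu] at hu01
    rw [iterate_succ_apply', iterate_succ_apply', ← hu, ← hU]
    set P' := PhC (fun y => (w y : ℂ) * Complex.exp (φ y)) with hP'
    have hsplit : stC (fun y => w y * Complex.exp (φ y)) m' U x - (st w m u x : ℝ) =
        m' x * P' (fun y => U y - u y) x +
          (m' x * (P' (fun y => u y) x - (Ph w u x : ℝ)) + (m' x - m x) * (Ph w u x : ℝ)) := by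
      have : P' U x = P' (fun y => U y - u y) x + P' (fun y => u y) x := by
        rw [hP', ← PhC_add]; simp
      unfold stC st
      rw [← hP', this]; push_cast; ring
    have hP0 : 0 ≤ Ph w u x := by
      have := Ph_mono hw (f := fun _ => 0) (g := u) (fun y => (hu01 y).1) x
      rwa [Ph_const hn hw] at this
    have hP1 : Ph w u x ≤ 1 := by
      have := Ph_mono hw (g := fun _ => 1) (f := u) (fun y => (hu01 y).2) x
      rwa [Ph_const hn hw] at this
    -- first term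
    set Bd : Cube n → ℝ := fun y => (1 + M) *
        (16 * κ / n * (α ^ 2 * #S * ∑ l ∈ S, Sw w m l k y + ρ * (u y - u y ^ 2)) +
          2 * (β₁ * (1 - u y) + β₂ * k)) with hBd
    have t1 : ‖m' x * P' (fun y => U y - u y) x‖ ^ 2 ≤
        κ * m x * ((1 + 8 * (α ^ 2 * #S + ρ) / n) * (lam ^ k * Ph w Bd x)) := by
      rw [norm_mul, mul_pow]
      refine mul_le_mul (hm1 x) ?_ (sq_nonneg _) (mul_nonneg (by linarith) (hm x).1)
      have e1 := PhC_sq hn hw (fun l => h4 l x) (hR x) (fun y => U y - u y)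
      have e2 : (1 + 4 * (2 * (α ^ 2 * #S + ρ)) / n) = 1 + 8 * (α ^ 2 * #S + ρ) / n := by ring
      rw [e2] at e1
      refine e1.trans (mul_le_mul_of_nonneg_left ?_ (by positivity))
      rw [← Ph_mul]
      exact Ph_mono hw (fun y => ih y) x
    set V1 := ∑ l ∈ S, varl w u l x / n with hV1
    set V2 := ∑ l, varl w u l x / n with hV2
    have hV10 : 0 ≤ V1 := sum_nonneg fun l _ => div_nonneg (varl_nonneg hw _ _ _) hn'.le
    have hV20 : 0 ≤ V2 := sum_nonneg fun l _ => div_nonneg (varl_nonneg hw _ _ _) hn'.le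
    have t2 : ‖m' x * (P' (fun y => u y) x - (Ph w u x : ℝ))‖ ^ 2 ≤
        κ * m x * (8 / n * (α ^ 2 * #S * V1 + ρ * V2)) := by
      rw [norm_mul, mul_pow]
      exact mul_le_mul (hm1 x) (PhC_diff hn hw (fun l => h4 l x) hα (fun l => ha l x) (hb x) u)
        (sq_nonneg _) (mul_nonneg (by linarith) (hm x).1)
    have t3 : ‖(m' x - m x) * (Ph w u x : ℝ)‖ ^ 2 ≤ β₁ * (1 - m x) + β₂ := by
      rw [norm_mul, mul_pow, Complex.norm_real, Real.norm_of_nonneg hP0]
      have e1 : Ph w u x ^ 2 ≤ 1 := pow_le_one₀ hP0 hP1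
      calc _ ≤ ‖m' x - m x‖ ^ 2 * 1 := mul_le_mul_of_nonneg_left e1 (sq_nonneg _)
        _ ≤ _ := by rw [mul_one]; exact hm2 x
    set G := (1 + M) * (2 * (κ * m x * (8 / n * (α ^ 2 * #S * V1 + ρ * V2))) +
      2 * (β₁ * (1 - m x) + β₂)) with hG
    have hG0 : 0 ≤ G := by
      have := (hm x).1
      have : 0 ≤ 1 - m x := by linarith [(hm x).2]
      have : 0 ≤ κ := by linarith
      positivity
    have t4 : ‖stC (fun y => w y * Complex.exp (φ y)) m' U x - (st w m u x : ℝ)‖ ^ 2 ≤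
        lam ^ (k + 1) * (m x * Ph w Bd x) + G := by
      rw [hsplit]
      refine (norm_add_sq_le _ _ hM).trans (add_le_add ?_ ?_)
      · refine (mul_le_mul_of_nonneg_left t1 (by positivity)).trans (le_of_eq ?_)
        rw [pow_succ, hlam]; ring
      · refine mul_le_mul_of_nonneg_left ?_ (by positivity)
        have := norm_add_sq_le (m' x * (P' (fun y => u y) x - (Ph w u x : ℝ)))
          ((m' x - m x) * (Ph w u x : ℝ)) one_pos
        rw [inv_one] at this
        linarith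
    have t5 : m x * Ph w Bd x + G ≤ (1 + M) *
        (16 * κ / n * (α ^ 2 * #S * ∑ l ∈ S, Sw w m l (k + 1) x +
          ρ * (st w m u x - st w m u x ^ 2)) +
          2 * (β₁ * (1 - st w m u x) + β₂ * (k + 1 : ℕ))) := by
      have e1 : Ph w Bd x = (1 + M) *
          (16 * κ / n * (α ^ 2 * #S * ∑ l ∈ S, Ph w (Sw w m l k) x +
            ρ * Ph w (fun y => u y - u y ^ 2) x) + 2 * (β₁ * (1 - Ph w u x) + β₂ * k)) := by
        rw [hBd, Ph_mul, Ph_add, Ph_mul, Ph_add, Ph_mul, Ph_mul, Ph_mul, Ph_add, Ph_mul, Ph_sum,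
          Ph_const hn hw, Ph_sub (fun _ => 1) u, Ph_const hn hw]
      have e2 : ∑ l ∈ S, Sw w m l (k + 1) x = m x * (∑ l ∈ S, Ph w (Sw w m l k) x + V1) := by
        simp only [Sw]
        rw [← mul_sum, sum_add_distrib]
      have e3 := var_step hn hw hm u x
      rw [← hV2] at e3
      have e4 : ρ * (m x * (Ph w (fun y => u y - u y ^ 2) x + V2)) ≤
          ρ * (st w m u x - st w m u x ^ 2) := mul_le_mul_of_nonneg_left e3 hρ
      have e5 : β₂ * (m x * k) ≤ β₂ * k :=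
        mul_le_mul_of_nonneg_left (mul_le_of_le_one_left (by positivity) (hm x).2) hβ₂
      have e6 : m x * Ph w Bd x + G = (1 + M) *
          (16 * κ / n * (α ^ 2 * #S * (m x * (∑ l ∈ S, Ph w (Sw w m l k) x + V1)) +
            ρ * (m x * (Ph w (fun y => u y - u y ^ 2) x + V2))) +
            2 * (β₁ * (1 - st w m u x) + (β₂ * (m x * k) + β₂))) := by
        rw [e1, hG]; unfold st; ring
      rw [e6, e2]
      have hk0 : 0 ≤ 16 * κ / n := by
        have : 0 ≤ κ := by linarith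
        positivity
      push_cast
      refine mul_le_mul_of_nonneg_left (add_le_add (mul_le_mul_of_nonneg_left (by linarith) hk0)
        (by linarith)) (by positivity)
    have hl2 : 1 ≤ lam ^ (k + 1) := one_le_pow₀ hl1
    calc _ ≤ lam ^ (k + 1) * (m x * Ph w Bd x) + G := t4
      _ ≤ lam ^ (k + 1) * (m x * Ph w Bd x + G) := by
          rw [mul_add]; exact add_le_add le_rfl (le_mul_of_one_le_left hG0 hl2)
      _ ≤ _ := mul_le_mul_of_nonneg_left t5 (by positivity)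

end Crest.Agent.T157.SwD
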