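import Crest.Agent.T157.SwD_82

/-!
# Row 157, coin SWAP: the disc lemma (helper82)

`kapC`, `kapC_ofReal`, `kapC_diff`, `kap_contDiffAt`, `wt`, `den_ne`, `disc`.
-/

set_option autoImplicit false

noncomputable section

namespace Crest.Agent.T157.SwD

open Matrix Finset Function
open Crest.ProbabilityR.SpinGlassDynamics Crest.Agent.T157.E
open Crest.Agent.T157.St Crest.Agent.T157.Cq
open Crest.Agent.T157.Ed hiding kap
open Crest.Agent.T157.Soft (unif)

variable {n : ℕ}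

/-- complex spin vector -/
def svC (x : Cube n) : Fin n → ℂ := fun i => (sv x i : ℂ)
/-- complex hatted spin vector -/
def hatC (n : ℕ) (x : Cube n) : Fin n → ℂ := fun i => (hat n x i : ℂ)
/-- complex Ising weight -/
def isC (W : Matrix (Fin n) (Fin n) ℂ) (x : Cube n) : ℂ :=
  Complex.exp (1 / 2 * (svC x ⬝ᵥ W *ᵥ svC x))
/-- complex survival function -/
def kilC (w V : Cube n → ℂ) (m : ℕ) : Cube n → ℂ :=
  (stC w fun x => Complex.exp (-(V x / ((n * tau n : ℝ) : ℂ))))^[m] 1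
/-- complex uniform mean -/
def umC (f : Cube n → ℂ) : ℂ := ∑ x, (unif n x : ℂ) * f x
/-- complex killing probability -/
def kapC (W : Matrix (Fin n) (Fin n) ℂ) (ε : ℝ) (V : Cube n → ℂ) : ℂ :=
  1 - umC (kilC (isC W) V (Mst n ε))
/-- the weights of the sites -/
def wt (W : Mat n) (ε : ℝ) (V : Cube n → ℝ) (l : Fin n) : ℝ :=
  um (Sw (ising W 0) (fun x => Real.exp (-(V x / (n * tau n)))) l (Mst n ε))
/-- the symmetric elementary matrix -/
def Eij (i j : Fin n) : Matrix (Fin n) (Fin n) ℂ := single i j 1 + single j i 1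

lemma kil_eq (w V : Cube n → ℝ) (k : ℕ) :
    kil w V k = (st w fun x => Real.exp (-(V x / (n * tau n))))^[k] 1 := rfl

lemma ising_pos' (W : Mat n) (x : Cube n) : 0 < ising W 0 x := Real.exp_pos _

lemma isC_add (W : Mat n) (E : Matrix (Fin n) (Fin n) ℂ) :
    isC (W.map (↑) + E) = fun x => (ising W 0 x : ℂ) *
      Complex.exp (1 / 2 * (svC x ⬝ᵥ E *ᵥ svC x)) := by
  funext x
  unfold isC ising
  rw [add_mulVec, dotProduct_add, mul_add, Complex.exp_add, Complex.ofReal_exp]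
  congr 2
  simp [svC, dotProduct, mulVec]

lemma PhC_ofReal (w u : Cube n → ℝ) (x : Cube n) :
    PhC (fun y => w y) (fun y => u y) x = (Ph w u x : ℝ) := by
  unfold PhC Ph siteC siteM
  push_cast
  rfl

lemma it_ofReal (w m : Cube n → ℝ) (k : ℕ) :
    (stC (fun y => w y) fun y => m y)^[k] 1 = fun x => (((st w m)^[k] 1 x : ℝ) : ℂ) := by
  induction k with
  | zero => funext x; simp
  | succ k ih =>
    funext x
    rw [iterate_succ_apply', iterate_succ_apply', ih]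
    unfold stC st
    rw [PhC_ofReal]; push_cast; rfl

/-- `kapC` extends `kap` -/
theorem kapC_ofReal (W : Mat n) (ε : ℝ) (V : Cube n → ℝ) :
    kapC (W.map (↑)) ε (fun x => V x) = (kap W ε V : ℝ) := by
  have h1 : isC (W.map (↑)) = fun x => (ising W 0 x : ℂ) := by
    have := isC_add W 0
    simpa using this
  have h2 : (fun x => Complex.exp (-((V x : ℂ) / ((n * tau n : ℝ) : ℂ)))) =
      fun x => ((Real.exp (-(V x / (n * tau n))) : ℝ) : ℂ) := by
    funext x; push_cast; rfl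
  unfold kapC Cq.kap kilC umC um
  rw [h1, h2, it_ofReal, kil_eq]
  push_cast
  rfl

/-- holomorphy -/
theorem kapC_diff {X : Type*} [NormedAddCommGroup X] [NormedSpace ℂ X] {s : Set X} {z : X}
    {W : X → Matrix (Fin n) (Fin n) ℂ} {V : X → Cube n → ℂ} (ε : ℝ)
    (hW : ∀ a b, DifferentiableWithinAt ℂ (fun z => W z a b) s z)
    (hV : ∀ x, DifferentiableWithinAt ℂ (fun z => V z x) s z)
    (hd : ∀ l x, isC (W z) (update x l true) + isC (W z) (update x l false) ≠ 0) :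
    DifferentiableWithinAt ℂ (fun z => kapC (W z) ε (V z)) s z := by
  have h1 : ∀ x, DifferentiableWithinAt ℂ (fun z => isC (W z) x) s z := fun x => by
    unfold isC
    simp only [dotProduct, mulVec]
    refine DifferentiableWithinAt.cexp (DifferentiableWithinAt.const_mul ?_ _)
    refine DifferentiableWithinAt.fun_sum fun a _ => DifferentiableWithinAt.const_mul ?_ _
    exact DifferentiableWithinAt.fun_sum fun b _ => (hW a b).mul_const _
  have h2 : ∀ k x, DifferentiableWithinAt ℂ (fun z => kilC (isC (W z)) (V z) k x) s z := by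
    intro k
    induction k with
    | zero => intro x; simp only [kilC, iterate_zero, id_eq, Pi.one_apply]; fun_prop
    | succ k ih =>
      intro x
      simp only [kilC, iterate_succ_apply'] at ih ⊢
      unfold stC PhC siteC
      refine DifferentiableWithinAt.mul
        (by simp only [div_eq_mul_inv]; exact ((hV x).mul_const _).neg.cexp)
        (DifferentiableWithinAt.const_mul (DifferentiableWithinAt.fun_sum fun l _ => ?_) _)
      simp only [div_eq_mul_inv]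
      exact (((h1 _).mul (ih _)).add ((h1 _).mul (ih _))).mul
        (DifferentiableWithinAt.inv (h := fun z => isC (W z) (update x l true) +
          isC (W z) (update x l false)) ((h1 _).add (h1 _)) (hd l x))
  unfold kapC umC
  exact (DifferentiableWithinAt.fun_sum fun x _ => (h2 _ x).const_mul _).const_sub _

/-- smoothness of the real `kap` -/
theorem kap_contDiffAt {X : Type*} [NormedAddCommGroup X] [NormedSpace ℝ X] {z : X}
    {k : WithTop ℕ∞} {W : X → Mat n} {V : X → Cube n → ℝ} (ε : ℝ)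
    (hW : ∀ a b, ContDiffAt ℝ k (fun z => W z a b) z) (hV : ∀ x, ContDiffAt ℝ k (fun z => V z x) z) :
    ContDiffAt ℝ k (fun z => kap (W z) ε (V z)) z := by
  have h1 : ∀ x, ContDiffAt ℝ k (fun z => ising (W z) 0 x) z := fun x => by
    unfold ising
    simp only [dotProduct, mulVec]
    refine ContDiffAt.exp (ContDiffAt.add (contDiffAt_const.mul ?_) contDiffAt_const)
    refine ContDiffAt.sum fun a _ => contDiffAt_const.mul ?_
    exact ContDiffAt.sum fun b _ => (hW a b).mul contDiffAt_const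
  have h2 : ∀ m x, ContDiffAt ℝ k (fun z => kil (ising (W z) 0) (V z) m x) z := by
    intro m
    induction m with
    | zero => intro x; simp only [kil, iterate_zero, id_eq, Pi.one_apply]; exact contDiffAt_const
    | succ m ih =>
      intro x
      simp only [kil, iterate_succ_apply'] at ih ⊢
      unfold Ph siteM
      refine ContDiffAt.mul (((hV x).div_const _).neg.exp)
        (contDiffAt_const.mul (ContDiffAt.sum fun l _ => ?_))
      exact (((h1 _).mul (ih _)).add ((h1 _).mul (ih _))).div ((h1 _).add (h1 _))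
        (add_pos (ising_pos' _ _) (ising_pos' _ _)).ne'
  unfold Cq.kap um
  exact contDiffAt_const.sub (ContDiffAt.sum fun x _ => contDiffAt_const.mul (h2 _ x))

/-! ### weights -/

lemma unif_nonneg (x : Cube n) : 0 ≤ unif n x := (Soft.isP_unif (n := n)).1 x
lemma unif_sum : ∑ x, unif n x = 1 := (Soft.isP_unif (n := n)).2

lemma um_mono {f g : Cube n → ℝ} (h : ∀ x, f x ≤ g x) : um f ≤ um g :=
  sum_le_sum fun x _ => mul_le_mul_of_nonneg_left (h x) (unif_nonneg x)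
lemma um_const (c : ℝ) : um (fun _ : Cube n => c) = c := by
  unfold um; rw [← sum_mul, unif_sum, one_mul]

lemma N_one (hn : 1 ≤ n) : 1 ≤ tau n ∧ (1 : ℝ) ≤ n * tau n := by
  have h1 : (1 : ℝ) ≤ n := by exact_mod_cast hn
  have h2 : 1 ≤ tau n := Real.one_le_rpow h1 (by norm_num)
  exact ⟨h2, one_le_mul_of_one_le_of_one_le h1 h2⟩

lemma m_mem (hn : 1 ≤ n) {V : Cube n → ℝ} (hV : ∀ x, 0 ≤ V x) (x : Cube n) :
    0 ≤ Real.exp (-(V x / (n * tau n))) ∧ Real.exp (-(V x / (n * tau n))) ≤ 1 :=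
  ⟨(Real.exp_pos _).le, Real.exp_le_one_iff.2 (neg_nonpos.2 (div_nonneg (hV x)
    (by linarith [(N_one hn).2])))⟩

theorem wt_nonneg (hn : 1 ≤ n) (W : Mat n) (ε : ℝ) {V : Cube n → ℝ} (hV : ∀ x, 0 ≤ V x)
    (l : Fin n) : 0 ≤ wt W ε V l :=
  sum_nonneg fun x _ => mul_nonneg (unif_nonneg x)
    (Sw_nonneg hn (ising_pos' W) (m_mem hn hV) l _ x)

theorem wt_sum (hn : 1 ≤ n) (W : Mat n) (ε : ℝ) {V : Cube n → ℝ} (hV : ∀ x, 0 ≤ V x) :
    ∑ l, wt W ε V l ≤ 1 := by
  unfold wt um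
  rw [sum_comm]
  refine le_trans (sum_le_sum fun x _ => ?_) (unif_sum (n := n)).le
  rw [← mul_sum]
  refine mul_le_of_le_one_right (unif_nonneg x) ?_
  have h1 := sum_Sw hn (ising_pos' W) (m_mem hn hV) (Mst n ε) x
  have h2 := it_mem hn (ising_pos' W) (m_mem hn hV) (Mst n ε) x
  nlinarith [sq_nonneg ((st (ising W 0) fun x => Real.exp (-(V x / (n * tau n))))^[Mst n ε] 1 x)]

lemma umC_sq (f : Cube n → ℂ) : ‖umC f‖ ^ 2 ≤ um fun x => ‖f x‖ ^ 2 := by
  have h1 : ‖umC f‖ ≤ ∑ x, unif n x * ‖f x‖ := by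
    refine (norm_sum_le _ _).trans (le_of_eq (sum_congr rfl fun x _ => ?_))
    rw [norm_mul, Complex.norm_real, Real.norm_of_nonneg (unif_nonneg x)]
  have h2 := sum_sq_le_sum_mul_sum_of_sq_le_mul univ (r := fun x => unif n x * ‖f x‖)
    (f := unif n) (g := fun x => unif n x * ‖f x‖ ^ 2) (fun x _ => unif_nonneg x)
    (fun x _ => mul_nonneg (unif_nonneg x) (sq_nonneg _)) (fun x _ => le_of_eq (by ring))
  rw [unif_sum, one_mul] at h2
  exact (pow_le_pow_left₀ (norm_nonneg _) h1 2).trans h2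

/-! ### local fields -/

lemma quad_diffC (E : Matrix (Fin n) (Fin n) ℂ) (l : Fin n) (x : Cube n) :
    1 / 2 * (svC (update x l true) ⬝ᵥ E *ᵥ svC (update x l true)) -
      1 / 2 * (svC (update x l false) ⬝ᵥ E *ᵥ svC (update x l false)) =
      ∑ b, (E l b + E b l) * update (svC x) l 0 b := by
  have h1 : svC (update x l true) = update (svC x) l 0 + Pi.single l 1 := by
    funext a
    by_cases h : a = l
    · subst h; simp [svC, sv, spin]
    · simp [svC, sv, h]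
  have h2 : svC (update x l false) = update (svC x) l 0 - Pi.single l 1 := by
    funext a
    by_cases h : a = l
    · subst h; simp [svC, sv, spin]
    · simp [svC, sv, h]
  rw [h1, h2]
  set s := update (svC x) l 0
  simp only [mulVec_add, mulVec_sub, add_dotProduct, sub_dotProduct, dotProduct_add,
    dotProduct_sub]
  have e1 : Pi.single l (1 : ℂ) ⬝ᵥ E *ᵥ s = ∑ b, E l b * s b := by
    rw [single_dotProduct, one_mul]; rfl
  have e2 : s ⬝ᵥ E *ᵥ Pi.single l (1 : ℂ) = ∑ b, E b l * s b := by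
    rw [mulVec_single_one]; exact sum_congr rfl fun b _ => by simp [mul_comm]
  rw [e1, e2]
  simp only [add_mul, sum_add_distrib]
  ring

lemma norm_s0 (l b : Fin n) (x : Cube n) : ‖update (svC x) l 0 b‖ ≤ 1 := by
  by_cases h : b = l
  · subst h; simp
  · rw [update_of_ne h]
    unfold svC sv spin
    split_ifs <;> simp

/-- the part of the local field due to `Δ` -/
def bb (Δ : Matrix (Fin n) (Fin n) ℂ) (l : Fin n) : ℝ := ∑ b, (‖Δ l b‖ + ‖Δ b l‖)

lemma bb_sum {Δ : Matrix (Fin n) (Fin n) ℂ} {F : ℝ} (hF : ∑ a, ∑ b, ‖Δ a b‖ ^ 2 ≤ F) :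
    ∑ l, bb Δ l ^ 2 ≤ 4 * (n * F) := by
  have h1 : ∀ l, bb Δ l ^ 2 ≤ n * ∑ b, (2 * ‖Δ l b‖ ^ 2 + 2 * ‖Δ b l‖ ^ 2) := fun l => by
    have := sq_sum_le_card_mul_sum_sq (s := univ) (f := fun b => ‖Δ l b‖ + ‖Δ b l‖)
    simp only [card_univ, Fintype.card_fin] at this
    refine this.trans (mul_le_mul_of_nonneg_left (sum_le_sum fun b _ => ?_) (by positivity))
    nlinarith [sq_nonneg (‖Δ l b‖ - ‖Δ b l‖)]
  refine (sum_le_sum fun l _ => h1 l).trans ?_
  rw [← mul_sum]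
  simp only [sum_add_distrib, ← mul_sum]
  rw [sum_comm (f := fun l b => ‖Δ b l‖ ^ 2)]
  have : (0 : ℝ) ≤ n := by positivity
  nlinarith

lemma aa_le (i j : Fin n) (u : ℂ) (Δ : Matrix (Fin n) (Fin n) ℂ) (l : Fin n) (x : Cube n) :
    aa (fun x => 1 / 2 * (svC x ⬝ᵥ (u • Eij i j + Δ) *ᵥ svC x)) l x ≤
      (if l ∈ ({i, j} : Finset (Fin n)) then 2 * ‖u‖ else 0) + bb Δ l := by
  unfold aa
  rw [quad_diffC]
  set s := update (svC x) l 0 with hs
  have hs1 : ∀ b, ‖s b‖ ≤ 1 := fun b => norm_s0 l b x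
  have hs0 : s l = 0 := by simp [hs]
  have h3 : ∀ (a c : Fin n), ∑ b, single a c (1 : ℂ) l b * s b = if a = l then s c else 0 :=
    fun a c => by
      by_cases h : a = l <;> simp [single, h]
  have h4 : ∀ (a c : Fin n), ∑ b, single a c (1 : ℂ) b l * s b = if c = l then s a else 0 :=
    fun a c => by
      by_cases h : c = l <;> simp [single, h]
  have h1 : ∑ b, ((u • Eij i j + Δ) l b + (u • Eij i j + Δ) b l) * s b =
      2 * u * ((if i = l then s j else 0) + if j = l then s i else 0) +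
        ∑ b, (Δ l b + Δ b l) * s b := by
    have : ∀ b, ((u • Eij i j + Δ) l b + (u • Eij i j + Δ) b l) * s b =
        u * (single i j (1 : ℂ) l b * s b) + u * (single j i (1 : ℂ) l b * s b) +
        u * (single i j (1 : ℂ) b l * s b) + u * (single j i (1 : ℂ) b l * s b) +
        (Δ l b + Δ b l) * s b := fun b => by
      simp only [Eij, Matrix.add_apply, Matrix.smul_apply, smul_eq_mul]; ring
    simp only [this, sum_add_distrib, ← mul_sum, h3, h4]
    ring
  rw [h1]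
  refine (norm_add_le _ _).trans (add_le_add ?_ ?_)
  · have h5 : ‖(if i = l then s j else 0) + if j = l then s i else 0‖ ≤
        if l ∈ ({i, j} : Finset (Fin n)) then 1 else 0 := by
      by_cases hi : i = l <;> by_cases hj : j = l
      · simp [hi, hj, hs0]
      · simpa [hi, hj] using hs1 j
      · simpa [hi, hj] using hs1 i
      · simp [hi, hj, eq_comm]
    rw [norm_mul, norm_mul, Complex.norm_two]
    refine (mul_le_mul_of_nonneg_left h5 (by positivity)).trans (le_of_eq ?_)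
    split_ifs <;> simp
  · refine (norm_sum_le _ _).trans (sum_le_sum fun b _ => ?_)
    rw [norm_mul]
    exact (mul_le_of_le_one_right (norm_nonneg _) (hs1 b)).trans (norm_add_le _ _)

lemma aa_small (i j : Fin n) {u : ℂ} {Δ : Matrix (Fin n) (Fin n) ℂ} {F : ℝ}
    (hF : ∑ a, ∑ b, ‖Δ a b‖ ^ 2 ≤ F) (h : ‖u‖ ^ 2 + n * F ≤ 1 / 64) (l : Fin n) (x : Cube n) :
    aa (fun x => 1 / 2 * (svC x ⬝ᵥ (u • Eij i j + Δ) *ᵥ svC x)) l x ≤ 9 / 25 := by
  have e1 : bb Δ l ^ 2 ≤ ∑ l, bb Δ l ^ 2 :=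
    single_le_sum (f := fun l => bb Δ l ^ 2) (fun l _ => sq_nonneg _) (mem_univ l)
  have e2 := bb_sum hF
  have h2 : 2 * ‖u‖ + bb Δ l ≤ 9 / 25 := by
    refine abs_le_of_sq_le_sq' ?_ (by norm_num) |>.2
    nlinarith [sq_nonneg (2 * ‖u‖ - bb Δ l)]
  refine (aa_le i j u Δ l x).trans ?_
  have := norm_nonneg u
  split_ifs <;> linarith

/-- the denominators do not vanish on the disc -/
theorem den_ne (W : Mat n) (i j : Fin n) {u : ℂ} {Δ : Matrix (Fin n) (Fin n) ℂ} {F : ℝ}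
    (hF : ∑ a, ∑ b, ‖Δ a b‖ ^ 2 ≤ F) (h : ‖u‖ ^ 2 + n * F ≤ 1 / 64) (l : Fin n) (x : Cube n) :
    isC (W.map (↑) + (u • Eij i j + Δ)) (update x l true) +
      isC (W.map (↑) + (u • Eij i j + Δ)) (update x l false) ≠ 0 := by
  rw [isC_add]
  exact (site_d (ising_pos' W _) (ising_pos' W _) (aa_small i j hF h l x)).1

/-! ### the killing rate -/

lemma kill_bd {t y d : ℝ} {δ : ℂ} (ht : 0 ≤ t) (hδ : ‖δ‖ ^ 2 ≤ d) :
    ‖Complex.exp (-(t * (y + δ) ^ 2))‖ ^ 2 ≤ Real.exp (2 * (t * d)) * Real.exp (-(t * y ^ 2)) ∧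
    ‖Complex.exp (-(t * (y + δ) ^ 2)) - Real.exp (-(t * y ^ 2))‖ ^ 2 ≤
      8 * (t * d) * Real.exp (6 * (t * d)) * (1 - Real.exp (-(t * y ^ 2))) +
        2 * (t * d) ^ 2 * Real.exp (6 * (t * d)) := by
  have hd0 : 0 ≤ d := (sq_nonneg _).trans hδ
  have hn2 : δ.re ^ 2 + δ.im ^ 2 ≤ d := by
    rw [Complex.sq_norm, Complex.normSq_apply] at hδ; nlinarith
  constructor
  · rw [Complex.norm_exp, ← Real.exp_add, ← Real.exp_nat_mul]
    refine Real.exp_le_exp.2 ?_
    have e1 : (-((t : ℂ) * (y + δ) ^ 2)).re = -(t * ((y + δ.re) ^ 2 - δ.im ^ 2)) := by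
      simp [pow_two]
    rw [e1]
    have e2 : y ^ 2 - 2 * d ≤ 2 * ((y + δ.re) ^ 2 - δ.im ^ 2) := by
      nlinarith [sq_nonneg (y + 2 * δ.re)]
    have e3 := mul_le_mul_of_nonneg_left e2 ht
    push_cast
    linarith
  · set z : ℂ := -(t * (2 * y * δ + δ ^ 2)) with hz
    set m := Real.exp (-(t * y ^ 2)) with hm
    have hm0 : 0 < m := Real.exp_pos _
    have e1 : Complex.exp (-(t * (y + δ) ^ 2)) - m = m * (Complex.exp z - 1) := by
      rw [hm, Complex.ofReal_exp, mul_sub, ← Complex.exp_add, mul_one]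
      congr 2
      rw [hz]; push_cast; ring
    have e2 : ‖Complex.exp z - 1‖ ≤ ‖z‖ * Real.exp ‖z‖ := by
      simpa using Complex.norm_exp_sub_sum_le_norm_mul_exp z 1
    have e3 : ‖z‖ ≤ t * (2 * |y| * ‖δ‖ + ‖δ‖ ^ 2) := by
      rw [hz, norm_neg, norm_mul, Complex.norm_real, Real.norm_of_nonneg ht]
      refine mul_le_mul_of_nonneg_left ((norm_add_le _ _).trans (le_of_eq ?_)) ht
      simp
    have hy : |y| ^ 2 = y ^ 2 := sq_abs y
    have e4 : ‖z‖ ≤ t * y ^ 2 / 2 + 3 * (t * d) := by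
      refine e3.trans ?_
      have : 2 * |y| * ‖δ‖ + ‖δ‖ ^ 2 ≤ y ^ 2 / 2 + 3 * d := by
        nlinarith [sq_nonneg (|y| - 2 * ‖δ‖)]
      nlinarith
    have e5 : ‖z‖ ^ 2 ≤ 8 * (t * d) * (t * y ^ 2) + 2 * (t * d) ^ 2 := by
      refine (pow_le_pow_left₀ (norm_nonneg _) e3 2).trans ?_
      have f1 : (2 * |y| * ‖δ‖ + ‖δ‖ ^ 2) ^ 2 ≤ 8 * (d * y ^ 2) + 2 * d ^ 2 := by
        have g1 : ‖δ‖ ^ 2 * y ^ 2 ≤ d * y ^ 2 := mul_le_mul_of_nonneg_right hδ (sq_nonneg _)
        have g2 : (‖δ‖ ^ 2) ^ 2 ≤ d ^ 2 := pow_le_pow_left₀ (sq_nonneg _) hδ 2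
        have g3 : (2 * |y| * ‖δ‖) ^ 2 = 4 * (‖δ‖ ^ 2 * y ^ 2) := by rw [← hy]; ring
        nlinarith [sq_nonneg (2 * |y| * ‖δ‖ - ‖δ‖ ^ 2)]
      rw [mul_pow]
      refine (mul_le_mul_of_nonneg_left f1 (sq_nonneg _)).trans (le_of_eq (by ring))
    have e6 : m * Real.exp ‖z‖ ^ 2 ≤ Real.exp (6 * (t * d)) := by
      rw [hm, ← Real.exp_nat_mul, ← Real.exp_add]
      refine Real.exp_le_exp.2 ?_
      push_cast; linarith
    have e7 : t * y ^ 2 * m ≤ 1 - m := by
      have f1 := Real.add_one_le_exp (t * y ^ 2)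
      have f2 : Real.exp (t * y ^ 2) * m = 1 := by rw [hm, ← Real.exp_add]; simp
      nlinarith
    have e8 : m ≤ 1 := Real.exp_le_one_iff.2 (neg_nonpos.2 (by positivity))
    have hE := Real.exp_pos (6 * (t * d))
    have htd : 0 ≤ t * d := by positivity
    rw [e1, norm_mul, Complex.norm_real, Real.norm_of_nonneg hm0.le]
    calc (m * ‖Complex.exp z - 1‖) ^ 2 ≤ (m * (‖z‖ * Real.exp ‖z‖)) ^ 2 := by gcongr
      _ = (‖z‖ ^ 2 * m) * (m * Real.exp ‖z‖ ^ 2) := by ring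
      _ ≤ ((8 * (t * d) * (t * y ^ 2) + 2 * (t * d) ^ 2) * m) * Real.exp (6 * (t * d)) := by
          gcongr
      _ = (8 * (t * d) * (t * y ^ 2 * m) + 2 * (t * d) ^ 2 * m) * Real.exp (6 * (t * d)) := by ring
      _ ≤ (8 * (t * d) * (1 - m) + 2 * (t * d) ^ 2 * 1) * Real.exp (6 * (t * d)) := by gcongr
      _ = _ := by ring

set_option maxHeartbeats 1000000 in
/-- **disc lemma**, abstract killing rate `s (y + δ)²` -/
theorem disc0 (hn : 1 ≤ n) {ε s F d : ℝ} (hε : ε ≤ 1) (hs : 0 ≤ s) (W : Mat n) (i j : Fin n)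
    {u : ℂ} {Δ : Matrix (Fin n) (Fin n) ℂ} (hF : ∑ a, ∑ b, ‖Δ a b‖ ^ 2 ≤ F)
    (h1 : tau n * (‖u‖ ^ 2 + n * F) ≤ 1 / 64) (y : Cube n → ℝ) {δ : Cube n → ℂ}
    (hδ : ∀ x, ‖δ x‖ ^ 2 ≤ d) (h2 : s * d ≤ 1) :
    ‖kapC (W.map (↑) + (u • Eij i j + Δ)) ε (fun x => s * (y x + δ x) ^ 2) -
        (kap W ε (fun x => s * y x ^ 2) : ℝ)‖ ^ 2 ≤
      1536 * Real.exp 13 * (tau n * (‖u‖ ^ 2 * (wt W ε (fun x => s * y x ^ 2) i +
        wt W ε (fun x => s * y x ^ 2) j) + n * F) + s * d) := by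
  obtain ⟨hτ, hN⟩ := N_one hn
  set N : ℝ := n * tau n with hNd
  have hn' : (0 : ℝ) < n := by exact_mod_cast hn
  have hN0 : 0 < N := by linarith
  have hF0 : 0 ≤ F := (sum_nonneg fun a _ => sum_nonneg fun b _ => sq_nonneg _).trans hF
  have hd0 : 0 ≤ d := (sq_nonneg _).trans (hδ fun _ => true)
  have hnF : 0 ≤ n * F := by positivity
  have h1' : ‖u‖ ^ 2 + n * F ≤ 1 / 64 :=
    (le_mul_of_one_le_left (by positivity) hτ).trans h1
  have hV : ∀ x, 0 ≤ s * y x ^ 2 := fun x => by positivity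
  set k := Mst n ε with hk
  have hkN : (k : ℝ) ≤ 2 * N := by
    rcases le_or_gt 0 (2 * ε * N) with h | h
    · exact (Nat.floor_le h).trans (by nlinarith)
    · rw [hk, Mst, Nat.floor_of_nonpos h.le]; simp; linarith
  set θ := s / N * d with hθ
  have hθ0 : 0 ≤ θ := by positivity
  have hθN : θ * N = s * d := by rw [hθ]; field_simp
  have hθ1 : θ ≤ 1 := by nlinarith
  set m : Cube n → ℝ := fun x => Real.exp (-(s * y x ^ 2 / N)) with hm
  have hmm := m_mem hn hV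
  have hkb := fun x => kill_bd (t := s / N) (y := y x) (by positivity) (hδ x)
  have em : ∀ x, -(s / N * y x ^ 2) = -(s * y x ^ 2 / N) := fun x => by ring
  have em' : ∀ x, -(((s / N : ℝ) : ℂ) * (y x + δ x) ^ 2) =
      -((s : ℂ) * (y x + δ x) ^ 2 / ((N : ℝ) : ℂ)) := fun x => by push_cast; ring
  simp only [em, em'] at hkb
  have hκ : 1 ≤ Real.exp (2 * θ) := Real.one_le_exp (by positivity)
  have hc := core hn (ising_pos' W) hmm (S := {i, j}) (α := 2 * ‖u‖) (ρ := 4 * (n * F))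
    (M := 2 * N) (b := fun l _ => bb Δ l) (by positivity) hκ
    (β₁ := 8 * θ * Real.exp (6 * θ)) (β₂ := 2 * θ ^ 2 * Real.exp (6 * θ)) (by positivity)
    (by positivity) (by positivity) (by positivity) (aa_small i j hF h1') (aa_le i j u Δ)
    (fun _ => bb_sum hF) (fun x => (hkb x).1) (fun x => (hkb x).2) k
  have hS : (#({i, j} : Finset (Fin n)) : ℝ) ≤ 2 := by exact_mod_cast card_le_two
  have hS0 : (0 : ℝ) ≤ #({i, j} : Finset (Fin n)) := by positivity
  set A := (2 * ‖u‖) ^ 2 * (#({i, j} : Finset (Fin n)) : ℝ) with hA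
  have hA0 : 0 ≤ A := by positivity
  have hA1 : A ≤ 8 * ‖u‖ ^ 2 := by rw [hA]; nlinarith [sq_nonneg ‖u‖]
  have hlam : ((1 + (2 * N)⁻¹) * Real.exp (2 * θ) * (1 + 8 * (A + 4 * (n * F)) / n)) ^ k ≤
      Real.exp 7 := by
    have e1 : (1 + (2 * N)⁻¹) * Real.exp (2 * θ) * (1 + 8 * (A + 4 * (n * F)) / n) ≤
        Real.exp ((2 * N)⁻¹ + 2 * θ + 8 * (A + 4 * (n * F)) / n) := by
      rw [Real.exp_add, Real.exp_add]
      gcongr
      · linarith [Real.add_one_le_exp (2 * N)⁻¹]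
      · linarith [Real.add_one_le_exp (8 * (A + 4 * (n * F)) / n)]
    refine (pow_le_pow_left₀ (by positivity) e1 k).trans ?_
    rw [← Real.exp_nat_mul]
    refine Real.exp_le_exp.2 ((mul_le_mul_of_nonneg_right hkN (by positivity)).trans ?_)
    have e2 : 2 * N * ((2 * N)⁻¹ + 2 * θ + 8 * (A + 4 * (n * F)) / n) =
        1 + 4 * (θ * N) + 16 * (tau n * (A + 4 * (n * F))) := by
      rw [hNd]; field_simp; ring
    have e3 : tau n * (A + 4 * (n * F)) ≤ tau n * (8 * (‖u‖ ^ 2 + n * F)) :=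
      mul_le_mul_of_nonneg_left (by linarith) (by linarith)
    rw [e2, hθN]; linarith
  have hE2 : Real.exp (2 * θ) ≤ Real.exp 6 := Real.exp_le_exp.2 (by linarith)
  have hE6 : Real.exp (6 * θ) ≤ Real.exp 6 := Real.exp_le_exp.2 (by linarith)
  have hE := Real.exp_pos 6
  have hpt : ∀ x, ‖kilC (isC (W.map (↑) + (u • Eij i j + Δ))) (fun x => s * (y x + δ x) ^ 2) k x -
      (kil (ising W 0) (fun x => s * y x ^ 2) k x : ℝ)‖ ^ 2 ≤
      1536 * Real.exp 13 * (tau n * (‖u‖ ^ 2 * (Sw (ising W 0) m i k x +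
        Sw (ising W 0) m j k x) + n * F) + s * d) := fun x => by
    rw [isC_add]
    refine (hc x).trans ?_
    have hu := it_mem hn (ising_pos' W) hmm k x
    set U := (st (ising W 0) fun x => Real.exp (-(s * y x ^ 2 / N)))^[k] 1 x
    have hi := Sw_nonneg hn (ising_pos' W) hmm i k x
    have hj := Sw_nonneg hn (ising_pos' W) hmm j k x
    have e1 : ∑ l ∈ ({i, j} : Finset (Fin n)), Sw (ising W 0) m l k x ≤
        Sw (ising W 0) m i k x + Sw (ising W 0) m j k x := by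
      by_cases hij : i = j
      · subst hij; simp only [insert_eq_of_mem, mem_singleton, sum_singleton]; linarith
      · rw [sum_pair hij]
    have e0 : 0 ≤ ∑ l ∈ ({i, j} : Finset (Fin n)), Sw (ising W 0) m l k x :=
      sum_nonneg fun l _ => Sw_nonneg hn (ising_pos' W) hmm l k x
    set T := Sw (ising W 0) m i k x + Sw (ising W 0) m j k x
    have hT : 0 ≤ T := add_nonneg hi hj
    have e2 : A * ∑ l ∈ ({i, j} : Finset (Fin n)), Sw (ising W 0) m l k x +
        4 * (n * F) * (U - U ^ 2) ≤ 32 * (‖u‖ ^ 2 * T + n * F) := by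
      have f1 := mul_le_mul hA1 e1 e0 (by positivity)
      have f2 : 4 * (n * F) * (U - U ^ 2) ≤ 4 * (n * F) * 1 :=
        mul_le_mul_of_nonneg_left (by nlinarith [sq_nonneg U]) (by positivity)
      have f3 : 0 ≤ ‖u‖ ^ 2 * T := by positivity
      linarith
    have e3 : 8 * θ * Real.exp (6 * θ) * (1 - U) + 2 * θ ^ 2 * Real.exp (6 * θ) * k ≤
        12 * θ * Real.exp 6 := by
      have f1 : 8 * θ * Real.exp (6 * θ) * (1 - U) ≤ 8 * θ * Real.exp 6 * 1 := by
        gcongr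
        · linarith [hu.2]
        · linarith [hu.1]
      have f2 : 2 * θ ^ 2 * Real.exp (6 * θ) * k ≤ 2 * θ ^ 2 * Real.exp 6 * (2 * N) := by gcongr
      have f3 : 2 * θ ^ 2 * Real.exp 6 * (2 * N) = 4 * θ * Real.exp 6 * (θ * N) := by ring
      have f4 : 4 * θ * Real.exp 6 * (θ * N) ≤ 4 * θ * Real.exp 6 * 1 :=
        mul_le_mul_of_nonneg_left (by linarith) (by positivity)
      linarith
    have e4 : 16 * Real.exp (2 * θ) / n * (A * ∑ l ∈ ({i, j} : Finset (Fin n)),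
        Sw (ising W 0) m l k x + 4 * (n * F) * (U - U ^ 2)) ≤
        16 * Real.exp 6 / n * (32 * (‖u‖ ^ 2 * T + n * F)) := by
      refine (mul_le_mul_of_nonneg_left e2 (by positivity)).trans ?_
      gcongr
    have e5 : (1 + 2 * N) * (16 * Real.exp (2 * θ) / n * (A * ∑ l ∈ ({i, j} : Finset (Fin n)),
        Sw (ising W 0) m l k x + 4 * (n * F) * (U - U ^ 2)) +
        2 * (8 * θ * Real.exp (6 * θ) * (1 - U) + 2 * θ ^ 2 * Real.exp (6 * θ) * k)) ≤
        (3 * N) * (16 * Real.exp 6 / n * (32 * (‖u‖ ^ 2 * T + n * F)) +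
          2 * (12 * θ * Real.exp 6)) := by
      refine (mul_le_mul_of_nonneg_left (add_le_add e4 (mul_le_mul_of_nonneg_left e3 zero_le_two))
        (by positivity)).trans (mul_le_mul_of_nonneg_right (by linarith) (by positivity))
    have e6 : (3 * N) * (16 * Real.exp 6 / n * (32 * (‖u‖ ^ 2 * T + n * F)) +
        2 * (12 * θ * Real.exp 6)) =
        Real.exp 6 * (1536 * (tau n * (‖u‖ ^ 2 * T + n * F)) + 72 * (θ * N)) := by
      rw [hNd]; field_simp; ring
    have e7 : Real.exp 13 = Real.exp 7 * Real.exp 6 := by rw [← Real.exp_add]; norm_num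
    have hsd : 0 ≤ s * d := by positivity
    refine (mul_le_mul hlam (e5.trans e6.le) ?_ (Real.exp_pos 7).le).trans ?_
    · have : 0 ≤ U - U ^ 2 := by nlinarith [hu.1, hu.2]
      have : 0 ≤ 1 - U := by linarith [hu.2]
      positivity
    · rw [hθN, e7]
      have : 0 ≤ Real.exp 7 * Real.exp 6 * (s * d) := by positivity
      nlinarith
  have hdiff : kapC (W.map (↑) + (u • Eij i j + Δ)) ε (fun x => s * (y x + δ x) ^ 2) -
      (kap W ε (fun x => s * y x ^ 2) : ℝ) =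
      -umC (fun x => kilC (isC (W.map (↑) + (u • Eij i j + Δ))) (fun x => s * (y x + δ x) ^ 2) k x -
        (kil (ising W 0) (fun x => s * y x ^ 2) k x : ℝ)) := by
    unfold kapC Cq.kap umC um
    push_cast
    simp only [mul_sub, sum_sub_distrib]
    ring
  rw [hdiff, norm_neg]
  refine (umC_sq _).trans ((um_mono hpt).trans (le_of_eq ?_))
  unfold wt um
  rw [← hk, ← sum_add_distrib]
  simp only [← mul_add]
  have : ∀ x, unif n x * (1536 * Real.exp 13 * (tau n * (‖u‖ ^ 2 * (Sw (ising W 0) m i k x +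
      Sw (ising W 0) m j k x) + n * F) + s * d)) =
      1536 * Real.exp 13 * (tau n * ‖u‖ ^ 2) * (unif n x * (Sw (ising W 0) m i k x +
      Sw (ising W 0) m j k x)) + 1536 * Real.exp 13 * (tau n * (n * F) + s * d) * unif n x :=
    fun x => by ring
  simp only [this, sum_add_distrib, ← mul_sum, unif_sum]
  ring

lemma hat_sq (hn : 1 ≤ n) (x : Cube n) : ∑ a, hat n x a ^ 2 = sx n ^ 2 := by
  have hn' : (0 : ℝ) < n := by exact_mod_cast hn
  have h1 : ∀ a, hat n x a ^ 2 = ((sx n ^ 2)⁻¹) ^ 2 := fun a => by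
    simp only [hat, Pi.smul_apply, smul_eq_mul, mul_pow, sv, spin]
    split_ifs <;> simp
  have h2 : sx n ^ 6 = n := by
    unfold sx
    rw [← Real.rpow_natCast, ← Real.rpow_mul hn'.le]; norm_num
  have h3 : 0 < sx n := Real.rpow_pos_of_pos hn' _
  simp only [h1, sum_const, card_univ, Fintype.card_fin, nsmul_eq_mul]
  rw [← h2]; field_simp

/-- **disc lemma** -/
theorem disc (hn : 1 ≤ n) {ε s F G : ℝ} (hε : ε ≤ 1) (hs : 0 ≤ s) (W : Mat n) (c : Fin n → ℝ)
    (i j : Fin n) {u : ℂ} {Δ : Matrix (Fin n) (Fin n) ℂ} {γ : Fin n → ℂ}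
    (hF : ∑ a, ∑ b, ‖Δ a b‖ ^ 2 ≤ F) (hG : ∑ a, ‖γ a‖ ^ 2 ≤ G)
    (h1 : tau n * (‖u‖ ^ 2 + n * F) ≤ 1 / 64) (h2 : s * (G * sx n ^ 2) ≤ 1) :
    ‖kapC (W.map (↑) + (u • Eij i j + Δ)) ε
          (fun x => s * (((fun a => (c a : ℂ)) + γ) ⬝ᵥ hatC n x) ^ 2) -
        (kap W ε (fun x => s * sl c x) : ℝ)‖ ^ 2 ≤
      1536 * Real.exp 13 * (tau n * (‖u‖ ^ 2 * (wt W ε (fun x => s * sl c x) i +
        wt W ε (fun x => s * sl c x) j) + n * F) + s * (G * sx n ^ 2)) := by
  have e1 : ∀ x, ((fun a => (c a : ℂ)) + γ) ⬝ᵥ hatC n x =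
      ((c ⬝ᵥ hat n x : ℝ) : ℂ) + γ ⬝ᵥ hatC n x := fun x => by
    rw [add_dotProduct]; simp [dotProduct, hatC]
  simp only [e1]
  refine disc0 hn hε hs W i j hF h1 (fun x => c ⬝ᵥ hat n x) (δ := fun x => γ ⬝ᵥ hatC n x)
    (fun x => ?_) h2
  have e2 : ‖γ ⬝ᵥ hatC n x‖ ≤ ∑ a, ‖γ a‖ * |hat n x a| := by
    refine (norm_sum_le _ _).trans (le_of_eq (sum_congr rfl fun a _ => ?_))
    rw [norm_mul, hatC, Complex.norm_real, Real.norm_eq_abs]
  refine (pow_le_pow_left₀ (norm_nonneg _) e2 2).trans ((sum_mul_sq_le_sq_mul_sq _ _ _).trans ?_)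
  simp only [sq_abs]
  rw [hat_sq hn]
  exact mul_le_mul_of_nonneg_right hG (sq_nonneg _)

end Crest.Agent.T157.SwD
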