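import Crest.Agent.T157.SwDef_14

/-!
# Row 157, part C (helper78): `Sw14.fGlue_78 : FGlue`

The flow identity and Stein's identity, integrated along the rotation angle.
-/

set_option autoImplicit false

noncomputable section

namespace Crest.Agent.T157.Sw14

open MeasureTheory ProbabilityTheory Matrix Filter Topology Finset Real Function
open Crest.ProbabilityR.SpinGlassDynamics Crest.Agent.T157.E Crest.Agent.T157.Ed

namespace F78

/-- fundamental theorem of calculus under the integral sign -/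
lemma gen {E : Type*} [TopologicalSpace E] [MeasurableSpace E] [BorelSpace E]
    [SecondCountableTopology E] (μ : Measure E) [IsProbabilityMeasure μ] {F G : ℝ → E → ℝ}
    {K : Set E} (hK : IsCompact K) (hG : Continuous (uncurry G))
    (hG0 : ∀ φ y, y ∉ K → G φ y = 0) (hd : ∀ φ y, HasDerivAt (fun φ => F φ y) (G φ y) φ)
    {B a b : ℝ} (hB : ∀ φ, |∫ y, G φ y ∂μ| ≤ B) :
    |∫ y, (F b y - F a y) ∂μ| ≤ B * |b - a| := by
  have h1 : ∀ y, F b y - F a y = ∫ φ in a..b, G φ y := fun y =>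
    (intervalIntegral.integral_eq_sub_of_hasDerivAt (f := fun φ => F φ y) (fun φ _ => hd φ y)
      ((hG.comp (continuous_id.prodMk continuous_const)).intervalIntegrable a b)).symm
  obtain ⟨M, hM⟩ := (isCompact_uIcc.prod hK (s := Set.uIcc a b)).exists_bound_of_continuousOn
    hG.continuousOn
  have hI : Integrable (uncurry G) ((volume.restrict (Set.uIoc a b)).prod μ) := by
    have : IsFiniteMeasure (volume.restrict (Set.uIoc a b)) :=
      ⟨by rw [Measure.restrict_apply_univ, Set.uIoc]; exact measure_Ioc_lt_top⟩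
    refine Integrable.of_bound hG.aestronglyMeasurable |M| ?_
    have : ∀ᵐ z ∂(volume.restrict (Set.uIoc a b)).prod μ, z.1 ∈ Set.uIoc a b :=
      Measure.quasiMeasurePreserving_fst.ae (ae_restrict_mem measurableSet_uIoc)
    refine this.mono fun z hz => ?_
    by_cases hy : z.2 ∈ K
    · exact (hM z ⟨Set.uIoc_subset_uIcc hz, hy⟩).trans (le_abs_self M)
    · have : uncurry G z = 0 := hG0 z.1 z.2 hy
      rw [this, norm_zero]; exact abs_nonneg M
  simp_rw [h1]
  rw [← intervalIntegral_integral_swap hI, ← Real.norm_eq_abs]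
  exact intervalIntegral.norm_integral_le_of_norm_le_const fun φ _ => hB φ

lemma int_le {E : Type*} [MeasurableSpace E] (μ : Measure E) [IsProbabilityMeasure μ]
    {f : E → ℝ} (hf : Integrable f μ) {A : Set E} {B₁ B₂ : ℝ} (h1 : 0 ≤ B₁)
    (h2 : ∀ y, f y ≤ B₂) (h3 : ∀ y ∈ A, f y ≤ B₁) :
    ∫ y, f y ∂μ ≤ B₁ + B₂ * μ.real Aᶜ := by
  have hm := measurableSet_toMeasurable μ Aᶜ
  have hi : Integrable ((toMeasurable μ Aᶜ).indicator fun _ => B₂) μ :=
    (integrable_const B₂).indicator hm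
  calc ∫ y, f y ∂μ ≤ ∫ y, (B₁ + (toMeasurable μ Aᶜ).indicator (fun _ => B₂) y) ∂μ := by
        refine integral_mono hf ((integrable_const B₁).add hi) fun y => ?_
        by_cases hy : y ∈ toMeasurable μ Aᶜ
        · simp only [Set.indicator_of_mem hy]; linarith [h2 y]
        · have : y ∈ A := by
            by_contra h; exact hy (subset_toMeasurable μ Aᶜ h)
          simp only [Set.indicator_of_notMem hy]; linarith [h3 y this]
    _ = B₁ + B₂ * μ.real Aᶜ := by
        rw [integral_add (integrable_const B₁) hi, integral_indicator hm]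
        simp [Measure.real, mul_comm]

lemma compact_ball {ι : Type*} [Fintype ι] (R : ℝ) : IsCompact {y : ι → ℝ | y ⬝ᵥ y ≤ R} := by
  refine Metric.isCompact_of_isClosed_isBounded (isClosed_le (by fun_prop) continuous_const) ?_
  refine (Metric.isBounded_closedBall (x := (0 : ι → ℝ)) (r := |R| + 1)).subset fun y hy => ?_
  rw [mem_closedBall_zero_iff, pi_norm_le_iff_of_nonneg (by positivity)]
  intro i
  have h1 : y i * y i ≤ y ⬝ᵥ y :=
    Finset.single_le_sum (f := fun j => y j * y j) (fun j _ => mul_self_nonneg _) (mem_univ i)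
  have h2 : y ⬝ᵥ y ≤ R := hy
  have h3 := le_abs_self R
  have h4 := abs_nonneg R
  rw [Real.norm_eq_abs, abs_le]
  constructor <;> nlinarith


variable {n : ℕ}

lemma hf_zero (hn : 1 ≤ n) (c : Par) {ω : (Fin 4 → ℝ) → ℝ} (hω : Adm ω) (φ : ℝ)
    {y : I4 n → ℝ} (hy : y ∉ {y : I4 n → ℝ | y ⬝ᵥ y ≤ 2 * (n : ℝ) ^ 3}) : Hf c ω φ y = 0 := by
  have h : ω (q4 c y) = 0 := by
    by_contra h
    have h1 := (hω.2.2 (subset_tsupport ω h)).2.2
    have hn' : (0 : ℝ) < (n : ℝ) ^ 3 := by
      have : (0 : ℝ) < n := by exact_mod_cast hn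
      positivity
    have h2 : y ⬝ᵥ y / (n : ℝ) ^ 3 ≤ 2 := h1
    rw [div_le_iff₀ hn'] at h2
    exact hy h2
  rw [Hf, h, zero_mul]

lemma sum_isC (f : I4 n → ℝ) :
    ∑ k ∈ univ.filter (fun k => isC k = true), f k = ∑ p : Pair n, f (ip p) := by
  rw [Finset.sum_filter, Fintype.sum_sum_type, Fintype.sum_sum_type]
  simp [isC]

end F78

open F78

theorem fGlue_78 : FGlue := by
  intro hW hS hD hF hSt n c ω hn hc hω A B₁ B₂ hB1 h2 h3
  have hw := hW ω hω
  obtain ⟨hX, -, hH⟩ := hS n c hn hc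
  have hH := hH _ hw
  set K : Set (I4 n → ℝ) := {y | y ⬝ᵥ y ≤ 2 * (n : ℝ) ^ 3} with hK
  have hKc : IsCompact K := compact_ball _
  have hG : Continuous (uncurry fun (φ : ℝ) (y : I4 n → ℝ) =>
      fderiv ℝ (Hf c (wt ω) φ) y (Xf c y)) := by
    have h1 : ContDiff ℝ (⊤ : ℕ∞) (uncurry fun (z : ℝ × (I4 n → ℝ)) (y : I4 n → ℝ) =>
        Hf c (wt ω) z.1 y) :=
      hH.comp (g := fun z : ℝ × (I4 n → ℝ) => Hf c (wt ω) z.1 z.2)
        (f := fun p : (ℝ × (I4 n → ℝ)) × (I4 n → ℝ) => (p.1.1, p.2))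
        ((contDiff_fst.comp contDiff_fst).prodMk contDiff_snd)
    exact (Continuous.fderiv h1 continuous_snd (by exact_mod_cast le_top)).clm_apply
      (hX.continuous.comp continuous_snd)
  have hG0 : ∀ (φ : ℝ) (y : I4 n → ℝ), y ∉ K → fderiv ℝ (Hf c (wt ω) φ) y (Xf c y) = 0 := by
    intro φ y hy
    have : Hf c (wt ω) φ =ᶠ[𝓝 y] fun _ => 0 :=
      Filter.mem_of_superset (hKc.isClosed.isOpen_compl.mem_nhds hy)
        fun z hz => hf_zero hn c hw φ hz
    rw [this.fderiv_eq]; simp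
  have hB2 : 0 ≤ B₂ := le_trans (Finset.sum_nonneg fun p _ => abs_nonneg _) (h2 0 0)
  have hB : ∀ φ, |∫ y, fderiv ℝ (Hf c (wt ω) φ) y (Xf c y) ∂P4 n| ≤
      B₁ + B₂ * (P4 n).real Aᶜ := by
    intro φ
    have h1 : ContDiff ℝ 1 (Hf (n := n) c (wt ω) φ) :=
      (hH.comp (g := fun z : ℝ × (I4 n → ℝ) => Hf c (wt ω) z.1 z.2)
        (f := fun y : I4 n → ℝ => (φ, y)) (contDiff_const.prodMk contDiff_id)).of_le
        (by exact_mod_cast le_top)
    have h4 : HasCompactSupport (Hf (n := n) c (wt ω) φ) :=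
      HasCompactSupport.intro hKc fun y hy => hf_zero hn c hw φ hy
    obtain ⟨hi, he⟩ := hSt (I4 n) isC _ (Xf c) h1 h4 (hX.of_le (by exact_mod_cast le_top))
      (fun y => (hD n c y hn hc).1) (fun y => (hD n c y hn hc).2)
    have hi' : ∀ p : Pair n, Integrable (fun y => trp (hp c (wt ω) φ y p)) (P4 n) :=
      fun p => hi (ip p)
    rw [he, sum_isC]
    calc _ ≤ ∑ p : Pair n, ∫ y, |trp (hp c (wt ω) φ y p)| ∂P4 n :=
          (Finset.abs_sum_le_sum_abs _ _).trans
            (Finset.sum_le_sum fun p _ => abs_integral_le_integral_abs)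
      _ = ∫ y, Er c (wt ω) φ y ∂P4 n :=
          (integral_finsetSum _ fun p _ => (hi' p).abs).symm
      _ ≤ _ := int_le _ (integrable_finsetSum _ fun p _ => (hi' p).abs) hB1 (h2 φ) (h3 φ)
  refine (gen (P4 n) (F := fun φ y => Hf c ω φ y) hKc hG hG0
    (fun φ y => hF n c ω φ y hn hc hω) hB).trans ?_
  have h5 : 0 ≤ B₁ + B₂ * (P4 n).real Aᶜ := add_nonneg hB1 (mul_nonneg hB2 measureReal_nonneg)
  rw [mul_comm, sub_zero, abs_of_pos (by positivity)]
  exact mul_le_mul_of_nonneg_right (by linarith [Real.pi_le_four]) h5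

end Crest.Agent.T157.Sw14

end
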