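import Crest.Agent.T157.SwA_14
import Mathlib.Analysis.Matrix.Normed

/-!
# Row 157, SWAP for coins: a calculus of bounded holomorphic matrix functions (helper14)
-/

set_option autoImplicit false

noncomputable section

namespace Crest.Agent.T157.Sw14.K14

open Matrix Finset
open scoped Matrix.Norms.Frobenius

variable {ι κ μ : Type} [Fintype ι] [Fintype κ] [Fintype μ] {U : Set ℂ} {η N : ℝ} {k k' : ℕ}

lemma fro_sq (A : Matrix ι κ ℂ) : ‖A‖ ^ 2 = ∑ i, ∑ j, ‖A i j‖ ^ 2 := by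
  rw [frobenius_norm_def, ← Real.sqrt_eq_rpow, Real.sq_sqrt (by positivity)]
  simp only [Real.rpow_two]

lemma entry_le (A : Matrix ι κ ℂ) (i : ι) (j : κ) : ‖A i j‖ ≤ ‖A‖ := by
  refine le_of_sq_le_sq' ?_ (norm_nonneg _)
  rw [fro_sq]
  exact (single_le_sum (f := fun j => ‖A i j‖ ^ 2) (fun _ _ => by positivity) (mem_univ j)).trans
    (single_le_sum (f := fun i => ∑ j, ‖A i j‖ ^ 2) (fun _ _ => by positivity) (mem_univ i))
where
  le_of_sq_le_sq' {a b : ℝ} (h : a ^ 2 ≤ b ^ 2) (hb : 0 ≤ b) : a ≤ b := (abs_le_of_sq_le_sq' h hb).2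

/-- standing assumptions -/
structure Ctx (U : Set ℂ) (η N : ℝ) : Prop where
  z : (0 : ℂ) ∈ U
  e : 0 ≤ η
  n : 2 ≤ N

/-- scalar functions -/
structure As (U : Set ℂ) (η N : ℝ) (k : ℕ) (f : ℂ → ℂ) : Prop where
  d : DifferentiableOn ℂ f U
  b : ∀ z ∈ U, ‖f z‖ ≤ N ^ k
  l : ∀ z ∈ U, ‖f z - f 0‖ ≤ N ^ k * η

/-- matrix functions -/
structure An (U : Set ℂ) (η N : ℝ) (k : ℕ) (F : ℂ → Matrix ι κ ℂ) : Prop where
  d : ∀ a b, DifferentiableOn ℂ (fun z => F z a b) U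
  b : ∀ z ∈ U, ‖F z‖ ≤ N ^ k
  l : ∀ z ∈ U, ‖F z - F 0‖ ≤ N ^ k * η

lemma Ctx.pow_le (c : Ctx U η N) (h : k ≤ k') : N ^ k ≤ N ^ k' :=
  pow_le_pow_right₀ (by linarith [c.n]) h

lemma Ctx.two (c : Ctx U η N) (k : ℕ) : N ^ k + N ^ k ≤ N ^ (k + 1) := by
  have : 0 ≤ N ^ k := pow_nonneg (by linarith [c.n]) k
  rw [pow_succ]; nlinarith [c.n]

lemma Ctx.prod (c : Ctx U η N) {x x' y d e : ℝ} (hx : x ≤ N ^ k) (hx' : x' ≤ N ^ k)
    (hy : y ≤ N ^ k') (hd : d ≤ N ^ k * η) (he : e ≤ N ^ k' * η) (y0 : 0 ≤ y) (e0 : 0 ≤ e) :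
    x * y ≤ N ^ (k + k' + 1) ∧ d * y + x' * e ≤ N ^ (k + k' + 1) * η := by
  have N0 : 0 ≤ N := by linarith [c.n]
  have h1 : x * y ≤ N ^ k * N ^ k' := mul_le_mul hx hy y0 (by positivity)
  have h2 : d * y ≤ N ^ k * η * N ^ k' := mul_le_mul hd hy y0 (by have := c.e; positivity)
  have h3 : x' * e ≤ N ^ k * (N ^ k' * η) := mul_le_mul hx' he e0 (by positivity)
  have h4 := c.two (k + k')
  have h5 := mul_le_mul_of_nonneg_right h4 c.e
  have h6 : 0 ≤ N ^ (k + k') := by positivity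
  rw [pow_add] at h4 h5 h6
  constructor <;> nlinarith

lemma As.mono (c : Ctx U η N) {f : ℂ → ℂ} (h : As U η N k f) (hk : k ≤ k') : As U η N k' f :=
  ⟨h.d, fun z hz => (h.b z hz).trans (c.pow_le hk),
    fun z hz => (h.l z hz).trans (mul_le_mul_of_nonneg_right (c.pow_le hk) c.e)⟩

lemma An.mono (c : Ctx U η N) {F : ℂ → Matrix ι κ ℂ} (h : An U η N k F) (hk : k ≤ k') :
    An U η N k' F :=
  ⟨h.d, fun z hz => (h.b z hz).trans (c.pow_le hk),
    fun z hz => (h.l z hz).trans (mul_le_mul_of_nonneg_right (c.pow_le hk) c.e)⟩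

lemma As.const (c : Ctx U η N) {a : ℂ} (ha : ‖a‖ ≤ 2) : As U η N 1 fun _ => a :=
  ⟨differentiableOn_const _, fun _ _ => by rw [pow_one]; linarith [c.n], fun _ _ => by
    rw [sub_self, norm_zero]; exact mul_nonneg (pow_nonneg (by linarith [c.n]) _) c.e⟩

lemma As.mul (c : Ctx U η N) {f g : ℂ → ℂ} (hf : As U η N k f) (hg : As U η N k' g) :
    As U η N (k + k' + 1) fun z => f z * g z := by
  have h := fun z hz => c.prod (hf.b z hz) (hf.b 0 c.z) (hg.b z hz) (hf.l z hz) (hg.l z hz)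
    (norm_nonneg _) (norm_nonneg _)
  refine ⟨hf.d.mul hg.d, fun z hz => (norm_mul_le _ _).trans (h z hz).1, fun z hz => ?_⟩
  have : f z * g z - f 0 * g 0 = (f z - f 0) * g z + f 0 * (g z - g 0) := by ring
  rw [this]
  exact (norm_add_le _ _).trans ((add_le_add (norm_mul_le _ _) (norm_mul_le _ _)).trans (h z hz).2)

lemma As.sub (c : Ctx U η N) {f g : ℂ → ℂ} (hf : As U η N k f) (hg : As U η N k g) :
    As U η N (k + 1) fun z => f z - g z := by
  refine ⟨hf.d.sub hg.d, fun z hz => (norm_sub_le _ _).trans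
    ((add_le_add (hf.b z hz) (hg.b z hz)).trans (c.two k)), fun z hz => ?_⟩
  have : f z - g z - (f 0 - g 0) = (f z - f 0) - (g z - g 0) := by ring
  rw [this]
  refine (norm_sub_le _ _).trans ((add_le_add (hf.l z hz) (hg.l z hz)).trans ?_)
  rw [← add_mul]; exact mul_le_mul_of_nonneg_right (c.two k) c.e

lemma An.add (c : Ctx U η N) {F G : ℂ → Matrix ι κ ℂ} (hf : An U η N k F) (hg : An U η N k G) :
    An U η N (k + 1) fun z => F z + G z := by
  refine ⟨fun a b => (hf.d a b).add (hg.d a b), fun z hz => (norm_add_le _ _).trans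
    ((add_le_add (hf.b z hz) (hg.b z hz)).trans (c.two k)), fun z hz => ?_⟩
  have : F z + G z - (F 0 + G 0) = (F z - F 0) + (G z - G 0) := by abel
  rw [this]
  refine (norm_add_le _ _).trans ((add_le_add (hf.l z hz) (hg.l z hz)).trans ?_)
  rw [← add_mul]; exact mul_le_mul_of_nonneg_right (c.two k) c.e

lemma An.sub (c : Ctx U η N) {F G : ℂ → Matrix ι κ ℂ} (hf : An U η N k F) (hg : An U η N k G) :
    An U η N (k + 1) fun z => F z - G z := by
  refine ⟨fun a b => (hf.d a b).sub (hg.d a b), fun z hz => (norm_sub_le _ _).trans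
    ((add_le_add (hf.b z hz) (hg.b z hz)).trans (c.two k)), fun z hz => ?_⟩
  have : F z - G z - (F 0 - G 0) = (F z - F 0) - (G z - G 0) := by abel
  rw [this]
  refine (norm_sub_le _ _).trans ((add_le_add (hf.l z hz) (hg.l z hz)).trans ?_)
  rw [← add_mul]; exact mul_le_mul_of_nonneg_right (c.two k) c.e

lemma An.tr {F : ℂ → Matrix ι κ ℂ} (hf : An U η N k F) : An U η N k fun z => (F z)ᵀ :=
  ⟨fun a b => hf.d b a, fun z hz => by rw [frobenius_norm_transpose]; exact hf.b z hz,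
    fun z hz => by rw [← transpose_sub, frobenius_norm_transpose]; exact hf.l z hz⟩

lemma An.mul (c : Ctx U η N) {F : ℂ → Matrix ι κ ℂ} {G : ℂ → Matrix κ μ ℂ} (hf : An U η N k F)
    (hg : An U η N k' G) : An U η N (k + k' + 1) fun z => F z * G z := by
  have h := fun z hz => c.prod (hf.b z hz) (hf.b 0 c.z) (hg.b z hz) (hf.l z hz) (hg.l z hz)
    (norm_nonneg _) (norm_nonneg _)
  refine ⟨fun a b => ?_, fun z hz => (frobenius_norm_mul _ _).trans (h z hz).1, fun z hz => ?_⟩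
  · simp only [Matrix.mul_apply]
    exact DifferentiableOn.fun_sum fun j _ => (hf.d a j).mul (hg.d j b)
  have : F z * G z - F 0 * G 0 = (F z - F 0) * G z + F 0 * (G z - G 0) := by
    rw [Matrix.sub_mul, Matrix.mul_sub]; abel
  rw [this]
  exact (norm_add_le _ _).trans
    ((add_le_add (frobenius_norm_mul _ _) (frobenius_norm_mul _ _)).trans (h z hz).2)

lemma As.smul (c : Ctx U η N) {f : ℂ → ℂ} {G : ℂ → Matrix ι κ ℂ} (hf : As U η N k f)
    (hg : An U η N k' G) : An U η N (k + k' + 1) fun z => f z • G z := by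
  have h := fun z hz => c.prod (hf.b z hz) (hf.b 0 c.z) (hg.b z hz) (hf.l z hz) (hg.l z hz)
    (norm_nonneg _) (norm_nonneg _)
  refine ⟨fun a b => hf.d.mul (hg.d a b), fun z hz => (norm_smul_le _ _).trans (h z hz).1,
    fun z hz => ?_⟩
  have : f z • G z - f 0 • G 0 = (f z - f 0) • G z + f 0 • (G z - G 0) := by
    rw [sub_smul, smul_sub]; abel
  rw [this]
  exact (norm_add_le _ _).trans
    ((add_le_add (norm_smul_le _ _) (norm_smul_le _ _)).trans (h z hz).2)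

lemma An.entry {F : ℂ → Matrix ι κ ℂ} (hf : An U η N k F) (a : ι) (b : κ) :
    As U η N k fun z => F z a b :=
  ⟨hf.d a b, fun z hz => (entry_le _ a b).trans (hf.b z hz),
    fun z hz => (entry_le (F z - F 0) a b).trans (hf.l z hz)⟩

/-- vector functions -/
def Av (U : Set ℂ) (η N : ℝ) (k : ℕ) (F : ℂ → ι → ℂ) : Prop :=
  An U η N k fun z => replicateCol Unit (F z)

lemma Av.vmv (c : Ctx U η N) {F G : ℂ → ι → ℂ} (hf : Av U η N k F) (hg : Av U η N k' G) :
    An U η N (k + k' + 1) fun z => vecMulVec (F z) (G z) := by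
  have := An.mul c hf (An.tr hg)
  simpa only [vecMulVec_eq Unit, transpose_replicateCol] using this

lemma Av.dot (c : Ctx U η N) {F G : ℂ → ι → ℂ} (hf : Av U η N k F) (hg : Av U η N k' G) :
    As U η N (k + k' + 1) fun z => F z ⬝ᵥ G z :=
  (An.mul c (An.tr hf) hg).entry () ()

lemma An.mulVec (c : Ctx U η N) {F : ℂ → Matrix ι κ ℂ} {G : ℂ → κ → ℂ} (hf : An U η N k F)
    (hg : Av U η N k' G) : Av U η N (k + k' + 1) fun z => F z *ᵥ G z := by
  have := An.mul c hf hg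
  simpa only [Av, replicateCol_mulVec] using this

lemma Av.add (c : Ctx U η N) {F G : ℂ → ι → ℂ} (hf : Av U η N k F) (hg : Av U η N k G) :
    Av U η N (k + 1) fun z => F z + G z := An.add c hf hg

lemma As.smulV (c : Ctx U η N) {f : ℂ → ℂ} {G : ℂ → ι → ℂ} (hf : As U η N k f)
    (hg : Av U η N k' G) : Av U η N (k + k' + 1) fun z => f z • G z := As.smul c hf hg

lemma Av.mono (c : Ctx U η N) {F : ℂ → ι → ℂ} (h : Av U η N k F) (hk : k ≤ k') : Av U η N k' F :=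
  An.mono c h hk

lemma col_sq (v : ι → ℂ) : ‖replicateCol Unit v‖ ^ 2 = ∑ i, ‖v i‖ ^ 2 := by
  rw [fro_sq]; simp

/-- inverse square root -/
def isq (w : ℂ) : ℂ := (w ^ (2⁻¹ : ℂ))⁻¹

lemma isq_ofReal {x : ℝ} (hx : 0 ≤ x) : isq x = ((√x)⁻¹ : ℝ) := by
  rw [isq, Real.sqrt_eq_rpow, Complex.ofReal_inv, Complex.ofReal_cpow hx]
  norm_num

lemma isq_bd {w : ℂ} {x κ : ℝ} (hκ : 0 < κ) (hx : κ ≤ x) (hw : ‖w - x‖ ≤ κ / 2) :
    κ / 2 ≤ w.re ∧ ‖isq w‖ ^ 2 ≤ 2 / κ ∧ ‖isq w - isq x‖ ≤ ‖isq w‖ * (κ⁻¹ * ‖w - x‖) := by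
  have h1 : κ / 2 ≤ w.re := by
    have := (abs_le.1 ((Complex.abs_re_le_norm (w - x)).trans hw)).1
    simp only [Complex.sub_re, Complex.ofReal_re] at this
    linarith
  have x0 : 0 < x := hκ.trans_le hx
  set s := w ^ (2⁻¹ : ℂ) with hs
  have s2 : s ^ 2 = w := by
    have := Complex.cpow_nat_inv_pow w (n := 2) two_ne_zero
    rwa [Nat.cast_ofNat] at this
  have sr : 0 ≤ s.re := by rw [hs, Complex.cpow_inv_two_re]; exact Real.sqrt_nonneg _
  have hn : κ / 2 ≤ ‖s‖ ^ 2 := by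
    rw [← norm_pow, s2]; exact h1.trans (Complex.re_le_norm w)
  have s0 : s ≠ 0 := fun h => by rw [h, norm_zero] at hn; nlinarith
  have r0 := Real.sqrt_pos.2 x0
  have r2 : ((√x : ℝ) : ℂ) ^ 2 = x := by rw [← Complex.ofReal_pow, Real.sq_sqrt x0.le]
  have p1 : √x ≤ ‖s + (√x : ℝ)‖ := le_trans (by simp [sr]) (Complex.re_le_norm _)
  have p0 : s + (√x : ℝ) ≠ 0 := fun h => by rw [h, norm_zero] at p1; linarith
  have rc : ((√x : ℝ) : ℂ) ≠ 0 := by exact_mod_cast r0.ne'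
  refine ⟨h1, ?_, ?_⟩
  · rw [isq, ← hs, norm_inv, inv_pow, ← inv_div κ 2]
    exact inv_anti₀ (by positivity) hn
  · have e : isq w - isq x = isq w * (-(w - x) / ((√x : ℝ) * (s + (√x : ℝ)))) := by
      rw [isq_ofReal x0.le, isq, ← hs, Complex.ofReal_inv]
      set r : ℂ := ((√x : ℝ) : ℂ)
      rw [← s2, ← r2]
      field_simp
      ring
    rw [e, norm_mul, norm_div, norm_neg, norm_mul, Complex.norm_real, Real.norm_eq_abs,
      abs_of_pos r0]
    refine mul_le_mul_of_nonneg_left ?_ (norm_nonneg _)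
    rw [inv_mul_eq_div]
    refine div_le_div_of_nonneg_left (norm_nonneg _) hκ ?_
    calc κ ≤ √x * √x := by rw [Real.mul_self_sqrt x0.le]; exact hx
      _ ≤ _ := mul_le_mul_of_nonneg_left p1 r0.le

lemma As.isq (c : Ctx U η N) {f : ℂ → ℂ} (hf : As U η N k f) {x κ : ℝ} (h0 : f 0 = x)
    (hx : κ ≤ x) (hκ : 2 ≤ κ * N) (hη : N ^ k * η ≤ κ / 2) :
    As U η N (k + 2) (fun z => isq (f z)) ∧ ∀ z ∈ U, 0 < (f z).re := by
  have N2 := c.n
  have κ0 : 0 < κ := by by_contra h; nlinarith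
  have h := fun z hz => isq_bd κ0 hx (w := f z) (by rw [← h0]; exact (hf.l z hz).trans hη)
  have hp : ∀ z ∈ U, 0 < (f z).re := fun z hz => lt_of_lt_of_le (by positivity) (h z hz).1
  have hb : ∀ z ∈ U, ‖K14.isq (f z)‖ ≤ N := fun z hz => by
    refine (abs_le_of_sq_le_sq' ((h z hz).2.1.trans ?_) (by linarith)).2
    rw [div_le_iff₀ κ0]; nlinarith
  refine ⟨⟨?_, fun z hz => (hb z hz).trans ?_, fun z hz => ?_⟩, hp⟩
  · refine (hf.d.cpow_const fun z hz => Or.inl (hp z hz)).inv fun z hz h => ?_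
    have := hp z hz
    rw [(Complex.cpow_eq_zero_iff _ _).1 h |>.1] at this
    simp at this
  · simpa using c.pow_le (k := 1) (k' := k + 2) (by omega)
  · rw [h0]
    have h1 := hf.l z hz
    rw [h0] at h1
    have h2 : κ⁻¹ ≤ N := by rw [inv_le_iff_one_le_mul₀ κ0]; nlinarith
    refine (h z hz).2.2.trans ((mul_le_mul (hb z hz) (mul_le_mul h2 h1 (norm_nonneg _)
      (by linarith)) (by positivity) (by linarith)).trans_eq (by ring))

end Crest.Agent.T157.Sw14.K14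

end
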