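import Crest.Agent.T157.SwKA_14

/-!
# Row 157, SWAP for coins: continuation of the rotated killing probability (helper14)
-/

set_option autoImplicit false

noncomputable section

namespace Crest.Agent.T157.Sw14

open Matrix Finset Real Function
open Crest.ProbabilityR.SpinGlassDynamics Crest.Agent.T157.E Crest.Agent.T157.Eig
open Crest.Agent.T157.St Crest.Agent.T157.Ed Crest.Agent.T157.Cq
open Crest.Agent.T157.Ll (Dl Res)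
open scoped Matrix.Norms.Frobenius

namespace K14

variable {n : ℕ}

section gen
variable {R : Type} [CommRing R]

def OH (A B A' B' : Fin n → R) : Matrix (Fin n) (Fin n) R := vecMulVec B A' - vecMulVec A B'
def MH (α β : R) (A B A' B' : Fin n → R) : Matrix (Fin n) (Fin n) R :=
  α • OH A B A' B' + β • (OH A B A B * OH A B A' B')
def TR (α β : R) (A B A' B' : Fin n → R) : Matrix (Fin n) (Fin n) R :=
  MH α β A B A' B' + (MH α β A B A' B')ᵀ + MH α β A B A' B' * (MH α β A B A B)ᵀ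
def CV (χ α β : R) (A B : Fin n → R) : Fin n → R := χ • (A + MH α β A B A B *ᵥ A)

end gen

lemma MH_coe (α β : ℝ) (a b a' b' : Fin n → ℝ) (i j : Fin n) :
    MH (α : ℂ) β (fun k => (a k : ℂ)) (fun k => (b k : ℂ)) (fun k => (a' k : ℂ))
      (fun k => (b' k : ℂ)) i j = (MH α β a b a' b' i j : ℝ) := by
  simp [MH, OH, Matrix.mul_apply, vecMulVec_apply]

lemma TR_coe (α β : ℝ) (a b a' b' : Fin n → ℝ) (i j : Fin n) :
    TR (α : ℂ) β (fun k => (a k : ℂ)) (fun k => (b k : ℂ)) (fun k => (a' k : ℂ))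
      (fun k => (b' k : ℂ)) i j = (TR α β a b a' b' i j : ℝ) := by
  simp [TR, Matrix.mul_apply, MH_coe]

lemma CV_coe (χ α β : ℝ) (a b : Fin n → ℝ) (i : Fin n) :
    CV (χ : ℂ) α β (fun k => (a k : ℂ)) (fun k => (b k : ℂ)) i = (CV χ α β a b i : ℝ) := by
  simp [CV, Matrix.mulVec, dotProduct, MH_coe]

lemma Rt_eq (φ : ℝ) (a b : Fin n → ℝ) :
    Rt φ a b = 1 + MH (sin φ * ps a b) ((1 - cos φ) * ps a b ^ 2) a b a b := by
  rw [Rt, MH, add_assoc]; rfl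

lemma MH_mul {H : Mat n} (hH : Hᵀ = H) (α β : ℝ) (a b : Fin n → ℝ) :
    MH α β a b a b * H = MH α β a b (H *ᵥ a) (H *ᵥ b) := by
  have : OH a b a b * H = OH a b (H *ᵥ a) (H *ᵥ b) := by
    rw [OH, OH, Matrix.sub_mul, vmv_mul_symm hH, vmv_mul_symm hH]
  rw [MH, MH, Matrix.add_mul, Matrix.smul_mul, Matrix.smul_mul, Matrix.mul_assoc, this]

lemma conj_TR (hn : 1 ≤ n) {W : Mat n} (hW : Wᵀ = W) {a b : Fin n → ℝ}
    (h : (a ⬝ᵥ b) ^ 2 < a ⬝ᵥ a * b ⬝ᵥ b) (φ : ℝ) : Rt φ a b * W * (Rt φ a b)ᵀ =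
      W - (tau n)⁻¹ • TR (sin φ * ps a b) ((1 - cos φ) * ps a b ^ 2) a b (Hm n W *ᵥ a)
        (Hm n W *ᵥ b) := by
  have := Rt_orth' h φ
  rw [Rt_eq] at this ⊢
  rw [conj_eq hn hW this, MH_mul (Hm_transpose hW), TR]

lemma CV_eq (χ φ : ℝ) (a b : Fin n → ℝ) :
    χ • Rt φ a b *ᵥ a = CV χ (sin φ * ps a b) ((1 - cos φ) * ps a b ^ 2) a b := by
  rw [Rt_eq, CV, add_mulVec, one_mulVec]

section an
variable {U : Set ℂ} {η N : ℝ} {A B A' B' : ℂ → Fin n → ℂ} {α β χ : ℂ → ℂ}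

lemma an_OH (c : Ctx U η N) (hA : Av U η N 1 A) (hB : Av U η N 1 B) (hA' : Av U η N 1 A')
    (hB' : Av U η N 1 B') : An U η N 4 fun z => OH (A z) (B z) (A' z) (B' z) :=
  (hB.vmv c hA').sub c (hA.vmv c hB')

lemma an_MH (c : Ctx U η N) (hA : Av U η N 1 A) (hB : Av U η N 1 B) (hA' : Av U η N 1 A')
    (hB' : Av U η N 1 B') (hα : As U η N 23 α) (hβ : As U η N 23 β) :
    An U η N 34 fun z => MH (α z) (β z) (A z) (B z) (A' z) (B' z) :=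
  ((hα.smul c (an_OH c hA hB hA' hB')).mono c (by norm_num)).add c
    (hβ.smul c ((an_OH c hA hB hA hB).mul c (an_OH c hA hB hA' hB')))

lemma an_TR (c : Ctx U η N) (hA : Av U η N 1 A) (hB : Av U η N 1 B) (hA' : Av U η N 1 A')
    (hB' : Av U η N 1 B') (hα : As U η N 23 α) (hβ : As U η N 23 β) :
    An U η N 70 fun z => TR (α z) (β z) (A z) (B z) (A' z) (B' z) :=
  (((an_MH c hA hB hA' hB' hα hβ).add c (an_MH c hA hB hA' hB' hα hβ).tr).mono c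
    (by norm_num)).add c ((an_MH c hA hB hA' hB' hα hβ).mul c (an_MH c hA hB hA hB hα hβ).tr)

lemma an_CV (c : Ctx U η N) (hA : Av U η N 1 A) (hB : Av U η N 1 B) (hχ : As U η N 5 χ)
    (hα : As U η N 23 α) (hβ : As U η N 23 β) :
    Av U η N 70 fun z => CV (χ z) (α z) (β z) (A z) (B z) :=
  (hχ.smulV c ((hA.mono c (by norm_num)).add c ((an_MH c hA hB hA hB hα hβ).mulVec c hA))).mono c
    (by norm_num)

end an

lemma av_of (hn : 1 ≤ n) {i j : Fin n} {r M N ρ : ℝ} {f : ℝ → Fin n → ℝ} {F : ℂ → Fin n → ℂ}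
    (h : AnV i j r M f F) (hρ : ρ ≤ r) (M0 : 0 ≤ M) (hM : M ≤ N) :
    Av (Metric.ball 0 ρ) (ρ / sx n ^ 2) N 1 F := by
  have hs := Metric.ball_subset_ball (x := (0 : ℂ)) hρ
  have s0 := sx_pos' hn
  refine ⟨fun a _ => (h.diff a).mono hs, fun z hz => ?_, fun z hz => ?_⟩
  · rw [pow_one]
    refine (abs_le_of_sq_le_sq' ?_ (M0.trans hM)).2
    rw [col_sq]
    exact (h.nrm z (hs hz)).trans (pow_le_pow_left₀ M0 hM 2)
  · have hz' : ‖z‖ ≤ ρ := (mem_ball_zero_iff.1 hz).le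
    have ρ0 := (norm_nonneg z).trans hz'
    rw [pow_one]
    refine (abs_le_of_sq_le_sq' ?_ (mul_nonneg (M0.trans hM) (by positivity))).2
    have e : replicateCol Unit (F z) - replicateCol Unit (F 0) = replicateCol Unit (F z - F 0) := rfl
    rw [e, col_sq, mul_pow, div_pow, ← pow_mul, ← mul_div_assoc, le_div_iff₀ (by positivity),
      mul_comm]
    exact (h.lip z (hs hz)).trans
      (mul_le_mul (pow_le_pow_left₀ M0 hM 2) (pow_le_pow_left₀ (norm_nonneg _) hz' 2)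
        (by positivity) (by positivity))

lemma dot_coe (a b : Fin n → ℝ) :
    (fun k => (a k : ℂ)) ⬝ᵥ (fun k => (b k : ℂ)) = ((a ⬝ᵥ b : ℝ) : ℂ) := by
  simp [dotProduct]

/-- the holomorphic continuation of the rotated matrix and of the unit vector -/
lemma cont (hn : 1 ≤ n) {i j : Fin n} {r M M' N ρ κ : ℝ} {a b a' b' : ℝ → Fin n → ℝ}
    {A B A' B' : ℂ → Fin n → ℂ} (hA : AnV i j r M a A) (hA' : AnV i j r M a' A')
    (hB : AnV i j r M' b B) (hB' : AnV i j r M' b' B') (ρ0 : 0 < ρ) (hρ : ρ ≤ r) (M0 : 0 ≤ M)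
    (M0' : 0 ≤ M') (hM : M ≤ N) (hM' : M' ≤ N) (N2 : 2 ≤ N) (hκ : 2 ≤ κ * N)
    (hη : N ^ 8 * (ρ / sx n ^ 2) ≤ κ / 2) (h0 : κ ≤ a 0 ⬝ᵥ a 0)
    (h1 : κ ≤ a 0 ⬝ᵥ a 0 * b 0 ⬝ᵥ b 0 - (a 0 ⬝ᵥ b 0) ^ 2) (φ : ℝ) :
    ∃ (T : ℂ → Matrix (Fin n) (Fin n) ℂ) (C : ℂ → Fin n → ℂ),
      An (Metric.ball 0 ρ) (ρ / sx n ^ 2) N 70 T ∧ Av (Metric.ball 0 ρ) (ρ / sx n ^ 2) N 70 C ∧
      ∀ t : ℝ, |t| < ρ → (a t ⬝ᵥ b t) ^ 2 < a t ⬝ᵥ a t * b t ⬝ᵥ b t ∧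
        (∀ k l, T t k l = (TR (sin φ * ps (a t) (b t)) ((1 - cos φ) * ps (a t) (b t) ^ 2)
          (a t) (b t) (a' t) (b' t) k l : ℝ)) ∧
        ∀ k, C t k = (((√(a t ⬝ᵥ a t))⁻¹ • Rt φ (a t) (b t) *ᵥ a t) k : ℝ) := by
  have s0 := sx_pos' hn
  have c : Ctx (Metric.ball 0 ρ) (ρ / sx n ^ 2) N := ⟨Metric.mem_ball_self ρ0, by positivity, N2⟩
  have vA := av_of hn hA hρ M0 hM
  have vA' := av_of hn hA' hρ M0 hM
  have vB := av_of hn hB hρ M0' hM'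
  have vB' := av_of hn hB' hρ M0' hM'
  have eA : ∀ t : ℝ, |t| < ρ → A t = fun k => (a t k : ℂ) := fun t ht =>
    funext (hA.real t (ht.trans_le hρ))
  have eA' : ∀ t : ℝ, |t| < ρ → A' t = fun k => (a' t k : ℂ) := fun t ht =>
    funext (hA'.real t (ht.trans_le hρ))
  have eB : ∀ t : ℝ, |t| < ρ → B t = fun k => (b t k : ℂ) := fun t ht =>
    funext (hB.real t (ht.trans_le hρ))
  have eB' : ∀ t : ℝ, |t| < ρ → B' t = fun k => (b' t k : ℂ) := fun t ht =>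
    funext (hB'.real t (ht.trans_le hρ))
  have q0 := vA.dot c vA
  have qD := ((q0.mul c (vB.dot c vB)).sub c ((vA.dot c vB).mul c (vA.dot c vB)))
  have e0 : ∀ t : ℝ, |t| < ρ → A t ⬝ᵥ A t = ((a t ⬝ᵥ a t : ℝ) : ℂ) := fun t ht => by
    rw [eA t ht, dot_coe]
  have eD : ∀ t : ℝ, |t| < ρ → A t ⬝ᵥ A t * B t ⬝ᵥ B t - A t ⬝ᵥ B t * A t ⬝ᵥ B t =
      ((a t ⬝ᵥ a t * b t ⬝ᵥ b t - (a t ⬝ᵥ b t) ^ 2 : ℝ) : ℂ) := fun t ht => by
    rw [eA t ht, eB t ht, dot_coe, dot_coe, dot_coe]; push_cast; ring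
  have z0 : |(0 : ℝ)| < ρ := by rwa [abs_zero]
  obtain ⟨hχ, pχ⟩ := q0.isq c (e0 0 z0) h0 hκ
    ((mul_le_mul_of_nonneg_right (c.pow_le (by norm_num)) c.e).trans hη)
  obtain ⟨hψ, pψ⟩ := qD.isq c (eD 0 z0) h1 hκ hη
  have hs : ‖((sin φ : ℝ) : ℂ)‖ ≤ 2 := by
    rw [Complex.norm_real, Real.norm_eq_abs]; linarith [abs_sin_le_one φ]
  have hc : ‖((1 - cos φ : ℝ) : ℂ)‖ ≤ 2 := by
    rw [Complex.norm_real, Real.norm_eq_abs, abs_le]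
    constructor <;> linarith [neg_one_le_cos φ, cos_le_one φ]
  have hα := ((As.const c hs).mul c hψ).mono c (k' := 23) (by norm_num)
  have hβ := (As.const c hc).mul c (hψ.mul c hψ)
  refine ⟨_, _, an_TR c vA vB vA' vB' hα hβ, an_CV c vA vB hχ hα hβ, fun t ht => ?_⟩
  have tm : (t : ℂ) ∈ Metric.ball (0 : ℂ) ρ := by
    rwa [mem_ball_zero_iff, Complex.norm_real, Real.norm_eq_abs]
  have p0 := pχ t tm
  have p1 := pψ t tm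
  simp only [e0 t ht, Complex.ofReal_re] at p0
  simp only [eD t ht, Complex.ofReal_re] at p1
  have eψ : isq (A t ⬝ᵥ A t * B t ⬝ᵥ B t - A t ⬝ᵥ B t * A t ⬝ᵥ B t) = (ps (a t) (b t) : ℝ) := by
    rw [eD t ht, isq_ofReal p1.le, ps]
  refine ⟨by linarith, fun k l => ?_, fun k => ?_⟩
  · rw [eψ, eA t ht, eB t ht, eA' t ht, eB' t ht, ← TR_coe]
    congr 2 <;> push_cast <;> ring
  · rw [eψ, e0 t ht, isq_ofReal p0.le, eA t ht, eB t ht, CV_eq, ← CV_coe]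
    congr 2 <;> push_cast <;> ring

lemma num {X P s N σ : ℝ} (hs : 0 ≤ s) (hσ : 1 ≤ σ) (N2 : 2 ≤ N) (hX : X = N ^ 73)
    (hP : 16 * (1 + s) * X ≤ P) :
    16 ≤ P ∧ X * ((P * σ ^ 2)⁻¹ / σ ^ 2) ≤ (16 * (1 + s) * σ ^ 4)⁻¹ := by
  have X1 : 1 ≤ X := hX ▸ one_le_pow₀ (by linarith)
  have P16 : 16 ≤ P := by nlinarith
  refine ⟨P16, ?_⟩
  rw [← mul_div_assoc, ← div_eq_mul_inv, div_div, inv_eq_one_div,
    div_le_div_iff₀ (by positivity) (by positivity)]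
  have : 0 ≤ σ ^ 4 := by positivity
  nlinarith

lemma num2 (hn : 1 ≤ n) {P s N κ : ℝ} (hs : 0 ≤ s) (N2 : 2 ≤ N) (κN : 2 ≤ κ * N)
    (hP : 16 * (1 + s) * N ^ 73 ≤ P) {ρ η : ℝ} (hρ : ρ = (P * sx n ^ 2)⁻¹) (hη' : η = ρ / sx n ^ 2) :
    N ^ 8 * η ≤ κ / 2 ∧ tau n * ρ ^ 2 ≤ 1 / 256 ∧
      tau n * (n * (N ^ 73 * η / tau n) ^ 2) ≤ (n : ℝ)⁻¹ / 256 ∧
      s * (N ^ 73 * η) ^ 2 * sx n ^ 2 ≤ (n : ℝ)⁻¹ := by
  have σ1 := one_le_sx hn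
  have τ0 := tau_pos' hn
  obtain ⟨P16, hη⟩ := num hs σ1 N2 rfl hP
  rw [← hρ, ← hη'] at hη
  have σ4 : 1 ≤ sx n ^ 4 := one_le_pow₀ σ1
  have η0 : 0 ≤ η := by rw [hη', hρ]; positivity
  have X0 : 0 ≤ N ^ 73 * η := by positivity
  have η16 : N ^ 73 * η ≤ (16 * sx n ^ 4)⁻¹ :=
    hη.trans (inv_anti₀ (by positivity) (by nlinarith))
  refine ⟨?_, ?_, ?_, ?_⟩
  · have h1 : N ^ 9 * η ≤ N ^ 73 * η :=
      mul_le_mul_of_nonneg_right (pow_le_pow_right₀ (by linarith) (by norm_num)) η0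
    have h2 : (16 * sx n ^ 4)⁻¹ ≤ (1 : ℝ) := inv_le_one_of_one_le₀ (by linarith)
    refine le_of_mul_le_mul_left (a := N) ?_ (by linarith)
    have h3 : N * (N ^ 8 * η) = N ^ 9 * η := by ring
    rw [h3]
    linarith
  · rw [hρ, ← sx_four, inv_pow, ← div_eq_mul_inv, div_le_div_iff₀ (by positivity) (by norm_num)]
    have := mul_le_mul_of_nonneg_right (mul_le_mul P16 P16 (by norm_num) (by linarith))
      (show 0 ≤ sx n ^ 4 by positivity)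
    linarith
  · generalize N ^ 73 * η = X at X0 η16
    calc _ ≤ tau n * (n * ((16 * sx n ^ 4)⁻¹ / tau n) ^ 2) := by gcongr
      _ = _ := by rw [← sx_four, ← sx_six]; field_simp; norm_num
  · generalize N ^ 73 * η = X at X0 hη
    calc _ ≤ s * ((16 * (1 + s) * sx n ^ 4)⁻¹) ^ 2 * sx n ^ 2 := by gcongr
      _ = s / (16 * (1 + s)) ^ 2 * (n : ℝ)⁻¹ := by rw [← sx_six]; field_simp
      _ ≤ _ := mul_le_of_le_one_left (by positivity) (by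
        rw [div_le_one (by positivity)]; nlinarith)

lemma num3 {CD C τ ρ u v x y m : ℝ} (CD0 : 0 ≤ CD) (hC : 16 * (1 + CD) ≤ C) (u0 : 0 ≤ u) (v0 : 0 ≤ v)
    (m0 : 0 ≤ m) (h1 : τ * ρ ^ 2 ≤ 1 / 256) (h2 : τ * x ≤ m⁻¹ / 256) (h3 : y ≤ m⁻¹) :
    CD * (τ * (ρ ^ 2 * (u + v) + x) + y) ≤ (C * (√u + √v + (√m)⁻¹)) ^ 2 := by
  have a1 := sq_sqrt u0
  have a2 := sq_sqrt v0
  have a3 : (√m)⁻¹ ^ 2 = m⁻¹ := by rw [inv_pow, sq_sqrt m0]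
  have b1 := sqrt_nonneg u
  have b2 := sqrt_nonneg v
  have b3 : 0 ≤ (√m)⁻¹ := by positivity
  have h4 : τ * (ρ ^ 2 * (u + v)) ≤ u + v := by
    rw [← mul_assoc]
    exact mul_le_of_le_one_left (add_nonneg u0 v0) (by linarith)
  have n0 : 0 ≤ m⁻¹ := by positivity
  rw [mul_pow, mul_add τ]
  calc _ ≤ CD * (2 * (√u + √v + (√m)⁻¹) ^ 2) := by
        refine mul_le_mul_of_nonneg_left ?_ CD0
        nlinarith [mul_nonneg b1 b2, mul_nonneg b1 b3, mul_nonneg b2 b3]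
    _ ≤ _ := by
        rw [← mul_assoc]
        exact mul_le_mul_of_nonneg_right (by nlinarith) (by positivity)

/-- symmetrised continuation of `R W Rᵀ - W` -/
lemma sym (hn : 1 ≤ n) {ρ η N φ : ℝ} (cx : Ctx (Metric.ball 0 ρ) η N) {W : ℝ → Mat n}
    (hW : ∀ t, (W t)ᵀ = W t) {a b : ℝ → Fin n → ℝ} {T : ℂ → Matrix (Fin n) (Fin n) ℂ}
    (hT : An (Metric.ball 0 ρ) η N 70 T)
    (hre : ∀ t : ℝ, |t| < ρ → (a t ⬝ᵥ b t) ^ 2 < a t ⬝ᵥ a t * b t ⬝ᵥ b t ∧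
      ∀ k l, T t k l = (TR (sin φ * ps (a t) (b t)) ((1 - cos φ) * ps (a t) (b t) ^ 2)
        (a t) (b t) (Hm n (W t) *ᵥ a t) (Hm n (W t) *ᵥ b t) k l : ℝ)) :
    ∃ Δ : ℂ → Matrix (Fin n) (Fin n) ℂ,
      (∀ k l, DifferentiableOn ℂ (fun z => Δ z k l) (Metric.ball 0 ρ)) ∧
      (∀ z ∈ Metric.ball (0 : ℂ) ρ, (Δ z)ᵀ = Δ z ∧
        ∑ k, ∑ l, ‖Δ z k l‖ ^ 2 ≤ (N ^ 73 * η / tau n) ^ 2) ∧
      ∀ t : ℝ, |t| < ρ → ∀ k l, Δ t k l = ((Rt φ (a t) (b t) * W t * (Rt φ (a t) (b t))ᵀ - W t -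
        (Rt φ (a 0) (b 0) * W 0 * (Rt φ (a 0) (b 0))ᵀ - W 0)) k l : ℝ) := by
  have τ0 := tau_pos' hn
  have hS := (As.const cx (a := 2⁻¹) (by norm_num)).smul cx (hT.add cx hT.tr)
  have reS : ∀ t : ℝ, |t| < ρ → ∀ k l, ((2⁻¹ : ℂ) • (T t + (T t)ᵀ)) k l = ((tau n *
      (W t - Rt φ (a t) (b t) * W t * (Rt φ (a t) (b t))ᵀ) k l : ℝ) : ℂ) := fun t ht k l => by
    obtain ⟨h1, h2⟩ := hre t ht
    have e := conj_TR hn (hW t) h1 φ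
    have sy : (Rt φ (a t) (b t) * W t * (Rt φ (a t) (b t))ᵀ)ᵀ =
        Rt φ (a t) (b t) * W t * (Rt φ (a t) (b t))ᵀ := by
      simp only [transpose_mul, transpose_transpose, hW, Matrix.mul_assoc]
    rw [e, transpose_sub, hW, sub_right_inj, transpose_smul] at sy
    have sy' := congrFun (congrFun (smul_right_injective _ (inv_pos.2 τ0).ne' sy) k) l
    rw [transpose_apply] at sy'
    rw [e, sub_sub_cancel, Matrix.smul_apply, Matrix.add_apply, transpose_apply, h2, h2, sy',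
      Matrix.smul_apply, smul_eq_mul, smul_eq_mul, mul_inv_cancel_left₀ τ0.ne']
    ring
  have ρ0 : 0 < ρ := Metric.pos_of_mem_ball cx.z
  refine ⟨fun z => -((tau n : ℝ) : ℂ)⁻¹ •
    ((2⁻¹ : ℂ) • (T z + (T z)ᵀ) - (2⁻¹ : ℂ) • (T 0 + (T 0)ᵀ)),
    fun k l => ((hS.d k l).sub_const _).const_mul _, fun z hz => ⟨?_, ?_⟩, fun t ht k l => ?_⟩
  · simp only [transpose_smul, transpose_sub, transpose_add, transpose_transpose, add_comm]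
  · rw [← fro_sq, norm_smul, norm_neg, norm_inv, Complex.norm_real, Real.norm_eq_abs,
      abs_of_pos τ0, inv_mul_eq_div]
    exact pow_le_pow_left₀ (by positivity) (div_le_div_of_nonneg_right (hS.l z hz) τ0.le) 2
  · have e0 := reS 0 (by rwa [abs_zero]) k l
    rw [Complex.ofReal_zero] at e0
    beta_reduce
    rw [Matrix.smul_apply, Matrix.sub_apply, reS t ht, e0]
    have : ((tau n : ℝ) : ℂ) ≠ 0 := by exact_mod_cast τ0.ne'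
    simp only [Matrix.sub_apply, smul_eq_mul]
    push_cast
    field_simp
    ring

lemma num4 {l l' κ s CD Λ : ℝ} (l1 : 1 ≤ l) (κ0 : 0 < κ) (s0 : 0 ≤ s) (CD0 : 0 ≤ CD)
    (Λ1 : 1 ≤ Λ) {N₀ C : ℝ} (hN₀ : N₀ = 8 * l ^ 2 + 8 * l' ^ 2 + 2 / κ)
    (hC : C = 16 * (1 + s) * N₀ ^ 73 * (1 + CD)) :
    16 * (1 + CD) ≤ C ∧ 2 ≤ N₀ * Λ ^ 2 ∧ 16 * (1 + s) * (N₀ * Λ ^ 2) ^ 73 ≤ C * Λ ^ 146 ∧
      4 * Λ ≤ C * Λ ^ 146 ∧ 2 ≤ κ * (N₀ * Λ ^ 2) ∧ 8 * l ^ 2 * Λ ^ 2 ≤ N₀ * Λ ^ 2 ∧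
      8 * l' ^ 2 * Λ ^ 2 ≤ N₀ * Λ ^ 2 := by
  have k2 : 0 < 2 / κ := by positivity
  have q1 := sq_nonneg l'
  have q2 : 1 ≤ l ^ 2 := one_le_pow₀ l1
  have N₀2 : 2 ≤ N₀ := by linarith
  have X1 : 1 ≤ N₀ ^ 73 := one_le_pow₀ (by linarith)
  have L2 : 1 ≤ Λ ^ 2 := one_le_pow₀ Λ1
  have NN : N₀ ≤ N₀ * Λ ^ 2 := le_mul_of_one_le_right (by linarith) L2
  have C16 : 16 * (1 + CD) ≤ C := by
    rw [hC]
    generalize N₀ ^ 73 = X at X1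
    exact mul_le_mul_of_nonneg_right (by nlinarith) (by linarith)
  refine ⟨C16, by linarith, ?_, mul_le_mul (by linarith)
    (by simpa using pow_le_pow_right₀ Λ1 (show 1 ≤ 146 by norm_num)) (by linarith) (by linarith),
    ?_, mul_le_mul_of_nonneg_right (by linarith) (by positivity),
    mul_le_mul_of_nonneg_right (by linarith) (by positivity)⟩
  · rw [mul_pow, ← pow_mul, ← mul_assoc, hC]
    refine mul_le_mul_of_nonneg_right ?_ (by positivity)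
    exact le_mul_of_one_le_right (by positivity) (by linarith)
  · rw [← div_le_iff₀' κ0]; linarith

end K14

open K14

theorem kGlue : KGlue := by
  rintro ⟨CD, CD0, hD⟩ hR c ⟨ε0, ε1, s0, l1, l1'⟩ κ κ0
  obtain ⟨N₀, hN₀⟩ : ∃ N₀ : ℝ, N₀ = 8 * c.l ^ 2 + 8 * c.l' ^ 2 + 2 / κ := ⟨_, rfl⟩
  obtain ⟨C, hC⟩ : ∃ C : ℝ, C = 16 * (1 + c.s) * N₀ ^ 73 * (1 + CD) := ⟨_, rfl⟩
  have C16 := (num4 l1 κ0 s0 CD0 le_rfl hN₀ hC).1
  refine ⟨C, 146, by linarith, ?_⟩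
  intro n y Λ φ hn Λ1 ⟨g1, g2⟩ ⟨r0, r1, _, _⟩
  have r0' : κ ≤ av c y ⬝ᵥ av c y := r0
  have r1' : κ ≤ av c y ⬝ᵥ av c y * bv c y ⬝ᵥ bv c y - (av c y ⬝ᵥ bv c y) ^ 2 := r1
  obtain ⟨-, N2, hP, PΛ, κN, M1, M2⟩ := num4 l1 κ0 s0 CD0 Λ1 hN₀ hC
  generalize N₀ * Λ ^ 2 = N at N2 hP κN M1 M2
  generalize C * Λ ^ 146 = P at hP PΛ
  obtain ⟨ρ, hρ⟩ : ∃ ρ : ℝ, ρ = (P * sx n ^ 2)⁻¹ := ⟨_, rfl⟩
  rw [← hρ]
  have σ2 : 1 ≤ sx n ^ 2 := one_le_pow₀ (one_le_sx hn)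
  have Λ0 : 0 < 4 * Λ := by linarith
  have PΛ' : 4 * Λ ≤ P * sx n ^ 2 := PΛ.trans (le_mul_of_one_le_right (by linarith) σ2)
  have ρ0 : 0 < ρ := hρ ▸ inv_pos.2 (by linarith)
  have ρr : ρ ≤ (4 * Λ)⁻¹ := hρ ▸ inv_anti₀ Λ0 PΛ'
  obtain ⟨η8, m1, m2, m3⟩ := num2 hn s0 N2 κN hP hρ rfl
  have herm : (Rt φ (av c y) (bv c y) * W4 y * (Rt φ (av c y) (bv c y))ᵀ).IsHermitian := by
    rw [herm_iff]
    simp only [transpose_mul, transpose_transpose, W4_transpose, Matrix.mul_assoc]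
  obtain ⟨w, w0, w1, hw⟩ := hD n c.ε c.s _
    ((√(av c y ⬝ᵥ av c y))⁻¹ • Rt φ (av c y) (bv c y) *ᵥ av c y) hn ε0 ε1 s0 herm
  refine ⟨fun i => √(w i), fun i => sqrt_nonneg _,
    by simpa only [sq_sqrt (w0 _)] using w1, fun p => ?_⟩
  obtain ⟨A, A', hA, hA'⟩ := hR n c.l' Λ _ _ p.1.1 p.1.2 hn l1' Λ1 (W4_herm y) g1
  obtain ⟨B, B', hB, hB'⟩ := hR n c.l Λ _ _ p.1.1 p.1.2 hn l1 Λ1 (W4_herm y) g2
  simp only [← av_sh hn] at hA hA'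
  simp only [← bv_sh hn] at hB hB'
  simp only [← W4_sh hn] at hA' hB'
  obtain ⟨T, V, hT, hV, hre⟩ := cont hn hA hA' hB hB' ρ0 ρr (by positivity) (by positivity)
    M2 M1 N2 κN η8 (by rwa [sh_zero]) (by rwa [sh_zero]) φ
  have cx : Ctx (Metric.ball 0 ρ) (ρ / sx n ^ 2) N :=
    ⟨Metric.mem_ball_self ρ0, div_nonneg ρ0.le (by linarith), N2⟩
  obtain ⟨Δ, Δ1, Δ2, Δ3⟩ := sym hn cx (W := fun t => W4 (sh y p t)) (fun t => W4_transpose _) hT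
    fun t ht => ⟨(hre t ht).1, (hre t ht).2.1⟩
  have hV' := hV.mono cx (k' := 73) (by norm_num)
  have n1 : (n : ℝ)⁻¹ ≤ 1 := inv_le_one_of_one_le₀ (by exact_mod_cast hn)
  obtain ⟨K, K1, K2, K3⟩ := hw p.1.1 p.1.2 (Metric.ball 0 ρ) Δ (fun z => V z - V 0) ρ _
    (N ^ 73 * (ρ / sx n ^ 2)) Δ1 (fun a => (hV'.d a ()).sub_const _)
    (fun z hz => ⟨(mem_ball_zero_iff.1 hz).le, (Δ2 z hz).1, (Δ2 z hz).2, by
      rw [← col_sq]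
      exact pow_le_pow_left₀ (norm_nonneg _) (hV'.l z hz) 2⟩) (by rw [mul_add]; linarith)
    (m3.trans n1)
  have z0 : |(0 : ℝ)| < ρ := by rwa [abs_zero]
  have Kt : ∀ t : ℝ, |t| < ρ → K t = Kp c φ (sh y p t) := fun t ht => by
    have tm : (t : ℂ) ∈ Metric.ball (0 : ℂ) ρ := by
      rwa [mem_ball_zero_iff, Complex.norm_real, Real.norm_eq_abs]
    rw [K2 t _ ((√(av c (sh y p t) ⬝ᵥ av c (sh y p t)))⁻¹ •
        Rt φ (av c (sh y p t)) (bv c (sh y p t)) *ᵥ av c (sh y p t) -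
          (√(av c y ⬝ᵥ av c y))⁻¹ • Rt φ (av c y) (bv c y) *ᵥ av c y) tm (Δ3 t ht) (fun a => ?_),
      add_sub_cancel, Kp, sh_zero]
    · congr 2
      rw [W4_sh hn]
      abel
    · have e0 := (hre 0 z0).2.2 a
      rw [Complex.ofReal_zero, sh_zero] at e0
      rw [Pi.sub_apply, (hre t ht).2.2 a, e0, Pi.sub_apply, Complex.ofReal_sub]
  refine ⟨K, K1, Kt, fun z hz => ?_⟩
  have K0 := Kt 0 z0
  rw [Complex.ofReal_zero, sh_zero, Kp] at K0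
  rw [K0]
  have C0 : 0 ≤ C := by linarith
  exact (abs_le_of_sq_le_sq' ((K3 z hz).trans
    (num3 CD0 C16 (w0 _) (w0 _) (Nat.cast_nonneg n) m1 m2 m3)) (by positivity)).2

end Crest.Agent.T157.Sw14

end
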