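import Crest.Agent.T157.SwDef_14
import Crest.Agent.T157.CqSwap_44

/-!
# Row 157, part C: SWAP for coins, smoothness: `WtStmt`, `SmStmt` (helper41)
-/

set_option autoImplicit false

noncomputable section

namespace Crest.Agent.T157.Sw14

open MeasureTheory ProbabilityTheory Matrix Filter Topology Finset Real Function
open Crest.ProbabilityR.SpinGlassDynamics Crest.Agent.T157.E Crest.Agent.T157.Eig
open Crest.Agent.T157.St Crest.Agent.T157.Ed Crest.Agent.T157.Cq

namespace Sm41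

section calculus
variable {X : Type*} [NormedAddCommGroup X] [NormedSpace ℝ X] {x : X} {ι : Type*}

/-- smooth at a point -/
abbrev S0 (f : X → ℝ) (x : X) : Prop := ContDiffAt ℝ (⊤ : ℕ∞) f x
/-- vector functions, smooth at a point -/
def SV (f : X → ι → ℝ) (x : X) : Prop := ∀ i, S0 (fun y => f y i) x
/-- matrix functions, smooth at a point -/
def SM (F : X → Matrix ι ι ℝ) (x : X) : Prop := ∀ i j, S0 (fun y => F y i j) x

variable {f g : X → ι → ℝ} {F G : X → Matrix ι ι ℝ} {a : X → ℝ}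

lemma SV.const (v : ι → ℝ) : SV (fun _ : X => v) x := fun _ => contDiffAt_const
lemma SV.smul (ha : S0 a x) (hf : SV f x) : SV (fun y => a y • f y) x := fun i => ha.mul (hf i)
lemma SM.const (M : Matrix ι ι ℝ) : SM (fun _ : X => M) x := fun _ _ => contDiffAt_const
lemma SM.add (hF : SM F x) (hG : SM G x) : SM (fun y => F y + G y) x :=
  fun i j => (hF i j).add (hG i j)
lemma SM.sub (hF : SM F x) (hG : SM G x) : SM (fun y => F y - G y) x :=
  fun i j => (hF i j).sub (hG i j)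
lemma SM.smul (ha : S0 a x) (hF : SM F x) : SM (fun y => a y • F y) x :=
  fun i j => ha.mul (hF i j)
lemma SM.tr (hF : SM F x) : SM (fun y => (F y)ᵀ) x := fun i j => hF j i
lemma SM.vmv (hf : SV f x) (hg : SV g x) : SM (fun y => vecMulVec (f y) (g y)) x :=
  fun i j => (hf i).mul (hg j)
lemma SV.comp {Y : Type*} [NormedAddCommGroup Y] [NormedSpace ℝ Y] {u : Y → X} {y : Y}
    (hf : SV f (u y)) (hu : ContDiffAt ℝ (⊤ : ℕ∞) u y) : SV (fun z => f (u z)) y :=
  fun i => (hf i).comp y hu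
lemma SM.comp {Y : Type*} [NormedAddCommGroup Y] [NormedSpace ℝ Y] {u : Y → X} {y : Y}
    (hF : SM F (u y)) (hu : ContDiffAt ℝ (⊤ : ℕ∞) u y) : SM (fun z => F (u z)) y :=
  fun i j => (hF i j).comp y hu

variable [Fintype ι]

lemma SV.at (hf : SV f x) : ContDiffAt ℝ (⊤ : ℕ∞) f x := contDiffAt_pi.2 hf
lemma SV.dot (hf : SV f x) (hg : SV g x) : S0 (fun y => f y ⬝ᵥ g y) x :=
  ContDiffAt.sum fun i _ => (hf i).mul (hg i)
lemma SM.mulVec (hF : SM F x) (hf : SV f x) : SV (fun y => F y *ᵥ f y) x :=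
  fun i => SV.dot (hF i) hf
lemma SM.mul (hF : SM F x) (hG : SM G x) : SM (fun y => F y * G y) x :=
  fun i j => ContDiffAt.sum fun k _ => (hF i k).mul (hG k j)

variable [DecidableEq ι]

lemma SM.det (hF : SM F x) : S0 (fun y => (F y).det) x := by
  simp only [det_apply']
  exact ContDiffAt.sum fun σ _ => contDiffAt_const.mul (contDiffAt_prod fun i _ => hF _ _)

lemma SM.adj (hF : SM F x) : SM (fun y => (F y).adjugate) x := fun i j => by
  simp only [adjugate_apply]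
  refine SM.det fun k l => ?_
  simp only [updateRow_apply]
  split_ifs
  · exact contDiffAt_const
  · exact hF k l

lemma SM.inv (hF : SM F x) (h : (F x).det ≠ 0) : SM (fun y => (F y)⁻¹) x := by
  simp only [Matrix.inv_def, Ring.inverse_eq_inv']
  exact SM.smul (hF.det.inv h) hF.adj

variable {n : ℕ}

lemma s_kil {W : X → Mat n} {V : X → Cube n → ℝ} (hW : SM W x) (hV : SV V x) (m : ℕ) :
    SV (fun y => kil (ising (W y) 0) (V y) m) x := by
  have hw : ∀ σ, S0 (fun y => ising (W y) 0 σ) x := fun σ =>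
    ((contDiffAt_const.mul ((SV.const _).dot (hW.mulVec (SV.const _)))).add contDiffAt_const).exp
  induction m with
  | zero => exact SV.const _
  | succ m ih =>
    intro σ
    simp only [kil, iterate_succ_apply', Ph, siteM] at ih ⊢
    refine ((hV σ).div_const _).neg.exp.mul (contDiffAt_const.mul (ContDiffAt.sum fun l _ => ?_))
    exact (((hw _).mul (ih _)).add ((hw _).mul (ih _))).div ((hw _).add (hw _))
      (add_pos (exp_pos _) (exp_pos _)).ne'

/-- the killing probability is smooth in the matrix and in the rate -/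
lemma s_kap {W : X → Mat n} {V : X → Cube n → ℝ} (hW : SM W x) (hV : SV V x) (ε : ℝ) :
    S0 (fun y => kap (W y) ε (V y)) x :=
  contDiffAt_const.sub (ContDiffAt.sum fun σ _ => contDiffAt_const.mul (s_kil hW hV _ σ))

lemma s_fl {W : X → Mat n} (hW : SM W x) (hh : ∀ y, (W y).IsHermitian) {l : ℝ} (hl : l ≠ 0) :
    SM (fun y => fl n l (W y)) x := by
  simp only [fun y => Swap44.fl_eq (hh y) hl]
  have h : SM (fun y => tau n • ((2 : ℝ) • (1 : Mat n) - W y)) x :=
    SM.smul contDiffAt_const ((SM.const _).sub hW)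
  refine SM.smul contDiffAt_const (SM.inv ((h.mul h).add (SM.const _)) ?_)
  have h0 : (Swap44.den n l (W x)).det ≠ 0 := by
    rw [Swap44.den_eq (hh x)]
    exact (fnK_isUnit_det (hh x) fun k _ => by positivity).ne_zero
  exact h0

lemma s_Og {f g : X → Fin n → ℝ} (hf : SV f x) (hg : SV g x) : SM (fun y => Og (f y) (g y)) x :=
  (SM.vmv hg hf).sub (SM.vmv hf hg)

lemma s_ps {f g : X → Fin n → ℝ} (hf : SV f x) (hg : SV g x)
    (h : (f x ⬝ᵥ g x) ^ 2 < f x ⬝ᵥ f x * g x ⬝ᵥ g x) : S0 (fun y => ps (f y) (g y)) x :=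
  ((((hf.dot hf).mul (hg.dot hg)).sub ((hf.dot hg).pow 2)).sqrt (sub_pos.2 h).ne').inv
    (sqrt_pos.2 (sub_pos.2 h)).ne'

lemma s_Rt {f g : X → Fin n → ℝ} (ha : S0 a x) (hf : SV f x) (hg : SV g x)
    (h : (f x ⬝ᵥ g x) ^ 2 < f x ⬝ᵥ f x * g x ⬝ᵥ g x) : SM (fun y => Rt (a y) (f y) (g y)) x :=
  ((SM.const _).add (SM.smul (ha.sin.mul (s_ps hf hg h)) (s_Og hf hg))).add
    (SM.smul ((contDiffAt_const.sub ha.cos).mul ((s_ps hf hg h).pow 2))
      ((s_Og hf hg).mul (s_Og hf hg)))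

/-- multiplication by a cutoff -/
lemma s_cut {Y : Type*} [NormedAddCommGroup Y] [NormedSpace ℝ Y] {ω : Y → ℝ} {q : X → Y}
    (hω : ContDiff ℝ (⊤ : ℕ∞) ω) (hq : ContDiffAt ℝ (⊤ : ℕ∞) q x)
    (ha : q x ∈ tsupport ω → S0 a x) : S0 (fun y => ω (q y) * a y) x := by
  by_cases h : q x ∈ tsupport ω
  · exact (hω.contDiffAt.comp x hq).mul (ha h)
  · refine (contDiffAt_const (c := (0 : ℝ))).congr_of_eventuallyEq ?_
    filter_upwards [hq.continuousAt.tendsto.eventually (notMem_tsupport_iff_eventuallyEq.1 h)]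
      with y hy
    rw [hy, Pi.zero_apply, zero_mul]

end calculus

variable {n : ℕ} {c : Par} (y : I4 n → ℝ)

lemma s_co (k : I4 n) : S0 (fun y : I4 n → ℝ => y k) y := contDiffAt_apply ℝ ℝ k y

lemma W4_herm : (W4 y).IsHermitian := Wy_herm _

lemma s_W4 : SM W4 y := fun i j => by
  simp only [W4, Wy, Wmat, Matrix.add_apply, Jmat, diagonal_apply]
  refine ContDiffAt.add ?_ ?_ <;> split_ifs
  · exact (s_co y _).div_const _
  · exact (s_co y _).div_const _
  · exact contDiffAt_const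
  · exact (contDiffAt_const.mul (s_co y _)).div_const _
  · exact contDiffAt_const

lemma s_x1 : SV x1 y := fun _ => s_co y _
lemma s_x2 : SV x2 y := fun _ => s_co y _

lemma s_av (hc : c.Ok) : SV (av c) y :=
  (s_fl (s_W4 y) W4_herm (by linarith [hc.2.2.2.2])).mulVec (s_x1 y)

lemma s_bv (hc : c.Ok) : SV (bv c) y :=
  (s_fl (s_W4 y) W4_herm (by linarith [hc.2.2.2.1])).mulVec (s_x2 y)

lemma s_Om (hc : c.Ok) : SM (fun y => Og (av c y) (bv c y)) y := s_Og (s_av y hc) (s_bv y hc)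

lemma s_Cm (hc : c.Ok) : SM (Cm c) y :=
  ((s_Om y hc).mul (s_W4 y)).sub ((s_W4 y).mul (s_Om y hc))

lemma s_Xf (hc : c.Ok) : SV (Xf c) y := by
  rintro ((p | i) | i | i)
  · exact contDiffAt_const.mul (s_Cm y hc _ _)
  · exact contDiffAt_const.mul (s_Cm y hc _ _)
  · exact (s_Om y hc).mulVec (s_x1 y) i
  · exact (s_Om y hc).mulVec (s_x2 y) i

lemma s_q4 (hc : c.Ok) : SV (q4 c) y := fun i => by
  fin_cases i
  · exact (s_av y hc).dot (s_av y hc)
  · exact (s_bv y hc).dot (s_bv y hc)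
  · exact (s_av y hc).dot (s_bv y hc)
  · exact (SV.dot (s_co y) (s_co y)).div_const _

/-- `Kp` is jointly smooth on the cone -/
lemma s_Kp (hc : c.Ok) (z : ℝ × (I4 n → ℝ)) (h0 : 0 < av c z.2 ⬝ᵥ av c z.2)
    (h1 : (av c z.2 ⬝ᵥ bv c z.2) ^ 2 < av c z.2 ⬝ᵥ av c z.2 * bv c z.2 ⬝ᵥ bv c z.2) :
    S0 (fun z : ℝ × (I4 n → ℝ) => Kp c z.1 z.2) z := by
  have ha := (s_av z.2 hc).comp (contDiffAt_snd (p := z))
  have hb := (s_bv z.2 hc).comp (contDiffAt_snd (p := z))
  have hR := s_Rt (contDiffAt_fst (p := z)) ha hb h1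
  refine s_kap ((hR.mul ((s_W4 z.2).comp contDiffAt_snd)).mul hR.tr) (fun σ => ?_) _
  exact contDiffAt_const.mul (((SV.smul (((ha.dot ha).sqrt h0.ne').inv (sqrt_pos.2 h0).ne')
    (hR.mulVec ha)).dot (SV.const _)).pow 2)

end Sm41

open Sm41

theorem wtStmt : WtStmt := by
  rintro ω ⟨h1, h2, h3⟩
  refine ⟨contDiff_iff_contDiffAt.2 fun q => s_cut h1 contDiffAt_id fun hq => ?_, h2.mul_right,
    tsupport_mul_subset_left.trans h3⟩
  have h := sub_pos.2 (h3 hq).2.1
  have co : ∀ k, S0 (fun q : Fin 4 → ℝ => q k) q := fun k => contDiffAt_apply ℝ ℝ k q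
  exact ((((co 0).mul (co 1)).sub ((co 2).pow 2)).sqrt h.ne').inv (sqrt_pos.2 h).ne'

theorem smStmt : SmStmt := fun _ _ _ hc =>
  ⟨contDiff_iff_contDiffAt.2 fun y => (s_Xf y hc).at,
    contDiff_iff_contDiffAt.2 fun y => (s_q4 y hc).at, fun _ hω =>
    contDiff_iff_contDiffAt.2 fun z => s_cut hω.1 ((s_q4 z.2 hc).at.comp z contDiffAt_snd)
      fun hq => s_Kp hc z (hω.2.2 hq).1 (hω.2.2 hq).2.1⟩

end Crest.Agent.T157.Sw14

end
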