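import Crest.Agent.T157.TaA_40

/-!
# Row 157, block B, S1 (T-a): growth classes, Gaussian channels (helper40)
-/

set_option autoImplicit false
set_option linter.unusedSectionVars false

noncomputable section

namespace Crest.Agent.T157.Ta

open MeasureTheory Real Matrix Function Set
open Crest.Agent.T157.E Crest.Agent.T157.SL
open Crest.Agent.T157.Ent (cnd)
open Crest.Agent.T157.Rec (grad)

/-! ### growth classes -/

section growth
variable {X : Type*} [SeminormedAddCommGroup X] [MeasurableSpace X] {F F' : X → ℝ}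

namespace XG

theorem of_le (h : XG F) (hm : Measurable F') (e : ∀ y, |F' y| ≤ |F y|) : XG F' :=
  ⟨hm, h.bd.imp fun _ => .imp fun _ h => ⟨h.1, h.2.1, fun y => (e y).trans (h.2.2 y)⟩⟩

theorem of_bdd (hm : Measurable F) (C : ℝ) (e : ∀ y, |F y| ≤ C) : XG F :=
  ⟨hm, |C|, 0, abs_nonneg _, le_rfl, fun y => by simpa using (e y).trans (le_abs_self C)⟩

theorem const (c : ℝ) : XG fun _ : X => c := of_bdd measurable_const |c| fun _ => le_rfl

theorem mul (h : XG F) (h' : XG F') : XG fun y => F y * F' y := by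
  obtain ⟨C, c, h1, h2, h3⟩ := h.bd
  obtain ⟨C', c', h1', h2', h3'⟩ := h'.bd
  refine ⟨h.meas.mul h'.meas, C * C', c + c', by positivity, by positivity, fun p => ?_⟩
  rw [abs_mul, add_mul, exp_add, mul_mul_mul_comm]
  exact mul_le_mul (h3 p) (h3' p) (abs_nonneg _) (by positivity)

theorem add (h : XG F) (h' : XG F') : XG fun y => F y + F' y := by
  obtain ⟨C, c, h1, h2, h3⟩ := h.bd
  obtain ⟨C', c', h1', h2', h3'⟩ := h'.bd
  refine ⟨h.meas.add h'.meas, C + C', c + c', by positivity, by positivity, fun p => ?_⟩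
  rw [add_mul C]
  refine (abs_add_le _ _).trans (add_le_add ((h3 p).trans ?_) ((h3' p).trans ?_)) <;>
  gcongr <;> linarith

theorem const_mul (c : ℝ) (h : XG F) : XG fun y => c * F y := (const c).mul h

theorem neg (h : XG F) : XG fun y => -F y := by simpa using h.const_mul (-1)

theorem sub (h : XG F) (h' : XG F') : XG fun y => F y - F' y := by
  simpa [sub_eq_add_neg] using h.add h'.neg

theorem abs (h : XG F) : XG fun y => |F y| := h.of_le h.meas.abs fun _ => (abs_abs _).le

theorem sq (h : XG F) : XG fun y => F y ^ 2 := by simpa only [_root_.sq] using h.mul h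

theorem sum {κ : Type*} (S : Finset κ) {F : κ → X → ℝ} (h : ∀ k ∈ S, XG (F k)) :
    XG fun y => ∑ k ∈ S, F k y := by
  classical
  induction S using Finset.induction_on with
  | empty => simpa using const 0
  | insert k s hk ih =>
    simpa [Finset.sum_insert hk] using (h k (by simp)).add (ih fun j hj => h j (by simp [hj]))

theorem comp {Y : Type*} [SeminormedAddCommGroup Y] [MeasurableSpace Y] (h : XG F) {T : Y → X}
    (hT : Measurable T) {a b : ℝ} (hb : 0 ≤ b) (e : ∀ y, ‖T y‖ ≤ a + b * ‖y‖) : XG fun y => F (T y) := by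
  obtain ⟨C, c, h1, h2, h3⟩ := h.bd
  refine ⟨h.meas.comp hT, C * exp (c * a), c * b, by positivity, by positivity, fun y => (h3 _).trans ?_⟩
  rw [mul_assoc, ← exp_add, mul_assoc, ← mul_add]
  gcongr; exact e y

theorem fst {Y : Type*} [SeminormedAddCommGroup Y] [MeasurableSpace Y] (h : XG F) :
    XG fun p : X × Y => F p.1 :=
  h.comp measurable_fst (a := 0) zero_le_one fun p => by simpa using norm_fst_le p

theorem snd {Y : Type*} [SeminormedAddCommGroup Y] [MeasurableSpace Y] (h : XG F) :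
    XG fun p : Y × X => F p.2 :=
  h.comp measurable_snd (a := 0) zero_le_one fun p => by simpa using norm_snd_le p

theorem mg {ι : Type*} [Fintype ι] [DecidableEq ι] {F : (ι → ℝ) → ℝ} (h : XG F) : MG F := ⟨h.meas, h.bd⟩

theorem of_mg {ι : Type*} [Fintype ι] [DecidableEq ι] {F : (ι → ℝ) → ℝ} (h : MG F) : XG F :=
  ⟨h.meas, h.bd⟩

end XG

/-- measurable of linear growth -/
structure LG (F : X → ℝ) : Prop where
  meas : Measurable F
  bd : ∃ C c : ℝ, 0 ≤ C ∧ 0 ≤ c ∧ ∀ y, |F y| ≤ C + c * ‖y‖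

namespace LG

theorem of_le (h : LG F) (hm : Measurable F') (e : ∀ y, |F' y| ≤ |F y|) : LG F' :=
  ⟨hm, h.bd.imp fun _ => .imp fun _ h => ⟨h.1, h.2.1, fun y => (e y).trans (h.2.2 y)⟩⟩

theorem of_bdd (hm : Measurable F) (C : ℝ) (e : ∀ y, |F y| ≤ C) : LG F :=
  ⟨hm, |C|, 0, abs_nonneg _, le_rfl, fun y => by simpa using (e y).trans (le_abs_self C)⟩

theorem const (c : ℝ) : LG fun _ : X => c := of_bdd measurable_const |c| fun _ => le_rfl

theorem add (h : LG F) (h' : LG F') : LG fun y => F y + F' y := by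
  obtain ⟨C, c, h1, h2, h3⟩ := h.bd
  obtain ⟨C', c', h1', h2', h3'⟩ := h'.bd
  refine ⟨h.meas.add h'.meas, C + C', c + c', by positivity, by positivity, fun p => ?_⟩
  linarith [abs_add_le (F p) (F' p), h3 p, h3' p]

theorem const_mul (a : ℝ) (h : LG F) : LG fun y => a * F y := by
  obtain ⟨C, c, h1, h2, h3⟩ := h.bd
  refine ⟨h.meas.const_mul a, |a| * C, |a| * c, by positivity, by positivity, fun p => ?_⟩
  rw [abs_mul, mul_assoc, ← mul_add]
  exact mul_le_mul_of_nonneg_left (h3 p) (abs_nonneg a)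

theorem neg (h : LG F) : LG fun y => -F y := by simpa using h.const_mul (-1)

theorem sub (h : LG F) (h' : LG F') : LG fun y => F y - F' y := by
  simpa [sub_eq_add_neg] using h.add h'.neg

theorem abs (h : LG F) : LG fun y => |F y| := h.of_le h.meas.abs fun _ => (abs_abs _).le

theorem sum {κ : Type*} (S : Finset κ) {F : κ → X → ℝ} (h : ∀ k ∈ S, LG (F k)) :
    LG fun y => ∑ k ∈ S, F k y := by
  classical
  induction S using Finset.induction_on with
  | empty => simpa using const 0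
  | insert k s hk ih =>
    simpa [Finset.sum_insert hk] using (h k (by simp)).add (ih fun j hj => h j (by simp [hj]))

theorem xg (h : LG F) : XG F := by
  obtain ⟨C, c, h1, h2, h3⟩ := h.bd
  refine ⟨h.meas, C + c, 1, by positivity, zero_le_one, fun y => (h3 y).trans ?_⟩
  have a := add_one_le_exp ‖y‖
  have b := norm_nonneg y
  rw [one_mul]
  nlinarith

theorem exp (h : LG F) : XG fun y => exp (F y) := by
  obtain ⟨C, c, h1, h2, h3⟩ := h.bd
  refine ⟨h.meas.exp, Real.exp C, c, (exp_pos _).le, h2, fun y => ?_⟩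
  rw [abs_of_pos (exp_pos _), ← exp_add, exp_le_exp]
  exact (le_abs_self _).trans (h3 y)

theorem comp {Y : Type*} [SeminormedAddCommGroup Y] [MeasurableSpace Y] (h : LG F) {T : Y → X}
    (hT : Measurable T) {a b : ℝ} (ha : 0 ≤ a) (hb : 0 ≤ b) (e : ∀ y, ‖T y‖ ≤ a + b * ‖y‖) :
    LG fun y => F (T y) := by
  obtain ⟨C, c, h1, h2, h3⟩ := h.bd
  refine ⟨h.meas.comp hT, C + c * a, c * b, by positivity, by positivity, fun y => (h3 _).trans ?_⟩
  nlinarith [mul_le_mul_of_nonneg_left (e y) h2]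

theorem fst {Y : Type*} [SeminormedAddCommGroup Y] [MeasurableSpace Y] (h : LG F) :
    LG fun p : X × Y => F p.1 :=
  h.comp measurable_fst (a := 0) le_rfl zero_le_one fun p => by simpa using norm_fst_le p

theorem snd {Y : Type*} [SeminormedAddCommGroup Y] [MeasurableSpace Y] (h : LG F) :
    LG fun p : Y × X => F p.2 :=
  h.comp measurable_snd (a := 0) le_rfl zero_le_one fun p => by simpa using norm_snd_le p

theorem coord {ι : Type*} [Fintype ι] (i : ι) : LG fun y : ι → ℝ => y i :=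
  ⟨measurable_pi_apply i, 0, 1, le_rfl, zero_le_one, fun y => by simpa using norm_le_pi_norm y i⟩

theorem dot {ι : Type*} [Fintype ι] (a : ι → ℝ) : LG fun y : ι → ℝ => a ⬝ᵥ y :=
  sum _ fun i _ => (coord i).const_mul (a i)

theorem dot' {ι : Type*} [Fintype ι] (a : ι → ℝ) : LG fun y : ι → ℝ => y ⬝ᵥ a := by
  simpa only [dotProduct_comm a] using dot a

/-- log-Laplace transforms -/
theorem lme {B : Type*} [Fintype B] {q : B → ℝ} (hq : ∀ b, 0 ≤ q b) {L : B → X → ℝ}
    (h : ∀ b, LG (L b)) : LG fun y => log (mean q fun b => Real.exp (L b y)) := by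
  have hm : Measurable fun y => log (mean q fun b => Real.exp (L b y)) :=
    (Finset.measurable_sum _ fun b _ => (h b).meas.exp.const_mul _).log
  rcases (Finset.sum_nonneg fun b (_ : b ∈ Finset.univ) => hq b).eq_or_lt with h0 | h0
  · exact of_bdd hm 0 fun y => by simp [mean_eq_div, ← h0]
  have hw : Wt q := ⟨hq, h0⟩
  refine (sum Finset.univ fun b _ => (h b).abs).of_le hm fun y => ?_
  have hS : ∀ b, |L b y| ≤ ∑ b, |L b y| := fun b =>
    Finset.single_le_sum (f := fun b => |L b y|) (fun _ _ => abs_nonneg _) (Finset.mem_univ b)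
  refine le_trans (abs_le.2 ⟨?_, ?_⟩) (le_abs_self _)
  · rw [le_log_iff_exp_le (mean_pos' hw fun _ => exp_pos _)]
    exact hw.le_mean fun b => exp_le_exp.2 (abs_le.1 (hS b)).1
  · rw [log_le_iff_le_exp (mean_pos' hw fun _ => exp_pos _)]
    exact hw.mean_le fun b => exp_le_exp.2 (abs_le.1 (hS b)).2

end LG

variable {Ω : Type*} [Fintype Ω] {v w : Ω → ℝ} {L L' : Ω → X → ℝ}

theorem meas_prob_wt (v : Ω → ℝ) (hL : ∀ x, Measurable (L x)) (x : Ω) :
    Measurable fun p => prob (wt v fun x => L x p) x :=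
  ((hL x).exp.const_mul _).div (Finset.measurable_sum _ fun x _ => (hL x).exp.const_mul _)

theorem xg_prob_wt (hv : Wt v) (hL : ∀ x, Measurable (L x)) (x : Ω) :
    XG fun p => prob (wt v fun x => L x p) x :=
  .of_bdd (meas_prob_wt v hL x) 1 fun p => by
    rw [abs_of_nonneg ((wt_wt hv _).prob_nonneg x)]; exact (wt_wt hv _).prob_le_one x

theorem xg_mean (hv : Wt v) (hL : ∀ x, Measurable (L x)) {K : Ω → X → ℝ} (hK : ∀ x, XG (K x)) :
    XG fun p => mean (wt v fun x => L x p) fun x => K x p :=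
  .sum _ fun x _ => (xg_prob_wt hv hL x).mul (hK x)

theorem xg_mean0 (v : Ω → ℝ) {K : Ω → X → ℝ} (hK : ∀ x, XG (K x)) : XG fun p => mean v fun x => K x p :=
  .sum _ fun x _ => (hK x).const_mul _

theorem kl_wt2 (h : Pr v w) (G G' : Ω → ℝ) : kl (wt v G) (wt w G') =
    mean (wt v G) fun x => log (prob v x / prob w x) + G x - G' x -
      log (mean v fun x => exp (G x)) + log (mean w fun x => exp (G' x)) := by
  have := kl_mul2 h (fun x => exp_pos (G x)) fun x => exp_pos (G' x)
  simp only [log_exp] at this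
  rw [mean_add, mean_sub _ _ fun _ => log _, (wt_wt h.hv G).mean_const, (wt_wt h.hv G).mean_const]
  exact this

theorem xg_kl (h : Pr v w) (hL : ∀ x, LG (L x)) (hL' : ∀ x, LG (L' x)) :
    XG fun p => kl (wt v fun x => L x p) (wt w fun x => L' x p) := by
  simp only [kl_wt2 h]
  exact xg_mean h.hv (fun x => (hL x).meas) fun x => (((((LG.const _).add (hL x)).sub (hL' x)).sub
    (.lme h.hv.nn hL)).add (.lme h.hw.nn hL')).xg

end growth

section growthCube
variable {X : Type*} [SeminormedAddCommGroup X] [MeasurableSpace X] {n : ℕ} {u v w : Cube n → ℝ}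
  {L L' : Cube n → X → ℝ} {i : Fin n}

theorem lg_siteM (hv : Wt v) (hL : ∀ x, LG (L x)) (i : Fin n) (x : Cube n) :
    LG fun p => log (siteM v (fun x => exp (L x p)) i x) := by
  simp only [siteM_eq_mean]
  exact .lme (fun _ => hv.nn _) fun _ => hL _

theorem As_wt2 (h : Pr v w) (hu : OffAt i u) (G G' : Cube n → ℝ) : As u (wt v G) (wt w G') i =
    mean (wt v G) fun x => u x * (lr v w i x + G x - G' x -
      log (siteM v (fun x => exp (G x)) i x) + log (siteM w (fun x => exp (G' x)) i x)) := by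
  rw [As_eq (wt_wt h.hv G) hu]
  refine mean_congr_supp fun x hx => ?_
  have := lr_mul h (fun x => exp_pos (G x)) (fun x => exp_pos (G' x)) (left_ne_zero_of_mul hx) i
  simp only [log_exp] at this
  rw [← this]; rfl

theorem xg_As (h : Pr v w) (hu : OffAt i u) (hL : ∀ x, LG (L x)) (hL' : ∀ x, LG (L' x)) :
    XG fun p => As u (wt v fun x => L x p) (wt w fun x => L' x p) i := by
  simp only [As_wt2 h hu]
  exact xg_mean h.hv (fun x => (hL x).meas) fun x => ((((((LG.const _).add (hL x)).sub (hL' x)).sub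
    (lg_siteM h.hv hL i x)).add (lg_siteM h.hw hL' i x)).const_mul _).xg

theorem xg_Ar {r : Fin n → Cube n → ℝ} (h : Pr v w) (hr : Off r) (hL : ∀ x, LG (L x))
    (hL' : ∀ x, LG (L' x)) : XG fun p => Ar r (wt v fun x => L x p) (wt w fun x => L' x p) :=
  .sum _ fun i _ => xg_As h (hr i) hL hL'

theorem meas_cm (v : Cube n → ℝ) (hL : ∀ x, Measurable (L x)) (i : Fin n) (x : Cube n) :
    Measurable fun p => cm (wt v fun x => L x p) i x :=
  ((((hL _).exp.const_mul _).mul_const _).add (((hL _).exp.const_mul _).mul_const _)).div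
    (((hL _).exp.const_mul _).add ((hL _).exp.const_mul _))

theorem xg_cm (hv : Wt v) (hL : ∀ x, Measurable (L x)) (i : Fin n) (x : Cube n) :
    XG fun p => cm (wt v fun x => L x p) i x :=
  .of_bdd (meas_cm v hL i x) 1 fun _ => abs_cm_le (wt_wt hv _).nn i x

theorem xg_Cs (hv : Wt v) (hL : ∀ x, Measurable (L x)) (u : Cube n → ℝ) (i : Fin n) :
    XG fun p => Cs u (wt v fun x => L x p) i :=
  xg_mean hv hL fun x => ((XG.const 1).sub (xg_cm hv hL i x).sq).const_mul _

theorem xg_mag (hv : Wt v) (hL : ∀ x, Measurable (L x)) (i : Fin n) :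
    XG fun p => mag (wt v fun x => L x p) i := xg_mean hv hL fun _ => .const _

theorem tilt_eq (w : Cube n → ℝ) (y : Fin n → ℝ) : tilt w y = wt w fun x => y ⬝ᵥ sv x := rfl

theorem Pr.tilt (h : Pr v w) (y y' : Fin n → ℝ) : Pr (tilt v y) (tilt w y') := h.wt2 _ _

end growthCube

/-! ### stability of means -/

section stab
variable {Ω : Type*} [Fintype Ω] {v F G : Ω → ℝ}

theorem Wt.var_le_sq (hv : Wt v) {B : ℝ} (hF : ∀ x, |F x| ≤ B) : var v F ≤ B ^ 2 :=
  (hv.var_le_mean _ 0).trans (hv.mean_le fun x => by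
    rw [sub_zero]; exact sq_le_sq' (abs_le.1 (hF x)).1 (abs_le.1 (hF x)).2)

theorem abs_mean_wt_sub (hv : Wt v) {B D : ℝ} (hF : ∀ x, |F x| ≤ B) (hG : ∀ x, |G x| ≤ D) :
    |mean (wt v G) F - mean v F| ≤ B * D := by
  obtain ⟨x0, -⟩ := hv.exists_pos
  have hB : 0 ≤ B := (abs_nonneg _).trans (hF x0)
  have hD : 0 ≤ D := (abs_nonneg _).trans (hG x0)
  have hu := fun r : ℝ => wt_wt hv fun x => r * G x
  have d1 : ∀ r, HasDerivAt (fun r => mean (wt v fun x => r * G x) F)
      (cov (wt v fun x => r * G x) F G) r := fun r =>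
    hasDerivAt_mean (u := fun r => wt v fun x => r * G x) (hu r) (fun x =>
      (((hasDerivAt_id' r).mul_const (G x)).exp.const_mul (v x)).congr_deriv (by
        simp only [wt]; ring)) F
  have := norm_image_sub_le_of_norm_deriv_le_segment_01' (C := B * D)
    (fun r _ => (d1 r).hasDerivWithinAt) fun r _ => by
      refine abs_le_of_sq_le_sq (((hu r).cov_sq_le F G).trans ?_) (by positivity)
      rw [mul_pow]
      exact mul_le_mul (Wt.var_le_sq (hu r) hF) (Wt.var_le_sq (hu r) hG) ((hu r).var_nonneg _)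
        (sq_nonneg _)
  simpa only [one_mul, zero_mul, wt_zero, Real.norm_eq_abs] using this

end stab

/-! ### Gaussian channels -/

section chan
variable {Ω ι : Type*} [Fintype Ω] [Fintype ι] [DecidableEq ι] {φ : Ω → ι → ℝ} {v w : Ω → ℝ} {s : ℝ}

/-- log-likelihood of the channel -/
def lk (φ : Ω → ι → ℝ) (s : ℝ) (x : Ω) (y : ι → ℝ) : ℝ := y ⬝ᵥ φ x - s / 2 * (φ x ⬝ᵥ φ x)

theorem post_eq (φ : Ω → ι → ℝ) (w : Ω → ℝ) (s : ℝ) (y : ι → ℝ) :
    post φ w s y = wt w fun x => lk φ s x y := rfl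

theorem lg_lk (φ : Ω → ι → ℝ) (s : ℝ) (x : Ω) : LG (lk φ s x) := (LG.dot' _).sub (.const _)

theorem int_lk (hs : 0 ≤ s) (x : Ω) (a : ι → ℝ) (c : ℝ) :
    ∫ z, exp (lk φ s x (√s • z)) * exp (a ⬝ᵥ √s • z - c) ∂Gs ι =
      exp (s * (a ⬝ᵥ φ x) + s / 2 * (a ⬝ᵥ a) - c) := by
  have e : ∀ z, exp (lk φ s x (√s • z)) * exp (a ⬝ᵥ √s • z - c) =
      exp (s * (a ⬝ᵥ φ x) + s / 2 * (a ⬝ᵥ a) - c) * Rec.eh (√s • (φ x + a)) z := fun z => by
    rw [Rec.eh, ← exp_add, ← exp_add, lk]
    congr 1
    simp only [smul_dotProduct, dotProduct_smul, smul_eq_mul, dotProduct_add, add_dotProduct,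
      dotProduct_comm (φ x) a, dotProduct_comm a z]
    have := mul_self_sqrt hs
    linear_combination (φ x ⬝ᵥ φ x + 2 * (a ⬝ᵥ φ x) + a ⬝ᵥ a) / 2 * this
  simp only [e, integral_const_mul, Rec.int_eh, mul_one]

theorem int_dot (a : ι → ℝ) : ∫ z, a ⬝ᵥ z ∂Gs ι = 0 := by
  simp only [dotProduct]
  rw [integral_finsetSum _ fun i _ => ((Rec.mg_coord i).const_mul _).int]
  simp only [integral_const_mul, Rec.int_coord, mul_zero, Finset.sum_const_zero]

theorem int_affine (a u : ι → ℝ) (t c : ℝ) : ∫ z, (a ⬝ᵥ (u + t • z) - c) ∂Gs ι = a ⬝ᵥ u - c := by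
  simp only [dotProduct_add, dotProduct_smul, smul_eq_mul, add_sub_right_comm]
  rw [integral_add (integrable_const _) ((LG.dot a).xg.mg.const_mul _).int, integral_const_mul, int_dot]
  simp

theorem slE_lin (k : Ω → ℝ) (a : Ω → ι → ℝ) (c : Ω → ℝ) :
    slE φ v s (fun x y => k x * (a x ⬝ᵥ y - c x)) = mean v fun x => k x * (s * (a x ⬝ᵥ φ x) - c x) := by
  simp only [slE_eq_mean, integral_const_mul, int_affine, dotProduct_smul, smul_eq_mul]

theorem int_mean {B : Type*} [Fintype B] (q : B → ℝ) {K : B → (ι → ℝ) → ℝ} (hK : ∀ b, MG (K b)) :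
    ∫ z, mean q (fun b => K b z) ∂Gs ι = mean q fun b => ∫ z, K b z ∂Gs ι := by
  simp only [mean]
  rw [integral_finsetSum _ fun b _ => ((hK b).const_mul _).int]
  simp only [integral_const_mul]

theorem mg_lk (s t : ℝ) (x : Ω) (a : ι → ℝ) (c : ℝ) :
    MG fun z => exp (lk φ s x (t • z)) * exp (a ⬝ᵥ t • z - c) := by
  simpa using (((lg_lk φ s x).exp.mul ((LG.dot a).sub (.const c)).exp).mg.affine 0 t)

/-- the drop of `H` along a channel, variational form -/
theorem kl_chan (h : Pr v w) (hs : 0 ≤ s) (a : ι → ℝ) (c : ℝ)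
    (hc : mean w (fun x => exp (s * (a ⬝ᵥ φ x) + s / 2 * (a ⬝ᵥ a) - c)) ≤ 1) :
    slE φ v s (fun _ y => kl (post φ v s y) (post φ w s y)) ≤ kl v w - (s * (a ⬝ᵥ meanV v φ) - c) := by
  set Z : (Ω → ℝ) → (ι → ℝ) → ℝ := fun u y => log (mean u fun x => exp (lk φ s x y)) with hZ
  have lv : LG (Z v) := .lme h.hv.nn (lg_lk φ s)
  have lw : LG (Z w) := .lme h.hw.nn (lg_lk φ s)
  have la : LG fun y => a ⬝ᵥ y - c := (LG.dot a).sub (.const c)
  have le : MG fun y => exp (Z w y - Z v y + (a ⬝ᵥ y - c)) := ((lw.sub lv).add la).exp.mg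
  have e1 : slE φ v s (fun _ y => kl (post φ v s y) (post φ w s y)) =
      slE φ v s fun x y => log (prob v x / prob w x) - Z v y + Z w y := by
    rw [bayes h.hv hs (.of_mg fun x => (((LG.const _).sub lv).add lw).xg.mg)]
    simp only [post_eq, kl_wt2 h, add_sub_cancel_right, hZ]
  have e2 : slE φ v s (fun _ y => exp (Z w y - Z v y + (a ⬝ᵥ y - c))) ≤ 1 := by
    rw [slE_eq_ref' hs (.of_mg fun _ => le)]
    have e : ∀ y, (∑ x, post φ v s y x * exp (Z w y - Z v y + (a ⬝ᵥ y - c))) =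
        (∑ x, v x) * mean w fun x => exp (lk φ s x y) * exp (a ⬝ᵥ y - c) := fun y => by
      have a1 : 0 < mean v fun x => exp (lk φ s x y) := mean_pos' h.hv fun _ => exp_pos _
      have a2 : 0 < mean w fun x => exp (lk φ s x y) := mean_pos' h.hw fun _ => exp_pos _
      have a3 : ∑ x, post φ v s y x = (∑ x, v x) * mean v fun x => exp (lk φ s x y) := by
        rw [mean_eq_div, mul_div_cancel₀ _ h.hv.pos.ne']; rfl
      rw [← Finset.sum_mul, a3, exp_add, exp_sub, hZ, exp_log a1, exp_log a2, mean_mul_const]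
      field_simp
    simp only [e]
    rw [integral_const_mul, mul_div_cancel_left₀ _ h.hv.pos.ne', int_mean _ fun x => mg_lk s _ x a c]
    simpa only [int_lk hs] using hc
  rw [e1]
  refine (slE_mono (F' := fun x y => log (prob v x / prob w x) - 1 - 1 * (a ⬝ᵥ y - c) +
    exp (Z w y - Z v y + (a ⬝ᵥ y - c))) h.hv (.of_mg fun x => (((LG.const _).sub lv).add lw).xg.mg)
    (.of_mg fun x => ((LG.const _).sub (la.const_mul _)).xg.mg.add le) fun x y => by
      linarith [add_one_le_exp (Z w y - Z v y + (a ⬝ᵥ y - c))]).trans ?_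
  rw [slE_add (.of_mg fun x => ((LG.const _).sub (la.const_mul _)).xg.mg) (.of_mg fun _ => le),
    slE_sub (.of_mg fun x => .const _) (.of_mg fun x => (la.const_mul _).xg.mg), slE_fun,
    slE_lin (fun _ => 1) (fun _ => a) fun _ => c]
  simp only [one_mul, mean_sub, h.hv.mean_const, mean_const_mul, ← meanV_dot]
  rw [dotProduct_comm a]
  change kl v w - 1 - _ + _ ≤ _
  linarith

/-- `H` is a supermartingale along every channel -/
theorem kl_chan_le (h : Pr v w) (hs : 0 ≤ s) :
    slE φ v s (fun _ y => kl (post φ v s y) (post φ w s y)) ≤ kl v w := by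
  simpa using kl_chan (φ := φ) h hs 0 0 (by simp [h.hw.mean_const])

/-- the drop of `H` is at least `s |d|² / 2 - s² B² / 2` -/
theorem kl_chan_drop (h : Pr v w) (hs : 0 ≤ s) {B : ℝ}
    (hB : ∀ x, |(meanV v φ - meanV w φ) ⬝ᵥ φ x| ≤ B) :
    slE φ v s (fun _ y => kl (post φ v s y) (post φ w s y)) ≤
      kl v w - s / 2 * ((meanV v φ - meanV w φ) ⬝ᵥ (meanV v φ - meanV w φ)) + s ^ 2 * B ^ 2 / 2 := by
  set a := meanV v φ - meanV w φ with ha
  refine (kl_chan h hs a (s * (a ⬝ᵥ meanV w φ) + s ^ 2 * B ^ 2 / 2 + s / 2 * (a ⬝ᵥ a)) ?_).trans_eq ?_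
  · have h1 := log_mean_exp_le h.hw (G := fun x => s * (a ⬝ᵥ φ x)) (B := s * B) fun x => by
      rw [abs_mul, abs_of_nonneg hs]; exact mul_le_mul_of_nonneg_left (hB x) hs
    rw [log_le_iff_le_exp (mean_pos' h.hw fun _ => exp_pos _), mean_const_mul, ← meanV_dot,
      dotProduct_comm] at h1
    rw [dotProduct_comm a (meanV w φ)]
    simp only [add_sub_assoc, exp_add, mean_mul_const]
    refine (mul_le_mul_of_nonneg_right h1 (exp_pos _).le).trans_eq ?_
    rw [← exp_add, ← exp_zero]; congr 1; ring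
  · have : a ⬝ᵥ a = a ⬝ᵥ meanV v φ - a ⬝ᵥ meanV w φ := by rw [← dotProduct_sub]
    rw [this]; ring

end chan

section chanCube
variable {ι : Type*} [Fintype ι] [DecidableEq ι] {n : ℕ} {φ : Cube n → ι → ℝ} {u v w : Cube n → ℝ}
  {s : ℝ} {i : Fin n}

/-- the drop of `A_i` along a channel, variational form -/
theorem As_chan (h : Pr v w) (hs : 0 ≤ s) (hu : OffAt i u) (h0 : ∀ x, 0 ≤ u x) {a : Cube n → ι → ℝ}
    {c : Cube n → ℝ} (ha : OffAt i a) (hc : OffAt i c) (hw : ∀ x, v x ≠ 0 →
      siteM w (fun x' => exp (s * (a x ⬝ᵥ φ x') + s / 2 * (a x ⬝ᵥ a x) - c x)) i x ≤ 1) :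
    slE φ v s (fun _ y => As u (post φ v s y) (post φ w s y) i) ≤
      As u v w i - mean v fun x => u x * (s * (a x ⬝ᵥ φ x) - c x) := by
  set Z : (Cube n → ℝ) → Cube n → (ι → ℝ) → ℝ :=
    fun q x y => log (siteM q (fun x => exp (lk φ s x y)) i x) with hZ
  have lv : ∀ x, LG (Z v x) := lg_siteM h.hv (lg_lk φ s) i
  have lw : ∀ x, LG (Z w x) := lg_siteM h.hw (lg_lk φ s) i
  have la : ∀ x, LG fun y => a x ⬝ᵥ y - c x := fun x => (LG.dot _).sub (.const _)
  have le : ∀ x, MG fun y => u x * exp (Z w x y - Z v x y + (a x ⬝ᵥ y - c x)) := fun x =>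
    (((lw x).sub (lv x)).add (la x)).exp.mg.const_mul _
  have l1 : ∀ x, MG fun y => u x * (lr v w i x - Z v x y + Z w x y) := fun x =>
    ((((LG.const _).sub (lv x)).add (lw x)).const_mul _).xg.mg
  have e1 : slE φ v s (fun _ y => As u (post φ v s y) (post φ w s y) i) =
      slE φ v s fun x y => u x * (lr v w i x - Z v x y + Z w x y) := by
    rw [bayes h.hv hs (.of_mg l1)]
    simp only [post_eq, As_wt2 h hu, add_sub_cancel_right, hZ]
  have e2 : slE φ v s (fun x y => u x * exp (Z w x y - Z v x y + (a x ⬝ᵥ y - c x))) ≤ mean v u := by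
    rw [slE_eq_ref' hs (.of_mg le)]
    have e : ∀ y, (∑ x, post φ v s y x * (u x * exp (Z w x y - Z v x y + (a x ⬝ᵥ y - c x)))) =
        (∑ x, v x) * mean v fun x => u x * mean (fun b => w (update x i b)) fun b =>
          exp (lk φ s (update x i b) y) * exp (a x ⬝ᵥ y - c x) := fun y => by
      have o : OffAt i fun x => u x * exp (Z w x y - Z v x y + (a x ⬝ᵥ y - c x)) := fun x b => by
        simp only [hZ, hu x, ha x, hc x, off_siteM _ _ i x]
      have := sum_off h.hv.nn o fun x => exp (lk φ s x y)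
      rw [mean_eq_div, mul_div_cancel₀ _ h.hv.pos.ne']
      refine Eq.trans (Finset.sum_congr rfl fun x _ => ?_)
        (this.symm.trans (Finset.sum_congr rfl fun x _ => ?_))
      · rw [post_eq, wt]; ring
      · by_cases hx : v x = 0
        · simp [hx]
        have a1 := siteM_pos h.hv hx (fun x => exp_pos (lk φ s x y)) i
        have a2 := siteM_pos h.hw (h.pos hx).2.ne' (fun x => exp_pos (lk φ s x y)) i
        rw [mean_mul_const, ← siteM_eq_mean w fun x => exp (lk φ s x y), exp_add, exp_sub, hZ,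
          exp_log a1, exp_log a2]
        field_simp
    simp only [e]
    have m : ∀ x, MG fun z => mean (fun b => w (update x i b)) fun b =>
        exp (lk φ s (update x i b) (√s • z)) * exp (a x ⬝ᵥ √s • z - c x) := fun x =>
      .sum _ fun b _ => (mg_lk s _ _ _ _).const_mul _
    rw [integral_const_mul, mul_div_cancel_left₀ _ h.hv.pos.ne', int_mean _ fun x => (m x).const_mul _]
    refine mean_mono_supp h.hv fun x hx => ?_
    rw [integral_const_mul, int_mean _ fun b => mg_lk s _ _ _ _]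
    simp only [int_lk hs]
    have := hw x hx
    rw [siteM_eq_mean] at this
    exact mul_le_of_le_one_right (h0 x) this
  rw [e1]
  have l2 : ∀ x, MG fun y => u x * lr v w i x - u x - u x * (a x ⬝ᵥ y - c x) := fun x =>
    ((LG.const _).sub ((la x).const_mul _)).xg.mg
  refine (slE_mono (F' := fun x y => u x * lr v w i x - u x - u x * (a x ⬝ᵥ y - c x) +
    u x * exp (Z w x y - Z v x y + (a x ⬝ᵥ y - c x))) h.hv (.of_mg l1)
    (.of_mg fun x => (l2 x).add (le x)) fun x y => by
      nlinarith [mul_le_mul_of_nonneg_left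
        (add_one_le_exp (Z w x y - Z v x y + (a x ⬝ᵥ y - c x))) (h0 x)]).trans ?_
  rw [slE_add (.of_mg l2) (.of_mg le),
    slE_sub (.of_mg fun x => .const _) (.of_mg fun x => ((la x).const_mul _).xg.mg), slE_fun,
    slE_lin, mean_sub, As_eq h.hv hu]
  linarith

/-- **`A_i` is a supermartingale along every channel** -/
theorem As_chan_le (h : Pr v w) (hs : 0 ≤ s) (hu : OffAt i u) (h0 : ∀ x, 0 ≤ u x) :
    slE φ v s (fun _ y => As u (post φ v s y) (post φ w s y) i) ≤ As u v w i := by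
  simpa [h.hv.mean_const] using As_chan (φ := φ) h hs hu h0 (OffAt.const i 0) (OffAt.const i 0)
    fun x hx => by simp [siteM_const h.hw (h.pos hx).2.ne']

theorem mg_As (h : Pr v w) (hu : OffAt i u) (φ : Cube n → ι → ℝ) (s : ℝ) :
    MG fun y => As u (post φ v s y) (post φ w s y) i := (xg_As h hu (lg_lk φ s) (lg_lk φ s)).mg

theorem Ar_chan_le {r : Fin n → Cube n → ℝ} (h : Pr v w) (hs : 0 ≤ s) (hr : Off r)
    (h0 : ∀ i x, 0 ≤ r i x) :
    slE φ v s (fun _ y => Ar r (post φ v s y) (post φ w s y)) ≤ Ar r v w := by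
  simp only [Ar]
  rw [slE_sum (F := fun i _ y => As (r i) (post φ v s y) (post φ w s y) i) _
    fun i _ => .of_mg fun _ => mg_As h (hr i) φ s]
  exact Finset.sum_le_sum fun i _ => As_chan_le h hs (hr i) (h0 i)

theorem cnd_post (hφ : OffAt i φ) (w : Cube n → ℝ) (s : ℝ) (y : ι → ℝ) (x : Cube n) :
    cnd (post φ w s y) i x = cnd w i x := by
  ext b
  simp only [cnd, post, hφ x, ← add_mul]
  exact mul_div_mul_right _ _ (exp_pos _).ne'

/-- frozen conditionals: a martingale if the observation does not involve the site -/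
theorem As_chan_off (hv : Wt v) (hs : 0 ≤ s) (hφ : OffAt i φ) (u w : Cube n → ℝ) :
    slE φ v s (fun _ y => As u (post φ v s y) w i) = As u v w i := by
  simp only [As, kls, cnd_post hφ]
  exact slE_mean hv hs _

theorem As_chan_off' (hv : Wt v) (hs : 0 ≤ s) (hφ : OffAt i φ) (u w : Cube n → ℝ) :
    slE φ v s (fun _ y => As u (post φ v s y) (post φ w s y) i) = As u v w i := by
  simp only [As, kls, cnd_post hφ]
  exact slE_mean hv hs _

/-- **`Cs` is a supermartingale along every channel** -/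
theorem Cs_chan_le (hv : Wt v) (hs : 0 ≤ s) (hu : OffAt i u) (h0 : ∀ x, 0 ≤ u x) :
    slE φ v s (fun _ y => Cs u (post φ v s y) i) ≤ Cs u v i := by
  rw [Cs_eq hv hu, ← slE_mean (φ := φ) hv hs]
  exact slE_mono hv (.of_mg fun _ => (xg_Cs hv (fun x => (lg_lk φ s x).meas) u i).mg)
    (.of_mg fun _ => mg_mean hv s fun _ => .const _) fun _ y =>
      Cs_le (hv.post φ s y) hu h0 (off_cm v i)

theorem Cnt_chan_le {r : Fin n → Cube n → ℝ} (hv : Wt v) (hs : 0 ≤ s) (hr : Off r)
    (h0 : ∀ i x, 0 ≤ r i x) : slE φ v s (fun _ y => Cnt r (post φ v s y)) ≤ Cnt r v := by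
  simp only [Cnt]
  rw [slE_sum (F := fun i _ y => Cs (r i) (post φ v s y) i) _
    fun i _ => .of_mg fun _ => (xg_Cs hv (fun x => (lg_lk φ s x).meas) _ i).mg]
  exact Finset.sum_le_sum fun i _ => Cs_chan_le hv hs (hr i) (h0 i)

theorem cnd_post_sv (w : Cube n → ℝ) (s : ℝ) (y : Fin n → ℝ) :
    cnd (post sv w s y) = cnd (tilt w y) := by
  ext i x b
  simp only [cnd, post_sv, ← add_mul]
  exact mul_div_mul_right _ _ (exp_pos _).ne'

theorem As_post_sv (u v w : Cube n → ℝ) (s s' : ℝ) (y y' : Fin n → ℝ) (i : Fin n) :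
    As u (post sv v s y) (post sv w s' y') i = As u (tilt v y) (tilt w y') i := by
  simp only [As, kls, cnd_post_sv, mean_post_sv]

theorem Ar_post_sv (r : Fin n → Cube n → ℝ) (v w : Cube n → ℝ) (s s' : ℝ) (y y' : Fin n → ℝ) :
    Ar r (post sv v s y) (post sv w s' y') = Ar r (tilt v y) (tilt w y') := by
  simp only [Ar, As_post_sv]

theorem Cs_post_sv (u v : Cube n → ℝ) (s : ℝ) (y : Fin n → ℝ) (i : Fin n) :
    Cs u (post sv v s y) i = Cs u (tilt v y) i := by simp only [Cs, cm, siteM_post_sv, mean_post_sv]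

theorem Cnt_post_sv (r : Fin n → Cube n → ℝ) (v : Cube n → ℝ) (s : ℝ) (y : Fin n → ℝ) :
    Cnt r (post sv v s y) = Cnt r (tilt v y) := by simp only [Cnt, Cs_post_sv]

/-- **the drop of `A_i` along the identity channel** -/
theorem As_sl_drop (h : Pr v w) (hs : 0 ≤ s) (hu : OffAt i u) (h0 : ∀ x, 0 ≤ u x) :
    slE sv v s (fun _ y => As u (tilt v y) (tilt w y) i) ≤
      As u v w i - s * (1 - s) / 2 * mean v fun x => u x * chi v w i x ^ 2 := by
  have oc := off_chi v w i
  have := As_chan (φ := sv) h hs hu h0 (a := fun x => Pi.single i (chi v w i x))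
    (c := fun x => s * chi v w i x * cm w i x + (s + s ^ 2) / 2 * chi v w i x ^ 2)
    (oc.comp _) (oc.comp2 (off_cm w i) fun a b => s * a * b + (s + s ^ 2) / 2 * a ^ 2) fun x hx => by
      have hx' := (h.pos hx).2.ne'
      rw [← log_nonpos_iff (siteM_pos h.hw hx' (fun _ => exp_pos _) i).le, log_siteM_exp h.hw hx',
        siteM_lin h.hw hx']
      have e : grad (fun x' => s * (Pi.single i (chi v w i x) ⬝ᵥ sv x') +
          s / 2 * (Pi.single i (chi v w i x) ⬝ᵥ Pi.single i (chi v w i x)) -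
          (s * chi v w i x * cm w i x + (s + s ^ 2) / 2 * chi v w i x ^ 2)) x i = s * chi v w i x := by
        simp [grad, incr, sv, Crest.ProbabilityR.SpinGlassDynamics.spin]
      rw [e]
      have := cg_le (abs_cm_le h.hw.nn i x) (s * chi v w i x)
      simp [sv, Crest.ProbabilityR.SpinGlassDynamics.spin]
      nlinarith
  simp only [As_post_sv, single_dotProduct] at this
  refine this.trans_eq ?_
  have e : ∀ x, u x * (s * (chi v w i x * sv x i) -
      (s * chi v w i x * cm w i x + (s + s ^ 2) / 2 * chi v w i x ^ 2)) =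
      s * (u x * chi v w i x * sv x i) -
        u x * (s * chi v w i x * cm w i x + (s + s ^ 2) / 2 * chi v w i x ^ 2) := fun x => by ring
  simp only [e, mean_sub, mean_const_mul, ← mean_cm h.hv (hu.mul oc)]
  rw [← mean_const_mul, ← mean_const_mul, ← mean_sub]
  congr 2; ext x
  have : cm v i x = chi v w i x + cm w i x := by rw [chi]; ring
  rw [this]; ring

end chanCube

end Crest.Agent.T157.Ta
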