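import Crest.Agent.T157.SLE_23
import Crest.Agent.T157.EntE_34
import Crest.Agent.T157.RecB_77

/-!
# Row 157, block B, S1 (T-a): words for the exact identities (helper40)

All weights are nonnegative (true pins are allowed), `Pr v w` says `v ≪ w`.
-/

set_option autoImplicit false

noncomputable section

namespace Crest.Agent.T157.Ta

open MeasureTheory Real Matrix Function
open Crest.Agent.T157.E Crest.Agent.T157.SL
open Crest.Agent.T157.Ent (cnd)

section
variable {Ω : Type*} [Fintype Ω]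

/-- a pair of admissible weights with `v ≪ w` -/
structure Pr (v w : Ω → ℝ) : Prop where
  hv : Wt v
  hw : Wt w
  ac : ∀ x, w x = 0 → v x = 0

/-- tilt by `e ^ G` -/
def wt (w G : Ω → ℝ) : Ω → ℝ := fun x => w x * exp (G x)

/-- restriction to `{ρ = a}` (pins, reveals) -/
def cut {A : Type*} [DecidableEq A] (w : Ω → ℝ) (ρ : Ω → A) (a : A) : Ω → ℝ :=
  fun x => if ρ x = a then w x else 0

/-- the law of `ρ` -/
def push {A : Type*} [DecidableEq A] (w : Ω → ℝ) (ρ : Ω → A) (a : A) : ℝ :=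
  mean w fun x => if ρ x = a then 1 else 0

end

variable {n : ℕ}

/-- does not depend on the spin `i` -/
def OffAt {α : Type*} (i : Fin n) (u : Cube n → α) : Prop := ∀ x b, u (update x i b) = u x

/-- site weights: `r i` does not depend on the spin `i` -/
def Off (r : Fin n → Cube n → ℝ) : Prop := ∀ i, OffAt i (r i)

/-- relative entropy of the conditional laws at the site `i` -/
def kls (v w : Cube n → ℝ) (i : Fin n) (x : Cube n) : ℝ := Ent.kl (cnd v i x) (cnd w i x)

/-- the term of the site `i` with the weight `u` -/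
def As (u v w : Cube n → ℝ) (i : Fin n) : ℝ := mean v fun x => u x * kls v w i x

/-- `A^r (ν | π)` -/
def Ar (r : Fin n → Cube n → ℝ) (v w : Cube n → ℝ) : ℝ := ∑ i, As (r i) v w i

/-- conditional mean of the spin `i` -/
def cm (w : Cube n → ℝ) (i : Fin n) (x : Cube n) : ℝ := siteM w (fun x => sv x i) i x

/-- difference of the conditional means -/
def chi (v w : Cube n → ℝ) (i : Fin n) (x : Cube n) : ℝ := cm v i x - cm w i x

/-- difference of the magnetisations -/
def Dm (v w : Cube n → ℝ) : Fin n → ℝ := mag v - mag w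

/-- weighted conditional variance of the spin `i` -/
def Cs (u v : Cube n → ℝ) (i : Fin n) : ℝ := mean v fun x => u x * (1 - cm v i x ^ 2)

/-- weighted sum of the conditional variances -/
def Cnt (r : Fin n → Cube n → ℝ) (v : Cube n → ℝ) : ℝ := ∑ i, Cs (r i) v i

/-- measurable of exponential growth -/
structure XG {X : Type*} [Norm X] [MeasurableSpace X] (F : X → ℝ) : Prop where
  meas : Measurable F
  bd : ∃ C c : ℝ, 0 ≤ C ∧ 0 ≤ c ∧ ∀ y, |F y| ≤ C * exp (c * ‖y‖)

/-- pairs of fields -/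
abbrev P2 (n : ℕ) : Type := (Fin n → ℝ) × (Fin n → ℝ)

/-- `|m(ν_y) - m(π_y')|²` -/
def D2 (v w : Cube n → ℝ) (p : P2 n) : ℝ :=
  Dm (tilt v p.1) (tilt w p.2) ⬝ᵥ Dm (tilt v p.1) (tilt w p.2)

/-- the output of the synchronous window of length `τ` -/
structure Win (r : Fin n → Cube n → ℝ) (v w : Cube n → ℝ) (τ ε : ℝ) (P : Measure (P2 n)) : Prop where
  prob : IsProbabilityMeasure P
  fst : P.map Prod.fst = law sv v τ
  snd : P.map Prod.snd = law sv w τ
  int : ∀ F : P2 n → ℝ, XG F → Integrable F P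
  A : ∫ p, Ar r (tilt v p.1) (tilt w p.2) ∂P ≤ Ar r v w + τ / 2 * ∫ p, D2 v w p ∂P + ε
  H : kl v w ≤ ∫ p, kl (tilt v p.1) (tilt w p.2) ∂P
  H' : ∫ p, kl (tilt v p.1) (tilt w p.2) ∂P ≤ kl v w + τ / 2 * ∫ p, D2 v w p ∂P + ε
  Y : ∫ p, (p.1 - p.2) ⬝ᵥ (p.1 - p.2) ∂P ≤ 2 * τ ^ 2 * ∫ p, D2 v w p ∂P + ε
  D : Dm v w ⬝ᵥ Dm v w ≤ ∫ p, D2 v w p ∂P

/-- **SYNC** -/
def Sync : Prop := ∀ (n : ℕ) (r : Fin n → Cube n → ℝ) (v w : Cube n → ℝ) (τ ε : ℝ), Pr v w → Off r →
  (∀ i x, 0 ≤ r i x ∧ r i x ≤ 1) → 0 < τ → 0 < ε → ∃ P, Win r v w τ ε P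

end Crest.Agent.T157.Ta
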