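import Crest.Agent.T157.TapDef_29
import Crest.Agent.T157.KrR_53

/-!
# Row 157, part A (helper43): `Tap.RamStmt`

For slopes in `[0,1]` and every `|t| ≤ 5` there are `κ, τ` with `κ + τ ≤ t² - t⁴/74` and
`E exp (t (z ψ - ψ') - κ ψ²) ≤ exp τ`; Chernoff's bound with `t = S₀/2`.
-/

set_option autoImplicit false

noncomputable section

namespace Crest.Agent.T157.Tap

open MeasureTheory ProbabilityTheory Real Set
open Crest.Agent.T157.E Crest.Agent.T157.Kr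

namespace Ram43

/-- the tilt: parameters of the Ramer map and the pointwise comparison -/
lemma exists_par {t : ℝ} (ht : |t| ≤ 5) : ∃ κ τ θ a : ℝ, 0 ≤ κ ∧ κ ≤ 25 ∧
    κ + τ ≤ t ^ 2 - t ^ 4 / 74 ∧ θ < 1 ∧ 0 < a ∧ ∀ z p d : ℝ, 0 ≤ d → d ≤ 1 →
      t * (z * p - d) - κ * p ^ 2 - τ ≤
        (1 - a ^ 2) / 2 * z ^ 2 + a ^ 2 * θ * (z * p) - a ^ 2 * θ ^ 2 / 2 * p ^ 2 + log a +
          log (1 - θ) * d := by
  obtain ⟨h1, h2⟩ := abs_le.1 ht
  rcases le_total 0 t with h0 | h0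
  · set Q := 1 + t + t ^ 2 / 2 with hQ
    have hQ0 : 0 < Q := by positivity
    set δ := t - 1 + Q⁻¹ with hδ
    have e1 : δ * Q = (t ^ 2 + t ^ 3) / 2 := by rw [hδ, hQ]; field_simp; ring
    have hδ0 : 0 ≤ δ := by
      by_contra hc
      push Not at hc
      nlinarith [mul_pos (neg_pos.2 hc) hQ0, pow_nonneg h0 2, pow_nonneg h0 3]
    have e2 : (t ^ 2 / 2 - δ) * Q = t ^ 4 / 4 := by rw [sub_mul, e1, hQ]; ring
    have hQ1 : Q ≤ 37 / 2 := by rw [hQ]; nlinarith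
    have h3 : t ^ 4 / 74 ≤ t ^ 2 / 2 - δ := by
      by_contra hc
      push Not at hc
      have h4 := mul_lt_mul_of_pos_right hc hQ0
      have h5 := mul_le_mul_of_nonneg_left hQ1 (show 0 ≤ t ^ 4 / 74 by positivity)
      linarith
    have h4 : 0 ≤ t ^ 4 := by positivity
    have h5 : t ^ 2 ≤ 25 := by nlinarith
    have hD : 0 < 1 + δ := by linarith
    have hs : 0 < √(1 + δ) := sqrt_pos.2 hD
    have ha2 : (√(1 + δ))⁻¹ ^ 2 = (1 + δ)⁻¹ := by rw [inv_pow, sq_sqrt hD.le]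
    refine ⟨(t ^ 2 + δ) / 2, δ / 2, t - δ, (√(1 + δ))⁻¹, by positivity, by linarith, by linarith,
      ?_, by positivity, fun z p d d0 _ => ?_⟩
    · have : 0 < Q⁻¹ := by positivity
      linarith
    · have l1 : -(δ / 2) ≤ log (√(1 + δ))⁻¹ := by
        rw [log_inv, log_sqrt hD.le]
        linarith [log_le_sub_one_of_pos hD]
      have l2 : -t ≤ log (1 - (t - δ)) := by
        rw [show 1 - (t - δ) = Q⁻¹ by rw [hδ]; ring, log_inv, neg_le_neg_iff,
          log_le_iff_le_exp hQ0]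
        exact quadratic_le_exp_of_nonneg h0
      have l3 := mul_le_mul_of_nonneg_right l2 d0
      have l4 : (1 - (1 + δ)⁻¹) / 2 * z ^ 2 + (1 + δ)⁻¹ * (t - δ) * (z * p) -
          (1 + δ)⁻¹ * (t - δ) ^ 2 / 2 * p ^ 2 - (t * (z * p) - (t ^ 2 + δ) / 2 * p ^ 2) =
          δ * (z - (1 + t) * p) ^ 2 / (2 * (1 + δ)) := by
        field_simp; ring
      have l5 : 0 ≤ δ * (z - (1 + t) * p) ^ 2 / (2 * (1 + δ)) := by positivity
      rw [ha2]
      linarith
  · have r0 : 0 ≤ -t := by linarith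
    have l1 := le_log_one_add_of_nonneg r0
    have l2 : log (1 - t) ≤ -t := by
      linarith [log_le_sub_one_of_pos (show 0 < 1 - t by linarith)]
    rw [show 1 + -t = 1 - t by ring, div_le_iff₀ (by linarith)] at l1
    have h5 : t ^ 2 ≤ 25 := by nlinarith
    refine ⟨t ^ 2 / 2, -t - log (1 - t), t, 1, by positivity, by linarith, ?_, by linarith,
      one_pos, fun z p d _ d1 => ?_⟩
    · by_contra hc
      push Not at hc
      have h4 := mul_lt_mul_of_pos_right hc (show 0 < -t + 2 by linarith)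
      have h6 : 0 ≤ (-t) ^ 3 := by positivity
      have h7 : 0 ≤ (-t) ^ 3 * (37 - (-t) * (-t + 2)) := mul_nonneg h6 (by nlinarith)
      nlinarith
    · rw [log_one]
      nlinarith [mul_nonneg (sub_nonneg.2 l2) (sub_nonneg.2 d1)]

/-- Chernoff form of the Ramer inequality -/
theorem tilt {t : ℝ} (ht : |t| ≤ 5) : ∃ κ τ : ℝ, 0 ≤ κ ∧ κ ≤ 25 ∧ κ + τ ≤ t ^ 2 - t ^ 4 / 74 ∧
    ∀ (n : ℕ) (ψ ψ' : Fin n → ℝ → ℝ), Slope ψ ψ' → ∀ V : ℝ,
      (gv (Fin n)).real {z | V ≤ ∑ i, (t * (z i * ψ i (z i) - ψ' i (z i)) - κ * ψ i (z i) ^ 2 - τ)}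
        ≤ exp (-V) := by
  obtain ⟨κ, τ, θ, a, h0, h1, h2, hθ, ha, h⟩ := exists_par ht
  refine ⟨κ, τ, h0, h1, h2, fun n ψ ψ' hs V => ?_⟩
  refine le_trans (measureReal_mono fun z hz => ?_) (ramer_markov hs.hd ha.le (θ := θ)
    (fun i z => ?_) V)
  · refine le_trans (exp_le_exp.2 (le_trans hz ?_)) (prod_ram_ge hs hθ ha z)
    have e : (Fintype.card (Fin n) : ℝ) * log a = ∑ _i : Fin n, log a := by simp
    rw [e]
    simp only [Finset.mul_sum, ← Finset.sum_add_distrib, ← Finset.sum_sub_distrib]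
    exact Finset.sum_le_sum fun i _ => h _ _ _ (hs.h0 i _) (hs.h1 i _)
  · have := hs.h0 i z
    have := hs.h1 i z
    nlinarith

lemma hasDerivAt_tanh (x : ℝ) : HasDerivAt Real.tanh (1 - Real.tanh x ^ 2) x := by
  have h := (Real.hasDerivAt_sinh x).div (Real.hasDerivAt_cosh x) (Real.cosh_pos x).ne'
  have e : Real.sinh / Real.cosh = Real.tanh :=
    funext fun y => (Real.tanh_eq_sinh_div_cosh y).symm
  rw [e] at h
  refine h.congr_deriv ?_
  rw [Real.tanh_eq_sinh_div_cosh]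
  field_simp

lemma tanh_sq_le (x : ℝ) : Real.tanh x ^ 2 ≤ 1 := by
  have := Real.tanh_lt_one x
  have := Real.neg_one_lt_tanh x
  nlinarith

lemma slope {n : ℕ} (m : Fin n → ℝ) {β a0 : ℝ} (hβ : β ∈ Icc (0 : ℝ) 1) (ha : 0 < a0) :
    Slope (fun i z => Real.tanh (m i + β * √a0 * z) / √a0)
      (fun i z => β * (1 - Real.tanh (m i + β * √a0 * z) ^ 2)) := by
  have hs : 0 < √a0 := sqrt_pos.2 ha
  refine ⟨fun i z => ?_, fun i z => mul_nonneg hβ.1 (sub_nonneg.2 (tanh_sq_le _)), fun i z => ?_⟩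
  · have h1 : HasDerivAt (fun z => m i + β * √a0 * z) (β * √a0 * 1) z :=
      ((hasDerivAt_id z).const_mul _).const_add _
    refine (((hasDerivAt_tanh _).comp z h1).div_const (√a0)).congr_deriv ?_
    field_simp
  · exact mul_le_one₀ hβ.2 (sub_nonneg.2 (tanh_sq_le _)) (by nlinarith [sq_nonneg (Real.tanh
      (m i + β * √a0 * z))])

/-- the scalar bookkeeping -/
lemma num {am e1 ε a0 S0 β A u κ τ : ℝ} (ham : 0 < am) (he : 0 < e1) (hβ : β ∈ Icc (0 : ℝ) 1)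
    (hε : 0 < ε) (hεa : ε ≤ am / 2) (ha : a0 ∈ Icc am 1) (h1 : e1 ≤ |S0|) (h2 : |S0| ≤ 10)
    (hA1 : A ≤ 1) (hA : |A - a0| ≤ ε) (hS : |u / √A - β * (1 - A) - S0| ≤ ε) (k0 : 0 ≤ κ)
    (k1 : κ ≤ 25) (k2 : κ + τ ≤ (S0 / 2) ^ 2 - (S0 / 2) ^ 4 / 74) :
    S0 ^ 2 / 4 + (e1 / 2) ^ 4 / 74 - (5 + 85 / am) * ε ≤
      S0 / 2 * (u / √a0 - β * (1 - A)) - κ * (A / a0) - τ := by
  have ha0 : 0 < a0 := ham.trans_le ha.1
  obtain ⟨hA2, hA3⟩ := abs_le.1 hA
  have hA0 : 0 < A := by linarith [ha.1]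
  have sA : 0 < √A := sqrt_pos.2 hA0
  have sa : 0 < √a0 := sqrt_pos.2 ha0
  set η := u / √A with hη
  set ρ := √A / √a0 with hρ
  have ρ0 : 0 < ρ := by positivity
  have e1' : u / √a0 = η * ρ := by rw [hη, hρ]; field_simp
  have e2 : A / a0 = ρ ^ 2 := by rw [hρ, div_pow, sq_sqrt hA0.le, sq_sqrt ha0.le]
  set w := ε / am with hw
  have w0 : 0 < w := by positivity
  have hρ2 : |ρ ^ 2 - 1| ≤ w := by
    rw [← e2, show A / a0 - 1 = (A - a0) / a0 by field_simp, abs_div, abs_of_pos ha0]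
    exact div_le_div₀ hε.le hA ham ha.1
  have hρ1 : |ρ - 1| ≤ w := by
    refine le_trans ?_ hρ2
    rw [show ρ ^ 2 - 1 = (ρ - 1) * (ρ + 1) by ring, abs_mul]
    exact le_mul_of_one_le_right (abs_nonneg _) (by rw [abs_of_pos (by linarith)]; linarith)
  have b0 : 0 ≤ β * (1 - A) := mul_nonneg hβ.1 (by linarith)
  have b1 : β * (1 - A) ≤ 1 := mul_le_one₀ hβ.2 (by linarith) (by linarith)
  have hη1 : |η| ≤ 12 := by
    obtain ⟨s1, s2⟩ := abs_le.1 hS
    obtain ⟨s3, s4⟩ := abs_le.1 h2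
    rw [abs_le]
    constructor <;> linarith [ha.1, ha.2]
  have ht : |S0 / 2| ≤ 5 := by rw [abs_div, abs_two]; linarith
  have c1 : |S0 / 2 * (η - β * (1 - A) - S0)| ≤ 5 * ε := by
    rw [abs_mul]; exact mul_le_mul ht hS (abs_nonneg _) (by norm_num)
  have c2 : |S0 / 2 * (η * (ρ - 1))| ≤ 5 * (12 * w) := by
    rw [abs_mul, abs_mul η]
    exact mul_le_mul ht (mul_le_mul hη1 hρ1 (abs_nonneg _) (by norm_num)) (by positivity)
      (by norm_num)
  have c3 : κ * (ρ ^ 2 - 1) ≤ 25 * w :=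
    (mul_le_mul_of_nonneg_left (abs_le.1 hρ2).2 k0).trans
      (mul_le_mul_of_nonneg_right k1 w0.le)
  have c4 : (e1 / 2) ^ 4 ≤ (S0 / 2) ^ 4 := by
    have : (S0 / 2) ^ 4 = (|S0| / 2) ^ 4 := by
      rw [div_pow, div_pow, show (4 : ℕ) = 2 * 2 from rfl, pow_mul, pow_mul |S0|, sq_abs]
    rw [this]
    exact pow_le_pow_left₀ (by positivity) (by linarith) 4
  have e3 : (5 + 85 / am) * ε = 5 * ε + 85 * w := by rw [hw]; ring
  rw [e1', e2, e3]
  have d1 := (abs_le.1 c1).1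
  have d2 := (abs_le.1 c2).1
  nlinarith

end Ram43

open Ram43 in
theorem ramStmt : RamStmt := by
  intro am ham e1 he
  refine ⟨(e1 / 2) ^ 4 / 74, by positivity, 5 + 85 / am, ?_⟩
  intro n β s ε a0 b0 S0 hn hβ hε hεa ha h1 h2
  have ha0 : 0 < a0 := ham.trans_le ha.1
  have hn' : (0 : ℝ) < n := Nat.cast_pos.2 hn
  obtain ⟨κ, τ, k0, k1, k2, hT⟩ := tilt (t := S0 / 2) (by rw [abs_div, abs_two]; linarith)
  set Vv : ℝ := n * (S0 ^ 2 / 4 + (e1 / 2) ^ 4 / 74 - (5 + 85 / am) * ε) with hV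
  set F : V n × V n → ℝ := fun z => ∑ i, (S0 / 2 *
    (z.2 i * (Real.tanh (s + β ^ 2 * b0 + √s * z.1 i + β * √a0 * z.2 i) / √a0) -
      β * (1 - Real.tanh (s + β ^ 2 * b0 + √s * z.1 i + β * √a0 * z.2 i) ^ 2)) -
    κ * (Real.tanh (s + β ^ 2 * b0 + √s * z.1 i + β * √a0 * z.2 i) / √a0) ^ 2 - τ) with hF
  have hc : Continuous Real.tanh :=
    continuous_iff_continuousAt.2 fun x => (Ram43.hasDerivAt_tanh x).continuousAt
  have hFm : Measurable F := by
    have := hc.measurable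
    rw [hF]; fun_prop
  have hB : MeasurableSet {z | Vv ≤ F z} := measurableSet_le measurable_const hFm
  refine le_trans (measure_mono (t := {z | Vv ≤ F z}) fun z hz => ?_) ?_
  · obtain ⟨z1, z2⟩ := hz
    have hA1 : aS (xv β s a0 b0 z.1 z.2) ≤ 1 := by
      rw [aS, avg, div_le_one hn']
      exact (Finset.sum_le_sum fun i _ => tanh_sq_le _).trans (by simp)
    have key := mul_le_mul_of_nonneg_left
      (num ham he hβ hε hεa ha h1 h2 hA1 z1 z2 k0 k1 k2) hn'.le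
    refine key.trans (le_of_eq ?_)
    simp only [hF, aS, avg, th, xv, Finset.sum_sub_distrib, ← Finset.mul_sum, div_pow,
      sq_sqrt ha0.le, ← mul_div_assoc, ← Finset.sum_div, Finset.sum_const, Finset.card_univ,
      Fintype.card_fin, nsmul_eq_mul]
    generalize ∑ i, z.2 i * Real.tanh (s + β ^ 2 * b0 + √s * z.1 i + β * √a0 * z.2 i) = X
    generalize ∑ i, Real.tanh (s + β ^ 2 * b0 + √s * z.1 i + β * √a0 * z.2 i) ^ 2 = Y
    field_simp
  · rw [Measure.prod_apply hB]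
    refine (lintegral_mono (g := fun _ => ENNReal.ofReal (exp (-Vv))) fun g => ?_).trans ?_
    · have h := hT n _ _ (slope (fun i => s + β ^ 2 * b0 + √s * g i) hβ ha0) Vv
      rw [← ofReal_measureReal]
      exact ENNReal.ofReal_le_ofReal h
    · rw [lintegral_const, measure_univ, mul_one, hV, neg_mul]

end Crest.Agent.T157.Tap

end
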