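import Crest.Agent.T157.TapFrz_25
import Crest.Agent.T157.TapAlg_29
import Crest.Agent.T157.ConcP_16
import Crest.Agent.T157.ConcS_16

/-!
# Row 157, part A, `SFGStmt` (helper18): exponential law of large numbers

* `subE_of_exp`: a variable with an exponential moment is sub-exponential after centring;
* `lln2`: `P_x (η ≤ E_y |∑ (f (x_i, y_i) - m)| / n) ≤ 2 exp (-κ n)`;
* `lln3`: the same for `f (g_i, Z_i, ξ_i)` of quadratic growth, `x = (g, Z)`, `y = ξ`.
-/

set_option autoImplicit false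

noncomputable section

namespace Crest.Agent.T157.Tap.Sfg

open MeasureTheory ProbabilityTheory Matrix Filter Set
open Crest.Agent.T157.E Crest.Agent.T157.Conc
open Crest.Agent.R339.Guerra (γ)

section general
variable {Ω Ω' : Type*} [MeasurableSpace Ω] [MeasurableSpace Ω']

lemma subE_of_exp {μ : Measure Ω} [IsProbabilityMeasure μ] {X : Ω → ℝ} (hX : Measurable X)
    {b : ℝ} (hb : 0 < b) (h : Integrable (fun x => Real.exp (b * |X x|)) μ) :
    ∃ v > (0 : ℝ), SubE (fun x => X x - ∫ y, X y ∂μ) v (b / 2) μ := by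
  set m := ∫ y, X y ∂μ with hm
  have hXi : Integrable X μ := by
    refine (h.const_mul (1 / b)).mono' hX.aestronglyMeasurable (ae_of_all _ fun x => ?_)
    have h1 := Real.add_one_le_exp (b * |X x|)
    rw [Real.norm_eq_abs, one_div, inv_mul_eq_div, le_div_iff₀ hb]
    linarith
  have hY : Integrable (fun x => Real.exp (b * |X x - m|)) μ := by
    refine (h.const_mul (Real.exp (b * |m|))).mono' (by fun_prop) (ae_of_all _ fun x => ?_)
    rw [Real.norm_eq_abs, abs_of_pos (Real.exp_pos _), ← Real.exp_add]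
    refine Real.exp_le_exp.2 ?_
    have := abs_sub (X x) m
    nlinarith
  have hsq : ∀ y : ℝ, y ^ 2 * Real.exp (b / 2 * |y|) ≤ 8 / b ^ 2 * Real.exp (b * |y|) := by
    intro y
    have h1 := abs_pow_le_exp_abs (b / 2 * y) 2
    rw [abs_mul, abs_of_pos (by positivity : 0 < b / 2), mul_pow, sq_abs] at h1
    have h2 : Real.exp (b * |y|) = Real.exp (b / 2 * |y|) * Real.exp (b / 2 * |y|) := by
      rw [← Real.exp_add]; congr 1; ring
    rw [h2, ← mul_assoc]
    refine mul_le_mul_of_nonneg_right ?_ (Real.exp_pos _).le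
    rw [div_mul_eq_mul_div, le_div_iff₀ (by positivity)]
    norm_num at h1
    nlinarith
  set v := 8 / b ^ 2 * ∫ x, Real.exp (b * |X x - m|) ∂μ with hv
  have hv0 : 0 ≤ v := mul_nonneg (by positivity) (integral_nonneg fun x => (Real.exp_pos _).le)
  refine ⟨v + 1, by linarith, (hX.sub_const m).aemeasurable, fun t ht => ?_⟩
  have hpt : ∀ x, Real.exp (t * (X x - m)) ≤
      1 + t * (X x - m) + t ^ 2 * (8 / b ^ 2 * Real.exp (b * |X x - m|)) := by
    intro x
    have h1 := abs_exp_sub_le (t * (X x - m)) 2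
    simp only [Finset.sum_range_succ, Finset.sum_range_zero, pow_zero, Nat.factorial_zero,
      Nat.cast_one, div_one, zero_add, pow_one, Nat.factorial_one] at h1
    have h2 : |t * (X x - m)| ^ 2 * Real.exp |t * (X x - m)| ≤
        t ^ 2 * ((X x - m) ^ 2 * Real.exp (b / 2 * |X x - m|)) := by
      rw [sq_abs, mul_pow, mul_assoc]
      refine mul_le_mul_of_nonneg_left (mul_le_mul_of_nonneg_left (Real.exp_le_exp.2 ?_)
        (sq_nonneg _)) (sq_nonneg _)
      rw [abs_mul]
      exact mul_le_mul_of_nonneg_right ht (abs_nonneg _)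
    have h3 := mul_le_mul_of_nonneg_left (hsq (X x - m)) (sq_nonneg t)
    have h4 := (abs_le.1 h1).2
    linarith
  have hI : Integrable (fun x => 1 + t * (X x - m) +
      t ^ 2 * (8 / b ^ 2 * Real.exp (b * |X x - m|))) μ :=
    ((integrable_const 1).add ((hXi.sub (integrable_const m)).const_mul t)).add
      ((hY.const_mul _).const_mul _)
  have hE : Integrable (fun x => Real.exp (t * (X x - m))) μ :=
    hI.mono' (by fun_prop) (ae_of_all _ fun x => by
      rw [Real.norm_eq_abs, abs_of_pos (Real.exp_pos _)]; exact hpt x)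
  refine lint_ex_le_of_integral hE ((integral_mono hE hI hpt).trans ?_)
  have hA : Integrable (fun x => t * (X x - m)) μ := (hXi.sub (integrable_const m)).const_mul t
  have hB : Integrable (fun x => 1 + t * (X x - m)) μ := (integrable_const 1).add hA
  have hC : Integrable (fun x => t ^ 2 * (8 / b ^ 2 * Real.exp (b * |X x - m|))) μ :=
    (hY.const_mul _).const_mul _
  rw [integral_add hB hC, integral_add (integrable_const 1) hA, integral_const_mul,
    integral_sub hXi (integrable_const m), integral_const_mul, integral_const_mul]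
  simp only [integral_const, probReal_univ, smul_eq_mul, one_mul]
  have h1 := Real.add_one_le_exp ((v + 1) * t ^ 2)
  rw [← hm, ← hv]
  nlinarith [sq_nonneg t]

/-- Jensen in lower-integral form -/
lemma ex_integral_le {ν : Measure Ω'} [IsProbabilityMeasure ν] {u : Ω' → ℝ} (hm : Measurable u)
    (hu : Integrable u ν) : ex (∫ y, u y ∂ν) ≤ ∫⁻ y, ex (u y) ∂ν := by
  by_cases h : Integrable (fun y => Real.exp (u y)) ν
  · rw [lintegral_ex h]
    exact ENNReal.ofReal_le_ofReal (exp_integral_le hu h)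
  · have : ∫⁻ y, ex (u y) ∂ν = ⊤ := by
      by_contra hne
      exact h ((lintegral_ofReal_ne_top_iff_integrable (by fun_prop)
        (ae_of_all _ fun y => (Real.exp_pos _).le)).1 hne)
    rw [this]; exact le_top

lemma ex_abs_le (t y : ℝ) : ex (t * |y|) ≤ ex (t * y) + ex (-t * y) := by
  rcases abs_cases y with h | h
  · rw [h.1]; exact le_self_add
  · rw [h.1, show t * -y = -t * y by ring]; exact le_add_self

/-- tail of a partial expectation of `|S|` -/
lemma partial_tail {μ : Measure Ω} {ν : Measure Ω'} [IsProbabilityMeasure μ]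
    [IsProbabilityMeasure ν] {S : Ω × Ω' → ℝ} (hS : Measurable S)
    (hi : ∀ x, Integrable (fun y => S (x, y)) ν) {v b t : ℝ} (h : SubE S v b (μ.prod ν))
    (ht0 : 0 ≤ t) (ht : t ≤ b) (u : ℝ) :
    μ {x | u ≤ ∫ y, |S (x, y)| ∂ν} ≤ ENNReal.ofReal (2 * Real.exp (v * t ^ 2 - t * u)) := by
  have hΦ : Measurable fun x => ∫ y, |S (x, y)| ∂ν :=
    (hS.abs.stronglyMeasurable.integral_prod_right' (ν := ν)).measurable
  have h1 : ∫⁻ x, ex (t * ∫ y, |S (x, y)| ∂ν) ∂μ ≤ ex (Real.log 2 + v * t ^ 2) := by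
    calc ∫⁻ x, ex (t * ∫ y, |S (x, y)| ∂ν) ∂μ
        ≤ ∫⁻ x, ∫⁻ y, ex (t * |S (x, y)|) ∂ν ∂μ := by
          refine lintegral_mono fun x => ?_
          rw [← integral_const_mul]
          exact ex_integral_le (by fun_prop) ((hi x).abs.const_mul t)
      _ = ∫⁻ z, ex (t * |S z|) ∂(μ.prod ν) :=
          (lintegral_prod (fun z => ex (t * |S z|)) (by fun_prop)).symm
      _ ≤ ∫⁻ z, (ex (t * S z) + ex (-t * S z)) ∂(μ.prod ν) := lintegral_mono fun z => ex_abs_le _ _
      _ = ∫⁻ z, ex (t * S z) ∂(μ.prod ν) + ∫⁻ z, ex (-t * S z) ∂(μ.prod ν) :=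
          lintegral_add_left (by fun_prop) _
      _ ≤ ex (v * t ^ 2) + ex (v * (-t) ^ 2) :=
          add_le_add (h.2 t (by rwa [abs_of_nonneg ht0])) (h.2 (-t) (by rwa [abs_neg, abs_of_nonneg ht0]))
      _ = ex (Real.log 2 + v * t ^ 2) := by
          rw [neg_sq, ex_add, ← two_mul]
          congr 1
          rw [ex, Real.exp_log (by norm_num)]
          simp
  refine (chernoff hΦ.aemeasurable ht0 h1 u).trans (le_of_eq ?_)
  rw [ex, show Real.log 2 + v * t ^ 2 - t * u = Real.log 2 + (v * t ^ 2 - t * u) by ring,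
    Real.exp_add, Real.exp_log (by norm_num)]

lemma SubE.of_mp {μ : Measure Ω} {ν : Measure Ω'} {e : Ω → Ω'} (he : MeasurePreserving e μ ν)
    {S : Ω' → ℝ} (hS : Measurable S) {v b : ℝ} (h : SubE (fun x => S (e x)) v b μ) :
    SubE S v b ν := by
  refine ⟨hS.aemeasurable, fun t ht => ?_⟩
  rw [← he.lintegral_comp (f := fun y => ex (t * S y)) (by fun_prop)]
  exact h.2 t ht

end general

/-- expectation over three independent standard Gaussians -/
def E3 (f : ℝ → ℝ → ℝ → ℝ) : ℝ := ∫ w : (ℝ × ℝ) × ℝ, f w.1.1 w.1.2 w.2 ∂((γ.prod γ).prod γ)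

lemma integrable_exp_sq : ∃ C > (0 : ℝ), Integrable (fun x : ℝ => Real.exp (C * x ^ 2)) γ := by
  obtain ⟨C, hC, h⟩ := IsGaussian.exists_integrable_exp_sq (gaussianReal 0 1)
  exact ⟨C, hC, by simpa [Real.norm_eq_abs, sq_abs] using h⟩

lemma integrable_sq : Integrable (fun x : ℝ => x ^ 2) γ :=
  (memLp_id_gaussianReal (μ := 0) (v := 1) 2).integrable_sq

variable {n : ℕ}

lemma integrable_avg {f : ℝ → ℝ → ℝ → ℝ}
    (hf : Measurable fun w : (ℝ × ℝ) × ℝ => f w.1.1 w.1.2 w.2) {K : ℝ}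
    (hK : ∀ g z ξ, |f g z ξ| ≤ K * (1 + z ^ 2 + ξ ^ 2)) (g Z : V n) :
    Integrable (fun ξ : V n => ∑ i, f (g i) (Z i) (ξ i)) (E.gv (Fin n)) := by
  refine integrable_finsetSum _ fun i _ => ?_
  have h1 : Integrable (fun x => f (g i) (Z i) x) γ := by
    refine (((integrable_const (1 + Z i ^ 2)).add integrable_sq).const_mul K).mono'
      (hf.comp (measurable_prodMk_left (x := (g i, Z i)))).aestronglyMeasurable
      (ae_of_all _ fun x => ?_)
    exact hK _ _ _
  exact (measurePreserving_eval (fun _ : Fin n => γ) i).integrable_comp_of_integrable h1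

/-- **exponential law of large numbers**, partially averaged over the last variable -/
theorem lln3 {f : ℝ → ℝ → ℝ → ℝ}
    (hf : Measurable fun w : (ℝ × ℝ) × ℝ => f w.1.1 w.1.2 w.2) {K : ℝ} (hK0 : 0 < K)
    (hK : ∀ g z ξ, |f g z ξ| ≤ K * (1 + z ^ 2 + ξ ^ 2)) {η : ℝ} (hη : 0 < η) :
    ∃ κ > (0 : ℝ), ∀ n : ℕ, 0 < n → ((E.gv (Fin n)).prod (E.gv (Fin n)))
      {z | η ≤ ∫ ξ, |avg (fun i => f (z.1 i) (z.2 i) (ξ i)) - E3 f| ∂E.gv (Fin n)} ≤
        ENNReal.ofReal (2 * Real.exp (-κ * n)) := by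
  obtain ⟨C, hC, hCi⟩ := integrable_exp_sq
  have hb : 0 < C / K := by positivity
  have hexp : Integrable (fun w : (ℝ × ℝ) × ℝ => Real.exp (C / K * |f w.1.1 w.1.2 w.2|))
      ((γ.prod γ).prod γ) := by
    have h1 : Integrable (fun w : (ℝ × ℝ) × ℝ =>
        (Real.exp C * Real.exp (C * w.1.2 ^ 2)) * Real.exp (C * w.2 ^ 2)) ((γ.prod γ).prod γ) :=
      Integrable.mul_prod (f := fun w : ℝ × ℝ => Real.exp C * Real.exp (C * w.2 ^ 2))
        (Integrable.mul_prod (f := fun _ : ℝ => Real.exp C) (integrable_const _) hCi) hCi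
    refine h1.mono' (hf.abs.const_mul _).exp.aestronglyMeasurable (ae_of_all _ fun w => ?_)
    rw [Real.norm_eq_abs, abs_of_pos (Real.exp_pos _), ← Real.exp_add, ← Real.exp_add]
    refine Real.exp_le_exp.2 ?_
    have := mul_le_mul_of_nonneg_left (hK w.1.1 w.1.2 w.2) hb.le
    rw [← mul_assoc, div_mul_cancel₀ _ hK0.ne'] at this
    linarith
  obtain ⟨v, hv, hS⟩ := subE_of_exp hf hb hexp
  set t := min (C / K / 2) (η / (2 * v)) with ht
  have ht0 : 0 < t := lt_min (by positivity) (by positivity)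
  refine ⟨t * η / 2, by positivity, fun n hn => ?_⟩
  have hn' : (0 : ℝ) < n := by exact_mod_cast hn
  have h1 := subE_sum (ι := Fin n) (ν := fun _ => (γ.prod γ).prod γ) (fun _ => hS)
  have e1 := measurePreserving_arrowProdEquivProdArrow (ℝ × ℝ) ℝ (Fin n) (fun _ => γ.prod γ)
    (fun _ => γ)
  have e2 := (measurePreserving_arrowProdEquivProdArrow ℝ ℝ (Fin n) (fun _ => γ)
    (fun _ => γ)).prod (MeasurePreserving.id (E.gv (Fin n)))
  have hm : Measurable fun y : (V n × V n) × V n =>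
      ∑ i, (f (y.1.1 i) (y.1.2 i) (y.2 i) - E3 f) := by
    refine Finset.measurable_sum _ fun i _ => Measurable.sub_const ?_ _
    exact hf.comp (f := fun y : (V n × V n) × V n => ((y.1.1 i, y.1.2 i), y.2 i)) (by fun_prop)
  have h2 : SubE (fun y : (V n × V n) × V n => ∑ i, (f (y.1.1 i) (y.1.2 i) (y.2 i) - E3 f))
      (∑ _i : Fin n, v) (C / K / 2) (((E.gv (Fin n)).prod (E.gv (Fin n))).prod (E.gv (Fin n))) :=
    SubE.of_mp (e2.comp e1) hm h1
  have h3 := partial_tail hm (fun x => by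
    simp only [Finset.sum_sub_distrib]
    exact (integrable_avg hf hK x.1 x.2).sub (integrable_const _)) h2 ht0.le (min_le_left _ _)
    (n * η)
  refine le_trans (measure_mono fun z hz => ?_) (h3.trans (ENNReal.ofReal_le_ofReal ?_))
  · have hz' : η ≤ ∫ ξ, |avg (fun i => f (z.1 i) (z.2 i) (ξ i)) - E3 f| ∂E.gv (Fin n) := hz
    have : ∀ ξ : V n, |∑ i, (f (z.1 i) (z.2 i) (ξ i) - E3 f)| =
        n * |avg (fun i => f (z.1 i) (z.2 i) (ξ i)) - E3 f| := by
      intro ξ
      have : ∑ i, (f (z.1 i) (z.2 i) (ξ i) - E3 f) =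
          n * (avg (fun i => f (z.1 i) (z.2 i) (ξ i)) - E3 f) := by
        rw [Finset.sum_sub_distrib, avg]
        simp only [Finset.sum_const, Finset.card_univ, Fintype.card_fin, nsmul_eq_mul]
        field_simp
      rw [this, abs_mul, abs_of_pos hn']
    show n * η ≤ ∫ ξ, |∑ i, (f (z.1 i) (z.2 i) (ξ i) - E3 f)| ∂E.gv (Fin n)
    simp only [this, integral_const_mul]
    exact mul_le_mul_of_nonneg_left hz' hn'.le
  · refine mul_le_mul_of_nonneg_left (Real.exp_le_exp.2 ?_) (by norm_num)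
    simp only [Finset.sum_const, Finset.card_univ, Fintype.card_fin, nsmul_eq_mul]
    have h4 : t * (2 * v) ≤ η := (le_div_iff₀ (by positivity)).1 (min_le_right _ _)
    have h5 := mul_le_mul_of_nonneg_left h4 (mul_nonneg hn'.le ht0.le)
    nlinarith

end Crest.Agent.T157.Tap.Sfg

end
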