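import Crest.Agent.T157.TapSfgA_18

/-!
# Row 157, part A, `SFGStmt` (helper18): population values

`G2 m a σ k F = E [z^k F (m + a g + σ z)]`; Stein identities; the thirteen test functions `tf` and
their expectations `tm` at a state-evolution fixed point.
-/

set_option autoImplicit false

noncomputable section

namespace Crest.Agent.T157.Tap.Sfg

open MeasureTheory ProbabilityTheory Matrix Filter Set
open Crest.Agent.T157.E Crest.Agent.T157.Conc
open Crest.Agent.R339.Guerra (γ hasDerivAt_pdf integrable_pdf_mul integrable_id_γ)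

lemma stein_gen {f f' : ℝ → ℝ} (hf : ∀ x, HasDerivAt f (f' x) x) (hif : Integrable f γ)
    (hif' : Integrable f' γ) (hixf : Integrable (fun x => x * f x) γ) :
    ∫ x, x * f x ∂γ = ∫ x, f' x ∂γ := by
  rw [integral_gaussianReal_eq_integral_smul (by norm_num),
    integral_gaussianReal_eq_integral_smul (by norm_num)]
  have h := integral_mul_deriv_eq_deriv_mul_of_integrable (A := ℝ)
    (u := f) (v := gaussianPDFReal 0 1)
    (u' := f') (v' := fun x => -(x * gaussianPDFReal 0 1 x))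
    (fun x _ => hf x) (fun x _ => hasDerivAt_pdf x)
    (by
      have := (integrable_pdf_mul hixf).neg
      refine this.congr (ae_of_all _ fun x => ?_)
      simp only [Pi.neg_apply, Pi.mul_apply]; ring)
    (by
      have := (integrable_pdf_mul hif')
      refine this.congr (ae_of_all _ fun x => ?_)
      simp only [Pi.mul_apply]; ring)
    (by
      refine (integrable_pdf_mul hif).congr (ae_of_all _ fun x => ?_)
      simp only [Pi.mul_apply]; ring)
  have h1 : ∫ x, gaussianPDFReal 0 1 x • (x * f x) =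
      - ∫ x, f x * -(x * gaussianPDFReal 0 1 x) := by
    rw [← integral_neg]; congr 1; ext x; simp only [smul_eq_mul]; ring
  have h2 : ∫ x, gaussianPDFReal 0 1 x • f' x =
      ∫ x, f' x * gaussianPDFReal 0 1 x := by
    congr 1; ext x; simp only [smul_eq_mul]; ring
  rw [h1, h2, h, neg_neg]

lemma integrable_pow (k : ℕ) : Integrable (fun x : ℝ => x ^ k) γ := by
  have := (memLp_id_gaussianReal (μ := 0) (v := 1) k).integrable_norm_pow' 
  refine this.mono' (by fun_prop) (ae_of_all _ fun x => ?_)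
  simp

/-- bounded continuous functions -/
structure BC (F : ℝ → ℝ) : Prop where
  cont : Continuous F
  bdd : ∃ C, ∀ x, |F x| ≤ C

lemma BC.int1 {F : ℝ → ℝ} (h : BC F) (c σ : ℝ) (k : ℕ) :
    Integrable (fun z : ℝ => z ^ k * F (c + σ * z)) γ := by
  obtain ⟨C, hC⟩ := h.bdd
  have := h.cont
  exact (integrable_pow k).mul_bdd (c := C) (by fun_prop) (ae_of_all _ fun z => hC _)

lemma BC.int2 {F : ℝ → ℝ} (h : BC F) (m a σ : ℝ) (k : ℕ) :
    Integrable (fun w : ℝ × ℝ => w.2 ^ k * F (m + a * w.1 + σ * w.2)) (γ.prod γ) := by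
  obtain ⟨C, hC⟩ := h.bdd
  have := h.cont
  have h1 : Integrable (fun w : ℝ × ℝ => w.2 ^ k) (γ.prod γ) := (integrable_pow k).comp_snd γ
  exact h1.mul_bdd (c := C) (by fun_prop) (ae_of_all _ fun z => hC _)

/-- `E [z^k F (m + a g + σ z)]` -/
def G2 (m a σ : ℝ) (k : ℕ) (F : ℝ → ℝ) : ℝ :=
  ∫ w : ℝ × ℝ, w.2 ^ k * F (m + a * w.1 + σ * w.2) ∂(γ.prod γ)

lemma G2_eq {F : ℝ → ℝ} (h : BC F) (m a σ : ℝ) (k : ℕ) :
    G2 m a σ k F = ∫ g, ∫ z, z ^ k * F (m + a * g + σ * z) ∂γ ∂γ :=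
  integral_prod _ (h.int2 m a σ k)

lemma G2_zero {F : ℝ → ℝ} (h : BC F) (m a σ : ℝ) : G2 m a σ 0 F = gE F m (a ^ 2 + σ ^ 2) := by
  have hc := h.cont
  have h1 : (γ.prod γ).map (fun w : ℝ × ℝ => a * w.1 + σ * w.2) =
      γ.map (fun z => √(a ^ 2 + σ ^ 2) * z) := by
    have : (γ.prod γ).map (fun w : ℝ × ℝ => a * w.1 + σ * w.2) =
        (γ.map (a * ·)) ∗ (γ.map (σ * ·)) := by
      rw [Measure.conv, Measure.map_prod_map _ _ (by fun_prop) (by fun_prop),
        Measure.map_map (by fun_prop) (by fun_prop)]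
      rfl
    rw [this, gaussianReal_map_const_mul, gaussianReal_map_const_mul, gaussianReal_map_const_mul,
      gaussianReal_conv_gaussianReal]
    congr 1
    · simp
    · ext
      simp [Real.sq_sqrt (by positivity : 0 ≤ a ^ 2 + σ ^ 2)]
  have h2 : G2 m a σ 0 F = ∫ y, F (m + y) ∂((γ.prod γ).map fun w : ℝ × ℝ => a * w.1 + σ * w.2) := by
    rw [integral_map (by fun_prop) (by fun_prop), G2]
    simp only [pow_zero, one_mul, add_assoc]
  rw [h2, h1, integral_map (by fun_prop) (by fun_prop), gE]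

lemma G2_one {F F' : ℝ → ℝ} (h : BC F) (h' : BC F') (hd : ∀ x, HasDerivAt F (F' x) x)
    (m a σ : ℝ) : G2 m a σ 1 F = σ * G2 m a σ 0 F' := by
  rw [G2_eq h, G2_eq h', ← integral_const_mul]
  congr 1
  funext g
  rw [← integral_const_mul]
  have := stein_gen (f := fun z => F (m + a * g + σ * z))
    (f' := fun z => σ * (z ^ 0 * F' (m + a * g + σ * z)))
    (fun z => by
      have := (hd (m + a * g + σ * z)).comp z
        (((hasDerivAt_id' z).const_mul σ).const_add (m + a * g))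
      exact this.congr_deriv (by ring))
    (by simpa using h.int1 (m + a * g) σ 0) ((h'.int1 (m + a * g) σ 0).const_mul σ)
    (by simpa using h.int1 (m + a * g) σ 1)
  simpa using this

lemma G2_two {F F' : ℝ → ℝ} (h : BC F) (h' : BC F') (hd : ∀ x, HasDerivAt F (F' x) x)
    (m a σ : ℝ) : G2 m a σ 2 F = G2 m a σ 0 F + σ * G2 m a σ 1 F' := by
  rw [G2_eq h, G2_eq h, G2_eq h', ← integral_const_mul, ← integral_add
    (h.int2 m a σ 0).integral_prod_left ((h'.int2 m a σ 1).integral_prod_left.const_mul σ)]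
  congr 1
  funext g
  rw [← integral_const_mul, ← integral_add (h.int1 (m + a * g) σ 0)
    ((h'.int1 (m + a * g) σ 1).const_mul σ)]
  have := stein_gen (f := fun z => z * F (m + a * g + σ * z))
    (f' := fun z => z ^ 0 * F (m + a * g + σ * z) + σ * (z ^ 1 * F' (m + a * g + σ * z)))
    (fun z => by
      have h1 : HasDerivAt (fun z => F (m + a * g + σ * z)) (F' (m + a * g + σ * z) * (σ * 1)) z :=
        (hd (m + a * g + σ * z)).comp z (((hasDerivAt_id' z).const_mul σ).const_add (m + a * g))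
      exact ((hasDerivAt_id' z).fun_mul h1).congr_deriv (by ring))
    (by simpa using h.int1 (m + a * g) σ 1)
    ((h.int1 (m + a * g) σ 0).add ((h'.int1 (m + a * g) σ 1).const_mul σ))
    (by simpa [sq, mul_assoc] using h.int1 (m + a * g) σ 2)
  rw [← this]
  simp only [sq, mul_assoc]

/-- quartic polynomial of `tanh` -/
def pt (c0 c1 c2 c3 c4 : ℝ) (x : ℝ) : ℝ :=
  c0 + c1 * Real.tanh x + c2 * Real.tanh x ^ 2 + c3 * Real.tanh x ^ 3 + c4 * Real.tanh x ^ 4

lemma abs_tanh_pow (x : ℝ) (k : ℕ) : |Real.tanh x ^ k| ≤ 1 := by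
  rw [abs_pow]
  exact pow_le_one₀ (abs_nonneg _) (Real.abs_tanh_lt_one x).le

lemma bc_pow (k : ℕ) : BC fun x => Real.tanh x ^ k :=
  ⟨continuous_tanh'.pow k, 1, fun x => abs_tanh_pow x k⟩

lemma bc_pt (c0 c1 c2 c3 c4 : ℝ) : BC (pt c0 c1 c2 c3 c4) := by
  have := continuous_tanh'
  refine ⟨by unfold pt; fun_prop, |c0| + |c1| + |c2| + |c3| + |c4|, fun x => ?_⟩
  have key : ∀ (c : ℝ) (k : ℕ), |c * Real.tanh x ^ k| ≤ |c| := fun c k => by
    rw [abs_mul]; exact mul_le_of_le_one_right (abs_nonneg _) (abs_tanh_pow x k)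
  have h1 := key c1 1
  rw [pow_one] at h1
  unfold pt
  have := key c2 2
  have := key c3 3
  have := key c4 4
  refine (abs_add_le _ _).trans (add_le_add ((abs_add_le _ _).trans (add_le_add
    ((abs_add_le _ _).trans (add_le_add ((abs_add_le _ _).trans (add_le_add le_rfl ?_)) ?_)) ?_)) ?_)
  all_goals assumption

lemma gE_pt (c0 c1 c2 c3 c4 m v : ℝ) : gE (pt c0 c1 c2 c3 c4) m v =
    c0 + c1 * gE Real.tanh m v + c2 * gE (fun x => Real.tanh x ^ 2) m v +
      c3 * gE (fun x => Real.tanh x ^ 3) m v + c4 * gE (fun x => Real.tanh x ^ 4) m v := by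
  have hi : ∀ (c : ℝ) (k : ℕ), Integrable (fun z => c * Real.tanh (m + √v * z) ^ k) γ := fun c k => by
    simpa using ((bc_pow k).int1 m (√v) 0).const_mul c
  have h1 : Integrable (fun z => c1 * Real.tanh (m + √v * z)) γ := by simpa using hi c1 1
  have a1 : Integrable (fun z => c0 + c1 * Real.tanh (m + √v * z)) γ := (integrable_const _).add h1
  have a2 : Integrable (fun z => c0 + c1 * Real.tanh (m + √v * z) +
      c2 * Real.tanh (m + √v * z) ^ 2) γ := a1.add (hi c2 2)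
  have a3 : Integrable (fun z => c0 + c1 * Real.tanh (m + √v * z) +
      c2 * Real.tanh (m + √v * z) ^ 2 + c3 * Real.tanh (m + √v * z) ^ 3) γ := a2.add (hi c3 3)
  simp only [gE, pt]
  rw [integral_add a3 (hi c4 4), integral_add a2 (hi c3 3), integral_add a1 (hi c2 2),
    integral_add (integrable_const _) h1]
  simp only [integral_const_mul, integral_const, probReal_univ, smul_eq_mul, one_mul]

lemma hasDerivAt_pt2 (c0 c1 c2 c3 : ℝ) (x : ℝ) :
    HasDerivAt (pt c0 c1 c2 c3 0) (pt c1 (2 * c2) (3 * c3 - c1) (-(2 * c2)) (-(3 * c3)) x) x := by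
  have h := hasDerivAt_tanh' x
  have := ((((h.const_mul c1).const_add c0).fun_add ((h.fun_pow 2).const_mul c2)).fun_add
    ((h.fun_pow 3).const_mul c3)).fun_add ((h.fun_pow 4).const_mul 0)
  refine this.congr_deriv ?_
  simp only [pt]
  push_cast
  ring

/-- tail function -/
def tau (M z : ℝ) : ℝ := max (z ^ 2 - M) 0

lemma tau_nonneg (M z : ℝ) : 0 ≤ tau M z := le_max_right _ _

lemma tau_le_sq {M : ℝ} (hM : 0 ≤ M) (z : ℝ) : tau M z ≤ z ^ 2 :=
  max_le (by linarith) (sq_nonneg _)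

lemma sq_le_tau (M z : ℝ) : z ^ 2 ≤ M + tau M z := by
  have := le_max_left (z ^ 2 - M) 0
  unfold tau; linarith

@[fun_prop] lemma continuous_tau (M : ℝ) : Continuous (tau M) := by unfold tau; fun_prop

/-- mean of the tail function -/
def tauE (M : ℝ) : ℝ := ∫ z, tau M z ∂γ

lemma tauE_le {M : ℝ} (hM : 0 < M) : tauE M ≤ TapFrz.m4 / (4 * M) := by
  rw [tauE, TapFrz.m4, ← integral_div]
  refine integral_mono_of_nonneg (ae_of_all _ fun z => tau_nonneg M z)
    (TapFrz.integrable_four.div_const _) (ae_of_all _ fun z => max_le ?_ (by positivity))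
  rw [le_div_iff₀ (by positivity)]
  nlinarith [sq_nonneg (z ^ 2 - 2 * M)]

/-- the test functions of `(t, z, ξ)`, `t = tanh x` -/
def tf (M t z ξ : ℝ) : Fin 13 → ℝ :=
  ![(1 - t ^ 2) * z ^ 2, (1 - t ^ 2) * ξ ^ 2, (1 - t ^ 2) * z * ξ, (1 - t ^ 2) * z,
    (1 - t ^ 2) * t * z, (1 - t ^ 2) * ξ, (1 - t ^ 2) * t * ξ, 1 - t ^ 2, (1 - t ^ 2) * t,
    (1 - t ^ 2) * t ^ 2, t * ξ, tau M z, tau M ξ]

/-- their population values -/
def tm (M σ q k : ℝ) : Fin 13 → ℝ :=
  ![1 - q - 2 * σ ^ 2 * (1 - q - 3 * k), 1 - q, 0, -(2 * σ * k), σ * (1 - q - 3 * k), 0, 0, 1 - q,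
    k, k, 0, tauE M, tauE M]

lemma abs_tf_le {M t : ℝ} (hM : 0 ≤ M) (ht : |t| ≤ 1) (z ξ : ℝ) (j : Fin 13) :
    |tf M t z ξ j| ≤ 1 * (1 + z ^ 2 + ξ ^ 2) := by
  have ht2 : t ^ 2 ≤ 1 := by rw [← sq_abs]; exact pow_le_one₀ (abs_nonneg _) ht
  have hD : |1 - t ^ 2| ≤ 1 := abs_le.2 ⟨by linarith, by nlinarith [sq_nonneg t]⟩
  have hDt : |(1 - t ^ 2) * t| ≤ 1 := by
    rw [abs_mul]; exact mul_le_one₀ hD (abs_nonneg _) ht
  have key : ∀ a y : ℝ, |a| ≤ 1 → |y| ≤ 1 + z ^ 2 + ξ ^ 2 → |a * y| ≤ 1 * (1 + z ^ 2 + ξ ^ 2) :=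
    fun a y ha hy => by rw [abs_mul]; exact mul_le_mul ha hy (abs_nonneg _) zero_le_one
  have hz2 := sq_nonneg z
  have hx2 := sq_nonneg ξ
  have hz : |z| ≤ 1 + z ^ 2 + ξ ^ 2 := abs_le.2 ⟨by nlinarith, by nlinarith⟩
  have hx : |ξ| ≤ 1 + z ^ 2 + ξ ^ 2 := abs_le.2 ⟨by nlinarith, by nlinarith⟩
  fin_cases j
  · exact key _ _ hD (by rw [abs_of_nonneg hz2]; linarith)
  · exact key _ _ hD (by rw [abs_of_nonneg hx2]; linarith)
  · show |(1 - t ^ 2) * z * ξ| ≤ _
    rw [mul_assoc]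
    exact key _ _ hD (abs_le.2 ⟨by nlinarith [sq_nonneg (z + ξ)], by nlinarith [sq_nonneg (z - ξ)]⟩)
  · exact key _ _ hD hz
  · exact key _ _ hDt hz
  · exact key _ _ hD hx
  · exact key _ _ hDt hx
  · show |1 - t ^ 2| ≤ _
    linarith
  · show |(1 - t ^ 2) * t| ≤ _
    linarith
  · exact key _ _ hD (by rw [abs_of_nonneg (sq_nonneg t)]; linarith)
  · exact key _ _ ht hx
  · show |tau M z| ≤ _
    rw [abs_of_nonneg (tau_nonneg _ _)]
    linarith [tau_le_sq hM z]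
  · show |tau M ξ| ≤ _
    rw [abs_of_nonneg (tau_nonneg _ _)]
    linarith [tau_le_sq hM ξ]

lemma continuous_tf (M : ℝ) (j : Fin 13) :
    Continuous fun w : ℝ × ℝ × ℝ => tf M w.1 w.2.1 w.2.2 j := by
  fin_cases j <;> simp only [tf] <;> simp <;> fun_prop

lemma E3_mul (m a σ : ℝ) (k : ℕ) (F h : ℝ → ℝ) :
    E3 (fun g z ξ => z ^ k * F (m + a * g + σ * z) * h ξ) = G2 m a σ k F * ∫ ξ, h ξ ∂γ :=
  integral_prod_mul (μ := γ.prod γ) (ν := γ)
    (fun w : ℝ × ℝ => w.2 ^ k * F (m + a * w.1 + σ * w.2)) h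

lemma int_id : ∫ x : ℝ, x ∂γ = 0 := by simp [integral_id_gaussianReal]

lemma int_sq : ∫ x : ℝ, x ^ 2 ∂γ = 1 := by
  have h := variance_id_gaussianReal (μ := 0) (v := 1)
  rw [variance_eq_integral measurable_id.aemeasurable] at h
  simpa [integral_id_gaussianReal] using h

/-- **population values** -/
theorem E3_tf {m a σ q q4 : ℝ} (M : ℝ) (h1 : gE Real.tanh m (a ^ 2 + σ ^ 2) = q)
    (h2 : gE (fun x => Real.tanh x ^ 2) m (a ^ 2 + σ ^ 2) = q)
    (h3 : gE (fun x => Real.tanh x ^ 3) m (a ^ 2 + σ ^ 2) = q4)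
    (h4 : gE (fun x => Real.tanh x ^ 4) m (a ^ 2 + σ ^ 2) = q4) (j : Fin 13) :
    E3 (fun g z ξ => tf M (Real.tanh (m + a * g + σ * z)) z ξ j) = tm M σ q (q - q4) j := by
  have g0 : ∀ c0 c1 c2 c3 c4, G2 m a σ 0 (pt c0 c1 c2 c3 c4) =
      c0 + c1 * q + c2 * q + c3 * q4 + c4 * q4 := fun c0 c1 c2 c3 c4 => by
    rw [G2_zero (bc_pt _ _ _ _ _), gE_pt, h1, h2, h3, h4]
  have g1 : ∀ c0 c1 c2 c3, G2 m a σ 1 (pt c0 c1 c2 c3 0) =
      σ * (c1 + 2 * c2 * q + (3 * c3 - c1) * q + -(2 * c2) * q4 + -(3 * c3) * q4) :=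
    fun c0 c1 c2 c3 => by
      rw [G2_one (bc_pt _ _ _ _ _) (bc_pt _ _ _ _ _) (hasDerivAt_pt2 c0 c1 c2 c3), g0]
  have g2 : G2 m a σ 2 (pt 1 0 (-1) 0 0) = 1 - q - 2 * σ ^ 2 * (1 - q - 3 * (q - q4)) := by
    rw [G2_two (bc_pt _ _ _ _ _) (bc_pt _ _ _ _ _) (hasDerivAt_pt2 1 0 (-1) 0), g0]
    simp only [mul_zero, neg_zero]
    rw [g1]
    ring
  have key : ∀ (k : ℕ) (F h : ℝ → ℝ) (f : ℝ → ℝ → ℝ → ℝ) (r : ℝ),
      (∀ g z ξ, f g z ξ = z ^ k * F (m + a * g + σ * z) * h ξ) →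
      G2 m a σ k F * ∫ ξ, h ξ ∂γ = r → E3 f = r := by
    intro k F h f r hf hr
    rw [← hr, ← E3_mul]
    congr 1
    funext g z ξ
    exact hf g z ξ
  have hone : ∫ _ : ℝ, (1 : ℝ) ∂γ = 1 := by simp
  fin_cases j
  · exact key 2 (pt 1 0 (-1) 0 0) (fun _ => 1) _ _
      (fun g z ξ => by show (1 - _ ^ 2) * z ^ 2 = _; unfold pt; ring)
      (by rw [g2, hone]; exact mul_one _)
  · exact key 0 (pt 1 0 (-1) 0 0) (fun ξ => ξ ^ 2) _ _
      (fun g z ξ => by show (1 - _ ^ 2) * ξ ^ 2 = _; unfold pt; ring)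
      (by rw [g0, int_sq]; show _ = 1 - q; ring)
  · exact key 1 (pt 1 0 (-1) 0 0) (fun ξ => ξ) _ _
      (fun g z ξ => by show (1 - _ ^ 2) * z * ξ = _; unfold pt; ring)
      (by rw [int_id]; exact mul_zero _)
  · exact key 1 (pt 1 0 (-1) 0 0) (fun _ => 1) _ _
      (fun g z ξ => by show (1 - _ ^ 2) * z = _; unfold pt; ring)
      (by rw [g1, hone]; show _ = -(2 * σ * (q - q4)); ring)
  · exact key 1 (pt 0 1 0 (-1) 0) (fun _ => 1) _ _
      (fun g z ξ => by show (1 - _ ^ 2) * _ * z = _; unfold pt; ring)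
      (by rw [g1, hone]; show _ = σ * (1 - q - 3 * (q - q4)); ring)
  · exact key 0 (pt 1 0 (-1) 0 0) (fun ξ => ξ) _ _
      (fun g z ξ => by show (1 - _ ^ 2) * ξ = _; unfold pt; ring)
      (by rw [int_id]; exact mul_zero _)
  · exact key 0 (pt 0 1 0 (-1) 0) (fun ξ => ξ) _ _
      (fun g z ξ => by show (1 - _ ^ 2) * _ * ξ = _; unfold pt; ring)
      (by rw [int_id]; exact mul_zero _)
  · exact key 0 (pt 1 0 (-1) 0 0) (fun _ => 1) _ _
      (fun g z ξ => by show 1 - _ ^ 2 = _; unfold pt; ring)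
      (by rw [g0, hone]; show _ = 1 - q; ring)
  · exact key 0 (pt 0 1 0 (-1) 0) (fun _ => 1) _ _
      (fun g z ξ => by show (1 - _ ^ 2) * _ = _; unfold pt; ring)
      (by rw [g0, hone]; show _ = q - q4; ring)
  · exact key 0 (pt 0 0 1 0 (-1)) (fun _ => 1) _ _
      (fun g z ξ => by show (1 - _ ^ 2) * _ ^ 2 = _; unfold pt; ring)
      (by rw [g0, hone]; show _ = q - q4; ring)
  · exact key 0 (pt 0 1 0 0 0) (fun ξ => ξ) _ _
      (fun g z ξ => by show _ * ξ = _; unfold pt; ring)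
      (by rw [int_id]; exact mul_zero _)
  · show E3 (fun _ z _ => tau M z) = tauE M
    have : E3 (fun _ z _ => tau M z) =
        ∫ w : (ℝ × ℝ) × ℝ, ((1 : ℝ) * tau M w.1.2) * (1 : ℝ) ∂((γ.prod γ).prod γ) := by
      simp [E3]
    rw [this, integral_prod_mul (μ := γ.prod γ) (ν := γ) (fun w : ℝ × ℝ => (1 : ℝ) * tau M w.2)
      (fun _ => (1 : ℝ)), integral_prod_mul (μ := γ) (ν := γ) (fun _ => (1 : ℝ)) (tau M), hone]
    simp [tauE]
  · exact key 0 (pt 1 0 0 0 0) (tau M) _ _ (fun g z ξ => by show tau M ξ = _; unfold pt; ring)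
      (by rw [g0]; show _ = tauE M; unfold tauE; ring)

end Crest.Agent.T157.Tap.Sfg

end
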