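import Crest.Agent.T157.TapSfgB_18

/-!
# Row 157, part A, `SFGStmt` (helper18): the deterministic inequality
-/

set_option autoImplicit false

noncomputable section

namespace Crest.Agent.T157.Tap.Sfg

open Matrix Set
open Crest.Agent.T157.E Crest.Agent.T157.Eig Crest.Agent.T157.Cond

lemma scalar {β q ρ k a0 α μ A0 A1 A1' vZ vξ ζ S e' Y δ1 δ2 r ε z0 T c : ℝ}
    (hβ0 : 0 < β) (hβ1 : β ≤ 1) (ha0 : 0 < a0) (hq : a0 ≤ q) (hq1 : q ≤ 1) (hρ0 : 0 ≤ ρ)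
    (hρ : ρ ^ 2 = q) (hk : 0 ≤ k) (hl : α ^ 2 + μ ^ 2 ≤ 1) (hA0 : |A0| ≤ 1)
    (hA1 : |A1 - ρ * α| ≤ δ1) (hA1' : |A1' - A1| ≤ r)
    (hCS : 2 * (β * α * vZ + β * μ * vξ + β ^ 2 * A0 * A0 + β ^ 2 * (2 * (ρ * α) - A0) * A1) ≤
      (1 - a0 / 2) + Y / (1 - a0 / 2))
    (hY : Y ≤ β ^ 2 * (1 - q) * (α ^ 2 + μ ^ 2) +
      β ^ 4 * (1 - q - k) * ((A0 - ρ * α) ^ 2 + (ρ * α) ^ 2) + T) (hT : 0 ≤ T)
    (he : 1 - q - δ2 ≤ e') (hδ2 : 0 ≤ δ2) (hS : |S| ≤ ε) (hζ : |ζ| ≤ z0) :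
    2 * β * μ * (vξ - ζ * α) + β * (2 * α * vZ - S * α ^ 2) + β ^ 2 * A0 ^ 2 -
        β ^ 2 * e' * (α ^ 2 + μ ^ 2) + 2 * β ^ 2 * A1' ^ 2 - 1 + c ≤
      c - a0 ^ 2 / 4 + 2 * T + δ2 + 6 * δ1 + 4 * (δ1 + r) + 2 * (δ1 + r) ^ 2 + ε + 2 * z0 := by
  have hb0 : 0 ≤ β ^ 2 := sq_nonneg _
  have hb1 : β ^ 2 ≤ 1 := pow_le_one₀ hβ0.le hβ1
  have hc : 1 / 2 ≤ 1 - a0 / 2 := by linarith
  have hα : |α| ≤ 1 := by
    rw [← sq_le_one_iff_abs_le_one]; linarith [sq_nonneg μ]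
  have hμ : |μ| ≤ 1 := by
    rw [← sq_le_one_iff_abs_le_one]; linarith [sq_nonneg α]
  have hρ1 : ρ ≤ 1 := (sq_le_one_iff₀ hρ0).1 (by linarith)
  have hA : |ρ * α| ≤ 1 := by
    rw [abs_mul, abs_of_nonneg hρ0]; exact mul_le_one₀ hρ1 (abs_nonneg _) hα
  set A := ρ * α with hAdef
  set l := α ^ 2 + μ ^ 2 with hldef
  have hl0 : 0 ≤ l := by positivity
  set Q := (A0 - A) ^ 2 + A ^ 2 with hQ
  have hQ0 : 0 ≤ Q := by positivity
  set X := β ^ 2 * (1 - q) * l with hX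
  have hbl : β ^ 2 * l ≤ 1 := mul_le_one₀ hb1 hl0 hl
  have hX1 : X ≤ (1 - a0 / 2) ^ 2 := by
    have : X = (1 - q) * (β ^ 2 * l) := by rw [hX]; ring
    have h2 : (1 - q) * (β ^ 2 * l) ≤ 1 - q := mul_le_of_le_one_right (by linarith) hbl
    linarith [sq_nonneg a0]
  have h1 : β ^ 2 * (1 - q - k) ≤ 1 - a0 / 2 := by
    have : β ^ 2 * (1 - q - k) ≤ β ^ 2 * (1 - q) := mul_le_mul_of_nonneg_left (by linarith) hb0
    have : β ^ 2 * (1 - q) ≤ 1 - q := mul_le_of_le_one_left (by linarith) hb1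
    linarith
  have h2 : Y / (1 - a0 / 2) ≤ X + a0 / 2 * (1 - a0 / 2) + β ^ 2 * Q + 2 * T := by
    rw [div_le_iff₀ (by linarith)]
    have e1 : β ^ 4 * (1 - q - k) * Q ≤ β ^ 2 * Q * (1 - a0 / 2) := by
      have := mul_le_mul_of_nonneg_left h1 (mul_nonneg hb0 hQ0)
      calc β ^ 4 * (1 - q - k) * Q = β ^ 2 * Q * (β ^ 2 * (1 - q - k)) := by ring
        _ ≤ _ := this
    have e2 := mul_le_mul_of_nonneg_left hX1 (by linarith : 0 ≤ a0 / 2)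
    have e3 := mul_le_mul_of_nonneg_left hc hT
    linarith
  have h3 : -(β ^ 2 * e' * l) ≤ -X + δ2 := by
    have e1 := mul_le_mul_of_nonneg_left he (mul_nonneg hb0 hl0)
    have e2 : β ^ 2 * l * δ2 ≤ δ2 := mul_le_of_le_one_left hδ2 hbl
    have : X = β ^ 2 * l * (1 - q) := by rw [hX]; ring
    linarith
  have hd : |A1' - A| ≤ δ1 + r := by
    have := abs_add_le (A1 - A) (A1' - A1)
    rw [show A1 - A + (A1' - A1) = A1' - A by ring] at this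
    linarith
  have h4 : -(A0 ^ 2) - 2 * (2 * A - A0) * A1 + 2 * A1' ^ 2 + Q ≤
      6 * δ1 + 4 * (δ1 + r) + 2 * (δ1 + r) ^ 2 := by
    have e0 : -(A0 ^ 2) - 2 * (2 * A - A0) * A1 + 2 * A1' ^ 2 + Q =
        -(2 * ((2 * A - A0) * (A1 - A))) + 4 * (A * (A1' - A)) + 2 * (A1' - A) ^ 2 := by
      rw [hQ]; ring
    have e1 : |(2 * A - A0) * (A1 - A)| ≤ 3 * δ1 := by
      rw [abs_mul]
      refine mul_le_mul ?_ hA1 (abs_nonneg _) (by norm_num)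
      have := abs_le.1 hA
      have := abs_le.1 hA0
      rw [abs_le]; constructor <;> linarith
    have e2 : |A * (A1' - A)| ≤ 1 * (δ1 + r) := by
      rw [abs_mul]; exact mul_le_mul hA hd (abs_nonneg _) zero_le_one
    have e3 : (A1' - A) ^ 2 ≤ (δ1 + r) ^ 2 := by
      rw [← sq_abs]; exact pow_le_pow_left₀ (abs_nonneg _) hd 2
    have := abs_le.1 e1
    have := abs_le.1 e2
    rw [e0]; linarith
  have hR0 : 0 ≤ 6 * δ1 + 4 * (δ1 + r) + 2 * (δ1 + r) ^ 2 := by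
    have := (abs_nonneg _).trans hA1
    have := (abs_nonneg _).trans hA1'
    positivity
  have h5 : β ^ 2 * (-(A0 ^ 2) - 2 * (2 * A - A0) * A1 + 2 * A1' ^ 2 + Q) ≤
      6 * δ1 + 4 * (δ1 + r) + 2 * (δ1 + r) ^ 2 :=
    (mul_le_mul_of_nonneg_left h4 hb0).trans (mul_le_of_le_one_left hR0 hb1)
  have hβa : |β| ≤ 1 := by rwa [abs_of_pos hβ0]
  have h6 : |β * μ * α * ζ| ≤ 1 * z0 := by
    rw [abs_mul]
    refine mul_le_mul ?_ hζ (abs_nonneg _) zero_le_one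
    rw [abs_mul, abs_mul]
    exact mul_le_one₀ (mul_le_one₀ hβa (abs_nonneg _) hμ) (abs_nonneg _) hα
  have h7 : |β * α * α * S| ≤ 1 * ε := by
    rw [abs_mul]
    refine mul_le_mul ?_ hS (abs_nonneg _) zero_le_one
    rw [abs_mul, abs_mul]
    exact mul_le_one₀ (mul_le_one₀ hβa (abs_nonneg _) hα) (abs_nonneg _) hα
  have h6' := (abs_le.1 h6).1
  have h7' := (abs_le.1 h7).1
  linarith

/-- coefficients of the test functions in `D Ξ²` and in the tail terms -/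
def cf (c1 c2 c3 c4 : ℝ) : Fin 13 → ℝ :=
  ![c1 ^ 2, c2 ^ 2, 2 * c1 * c2, 2 * c1 * c3, 2 * c1 * c4, 2 * c2 * c3, 2 * c2 * c4, c3 ^ 2,
    2 * c3 * c4, c4 ^ 2, 0, 3, 3]

lemma abs_cf_le {c1 c2 c3 c4 : ℝ} (h1 : |c1| ≤ 1) (h2 : |c2| ≤ 1) (h3 : |c3| ≤ 1) (h4 : |c4| ≤ 3)
    (j : Fin 13) : |cf c1 c2 c3 c4 j| ≤ 9 := by
  have k1 : ∀ a : ℝ, |a| ≤ 3 → |a ^ 2| ≤ 9 := fun a ha => by
    rw [abs_pow]; nlinarith [abs_nonneg a]
  have k2 : ∀ a b : ℝ, |a| ≤ 1 → |b| ≤ 3 → |2 * a * b| ≤ 9 := fun a b ha hb => by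
    rw [abs_mul, abs_mul, abs_two]; nlinarith [abs_nonneg a, abs_nonneg b]
  have h1' : |c1| ≤ 3 := by linarith
  have h2' : |c2| ≤ 3 := by linarith
  have h3' : |c3| ≤ 3 := by linarith
  fin_cases j
  exacts [k1 _ h1', k1 _ h2', k2 _ _ h1 h2', k2 _ _ h1 h3', k2 _ _ h1 h4, k2 _ _ h2 h3',
    k2 _ _ h2 h4, k1 _ h3', k2 _ _ h3 h4, k1 _ h4, by show |(0 : ℝ)| ≤ 9; norm_num,
    by show |(3 : ℝ)| ≤ 9; norm_num, by show |(3 : ℝ)| ≤ 9; norm_num]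

lemma sum_cf_tf (c1 c2 c3 c4 M t z ξ : ℝ) : ∑ j, cf c1 c2 c3 c4 j * tf M t z ξ j =
    (1 - t ^ 2) * (c1 * z + c2 * ξ + c3 + c4 * t) ^ 2 + 3 * (tau M z + tau M ξ) := by
  simp only [Fin.sum_univ_succ, cf, tf, Matrix.cons_val_zero, Matrix.cons_val_succ,
    Finset.univ_eq_empty, Finset.sum_empty]
  ring

lemma sum_cf_tm {β ρ q : ℝ} (hρ : ρ ^ 2 = q) (k M α μ A0 : ℝ) :
    ∑ j, cf (β * α) (β * μ) (β ^ 2 * A0) (β ^ 2 * (2 * (ρ * α) - A0)) j * tm M (β * ρ) q k j =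
      β ^ 2 * (1 - q) * (α ^ 2 + μ ^ 2) +
        β ^ 4 * (1 - q - k) * ((A0 - ρ * α) ^ 2 + (ρ * α) ^ 2) + 6 * tauE M := by
  simp only [Fin.sum_univ_succ, cf, tm, Matrix.cons_val_zero, Matrix.cons_val_succ,
    Finset.univ_eq_empty, Finset.sum_empty]
  subst hρ
  ring

lemma pointwise {c1 c2 c3 c4 M t t' : ℝ} (h1 : |c1| ≤ 1) (h2 : |c2| ≤ 1) (h3 : |c3| ≤ 1)
    (h4 : |c4| ≤ 3) (hM : 0 ≤ M) (ht : |t| ≤ 1) (ht' : |t'| ≤ 1) (z ξ : ℝ) :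
    (1 - t' ^ 2) * (c1 * z + c2 * ξ + c3 + c4 * t) ^ 2 ≤
      ∑ j, cf c1 c2 c3 c4 j * tf M t z ξ j + 6 * (2 * M + 16) * |t' - t| := by
  rw [sum_cf_tf]
  have a1 : (c1 * z) ^ 2 ≤ M + tau M z := by
    refine le_trans ?_ (sq_le_tau M z)
    rw [mul_pow]
    exact mul_le_of_le_one_left (sq_nonneg _) ((sq_le_one_iff_abs_le_one _).2 h1)
  have a2 : (c2 * ξ) ^ 2 ≤ M + tau M ξ := by
    refine le_trans ?_ (sq_le_tau M ξ)
    rw [mul_pow]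
    exact mul_le_of_le_one_left (sq_nonneg _) ((sq_le_one_iff_abs_le_one _).2 h2)
  have a3 : (c3 + c4 * t) ^ 2 ≤ 16 := by
    have : |c4 * t| ≤ 3 * 1 := by rw [abs_mul]; exact mul_le_mul h4 ht (abs_nonneg _) (by norm_num)
    have h5 : |c3 + c4 * t| ≤ 4 := by linarith [abs_add_le c3 (c4 * t)]
    rw [← sq_abs]
    exact (pow_le_pow_left₀ (abs_nonneg _) h5 2).trans (by norm_num)
  set Ξ := c1 * z + c2 * ξ + c3 + c4 * t with hΞ
  have a4 : Ξ ^ 2 ≤ 3 * (2 * M + 16) + 3 * (tau M z + tau M ξ) := by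
    have : Ξ ^ 2 ≤ 3 * ((c1 * z) ^ 2 + (c2 * ξ) ^ 2 + (c3 + c4 * t) ^ 2) := by
      rw [hΞ]
      linarith [sq_nonneg (c1 * z - c2 * ξ), sq_nonneg (c1 * z - (c3 + c4 * t)),
        sq_nonneg (c2 * ξ - (c3 + c4 * t))]
    linarith
  set δ := |t ^ 2 - t' ^ 2| with hδ
  have d0 : 0 ≤ δ := abs_nonneg _
  have d1 : δ ≤ 1 := by
    have := (sq_le_one_iff_abs_le_one _).2 ht
    have := (sq_le_one_iff_abs_le_one _).2 ht'
    rw [hδ, abs_le]; constructor <;> linarith [sq_nonneg t, sq_nonneg t']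
  have d2 : δ ≤ 2 * |t' - t| := by
    rw [hδ, show t ^ 2 - t' ^ 2 = (t + t') * (t - t') by ring, abs_mul, abs_sub_comm t t']
    refine mul_le_mul_of_nonneg_right ?_ (abs_nonneg _)
    have := abs_add_le t t'
    linarith
  have a5 : (t ^ 2 - t' ^ 2) * Ξ ^ 2 ≤ δ * Ξ ^ 2 :=
    mul_le_mul_of_nonneg_right (le_abs_self _) (sq_nonneg _)
  have a6 := mul_le_mul_of_nonneg_left a4 d0
  have a7 : δ * (tau M z + tau M ξ) ≤ tau M z + tau M ξ :=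
    mul_le_of_le_one_left (add_nonneg (tau_nonneg _ _) (tau_nonneg _ _)) d1
  have a8 := mul_le_mul_of_nonneg_right d2 (by positivity : 0 ≤ 3 * (2 * M + 16))
  linarith

variable {n : ℕ}

/-- total deviation of the thirteen empirical averages -/
def Err (M σ q k : ℝ) (p Z ξ : V n) : ℝ :=
  ∑ j, |avg (fun i => tf M (p i) (Z i) (ξ i) j) - tm M σ q k j|

lemma Err_nonneg (M σ q k : ℝ) (p Z ξ : V n) : 0 ≤ Err M σ q k p Z ξ :=
  Finset.sum_nonneg fun _ _ => abs_nonneg _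

lemma avg_abs_le (hn : 0 < n) {w : V n} {r : ℝ} (h : nrm w ≤ r * √n) :
    avg (fun i => |w i|) ≤ r := by
  have hn' : (0 : ℝ) < n := by exact_mod_cast hn
  have hs : 0 < √(n : ℝ) := Real.sqrt_pos.2 hn'
  have h1 : (fun i => |w i|) ⬝ᵥ (1 : V n) ≤ nrm (fun i => |w i|) * nrm (1 : V n) := dot_le _ _
  have h2 : nrm (fun i => |w i|) = nrm w := by
    simp only [nrm, dotProduct, abs_mul_abs_self]
  have h3 : nrm (1 : V n) = √n := by simp [nrm, dotProduct]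
  rw [h2, h3] at h1
  simp only [dotProduct, Pi.one_apply, mul_one] at h1
  rw [avg, div_le_iff₀ hn']
  have h4 := mul_le_mul_of_nonneg_right h hs.le
  rw [mul_assoc, Real.mul_self_sqrt hn'.le] at h4
  linarith

lemma avgY_le (hn : 0 < n) {c1 c2 c3 c4 M r : ℝ} (h1 : |c1| ≤ 1) (h2 : |c2| ≤ 1) (h3 : |c3| ≤ 1)
    (h4 : |c4| ≤ 3) (hM : 0 ≤ M) {p p' : V n} (hp : Cb p) (hp' : Cb p')
    (hr : nrm (p' - p) ≤ r * √n) (σ q k : ℝ) (Z ξ : V n) :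
    avg (fun i => DD p' i * (c1 * Z i + c2 * ξ i + c3 + c4 * p i) ^ 2) ≤
      ∑ j, cf c1 c2 c3 c4 j * tm M σ q k j + 9 * Err M σ q k p Z ξ + 6 * (2 * M + 16) * r := by
  have hn' : (0 : ℝ) < n := by exact_mod_cast hn
  have e1 : avg (fun i => DD p' i * (c1 * Z i + c2 * ξ i + c3 + c4 * p i) ^ 2) ≤
      ∑ j, cf c1 c2 c3 c4 j * avg (fun i => tf M (p i) (Z i) (ξ i) j) +
        6 * (2 * M + 16) * avg (fun i => |(p' - p) i|) := by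
    simp only [avg, ← mul_div_assoc, ← Finset.sum_div, ← add_div]
    refine div_le_div_of_nonneg_right ?_ hn'.le
    simp only [Finset.mul_sum]
    rw [Finset.sum_comm, ← Finset.sum_add_distrib]
    exact Finset.sum_le_sum fun i _ => pointwise h1 h2 h3 h4 hM (hp i) (hp' i) _ _
  have e2 := mul_le_mul_of_nonneg_left (avg_abs_le hn hr) (by positivity : 0 ≤ 6 * (2 * M + 16))
  have e3 : ∑ j, cf c1 c2 c3 c4 j * avg (fun i => tf M (p i) (Z i) (ξ i) j) ≤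
      ∑ j, cf c1 c2 c3 c4 j * tm M σ q k j + 9 * Err M σ q k p Z ξ := by
    rw [Err, Finset.mul_sum, ← Finset.sum_add_distrib]
    refine Finset.sum_le_sum fun j _ => ?_
    have := (le_abs_self _).trans ((abs_mul _ _).le.trans (mul_le_mul_of_nonneg_right
      (abs_cf_le h1 h2 h3 h4 j) (abs_nonneg (avg (fun i => tf M (p i) (Z i) (ξ i) j) -
        tm M σ q k j))))
    linarith
  linarith

lemma avgDD_le (hn : 0 < n) {p p' : V n} (hp : Cb p) (hp' : Cb p') {r : ℝ}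
    (hr : nrm (p' - p) ≤ r * √n) : |avg (DD p') - avg (DD p)| ≤ 2 * r := by
  have hn' : (0 : ℝ) < n := by exact_mod_cast hn
  refine le_trans ?_ (mul_le_mul_of_nonneg_left (avg_abs_le hn hr) (by norm_num : (0 : ℝ) ≤ 2))
  rw [avg, avg, avg, ← sub_div, abs_div, abs_of_pos hn', ← mul_div_assoc, ← Finset.sum_sub_distrib,
    Finset.mul_sum]
  refine div_le_div_of_nonneg_right ((Finset.abs_sum_le_sum_abs _ _).trans
    (Finset.sum_le_sum fun i _ => ?_)) hn'.le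
  rw [DD, DD, show 1 - p' i ^ 2 - (1 - p i ^ 2) = -((p i + p' i) * (p' i - p i)) by ring, abs_neg,
    abs_mul, Pi.sub_apply]
  refine mul_le_mul_of_nonneg_right ?_ (abs_nonneg _)
  have := abs_add_le (p i) (p' i)
  linarith [hp i, hp' i]

/-- completing the square -/
lemma cs_le (hn : 0 < n) {p' u : V n} (hp' : Cb p') (hu : u ⬝ᵥ u = 1) {θ : ℝ} (hθ : 0 < θ)
    (Ξ : V n) : 2 * (1 / √(n : ℝ) * ((dd p' * u) ⬝ᵥ Ξ)) ≤
      θ + avg (fun i => DD p' i * Ξ i ^ 2) / θ := by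
  have hn' : (0 : ℝ) < n := by exact_mod_cast hn
  have hs : (1 / √(n : ℝ)) ^ 2 = 1 / n := by rw [div_pow, Real.sq_sqrt hn'.le, one_pow]
  have h1 : θ = ∑ i, θ * (u i * u i) := by rw [← Finset.mul_sum]; exact (by rw [show ∑ i, u i * u i = 1 from hu, mul_one])
  rw [avg, Finset.sum_div, Finset.sum_div, dotProduct, Finset.mul_sum, Finset.mul_sum]
  nth_rewrite 1 [h1]
  rw [← Finset.sum_add_distrib]
  refine Finset.sum_le_sum fun i _ => ?_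
  have h2 : DD p' i * Ξ i ^ 2 / n / θ = (1 / √(n : ℝ) * dd p' i * Ξ i) ^ 2 / θ := by
    rw [mul_pow, mul_pow, hs, hp'.dd_sq]; ring
  rw [h2, Pi.mul_apply, ← sub_nonneg]
  have h3 : θ * (u i * u i) + (1 / √(n : ℝ) * dd p' i * Ξ i) ^ 2 / θ -
      2 * (1 / √(n : ℝ) * (dd p' i * u i * Ξ i)) =
      (θ * u i - 1 / √(n : ℝ) * dd p' i * Ξ i) ^ 2 / θ := by
    field_simp; ring
  rw [h3]; positivity

end Crest.Agent.T157.Tap.Sfg

end
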