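import Crest.Agent.T157.TapSfgC_18
import Crest.Agent.T157.TapKr_50

/-!
# Row 157, part A, `SFGStmt` (helper18): the comparison on one slice
-/

set_option autoImplicit false

noncomputable section

namespace Crest.Agent.T157.Tap.Sfg

open MeasureTheory ProbabilityTheory Matrix Filter Set Topology
open Crest.Agent.T157.E Crest.Agent.T157.Eig Crest.Agent.T157.Cond

variable {n : ℕ}

/-- the revealed column -/
def om (β : ℝ) (x Z : V n) : V n :=
  (1 / √(n : ℝ)) • (Z + (β * (1 - aS x) / √(aS x)) • th x)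

/-- the shift of the Sudakov-Fernique comparison -/
def fT (β c : ℝ) (e ω p' v : V n) : ℝ :=
  β * (2 * (v ⬝ᵥ ω) * (e ⬝ᵥ v) - (e ⬝ᵥ ω) * (e ⬝ᵥ v) ^ 2) + β ^ 2 / n * ((1 : V n) ⬝ᵥ v) ^ 2 -
    β ^ 2 * avg (DD p') * (v ⬝ᵥ v) + 2 * β ^ 2 / n * (p' ⬝ᵥ v) ^ 2 - 1 + c

lemma quad_eq (β c : ℝ) (x Z : V n) (W : Mx n) {p' u : V n} (hp' : Cb p') (hu : u ⬝ᵥ u = 1) :
    c * (u ⬝ᵥ u) - u ⬝ᵥ NN (B1 (β • plW β (glueW β x Z W) 1) (β ^ 2) p') (dd p') *ᵥ u =
      β * ((nextR 1 (th x) *ᵥ (dd p' * u)) ⬝ᵥ W *ᵥ (nextR 1 (th x) *ᵥ (dd p' * u))) +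
        fT β c (unitv (th x)) (om β x Z) p' (dd p' * u) := by
  rw [NN, sub_mulVec, one_mulVec, dotProduct_sub, TapFrz.quad_diag, hp'.B1_eq, hu]
  set v := dd p' * u
  have h1 : v ⬝ᵥ (nextR 1 (th x) * W * nextR 1 (th x)) *ᵥ v =
      (nextR 1 (th x) *ᵥ v) ⬝ᵥ W *ᵥ (nextR 1 (th x) *ᵥ v) := by
    rw [← mulVec_mulVec, ← mulVec_mulVec, Cond.dot_symm (nextR_symm IsProj.one (th x))]
  simp only [plW, glueW, rk2, add_mulVec, sub_mulVec, smul_mulVec, one_mulVec, vmv_mulVec,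
    dotProduct_add, dotProduct_sub, dotProduct_smul, smul_eq_mul, h1, fT, om]
  simp only [dotProduct_comm v (unitv (th x)), dotProduct_comm v (1 : V n), dotProduct_comm v p',
    smul_dotProduct, add_dotProduct, smul_eq_mul, dotProduct_comm Z v, dotProduct_comm (th x) v]
  ring

lemma gam_le (hn : 0 < n) {β q k a0 M r ε c : ℝ} (hβ0 : 0 < β) (hβ1 : β ≤ 1) (ha0 : 0 < a0)
    (hq : a0 ≤ q) (hq1 : q ≤ 1) (hk : 0 ≤ k) (hM : 0 ≤ M) (hr : 0 ≤ r) (hε : ε ≤ a0 / 2)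
    {x Z : V n} (ha : |aS x - q| ≤ ε) (hS : |SS β x Z| ≤ ε) {p' u : V n} (hp' : Cb p')
    (hpr : nrm (p' - th x) ≤ r * √n) (hu : u ⬝ᵥ u = 1) (ξ : V n) :
    2 * (1 / √(n : ℝ)) * len (√β • (nextR 1 (th x) *ᵥ (dd p' * u))) *
        (ξ ⬝ᵥ √β • (nextR 1 (th x) *ᵥ (dd p' * u))) +
      fT β c (unitv (th x)) (om β x Z) p' (dd p' * u) ≤
      c - a0 ^ 2 / 4 + 2 * (6 * tauE M + 9 * Err M (β * √q) q k (th x) Z ξ + 6 * (2 * M + 16) * r) +
        (ε + 2 * r) + 6 * (ε / a0) + 4 * (ε / a0 + r) + 2 * (ε / a0 + r) ^ 2 + ε +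
        2 * (2 / a0 * Err M (β * √q) q k (th x) Z ξ) := by
  have hn' : (0 : ℝ) < n := by exact_mod_cast hn
  have hε0 : 0 ≤ ε := (abs_nonneg _).trans ha
  have ha1 := abs_le.1 ha
  have hapos : 0 < aS x := by linarith
  have hvv : (dd p' * u) ⬝ᵥ (dd p' * u) ≤ 1 := (TapFrz.mul_dot_le (ub_dd p')).trans hu.le
  have hcs := fun c1 c2 c3 c4 : ℝ => cs_le hn hp' hu (θ := 1 - a0 / 2) (by linarith)
    (fun i => c1 * Z i + c2 * ξ i + c3 + c4 * th x i)
  set v := dd p' * u with hv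
  set e := unitv (th x) with he
  set R := √(n : ℝ) with hR
  set w := √(aS x) with hw
  have hR0 : 0 < R := Real.sqrt_pos.2 hn'
  have hw0 : 0 < w := Real.sqrt_pos.2 hapos
  have hRR : (n : ℝ) = R ^ 2 := (Real.sq_sqrt hn'.le).symm
  have hww : w ^ 2 = aS x := Real.sq_sqrt hapos.le
  have hlen : len (th x) = R * w := by rw [len, Kr50.dot_th hn, Real.sqrt_mul hn'.le]
  have hp0 : th x ≠ 0 := fun h => by
    have := len_eq_zero.2 h
    rw [hlen] at this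
    exact (mul_pos hR0 hw0).ne' this
  have hee : e ⬝ᵥ e = 1 := unitv_dot hp0
  have hpe : ∀ y : V n, th x ⬝ᵥ y = R * w * (e ⬝ᵥ y) := fun y => by
    conv_lhs => rw [← len_smul_unitv (th x), hlen]
    rw [smul_dotProduct, smul_eq_mul]
  have hP : nextR 1 (th x) *ᵥ v = v - (e ⬝ᵥ v) • e := by
    rw [nextR, dirv, one_mulVec, sub_mulVec, one_mulVec, vmv_mulVec]
  set μ := len (nextR 1 (th x) *ᵥ v) with hμ
  have hμ2 : (e ⬝ᵥ v) ^ 2 + μ ^ 2 = v ⬝ᵥ v := by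
    rw [hμ, len_sq, hP]
    simp only [sub_dotProduct, dotProduct_sub, smul_dotProduct, dotProduct_smul, smul_eq_mul, hee,
      dotProduct_comm v e]
    ring
  have hlenβ : len (√β • (nextR 1 (th x) *ᵥ v)) = √β * μ := by
    have := nrm_smul (√β) (nextR 1 (th x) *ᵥ v)
    rw [abs_of_nonneg (Real.sqrt_nonneg _)] at this
    exact this
  have hnv : nrm v ≤ 1 := (nrm_le_iff zero_le_one).2 (by simpa using hvv)
  have hbd : ∀ (y : V n) (K : ℝ), nrm y ≤ K * R → |1 / R * (y ⬝ᵥ v)| ≤ K := by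
    intro y K hy
    rw [abs_mul, abs_of_pos (by positivity : 0 < 1 / R), one_div, inv_mul_le_iff₀ hR0]
    have h1 := abs_dot_le y v
    have h2 := mul_le_of_le_one_right (nrm_nonneg y) hnv
    linarith
  have hρ : √q ^ 2 = q := Real.sq_sqrt (by linarith)
  have hρ0 := Real.sqrt_nonneg q
  have hα : |e ⬝ᵥ v| ≤ 1 := by
    rw [← sq_le_one_iff_abs_le_one]; linarith [sq_nonneg μ]
  have hμ1 : |μ| ≤ 1 := by
    rw [← sq_le_one_iff_abs_le_one]; linarith [sq_nonneg (e ⬝ᵥ v)]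
  have hρ1 : √q ≤ 1 := Real.sqrt_le_one.2 hq1
  have hA0 : |1 / R * ((1 : V n) ⬝ᵥ v)| ≤ 1 := hbd _ _ (by simp [nrm, dotProduct, hR])
  have hA1 : |w * (e ⬝ᵥ v) - √q * (e ⬝ᵥ v)| ≤ ε / a0 := by
    rw [← sub_mul, abs_mul]
    refine (mul_le_of_le_one_right (abs_nonneg _) hα).trans ?_
    rw [le_div_iff₀ ha0]
    have h1 : |w - √q| * (w + √q) ≤ ε := by
      rw [← abs_of_nonneg (by positivity : 0 ≤ w + √q), ← abs_mul,
        show (w - √q) * (w + √q) = w ^ 2 - √q ^ 2 by ring, hww, hρ]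
      exact ha
    have h2 : a0 ≤ w + √q := by
      have := mul_le_of_le_one_right hρ0 hρ1
      rw [← sq, hρ] at this
      linarith
    exact (mul_le_mul_of_nonneg_left h2 (abs_nonneg _)).trans h1
  have hA1' : |1 / R * (p' ⬝ᵥ v) - w * (e ⬝ᵥ v)| ≤ r := by
    have := hbd _ _ hpr
    rw [sub_dotProduct, hpe] at this
    convert this using 2
    field_simp
  have hβa : |β| ≤ 1 := by rwa [abs_of_pos hβ0]
  have hb : |β ^ 2| ≤ 1 := by rw [abs_pow]; exact pow_le_one₀ (abs_nonneg _) hβa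
  have m1 : ∀ a b : ℝ, |a| ≤ 1 → |b| ≤ 1 → |a * b| ≤ 1 := fun a b ha hb => by
    rw [abs_mul]; exact mul_le_one₀ ha (abs_nonneg _) hb
  have hC : |β ^ 2 * (2 * (√q * (e ⬝ᵥ v)) - 1 / R * ((1 : V n) ⬝ᵥ v))| ≤ 3 := by
    rw [abs_mul]
    refine (mul_le_of_le_one_left (abs_nonneg _) hb).trans ?_
    have := abs_le.1 (m1 _ _ (by rwa [abs_of_nonneg hρ0] : |√q| ≤ 1) hα)
    have := abs_le.1 hA0
    rw [abs_le]; constructor <;> linarith
  have hY := avgY_le hn (m1 _ _ hβa hα) (m1 _ _ hβa hμ1) (m1 _ _ hb hA0) hC hM (cb_th x) hp' hpr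
    (β * √q) q k Z ξ
  rw [sum_cf_tm hρ] at hY
  have hE0 := Err_nonneg M (β * √q) q k (th x) Z ξ
  have hT0 : 0 ≤ tauE M := integral_nonneg fun z => tau_nonneg M z
  have hDD := abs_le.1 (avgDD_le hn (cb_th x) hp' hpr)
  rw [Kr50.avg_DD hn] at hDD
  have hζ : |1 / R * (e ⬝ᵥ ξ)| ≤ 2 / a0 * Err M (β * √q) q k (th x) Z ξ := by
    have h1 : |avg (fun i => th x i * ξ i) - 0| ≤ Err M (β * √q) q k (th x) Z ξ :=
      Finset.single_le_sum (f := fun j => |avg (fun i => tf M (th x i) (Z i) (ξ i) j) -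
        tm M (β * √q) q k j|) (fun _ _ => abs_nonneg _) (Finset.mem_univ (10 : Fin 13))
    have h2 : avg (fun i => th x i * ξ i) - 0 = w * (1 / R * (e ⬝ᵥ ξ)) := by
      rw [sub_zero, avg, show ∑ i, th x i * ξ i = th x ⬝ᵥ ξ from rfl, hpe, hRR]
      field_simp
    rw [h2, abs_mul, abs_of_pos hw0] at h1
    have h3 : a0 / 2 ≤ w := by
      have := mul_le_of_le_one_right hw0.le (Real.sqrt_le_one.2 (Kr50.aS_le_one x))
      rw [← hw, ← sq, hww] at this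
      linarith
    rw [div_mul_eq_mul_div 2, le_div_iff₀ ha0]
    have := mul_le_mul_of_nonneg_right h3 (abs_nonneg (1 / R * (e ⬝ᵥ ξ)))
    linarith
  have hSS : SS β x Z = 1 / R * (e ⬝ᵥ Z) - β * (1 - aS x) := by
    rw [SS, avg, show ∑ i, Z i * th x i = Z ⬝ᵥ th x from rfl, dotProduct_comm, hpe, hRR, ← hw]
    field_simp
  have key := scalar (vZ := 1 / R * (v ⬝ᵥ Z)) (vξ := 1 / R * (v ⬝ᵥ ξ)) (c := c) hβ0 hβ1 ha0 hq hq1
    hρ0 hρ hk (hμ2.le.trans hvv) hA0 hA1 hA1' (le_of_eq_of_le ?_ (hcs _ _ _ _))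
    (T := 6 * tauE M + 9 * Err M (β * √q) q k (th x) Z ξ + 6 * (2 * M + 16) * r)
    (hY.trans (le_of_eq (by ring))) (by positivity) (e' := avg (DD p')) (δ2 := ε + 2 * r)
    (by linarith) (by positivity) hS hζ
  · refine le_of_eq_of_le ?_ key
    have hββ : √β * √β = β := Real.mul_self_sqrt hβ0.le
    rw [hlenβ, hP, hμ2, hSS, fT, om, ← hR, ← hw]
    simp only [dotProduct_smul, dotProduct_add, dotProduct_sub, smul_eq_mul,
      dotProduct_comm v (th x), dotProduct_comm e (th x), hpe, hee, dotProduct_comm ξ v,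
      dotProduct_comm ξ e]
    rw [hRR]
    have : ∀ y : ℝ, 2 * (1 / R) * (√β * μ) * (√β * y) = 2 * (1 / R) * β * μ * y := fun y => by
      linear_combination (2 * (1 / R) * μ * y) * hββ
    rw [this]
    field_simp
    ring
  · have : v ⬝ᵥ (fun i => β * (e ⬝ᵥ v) * Z i + β * μ * ξ i + β ^ 2 * (1 / R * ((1 : V n) ⬝ᵥ v)) +
        β ^ 2 * (2 * (√q * (e ⬝ᵥ v)) - 1 / R * ((1 : V n) ⬝ᵥ v)) * th x i) =
        β * (e ⬝ᵥ v) * (v ⬝ᵥ Z) + β * μ * (v ⬝ᵥ ξ) +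
          β ^ 2 * (1 / R * ((1 : V n) ⬝ᵥ v)) * ((1 : V n) ⬝ᵥ v) +
          β ^ 2 * (2 * (√q * (e ⬝ᵥ v)) - 1 / R * ((1 : V n) ⬝ᵥ v)) * (th x ⬝ᵥ v) := by
      generalize β * (e ⬝ᵥ v) = c1
      generalize β * μ = c2
      generalize β ^ 2 * (2 * (√q * (e ⬝ᵥ v)) - 1 / R * ((1 : V n) ⬝ᵥ v)) = c4
      generalize β ^ 2 * (1 / R * ((1 : V n) ⬝ᵥ v)) = c3
      simp only [dotProduct, Finset.mul_sum, ← Finset.sum_add_distrib, Pi.one_apply]
      exact Finset.sum_congr rfl fun i _ => by ring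
    rw [this, hpe]
    field_simp

lemma prod_le {X Y : Type*} [MeasurableSpace X] [MeasurableSpace Y] (μ : Measure X)
    (ν : Measure Y) [IsProbabilityMeasure μ] [IsProbabilityMeasure ν] {N S : Set (X × Y)}
    (hN : MeasurableSet N) (B : Set X) (δ : ENNReal)
    (h : ∀ z ∈ S, z ∈ N ∧ (z.1 ∈ B ∨ ν (Prod.mk z.1 ⁻¹' N) ≤ δ)) : μ.prod ν S ≤ μ B + δ := by
  have hG : MeasurableSet {x | ν (Prod.mk x ⁻¹' N) ≤ δ} :=
    measurableSet_le (measurable_measure_prodMk_left hN) measurable_const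
  have h1 : S ⊆ B ×ˢ univ ∪ N ∩ {x | ν (Prod.mk x ⁻¹' N) ≤ δ} ×ˢ univ := fun z hz => by
    rcases (h z hz).2 with h2 | h2
    · exact Or.inl ⟨h2, trivial⟩
    · exact Or.inr ⟨(h z hz).1, h2, trivial⟩
  refine (measure_mono h1).trans ((measure_union_le _ _).trans (add_le_add ?_ ?_))
  · rw [Measure.prod_prod, measure_univ, mul_one]
  · rw [Measure.prod_apply (hN.inter (hG.prod MeasurableSet.univ))]
    refine (lintegral_mono (g := fun _ => δ) fun x => ?_).trans (by simp)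
    by_cases hx : ν (Prod.mk x ⁻¹' N) ≤ δ
    · exact le_trans (measure_mono fun y hy => hy.1) hx
    · refine le_trans (measure_mono (t := ∅) fun y hy => hx hy.2.1) (by simp)

/-- the index set of the comparison -/
abbrev TT (p : V n) (ρ : ℝ) : Set (V n × V n) :=
  {t | Cb t.1 ∧ nrm (t.1 - p) ≤ ρ ∧ t.2 ⬝ᵥ t.2 = 1}

lemma exists_unit {M : Mx n} {c : ℝ} (h : ¬ Pos c M) :
    ∃ u : V n, u ⬝ᵥ u = 1 ∧ 0 < c * (u ⬝ᵥ u) - u ⬝ᵥ M *ᵥ u := by
  simp only [Pos, not_forall, not_le] at h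
  obtain ⟨u, hu⟩ := h
  have hu0 : u ≠ 0 := by rintro rfl; simp at hu
  have hl : 0 < (len u)⁻¹ := inv_pos.2 (lt_of_le_of_ne (len_nonneg u) (Ne.symm (mt len_eq_zero.1 hu0)))
  refine ⟨unitv u, unitv_dot hu0, ?_⟩
  simp only [unitv, mulVec_smul, smul_dotProduct, dotProduct_smul, smul_eq_mul]
  have := mul_pos (mul_pos hl hl) (sub_pos.2 hu)
  linarith

/-- the slice bound -/
lemma slice (hn : 0 < n) {β q k a0 M r η : ℝ} (hβ0 : 0 < β) (hβ1 : β ≤ 1) (ha0 : 0 < a0)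
    (hq : a0 ≤ q) (hq1 : q ≤ 1) (hk : 0 ≤ k) (hM : 0 ≤ M) (hη : η = a0 ^ 2 / 32) (hr : 0 ≤ r)
    (hrη : (24 * M + 218) * r ≤ η) (hτ : 12 * tauE M ≤ η) {x Z : V n}
    (ha : |aS x - q| ≤ r * a0) (hS : |SS β x Z| ≤ r * a0)
    (hi : Integrable (Err M (β * √q) q k (th x) Z) (gv (Fin n)))
    (hE : (18 + 4 / a0) * ∫ ξ, Err M (β * √q) q k (th x) Z ξ ∂gv (Fin n) ≤ η) :
    GOE n {W | ¬ GoodB (β • plW β (glueW β x Z W) 1) (β ^ 2) η (r * √n) (th x)} ≤
      ENNReal.ofReal (Real.exp (-(4 * η ^ 2) * n)) := by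
  have hn' : (0 : ℝ) < n := by exact_mod_cast hn
  have ha1 : a0 ≤ 1 := hq.trans hq1
  have hη0 : 0 < η := by rw [hη]; positivity
  have hη1 : 32 * η ≤ a0 := by
    have := mul_le_of_le_one_right ha0.le ha1
    rw [hη]; linarith
  have hr1 : 218 * r ≤ η := by linarith [mul_nonneg hM hr]
  have hra : r * a0 ≤ r := mul_le_of_le_one_right hr ha1
  have hdiv : r * a0 / a0 = r := mul_div_cancel_right₀ _ ha0.ne'
  have hcu : Continuous fun t : TT (th x) (r * √n) => dd t.1.1 * t.1.2 :=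
    (TapFrz.cont_dd (continuous_fst.comp continuous_subtype_val)).mul
      (continuous_snd.comp continuous_subtype_val)
  have hcp : Continuous fun t : TT (th x) (r * √n) => t.1.1 :=
    continuous_fst.comp continuous_subtype_val
  have hcv : Continuous fun t : TT (th x) (r * √n) =>
      √β • (nextR 1 (th x) *ᵥ (dd t.1.1 * t.1.2)) :=
    (continuous_const.matrix_mulVec hcu).const_smul (√β)
  have h := Kr.sf_goe_tail (T := TT (th x) (r * √n)) (1 / √(n : ℝ))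
    (u := fun t => √β • (nextR 1 (th x) *ᵥ (dd t.1.1 * t.1.2)))
    (f := fun t => fT β η (unitv (th x)) (om β x Z) t.1.1 (dd t.1.1 * t.1.2))
    hcv
    (by
      have := TapFrz.cont_avg (TapFrz.cont_DD hcp)
      unfold fT
      fun_prop) (ρ := 1)
    (fun t => by
      rw [smul_dotProduct, dotProduct_smul, smul_eq_mul, smul_eq_mul, ← mul_assoc,
        Real.mul_self_sqrt hβ0.le]
      have h1 := ((IsProj.one.nextR (th x)).dot_le (dd t.1.1 * t.1.2)).trans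
        ((TapFrz.mul_dot_le (ub_dd t.1.1)).trans t.2.2.2.le)
      exact mul_le_one₀ hβ1 (Cond.dot_self_nonneg _) h1)
    (Γ := fun ξ => -(5 * η) + (18 + 4 / a0) * Err M (β * √q) q k (th x) Z ξ)
    ((integrable_const _).add (hi.const_mul _))
    (fun ξ t => by
      refine (gam_le hn hβ0 hβ1 ha0 hq hq1 hk hM hr (by linarith) ha hS t.2.1 t.2.2.1 t.2.2.2
        ξ).trans ?_
      rw [hdiv]
      have h1 : r * r ≤ r := mul_le_of_le_one_right hr (by linarith)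
      have h2 : a0 ^ 2 / 4 = 8 * η := by rw [hη]; ring
      have h3 : 2 * (2 / a0 * Err M (β * √q) q k (th x) Z ξ) =
          4 / a0 * Err M (β * √q) q k (th x) Z ξ := by ring
      rw [h2, h3]
      linarith) (r := 4 * η) (by positivity)
  rw [integral_add (integrable_const _) (hi.const_mul _), integral_const_mul] at h
  simp only [integral_const, probReal_univ, smul_eq_mul, one_mul] at h
  have he : -(4 * η) ^ 2 / (4 * (1 / √(n : ℝ)) ^ 2 * 1 ^ 2) = -(4 * η ^ 2) * n := by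
    rw [div_pow (1 : ℝ) √(n : ℝ), Real.sq_sqrt hn'.le]
    field_simp
  rw [he] at h
  rw [← ofReal_measureReal (measure_ne_top _ _)]
  refine ENNReal.ofReal_le_ofReal
    (le_trans (measureReal_mono (fun W hW => ?_) (measure_ne_top _ _)) h)
  have hW' : ¬ GoodB (β • plW β (glueW β x Z W) 1) (β ^ 2) η (r * √n) (th x) := hW
  simp only [GoodB, not_forall] at hW'
  obtain ⟨p', hp', hpr, hW'⟩ := hW'
  have h2 : β ^ 2 * avg (DD p') ≤ 1 - η := by
    have h3 := (abs_le.1 (avgDD_le hn (cb_th x) hp' hpr)).2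
    rw [Kr50.avg_DD hn] at h3
    have h4 := mul_le_of_le_one_left (avg_nonneg hp'.DD_nonneg) (pow_le_one₀ (n := 2) hβ0.le hβ1)
    linarith [(abs_le.1 ha).1]
  obtain ⟨u, hu, h3⟩ := exists_unit fun h => hW' ⟨h, h2⟩
  rw [quad_eq β η x Z W hp' hu] at h3
  refine ⟨⟨(p', u), hp', hpr, hu⟩, ?_⟩
  simp only [mulVec_smul, smul_dotProduct, dotProduct_smul, smul_eq_mul]
  rw [← mul_assoc, Real.mul_self_sqrt hβ0.le]
  linarith

lemma measurable_bad (n : ℕ) (β s q c ρ : ℝ) : MeasurableSet {z : (V n × V n) × Mx n |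
    ¬ GoodB (β • plW β (glueW β (xv β s q q z.1.1 z.1.2) z.1.2 z.2) 1) (β ^ 2) c ρ
      (th (xv β s q q z.1.1 z.1.2))} := by
  have hx : Continuous fun z : (V n × V n) × Mx n => xv β s q q z.1.1 z.1.2 := by
    unfold xv; fun_prop
  have hp : Measurable fun z : (V n × V n) × Mx n => th (xv β s q q z.1.1 z.1.2) :=
    (TapFrz.cont_th hx).measurable
  have ha : Measurable fun z : (V n × V n) × Mx n => aS (xv β s q q z.1.1 z.1.2) := by
    have := TapFrz.cont_th hx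
    exact (TapFrz.cont_avg (f := fun z : (V n × V n) × Mx n =>
      fun i => th (xv β s q q z.1.1 z.1.2) i ^ 2) (by fun_prop)).measurable
  have hW : Measurable fun z : (V n × V n) × Mx n =>
      plW β (glueW β (xv β s q q z.1.1 z.1.2) z.1.2 z.2) 1 := by
    unfold plW glueW
    fun_prop
  exact (hW.prodMk hx.measurable) (TapFrz.measStmt n β c ρ 0 0).1

/-- the test functions in the reference model -/
def ff (M β s q : ℝ) (j : Fin 13) (g z ξ : ℝ) : ℝ :=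
  tf M (Real.tanh (s + β ^ 2 * q + √s * g + β * √q * z)) z ξ j

lemma measurable_ff (M β s q : ℝ) (j : Fin 13) :
    Measurable fun w : (ℝ × ℝ) × ℝ => ff M β s q j w.1.1 w.1.2 w.2 := by
  have := continuous_tanh'
  exact ((continuous_tf M j).comp (f := fun w : (ℝ × ℝ) × ℝ =>
    (Real.tanh (s + β ^ 2 * q + √s * w.1.1 + β * √q * w.1.2), w.1.2, w.2))
    (by fun_prop)).measurable

lemma Err_eq (M β s q σ k : ℝ) (g Z : V n) : Err M σ q k (th (xv β s q q g Z)) Z =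
    fun ξ => ∑ j, |avg (fun i => ff M β s q j (g i) (Z i) (ξ i)) - tm M σ q k j| := by
  funext ξ
  simp only [Err, ff, th, xv]

end Crest.Agent.T157.Tap.Sfg

end

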