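import Crest.Agent.T157.TapUfD_23
import Crest.Agent.T157.ConcH_16

/-!
# Row 157, part A (helper23): cavity identities for the TAP resolvent `G = d N⁻¹ d`
-/

set_option autoImplicit false

noncomputable section

namespace Crest.Agent.T157.Tap.Uf

open MeasureTheory ProbabilityTheory Matrix Filter Set
open Crest.Agent.T157.E Crest.Agent.T157.Eig Crest.Agent.T157.Cond

variable {n : ℕ}

/-! ### deterministic bounds -/

lemma pos_nrm {c : ℝ} {M : Mx n} (h : Pos c M) (u : V n) : c * nrm u ≤ nrm (M *ᵥ u) := by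
  by_cases hu : u = 0
  · simp [hu, nrm]
  · have h1 := (h u).trans (dot_le u (M *ᵥ u))
    rw [← nrm_mul_self, ← mul_assoc, mul_comm (nrm u)] at h1
    exact le_of_mul_le_mul_right h1 (nrm_pos hu)

lemma pos_unit {c : ℝ} (hc : 0 < c) {M : Mx n} (h : Pos c M) : IsUnit M.det := by
  rw [isUnit_iff_ne_zero]
  intro h0
  obtain ⟨v, hv, h1⟩ := Matrix.exists_mulVec_eq_zero_iff.2 h0
  have h2 := pos_nrm h v
  rw [h1, nrm_eq_zero.2 rfl] at h2
  nlinarith [nrm_pos hv]

lemma opn_inv_le {c : ℝ} (hc : 0 < c) {M : Mx n} (h : Pos c M) : opn M⁻¹ ≤ 1 / c := by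
  refine opn_le_of_nrm (by positivity) fun v => ?_
  have h1 := pos_nrm h (M⁻¹ *ᵥ v)
  rw [Matrix.mulVec_mulVec, Matrix.mul_nonsing_inv _ (pos_unit hc h), Matrix.one_mulVec] at h1
  rw [one_div, inv_mul_eq_div, le_div_iff₀ hc]
  linarith

lemma opn_mul_le' {A B : Mx n} {a b : ℝ} (hA : opn A ≤ a) (hB : opn B ≤ b) :
    opn (A * B) ≤ a * b :=
  (opn_mul_le A B).trans (mul_le_mul hA hB (opn_nonneg _) ((opn_nonneg _).trans hA))

lemma opn_diag_le {d : V n} (hd : Ub d) : opn (diagonal d) ≤ 1 :=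
  opn_diagonal_le zero_le_one fun i => by rw [abs_of_nonneg (hd i).1]; exact (hd i).2

lemma opn_GG_le {c : ℝ} (hc : 0 < c) {B : Mx n} {d : V n} (hd : Ub d) (h : Pos c (NN B d)) :
    opn (GG B d) ≤ 1 / c := by
  simpa [GG] using opn_mul_le' (opn_mul_le' (opn_diag_le hd) (opn_inv_le hc h)) (opn_diag_le hd)

lemma abs_trace_le {M : Mx n} {L : ℝ} (h : opn M ≤ L) : |M.trace| ≤ n * L := by
  refine (Finset.abs_sum_le_sum_abs _ _).trans ?_
  refine (Finset.sum_le_card_nsmul _ _ L fun i _ => (abs_entry_le M i i).trans h).trans ?_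
  simp

lemma fro_le {M : Mx n} {L : ℝ} (h : opn M ≤ L) : Conc.fro M ≤ n * L ^ 2 := by
  rw [← Conc.fro_transpose]
  refine (Finset.sum_le_card_nsmul _ _ (L ^ 2) fun i _ => ?_).trans (by simp)
  have h1 := nrm_mulVec_le M (Pi.single i 1)
  rw [nrm_single, mul_one] at h1
  have h2 := pow_le_pow_left₀ (nrm_nonneg _) (h1.trans h) 2
  rw [nrm_sq] at h2
  simpa [dotProduct, sq] using h2

lemma NN_symm {B : Mx n} (hB : Bᵀ = B) (d : V n) : (NN B d)ᵀ = NN B d := by
  simp [NN, Matrix.transpose_mul, hB, Matrix.mul_assoc]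

lemma GG_symm {B : Mx n} (hB : Bᵀ = B) (d : V n) : (GG B d)ᵀ = GG B d := by
  simp [GG, Matrix.transpose_mul, Matrix.transpose_nonsing_inv, NN_symm hB, Matrix.mul_assoc]

/-- `D = d²` as a matrix -/
def Dm (d : V n) : Mx n := diagonal fun j => d j ^ 2

lemma Dm_eq (d : V n) : Dm d = diagonal d * diagonal d := by
  simp [Dm, Matrix.diagonal_mul_diagonal, sq]

lemma GG_left {B : Mx n} {d : V n} (h : IsUnit (NN B d).det) : GG B d = Dm d * RR B d := by
  have h1 : (NN B d)⁻¹ = 1 + diagonal d * B * diagonal d * (NN B d)⁻¹ := by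
    have := Matrix.mul_nonsing_inv _ h
    rw [NN, Matrix.sub_mul, Matrix.one_mul] at this
    rw [← this, NN]; abel
  rw [RR, Dm_eq]
  conv_lhs => rw [GG, h1]
  simp only [GG, Matrix.mul_add, Matrix.add_mul, Matrix.mul_one, Matrix.mul_assoc]

lemma GG_right {B : Mx n} {d : V n} (h : IsUnit (NN B d).det) :
    GG B d = (1 + GG B d * B) * Dm d := by
  have h1 : (NN B d)⁻¹ = 1 + (NN B d)⁻¹ * (diagonal d * B * diagonal d) := by
    have := Matrix.nonsing_inv_mul _ h
    rw [NN, Matrix.mul_sub, Matrix.mul_one] at this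
    rw [← this, NN]; abel
  rw [Dm_eq]
  conv_lhs => rw [GG, h1]
  simp only [GG, Matrix.mul_add, Matrix.add_mul, Matrix.mul_one, Matrix.one_mul, Matrix.mul_assoc]

/-! ### removing one site -/

/-- basis vector -/
abbrev ev (i : Fin n) : V n := Pi.single i 1
/-- the diagonal with site `i` removed -/
def rm (d : V n) (i : Fin n) : V n := Function.update d i 0

lemma ub_rm {d : V n} (hd : Ub d) (i : Fin n) : Ub (rm d i) := fun j => by
  by_cases h : j = i
  · subst h; simp [rm]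
  · simpa [rm, h] using hd j

lemma Dm_rm (d : V n) (i : Fin n) :
    Dm d = Dm (rm d i) + d i ^ 2 • vecMulVec (ev i) (ev i) := by
  ext j k
  by_cases h : j = k
  · subst h
    by_cases h' : j = i
    · subst h'; simp [Dm, rm, vecMulVec_apply]
    · simp [Dm, rm, vecMulVec_apply, h']
  · by_cases h' : j = i
    · subst h'; simp [Dm, vecMulVec_apply, h, Ne.symm h]
    · simp [Dm, vecMulVec_apply, h, h']

lemma quad_NN (B : Mx n) (d u : V n) :
    u ⬝ᵥ NN B d *ᵥ u = u ⬝ᵥ u - (fun j => d j * u j) ⬝ᵥ B *ᵥ fun j => d j * u j := by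
  have e : diagonal d *ᵥ u = fun j => d j * u j := funext fun j => Matrix.mulVec_diagonal d u j
  rw [NN, Matrix.sub_mulVec, Matrix.one_mulVec, dotProduct_sub, ← Matrix.mulVec_mulVec,
    ← Matrix.mulVec_mulVec, Cond.dot_symm (Matrix.diagonal_transpose d), e]

lemma pos_rm {c : ℝ} (hc : c ≤ 1) {B : Mx n} {d : V n} (h : Pos c (NN B d)) (i : Fin n) :
    Pos c (NN B (rm d i)) := fun u => by
  have h1 := h (rm u i)
  have e : (fun j => d j * rm u i j) = fun j => rm d i j * u j := funext fun j => by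
    by_cases h : j = i
    · subst h; simp [rm]
    · simp [rm, h]
  have e2 : u ⬝ᵥ u = rm u i ⬝ᵥ rm u i + u i ^ 2 := by
    simp only [dotProduct]
    rw [← Finset.add_sum_erase _ _ (Finset.mem_univ i),
      ← Finset.add_sum_erase _ (fun j => rm u i j * rm u i j) (Finset.mem_univ i)]
    have : ∑ j ∈ Finset.univ.erase i, rm u i j * rm u i j = ∑ j ∈ Finset.univ.erase i, u j * u j :=
      Finset.sum_congr rfl fun j hj => by simp [rm, Finset.ne_of_mem_erase hj]
    rw [this]; simp [rm, sq, add_comm]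
  rw [quad_NN, e] at h1
  rw [quad_NN, e2]
  nlinarith [sq_nonneg (u i)]

lemma GG_rm_ev (B : Mx n) (d : V n) (i : Fin n) : GG B (rm d i) *ᵥ ev i = 0 := by
  have : diagonal (rm d i) *ᵥ ev i = 0 := by
    funext j
    rw [Matrix.mulVec_diagonal]
    by_cases h : j = i
    · subst h; simp [rm]
    · simp [h]
  rw [GG, ← Matrix.mulVec_mulVec, this, Matrix.mulVec_zero]

/-- the cavity vector -/
def rv (B : Mx n) (d : V n) (i : Fin n) : V n := ev i + GG B (rm d i) *ᵥ (B *ᵥ ev i)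

lemma ev_dot (i : Fin n) (v : V n) : ev i ⬝ᵥ v = v i := by simp

/-- **cavity identities** -/
theorem cavity {B : Mx n} (hB : Bᵀ = B) {d : V n} (i : Fin n) (h : IsUnit (NN B d).det)
    (h' : IsUnit (NN B (rm d i)).det) :
    (RR B d)ᵀ *ᵥ ev i = RR B d i i • rv B d i ∧
    RR B d i i = 1 + d i ^ 2 * RR B d i i * (B *ᵥ ev i ⬝ᵥ rv B d i) ∧
    GG B d = GG B (rm d i) + (d i ^ 2 * RR B d i i) • vecMulVec (rv B d i) (rv B d i) := by
  have g1 := GG_left h
  have g2 := GG_right h'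
  have s1 := GG_symm hB d
  have s2 := GG_symm hB (rm d i)
  have z1 := GG_rm_ev B d i
  have hr : rv B d i = (1 + GG B (rm d i) * B) *ᵥ ev i := by
    rw [rv, Matrix.add_mulVec, Matrix.one_mulVec, Matrix.mulVec_mulVec]
  have hR : RR B d = 1 + B * GG B d := rfl
  generalize RR B d = R at *
  generalize GG B d = G at *
  generalize GG B (rm d i) = G' at *
  generalize rv B d i = r at *
  have k1 : G = G' + d i ^ 2 • vecMulVec r (Rᵀ *ᵥ ev i) := by
    have a1 : (1 + G' * B) * (G - Dm (rm d i) * B * G) = G := by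
      have : (1 + G' * B) * (G - Dm (rm d i) * B * G) =
          G + (G' - (1 + G' * B) * Dm (rm d i)) * B * G := by noncomm_ring
      rw [this, ← g2]; simp
    have a2 : G - Dm (rm d i) * B * G = Dm (rm d i) + d i ^ 2 • (vecMulVec (ev i) (ev i) * R) := by
      have : G - Dm (rm d i) * B * G = G - Dm (rm d i) * R + Dm (rm d i) := by
        rw [hR]; noncomm_ring
      rw [this]
      conv_lhs => rw [g1, Dm_rm d i, Matrix.add_mul, Matrix.smul_mul]
      abel
    rw [← a1, a2, Matrix.mul_add, ← g2, vmv_mul, Matrix.mul_smul, Matrix.mul_vecMulVec, ← hr]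
  have k2 : Rᵀ *ᵥ ev i = (1 + d i ^ 2 * (Rᵀ *ᵥ ev i ⬝ᵥ B *ᵥ ev i)) • r := by
    have : Rᵀ *ᵥ ev i = ev i + G *ᵥ (B *ᵥ ev i) := by
      rw [hR, Matrix.transpose_add, Matrix.transpose_one, Matrix.transpose_mul, s1, hB,
        Matrix.add_mulVec, Matrix.one_mulVec, Matrix.mulVec_mulVec]
    conv_lhs => rw [this, k1, Matrix.add_mulVec, Matrix.smul_mulVec, vmv_mulVec]
    rw [add_smul, one_smul, smul_smul, ← add_assoc]
    congr 1
    rw [hr, Matrix.add_mulVec, Matrix.one_mulVec, Matrix.mulVec_mulVec]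
  have k3 : r i = 1 := by
    rw [← ev_dot i r, hr, Matrix.add_mulVec, Matrix.one_mulVec, ← Matrix.mulVec_mulVec, dotProduct_add,
      Cond.dot_symm s2, z1]
    simp
  have k4 : R i i = 1 + d i ^ 2 * (Rᵀ *ᵥ ev i ⬝ᵥ B *ᵥ ev i) := by
    have := congrFun k2 i
    rw [Pi.smul_apply, k3, smul_eq_mul, mul_one] at this
    rw [← this]; simp
  rw [← k4] at k2
  refine ⟨k2, ?_, ?_⟩
  · conv_lhs => rw [k4, k2]
    rw [smul_dotProduct, smul_eq_mul, dotProduct_comm r]; ring
  · conv_lhs => rw [k1, k2]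
    rw [Matrix.vecMulVec_smul, smul_smul]

/-! ### the scalar closure -/

lemma avg_mul_sq {a b : V n} {A : ℝ} (ha : ∀ i, |a i| ≤ A) :
    n * avg (fun i => a i * b i) ^ 2 ≤ A ^ 2 * ∑ i, b i ^ 2 := by
  rcases Nat.eq_zero_or_pos n with rfl | hn
  · simp
  have hn' : (0:ℝ) < n := by exact_mod_cast hn
  have h1 := Finset.sum_mul_sq_le_sq_mul_sq Finset.univ a b
  have h2 : ∑ i, a i ^ 2 ≤ n * A ^ 2 :=
    (Finset.sum_le_card_nsmul _ _ (A ^ 2) fun i _ => sq_le_sq' (abs_le.1 (ha i)).1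
      (abs_le.1 (ha i)).2).trans (by simp)
  have h3 : 0 ≤ ∑ i, b i ^ 2 := Finset.sum_nonneg fun _ _ => sq_nonneg _
  rw [avg, div_pow, ← mul_div_assoc, div_le_iff₀ (by positivity)]
  nlinarith [mul_le_mul_of_nonneg_right h2 h3]

lemma avg_add (f g : V n) : avg (fun i => f i + g i) = avg f + avg g := by
  simp [avg, Finset.sum_add_distrib, add_div]

lemma avg_mul (c : ℝ) (f : V n) : avg (fun i => c * f i) = c * avg f := by
  simp [avg, ← Finset.mul_sum, mul_div_assoc]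

lemma avg_mono {f g : V n} (h : ∀ i, f i ≤ g i) : avg f ≤ avg g :=
  div_le_div_of_nonneg_right (Finset.sum_le_sum fun i _ => h i) (Nat.cast_nonneg _)

lemma avg_nonneg {f : V n} (h : ∀ i, 0 ≤ f i) : 0 ≤ avg f :=
  div_nonneg (Finset.sum_nonneg fun i _ => h i) (Nat.cast_nonneg _)

lemma avg_le {f : V n} {A : ℝ} (hA : 0 ≤ A) (h : ∀ i, f i ≤ A) : avg f ≤ A := by
  rcases Nat.eq_zero_or_pos n with rfl | hn
  · simpa [avg] using hA
  have hn' : (0:ℝ) < n := by exact_mod_cast hn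
  rw [avg, div_le_iff₀ hn']
  exact (Finset.sum_le_card_nsmul _ _ A fun i _ => h i).trans (by simp [mul_comm])

lemma closure_sc {P Q Y Z a b c H v T : ℝ} (hb0 : 0 ≤ b) (hb1 : b ≤ 1) (hc : 0 < c)
    (hv : |v| ≤ 2 * H) (hT : 0 ≤ T) (ha : b * a ≤ 1 - c) (f1 : T = (1 + b * T) * P + b * Y)
    (f2 : v = b * v * Q + Z) (f3 : 2 * Q ≤ P + a) :
    c ^ 2 * v ^ 2 ≤ 8 * Z ^ 2 + 8 * H ^ 2 * Y ^ 2 := by
  have f4 : b * P ≤ 1 + |Y| := by
    have h1 : 0 ≤ b * T := mul_nonneg hb0 hT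
    have h2 : -(b * (b * Y)) ≤ |Y| := by
      have : |b * (b * Y)| ≤ |Y| := by
        rw [abs_mul, abs_mul, abs_of_nonneg hb0]
        nlinarith [abs_nonneg Y, mul_le_mul_of_nonneg_right hb1 (abs_nonneg Y)]
      exact (neg_le_abs _).trans this
    have h3 : (1 + b * T) * (b * P) ≤ (1 + b * T) * (1 + |Y|) := by
      have : b * T = b * ((1 + b * T) * P + b * Y) := congrArg (b * ·) f1
      linarith [mul_nonneg h1 (abs_nonneg Y)]
    exact le_of_mul_le_mul_left h3 (by linarith)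
  have f5 : c - |Y| ≤ 2 * (1 - b * Q) := by linarith [mul_le_mul_of_nonneg_left f3 hb0]
  have f6 : c * |v| ≤ 2 * |Z| + 2 * H * |Y| := by
    have h1 : |v| * (1 - b * Q) ≤ |Z| := by
      have : Z = v * (1 - b * Q) := by linarith
      rw [this, abs_mul]
      exact mul_le_mul_of_nonneg_left (le_abs_self _) (abs_nonneg _)
    linarith [mul_le_mul_of_nonneg_left f5 (abs_nonneg v),
      mul_le_mul_of_nonneg_right hv (abs_nonneg Y)]
  have h1 := pow_le_pow_left₀ (by positivity) f6 2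
  rw [mul_pow, sq_abs] at h1
  rw [← sq_abs Z, ← sq_abs Y]
  linarith [sq_nonneg (|Z| - H * |Y|)]

/-- stability of the self-consistent equation through the Ward identity -/
lemma closure {D h η ε : V n} {b c H v T : ℝ} (hb0 : 0 ≤ b) (hb1 : b ≤ 1) (hc : 0 < c)
    (hD0 : ∀ i, 0 ≤ D i) (hD1 : ∀ i, D i ≤ 1) (hH : ∀ i, |h i| ≤ H) (hv : |v| ≤ 2 * H)
    (hT : 0 ≤ T) (ha : b * avg D ≤ 1 - c)
    (e1 : ∀ i, h i = 1 + D i * h i * (η i + b * v)) (e2 : v = avg (fun i => D i * h i) - avg D)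
    (e3 : T = avg fun i => D i ^ 2 * h i ^ 2 * (1 + b * (T + ε i))) :
    c ^ 2 * (n * v ^ 2) ≤ 8 * H ^ 2 * ∑ i, η i ^ 2 + 8 * H ^ 6 * ∑ i, ε i ^ 2 := by
  have hD2 : ∀ i, D i ^ 2 ≤ D i := fun i => by nlinarith [hD0 i, hD1 i]
  have b1 : n * avg (fun i => (D i ^ 2 * h i ^ 2) * ε i) ^ 2 ≤ (H ^ 2) ^ 2 * ∑ i, ε i ^ 2 :=
    avg_mul_sq fun i => by
      rw [abs_of_nonneg (by positivity)]
      exact (mul_le_of_le_one_left (sq_nonneg _) ((hD2 i).trans (hD1 i))).trans
        (sq_le_sq' (abs_le.1 (hH i)).1 (abs_le.1 (hH i)).2)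
  have b2 : n * avg (fun i => (D i ^ 2 * h i) * η i) ^ 2 ≤ H ^ 2 * ∑ i, η i ^ 2 :=
    avg_mul_sq fun i => by
      rw [abs_mul, abs_of_nonneg (sq_nonneg _)]
      exact (mul_le_of_le_one_left (abs_nonneg _) ((hD2 i).trans (hD1 i))).trans (hH i)
  have f1 : T = (1 + b * T) * avg (fun i => D i ^ 2 * h i ^ 2) +
      b * avg (fun i => (D i ^ 2 * h i ^ 2) * ε i) := by
    rw [← avg_mul, ← avg_mul, ← avg_add]
    exact e3.trans (congrArg avg (funext fun i => by ring))
  have f2 : v = b * v * avg (fun i => D i ^ 2 * h i) + avg (fun i => (D i ^ 2 * h i) * η i) := by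
    have : avg (fun i => D i * h i) = avg D + (b * v * avg (fun i => D i ^ 2 * h i) +
        avg (fun i => (D i ^ 2 * h i) * η i)) := by
      rw [← avg_mul, ← avg_add, ← avg_add]
      refine congrArg avg (funext fun i => ?_)
      conv_lhs => rw [e1 i]
      ring
    linarith
  have f3 : 2 * avg (fun i => D i ^ 2 * h i) ≤ avg (fun i => D i ^ 2 * h i ^ 2) + avg D := by
    rw [← avg_mul, ← avg_add]
    exact avg_mono fun i => by linarith [hD2 i, sq_nonneg (D i * h i - D i)]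
  have f7 := closure_sc hb0 hb1 hc hv hT ha f1 f2 f3
  linarith [mul_le_mul_of_nonneg_left f7 (Nat.cast_nonneg (α := ℝ) n),
    mul_le_mul_of_nonneg_left b1 (sq_nonneg H)]

end Crest.Agent.T157.Tap.Uf
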