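import Crest.Agent.T157.TapUfD_14
import Crest.Agent.T157.ConcM_16

/-!
# Row 157, part A: uniform freeness, the chaining (helper14)

`Tap.ufStmt_of : UFfixP → UFStmt`.  Also `Uf14.vc` (vector concentration on a good set),
`Uf14.sf_pos` (positivity of `N` for a fixed diagonal), `Uf14.chain`.
-/

set_option autoImplicit false

noncomputable section

namespace Crest.Agent.T157.Tap

open MeasureTheory ProbabilityTheory Matrix Filter Set Topology
open Crest.Agent.T157.E Crest.Agent.T157.Eig Crest.Agent.T157.Cond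
open Crest.Agent.T157.Kr (fro fro_nonneg)

namespace Uf14

variable {n : ℕ}

lemma continuous_fro : Continuous (fro : Mx n → ℝ) := by
  unfold fro
  fun_prop

/-- vector concentration on a set where the vector function is Lipschitz -/
theorem vc {s L : ℝ} (hs : 0 < s) (hL : 0 < L) (hn : 0 < n) (A : Set (Mx n)) (F : Mx n → V n)
    (hF : ∀ W ∈ A, ∀ W' ∈ A, nrm (F W - F W') ≤ L * fro (W - W'))
    (hA : (goe (Fin n) s).real Aᶜ ≤ 1 / 4) :
    ∃ m : V n, ∀ t, 0 ≤ t → (goe (Fin n) s).real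
      {W | W ∈ A ∧ √2 * s * L * (2 * √n + 2 + t) < nrm (F W - m)} ≤ Real.exp (-t ^ 2 / 2) := by
  have hn' : (0 : ℝ) < n := by exact_mod_cast hn
  set L' := √2 * s * L with hL'
  have hL0 : 0 < L' := by positivity
  have hfro : ∀ x y : Fin n × Fin n → ℝ, fro (symG s x - symG s y) ≤ √2 * s * Conc.en (x - y) := by
    intro x y
    have := Kr.fro_symG_le s x y
    rwa [abs_of_pos hs] at this
  have hlip : ∀ i, Conc.ELipOn L' (fun x => F (symG s x) i) (symG s ⁻¹' A) := by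
    intro i x hx y hy
    refine (abs_apply_le_nrm (F (symG s x) - F (symG s y)) i).trans ((hF _ hx _ hy).trans ?_)
    calc L * fro (symG s x - symG s y) ≤ L * (√2 * s * Conc.en (x - y)) :=
          mul_le_mul_of_nonneg_left (hfro x y) hL.le
      _ = _ := by rw [hL']; ring
  choose G hG hGF using fun i => (hlip i).exists_ext hL0.le
  set m : V n := fun i => ∫ y, G i y ∂gv (Fin n × Fin n) with hm
  set Q : (Fin n × Fin n → ℝ) → ℝ := fun x => ∑ i, (G i x - m i) ^ 2 with hQ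
  have hQi : ∀ i, Integrable (fun x => (G i x - m i) ^ 2) (gv (Fin n × Fin n)) := fun i =>
    Conc.subG_integrable_sq (Conc.subG_lip (hG i))
  have hQI : ∫ x, Q x ∂gv (Fin n × Fin n) ≤ n * L' ^ 2 := by
    rw [hQ, integral_finsetSum _ fun i _ => hQi i]
    have := Finset.sum_le_card_nsmul Finset.univ
      (fun i => ∫ x, (G i x - m i) ^ 2 ∂gv (Fin n × Fin n)) (L' ^ 2) fun i _ => Conc.var_lip (hG i)
    simpa using this
  have hM := mul_meas_ge_le_integral_of_nonneg (μ := gv (Fin n × Fin n)) (f := Q)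
    (Eventually.of_forall fun x => by rw [hQ]; positivity)
    (integrable_finsetSum _ fun i _ => hQi i) (4 * (n * L' ^ 2))
  have hM' : (gv (Fin n × Fin n)).real {x | 4 * (n * L' ^ 2) ≤ Q x} ≤ 1 / 4 := by
    refine le_of_mul_le_mul_left (a := 4 * (n * L' ^ 2)) ?_ (by positivity)
    linarith
  set A' : Set (Fin n × Fin n → ℝ) := {x | symG s x ∈ A ∧ Q x < 4 * (n * L' ^ 2)} with hA'
  have hAc : (gv (Fin n × Fin n)).real (symG s ⁻¹' Aᶜ) ≤ 1 / 4 := by
    refine le_trans ?_ hA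
    exact ENNReal.toReal_mono (measure_ne_top _ _)
      (Measure.le_map_apply (measurable_symG s).aemeasurable _)
  have hhalf : Real.exp (-(2 : ℝ) ^ 2 / 2) < (gv (Fin n × Fin n)).real A' := by
    have h1 : (1 : ℝ) ≤ (gv (Fin n × Fin n)).real A' + ((gv (Fin n × Fin n)).real (symG s ⁻¹' Aᶜ) +
        (gv (Fin n × Fin n)).real {x | 4 * (n * L' ^ 2) ≤ Q x}) := by
      calc (1 : ℝ) = (gv (Fin n × Fin n)).real univ := probReal_univ.symm
        _ ≤ (gv (Fin n × Fin n)).real (A' ∪ (symG s ⁻¹' Aᶜ ∪ {x | 4 * (n * L' ^ 2) ≤ Q x})) := by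
          refine measureReal_mono fun x _ => ?_
          by_cases h1 : symG s x ∈ A
          · by_cases h2 : Q x < 4 * (n * L' ^ 2)
            · exact Or.inl ⟨h1, h2⟩
            · exact Or.inr (Or.inr (not_lt.1 h2))
          · exact Or.inr (Or.inl h1)
        _ ≤ _ := (measureReal_union_le _ _).trans (add_le_add le_rfl (measureReal_union_le _ _))
    have h2 : Real.exp (-(2 : ℝ) ^ 2 / 2) < 1 / 2 := by
      rw [show -(2 : ℝ) ^ 2 / 2 = -2 by norm_num, Real.exp_neg, ← one_div,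
        one_div_lt_one_div (Real.exp_pos _) (by norm_num)]
      linarith [Real.add_one_le_exp 2]
    linarith
  refine ⟨m, fun t ht => ?_⟩
  set B : Set (Mx n) := {W | ∀ a ∈ A', √2 * s * (2 + t) ≤ fro (W - symG s a)} with hB
  have hBc : IsClosed B := by
    have : B = ⋂ a ∈ A', {W | √2 * s * (2 + t) ≤ fro (W - symG s a)} := by
      ext W; simp [hB]
    rw [this]
    exact isClosed_biInter fun a _ => isClosed_le continuous_const
      (continuous_fro.comp (continuous_id.sub continuous_const))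
  refine le_trans (measureReal_mono (s₂ := B) fun W hW a ha => ?_) ?_
  · by_contra hlt
    push Not at hlt
    have h1 := hF W hW.1 _ ha.1
    have h2 : nrm (F (symG s a) - m) ≤ 2 * √n * L' := by
      rw [nrm_le_iff (by positivity), mul_pow, mul_pow, Real.sq_sqrt hn'.le]
      have h3 : (F (symG s a) - m) ⬝ᵥ (F (symG s a) - m) = Q a := by
        simp only [hQ, dotProduct, Pi.sub_apply, ← sq]
        exact Finset.sum_congr rfl fun i _ => by rw [hGF i a ha.1]
      rw [h3]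
      linarith [ha.2]
    have h3 := nrm_add_le (F W - F (symG s a)) (F (symG s a) - m)
    rw [sub_add_sub_cancel] at h3
    have h4 := mul_le_mul_of_nonneg_left hlt.le hL.le
    have h5 := hW.2
    have e : L' * (2 * √n + 2 + t) = L * (√2 * s * (2 + t)) + 2 * √n * L' := by rw [hL']; ring
    linarith
  · rw [goe, map_measureReal_apply (measurable_symG s) hBc.measurableSet]
    refine le_trans (measureReal_mono fun x hx => ?_) (Conc.enlarge A' zero_le_two ht hhalf)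
    exact fun a ha => le_of_mul_le_mul_left ((hx a ha).trans (hfro x a)) (by positivity)

/-- one level of the chaining -/
theorem level {α : Type} (hn : 0 < n) (P : Finset α) (A : α → Set (Mx n)) (F : α → Mx n → V n)
    {L τ : ℝ} (hL : 0 < L) (hτ : 0 ≤ τ)
    (hF : ∀ p ∈ P, ∀ W ∈ A p, ∀ W' ∈ A p, nrm (F p W - F p W') ≤ L * fro (W - W'))
    (hA : ∀ p ∈ P, (GOE n).real (A p)ᶜ ≤ 1 / 4) :
    ∃ B : Set (Mx n), (GOE n).real B ≤ P.card * Real.exp (-(τ ^ 2 / 2 * n)) ∧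
      ∀ W, W ∉ B → ∀ W', W' ∉ B → ∀ p ∈ P, W ∈ A p → W' ∈ A p →
        nrm (F p W - F p W') ≤ 3 * L * (4 + τ) := by
  have hn' : (1 : ℝ) ≤ n := by exact_mod_cast hn
  have hr : 1 ≤ √(n : ℝ) := Real.one_le_sqrt.2 hn'
  have h : ∀ p : α, ∃ m : V n, p ∈ P → (GOE n).real {W | W ∈ A p ∧
      √2 * (1 / √n) * L * (2 * √n + 2 + τ * √n) < nrm (F p W - m)} ≤
      Real.exp (-(τ * √n) ^ 2 / 2) := by
    intro p
    by_cases hp : p ∈ P
    · obtain ⟨m, hm⟩ := vc (s := 1 / √n) (by positivity) hL hn (A p) (F p) (hF p hp) (hA p hp)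
      exact ⟨m, fun _ => hm _ (by positivity)⟩
    · exact ⟨0, fun h => absurd h hp⟩
  choose m hm using h
  refine ⟨⋃ p ∈ P, {W | W ∈ A p ∧
    √2 * (1 / √n) * L * (2 * √n + 2 + τ * √n) < nrm (F p W - m p)}, ?_, ?_⟩
  · refine (measureReal_biUnion_finset_le _ _).trans ?_
    have := Finset.sum_le_card_nsmul P _ _ hm
    rw [nsmul_eq_mul, mul_pow, Real.sq_sqrt (by positivity)] at this
    refine this.trans_eq ?_
    congr 2
    ring
  · intro W hW W' hW' p hp h1 h2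
    have key : ∀ X, X ∉ (⋃ p ∈ P, {W | W ∈ A p ∧
        √2 * (1 / √n) * L * (2 * √n + 2 + τ * √n) < nrm (F p W - m p)}) → X ∈ A p →
        nrm (F p X - m p) ≤ 3 / 2 * L * (4 + τ) := by
      intro X hX hXA
      have h3 : nrm (F p X - m p) ≤ √2 * (1 / √n) * L * (2 * √n + 2 + τ * √n) := by
        by_contra h4
        exact hX (mem_biUnion hp ⟨hXA, not_le.1 h4⟩)
      refine h3.trans ?_
      have h5 : √2 ≤ 3 / 2 := Real.sqrt_le_iff.2 ⟨by norm_num, by norm_num⟩
      have h6 : 1 / √n * (2 * √n + 2 + τ * √n) ≤ 4 + τ := by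
        rw [one_div, inv_mul_le_iff₀ (by positivity)]
        linarith
      calc √2 * (1 / √n) * L * (2 * √n + 2 + τ * √n)
          = √2 * L * (1 / √n * (2 * √n + 2 + τ * √n)) := by ring
        _ ≤ 3 / 2 * L * (4 + τ) := by gcongr
    have h3 := nrm_sub_le (F p W - m p) (F p W' - m p)
    rw [sub_sub_sub_cancel_right] at h3
    linarith [key W hW h1, key W' hW' h2]

/-! ### dyadic rounding -/

/-- rounding down -/
def rd (k : ℕ) (d : V n) : V n := fun i => (⌊2 ^ k * d i⌋₊ : ℝ) / 2 ^ k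

/-- the dyadic grid -/
def Gr (n k : ℕ) : Finset (V n) :=
  Fintype.piFinset fun _ => (Finset.range (2 ^ k + 1)).image fun j : ℕ => (j : ℝ) / 2 ^ k

lemma card_Gr (k : ℕ) : ((Gr n k).card : ℝ) ≤ Real.exp ((k + 1) * n) := by
  have h1 : (Gr n k).card ≤ (2 ^ (k + 1)) ^ n := by
    unfold Gr
    rw [Fintype.card_piFinset, Finset.prod_const, Finset.card_univ, Fintype.card_fin]
    refine Nat.pow_le_pow_left (Finset.card_image_le.trans ?_) n
    rw [Finset.card_range, pow_succ]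
    have := Nat.one_le_two_pow (n := k)
    omega
  have h2 : (2 : ℝ) ≤ Real.exp 1 := by linarith [Real.add_one_le_exp 1]
  calc ((Gr n k).card : ℝ) ≤ ((2 : ℝ) ^ (k + 1)) ^ n := by exact_mod_cast h1
    _ ≤ (Real.exp 1 ^ (k + 1)) ^ n := by gcongr
    _ = _ := by
      rw [← pow_mul, ← Real.exp_nat_mul]
      congr 1
      push_cast
      ring

lemma rd_nonneg (k : ℕ) (d : V n) (i : Fin n) : 0 ≤ rd k d i := by unfold rd; positivity

lemma rd_le (k : ℕ) {d : V n} (hd : Ub d) (i : Fin n) : rd k d i ≤ d i := by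
  unfold rd
  rw [div_le_iff₀ (by positivity), mul_comm (d i)]
  exact Nat.floor_le (mul_nonneg (by positivity) (hd i).1)

lemma le_rd (k : ℕ) (d : V n) (i : Fin n) : d i - (1 / 2) ^ k ≤ rd k d i := by
  unfold rd
  rw [le_div_iff₀ (by positivity), sub_mul, ← mul_pow]
  have := Nat.lt_floor_add_one (2 ^ k * d i)
  norm_num
  linarith

lemma rd_ub (k : ℕ) {d : V n} (hd : Ub d) : Ub (rd k d) := fun i =>
  ⟨rd_nonneg k d i, (rd_le k hd i).trans (hd i).2⟩

lemma rd_mem (k : ℕ) {d : V n} (hd : Ub d) : rd k d ∈ Gr n k := by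
  unfold Gr
  rw [Fintype.mem_piFinset]
  intro i
  refine Finset.mem_image.2 ⟨⌊2 ^ k * d i⌋₊, Finset.mem_range.2 (Nat.lt_succ_of_le ?_), rfl⟩
  refine Nat.floor_le_of_le ?_
  push_cast
  exact mul_le_of_le_one_right (by positivity) (hd i).2

lemma rd_avg (k : ℕ) {d : V n} (hd : Ub d) :
    avg (fun i => rd k d i ^ 2) ≤ avg fun i => d i ^ 2 := by
  unfold avg
  refine div_le_div_of_nonneg_right (Finset.sum_le_sum fun i _ => ?_) (Nat.cast_nonneg n)
  exact pow_le_pow_left₀ (rd_nonneg k d i) (rd_le k hd i) 2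

lemma rd_close (k : ℕ) {d : V n} (hd : Ub d) (i : Fin n) : |d i - rd k d i| ≤ (1 / 2) ^ k := by
  rw [abs_of_nonneg (sub_nonneg.2 (rd_le k hd i))]
  linarith [le_rd k d i]

lemma half_pow_le {a b : ℕ} (h : a ≤ b) : ((1 : ℝ) / 2) ^ b ≤ (1 / 2) ^ a :=
  pow_le_pow_of_le_one (by norm_num) (by norm_num) h

lemma rd_close' (k : ℕ) {d : V n} (hd : Ub d) (i : Fin n) :
    |rd (k + 1) d i - rd k d i| ≤ (1 / 2) ^ k := by
  have h1 : ((1 : ℝ) / 2) ^ (k + 1) ≤ (1 / 2) ^ k := half_pow_le (Nat.le_succ k)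
  rw [abs_le]
  constructor <;> linarith [le_rd k d i, le_rd (k + 1) d i, rd_le k hd i, rd_le (k + 1) hd i]

/-- **the chaining** -/
theorem chain {Φ : ∀ n, Mx n → V n → V n} {c c1 : ℝ} (hc1 : 0 < c1) (hΦ : Dif (G1 (c1 / 2)) Φ) :
    ∃ C : ℝ, ∀ n : ℕ, 0 < n → (∀ d : V n, Ub d → avg (fun i => d i ^ 2) ≤ 1 - c →
      (GOE n).real {W | ¬ G1 (c1 / 2) n W d} ≤ 1 / 8) →
      ∃ B : Set (Mx n), (GOE n).real B ≤ (n + 1) * Real.exp (-n) ∧
        ∀ W, W ∉ B → ∀ W', W' ∉ B → ∀ d : V n, avg (fun i => d i ^ 2) ≤ 1 - c →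
          G1 c1 n W d → G1 c1 n W' d → nrm (Φ n W d - Φ n W' d) ≤ C := by
  classical
  obtain ⟨K0, hK0, hΦ⟩ := hΦ
  obtain ⟨k0, hk0⟩ := g1_stable hc1
  set K := K0 + 1 with hK
  have hKp : 0 < K := by positivity
  refine ⟨3 * K * (k0 + 7) + 3 * K * (2 * k0 + 16) + 6 * K, fun n hn hp => ?_⟩
  have hn0 : (0 : ℝ) ≤ n := Nat.cast_nonneg n
  set T : V n → Prop := fun d => Ub d ∧ avg (fun i => d i ^ 2) ≤ 1 - c with hT
  obtain ⟨B0, hB0, hB0'⟩ := level hn ((Gr n k0).filter T) (fun d => {W | G1 (c1 / 2) n W d})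
    (fun d W => Φ n W d) hKp (τ := k0 + 3) (by positivity)
    (fun d _ W hW W' hW' => ((hΦ n W W').1 d hW hW').trans
      (mul_le_mul_of_nonneg_right (by linarith) (fro_nonneg _)))
    (fun d hd => (hp d (Finset.mem_filter.1 hd).2.1 (Finset.mem_filter.1 hd).2.2).trans
      (by norm_num))
  have hlev : ∀ k : ℕ, ∃ B : Set (Mx n), (GOE n).real B ≤ Real.exp (-n) ∧
      ∀ W, W ∉ B → ∀ W', W' ∉ B → ∀ d : V n, T d → G1 (c1 / 2) n W (rd (k + 1) d) →
        G1 (c1 / 2) n W (rd k d) → G1 (c1 / 2) n W' (rd (k + 1) d) → G1 (c1 / 2) n W' (rd k d) →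
        nrm (Φ n W (rd (k + 1) d) - Φ n W (rd k d) - (Φ n W' (rd (k + 1) d) - Φ n W' (rd k d))) ≤
          3 * (K * (1 / 2) ^ k) * (k + 7) := by
    intro k
    obtain ⟨B, hB, hB'⟩ := level hn ((Gr n (k + 1) ×ˢ Gr n k).filter fun p =>
        T p.1 ∧ T p.2 ∧ ∀ i, |p.1 i - p.2 i| ≤ (1 / 2) ^ k)
      (fun p => {W | G1 (c1 / 2) n W p.1 ∧ G1 (c1 / 2) n W p.2})
      (fun p W => Φ n W p.1 - Φ n W p.2) (L := K * (1 / 2) ^ k) (by positivity) (τ := k + 3)
      (by positivity)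
      (fun p hp' W hW W' hW' => ((hΦ n W W').2 p.1 p.2 _ (by positivity) hW.1 hW.2 hW'.1 hW'.2
        (Finset.mem_filter.1 hp').2.2.2).trans (mul_le_mul_of_nonneg_right
          (mul_le_mul_of_nonneg_right (by linarith) (by positivity)) (fro_nonneg _)))
      (fun p hp' => by
        obtain ⟨-, h1, h2, -⟩ := Finset.mem_filter.1 hp'
        have e : {W | G1 (c1 / 2) n W p.1 ∧ G1 (c1 / 2) n W p.2}ᶜ =
            {W | ¬ G1 (c1 / 2) n W p.1} ∪ {W | ¬ G1 (c1 / 2) n W p.2} := by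
          ext W; simp only [mem_compl_iff, mem_ofPred_eq, mem_union, not_and_or]
        rw [e]
        linarith [measureReal_union_le (μ := GOE n) {W | ¬ G1 (c1 / 2) n W p.1}
          {W | ¬ G1 (c1 / 2) n W p.2}, hp _ h1.1 h1.2, hp _ h2.1 h2.2])
    refine ⟨B, hB.trans ?_, fun W hW W' hW' d hd h1 h2 h3 h4 => ?_⟩
    · have h1 : ((((Gr n (k + 1) ×ˢ Gr n k).filter fun p =>
          T p.1 ∧ T p.2 ∧ ∀ i, |p.1 i - p.2 i| ≤ (1 / 2) ^ k).card : ℕ) : ℝ) ≤
          Real.exp (((k + 1 : ℕ) + 1) * n) * Real.exp ((k + 1) * n) := by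
        refine le_trans ?_ (mul_le_mul (card_Gr (k + 1)) (card_Gr k) (Nat.cast_nonneg _)
          (Real.exp_pos _).le)
        rw [← Nat.cast_mul, ← Finset.card_product]
        exact_mod_cast Finset.card_filter_le _ _
      refine (mul_le_mul_of_nonneg_right h1 (Real.exp_pos _).le).trans ?_
      rw [← Real.exp_add, ← Real.exp_add, Real.exp_le_exp]
      push_cast
      have hk : (0 : ℝ) ≤ k := Nat.cast_nonneg k
      nlinarith [mul_nonneg hk hn0, mul_nonneg (mul_nonneg hk hk) hn0]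
    · have := hB' W hW W' hW' (rd (k + 1) d, rd k d) (Finset.mem_filter.2
        ⟨Finset.mem_product.2 ⟨rd_mem _ hd.1, rd_mem _ hd.1⟩,
          ⟨rd_ub _ hd.1, (rd_avg _ hd.1).trans hd.2⟩, ⟨rd_ub _ hd.1, (rd_avg _ hd.1).trans hd.2⟩,
          rd_close' k hd.1⟩) ⟨h1, h2⟩ ⟨h3, h4⟩
      refine this.trans_eq ?_
      ring
  choose B hB hB' using hlev
  refine ⟨B0 ∪ ⋃ j ∈ Finset.range n, B (k0 + j), ?_, fun W hW W' hW' d hd h1 h2 => ?_⟩
  · have h1 : (GOE n).real B0 ≤ Real.exp (-n) := by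
      have h1 : ((((Gr n k0).filter T).card : ℕ) : ℝ) ≤ Real.exp ((k0 + 1) * n) :=
        le_trans (by exact_mod_cast Finset.card_filter_le _ _) (card_Gr k0)
      refine hB0.trans ((mul_le_mul_of_nonneg_right h1 (Real.exp_pos _).le).trans ?_)
      rw [← Real.exp_add, Real.exp_le_exp]
      have hk : (0 : ℝ) ≤ k0 := Nat.cast_nonneg k0
      nlinarith [mul_nonneg hk hn0, mul_nonneg (mul_nonneg hk hk) hn0]
    have h2 := Finset.sum_le_card_nsmul (Finset.range n) (fun j => (GOE n).real (B (k0 + j))) _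
      fun j _ => hB (k0 + j)
    rw [Finset.card_range, nsmul_eq_mul] at h2
    have h3 := measureReal_biUnion_finset_le (μ := GOE n) (Finset.range n) fun j => B (k0 + j)
    linarith [measureReal_union_le (μ := GOE n) B0 (⋃ j ∈ Finset.range n, B (k0 + j))]
  · have hdU : Ub d := h1.2.1
    have hTd : T d := ⟨hdU, hd⟩
    have hg : ∀ X, G1 c1 n X d → ∀ j, G1 (c1 / 2) n X (rd (k0 + j) d) := fun X hX j =>
      hk0 n X d _ hX (rd_ub _ hdU) fun i =>
        (rd_close _ hdU i).trans (half_pow_le (Nat.le_add_right _ _))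
    have hg0 : ∀ X, G1 c1 n X d → G1 (c1 / 2) n X d := fun X hX =>
      ⟨hX.1, hX.2.1, Pos.mono hX.2.2 (by linarith)⟩
    have hnot : ∀ X, X ∉ B0 ∪ ⋃ j ∈ Finset.range n, B (k0 + j) → ∀ j < n, X ∉ B (k0 + j) :=
      fun X hX j hj h => hX (Or.inr (mem_biUnion (Finset.mem_range.2 hj) h))
    have hind : ∀ j ≤ n, nrm (Φ n W (rd (k0 + j) d) - Φ n W' (rd (k0 + j) d)) +
        3 * K * ((2 * (k0 + j) + 16) * (1 / 2) ^ (k0 + j)) ≤
        3 * K * (k0 + 7) + 3 * K * (2 * k0 + 16) := by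
      intro j hj
      induction j with
      | zero =>
        have h3 := hB0' W (fun h => hW (Or.inl h)) W' (fun h => hW' (Or.inl h)) (rd k0 d)
          (Finset.mem_filter.2 ⟨rd_mem _ hdU, rd_ub _ hdU, (rd_avg _ hdU).trans hd⟩)
          (hg W h1 0) (hg W' h2 0)
        have h4 : ((1 : ℝ) / 2) ^ k0 ≤ 1 := pow_le_one₀ (by norm_num) (by norm_num)
        have h5 := mul_le_mul_of_nonneg_left h4 (show 0 ≤ 3 * K * (2 * k0 + 16) by positivity)
        simp only [Nat.cast_zero, add_zero]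
        linarith
      | succ j ih =>
        have h3 := ih (Nat.le_of_succ_le hj)
        have h4 := hB' (k0 + j) W (hnot W hW j hj) W' (hnot W' hW' j hj) d hTd (hg W h1 (j + 1))
          (hg W h1 j) (hg W' h2 (j + 1)) (hg W' h2 j)
        have h5 := nrm_add_le (Φ n W (rd (k0 + j) d) - Φ n W' (rd (k0 + j) d))
          (Φ n W (rd (k0 + j + 1) d) - Φ n W (rd (k0 + j) d) -
            (Φ n W' (rd (k0 + j + 1) d) - Φ n W' (rd (k0 + j) d)))
        have e : Φ n W (rd (k0 + j) d) - Φ n W' (rd (k0 + j) d) +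
            (Φ n W (rd (k0 + j + 1) d) - Φ n W (rd (k0 + j) d) -
            (Φ n W' (rd (k0 + j + 1) d) - Φ n W' (rd (k0 + j) d))) =
            Φ n W (rd (k0 + j + 1) d) - Φ n W' (rd (k0 + j + 1) d) := by abel
        rw [e] at h5
        rw [← Nat.add_assoc, pow_succ]
        push_cast at h4 ⊢
        linarith
    have h3 := hind n le_rfl
    have h4 := (hΦ n W W').2 d (rd (k0 + n) d) _ (by positivity) (hg0 W h1) (hg W h1 n) (hg0 W' h2)
      (hg W' h2 n) (rd_close (k0 + n) hdU)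
    have h5 : fro (W - W') ≤ 6 * √n :=
      (fro_le_opn _).trans (mul_le_mul_of_nonneg_right
        ((opn_sub_le _ _).trans (by linarith [h1.1, h2.1])) (Real.sqrt_nonneg _))
    have h6 : ((1 : ℝ) / 2) ^ (k0 + n) * √n ≤ 1 := by
      have h7 : √(n : ℝ) ≤ 2 ^ n := by
        refine Real.sqrt_le_iff.2 ⟨by positivity, ?_⟩
        have h8 : (n : ℝ) ≤ 2 ^ n := by exact_mod_cast Nat.lt_two_pow_self.le
        have h9 : (1 : ℝ) ≤ 2 ^ n := one_le_pow₀ (by norm_num)
        nlinarith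
      calc ((1 : ℝ) / 2) ^ (k0 + n) * √n ≤ (1 / 2) ^ n * 2 ^ n :=
            mul_le_mul (half_pow_le (Nat.le_add_left _ _)) h7 (Real.sqrt_nonneg _) (by positivity)
        _ = 1 := by rw [← mul_pow]; norm_num
    have h7 : K0 * (1 / 2) ^ (k0 + n) * fro (W - W') ≤ 6 * K := by
      calc K0 * (1 / 2) ^ (k0 + n) * fro (W - W') ≤ K0 * (1 / 2) ^ (k0 + n) * (6 * √n) :=
            mul_le_mul_of_nonneg_left h5 (by positivity)
        _ = 6 * K0 * ((1 / 2) ^ (k0 + n) * √n) := by ring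
        _ ≤ 6 * K0 * 1 := mul_le_mul_of_nonneg_left h6 (by positivity)
        _ ≤ _ := by linarith
    have h8 := nrm_add_le (Φ n W (rd (k0 + n) d) - Φ n W' (rd (k0 + n) d))
      (Φ n W d - Φ n W (rd (k0 + n) d) - (Φ n W' d - Φ n W' (rd (k0 + n) d)))
    have e : Φ n W (rd (k0 + n) d) - Φ n W' (rd (k0 + n) d) +
        (Φ n W d - Φ n W (rd (k0 + n) d) - (Φ n W' d - Φ n W' (rd (k0 + n) d))) =
        Φ n W d - Φ n W' d := by abel
    rw [e] at h8
    have h9 : 0 ≤ 3 * K * ((2 * ((k0 : ℝ) + n) + 16) * (1 / 2) ^ (k0 + n)) := by positivity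
    linarith

/-! ### positivity at a fixed diagonal -/

lemma quad_NN (W : Mx n) (d u : V n) : u ⬝ᵥ NN (B0 W 1 d) d *ᵥ u = u ⬝ᵥ u -
    ((fun i => d i * u i) ⬝ᵥ W *ᵥ (fun i => d i * u i) -
      avg (fun i => d i ^ 2) * ((fun i => d i * u i) ⬝ᵥ fun i => d i * u i)) := by
  have hv : diagonal d *ᵥ u = fun i => d i * u i := funext fun i => mulVec_diagonal d u i
  unfold NN B0
  rw [sub_mulVec, one_mulVec, dotProduct_sub, ← mulVec_mulVec, ← mulVec_mulVec,
    Cond.dot_symm (diagonal_transpose d), hv, sub_mulVec, dotProduct_sub, smul_mulVec, one_mulVec,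
    dotProduct_smul, one_mul, smul_eq_mul]

theorem sf_pos (hn : 0 < n) {c : ℝ} (hc : 0 < c) {d : V n} (hd : Ub d)
    (ha : avg (fun i => d i ^ 2) ≤ 1 - c) :
    (GOE n).real {W | ¬ Pos (c ^ 2 / 8) (NN (B0 W 1 d) d)} ≤ Real.exp (-(n * (c ^ 2 / 8) ^ 2 / 4)) := by
  have hn' : (0 : ℝ) < n := by exact_mod_cast hn
  obtain ⟨ha0, -⟩ := avg_sq_le hd
  set a := avg fun i => d i ^ 2 with ha_def
  set l := 1 - c / 2 with hl
  have hl0 : 0 < l := by linarith
  have hi : ∀ i, Integrable (fun ξ : V n => d i ^ 2 * (ξ i * ξ i)) (gv (Fin n)) := fun i =>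
    (Nrm.integrable_sq_coord i).const_mul _
  have hI : Integrable (fun ξ : V n => (∑ i, d i ^ 2 * (ξ i * ξ i)) / (n * l)) (gv (Fin n)) :=
    (integrable_finsetSum _ fun i _ => hi i).div_const _
  have hE : ∫ ξ : V n, ((l - a) + (∑ i, d i ^ 2 * (ξ i * ξ i)) / (n * l)) ∂gv (Fin n) ≤
      1 - c ^ 2 / 4 := by
    rw [integral_add (integrable_const _) hI, integral_const, probReal_univ, one_smul, integral_div,
      integral_finsetSum _ fun i _ => hi i]
    simp only [integral_const_mul, Nrm.integral_sq_coord, mul_one]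
    have e : (∑ i, d i ^ 2) / (n * l) = a / l := by rw [ha_def, avg, div_div]
    rw [e]
    have : a / l ≤ 1 - c ^ 2 / 4 - l + a := by
      rw [div_le_iff₀ hl0, hl]
      nlinarith [mul_nonneg hc.le (sub_nonneg.2 ha), mul_pos hc (mul_pos hc hc)]
    linarith
  have hvv : ∀ t : V n, ((fun i => d i * t i) ⬝ᵥ fun i => d i * t i) ≤ t ⬝ᵥ t := fun t =>
    Finset.sum_le_sum fun i _ => by
      have := mul_le_mul_of_nonneg_right (mul_le_one₀ (hd i).2 (hd i).1 (hd i).2)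
        (mul_self_nonneg (t i))
      linarith
  have hcu : Continuous fun (t : {t : V n // t ⬝ᵥ t = 1}) i => d i * t.1 i :=
    continuous_pi fun i => continuous_const.mul ((continuous_apply i).comp continuous_subtype_val)
  have key := Kr.sf_goe_tail (T := {t : V n // t ⬝ᵥ t = 1}) (1 / √n)
    (u := fun t i => d i * t.1 i)
    (f := fun t => -(a * ((fun i => d i * t.1 i) ⬝ᵥ fun i => d i * t.1 i)))
    hcu (continuous_const.mul (hcu.dotProduct hcu)).neg (ρ := 1) (fun t => (hvv t.1).trans_eq t.2)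
    (Γ := fun ξ => (l - a) + (∑ i, d i ^ 2 * (ξ i * ξ i)) / (n * l))
    ((integrable_const _).add hI) (fun ξ t => by
      set v : V n := fun i => d i * t.1 i with hv
      have h1 : ξ ⬝ᵥ v ≤ nrm fun i => d i * ξ i := by
        have h2 := dot_le (fun i => d i * ξ i) t.1
        have h3 : nrm t.1 = 1 := by rw [nrm, t.2, Real.sqrt_one]
        rw [h3, mul_one] at h2
        refine le_trans (le_of_eq ?_) h2
        exact Finset.sum_congr rfl fun i _ => by simp only [hv]; ring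
      have h2 : (nrm fun i => d i * ξ i) ^ 2 = ∑ i, d i ^ 2 * (ξ i * ξ i) := by
        rw [nrm_sq]
        exact Finset.sum_congr rfl fun i _ => by ring
      set y := nrm fun i => d i * ξ i
      have h3 : len v ^ 2 ≤ 1 := by rw [len_sq]; exact (hvv t.1).trans_eq t.2
      have h4 := len_nonneg v
      rw [← h2, ← len_sq]
      have h5 : 2 * (1 / √n) * len v * (ξ ⬝ᵥ v) ≤ 2 * (1 / √n) * len v * y :=
        mul_le_mul_of_nonneg_left h1 (by positivity)
      have h6 : y ^ 2 / (n * l) = (y / √n) ^ 2 / l := by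
        rw [div_pow, Real.sq_sqrt hn'.le, div_div]
      have h7 : 2 * (1 / √n) * len v * y ≤ l * len v ^ 2 + (y / √n) ^ 2 / l := by
        have h8 : 2 * (1 / √n) * len v * y = 2 * len v * (y / √n) := by ring
        rw [h8, ← sub_le_iff_le_add', le_div_iff₀ hl0]
        nlinarith [sq_nonneg (l * len v - y / √n)]
      have h9 := mul_le_mul_of_nonneg_left h3 (show 0 ≤ l - a by linarith)
      rw [h6]
      linarith) (r := c ^ 2 / 8) (by positivity)
  rw [one_pow, mul_one, Nrm.exp_goe] at key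
  refine le_trans (measureReal_mono fun W hW => ?_) key
  simp only [Pos, not_forall, not_le, mem_ofPred_eq] at hW
  obtain ⟨u, hu⟩ := hW
  have hu0 : u ≠ 0 := by
    rintro rfl
    simp at hu
  have hr := nrm_pos hu0
  have ht : ((nrm u)⁻¹ • u) ⬝ᵥ ((nrm u)⁻¹ • u) = 1 := by
    rw [smul_dotProduct, dotProduct_smul, ← nrm_mul_self, smul_eq_mul, smul_eq_mul]
    field_simp
  have hq : ((nrm u)⁻¹ • u) ⬝ᵥ NN (B0 W 1 d) d *ᵥ ((nrm u)⁻¹ • u) < c ^ 2 / 8 := by
    rw [mulVec_smul, smul_dotProduct, dotProduct_smul, smul_eq_mul, smul_eq_mul,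
      inv_mul_lt_iff₀ hr, inv_mul_lt_iff₀ hr]
    rw [← nrm_mul_self] at hu
    linarith
  refine ⟨⟨_, ht⟩, ?_⟩
  rw [quad_NN, ht] at hq
  simp only
  linarith

lemma tend_exp {κ : ℝ} (hκ : 0 < κ) : Tendsto (fun n : ℕ => Real.exp (-(n * κ))) atTop (𝓝 0) :=
  Real.tendsto_exp_neg_atTop_nhds_zero.comp (tendsto_natCast_atTop_atTop.atTop_mul_const hκ)

lemma tend_lin : Tendsto (fun n : ℕ => ((n : ℝ) + 1) * Real.exp (-n)) atTop (𝓝 0) := by
  have h1 := (Real.tendsto_pow_mul_exp_neg_atTop_nhds_zero 1).add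
    Real.tendsto_exp_neg_atTop_nhds_zero
  have h2 := h1.comp tendsto_natCast_atTop_atTop
  rw [add_zero] at h2
  refine h2.congr fun n => ?_
  simp only [Function.comp, pow_one]
  ring

lemma opn_tail : (GOE n).real {W | ¬ opn W ≤ 3} ≤ 2 * Real.exp (-(n * (1 / 4))) := by
  have := Nrm.goe_opn_tail_n (n := n) zero_le_one
  rw [one_pow, mul_div_assoc] at this
  refine le_trans (measureReal_mono fun W hW => ?_) this
  simp only [mem_ofPred_eq, not_le] at hW ⊢
  linarith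

/-- the good event has probability close to one, uniformly in the diagonal -/
lemma ev_g1 {c : ℝ} (hc : 0 < c) : ∀ᶠ n : ℕ in atTop, ∀ d : V n, Ub d →
    avg (fun i => d i ^ 2) ≤ 1 - c → (GOE n).real {W | ¬ G1 (c ^ 2 / 8) n W d} ≤ 1 / 8 := by
  filter_upwards [eventually_gt_atTop 0,
    (tend_exp (show 0 < (c ^ 2 / 8) ^ 2 / 4 by positivity)).eventually
      (gt_mem_nhds (show (0 : ℝ) < 1 / 16 by norm_num)),
    (tend_exp (show (0 : ℝ) < 1 / 4 by norm_num)).eventually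
      (gt_mem_nhds (show (0 : ℝ) < 1 / 32 by norm_num))] with n hn h1 h2 d hd ha
  have h3 := sf_pos hn hc hd ha
  rw [mul_div_assoc] at h3
  have h4 : (GOE n).real {W | ¬ G1 (c ^ 2 / 8) n W d} ≤ (GOE n).real
      ({W | ¬ opn W ≤ 3} ∪ {W | ¬ Pos (c ^ 2 / 8) (NN (B0 W 1 d) d)}) := by
    refine measureReal_mono fun W hW => ?_
    by_cases h5 : opn W ≤ 3
    · exact Or.inr fun h6 => hW ⟨h5, hd, h6⟩
    · exact Or.inl h5
  linarith [measureReal_union_le (μ := GOE n) {W | ¬ opn W ≤ 3}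
    {W | ¬ Pos (c ^ 2 / 8) (NN (B0 W 1 d) d)}, opn_tail (n := n)]

theorem uf1_whp (h : UFfixP) {c : ℝ} (hc : 0 < c) :
    ∃ K : ℝ, Top.Whp GOE fun _ W => UF1 W c K := by
  have hc1 : 0 < c ^ 2 / 8 := by positivity
  obtain ⟨K, hK⟩ := h _ hc1
  obtain ⟨C1, h1⟩ := chain (c := c) hc1 (dif_e1 (half_pos hc1))
  obtain ⟨C2, h2⟩ := chain (c := c) hc1 (dif_e2 (half_pos hc1))
  refine ⟨K + max C1 C2, Top.whp_of_real_le (a := fun n : ℕ => 2 * Real.exp (-(n * (1 / 4))) +
    2 * (((n : ℝ) + 1) * Real.exp (-n))) ?_ ?_⟩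
  · have := ((tend_exp (show (0 : ℝ) < 1 / 4 by norm_num)).const_mul 2).add (tend_lin.const_mul 2)
    simpa using this
  filter_upwards [eventually_gt_atTop 0, hK, ev_g1 hc,
    tend_lin.eventually (gt_mem_nhds (show (0 : ℝ) < 1 / 8 by norm_num))] with n hn hK hg hs
  have hg' : ∀ d : V n, Ub d → avg (fun i => d i ^ 2) ≤ 1 - c →
      (GOE n).real {W | ¬ G1 (c ^ 2 / 8 / 2) n W d} ≤ 1 / 8 := fun d hd ha => by
    refine le_trans (measureReal_mono fun W hW => ?_) (hg d hd ha)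
    exact fun hG => hW ⟨hG.1, hG.2.1, Pos.mono hG.2.2 (by linarith)⟩
  obtain ⟨B1, hB1, h1⟩ := h1 n hn hg'
  obtain ⟨B2, hB2, h2⟩ := h2 n hn hg'
  have hsub : {W : Mx n | ¬ UF1 W c (K + max C1 C2)} ⊆ {W | ¬ opn W ≤ 3} ∪ (B1 ∪ B2) := by
    intro W hW
    by_contra hcon
    simp only [mem_union, mem_ofPred_eq, not_or, not_not] at hcon
    obtain ⟨h3, hW1, hW2⟩ := hcon
    refine hW fun d hd ha hp => ?_
    have hc2 : c ^ 2 / 8 ≤ c := by nlinarith [(avg_sq_le hd).1]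
    have hGW : G1 (c ^ 2 / 8) n W d := ⟨h3, hd, Pos.mono hp hc2⟩
    have hsym : (GOE n).real {W' : Mx n | ¬ W'ᵀ = W'} = 0 := by
      rw [measureReal_eq_zero_iff (measure_ne_top _ _)]
      exact goe_ae_symm _
    obtain ⟨W', hW'⟩ : ∃ W' : Mx n, W' ∉ (B1 ∪ B2) ∪ (({W' : Mx n | ¬ W'ᵀ = W'} ∪
        {W' | ¬ G1 (c ^ 2 / 8) n W' d}) ∪ {W | Wᵀ = W ∧ opn W ≤ 3 ∧
          Pos (c ^ 2 / 8) (NN (B0 W 1 d) d) ∧ ¬ (nrm (err (B0 W 1 d) d 1 1 1) ≤ K ∧
          nrm (err (B0 W 1 d) d 1 W (2 * avg fun i => d i ^ 2)) ≤ K)}) := by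
      by_contra hall
      have h5 := measureReal_mono (μ := GOE n) (s₁ := univ)
        (fun W' _ => not_not.1 (not_exists.1 hall W'))
      rw [probReal_univ] at h5
      have h6 := h5.trans ((measureReal_union_le _ _).trans (add_le_add (measureReal_union_le _ _)
        ((measureReal_union_le _ _).trans (add_le_add (measureReal_union_le _ _) le_rfl))))
      linarith [hg d hd ha, hK d hd (by linarith)]
    simp only [mem_union, mem_ofPred_eq, not_or, not_not] at hW'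
    obtain ⟨⟨hW1', hW2'⟩, ⟨hs', hG'⟩, hfix⟩ := hW'
    have hf : nrm (e1 n W' d) ≤ K ∧ nrm (e2 n W' d) ≤ K := by
      by_contra h7
      exact hfix ⟨hs', hG'.1, hG'.2.2, h7⟩
    have a1 := nrm_add_le (e1 n W d - e1 n W' d) (e1 n W' d)
    have a2 := nrm_add_le (e2 n W d - e2 n W' d) (e2 n W' d)
    rw [sub_add_cancel] at a1 a2
    exact ⟨by linarith [h1 W hW1 W' hW1' d ha hGW hG', hf.1, le_max_left C1 C2],
      by linarith [h2 W hW2 W' hW2' d ha hGW hG', hf.2, le_max_right C1 C2]⟩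
  have h3 := (measureReal_mono (μ := GOE n) hsub).trans ((measureReal_union_le _ _).trans
    (add_le_add opn_tail (measureReal_union_le _ _)))
  linarith

end Uf14

/-- **uniform freeness from the fixed-diagonal bound** -/
theorem ufStmt_of (h : UFfixP) : UFStmt := by
  intro β hβ c hc
  obtain ⟨K, hK⟩ := Uf14.uf1_whp h (half_pos hc)
  exact ⟨K, hK.imp fun _ _ hW => Uf14.uf_of_uf1 hβ.2 hc hW⟩

end Crest.Agent.T157.Tap
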