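import Crest.Agent.T157.TapUfA_23

/-!
# Row 157, part A (helper23): the fixed-`d` freeness bound `UFfixStmt`
-/

set_option autoImplicit false

noncomputable section

namespace Crest.Agent.T157.Tap.Uf

open MeasureTheory ProbabilityTheory Matrix Filter Set
open Crest.Agent.T157.E Crest.Agent.T157.Eig Crest.Agent.T157.Cond

variable {n : ℕ}

/-- quadratic form of row `i` -/
def qf (i : Fin n) (W M : Mx n) : ℝ := W *ᵥ ev i ⬝ᵥ M *ᵥ (W *ᵥ ev i)
/-- its fluctuation -/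
def fl (i : Fin n) (W M : Mx n) : ℝ := qf i W M - M.trace / n
/-- the interaction -/
abbrev Bw (θ : ℝ) (d : V n) (W : Mx n) : Mx n := B0 (θ • W) (θ ^ 2) d
/-- the cavity resolvent -/
def Gc (θ : ℝ) (d : V n) (i : Fin n) (W : Mx n) : Mx n := GG (Bw θ d W) (rm d i)
/-- total fluctuation at site `i` -/
def xi (θ : ℝ) (d : V n) (W : Mx n) (i : Fin n) : ℝ :=
  W i i ^ 2 + fl i W (Gc θ d i W) ^ 2 + fl i W (Gc θ d i W * 1 * Gc θ d i W) ^ 2 +
    fl i W (Gc θ d i W * W * Gc θ d i W) ^ 2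

lemma Bw_symm {W : Mx n} (hW : Wᵀ = W) (θ : ℝ) (d : V n) : (Bw θ d W)ᵀ = Bw θ d W := by
  simp [Bw, B0, hW]

lemma avg_sq_mem {d : V n} (hd : Ub d) :
    0 ≤ avg (fun i => d i ^ 2) ∧ avg (fun i => d i ^ 2) ≤ 1 :=
  ⟨avg_nonneg fun _ => sq_nonneg _, avg_le zero_le_one fun i => pow_le_one₀ (hd i).1 (hd i).2⟩

lemma opn_Bw_le {W : Mx n} (hW : opn W ≤ 3) {θ : ℝ} (hθ : θ ∈ Icc (0:ℝ) 1) {d : V n} (hd : Ub d) :
    opn (Bw θ d W) ≤ 4 := by
  refine (opn_sub_le _ _).trans ?_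
  obtain ⟨a0, a1⟩ := avg_sq_mem hd
  have h2 : θ ^ 2 ≤ 1 := pow_le_one₀ hθ.1 hθ.2
  rw [opn_smul, opn_smul, abs_of_nonneg hθ.1, abs_of_nonneg (by positivity)]
  have h3 := mul_le_mul hθ.2 hW (opn_nonneg _) zero_le_one
  have h4 := mul_le_mul (mul_le_one₀ h2 a0 a1) (opn_one_le (ι := Fin n)) (opn_nonneg _) zero_le_one
  linarith

lemma opn_one_add_le {A : Mx n} {a : ℝ} (h : opn A ≤ a) : opn (1 + A) ≤ 1 + a :=
  (opn_add_le _ _).trans (add_le_add opn_one_le h)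

lemma abs_quad_le' {A : Mx n} {r : V n} {a ρ : ℝ} (h : opn A ≤ a) (hr : nrm r ≤ ρ) :
    |r ⬝ᵥ A *ᵥ r| ≤ a * ρ ^ 2 := by
  refine (abs_quad_le A r).trans ?_
  rw [← nrm_sq]
  exact mul_le_mul h (pow_le_pow_left₀ (nrm_nonneg _) hr 2) (sq_nonneg _)
    ((opn_nonneg _).trans h)

lemma trace_diff {G G' S : Mx n} {r : V n} {κ H : ℝ} (e : G = G' + κ • vecMulVec r r)
    (hκ : |κ| ≤ H) (hr : nrm r ≤ H) (hG : opn G ≤ H) (hG' : opn G' ≤ H) (hS : opn S ≤ 3) :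
    |(G * S * G).trace - (G' * S * G').trace| ≤ 6 * H ^ 4 := by
  have h1 : (G * S * G).trace - (G' * S * G').trace =
      κ * (r ⬝ᵥ (S * G) *ᵥ r + r ⬝ᵥ (G' * S) *ᵥ r) := by
    have : G * S * G = G' * S * G' + κ • (vecMulVec r r * (S * G) + G' * S * vecMulVec r r) := by
      have e' : G * S * G = G' * S * G' + ((G - G') * (S * G) + G' * S * (G - G')) := by
        noncomm_ring
      rw [e', show G - G' = κ • vecMulVec r r by rw [e]; abel, Matrix.smul_mul, Matrix.mul_smul,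
        smul_add]
    rw [this, Matrix.trace_add, Matrix.trace_smul, Matrix.trace_add,
      Matrix.trace_mul_comm (vecMulVec r r), trace_mul_vmv, trace_mul_vmv, smul_eq_mul]
    ring
  have h2 := abs_quad_le' (opn_mul_le' hS hG) hr
  have h3 := abs_quad_le' (opn_mul_le' hG' hS) hr
  rw [h1, abs_mul]
  refine (mul_le_mul hκ ((abs_add_le _ _).trans (add_le_add h2 h3)) (abs_nonneg _)
    ((abs_nonneg _).trans hκ)).trans (le_of_eq (by ring))

lemma sq_shift {x t t' L : ℝ} (hn : 0 < n) (h : |t - t'| ≤ L) :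
    (x - t / n) ^ 2 ≤ 2 * (x - t' / n) ^ 2 + 2 * L ^ 2 / n := by
  have hn' : (1:ℝ) ≤ n := by exact_mod_cast hn
  have h1 : ((t - t') / n) ^ 2 ≤ L ^ 2 / n := by
    rw [div_pow]
    exact div_le_div₀ (sq_nonneg _) (sq_le_sq' (abs_le.1 h).1 (abs_le.1 h).2) (by linarith)
      (by nlinarith)
  have e : x - t / n = (x - t' / n) - (t - t') / n := by ring
  rw [e, mul_div_assoc]
  linarith [sq_nonneg ((x - t' / n) + (t - t') / n)]

/-- all the facts at one site -/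
lemma site {c θ : ℝ} (hc : 0 < c) (hc1 : c ≤ 1) (hθ : θ ∈ Icc (0:ℝ) 1) {d : V n} (hd : Ub d)
    {W : Mx n} (hW : W ∈ Om c θ d) (i : Fin n) :
    opn (Gc θ d i W) ≤ 1 + 4 / c ∧ |RR (Bw θ d W) d i i| ≤ 1 + 4 / c ∧
    RR (Bw θ d W) d i i = 1 + d i ^ 2 * RR (Bw θ d W) d i i *
      (θ * W i i - θ ^ 2 * avg (fun i => d i ^ 2) + θ ^ 2 * qf i W (Gc θ d i W)) ∧
    (RR (Bw θ d W) d * 1 * (RR (Bw θ d W) d)ᵀ) i i =
      RR (Bw θ d W) d i i ^ 2 * (1 + θ ^ 2 * qf i W (Gc θ d i W * 1 * Gc θ d i W)) ∧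
    (RR (Bw θ d W) d * W * (RR (Bw θ d W) d)ᵀ) i i = RR (Bw θ d W) d i i ^ 2 *
      (W i i + 2 * θ * qf i W (Gc θ d i W) + θ ^ 2 * qf i W (Gc θ d i W * W * Gc θ d i W)) ∧
    |(GG (Bw θ d W) d).trace - (Gc θ d i W).trace| ≤ 6 * (1 + 4 / c) ^ 4 ∧
    ∀ S : Mx n, opn S ≤ 3 → |(GG (Bw θ d W) d * S * GG (Bw θ d W) d).trace -
      (Gc θ d i W * S * Gc θ d i W).trace| ≤ 6 * (1 + 4 / c) ^ 4 := by
  obtain ⟨w1, w2, w3⟩ := hW
  have hB := Bw_symm w1 θ d
  have p' := pos_rm hc1 w3 i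
  obtain ⟨c1, c2, c3⟩ := cavity hB i (pos_unit hc w3) (pos_unit hc p')
  have oB := opn_Bw_le w2 hθ hd
  have oG := opn_GG_le hc hd w3
  have oG' := opn_GG_le hc (ub_rm hd i) p'
  have s' := GG_symm hB (rm d i)
  have z := GG_rm_ev (Bw θ d W) d i
  have hH : 1 / c ≤ 1 + 4 / c := by
    have : 0 < 1 / c := by positivity
    rw [show 4 / c = 4 * (1 / c) by ring]; linarith
  have hH1 : 1 ≤ 1 + 4 / c := le_add_of_nonneg_right (by positivity)
  have oh : |RR (Bw θ d W) d i i| ≤ 1 + 4 / c := (abs_entry_le _ i i).trans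
    ((opn_one_add_le (opn_mul_le' oB oG)).trans (le_of_eq (by ring)))
  have or : nrm (rv (Bw θ d W) d i) ≤ 1 + 4 / c := by
    have : rv (Bw θ d W) d i = (1 + GG (Bw θ d W) (rm d i) * Bw θ d W) *ᵥ ev i := by
      rw [rv, Matrix.add_mulVec, Matrix.one_mulVec, Matrix.mulVec_mulVec]
    rw [this]
    refine (nrm_mulVec_le _ _).trans ?_
    rw [nrm_single, mul_one]
    exact (opn_one_add_le (opn_mul_le' oG' oB)).trans (le_of_eq (by ring))
  have oκ : |d i ^ 2 * RR (Bw θ d W) d i i| ≤ 1 + 4 / c := by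
    rw [abs_mul, abs_of_nonneg (sq_nonneg _)]
    exact (mul_le_of_le_one_left (abs_nonneg _) (pow_le_one₀ (hd i).1 (hd i).2)).trans oh
  have eB : Bw θ d W *ᵥ ev i = θ • W *ᵥ ev i - (θ ^ 2 * avg fun i => d i ^ 2) • ev i := by
    rw [Bw, B0, Matrix.sub_mulVec, Matrix.smul_mulVec, Matrix.smul_mulVec, Matrix.one_mulVec]
  have er : rv (Bw θ d W) d i = ev i + θ • Gc θ d i W *ᵥ (W *ᵥ ev i) := by
    rw [rv, eB, Matrix.mulVec_sub, Matrix.mulVec_smul, Matrix.mulVec_smul, z, smul_zero, sub_zero,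
      Gc]
  have eS : ∀ S : Mx n, (RR (Bw θ d W) d * S * (RR (Bw θ d W) d)ᵀ) i i =
      RR (Bw θ d W) d i i ^ 2 * (rv (Bw θ d W) d i ⬝ᵥ S *ᵥ rv (Bw θ d W) d i) := fun S => by
    have : (RR (Bw θ d W) d * S * (RR (Bw θ d W) d)ᵀ) i i =
        (RR (Bw θ d W) d)ᵀ *ᵥ ev i ⬝ᵥ S *ᵥ ((RR (Bw θ d W) d)ᵀ *ᵥ ev i) := by
      rw [Matrix.mulVec_transpose, ← Matrix.dotProduct_mulVec, ← Matrix.mulVec_transpose,
        Matrix.mulVec_mulVec, Matrix.mulVec_mulVec, ev_dot]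
      simp
    rw [this, c1, smul_dotProduct, Matrix.mulVec_smul, dotProduct_smul, smul_eq_mul, smul_eq_mul]
    ring
  have z' : ∀ x : V n, ev i ⬝ᵥ Gc θ d i W *ᵥ x = 0 := fun x => by
    rw [Gc, Cond.dot_symm s', z, zero_dotProduct]
  have ww : W *ᵥ ev i ⬝ᵥ ev i = W i i := by simp
  have q3 : ∀ S : Mx n, Gc θ d i W *ᵥ (W *ᵥ ev i) ⬝ᵥ S *ᵥ (Gc θ d i W *ᵥ (W *ᵥ ev i)) =
      qf i W (Gc θ d i W * S * Gc θ d i W) := fun S => by
    rw [qf, ← Matrix.mulVec_mulVec (W *ᵥ ev i), ← Matrix.mulVec_mulVec _ (Gc θ d i W) S]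
    exact (Cond.dot_symm s' _ _).symm
  refine ⟨oG'.trans hH, oh, ?_, ?_, ?_, ?_, fun S hS =>
    trace_diff c3 oκ or (oG.trans hH) (oG'.trans hH) hS⟩
  · refine c2.trans ?_
    congr 2
    rw [eB, er]
    simp only [sub_dotProduct, dotProduct_add, smul_dotProduct, dotProduct_smul, smul_eq_mul, z',
      ww, qf]
    simp; ring
  · rw [eS, er, ← q3, Matrix.one_mulVec, Matrix.one_mulVec]
    simp only [add_dotProduct, dotProduct_add, smul_dotProduct, dotProduct_smul, smul_eq_mul, z',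
      dotProduct_comm _ (ev i)]
    rw [show ev i ⬝ᵥ ev i = 1 by simp]; ring
  · rw [eS, er, ← q3]
    have a1 : ev i ⬝ᵥ W *ᵥ (Gc θ d i W *ᵥ (W *ᵥ ev i)) = qf i W (Gc θ d i W) :=
      Cond.dot_symm w1 _ _
    have a2 : Gc θ d i W *ᵥ (W *ᵥ ev i) ⬝ᵥ W *ᵥ ev i = qf i W (Gc θ d i W) := dotProduct_comm _ _
    have a3 : ev i ⬝ᵥ W *ᵥ ev i = W i i := by simp
    simp only [add_dotProduct, dotProduct_add, smul_dotProduct, dotProduct_smul, smul_eq_mul,
      Matrix.mulVec_add, Matrix.mulVec_smul, a1, a2, a3]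
    ring
  · have : (GG (Bw θ d W) d).trace - (Gc θ d i W).trace =
        d i ^ 2 * RR (Bw θ d W) d i i * nrm (rv (Bw θ d W) d i) ^ 2 := by
      rw [c3, Matrix.trace_add, Matrix.trace_smul, Matrix.trace_vecMulVec, nrm_sq, Gc, smul_eq_mul]
      ring
    rw [this, abs_mul, abs_of_nonneg (sq_nonneg (nrm _))]
    refine (mul_le_mul oκ (pow_le_pow_left₀ (nrm_nonneg _) or 2) (sq_nonneg _) (by linarith)).trans ?_
    generalize 1 + 4 / c = H at hH1
    nlinarith [pow_pos (show 0 < H by linarith) 3]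

lemma err_sc {h D θ w e1 e2 e3 v A X H : ℝ} (hH : 1 ≤ H) (hh : |h| ≤ H) (D0 : 0 ≤ D) (D1 : D ≤ 1)
    (t0 : 0 ≤ θ) (t1 : θ ≤ 1) (e : h = 1 + D * h * (θ * w + θ ^ 2 * e1 + θ ^ 2 * v))
    (hA : |A| ≤ 5 * H ^ 2) (hX : |X| ≤ 2 * (|w| + |e1| + |e2| + |e3| + |v|)) :
    (h - 1) ^ 2 ≤ θ ^ 2 * (720 * H ^ 8 * (w ^ 2 + e1 ^ 2 + e2 ^ 2 + e3 ^ 2 + v ^ 2)) ∧
    ((1 - h ^ 2) * A - h ^ 2 * X) ^ 2 ≤
      720 * H ^ 8 * (w ^ 2 + e1 ^ 2 + e2 ^ 2 + e3 ^ 2 + v ^ 2) := by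
  have m2 : (|w| + |e1| + |e2| + |e3| + |v|) ^ 2 ≤
      5 * (w ^ 2 + e1 ^ 2 + e2 ^ 2 + e3 ^ 2 + v ^ 2) := by
    rw [← sq_abs w, ← sq_abs e1, ← sq_abs e2, ← sq_abs e3, ← sq_abs v]
    linarith [sq_nonneg (|w| - |e1|), sq_nonneg (|w| - |e2|), sq_nonneg (|w| - |e3|),
      sq_nonneg (|w| - |v|), sq_nonneg (|e1| - |e2|), sq_nonneg (|e1| - |e3|),
      sq_nonneg (|e1| - |v|), sq_nonneg (|e2| - |e3|), sq_nonneg (|e2| - |v|),
      sq_nonneg (|e3| - |v|)]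
  have m1 : |w + θ * e1 + θ * v| ≤ |w| + |e1| + |e2| + |e3| + |v| := by
    have a1 := abs_add_three w (θ * e1) (θ * v)
    rw [abs_mul, abs_mul, abs_of_nonneg t0] at a1
    linarith [mul_le_of_le_one_left (abs_nonneg e1) t1, mul_le_of_le_one_left (abs_nonneg v) t1,
      abs_nonneg e2, abs_nonneg e3]
  have m0 : 0 ≤ |w| + |e1| + |e2| + |e3| + |v| := by positivity
  generalize |w| + |e1| + |e2| + |e3| + |v| = m at *
  generalize w ^ 2 + e1 ^ 2 + e2 ^ 2 + e3 ^ 2 + v ^ 2 = S at *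
  have H0 : 0 < H := by linarith
  have h1 : |h - 1| ≤ θ * (H * m) := by
    have : h - 1 = θ * (D * h * (w + θ * e1 + θ * v)) := by linarith
    rw [this, abs_mul, abs_mul, abs_mul, abs_of_nonneg t0, abs_of_nonneg D0]
    exact mul_le_mul_of_nonneg_left (mul_le_mul ((mul_le_of_le_one_left (abs_nonneg _) D1).trans hh)
      m1 (abs_nonneg _) H0.le) t0
  have h2 : |1 - h ^ 2| ≤ 2 * H * (H * m) := by
    rw [show 1 - h ^ 2 = -(h + 1) * (h - 1) by ring, abs_mul, abs_neg]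
    refine mul_le_mul ((abs_add_le _ _).trans ?_)
      (h1.trans (mul_le_of_le_one_left (by positivity) t1)) (abs_nonneg _) (by positivity)
    rw [abs_one]; linarith
  have h3 : h ^ 2 ≤ H ^ 4 := (sq_le_sq' (abs_le.1 hh).1 (abs_le.1 hh).2).trans
    (pow_le_pow_right₀ hH (by norm_num))
  have h4 : |(1 - h ^ 2) * A - h ^ 2 * X| ≤ 12 * H ^ 4 * m := by
    refine (abs_sub _ _).trans ?_
    rw [abs_mul, abs_mul, abs_of_nonneg (sq_nonneg h)]
    linarith [mul_le_mul h2 hA (abs_nonneg _) (by positivity),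
      mul_le_mul h3 hX (abs_nonneg _) (by positivity)]
  have h5 : (H * m) ^ 2 ≤ (12 * H ^ 4 * m) ^ 2 := by
    refine pow_le_pow_left₀ (by positivity) (mul_le_mul_of_nonneg_right ?_ m0) 2
    linarith [pow_le_pow_right₀ hH (show 1 ≤ 4 by norm_num), pow_one H]
  have h6 : (12 * H ^ 4 * m) ^ 2 ≤ 720 * H ^ 8 * S := by
    linarith [mul_le_mul_of_nonneg_left m2 (show 0 ≤ 144 * H ^ 8 by positivity)]
  refine ⟨?_, (sq_le_sq' (abs_le.1 h4).1 (abs_le.1 h4).2).trans h6⟩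
  refine (sq_le_sq' (abs_le.1 h1).1 (abs_le.1 h1).2).trans ?_
  rw [mul_pow]
  exact mul_le_mul_of_nonneg_left (h5.trans h6) (sq_nonneg _)

lemma abs_tr_div {M : Mx n} {L : ℝ} (h : opn M ≤ L) : |M.trace / n| ≤ L := by
  rcases Nat.eq_zero_or_pos n with rfl | hn
  · simpa using (opn_nonneg _).trans h
  have hn' : (0:ℝ) < n := by exact_mod_cast hn
  rw [abs_div, abs_of_pos hn', div_le_iff₀ hn', mul_comm]
  exact abs_trace_le h

lemma trace_div (M : Mx n) : M.trace / n = avg fun i => M i i := rfl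

lemma xi_nonneg (θ : ℝ) (d : V n) (W : Mx n) (i : Fin n) : 0 ≤ xi θ d W i := by
  unfold xi; positivity

/-- **deterministic part**: on the good event everything is bounded by the row fluctuations -/
theorem det_bound {c : ℝ} (hc : 0 < c) : ∃ K ≥ (0:ℝ), ∀ n : ℕ, 0 < n → ∀ θ ∈ Icc (0 : ℝ) 1,
    ∀ d : V n, Ub d → θ ^ 2 * avg (fun i => d i ^ 2) ≤ 1 - c → ∀ W ∈ Om c θ d,
      nrm (er1 θ d W) ^ 2 ≤ K * (∑ i, xi θ d W i + 1) ∧
      nrm (er2 θ d W) ^ 2 ≤ K * (∑ i, xi θ d W i + 1) ∧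
      n * ((GG (Bw θ d W) d).trace / n - avg fun i => d i ^ 2) ^ 2 ≤ K * (∑ i, xi θ d W i + 1) ∧
      ∑ i, (RR (Bw θ d W) d i i - 1) ^ 2 ≤ θ ^ 2 * (K * (∑ i, xi θ d W i + 1)) := by
  obtain ⟨H, hH⟩ : ∃ H, H = 1 + 4 / c := ⟨_, rfl⟩
  have H1 : 1 ≤ H := hH ▸ le_add_of_nonneg_right (by positivity)
  have Hc : 1 ≤ c * H := by rw [hH]; field_simp; linarith
  have H0 : 0 < H := by linarith
  refine ⟨720 * H ^ 8 * (17 * H ^ 8 * (216 * H ^ 8)), by positivity,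
    fun n hn θ hθ d hd ha W hW => ?_⟩
  obtain ⟨a0, a1⟩ := avg_sq_mem hd
  have hc1 : c ≤ 1 := by linarith [mul_nonneg (sq_nonneg θ) a0]
  have st := fun i => site hc hc1 hθ hd hW i
  rw [← hH] at st
  have oG : opn (GG (Bw θ d W) d) ≤ H := (opn_GG_le hc hd hW.2.2).trans (by
    rw [div_le_iff₀ hc]; linarith)
  have gl := GG_left (pos_unit hc hW.2.2)
  have gs := GG_symm (Bw_symm hW.1 θ d) d
  have t2 : θ ^ 2 ≤ 1 := pow_le_one₀ hθ.1 hθ.2
  have hw3 := hW.2.1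
  have x1 : er1 θ d W = fun i => 1 + θ ^ 2 / n * (GG (Bw θ d W) d * 1 * GG (Bw θ d W) d).trace -
    (RR (Bw θ d W) d * 1 * (RR (Bw θ d W) d)ᵀ) i i := rfl
  have x2 : er2 θ d W = fun i => (2 * θ * avg fun i => d i ^ 2) + θ ^ 2 / n *
    (GG (Bw θ d W) d * W * GG (Bw θ d W) d).trace -
    (RR (Bw θ d W) d * W * (RR (Bw θ d W) d)ᵀ) i i := rfl
  rw [x1, x2]
  change GG (Bw θ d W) d = Dm d * RR (Bw θ d W) d at gl
  generalize GG (Bw θ d W) d = G at *
  generalize RR (Bw θ d W) d = R at *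
  obtain ⟨a, ea⟩ : ∃ a, a = avg fun i => d i ^ 2 := ⟨_, rfl⟩
  obtain ⟨v, hv⟩ : ∃ v, v = G.trace / n - a := ⟨_, rfl⟩
  obtain ⟨e1, he1⟩ : ∃ e1 : V n, ∀ i, e1 i = qf i W (Gc θ d i W) - G.trace / n := ⟨_, fun _ => rfl⟩
  obtain ⟨e2, he2⟩ : ∃ e2 : V n, ∀ i, e2 i = qf i W (Gc θ d i W * 1 * Gc θ d i W) -
    (G * 1 * G).trace / n := ⟨_, fun _ => rfl⟩
  obtain ⟨e3, he3⟩ : ∃ e3 : V n, ∀ i, e3 i = qf i W (Gc θ d i W * W * Gc θ d i W) -
    (G * W * G).trace / n := ⟨_, fun _ => rfl⟩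
  have o2 : |(G * 1 * G).trace / n| ≤ H * 1 * H :=
    abs_tr_div (opn_mul_le' (opn_mul_le' oG opn_one_le) oG)
  have o3 : |(G * W * G).trace / n| ≤ H * 3 * H := abs_tr_div (opn_mul_le' (opn_mul_le' oG hw3) oG)
  have k1 : ∀ i, R i i = 1 + d i ^ 2 * R i i * (θ * W i i + θ ^ 2 * e1 i + θ ^ 2 * v) := fun i =>
    (st i).2.2.1.trans (by rw [he1, hv, ea]; ring)
  have k2 : G.trace / n = avg fun i => d i ^ 2 * R i i := by
    rw [trace_div]
    exact congrArg avg (funext fun i => by rw [gl, Dm, Matrix.diagonal_mul])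
  have k3 : ∀ i, (G * 1 * G) i i = (d i ^ 2) ^ 2 * (R * 1 * Rᵀ) i i := fun i => by
    have : G * 1 * G = Dm d * (R * 1 * Rᵀ) * Dm d := by
      conv_lhs => rw [← gs]
      rw [gs]
      conv_lhs => arg 2; rw [← gs]
      rw [gl, Matrix.transpose_mul, Dm, Matrix.diagonal_transpose]
      simp only [Matrix.mul_assoc]
    rw [this, Dm, Matrix.mul_diagonal, Matrix.diagonal_mul]; ring
  have k4 : 0 ≤ (G * 1 * G).trace / n := by
    rw [trace_div]
    refine avg_nonneg fun i => ?_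
    rw [k3, Matrix.mul_one, Matrix.mul_apply]
    exact mul_nonneg (sq_nonneg _) (Finset.sum_nonneg fun j _ => mul_self_nonneg _)
  have cl := closure (D := fun i => d i ^ 2) (h := fun i => R i i)
    (η := fun i => θ * W i i + θ ^ 2 * e1 i) (ε := e2) (H := H) (v := v)
    (T := (G * 1 * G).trace / n) (sq_nonneg θ) t2 hc (fun _ => sq_nonneg _)
    (fun i => pow_le_one₀ (hd i).1 (hd i).2) (fun i => (st i).2.1)
    (by
      have := abs_le.1 (abs_tr_div oG)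
      rw [hv, ea, abs_le]; constructor <;> linarith)
    k4 ha k1 (by rw [hv, k2, ea])
    (by
      conv_lhs => rw [trace_div]
      refine congrArg avg (funext fun i => ?_)
      rw [k3, (st i).2.2.2.1, he2]; ring)
  obtain ⟨S, hS⟩ : ∃ S, S = ∑ i, (W i i ^ 2 + e1 i ^ 2 + e2 i ^ 2 + e3 i ^ 2) := ⟨_, rfl⟩
  have S0 : 0 ≤ S := hS ▸ Finset.sum_nonneg fun i _ => by positivity
  have X0 : 0 ≤ ∑ i, xi θ d W i := Finset.sum_nonneg fun i _ => xi_nonneg θ d W i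
  have H8 : 1 ≤ H ^ 8 := one_le_pow₀ H1
  have s1 : S ≤ 216 * H ^ 8 * (∑ i, xi θ d W i + 1) := by
    have hn' : (0:ℝ) < n := by exact_mod_cast hn
    have : S ≤ ∑ i, (2 * xi θ d W i + 216 * H ^ 8 / n) := by
      rw [hS]
      refine Finset.sum_le_sum fun i _ => ?_
      have b1 := sq_shift (x := qf i W (Gc θ d i W)) hn (st i).2.2.2.2.2.1
      have b2 := sq_shift (x := qf i W (Gc θ d i W * 1 * Gc θ d i W)) hn
        ((st i).2.2.2.2.2.2 1 (opn_one_le.trans (by norm_num)))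
      have b3 := sq_shift (x := qf i W (Gc θ d i W * W * Gc θ d i W)) hn
        ((st i).2.2.2.2.2.2 W hw3)
      rw [he1, he2, he3, xi, fl, fl, fl]
      have : 216 * H ^ 8 / n = 3 * (2 * (6 * H ^ 4) ^ 2 / n) := by ring
      linarith [sq_nonneg (W i i)]
    rw [Finset.sum_add_distrib, ← Finset.mul_sum, Finset.sum_const, Finset.card_univ,
      Fintype.card_fin, nsmul_eq_mul, mul_div_cancel₀ _ hn'.ne'] at this
    linarith [mul_le_mul_of_nonneg_right H8 X0]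
  have s2 : n * v ^ 2 ≤ 16 * H ^ 8 * S := by
    have b1 : ∑ i, (θ * W i i + θ ^ 2 * e1 i) ^ 2 * H ^ 2 + ∑ i, e2 i ^ 2 * H ^ 6 ≤
        2 * H ^ 6 * S := by
      rw [hS, Finset.mul_sum, ← Finset.sum_add_distrib]
      refine Finset.sum_le_sum fun i _ => ?_
      have p1 : (θ * W i i + θ ^ 2 * e1 i) ^ 2 ≤ 2 * (W i i ^ 2 + e1 i ^ 2) := by
        have u1 := mul_le_of_le_one_left (sq_nonneg (W i i + θ * e1 i)) t2
        have u2 := mul_le_of_le_one_left (sq_nonneg (e1 i)) t2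
        linarith [sq_nonneg (W i i - θ * e1 i)]
      have p2 := mul_le_mul p1 (pow_le_pow_right₀ H1 (show 2 ≤ 6 by norm_num)) (by positivity)
        (by positivity)
      linarith [mul_nonneg (sq_nonneg (e2 i)) (pow_pos H0 6).le,
        mul_nonneg (sq_nonneg (e3 i)) (pow_pos H0 6).le]
    rw [← Finset.sum_mul, ← Finset.sum_mul] at b1
    have b2 : c ^ 2 * (n * v ^ 2) ≤ 16 * H ^ 6 * S := by linarith
    have b3 := mul_le_mul_of_nonneg_right (one_le_pow₀ (n := 2) Hc)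
      (show 0 ≤ n * v ^ 2 by positivity)
    linarith [mul_le_mul_of_nonneg_left b2 (sq_nonneg H)]
  have s3 : S + n * v ^ 2 ≤ 17 * H ^ 8 * (216 * H ^ 8) * (∑ i, xi θ d W i + 1) := by
    linarith [mul_le_mul_of_nonneg_right H8 S0,
      mul_le_mul_of_nonneg_left s1 (show 0 ≤ 17 * H ^ 8 by positivity)]
  have s4 : ∑ i, 720 * H ^ 8 * (W i i ^ 2 + e1 i ^ 2 + e2 i ^ 2 + e3 i ^ 2 + v ^ 2) ≤
      720 * H ^ 8 * (17 * H ^ 8 * (216 * H ^ 8)) * (∑ i, xi θ d W i + 1) := by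
    rw [← Finset.mul_sum, Finset.sum_add_distrib, ← hS, Finset.sum_const, Finset.card_univ,
      Fintype.card_fin, nsmul_eq_mul, mul_assoc (720 * H ^ 8)]
    exact mul_le_mul_of_nonneg_left s3 (by positivity)
  have es := fun i {A X : ℝ} => err_sc (e2 := e2 i) (e3 := e3 i) (A := A) (X := X) H1 (st i).2.1
    (sq_nonneg (d i)) (pow_le_one₀ (hd i).1 (hd i).2) hθ.1 hθ.2 (k1 i)
  have H2 : 1 ≤ H ^ 2 := one_le_pow₀ H1
  have hm : ∀ x : ℝ, |θ ^ 2 * x| ≤ |x| := fun x => by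
    rw [abs_mul, abs_of_nonneg (sq_nonneg θ)]; exact mul_le_of_le_one_left (abs_nonneg _) t2
  have hm' : ∀ x : ℝ, |2 * θ * x| ≤ 2 * |x| := fun x => by
    rw [abs_mul, abs_mul, abs_of_nonneg hθ.1, abs_two]
    linarith [mul_le_of_le_one_left (abs_nonneg x) hθ.2]
  refine ⟨le_trans ?_ s4, le_trans ?_ s4, ?_, ?_⟩
  · rw [nrm_sq, dotProduct]
    refine Finset.sum_le_sum fun i _ => le_trans (le_of_eq ?_)
      (es i (A := 1 + θ ^ 2 * ((G * 1 * G).trace / n)) (X := θ ^ 2 * e2 i) ?_ ?_).2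
    · rw [(st i).2.2.2.1, he2]; ring
    · refine (abs_add_le _ _).trans ?_
      rw [abs_one]; linarith [hm ((G * 1 * G).trace / n)]
    · linarith [hm (e2 i), abs_nonneg (W i i), abs_nonneg (e1 i), abs_nonneg (e2 i),
        abs_nonneg (e3 i), abs_nonneg v]
  · rw [nrm_sq, dotProduct]
    refine Finset.sum_le_sum fun i _ => le_trans (le_of_eq ?_)
      (es i (A := 2 * θ * a + θ ^ 2 * ((G * W * G).trace / n))
        (X := W i i + 2 * θ * v + (2 * θ * e1 i + θ ^ 2 * e3 i)) ?_ ?_).2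
    · rw [(st i).2.2.2.2.1, he1, he3, hv, ← ea]; ring
    · refine (abs_add_le _ _).trans ?_
      have : |a| ≤ 1 := by rw [ea, abs_of_nonneg a0]; exact a1
      linarith [hm ((G * W * G).trace / n), hm' a]
    · linarith [abs_add_three (W i i) (2 * θ * v) (2 * θ * e1 i + θ ^ 2 * e3 i),
        abs_add_le (2 * θ * e1 i) (θ ^ 2 * e3 i), hm (e3 i), hm' v, hm' (e1 i), abs_nonneg (W i i),
        abs_nonneg (e2 i), abs_nonneg (e3 i)]
  · rw [← ea, ← hv, mul_assoc (720 * H ^ 8)]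
    have : 0 ≤ 17 * H ^ 8 * (216 * H ^ 8) * (∑ i, xi θ d W i + 1) := by positivity
    linarith [mul_le_mul_of_nonneg_right H8 this]
  · refine le_trans ?_ (mul_le_mul_of_nonneg_left s4 (sq_nonneg θ))
    rw [Finset.mul_sum]
    exact Finset.sum_le_sum fun i _ => (es i (A := 0) (X := 0) (by simpa using by positivity)
      (by simpa using by positivity)).1

/-! ### the probabilistic part -/

lemma quad_l2 {A : Mx n} {F : ℝ} (hF : 0 < F) (h : Conc.fro A ≤ F) :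
    ∫⁻ x, ENNReal.ofReal ((x ⬝ᵥ A *ᵥ x - A.trace) ^ 2) ∂gv (Fin n) ≤ ENNReal.ofReal (128 * F) := by
  have hK : 0 < √F := Real.sqrt_pos.2 hF
  have h1 := Conc.subE_gauss_quad (A := A) hK fun x => by
    have := ((Conc.opB_fro A).mono (Real.sqrt_le_sqrt h)).bilin x x
    linarith
  have ht : 0 < 1 / (4 * √F) := by positivity
  have h2 := h1.moment ht le_rfl 2
  have h3 := h1.integrable_pow ht 2
  simp only [sq_abs] at h2 h3
  rw [← ofReal_integral_eq_lintegral_ofReal h3 (ae_of_all _ fun _ => sq_nonneg _)]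
  refine ENNReal.ofReal_le_ofReal (h2.trans ?_)
  have e : (1 / (4 * √F)) ^ 2 = 1 / (16 * F) := by
    rw [div_pow, mul_pow, Real.sq_sqrt hF.le]; norm_num
  rw [e]
  have h4 : Real.exp (2 * Conc.fro A * (1 / (16 * F))) ≤ 2 := by
    have : 2 * Conc.fro A * (1 / (16 * F)) ≤ 1 / 2 := by
      rw [mul_one_div, div_le_iff₀ (by positivity)]; linarith
    refine (Real.exp_le_exp.2 this).trans ?_
    have h5 := Real.exp_one_lt_d9
    have h6 : Real.exp (1 / 2) ^ 2 = Real.exp 1 := by rw [← Real.exp_nat_mul]; norm_num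
    nlinarith [Real.exp_pos (1 / 2)]
  have e2 : 2 * ((2 : ℕ).factorial : ℝ) / (1 / (16 * F)) = 64 * F := by
    rw [Nat.factorial_two]; field_simp; norm_num
  rw [e2]
  linarith [mul_le_mul_of_nonneg_left h4 (show 0 ≤ 64 * F by positivity)]

/-- projector off site `i` -/
def Pm (i : Fin n) : Mx n := nextR 1 (ev i)
/-- the GOE rebuilt from its `i`-th row and the rest -/
def Ps (i : Fin n) (ξ : V n) (W : Mx n) : Mx n :=
  (1 / √n : ℝ) • rk2 (noise 1 (ev i) ξ) (dirv 1 (ev i)) + Pm i * W * Pm i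

lemma len_ev (i : Fin n) : len ((1 : Mx n) *ᵥ ev i) = 1 := by
  rw [Matrix.one_mulVec]; simp [len]

lemma dirv_ev (i : Fin n) : dirv 1 (ev i) = ev i := by
  rw [dirv, unitv, len_ev, Matrix.one_mulVec, inv_one, one_smul]

lemma proj_Pm (i : Fin n) : IsProj (Pm i) := IsProj.one.nextR _

lemma Pm_ev (i : Fin n) : Pm i *ᵥ ev i = 0 := nextR_v IsProj.one _

lemma Ps_ev (i : Fin n) (ξ : V n) (W : Mx n) :
    Ps i ξ W *ᵥ ev i = (1 / √n : ℝ) • (ξ + ((√2 - 1) * ξ i) • ev i) := by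
  rw [Ps, Matrix.add_mulVec, ← Matrix.mulVec_mulVec, Pm_ev, Matrix.mulVec_zero, add_zero,
    Matrix.smul_mulVec, rk2_mulVec_v IsProj.one _ (Matrix.one_mulVec _), len_ev, one_smul,
    noise_eq IsProj.one, dirv_ev, ev_dot, Matrix.one_mulVec]

lemma Pm_Ps (i : Fin n) (ξ : V n) (W : Mx n) : Pm i * Ps i ξ W * Pm i = Pm i * W * Pm i := by
  rw [Ps, Matrix.mul_add, Matrix.add_mul, Matrix.mul_smul, Matrix.smul_mul, Pm,
    nextR_rk2_nextR IsProj.one, smul_zero, zero_add, ← Pm]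
  calc _ = (Pm i * Pm i) * W * (Pm i * Pm i) := by simp only [Matrix.mul_assoc]
    _ = _ := by rw [(proj_Pm i).idem]

lemma lint_row (i : Fin n) {f : Mx n → ENNReal} (hf : Measurable f) {C : ENNReal}
    (h : ∀ W, ∫⁻ ξ, f (Ps i ξ W) ∂gv (Fin n) ≤ C) : ∫⁻ W, f W ∂GOE n ≤ C := by
  have h1 := goe_step0 (IsProj.one (ι := Fin n)) (ev i) (1 / √n)
  simp only [Matrix.one_mul, Matrix.mul_one, Measure.map_id'] at h1
  have hm : Measurable fun p : V n × Mx n => Ps i p.1 p.2 := by unfold Ps; fun_prop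
  have h2 : GOE n = ((gv (Fin n)).prod (GOE n)).map fun p => Ps i p.1 p.2 := h1
  rw [h2, lintegral_map hf hm,
    lintegral_prod_symm' (fun p : V n × Mx n => f (Ps i p.1 p.2)) (hf.comp hm)]
  exact (lintegral_mono h).trans (by simp)

lemma measurable_fl (i : Fin n) {M : Mx n → Mx n} (hM : Measurable M) :
    Measurable fun W => fl i W (M W) := by unfold fl qf; fun_prop

/-- the truncated squared fluctuation -/
def tf (L : ℝ) (i : Fin n) (M : Mx n → Mx n) (W : Mx n) : ℝ :=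
  if opn (M W) ≤ L then fl i W (M W) ^ 2 else 0

lemma tf_nonneg (L : ℝ) (i : Fin n) (M : Mx n → Mx n) (W : Mx n) : 0 ≤ tf L i M W := by
  unfold tf; split_ifs <;> positivity

lemma measurable_tf (L : ℝ) (i : Fin n) {M : Mx n → Mx n} (hM : Measurable M) :
    Measurable (tf L i M) :=
  Measurable.ite (measurableSet_le (by fun_prop) measurable_const)
    ((measurable_fl i hM).pow_const 2) measurable_const

lemma int_of_lint {f : Mx n → ℝ} (hf : Measurable f) (h0 : ∀ W, 0 ≤ f W) {C : ℝ} (hC : 0 ≤ C)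
    (h : ∫⁻ W, ENNReal.ofReal (f W) ∂GOE n ≤ ENNReal.ofReal C) :
    Integrable f (GOE n) ∧ ∫ W, f W ∂GOE n ≤ C := by
  refine ⟨⟨hf.aestronglyMeasurable, (hasFiniteIntegral_iff_ofReal (ae_of_all _ h0)).2
    (h.trans_lt ENNReal.ofReal_lt_top)⟩, ?_⟩
  rw [integral_eq_lintegral_of_nonneg_ae (ae_of_all _ h0) hf.aestronglyMeasurable]
  exact ENNReal.toReal_le_of_le_ofReal hC h

/-- **quadratic forms of a row** in a matrix that does not see the row -/
theorem row_l2 (hn : 0 < n) (i : Fin n) {M : Mx n → Mx n} (hM : Measurable M)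
    (h1 : ∀ W, M (Pm i * W * Pm i) = M W) (h2 : ∀ W, Pm i * M W * Pm i = M W) {L : ℝ}
    (hL : 0 < L) : Integrable (tf L i M) (GOE n) ∧ ∫ W, tf L i M W ∂GOE n ≤ 128 * L ^ 2 / n := by
  have hn' : (0:ℝ) < n := by exact_mod_cast hn
  refine int_of_lint (measurable_tf L i hM) (tf_nonneg L i M) (by positivity)
    (lint_row i (measurable_tf L i hM).ennreal_ofReal fun W => ?_)
  have e1 : ∀ ξ, M (Ps i ξ W) = M W := fun ξ => by rw [← h1, Pm_Ps, h1]
  by_cases hW : opn (M W) ≤ L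
  · have e2 : ∀ ξ, tf L i M (Ps i ξ W) = 1 / n ^ 2 * (ξ ⬝ᵥ M W *ᵥ ξ - (M W).trace) ^ 2 := fun ξ => by
      have a : ∀ x : V n, x ⬝ᵥ M W *ᵥ x = Pm i *ᵥ x ⬝ᵥ M W *ᵥ (Pm i *ᵥ x) := fun x => by
        conv_lhs => rw [← h2 W, ← Matrix.mulVec_mulVec, ← Matrix.mulVec_mulVec, (proj_Pm i).dot]
      have b : (1 / √n : ℝ) * (1 / √n) = 1 / n := by
        rw [div_mul_div_comm, Real.mul_self_sqrt hn'.le, one_mul]
      rw [tf, e1, if_pos hW, fl, qf, Ps_ev, Matrix.mulVec_smul, smul_dotProduct, dotProduct_smul,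
        a (ξ + _), Matrix.mulVec_add, Matrix.mulVec_smul, Pm_ev, smul_zero, add_zero, ← a,
        smul_eq_mul, smul_eq_mul, ← mul_assoc, b]
      ring
    simp only [e2, ENNReal.ofReal_mul (show (0:ℝ) ≤ 1 / n ^ 2 by positivity)]
    rw [lintegral_const_mul' _ _ ENNReal.ofReal_ne_top]
    refine (mul_le_mul_right (quad_l2 (by positivity) (fro_le hW)) _).trans (le_of_eq ?_)
    rw [← ENNReal.ofReal_mul (by positivity)]
    congr 1; field_simp
  · simp [tf, e1, hW]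

lemma diag_l2 (hn : 0 < n) (i : Fin n) :
    Integrable (fun W : Mx n => W i i ^ 2) (GOE n) ∧ ∫ W, W i i ^ 2 ∂GOE n ≤ 260 / n := by
  have hn' : (0:ℝ) < n := by exact_mod_cast hn
  have hm : Measurable fun W : Mx n => W i i ^ 2 := (measurable_id.t157_entry i i).pow_const 2
  refine int_of_lint hm (fun _ => sq_nonneg _) (by positivity)
    (lint_row i hm.ennreal_ofReal fun W => ?_)
  have e : ∀ ξ : V n, Ps i ξ W i i ^ 2 ≤ 2 / n * ((ξ ⬝ᵥ vecMulVec (ev i) (ev i) *ᵥ ξ -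
      (vecMulVec (ev i) (ev i)).trace) ^ 2 + 2) := fun ξ => by
    have a := congrFun (Ps_ev i ξ W) i
    have a' : Ps i ξ W i i = 1 / √n * (√2 * ξ i) := by
      simp only [Matrix.mulVec_single_one, Matrix.col_apply, Pi.smul_apply, Pi.add_apply,
        Pi.single_eq_same, smul_eq_mul] at a
      rw [a]; ring
    rw [a', vmv_mulVec, Matrix.trace_vecMulVec, ev_dot, ev_dot, dotProduct_smul, dotProduct_comm,
      ev_dot, mul_pow, mul_pow, div_pow, Real.sq_sqrt hn'.le, Real.sq_sqrt zero_le_two]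
    simp only [Pi.single_eq_same, smul_eq_mul]
    rw [show 1 ^ 2 / (n:ℝ) * (2 * ξ i ^ 2) = 2 / n * ξ i ^ 2 by ring]
    exact mul_le_mul_of_nonneg_left (by nlinarith [sq_nonneg (ξ i * ξ i - 2)]) (by positivity)
  refine (lintegral_mono fun ξ => ENNReal.ofReal_le_ofReal (e ξ)).trans ?_
  simp only [ENNReal.ofReal_mul (show (0:ℝ) ≤ 2 / n by positivity),
    ENNReal.ofReal_add (sq_nonneg _) zero_le_two]
  rw [lintegral_const_mul' _ _ ENNReal.ofReal_ne_top, lintegral_add_right _ measurable_const]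
  have hf : Conc.fro (vecMulVec (ev i) (ev i)) ≤ 1 := by
    simp [Conc.fro, vecMulVec_apply, Pi.single_apply]
  refine (mul_le_mul_right (add_le_add_left (quad_l2 one_pos hf) _) _).trans (le_of_eq ?_)
  rw [lintegral_const, measure_univ, mul_one, mul_one,
    ← ENNReal.ofReal_add (by norm_num) zero_le_two, ← ENNReal.ofReal_mul (by positivity)]
  congr 1; ring

lemma diag_Pm (d : V n) (i : Fin n) : diagonal (rm d i) * Pm i = diagonal (rm d i) := by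
  have : diagonal (rm d i) *ᵥ ev i = 0 := by
    funext j
    rw [Matrix.mulVec_diagonal]
    by_cases h : j = i
    · subst h; simp [rm]
    · simp [h]
  rw [Pm, nextR, dirv_ev, Matrix.mul_sub, Matrix.mul_vecMulVec, this]; simp

lemma Pm_diag (d : V n) (i : Fin n) : Pm i * diagonal (rm d i) = diagonal (rm d i) := by
  have := congrArg Matrix.transpose (diag_Pm d i)
  rwa [Matrix.transpose_mul, (proj_Pm i).symm, Matrix.diagonal_transpose] at this

lemma Gc_Pm (θ : ℝ) (d : V n) (i : Fin n) (W : Mx n) : Gc θ d i W * Pm i = Gc θ d i W := by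
  rw [Gc, GG, Matrix.mul_assoc, diag_Pm]

lemma Pm_Gc (θ : ℝ) (d : V n) (i : Fin n) (W : Mx n) : Pm i * Gc θ d i W = Gc θ d i W := by
  rw [Gc, GG, ← Matrix.mul_assoc, ← Matrix.mul_assoc, Pm_diag]

lemma Gc_compress (θ : ℝ) (d : V n) (i : Fin n) (W : Mx n) :
    Gc θ d i (Pm i * W * Pm i) = Gc θ d i W := by
  have : diagonal (rm d i) * (Pm i * W * Pm i) * diagonal (rm d i) =
      diagonal (rm d i) * W * diagonal (rm d i) := by
    calc _ = (diagonal (rm d i) * Pm i) * W * (Pm i * diagonal (rm d i)) := by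
          simp only [Matrix.mul_assoc]
      _ = _ := by rw [diag_Pm, Pm_diag]
  simp only [Gc, GG, NN, Bw, B0, Matrix.mul_sub, Matrix.sub_mul, Matrix.mul_smul, Matrix.smul_mul,
    this]

lemma measurable_Gc (θ : ℝ) (d : V n) (i : Fin n) : Measurable (Gc θ d i) := by
  unfold Gc; fun_prop

/-- every function dominated by the row fluctuations has a bounded integral over `Om` -/
theorem xi_l2 {c : ℝ} (hc : 0 < c) : ∃ K₀ ≥ (0:ℝ), ∀ n : ℕ, 0 < n → ∀ θ ∈ Icc (0 : ℝ) 1,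
    ∀ d : V n, Ub d → c ≤ 1 → ∀ (K : ℝ) (f : Mx n → ℝ), 0 ≤ K → (∀ W, 0 ≤ f W) →
      (∀ W ∈ Om c θ d, f W ≤ K * (∑ i, xi θ d W i + 1)) →
      ∫ W in Om c θ d, f W ∂GOE n ≤ K * K₀ := by
  obtain ⟨H, hH⟩ : ∃ H, H = 1 + 4 / c := ⟨_, rfl⟩
  have H1 : 1 ≤ H := hH ▸ le_add_of_nonneg_right (by positivity)
  have hL : 0 < 3 * H ^ 2 := by positivity
  refine ⟨260 + 3 * (128 * (3 * H ^ 2) ^ 2) + 1, by positivity,
    fun n hn θ hθ d hd hc1 K f hK f0 hf => ?_⟩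
  have hn' : (0:ℝ) < n := by exact_mod_cast hn
  have r0 := fun i => diag_l2 hn i
  have r1 := fun i => row_l2 hn i (measurable_Gc θ d i) (Gc_compress θ d i)
    (fun W => by rw [Pm_Gc, Gc_Pm]) hL
  have r2 := fun i => row_l2 hn i (M := fun W => Gc θ d i W * 1 * Gc θ d i W)
    (by have := measurable_Gc θ d i; fun_prop) (fun W => by rw [Gc_compress])
    (fun W => by rw [← Matrix.mul_assoc, ← Matrix.mul_assoc, Pm_Gc, Matrix.mul_assoc, Gc_Pm]) hL
  have r3 := fun i => row_l2 hn i (M := fun W => Gc θ d i W * W * Gc θ d i W)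
    (by have := measurable_Gc θ d i; fun_prop) (fun W => by
      rw [Gc_compress]
      calc _ = (Gc θ d i W * Pm i) * W * (Pm i * Gc θ d i W) := by simp only [Matrix.mul_assoc]
        _ = _ := by rw [Pm_Gc, Gc_Pm])
    (fun W => by rw [← Matrix.mul_assoc, ← Matrix.mul_assoc, Pm_Gc, Matrix.mul_assoc, Gc_Pm]) hL
  obtain ⟨g, hg⟩ : ∃ g : Fin n → Mx n → ℝ, ∀ i, g i = fun W => W i i ^ 2 +
    tf (3 * H ^ 2) i (Gc θ d i) W + tf (3 * H ^ 2) i (fun W => Gc θ d i W * 1 * Gc θ d i W) W +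
    tf (3 * H ^ 2) i (fun W => Gc θ d i W * W * Gc θ d i W) W := ⟨_, fun _ => rfl⟩
  have gi : ∀ i, Integrable (g i) (GOE n) := fun i => by
    rw [hg]; exact (((r0 i).1.add (r1 i).1).add (r2 i).1).add (r3 i).1
  have gb : ∀ i, ∫ W, g i W ∂GOE n ≤ (260 + 3 * (128 * (3 * H ^ 2) ^ 2)) / n := fun i => by
    rw [hg]
    have i1 := (r0 i).1.add (r1 i).1
    have i2 := i1.add (r2 i).1
    beta_reduce
    erw [integral_add i2 (r3 i).1, integral_add i1 (r2 i).1, integral_add (r0 i).1 (r1 i).1]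
    rw [add_div, mul_div_assoc]
    linarith [(r0 i).2, (r1 i).2, (r2 i).2, (r3 i).2]
  have g0 : ∀ i W, 0 ≤ g i W := fun i W => by
    rw [hg]
    exact add_nonneg (add_nonneg (add_nonneg (sq_nonneg _) (tf_nonneg ..)) (tf_nonneg ..))
      (tf_nonneg ..)
  have gx : ∀ W ∈ Om c θ d, ∀ i, xi θ d W i = g i W := fun W hW i => by
    have o := hH ▸ (site hc hc1 hθ hd hW i).1
    have o1 : opn (Gc θ d i W) ≤ 3 * H ^ 2 := by nlinarith
    have o2 : opn (Gc θ d i W * 1 * Gc θ d i W) ≤ 3 * H ^ 2 :=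
      (opn_mul_le' (opn_mul_le' o opn_one_le) o).trans (by nlinarith)
    have o3 : opn (Gc θ d i W * W * Gc θ d i W) ≤ 3 * H ^ 2 :=
      (opn_mul_le' (opn_mul_le' o hW.2.1) o).trans (le_of_eq (by ring))
    rw [hg]
    simp only [xi, tf, if_pos o1, if_pos o2, if_pos o3]
  have gs : Integrable (fun W => ∑ i, g i W) (GOE n) := integrable_finsetSum _ fun i _ => gi i
  have gI : Integrable (fun W => K * (∑ i, g i W + 1)) (GOE n) :=
    (gs.add (integrable_const 1)).const_mul K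
  calc ∫ W in Om c θ d, f W ∂GOE n ≤ ∫ W in Om c θ d, K * (∑ i, g i W + 1) ∂GOE n := by
        refine integral_mono_of_nonneg (ae_of_all _ f0) gI.integrableOn ?_
        filter_upwards [ae_restrict_mem (measurableSet_Om c θ d)] with W hW
        simpa only [gx W hW] using hf W hW
    _ ≤ ∫ W, K * (∑ i, g i W + 1) ∂GOE n := setIntegral_le_integral gI (ae_of_all _ fun W =>
        mul_nonneg hK (add_nonneg (Finset.sum_nonneg fun i _ => g0 i W) zero_le_one))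
    _ ≤ _ := by
        rw [integral_const_mul, integral_add gs (integrable_const 1),
          integral_finsetSum _ fun i _ => gi i]
        refine mul_le_mul_of_nonneg_left (add_le_add ?_ (by simp)) hK
        refine (Finset.sum_le_card_nsmul _ _ _ fun i _ => gb i).trans (le_of_eq ?_)
        rw [Finset.card_univ, Fintype.card_fin, nsmul_eq_mul, mul_div_cancel₀ _ hn'.ne']

/-- the four `L²` bounds -/
theorem fix_l2 {c : ℝ} (hc : 0 < c) : ∃ K : ℝ, ∀ n : ℕ, 0 < n → ∀ θ ∈ Icc (0 : ℝ) 1, ∀ d : V n,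
    Ub d → θ ^ 2 * avg (fun i => d i ^ 2) ≤ 1 - c →
      ∫ W in Om c θ d, nrm (er1 θ d W) ^ 2 ∂GOE n ≤ K ∧
      ∫ W in Om c θ d, nrm (er2 θ d W) ^ 2 ∂GOE n ≤ K ∧
      ∫ W in Om c θ d, n * ((GG (Bw θ d W) d).trace / n - avg fun i => d i ^ 2) ^ 2 ∂GOE n ≤ K ∧
      ∫ W in Om c θ d, ∑ i, (RR (Bw θ d W) d i i - 1) ^ 2 ∂GOE n ≤ θ ^ 2 * K := by
  obtain ⟨K, hK, h⟩ := det_bound hc
  obtain ⟨K₀, -, h0⟩ := xi_l2 hc
  refine ⟨K * K₀, fun n hn θ hθ d hd ha => ?_⟩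
  have hc1 : c ≤ 1 := by linarith [mul_nonneg (sq_nonneg θ) (avg_sq_mem hd).1]
  have h1 := h0 n hn θ hθ d hd hc1
  have h2 := h n hn θ hθ d hd ha
  refine ⟨h1 K _ hK (fun _ => sq_nonneg _) fun W hW => (h2 W hW).1,
    h1 K _ hK (fun _ => sq_nonneg _) fun W hW => (h2 W hW).2.1,
    h1 K _ hK (fun _ => by positivity) fun W hW => (h2 W hW).2.2.1, ?_⟩
  rw [← mul_assoc]
  exact h1 _ _ (by positivity) (fun _ => by positivity) fun W hW =>
    (h2 W hW).2.2.2.trans (le_of_eq (by ring))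

/-- crude entrywise bound of an error vector -/
lemma abs_err_le {c b k L : ℝ} (hc : 0 < c) {B S : Mx n} {d : V n} (hd : Ub d)
    (h : Pos c (NN B d)) (hB : opn B ≤ L) (hS : opn S ≤ L) (i : Fin n) :
    |err B d b S k i| ≤ |k| + |b| * (1 / c * L * (1 / c)) + (1 + L * (1 / c)) * L * (1 + L * (1 / c)) := by
  have oG := opn_GG_le hc hd h
  have oR : opn (RR B d) ≤ 1 + L * (1 / c) := opn_one_add_le (opn_mul_le' hB oG)
  have h1 := abs_tr_div (opn_mul_le' (opn_mul_le' oG hS) oG)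
  have h2 := (abs_entry_le _ i i).trans
    (opn_mul_le' (opn_mul_le' oR hS) ((opn_transpose _).trans_le oR))
  rw [err, div_mul_eq_mul_div, mul_div_assoc]
  refine (abs_sub _ _).trans (add_le_add ((abs_add_le _ _).trans (add_le_add le_rfl ?_)) h2)
  rw [abs_mul]
  exact mul_le_mul_of_nonneg_left h1 (abs_nonneg _)

end Crest.Agent.T157.Tap.Uf

namespace Crest.Agent.T157.Tap

/-- **the fixed-`d` freeness bound** -/
theorem ufFix : UFfixStmt := fun _ hc =>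
  let ⟨K, h⟩ := Uf.fix_l2 hc
  ⟨K, fun n hn θ hθ d hd ha => ⟨(h n hn θ hθ d hd ha).1, (h n hn θ hθ d hd ha).2.1⟩⟩

end Crest.Agent.T157.Tap
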