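import Crest.Agent.T157.TapUfC_23
import Crest.Agent.T157.TapUfD_14

/-!
# Row 157, part A (helper23): the probability form `UFfixP` of the fixed-`d` bound (Markov)
-/

set_option autoImplicit false

noncomputable section

namespace Crest.Agent.T157.Tap

open MeasureTheory ProbabilityTheory Matrix Filter Set
open Crest.Agent.T157.E Crest.Agent.T157.Eig Crest.Agent.T157.Cond

namespace Uf

variable {n : ℕ}

lemma integrableOn_err {c θ k : ℝ} (hc : 0 < c) (hθ : θ ∈ Icc (0:ℝ) 1) {d : V n} (hd : Ub d)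
    {S : Mx n → Mx n} (hS : Measurable S) (oS : ∀ W ∈ Om c θ d, opn (S W) ≤ 4) :
    IntegrableOn (fun W => nrm (err (Bw θ d W) d (θ ^ 2) (S W) k) ^ 2) (Om c θ d) (GOE n) := by
  have hm : Measurable fun W => err (Bw θ d W) d (θ ^ 2) (S W) k :=
    measurable_err (by fun_prop) hS d _ _
  refine Measure.integrableOn_of_bounded (measure_ne_top _ _)
    (hm.t157_nrm23.pow_const 2).aestronglyMeasurable (M := n * (|k| + |θ ^ 2| * (1 / c * 4 * (1 / c)) +
      (1 + 4 * (1 / c)) * 4 * (1 + 4 * (1 / c))) ^ 2) ?_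
  filter_upwards [ae_restrict_mem (measurableSet_Om c θ d)] with W hW
  rw [Real.norm_eq_abs, abs_of_nonneg (sq_nonneg _), nrm_sq, dotProduct]
  refine (Finset.sum_le_card_nsmul _ _ _ fun i _ => ?_).trans
    (by rw [Finset.card_univ, Fintype.card_fin, nsmul_eq_mul])
  have := abs_err_le (b := θ ^ 2) (k := k) hc hd hW.2.2 (opn_Bw_le hW.2.1 hθ hd) (oS W hW) i
  rw [← sq]
  exact sq_le_sq' (abs_le.1 this).1 (abs_le.1 this).2

lemma integrableOn_er1 {c θ : ℝ} (hc : 0 < c) (hθ : θ ∈ Icc (0:ℝ) 1) {d : V n} (hd : Ub d) :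
    IntegrableOn (fun W => nrm (er1 θ d W) ^ 2) (Om c θ d) (GOE n) :=
  integrableOn_err hc hθ hd measurable_const fun _ _ => opn_one_le.trans (by norm_num)

lemma integrableOn_er2 {c θ : ℝ} (hc : 0 < c) (hθ : θ ∈ Icc (0:ℝ) 1) {d : V n} (hd : Ub d) :
    IntegrableOn (fun W => nrm (er2 θ d W) ^ 2) (Om c θ d) (GOE n) :=
  integrableOn_err hc hθ hd measurable_id fun _ hW => hW.2.1.trans (by norm_num)

/-- Markov's inequality on a set -/
lemma markov_on {μ : Measure (Mx n)} [IsFiniteMeasure μ] {s : Set (Mx n)} (hs : MeasurableSet s)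
    {f : Mx n → ℝ} (f0 : ∀ W, 0 ≤ f W) (hf : IntegrableOn f s μ) {K L : ℝ} (hL : 0 < L)
    (h : ∫ W in s, f W ∂μ ≤ K) : μ.real ({W | L ≤ f W} ∩ s) ≤ K / L := by
  have h1 := mul_meas_ge_le_integral_of_nonneg (μ := μ.restrict s) (ae_of_all _ f0) hf L
  rw [measureReal_restrict_apply' hs] at h1
  rw [le_div_iff₀ hL]
  linarith

end Uf

/-- **the input of the chaining** -/
theorem ufFixP : UFfixP := fun c hc => by
  obtain ⟨K, h⟩ := ufFix c hc
  refine ⟨√(8 * |K| + 1), ?_⟩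
  filter_upwards [eventually_gt_atTop 0] with n hn d hd ha
  have hθ : (1:ℝ) ∈ Icc (0:ℝ) 1 := ⟨zero_le_one, le_rfl⟩
  obtain ⟨h1, h2⟩ := h n hn 1 hθ d hd (by simpa using ha)
  have hL : 0 < 8 * |K| + 1 := by positivity
  have m1 := Uf.markov_on (Uf.measurableSet_Om c 1 d) (fun _ => sq_nonneg _)
    (Uf.integrableOn_er1 hc hθ hd) hL h1
  have m2 := Uf.markov_on (Uf.measurableSet_Om c 1 d) (fun _ => sq_nonneg _)
    (Uf.integrableOn_er2 hc hθ hd) hL h2
  have hK : K / (8 * |K| + 1) ≤ 1 / 8 := by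
    rw [div_le_iff₀ hL]; linarith [le_abs_self K]
  refine (measureReal_mono (s₂ := ({W | 8 * |K| + 1 ≤ nrm (er1 1 d W) ^ 2} ∩ Om c 1 d) ∪
    ({W | 8 * |K| + 1 ≤ nrm (er2 1 d W) ^ 2} ∩ Om c 1 d)) ?_).trans
    ((measureReal_union_le _ _).trans (by linarith))
  rintro W ⟨w1, w2, w3, w4⟩
  have hW : W ∈ Om c 1 d := ⟨w1, w2, by simpa using w3⟩
  rcases not_and_or.1 w4 with w | w
  · refine Or.inl ⟨(Real.sqrt_le_left (nrm_nonneg _)).1 ?_, hW⟩
    simpa [er1] using (not_le.1 w).le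
  · refine Or.inr ⟨(Real.sqrt_le_left (nrm_nonneg _)).1 ?_, hW⟩
    simpa [er2] using (not_le.1 w).le

end Crest.Agent.T157.Tap
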