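import Crest.Agent.T157.TapUfC_14
import Crest.Agent.T157.TapUfC_23

/-!
# Row 157, part A: ROBUST uniform freeness (helper14)

`Tap.ufR`: with high probability, for every matrix `X` within Frobenius distance `ρ` of `W`, every
`θ ∈ [0,1]` and every diagonal with `N ⪰ c`, the two error vectors are `O(1)` and
`tr (B G)`, `θ (tr G - n a)` are `O(√n)`.
-/

set_option autoImplicit false

noncomputable section

namespace Crest.Agent.T157.Tap

open MeasureTheory ProbabilityTheory Matrix Filter Set Topology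
open Crest.Agent.T157.E Crest.Agent.T157.Eig Crest.Agent.T157.Cond
open Crest.Agent.T157.Kr (fro fro_nonneg)

/-- robust uniform freeness -/
def UFR {n : ℕ} (W : Mx n) (ρ c K : ℝ) : Prop :=
  ∀ X : Mx n, fro (X - W) ≤ ρ → ∀ θ ∈ Icc (0 : ℝ) 1, ∀ d : V n, Ub d →
    θ ^ 2 * avg (fun i => d i ^ 2) ≤ 1 - c → Pos c (NN (B0 (θ • X) (θ ^ 2) d) d) →
    nrm (err (B0 (θ • X) (θ ^ 2) d) d (θ ^ 2) 1 1) ≤ K ∧
    nrm (err (B0 (θ • X) (θ ^ 2) d) d (θ ^ 2) X (2 * θ * avg fun i => d i ^ 2)) ≤ K ∧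
    |(B0 (θ • X) (θ ^ 2) d * GG (B0 (θ • X) (θ ^ 2) d) d).trace| ≤ K * √n ∧
    θ * |(GG (B0 (θ • X) (θ ^ 2) d) d).trace - n * avg fun i => d i ^ 2| ≤ K * √n

namespace Uf14

variable {n : ℕ}

lemma fro_sub_comm (A B : Mx n) : fro (A - B) = fro (B - A) := by rw [← fro_neg, neg_sub]

/-- robust vector concentration -/
theorem vcR {s L : ℝ} (hs : 0 < s) (hL : 0 < L) (hn : 0 < n) (A : Set (Mx n)) (F : Mx n → V n)
    (hF : ∀ W ∈ A, ∀ W' ∈ A, nrm (F W - F W') ≤ L * fro (W - W'))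
    (hA : (goe (Fin n) s).real Aᶜ ≤ 1 / 4) :
    ∃ m : V n, ∀ t, 0 ≤ t → ∃ B : Set (Mx n), (goe (Fin n) s).real B ≤ Real.exp (-t ^ 2 / 2) ∧
      ∀ W, W ∉ B → ∀ X ∈ A, nrm (F X - m) ≤ √2 * s * L * (2 * √n + 6 + t) + L * fro (X - W) := by
  obtain ⟨m, hm⟩ := vc hs hL hn A F hF hA
  have hfro : ∀ x y : Fin n × Fin n → ℝ, fro (symG s x - symG s y) ≤ √2 * s * Conc.en (x - y) := by
    intro x y
    have := Kr.fro_symG_le s x y
    rwa [abs_of_pos hs] at this
  set A' : Set (Fin n × Fin n → ℝ) :=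
    {x | symG s x ∈ A ∧ nrm (F (symG s x) - m) ≤ √2 * s * L * (2 * √n + 2 + 2)} with hA'
  have h2 : Real.exp (-(2 : ℝ) ^ 2 / 2) < 1 / 3 := by
    rw [show -(2 : ℝ) ^ 2 / 2 = -2 by norm_num, Real.exp_neg, ← one_div,
      one_div_lt_one_div (Real.exp_pos _) (by norm_num)]
    linarith [Real.add_one_lt_exp (two_ne_zero (α := ℝ))]
  have hpre : ∀ S : Set (Mx n), (gv (Fin n × Fin n)).real (symG s ⁻¹' S) ≤ (goe (Fin n) s).real S :=
    fun S => ENNReal.toReal_mono (measure_ne_top _ _)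
      (Measure.le_map_apply (measurable_symG s).aemeasurable _)
  have hhalf : Real.exp (-(2 : ℝ) ^ 2 / 2) < (gv (Fin n × Fin n)).real A' := by
    have h1 : (1 : ℝ) ≤ (gv (Fin n × Fin n)).real A' + ((gv (Fin n × Fin n)).real (symG s ⁻¹' Aᶜ) +
        (gv (Fin n × Fin n)).real (symG s ⁻¹'
          {W | W ∈ A ∧ √2 * s * L * (2 * √n + 2 + 2) < nrm (F W - m)})) := by
      calc (1 : ℝ) = (gv (Fin n × Fin n)).real univ := probReal_univ.symm
        _ ≤ (gv (Fin n × Fin n)).real (A' ∪ (symG s ⁻¹' Aᶜ ∪ symG s ⁻¹'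
          {W | W ∈ A ∧ √2 * s * L * (2 * √n + 2 + 2) < nrm (F W - m)})) := by
          refine measureReal_mono fun x _ => ?_
          by_cases h1 : symG s x ∈ A
          · by_cases h2 : nrm (F (symG s x) - m) ≤ √2 * s * L * (2 * √n + 2 + 2)
            · exact Or.inl ⟨h1, h2⟩
            · exact Or.inr (Or.inr ⟨h1, not_le.1 h2⟩)
          · exact Or.inr (Or.inl h1)
        _ ≤ _ := (measureReal_union_le _ _).trans (add_le_add le_rfl (measureReal_union_le _ _))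
    linarith [hpre Aᶜ, (hpre _).trans (hm 2 zero_le_two)]
  refine ⟨m, fun t ht => ⟨{W | ∀ a ∈ A', √2 * s * (2 + t) ≤ fro (W - symG s a)}, ?_, ?_⟩⟩
  · have hBc : IsClosed {W : Mx n | ∀ a ∈ A', √2 * s * (2 + t) ≤ fro (W - symG s a)} := by
      have : {W : Mx n | ∀ a ∈ A', √2 * s * (2 + t) ≤ fro (W - symG s a)} =
          ⋂ a ∈ A', {W | √2 * s * (2 + t) ≤ fro (W - symG s a)} := by
        ext W; simp
      rw [this]
      exact isClosed_biInter fun a _ => isClosed_le continuous_const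
        (continuous_fro.comp (continuous_id.sub continuous_const))
    rw [goe, map_measureReal_apply (measurable_symG s) hBc.measurableSet]
    refine le_trans (measureReal_mono fun x hx => ?_) (Conc.enlarge A' zero_le_two ht hhalf)
    exact fun a ha => le_of_mul_le_mul_left ((hx a ha).trans (hfro x a)) (by positivity)
  · intro W hW X hX
    simp only [mem_ofPred_eq, not_forall, not_le] at hW
    obtain ⟨a, ha, hlt⟩ := hW
    have h1 := hF X hX _ ha.1
    have h3 := nrm_add_le (F X - F (symG s a)) (F (symG s a) - m)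
    rw [sub_add_sub_cancel] at h3
    have h4 := fro_add_le (X - W) (W - symG s a)
    rw [sub_add_sub_cancel] at h4
    have h5 := mul_le_mul_of_nonneg_left (h4.trans (add_le_add le_rfl hlt.le)) hL.le
    linarith [ha.2]

theorem levelR {α : Type} (hn : 0 < n) (P : Finset α) (A : α → Set (Mx n)) (F : α → Mx n → V n)
    {L τ : ℝ} (hL : 0 < L) (hτ : 0 ≤ τ)
    (hF : ∀ p ∈ P, ∀ W ∈ A p, ∀ W' ∈ A p, nrm (F p W - F p W') ≤ L * fro (W - W'))
    (hA : ∀ p ∈ P, (GOE n).real (A p)ᶜ ≤ 1 / 4) :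
    ∃ B : Set (Mx n), (GOE n).real B ≤ P.card * Real.exp (-(τ ^ 2 / 2 * n)) ∧
      ∀ W, W ∉ B → ∀ W', W' ∉ B → ∀ X, ∀ p ∈ P, X ∈ A p → W' ∈ A p →
        nrm (F p X - F p W') ≤ L * (3 * (8 + τ) + fro (X - W)) := by
  have hn' : (1 : ℝ) ≤ n := by exact_mod_cast hn
  have hr : 1 ≤ √(n : ℝ) := Real.one_le_sqrt.2 hn'
  have h : ∀ p : α, ∃ (m : V n) (B : Set (Mx n)), p ∈ P →
      (GOE n).real B ≤ Real.exp (-(τ * √n) ^ 2 / 2) ∧
      ∀ W, W ∉ B → ∀ X ∈ A p, nrm (F p X - m) ≤ 3 / 2 * L * (8 + τ) + L * fro (X - W) := by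
    intro p
    by_cases hp : p ∈ P
    · obtain ⟨m, hm⟩ := vcR (s := 1 / √n) (by positivity) hL hn (A p) (F p) (hF p hp) (hA p hp)
      obtain ⟨B, hB, hB'⟩ := hm (τ * √n) (by positivity)
      refine ⟨m, B, fun _ => ⟨hB, fun W hW X hX => (hB' W hW X hX).trans (add_le_add ?_ le_rfl)⟩⟩
      have h5 : √2 ≤ 3 / 2 := Real.sqrt_le_iff.2 ⟨by norm_num, by norm_num⟩
      have h6 : 1 / √n * (2 * √n + 6 + τ * √n) ≤ 8 + τ := by
        rw [one_div, inv_mul_le_iff₀ (by positivity)]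
        linarith
      calc √2 * (1 / √n) * L * (2 * √n + 6 + τ * √n)
          = √2 * L * (1 / √n * (2 * √n + 6 + τ * √n)) := by ring
        _ ≤ 3 / 2 * L * (8 + τ) := by gcongr
    · exact ⟨0, ∅, fun h => absurd h hp⟩
  choose m B hm using h
  refine ⟨⋃ p ∈ P, B p, ?_, fun W hW W' hW' X p hp h1 h2 => ?_⟩
  · refine (measureReal_biUnion_finset_le _ _).trans ?_
    have := Finset.sum_le_card_nsmul P _ _ fun p hp => (hm p hp).1
    rw [nsmul_eq_mul, mul_pow, Real.sq_sqrt (by positivity)] at this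
    refine this.trans_eq ?_
    congr 2
    ring
  · have h3 := nrm_sub_le (F p X - m p) (F p W' - m p)
    rw [sub_sub_sub_cancel_right] at h3
    have h4 := (hm p hp).2 W (fun h => hW (mem_biUnion hp h)) X h1
    have h5 := (hm p hp).2 W' (fun h => hW' (mem_biUnion hp h)) W' h2
    rw [sub_self, fro_zero, mul_zero] at h5
    linarith

/-- **the robust chaining**, for abstract good events -/
theorem chainR {Gd Gd' : ∀ n, Mx n → V n → Prop} {Φ : ∀ n, Mx n → V n → V n} {c κ : ℝ}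
    (hst : ∃ k0 : ℕ, ∀ (n : ℕ) (W : Mx n) (d d' : V n), Gd n W d → Ub d' →
      (∀ i, |d i - d' i| ≤ (1 / 2) ^ k0) → Gd' n W d')
    (hop : ∀ n W d, Gd n W d → opn W ≤ κ ∧ Ub d) (hΦ : Dif Gd' Φ) :
    ∃ C : ℝ, 0 ≤ C ∧ ∀ n : ℕ, 0 < n → (∀ d : V n, Ub d → avg (fun i => d i ^ 2) ≤ 1 - c →
      (GOE n).real {W | ¬ Gd' n W d} ≤ 1 / 8) →
      ∃ B : Set (Mx n), (GOE n).real B ≤ (n + 1) * Real.exp (-n) ∧
        ∀ W, W ∉ B → ∀ W', W' ∉ B → ∀ (X : Mx n) (d : V n), avg (fun i => d i ^ 2) ≤ 1 - c →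
          Gd n X d → Gd n W' d → nrm (Φ n X d - Φ n W' d) ≤ C * (1 + fro (X - W)) := by
  classical
  obtain ⟨K0, hK0, hΦ⟩ := hΦ
  obtain ⟨k0, hk0⟩ := hst
  set K := K0 + 1 with hK
  have hKp : 0 < K := by positivity
  refine ⟨3 * K * (k0 + 11) + 3 * K * (2 * k0 + 24) + 2 * |κ| * K, by positivity,
    fun n hn hp => ?_⟩
  have hn0 : (0 : ℝ) ≤ n := Nat.cast_nonneg n
  set T : V n → Prop := fun d => Ub d ∧ avg (fun i => d i ^ 2) ≤ 1 - c with hT
  obtain ⟨B0, hB0, hB0'⟩ := levelR hn ((Gr n k0).filter T) (fun d => {W | Gd' n W d})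
    (fun d W => Φ n W d) hKp (τ := k0 + 3) (by positivity)
    (fun d _ W hW W' hW' => ((hΦ n W W').1 d hW hW').trans
      (mul_le_mul_of_nonneg_right (by linarith) (fro_nonneg _)))
    (fun d hd => (hp d (Finset.mem_filter.1 hd).2.1 (Finset.mem_filter.1 hd).2.2).trans
      (by norm_num))
  have hlev : ∀ k : ℕ, ∃ B : Set (Mx n), (GOE n).real B ≤ Real.exp (-n) ∧
      ∀ W, W ∉ B → ∀ W', W' ∉ B → ∀ (X : Mx n) (d : V n), T d → Gd' n X (rd (k + 1) d) →
        Gd' n X (rd k d) → Gd' n W' (rd (k + 1) d) → Gd' n W' (rd k d) →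
        nrm (Φ n X (rd (k + 1) d) - Φ n X (rd k d) - (Φ n W' (rd (k + 1) d) - Φ n W' (rd k d))) ≤
          K * (1 / 2) ^ k * (3 * (k + 11) + fro (X - W)) := by
    intro k
    obtain ⟨B, hB, hB'⟩ := levelR hn ((Gr n (k + 1) ×ˢ Gr n k).filter fun p =>
        T p.1 ∧ T p.2 ∧ ∀ i, |p.1 i - p.2 i| ≤ (1 / 2) ^ k)
      (fun p => {W | Gd' n W p.1 ∧ Gd' n W p.2})
      (fun p W => Φ n W p.1 - Φ n W p.2) (L := K * (1 / 2) ^ k) (by positivity) (τ := k + 3)
      (by positivity)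
      (fun p hp' W hW W' hW' => ((hΦ n W W').2 p.1 p.2 _ (by positivity) hW.1 hW.2 hW'.1 hW'.2
        (Finset.mem_filter.1 hp').2.2.2).trans (mul_le_mul_of_nonneg_right
          (mul_le_mul_of_nonneg_right (by linarith) (by positivity)) (fro_nonneg _)))
      (fun p hp' => by
        obtain ⟨-, h1, h2, -⟩ := Finset.mem_filter.1 hp'
        have e : {W | Gd' n W p.1 ∧ Gd' n W p.2}ᶜ =
            {W | ¬ Gd' n W p.1} ∪ {W | ¬ Gd' n W p.2} := by
          ext W; simp only [mem_compl_iff, mem_ofPred_eq, mem_union, not_and_or]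
        rw [e]
        linarith [measureReal_union_le (μ := GOE n) {W | ¬ Gd' n W p.1}
          {W | ¬ Gd' n W p.2}, hp _ h1.1 h1.2, hp _ h2.1 h2.2])
    refine ⟨B, hB.trans ?_, fun W hW W' hW' X d hd h1 h2 h3 h4 => ?_⟩
    · have h1 : ((((Gr n (k + 1) ×ˢ Gr n k).filter fun p =>
          T p.1 ∧ T p.2 ∧ ∀ i, |p.1 i - p.2 i| ≤ (1 / 2) ^ k).card : ℕ) : ℝ) ≤
          Real.exp (((k + 1 : ℕ) + 1) * n) * Real.exp ((k + 1) * n) := by
        refine le_trans ?_ (mul_le_mul (card_Gr (k + 1)) (card_Gr k) (Nat.cast_nonneg _)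
          (Real.exp_pos _).le)
        rw [← Nat.cast_mul, ← Finset.card_product]
        exact_mod_cast Finset.card_filter_le _ _
      refine (mul_le_mul_of_nonneg_right h1 (Real.exp_pos _).le).trans ?_
      rw [← Real.exp_add, ← Real.exp_add, Real.exp_le_exp]
      push_cast
      have hk : (0 : ℝ) ≤ k := Nat.cast_nonneg k
      nlinarith [mul_nonneg hk hn0, mul_nonneg (mul_nonneg hk hk) hn0]
    · have := hB' W hW W' hW' X (rd (k + 1) d, rd k d) (Finset.mem_filter.2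
        ⟨Finset.mem_product.2 ⟨rd_mem _ hd.1, rd_mem _ hd.1⟩,
          ⟨rd_ub _ hd.1, (rd_avg _ hd.1).trans hd.2⟩, ⟨rd_ub _ hd.1, (rd_avg _ hd.1).trans hd.2⟩,
          rd_close' k hd.1⟩) ⟨h1, h2⟩ ⟨h3, h4⟩
      refine this.trans_eq ?_
      ring
  choose B hB hB' using hlev
  refine ⟨B0 ∪ ⋃ j ∈ Finset.range n, B (k0 + j), ?_, fun W hW W' hW' X d hd h1 h2 => ?_⟩
  · have h1 : (GOE n).real B0 ≤ Real.exp (-n) := by
      have h1 : ((((Gr n k0).filter T).card : ℕ) : ℝ) ≤ Real.exp ((k0 + 1) * n) :=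
        le_trans (by exact_mod_cast Finset.card_filter_le _ _) (card_Gr k0)
      refine hB0.trans ((mul_le_mul_of_nonneg_right h1 (Real.exp_pos _).le).trans ?_)
      rw [← Real.exp_add, Real.exp_le_exp]
      have hk : (0 : ℝ) ≤ k0 := Nat.cast_nonneg k0
      nlinarith [mul_nonneg hk hn0, mul_nonneg (mul_nonneg hk hk) hn0]
    have h2 := Finset.sum_le_card_nsmul (Finset.range n) (fun j => (GOE n).real (B (k0 + j))) _
      fun j _ => hB (k0 + j)
    rw [Finset.card_range, nsmul_eq_mul] at h2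
    have h3 := measureReal_biUnion_finset_le (μ := GOE n) (Finset.range n) fun j => B (k0 + j)
    linarith [measureReal_union_le (μ := GOE n) B0 (⋃ j ∈ Finset.range n, B (k0 + j))]
  · have hdU : Ub d := (hop _ _ _ h1).2
    have hTd : T d := ⟨hdU, hd⟩
    have hg : ∀ Y, Gd n Y d → ∀ j, Gd' n Y (rd (k0 + j) d) := fun Y hY j =>
      hk0 n Y d _ hY (rd_ub _ hdU) fun i =>
        (rd_close _ hdU i).trans (half_pow_le (Nat.le_add_right _ _))
    have hg0 : ∀ Y, Gd n Y d → Gd' n Y d := fun Y hY =>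
      hk0 n Y d d hY hdU fun i => by rw [sub_self, abs_zero]; positivity
    have hnot : ∀ Y, Y ∉ B0 ∪ ⋃ j ∈ Finset.range n, B (k0 + j) → ∀ j < n, Y ∉ B (k0 + j) :=
      fun Y hY j hj h => hY (Or.inr (mem_biUnion (Finset.mem_range.2 hj) h))
    set φ := fro (X - W) with hφ
    have hφ0 : 0 ≤ φ := fro_nonneg _
    have hind : ∀ j ≤ n, nrm (Φ n X (rd (k0 + j) d) - Φ n W' (rd (k0 + j) d)) +
        K * ((3 * (2 * (k0 + j) + 24) + 2 * φ) * (1 / 2) ^ (k0 + j)) ≤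
        K * (3 * (k0 + 11) + φ) + K * (3 * (2 * k0 + 24) + 2 * φ) := by
      intro j hj
      induction j with
      | zero =>
        have h3 := hB0' W (fun h => hW (Or.inl h)) W' (fun h => hW' (Or.inl h)) X (rd k0 d)
          (Finset.mem_filter.2 ⟨rd_mem _ hdU, rd_ub _ hdU, (rd_avg _ hdU).trans hd⟩)
          (hg X h1 0) (hg W' h2 0)
        have h4 : ((1 : ℝ) / 2) ^ k0 ≤ 1 := pow_le_one₀ (by norm_num) (by norm_num)
        have h5 := mul_le_mul_of_nonneg_left h4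
          (show 0 ≤ K * (3 * (2 * k0 + 24) + 2 * φ) by positivity)
        simp only [Nat.cast_zero, add_zero]
        linarith
      | succ j ih =>
        have h3 := ih (Nat.le_of_succ_le hj)
        have h4 := hB' (k0 + j) W (hnot W hW j hj) W' (hnot W' hW' j hj) X d hTd (hg X h1 (j + 1))
          (hg X h1 j) (hg W' h2 (j + 1)) (hg W' h2 j)
        have h5 := nrm_add_le (Φ n X (rd (k0 + j) d) - Φ n W' (rd (k0 + j) d))
          (Φ n X (rd (k0 + j + 1) d) - Φ n X (rd (k0 + j) d) -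
            (Φ n W' (rd (k0 + j + 1) d) - Φ n W' (rd (k0 + j) d)))
        have e : Φ n X (rd (k0 + j) d) - Φ n W' (rd (k0 + j) d) +
            (Φ n X (rd (k0 + j + 1) d) - Φ n X (rd (k0 + j) d) -
            (Φ n W' (rd (k0 + j + 1) d) - Φ n W' (rd (k0 + j) d))) =
            Φ n X (rd (k0 + j + 1) d) - Φ n W' (rd (k0 + j + 1) d) := by abel
        rw [e] at h5
        rw [← Nat.add_assoc, pow_succ]
        push_cast at h4 ⊢
        linarith
    have h3 := hind n le_rfl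
    have h4 := (hΦ n X W').2 d (rd (k0 + n) d) _ (by positivity) (hg0 X h1) (hg X h1 n) (hg0 W' h2)
      (hg W' h2 n) (rd_close (k0 + n) hdU)
    have h5 : fro (X - W') ≤ 2 * |κ| * √n :=
      (fro_le_opn _).trans (mul_le_mul_of_nonneg_right ((opn_sub_le _ _).trans
        (by linarith [(hop _ _ _ h1).1, (hop _ _ _ h2).1, le_abs_self κ])) (Real.sqrt_nonneg _))
    have h6 : ((1 : ℝ) / 2) ^ (k0 + n) * √n ≤ 1 := by
      have h7 : √(n : ℝ) ≤ 2 ^ n := by
        refine Real.sqrt_le_iff.2 ⟨by positivity, ?_⟩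
        have h8 : (n : ℝ) ≤ 2 ^ n := by exact_mod_cast Nat.lt_two_pow_self.le
        have h9 : (1 : ℝ) ≤ 2 ^ n := one_le_pow₀ (by norm_num)
        nlinarith
      calc ((1 : ℝ) / 2) ^ (k0 + n) * √n ≤ (1 / 2) ^ n * 2 ^ n :=
            mul_le_mul (half_pow_le (Nat.le_add_left _ _)) h7 (Real.sqrt_nonneg _) (by positivity)
        _ = 1 := by rw [← mul_pow]; norm_num
    have h7 : K0 * (1 / 2) ^ (k0 + n) * fro (X - W') ≤ 2 * |κ| * K := by
      calc K0 * (1 / 2) ^ (k0 + n) * fro (X - W') ≤ K0 * (1 / 2) ^ (k0 + n) * (2 * |κ| * √n) :=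
            mul_le_mul_of_nonneg_left h5 (by positivity)
        _ = 2 * |κ| * K0 * ((1 / 2) ^ (k0 + n) * √n) := by ring
        _ ≤ 2 * |κ| * K0 * 1 := mul_le_mul_of_nonneg_left h6 (by positivity)
        _ ≤ _ := by rw [mul_one]; exact mul_le_mul_of_nonneg_left (by linarith) (by positivity)
    have h8 := nrm_add_le (Φ n X (rd (k0 + n) d) - Φ n W' (rd (k0 + n) d))
      (Φ n X d - Φ n X (rd (k0 + n) d) - (Φ n W' d - Φ n W' (rd (k0 + n) d)))
    have e : Φ n X (rd (k0 + n) d) - Φ n W' (rd (k0 + n) d) +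
        (Φ n X d - Φ n X (rd (k0 + n) d) - (Φ n W' d - Φ n W' (rd (k0 + n) d))) =
        Φ n X d - Φ n W' d := by abel
    rw [e] at h8
    have h9 : 0 ≤ K * ((3 * (2 * ((k0 : ℝ) + n) + 24) + 2 * φ) * (1 / 2) ^ (k0 + n)) := by
      positivity
    have h10 : 0 ≤ K * φ := by positivity
    have h11 : 0 ≤ K * φ * k0 := by positivity
    have h12 : 0 ≤ |κ| * K * φ := by positivity
    linarith

/-! ### good events with a general norm bound -/

def H0 (κ : ℝ) (n : ℕ) (W : Mx n) (d : V n) : Prop := opn W ≤ κ ∧ Ub d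

def H1 (κ c : ℝ) (n : ℕ) (W : Mx n) (d : V n) : Prop :=
  opn W ≤ κ ∧ Ub d ∧ Pos c (NN (B0 W 1 d) d)

section fams
variable {κ c : ℝ}

lemma famW : Fam (H0 κ) fun _ W _ => W :=
  ⟨|κ| + 1, fun n W d ε hε hg _ => ⟨fun a b => by linarith [(hg a b).1, le_abs_self κ],
    fun _ => by rw [sub_self, opn_zero]; positivity,
    fun _ => by nlinarith [fro_nonneg (W true - W false), abs_nonneg κ],
    by
      rw [sub_self, sub_self, sub_self, fro_zero]
      have := fro_nonneg (W true - W false)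
      positivity⟩⟩

lemma famD : Fam (H0 κ) fun _ _ d => diagonal d :=
  ⟨1, fun n W d ε hε hg hd => ⟨fun a b => opn_diagonal_le zero_le_one fun i => by
      rw [abs_of_nonneg ((hg a b).2 i).1]; exact ((hg a b).2 i).2,
    fun _ => by rw [diagonal_sub, one_mul]; exact opn_diagonal_le hε hd,
    fun _ => by simpa [fro_zero] using fro_nonneg _,
    by simpa [fro_zero] using mul_nonneg hε (fro_nonneg _)⟩⟩

lemma famB : Fam (H0 κ) fun _ W d => B0 W 1 d := by
  have := (famW (κ := κ)).sub (famD.mul famD).nt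
  simpa only [nt_DD, B0, one_mul] using this

lemma famN : Fam (H0 κ) fun _ W d => NN (B0 W 1 d) d := fam_one.sub ((famD.mul famB).mul famD)

lemma h1_h0 (n : ℕ) (W : Mx n) (d : V n) (h : H1 κ c n W d) : H0 κ n W d := ⟨h.1, h.2.1⟩

lemma famG (hc : 0 < c) : Fam (H1 κ c) fun _ W d => GG (B0 W 1 d) d :=
  ((famD.mono h1_h0).mul ((famN.mono h1_h0).inv hc fun _ _ _ h => h.2.2)).mul (famD.mono h1_h0)

lemma famR (hc : 0 < c) : Fam (H1 κ c) fun _ W d => RR (B0 W 1 d) d :=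
  fam_one.add ((famB.mono h1_h0).mul (famG hc))

def e3 (n : ℕ) (W : Mx n) (d : V n) : V n := (B0 W 1 d * GG (B0 W 1 d) d).diag
def e4 (n : ℕ) (W : Mx n) (d : V n) : V n :=
  (nt (GG (B0 W 1 d) d) - nt (diagonal d * diagonal d)).diag

lemma difE1 (hc : 0 < c) : Dif (H1 κ c) e1 := by
  have := ((fam_one.add (((famG (κ := κ) hc).mul fam_one).mul (famG hc)).nt).sub
    (((famR hc).mul fam_one).mul (famR hc).tr)).dif
  have e : e1 = fun n W d => (1 + nt (GG (B0 W 1 d) d * 1 * GG (B0 W 1 d) d) -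
      RR (B0 W 1 d) d * 1 * (RR (B0 W 1 d) d)ᵀ).diag := by
    funext n W d
    rw [e1, err_eq, one_smul]
  rw [e]
  exact this

lemma difE2 (hc : 0 < c) : Dif (H1 κ c) e2 := by
  have hD : Fam (H1 κ c) fun _ _ d => nt (diagonal d * diagonal d) :=
    ((famD.mul famD).nt).mono h1_h0
  have := (((hD.add hD).add (((famG hc).mul (famW.mono h1_h0)).mul (famG hc)).nt).sub
    (((famR hc).mul (famW.mono h1_h0)).mul (famR hc).tr)).dif
  have e : e2 = fun n W d => (nt (diagonal d * diagonal d) + nt (diagonal d * diagonal d) +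
      nt (GG (B0 W 1 d) d * W * GG (B0 W 1 d) d) -
      RR (B0 W 1 d) d * W * (RR (B0 W 1 d) d)ᵀ).diag := by
    funext n W d
    rw [e2, err_eq, nt_DD, two_mul, add_smul]
  rw [e]
  exact this

lemma difE3 (hc : 0 < c) : Dif (H1 κ c) e3 := ((famB.mono h1_h0).mul (famG hc)).dif

lemma difE4 (hc : 0 < c) : Dif (H1 κ c) e4 :=
  ((famG hc).nt.sub (((famD.mul famD).nt).mono h1_h0)).dif

lemma h1_stable (hc : 0 < c) : ∃ k0 : ℕ, ∀ (n : ℕ) (W : Mx n) (d d' : V n),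
    H1 κ c n W d → Ub d' → (∀ i, |d i - d' i| ≤ (1 / 2) ^ k0) → H1 κ (c / 2) n W d' := by
  obtain ⟨K, h⟩ := famN (κ := κ)
  obtain ⟨k0, hk⟩ := exists_pow_lt_of_lt_one (show 0 < c / 2 / (|K| + 1) by positivity)
    (show (1 / 2 : ℝ) < 1 by norm_num)
  refine ⟨k0, fun n W d d' hg hd' hdd => ⟨hg.1, hd', ?_⟩⟩
  have q := h n (fun _ => W) (fun b => if b then d else d') ((1 / 2) ^ k0) (by positivity)
    (fun a b => by cases b; exacts [⟨hg.1, hd'⟩, ⟨hg.1, hg.2.1⟩]) (by simpa using hdd)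
  have h1 := q.dd true
  simp only [if_true, Bool.false_eq_true, if_false] at h1
  refine Pos.mono (Pos.pert hg.2.2 h1) ?_
  rw [lt_div_iff₀ (by positivity)] at hk
  have h2 : K * (1 / 2) ^ k0 ≤ (|K| + 1) * (1 / 2) ^ k0 :=
    mul_le_mul_of_nonneg_right (by linarith [le_abs_self K]) (by positivity)
  linarith

end fams

/-- robust uniform bound of one vector function -/
theorem robust {Φ : ∀ n, Mx n → V n → V n} (hΦ : ∀ κ c, 0 < c → Dif (H1 κ c) Φ)
    (hm : ∀ n d, Measurable fun W => Φ n W d)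
    (hfix : ∀ c > (0 : ℝ), ∃ K : ℝ, ∀ n : ℕ, 0 < n → ∀ d : V n, Ub d →
      avg (fun i => d i ^ 2) ≤ 1 - c → ∫ W in Om c 1 d, nrm (Φ n W d) ^ 2 ∂GOE n ≤ K)
    {c : ℝ} (hc : 0 < c) (ρ : ℝ) : ∃ K : ℝ, 0 ≤ K ∧ Top.Whp GOE fun n W => ∀ X : Mx n,
      fro (X - W) ≤ ρ → ∀ d : V n, Ub d → avg (fun i => d i ^ 2) ≤ 1 - c →
        Pos c (NN (B0 X 1 d) d) → nrm (Φ n X d) ≤ K := by
  have hc1 : 0 < c ^ 2 / 8 := by positivity
  obtain ⟨K, hK⟩ := hfix _ hc1
  obtain ⟨C, hC, h1⟩ := chainR (c := c) (κ := 3 + |ρ|) (h1_stable (κ := 3 + |ρ|) hc1)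
    (fun _ _ _ h => ⟨h.1, h.2.1⟩) (hΦ _ _ (half_pos hc1))
  refine ⟨√(8 * (|K| + 1)) + C * (1 + |ρ|), by positivity, Top.whp_of_real_le
    (a := fun n : ℕ => 2 * Real.exp (-(n * (1 / 4))) + ((n : ℝ) + 1) * Real.exp (-n)) ?_ ?_⟩
  · have := ((tend_exp (show (0 : ℝ) < 1 / 4 by norm_num)).const_mul 2).add tend_lin
    simpa using this
  filter_upwards [eventually_gt_atTop 0, ev_g1 hc,
    tend_lin.eventually (gt_mem_nhds (show (0 : ℝ) < 1 / 8 by norm_num))] with n hn hg hs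
  have hρ := abs_nonneg ρ
  have hg' : ∀ d : V n, Ub d → avg (fun i => d i ^ 2) ≤ 1 - c →
      (GOE n).real {W | ¬ H1 (3 + |ρ|) (c ^ 2 / 8 / 2) n W d} ≤ 1 / 8 := fun d hd ha => by
    refine le_trans (measureReal_mono fun W hW => ?_) (hg d hd ha)
    exact fun hG => hW ⟨by linarith [hG.1], hG.2.1, Pos.mono hG.2.2 (by linarith)⟩
  obtain ⟨B, hB, h1⟩ := h1 n hn hg'
  refine le_trans (measureReal_mono (s₂ := {W | ¬ opn W ≤ 3} ∪ B) fun W hW => ?_)
    ((measureReal_union_le _ _).trans (add_le_add opn_tail hB))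
  by_contra hcon
  simp only [mem_union, mem_ofPred_eq, not_or, not_not] at hcon
  obtain ⟨h3, hW1⟩ := hcon
  refine hW fun X hX d hd ha hp => ?_
  have hc2 : c ^ 2 / 8 ≤ c := by nlinarith [(avg_sq_le hd).1]
  have hGX : H1 (3 + |ρ|) (c ^ 2 / 8) n X d := by
    refine ⟨?_, hd, Pos.mono hp hc2⟩
    have h4 := opn_add_le (X - W) W
    rw [sub_add_cancel] at h4
    linarith [opn_le_sqrt_frob (X - W), show √(∑ i, ∑ j, (X - W) i j ^ 2) ≤ ρ from hX,
      le_abs_self ρ]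
  have hsym : (GOE n).real {W' : Mx n | ¬ W'ᵀ = W'} = 0 := by
    rw [measureReal_eq_zero_iff (measure_ne_top _ _)]
    exact goe_ae_symm _
  obtain ⟨W', hW'⟩ : ∃ W' : Mx n, W' ∉ B ∪ (({W' : Mx n | ¬ W'ᵀ = W'} ∪
      {W' | ¬ G1 (c ^ 2 / 8) n W' d}) ∪
      {W | W ∈ Om (c ^ 2 / 8) 1 d ∧ ¬ nrm (Φ n W d) ≤ √(8 * (|K| + 1))}) := by
    by_contra hall
    have h5 := measureReal_mono (μ := GOE n) (s₁ := univ)
      (fun W' _ => not_not.1 (not_exists.1 hall W'))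
    rw [probReal_univ] at h5
    have h6 := h5.trans ((measureReal_union_le _ _).trans (add_le_add hB
      ((measureReal_union_le _ _).trans (add_le_add (measureReal_union_le _ _)
        (markov hd (hΦ 3 _ hc1) (hm n d) (hK n hn d hd (by linarith)))))))
    linarith [hg d hd ha]
  simp only [mem_union, mem_ofPred_eq, not_or, not_not] at hW'
  obtain ⟨hW1', ⟨hs', hG'⟩, hfx⟩ := hW'
  have hf : nrm (Φ n W' d) ≤ √(8 * (|K| + 1)) := by
    by_contra h7
    exact hfx ⟨⟨hs', hG'.1, by simpa only [one_smul, one_pow] using hG'.2.2⟩, h7⟩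
  have a1 := nrm_add_le (Φ n X d - Φ n W' d) (Φ n W' d)
  rw [sub_add_cancel] at a1
  have a2 := h1 W hW1 W' hW1' X d ha hGX ⟨by linarith [hG'.1], hG'.2⟩
  have a3 := mul_le_mul_of_nonneg_left (add_le_add (le_refl (1 : ℝ)) (hX.trans (le_abs_self ρ))) hC
  linarith

/-- the scaling `d ↦ r d` removes `θ = r²` -/
lemma scale (X : Mx n) (d : V n) (r : ℝ) :
    avg (fun i => (r • d) i ^ 2) = r ^ 2 * avg (fun i => d i ^ 2) ∧
    NN (B0 (r ^ 2 • X) ((r ^ 2) ^ 2) d) d = NN (B0 X 1 (r • d)) (r • d) ∧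
    GG (B0 X 1 (r • d)) (r • d) = r ^ 2 • GG (B0 (r ^ 2 • X) ((r ^ 2) ^ 2) d) d ∧
    B0 X 1 (r • d) * GG (B0 X 1 (r • d)) (r • d) =
      B0 (r ^ 2 • X) ((r ^ 2) ^ 2) d * GG (B0 (r ^ 2 • X) ((r ^ 2) ^ 2) d) d ∧
    ∀ (S : Mx n) (k : ℝ), err (B0 (r ^ 2 • X) ((r ^ 2) ^ 2) d) d ((r ^ 2) ^ 2) S k =
      err (B0 X 1 (r • d)) (r • d) 1 S k := by
  have hav : avg (fun i => (r • d) i ^ 2) = r ^ 2 * avg fun i => d i ^ 2 := by
    unfold avg
    simp only [Pi.smul_apply, smul_eq_mul, mul_pow]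
    rw [← Finset.mul_sum, mul_div_assoc]
  have hD : diagonal (r • d) = r • diagonal d := diagonal_smul r d
  have hB : B0 (r ^ 2 • X) ((r ^ 2) ^ 2) d = r ^ 2 • B0 X 1 (r • d) := by
    unfold B0
    rw [hav, smul_sub, smul_smul]
    congr 2
    ring
  have hN : NN (r ^ 2 • B0 X 1 (r • d)) d = NN (B0 X 1 (r • d)) (r • d) := by
    unfold NN
    rw [hD]
    simp only [Matrix.smul_mul, Matrix.mul_smul, smul_smul, sq]
  have hG : GG (B0 X 1 (r • d)) (r • d) = r ^ 2 • GG (r ^ 2 • B0 X 1 (r • d)) d := by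
    unfold GG
    rw [hN, hD]
    simp only [Matrix.smul_mul, Matrix.mul_smul, smul_smul, sq]
  have hR : RR (B0 X 1 (r • d)) (r • d) = RR (r ^ 2 • B0 X 1 (r • d)) d := by
    unfold RR
    rw [hG]
    simp only [Matrix.smul_mul, Matrix.mul_smul]
  rw [hB]
  refine ⟨hav, hN, hG, ?_, fun S k => ?_⟩
  · rw [hG]
    simp only [Matrix.smul_mul, Matrix.mul_smul]
  · funext i
    unfold err
    rw [hG, hR]
    simp only [Matrix.smul_mul, Matrix.mul_smul, smul_smul, trace_smul, smul_eq_mul]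
    ring

lemma abs_trace_le_diag (M : Mx n) : |M.trace| ≤ nrm M.diag * √n := by
  have h1 := abs_dot_le (fun _ : Fin n => (1 : ℝ)) M.diag
  have h2 : nrm (fun _ : Fin n => (1 : ℝ)) = √n := by simp [nrm, dotProduct]
  have h3 : (fun _ : Fin n => (1 : ℝ)) ⬝ᵥ M.diag = M.trace := by simp [dotProduct, Matrix.trace]
  rwa [h2, h3, mul_comm] at h1

lemma nrm_e4_sq (W : Mx n) (d : V n) : nrm (e4 n W d) ^ 2 =
    n * ((GG (B0 W 1 d) d).trace / n - avg fun i => d i ^ 2) ^ 2 := by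
  rw [nrm_sq, e4, nt_DD]
  simp [nt, dotProduct, sq]

lemma trace_e4 (hn : 0 < n) (W : Mx n) (d : V n) :
    (nt (GG (B0 W 1 d) d) - nt (diagonal d * diagonal d)).trace =
      (GG (B0 W 1 d) d).trace - n * avg fun i => d i ^ 2 := by
  have hn' : (n : ℝ) ≠ 0 := by positivity
  rw [nt_DD, nt, trace_sub, trace_smul, trace_smul, trace_one, Fintype.card_fin, smul_eq_mul,
    smul_eq_mul]
  field_simp

end Uf14

open Uf14 in
/-- **robust uniform freeness** -/
theorem ufR {c : ℝ} (hc : 0 < c) (ρ : ℝ) :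
    ∃ K : ℝ, 0 ≤ K ∧ Top.Whp GOE fun _ W => UFR W ρ c K := by
  have hθ : (1 : ℝ) ∈ Icc (0 : ℝ) 1 := ⟨zero_le_one, le_rfl⟩
  have m1 : ∀ n (d : V n), er1 1 d = fun W => e1 n W d := fun n d => by
    funext W; simp only [er1, e1, one_smul, one_pow]
  have m2 : ∀ n (d : V n), er2 1 d = fun W => e2 n W d := fun n d => by
    funext W; simp only [er2, e2, one_smul, one_pow, mul_one]
  obtain ⟨K1, p1, h1⟩ := robust (Φ := e1) (fun _ _ => difE1)
    (fun n d => m1 n d ▸ Uf.measurable_er1 1 d) (fun c hc => by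
      obtain ⟨K, h⟩ := Uf.fix_l2 hc
      exact ⟨K, fun n hn d hd ha => by
        have := (h n hn 1 hθ d hd (by simpa using ha)).1
        rwa [m1] at this⟩) (half_pos hc) ρ
  obtain ⟨K2, p2, h2⟩ := robust (Φ := e2) (fun _ _ => difE2)
    (fun n d => m2 n d ▸ Uf.measurable_er2 1 d) (fun c hc => by
      obtain ⟨K, h⟩ := Uf.fix_l2 hc
      exact ⟨K, fun n hn d hd ha => by
        have := (h n hn 1 hθ d hd (by simpa using ha)).2.1
        rwa [m2] at this⟩) (half_pos hc) ρ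
  obtain ⟨K3, p3, h3⟩ := robust (Φ := e3) (fun _ _ => difE3)
    (fun n d => measurable_pi_lambda _ fun i => Measurable.t157_entry (by fun_prop) i i)
    (fun c hc => by
      obtain ⟨K, h⟩ := Uf.fix_l2 hc
      refine ⟨K, fun n hn d hd ha => ?_⟩
      have := (h n hn 1 hθ d hd (by simpa using ha)).2.2.2
      rw [one_pow, one_mul] at this
      refine le_trans (le_of_eq ?_) this
      congr 1
      funext W
      rw [nrm_sq]
      simp [e3, dotProduct, RR, Uf.Bw, sq]) (half_pos hc) ρ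
  obtain ⟨K4, p4, h4⟩ := robust (Φ := e4) (fun _ _ => difE4)
    (fun n d => measurable_pi_lambda _ fun i => Measurable.t157_entry (by unfold nt; fun_prop) i i)
    (fun c hc => by
      obtain ⟨K, h⟩ := Uf.fix_l2 hc
      refine ⟨K, fun n hn d hd ha => ?_⟩
      have := (h n hn 1 hθ d hd (by simpa using ha)).2.2.1
      simpa only [nrm_e4_sq, Uf.Bw, one_smul, one_pow] using this) (half_pos hc) ρ
  refine ⟨K1 + K2 + K3 + K4, by positivity, ((h1.and h2).and (h3.and h4)).mono ?_⟩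
  filter_upwards [eventually_gt_atTop 0] with n hn W hW X hX θ hθ d hd ha hp
  obtain ⟨r, hr0, rfl⟩ : ∃ r : ℝ, 0 ≤ r ∧ θ = r ^ 2 :=
    ⟨√θ, Real.sqrt_nonneg _, (Real.sq_sqrt hθ.1).symm⟩
  have hr1 : r ≤ 1 := by nlinarith [hθ.2]
  obtain ⟨ha0, ha1⟩ := avg_sq_le hd
  obtain ⟨hav, hN, hG, hBG, hE⟩ := scale X d r
  have hc1 : c ≤ 1 := by nlinarith [mul_nonneg (sq_nonneg (r ^ 2)) ha0]
  have hu : Ub (r • d) := fun i => ⟨mul_nonneg hr0 (hd i).1, mul_le_one₀ hr1 (hd i).1 (hd i).2⟩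
  have ha' : avg (fun i => (r • d) i ^ 2) ≤ 1 - c / 2 := by
    rw [hav]
    refine abs_le_of_sq_le_sq' ?_ (by linarith) |>.2
    have h2 : (r ^ 2 * avg fun i => d i ^ 2) ^ 2 ≤ 1 - c := by
      have := mul_le_mul ha ha1 ha0 (by linarith)
      nlinarith
    nlinarith [sq_nonneg c]
  have hp' : Pos (c / 2) (NN (B0 X 1 (r • d)) (r • d)) := Pos.mono (hN ▸ hp) (by linarith)
  have a1 := hW.1.1 X hX _ hu ha' hp'
  have a2 := hW.1.2 X hX _ hu ha' hp'
  have a3 := hW.2.1 X hX _ hu ha' hp'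
  have a4 := hW.2.2 X hX _ hu ha' hp'
  have hs := Real.sqrt_nonneg (n : ℝ)
  refine ⟨?_, ?_, ?_, ?_⟩
  · rw [hE]; exact le_trans a1 (by linarith)
  · have e : 2 * r ^ 2 * avg (fun i => d i ^ 2) = 2 * avg fun i => (r • d) i ^ 2 := by
      rw [hav, mul_assoc]
    rw [hE, e]; exact le_trans a2 (by linarith)
  · rw [← hBG]
    exact (abs_trace_le_diag _).trans (mul_le_mul_of_nonneg_right (le_trans a3 (by linarith)) hs)
  · have b := (abs_trace_le_diag _).trans (mul_le_mul_of_nonneg_right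
      (le_trans a4 (show K4 ≤ K1 + K2 + K3 + K4 by linarith)) hs)
    rw [trace_e4 hn, hG, hav, trace_smul, smul_eq_mul, mul_left_comm, ← mul_sub, abs_mul,
      abs_of_nonneg (sq_nonneg r)] at b
    exact b

end Crest.Agent.T157.Tap
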