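import Crest.Agent.T157.TapAlg_29

/-!
# Row 157, part A: the TAP branch in a window and its derivatives (helper29)
-/

set_option autoImplicit false

noncomputable section

namespace Crest.Agent.T157.Tap

open Matrix Filter Set Topology
open Crest.Agent.T157.E Crest.Agent.T157.Eig Crest.Agent.T157.SL

variable {n : ℕ}

/-- data of a window: interaction `J0 - t S`, Onsager coefficient `b t`, driver `Qᵀ Q = S + c0` -/
structure WS (n : ℕ) where
  (J0 S Q : Mx n)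
  (b b1 : ℝ → ℝ)
  (c c0 h r R : ℝ)
  (y0 p0 : V n)
  hc : 0 < c
  hJ : J0ᵀ = J0
  hS : Sᵀ = S
  hb : ∀ t, HasDerivAt b (b1 t) t
  hb1 : Continuous b1
  hQ : Qᵀ * Q = S + c0 • (1 : Mx n)
  hR : 0 < R
  good : ∀ t ∈ Icc 0 h, GoodB (J0 - t • S) (b t) c r p0
  ex : ∀ t ∈ Icc 0 h, ∀ z : V n, nrm z ≤ 2 * R → ∃ x, nrm (th x - p0) < r ∧
    Ymap (J0 - t • S) (b t) x = y0 + Qᵀ *ᵥ z
  lip : ∀ t ∈ Icc 0 h, ∀ x x' : V n, nrm (th x - p0) ≤ r → nrm (th x' - p0) ≤ r →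
    c * nrm (th x - th x') ≤ nrm (Ymap (J0 - t • S) (b t) x - Ymap (J0 - t • S) (b t) x')

namespace WS

variable (W : WS n)

def Jt (t : ℝ) : Mx n := W.J0 - t • W.S
/-- the spatial domain -/
def O : Set (V n) := {z | nrm z < 2 * W.R}
def U : Set (Pt (Fin n)) := Icc 0 W.h ×ˢ W.O
open Classical in
/-- the branch, coordinate `x` -/
def xi (q : Pt (Fin n)) : V n :=
  if H : q.1 ∈ Icc 0 W.h ∧ nrm q.2 ≤ 2 * W.R then (W.ex q.1 H.1 q.2 H.2).choose else 0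
/-- the branch, coordinate `p` -/
def pp (q : Pt (Fin n)) : V n := th (W.xi q)
def Bq (q : Pt (Fin n)) : Mx n := B1 (W.Jt q.1) (W.b q.1) (W.pp q)
def Gq (q : Pt (Fin n)) : Mx n := GG (W.Bq q) (dd (W.pp q))
def Rq (q : Pt (Fin n)) : Mx n := RR (W.Bq q) (dd (W.pp q))
def Dq (q : Pt (Fin n)) : Mx n := diagonal fun i => dd (W.pp q) i * dd (W.pp q) i
/-- time derivative of the TAP map -/
def Yt (q : Pt (Fin n)) : V n := W.S *ᵥ W.pp q + (W.b1 q.1 * avg (DD (W.pp q))) • W.pp q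

lemma Jt_symm (t : ℝ) : (W.Jt t)ᵀ = W.Jt t := by
  simp [Jt, transpose_sub, transpose_smul, W.hJ, W.hS]
lemma isOpen_O : IsOpen W.O := isOpen_lt continuous_nrm continuous_const
lemma cb (q : Pt (Fin n)) : Cb (W.pp q) := cb_th _
lemma Bq_symm (q : Pt (Fin n)) : (W.Bq q)ᵀ = W.Bq q := B1_symm (W.Jt_symm _) _ _
lemma Gq_symm (q : Pt (Fin n)) : (W.Gq q)ᵀ = W.Gq q := GG_symm (W.Bq_symm q) _
lemma Dq_mulVec (q : Pt (Fin n)) (u : V n) : W.Dq q *ᵥ u = fun i => DD (W.pp q) i * u i := by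
  funext i; rw [Dq, mulVec_diagonal, (W.cb q).dd_mul]

variable {W} {q : Pt (Fin n)}

lemma spec (hq : q ∈ W.U) : nrm (W.pp q - W.p0) < W.r ∧
    Ymap (W.Jt q.1) (W.b q.1) (W.xi q) = W.y0 + W.Qᵀ *ᵥ q.2 := by
  have H : q.1 ∈ Icc 0 W.h ∧ nrm q.2 ≤ 2 * W.R := ⟨hq.1, le_of_lt hq.2⟩
  simp only [pp, xi, dif_pos H]
  exact (W.ex q.1 H.1 q.2 H.2).choose_spec

lemma uniq (hq : q ∈ W.U) {x : V n} (h1 : nrm (th x - W.p0) ≤ W.r)
    (h2 : Ymap (W.Jt q.1) (W.b q.1) x = W.y0 + W.Qᵀ *ᵥ q.2) : th x = W.pp q := by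
  have h := W.lip q.1 hq.1 x (W.xi q) h1 (spec hq).1.le
  rw [show Ymap (W.J0 - q.1 • W.S) (W.b q.1) x = _ from h2,
    show Ymap (W.J0 - q.1 • W.S) (W.b q.1) (W.xi q) = _ from (spec hq).2, sub_self,
    nrm_eq_zero.2 rfl] at h
  have := nrm_nonneg (th x - th (W.xi q))
  have h3 : nrm (th x - th (W.xi q)) = 0 := by nlinarith [W.hc]
  exact sub_eq_zero.1 (nrm_eq_zero.1 h3)

lemma pos (hq : q ∈ W.U) : Pos W.c (NN (W.Bq q) (dd (W.pp q))) :=
  (W.good q.1 hq.1 _ (W.cb q) (spec hq).1.le).1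

lemma unit (hq : q ∈ W.U) : IsUnit (NN (W.Bq q) (dd (W.pp q))).det := (pos hq).isUnit_det W.hc

lemma opn_Gq (hq : q ∈ W.U) : opn (W.Gq q) ≤ 1 / W.c :=
  opn_GG_le (pos hq) W.hc (ub_dd _).abs_le

lemma cont_b : Continuous W.b := continuous_iff_continuousAt.2 fun t => (W.hb t).continuousAt

lemma cont_pp : ContinuousOn W.pp W.U := by
  intro q0 hq0
  have hb := W.cont_b
  have hc : Continuous fun q : Pt (Fin n) =>
      nrm (W.y0 + W.Qᵀ *ᵥ q.2 - Ymap (W.J0 - q.1 • W.S) (W.b q.1) (W.xi q0)) / W.c := by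
    refine (continuous_nrm.comp ?_).div_const _
    simp only [Ymap]; fun_prop
  have h0 := hc.tendsto q0
  rw [show Ymap (W.J0 - q0.1 • W.S) (W.b q0.1) (W.xi q0) = _ from (spec hq0).2, sub_self,
    nrm_eq_zero.2 rfl, zero_div] at h0
  rw [ContinuousWithinAt, tendsto_pi_nhds]
  intro i
  rw [tendsto_iff_norm_sub_tendsto_zero]
  refine squeeze_zero' (Eventually.of_forall fun _ => norm_nonneg _) ?_
    (h0.mono_left nhdsWithin_le_nhds)
  filter_upwards [self_mem_nhdsWithin] with q hq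
  have h := W.lip q.1 hq.1 (W.xi q) (W.xi q0) (spec hq).1.le (spec hq0).1.le
  rw [show Ymap (W.J0 - q.1 • W.S) (W.b q.1) (W.xi q) = _ from (spec hq).2] at h
  rw [le_div_iff₀ W.hc, mul_comm]
  exact (mul_le_mul_of_nonneg_left (abs_apply_le_nrm (th (W.xi q) - th (W.xi q0)) i) W.hc.le).trans h


lemma cont_xi : ContinuousOn W.xi W.U := by
  have hb := W.cont_b
  have hc : Continuous fun a : Pt (Fin n) × V n => W.y0 + W.Qᵀ *ᵥ a.1.2 +
      (W.J0 - a.1.1 • W.S) *ᵥ a.2 - (W.b a.1.1 * avg (DD a.2)) • a.2 := by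
    simp only [avg, DD]; fun_prop
  refine (hc.comp_continuousOn (continuousOn_id.prodMk cont_pp)).congr fun q hq => ?_
  simp only [Function.comp, id, ← (spec hq).2, Ymap, pp, Jt]
  abel

lemma cont_Bq : ContinuousOn W.Bq W.U := by
  have hb := W.cont_b
  have hc : Continuous fun a : Pt (Fin n) × V n => (W.J0 - a.1.1 • W.S) -
      (W.b a.1.1 * avg (DD a.2)) • (1 : Mx n) + (2 * W.b a.1.1 / n) • vecMulVec a.2 a.2 := by
    refine continuous_pi fun i => continuous_pi fun j => ?_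
    simp only [vecMulVec_apply, avg, DD, Matrix.add_apply, Matrix.sub_apply, Matrix.smul_apply,
      smul_eq_mul]
    fun_prop
  exact (hc.comp_continuousOn (continuousOn_id.prodMk cont_pp)).congr fun q _ => (W.cb q).B1_eq _ _

lemma continuous_dd : Continuous (dd : V n → V n) := by
  refine continuous_pi fun i => ?_
  simp only [dd]; fun_prop

lemma cont_Gq : ContinuousOn W.Gq W.U := by
  have hd : ContinuousOn (fun q => diagonal (dd (W.pp q))) W.U :=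
    (continuous_dd.matrix_diagonal).comp_continuousOn cont_pp
  have hN : ContinuousOn (fun q => NN (W.Bq q) (dd (W.pp q))) W.U :=
    continuousOn_const.sub ((hd.mul cont_Bq).mul hd)
  refine (hd.mul fun q hq => ?_).mul hd
  refine ContinuousAt.comp_continuousWithinAt (g := Inv.inv) (continuousAt_matrix_inv _ ?_) (hN q hq)
  rw [Ring.inverse_eq_inv']
  exact continuousAt_inv₀ (unit hq).ne_zero

lemma cont_Rq : ContinuousOn W.Rq W.U := continuousOn_const.add (cont_Bq.mul cont_Gq)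

lemma cont_Yt : ContinuousOn W.Yt W.U := by
  have hb := W.hb1
  have hc : Continuous fun a : Pt (Fin n) × V n => W.S *ᵥ a.2 + (W.b1 a.1.1 * avg (DD a.2)) • a.2 := by
    simp only [avg, DD]; fun_prop
  exact hc.comp_continuousOn (continuousOn_id.prodMk cont_pp)

lemma U_mem (h1 : q.1 ∈ Ioo 0 W.h) (h2 : q.2 ∈ W.O) : W.U ∈ 𝓝 q :=
  prod_mem_nhds (Icc_mem_nhds h1.1 h1.2) (W.isOpen_O.mem_nhds h2)

/-- derivative of the branch along a curve -/
lemma hasDerivAt_xi {c : ℝ → Pt (Fin n)} {c' : Pt (Fin n)} {s : ℝ} (hc : HasDerivAt c c' s)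
    (h1 : (c s).1 ∈ Ioo 0 W.h) (h2 : (c s).2 ∈ W.O) :
    HasDerivAt (fun s => W.xi (c s)) (W.Rq (c s) *ᵥ (W.Qᵀ *ᵥ c'.2 - c'.1 • W.Yt (c s))) s := by
  have hU := U_mem h1 h2
  have hq := mem_of_mem_nhds hU
  set q := c s with hqd
  let f : ℝ × V n → ℝ × V n := fun a => (a.1, Ymap (W.J0 - a.1 • W.S) (W.b a.1) a.2)
  have hbd : Differentiable ℝ W.b := fun t => (W.hb t).differentiableAt
  have htd : Differentiable ℝ Real.tanh := fun t => (hasDerivAt_tanh' t).differentiableAt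
  have hf : DifferentiableAt ℝ f (q.1, W.xi q) := by
    refine differentiableAt_fst.prodMk (differentiableAt_pi.2 fun i => ?_)
    simp only [Ymap, Pi.add_apply, Pi.sub_apply, Pi.smul_apply, mulVec, dotProduct, th, avg, DD,
      Matrix.sub_apply, Matrix.smul_apply, smul_eq_mul]
    fun_prop
  have hf' : ∀ a : ℝ × V n, fderiv ℝ f (q.1, W.xi q) a =
      (a.1, a.1 • W.Yt q + (1 - W.Bq q * W.Dq q) *ᵥ a.2) := by
    intro a
    have l1 : HasDerivAt (fun τ : ℝ => q.1 + τ * a.1) a.1 0 := by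
      simpa using ((hasDerivAt_id' (0 : ℝ)).mul_const a.1).const_add q.1
    have l2 : HasDerivAt (fun τ : ℝ => W.xi q + τ • a.2) a.2 0 := by
      simpa using ((hasDerivAt_id' (0 : ℝ)).smul_const a.2).const_add (W.xi q)
    have l3 := l1.prodMk (hasDerivAt_Ymap W.J0 W.S (W.hb _) l1 l2)
    have l4 := (show HasFDerivAt f _ (q.1 + 0 * a.1, W.xi q + (0 : ℝ) • a.2) by
      simpa using hf.hasFDerivAt).comp_hasDerivAt (0 : ℝ) (l1.prodMk l2)
    have := l4.unique l3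
    simpa [Yt, Bq, Dq, Jt, pp] using this
  let L : ℝ × V n →L[ℝ] ℝ × V n := (ContinuousLinearMap.fst ℝ ℝ (V n)).prod
    ((LinearMap.toContinuousLinearMap (Matrix.toLin' (W.Rq q))).comp
      (ContinuousLinearMap.snd ℝ ℝ (V n) - (ContinuousLinearMap.fst ℝ ℝ (V n)).smulRight (W.Yt q)))
  have hL : ∀ a, L a = (a.1, W.Rq q *ᵥ (a.2 - a.1 • W.Yt q)) := fun a => rfl
  have hinv : Function.LeftInverse L (fderiv ℝ f (q.1, W.xi q)) := fun a => by
    rw [hL, hf', add_sub_cancel_left, mulVec_mulVec]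
    simp only [Rq, Dq, RR_mul_sub (unit hq), one_mulVec]
  have hc1 : HasDerivAt (fun s => (c s).1) c'.1 s :=
    (ContinuousLinearMap.fst ℝ ℝ (V n)).hasFDerivAt.comp_hasDerivAt s hc
  have hc2 : HasDerivAt (fun s => (c s).2) c'.2 s :=
    (ContinuousLinearMap.snd ℝ ℝ (V n)).hasFDerivAt.comp_hasDerivAt s hc
  have hg : ContinuousAt (fun s => ((c s).1, W.xi (c s))) s :=
    hc1.continuousAt.prodMk ((cont_xi.continuousAt hU).comp hc.continuousAt)
  have hh : HasDerivAt (fun s => ((c s).1, W.y0 + W.Qᵀ *ᵥ (c s).2)) (c'.1, W.Qᵀ *ᵥ c'.2) s :=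
    hc1.prodMk ((hasDerivAt_mulVec W.Qᵀ hc2).const_add W.y0)
  have key := HasFDerivAt.of_comp_of_leftInverse hg hf.hasFDerivAt hh.hasFDerivAt (by
    filter_upwards [hc.continuousAt.preimage_mem_nhds hU] with s' hs'
    exact Prod.ext rfl (spec hs').2) hinv
  have := (ContinuousLinearMap.snd ℝ ℝ (V n)).hasFDerivAt.comp_hasDerivAt s key.hasDerivAt
  simpa [hL, Function.comp_def] using this

lemma hasDerivAt_pp {c : ℝ → Pt (Fin n)} {c' : Pt (Fin n)} {s : ℝ} (hc : HasDerivAt c c' s)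
    (h1 : (c s).1 ∈ Ioo 0 W.h) (h2 : (c s).2 ∈ W.O) :
    HasDerivAt (fun s => W.pp (c s)) (W.Gq (c s) *ᵥ (W.Qᵀ *ᵥ c'.2 - c'.1 • W.Yt (c s))) s := by
  refine (hasDerivAt_th (hasDerivAt_xi hc h1 h2)).congr_deriv ?_
  rw [Gq, GG_eq (unit (mem_of_mem_nhds (U_mem h1 h2))), ← mulVec_mulVec]
  exact (W.Dq_mulVec _ _).symm

variable (W) in
/-- second derivative of the branch in the direction `k`, before applying `G` -/
def Hv (q : Pt (Fin n)) (k : Fin n) : V n := fun j =>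
  -2 * W.pp q j * (W.Rq q *ᵥ W.Q k) j ^ 2 +
    4 * W.b q.1 / n * (W.pp q ⬝ᵥ W.Gq q *ᵥ W.Q k) * (W.Gq q *ᵥ W.Q k) j +
    2 * W.b q.1 / n * (W.Gq q *ᵥ W.Q k ⬝ᵥ W.Gq q *ᵥ W.Q k) * W.pp q j

lemma QT_single (k : Fin n) : W.Qᵀ *ᵥ Pi.single k 1 = W.Q k := by
  ext i; simp [mulVec_single]

lemma hasDerivAt_GQ (h1 : q.1 ∈ Ioo 0 W.h) (h2 : q.2 ∈ W.O) (k : Fin n) :
    HasDerivAt (fun s => W.Gq (q.1, Function.update q.2 k s) *ᵥ W.Q k) (W.Gq q *ᵥ W.Hv q k)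
      (q.2 k) := by
  have hU := U_mem h1 h2
  have hq := mem_of_mem_nhds hU
  have hc : HasDerivAt (fun s => ((q.1, Function.update q.2 k s) : Pt (Fin n))) (0, Pi.single k 1)
      (q.2 k) := (hasDerivAt_const _ _).prodMk (hasDerivAt_update _ _ _)
  have e0 : ((q.1, Function.update q.2 k (q.2 k)) : Pt (Fin n)) = q := by simp
  have hp := hasDerivAt_pp hc (by simpa using h1) (by simpa using h2)
  simp only [e0, zero_smul, sub_zero, QT_single] at hp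
  set u := W.Gq q *ᵥ W.Q k with hu
  set P : ℝ → V n := fun s => W.pp (q.1, Function.update q.2 k s) with hP
  have hP0 : P (q.2 k) = W.pp q := by simp only [hP, e0]
  have hpi := fun i => hasDerivAt_pi.1 hp i
  have hD : ∀ i, HasDerivAt (fun s => DD (P s) i) (-(2 * W.pp q i * u i)) (q.2 k) := fun i => by
    simpa [DD, hP0] using ((hpi i).pow 2).const_sub 1
  let B' : Mx n := (2 * W.b q.1 / n * (W.pp q ⬝ᵥ u)) • (1 : Mx n) +
    (2 * W.b q.1 / n) • (vecMulVec u (W.pp q) + vecMulVec (W.pp q) u)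
  have hB : ∀ i j, HasDerivAt (fun s => B1 (W.Jt q.1) (W.b q.1) (P s) i j) (B' i j) (q.2 k) := by
    intro i j
    have e : ∀ s, B1 (W.Jt q.1) (W.b q.1) (P s) i j = W.Jt q.1 i j -
        W.b q.1 * avg (DD (P s)) * (1 : Mx n) i j + 2 * W.b q.1 / n * (P s i * P s j) := fun s => by
      rw [(W.cb _).B1_eq]; simp [vecMulVec_apply, hP]
    simp only [e]
    refine (((((hasDerivAt_avgDD hp).const_mul (W.b q.1)).mul_const _).const_sub _).add
      (((hpi i).mul (hpi j)).const_mul _)).congr_deriv ?_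
    simp only [B', hP0, Matrix.add_apply, Matrix.smul_apply, vecMulVec_apply, smul_eq_mul]
    ring
  have hM : ∀ i j, HasDerivAt (fun s => (1 - (diagonal fun i => dd (P s) i * dd (P s) i) *
      B1 (W.Jt q.1) (W.b q.1) (P s) : Mx n) i j)
      ((-(diagonal (fun i => -(2 * W.pp q i * u i)) * W.Bq q + W.Dq q * B') : Mx n) i j) (q.2 k) := by
    intro i j
    simp only [Matrix.sub_apply, diagonal_mul, (W.cb _).dd_mul, Matrix.neg_apply, Matrix.add_apply,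
      Dq, hP]
    refine (((hD i).mul (hB i j)).const_sub _).congr_deriv ?_
    simp only [hP0, Bq]
  have hr : HasDerivAt (fun s => fun i => DD (P s) i * W.Q k i)
      (fun i => -(2 * W.pp q i * u i) * W.Q k i) (q.2 k) :=
    hasDerivAt_pi.2 fun i => (hD i).mul_const _
  have hcU : ∀ᶠ s in 𝓝 (q.2 k), ((q.1, Function.update q.2 k s) : Pt (Fin n)) ∈ W.U :=
    hc.continuousAt.preimage_mem_nhds (by rwa [e0])
  have hw : ContinuousAt (fun s => W.Gq (q.1, Function.update q.2 k s) *ᵥ W.Q k) (q.2 k) := by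
    have h3 : ContinuousAt (fun s => W.Gq (q.1, Function.update q.2 k s)) (q.2 k) :=
      ContinuousAt.comp (g := W.Gq) (f := fun s => (q.1, Function.update q.2 k s))
        (by rw [e0]; exact cont_Gq.continuousAt hU) hc.continuousAt
    exact (show Continuous fun M : Mx n => M *ᵥ W.Q k by fun_prop).continuousAt.comp h3
  have key := hasDerivAt_linsys (L := (W.Rq q)ᵀ) hM hr hw (by
    filter_upwards [hcU] with s hs
    rw [mulVec_mulVec]
    exact (congrArg (· *ᵥ W.Q k) (sub_mul_GG (unit hs))).trans (W.Dq_mulVec _ _))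
    (by rw [hP0]; exact RRT_mul_sub (W.Bq_symm q) (unit hq))
  refine key.congr_deriv ?_
  have e1 : W.Gq q = (W.Rq q)ᵀ * W.Dq q := GG_eq' (W.Bq_symm q) (unit hq)
  have e2 : u = fun i => DD (W.pp q) i * (W.Rq q *ᵥ W.Q k) i := by
    rw [hu, Gq, GG_eq (unit hq), ← mulVec_mulVec]; exact W.Dq_mulVec _ _
  have e3 : W.Rq q *ᵥ W.Q k = W.Q k + W.Bq q *ᵥ u := by
    rw [Rq, RR, add_mulVec, one_mulVec, hu, mulVec_mulVec]; rfl
  rw [e0, ← hu]
  nth_rewrite 1 [e1]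
  rw [← mulVec_mulVec]
  congr 1
  ext j
  have e4 := congrFun e2 j
  have e5 := congrFun e3 j
  rw [W.Dq_mulVec, neg_mulVec, add_mulVec, ← mulVec_mulVec, ← mulVec_mulVec, W.Dq_mulVec]
  simp only [B', Hv, ← hu, Pi.sub_apply, Pi.neg_apply, Pi.add_apply, mulVec_diagonal, add_mulVec,
    smul_mulVec, one_mulVec, Cond.vmv_mulVec, Pi.smul_apply, smul_eq_mul] at e5 ⊢
  have e6 : W.Q k j = (W.Rq q *ᵥ W.Q k) j - (W.Bq q *ᵥ u) j := by linarith
  rw [e6]
  nth_rewrite 1 2 [e4]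
  ring

lemma cont_Hv (k : Fin n) : ContinuousOn (fun q => W.Hv q k) W.U := by
  have hb := W.cont_b
  have hc : Continuous fun a : Pt (Fin n) × V n × Mx n × Mx n => fun j =>
      -2 * a.2.1 j * (a.2.2.1 *ᵥ W.Q k) j ^ 2 +
        4 * W.b a.1.1 / n * (a.2.1 ⬝ᵥ a.2.2.2 *ᵥ W.Q k) * (a.2.2.2 *ᵥ W.Q k) j +
        2 * W.b a.1.1 / n * (a.2.2.2 *ᵥ W.Q k ⬝ᵥ a.2.2.2 *ᵥ W.Q k) * a.2.1 j := by fun_prop
  exact hc.comp_continuousOn (continuousOn_id.prodMk (cont_pp.prodMk (cont_Rq.prodMk cont_Gq)))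

variable (W) in
/-- the driver -/
def Sg : Mx n := W.S + W.c0 • (1 : Mx n)

variable (W) in
/-- the remainder `ϱ` -/
def rho (q : Pt (Fin n)) : V n := fun j =>
  W.pp q j * err (W.Bq q) (dd (W.pp q)) (W.b q.1) W.Sg (W.c0 - W.b1 q.1 * avg (DD (W.pp q))) j +
    2 * W.b q.1 / n * ((W.Gq q * W.Sg * W.Gq q) *ᵥ W.pp q) j

lemma sum_mulVec_mul (A B : Mx n) (i j : Fin n) :
    ∑ k, (A *ᵥ W.Q k) i * (B *ᵥ W.Q k) j = (A * W.Sg * Bᵀ) i j := by
  have e : ∀ (A : Mx n) i k, (A *ᵥ W.Q k) i = (A * W.Qᵀ) i k := fun A i k => by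
    simp [mulVec, dotProduct, Matrix.mul_apply]
  rw [Sg, ← W.hQ, ← Matrix.mul_assoc, Matrix.mul_assoc _ W.Q, Matrix.mul_apply]
  refine Finset.sum_congr rfl fun k _ => ?_
  rw [e, e, ← transpose_apply (B * W.Qᵀ), transpose_mul, transpose_transpose]

/-- the generator applied to the branch -/
lemma gen_pp (m : V n) : -(W.Gq q *ᵥ W.Yt q) + (∑ k, (W.Q *ᵥ m) k • (W.Gq q *ᵥ W.Q k)) +
    (1 / 2 : ℝ) • ∑ k, W.Gq q *ᵥ W.Hv q k = W.Gq q *ᵥ (W.Sg *ᵥ (m - W.pp q) + W.rho q) := by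
  have e1 : ∑ k, (W.Q *ᵥ m) k • (W.Gq q *ᵥ W.Q k) = W.Gq q *ᵥ (W.Sg *ᵥ m) := by
    simp only [← mulVec_smul, ← mulVec_sum]
    congr 1
    rw [Sg, ← W.hQ, ← mulVec_mulVec]
    ext i
    simp [mulVec, dotProduct, mul_comm]
  rw [e1, ← mulVec_sum, ← mulVec_smul, ← mulVec_neg, ← mulVec_add, ← mulVec_add]
  congr 1
  ext j
  have e2 := W.sum_mulVec_mul (W.Rq q) (W.Rq q) j j
  have e3 : ∑ k, (W.pp q ⬝ᵥ W.Gq q *ᵥ W.Q k) * (W.Gq q *ᵥ W.Q k) j =
      ((W.Gq q * W.Sg * W.Gq q) *ᵥ W.pp q) j := by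
    nth_rewrite 4 [← W.Gq_symm q]
    simp only [dotProduct, Finset.sum_mul]
    rw [Finset.sum_comm, mulVec, dotProduct]
    refine Finset.sum_congr rfl fun i _ => ?_
    rw [← W.sum_mulVec_mul, Finset.sum_mul]
    exact Finset.sum_congr rfl fun k _ => by ring
  have e4 : ∑ k, W.Gq q *ᵥ W.Q k ⬝ᵥ W.Gq q *ᵥ W.Q k = (W.Gq q * W.Sg * W.Gq q).trace := by
    nth_rewrite 4 [← W.Gq_symm q]
    simp only [dotProduct]
    rw [Finset.sum_comm, trace]
    exact Finset.sum_congr rfl fun i _ => W.sum_mulVec_mul _ _ i i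
  have e5 : (∑ k, W.Hv q k) j = -2 * W.pp q j * (W.Rq q * W.Sg * (W.Rq q)ᵀ) j j +
      4 * W.b q.1 / n * ((W.Gq q * W.Sg * W.Gq q) *ᵥ W.pp q) j +
      2 * W.b q.1 / n * (W.Gq q * W.Sg * W.Gq q).trace * W.pp q j := by
    rw [← e2, ← e3, ← e4]
    simp only [Finset.sum_apply, Hv, Finset.sum_add_distrib, Finset.mul_sum, Finset.sum_mul, sq,
      mul_assoc]
  have e6 : W.Sg *ᵥ W.pp q = W.S *ᵥ W.pp q + W.c0 • W.pp q := by
    rw [Sg, add_mulVec, smul_mulVec, one_mulVec]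
  simp only [Pi.add_apply, Pi.neg_apply, Pi.smul_apply, e5, mulVec_sub, Pi.sub_apply, e6, rho, err,
    Yt, smul_eq_mul]
  simp only [Gq, Rq]
  ring

end WS

end Crest.Agent.T157.Tap
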