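import Mathlib
import Crest.Agent.T157.Top_97
import Crest.Agent.T157.EntE_34

/-!
# Row 157: second layer of the top chain, part A at high temperature (helper97, architect)

`PoinHi` and the logarithmic Sobolev inequalities that localisation delivers follow from
* `LpStmt`  (small Dirichlet form forces small entropy, every law),
* `LevVar`, `LevEnt` (variance / entropy tensorisation for densities bounded by `exp (c n)`),
* `SubG` (sub-Gaussian linear forms).
-/

set_option autoImplicit false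

noncomputable section

namespace Crest.Agent.T157.Top

open MeasureTheory ProbabilityTheory Filter Topology
open Crest.ProbabilityR.SpinGlassDynamics
open Crest.Agent.T157.E

variable {n : ℕ}

/-- defective logarithmic Sobolev inequality -/
def DLsi (w : Cube n → ℝ) (K B : ℝ) : Prop :=
  ∀ f : Cube n → ℝ, ent w (fun x => f x ^ 2) ≤ K * dir w f + B * mean w fun x => f x ^ 2

/-- `(L')`: a Dirichlet form at most `κ n` forces an entropy at most `ε n` -/
def Lp (w : Cube n → ℝ) (κ ε : ℝ) : Prop :=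
  ∀ f : Cube n → ℝ, (∀ x, 0 ≤ f x) → mean w (fun x => f x ^ 2) = 1 →
    dir w f ≤ κ * n → ent w (fun x => f x ^ 2) ≤ ε * n

/-- variance bound for functions with `f² ≤ e^{H} E f²`, with a defect -/
def VarLev (w : Cube n → ℝ) (H K B : ℝ) : Prop :=
  ∀ f : Cube n → ℝ, (∀ x, f x ^ 2 ≤ Real.exp H * mean w fun y => f y ^ 2) →
    var w f ≤ K * dir w f + B * mean w fun y => f y ^ 2

/-- entropy tensorisation for densities bounded by `e^{H}`, with a defect -/
def EntLev (w : Cube n → ℝ) (H K B : ℝ) : Prop :=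
  ∀ f : Cube n → ℝ, (∀ x, 0 ≤ f x) → (∀ x, f x ≤ Real.exp H * mean w f) →
    ent w f ≤ K * ∑ i, Ent.entS w f i + B * mean w f

/-- sub-Gaussian linear forms -/
def SubG (w : Cube n → ℝ) (K : ℝ) : Prop :=
  ∀ u : Fin n → ℝ, mean w (fun x => Real.exp (u ⬝ᵥ (sv x - mag w))) ≤ Real.exp (K / 2 * (u ⬝ᵥ u))

/-- `(L')` for all `β ≤ 1` -/
def LpStmt : Prop := ∀ β : ℝ, 0 ≤ β → β ≤ 1 → ∀ ε : ℝ, 0 < ε → ∃ κ : ℝ, 0 < κ ∧
  Whp disorderLaw fun n g => Lp (gibbsWeight n β g) κ ε

/-- levels below `c n` at high temperature -/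
def LevHi : Prop := ∀ β : ℝ, 0 ≤ β → β < 1 → ∃ c K : ℝ, 0 < c ∧
  Whp disorderLaw fun n g =>
    VarLev (gibbsWeight n β g) (c * n) K (Real.exp (-(c * n))) ∧
    EntLev (gibbsWeight n β g) (c * n) K (Real.exp (-(c * n))) ∧
    SubG (gibbsWeight n β g) K

/-- defective inequality with constant `O(1)` and an extensive, arbitrarily small defect -/
def DLsiHi : Prop := ∀ β : ℝ, 0 ≤ β → β < 1 → ∀ ε : ℝ, 0 < ε → ∃ K : ℝ,
  Whp disorderLaw fun n g => DLsi (gibbsWeight n β g) K (ε * n)

/-- the whole family: constant `K L`, defect `K n exp (-c L²)` (plus an exponentially small term) -/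
def DLsiFam : Prop := ∀ β : ℝ, 0 ≤ β → β < 1 → ∃ c K : ℝ, 0 < c ∧
  Whp disorderLaw fun n g => ∀ L : ℝ, 1 ≤ L →
    DLsi (gibbsWeight n β g) (K * L) (K * n * Real.exp (-(c * L ^ 2)) + K)

/-- tight inequality with constant `K √(log n)` -/
def LsiHiLog : Prop := ∀ β : ℝ, 0 ≤ β → β < 1 → ∃ K : ℝ,
  Whp disorderLaw fun n g => Lsi (gibbsWeight n β g) (K * Real.sqrt (Real.log n))

/-- approximate tensorisation of entropy with constant `O(1)` and an exponentially small defect -/
def AtHi : Prop := ∀ β : ℝ, 0 ≤ β → β < 1 → ∃ c K : ℝ, 0 < c ∧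
  Whp disorderLaw fun n g => Ent.AT (gibbsWeight n β g) K (Real.exp (-(c * n)))

/-! ### glue statements -/

def GAt : Prop := LpStmt → LevHi → AtHi

def GPoin2 : Prop := LpStmt → LevHi → PoinHi
def GDLsi : Prop := LpStmt → DLsiHi
def GFam : Prop := LpStmt → LevHi → DLsiFam
def GLog : Prop := PoinHi → DLsiFam → LsiHiLog

end Crest.Agent.T157.Top

end
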