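import Crest.Agent.T157.Top2_97
import Crest.Agent.T157.TapDef_29
import Crest.Agent.T157.TopA_50

/-!
# Row 157: assembly of part A at high temperature (helper97, architect)
-/

set_option autoImplicit false

noncomputable section

namespace Crest.Agent.T157.Top

open MeasureTheory Filter Topology
open Crest.ProbabilityR.SpinGlassDynamics
open Crest.Agent.T157.E

/-- from the GOE completion to the Prelude model: properties of the normalised Ising weight -/
def GoeTransfer : Prop := ∀ (β : ℝ) (P : ∀ n : ℕ, (Cube n → ℝ) → Prop),
  Whp Tap.GOE (fun n W => P n (prob (ising (β • W) 0))) →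
  Whp disorderLaw fun n g => P n (prob (gibbsWeight n β g))

/-- two-stage localisation: covariance bounds give the levels below `c n` -/
def GLev : Prop := Tap.UFStmt → Tap.FrzStmt → Tap.FrozStmt → Tap.CovStmt → LevHi

theorem r34_of_parts (h1 : GPoin2) (h2 : GLev) (hL : LpStmt) (hU : Tap.UFStmt) (hF : Tap.FrzStmt)
    (hZ : Tap.FrozStmt) (hC : Tap.CovStmt) : R34 :=
  r34_of (h1 hL (h2 hU hF hZ hC))

end Crest.Agent.T157.Top

end
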