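import Crest.Agent.T157.UnH_81

/-!
# Row 157, part C: universality through a complex entry, I (helper81)

The Poissonised static chain, the class `Pa` (all moments, closed under products), and the
universality of the stationary autocorrelation.
-/

set_option autoImplicit false
set_option linter.unusedSectionVars false

noncomputable section

namespace Crest.Agent.T157.Un

open MeasureTheory Metric Finset Matrix Filter Topology
open Crest.ProbabilityR.SpinGlassDynamics Crest.Agent.T157.E Crest.Agent.T157.SL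
open Crest.Agent.T157.Sg (sq2 ipV nv)
open Crest.Agent.T157.Soft (N23)
open Crest.Agent.T157.Chain22 (RC poi poi_nonneg hasSum_poi)

section fin
variable {Ω ι : Type*} [Fintype Ω] [DecidableEq Ω] [Fintype ι]

lemma mean_P_pow (d : RC Ω) {f h : Ω → ℝ} (hf : ∀ x, 0 ≤ f x) (h0 : ∀ x, 0 ≤ h x) {ρ : ℝ}
    (hρ : 0 ≤ ρ) (e : ∀ x, h x ≤ ρ * (d.P *ᵥ f) x) (k : ℕ) :
    Chain22.mean d.π (fun x => h x ^ k) ≤ ρ ^ k * Chain22.mean d.π fun x => f x ^ k := by
  rw [← d.mean_P fun x => f x ^ k, ← Ent.mean_const_mul]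
  refine d.isP.mean_mono fun x => (pow_le_pow_left₀ (h0 x) (e x) k).trans ?_
  rw [mul_pow]
  exact mul_le_mul_of_nonneg_left (Real.pow_arith_mean_le_arith_mean_pow univ (d.P x) f
    (fun y _ => d.nn x y) (d.row x) (fun y _ => hf y) k) (pow_nonneg hρ k)

lemma poi_tail {t : ℝ} (ht : 0 ≤ t) (J : ℕ) : 0 ≤ 1 - ∑ j ∈ range J, poi t j :=
  sub_nonneg.2 (sum_le_hasSum _ (fun j _ => poi_nonneg ht j) (hasSum_poi t))

lemma poi_trunc (d : RC Ω) {t : ℝ} (ht : 0 ≤ t) (J : ℕ) (a : ι → Ω → ℝ) (k : ℕ) :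
    Chain22.mean d.π (fun x => sq2 (Sg.HV d t a -
      fun i => ∑ j ∈ range J, poi t j • ((d.P ^ j) *ᵥ a i)) x ^ k) ≤
      (1 - ∑ j ∈ range J, poi t j) ^ k * Chain22.mean d.π fun x => sq2 a x ^ k := by
  refine mean_P_pow (d.heat t ht) (Sg.sq2_nonneg a) (Sg.sq2_nonneg _) (poi_tail ht J) (fun x => ?_) k
  set D : Ω → ℝ := fun y => d.H t x y - ∑ j ∈ range J, poi t j * (d.P ^ j) x y with hD
  have p : ∀ j y, 0 ≤ poi t j * (d.P ^ j) x y := fun j y =>
    mul_nonneg (poi_nonneg ht j) (d.pow_nn j x y)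
  have D0 : ∀ y, 0 ≤ D y := fun y => sub_nonneg.2 (sum_le_hasSum _ (fun j _ => p j y) (d.hasSum_H t x y))
  have D1 : ∀ y, D y ≤ d.H t x y := fun y => sub_le_self _ (sum_nonneg fun j _ => p j y)
  have D2 : ∑ y, D y = 1 - ∑ j ∈ range J, poi t j := by
    simp only [hD, sum_sub_distrib, d.H_row]
    rw [sum_comm]
    simp only [← mul_sum, d.pow_row, mul_one]
  have e : ∀ i, (Sg.HV d t a - fun i => ∑ j ∈ range J, poi t j • ((d.P ^ j) *ᵥ a i)) i x =
      ∑ y, D y * a i y := fun i => by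
    simp only [hD, Sg.HV, Pi.sub_apply, Finset.sum_apply, Pi.smul_apply, smul_eq_mul, mulVec, dotProduct,
      sub_mul, sum_sub_distrib, sum_mul, mul_sum, mul_assoc]
    rw [sum_comm]
  simp only [sq2, e]
  refine (sum_le_sum fun i _ => sum_sq_le_sum_mul_sum_of_sq_le_mul univ (f := D)
    (g := fun y => D y * a i y ^ 2) (fun y _ => D0 y) (fun y _ => mul_nonneg (D0 y) (sq_nonneg _))
    fun y _ => le_of_eq (by ring)).trans ?_
  rw [← mul_sum, D2, sum_comm]
  refine mul_le_mul_of_nonneg_left (sum_le_sum fun y _ => ?_) (poi_tail ht J)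
  rw [← mul_sum]
  exact mul_le_mul_of_nonneg_right (D1 y) (Sg.sq2_nonneg a y)

lemma exists_poi_tail (t : ℝ) {η : ℝ} (hη : 0 < η) : ∃ J, 1 - ∑ j ∈ range J, poi t j ≤ η := by
  obtain ⟨J, hJ⟩ := ((hasSum_poi t).tendsto_sum_nat.eventually
    (lt_mem_nhds (show 1 - η < 1 by linarith))).exists
  exact ⟨J, by linarith⟩

end fin

variable {ι : ℕ → Type} [∀ n, Fintype (ι n)] {u u' : VF ι}
  {κ : ℕ → Type} [∀ n, Fintype (κ n)] [∀ n, DecidableEq (κ n)]
  {φ : ∀ n, Cube n → κ n → ℝ} {s : ℕ → ℝ}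

/-- moments of the squared norm -/
def mq (k : ℕ) (u : VF ι) : Fam := fun n g => mean (gw n g) fun x => sq2 (u n g) x ^ k

lemma mq_nonneg (k n : ℕ) (g : Pair n → ℝ) : 0 ≤ mq k u n g :=
  (gwt g).mean_nonneg fun x => pow_nonneg (Sg.sq2_nonneg _ x) k

lemma mq_one (n : ℕ) (g : Pair n → ℝ) : mq 1 u n g = nS u n g ^ 2 := by
  rw [nS, Sg.nv_sq (isP g), Sg.ipV_self_eq]; simp only [mq, pow_one]; rfl

lemma mq_add (k n : ℕ) (g : Pair n → ℝ) : mq k (u + u') n g ≤ 4 ^ k * (mq k u n g + mq k u' n g) := by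
  rw [mq, mq, mq, ← mean_add, ← mean_const_mul]
  refine (gwt g).mean_mono fun x => ?_
  have p := Sg.sq2_nonneg (u n g) x
  have p' := Sg.sq2_nonneg (u' n g) x
  calc _ ≤ (2 * (sq2 (u n g) x + sq2 (u' n g) x)) ^ k :=
        pow_le_pow_left₀ (Sg.sq2_nonneg _ x) ((sq2_add_le _ _ x).trans_eq (by ring)) k
    _ ≤ 2 ^ k * (2 ^ k * (sq2 (u n g) x ^ k + sq2 (u' n g) x ^ k)) := by
        rw [mul_pow]
        gcongr
        refine (add_pow_le p p' k).trans ?_
        gcongr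
        exacts [one_le_two, Nat.sub_le _ _]
    _ = _ := by rw [← mul_assoc, ← mul_pow]; norm_num

lemma mq_smul (c : ℝ) (k n : ℕ) (g : Pair n → ℝ) : mq k (c • u) n g = (c ^ 2) ^ k * mq k u n g := by
  rw [mq, mq, ← mean_const_mul]
  simp only [sq2, Pi.smul_apply, smul_eq_mul, mul_pow, ← mul_sum]

lemma mq_dt (k n : ℕ) (g : Pair n → ℝ) {l : ℝ} (hl : 0 < l) :
    mq k (dt u u') n g ≤ l⁻¹ * mq (k * 2) u n g + l * mq (k * 2) u' n g := by
  rw [mq, mq, mq, ← mean_const_mul, ← mean_const_mul, ← mean_add]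
  refine (gwt g).mean_mono fun x => ?_
  have h1 : sq2 (dt u u' n g) x ≤ sq2 (u n g) x * sq2 (u' n g) x := by
    simpa [sq2, dt] using sum_mul_sq_le_sq_mul_sq univ (fun i => u n g i x) fun i => u' n g i x
  refine (pow_le_pow_left₀ (Sg.sq2_nonneg _ x) h1 k).trans ?_
  rw [mul_pow, pow_mul, pow_mul]
  set a := sq2 (u n g) x ^ k
  set b := sq2 (u' n g) x ^ k
  have : l⁻¹ * a ^ 2 + l * b ^ 2 - a * b = l⁻¹ * ((a - l * b / 2) ^ 2 + 3 / 4 * (l * b) ^ 2) := by
    field_simp; ring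
  have : 0 ≤ l⁻¹ * ((a - l * b / 2) ^ 2 + 3 / 4 * (l * b) ^ 2) := by positivity
  linarith

lemma mq_P (d : ∀ n, (Pair n → ℝ) → RC (Cube n)) (hd : ∀ n g, (d n g).π = prob (gw n g)) (k n : ℕ)
    (g : Pair n → ℝ) : mq k (fun n g i => (d n g).P *ᵥ u n g i) n g ≤ mq k u n g := by
  have := mean_P_pow (d n g) (Sg.sq2_nonneg (u n g)) (Sg.sq2_nonneg _) zero_le_one
    (fun x => by rw [one_mul]; exact Sg.sq2_P_le _ _ x) k
  rw [one_pow, one_mul, hd] at this
  exact this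

/-- truncated Poisson sum -/
def QJ (φ : ∀ n, Cube n → κ n → ℝ) (s : ℕ → ℝ) (t : ℝ) (J : ℕ) (u : VF ι) : VF ι :=
  ∑ j ∈ range J, poi t j • (TS φ s)^[j] u

lemma mq_QJ (hc : Chn φ s) {t : ℝ} (ht : 0 ≤ t) (J k n : ℕ) (g : Pair n → ℝ) :
    mq k (QS hc t u - QJ φ s t J u) n g ≤ (1 - ∑ j ∈ range J, poi t j) ^ k * mq k u n g := by
  have e : QJ φ s t J u n g = fun i => ∑ j ∈ range J, poi t j • (((stc hc n g).P ^ j) *ᵥ u n g i) := by
    funext i; simp only [QJ, Finset.sum_apply, Pi.smul_apply, TS_iter hc]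
  have := poi_trunc (stc hc n g) ht J (u n g) k
  rw [← e] at this
  exact this

lemma La.zero : La (0 : VF ι) := Pc.zero.lc.la

lemma La.Q (h : La u) (hc : Chn φ s) {t : ℝ} (ht : 0 ≤ t) : La (QS hc t u) :=
  La.approx fun η ε hη hε => by
  obtain ⟨M, M0, a1⟩ := sm_of_tight h.tight hε
  obtain ⟨J, hJ⟩ := exists_poi_tail t (η := (η / M) ^ 2) (by positivity)
  refine ⟨QJ φ s t J u, sum_induction _ _ (fun _ _ => La.add) La.zero fun j _ =>
    (Function.Iterate.rec La h (fun _ a => a.T hc) j).smul _, a1.imp (.of_forall fun n g a => ?_)⟩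
  have b1 := mq_QJ (u := u) hc ht J 1 n g
  rw [mq_one, mq_one, pow_one] at b1
  refine (abs_le_of_sq_le_sq' (b1.trans ?_) hη.le).2
  calc _ ≤ (η / M) ^ 2 * M ^ 2 := by
        gcongr
        exact Sg.nv_nonneg _
    _ = _ := by field_simp

/-- limits in all moments -/
def Pa (u : VF ι) : Prop := ∀ (k : ℕ) (η ε : ℝ), 0 < k → 0 < η → 0 < ε →
  ∃ v, Pc v ∧ Sm (mq k (u - v)) η ε

lemma mq_zero {k : ℕ} (hk : 0 < k) (n : ℕ) (g : Pair n → ℝ) : mq k (0 : VF ι) n g = 0 := by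
  simp [mq, sq2, mean, hk.ne']

lemma Pc.pa (h : Pc u) : Pa u := fun _ _ _ hk hη _ =>
  ⟨u, h, .of_le (.of_forall fun _ _ => by rw [sub_self, mq_zero hk]; exact hη.le)⟩

lemma Pc.tight (h : Pc u) (k : ℕ) (b : Bool) : Tight b (mq k u) := by
  obtain ⟨S, h1, h2⟩ := h.mo.ex k
  exact (h1.tt.coin b).mono h2

namespace Pa

lemma two {k : ℕ} {η ε : ℝ} (hε : 0 < ε) (h : Sm (mq k u) (η / 2 / 4 ^ k) (ε / 2))
    (h' : Sm (mq k u') (η / 2 / 4 ^ k) (ε / 2)) : Sm (mq k (u + u')) η ε :=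
  h.two hε h' (.of_forall fun n g a b => (mq_add k n g).trans
    ((mul_le_mul_of_nonneg_left (add_le_add a b) (by positivity)).trans_eq (by field_simp; ring)))

lemma approx (h : ∀ (k : ℕ) (η ε : ℝ), 0 < k → 0 < η → 0 < ε → ∃ v, Pa v ∧ Sm (mq k (u - v)) η ε) :
    Pa u := fun k η ε hk hη hε => by
  obtain ⟨v, h1, h2⟩ := h k (η / 2 / 4 ^ k) _ hk (by positivity) (half_pos hε)
  obtain ⟨w, h3, h4⟩ := h1 k (η / 2 / 4 ^ k) _ hk (by positivity) (half_pos hε)
  exact ⟨w, h3, by simpa only [sub_add_sub_cancel] using two hε h2 h4⟩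

lemma tight (h : Pa u) {k : ℕ} (hk : 0 < k) : ∀ b, Tight b (mq k u) := tight_of_sm fun ε hε => by
  obtain ⟨v, h1, h2⟩ := h k 1 _ hk one_pos (half_pos hε)
  obtain ⟨M, -, h3⟩ := sm_of_tight (h1.tight k) (half_pos hε)
  refine ⟨4 ^ k * (1 + M), h2.two hε h3 (.of_forall fun n g a b => ?_)⟩
  have := mq_add (u := u - v) (u' := v) k n g
  rw [sub_add_cancel] at this
  exact this.trans (mul_le_mul_of_nonneg_left (add_le_add a b) (by positivity))

lemma la (h : Pa u) : La u := fun η ε hη hε => by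
  obtain ⟨v, h1, h2⟩ := h 1 (η ^ 2) ε one_pos (by positivity) hε
  exact ⟨v, h1.lc, h2.imp (.of_forall fun n g a =>
    (abs_le_of_sq_le_sq' ((mq_one n g).ge.trans a) hη.le).2)⟩

lemma add (h : Pa u) (h' : Pa u') : Pa (u + u') := fun k η ε hk hη hε => by
  obtain ⟨v, h1, h2⟩ := h k (η / 2 / 4 ^ k) _ hk (by positivity) (half_pos hε)
  obtain ⟨w, h3, h4⟩ := h' k (η / 2 / 4 ^ k) _ hk (by positivity) (half_pos hε)
  exact ⟨_, h1.add h3, by rw [add_sub_add_comm]; exact two hε h2 h4⟩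

lemma smul (h : Pa u) (c : ℝ) : Pa (c • u) := fun k η ε hk hη hε => by
  obtain ⟨v, h1, h2⟩ := h k (η / ((c ^ 2) ^ k + 1)) _ hk (by positivity) hε
  refine ⟨_, h1.smul c, h2.imp (.of_forall fun n g a => ?_)⟩
  rw [← smul_sub, mq_smul]
  calc _ ≤ ((c ^ 2) ^ k + 1) * (η / ((c ^ 2) ^ k + 1)) := by
        gcongr
        exacts [mq_nonneg k n g, by linarith]
    _ = η := by field_simp

lemma sub (h : Pa u) (h' : Pa u') : Pa (u - u') := by
  simpa only [sub_eq_add_neg, neg_smul, one_smul] using h.add (h'.smul (-1))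

lemma T (h : Pa u) (hc : Chn φ s) : Pa (TS φ s u) := fun k η ε hk hη hε => by
  obtain ⟨v, h1, h2⟩ := h k η ε hk hη hε
  refine ⟨_, h1.T hc, h2.imp (.of_forall fun n g a => le_trans (le_of_eq ?_)
    ((mq_P (stc hc) (fun _ _ => rfl) k n g).trans a))⟩
  congr 1
  funext n g i; simp only [Pi.sub_apply, mulVec_sub]; rfl

lemma Q (h : Pa u) (hc : Chn φ s) {t : ℝ} (ht : 0 ≤ t) : Pa (QS hc t u) :=
  approx fun k η ε hk hη hε => by
  obtain ⟨M, M0, a1⟩ := sm_of_tight (h.tight hk) hε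
  obtain ⟨J, hJ⟩ := exists_poi_tail t (η := min 1 (η / M)) (by positivity)
  refine ⟨QJ φ s t J u, sum_induction _ _ (fun _ _ => Pa.add) Pc.zero.pa fun j _ =>
    (Function.Iterate.rec Pa h (fun _ a => a.T hc) j).smul _, a1.imp (.of_forall fun n g a => ?_)⟩
  refine (mq_QJ hc ht J k n g).trans ?_
  calc _ ≤ η / M * M := mul_le_mul ((pow_le_of_le_one (poi_tail ht J) (hJ.trans (min_le_left _ _))
        hk.ne').trans (hJ.trans (min_le_right _ _))) a (mq_nonneg k n g) (by positivity)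
    _ = _ := by field_simp

lemma dot (h : Pa u) (h' : Pa u') : Pa (dt u u') := fun k η ε hk hη hε => by
  have e4 := half_pos (half_pos hε)
  have k2 : 0 < k * 2 := by positivity
  set ρ := η / 2 / 4 ^ k / 2 with hρ
  have ρ0 : 0 < ρ := by positivity
  obtain ⟨M, M0, a1⟩ := sm_of_tight (h'.tight k2) e4
  obtain ⟨v, h1, h2⟩ := h _ (ρ / M * ρ) _ k2 (by positivity) e4
  obtain ⟨M', M0', a2⟩ := sm_of_tight (h1.tight (k * 2)) e4
  obtain ⟨w, h3, h4⟩ := h' _ (ρ / M' * ρ) _ k2 (by positivity) e4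
  have e : dt u u' - dt v w = dt (u - v) u' + dt (u' - w) v := by
    funext n g _ x
    simp only [dt, Pi.sub_apply, Pi.add_apply, ← sum_sub_distrib, ← sum_add_distrib]
    exact sum_congr rfl fun _ _ => by ring
  have key : ∀ {a b : VF ι} {M : ℝ}, 0 < M → Sm (mq (k * 2) a) (ρ / M * ρ) (ε / 2 / 2) →
      Sm (mq (k * 2) b) M (ε / 2 / 2) → Sm (mq k (dt a b)) (η / 2 / 4 ^ k) (ε / 2) :=
    fun {a b M} M0 c1 c2 => c1.two (half_pos hε) c2 (.of_forall fun n g d1 d2 => by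
      have l0 : 0 < ρ / M := by positivity
      calc _ ≤ (ρ / M)⁻¹ * (ρ / M * ρ) + ρ / M * M := (mq_dt k n g l0).trans (by gcongr)
        _ = ρ + ρ := by field_simp
        _ = _ := add_halves _)
  exact ⟨_, h1.dot h3, by rw [e]; exact two hε (key M0 h2 a1) (key M0' h4 a2)⟩

/-- the conditional two-time overlap of the static chain -/
lemma Gt (h : Pa u) (hc : Chn φ s) {t : ℝ} (ht : 0 ≤ t) :
    Pa (ι := fun _ => Unit) fun n g _ => Soft.Gt (stc hc n g) (u n g) t := by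
  have e : (fun n g _ => Soft.Gt (stc hc n g) (u n g) t) = dt u (QS hc t u) := by
    funext n g _ x; exact Sg.Gt_eq _ _ _ x
  rw [e]; exact h.dot (h.Q hc ht)

/-- Gibbs averages -/
theorem mean {u : VF fun _ => Unit} (h : Pa u) : Ap fun n g => mean (gw n g) (u n g ()) :=
  (h.la.ip Pc.one.lc.la).congr (.of_forall fun n g => by simp [ipS, ipV, Chain22.ip, E.mean])

end Pa

/-- the moment bound of `Sg.master`, both laws -/
lemma mgC {ε : ℝ} (hε : 0 < ε) : ∃ B : ℝ, 0 < B ∧ ∀ b, ∀ᶠ n : ℕ in atTop, couplingLaw b n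
    {g | ∃ hn : 0 < n, ¬ Sg.MgC (Soft.ch hn g) (Soft.an n) B} ≤ ENNReal.ofReal ε := by
  choose B hB using fun b => ldB b ε hε
  refine ⟨2 * (|B true| + |B false|) + 1, by positivity, fun b => (hB b).mono fun n a =>
    le_trans (measure_mono ?_) a⟩
  rintro g ⟨hn, hg⟩
  by_contra hh
  simp only [Set.mem_ofPred_eq, not_exists, not_and, not_lt] at hh
  refine hg fun θ hθ => (Soft.XX_le hn g θ).trans ?_
  have h1 : |B b| ≤ |B true| + |B false| := by
    cases b <;> linarith [abs_nonneg (B true), abs_nonneg (B false)]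
  have h2 := le_abs_self (B b)
  have h3 := abs_nonneg (B b)
  calc _ ≤ 2 * (|B b| * Real.exp (|B b| * θ ^ (3 / 2 : ℝ))) := by
        refine mul_le_mul_of_nonneg_left ((hh θ hθ).trans ?_) zero_le_two
        gcongr
    _ ≤ _ := by rw [← mul_assoc]; gcongr <;> linarith

/-- the stationary autocorrelation is a limit of holomorphic functionals -/
theorem ap_An (h : Soft.Q1EStmt) {t : ℝ} (ht : 0 < t) : Ap fun n g => Soft.An n g t :=
  Ap.approx fun η ε hη hε => by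
  choose C hC using fun b => h b t _ ht (half_pos hε)
  obtain ⟨B, B0, hB⟩ := mgC (half_pos hε)
  obtain ⟨K, ⟨δ, M, δ0, H⟩, K0⟩ := ((Sg.master (max (C true) (C false)) B0 hη).and
    (eventually_ge_atTop 0)).exists
  have hb := (Pc.Tan (chn_an K0)).lc.la
  refine ⟨_, hb.ip (hb.H ht.le), fun b => ?_⟩
  filter_upwards [hC b, hB b, eventually_gt_atTop 0] with n a1 a2 hn
  refine meas_two hε a1 a2 fun g hg => ?_
  by_contra hh
  simp only [Set.mem_union, Set.mem_ofPred_eq, not_or] at hh hg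
  have e1 : Soft.EC (Soft.ch hn g) (Soft.tau n t) (max (C true) (C false)) := fun x =>
    (Soft.ec_of hn hh.1 x).trans (by cases b; exacts [le_max_right _ _, le_max_left _ _])
  have τ0 := (Soft.tau_pos hn ht).le
  have := (((H (Cube n) (Fin n) (fun x i => Soft.an n i x) _ (gw_pos g) K0 (Soft.ch hn g)
    (Soft.ch hn g) rfl rfl (not_not.1 fun c => hh.2 ⟨hn, c⟩) _ rfl).2 _ τ0).2 _ _ τ0 le_rfl e1
    (by simpa [nv, ipV, Chain22.ip] using δ0.le)).1
  refine hg.not_ge ?_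
  rw [Soft.An_eq_AA hn, ipS, HS_eq hn]
  exact this

/-- **finite-dimensional convergence for both laws from the Gaussian case** -/
theorem afdd_of_gauss (h : Soft.Q1EStmt)
    (hG : ∀ φ : (Set.Ioi (0 : ℝ) → ℝ) → ℝ, Soft.IsCyl φ → ∃ L,
      Tendsto (fun n => ∫ g, φ (fun s => Soft.An n g s) ∂disorderLaw n) atTop (𝓝 L)) :
    Soft.AFddStmt := fun φ hφ => (hG φ hφ).imp fun _ hL =>
  Ap.cyl_conv (X := fun n g (s : Set.Ioi (0 : ℝ)) => Soft.An n g s) (fun s => ap_An h s.2)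
    (fun _ _ => (Soft.continuous_An_left _).measurable) φ hφ hL

end Crest.Agent.T157.Un

end
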