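import Crest.Agent.T157.CqDef_72
import Crest.Agent.T157.CnDef_63
import Crest.Agent.T157.CrAll_63
import Crest.Agent.T157.DsG_77
import Crest.Agent.T157.DaTop_82
import Crest.Agent.T157.DaGr_82
import Crest.Agent.T157.TrG_64
import Crest.Agent.T157.SpAll_87
import Crest.Agent.T157.UnI_81
import Crest.Agent.T157.Cut0_10
import Crest.Agent.T157.LowDef_85

/-!
# Row 157: the four open statements from the outputs of the blocks (helper88)

* `AOut a κ T` : block A2, the Gaussian covariance windows;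
* `KOut a κ` : the covariance windows for coins;
* `CnL`, `CqL` : the leaves of `CnDef_63` and `CqDef_72`;
* block B : `Top.CutoffStmt`.
-/

set_option autoImplicit false

namespace Crest.Agent.T157.TopZ

open Crest.ProbabilityR.SpinGlassDynamics

/-- **block A2** -/
structure AOut (a κ T : ℝ) : Prop where
  star : Q1.AStar false a κ T
  w2 : Q1.W2R
  sharp : Tr.AStmt disorderLaw
  aw : Rec.AwStmt

/-- **the coin windows** -/
def KOut (a κ : ℝ) : Prop := ∀ T, 0 < T → Cn.FroC T → Q1.AStar true a κ T ∧ Cn.WinC T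

/-- the leaves of `CnDef_63` -/
structure CnL : Prop where
  boch : Cn.BochStmt
  fro : Cn.FroGlue
  frz : Cn.FrzC
  opn : Cn.OpnC
  fld : Cn.FldC
  top : Cn.TopGlue
  term : Cn.TermGlue
  lev : Cn.LevGlue

/-- the leaves of `CqDef_72` -/
structure CqL : Prop where
  bd : Cq.BdStmt
  iso : Cq.IsoStmt
  scm : Cq.ScMeas
  ms : Cq.MsStmt
  scl : Cq.SclGlue
  cv : Cq.CvGlue
  ut : Cq.UtGlue
  i12 : Cq.I12Glue
  sg : Cq.SgGlue
  sgc : Cq.SgCoin
  ts : Cq.TsGlue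
  cyl : Cq.CylStmt
  tv : Cq.TvStmt
  soft : Cq.SoftGlue
  stat : Cq.StatGlue
  disc : Cq.DiscGlue
  kl : Cq.KlStmt
  kern : Cq.KernStmt
  osc : Cq.OscGlue
  pi : Cq.PiGlue
  mg : Cq.MgGlue
  kap : Cq.KapStmt
  mass : Cq.MassStmt
  cr : Cq.CrGlue
  kill : Cq.KillStmt
  spec : ∀ b, Cq.SpecStmt b
  swap : ∀ b, Cq.SwapStmt b
  p0 : Cq.P0Glue
  round : Cq.RoundGlue
  q3 : Cq.Q3Glue
  top : Cq.TopGlue

variable {a κ T : ℝ}

/-- **S0229** -/
theorem r29 (ha : 0 < a) (ha' : a < 2 / 3) (hκ : 0 < κ) (hκ' : κ ≤ 1 / 30) (hT : 0 < T)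
    (A : AOut a κ T) : Top.R29 :=
  Q1.r29 ha ha' hκ hκ' hT A.star A.w2 A.sharp

/-- **S0230** -/
theorem r30 (B : Top.CutoffStmt) : Top.R30 := Chain22.r30_of B Cut0.cut0Stmt

theorem down (ha : 0 < a) (ha' : a < 2 / 3) (hκ : 0 < κ) (hκ' : κ ≤ 1 / 30) (hT : 0 < T)
    (A : AOut a κ T) (K : KOut a κ) (N : CnL) : ∀ b, Q1.DownStmt b a
  | false => Q1.downStmt ha ha' hκ hκ' hT A.star A.w2
  | true => by
    obtain ⟨T', hT', hF⟩ := N.fro N.boch N.frz N.opn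
    obtain ⟨h1, h2⟩ := K T' hT' hF
    exact Q1.downStmt_of ha (Q1.spStmt_of ha ha'.le hκ hκ' hT' h1
      (N.term κ T' (by linarith) hT' hF N.opn) (Un.ldB true)
      (N.lev a κ T' ha' hκ hT' h2 hF N.opn N.fld (N.top (Q1.levCrit A.w2) LpAll.topLp)
        (Un.ldB true)))

theorem abfdd (ha : 5 / 9 < a) (hA : Tr.AStmt disorderLaw) (hw : Rec.AwStmt)
    (hD : ∀ b, Q1.DownStmt b a) (Q : CqL) : Soft.ABFddStmt := by
  have a0 : 0 < a := by linarith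
  have ap := Tr.ap_of hA (Tr.p1Stmt_of_tail Q1.tailStmt)
  obtain ⟨k, hk, ds, i2⟩ := Rec.i12' Da.daStmt Da.dlStmt Da.grStmt ap Tr.hStmt hw
    (Wp.wp_of hA Q1.tailStmt)
  have i12 := Q.i12 k hk (Tr.i1_of' ap hk ds) i2
  have scl := Q.scl Q.bd
  have stat := Q.stat Sp.domStmt
  exact Q.top k a hk a0 Q.bd Q.scm (Q.cv Q.bd scl Q.iso Q.scm) (Q.ut Q.bd Q.scm)
    (fun b => match b with
      | false => Q.sg k hk Q.bd i12
      | true => Q.sgc k hk Q.bd i12)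
    (Q.ts k hk Q.bd i12 (Tr.crudeV_of ap))
    (Q.mg k a hk a0 Q.bd scl Q.iso Q.cyl (Q.soft stat)
      (Q.pi Q.bd Q.tv stat (Q.disc Q.bd scl Q.tv Sp.All.sWinStmt Sp.largeStmt) Q.kl (Q.osc Q.kern))
      i12 (hD false))
    hD Un.ldB fun b => Cq.q3_of ha Q.p0 Q.round Q.q3 Q.kap Q.ms (Q.cr Q.mass) Q.kill (Q.spec b)
      (Q.swap b) (hD b) (Un.ldB b)

/-- **S0233** -/
theorem r33 (ha : 5 / 9 < a) (ha' : a < 2 / 3) (hκ : 0 < κ) (hκ' : κ ≤ 1 / 30) (hT : 0 < T)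
    (A : AOut a κ T) (K : KOut a κ) (N : CnL) (Q : CqL) : Top.R33 :=
  have a0 : 0 < a := by linarith
  have hD := down a0 ha' hκ hκ' hT A K N
  Soft.r33_of_q1 (abfdd ha A.sharp A.aw hD Q) (Q1.q1e_of_down a0 hD) (Q1.ld2_of Un.ldB)
    (Wp.mix_of A.sharp Q1.tailStmt)

/-- **S0232** (no leaf of `CqDef_72` is needed for the coins, but the Gaussian convergence is) -/
theorem r32 (ha : 5 / 9 < a) (ha' : a < 2 / 3) (hκ : 0 < κ) (hκ' : κ ≤ 1 / 30) (hT : 0 < T)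
    (A : AOut a κ T) (K : KOut a κ) (N : CnL) (Q : CqL) : Top.R32 :=
  have a0 : 0 < a := by linarith
  have hD := down a0 ha' hκ hκ' hT A K N
  St.All.r32_of_q1 (Soft.afdd_of_abfdd (abfdd ha A.sharp A.aw hD Q)) (Q1.q1e_of_down a0 hD)
    (Q1.ld2_of Un.ldB) (Wp.mix_of A.sharp Q1.tailStmt)

end Crest.Agent.T157.TopZ
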