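import Crest.Agent.T157.PaF_39
import Crest.Agent.T157.SLE_23
import Crest.Agent.T157.EigN_84

/-!
# Row 157, part C1 (helper64): scale transport along stochastic localisation, path facts

`X = r C_r`, `good = {‖X‖ ≤ 1 + ε r}`, `Y = 1_good X`, `W' = (Y - 1) W / r`.
-/

set_option autoImplicit false
set_option linter.unusedSectionVars false

noncomputable section

namespace Crest.Agent.T157.Tr

open MeasureTheory ProbabilityTheory Filter Topology Set Real Matrix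
open Crest.Agent.T157.SL Crest.Agent.T157.E Crest.Agent.T157.Pa Crest.Agent.T157.Eig

variable {Ω : Type*} [Fintype Ω] {ι : Type} [Fintype ι] [DecidableEq ι]

/-- `r C_r` -/
def Xp (φ : Ω → ι → ℝ) (w : Ω → ℝ) (p : Pt ι) : Matrix ι ι ℝ := p.1 • covMat (pw φ w p) φ
/-- `‖r C_r‖` -/
def nx (φ : Ω → ι → ℝ) (w : Ω → ℝ) (p : Pt ι) : ℝ := opn (Xp φ w p)
/-- indicator of the good event -/
def ig (φ : Ω → ι → ℝ) (w : Ω → ℝ) (ε : ℝ → ℝ) (p : Pt ι) : ℝ :=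
  if nx φ w p ≤ 1 + ε p.1 then 1 else 0
/-- `1_good r C_r` -/
def Yp (φ : Ω → ι → ℝ) (w : Ω → ℝ) (ε : ℝ → ℝ) (p : Pt ι) : Matrix ι ι ℝ := ig φ w ε p • Xp φ w p
/-- moment of the bad event at a fixed time -/
def pb (φ : Ω → ι → ℝ) (w : Ω → ℝ) (ε : ℝ → ℝ) (m : ℕ) (r : ℝ) : ℝ :=
  ex φ w (fun p => (1 - ig φ w ε p) * (1 + nx φ w p) ^ m) r
/-- `Cov_r (f, φ)` -/
def vv (φ : Ω → ι → ℝ) (w : Ω → ℝ) (f : Ω → ℝ) (p : Pt ι) : ι → ℝ := covV (pw φ w p) f φ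

variable {φ : Ω → ι → ℝ} {w f : Ω → ℝ} {ε : ℝ → ℝ} {I : Set ℝ} {p : Pt ι} {a b r s t T : ℝ}

theorem nx_nonneg (p : Pt ι) : 0 ≤ nx φ w p := opn_nonneg _

theorem ig_cases (p : Pt ι) :
    (nx φ w p ≤ 1 + ε p.1 ∧ ig φ w ε p = 1) ∨ (1 + ε p.1 < nx φ w p ∧ ig φ w ε p = 0) := by
  unfold ig
  by_cases h : nx φ w p ≤ 1 + ε p.1
  · exact Or.inl ⟨h, if_pos h⟩
  · exact Or.inr ⟨not_le.1 h, if_neg h⟩

theorem ig_nonneg (p : Pt ι) : 0 ≤ ig φ w ε p := by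
  rcases ig_cases (φ := φ) (w := w) (ε := ε) p with h | h <;> simp [h.2]

theorem ig_le_one (p : Pt ι) : ig φ w ε p ≤ 1 := by
  rcases ig_cases (φ := φ) (w := w) (ε := ε) p with h | h <;> simp [h.2]

theorem ig_mul_self (p : Pt ι) : ig φ w ε p * ig φ w ε p = ig φ w ε p := by
  rcases ig_cases (φ := φ) (w := w) (ε := ε) p with h | h <;> simp [h.2]

theorem Xp_transpose (p : Pt ι) : (Xp φ w p)ᵀ = Xp φ w p := by
  rw [Xp, transpose_smul, covMat_transpose]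

theorem Yp_transpose (p : Pt ι) : (Yp φ w ε p)ᵀ = Yp φ w ε p := by
  rw [Yp, transpose_smul, Xp_transpose]

theorem dot_symm {A : Matrix ι ι ℝ} (hA : Aᵀ = A) (u v : ι → ℝ) : (A *ᵥ u) ⬝ᵥ v = u ⬝ᵥ A *ᵥ v := by
  rw [dotProduct_mulVec, ← mulVec_transpose, hA]

theorem quad_X_nonneg (hw : Wt w) (hp : 0 ≤ p.1) (u : ι → ℝ) : 0 ≤ u ⬝ᵥ Xp φ w p *ᵥ u := by
  rw [Xp, smul_mulVec, dotProduct_smul, smul_eq_mul]
  exact mul_nonneg hp ((hw.post φ _ _).covMat_quad_nonneg φ u)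

theorem quad_X_le (u : ι → ℝ) : u ⬝ᵥ Xp φ w p *ᵥ u ≤ nx φ w p * (u ⬝ᵥ u) :=
  (le_abs_self _).trans (abs_quad_le _ u)

theorem opn_Y_le (h0 : 0 ≤ ε p.1) : opn (Yp φ w ε p) ≤ 1 + ε p.1 := by
  rcases ig_cases (φ := φ) (w := w) (ε := ε) p with h | h
  · rw [Yp, h.2, one_smul]; exact h.1
  · rw [Yp, h.2, zero_smul, opn_zero]; linarith

theorem quad_Y_nonneg (hw : Wt w) (hp : 0 ≤ p.1) (u : ι → ℝ) : 0 ≤ u ⬝ᵥ Yp φ w ε p *ᵥ u := by
  rw [Yp, smul_mulVec, dotProduct_smul, smul_eq_mul]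
  exact mul_nonneg (ig_nonneg p) (quad_X_nonneg hw hp u)

theorem quad_Y_le_X (hw : Wt w) (hp : 0 ≤ p.1) (u : ι → ℝ) :
    u ⬝ᵥ Yp φ w ε p *ᵥ u ≤ u ⬝ᵥ Xp φ w p *ᵥ u := by
  rw [Yp, smul_mulVec, dotProduct_smul, smul_eq_mul]
  have := quad_X_nonneg (φ := φ) hw hp u
  have := ig_le_one (φ := φ) (w := w) (ε := ε) p
  nlinarith

theorem quad_Y_le (h0 : 0 ≤ ε p.1) (u : ι → ℝ) :
    u ⬝ᵥ Yp φ w ε p *ᵥ u ≤ (1 + ε p.1) * (u ⬝ᵥ u) :=
  ((le_abs_self _).trans (abs_quad_le _ u)).trans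
    (mul_le_mul_of_nonneg_right (opn_Y_le h0) (SL.dot_self_nonneg u))

/-- Bessel: `r |v|² ≤ ‖X‖ Var f` -/
theorem vv_sq_le (hw : Wt w) (hp : 0 < p.1) (f : Ω → ℝ) :
    p.1 * (vv φ w f p ⬝ᵥ vv φ w f p) ≤ nx φ w p * var (pw φ w p) f := by
  have h := (hw.post φ p.1 p.2).covV_sq_le (φ := φ) f (κ := nx φ w p / p.1)
    (div_nonneg (nx_nonneg p) hp.le) fun u => by
      have := quad_X_le (φ := φ) (w := w) (p := p) u
      rw [Xp, smul_mulVec, dotProduct_smul, smul_eq_mul] at this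
      rw [div_mul_eq_mul_div, le_div_iff₀ hp]
      linarith
  have h2 := mul_le_mul_of_nonneg_left h hp.le
  rw [← mul_assoc, mul_div_cancel₀ _ hp.ne'] at h2
  exact h2

theorem X_mulVec (u : ι → ℝ) : Xp φ w p *ᵥ u = p.1 • vv φ w (fun x => u ⬝ᵥ φ x) p := by
  rw [Xp, smul_mulVec, covMat_mulVec, vv]

/-- `|X u|² ≤ ‖X‖ u·Xu` -/
theorem X_sq_le (hw : Wt w) (hp : 0 < p.1) (u : ι → ℝ) :
    (Xp φ w p *ᵥ u) ⬝ᵥ (Xp φ w p *ᵥ u) ≤ nx φ w p * (u ⬝ᵥ Xp φ w p *ᵥ u) := by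
  have h := vv_sq_le (φ := φ) hw hp fun x => u ⬝ᵥ φ x
  have e : u ⬝ᵥ Xp φ w p *ᵥ u = p.1 * var (pw φ w p) fun x => u ⬝ᵥ φ x := by
    rw [Xp, smul_mulVec, dotProduct_smul, smul_eq_mul, covMat_quad, var_eq_cov]
  rw [e, X_mulVec, smul_dotProduct, dotProduct_smul, smul_eq_mul, smul_eq_mul]
  nlinarith [mul_le_mul_of_nonneg_left h hp.le]

theorem Y_sq_le (hw : Wt w) (hp : 0 < p.1) (u : ι → ℝ) :
    (Yp φ w ε p *ᵥ u) ⬝ᵥ (Yp φ w ε p *ᵥ u) ≤ (1 + ε p.1) * (u ⬝ᵥ Yp φ w ε p *ᵥ u) := by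
  rcases ig_cases (φ := φ) (w := w) (ε := ε) p with h | h
  · rw [Yp, h.2, one_smul]
    exact (X_sq_le hw hp u).trans
      (mul_le_mul_of_nonneg_right h.1 (quad_X_nonneg hw hp.le u))
  · rw [Yp, h.2, zero_smul]; simp

/-! ### regularity -/

theorem cont_cov (hw : Wt w) (f g : Ω → ℝ) : Continuous fun p : Pt ι => cov (pw φ w p) f g := by
  have := (eg_cov (φ := φ) (I := univ) hw f g).cont
  rwa [univ_prod_univ, continuousOn_univ] at this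

theorem cont_X (hw : Wt w) : Continuous (Xp φ w) :=
  continuous_matrix fun _ _ => continuous_fst.mul (cont_cov hw _ _)

theorem cont_nx (hw : Wt w) : Continuous (nx φ w) := continuous_opn.comp (cont_X hw)

theorem eg_id (a b : ℝ) : EG (Icc a b) fun p : Pt ι => p.1 :=
  EG.time (f := fun t => t) continuousOn_id (|a| + |b|) fun t ht => by
    rw [abs_le]; constructor
    · linarith [neg_abs_le a, abs_nonneg b, ht.1]
    · linarith [le_abs_self b, abs_nonneg a, ht.2]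

theorem eg_X (hw : Wt w) (i j : ι) : EG (Icc a b) fun p => Xp φ w p i j :=
  (eg_id a b).mul (eg_cov hw _ _)

theorem eg_vv (hw : Wt w) (f : Ω → ℝ) (i : ι) : EG I fun p => vv φ w f p i := eg_cov hw _ _

theorem eg_nx (hw : Wt w) : EG (Icc a b) (nx φ w) := by
  refine EG.of_le (G := fun p => 1 + ∑ i, ∑ j, Xp φ w p i j ^ 2)
    ((EG.const 1).add (EG.sum _ fun i _ => EG.sum _ fun j _ => (eg_X hw i j).pow 2))
    (cont_nx hw).continuousOn fun p _ => ?_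
  have h1 := opn_sq_le_frob (Xp φ w p)
  have h2 := nx_nonneg (φ := φ) (w := w) p
  rw [abs_of_nonneg h2]
  refine le_trans ?_ (le_abs_self _)
  unfold nx at h2 ⊢
  nlinarith [sq_nonneg (opn (Xp φ w p) - 1)]

theorem mg_nx (hw : Wt w) (t : ℝ) : MG fun y => nx φ w (t, y) :=
  (eg_nx (a := t) (b := t) hw).mg ⟨le_rfl, le_rfl⟩

theorem mg_X (hw : Wt w) (t : ℝ) (i j : ι) : MG fun y => Xp φ w (t, y) i j :=
  (eg_X (a := t) (b := t) hw i j).mg ⟨le_rfl, le_rfl⟩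

theorem mg_vv (hw : Wt w) (f : Ω → ℝ) (t : ℝ) (i : ι) : MG fun y => vv φ w f (t, y) i :=
  (eg_vv (I := univ) hw f i).mg trivial

theorem mg_ig (hw : Wt w) (ε : ℝ → ℝ) (t : ℝ) : MG fun y => ig φ w ε (t, y) := by
  refine MG.of_bdd ?_ 1 fun y => ?_
  · exact Measurable.ite (measurableSet_le (mg_nx hw t).meas
      (measurable_const (a := 1 + ε t))) measurable_const
      measurable_const
  · rw [abs_of_nonneg (ig_nonneg _)]; exact ig_le_one _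

theorem MG.pow' {F : (ι → ℝ) → ℝ} (h : MG F) (m : ℕ) : MG fun y => F y ^ m := by
  induction m with
  | zero => simpa using MG.const (ι := ι) 1
  | succ m ih => simpa [pow_succ] using ih.mul h

theorem mg_pb (hw : Wt w) (ε : ℝ → ℝ) (m : ℕ) (t : ℝ) :
    MG fun y => (1 - ig φ w ε (t, y)) * (1 + nx φ w (t, y)) ^ m :=
  ((MG.const 1).sub (mg_ig hw ε t)).mul (MG.pow' ((MG.const 1).add (mg_nx hw t)) m)

theorem pb_nonneg (hw : Wt w) (m : ℕ) (r : ℝ) : 0 ≤ pb φ w ε m r :=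
  ex_nonneg hw fun y => mul_nonneg (sub_nonneg.2 (ig_le_one _))
    (pow_nonneg (by linarith [nx_nonneg (φ := φ) (w := w) (r, y)]) _)

theorem pb_mono (hw : Wt w) {m m' : ℕ} (h : m ≤ m') (r : ℝ) : pb φ w ε m r ≤ pb φ w ε m' r :=
  ex_mono hw (mg_pb hw ε m r) (mg_pb hw ε m' r) fun y =>
    mul_le_mul_of_nonneg_left (pow_le_pow_right₀ (by linarith [nx_nonneg (φ := φ) (w := w) (r, y)]) h)
      (sub_nonneg.2 (ig_le_one _))

variable {W : BM ι} {Q : Measure W.Ω}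

theorem pr_ig (hw : Wt w) (ha : 0 ≤ a) (hε : ContinuousOn ε (Icc a b)) :
    W.Pr a b fun t ω => ig φ w ε (t, W.B t ω) := by
  have h1 : W.Ad a b fun t ω => nx φ w (t, W.B t ω) - ε t :=
    (W.ad_eg ha (eg_nx hw)).sub (BM.Ad.time hε)
  have h2 := h1.pr.comp (φ := fun x => if x ≤ 1 then (1 : ℝ) else 0)
    (Measurable.ite measurableSet_Iic measurable_const measurable_const)
    (BM.Gr.of_bdd 1 fun t _ ω => by split_ifs <;> simp)
  refine h2.congr fun t _ ω => ?_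
  simp only [ig, sub_le_iff_le_add]

theorem pr_X (hw : Wt w) (ha : 0 ≤ a) (i j : ι) : W.Pr a b fun t ω => Xp φ w (t, W.B t ω) i j :=
  (W.ad_eg ha (eg_X hw i j)).pr

theorem pr_Y (hw : Wt w) (ha : 0 ≤ a) (hε : ContinuousOn ε (Icc a b)) (i j : ι) :
    W.Pr a b fun t ω => Yp φ w ε (t, W.B t ω) i j :=
  (pr_ig hw ha hε).mul (pr_X hw ha i j)

theorem pr_vv (hw : Wt w) (ha : 0 ≤ a) (f : Ω → ℝ) (i : ι) :
    W.Pr a b fun t ω => vv φ w f (t, W.B t ω) i := (W.ad_eg ha (eg_vv hw f i)).pr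

theorem ad_inv (ha : 0 < a) : W.Ad a b fun t _ => t⁻¹ :=
  BM.Ad.time (continuousOn_id.inv₀ fun _ ht => (ha.trans_le ht.1).ne')

/-- generator of the transport -/
def Mt (W : BM ι) (φ : Ω → ι → ℝ) (w : Ω → ℝ) (ε : ℝ → ℝ) (t : ℝ) (ω : W.Ω) (j k : ι) : ℝ :=
  t⁻¹ * (Yp φ w ε (t, W.B t ω) - 1 : Matrix ι ι ℝ) j k

/-- the transported vector, started from `H` at time `s` -/
def Tw (W : BM ι) (φ : Ω → ι → ℝ) (w : Ω → ℝ) (ε : ℝ → ℝ) (s : ℝ) (H : W.Ω → ι → ℝ) (t : ℝ)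
    (ω : W.Ω) : ι → ℝ := BM.ode s (Mt W φ w ε) H t ω

variable {H : W.Ω → ι → ℝ}

theorem Tw_start (ω : W.Ω) : Tw W φ w ε s H s ω = H ω := BM.ode_start ω

theorem pr_Mt (hw : Wt w) (ha : 0 < a) (hε : ContinuousOn ε (Icc a b)) (j k : ι) :
    W.Pr a b fun t ω => Mt W φ w ε t ω j k :=
  (ad_inv ha).pr.mul ((pr_Y hw ha.le hε j k).sub (BM.Pr.const ((1 : Matrix ι ι ℝ) j k)))

theorem fv_Tw (hw : Wt w) (ha : 0 < a) (hε : ContinuousOn ε (Icc a b))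
    (ε0 : ∀ t ∈ Icc a b, 0 ≤ ε t) (hH : ∀ j, W.Tm a fun ω => H ω j) (j : ι) :
    W.FV a b (fun t ω => Tw W φ w ε a H t ω j)
      fun t ω => t⁻¹ * ((Yp φ w ε (t, W.B t ω) - 1) *ᵥ Tw W φ w ε a H t ω) j := by
  obtain ⟨C, hC⟩ := isCompact_Icc.exists_bound_of_continuousOn hε
  have h := BM.ode_fv (pr_Mt (φ := φ) hw ha hε) hH
    (C := Fintype.card ι * (a⁻¹ * (2 + C))) (fun t ht ω j => ?_) j
  · refine h.congr (fun _ _ _ => rfl) fun t _ ω => ?_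
    simp only [Mt, Tw, mulVec, dotProduct, Finset.mul_sum, mul_assoc]
  · have ht0 : 0 < t := ha.trans_le ht.1
    calc ∑ k, |Mt W φ w ε t ω j k| ≤ ∑ _k : ι, a⁻¹ * (2 + C) := by
          refine Finset.sum_le_sum fun k _ => ?_
          rw [Mt, abs_mul, abs_of_pos (inv_pos.2 ht0)]
          refine mul_le_mul (inv_anti₀ ha ht.1) ?_ (abs_nonneg _) (inv_pos.2 ha).le
          refine (abs_entry_le _ j k).trans ((opn_sub_le _ _).trans ?_)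
          have h1 := opn_Y_le (φ := φ) (w := w) (ε := ε) (p := (t, W.B t ω)) (ε0 t ht)
          have h2 := opn_one_le (ι := ι)
          have h3 := (le_abs_self _).trans (hC t ht)
          simp only at h1
          linarith
      _ = _ := by simp

section dot
variable {κ : Type*} [Fintype κ] {V V' v A : ℝ → W.Ω → κ → ℝ}

theorem sm_dot (hQ : W.Nice Q) (hV : ∀ j, W.FV a b (fun t ω => V t ω j) fun t ω => V' t ω j)
    (hv : ∀ j, W.SM Q a b (fun t ω => v t ω j) fun t ω => A t ω j) :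
    W.SM Q a b (fun t ω => V t ω ⬝ᵥ v t ω) fun t ω => V' t ω ⬝ᵥ v t ω + V t ω ⬝ᵥ A t ω := by
  refine (BM.SM.sum hQ Finset.univ fun j _ => (hv j).mul_fv hQ (hV j)).congr
    (fun _ _ _ => rfl) fun t _ ω => ?_
  simp only [dotProduct, Finset.sum_add_distrib]

theorem fv_dot (hV : ∀ j, W.FV a b (fun t ω => V t ω j) fun t ω => V' t ω j)
    (hv : ∀ j, W.FV a b (fun t ω => v t ω j) fun t ω => A t ω j) :
    W.FV a b (fun t ω => V t ω ⬝ᵥ v t ω) fun t ω => V' t ω ⬝ᵥ v t ω + V t ω ⬝ᵥ A t ω := by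
  refine (BM.FV.sum Finset.univ fun j _ => (hV j).mul (hv j)).congr
    (fun _ _ _ => rfl) fun t _ ω => ?_
  simp only [dotProduct, Finset.sum_add_distrib]

end dot

/-- energy identity -/
theorem fv_sq (hw : Wt w) (ha : 0 < a) (hε : ContinuousOn ε (Icc a b))
    (ε0 : ∀ t ∈ Icc a b, 0 ≤ ε t) (hH : ∀ j, W.Tm a fun ω => H ω j) :
    W.FV a b (fun t ω => Tw W φ w ε a H t ω ⬝ᵥ Tw W φ w ε a H t ω) fun t ω =>
      2 * t⁻¹ * (Tw W φ w ε a H t ω ⬝ᵥ Yp φ w ε (t, W.B t ω) *ᵥ Tw W φ w ε a H t ω -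
        Tw W φ w ε a H t ω ⬝ᵥ Tw W φ w ε a H t ω) := by
  refine (fv_dot (V' := fun t ω => t⁻¹ • ((Yp φ w ε (t, W.B t ω) - 1) *ᵥ Tw W φ w ε a H t ω))
    (A := fun t ω => t⁻¹ • ((Yp φ w ε (t, W.B t ω) - 1) *ᵥ Tw W φ w ε a H t ω))
    (fv_Tw hw ha hε ε0 hH) (fv_Tw hw ha hε ε0 hH)).congr (fun _ _ _ => rfl) fun t _ ω => ?_
  rw [dotProduct_comm (_ • _), dotProduct_smul, sub_mulVec, one_mulVec, dotProduct_sub, smul_eq_mul]
  ring

/-- pathwise growth -/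
theorem Tw_sq_le (hw : Wt w) (ha : 0 < a) (hε : ContinuousOn ε (Icc a b))
    (ε0 : ∀ t ∈ Icc a b, 0 ≤ ε t) (hH : ∀ j, W.Tm a fun ω => H ω j) (hr : a ≤ r) (hrt : r ≤ t)
    (ht : t ≤ b) (ω : W.Ω) : Tw W φ w ε a H t ω ⬝ᵥ Tw W φ w ε a H t ω ≤
      exp (2 * ∫ u in r..t, ε u / u) * (Tw W φ w ε a H r ω ⬝ᵥ Tw W φ w ε a H r ω) := by
  have hsub : Icc r t ⊆ Icc a b := Icc_subset_Icc hr ht
  have hc : ContinuousOn (fun u => ε u / u) (Icc r t) :=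
    (hε.mono hsub).div continuousOn_id fun u hu => (ha.trans_le (hr.trans hu.1)).ne'
  obtain ⟨p1, p2⟩ := prim hrt hc
  have h1 := (fv_sq (φ := φ) hw ha hε ε0 hH).mono hr ht
  have h2 : W.FV r t (fun u _ => exp (-(2 * ∫ q in r..u, ε q / q)))
      fun u _ => exp (-(2 * ∫ q in r..u, ε q / q)) * -(2 * (ε u / u)) :=
    BM.FV.time (f := fun u => exp (-(2 * ∫ q in r..u, ε q / q)))
      (f' := fun u => exp (-(2 * ∫ q in r..u, ε q / q)) * -(2 * (ε u / u)))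
      (continuousOn_const.mul p1).neg.rexp
      ((continuousOn_const.mul p1).neg.rexp.mul (continuousOn_const.mul hc).neg)
      fun u hu => ((p2 u hu).const_mul 2).neg.exp
  have h3 := (h2.mul h1).sub_eq ⟨le_rfl, hrt⟩ ⟨hrt, le_rfl⟩ ω
  have h4 : ∫ u in r..t, (exp (-(2 * ∫ q in r..u, ε q / q)) * -(2 * (ε u / u)) *
      (Tw W φ w ε a H u ω ⬝ᵥ Tw W φ w ε a H u ω) + exp (-(2 * ∫ q in r..u, ε q / q)) *
      (2 * u⁻¹ * (Tw W φ w ε a H u ω ⬝ᵥ Yp φ w ε (u, W.B u ω) *ᵥ Tw W φ w ε a H u ω -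
        Tw W φ w ε a H u ω ⬝ᵥ Tw W φ w ε a H u ω))) ≤ 0 := by
    rw [← neg_nonneg, ← intervalIntegral.integral_neg]
    refine intervalIntegral.integral_nonneg hrt fun u hu => ?_
    have hu0 : 0 < u := ha.trans_le (hr.trans hu.1)
    have h5 := quad_Y_le (φ := φ) (w := w) (ε := ε) (p := (u, W.B u ω)) (ε0 u (hsub hu))
      (Tw W φ w ε a H u ω)
    simp only at h5
    have h6 := exp_pos (-(2 * ∫ q in r..u, ε q / q))
    have h7 : 0 < u⁻¹ := inv_pos.2 hu0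
    rw [div_eq_mul_inv]
    nlinarith [mul_le_mul_of_nonneg_left h5 (mul_pos h6 h7).le]
  simp only [intervalIntegral.integral_same, mul_zero, neg_zero, exp_zero, one_mul] at h3
  have h8 : exp (-(2 * ∫ q in r..t, ε q / q)) * (Tw W φ w ε a H t ω ⬝ᵥ Tw W φ w ε a H t ω) ≤
      Tw W φ w ε a H r ω ⬝ᵥ Tw W φ w ε a H r ω := by linarith
  have h9 := mul_le_mul_of_nonneg_left h8 (exp_pos (2 * ∫ q in r..t, ε q / q)).le
  rwa [← mul_assoc, ← exp_add, add_neg_cancel, exp_zero, one_mul] at h9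

/-- `r v_r (f)` is a semimartingale with drift `v - X v` -/
theorem sm_vv (hw : Wt w) (ha : 0 ≤ a) (hab : a ≤ b) (hb : b ≤ T) (f : Ω → ℝ) (j : ι) :
    W.SM (W.Qsl φ w T) a b (fun t ω => (t • vv φ w f (t, W.B t ω)) j)
      fun t ω => (vv φ w f (t, W.B t ω) - Xp φ w (t, W.B t ω) *ᵥ vv φ w f (t, W.B t ω)) j := by
  have hQ := BM.nice_sl (W := W) (φ := φ) hw (ha.trans (hab.trans hb))
  have h1 := BM.sm_sl (W := W) hw ha hab hb (ito_cov (φ := φ) (I := Icc a b) hw f fun x => φ x j)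
  have h2 : W.FV a b (fun t _ => t) fun _ _ => 1 :=
    BM.FV.time (f := fun t => t) (f' := fun _ => 1) continuousOn_id continuousOn_const
      fun t _ => hasDerivAt_id t
  refine (h1.mul_fv hQ h2).congr (fun _ _ _ => rfl) fun t _ ω => ?_
  simp only [Pi.sub_apply, Xp, smul_mulVec, Pi.smul_apply, smul_eq_mul, vv, one_mul]
  have : (covMat (pw φ w (t, W.B t ω)) φ *ᵥ covV (pw φ w (t, W.B t ω)) f φ) j =
      covV (pw φ w (t, W.B t ω)) f φ ⬝ᵥ covV (pw φ w (t, W.B t ω)) (fun x => φ x j) φ := by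
    rw [dotProduct_comm]; rfl
  rw [this]
  simp only [covV]
  ring

/-- conservation law -/
theorem sm_cons (hw : Wt w) (ha : 0 < a) (hab : a ≤ b) (hb : b ≤ T) (hε : ContinuousOn ε (Icc a b))
    (ε0 : ∀ t ∈ Icc a b, 0 ≤ ε t) (hH : ∀ j, W.Tm a fun ω => H ω j) (f : Ω → ℝ) :
    W.SM (W.Qsl φ w T) a b (fun t ω => Tw W φ w ε a H t ω ⬝ᵥ t • vv φ w f (t, W.B t ω))
      fun t ω => -((1 - ig φ w ε (t, W.B t ω)) *
        (Tw W φ w ε a H t ω ⬝ᵥ Xp φ w (t, W.B t ω) *ᵥ vv φ w f (t, W.B t ω))) := by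
  have hQ := BM.nice_sl (W := W) (φ := φ) hw (ha.le.trans (hab.trans hb))
  refine (sm_dot hQ (V' := fun t ω => t⁻¹ • ((Yp φ w ε (t, W.B t ω) - 1) *ᵥ Tw W φ w ε a H t ω))
    (fv_Tw hw ha hε ε0 hH) (sm_vv hw ha.le hab hb f)).congr (fun _ _ _ => rfl) fun t ht ω => ?_
  have ht0 : t ≠ 0 := (ha.trans_le ht.1).ne'
  rw [smul_dotProduct, dotProduct_smul, smul_smul, inv_mul_cancel₀ ht0, one_smul, sub_mulVec,
    one_mulVec, sub_dotProduct, dot_symm (Yp_transpose _), dotProduct_sub, Yp, smul_mulVec,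
    dotProduct_smul, smul_eq_mul]
  ring

end Crest.Agent.T157.Tr

end
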