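import Crest.Agent.T157.TrG_64
import Crest.Agent.T157.SgD_90

/-!
# Row 157, part C1 (helper64): (I1) in the words of `Sg`
-/

set_option autoImplicit false

noncomputable section

namespace Crest.Agent.T157.Tr

open MeasureTheory Filter Topology Real
open Crest.ProbabilityR.SpinGlassDynamics
open Crest.Agent.T157.SL Crest.Agent.T157.E
open Crest.Agent.T157.Soft (N23 N23_pos)

theorem DV_st {n : ℕ} (g : Pair n → ℝ) {s : ℝ} (hs : 0 ≤ s) {κ : Type} [Fintype κ]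
    (f : κ → Cube n → ℝ) :
    Sg.DV (Sg.stRC sv (gibbsWeight_pos 1 g) hs) f = Ph sv (gibbsWeight n 1 g) f s :=
  Sg.DV_stRC _ hs f

theorem DV_ch {n : ℕ} (hn : 0 < n) (g : Pair n → ℝ) {κ : Type} [Fintype κ] (f : κ → Cube n → ℝ) :
    N23 n * n * Sg.DV (Soft.ch hn g) f = N23 n * ∑ a, dir (gibbsWeight n 1 g) (f a) := by
  simp only [Sg.DV, ← dirichletForm_eq, Soft.dir_eq hn, ← Finset.mul_sum, mul_assoc]

theorem I1Stmt.sg {k : ℝ} (h : I1Stmt k) {e ε : ℝ} (he : 0 < e) (hε : 0 < ε) :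
    ∃ K₀ : ℝ, 0 < K₀ ∧ ∀ K, K₀ ≤ K → Off disorderLaw ε fun n g =>
      ∀ (hn : 0 < n) (hs : 0 ≤ K / N23 n) (κ : Type) [Fintype κ],
        Sg.I1 κ (Soft.ch hn g) (Sg.stRC sv (gibbsWeight_pos 1 g) hs) (N23 n * n) (k * K) e := by
  obtain ⟨K₀, h0, h⟩ := h e ε he hε
  refine ⟨K₀, h0, fun K hK => (h K hK).imp fun n g hg hn hs κ _ f B hB => ?_⟩
  rw [DV_st, DV_ch]
  exact hg κ f B hB

theorem i1Stmt_zero : I1Stmt 0 := fun e ε he hε => ⟨1, one_pos, fun K _ =>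
  (off_of_whp Top.whp_true hε).imp fun n g _ κ _ f B hB => by
    obtain ⟨b, -, rfl⟩ := exists_sq hB
    have : 0 ≤ ∑ a, dir (gibbsWeight n 1 g) (f a) :=
      Finset.sum_nonneg fun _ _ => Ent.dir_nonneg (gibbsWeight_pos 1 g) _
    rw [zero_mul, zero_mul]
    positivity⟩

end Crest.Agent.T157.Tr

end
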