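import Crest.Agent.T157.TreeB_58
import Crest.Agent.T157.CascC_65
import Crest.Agent.T157.CascP_52
import Crest.Agent.T157.PfDef_56
import Crest.Agent.T157.Cut1_54

/-!
# Row 157, part D (helper58): Guerra's identity with remainder for a weighted SK partition function
-/

set_option autoImplicit false
set_option linter.unusedSectionVars false

noncomputable section

namespace Crest.Agent.T157.Tree

open MeasureTheory Real Set Finset Matrix
open Crest.ProbabilityR.SpinGlassDynamics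
open Crest.Agent.T157.E Crest.Agent.T157.SL Crest.Agent.T157.Casc Crest.Agent.T157.Exp
open Crest.Agent.T157.Casc.C (prodLv pe X_prod X_of_zero step_of_zero X_split)
open Crest.Agent.R339.B Crest.Agent.R339.Var

variable {n : ℕ} {w : Cube n → ℝ}

/-- the coefficients of the couplings -/
def cf (x : Cube n) (p : Pair n) : ℝ := spin (x p.1.1) * spin (x p.1.2) / √n

/-- the coupling level (plain expectation), amplitude `a` -/
abbrev jl (n : ℕ) (a : ℝ) : Lv (Cube n) := ⟨Pair n, fun x p => a * cf x p, 0⟩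

/-- a site level -/
abbrev sl (m a : ℝ) : Lv Bool := ⟨Unit, fun b _ => a * spin b, m⟩

/-- a field level: exponent `m`, amplitude `a` -/
abbrev fl (n : ℕ) (m a : ℝ) : Lv (Cube n) := ⟨Fin n × Unit, fun x p => a * spin (x p.1), m⟩

/-- `K` field levels -/
def fls (n K : ℕ) (z : ℕ → ℝ) (a : ℝ) : List (Lv (Cube n)) :=
  List.ofFn fun k : Fin K => fl n (z k) a

/-- jumps of the exponents -/
def dz (z : ℕ → ℝ) (j : ℕ) : ℝ := z j - Nat.casesOn j 0 z

/-- `2 ∫ r ζ(r) dr` -/
def pc (K : ℕ) (z : ℕ → ℝ) : ℝ := 1 - ∑ j ∈ range (K + 1), dz z j * ((j : ℝ) / K) ^ 2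

/-- Guerra's remainder -/
def rem (w : Cube n → ℝ) (L : List (Lv (Cube n))) (K : ℕ) (z : ℕ → ℝ) (h : Cube n → ℝ) : ℝ :=
  ∑ j ∈ range (K + 1), dz z j * pi2 w L (j + 1) (fun x y => (ovl x y - (j : ℝ) / K) ^ 2) h

theorem jl_fld (a : ℝ) (g : Pair n → ℝ) (x : Cube n) : (jl n a).fld g x = a * en1 g x := by
  simp only [Lv.fld, en1, cf, Finset.mul_sum]
  exact Finset.sum_congr rfl fun p _ => by ring

theorem n_ovl (hn : 0 < n) (x y : Cube n) : ∑ i, spin (x i) * spin (y i) = n * ovl x y := by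
  have : (n : ℝ) ≠ 0 := by positivity
  simp only [ovl, dotProduct, sv]
  field_simp

theorem ovl_self (hn : 0 < n) (x : Cube n) : ovl x x = 1 := by
  have : (n : ℝ) ≠ 0 := by positivity
  rw [ovl, sv_dot_self, div_self this]

theorem sum_cf (hn : 0 < n) (x y : Cube n) :
    ∑ p, cf x p * cf y p = n * ovl x y ^ 2 / 2 - 1 / 2 := by
  have hn' : (0 : ℝ) < n := by positivity
  set a : Fin n → ℝ := fun i => spin (x i) * spin (y i)
  have ha : ∀ i, a i * a i = 1 := fun i => by
    simp only [a]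
    rw [mul_mul_mul_comm, spin_mul_self, spin_mul_self, one_mul]
  have h1 := sum_sum_eq_two_mul_pair (fun i j => a i * a j - if i = j then 1 else 0)
    (fun i j => by rw [mul_comm]; simp only [eq_comm]) fun i => by simp [ha]
  have h2 : ∑ p : Pair n, (a p.1.1 * a p.1.2 - if p.1.1 = p.1.2 then 1 else 0) =
      n * ∑ p, cf x p * cf y p := by
    rw [Finset.mul_sum]
    refine Finset.sum_congr rfl fun p _ => ?_
    rw [if_neg p.2.ne, cf, cf, div_mul_div_comm, mul_self_sqrt hn'.le]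
    simp only [a]
    field_simp
    ring
  rw [h2] at h1
  simp only [Finset.sum_sub_distrib, ← Finset.sum_mul_sum, Finset.sum_ite_eq, Finset.mem_univ,
    if_true, Finset.sum_const, Finset.card_univ, Fintype.card_fin, nsmul_eq_mul, mul_one] at h1
  have h3 : ∑ i, a i = n * ovl x y := n_ovl hn x y
  rw [h3] at h1
  have : (n : ℝ) * (2 * ∑ p, cf x p * cf y p - (n * ovl x y ^ 2 - 1)) = 0 := by linarith
  have := (mul_eq_zero.1 this).resolve_left hn'.ne'
  linarith

theorem jl_cov (hn : 0 < n) (a : ℝ) (x y : Cube n) :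
    (jl n a).cov x y = a ^ 2 * (n * ovl x y ^ 2 / 2 - 1 / 2) := by
  rw [← sum_cf hn, Finset.mul_sum]
  exact Finset.sum_congr rfl fun p _ => by ring

theorem vm_jl (hn : 0 < n) (a : ℝ) : vm (jl n a) ≤ a ^ 2 * n / 2 :=
  vm_le _ (by positivity) fun x => by
    rw [jl_cov hn, ovl_self hn]
    nlinarith [sq_nonneg a]

theorem vm_fl (m a : ℝ) : vm (fl n m a) ≤ a ^ 2 * n :=
  vm_le _ (by positivity) fun x => le_of_eq (by
    have : ∀ p : Fin n × Unit, a * spin (x p.1) * (a * spin (x p.1)) = a ^ 2 := fun p => by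
      rw [mul_mul_mul_comm, spin_mul_self]; ring
    simp [Lv.cov, this, mul_comm])

theorem vs_fls (K : ℕ) (z : ℕ → ℝ) (a : ℝ) : vs (fls n K z a) ≤ K * (a ^ 2 * n) := by
  rw [vs, fls, List.map_ofFn, List.sum_ofFn]
  refine (Finset.sum_le_card_nsmul _ _ (a ^ 2 * n) fun k _ => vm_fl _ a).trans (le_of_eq ?_)
  simp

theorem sum_dz (z f : ℕ → ℝ) (N : ℕ) : ∑ j ∈ range (N + 1), dz z j * f j =
    z N * f N - ∑ j ∈ range N, z j * (f (j + 1) - f j) := by
  induction N with
  | zero => simp [dz]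
  | succ N ih =>
    rw [sum_range_succ, ih, sum_range_succ]
    simp only [dz]
    ring

theorem sum_dz_one (z : ℕ → ℝ) (N : ℕ) : ∑ j ∈ range (N + 1), dz z j = z N := by
  simpa using sum_dz z (fun _ => 1) N

theorem dz_nonneg {z : ℕ → ℝ} (hz : Monotone z) (h0 : 0 ≤ z 0) : ∀ j, 0 ≤ dz z j
  | 0 => by simpa [dz] using h0
  | j + 1 => sub_nonneg.2 (hz (Nat.le_succ j))

theorem rem_nonneg (hw : Wt w) (L : List (Lv (Cube n))) (K : ℕ) {z : ℕ → ℝ} (hz : Monotone z)
    (h0 : 0 ≤ z 0) (h : Cube n → ℝ) : 0 ≤ rem w L K z h :=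
  Finset.sum_nonneg fun j _ => mul_nonneg (dz_nonneg hz h0 j)
    (pi2_nonneg hw _ _ (fun _ _ => sq_nonneg _) _)

theorem pi2_le_rem (hw : Wt w) (L : List (Lv (Cube n))) (K : ℕ) {z : ℕ → ℝ} (hz : Monotone z)
    (h0 : 0 ≤ z 0) (h : Cube n → ℝ) {j : ℕ} (hj : j ≤ K) :
    dz z j * pi2 w L (j + 1) (fun x y => (ovl x y - (j : ℝ) / K) ^ 2) h ≤ rem w L K z h :=
  Finset.single_le_sum (f := fun j : ℕ =>
    dz z j * pi2 w L (j + 1) (fun x y => (ovl x y - (j : ℝ) / K) ^ 2) h)
    (fun j _ => mul_nonneg (dz_nonneg hz h0 j) (pi2_nonneg hw _ _ (fun _ _ => sq_nonneg _) _))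
    (mem_range.2 (Nat.lt_succ_of_le hj))

theorem ex_fls (K : ℕ) {z : ℕ → ℝ} (hK : z K = 1) (a : ℝ) {j : ℕ} (hj : j ≤ K) :
    ex (fls n K z a) j = z j := by
  rcases hj.eq_or_lt with rfl | h
  · simp [ex, fls, hK]
  · simp [ex, fls, h]

theorem Sacc_const {Ω : Type*} {t s : ℝ} {x y : Ω} : ∀ (L : List (TL Ω)) (j : ℕ),
    (∀ l ∈ L, l.S t x y = s) → j ≤ L.length → Sacc L t j x y = j * s
  | L, 0, _, _ => by simp [Sacc]
  | [], j + 1, _, h => by simp at h
  | l :: L, j + 1, h, hj => by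
    rw [Sacc_cons]
    simp only []
    rw [h l (by simp), Sacc_const L j (fun k hk => h k (by simp [hk])) (by simpa using hj)]
    push_cast
    ring

/-- the coupling level along the interpolation -/
def jT (n : ℕ) (β : ℝ) : TL (Cube n) :=
  ⟨Pair n, fun t x p => β * √t * cf x p, fun t x p => β * (1 / (2 * √t)) * cf x p, 0⟩

/-- a field level along the interpolation -/
def fT (n K : ℕ) (β v m : ℝ) : TL (Cube n) :=
  ⟨Fin n × Unit, fun t x p => √(β ^ 2 * (v - t) / K) * spin (x p.1),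
    fun t x p => -(β ^ 2 / K) / (2 * √(β ^ 2 * (v - t) / K)) * spin (x p.1), m⟩

/-- **Guerra's identity with remainder**, any weight, any base energy -/
theorem guerra_id (hw : Wt w) (hn : 0 < n) {K : ℕ} (hK : 0 < K) {β : ℝ} (hβ : 0 < β) {z : ℕ → ℝ}
    (hzK : z K = 1) {a v : ℝ} (ha : 0 < a) (hav : a ≤ v) (h : Cube n → ℝ) :
    ∃ t ∈ Set.Ioo 0 a, X w (jl n (β * √a) :: fls n K z √(β ^ 2 * (v - a) / K)) h -
      X w (fls n K z √(β ^ 2 * v / K)) h = -(a * (β ^ 2 * n / 4)) * (pc K z +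
        rem w (jl n (β * √t) :: fls n K z √(β ^ 2 * (v - t) / K)) K z h) := by
  have hK' : (0 : ℝ) < K := by positivity
  set F : List (TL (Cube n)) := List.ofFn fun k : Fin K => fT n K β v (z k) with hF
  have eL : ∀ t, atL (jT n β :: F) t = jl n (β * √t) :: fls n K z √(β ^ 2 * (v - t) / K) :=
    fun t => by
      rw [hF, atL, List.map_cons, List.map_ofFn]
      rfl
  have hmem : ∀ l ∈ jT n β :: F, l = jT n β ∨ ∃ m, l = fT n K β v m := fun l hl => by
    rcases List.mem_cons.1 hl with h | h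
    · exact Or.inl h
    · obtain ⟨k, rfl⟩ := List.mem_ofFn.1 h
      exact Or.inr ⟨_, rfl⟩
  have hpos : ∀ t ∈ Set.Ioo 0 a, 0 < β ^ 2 * (v - t) / K := fun t ht => by
    have : 0 < v - t := by linarith [ht.2]
    positivity
  obtain ⟨t, ht, e⟩ := exists_X_sub hw (L := jT n β :: F) ha (b := fun _ => h)
    (b' := fun _ _ => 0)
    (fun l hl x i => by
      rcases hmem l hl with rfl | ⟨m, rfl⟩
      · simp only [jT]; fun_prop
      · simp only [fT]; fun_prop)
    (fun l hl => by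
      rcases hmem l hl with rfl | ⟨m, rfl⟩
      · refine ⟨fun t ht x p => ((Real.hasDerivAt_sqrt ht.1.ne').const_mul β).mul_const _,
          fun x p => ?_⟩
        exact (continuousOn_const.mul (continuousOn_const.div (by fun_prop) fun t ht =>
          (mul_pos two_pos (sqrt_pos.2 ht.1)).ne')).mul continuousOn_const
      · refine ⟨fun t ht x p => (HasDerivAt.sqrt (f := fun t => β ^ 2 * (v - t) / K)
          (f' := -(β ^ 2 / K)) ?_ (hpos t ht).ne').mul_const _, fun x p => ?_⟩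
        · refine ((((hasDerivAt_id t).const_sub v).const_mul (β ^ 2)).div_const
            (K : ℝ)).congr_deriv ?_
          ring
        · exact (continuousOn_const.div (by fun_prop) fun t ht =>
            (mul_pos two_pos (sqrt_pos.2 (hpos t ht))).ne').mul continuousOn_const)
    (fun _ => continuousOn_const) fun _ _ _ => hasDerivAt_const _ _
  refine ⟨t, ht, ?_⟩
  have e0 : X w (jl n (β * √0) :: fls n K z √(β ^ 2 * (v - 0) / K)) h =
      X w (fls n K z √(β ^ 2 * v / K)) h := by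
    rw [sub_zero]
    exact congrFun (step_of_zero (l := jl n (β * √0)) (fun x i => by simp) _) h
  rw [eL, eL, e0, sub_zero] at e
  rw [e, DX, eL]
  set L := jl n (β * √t) :: fls n K z √(β ^ 2 * (v - t) / K) with hL
  have hlen : F.length = K := by simp [hF]
  have hS : ∀ j ≤ K, Sacc (jT n β :: F) t (j + 1) = fun x y =>
      β ^ 2 * n / 4 * (ovl x y - (j : ℝ) / K) ^ 2 +
        (-(β ^ 2 * n / 4 * ((j : ℝ) / K) ^ 2) - β ^ 2 / 4) := fun j hj => by
    funext x y
    have s1 : (jT n β).S t x y = β ^ 2 / 2 * (n * ovl x y ^ 2 / 2 - 1 / 2) := by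
      rw [← sum_cf hn, Finset.mul_sum]
      refine Finset.sum_congr rfl fun p _ => ?_
      have := (sqrt_pos.2 ht.1).ne'
      simp only [jT]
      field_simp
    have s2 : ∀ l ∈ F, l.S t x y = -(β ^ 2 / K) / 2 * (n * ovl x y) := fun l hl => by
      obtain ⟨k, rfl⟩ := List.mem_ofFn.1 hl
      rw [← n_ovl hn, Finset.mul_sum]
      show ∑ i : Fin n × Unit, -(β ^ 2 / K) / (2 * √(β ^ 2 * (v - t) / K)) * spin (x i.1) *
        (√(β ^ 2 * (v - t) / K) * spin (y i.1)) = _
      rw [Fintype.sum_prod_type]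
      refine Finset.sum_congr rfl fun i _ => ?_
      rw [Fintype.sum_unique]
      have := (sqrt_pos.2 (hpos t ht)).ne'
      field_simp
    rw [Sacc_cons]
    simp only []
    rw [s1, Sacc_const F j s2 (hlen ▸ hj)]
    field_simp
    ring
  have hd : ∀ j ≤ K, dm L 0 (j + 1) = dz z j := fun j hj => by
    cases j with
    | zero =>
      simp only [dm, exP, dz, hL, ex_cons_succ, ex_fls K hzK _ hj]
      rfl
    | succ j =>
      simp only [dm, exP, dz, hL, ex_cons_succ, ex_fls K hzK _ hj,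
        ex_fls K hzK _ (Nat.le_of_succ_le hj)]
  have hLlen : L.length = K + 1 := by simp [hL, fls]
  have h1 : ∑ x, P w L h x * (0 + Sacc (jT n β :: F) t (jT n β :: F).length x x) =
      -(β ^ 2 * n / 4) - β ^ 2 / 4 := by
    simp only [List.length_cons, hlen, hS K le_rfl, ovl_self hn, div_self hK'.ne']
    rw [← Finset.sum_mul, sum_P hw]
    ring
  have h2 : pair w L 0 (Sacc (jT n β :: F) t) h = β ^ 2 * n / 4 * rem w L K z h -
      β ^ 2 * n / 4 * (1 - pc K z) - β ^ 2 / 4 := by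
    rw [pair_eq_sum hw, hLlen, sum_range_succ']
    have z0 : dm L 0 0 = 0 := by simp [dm, exP, ex, hL]
    rw [z0, zero_mul, add_zero, rem, pc, sub_sub_cancel, Finset.mul_sum, Finset.mul_sum,
      ← mul_one (β ^ 2 / 4), ← hzK, ← sum_dz_one z K, Finset.mul_sum, ← Finset.sum_sub_distrib,
      ← Finset.sum_sub_distrib]
    refine Finset.sum_congr rfl fun j hj => ?_
    have hj' := Nat.lt_succ_iff.1 (mem_range.1 hj)
    rw [hd j hj', hS j hj', pi2_add hw, pi2_const_mul, pi2_const hw]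
    ring
  rw [h1, h2]
  ring

/-! ### the decoupled end -/

theorem X_site : ∀ (l : List (ℝ × ℝ)) (x : ℝ),
    X (fun _ => 1) (l.map fun p => sl p.1 √p.2) (fun b => x * spin b) = PhiL 1 l x
  | [], x => by
    simp [X, PhiL, phi0, spin, cosh_eq, mul_div_cancel₀]
  | p :: l, x => by
    have e : ∀ g : Unit → ℝ, (fun b => x * spin b) + (sl p.1 √p.2).fld g =
        fun b => (x + √p.2 * g ()) * spin b := fun g => by
      funext b
      simp [Lv.fld]
      ring
    have mp := measurePreserving_funUnique (ProbabilityTheory.gaussianReal 0 1) Unit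
    simp only [List.map_cons, X, step, PhiL, Crest.ProbabilityR.InvariantGlass.gaussOp, e,
      X_site l]
    rw [← mp.integral_comp' fun g => PhiL 1 l (x + √p.2 * g),
      ← mp.integral_comp' fun g => exp (p.1 * PhiL 1 l (x + √p.2 * g))]
    rfl

theorem X_fls_one (P : Pf.Par) (β : ℝ) :
    X (fun _ => 1) (fls n P.K P.z √(β ^ 2 * 1 / P.K)) 0 = n * P.Ph β 0 0 := by
  have h := X_prod (N := Fin n) (w := fun _ _ => (1 : ℝ)) (fun _ => Wt.of_pos fun _ => one_pos)
    ((P.lst β P.K).map fun p => sl p.1 √p.2) fun _ b => 0 * spin b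
  have e1 : Casc.C.pw (fun (_ : Fin n) (_ : Bool) => (1 : ℝ)) = fun _ => 1 := by
    funext x; simp [Casc.C.pw]
  have e2 : pe (fun (_ : Fin n) (b : Bool) => 0 * spin b) = 0 := by
    funext x; simp [pe]
  have e3 : ((P.lst β P.K).map fun p => sl p.1 √p.2).map (prodLv (Fin n)) =
      fls n P.K P.z √(β ^ 2 * 1 / P.K) := by
    rw [mul_one, Pf.Par.lst, List.map_ofFn, List.map_ofFn]
    rfl
  have e4 : ∀ l : List (ℝ × ℝ), (∀ p ∈ l, 0 ≤ p.2) → PhiT 1 l 0 = PhiL 1 l := fun l hl => by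
    cases l with
    | nil => rfl
    | cons p l => simp [PhiT, PhiL, hl p (by simp)]
  rw [e1, e2, e3] at h
  rw [h, Pf.Par.Ph, mul_zero, e4]
  · simp only [X_site]
    simp
  · intro p hp
    obtain ⟨k, rfl⟩ := List.mem_ofFn.1 hp
    positivity

theorem pen_zero (P : Pf.Par) (hP : P.OK) (β : ℝ) : P.pen β 0 = β ^ 2 / 4 * pc P.K P.z := by
  have hK : (0 : ℝ) < P.K := by exact_mod_cast hP.Kpos
  have hm : Monotone P.zeta := fun s t hst =>
    hP.mono (Nat.floor_mono (mul_le_mul_of_nonneg_right hst hK.le))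
  have hi : ∀ a b : ℝ, IntervalIntegrable (fun r => r * P.zeta r) volume a b := fun a b =>
    hm.intervalIntegrable.continuousOn_mul continuousOn_id
  have h1 := intervalIntegral.sum_integral_adjacent_intervals (μ := volume)
    (f := fun r => r * P.zeta r) (a := fun j : ℕ => (j : ℝ) / P.K) (n := P.K) fun k _ => hi _ _
  have h2 : ∀ j : ℕ, ∫ r in ((j : ℝ) / P.K)..(((j + 1 : ℕ) : ℝ) / P.K), r * P.zeta r =
      P.z j * ((((j + 1 : ℕ) : ℝ) / P.K) ^ 2 - ((j : ℝ) / P.K) ^ 2) / 2 := fun j => by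
    have hle : (j : ℝ) / P.K ≤ ((j + 1 : ℕ) : ℝ) / P.K := by gcongr; omega
    rw [intervalIntegral.integral_congr_ae (g := fun r => P.z j * r), intervalIntegral.integral_const_mul,
      integral_id]
    · ring
    · filter_upwards [Measure.ae_ne volume (((j + 1 : ℕ) : ℝ) / P.K)] with r hr hr'
      rw [uIoc_of_le hle] at hr'
      have h3 : r < ((j + 1 : ℕ) : ℝ) / P.K := lt_of_le_of_ne hr'.2 hr
      have h4 := hr'.1
      rw [lt_div_iff₀ hK] at h3
      rw [div_lt_iff₀ hK] at h4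
      have : ⌊r * P.K⌋₊ = j := (Nat.floor_eq_iff ((Nat.cast_nonneg j).trans h4.le)).2
        ⟨h4.le, by exact_mod_cast h3⟩
      rw [Pf.Par.zeta, this, mul_comm]
  simp only [h2, Nat.cast_zero, zero_div, div_self hK.ne'] at h1
  rw [Pf.Par.pen, ← h1, pc, sum_dz, hP.top _ hP.aK, div_self hK.ne', ← Finset.sum_div]
  ring

end Crest.Agent.T157.Tree

end
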