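import Crest.Agent.T157.TreeC_58

/-!
# Row 157, part D (helper58): the tree ancestors of a `g0`-measurable set (`tree_sk`)
-/

set_option autoImplicit false
set_option linter.unusedSectionVars false

noncomputable section

namespace Crest.Agent.T157.Tree

open MeasureTheory Real Set Finset Matrix
open Crest.ProbabilityR.SpinGlassDynamics
open Crest.Agent.T157.E Crest.Agent.T157.SL Crest.Agent.T157.Casc Crest.Agent.T157.Exp
open Crest.Agent.T157.Cut
open Crest.Agent.T157.Casc.C (X_of_zero X_split X_annealed)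
open Crest.Agent.T157.Conc hiding gv ex

variable {n : ℕ} {w : Cube n → ℝ}

/-- the cost of restricting to a set of mass `≥ δ` with probability `≥ δ` -/
def Gd (n : ℕ) (β d δ : ℝ) : ℝ := (1 + √(d * n)) * log (1 / δ) + β ^ 2 * √(d * n)

/-- every set which is not negligible for the perturbed couplings has a chain of ancestors -/
def TreeAt (β d δ ρ Λ : ℝ) (q : ℕ → ℝ) (M : ℕ) (g0 : Pair n → ℝ) : Prop :=
  ∀ B : Set (Cube n), ENNReal.ofReal δ ≤
      disorderLaw n {g1 | δ ≤ mass (gibbsWeight n β (mixG d g0 g1)) B} →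
    ∃ γ, Chain (B.indicator (prob (gibbsWeight n β g0))) q M ρ Λ γ

theorem wt_one : Wt fun _ : Cube n => (1 : ℝ) := Wt.of_pos fun _ => one_pos

theorem X_jl (w : Cube n → ℝ) (a : ℝ) (L : List (Lv (Cube n))) (h : Cube n → ℝ) :
    X w (jl n a :: L) h = ∫ g, X w L (h + (jl n a).fld g) ∂gv (Pair n) := by
  simp [X, step]

theorem exp_mix (β d : ℝ) (g0 g1 : Pair n → ℝ) (x : Cube n) :
    exp ((0 + (jl n (β * √(1 - d))).fld g0 + (jl n (β * √d)).fld g1) x) =
      gibbsWeight n β (mixG d g0 g1) x := by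
  rw [gibbs_eq, mixG, en1_add, en1_smul, en1_smul]
  simp only [Pi.add_apply, Pi.zero_apply, jl_fld]
  congr 1
  ring

theorem mass_eq (v : Cube n → ℝ) (B : Set (Cube n)) :
    mass v B = (∑ x, B.indicator (fun _ => (1 : ℝ)) x * v x) / ∑ x, v x := by
  classical
  rw [mass, Finset.sum_filter, Finset.sum_div]
  refine Finset.sum_congr rfl fun x _ => ?_
  by_cases h : x ∈ B <;> simp [h, prob]

theorem defect (hn : 0 < n) {β d δ : ℝ} (hd : 0 < d) (hδ : 0 < δ) (g0 : Pair n → ℝ)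
    (B : Set (Cube n)) (hB : ENNReal.ofReal δ ≤
      disorderLaw n {g1 | δ ≤ mass (gibbsWeight n β (mixG d g0 g1)) B}) :
    Wt (B.indicator fun _ => (1 : ℝ)) ∧
      X (fun _ => 1) [jl n (β * √d)] (0 + (jl n (β * √(1 - d))).fld g0) -
        X (B.indicator fun _ => 1) [jl n (β * √d)] (0 + (jl n (β * √(1 - d))).fld g0) ≤
      Gd n β d δ := by
  set w : Cube n → ℝ := B.indicator fun _ => 1
  set h0 := 0 + (jl n (β * √(1 - d))).fld g0
  set l := jl n (β * √d)
  have hZ : ∀ g : Pair n → ℝ, 0 < ∑ x, gibbsWeight n β g x := fun g =>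
    Finset.sum_pos (fun x _ => gibbsWeight_pos β g x) Finset.univ_nonempty
  have hw : Wt w := by
    refine ⟨fun x => indicator_nonneg (fun _ _ => zero_le_one) x, ?_⟩
    obtain ⟨g1, hg1⟩ := nonempty_of_measure_ne_zero
      ((ENNReal.ofReal_pos.2 hδ).trans_le hB).ne'
    have h1 : 0 < mass (gibbsWeight n β (mixG d g0 g1)) B := hδ.trans_le hg1
    rw [mass_eq, div_pos_iff_of_pos_right (hZ _)] at h1
    by_contra h2
    have h3 : ∀ x, w x = 0 := fun x => le_antisymm ((Finset.single_le_sum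
      (fun y _ => indicator_nonneg (fun _ _ => zero_le_one) y) (Finset.mem_univ x)).trans
      (not_lt.1 h2)) (indicator_nonneg (fun _ _ => zero_le_one) x)
    simp [show ∀ x, B.indicator (fun _ => (1 : ℝ)) x = 0 from h3] at h1
  refine ⟨hw, ?_⟩
  have e1 := elip_X hw l [] h0
  have e2 := elip_X wt_one l [] h0
  set f : (Pair n → ℝ) → ℝ := fun g => X w [] (h0 + l.fld g) + -X (fun _ => 1) [] (h0 + l.fld g)
  have hf : ELip (√(vm l) + √(vm l)) f := e1.add e2.neg
  have hm : ∀ g, exp (f g) = mass (gibbsWeight n β (mixG d g0 g)) B := fun g => by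
    simp only [f, X]
    rw [exp_add, exp_neg, exp_log (wt_exp hw _).pos, exp_log (wt_exp wt_one _).pos, mass_eq,
      div_eq_mul_inv]
    simp only [h0, l, exp_mix, one_mul, w]
  have hdn : 0 < d * n := by positivity
  set r := √(d * n) with hr
  have hr0 : 0 < r := sqrt_pos.2 hdn
  have hr2 : r ^ 2 = d * n := sq_sqrt hdn.le
  have h1 := mgf_le (hf.const_mul r⁻¹)
  have h2 := mul_meas_ge_le_integral_of_nonneg (μ := gv (Pair n))
    (f := fun g => exp (r⁻¹ * f g)) (.of_forall fun _ => (exp_pos _).le) (hf.integrable_exp _)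
    (exp (r⁻¹ * log δ))
  have h3 : δ ≤ (gv (Pair n)).real {g | exp (r⁻¹ * log δ) ≤ exp (r⁻¹ * f g)} := by
    refine (ENNReal.ofReal_le_iff_le_toReal (measure_ne_top _ _)).1 (hB.trans (measure_mono ?_))
    intro g hg
    have hg' : δ ≤ exp (f g) := by rw [hm]; exact hg
    exact exp_le_exp.2 (mul_le_mul_of_nonneg_left ((log_le_iff_le_exp hδ).2 hg') (by positivity))
  have h4 : (|r⁻¹| * (√(vm l) + √(vm l))) ^ 2 / 2 ≤ β ^ 2 := by
    have h5 := vm_jl hn (β * √d)
    rw [mul_pow, sq_sqrt hd.le] at h5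
    rw [← two_mul, mul_pow, mul_pow, sq_sqrt (vm_nonneg l), sq_abs, inv_pow, hr2,
      div_le_iff₀ two_pos, inv_mul_le_iff₀ hdn]
    have : vm l ≤ β ^ 2 * d * n / 2 := h5
    nlinarith
  have h5 : exp (r⁻¹ * log δ + log δ) ≤ exp (r⁻¹ * (∫ g, f g ∂gv (Pair n)) + β ^ 2) := by
    rw [exp_add, exp_log hδ]
    refine (mul_le_mul_of_nonneg_left h3 (exp_pos _).le).trans (h2.trans (h1.trans ?_))
    rw [integral_const_mul, exp_le_exp]
    linarith
  have h6 : ∫ g, f g ∂gv (Pair n) = X w [l] h0 - X (fun _ => 1) [l] h0 := by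
    rw [X_jl, X_jl, integral_add e1.integrable e2.neg.integrable, integral_neg, sub_eq_add_neg]
  rw [exp_le_exp, h6] at h5
  have h7 := mul_le_mul_of_nonneg_left h5 hr0.le
  simp only [mul_add, ← mul_assoc, mul_inv_cancel₀ hr0.ne', one_mul] at h7
  rw [Gd, one_div, log_inv, ← hr]
  linarith

/-! ### the perturbed order parameter -/

/-- number of coarse levels below `k` -/
def cnt (p : ℕ → ℕ) (M k : ℕ) : ℕ := ((range (M + 1)).filter fun j => p j ≤ k).card

theorem cnt_mono (p : ℕ → ℕ) (M : ℕ) : Monotone (cnt p M) := fun _ _ h =>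
  card_le_card (monotone_filter_right _ fun _ _ hj => hj.trans h)

theorem cnt_le (p : ℕ → ℕ) (M k : ℕ) : cnt p M k ≤ M + 1 :=
  (card_filter_le _ _).trans (card_range _).le

/-- `(1-e) ζ + e ·` atoms at the coarse levels -/
def pz (P : Pf.Par) (p : ℕ → ℕ) (M : ℕ) (e : ℝ) : Pf.Par :=
  ⟨P.K, P.a, fun k => (1 - e) * P.z k + e * (cnt p M k / (M + 1))⟩

theorem z_le_one {P : Pf.Par} (hP : P.OK) (k : ℕ) : P.z k ≤ 1 :=
  (hP.mono (le_max_left k P.a)).trans (hP.top _ (le_max_right _ _)).le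

theorem pz_ok {P : Pf.Par} (hP : P.OK) {p : ℕ → ℕ} (hp : Monotone p) {M : ℕ} (hM : p M ≤ P.a)
    {e : ℝ} (he : 0 < e) (he1 : e < 1) : (pz P p M e).OK := by
  refine ⟨hP.Kpos, hP.aK, fun a b hab => ?_, fun k => ?_, fun k hk => ?_⟩
  · have h1 := hP.mono hab
    have h2 : (cnt p M a : ℝ) ≤ cnt p M b := by exact_mod_cast cnt_mono p M hab
    simp only [pz]
    gcongr
  · have := hP.pos k
    have : 0 < 1 - e := by linarith
    simp only [pz]
    positivity
  · have h1 : cnt p M k = M + 1 := by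
      rw [cnt, filter_true_of_mem, card_range]
      exact fun j hj => (hp (Nat.lt_succ_iff.1 (mem_range.1 hj))).trans (hM.trans hk)
    simp only [pz, h1, hP.top k hk]
    push_cast
    rw [div_self (by positivity)]
    ring

theorem pz_close {P : Pf.Par} (hP : P.OK) (p : ℕ → ℕ) (M : ℕ) {e : ℝ} (he : 0 < e) (k : ℕ) :
    |(pz P p M e).z k - P.z k| ≤ e := by
  have h1 := hP.pos k
  have h2 := z_le_one hP k
  have h3 : (cnt p M k : ℝ) / (M + 1) ≤ 1 :=
    (div_le_one (by positivity)).2 (by exact_mod_cast cnt_le p M k)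
  have h4 : (0 : ℝ) ≤ cnt p M k / (M + 1) := by positivity
  simp only [pz]
  rw [abs_le]
  constructor <;> nlinarith

theorem pz_jump {P : Pf.Par} (hP : P.OK) (p : ℕ → ℕ) {M k : ℕ} (hk : k ≤ M) {e : ℝ} (he : 0 < e)
    (he1 : e < 1) : e / (M + 1) ≤ dz (pz P p M e).z (p k) := by
  have hk' := mem_range.2 (Nat.lt_succ_of_le hk)
  have h0 : 0 ≤ 1 - e := by linarith
  have hM : (0 : ℝ) < M + 1 := by positivity
  rcases h : p k with _ | i
  · have h1 : 1 ≤ cnt p M 0 := card_pos.2 ⟨k, mem_filter.2 ⟨hk', h.le⟩⟩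
    have h2 : (1 : ℝ) / (M + 1) ≤ cnt p M 0 / (M + 1) := by
      gcongr; exact_mod_cast h1
    have := mul_nonneg h0 (hP.pos 0).le
    have := mul_le_mul_of_nonneg_left h2 he.le
    show _ ≤ (1 - e) * P.z 0 + e * (cnt p M 0 / (M + 1)) - 0
    rw [div_eq_mul_one_div]
    linarith
  · have h1 : cnt p M i < cnt p M (i + 1) := Finset.card_lt_card ((Finset.ssubset_iff_of_subset
      (monotone_filter_right _ fun _ _ hj => hj.trans (Nat.le_succ i))).2
      ⟨k, mem_filter.2 ⟨hk', h.le⟩, fun h' => by have := (mem_filter.1 h').2; omega⟩)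
    have h2 : (cnt p M i + 1 : ℝ) / (M + 1) ≤ cnt p M (i + 1) / (M + 1) := by
      gcongr; exact_mod_cast h1
    have := mul_le_mul_of_nonneg_left (hP.mono (Nat.le_succ i)) h0
    have := mul_le_mul_of_nonneg_left h2 he.le
    simp only [dz, pz]
    rw [add_div, mul_add, ← div_eq_mul_one_div] at this
    linarith

/-! ### the defect of the full partition function -/

/-- the total remainder for the unrestricted partition function -/
def Yd (β d : ℝ) (Q : Pf.Par) (g0 : Pair n → ℝ) : ℝ :=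
  X (fun _ => 1) (fls n Q.K Q.z √(β ^ 2 * d / Q.K)) (0 + (jl n (β * √(1 - d))).fld g0) -
    X (fun _ => 1) [jl n (β * √d)] (0 + (jl n (β * √(1 - d))).fld g0) -
    d * (β ^ 2 * n / 4) * pc Q.K Q.z

theorem guerra_d (hw : Wt w) (hn : 0 < n) {Q : Pf.Par} (hQ : Q.OK) {β d : ℝ} (hβ : 0 < β)
    (hd : 0 < d) (h : Cube n → ℝ) : ∃ t ∈ Set.Ioo 0 d,
    X w (fls n Q.K Q.z √(β ^ 2 * d / Q.K)) h - X w [jl n (β * √d)] h -
      d * (β ^ 2 * n / 4) * pc Q.K Q.z = d * (β ^ 2 * n / 4) *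
        rem w (jl n (β * √t) :: fls n Q.K Q.z √(β ^ 2 * (d - t) / Q.K)) Q.K Q.z h := by
  obtain ⟨t, ht, e⟩ := guerra_id hw hn hQ.Kpos hβ (hQ.top _ hQ.aK) hd le_rfl h
  refine ⟨t, ht, ?_⟩
  have e1 : X w (fls n Q.K Q.z √(β ^ 2 * (d - d) / Q.K)) = X w [] := by
    have := X_of_zero w (L := fls n Q.K Q.z √(β ^ 2 * (d - d) / Q.K)) (fun l hl => by
      obtain ⟨k, rfl⟩ := List.mem_ofFn.1 hl
      simp) []
    rwa [List.append_nil] at this
  rw [X_jl, e1, ← X_jl] at e
  linarith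

theorem Yd_nonneg (hn : 0 < n) {Q : Pf.Par} (hQ : Q.OK) {β d : ℝ} (hβ : 0 < β) (hd : 0 < d)
    (g0 : Pair n → ℝ) : 0 ≤ Yd β d Q g0 := by
  obtain ⟨t, -, e⟩ := guerra_d wt_one hn hQ hβ hd (0 + (jl n (β * √(1 - d))).fld g0)
  rw [Yd, e]
  exact mul_nonneg (by positivity) (rem_nonneg wt_one _ _ hQ.mono (hQ.pos 0).le _)

theorem integrable_Yd (β d : ℝ) (Q : Pf.Par) : Integrable (Yd (n := n) β d Q) (gv (Pair n)) :=
  ((elip_X wt_one (jl n _) _ 0).integrable.sub (elip_X wt_one (jl n _) _ 0).integrable).sub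
    (integrable_const _)

theorem integral_Yd (hn : 0 < n) {Q : Pf.Par} (hQ : Q.OK) {β d : ℝ} (hβ : 0 < β) (hd : 0 < d)
    (hd1 : d < 1) : ∫ g, Yd (n := n) β d Q g ∂gv (Pair n) ≤
      n * Q.val β - ∫ g, log (∑ x, gibbsWeight n β g x) ∂disorderLaw n := by
  have i1 : Integrable _ (gv (Pair n)) :=
    (elip_X wt_one (jl n (β * √(1 - d))) (fls n Q.K Q.z √(β ^ 2 * d / Q.K)) 0).integrable
  have i2 : Integrable _ (gv (Pair n)) :=
    (elip_X wt_one (jl n (β * √(1 - d))) [jl n (β * √d)] 0).integrable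
  unfold Yd
  rw [integral_sub (i1.sub' i2) (integrable_const _), integral_sub i1 i2, ← X_jl, ← X_jl,
    ← X_split wt_one (l := jl n β) (l1 := jl n (β * √(1 - d))) (l2 := jl n (β * √d)) rfl rfl
      (fun x y => by
        rw [jl_cov hn, jl_cov hn, jl_cov hn, mul_pow, mul_pow, sq_sqrt hd.le,
          sq_sqrt (sub_pos.2 hd1).le]
        ring)]
  obtain ⟨t, -, e⟩ := guerra_id wt_one hn hQ.Kpos hβ (hQ.top _ hQ.aK) (sub_pos.2 hd1)
    (by linarith : 1 - d ≤ 1) 0
  rw [sub_sub_cancel, X_fls_one] at e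
  have h1 := rem_nonneg wt_one (jl n (β * √t) :: fls n Q.K Q.z √(β ^ 2 * (1 - t) / Q.K)) Q.K
    hQ.mono (hQ.pos 0).le 0
  have h2 : X (fun _ => 1) [jl n β] 0 = ∫ g, log (∑ x, gibbsWeight n β g x) ∂disorderLaw n := by
    rw [X_jl]
    refine integral_congr_ae (.of_forall fun g => ?_)
    simp only [X, gibbs_eq, Pi.add_apply, Pi.zero_apply, jl_fld, zero_add, one_mul]
  have h3 : 0 ≤ (1 - d) * (β ^ 2 * n / 4) * rem (fun _ => 1)
      (jl n (β * √t) :: fls n Q.K Q.z √(β ^ 2 * (1 - t) / Q.K)) Q.K Q.z 0 :=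
    mul_nonneg (mul_nonneg (by linarith) (by positivity)) h1
  rw [h2, Pf.Par.val, pen_zero Q hQ]
  simp only [integral_const, probReal_univ, smul_eq_mul, one_mul]
  nlinarith

/-! ### the ancestors -/

theorem lamC_le {β d S : ℝ} (hβ : 1 ≤ β) (hd : 0 < d) (hd1 : d ≤ 1) (M : ℕ)
    (hS : S ≤ β ^ 2 * d * n) : lamC (6 * (M + 1) * 2 ^ n) S (√d)⁻¹ ≤
      2 * log (6 * (M + 1)) + 17 / 2 * β ^ 2 * n * √d := by
  set r := √d with hr
  have hr0 : 0 < r := sqrt_pos.2 hd
  have hr1 : r ≤ 1 := sqrt_le_one.2 hd1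
  have hr2 : d = r * r := (mul_self_sqrt hd.le).symm
  have hl : 0 ≤ log (6 * ((M : ℝ) + 1)) := log_nonneg (by have := M.cast_nonneg (α := ℝ); linarith)
  have h2 : log 2 ≤ 1 := by have := log_two_lt_d9; linarith
  have hn : (0 : ℝ) ≤ n := n.cast_nonneg
  have hb : 1 ≤ β ^ 2 := one_le_pow₀ hβ
  have e : lamC (6 * (M + 1) * 2 ^ n) S r⁻¹ = 2 * r * log (6 * (M + 1)) + 2 * r * (n * log 2) +
      (1 + r) ^ 2 / r * S + 5 / 2 * S := by
    rw [lamC, log_mul (by positivity) (by positivity), log_pow]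
    field_simp
  have h3 : (1 + r) ^ 2 / r * S ≤ 4 * β ^ 2 * n * r := by
    refine (mul_le_mul_of_nonneg_left hS (by positivity)).trans ?_
    rw [hr2, show (1 + r) ^ 2 / r * (β ^ 2 * (r * r) * n) = (1 + r) ^ 2 * (β ^ 2 * n * r) by
      field_simp]
    have : (1 + r) ^ 2 ≤ 4 := by nlinarith
    have := mul_le_mul_of_nonneg_right this (by positivity : 0 ≤ β ^ 2 * n * r)
    linarith
  have h4 : S ≤ β ^ 2 * n * r := hS.trans (by
    rw [hr2]
    have := mul_le_mul_of_nonneg_left hr1 (by positivity : 0 ≤ β ^ 2 * n * r)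
    linarith)
  have h5 : r * (n * log 2) ≤ β ^ 2 * n * r := by
    have := mul_le_mul_of_nonneg_left (h2.trans hb) (by positivity : 0 ≤ n * r)
    linarith
  have h6 := mul_le_mul_of_nonneg_right hr1 hl
  rw [e]
  linarith

theorem treeAt_of (hn : 0 < n) {β d e δ y : ℝ} (hβ : 1 ≤ β) {P : Pf.Par} (hP : P.OK) {p : ℕ → ℕ}
    (hp : Monotone p) {M : ℕ} (hM : p M ≤ P.a) (hd : 0 < d) (hd1 : d < 1) (he : 0 < e)
    (he1 : e < 1) (hδ : 0 < δ) (hδ1 : δ ≤ 1) (hy : 0 < y) {g0 : Pair n → ℝ} (hg : g0 ∉ Big n)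
    (hY : Yd β d (pz P p M e) g0 ≤ y) :
    TreeAt β d δ (12 * (M + 1) ^ 2 * (y + Gd n β d δ) / (β ^ 2 * n * d * e))
      (11 * β ^ 2 * n * √d + 2 * log (6 * (M + 1)) + Gd n β d δ)
      (fun k => (p k : ℝ) / P.K) M g0 := by
  intro B hB
  obtain ⟨hw, hG⟩ := defect hn hd hδ g0 B hB
  have hβ0 : 0 < β := by linarith
  have hn' : (0 : ℝ) < n := by positivity
  have hQ := pz_ok hP hp hM he he1
  have hK : (0 : ℝ) < P.K := by exact_mod_cast hP.Kpos
  have hG0 : 0 ≤ Gd n β d δ := by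
    have : 0 ≤ log (1 / δ) := log_nonneg ((one_le_div hδ).2 hδ1)
    unfold Gd
    positivity
  set w : Cube n → ℝ := B.indicator fun _ => 1
  set h0 := 0 + (jl n (β * √(1 - d))).fld g0 with hh0
  set Q := pz P p M e
  obtain ⟨t, ht, e1⟩ := guerra_d hw hn hQ hβ0 hd h0
  set L := jl n (β * √t) :: fls n Q.K Q.z √(β ^ 2 * (d - t) / Q.K)
  have hw1 : ∀ x, w x ≤ 1 := fun x => indicator_le_self' (fun _ _ => zero_le_one) x
  have h1 := Casc.C.X_mono_w hw wt_one hw1 (fls n Q.K Q.z √(β ^ 2 * d / Q.K)) h0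
  have h2 : d * (β ^ 2 * n / 4) * rem w L Q.K Q.z h0 ≤ y + Gd n β d δ := by
    unfold Yd at hY
    rw [← hh0] at hY
    linarith
  have hL : ∀ l ∈ L, 0 ≤ l.m ∧ l.m ≤ 1 := fun l hl => by
    rcases List.mem_cons.1 hl with rfl | h
    · exact ⟨le_rfl, zero_le_one⟩
    · obtain ⟨k, rfl⟩ := List.mem_ofFn.1 h
      exact ⟨(hQ.pos _).le, z_le_one hQ _⟩
  obtain ⟨γ, hγ⟩ := tree_cube hw L hL (fun k => p k + 1) (fun a b hab => Nat.succ_le_succ (hp hab))
    M (fun k => (p k : ℝ) / P.K) h0 (ρ := 4 * (M + 1) * (y + Gd n β d δ) / (β ^ 2 * n * d * e))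
    (lam := (√d)⁻¹) (by positivity) (by positivity) fun k hk => by
      have h3 := pi2_le_rem hw L Q.K hQ.mono (hQ.pos 0).le h0 (j := p k)
        ((hp hk).trans (hM.trans hP.aK))
      have h4 := mul_le_mul_of_nonneg_right (pz_jump hP p hk he he1)
        (pi2_nonneg hw L (p k + 1) (K := fun x y => (ovl x y - (p k : ℝ) / P.K) ^ 2)
          (fun _ _ => sq_nonneg _) h0)
      have h5 := (mul_le_mul_of_nonneg_left (h4.trans h3)
        (by positivity : 0 ≤ d * (β ^ 2 * n / 4))).trans h2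
      rw [le_div_iff₀ (by positivity)]
      have h6 := mul_le_mul_of_nonneg_left h5 (by positivity : (0 : ℝ) ≤ 4 * (M + 1))
      refine le_trans (le_of_eq ?_) h6
      generalize pi2 w L (p k + 1) (fun x y => (ovl x y - (p k : ℝ) / P.K) ^ 2) h0 = A
      field_simp
  refine ⟨γ, hγ.mono (le_of_eq (by ring)) fun x => ?_⟩
  have hS : vs L ≤ β ^ 2 * d * n := by
    have a1 := vm_jl hn (β * √t)
    have a2 := vs_fls (n := n) Q.K Q.z √(β ^ 2 * (d - t) / Q.K)
    have hdt : 0 < d - t := sub_pos.2 ht.2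
    rw [mul_pow, sq_sqrt ht.1.le] at a1
    rw [sq_sqrt (by positivity), show (Q.K : ℝ) = P.K from rfl,
      show P.K * (β ^ 2 * (d - t) / P.K * n) = β ^ 2 * (d - t) * n by field_simp] at a2
    have : 0 ≤ β ^ 2 * t * n := by have := ht.1.le; positivity
    rw [vs_cons]
    have a2' : vs (fls n Q.K Q.z √(β ^ 2 * (d - t) / Q.K)) ≤ β ^ 2 * (d - t) * n := a2
    linarith
  have hlam := lamC_le hβ hd hd1.le M hS
  have hsd : d ≤ √d := by
    have := sqrt_le_one.2 hd1.le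
    have h := mul_self_sqrt hd.le
    nlinarith [sqrt_nonneg d]
  -- comparison of the two reference laws
  set u0 : Cube n → ℝ := fun x => β * en1 g0 x
  have hu : ∀ x, |h0 x - u0 x| ≤ β * d * n := fun x => by
    simp only [Big, Set.mem_ofPred_eq, not_exists, not_le] at hg
    have s1 : √(1 - d) ≤ 1 := sqrt_le_one.2 (by linarith)
    have s2 : 1 - d ≤ √(1 - d) := by
      have h := mul_self_sqrt (sub_pos.2 hd1).le
      nlinarith [sqrt_nonneg (1 - d)]
    simp only [hh0, u0, jl_fld, zero_add]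
    rw [← sub_mul, abs_mul]
    refine mul_le_mul ?_ (hg x).le (abs_nonneg _) (by positivity)
    rw [abs_le]
    constructor <;> nlinarith
  have c1 := X_le_add wt_one (c := β * d * n) [] u0 h0 fun x => by linarith [(abs_le.1 (hu x)).1]
  have c2 := nil_le_X wt_one [jl n (β * √d)] h0 (by simp)
  have c3 : X w [jl n (β * √d)] h0 ≤ X w [] h0 + β ^ 2 * d * n / 4 := by
    set l1 : Lv (Cube n) := ⟨Pair n, (jl n (β * √d)).A, 1⟩
    have a1 := mean_le_X hw l1 [] h0 zero_le_one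
    rw [X_annealed hw rfl] at a1
    have a2 := X_le_add hw (c := β ^ 2 * d * n / 4) [] (h0 + fun x => l1.cov x x / 2) h0
      fun x => by
        have a3 := (le_vm _ x).trans (vm_jl hn (β * √d))
        rw [mul_pow, sq_sqrt hd.le] at a3
        have a4 : l1.cov x x ≤ β ^ 2 * d * n / 2 := a3
        simp only [Pi.add_apply]
        linarith
    rw [X_jl]
    exact a1.trans a2
  have p1 : prob (fun y => w y * exp (h0 y)) x = w x * exp (h0 x - X w [] h0) := by
    simp only [X, prob]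
    rw [exp_sub, exp_log (wt_exp hw h0).pos, mul_div_assoc]
  have p2 : B.indicator (prob (gibbsWeight n β g0)) x =
      w x * exp (u0 x - X (fun _ => 1) [] u0) := by
    simp only [X]
    rw [exp_sub, exp_log (wt_exp wt_one u0).pos]
    by_cases hx : x ∈ B <;> simp [w, hx, prob, gibbs_eq, u0]
  rw [p1, p2, mul_left_comm, mul_left_comm (exp _), ← exp_add, ← exp_add]
  refine mul_le_mul_of_nonneg_left (exp_le_exp.2 ?_) (hw.nn x)
  have b1 : β * d * n ≤ β ^ 2 * n * √d := by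
    have := mul_le_mul (by nlinarith : β ≤ β ^ 2) hsd hd.le (by positivity)
    nlinarith
  have b2 : β ^ 2 * d * n ≤ β ^ 2 * n * √d := by
    have := mul_le_mul_of_nonneg_left hsd (by positivity : 0 ≤ β ^ 2 * n)
    linarith
  have b3 : 0 ≤ β ^ 2 * n * √d := by positivity
  linarith [(abs_le.1 (hu x)).2]

/-- **tree ancestors** -/
theorem tree_sk (hn : 0 < n) {β c C η E1 d e δ y : ℝ} (hβ : 1 ≤ β) {P : Pf.Par} (hP : P.OK)
    (hG : P.Good β c C η)
    (hL : n * P.val β - E1 ≤ ∫ g, log (∑ x, gibbsWeight n β g x) ∂disorderLaw n) {p : ℕ → ℕ}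
    (hp : Monotone p) {M : ℕ} (hM : p M ≤ P.a) (hd : 0 < d) (hd1 : d < 1) (he : 0 < e)
    (he1 : e < 1) (hδ : 0 < δ) (hδ1 : δ ≤ 1) (hy : 0 < y) :
    disorderLaw n {g0 | ¬ TreeAt β d δ (12 * (M + 1) ^ 2 * (y + Gd n β d δ) / (β ^ 2 * n * d * e))
      (11 * β ^ 2 * n * √d + 2 * log (6 * (M + 1)) + Gd n β d δ)
      (fun k => (p k : ℝ) / P.K) M g0} ≤
      ENNReal.ofReal ((E1 + n * (C * (e * η + e ^ 2))) / y) + disorderLaw n (Big n) := by
  have hβ0 : 0 < β := by linarith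
  have hQ := pz_ok hP hp hM he he1
  have h1 := hG.pert _ e hQ rfl rfl (pz_close hP p M he)
  have h2 := integral_Yd hn hQ hβ0 hd hd1
  have h3 := mul_meas_ge_le_integral_of_nonneg (.of_forall (Yd_nonneg hn hQ hβ0 hd))
    (integrable_Yd β d (pz P p M e)) y
  have h4 : disorderLaw n {g0 | y ≤ Yd β d (pz P p M e) g0} ≤
      ENNReal.ofReal ((E1 + n * (C * (e * η + e ^ 2))) / y) := by
    refine (ENNReal.ofReal_toReal (measure_ne_top _ _)).symm.le.trans
      (ENNReal.ofReal_le_ofReal ?_)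
    rw [le_div_iff₀' hy]
    have := mul_le_mul_of_nonneg_left h1 (n.cast_nonneg (α := ℝ))
    refine le_trans h3 ?_
    linarith
  refine le_trans (measure_mono ?_) ((measure_union_le _ _).trans (add_le_add h4 le_rfl))
  intro g0 hg
  by_contra h
  simp only [Set.mem_union, Set.mem_ofPred_eq, not_or, not_le] at h
  exact hg (treeAt_of hn hβ hP hp hM hd hd1 he he1 hδ hδ1 hy h.2 h.1.le)

end Crest.Agent.T157.Tree

end
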