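import Crest.Agent.T157.TwDef_30

/-!
# Row 157, block B/S4 (helper30): abstract pre-baths, Gram–Schmidt, one more level
-/

set_option autoImplicit false

noncomputable section

namespace Crest.Agent.T157.Tw

open MeasureTheory Real Matrix Set

section abs
variable {V V1 V2 V3 : Type} [AddCommGroup V] [Module ℝ V] [AddCommGroup V1] [Module ℝ V1]
  [AddCommGroup V2] [Module ℝ V2] [AddCommGroup V3] [Module ℝ V3]

lemma null_left {B : V →ₗ[ℝ] V →ₗ[ℝ] ℝ} (hs : ∀ u v, B u v = B v u) (hp : ∀ u, 0 ≤ B u u) {x : V}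
    (hx : B x x = 0) (y : V) : B x y = 0 := by
  have h : ∀ t : ℝ, 0 ≤ 2 * t * B x y + B y y := fun t => by
    have := hp (t • x + y)
    simp only [map_add, map_smul, LinearMap.add_apply, LinearMap.smul_apply, smul_eq_mul, hx,
      hs y x] at this
    linarith
  by_contra hne
  have := h (-(B y y + 1) / (2 * B x y))
  field_simp at this
  linarith

lemma Mor.comp {a : ℝ} {H1 : Pre V1} {H2 : Pre V2} {H3 : Pre V3} {W : V1 →ₗ[ℝ] V2}
    {W' : V2 →ₗ[ℝ] V3} (h : Mor a H1 H2 W) (h' : Mor a H2 H3 W') : Mor a H1 H3 (W' ∘ₗ W) :=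
  ⟨fun u => (h'.N _).trans (h.N u), fun u => (h'.σ _).trans (h.σ u), fun u => (h'.Q _).trans (h.Q u)⟩

lemma Mor.refl (a : ℝ) (H : Pre V) : Mor a H H LinearMap.id :=
  ⟨fun _ => le_rfl, fun _ => rfl, fun _ => le_rfl⟩

lemma Mor.scale {a : ℝ} {H1 : Pre V1} {H2 : Pre V2} {W : V1 →ₗ[ℝ] V2} (h : Mor a H1 H2 W) (β : ℝ) :
    Mor a (H1.scale β) (H2.scale β) W :=
  ⟨h.N, fun u => by simp [Pre.scale, h.σ u], h.Q⟩

lemma Mor.mono {a a' : ℝ} {H1 : Pre V1} {H2 : Pre V2} {W : V1 →ₗ[ℝ] V2} (h : Mor a H1 H2 W)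
    (ha : a' ≤ a) : Mor a' H1 H2 W :=
  ⟨h.N, h.σ, fun u => by
    have h1 := h.Q u
    have h2 := mul_le_mul_of_nonneg_left (h.N u) (sub_nonneg.2 ha)
    unfold Pre.Q at *
    linarith⟩

@[simp] lemma pre_N (b : Bath) (u v : Fin b.m → ℝ) : b.pre.N u v = u ⬝ᵥ v := rfl
@[simp] lemma pre_En (b : Bath) (u v : Fin b.m → ℝ) : b.pre.En u v = u ⬝ᵥ b.A *ᵥ v :=
  Matrix.toLinearMap₂'_apply' b.A u v
@[simp] lemma pre_σ (b : Bath) : b.pre.σ = b.g := rfl
lemma pre_Q (b : Bath) (a : ℝ) (u : Fin b.m → ℝ) :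
    b.pre.Q a u = u ⬝ᵥ b.A *ᵥ u - a * (u ⬝ᵥ u) := by simp [Pre.Q]
lemma pre_scale (b : Bath) (β : ℝ) : (b.scale β).pre = b.pre.scale β := rfl
lemma ge_iff (b : Bath) (a : ℝ) : b.Ge a ↔ ∀ u, 0 ≤ b.pre.Q a u := by
  simp only [pre_Q, sub_nonneg]; rfl

lemma Bath.symm (b : Bath) (u v : Fin b.m → ℝ) : u ⬝ᵥ b.A *ᵥ v = b.A *ᵥ u ⬝ᵥ v := by
  have h : b.Aᵀ = b.A := by simpa using b.psd.1.eq
  rw [dotProduct_mulVec, ← mulVec_transpose, h]

/-- linear combinations -/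
def emb {m : ℕ} (f : Fin m → V) : (Fin m → ℝ) →ₗ[ℝ] V := Fintype.linearCombination ℝ f
/-- coordinates -/
def co (H : Pre V) {m : ℕ} (f : Fin m → V) : V →ₗ[ℝ] (Fin m → ℝ) :=
  LinearMap.pi fun k => H.N.flip (f k)

lemma emb_apply {m : ℕ} (f : Fin m → V) (u : Fin m → ℝ) : emb f u = ∑ k, u k • f k :=
  Fintype.linearCombination_apply _ _ _
@[simp] lemma co_apply (H : Pre V) {m : ℕ} (f : Fin m → V) (y : V) (k : Fin m) :
    co H f y k = H.N y (f k) := rfl

lemma emb_mem {m : ℕ} {f : Fin m → V} {S : Submodule ℝ V} (hf : ∀ k, f k ∈ S) (u : Fin m → ℝ) :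
    emb f u ∈ S := by
  rw [emb_apply]; exact S.sum_mem fun k _ => S.smul_mem _ (hf k)

lemma bil_emb {m : ℕ} (B : V →ₗ[ℝ] V →ₗ[ℝ] ℝ) (f : Fin m → V) (u : Fin m → ℝ) (y : V) :
    B y (emb f u) = (fun k => B y (f k)) ⬝ᵥ u := by
  simp [emb_apply, dotProduct, mul_comm]

lemma bil_emb2 {m : ℕ} (B : V →ₗ[ℝ] V →ₗ[ℝ] ℝ) (f : Fin m → V) (u v : Fin m → ℝ) :
    B (emb f u) (emb f v) = u ⬝ᵥ (Matrix.of fun k l => B (f k) (f l)) *ᵥ v := by
  simp only [emb_apply, map_sum, map_smul, LinearMap.sum_apply, LinearMap.smul_apply, smul_eq_mul,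
    dotProduct, mulVec, of_apply, Finset.mul_sum]
  rw [Finset.sum_comm]
  exact Finset.sum_congr rfl fun k _ => Finset.sum_congr rfl fun l _ => by ring

variable {H : Pre V} {b : Bath} {f : Fin b.m → V}

lemma Comp.N_emb (h : Comp H b f) (u v : Fin b.m → ℝ) : H.N (emb f u) (emb f v) = u ⬝ᵥ v := by
  have e : (Matrix.of fun k l => H.N (f k) (f l)) = 1 := by
    ext k l; simp [h.on, one_apply]
  rw [bil_emb2, e, one_mulVec]

lemma Comp.En_emb (h : Comp H b f) (u v : Fin b.m → ℝ) :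
    H.En (emb f u) (emb f v) = u ⬝ᵥ b.A *ᵥ v := by
  have e : (Matrix.of fun k l => H.En (f k) (f l)) = b.A := by
    ext k l; simp [h.en]
  rw [bil_emb2, e]

lemma Comp.co_σ (h : Comp H b f) : co H f H.σ = b.g := funext h.g

lemma Comp.σ_emb (h : Comp H b f) (u : Fin b.m → ℝ) : H.N H.σ (emb f u) = b.g ⬝ᵥ u := by
  rw [bil_emb, ← h.co_σ]; rfl

lemma Comp.Q_emb (h : Comp H b f) (a : ℝ) (u : Fin b.m → ℝ) : H.Q a (emb f u) = b.pre.Q a u := by
  rw [pre_Q, Pre.Q, h.N_emb, h.En_emb]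

lemma Comp.mor (h : Comp H b f) (a : ℝ) : Mor a b.pre H (emb f) :=
  ⟨fun u => (h.N_emb u u).le, h.σ_emb, fun u => (h.Q_emb a u).le⟩

lemma inSp_iff {m : ℕ} (f : Fin m → V) (y : V) :
    InSp H f y ↔ H.N (y - emb f (co H f y)) (y - emb f (co H f y)) = 0 := by
  rw [emb_apply]; rfl

lemma InSp.N {m : ℕ} {f : Fin m → V} {y : V} (hy : InSp H f y) (ok : H.Ok) (z : V) :
    H.N y z = H.N (emb f (co H f y)) z := by
  have := null_left ok.sN ok.pN ((inSp_iff f y).1 hy) z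
  rwa [map_sub, LinearMap.sub_apply, sub_eq_zero] at this

lemma InSp.En {m : ℕ} {f : Fin m → V} {y : V} (hy : InSp H f y) (ok : H.Ok) (z : V) :
    H.En y z = H.En (emb f (co H f y)) z := by
  have := null_left ok.sE ok.pE (ok.null _ ((inSp_iff f y).1 hy)) z
  rwa [map_sub, LinearMap.sub_apply, sub_eq_zero] at this

lemma Comp.N_co (h : Comp H b f) (ok : H.Ok) {y z : V} (hy : InSp H f y) :
    co H f y ⬝ᵥ co H f z = H.N y z := by
  rw [hy.N ok, ok.sN, bil_emb, dotProduct_comm]; rfl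

lemma Comp.En_co (h : Comp H b f) (ok : H.Ok) {y z : V} (hy : InSp H f y) (hz : InSp H f z) :
    co H f y ⬝ᵥ b.A *ᵥ co H f z = H.En y z := by
  rw [hy.En ok, ok.sE, hz.En ok, ok.sE, h.En_emb]

lemma Comp.A_co (h : Comp H b f) (ok : H.Ok) {y : V} (hy : InSp H f y) (k : Fin b.m) :
    (b.A *ᵥ co H f y) k = H.En y (f k) := by
  rw [hy.En ok, ok.sE, bil_emb]
  simp only [h.en]; rfl

lemma Comp.Q_co (h : Comp H b f) (ok : H.Ok) {y : V} (hy : InSp H f y) (a : ℝ) :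
    b.pre.Q a (co H f y) = H.Q a y := by
  rw [pre_Q, h.En_co ok hy hy, h.N_co ok hy, Pre.Q]

lemma Comp.σ_co (h : Comp H b f) (ok : H.Ok) {y : V} (hy : InSp H f y) :
    b.g ⬝ᵥ co H f y = H.N H.σ y := by
  rw [← h.co_σ, dotProduct_comm, h.N_co ok hy, ok.sN]

lemma Comp.mor_co (h : Comp H b f) (ok : H.Ok) {a β : ℝ} {H1 : Pre V1} {W : V1 →ₗ[ℝ] V}
    (hW : Mor a H1 (H.scale β) W) (hy : ∀ u, InSp H f (W u)) :
    Mor a H1 (b.scale β).pre (co H f ∘ₗ W) :=
  ⟨fun u => (h.N_co ok (hy u)).le.trans (hW.N u), fun u => by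
    have h1 := hW.σ u
    have h2 := h.σ_co ok (hy u)
    simp only [Pre.scale, map_smul, LinearMap.smul_apply, smul_eq_mul] at h1
    rw [← h1, ← h2]
    exact smul_dotProduct β b.g _, fun u => (h.Q_co ok (hy u) a).le.trans (hW.Q u)⟩

/-- the vectors in the span, up to null vectors -/
def spn (ok : H.Ok) {m : ℕ} (f : Fin m → V) : Submodule ℝ V where
  carrier := {y | InSp H f y}
  zero_mem' := by simp [inSp_iff]
  add_mem' {x y} hx hy := by
    have h1 := null_left ok.sN ok.pN ((inSp_iff f x).1 hx)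
    have h2 := null_left ok.sN ok.pN ((inSp_iff f y).1 hy)
    refine (inSp_iff f _).2 ?_
    have e : x + y - emb f (co H f (x + y)) = (x - emb f (co H f x)) + (y - emb f (co H f y)) := by
      simp only [map_add]; abel
    rw [e, LinearMap.map_add₂, h1, h2, add_zero]
  smul_mem' c x hx := by
    have h1 := null_left ok.sN ok.pN ((inSp_iff f x).1 hx)
    refine (inSp_iff f _).2 ?_
    rw [map_smul, map_smul, ← smul_sub, LinearMap.map_smul₂, h1, smul_zero]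

lemma gram (ok : H.Ok) (S : Submodule ℝ V) {T : Set V} (hT : T.Finite) : T ⊆ S →
    ∃ (m : ℕ) (f : Fin m → V), (∀ k l, H.N (f k) (f l) = if k = l then 1 else 0) ∧ (∀ k, f k ∈ S) ∧
      ∀ y ∈ T, InSp H f y := by
  induction T, hT using Set.Finite.induction_on with
  | empty => exact fun _ => ⟨0, Fin.elim0, fun k => k.elim0, fun k => k.elim0, fun _ h => h.elim⟩
  | @insert y T _ _ ih =>
    intro hS
    obtain ⟨m, f, on, hf, hT⟩ := ih ((subset_insert _ _).trans hS)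
    set r := y - emb f (co H f y) with hr
    by_cases h0 : H.N r r = 0
    · exact ⟨m, f, on, hf, fun z hz => hz.elim (fun e => e ▸ (inSp_iff f y).2 h0) (hT z)⟩
    have hp : 0 < H.N r r := lt_of_le_of_ne (ok.pN r) (Ne.symm h0)
    have hc : 0 < √(H.N r r) := sqrt_pos.2 hp
    have hcc : √(H.N r r) * √(H.N r r) = H.N r r := mul_self_sqrt hp.le
    have hrf : ∀ k, H.N (f k) r = 0 := fun k => by
      rw [hr, map_sub, bil_emb, ok.sN (f k) y]
      simp [on, dotProduct]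
    have hre : ∀ u, H.N (emb f u) r = 0 := fun u => by
      rw [ok.sN, bil_emb]; simp [dotProduct, ok.sN r, hrf]
    have hyr : H.N y r = H.N r r := by
      conv_rhs => rw [hr, LinearMap.map_sub₂, ← hr, hre, sub_zero]
    have hres : ∀ z, z - emb (Fin.cons ((√(H.N r r))⁻¹ • r) f : Fin (m + 1) → V)
        (co H (Fin.cons ((√(H.N r r))⁻¹ • r) f : Fin (m + 1) → V) z) =
        z - emb f (co H f z) - (H.N z r / H.N r r) • r := fun z => by
      rw [emb_apply, emb_apply, Fin.sum_univ_succ]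
      simp only [co_apply, Fin.cons_zero, Fin.cons_succ, map_smul, smul_eq_mul, smul_smul]
      have : (√(H.N r r))⁻¹ * H.N z r * (√(H.N r r))⁻¹ = H.N z r / H.N r r := by
        conv_rhs => rw [← hcc]
        field_simp
      rw [this]; abel
    refine ⟨m + 1, Fin.cons ((√(H.N r r))⁻¹ • r) f, fun k l => ?_, fun k => ?_, fun z hz => ?_⟩
    · refine Fin.cases ?_ (fun k => ?_) k <;> refine Fin.cases ?_ (fun l => ?_) l
      · simp only [Fin.cons_zero, map_smul, LinearMap.smul_apply, smul_eq_mul, if_true]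
        conv_lhs => enter [2, 2]; rw [← hcc]
        field_simp
      · simp [ok.sN r, hrf, (Fin.succ_ne_zero l).symm]
      · simp [hrf]
      · simp [on]
    · refine Fin.cases ?_ (fun k => hf k) k
      exact S.smul_mem _ (S.sub_mem (hS (mem_insert _ _)) (emb_mem hf _))
    · rw [inSp_iff, hres]
      rcases hz with rfl | hz
      · rw [hyr, div_self h0, one_smul, ← hr, sub_self]; simp
      · rw [(hT z hz).N ok r, hre, zero_div, zero_smul, sub_zero]
        exact (inSp_iff f z).1 (hT z hz)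

end abs

theorem compStmt : CompStmt := by
  intro V _ _ H ok S T hT hS
  obtain ⟨m, f, on, hf, hT⟩ := gram ok S hT hS
  refine ⟨⟨m, Matrix.of fun k l => H.En (f k) (f l), fun k => H.N H.σ (f k), ?_⟩, f,
    ⟨on, fun _ _ => rfl, fun _ => rfl⟩, hf, fun y hy => ?_⟩
  · refine posSemidef_iff_dotProduct_mulVec.2 ⟨?_, fun x => ?_⟩
    · ext k l; simp [ok.sE (f l)]
    · rw [star_trivial, ← bil_emb2]; exact ok.pE _
  · exact Submodule.span_le.2 (show T ⊆ spn ok f from hT) hy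

end Crest.Agent.T157.Tw
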