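import Crest.Agent.T157.TwLam_30
import Crest.Agent.T157.TwM1_52
import Crest.Agent.T157.TwM2_42
import Crest.Agent.T157.TwLin_84

/-!
# Row 157, block B/S4 (helper30): (M) and the bounds on `lam`, unconditional
-/

namespace Crest.Agent.T157.Tw

theorem domStmt : DomStmt := domGlue okStmt compStmt m1Stmt m2Stmt
theorem lamStmt : LamStmt := lamGlue okStmt compStmt m1Stmt m2Stmt linStmt zeroStmt
theorem lev_ok : LevOk := levOk okStmt

end Crest.Agent.T157.Tw
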