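import Crest.Agent.T157.TwDom_30

/-!
# Row 157, block B/S4 (helper30): `lam ≤ (1-β)²`, `lam = 1` at `β = 0`, `β γ ≤ 1 - β (lam - a)`
-/

set_option autoImplicit false

noncomputable section

namespace Crest.Agent.T157.Tw

open MeasureTheory Real Matrix Set Filter Topology

variable {𝒞 : Cls} {β : ℝ}

lemma lin_mem (li : LinStmt) (𝒞 : Cls) (t : Bath) (u : Fin t.m → ℝ) : lin _ u ∈ 𝒞.D t.m :=
  ⟨𝒞.lin _ u, (li t 0 u).1⟩

lemma dot_nonneg {m : ℕ} (u : Fin m → ℝ) : 0 ≤ u ⬝ᵥ u := by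
  simpa using dotProduct_star_self_nonneg u

/-! ### the upper bound -/

lemma chain (ok : OkStmt) (li : LinStmt) (𝒞 : Cls) (h0 : 0 ≤ β) (h1 : β < 1) (N : ℕ) :
    ∃ t, Tw0 𝒞 β t ∧ ∃ Y : Fin t.m → ℝ, (1 - β) * (Y ⬝ᵥ t.g) = β * (1 - β ^ N) ∧
      (1 - β) * N - 2 * (1 - β ^ N) ≤ (1 - β) ^ 3 * (Y ⬝ᵥ Y) ∧ Y ⬝ᵥ t.A *ᵥ Y ≤ N := by
  induction N with
  | zero => exact ⟨_, .nil, 0, by simp, by simp, by simp⟩
  | succ N ih =>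
    obtain ⟨t, ht, Y, e1, e2, e3⟩ := ih
    have o := ok t 0
    obtain ⟨-, l1, l2, l3⟩ := li t 0 Y
    have hF : sp _ + lin _ Y ∈ 𝒞.D t.m := add_mem (sp_mem _ _) (lin_mem li 𝒞 t Y)
    obtain ⟨b, f, hc, -, hb, -, hs⟩ := ht.next ok (finite_singleton _) (singleton_subset_iff.2 hF)
    have hy := hs _ (Submodule.subset_span rfl)
    have k1 := hc.σ_co o.1 hy
    have k2 := hc.N_co o.1 (z := sp _ + lin _ Y) hy
    have k3 := hc.En_co o.1 hy hy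
    have s1 : (imp t 0).N (sp _) (sp _) = 1 := o.2.1.trans sech2_zero
    have s2 := (li t 0 (t.A *ᵥ Y)).2.1
    have s3 := (li t 0 (t.A *ᵥ Y)).2.2.1 Y
    have s4 := l3 (sp _)
    have s5 := l3 (lin _ Y)
    have s6 := l2 Y
    rw [sech2_zero, one_mul] at l1 s2 s3 s6
    rw [o.1.sN, s2, s1] at s4
    rw [s3, l1, ← t.symm] at s5
    change _ = (imp t 0).N (sp _) _ at k1
    generalize co (imp t 0) f (sp _ + lin _ Y) = Y' at k1 k2 k3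
    simp only [map_add, LinearMap.add_apply, o.1.sN (lin _ Y) (sp _), o.1.sE (sp _) (lin _ Y),
      s1, l1, s4, s5, s6] at k1 k2 k3
    refine ⟨_, hb, Y', ?_, ?_, ?_⟩
    · show (1 - β) * (Y' ⬝ᵥ β • b.g) = _
      rw [dotProduct_smul, dotProduct_comm, k1, smul_eq_mul, pow_succ]
      linear_combination β * e1
    · show _ ≤ _ * (Y' ⬝ᵥ Y')
      have hp : 0 ≤ β ^ N := pow_nonneg h0 N
      have hd : 0 < 1 - β := sub_pos.2 h1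
      have e4 : (1 - β) * (1 + Y ⬝ᵥ t.g) = 1 - β ^ N * β := by linear_combination e1
      have e5 : (1 - β) ^ 3 * (1 + Y ⬝ᵥ t.g) ^ 2 = (1 - β) * (1 - β ^ N * β) ^ 2 := by
        rw [← e4]; ring
      have e6 : 0 ≤ (1 - β) * ((β ^ N * β) ^ 2 + 2 * (β ^ N * (1 - β))) := by positivity
      rw [k2]
      push_cast
      rw [pow_succ β N]
      nlinarith
    · show Y' ⬝ᵥ b.A *ᵥ Y' ≤ _
      have := o.2.2
      rw [k3]
      push_cast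
      linarith

lemma lam_le (ok : OkStmt) (li : LinStmt) (𝒞 : Cls) (h0 : 0 ≤ β) (h1 : β < 1) :
    lam 𝒞 β ≤ (1 - β) ^ 2 := by
  by_contra hc
  have hd : 0 < 1 - β := sub_pos.2 h1
  have hc' : 0 < (1 - β) * (lam 𝒞 β - (1 - β) ^ 2) := mul_pos hd (sub_pos.2 (not_le.1 hc))
  obtain ⟨N, hN⟩ := exists_nat_gt (2 * lam 𝒞 β / ((1 - β) * (lam 𝒞 β - (1 - β) ^ 2)))
  rw [div_lt_iff₀ hc'] at hN
  obtain ⟨t, ht, Y, -, e2, e3⟩ := chain ok li 𝒞 h0 h1 N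
  have g1 := mul_le_mul_of_nonneg_left ((ht.ge Y).trans e3) (pow_pos hd 3).le
  have g2 := mul_le_mul_of_nonneg_left e2 (lam_nonneg 𝒞 β)
  have g3 := mul_nonneg (lam_nonneg 𝒞 β) (pow_nonneg h0 N)
  nlinarith

lemma Tw0.zero (ze : ZeroStmt) {t : Bath} (ht : Tw0 𝒞 0 t) : t.g = 0 ∧ t.Ge 1 := by
  induction ht with
  | nil => exact ⟨rfl, fun u => by obtain rfl : u = 0 := funext fun i => i.elim0; simp⟩
  | @step b b' f _ _ hc _ ih =>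
    refine ⟨zero_smul ℝ b'.g, (ge_iff b' 1).2 fun u => ?_⟩
    rw [← hc.Q_emb]
    exact ze b 0 ih.1 ih.2 _

lemma lam_zero (ok : OkStmt) (li : LinStmt) (ze : ZeroStmt) (𝒞 : Cls) : lam 𝒞 0 = 1 := by
  refine le_antisymm (by simpa using lam_le ok li 𝒞 le_rfl one_pos) (le_csInf ?_ ?_)
  · obtain ⟨b, f, hc, -, hb, hs, -⟩ := (Tw0.nil (𝒞 := 𝒞) (β := 0)).next ok finite_empty
      (empty_subset _)
    exact ⟨_, _, hb, co _ f (sp _), (hc.N_co (ok _ 0).1 hs).trans ((ok _ 0).2.1.trans sech2_zero),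
      rfl⟩
  · rintro _ ⟨t, ht, u, hu, rfl⟩
    simpa [hu] using (ht.zero ze).2 u

/-! ### the response -/

lemma one_le_Gs (ok : OkStmt) {a : ℝ} (ha : a ∈ Ico 0 (lam 𝒞 β)) : 1 ≤ Gs 𝒞 β a := by
  have h := le_Gs ok (Tw0.nil (𝒞 := 𝒞) (β := β)) (sp_mem _ _) ha.2
  have o := (ok Bath.nil 0).2
  rw [Pre.Q, o.1, sech2_zero] at h
  linarith [o.2, ha.1]

lemma Gs_ne (𝒞 : Cls) (β a : ℝ) : {r | ∃ t, Tw0 𝒞 β t ∧ ∃ F ∈ 𝒞.C t.m ⊓ Od t.m,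
    r = 2 * (imp t 0).N (sp _) F - (imp t 0).Q a F}.Nonempty := ⟨_, _, .nil, _, sp_mem _ _, rfl⟩

lemma Gs_le (ok : OkStmt) {a : ℝ} (ha : a < lam 𝒞 β) : Gs 𝒞 β a ≤ 1 / (lam 𝒞 β - a) :=
  csSup_le (Gs_ne _ _ _) fun _ ⟨_, ht, _, hF, h⟩ => h ▸ val_le ok ht hF ha

lemma Gs_mono (ok : OkStmt) {a a' : ℝ} (h : a ≤ a') (ha : a' < lam 𝒞 β) : Gs 𝒞 β a ≤ Gs 𝒞 β a' :=
  csSup_le (Gs_ne _ _ _) fun _ ⟨t, ht, F, hF, e⟩ => by
    have h1 := le_Gs ok ht hF ha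
    have h2 := mul_le_mul_of_nonneg_right h ((ok t 0).1.pN F)
    unfold Pre.Q at *
    linarith

/-- the bath is below its own impurity -/
def Good (𝒞 : Cls) (β : ℝ) (t : Bath) : Prop :=
  ∃ W, Mor (lam 𝒞 β) t.pre ((imp t 0).scale β) W ∧ ∀ u, W u ∈ 𝒞.D t.m

lemma lift0 (m1 : M1Stmt) (m2 : M2Stmt) {b t : Bath} (ht : Tw0 𝒞 β t)
    {W : (Fin b.m → ℝ) →ₗ[ℝ] (Fin t.m → ℝ)} (hW : Mor (lam 𝒞 β) b.pre t.pre W) :
    ∃ Φ, Mor (lam 𝒞 β) (imp b 0) (imp t 0) Φ ∧ ∀ F ∈ 𝒞.C b.m, Φ F ∈ 𝒞.D t.m := by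
  obtain ⟨Φ, hΦ, hM⟩ := lift_odd m1 m2 𝒞 (lam_nonneg 𝒞 β) ht.ge hW
  refine ⟨Φ, ⟨fun F => ?_, fun F => ?_, fun F => ?_⟩, hΦ⟩
  · simpa [sech2_zero] using (hM 0 F).1
  · exact ((one_mul _).symm.trans (by rw [sech2_zero]; rfl)).trans (hM 0 F).2.1
  · simpa [sech2_zero] using (hM 0 F).2.2 _ ⟨lam_nonneg 𝒞 β, le_rfl⟩

/-- one more level above a good bath -/
lemma good_next (ok : OkStmt) (m1 : M1Stmt) (m2 : M2Stmt) {t : Bath} (ht : Tw0 𝒞 β t)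
    (hg : Good 𝒞 β t) {T : Set (CV t.m)} (hT : T.Finite) (hS : T ⊆ 𝒞.D t.m) :
    ∃ (b : Bath) (f : Fin b.m → CV t.m), Comp (imp t 0) b f ∧ Tw0 𝒞 β (b.scale β) ∧
      InSp (imp t 0) f (sp _) ∧ (∀ y ∈ Submodule.span ℝ T, InSp (imp t 0) f y) ∧
      Good 𝒞 β (b.scale β) ∧ ∃ Φ, Mor (lam 𝒞 β) (imp t 0) (imp (b.scale β) 0) Φ ∧
        ∀ F ∈ 𝒞.C t.m, Φ F ∈ 𝒞.D b.m := by
  obtain ⟨W, hW, hD⟩ := hg
  obtain ⟨b, f, hc, hf, hb, h0, hs⟩ := ht.next ok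
    (hT.union (finite_range fun k => W (Pi.single k 1)))
    (union_subset hS (by rintro _ ⟨k, rfl⟩; exact hD _))
  obtain ⟨Φ, hΦ, hΦ'⟩ := lift0 m1 m2 hb (hc.mor_co (ok t 0).1 hW fun u =>
    hs _ (Submodule.span_mono subset_union_right (mem_span_range W u)))
  exact ⟨b, f, hc, hb, h0, fun y hy => hs y (Submodule.span_mono subset_union_left hy),
    ⟨Φ ∘ₗ emb f, ((hc.mor _).comp hΦ).scale β, fun u => hΦ' _ (emb_mem hf u).1⟩, Φ, hΦ, hΦ'⟩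

lemma exists_good (ok : OkStmt) (m1 : M1Stmt) (m2 : M2Stmt) {b : Bath} (hb : Tw0 𝒞 β b) :
    ∃ t, Tw0 𝒞 β t ∧ Good 𝒞 β t ∧ ∃ W, Mor (lam 𝒞 β) b.pre t.pre W := by
  induction hb with
  | nil =>
    refine ⟨_, .nil, ⟨0, ⟨fun u => ?_, fun u => ?_, fun u => ?_⟩, fun _ => zero_mem _⟩, _,
      Mor.refl _ _⟩ <;> obtain rfl : u = 0 := (funext fun i => i.elim0) <;> simp [Pre.Q]
  | @step b b' f _ hf hc _ ih =>
    obtain ⟨t, ht, hg, W, hW⟩ := ih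
    obtain ⟨Φ, hΦ, hΦ'⟩ := lift0 m1 m2 ht hW
    obtain ⟨b'', f'', hc'', hb'', -, hs, hg'', -⟩ := good_next ok m1 m2 ht hg
      (finite_range fun k => (Φ ∘ₗ emb f) (Pi.single k 1))
      (by rintro _ ⟨k, rfl⟩; exact hΦ' _ (emb_mem hf _).1)
    exact ⟨_, hb'', hg'', _, hc''.mor_co (ok t 0).1 (((hc.mor _).comp hΦ).scale β)
      fun u => hs _ (mem_span_range (Φ ∘ₗ emb f) u)⟩

lemma solve (b : Bath) {l a : ℝ} (hb : b.Ge l) (ha : a < l) (y : Fin b.m → ℝ) :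
    ∃ r, b.A *ᵥ r = y + a • r := by
  have inj : Function.Injective (Matrix.toLin' b.A - a • LinearMap.id : _ →ₗ[ℝ] _) := by
    refine (injective_iff_map_eq_zero _).2 fun u hu => ?_
    have h1 : b.A *ᵥ u = a • u := by simpa [sub_eq_zero] using hu
    have h2 := hb u
    rw [h1, dotProduct_smul, smul_eq_mul] at h2
    have h3 := dot_nonneg u
    exact dotProduct_self_eq_zero.1 (by nlinarith)
  obtain ⟨r, hr⟩ := LinearMap.injective_iff_surjective.1 inj y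
  exact ⟨r, by rw [← hr]; simp⟩

lemma gal {b : Bath} {a : ℝ} (hb : b.Ge a) {r : Fin b.m → ℝ} (hr : b.A *ᵥ r = b.g + a • r)
    (u : Fin b.m → ℝ) : 2 * (b.g ⬝ᵥ u) - b.pre.Q a u ≤ r ⬝ᵥ b.g := by
  have h := hb (u - r)
  have h1 := b.symm r u
  rw [hr] at h1
  simp only [mulVec_sub, hr, sub_dotProduct, dotProduct_sub, dotProduct_add, add_dotProduct,
    dotProduct_smul, smul_dotProduct, smul_eq_mul, h1, dotProduct_comm r u,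
    dotProduct_comm u b.g] at h
  rw [pre_Q]
  linarith

/-- a test function of value at least `x` -/
def Near (𝒞 : Cls) (a x : ℝ) (t : Bath) : Prop :=
  ∃ F ∈ 𝒞.D t.m, x ≤ 2 * (imp t 0).N (sp _) F - (imp t 0).Q a F

lemma Near.lift {a x : ℝ} {b t : Bath} (h : Near 𝒞 a x b) (ha : a ≤ lam 𝒞 β) {Φ : CV b.m →ₗ[ℝ] CV t.m}
    (hΦ : Mor (lam 𝒞 β) (imp b 0) (imp t 0) Φ) (hΦ' : ∀ F ∈ 𝒞.C b.m, Φ F ∈ 𝒞.D t.m) :
    Near 𝒞 a x t := by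
  obtain ⟨F, hF, hx⟩ := h
  have h1 : (imp t 0).N (sp _) (Φ F) = (imp b 0).N (sp _) F := hΦ.σ F
  exact ⟨Φ F, hΦ' F hF.1, by linarith [(hΦ.mono ha).Q F]⟩

lemma step2 (ok : OkStmt) (m1 : M1Stmt) (m2 : M2Stmt) (li : LinStmt) {a x : ℝ} (ha : a < lam 𝒞 β)
    {t : Bath} (ht : Tw0 𝒞 β t) (hg : Good 𝒞 β t) (hn : Near 𝒞 a x t) :
    ∃ (b : Bath) (f : Fin b.m → CV t.m), Comp (imp t 0) b f ∧ Tw0 𝒞 β (b.scale β) ∧
      Good 𝒞 β (b.scale β) ∧ Near 𝒞 a x (b.scale β) ∧ b.g ⬝ᵥ b.g = 1 ∧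
      (∀ u, InSp (imp t 0) f (lin _ u)) ∧ ∃ r, b.A *ᵥ r = b.g + a • r ∧ x ≤ r ⬝ᵥ b.g := by
  obtain ⟨F, hF, hx⟩ := id hn
  obtain ⟨b, f, hc, hb, h0, hs, hg', Φ, hΦ, hΦ'⟩ := good_next ok m1 m2 ht hg
    ((finite_range fun k => lin _ (Pi.single k 1)).insert F)
    (insert_subset hF (by rintro _ ⟨k, rfl⟩; exact lin_mem li 𝒞 t _))
  have o := ok t 0
  have hge : b.Ge (lam 𝒞 β) := hb.ge
  obtain ⟨r, hr⟩ := solve b hge ha b.g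
  have hy := hs F (Submodule.subset_span (mem_insert _ _))
  have h1 := gal (fun u => (mul_le_mul_of_nonneg_right ha.le (dot_nonneg u)).trans (hge u)) hr
    (co (imp t 0) f F)
  rw [hc.σ_co o.1 hy, hc.Q_co o.1 hy] at h1
  refine ⟨b, f, hc, hb, hg', hn.lift ha.le hΦ hΦ', ?_, fun u => hs _
    (Submodule.span_mono (subset_insert _ _) (mem_span_range _ u)), r, hr, hx.trans h1⟩
  rw [← hc.co_σ]
  exact (hc.N_co o.1 h0).trans (o.2.1.trans sech2_zero)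

lemma lin_co (ok : OkStmt) (li : LinStmt) {t b : Bath} {f : Fin b.m → CV t.m}
    (hc : Comp (imp t 0) b f) (hs : ∀ u, InSp (imp t 0) f (lin _ u)) (a : ℝ) :
    (∀ z, co (imp t 0) f (lin _ z) ⬝ᵥ b.g = z ⬝ᵥ t.g) ∧
    (∀ z, co (imp t 0) f (lin _ z) ⬝ᵥ co (imp t 0) f (lin _ z) = z ⬝ᵥ z + (z ⬝ᵥ t.g) ^ 2) ∧
    ∀ u y, t.A *ᵥ u = y + a • u → b.A *ᵥ co (imp t 0) f (lin _ u) =
      co (imp t 0) f (lin _ y) + a • co (imp t 0) f (lin _ u) - (t.A *ᵥ u ⬝ᵥ t.g) • b.g := by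
  have o := (ok t 0).1
  refine ⟨fun z => ?_, fun z => ?_, fun u y hu => funext fun j => ?_⟩
  · rw [dotProduct_comm, hc.σ_co o (hs z)]
    exact (li t 0 z).2.1.trans (by rw [sech2_zero, one_mul])
  · rw [hc.N_co o (hs z), (li t 0 z).2.2.1, sech2_zero, one_mul, sq]
  · have h2 : (imp t 0).N (sp _) (f j) = b.g j := hc.g j
    rw [hc.A_co o (hs u), (li t 0 u).2.2.2, h2]
    conv_lhs => enter [1]; rw [hu]
    simp

lemma chain2 (ok : OkStmt) (m1 : M1Stmt) (m2 : M2Stmt) (li : LinStmt) (h0 : 0 ≤ β) {a x : ℝ}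
    (ha : a ∈ Ico 0 (lam 𝒞 β)) (hx0 : 0 ≤ x) (hx : x < Gs 𝒞 β a) (k : ℕ) :
    ∃ b : Bath, Tw0 𝒞 β (b.scale β) ∧ Good 𝒞 β (b.scale β) ∧ Near 𝒞 a x (b.scale β) ∧
      b.g ⬝ᵥ b.g = 1 ∧ ∃ r y : Fin b.m → ℝ, b.A *ᵥ r = b.g + a • r ∧ y ⬝ᵥ b.g = β ^ k ∧
        (1 - β ^ 2) * (y ⬝ᵥ y) = 1 - (β ^ k * β) ^ 2 ∧
        (β * (1 + a * x)) ^ k * (1 + a * x) ≤ b.A *ᵥ r ⬝ᵥ y := by
  have hγ : 0 ≤ 1 + a * x := by have := ha.1; positivity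
  induction k with
  | zero =>
    obtain ⟨_, ⟨t0, ht0, F, hF, rfl⟩, hlt⟩ := exists_lt_of_lt_csSup (Gs_ne 𝒞 β a) hx
    obtain ⟨t, ht, hg, W, hW⟩ := exists_good ok m1 m2 ht0
    obtain ⟨Φ, hΦ, hΦ'⟩ := lift0 m1 m2 ht hW
    obtain ⟨b, f, -, hb, hg', hn, e, -, r, hr, hrx⟩ := step2 ok m1 m2 li ha.2 ht hg
      (Near.lift ⟨F, hF, hlt.le⟩ ha.2.le hΦ hΦ')
    refine ⟨b, hb, hg', hn, e, r, b.g, hr, by simp [e], by simp [e], ?_⟩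
    rw [hr, add_dotProduct, smul_dotProduct, e, smul_eq_mul, pow_zero, one_mul]
    linarith [mul_le_mul_of_nonneg_left hrx ha.1]
  | succ k ih =>
    obtain ⟨b, hb, hg, hn, -, r, y, hr, e1, e2, e3⟩ := ih
    obtain ⟨b', f, hc, hb', hg', hn', e, hs, r', hr', hrx⟩ := step2 ok m1 m2 li ha.2 hb hg hn
    obtain ⟨u, hu⟩ := solve b hb.ge ha.2 y
    obtain ⟨T, c1, c2, c3⟩ : ∃ T : (Fin b.m → ℝ) → Fin b'.m → ℝ,
        (∀ z, T z ⬝ᵥ b'.g = z ⬝ᵥ β • b.g) ∧ (∀ z, T z ⬝ᵥ T z = z ⬝ᵥ z + (z ⬝ᵥ β • b.g) ^ 2) ∧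
        ∀ u y, b.A *ᵥ u = y + a • u → b'.A *ᵥ T u = T y + a • T u - (b.A *ᵥ u ⬝ᵥ β • b.g) • b'.g :=
      ⟨_, lin_co ok li hc hs a⟩
    have id1 := c3 u y hu
    simp only [dotProduct_smul, smul_eq_mul] at c1 c2 id1
    have id2 : b.A *ᵥ u ⬝ᵥ b.g = b.A *ᵥ r ⬝ᵥ y := by
      have h1 := b.symm r u
      rw [hr, hu] at h1
      rw [hr, hu]
      simp only [dotProduct_add, add_dotProduct, dotProduct_smul, smul_dotProduct, smul_eq_mul,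
        dotProduct_comm b.g] at h1 ⊢
      linear_combination (-a) * h1
    have id3 := b'.symm r' (T u)
    rw [id1, hr'] at id3
    have id4 : b.A *ᵥ u ⬝ᵥ b.g = y ⬝ᵥ b.g + a * (u ⬝ᵥ b.g) := by
      rw [hu, add_dotProduct, smul_dotProduct, smul_eq_mul]
    simp only [dotProduct_add, dotProduct_sub, add_dotProduct, dotProduct_smul, smul_dotProduct,
      smul_eq_mul, dotProduct_comm b'.g, c1] at id3
    refine ⟨b', hb', hg', hn', e, r', T y, hr', by rw [c1, e1, pow_succ'], ?_, ?_⟩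
    · rw [c2, e1, pow_succ β k]
      linear_combination e2
    · have e4 : b'.A *ᵥ r' ⬝ᵥ T y = β * (b.A *ᵥ r ⬝ᵥ y) * (1 + a * (r' ⬝ᵥ b'.g)) := by
        rw [hr', add_dotProduct, smul_dotProduct, smul_eq_mul, dotProduct_comm b'.g, c1, ← id2]
        linear_combination a * id3 - β * id4
      have e5 : 0 ≤ (β * (1 + a * x)) ^ k * (1 + a * x) := by positivity
      rw [e4, pow_succ']
      calc β * (1 + a * x) * (β * (1 + a * x)) ^ k * (1 + a * x)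
          = β * ((β * (1 + a * x)) ^ k * (1 + a * x)) * (1 + a * x) := by ring
        _ ≤ _ := mul_le_mul (mul_le_mul_of_nonneg_left e3 h0)
            (by linarith [mul_le_mul_of_nonneg_left hrx ha.1]) hγ (mul_nonneg h0 (e5.trans e3))

lemma edge (ok : OkStmt) (m1 : M1Stmt) (m2 : M2Stmt) (li : LinStmt) (h0 : 0 ≤ β) (h1 : β < 1) {a : ℝ}
    (ha : a ∈ Ico 0 (lam 𝒞 β)) : β * (1 + a * Gs 𝒞 β a) ≤ 1 := by
  have hG := one_le_Gs ok ha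
  have key : ∀ x ∈ Ioo 0 (Gs 𝒞 β a), β * (1 + a * x) ≤ 1 := fun x hx => by
    by_contra hc
    have hd : 0 < lam 𝒞 β - a := sub_pos.2 ha.2
    have hβ : 0 < 1 - β ^ 2 := by nlinarith
    obtain ⟨k, hk⟩ := pow_unbounded_of_one_lt
      (1 + a ^ 2 * (1 / (lam 𝒞 β - a) ^ 2) + 1 / (1 - β ^ 2)) (not_le.1 hc)
    obtain ⟨b, hb, -, -, e, r, y, hr, -, e2, e3⟩ := chain2 ok m1 m2 li h0 ha hx.1.le hx.2 k
    have g1 : lam 𝒞 β * (r ⬝ᵥ r) ≤ r ⬝ᵥ b.A *ᵥ r := hb.ge r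
    have g2 := dot_nonneg (b.g - (lam 𝒞 β - a) • r)
    have g3 := dot_nonneg (b.g - y)
    have g4 := dot_nonneg (a • r - y)
    rw [hr] at g1 e3
    simp only [dotProduct_add, dotProduct_sub, add_dotProduct, sub_dotProduct, dotProduct_smul,
      smul_dotProduct, smul_eq_mul, e, dotProduct_comm b.g, dotProduct_comm y r] at g1 g2 g3 g4 e3
    have g5 : r ⬝ᵥ r ≤ 1 / (lam 𝒞 β - a) ^ 2 := by
      rw [le_div_iff₀ (by positivity)]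
      nlinarith [mul_le_mul_of_nonneg_left g1 hd.le]
    have g6 : y ⬝ᵥ y ≤ 1 / (1 - β ^ 2) := by
      rw [le_div_iff₀ hβ]; nlinarith [sq_nonneg (β ^ k * β)]
    have g7 := mul_le_mul_of_nonneg_left g5 (sq_nonneg a)
    have g8 : (β * (1 + a * x)) ^ k ≤ (β * (1 + a * x)) ^ k * (1 + a * x) :=
      le_mul_of_one_le_right (pow_nonneg (zero_le_one.trans (not_le.1 hc).le) k)
        (by linarith [mul_nonneg ha.1 hx.1.le])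
    have g9 : 0 ≤ a ^ 2 * (1 / (lam 𝒞 β - a) ^ 2) := by positivity
    nlinarith
  have hc : ContinuousWithinAt (fun x => β * (1 + a * x)) (Ioo 0 (Gs 𝒞 β a)) (Gs 𝒞 β a) := by
    fun_prop
  have := right_nhdsWithin_Ioo_neBot (zero_lt_one.trans_le hG)
  exact le_of_tendsto hc (eventually_mem_nhdsWithin.mono key)

theorem lamGlue : LamGlue := by
  intro ok _ m1 m2 li ze 𝒞 β h0 h1
  refine ⟨lam_nonneg 𝒞 β, lam_le ok li 𝒞 h0 h1, fun h => h ▸ lam_zero ok li ze 𝒞, fun a ha =>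
    ⟨one_le_Gs ok ha, Gs_le ok ha.2, ?_⟩⟩
  have key : ∀ a' ∈ Ioo a (lam 𝒞 β), β * (1 + a * Gs 𝒞 β a) ≤ 1 - β * (a' - a) := fun a' h => by
    have ha' : a' ∈ Ico 0 (lam 𝒞 β) := ⟨ha.1.trans h.1.le, h.2⟩
    have g1 := edge ok m1 m2 li h0 h1 ha'
    have g2 := mul_le_mul_of_nonneg_left (Gs_mono ok h.1.le h.2) ha.1
    have g3 := mul_le_mul_of_nonneg_left (one_le_Gs ok ha') (sub_pos.2 h.1).le
    have g4 : 1 + a * Gs 𝒞 β a + (a' - a) ≤ 1 + a' * Gs 𝒞 β a' := by linarith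
    linarith [mul_le_mul_of_nonneg_left g4 h0]
  have hc : ContinuousWithinAt (fun x => 1 - β * (x - a)) (Ioo a (lam 𝒞 β)) (lam 𝒞 β) := by
    fun_prop
  have := right_nhdsWithin_Ioo_neBot ha.2
  exact ge_of_tendsto hc (eventually_mem_nhdsWithin.mono key)

end Crest.Agent.T157.Tw
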