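import Crest.Agent.T157.KrS_53
import Crest.Agent.T157.NrmG_84

/-!
# Row 157, part A (helper11): orthonormal frames, Ky Fan tail for a deformed GOE matrix

* `ON`, `OZ`: orthonormal families, orthogonal families of unit or zero vectors; `greedy`;
* `kf_tail`: the Ky Fan sum of `c W - diag a` concentrates at speed `k n`;
* `penalty`: positivity on the complement of a family plus a penalty gives positivity.
-/

set_option autoImplicit false
set_option linter.unusedSectionVars false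

noncomputable section

namespace Crest.Agent.T157.U2

open MeasureTheory ProbabilityTheory Matrix Filter Topology
open Crest.Agent.T157.E Crest.Agent.T157.Cond Crest.Agent.T157.Kr
open Crest.Agent.T157.Eig (nrm opn nrm_nonneg nrm_sq nrm_mul_self abs_bil_le)

variable {ι : Type*} [Fintype ι]

/-- orthonormal family -/
def ON {k : ℕ} (u : Fin k → ι → ℝ) : Prop :=
  (∀ i, u i ⬝ᵥ u i = 1) ∧ ∀ i j, i ≠ j → u i ⬝ᵥ u j = 0

/-- orthogonal family of unit or zero vectors -/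
def OZ {k : ℕ} (u : Fin k → ι → ℝ) : Prop :=
  (∀ i, u i ⬝ᵥ u i = 1 ∨ u i = 0) ∧ ∀ i j, i ≠ j → u i ⬝ᵥ u j = 0

lemma cons_orth {k : ℕ} {u : Fin k → ι → ℝ} {v : ι → ℝ} (hu : ∀ i j, i ≠ j → u i ⬝ᵥ u j = 0)
    (hv : ∀ j, u j ⬝ᵥ v = 0) (i j : Fin (k + 1)) (hij : i ≠ j) :
    (Fin.cons v u : Fin (k + 1) → ι → ℝ) i ⬝ᵥ (Fin.cons v u : Fin (k + 1) → ι → ℝ) j = 0 := by
  rcases Fin.eq_zero_or_eq_succ i with rfl | ⟨i, rfl⟩ <;>
    rcases Fin.eq_zero_or_eq_succ j with rfl | ⟨j, rfl⟩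
  · exact absurd rfl hij
  · simp only [Fin.cons_zero, Fin.cons_succ]; rw [dotProduct_comm]; exact hv j
  · simp only [Fin.cons_zero, Fin.cons_succ]; exact hv i
  · simp only [Fin.cons_succ]; exact hu i j fun h => hij (by rw [h])

/-- greedy choice of an orthonormal family of bad vectors -/
theorem greedy (Bad : (ι → ℝ) → Prop) (k : ℕ) :
    (∃ u : Fin k → ι → ℝ, ON u ∧ ∀ j, Bad (u j)) ∨
    ∃ u : Fin k → ι → ℝ, OZ u ∧ (∀ j, u j = 0 ∨ Bad (u j)) ∧
      ∀ v, v ⬝ᵥ v = 1 → (∀ j, u j ⬝ᵥ v = 0) → ¬ Bad v := by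
  induction k with
  | zero => exact Or.inl ⟨fun j => j.elim0, ⟨fun j => j.elim0, fun j => j.elim0⟩, fun j => j.elim0⟩
  | succ k ih =>
    have pad : ∀ u : Fin k → ι → ℝ, OZ u → (∀ j, u j = 0 ∨ Bad (u j)) →
        (∀ v, v ⬝ᵥ v = 1 → (∀ j, u j ⬝ᵥ v = 0) → ¬ Bad v) →
        ∃ u : Fin (k + 1) → ι → ℝ, OZ u ∧ (∀ j, u j = 0 ∨ Bad (u j)) ∧
          ∀ v, v ⬝ᵥ v = 1 → (∀ j, u j ⬝ᵥ v = 0) → ¬ Bad v := by
      intro u hu hb hv
      refine ⟨Fin.cons 0 u, ⟨fun i => ?_, cons_orth hu.2 fun j => dotProduct_zero _⟩, fun j => ?_,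
        fun v h1 h2 => hv v h1 fun j => by simpa using h2 j.succ⟩
      · rcases Fin.eq_zero_or_eq_succ i with rfl | ⟨i, rfl⟩
        · exact Or.inr rfl
        · simpa using hu.1 i
      · rcases Fin.eq_zero_or_eq_succ j with rfl | ⟨j, rfl⟩
        · exact Or.inl rfl
        · simpa using hb j
    rcases ih with ⟨u, hu, hb⟩ | ⟨u, hu, hb, hv⟩
    · by_cases h : ∃ v, v ⬝ᵥ v = 1 ∧ (∀ j, u j ⬝ᵥ v = 0) ∧ Bad v
      · obtain ⟨v, h1, h2, h3⟩ := h
        refine Or.inl ⟨Fin.cons v u, ⟨fun i => ?_, cons_orth hu.2 h2⟩, fun j => ?_⟩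
        · rcases Fin.eq_zero_or_eq_succ i with rfl | ⟨i, rfl⟩
          · exact h1
          · simpa using hu.1 i
        · rcases Fin.eq_zero_or_eq_succ j with rfl | ⟨j, rfl⟩
          · exact h3
          · simpa using hb j
      · exact Or.inr (pad u ⟨fun i => Or.inl (hu.1 i), hu.2⟩ (fun j => Or.inr (hb j))
          fun v h1 h2 h3 => h ⟨v, h1, h2, h3⟩)
    · exact Or.inr (pad u hu hb hv)

/-- a Ky Fan sum is bounded by `√k` times the Frobenius norm -/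
lemma frame_le {k : ℕ} {u : Fin k → ι → ℝ} (hu : ON u) (M : Matrix ι ι ℝ) :
    |∑ j, u j ⬝ᵥ M *ᵥ u j| ≤ Real.sqrt k * fro M := by
  have e1 : ∑ j, u j ⬝ᵥ M *ᵥ u j = ∑ p : ι × ι, (∑ j, u j p.1 * u j p.2) * M p.1 p.2 := by
    rw [Fintype.sum_prod_type]
    simp only [dotProduct, mulVec, Finset.mul_sum, Finset.sum_mul]
    rw [Finset.sum_comm]
    refine Finset.sum_congr rfl fun a _ => ?_
    rw [Finset.sum_comm]
    exact Finset.sum_congr rfl fun b _ => Finset.sum_congr rfl fun j _ => by ring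
  have e2 : ∑ p : ι × ι, (∑ j, u j p.1 * u j p.2) ^ 2 = k := by
    have h1 : ∀ p : ι × ι, (∑ j, u j p.1 * u j p.2) ^ 2 =
        ∑ j, ∑ l, (u j p.1 * u l p.1) * (u j p.2 * u l p.2) := fun p => by
      rw [sq, Finset.sum_mul_sum]
      exact Finset.sum_congr rfl fun j _ => Finset.sum_congr rfl fun l _ => by ring
    simp only [h1]
    rw [Finset.sum_comm]
    have h2 : ∀ j, ∑ p : ι × ι, ∑ l, (u j p.1 * u l p.1) * (u j p.2 * u l p.2) = 1 := fun j => by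
      rw [Finset.sum_comm]
      have h3 : ∀ l, ∑ p : ι × ι, (u j p.1 * u l p.1) * (u j p.2 * u l p.2) =
          (u j ⬝ᵥ u l) * (u j ⬝ᵥ u l) := fun l => by
        rw [Fintype.sum_prod_type, dotProduct, Finset.sum_mul_sum]
      simp only [h3]
      rw [Finset.sum_eq_single j (fun l _ hl => by rw [hu.2 j l (Ne.symm hl), mul_zero])
        (fun h => absurd (Finset.mem_univ j) h), hu.1 j, mul_one]
    simp [h2]
  rw [e1, fro, ← Real.sqrt_mul (Nat.cast_nonneg k), ← e2, ← Fintype.sum_prod_type']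
  exact Real.abs_le_sqrt (Finset.sum_mul_sq_le_sq_mul_sq _ _ _)

lemma fro_sub_comm (W W' : Matrix ι ι ℝ) : fro (W - W') = fro (W' - W) := by
  unfold fro
  congr 1
  exact Finset.sum_congr rfl fun i _ => Finset.sum_congr rfl fun j _ => by
    simp only [Matrix.sub_apply]; ring

lemma continuous_of_fro {Λ : Matrix ι ι ℝ → ℝ} {L : ℝ}
    (hL : ∀ W W', |Λ W - Λ W'| ≤ L * fro (W - W')) : Continuous Λ := by
  refine continuous_iff_continuousAt.2 fun W => tendsto_iff_norm_sub_tendsto_zero.2 ?_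
  have hcf : Continuous fun W' : Matrix ι ι ℝ => L * fro (W' - W) := by
    unfold fro
    refine continuous_const.mul (Real.continuous_sqrt.comp (continuous_finsetSum _ fun i _ =>
      continuous_finsetSum _ fun j _ => ?_))
    exact ((continuous_id.sub continuous_const).matrix_elem i j).pow 2
  have h0 := hcf.tendsto W
  rw [sub_self, show fro (0 : Matrix ι ι ℝ) = 0 by simp [fro], mul_zero] at h0
  exact squeeze_zero (fun _ => norm_nonneg _) (fun W' => hL W' W) h0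

/-- the form `c v·Wv - ∑ a v²` -/
def qf (c : ℝ) (a : ι → ℝ) (W : Matrix ι ι ℝ) (v : ι → ℝ) : ℝ :=
  c * (v ⬝ᵥ W *ᵥ v) - ∑ i, a i * v i ^ 2

lemma young_term {x y e : ℝ} (he : 0 < e) : 2 * x * y ≤ e * y ^ 2 + x ^ 2 / e := by
  rw [← sub_nonneg]
  have : e * y ^ 2 + x ^ 2 / e - 2 * x * y = (e * y - x) ^ 2 / e := by field_simp; ring
  rw [this]; positivity

/-- **Ky Fan tail**: speed `k` times the speed of the top eigenvalue -/
theorem kf_tail [DecidableEq ι] (s : ℝ) {c c' τ t : ℝ} (hc : 0 ≤ c) (hcc : c ≤ c') (a : ι → ℝ)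
    (ha : ∀ i, τ < a i) {k : ℕ} (hk : 0 < k) (ht : 0 ≤ t) :
    (goe ι s).real {W | ∃ u : Fin k → ι → ℝ, ON u ∧
      k * (-τ + (c * s) ^ 2 * ∑ i, 1 / (a i - τ) + t) ≤ ∑ j, qf c a W (u j)} ≤
      Real.exp (-(k * t ^ 2 / (4 * s ^ 2 * c' ^ 2))) := by
  have hk' : (0 : ℝ) < k := Nat.cast_pos.2 hk
  by_cases hex : ∃ u : Fin k → ι → ℝ, ON u
  swap
  · have : {W : Matrix ι ι ℝ | ∃ u : Fin k → ι → ℝ, ON u ∧
        k * (-τ + (c * s) ^ 2 * ∑ i, 1 / (a i - τ) + t) ≤ ∑ j, qf c a W (u j)} = ∅ := by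
      ext W
      simp only [Set.mem_ofPred_eq, Set.mem_empty_iff_false, iff_false]
      rintro ⟨u, hu, -⟩
      exact hex ⟨u, hu⟩
    rw [this, measureReal_empty]
    positivity
  obtain ⟨u0, hu0⟩ := hex
  have : Nonempty {u : Fin k → ι → ℝ // ON u} := ⟨⟨u0, hu0⟩⟩
  have hsq : ∀ v : ι → ℝ, v ⬝ᵥ v = 1 → τ ≤ ∑ i, a i * v i ^ 2 := fun v hv => by
    calc τ = ∑ i, τ * v i ^ 2 := by
          rw [← Finset.mul_sum]
          have : ∑ i, v i ^ 2 = 1 := by rw [← hv, dotProduct]; simp only [sq]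
          rw [this, mul_one]
      _ ≤ _ := Finset.sum_le_sum fun i _ => mul_le_mul_of_nonneg_right (ha i).le (sq_nonneg _)
  have hsum : ∀ (W : Matrix ι ι ℝ) (u : Fin k → ι → ℝ), ∑ j, qf c a W (u j) =
      c * ∑ j, u j ⬝ᵥ W *ᵥ u j - ∑ j, ∑ i, a i * u j i ^ 2 := fun W u => by
    simp only [qf, Finset.sum_sub_distrib, Finset.mul_sum]
  have hb : ∀ W : Matrix ι ι ℝ, BddAbove (Set.range fun u : {u : Fin k → ι → ℝ // ON u} =>
      ∑ j, qf c a W (u.1 j)) := fun W => by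
    refine ⟨c * (Real.sqrt k * fro W) - k * τ, ?_⟩
    rintro _ ⟨u, rfl⟩
    have h1 := mul_le_mul_of_nonneg_left (abs_le.1 (frame_le u.2 W)).2 hc
    have h2 : ∑ _j : Fin k, τ ≤ ∑ j, ∑ i, a i * u.1 j i ^ 2 :=
      Finset.sum_le_sum fun j _ => hsq _ (u.2.1 j)
    simp only [Finset.sum_const, Finset.card_univ, Fintype.card_fin, nsmul_eq_mul] at h2
    simp only [hsum]
    linarith
  set Λ : Matrix ι ι ℝ → ℝ := fun W => ⨆ u : {u : Fin k → ι → ℝ // ON u}, ∑ j, qf c a W (u.1 j)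
    with hΛ
  have hL0 : 0 ≤ c' * Real.sqrt k := mul_nonneg (hc.trans hcc) (Real.sqrt_nonneg _)
  have h1 : ∀ W W', Λ W ≤ Λ W' + c' * Real.sqrt k * fro (W - W') := fun W W' => ciSup_le fun u => by
    have h2 : ∑ j, qf c a W' (u.1 j) ≤ Λ W' := le_ciSup (hb W') u
    have h3 := (abs_le.1 (frame_le u.2 (W - W'))).2
    simp only [Matrix.sub_mulVec, dotProduct_sub, Finset.sum_sub_distrib] at h3
    have h4 := mul_le_mul_of_nonneg_left h3 hc
    have h5 : c * (Real.sqrt k * fro (W - W')) ≤ c' * (Real.sqrt k * fro (W - W')) :=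
      mul_le_mul_of_nonneg_right hcc (mul_nonneg (Real.sqrt_nonneg _) (fro_nonneg _))
    rw [hsum] at h2 ⊢
    rw [mul_sub] at h4
    linarith
  have hL : ∀ W W', |Λ W - Λ W'| ≤ c' * Real.sqrt k * fro (W - W') := fun W W' => by
    have := h1 W W'
    have := h1 W' W
    rw [fro_sub_comm W' W] at this
    rw [abs_le]; constructor <;> linarith
  have hcont := continuous_of_fro hL
  have hF : FLip (c' * Real.sqrt k) Λ := fun W W' _ _ => hL W W'
  have hi := hF.integrable hL0 hcont.measurable s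
  have : Nonempty {v : ι → ℝ // v ⬝ᵥ v = 1} := ⟨⟨u0 ⟨0, hk⟩, hu0.1 _⟩⟩
  have hΓi : Integrable (fun ξ : ι → ℝ => -τ + (c * s) ^ 2 * ∑ i, ξ i * ξ i / (a i - τ)) (gv ι) :=
    (integrable_const _).add ((integrable_finsetSum _ fun i _ =>
      (Nrm.integrable_sq_coord i).div_const _).const_mul _)
  have hsc : Real.sqrt c * Real.sqrt c = c := Real.mul_self_sqrt hc
  have hE := sf_goe (T := {v : ι → ℝ // v ⬝ᵥ v = 1}) s (u := fun v => Real.sqrt c • v.1)
    (f := fun v => -∑ i, a i * v.1 i ^ 2) (Λ := fun W => Λ W / k)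
    (continuous_pi fun i => continuous_const.mul ((continuous_apply i).comp continuous_subtype_val))
    (by
      refine (continuous_finsetSum _ fun i _ => continuous_const.mul ?_).neg
      exact ((continuous_apply i).comp continuous_subtype_val).pow 2)
    (hi.div_const _) (fun W _ ε hε => by
      obtain ⟨u, hu⟩ := exists_lt_of_lt_ciSup
        (show Λ W - k * ε < Λ W by linarith [mul_pos hk' hε])
      have h2 : ∑ _j : Fin k, (Λ W / k - ε) ≤ ∑ j, qf c a W (u.1 j) := by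
        simp only [Finset.sum_const, Finset.card_univ, Fintype.card_fin, nsmul_eq_mul]
        rw [mul_sub, mul_div_cancel₀ _ hk'.ne']
        exact hu.le
      have : Nonempty (Fin k) := ⟨⟨0, hk⟩⟩
      obtain ⟨j, -, hj⟩ := Finset.exists_le_of_sum_le Finset.univ_nonempty h2
      refine ⟨⟨u.1 j, u.2.1 j⟩, ?_⟩
      simp only [mulVec_smul, dotProduct_smul, smul_dotProduct, smul_eq_mul]
      rw [← mul_assoc, hsc]
      unfold qf at hj
      linarith) hΓi (fun ξ v => by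
      have hl : len (Real.sqrt c • v.1) = Real.sqrt c := by
        rw [len, smul_dotProduct, dotProduct_smul, v.2, smul_eq_mul, smul_eq_mul, mul_one, hsc]
      rw [hl, dotProduct_smul, smul_eq_mul]
      have h2 : ∑ i, 2 * (c * s * ξ i) * v.1 i ≤
          ∑ i, ((a i - τ) * v.1 i ^ 2 + (c * s * ξ i) ^ 2 / (a i - τ)) :=
        Finset.sum_le_sum fun i _ => young_term (sub_pos.2 (ha i))
      have h3 : ∑ i, v.1 i ^ 2 = 1 := by simpa only [sq, dotProduct] using v.2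
      have h4 : ∑ i, ((a i - τ) * v.1 i ^ 2 + (c * s * ξ i) ^ 2 / (a i - τ)) =
          ∑ i, a i * v.1 i ^ 2 - τ + (c * s) ^ 2 * ∑ i, ξ i * ξ i / (a i - τ) := by
        rw [Finset.sum_add_distrib, Finset.mul_sum]
        congr 1
        · simp only [sub_mul, Finset.sum_sub_distrib, ← Finset.mul_sum, h3, mul_one]
        · exact Finset.sum_congr rfl fun i _ => by ring
      have h5 : ∑ i, 2 * (c * s * ξ i) * v.1 i =
          2 * s * Real.sqrt c * (Real.sqrt c * ξ ⬝ᵥ v.1) := by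
        rw [← mul_assoc, mul_assoc (2 * s), hsc, dotProduct, Finset.mul_sum]
        exact Finset.sum_congr rfl fun i _ => by ring
      linarith)
  have hΓ : ∫ ξ : ι → ℝ, (-τ + (c * s) ^ 2 * ∑ i, ξ i * ξ i / (a i - τ)) ∂(gv ι) =
      -τ + (c * s) ^ 2 * ∑ i, 1 / (a i - τ) := by
    rw [integral_add (integrable_const _) ((integrable_finsetSum _ fun i _ =>
      (Nrm.integrable_sq_coord i).div_const _).const_mul _), integral_const_mul,
      integral_finsetSum _ fun i _ => (Nrm.integrable_sq_coord i).div_const _]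
    simp only [integral_div, Nrm.integral_sq_coord, integral_const, probReal_univ, one_smul]
  rw [hΓ, integral_div, div_le_iff₀ hk'] at hE
  have ht' := goe_tail hL0 hF hcont.measurable s (t := k * t) (by positivity)
  have he : -(k * t) ^ 2 / (4 * s ^ 2 * (c' * Real.sqrt k) ^ 2) =
      -(k * t ^ 2 / (4 * s ^ 2 * c' ^ 2)) := by
    rw [mul_pow c', Real.sq_sqrt hk'.le, ← mul_assoc, neg_div, mul_pow, sq (k : ℝ),
      mul_assoc (k : ℝ) k, mul_comm (k : ℝ) (k * t ^ 2), mul_div_mul_right _ _ hk'.ne']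
  rw [he] at ht'
  refine le_trans (measureReal_mono fun W hW => ?_) ht'
  obtain ⟨u, hu, hW⟩ := hW
  have h2 : ∑ j, qf c a W (u j) ≤ Λ W := le_ciSup (hb W) ⟨u, hu⟩
  simp only [Set.mem_ofPred_eq]
  linarith

/-! ### the projection onto an orthogonal family -/

section proj
variable {k : ℕ} {U : Fin k → ι → ℝ}

/-- component along the family -/
def pr (U : Fin k → ι → ℝ) (v : ι → ℝ) : ι → ℝ := ∑ j, (U j ⬝ᵥ v) • U j

lemma dot_pr (x v : ι → ℝ) : x ⬝ᵥ pr U v = ∑ j, (U j ⬝ᵥ v) * (U j ⬝ᵥ x) := by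
  rw [pr, dotProduct_sum]
  exact Finset.sum_congr rfl fun j _ => by
    rw [dotProduct_smul, smul_eq_mul, dotProduct_comm x]

lemma OZ.dot_pr (hU : OZ U) (j : Fin k) (v : ι → ℝ) : U j ⬝ᵥ pr U v = U j ⬝ᵥ v := by
  rw [U2.dot_pr, Finset.sum_eq_single j (fun l _ hl => by rw [hU.2 l j hl, mul_zero])
    (fun h => absurd (Finset.mem_univ j) h)]
  rcases hU.1 j with h | h
  · rw [h, mul_one]
  · simp [h]

lemma OZ.pr_sq (hU : OZ U) (v : ι → ℝ) : pr U v ⬝ᵥ pr U v = ∑ j, (U j ⬝ᵥ v) ^ 2 := by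
  rw [U2.dot_pr]
  exact Finset.sum_congr rfl fun j _ => by rw [hU.dot_pr, sq]

lemma dot_pr_self (v : ι → ℝ) : v ⬝ᵥ pr U v = ∑ j, (U j ⬝ᵥ v) ^ 2 := by
  rw [dot_pr]
  exact Finset.sum_congr rfl fun j _ => by rw [sq]

lemma OZ.dot_sub_pr (hU : OZ U) (j : Fin k) (v : ι → ℝ) : U j ⬝ᵥ (v - pr U v) = 0 := by
  rw [dotProduct_sub, hU.dot_pr, sub_self]

lemma OZ.pyth (hU : OZ U) (v : ι → ℝ) :
    v ⬝ᵥ v = ∑ j, (U j ⬝ᵥ v) ^ 2 + (v - pr U v) ⬝ᵥ (v - pr U v) := by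
  rw [sub_dotProduct, dotProduct_sub, dotProduct_sub, hU.pr_sq, dotProduct_comm (pr U v) v,
    dot_pr_self]
  ring

/-- Bessel -/
lemma OZ.bessel (hU : OZ U) (v : ι → ℝ) : ∑ j, (U j ⬝ᵥ v) ^ 2 ≤ v ⬝ᵥ v := by
  have := hU.pyth v
  linarith [dot_self_nonneg (v - pr U v)]

lemma pen_num {g K x y q11 q12 q21 q22 : ℝ} (hg : 0 < g) (h22 : 2 * g * y ^ 2 ≤ q22)
    (h11 : -(K * (x * x)) ≤ q11) (h12 : -(K * (x * y)) ≤ q12) (h21 : -(K * (y * x)) ≤ q21) :
    g * (x ^ 2 + y ^ 2) ≤ q11 + q12 + q21 + q22 + (K ^ 2 / g + K + g) * x ^ 2 := by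
  have h := young_term (x := K * x) (y := y) hg
  have e : (K * x) ^ 2 / g = K ^ 2 / g * x ^ 2 := by ring
  rw [e] at h
  nlinarith

/-- **penalty**: `M ⪰ 2g` on the complement of the family and `‖M‖ ≤ K` give
`M + (K²/g + K + g) P ⪰ g` -/
theorem penalty [DecidableEq ι] (hU : OZ U) {M : Matrix ι ι ℝ} {K g : ℝ} (hg : 0 < g)
    (hK : opn M ≤ K)
    (h : ∀ v : ι → ℝ, v ⬝ᵥ v = 1 → (∀ j, U j ⬝ᵥ v = 0) → 2 * g ≤ v ⬝ᵥ M *ᵥ v) (v : ι → ℝ) :
    g * (v ⬝ᵥ v) ≤ v ⬝ᵥ M *ᵥ v + (K ^ 2 / g + K + g) * ∑ j, (U j ⬝ᵥ v) ^ 2 := by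
  have hb : ∀ x y : ι → ℝ, -(K * (nrm x * nrm y)) ≤ x ⬝ᵥ M *ᵥ y := fun x y => by
    have h1 := (abs_le.1 (abs_bil_le M x y)).1
    have h2 := mul_le_mul_of_nonneg_right hK (mul_nonneg (nrm_nonneg x) (nrm_nonneg y))
    linarith
  set v1 := pr U v with hv1
  set v2 := v - pr U v with hv2
  have h22 : 2 * g * nrm v2 ^ 2 ≤ v2 ⬝ᵥ M *ᵥ v2 := by
    by_cases h0 : v2 = 0
    · simp [h0]
    · have h1 := h (unitv v2) (unitv_dot h0) fun j => by
        rw [unitv, dotProduct_smul, hv2, hU.dot_sub_pr, smul_zero]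
      have h2 : v2 ⬝ᵥ M *ᵥ v2 = len v2 ^ 2 * (unitv v2 ⬝ᵥ M *ᵥ unitv v2) := by
        conv_lhs => rw [← len_smul_unitv v2]
        rw [mulVec_smul, dotProduct_smul, smul_dotProduct, smul_eq_mul, smul_eq_mul]
        ring
      rw [h2, nrm_sq, ← len_sq, mul_comm]
      exact mul_le_mul_of_nonneg_left h1 (sq_nonneg _)
  have hv : v = v1 + v2 := by rw [hv1, hv2, add_sub_cancel]
  have e1 : v ⬝ᵥ M *ᵥ v = v1 ⬝ᵥ M *ᵥ v1 + v1 ⬝ᵥ M *ᵥ v2 + v2 ⬝ᵥ M *ᵥ v1 + v2 ⬝ᵥ M *ᵥ v2 := by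
    conv_lhs => rw [hv]
    rw [mulVec_add, add_dotProduct, dotProduct_add, dotProduct_add]
    ring
  have e2 : ∑ j, (U j ⬝ᵥ v) ^ 2 = nrm v1 ^ 2 := by rw [nrm_sq, hv1, hU.pr_sq]
  have e3 : v ⬝ᵥ v = nrm v1 ^ 2 + nrm v2 ^ 2 := by rw [hU.pyth v, e2, nrm_sq v2]
  rw [e1, e2, e3]
  exact pen_num hg h22 (hb v1 v1) (hb v1 v2) (hb v2 v1)

/-- the projection matrix of a family -/
def pm (U : Fin k → ι → ℝ) : Matrix ι ι ℝ := ∑ j, vecMulVec (U j) (U j)

lemma pm_mulVec (v : ι → ℝ) : pm U *ᵥ v = pr U v := by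
  rw [pm, pr, Matrix.sum_mulVec]
  refine Finset.sum_congr rfl fun j _ => ?_
  funext i
  simp only [mulVec, dotProduct, vecMulVec_apply, Pi.smul_apply, smul_eq_mul, Finset.sum_mul]
  exact Finset.sum_congr rfl fun l _ => by ring

lemma quad_pm (v : ι → ℝ) : v ⬝ᵥ pm U *ᵥ v = ∑ j, (U j ⬝ᵥ v) ^ 2 := by
  rw [pm_mulVec, dot_pr_self]

lemma pm_transpose : (pm U)ᵀ = pm U := by
  rw [pm, Matrix.transpose_sum]
  exact Finset.sum_congr rfl fun j _ => by rw [transpose_vecMulVec]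

lemma OZ.pr_pr (hU : OZ U) (v : ι → ℝ) : pr U (pr U v) = pr U v := by
  conv_lhs => rw [pr]
  simp only [hU.dot_pr]
  rfl

lemma OZ.isProj [DecidableEq ι] (hU : OZ U) : IsProj (pm U) := by
  refine ⟨pm_transpose, ?_⟩
  ext i j
  have := congrFun (hU.pr_pr (Pi.single j 1)) i
  rw [← pm_mulVec, ← pm_mulVec, mulVec_mulVec] at this
  simpa using this

lemma pm_eq_mul : pm U = (Matrix.of U)ᵀ * Matrix.of U := by
  ext i j
  simp [pm, Matrix.sum_apply, vecMulVec_apply, mul_apply]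

lemma rank_pm_le : (pm U).rank ≤ k := by
  rw [pm_eq_mul]
  exact (rank_mul_le_right _ _).trans (by simpa using rank_le_card_height (Matrix.of U))

lemma OZ.opn_pm_le [DecidableEq ι] (hU : OZ U) : opn (pm U) ≤ 1 :=
  Eig.opn_le_of_sq zero_le_one fun v => by
    rw [pm_mulVec, hU.pr_sq, one_pow, one_mul]; exact hU.bessel v

lemma OZ.trace_pm_le (hU : OZ U) : (pm U).trace ≤ k := by
  rw [pm, trace_sum]
  calc ∑ j, (vecMulVec (U j) (U j)).trace ≤ ∑ _j : Fin k, (1 : ℝ) :=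
        Finset.sum_le_sum fun j _ => by
          rw [trace_vecMulVec]
          rcases hU.1 j with h | h
          · exact h.le
          · simp [h]
    _ = k := by simp

end proj

end Crest.Agent.T157.U2

end
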