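import Crest.Agent.T157.EdMba_36
import Crest.Agent.R146.Lind1_878

/-!
# Row 157, part C: universality through a complex entry, A (helper81)

* `taylor4`: the Schwarz lemma, four times;
* `Ex r q F`: `F` is a holomorphic extension of `q` to the disc of radius `r`;
* `one_entry`: replacement of one Gaussian entry by a fair coin;
* `mix_le`: the mixture of the two laws, entry by entry;
* `univ_le`, `lin_le`: the two comparison theorems.
-/

set_option autoImplicit false
set_option linter.unusedSectionVars false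

noncomputable section

namespace Crest.Agent.T157.Un

open MeasureTheory ProbabilityTheory Metric Finset Filter
open Crest.Agent.T157.E Crest.Agent.T157.Ed

/-! ### Taylor polynomials from sup bounds -/

lemma schwarz {f : ℂ → ℂ} {r K : ℝ} (hr : 0 < r) (hd : DifferentiableOn ℂ f (ball 0 r))
    (hK : ∀ z ∈ ball (0 : ℂ) r, ‖f z - f 0‖ ≤ K) :
    ∃ g : ℂ → ℂ, DifferentiableOn ℂ g (ball 0 r) ∧ (∀ z ∈ ball (0 : ℂ) r, ‖g z‖ ≤ K / r) ∧
      (∀ z ∈ ball (0 : ℂ) r, ‖g z - g 0‖ ≤ 2 * (K / r)) ∧ ∀ z, f z = f 0 + z * g z := by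
  have hb : ∀ z ∈ ball (0 : ℂ) r, ‖dslope f 0 z‖ ≤ K / r := fun z hz =>
    Complex.norm_dslope_le_div_of_mapsTo_ball hd
      (fun w hw => by rw [mem_closedBall, dist_eq_norm]; exact hK w hw) hz
  refine ⟨dslope f 0, (Complex.differentiableOn_dslope (ball_mem_nhds 0 hr)).2 hd, hb,
    fun z hz => ?_, fun z => ?_⟩
  · linarith [norm_sub_le (dslope f 0 z) (dslope f 0 0), hb z hz, hb 0 (mem_ball_self hr)]
  · have := sub_smul_dslope f 0 z
    rw [sub_zero, smul_eq_mul] at this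
    rw [this]; ring

lemma schwarz_le {f : ℂ → ℂ} {r K : ℝ} (hd : DifferentiableOn ℂ f (ball 0 r))
    (hK : ∀ z ∈ ball (0 : ℂ) r, ‖f z - f 0‖ ≤ K) {z : ℂ} (hz : z ∈ ball (0 : ℂ) r) :
    ‖f z - f 0‖ ≤ K / r * ‖z‖ := by
  obtain ⟨g, -, h1, -, h2⟩ := schwarz (pos_of_mem_ball hz) hd hK
  rw [h2 z, add_sub_cancel_left, norm_mul, mul_comm]
  exact mul_le_mul_of_nonneg_right (h1 z hz) (norm_nonneg _)

lemma taylor4 {f : ℂ → ℂ} {r K : ℝ} (hr : 0 < r) (hd : DifferentiableOn ℂ f (ball 0 r))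
    (hK : ∀ z ∈ ball (0 : ℂ) r, ‖f z - f 0‖ ≤ K) :
    ∃ a b c : ℂ, ‖a‖ ≤ K / r ∧ ‖b‖ ≤ 2 * K / r ^ 2 ∧ ‖c‖ ≤ 4 * K / r ^ 3 ∧
      ∀ z ∈ ball (0 : ℂ) r, ‖f z - (f 0 + a * z + b * z ^ 2 + c * z ^ 3)‖ ≤
        8 * K / r ^ 4 * ‖z‖ ^ 4 := by
  have h0 : (0 : ℂ) ∈ ball (0 : ℂ) r := mem_ball_self hr
  obtain ⟨g1, d1, b1, c1, e1⟩ := schwarz hr hd hK
  obtain ⟨g2, d2, b2, c2, e2⟩ := schwarz hr d1 c1
  obtain ⟨g3, d3, b3, c3, e3⟩ := schwarz hr d2 c2
  obtain ⟨g4, -, b4, -, e4⟩ := schwarz hr d3 c3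
  refine ⟨g1 0, g2 0, g3 0, b1 0 h0, (b2 0 h0).trans_eq (by field_simp),
    (b3 0 h0).trans_eq (by field_simp; ring), fun z hz => ?_⟩
  have : f z - (f 0 + g1 0 * z + g2 0 * z ^ 2 + g3 0 * z ^ 3) = g4 z * z ^ 4 := by
    rw [e1 z, e2 z, e3 z, e4 z]; ring
  rw [this, norm_mul, norm_pow]
  refine mul_le_mul_of_nonneg_right ((b4 z hz).trans_eq ?_) (by positivity)
  field_simp; ring

/-- holomorphic extension to the disc of radius `r` -/
structure Ex (r : ℝ) (q : ℝ → ℝ) (F : ℂ → ℂ) : Prop where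
  diff : DifferentiableOn ℂ F (ball 0 r)
  eq : ∀ t : ℝ, |t| < r → F t = q t

lemma mem_ball_real {r t : ℝ} (h : |t| < r) : (t : ℂ) ∈ ball (0 : ℂ) r := by
  simpa [mem_ball_zero_iff] using h

namespace Ex
variable {r r' : ℝ} {q q' : ℝ → ℝ} {F F' : ℂ → ℂ}

lemma zero (h : Ex r q F) (hr : 0 < r) : F 0 = q 0 := by simpa using h.eq 0 (by simpa using hr)

lemma mono (h : Ex r q F) (hr : r' ≤ r) : Ex r' q F :=
  ⟨h.diff.mono (ball_subset_ball hr), fun t ht => h.eq t (ht.trans_le hr)⟩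

lemma const (r c : ℝ) : Ex r (fun _ => c) fun _ => c := ⟨differentiableOn_const _, fun _ _ => rfl⟩

lemma add (h : Ex r q F) (h' : Ex r q' F') : Ex r (fun t => q t + q' t) fun z => F z + F' z :=
  ⟨h.diff.add h'.diff, fun t ht => by rw [h.eq t ht, h'.eq t ht]; push_cast; rfl⟩

lemma sub (h : Ex r q F) (h' : Ex r q' F') : Ex r (fun t => q t - q' t) fun z => F z - F' z :=
  ⟨h.diff.sub h'.diff, fun t ht => by rw [h.eq t ht, h'.eq t ht]; push_cast; rfl⟩

lemma mul (h : Ex r q F) (h' : Ex r q' F') : Ex r (fun t => q t * q' t) fun z => F z * F' z :=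
  ⟨h.diff.mul h'.diff, fun t ht => by rw [h.eq t ht, h'.eq t ht]; push_cast; rfl⟩

lemma div (h : Ex r q F) (h' : Ex r q' F') (h0 : ∀ z ∈ ball (0 : ℂ) r, F' z ≠ 0) :
    Ex r (fun t => q t / q' t) fun z => F z / F' z :=
  ⟨h.diff.div h'.diff h0, fun t ht => by rw [h.eq t ht, h'.eq t ht]; push_cast; rfl⟩

lemma sum {κ : Type*} (s : Finset κ) {q : κ → ℝ → ℝ} {F : κ → ℂ → ℂ}
    (h : ∀ k ∈ s, Ex r (q k) (F k)) : Ex r (fun t => ∑ k ∈ s, q k t) fun z => ∑ k ∈ s, F k z :=
  ⟨DifferentiableOn.fun_sum fun k hk => (h k hk).diff, fun t ht => by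
    push_cast; exact sum_congr rfl fun k hk => (h k hk).eq t ht⟩

lemma congr (h : Ex r q F) (e : ∀ t, |t| < r → q' t = q t) : Ex r q' F :=
  ⟨h.diff, fun t ht => by rw [h.eq t ht, e t ht]⟩

/-- the real Taylor polynomial, with a bound on the whole line -/
lemma taylor {K M : ℝ} (h : Ex r q F) (hr : 0 < r) (hK : ∀ z ∈ ball (0 : ℂ) r, ‖F z - F 0‖ ≤ K)
    (hM : ∀ t, |q t| ≤ M) : ∃ a b c : ℝ, ∀ t,
      |q t - (q 0 + a * t + b * t ^ 2 + c * t ^ 3)| ≤ 8 * K * (t / r) ^ 4 + 2 * M * (t / r) ^ 8 := by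
  obtain ⟨a, b, c, ha, hb, hc, hz⟩ := taylor4 hr h.diff hK
  have hK0 : 0 ≤ K := by simpa using hK 0 (mem_ball_self hr)
  have hM0 : 0 ≤ M := (abs_nonneg _).trans (hM 0)
  refine ⟨a.re, b.re, c.re, fun t => ?_⟩
  rcases lt_or_ge |t| r with ht | ht
  · have h1 := hz t (mem_ball_real ht)
    rw [h.eq t ht, h.zero hr, Complex.norm_real, Real.norm_eq_abs] at h1
    have h2 := (Complex.abs_re_le_norm _).trans h1
    have e : ((q t : ℂ) - (q 0 + a * t + b * t ^ 2 + c * t ^ 3)).re =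
        q t - (q 0 + a.re * t + b.re * t ^ 2 + c.re * t ^ 3) := by
      simp only [← Complex.ofReal_pow, Complex.sub_re, Complex.add_re, Complex.mul_re,
        Complex.ofReal_re, Complex.ofReal_im, mul_zero, sub_zero]
    rw [e] at h2
    refine h2.trans (le_add_of_le_of_nonneg (le_of_eq ?_) (by positivity))
    rw [div_pow, ← abs_pow, abs_of_nonneg (by positivity : 0 ≤ t ^ 4)]; ring
  · set u := |t| / r with hu
    have h1 : 1 ≤ u := (one_le_div hr).2 ht
    have et : |t| = u * r := by rw [hu]; field_simp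
    have e4 : (t / r) ^ 4 = u ^ 4 := by
      rw [hu, div_pow, div_pow, ← abs_pow, abs_of_nonneg (by positivity : 0 ≤ t ^ 4)]
    have e8 : (t / r) ^ 8 = u ^ 8 := by
      rw [hu, div_pow, div_pow, ← abs_pow, abs_of_nonneg (by positivity : 0 ≤ t ^ 8)]
    have p1 : u ≤ u ^ 4 := by simpa using pow_le_pow_right₀ h1 (by norm_num : 1 ≤ 4)
    have p2 : u ^ 2 ≤ u ^ 4 := pow_le_pow_right₀ h1 (by norm_num)
    have p3 : u ^ 3 ≤ u ^ 4 := pow_le_pow_right₀ h1 (by norm_num)
    have p8 : 1 ≤ u ^ 8 := one_le_pow₀ h1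
    have b1 : |a.re * t| ≤ K * u ^ 4 := by
      rw [abs_mul, et]
      calc |a.re| * (u * r) ≤ K / r * (u * r) :=
            mul_le_mul_of_nonneg_right ((Complex.abs_re_le_norm _).trans ha) (by positivity)
        _ = K * u := by field_simp
        _ ≤ _ := by gcongr
    have b2 : |b.re * t ^ 2| ≤ 2 * K * u ^ 4 := by
      rw [abs_mul, abs_pow, et]
      calc |b.re| * (u * r) ^ 2 ≤ 2 * K / r ^ 2 * (u * r) ^ 2 :=
            mul_le_mul_of_nonneg_right ((Complex.abs_re_le_norm _).trans hb) (by positivity)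
        _ = 2 * K * u ^ 2 := by field_simp
        _ ≤ _ := by gcongr
    have b3 : |c.re * t ^ 3| ≤ 4 * K * u ^ 4 := by
      rw [abs_mul, abs_pow, et]
      calc |c.re| * (u * r) ^ 3 ≤ 4 * K / r ^ 3 * (u * r) ^ 3 :=
            mul_le_mul_of_nonneg_right ((Complex.abs_re_le_norm _).trans hc) (by positivity)
        _ = 4 * K * u ^ 3 := by field_simp
        _ ≤ _ := by gcongr
    rw [e4, e8]
    have q1 := abs_le.1 (hM t)
    have q0 := abs_le.1 (hM 0)
    have := abs_le.1 b1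
    have := abs_le.1 b2
    have := abs_le.1 b3
    have : M ≤ M * u ^ 8 := le_mul_of_one_le_right hM0 p8
    have : 0 ≤ K * u ^ 4 := by positivity
    rw [abs_le]; constructor <;> linarith

end Ex

/-! ### one entry -/

/-- the eighth Gaussian moment -/
def m8 : ℝ := ∫ t : ℝ, t ^ 8 ∂gaussianReal 0 1

lemma one_le_m8 : 1 ≤ m8 := Mba36.gauss_even (by decide)

lemma int_pow (b : Bool) (k : ℕ) : Integrable (fun t : ℝ => t ^ k) (entryLaw b) :=
  (Mba36.dom_entry b).int k

lemma mom8 (b : Bool) : ∫ t : ℝ, t ^ 8 ∂entryLaw b ≤ m8 :=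
  (le_abs_self _).trans ((Mba36.dom_entry b).le 8)

lemma mom_odd (b : Bool) {k : ℕ} (hk : Odd k) : ∫ t : ℝ, t ^ k ∂entryLaw b = 0 := by
  cases b
  · exact Mba36.gauss_odd hk
  · exact Mba36.coin_odd hk

lemma mom2 (b : Bool) : ∫ t : ℝ, t ^ 2 ∂entryLaw b = 1 := by
  cases b
  · exact Mba36.gauss_two
  · exact Mba36.coin_even (by decide)

lemma int_cubic (b : Bool) (p q u v : ℝ) :
    Integrable (fun x : ℝ => p + q * x ^ 1 + u * x ^ 2 + v * x ^ 3) (entryLaw b) :=
  (((integrable_const _).add ((int_pow b 1).const_mul _)).add ((int_pow b 2).const_mul _)).add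
    ((int_pow b 3).const_mul _)

lemma integral_cubic (b : Bool) (p q u v : ℝ) :
    ∫ x : ℝ, (p + q * x ^ 1 + u * x ^ 2 + v * x ^ 3) ∂entryLaw b = p + u := by
  have i1 : Integrable (fun x : ℝ => p + q * x ^ 1) (entryLaw b) :=
    (integrable_const _).add ((int_pow b 1).const_mul _)
  have i2 : Integrable (fun x : ℝ => p + q * x ^ 1 + u * x ^ 2) (entryLaw b) :=
    i1.add ((int_pow b 2).const_mul _)
  rw [integral_add i2 ((int_pow b 3).const_mul _), integral_add i1 ((int_pow b 2).const_mul _),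
    integral_add (integrable_const _) ((int_pow b 1).const_mul _), integral_const_mul,
    integral_const_mul, integral_const_mul, mom_odd b (by decide : Odd 1),
    mom_odd b (by decide : Odd 3), mom2]
  simp

lemma sub_pow4 (x y : ℝ) : (x - y) ^ 4 ≤ 8 * (x ^ 4 + y ^ 4) := by
  nlinarith [sq_nonneg (x + y), sq_nonneg (x ^ 2 - y ^ 2), sq_nonneg ((x + y) ^ 2),
    mul_nonneg (sq_nonneg (x + y)) (sq_nonneg (x - y)), mul_nonneg (sq_nonneg (x + y)) (sq_nonneg x),
    mul_nonneg (sq_nonneg (x + y)) (sq_nonneg y)]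

lemma sub_pow8 (x y : ℝ) : (x - y) ^ 8 ≤ 128 * (x ^ 8 + y ^ 8) := by
  have h := sub_pow4 x y
  have h0 : 0 ≤ (x - y) ^ 4 := by positivity
  calc (x - y) ^ 8 = ((x - y) ^ 4) ^ 2 := by ring
    _ ≤ (8 * (x ^ 4 + y ^ 4)) ^ 2 := by gcongr
    _ ≤ _ := by nlinarith [sq_nonneg (x ^ 4 - y ^ 4)]

/-- replacement of one entry -/
theorem one_entry {φ : ℝ → ℝ} (hφ : Measurable φ) {M K r s x₀ : ℝ} (hM : ∀ x, |φ x| ≤ M)
    (hr : 0 < r) (hs : 0 < s) {F : ℂ → ℂ} (h : Ex r (fun t => φ (x₀ + s * t)) F)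
    (hK : ∀ z ∈ ball (0 : ℂ) r, ‖F z - F 0‖ ≤ K) :
    |∫ x, φ x ∂entryLaw true - ∫ x, φ x ∂entryLaw false| ≤
      128 * K * (2 * m8 + x₀ ^ 4) / (s * r) ^ 4 + 512 * M * (m8 + x₀ ^ 8) / (s * r) ^ 8 := by
  obtain ⟨a, b, c, hp⟩ := h.taylor hr hK fun t => hM _
  have hK0 : 0 ≤ K := by simpa using hK 0 (mem_ball_self hr)
  have hM0 : 0 ≤ M := (abs_nonneg _).trans (hM 0)
  have hsr : 0 < s * r := mul_pos hs hr
  set p := φ x₀ - a * x₀ / s + b * x₀ ^ 2 / s ^ 2 - c * x₀ ^ 3 / s ^ 3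
  set q := a / s - 2 * b * x₀ / s ^ 2 + 3 * c * x₀ ^ 2 / s ^ 3
  set u := b / s ^ 2 - 3 * c * x₀ / s ^ 3
  set v := c / s ^ 3
  have key : ∀ x, |φ x - (p + q * x ^ 1 + u * x ^ 2 + v * x ^ 3)| ≤
      (64 * K * (1 + x₀ ^ 4) / (s * r) ^ 4 + 256 * M * x₀ ^ 8 / (s * r) ^ 8) +
        (64 * K / (s * r) ^ 4 + 256 * M / (s * r) ^ 8) * x ^ 8 := fun x => by
    have h1 := hp ((x - x₀) / s)
    have e1 : x₀ + s * ((x - x₀) / s) = x := by field_simp; ring
    have e2 : φ (x₀ + s * 0) + a * ((x - x₀) / s) + b * ((x - x₀) / s) ^ 2 +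
        c * ((x - x₀) / s) ^ 3 = p + q * x ^ 1 + u * x ^ 2 + v * x ^ 3 := by
      simp only [p, q, u, v, mul_zero, add_zero]; field_simp; ring
    simp only [e1] at h1
    rw [e2, div_div, div_pow, div_pow] at h1
    refine h1.trans ?_
    have h4 : (x - x₀) ^ 4 ≤ 8 * (1 + x ^ 8 + x₀ ^ 4) := by
      nlinarith [sub_pow4 x x₀, sq_nonneg (x ^ 4 - 1), sq_nonneg (x ^ 4)]
    calc 8 * K * ((x - x₀) ^ 4 / (s * r) ^ 4) + 2 * M * ((x - x₀) ^ 8 / (s * r) ^ 8)
        ≤ 8 * K * (8 * (1 + x ^ 8 + x₀ ^ 4) / (s * r) ^ 4) +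
          2 * M * (128 * (x ^ 8 + x₀ ^ 8) / (s * r) ^ 8) := by
          gcongr; exact sub_pow8 x x₀
      _ = _ := by ring
  have one : ∀ b' : Bool, |∫ x, φ x ∂entryLaw b' - (p + u)| ≤
      64 * K * (2 * m8 + x₀ ^ 4) / (s * r) ^ 4 + 256 * M * (m8 + x₀ ^ 8) / (s * r) ^ 8 := fun b' => by
    have i1 : Integrable φ (entryLaw b') :=
      Integrable.of_bound hφ.aestronglyMeasurable M (.of_forall hM)
    rw [← integral_cubic b' p q u v, ← integral_sub i1 (int_cubic b' p q u v), ← Real.norm_eq_abs]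
    refine (norm_integral_le_of_norm_le ((integrable_const _).add ((int_pow b' 8).const_mul _))
      (.of_forall key)).trans ?_
    rw [integral_add' (integrable_const _) ((int_pow b' 8).const_mul _), integral_const_mul]
    simp only [integral_const, probReal_univ, smul_eq_mul, one_mul]
    have := one_le_m8
    calc _ ≤ (64 * K * (m8 + x₀ ^ 4) / (s * r) ^ 4 + 256 * M * x₀ ^ 8 / (s * r) ^ 8) +
        (64 * K / (s * r) ^ 4 + 256 * M / (s * r) ^ 8) * m8 := by
          gcongr; exact mom8 b'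
      _ = _ := by ring
  have h1 := abs_le.1 (one true)
  have h2 := abs_le.1 (one false)
  have e : 128 * K * (2 * m8 + x₀ ^ 4) / (s * r) ^ 4 + 512 * M * (m8 + x₀ ^ 8) / (s * r) ^ 8 =
      2 * (64 * K * (2 * m8 + x₀ ^ 4) / (s * r) ^ 4 + 256 * M * (m8 + x₀ ^ 8) / (s * r) ^ 8) := by
    ring
  rw [e, abs_le]; constructor <;> linarith

/-! ### the mixture -/

section mix
variable {ι : Type*} [Fintype ι] [DecidableEq ι]

lemma sum_update (e : ι) (H : (ι → Bool) → ℝ) :
    ∑ s : ι → Bool, (H (Function.update s e true) + H (Function.update s e false)) =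
      2 * ∑ s, H s := by
  let fl : (ι → Bool) → ι → Bool := fun s => Function.update s e (!s e)
  have hfl : Function.Involutive fl := fun s => by simp [fl]
  have h1 : ∀ s : ι → Bool,
      H (Function.update s e true) + H (Function.update s e false) = H s + H (fl s) := fun s => by
    cases h : s e
    · have : Function.update s e false = s := by rw [← h]; simp
      simp only [fl, h, this, Bool.not_false]; ring
    · have : Function.update s e true = s := by rw [← h]; simp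
      simp only [fl, h, this, Bool.not_true]
  simp only [h1, sum_add_distrib]
  rw [two_mul]
  congr 1
  exact Equiv.sum_comp hfl.toPerm H

theorem mix_le (F : (ι → Bool) → ℝ) (D : (ι → Bool) → ι → ℝ) {B : ℝ}
    (h1 : ∀ s e, |F (Function.update s e true) - F (Function.update s e false)| ≤ D s e)
    (h2 : ∀ s, ∑ e, D s e ≤ B) : |F (fun _ => true) - F fun _ => false| ≤ B := by
  let w : ℝ → Bool → ℝ := fun θ b => if b then θ else 1 - θ
  let sg : Bool → ℝ := fun b => if b then 1 else -1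
  have hw : ∀ θ b, HasDerivAt (fun θ => w θ b) (sg b) θ := fun θ b => by
    cases b
    · simpa [w, sg] using (hasDerivAt_id θ).const_sub 1
    · simpa [w, sg] using hasDerivAt_id' θ
  let f : ℝ → ℝ := fun θ => ∑ s : ι → Bool, (∏ e, w θ (s e)) * F s
  let f' : ℝ → ℝ := fun θ =>
    ∑ s : ι → Bool, (∑ e, (∏ j ∈ univ.erase e, w θ (s j)) • sg (s e)) * F s
  have hf : ∀ θ, HasDerivAt f (f' θ) θ := fun θ =>
    HasDerivAt.fun_sum fun s _ => (HasDerivAt.fun_finsetProd fun e _ => hw θ (s e)).mul_const _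
  have hone : ∀ θ, ∑ s : ι → Bool, ∏ e, w θ (s e) = 1 := fun θ => by
    rw [← Fintype.piFinset_univ, ← prod_univ_sum]; simp [w]
  have hb : ∀ θ ∈ Set.Ico (0 : ℝ) 1, ‖f' θ‖ ≤ B := fun θ hθ => by
    have hw0 : ∀ b, 0 ≤ w θ b := fun b => by
      cases b
      · simpa [w] using hθ.2.le
      · simpa [w] using hθ.1
    have e1 : ∀ e, ∑ s : ι → Bool, ((∏ j ∈ univ.erase e, w θ (s j)) * sg (s e)) * F s =
        ∑ s : ι → Bool, (∏ j, w θ (s j)) *
          (F (Function.update s e true) - F (Function.update s e false)) := fun e => by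
      have hW : ∀ (s : ι → Bool) (b : Bool), ∏ j ∈ univ.erase e, w θ (Function.update s e b j) =
          ∏ j ∈ univ.erase e, w θ (s j) := fun s b =>
        prod_congr rfl fun j hj => by rw [Function.update_of_ne (ne_of_mem_erase hj)]
      refine mul_left_cancel₀ (two_ne_zero (α := ℝ)) ?_
      rw [← sum_update e, ← sum_update e]
      refine sum_congr rfl fun s _ => ?_
      simp only [← mul_prod_erase univ _ (mem_univ e), hW, Function.update_self,
        Function.update_idem, w, sg]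
      simp
      ring
    have e2 : f' θ = ∑ s : ι → Bool, (∏ j, w θ (s j)) *
        ∑ e, (F (Function.update s e true) - F (Function.update s e false)) := by
      simp only [f', smul_eq_mul, sum_mul, mul_sum]
      rw [sum_comm, sum_comm (s := univ (α := ι → Bool))]
      exact sum_congr rfl fun e _ => e1 e
    rw [e2, Real.norm_eq_abs]
    refine (abs_sum_le_sum_abs _ _).trans ?_
    calc _ ≤ ∑ s : ι → Bool, (∏ j, w θ (s j)) * B := sum_le_sum fun s _ => by
          have h0 : 0 ≤ ∏ j, w θ (s j) := prod_nonneg fun j _ => hw0 _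
          rw [abs_mul, abs_of_nonneg h0]
          exact mul_le_mul_of_nonneg_left
            (((abs_sum_le_sum_abs _ _).trans (sum_le_sum fun e _ => h1 s e)).trans (h2 s)) h0
      _ = B := by rw [← sum_mul, hone, one_mul]
  have hm := norm_image_sub_le_of_norm_deriv_le_segment_01' (f := f) (f' := f')
    (fun θ _ => (hf θ).hasDerivWithinAt) hb
  have hend : ∀ (θ : ℝ) (b : Bool), w θ b = 1 → w θ (!b) = 0 → f θ = F fun _ => b := by
    intro θ b e1 e0
    simp only [f]
    rw [sum_eq_single fun _ => b]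
    · simp [e1]
    · intro s _ hs
      obtain ⟨e, he⟩ := Function.ne_iff.1 hs
      rw [prod_eq_zero (mem_univ e) (by rw [Bool.eq_not_of_ne he, e0]), zero_mul]
    · simp
  rwa [hend 1 true (by simp [w]) (by simp [w]), hend 0 false (by simp [w]) (by simp [w]),
    Real.norm_eq_abs] at hm

end mix

/-! ### the comparison theorems -/

section cmp
variable {ι : Type*} [Fintype ι] [DecidableEq ι]

/-- hybrid law: coins where `σ` is `true`, Gaussians elsewhere -/
def hyb (σ : ι → Bool) : Measure (ι → ℝ) := Measure.pi fun e => entryLaw (σ e)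

instance (σ : ι → Bool) : IsProbabilityMeasure (hyb σ) := by unfold hyb; infer_instance

/-- shift of one entry -/
def sh (s : ℝ) (g : ι → ℝ) (e : ι) (t : ℝ) : ι → ℝ := Function.update g e (g e + s * t)

lemma sh_zero (s : ℝ) (g : ι → ℝ) (e : ι) : sh s g e 0 = g := by simp [sh]

/-- holomorphic in each entry, with an oscillation that is small on average -/
def AnK (r s : ℝ) (Q G : (ι → ℝ) → ℝ) : Prop := ∀ g, ∃ K : ι → ℝ, ∑ e, K e ^ 2 ≤ s ^ 4 * G g ∧
  ∀ e, ∃ F, Ex r (fun t => Q (sh s g e t)) F ∧ ∀ z ∈ ball (0 : ℂ) r, ‖F z - F 0‖ ≤ K e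

/-- holomorphic in each entry, with a multiplicative bound -/
def Pm (r s c : ℝ) (X : (ι → ℝ) → ℝ) : Prop := ∀ g e,
  ∃ F, Ex r (fun t => X (sh s g e t)) F ∧ ∀ z ∈ ball (0 : ℂ) r, ‖F z‖ ≤ c * X g

lemma int_bdd {Ω : Type*} [MeasurableSpace Ω] {μ : Measure Ω} [IsFiniteMeasure μ] {f : Ω → ℝ}
    (hf : Measurable f) {M : ℝ} (hM : ∀ x, |f x| ≤ M) : Integrable f μ :=
  Integrable.of_bound hf.aestronglyMeasurable M (.of_forall hM)

lemma hyb_update {Q : (ι → ℝ) → ℝ} (hQ : Measurable Q) {M : ℝ} (hM : ∀ g, |Q g| ≤ M)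
    (σ : ι → Bool) (e : ι) (b : Bool) :
    ∫ g, Q g ∂hyb (Function.update σ e b) =
      ∫ g, (∫ x, Q (Function.update g e x) ∂entryLaw b) ∂hyb σ ∧
    Integrable (fun g => ∫ x, Q (Function.update g e x) ∂entryLaw b) (hyb σ) := by
  have e1 : hyb (Function.update σ e b) =
      Measure.pi (Function.update (fun e => entryLaw (σ e)) e (entryLaw b)) := by
    unfold hyb; congr 1; funext j
    rcases eq_or_ne j e with rfl | hj
    · simp
    · simp [Function.update_of_ne hj]
  rw [e1]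
  exact R146L878.integral_update _ e _ Q hQ (by rw [← e1]; exact int_bdd hQ hM)

lemma int_eval8 (σ : ι → Bool) (e : ι) : Integrable (fun g : ι → ℝ => g e ^ 8) (hyb σ) :=
  (measurePreserving_eval (fun e => entryLaw (σ e)) e).integrable_comp_of_integrable
    (int_pow (σ e) 8)

lemma eval8_le (σ : ι → Bool) (e : ι) : ∫ g, g e ^ 8 ∂hyb σ ≤ m8 := by
  have h := (measurePreserving_eval (fun e => entryLaw (σ e)) e).map_eq
  refine le_of_eq_of_le ?_ (mom8 (σ e))
  rw [← h, integral_map (measurable_pi_apply e).aemeasurable (by fun_prop)]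
  rfl

/-- **universality** -/
theorem univ_le {Q G : (ι → ℝ) → ℝ} {r s M η : ℝ} (hr : 0 < r) (hs : 0 < s) (hη : 0 < η)
    (hc : (Fintype.card ι : ℝ) ≤ s ^ 4) (hQ : Measurable Q) (hM : ∀ g, |Q g| ≤ M)
    (h : AnK r s Q G) (hG : ∀ σ, Integrable G (hyb σ) ∧ ∫ g, G g ∂hyb σ ≤ η ^ 2) :
    |∫ g, Q g ∂hyb (fun _ => true) - ∫ g, Q g ∂hyb fun _ => false| ≤
      64 * (1 + 10 * m8 ^ 2) / r ^ 4 * η + 1024 * M * m8 / (s ^ 4 * r ^ 8) := by
  have hM0 : 0 ≤ M := (abs_nonneg _).trans (hM 0)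
  have h8 := one_le_m8
  have hsr : 0 < s * r := mul_pos hs hr
  let Δ : ι → (ι → ℝ) → ℝ := fun e g => |∫ x, Q (Function.update g e x) ∂entryLaw true -
    ∫ x, Q (Function.update g e x) ∂entryLaw false|
  have hΔ : ∀ σ e, Integrable (Δ e) (hyb σ) := fun σ e =>
    ((hyb_update hQ hM σ e true).2.sub (hyb_update hQ hM σ e false).2).abs
  refine mix_le (fun σ => ∫ g, Q g ∂hyb σ) (fun σ e => ∫ g, Δ e g ∂hyb σ) (fun σ e => ?_) fun σ => ?_
  · rw [(hyb_update hQ hM σ e true).1, (hyb_update hQ hM σ e false).1,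
      ← integral_sub (hyb_update hQ hM σ e true).2 (hyb_update hQ hM σ e false).2]
    exact abs_integral_le_integral_abs
  set A := 64 * η * 8 * m8 ^ 2 / (s * r) ^ 4 + 512 * M * m8 / (s * r) ^ 8
  set B := 128 * η / (s * r) ^ 4 + 512 * M / (s * r) ^ 8
  have hB : 0 ≤ B := by positivity
  have i1 : ∀ e, Integrable (fun g : ι → ℝ => A + B * g e ^ 8) (hyb σ) := fun e =>
    (integrable_const _).add ((int_eval8 σ e).const_mul _)
  have key : ∀ g, ∑ e, Δ e g ≤ 64 / (r ^ 4 * η) * G g + ∑ e, (A + B * g e ^ 8) := fun g => by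
    obtain ⟨K, hK, hF⟩ := h g
    have h1 : ∀ e, Δ e g ≤ 64 / ((s * r) ^ 4 * η) * K e ^ 2 + (A + B * g e ^ 8) := fun e => by
      obtain ⟨F, hF, hz⟩ := hF e
      refine (one_entry (φ := fun x => Q (Function.update g e x)) (x₀ := g e)
        (hQ.comp (measurable_update g)) (fun _ => hM _) hr hs hF hz).trans ?_
      have h2 : 2 * (K e * (2 * m8 + g e ^ 4)) ≤ K e ^ 2 / η + η * (8 * m8 ^ 2 + 2 * g e ^ 8) := by
        have h3 : 0 ≤ (K e - η * (2 * m8 + g e ^ 4)) ^ 2 / η := by positivity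
        have h4 : (K e - η * (2 * m8 + g e ^ 4)) ^ 2 / η = K e ^ 2 / η -
            2 * (K e * (2 * m8 + g e ^ 4)) + η * (2 * m8 + g e ^ 4) ^ 2 := by field_simp; ring
        have h5 : (2 * m8 + g e ^ 4) ^ 2 ≤ 8 * m8 ^ 2 + 2 * g e ^ 8 := by
          nlinarith [sq_nonneg (2 * m8 - g e ^ 4)]
        nlinarith [mul_le_mul_of_nonneg_left h5 hη.le]
      calc _ = 64 / (s * r) ^ 4 * (2 * (K e * (2 * m8 + g e ^ 4))) +
            512 * M * (m8 + g e ^ 8) / (s * r) ^ 8 := by ring
        _ ≤ 64 / (s * r) ^ 4 * (K e ^ 2 / η + η * (8 * m8 ^ 2 + 2 * g e ^ 8)) +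
            512 * M * (m8 + g e ^ 8) / (s * r) ^ 8 := by gcongr
        _ = _ := by simp only [A, B]; field_simp; ring
    refine (sum_le_sum fun e _ => h1 e).trans ?_
    rw [sum_add_distrib, ← mul_sum]
    gcongr ?_ + _
    calc _ ≤ 64 / ((s * r) ^ 4 * η) * (s ^ 4 * G g) := by gcongr
      _ = _ := by field_simp
  rw [← integral_finsetSum _ fun e _ => hΔ σ e]
  refine (integral_mono (integrable_finsetSum _ fun e _ => hΔ σ e)
    (((hG σ).1.const_mul _).add (integrable_finsetSum _ fun e _ => i1 e)) key).trans ?_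
  rw [integral_add' ((hG σ).1.const_mul _) (integrable_finsetSum _ fun e _ => i1 e),
    integral_const_mul, integral_finsetSum _ fun e _ => i1 e]
  have h2 : ∀ e, ∫ g, (A + B * g e ^ 8) ∂hyb σ ≤ A + B * m8 := fun e => by
    rw [integral_add (integrable_const _) ((int_eval8 σ e).const_mul _), integral_const_mul]
    simp only [integral_const, probReal_univ, smul_eq_mul, one_mul]
    gcongr; exact eval8_le σ e
  have h3 : ∑ e : ι, ∫ g, (A + B * g e ^ 8) ∂hyb σ ≤ s ^ 4 * (A + B * m8) := by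
    refine (sum_le_sum fun e _ => h2 e).trans ?_
    rw [sum_const, card_univ, nsmul_eq_mul]
    gcongr
  have h4 : s ^ 4 * (A + B * m8) = 64 * (8 * m8 ^ 2 + 2 * m8) / r ^ 4 * η +
      1024 * M * m8 / (s ^ 4 * r ^ 8) := by simp only [A, B]; field_simp; ring
  have h5 : 64 / (r ^ 4 * η) * ∫ g, G g ∂hyb σ ≤ 64 / r ^ 4 * η :=
    (mul_le_mul_of_nonneg_left (hG σ).2 (by positivity)).trans_eq (by field_simp)
  have h6 : 64 * (8 * m8 ^ 2 + 2 * m8) / r ^ 4 * η ≤ 64 * (10 * m8 ^ 2) / r ^ 4 * η := by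
    gcongr; nlinarith
  have h7 : 64 * (1 + 10 * m8 ^ 2) / r ^ 4 * η = 64 / r ^ 4 * η + 64 * (10 * m8 ^ 2) / r ^ 4 * η := by
    ring
  linarith

/-- **linear comparison** -/
theorem lin_le {X : (ι → ℝ) → ℝ} {r s c M : ℝ} (hr : 0 < r) (hs : 0 < s) (hsr : 2 ≤ s * r)
    (hc0 : 0 ≤ c) (hc : (Fintype.card ι : ℝ) ≤ s ^ 4) (hX : Measurable X) (h0 : ∀ g, 0 ≤ X g)
    (hM : ∀ g, X g ≤ M) (h : Pm r s c X) (σ : ι → Bool) :
    ∫ g, X g ∂hyb σ ≤ Real.exp (512 * c * (c + 1) * m8 / r ^ 4) *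
      (∫ g, X g ∂hyb (fun _ => false) + 512 * M * m8 / (s ^ 4 * r ^ 8)) := by
  have hM' : ∀ g, |X g| ≤ M := fun g => by rw [abs_of_nonneg (h0 g)]; exact hM g
  have hM0 : 0 ≤ M := (h0 0).trans (hM 0)
  have h8 := one_le_m8
  set a := 512 * c * (c + 1) * m8 / (s * r) ^ 4 with ha
  set b := 512 * M * m8 / (s * r) ^ 8 with hb
  have ha0 : 0 ≤ a := by positivity
  have hb0 : 0 ≤ b := by positivity
  have step : ∀ g e, ∫ x, X (Function.update g e x) ∂entryLaw true ≤
      (1 + a) * ∫ x, X (Function.update g e x) ∂entryLaw false + b := fun g e => by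
    have hφ : Measurable fun x => X (Function.update g e x) := hX.comp (measurable_update g)
    obtain ⟨F, hF, hz⟩ := h (Function.update g e 0) e
    have hF' : Ex r (fun t => X (Function.update g e (0 + s * t))) F := by simpa [sh] using hF
    have h1 := one_entry (K := (c + 1) * X (Function.update g e 0)) hφ (fun _ => hM' _) hr hs hF'
      fun z hz' => by
        have e0 : ‖F 0‖ = X (Function.update g e 0) := by
          rw [hF.zero hr, sh_zero, Complex.norm_real, Real.norm_of_nonneg (h0 _)]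
        linarith [norm_sub_le (F z) (F 0), hz z hz']
    have h2 : ∀ x, X (Function.update g e 0) + 0 * x ^ 1 + -(X (Function.update g e 0) / 4) * x ^ 2 +
        0 * x ^ 3 ≤ c * X (Function.update g e x) := fun x => by
      have p0 := h0 (Function.update g e 0)
      rcases lt_or_ge |x| (s * r) with hx | hx
      · obtain ⟨F, hF, hz⟩ := h (Function.update g e x) e
        have ht : |-x / s| < r := by
          rw [abs_div, abs_neg, abs_of_pos hs, div_lt_iff₀ hs]; linarith
        have h3 := hz _ (mem_ball_real ht)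
        have e3 : sh s (Function.update g e x) e (-x / s) = Function.update g e 0 := by
          have : x + s * (-x / s) = 0 := by field_simp; ring
          simp only [sh, Function.update_self, Function.update_idem, this]
        rw [hF.eq _ ht, e3, Complex.norm_real, Real.norm_of_nonneg p0] at h3
        nlinarith [mul_nonneg p0 (sq_nonneg x)]
      · have h4 : 4 ≤ x ^ 2 := by rw [← sq_abs]; nlinarith
        nlinarith [mul_nonneg hc0 (h0 (Function.update g e x)), mul_le_mul_of_nonneg_left h4 p0]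
    have h3 := integral_mono (int_cubic false _ _ _ _)
      ((int_bdd hφ fun _ => hM' _).const_mul c) h2
    rw [integral_cubic, integral_const_mul] at h3
    have h4 := (abs_le.1 h1).2
    have h5 : 128 * ((c + 1) * X (Function.update g e 0)) * (2 * m8 + 0 ^ 4) / (s * r) ^ 4 ≤
        a * ∫ x, X (Function.update g e x) ∂entryLaw false := by
      have p0 := h0 (Function.update g e 0)
      calc _ = 256 * (c + 1) * m8 / (s * r) ^ 4 * X (Function.update g e 0) := by ring
        _ ≤ 256 * (c + 1) * m8 / (s * r) ^ 4 *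
            (2 * (c * ∫ x, X (Function.update g e x) ∂entryLaw false)) := by gcongr; linarith
        _ = _ := by rw [ha]; ring
    have h6 : 512 * M * (m8 + 0 ^ 8) / (s * r) ^ 8 = b := by rw [hb]; ring
    linarith
  have I0 : 0 ≤ ∫ g, X g ∂hyb (fun _ : ι => false) := integral_nonneg h0
  have main : ∀ S : Finset ι, ∫ g, X g ∂hyb (fun e => decide (e ∈ S)) ≤
      (1 + a) ^ S.card * (∫ g, X g ∂hyb (fun _ => false) + S.card * b) := fun S => by
    induction S using Finset.induction_on with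
    | empty => simp
    | insert e S he ih =>
      have e1 : (fun j => decide (j ∈ insert e S)) =
          Function.update (fun j => decide (j ∈ S)) e true := by
        funext j
        rcases eq_or_ne j e with rfl | hj
        · simp
        · simp [hj]
      have e2 : (fun j => decide (j ∈ S)) = Function.update (fun j => decide (j ∈ S)) e false := by
        funext j
        rcases eq_or_ne j e with rfl | hj
        · simp [he]
        · simp [hj]
      obtain ⟨i1, j1⟩ := hyb_update hX hM' (fun j => decide (j ∈ S)) e true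
      obtain ⟨i2, j2⟩ := hyb_update hX hM' (fun j => decide (j ∈ S)) e false
      rw [← e2] at i2
      have := integral_mono j1 ((j2.const_mul (1 + a)).add (integrable_const b)) fun g => step g e
      rw [integral_add' (j2.const_mul _) (integrable_const _), integral_const_mul, ← i1, ← i2] at this
      simp only [integral_const, probReal_univ, smul_eq_mul, one_mul] at this
      rw [e1, card_insert_of_notMem he]
      have p1 : 1 ≤ (1 + a) ^ (S.card + 1) := one_le_pow₀ (by linarith)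
      push_cast
      calc _ ≤ (1 + a) * ((1 + a) ^ S.card * (∫ g, X g ∂hyb (fun _ => false) + S.card * b)) + b := by
            refine this.trans ?_; gcongr
        _ ≤ (1 + a) * ((1 + a) ^ S.card * (∫ g, X g ∂hyb (fun _ => false) + S.card * b)) +
            (1 + a) ^ (S.card + 1) * b := by gcongr; exact le_mul_of_one_le_left hb0 p1
        _ = _ := by ring
  have h1 := main (univ.filter fun e => σ e = true)
  have e0 : (fun e => decide (e ∈ univ.filter fun e => σ e = true)) = σ := by funext e; simp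
  rw [e0] at h1
  have hk : ((univ.filter fun e => σ e = true).card : ℝ) ≤ s ^ 4 :=
    le_trans (by exact_mod_cast card_le_univ _) hc
  refine h1.trans (mul_le_mul ?_ ?_ (by positivity) (Real.exp_pos _).le)
  · calc _ ≤ Real.exp a ^ (univ.filter fun e => σ e = true).card := by
          gcongr; linarith [Real.add_one_le_exp a]
      _ = Real.exp ((univ.filter fun e => σ e = true).card * a) := by rw [Real.exp_nat_mul]
      _ ≤ Real.exp (s ^ 4 * a) := by gcongr
      _ = _ := by rw [ha]; congr 1; field_simp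
  · gcongr
    calc _ ≤ s ^ 4 * b := by gcongr
      _ = _ := by rw [hb]; field_simp

end cmp

end Crest.Agent.T157.Un

end
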