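import Crest.Agent.T157.UnF_81

/-!
# Row 157, part C: universality through a complex entry, G (helper81)

Sequence level: the pointwise class `Pc` and the mean-square class `Lc`.
-/

set_option autoImplicit false
set_option linter.unusedSectionVars false

noncomputable section

namespace Crest.Agent.T157.Un

open MeasureTheory Metric Finset Matrix Filter Topology
open Crest.ProbabilityR.SpinGlassDynamics Crest.Agent.T157.E Crest.Agent.T157.SL
open Crest.Agent.T157.Sg (sq2 ipV nv)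
open Crest.Agent.T157.Soft (N23)

/-- families of functions of the spins -/
abbrev SF : Type := ∀ n : ℕ, (Pair n → ℝ) → Cube n → ℝ

/-- families of vector functions of the spins -/
abbrev VF (ι : ℕ → Type) : Type := ∀ n : ℕ, (Pair n → ℝ) → ι n → Cube n → ℝ

/-- all moments are dominated by normalisers -/
structure Mo (β : SF) : Prop where
  nn : ∀ n g x, 0 ≤ β n g x
  ex : ∀ k : ℕ, ∃ S, Nz S ∧ ∀ᶠ n : ℕ in atTop, ∀ g, mean (gw n g) (fun x => β n g x ^ k) ≤ S n g

/-- admissible channels -/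
def Chn {κ : ℕ → Type} [∀ n, Fintype (κ n)] (φ : ∀ n, Cube n → κ n → ℝ) (s : ℕ → ℝ) : Prop :=
  (∀ n, 0 ≤ s n) ∧ ∃ K : ℝ, ∀ᶠ n : ℕ in atTop, ∀ x y, s n * (φ n x ⬝ᵥ φ n y) ≤ K * |Rh n x y|

lemma chn_hat {K : ℝ} (hK : 0 ≤ K) : Chn St.hat fun _ => K :=
  ⟨fun _ => hK, K, .of_forall fun n x y => by
    rw [St.All.hat_dot_hat]; exact mul_le_mul_of_nonneg_left (le_abs_self _) hK⟩

lemma chn_an {K : ℝ} (hK : 0 ≤ K) : Chn (fun n x i => Soft.an n i x) fun _ => K :=
  ⟨fun _ => hK, K, (eventually_gt_atTop 0).mono fun n hn x y => by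
    have := Soft.rr_an hn x y
    exact mul_le_mul_of_nonneg_left ((le_of_eq this).trans (le_abs_self _)) hK⟩

lemma chn_sv {K : ℝ} (hK : 0 ≤ K) : Chn (fun _ => sv) fun n => K / N23 n :=
  ⟨fun _ => by positivity, K, .of_forall fun n x y => by
    beta_reduce
    rw [div_eq_mul_inv, mul_assoc]; exact mul_le_mul_of_nonneg_left (le_abs_self _) hK⟩

variable {β β' : SF} {κ : ℕ → Type} [∀ n, Fintype (κ n)] [∀ n, DecidableEq (κ n)]
  {φ : ∀ n, Cube n → κ n → ℝ} {s : ℕ → ℝ}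

namespace Mo

lemma mono (h : Mo β) (h0 : ∀ n g x, 0 ≤ β' n g x) (e : ∀ᶠ n : ℕ in atTop, ∀ g x, β' n g x ≤ β n g x) :
    Mo β' := ⟨h0, fun k => (h.ex k).imp fun _ hS => ⟨hS.1, by
  filter_upwards [hS.2, e] with n a b g
  exact ((gwt g).mean_mono fun x => pow_le_pow_left₀ (h0 n g x) (b g x) k).trans (a g)⟩⟩

lemma const {c : ℝ} (hc : 0 ≤ c) : Mo fun _ _ _ => c :=
  ⟨fun _ _ _ => hc, fun k => ⟨_, .const (pow_nonneg hc k), .of_forall fun _ g =>
    ((gwt g).mean_const _).le⟩⟩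

lemma add (h : Mo β) (h' : Mo β') : Mo fun n g x => β n g x + β' n g x :=
  ⟨fun n g x => add_nonneg (h.nn n g x) (h'.nn n g x), fun k => by
    obtain ⟨S, h1, h2⟩ := h.ex k
    obtain ⟨S', h1', h2'⟩ := h'.ex k
    refine ⟨_, (h1.add h1').const_mul (a := 2 ^ (k - 1)) (by positivity), ?_⟩
    filter_upwards [h2, h2'] with n a b g
    have := (gwt g).mean_mono fun x => add_pow_le (h.nn n g x) (h'.nn n g x) k
    rw [mean_const_mul, mean_add] at this
    exact this.trans (mul_le_mul_of_nonneg_left (add_le_add (a g) (b g)) (by positivity))⟩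

lemma mul (h : Mo β) (h' : Mo β') : Mo fun n g x => β n g x * β' n g x :=
  ⟨fun n g x => mul_nonneg (h.nn n g x) (h'.nn n g x), fun k => by
    obtain ⟨S, h1, h2⟩ := h.ex (k * 2)
    obtain ⟨S', h1', h2'⟩ := h'.ex (k * 2)
    refine ⟨_, h1.add h1', ?_⟩
    filter_upwards [h2, h2'] with n a b g
    have := (gwt g).mean_mono (f := fun x => (β n g x * β' n g x) ^ k)
      (g := fun x => β n g x ^ (k * 2) + β' n g x ^ (k * 2)) fun x => by
      rw [mul_pow, pow_mul, pow_mul]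
      nlinarith [sq_nonneg (β n g x ^ k - β' n g x ^ k), sq_nonneg (β n g x ^ k),
        sq_nonneg (β' n g x ^ k)]
    rw [mean_add] at this
    exact this.trans (add_le_add (a g) (b g))⟩

lemma const_mul (h : Mo β) {c : ℝ} (hc : 0 ≤ c) : Mo fun n g x => c * β n g x := (const hc).mul h

lemma sq (h : Mo β) : Mo fun n g x => β n g x ^ 2 := by simpa only [_root_.sq] using h.mul h

lemma T (h : Mo β) (hs : ∀ n, 0 ≤ s n) : Mo fun n g => k0 (φ n) (s n) (gw n g) *ᵥ β n g :=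
  ⟨fun n g => k0_nonneg (gw_pos g) (h.nn n g), fun k => (h.ex k).imp fun _ hS => ⟨hS.1,
    hS.2.mono fun n a g => ((gwt g).mean_mono fun x => k0_pow_le (gw_pos g) (h.nn n g) k x).trans
      ((mean_k0 (gw_pos g) (hs n) _).trans_le (a g))⟩⟩

lemma E (hc : Chn φ s) {F : ∀ n, Cube n → Cube n → ℝ} (h0 : ∀ n x y, 0 ≤ F n x y) {C θ : ℝ}
    (hF : ∀ᶠ n : ℕ in atTop, ∀ x y, F n x y ≤ C * Real.exp (θ * |Rh n x y|)) :
    Mo fun n g => E2 (φ n) (s n) (gw n g) (F n) :=
  ⟨fun n g => E2_nonneg (gw_pos g) (h0 n), fun k => by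
    obtain ⟨hs, K, hK⟩ := hc
    refine ⟨_, (Nz.const zero_le_one).add ((nz_XA (k * 2 * θ + K)).const_mul (a := (C ^ k) ^ 2)
      (sq_nonneg _)), ?_⟩
    filter_upwards [hK, hF] with n a b g
    refine ((gwt g).mean_mono fun x => E2_pow_le (gw_pos g) (h0 n) k x).trans
      ((mean_E2_le (gw_pos g) (hs n) _).trans (add_le_add_right ?_ _))
    rw [XA, ← m2_const_mul]
    refine m2_mono (gw_pos g) fun x y => ?_
    calc _ ≤ ((C * Real.exp (θ * |Rh n x y|)) ^ k) ^ 2 * Real.exp (K * |Rh n x y|) :=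
          mul_le_mul (pow_le_pow_left₀ (pow_nonneg (h0 n x y) k)
            (pow_le_pow_left₀ (h0 n x y) (b x y) k) 2) (Real.exp_le_exp.2 (a x y))
            (Real.exp_pos _).le (sq_nonneg _)
      _ = _ := by
          rw [mul_pow, mul_pow, ← Real.exp_nat_mul, ← Real.exp_nat_mul, mul_assoc, ← Real.exp_add]
          congr 2; push_cast; ring⟩

lemma R4 (hc : Chn φ s) : Mo fun n g => E2 (φ n) (s n) (gw n g) fun y y' => Rh n y y' ^ 4 :=
  E hc (fun _ _ _ => by positivity) (.of_forall fun _ _ _ => R4_exp _)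

end Mo

variable {ι : ℕ → Type} [∀ n, Fintype (ι n)] {u u' : VF ι}

/-- the static kernel acting on a family -/
def TS (φ : ∀ n, Cube n → κ n → ℝ) (s : ℕ → ℝ) (u : VF ι) : VF ι :=
  fun n g i => k0 (φ n) (s n) (gw n g) *ᵥ u n g i

/-- the resolvent of the dynamics acting on a family -/
def RS (τ : ℕ → ℝ) (u : VF ι) : VF ι :=
  fun n g => if hn : 0 < n then Sg.RV (Soft.ch hn g) (n * τ n) (u n g) else 0

/-- pointwise inner product -/
def dt (u u' : VF ι) : VF fun _ => Unit := fun n g _ x => ∑ i, u n g i x * u' n g i x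

/-- inner product in `L²` of the Gibbs law -/
def ipS (u u' : VF ι) : Fam := fun n g => ipV (prob (gw n g)) (u n g) (u' n g)

/-- measurable in the couplings -/
def Ms (u : VF ι) : Prop := ∀ n i x, Measurable fun g => u n g i x

lemma Ms.T (h : Ms u) : Ms (TS φ s u) := fun n i x =>
  measurable_sum _ fun y _ => (meas_k0 _ _ x y).mul (h n i y)

lemma Ms.res (h : Ms u) {τ : ℕ → ℝ} (hτ : ∀ n, 0 ≤ τ n) : Ms (RS τ u) := fun n i x => by
  by_cases hn : 0 < n
  · simpa only [RS, dif_pos hn] using meas_RV hn (hτ n) (h n) i x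
  · simp only [RS, dif_neg hn]; exact measurable_const

lemma Ms.ip (h : Ms u) (h' : Ms u') (n : ℕ) : Measurable (ipS u u' n) :=
  measurable_sum _ fun i _ => measurable_sum _ fun x _ => (meas_prob x).mul ((h n i x).mul (h' n i x))

/-- pointwise class -/
structure Pc (u : VF ι) : Prop where
  meas : Ms u
  ex : ∃ r β, 0 < r ∧ r ≤ 1 / 4 ∧ Mo β ∧ ∀ᶠ n : ℕ in atTop, PcF r (u n) (β n)

/-- mean-square class -/
structure Lc (u : VF ι) : Prop where
  meas : Ms u
  ex : ∃ r S G, 0 < r ∧ r ≤ 1 / 4 ∧ Nz S ∧ Nl G ∧ ∀ᶠ n : ℕ in atTop, LcF r (u n) (S n) (G n)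

namespace Pc

lemma const {a : ∀ n, ι n → Cube n → ℝ} {B : ℝ} (h : ∀ᶠ n : ℕ in atTop, ∀ x, sq2 (a n) x ≤ B) :
    Pc fun n _ => a n :=
  ⟨fun _ _ _ => measurable_const, 1 / 4, _, by norm_num, le_rfl, (Mo.const (abs_nonneg B)).mono
    (β' := fun n _ => sq2 (a n)) (fun _ _ => Sg.sq2_nonneg _)
    (h.mono fun _ b _ x => (b x).trans (le_abs_self B)), .of_forall fun n => PcF.const _ _⟩

lemma zero : Pc (0 : VF ι) := const (a := 0) (B := 0) (.of_forall fun _ _ => by simp [sq2])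

lemma one : Pc (ι := fun _ => Unit) fun _ _ _ _ => 1 :=
  const (a := fun _ _ _ => 1) (B := 1) (.of_forall fun _ _ => by simp [sq2])

lemma add (h : Pc u) (h' : Pc u') : Pc (u + u') := by
  obtain ⟨r, β, h1, h2, h3, h4⟩ := h.ex
  obtain ⟨r', β', h1', -, h3', h4'⟩ := h'.ex
  refine ⟨fun n i x => (h.meas n i x).add (h'.meas n i x), min r r', _, lt_min h1 h1',
    (min_le_left _ _).trans h2, (h3.const_mul zero_le_two).add (h3'.const_mul zero_le_two), ?_⟩
  filter_upwards [h4, h4'] with n a b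
  exact (a.mono (min_le_left _ _) fun _ _ => le_rfl).add (b.mono (min_le_right _ _) fun _ _ => le_rfl)

lemma smul (h : Pc u) (c : ℝ) : Pc (c • u) := by
  obtain ⟨r, β, h1, h2, h3, h4⟩ := h.ex
  exact ⟨fun n i x => (h.meas n i x).const_mul c, r, _, h1, h2, h3.const_mul (sq_nonneg c),
    h4.mono fun n a => a.smul c⟩

lemma sub (h : Pc u) (h' : Pc u') : Pc (u - u') := by
  simpa only [sub_eq_add_neg, neg_smul, one_smul] using h.add (h'.smul (-1))

lemma sum {J : Type*} (t : Finset J) {v : J → VF ι} (h : ∀ j ∈ t, Pc (v j)) : Pc (∑ j ∈ t, v j) :=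
  sum_induction _ _ (fun _ _ => add) zero h

lemma dot (h : Pc u) (h' : Pc u') : Pc (dt u u') := by
  obtain ⟨r, β, h1, h2, h3, h4⟩ := h.ex
  obtain ⟨r', β', h1', -, h3', h4'⟩ := h'.ex
  refine ⟨fun n _ x => measurable_sum _ fun i _ => (h.meas n i x).mul (h'.meas n i x), min r r', _,
    lt_min h1 h1', (min_le_left _ _).trans h2, (h3.mul h3').const_mul (c := 4) (by norm_num), ?_⟩
  filter_upwards [h4, h4'] with n a b
  exact (a.mono (min_le_left _ _) fun _ _ => le_rfl).dot (b.mono (min_le_right _ _) fun _ _ => le_rfl)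

lemma T (h : Pc u) (hc : Chn φ s) : Pc (TS φ s u) := by
  obtain ⟨r, β, h1, h2, h3, h4⟩ := h.ex
  refine ⟨h.meas.T, r, _, h1, h2, (((h3.T (φ := φ) hc.1).const_mul (c := 18) (by norm_num)).add
    ((h3.sq.T (φ := φ) hc.1).const_mul (c := 4) (by norm_num))).add
      ((Mo.R4 hc).const_mul (c := 4) (by norm_num)), ?_⟩
  filter_upwards [h4, eventually_gt_atTop 0] with n a hn
  exact a.T hn h1 h2 (hc.1 n)

/-- the smoothed spin vector -/
lemma Ta (hc : Chn φ s) {a : ∀ n, ι n → Cube n → ℝ}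
    (ha : ∀ᶠ n : ℕ in atTop, ∀ x y, |∑ i, a n i x * a n i y| ≤ |Rh n x y|) :
    Pc (TS φ s fun n _ => a n) := by
  refine ⟨Ms.T fun _ _ _ => measurable_const, 1 / 4, _, by norm_num, le_rfl,
    (((Mo.E hc (F := fun n x y => |Rh n x y|) (fun _ _ _ => abs_nonneg _) (C := 1) (θ := 1)
      (.of_forall fun n x y => ?_)).const_mul (c := 9) (by norm_num)).add
    ((Mo.E hc (F := fun n x y => |Rh n x y| ^ 2) (fun _ _ _ => sq_nonneg _) (C := 2) (θ := 1)
      (.of_forall fun n x y => ?_)).const_mul zero_le_two)).add ((Mo.R4 hc).const_mul zero_le_two), ?_⟩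
  · simp only [one_mul]; linarith [Real.add_one_le_exp |Rh n x y|]
  · have := Real.pow_div_factorial_le_exp |Rh n x y| (abs_nonneg _) 2
    norm_num [Nat.factorial] at this ⊢
    linarith
  filter_upwards [ha, eventually_gt_atTop 0] with n b hn
  exact PcF.Ta hn (a n) b

lemma Tan (hc : Chn φ s) : Pc (TS φ s fun n _ => Soft.an n) :=
  Ta hc ((eventually_gt_atTop 0).mono fun _ hn x y => (congrArg abs (Soft.rr_an hn x y)).le)

lemma That (hc : Chn φ s) : Pc (TS φ s fun n _ => Sg.ft (St.hat n)) :=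
  Ta hc (.of_forall fun n x y => (congrArg abs (St.All.hat_dot_hat n x y)).le)

lemma mo (h : Pc u) : Mo fun n g => sq2 (u n g) := by
  obtain ⟨r, β, -, -, h3, h4⟩ := h.ex
  exact h3.mono (fun _ _ => Sg.sq2_nonneg _) (h4.mono fun _ a g => (a g).1)

lemma lc (h : Pc u) : Lc u := by
  obtain ⟨r, β, h1, h2, h3, h4⟩ := h.ex
  obtain ⟨S, a1, a2⟩ := h3.ex 1
  obtain ⟨S', b1, b2⟩ := h3.ex 2
  refine ⟨h.meas, r, _, _, h1, h2, a1.add b1, (a1.add b1).tt.inv, ?_⟩
  filter_upwards [h4, a2, b2, eventually_gt_atTop 0] with n a b c hn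
  exact a.lc hn (fun g => by simpa using (b g).trans (le_add_of_nonneg_right (b1.nn n g)))
    fun g => (c g).trans (le_add_of_nonneg_left (a1.nn n g))

end Pc

namespace Lc

lemma add (h : Lc u) (h' : Lc u') : Lc (u + u') := by
  obtain ⟨r, S, G, h1, h2, h3, h4, h5⟩ := h.ex
  obtain ⟨r', S', G', h1', -, h3', h4', h5'⟩ := h'.ex
  refine ⟨fun n i x => (h.meas n i x).add (h'.meas n i x), min r r', _, _, lt_min h1 h1',
    (min_le_left _ _).trans h2, (h3.const_mul (a := 8) (by norm_num)).add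
      (h3'.const_mul (a := 8) (by norm_num)),
    (h4.const_mul zero_le_two).add (h4'.const_mul zero_le_two), ?_⟩
  filter_upwards [h5, h5'] with n a b
  exact (a.mono (min_le_left _ _)).add (b.mono (min_le_right _ _))

lemma smul (h : Lc u) (c : ℝ) : Lc (c • u) := by
  obtain ⟨r, S, G, h1, h2, h3, h4, h5⟩ := h.ex
  exact ⟨fun n i x => (h.meas n i x).const_mul c, r, _, _, h1, h2,
    h3.const_mul (a := c ^ 2 + c ^ 4) (by positivity), h4.const_mul (sq_nonneg c),
    h5.mono fun n a => a.smul c⟩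

lemma sub (h : Lc u) (h' : Lc u') : Lc (u - u') := by
  simpa only [sub_eq_add_neg, neg_smul, one_smul] using h.add (h'.smul (-1))

lemma T (h : Lc u) (hc : Chn φ s) : Lc (TS φ s u) := by
  obtain ⟨r, S, G, h1, h2, h3, h4, h5⟩ := h.ex
  obtain ⟨Y, a1, a2⟩ := (Mo.R4 hc).ex 1
  refine ⟨h.meas.T, r, _, _, h1, h2, h3.const_mul (a := 9) (by norm_num),
    (h4.const_mul (a := 18) (by norm_num)).add ((h3.tt.const_mul (a := 4) (by norm_num)).add
      (a1.tt.const_mul (a := 4) (by norm_num))).inv, ?_⟩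
  filter_upwards [h5, a2, eventually_gt_atTop 0] with n a b hn
  exact a.T hn h1 h2 (hc.1 n) fun g => by simpa using b g

lemma res (h : Lc u) {τ : ℕ → ℝ} (hτ : ∀ n, 0 ≤ τ n)
    (ht : Tendsto (fun n : ℕ => τ n / n) atTop (𝓝 0)) : Lc (RS τ u) := by
  obtain ⟨r, S, G, h1, h2, h3, h4, h5⟩ := h.ex
  refine ⟨h.meas.res hτ, r, _, _, h1, h2, h3.const_mul (a := 9) (by norm_num),
    (h4.const_mul (a := 18) (by norm_num)).add ((h3.tt.const_mul (a := 288) (by norm_num)).small
      (fun n => div_nonneg (hτ n) (Nat.cast_nonneg n)) ht), ?_⟩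
  filter_upwards [h5, eventually_gt_atTop 0] with n a hn
  have e : RS τ u n = fun g => Sg.RV (Soft.ch hn g) (n * τ n) (u n g) := by
    funext g; simp only [RS, dif_pos hn]
  rw [e]; exact a.res hn h1 h2 (hτ n)

theorem ip (h : Lc u) (h' : Lc u') : Au (ipS u u') := by
  obtain ⟨r, S, G, h1, h2, h3, h4, h5⟩ := h.ex
  obtain ⟨r', S', G', h1', -, h3', h4', h5'⟩ := h'.ex
  have t := h3.tt.add h3'.tt
  refine ⟨h.meas.ip h'.meas, min r r', _, _, lt_min h1 h1', (h3.add h3').const_mul zero_le_two,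
    (((h3'.tt.mul_nl h4).const_mul (a := 27) (by norm_num)).add
      ((h3.tt.mul_nl h4').const_mul (a := 27) (by norm_num))).add
      (((t.mul t).const_mul (a := 6) (by norm_num)).add
        ((tt_XA 1).const_mul (a := 6 * 24) (by norm_num))).inv, ?_⟩
  filter_upwards [h5, h5', eventually_gt_atTop 0] with n a b hn
  refine ((a.mono (min_le_left _ _)).ip hn (lt_min h1 h1') ((min_le_left _ _).trans h2)
    (b.mono (min_le_right _ _))).mono le_rfl (fun _ => le_rfl) fun g => ?_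
  have := R4_le n g
  exact add_le_add_right (mul_le_mul_of_nonneg_left (by linarith) (by positivity)) _

lemma tight (h : Lc u) (b : Bool) : Tight b fun n g => nv (prob (gw n g)) (u n g) := by
  obtain ⟨r, S, G, -, -, h3, -, h5⟩ := h.ex
  refine (((Tt.const zero_le_one).add h3.tt).coin b).mono (h5.mono fun n a g => ?_)
  have h1 := Sg.nv_sq (Chain22.isP_prob' (gw_pos g)) (u n g)
  rw [Sg.ipV_self_eq] at h1
  have h2 : nv (prob (gw n g)) (u n g) ^ 2 ≤ S n g := h1.trans_le (a g).1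
  nlinarith [sq_nonneg (nv (prob (gw n g)) (u n g) - 1), h3.nn n g]

end Lc

end Crest.Agent.T157.Un

end
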