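import Crest.Agent.T157.UnG_81

/-!
# Row 157, part C: universality through a complex entry, H (helper81)

Closures under approximation in probability (both laws): scalars `Ap`, mean-square `La`, all moments
`Pa`; the two semigroups; universality of the stationary autocorrelation.
-/

set_option autoImplicit false
set_option linter.unusedSectionVars false

noncomputable section

namespace Crest.Agent.T157.Un

open MeasureTheory Metric Finset Matrix Filter Topology
open Crest.ProbabilityR.SpinGlassDynamics Crest.Agent.T157.E Crest.Agent.T157.SL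
open Crest.Agent.T157.Sg (sq2 ipV nv)
open Crest.Agent.T157.Soft (N23)

/-- at most `η` outside an event of probability `ε`, for both laws -/
def Sm (X : Fam) (η ε : ℝ) : Prop := ∀ b, ∀ᶠ n : ℕ in atTop,
  couplingLaw b n {g | η < X n g} ≤ ENNReal.ofReal ε

variable {X X' Y : Fam} {η η' ε : ℝ}

lemma Sm.imp (h : Sm X η ε) (e : ∀ᶠ n : ℕ in atTop, ∀ g, X n g ≤ η → X' n g ≤ η') : Sm X' η' ε :=
  fun b => by
    filter_upwards [h b, e] with n a1 a2
    exact (measure_mono fun g (hg : _ < _) => lt_of_not_ge fun h => hg.not_ge (a2 g h)).trans a1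

lemma Sm.two (hε : 0 < ε) {a a' : ℝ} (h : Sm X a (ε / 2)) (h' : Sm X' a' (ε / 2))
    (e : ∀ᶠ n : ℕ in atTop, ∀ g, X n g ≤ a → X' n g ≤ a' → Y n g ≤ η) : Sm Y η ε := fun b => by
  filter_upwards [h b, h' b, e] with n a1 a2 a3
  refine meas_two hε a1 a2 fun g hg => ?_
  by_contra hh
  simp only [Set.mem_union, Set.mem_ofPred_eq, not_or, not_lt] at hh hg
  exact hg.not_ge (a3 g hh.1 hh.2)

lemma Sm.of_le (e : ∀ᶠ n : ℕ in atTop, ∀ g, X n g ≤ η) : Sm X η ε := fun _ =>
  e.mono fun _ a => by simp [fun g => (a g).not_gt]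

lemma sm_of_tight (h : ∀ b, Tight b X) (hε : 0 < ε) : ∃ M, 0 < M ∧ Sm X M ε := by
  choose M hM using fun b => h b ε hε
  refine ⟨|M true| + |M false| + 1, by positivity, fun b => (hM b).mono fun n a =>
    le_trans (measure_mono fun g hg => lt_of_le_of_lt (a := M b) ?_ hg) a⟩
  cases b <;> linarith [le_abs_self (M true), le_abs_self (M false), abs_nonneg (M true),
    abs_nonneg (M false)]

lemma tight_of_sm (h : ∀ ε, 0 < ε → ∃ M, Sm X M ε) (b : Bool) : Tight b X := fun ε hε =>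
  (h ε hε).imp fun _ a => a b

/-- limits in probability of holomorphic functionals -/
def Ap (X : Fam) : Prop := ∀ η ε : ℝ, 0 < η → 0 < ε →
  ∃ Y, Au Y ∧ Sm (fun n g => |X n g - Y n g|) η ε

lemma Au.ap (h : Au X) : Ap X := fun _ _ hη _ =>
  ⟨X, h, .of_le (.of_forall fun _ _ => by simpa using hη.le)⟩

namespace Ap

lemma approx (h : ∀ η ε : ℝ, 0 < η → 0 < ε → ∃ Y, Ap Y ∧ Sm (fun n g => |X n g - Y n g|) η ε) :
    Ap X := fun η ε hη hε => by
  obtain ⟨Y, h1, h2⟩ := h _ _ (half_pos hη) (half_pos hε)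
  obtain ⟨Z, h3, h4⟩ := h1 _ _ (half_pos hη) (half_pos hε)
  exact ⟨Z, h3, h2.two hε h4 (.of_forall fun n g a b => (abs_sub_le _ _ _).trans (by linarith))⟩

lemma congr (h : Ap X) (e : ∀ᶠ n : ℕ in atTop, ∀ g, X' n g = X n g) : Ap X' :=
  approx fun _ _ hη _ => ⟨X, h, .of_le (e.mono fun _ a g => by simpa [a g] using hη.le)⟩

lemma tight (h : Ap X) : ∀ b, Tight b fun n g => |X n g| := tight_of_sm fun ε hε => by
  obtain ⟨Y, h1, h2⟩ := h 1 _ one_pos (half_pos hε)
  obtain ⟨M, -, h3⟩ := sm_of_tight h1.tight (half_pos hε)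
  exact ⟨1 + M, h2.two hε h3 (.of_forall fun n g a b => by
    linarith [abs_sub_abs_le_abs_sub (X n g) (Y n g)])⟩

lemma add (h : Ap X) (h' : Ap X') : Ap fun n g => X n g + X' n g := fun η ε hη hε => by
  obtain ⟨Y, h1, h2⟩ := h _ _ (half_pos hη) (half_pos hε)
  obtain ⟨Z, h3, h4⟩ := h' _ _ (half_pos hη) (half_pos hε)
  refine ⟨_, h1.add h3, h2.two hε h4 (.of_forall fun n g a b => ?_)⟩
  rw [add_sub_add_comm]
  exact (abs_add_le _ _).trans (by linarith)

lemma mul (h : Ap X) (h' : Ap X') : Ap fun n g => X n g * X' n g := fun η ε hη hε => by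
  have e4 := half_pos (half_pos hε)
  obtain ⟨M, M0, a1⟩ := sm_of_tight h'.tight e4
  obtain ⟨Y, h1, h2⟩ := h (η / 2 / M) _ (by positivity) e4
  obtain ⟨M', M0', a2⟩ := sm_of_tight h1.tight e4
  obtain ⟨Z, h3, h4⟩ := h' (η / 2 / M') _ (by positivity) e4
  refine ⟨_, h1.mul h3, Sm.two (X := fun n g => |X n g - Y n g| * |X' n g|)
    (X' := fun n g => |Y n g| * |X' n g - Z n g|) (a := η / 2) (a' := η / 2) hε
    (h2.two (half_pos hε) a1 (.of_forall fun n g a b => ?_))
    (a2.two (half_pos hε) h4 (.of_forall fun n g a b => ?_)) (.of_forall fun n g a b => ?_)⟩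
  · exact (mul_le_mul a b (abs_nonneg _) (by positivity)).trans_eq (by field_simp)
  · exact (mul_le_mul a b (abs_nonneg _) (by positivity)).trans_eq (by field_simp)
  · rw [show X n g * X' n g - Y n g * Z n g = (X n g - Y n g) * X' n g + Y n g * (X' n g - Z n g) by
      ring]
    refine (abs_add_le _ _).trans ?_
    rw [abs_mul, abs_mul]; linarith

lemma const (a : ℝ) : Ap fun _ _ => a := (Au.const a).ap

lemma sub (h : Ap X) (h' : Ap X') : Ap fun n g => X n g - X' n g := by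
  simpa [sub_eq_add_neg] using h.add ((const (-1)).mul h')

/-- **universality of cylinder functionals** -/
theorem cyl {I : Type*} {X : ∀ n, (Pair n → ℝ) → I → ℝ} (h : ∀ i, Ap fun n g => X n g i)
    (hm : ∀ n i, Measurable fun g => X n g i) (φ : (I → ℝ) → ℝ) (hφ : Soft.IsCyl φ) :
    Tendsto (fun n => ∫ g, φ (X n g) ∂couplingLaw true n - ∫ g, φ (X n g) ∂couplingLaw false n)
      atTop (𝓝 0) := by
  have mφ := hφ.measurable
  obtain ⟨s, K, h0, h1, h2⟩ := id hφ
  rw [Metric.tendsto_nhds]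
  intro ε hε
  set ρ := ε / (10 * (K + 1) * (s.card + 1)) with hρ
  have ρ0 : 0 < ρ := by positivity
  choose Y hY hS using fun i => h i ρ ρ ρ0 ρ0
  have key : ∀ b, ∀ᶠ n : ℕ in atTop, |∫ g, φ (X n g) ∂couplingLaw b n -
      ∫ g, φ (fun i => Y i n g) ∂couplingLaw b n| ≤ 3 * ε / 10 := fun b => by
    filter_upwards [(eventually_all_finset s).2 fun i _ => hS i b] with n a
    have a1 : couplingLaw b n (⋃ i ∈ s, {g | ρ < |X n g i - Y i n g|}) ≤
        ENNReal.ofReal (s.card * ρ) := by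
      refine (measure_biUnion_finset_le _ _).trans ((sum_le_card_nsmul _ _ _ a).trans_eq ?_)
      rw [ENNReal.ofReal_mul (Nat.cast_nonneg _), ENNReal.ofReal_natCast, nsmul_eq_mul]
    refine (Soft.abs_integral_sub_le _ (mφ.comp (measurable_pi_lambda _ (hm n))).aestronglyMeasurable
      (mφ.comp (measurable_pi_lambda _ fun i => (hY i).meas n)).aestronglyMeasurable
      (η := K * (s.card * ρ)) h0 (by positivity) (by positivity) (fun _ => h1 _) (fun _ => h1 _) a1
      fun g hg => (h2 _ _).trans ?_).trans ?_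
    · simp only [Set.mem_iUnion, Set.mem_ofPred_eq, not_exists, not_lt] at hg
      exact mul_le_mul_of_nonneg_left ((sum_le_card_nsmul _ _ _ hg).trans_eq (nsmul_eq_mul _ _)) h0
    · have b1 : K * (s.card * ρ) ≤ (K + 1) * ((s.card + 1) * ρ) := by gcongr <;> linarith
      have b2 : (K + 1) * ((s.card + 1) * ρ) = ε / 10 := by rw [hρ]; field_simp
      linarith
  filter_upwards [key true, key false, Metric.tendsto_nhds.1
    (Au.cyl (Y := fun n g i => Y i n g) hY φ hφ) (ε / 10) (by positivity)] with n b0 b1 b3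
  rw [abs_le] at b0 b1
  rw [Real.dist_eq, sub_zero, abs_lt] at b3 ⊢
  constructor <;> linarith [b0.1, b0.2, b1.1, b1.2, b3.1, b3.2]

theorem cyl_conv {I : Type*} {X : ∀ n, (Pair n → ℝ) → I → ℝ} (h : ∀ i, Ap fun n g => X n g i)
    (hm : ∀ n i, Measurable fun g => X n g i) (φ : (I → ℝ) → ℝ) (hφ : Soft.IsCyl φ) {L : ℝ}
    (hL : Tendsto (fun n => ∫ g, φ (X n g) ∂disorderLaw n) atTop (𝓝 L)) (b : Bool) :
    Tendsto (fun n => ∫ g, φ (X n g) ∂couplingLaw b n) atTop (𝓝 L) := by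
  cases b
  · exact hL
  · have := (cyl h hm φ hφ).add hL
    rw [zero_add] at this
    exact this.congr fun n => sub_add_cancel _ _

/-- **transfer of a tail bound** -/
theorem tr (h : Ap X) {δ δ' : ℝ} (hδ : δ < δ') (hε : 0 < ε)
    (h0 : ∀ᶠ n : ℕ in atTop, disorderLaw n {g | δ < X n g} ≤ ENNReal.ofReal (ε / 4)) :
    Sm X δ' ε := fun b => by
  cases b
  · exact h0.mono fun n a => ((measure_mono fun g (hg : _ < _) => hδ.trans hg).trans a).trans
      (ENNReal.ofReal_le_ofReal (by linarith))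
  set γ := (δ' - δ) / 3 with hγ
  have γ0 : 0 < γ := by rw [hγ]; linarith
  obtain ⟨Y, h1, h2⟩ := h γ (ε / 8) γ0 (by positivity)
  let ψ : ℝ → ℝ := fun y => max 0 (min 1 ((y - (δ + γ)) / γ))
  have ψ0 : ∀ y, 0 ≤ ψ y := fun y => le_max_left _ _
  have ψ1 : ∀ y, |ψ y| ≤ 1 := fun y => by
    rw [abs_of_nonneg (ψ0 y)]; exact max_le zero_le_one (min_le_left _ _)
  have hc : Soft.IsCyl fun x : Unit → ℝ => ψ (x ()) := by
    refine ⟨univ, 1 + 1 / γ, by positivity, fun x => (ψ1 _).trans (le_add_of_nonneg_right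
      (by positivity)), fun x y => ?_⟩
    have b1 := abs_max_sub_max_le_max 0 (min 1 ((x () - (δ + γ)) / γ)) 0
      (min 1 ((y () - (δ + γ)) / γ))
    have b2 := abs_min_sub_min_le_max 1 ((x () - (δ + γ)) / γ) 1 ((y () - (δ + γ)) / γ)
    rw [sub_self, abs_zero] at b1 b2
    replace b1 := b1.trans_eq (max_eq_right (abs_nonneg _))
    replace b2 := b2.trans_eq (max_eq_right (abs_nonneg _))
    rw [← sub_div, sub_sub_sub_cancel_right, abs_div, abs_of_pos γ0] at b2
    simp only [univ_unique, sum_singleton]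
    calc _ ≤ 1 / γ * |x () - y ()| := (b1.trans b2).trans_eq (by ring)
      _ ≤ _ := by gcongr; linarith
  have mψ : ∀ n, Measurable fun g => ψ (Y n g) := fun n =>
    hc.measurable.comp (measurable_pi_lambda _ fun _ => h1.meas n)
  filter_upwards [h0, h2 true, h2 false, Metric.tendsto_nhds.1
    (Au.cyl (Y := fun n g _ => Y n g) (fun _ => h1) _ hc) (ε / 8) (by positivity)]
    with n a0 a1 a2 a3
  rw [Real.dist_eq, sub_zero, abs_lt] at a3
  have b1 : couplingLaw false n ({g | δ < X n g} ∪ {g | γ < |X n g - Y n g|}) ≤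
      ENNReal.ofReal (ε / 4 + ε / 8) := by
    rw [ENNReal.ofReal_add (by positivity) (by positivity)]
    exact (measure_union_le _ _).trans (add_le_add a0 a2)
  have b2 := int_le_of_meas (mψ n) (fun _ => ψ1 _) le_rfl (by positivity) b1 (fun g hg => by
    simp only [Set.mem_union, Set.mem_ofPred_eq, not_or, not_lt, abs_le] at hg
    rw [abs_of_nonneg (ψ0 _)]
    exact max_le le_rfl ((min_le_right _ _).trans (div_nonpos_of_nonpos_of_nonneg
      (by linarith [hg.1, hg.2.1]) γ0.le))) zero_le_one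
  have b3 : couplingLaw true n {g | δ + 2 * γ ≤ Y n g} ≤ ENNReal.ofReal (7 * ε / 8) :=
    meas_le_of_int (a := 1) (int_bdd (mψ n) fun _ => ψ1 _) (fun _ => ψ0 _) one_pos (fun g hg =>
      le_max_of_le_right (le_min le_rfl ((one_le_div γ0).2
        (by linarith [show δ + 2 * γ ≤ Y n g from hg])))) (by linarith [a3.2])
  refine le_trans (measure_mono (t := {g | δ + 2 * γ ≤ Y n g} ∪ {g | γ < |X n g - Y n g|})
    fun g hg => ?_) ((measure_union_le _ _).trans ((add_le_add b3 a1).trans_eq ?_))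
  · by_contra hh
    simp only [Set.mem_union, Set.mem_ofPred_eq, not_or, not_lt, not_le, abs_le] at hh hg
    linarith [hh.1, hh.2.2]
  · rw [← ENNReal.ofReal_add (by positivity) (by positivity)]; congr 1; ring

end Ap

variable {ι : ℕ → Type} [∀ n, Fintype (ι n)] {u u' : VF ι}
  {κ : ℕ → Type} [∀ n, Fintype (κ n)] [∀ n, DecidableEq (κ n)]
  {φ : ∀ n, Cube n → κ n → ℝ} {s : ℕ → ℝ}

/-- norm in `L²` of the Gibbs law -/
def nS (u : VF ι) : Fam := fun n g => nv (prob (gw n g)) (u n g)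

/-- the dynamics at rescaled time `t` -/
def HS (t : ℝ) (u : VF ι) : VF ι := fun n g i => Soft.Pn n g t (u n g i)

/-- the static chain -/
abbrev stc (hc : Chn φ s) (n : ℕ) (g : Pair n → ℝ) : Chain22.RC (Cube n) :=
  Sg.stRC (φ n) (gw_pos g) (hc.1 n)

/-- the Poissonised static chain -/
def QS (hc : Chn φ s) (t : ℝ) (u : VF ι) : VF ι := fun n g => Sg.HV (stc hc n g) t (u n g)

lemma isP {n : ℕ} (g : Pair n → ℝ) : Chain22.IsP (prob (gw n g)) := Chain22.isP_prob' (gw_pos g)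

lemma HS_eq {n : ℕ} (hn : 0 < n) (t : ℝ) (g : Pair n → ℝ) :
    HS t u n g = Sg.HV (Soft.ch hn g) (Soft.tau n t) (u n g) :=
  funext fun _ => Soft.Pn_eq hn g t _

lemma RS_iter {n : ℕ} (hn : 0 < n) (τ : ℕ → ℝ) (g : Pair n → ℝ) (j : ℕ) :
    (RS τ)^[j] u n g = (Sg.RV (Soft.ch hn g) (n * τ n))^[j] (u n g) := by
  induction j with
  | zero => rfl
  | succ j ih => rw [Function.iterate_succ_apply', Function.iterate_succ_apply', RS, dif_pos hn, ih]

lemma TS_iter (hc : Chn φ s) (n : ℕ) (g : Pair n → ℝ) (j : ℕ) (i : ι n) :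
    (TS φ s)^[j] u n g i = ((stc hc n g).P ^ j) *ᵥ u n g i := by
  induction j with
  | zero => simp
  | succ j ih => rw [Function.iterate_succ_apply', TS, ih, pow_succ', ← mulVec_mulVec]; rfl

lemma ipS_self (n : ℕ) (g : Pair n → ℝ) : ipS u u n g = nS u n g ^ 2 := (Sg.nv_sq (isP g) _).symm

/-- limits in mean square -/
def La (u : VF ι) : Prop := ∀ η ε : ℝ, 0 < η → 0 < ε → ∃ v, Lc v ∧ Sm (nS (u - v)) η ε

lemma Lc.la (h : Lc u) : La u := fun _ _ hη _ =>
  ⟨u, h, .of_le (.of_forall fun _ _ => by simpa [nS, nv, ipV, Chain22.ip] using hη.le)⟩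

namespace La

lemma approx (h : ∀ η ε : ℝ, 0 < η → 0 < ε → ∃ v, La v ∧ Sm (nS (u - v)) η ε) : La u :=
  fun η ε hη hε => by
  obtain ⟨v, h1, h2⟩ := h _ _ (half_pos hη) (half_pos hε)
  obtain ⟨w, h3, h4⟩ := h1 _ _ (half_pos hη) (half_pos hε)
  exact ⟨w, h3, h2.two hε h4 (.of_forall fun n g a b =>
    (Sg.nv_tri (isP g) (u n g) (v n g) (w n g)).trans ((add_le_add a b).trans_eq (add_halves η)))⟩

lemma congr (h : La u) (e : ∀ᶠ n : ℕ in atTop, ∀ g, u' n g = u n g) : La u' :=
  approx fun _ _ hη _ => ⟨u, h, .of_le (e.mono fun _ a g => by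
    simpa [nS, nv, ipV, Chain22.ip, a g] using hη.le)⟩

lemma tight (h : La u) : ∀ b, Tight b (nS u) := tight_of_sm fun ε hε => by
  obtain ⟨v, h1, h2⟩ := h 1 _ one_pos (half_pos hε)
  obtain ⟨M, -, h3⟩ := sm_of_tight h1.tight (half_pos hε)
  refine ⟨1 + M, h2.two hε h3 (.of_forall fun n g a b => ?_)⟩
  have := Sg.nv_add_le (isP g) (u n g - v n g) (v n g)
  rw [sub_add_cancel] at this
  exact this.trans (add_le_add a b)

lemma add (h : La u) (h' : La u') : La (u + u') := fun η ε hη hε => by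
  obtain ⟨v, h1, h2⟩ := h _ _ (half_pos hη) (half_pos hε)
  obtain ⟨w, h3, h4⟩ := h' _ _ (half_pos hη) (half_pos hε)
  refine ⟨_, h1.add h3, h2.two hε h4 (.of_forall fun n g a b => ?_)⟩
  rw [add_sub_add_comm]
  exact (Sg.nv_add_le (isP g) _ _).trans ((add_le_add a b).trans_eq (add_halves η))

lemma nS_smul (c : ℝ) (n : ℕ) (g : Pair n → ℝ) : nS (c • u) n g = |c| * nS u n g := by
  rw [nS, nS, nv, nv, ← Real.sqrt_sq_eq_abs, ← Real.sqrt_mul (sq_nonneg c)]
  congr 1
  simp only [ipV, Chain22.ip, mul_sum, Pi.smul_apply, smul_eq_mul]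
  exact sum_congr rfl fun _ _ => sum_congr rfl fun _ _ => by ring

lemma smul (h : La u) (c : ℝ) : La (c • u) := fun η ε hη hε => by
  obtain ⟨v, h1, h2⟩ := h (η / (|c| + 1)) _ (by positivity) hε
  refine ⟨_, h1.smul c, h2.imp (.of_forall fun n g a => ?_)⟩
  rw [← smul_sub, nS_smul]
  calc _ ≤ (|c| + 1) * (η / (|c| + 1)) := by
        gcongr
        exacts [Sg.nv_nonneg _, by linarith]
    _ = η := by field_simp

lemma sub (h : La u) (h' : La u') : La (u - u') := by
  simpa only [sub_eq_add_neg, neg_smul, one_smul] using h.add (h'.smul (-1))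

lemma map (h : La u) {A : VF ι → VF ι} (h1 : ∀ v, Lc v → La (A v))
    (h2 : ∀ v, ∀ᶠ n : ℕ in atTop, ∀ g, nS (A u - A v) n g ≤ nS (u - v) n g) : La (A u) :=
  approx fun η ε hη hε => by
    obtain ⟨v, a1, a2⟩ := h η ε hη hε
    exact ⟨_, h1 v a1, a2.imp ((h2 v).mono fun n b g c => (b g).trans c)⟩

lemma T (h : La u) (hc : Chn φ s) : La (TS φ s u) :=
  h.map (fun _ a => (a.T hc).la) fun v => .of_forall fun n g => by
    have e : (TS φ s u - TS φ s v) n g = fun i => (stc hc n g).P *ᵥ (u - v) n g i := by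
      funext i; simp only [Pi.sub_apply, mulVec_sub]; rfl
    rw [nS, e, nS, nv, nv, Sg.ipV_self_eq, Sg.ipV_self_eq]
    exact Real.sqrt_le_sqrt (((isP g).mean_mono (Sg.sq2_P_le (stc hc n g) _)).trans_eq
      ((stc hc n g).mean_P _))

lemma res (h : La u) {τ : ℕ → ℝ} (hτ : ∀ n, 0 ≤ τ n)
    (ht : Tendsto (fun n : ℕ => τ n / n) atTop (𝓝 0)) : La (RS τ u) :=
  h.map (fun _ a => (a.res hτ ht).la) fun v => (eventually_gt_atTop 0).mono fun n hn g => by
    have := Sg.nv_RV_le (Soft.ch hn g) (mul_nonneg (Nat.cast_nonneg n) (hτ n)) (u n g - v n g)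
    rw [Sg.RV_sub] at this
    simp only [nS, Pi.sub_apply, RS, dif_pos hn]
    exact this

lemma H (h : La u) {t : ℝ} (ht : 0 ≤ t) : La (HS t u) := approx fun η ε hη hε => by
  obtain ⟨M, M0, a1⟩ := sm_of_tight h.tight hε
  obtain ⟨m, hm⟩ := exists_nat_gt (2 * M / η)
  have m0 : (0 : ℝ) < m := lt_of_le_of_lt (by positivity) hm
  have hτ : ∀ n, 0 ≤ t * N23 n / (2 * m) := fun n => by positivity
  have hl : Tendsto (fun n : ℕ => t * N23 n / (2 * m) / n) atTop (𝓝 0) := by
    have := ((tendsto_rpow_neg_atTop (y := 1 / 3) (by norm_num)).comp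
      tendsto_natCast_atTop_atTop).const_mul (t / (2 * m))
    rw [mul_zero] at this
    refine this.congr' ((eventually_gt_atTop 0).mono fun n hn => ?_)
    have hn' : (0 : ℝ) < n := by exact_mod_cast hn
    simp only [Function.comp]
    rw [show (-(1 / 3) : ℝ) = 2 / 3 - 1 by norm_num, Real.rpow_sub_one hn'.ne']; ring
  refine ⟨(RS fun n => t * N23 n / (2 * m))^[2 * m] u, Function.Iterate.rec La h
    (fun _ a => a.res hτ hl) _, a1.imp ((eventually_gt_atTop 0).mono fun n hn g a => ?_)⟩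
  have b1 := Sg.nv_HV_sub_iter (Soft.ch hn g) (mul_nonneg (Nat.cast_nonneg n) (hτ n)) (u n g)
    (m := m) (by exact_mod_cast m0)
  rw [show 2 * m * (n * (t * N23 n / (2 * m))) = Soft.tau n t by field_simp] at b1
  rw [nS, Pi.sub_apply, Pi.sub_apply, HS_eq hn, RS_iter hn]
  refine b1.trans ((mul_le_mul_of_nonneg_left a (by positivity)).trans ?_)
  rw [div_lt_iff₀ hη] at hm
  rw [div_mul_eq_mul_div, div_le_iff₀ m0]; linarith

theorem ip (h : La u) (h' : La u') : Ap (ipS u u') := fun η ε hη hε => by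
  have e4 := half_pos (half_pos hε)
  obtain ⟨M, M0, a1⟩ := sm_of_tight h'.tight e4
  obtain ⟨v, h1, h2⟩ := h (η / 2 / M) _ (by positivity) e4
  obtain ⟨M', M0', a2⟩ := sm_of_tight h1.la.tight e4
  obtain ⟨w, h3, h4⟩ := h' (η / 2 / M') _ (by positivity) e4
  refine ⟨_, h1.ip h3, Sm.two (X := fun n g => nS (u - v) n g * nS u' n g)
    (X' := fun n g => nS v n g * nS (u' - w) n g) (a := η / 2) (a' := η / 2) hε
    (h2.two (half_pos hε) a1 (.of_forall fun n g a b => ?_))
    (a2.two (half_pos hε) h4 (.of_forall fun n g a b => ?_)) (.of_forall fun n g a b => ?_)⟩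
  · exact (mul_le_mul a b (Sg.nv_nonneg _) (by positivity)).trans_eq (by field_simp)
  · exact (mul_le_mul a b (Sg.nv_nonneg _) (by positivity)).trans_eq (by field_simp)
  · have : ipS u u' n g - ipS v w n g = ipS (u - v) u' n g + ipS v (u' - w) n g := by
      simp only [ipS, Pi.sub_apply, Sg.ipV_sub_left, Sg.ipV_sub_right]; ring
    rw [this]
    exact (abs_add_le _ _).trans ((add_le_add ((Sg.abs_ipV_le (isP g) _ _).trans a)
      ((Sg.abs_ipV_le (isP g) _ _).trans b)).trans_eq (add_halves η))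

/-- **transfer of a small norm** -/
theorem tr (h : La u) {δ δ' : ℝ} (h0 : 0 ≤ δ) (hδ : δ < δ') (hε : 0 < ε)
    (h1 : ∀ᶠ n : ℕ in atTop, disorderLaw n {g | δ < nS u n g} ≤ ENNReal.ofReal (ε / 4)) :
    Sm (nS u) δ' ε :=
  ((h.ip h).tr (pow_lt_pow_left₀ hδ h0 two_ne_zero) hε (h1.mono fun n a =>
    (measure_mono fun g (hg : _ < _) => lt_of_pow_lt_pow_left₀ 2 (Sg.nv_nonneg _)
      (hg.trans_eq (ipS_self n g))).trans a)).imp (.of_forall fun n g a =>
    (abs_le_of_sq_le_sq' ((ipS_self n g).ge.trans a) (h0.trans hδ.le)).2)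

end La

end Crest.Agent.T157.Un

end
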