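import Crest.Agent.T157.UpDef_74
import Crest.Agent.T157.StA_44

/-!
# Row 157, part D (helper74): the top of the upper half, geometry

`Stp dom G`: a continuous random map sends every state `x ∈ dom` robustly into `G x`.
Segments between close good states.
-/

set_option autoImplicit false

noncomputable section

namespace Crest.Agent.T157.Up

open MeasureTheory Matrix Set Filter
open scoped ENNReal
open Crest.Agent.T157.E Crest.Agent.T157.Eig Crest.Agent.T157.St Crest.Agent.T157.Lift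
open Crest.Agent.T157.Conc (ELip en)

section stp
variable {X : Type*} [TopologicalSpace X]

/-- a liftable step -/
def Stp (dom : Set X) (G : X → Set X) : Prop :=
  ∃ (ι : Type) (_ : Fintype ι) (f : X → (ι → ℝ) → X),
    (∀ ξ, ContinuousOn (fun x => f x ξ) dom) ∧
      ∀ x ∈ dom, ∃ z, Rep (Conc.gv ι) f (G x) (1 / 4) x z

lemma three_quarter : 3 * (1 / 4 : ℝ≥0∞) < 1 := by
  rw [one_div, ← div_eq_mul_inv, ENNReal.div_lt_iff (by simp) (by simp)]
  norm_num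

theorem Stp.lift {dom S T : Set X} {G : X → Set X} (h : Stp dom G) (hS : S ⊆ dom)
    (hT : IsOpen T) (hG : ∀ x ∈ S, G x ⊆ T) {a b a' b' : X} (hab : JoinedIn S a b)
    (ha : ∀ z ∈ G a, JoinedIn T a' z) (hb : ∀ z ∈ G b, JoinedIn T b' z) : JoinedIn T a' b' := by
  obtain ⟨ι, _, f, hf, hrep⟩ := h
  have key : ∀ x ∈ S, ∀ x', (∀ z ∈ G x, JoinedIn T x' z) → Rep (Conc.gv ι) f T (1 / 4) x x' := by
    intro x hx x' hx'
    obtain ⟨z, hz⟩ := hrep x (hS hx)
    refine le_trans (measure_mono fun ξ hξ => ?_) hz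
    exact fun h => hξ (hx' _ h.target_mem)
  refine Lift.lift three_quarter hT (fun ξ => (hf ξ).mono hS) (fun x hx => ?_) hab
    (key a hab.source_mem a' ha) (key b hab.target_mem b' hb)
  obtain ⟨z, hz⟩ := hrep x (hS hx)
  refine ⟨z, le_trans (measure_mono fun ξ hξ => ?_) hz⟩
  exact fun h => hξ (h.mono (hG x hx))

theorem walk {T : Set X} {m : ℕ → X} {p0 p1 : ℕ} (hp : p0 ≤ p1) (h0 : m p0 ∈ T)
    (h : ∀ p, p0 ≤ p → p < p1 → JoinedIn T (m p) (m (p + 1))) : JoinedIn T (m p0) (m p1) := by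
  induction p1, hp using Nat.le_induction with
  | base => exact JoinedIn.refl h0
  | succ p hp ih =>
    exact (ih fun r h1 h2 => h r h1 (h2.trans (Nat.lt_succ_self p))).trans
      (h p hp (Nat.lt_succ_self p))

end stp

variable {n : ℕ}

lemma ds_eq (x z : Fin n → ℝ) : ds x z = nrm (x - z) ^ 2 := (nrm_sq _).symm

lemma nrm_sub_comm (x z : Fin n → ℝ) : nrm (x - z) = nrm (z - x) := by rw [← nrm_neg, neg_sub]

lemma nrm_tri (x y z : Fin n → ℝ) : nrm (x - z) ≤ nrm (x - y) + nrm (y - z) := by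
  have := nrm_add_le (x - y) (y - z)
  rwa [sub_add_sub_cancel] at this

lemma nrm_le_of_ds {x z : Fin n → ℝ} {ρ : ℝ} (hρ : 0 ≤ ρ) (h : ds x z ≤ ρ ^ 2 * n) :
    nrm (x - z) ≤ ρ * √n := by
  rw [nrm_le_iff (by positivity), mul_pow, Real.sq_sqrt (Nat.cast_nonneg n)]
  exact h

lemma ds_le_of_nrm {x z : Fin n → ℝ} {ρ : ℝ} (hρ : 0 ≤ ρ) (h : nrm (x - z) ≤ ρ * √n) :
    ds x z ≤ ρ ^ 2 * n := by
  rw [nrm_le_iff (by positivity), mul_pow, Real.sq_sqrt (Nat.cast_nonneg n)] at h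
  exact h

lemma nrm_box {m : Fin n → ℝ} (hm : m ∈ box n) : nrm m ≤ √n :=
  Real.sqrt_le_sqrt (dot_le_n hm)

lemma en_eq_nrm {ι : Type*} [Fintype ι] [DecidableEq ι] (x : ι → ℝ) : en x = nrm x := by
  rw [Conc.en_eq_norm, nrm_eq_norm]

lemma d2_eq (σ : Cube n) (m : Fin n → ℝ) : d2 σ m = ds (sv σ) m := by
  simp only [d2, ds, dotProduct, Pi.sub_apply, sq]

lemma isOpen_box : IsOpen (box n) := by
  have : box n = ⋂ i, {m : Fin n → ℝ | |m i| < 1} := by ext m; simp [box]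
  rw [this]
  exact isOpen_iInter_of_finite fun i => isOpen_lt (by fun_prop) continuous_const

lemma continuous_qq : Continuous (qq : (Fin n → ℝ) → ℝ) := by
  unfold qq dotProduct; fun_prop

lemma box_seg {x z : Fin n → ℝ} (hx : x ∈ box n) (hz : z ∈ box n) {t : ℝ} (ht : t ∈ Icc (0 : ℝ) 1) :
    (1 - t) • x + t • z ∈ box n := by
  intro i
  have h1 := abs_lt.1 (hx i)
  have h2 := abs_lt.1 (hz i)
  simp only [Pi.add_apply, Pi.smul_apply, smul_eq_mul]
  rcases eq_or_lt_of_le ht.1 with h | h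
  · rw [← h]; simpa using hx i
  · rw [abs_lt]
    constructor <;> nlinarith [ht.2, h1.1, h1.2, h2.1, h2.2]

lemma dot_seg (y y' m m' : Fin n → ℝ) (t : ℝ) :
    ((1 - t) • y + t • y') ⬝ᵥ ((1 - t) • m + t • m') =
      (1 - t) * (y ⬝ᵥ m) + t * (y' ⬝ᵥ m') - t * (1 - t) * ((y' - y) ⬝ᵥ (m' - m)) := by
  simp only [add_dotProduct, dotProduct_add, smul_dotProduct, dotProduct_smul, sub_dotProduct,
    dotProduct_sub, smul_eq_mul]
  ring

lemma qq_seg (hn : 0 < n) {x z : Fin n → ℝ} {ρ t : ℝ} (hρ : 0 ≤ ρ) (ht : t ∈ Icc (0 : ℝ) 1)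
    (h : nrm (z - x) ≤ 2 * ρ * √n) :
    min (qq x) (qq z) - ρ ^ 2 ≤ qq ((1 - t) • x + t • z) ∧
      qq ((1 - t) • x + t • z) ≤ max (qq x) (qq z) := by
  have hn' : (0 : ℝ) < n := by exact_mod_cast hn
  have h1 := ds_le_of_nrm (by positivity) h
  have h0 : 0 ≤ ds z x := by rw [ds_eq]; positivity
  have h2 : n * qq ((1 - t) • x + t • z) =
      (1 - t) * (n * qq x) + t * (n * qq z) - t * (1 - t) * ds z x := by
    simp only [n_qq hn, dot_seg, ds]
  have h3 : 0 ≤ t * (1 - t) := mul_nonneg ht.1 (sub_nonneg.2 ht.2)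
  have h4 : t * (1 - t) ≤ 1 / 4 := by nlinarith [sq_nonneg (t - 1 / 2)]
  have h5 : t * (1 - t) * ds z x ≤ ρ ^ 2 * n := by nlinarith
  have a1 := min_le_left (qq x) (qq z)
  have a2 := min_le_right (qq x) (qq z)
  have a3 := le_max_left (qq x) (qq z)
  have a4 := le_max_right (qq x) (qq z)
  have ht1 := sub_nonneg.2 ht.2
  constructor
  · refine le_of_mul_le_mul_left ?_ hn'
    rw [h2]
    nlinarith [mul_le_mul_of_nonneg_left a1 (mul_nonneg ht1 hn'.le),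
      mul_le_mul_of_nonneg_left a2 (mul_nonneg ht.1 hn'.le)]
  · refine le_of_mul_le_mul_left ?_ hn'
    rw [h2]
    nlinarith [mul_le_mul_of_nonneg_left a3 (mul_nonneg ht1 hn'.le),
      mul_le_mul_of_nonneg_left a4 (mul_nonneg ht.1 hn'.le), mul_nonneg h3 h0]

lemma abs_qq_sub (hn : 0 < n) {x z : Fin n → ℝ} (hx : x ∈ box n) (hz : z ∈ box n) {ρ : ℝ}
    (h : nrm (z - x) ≤ 2 * ρ * √n) : n * |qq z - qq x| ≤ 4 * ρ * n := by
  have hn' : (0 : ℝ) < n := by exact_mod_cast hn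
  have h1 : n * |qq z - qq x| = |(z - x) ⬝ᵥ (z + x)| := by
    have : (n : ℝ) * |qq z - qq x| = |n * (qq z - qq x)| := by rw [abs_mul, abs_of_pos hn']
    rw [this, mul_sub, n_qq hn, n_qq hn]
    congr 1
    simp only [sub_dotProduct, dotProduct_add, dotProduct_comm x z]
    ring
  have h2 : nrm (z + x) ≤ 2 * √n := by
    linarith [nrm_add_le z x, nrm_box hx, nrm_box hz]
  have h3 := mul_le_mul h h2 (nrm_nonneg _) ((nrm_nonneg _).trans h)
  have h4 : √(n : ℝ) * √n = n := Real.mul_self_sqrt hn'.le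
  rw [h1]
  refine (abs_dot_le _ _).trans (h3.trans (le_of_eq ?_))
  calc 2 * ρ * √n * (2 * √n) = 4 * ρ * (√n * √n) := by ring
    _ = _ := by rw [h4]

/-- semiconcavity along segments -/
def Seg (V : (Fin n → ℝ) → ℝ) (A : ℝ) : Prop :=
  ∀ m ∈ box n, ∀ m' ∈ box n, ∀ t ∈ Icc (0 : ℝ) 1,
    (1 - t) * V m + t * V m' - A * ((m' - m) ⬝ᵥ (m' - m) + n * |qq m' - qq m|) ≤
      V ((1 - t) • m + t • m')

lemma Seg.le {V : (Fin n → ℝ) → ℝ} {A : ℝ} (h : Seg V A) (hA : 0 ≤ A) (hn : 0 < n)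
    {x z : Fin n → ℝ} (hx : x ∈ box n) (hz : z ∈ box n) {ρ t : ℝ} (hρ : 0 ≤ ρ) (hρ1 : ρ ≤ 1)
    (ht : t ∈ Icc (0 : ℝ) 1) (hd : nrm (z - x) ≤ 2 * ρ * √n) :
    (1 - t) * V x + t * V z - 8 * A * ρ * n ≤ V ((1 - t) • x + t • z) := by
  have h1 := h x hx z hz t ht
  have h2 : (z - x) ⬝ᵥ (z - x) ≤ (2 * ρ) ^ 2 * n := ds_le_of_nrm (by positivity) hd
  have h3 := abs_qq_sub hn hx hz hd
  have hn' : (0 : ℝ) ≤ n := Nat.cast_nonneg n
  have h4 : (2 * ρ) ^ 2 * n ≤ 4 * ρ * n := mul_le_mul_of_nonneg_right (by nlinarith) hn'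
  have h5 := mul_le_mul_of_nonneg_left (add_le_add (h2.trans h4) h3) hA
  linarith

/-- states below `b` -/
def W1 (V : (Fin n → ℝ) → ℝ) (P lo hi e : ℝ) : Set (Fin n → ℝ) :=
  {m | m ∈ box n ∧ lo < qq m ∧ qq m < hi ∧ n * P - V m < e * n}

lemma isOpen_W1 {V : (Fin n → ℝ) → ℝ} (hV : ContinuousOn V (box n)) (P lo hi e : ℝ) :
    IsOpen (W1 V P lo hi e) := by
  have h1 : IsOpen (box n ∩ (fun m => n * P - V m) ⁻¹' Iio (e * n)) :=
    (continuousOn_const.sub hV).isOpen_inter_preimage isOpen_box isOpen_Iio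
  have h2 : W1 V P lo hi e = (box n ∩ (fun m => n * P - V m) ⁻¹' Iio (e * n)) ∩
      ({m | lo < qq m} ∩ {m | qq m < hi}) := by
    ext m
    simp only [W1, mem_ofPred_eq, mem_inter_iff, mem_preimage, mem_Iio]
    tauto
  rw [h2]
  exact h1.inter ((isOpen_lt continuous_const continuous_qq).inter
    (isOpen_lt continuous_qq continuous_const))

lemma seg1 {V : (Fin n → ℝ) → ℝ} {A : ℝ} (h : Seg V A) (hA : 0 ≤ A) (hn : 0 < n)
    {x z : Fin n → ℝ} (hx : x ∈ box n) (hz : z ∈ box n) {ρ P lo hi e a : ℝ} (hρ : 0 ≤ ρ)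
    (hρ1 : ρ ≤ 1) (hd : nrm (z - x) ≤ 2 * ρ * √n) (x1 : lo + ρ ^ 2 < qq x) (z1 : lo + ρ ^ 2 < qq z)
    (x2 : qq x < hi) (z2 : qq z < hi) (x3 : n * P - V x ≤ a * n) (z3 : n * P - V z ≤ a * n)
    (he : a + 8 * A * ρ < e) : JoinedIn (W1 V P lo hi e) x z := by
  have hn' : (0 : ℝ) < n := by exact_mod_cast hn
  refine joinedIn_of_segment fun t ht => ⟨box_seg hx hz ht, ?_, ?_, ?_⟩
  · have := (qq_seg hn hρ ht hd).1
    have := lt_min x1 z1
    linarith
  · exact (qq_seg hn hρ ht hd).2.trans_lt (max_lt x2 z2)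
  · have h1 := h.le hA hn hx hz hρ hρ1 ht hd
    have h2 := mul_le_mul_of_nonneg_left x3 (sub_nonneg.2 ht.2)
    have h3 := mul_le_mul_of_nonneg_left z3 ht.1
    have h4 := mul_lt_mul_of_pos_right he hn'
    nlinarith

/-- the deficit of a pair (field, mean) -/
def Df (V F : (Fin n → ℝ) → ℝ) (x : (Fin n → ℝ) × (Fin n → ℝ)) : ℝ := F x.1 - V x.2 - x.1 ⬝ᵥ x.2

/-- states above `b` -/
def W2 (V F : (Fin n → ℝ) → ℝ) (lo Y E c : ℝ) : Set ((Fin n → ℝ) × (Fin n → ℝ)) :=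
  {x | x.2 ∈ box n ∧ lo < qq x.2 ∧ nrm x.1 < Y * √n ∧ Df V F x < E * Real.exp (c * qq x.2) * n}

lemma isOpen_W2 {V F : (Fin n → ℝ) → ℝ} (hV : ContinuousOn V (box n)) (hF : Continuous F)
    (lo Y E c : ℝ) : IsOpen (W2 V F lo Y E c) := by
  have h0 : IsOpen {x : (Fin n → ℝ) × (Fin n → ℝ) | x.2 ∈ box n} :=
    isOpen_box.preimage continuous_snd
  have hq : Continuous fun x : (Fin n → ℝ) × (Fin n → ℝ) => qq x.2 :=
    continuous_qq.comp continuous_snd
  have hc : ContinuousOn (fun x : (Fin n → ℝ) × (Fin n → ℝ) =>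
      Df V F x - E * Real.exp (c * qq x.2) * n) {x | x.2 ∈ box n} := by
    refine ContinuousOn.sub (ContinuousOn.sub (ContinuousOn.sub ?_ ?_) ?_) ?_
    · exact (hF.comp continuous_fst).continuousOn
    · exact hV.comp continuous_snd.continuousOn fun x hx => hx
    · refine Continuous.continuousOn ?_
      unfold dotProduct; fun_prop
    · exact Continuous.continuousOn (by fun_prop)
  have h1 := hc.isOpen_inter_preimage h0 (isOpen_Iio (a := (0 : ℝ)))
  have h2 : W2 V F lo Y E c = ({x : (Fin n → ℝ) × (Fin n → ℝ) | x.2 ∈ box n} ∩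
      (fun x => Df V F x - E * Real.exp (c * qq x.2) * n) ⁻¹' Iio 0) ∩
      ({x | lo < qq x.2} ∩ {x | nrm x.1 < Y * √n}) := by
    ext m
    simp only [W2, mem_ofPred_eq, mem_inter_iff, mem_preimage, mem_Iio, sub_neg]
    tauto
  rw [h2]
  exact h1.inter ((isOpen_lt continuous_const hq).inter
    (isOpen_lt (continuous_nrm.comp continuous_fst) continuous_const))

lemma seg2 {V F : (Fin n → ℝ) → ℝ} {A : ℝ} (h : Seg V A) (hA : 1 ≤ A) (hF : ELip (√n) F)
    (hn : 0 < n) {x z : (Fin n → ℝ) × (Fin n → ℝ)} (hx : x.2 ∈ box n) (hz : z.2 ∈ box n)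
    {ρ lo Y E c a : ℝ} (hρ : 0 ≤ ρ) (hρ1 : ρ ≤ 1) (hc : 0 ≤ c) (ha : 0 ≤ a)
    (hd1 : nrm (z.1 - x.1) ≤ 2 * ρ * √n) (hd2 : nrm (z.2 - x.2) ≤ 2 * ρ * √n)
    (x1 : lo + ρ ^ 2 < qq x.2) (z1 : lo + ρ ^ 2 < qq z.2)
    (x2 : nrm x.1 < Y * √n) (z2 : nrm z.1 < Y * √n) (x3 : Df V F x ≤ a * n)
    (z3 : Df V F z ≤ a * n) (he : a + 14 * A * ρ < E) : JoinedIn (W2 V F lo Y E c) x z := by
  have hn' : (0 : ℝ) < n := by exact_mod_cast hn
  have hs : √(n : ℝ) * √n = n := Real.mul_self_sqrt hn'.le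
  have hs0 : 0 ≤ √(n : ℝ) := Real.sqrt_nonneg _
  refine joinedIn_of_segment fun t ht => ?_
  have ht1 := sub_nonneg.2 ht.2
  have e1 : ((1 - t) • x + t • z).1 = (1 - t) • x.1 + t • z.1 := rfl
  have e2 : ((1 - t) • x + t • z).2 = (1 - t) • x.2 + t • z.2 := rfl
  have hb := box_seg hx hz ht
  refine ⟨hb, ?_, ?_, ?_⟩
  · have := (qq_seg hn hρ ht hd2).1
    have := lt_min x1 z1
    rw [e2]
    linarith
  · rw [e1]
    have h1 := nrm_add_le ((1 - t) • x.1) (t • z.1)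
    rw [nrm_smul, nrm_smul, abs_of_nonneg ht1, abs_of_nonneg ht.1] at h1
    have h2 := max_lt x2 z2
    have h3 := mul_le_mul_of_nonneg_left (le_max_left (nrm x.1) (nrm z.1)) ht1
    have h4 := mul_le_mul_of_nonneg_left (le_max_right (nrm x.1) (nrm z.1)) ht.1
    linarith
  · have h1 := h.le (by linarith) hn hx hz hρ hρ1 ht hd2
    have f1 : F ((1 - t) • x.1 + t • z.1) - F x.1 ≤ 2 * ρ * n := by
      have := (le_abs_self _).trans (hF ((1 - t) • x.1 + t • z.1) x.1)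
      have e : (1 - t) • x.1 + t • z.1 - x.1 = t • (z.1 - x.1) := by module
      rw [e, en_eq_nrm, nrm_smul, abs_of_nonneg ht.1] at this
      have h2 : t * nrm (z.1 - x.1) ≤ 2 * ρ * √n :=
        (mul_le_of_le_one_left (nrm_nonneg _) ht.2).trans hd1
      have h3 := mul_le_mul_of_nonneg_left h2 hs0
      nlinarith
    have f2 : F ((1 - t) • x.1 + t • z.1) - F z.1 ≤ 2 * ρ * n := by
      have := (le_abs_self _).trans (hF ((1 - t) • x.1 + t • z.1) z.1)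
      have e : (1 - t) • x.1 + t • z.1 - z.1 = (1 - t) • (x.1 - z.1) := by module
      rw [e, en_eq_nrm, nrm_smul, abs_of_nonneg ht1, nrm_sub_comm] at this
      have h2 : (1 - t) * nrm (z.1 - x.1) ≤ 2 * ρ * √n :=
        (mul_le_of_le_one_left (nrm_nonneg _) (by linarith [ht.1])).trans hd1
      have h3 := mul_le_mul_of_nonneg_left h2 hs0
      nlinarith
    have f3 : (z.1 - x.1) ⬝ᵥ (z.2 - x.2) ≤ 4 * ρ * n := by
      refine (dot_le _ _).trans ((mul_le_mul hd1 hd2 (nrm_nonneg _) (by positivity)).trans ?_)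
      have : 2 * ρ * √n * (2 * ρ * √n) = 4 * ρ * ρ * (√n * √n) := by ring
      rw [this, hs]
      exact mul_le_mul_of_nonneg_right (by nlinarith) hn'.le
    have f4 : t * (1 - t) * ((z.1 - x.1) ⬝ᵥ (z.2 - x.2)) ≤ 4 * ρ * n := by
      have h3 : 0 ≤ t * (1 - t) := mul_nonneg ht.1 ht1
      have h4 : t * (1 - t) ≤ 1 := by nlinarith [sq_nonneg (t - 1 / 2)]
      have h5 : 0 ≤ 4 * ρ * n := by positivity
      nlinarith
    have g1 := mul_le_mul_of_nonneg_left f1 ht1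
    have g2 := mul_le_mul_of_nonneg_left f2 ht.1
    have g3 := mul_le_mul_of_nonneg_left x3 ht1
    have g4 := mul_le_mul_of_nonneg_left z3 ht.1
    have g5 : ρ * n ≤ A * ρ * n := by
      have : 0 ≤ ρ * n := by positivity
      nlinarith
    have g6 : E * n ≤ E * Real.exp (c * qq ((1 - t) • x + t • z).2) * n := by
      have hE : 0 ≤ E := by nlinarith
      have : 1 ≤ Real.exp (c * qq ((1 - t) • x + t • z).2) :=
        Real.one_le_exp (mul_nonneg hc (qq_mem hb).1)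
      exact mul_le_mul_of_nonneg_right (le_mul_of_one_le_right hE this) hn'.le
    have g7 := mul_lt_mul_of_pos_right he hn'
    refine lt_of_lt_of_le ?_ g6
    simp only [Df] at g3 g4 ⊢
    rw [e1, e2, dot_seg]
    nlinarith

end Crest.Agent.T157.Up

end
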