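import Crest.Agent.T157.UpA_74

/-!
# Row 157, part D (helper74): the top of the upper half, the two chains
-/

set_option autoImplicit false

noncomputable section

namespace Crest.Agent.T157.Up

open MeasureTheory Matrix Set Filter
open Crest.Agent.T157.E Crest.Agent.T157.Eig Crest.Agent.T157.St Crest.Agent.T157.Lift
open Crest.Agent.T157.Conc (ELip en)
open Crest.Agent.T157.Cut (bd)

variable {n : ℕ}

/-- domain of the steps below `b` -/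
def dom1 (V : (Fin n → ℝ) → ℝ) (P b E : ℝ) : Set (Fin n → ℝ) :=
  {m | m ∈ box n ∧ qq m ≤ b ∧ n * P - V m ≤ E * n}

/-- good successors below `b` -/
def G1 (V : (Fin n → ℝ) → ℝ) (P c Δ s ρ : ℝ) (m : Fin n → ℝ) : Set (Fin n → ℝ) :=
  {m' | m' ∈ box n ∧ nrm (m' - m) ≤ ρ * √n ∧ |qq m' - qq m - Δ| ≤ s * Δ ∧
    n * P - V m' ≤ (1 + c * Δ) * max (n * P - V m) 0 + s * Δ * n}

/-- domain of the steps above `b` -/
def dom2 (V F : (Fin n → ℝ) → ℝ) (lo Y E : ℝ) : Set ((Fin n → ℝ) × (Fin n → ℝ)) :=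
  {x | x.2 ∈ box n ∧ lo ≤ qq x.2 ∧ nrm x.1 ≤ Y * √n ∧ Df V F x ≤ E * n}

/-- good successors above `b` -/
def G2 (V F F' : (Fin n → ℝ) → ℝ) (b c τ s ρ : ℝ) (x : (Fin n → ℝ) × (Fin n → ℝ)) :
    Set ((Fin n → ℝ) × (Fin n → ℝ)) :=
  {x' | x'.2 ∈ box n ∧ nrm (x'.1 - x.1) ≤ ρ * √n ∧ nrm (x'.2 - x.2) ≤ ρ * √n ∧
    min (qq x.2) (b - ρ ^ 2) ≤ qq x'.2 ∧ qq x.2 - s * τ ≤ qq x'.2 ∧
    (∀ Y, 1 ≤ Y → nrm x.1 ≤ Y * √n → nrm x'.1 ≤ (Y + 7 * τ) * √n) ∧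
    Df V F' x' ≤ Df V F x + c * (qq x'.2 - qq x.2 + s * τ) * (max (Df V F x) 0 + s * n) +
      s * τ * n}

/-- the chain of ancestors below `b` -/
structure Ch1 (V : (Fin n → ℝ) → ℝ) (P b ρ e : ℝ) (K : ℕ) (q : ℕ → ℝ) (m : ℕ → Fin n → ℝ) :
    Prop where
  q0 : q 0 ≤ ρ ^ 2
  qK : b - ρ ^ 2 ≤ q K
  st : ∀ p < K, q p ≤ q (p + 1) ∧ q (p + 1) ≤ q p + ρ ^ 2 ∧ nrm (m (p + 1) - m p) ≤ ρ * √n
  pt : ∀ p ≤ K, m p ∈ box n ∧ |qq (m p) - q p| ≤ ρ ^ 2 ∧ n * P - V (m p) ≤ e * n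

namespace Ch1
variable {V : (Fin n → ℝ) → ℝ} {P b ρ e : ℝ} {K : ℕ} {q : ℕ → ℝ} {m : ℕ → Fin n → ℝ}

lemma mono (h : Ch1 V P b ρ e K q m) {p p' : ℕ} (hp : p ≤ p') (hK : p' ≤ K) : q p ≤ q p' := by
  induction p', hp using Nat.le_induction with
  | base => exact le_rfl
  | succ r hr ih => exact (ih (by omega)).trans (h.st r (by omega)).1

open Classical in
/-- the last ancestor below the level `l` -/
def ix (K : ℕ) (q : ℕ → ℝ) (ρ l : ℝ) : ℕ := Nat.findGreatest (fun p => q p ≤ l + ρ ^ 2) K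

lemma ix_le (l : ℝ) : ix K q ρ l ≤ K := by
  classical
  exact Nat.findGreatest_le _

lemma ix_spec (h : Ch1 V P b ρ e K q m) {l : ℝ} (h0 : 0 ≤ l) (hb : l ≤ b) :
    l - ρ ^ 2 ≤ q (ix K q ρ l) ∧ q (ix K q ρ l) ≤ l + ρ ^ 2 := by
  classical
  have h1 : q (ix K q ρ l) ≤ l + ρ ^ 2 :=
    Nat.findGreatest_spec (P := fun p => q p ≤ l + ρ ^ 2) (Nat.zero_le K) (by linarith [h.q0])
  refine ⟨?_, h1⟩
  rcases eq_or_lt_of_le (ix_le (K := K) (q := q) (ρ := ρ) l) with h2 | h2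
  · rw [h2]; linarith [h.qK]
  · have h3 : ¬ q (ix K q ρ l + 1) ≤ l + ρ ^ 2 :=
      Nat.findGreatest_is_greatest (P := fun p => q p ≤ l + ρ ^ 2) (Nat.lt_succ_self _) h2
    have := (h.st _ h2).2.1
    nlinarith [sq_nonneg ρ]

lemma ix_mono (h : Ch1 V P b ρ e K q m) {l l' : ℝ} (h0 : 0 ≤ l) (hb : l ≤ b) (hl : l ≤ l') :
    ix K q ρ l ≤ ix K q ρ l' := by
  classical
  exact Nat.le_findGreatest (P := fun p => q p ≤ l' + ρ ^ 2) (ix_le l)
    (by linarith [(h.ix_spec h0 hb).2])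

lemma walk (h : Ch1 V P b ρ e K q m) {A : ℝ} (hs : Seg V A) (hA : 0 ≤ A) (hn : 0 < n)
    (hρ : 0 ≤ ρ) (hρ1 : ρ ≤ 1) {p0 p1 : ℕ} (hp : p0 ≤ p1) (hK : p1 ≤ K) {lo hi e' : ℝ}
    (h1 : lo + 2 * ρ ^ 2 < q p0) (h2 : q p1 + ρ ^ 2 < hi ∨ 1 < hi) (he : e + 8 * A * ρ < e') :
    JoinedIn (W1 V P lo hi e') (m p0) (m p1) := by
  have hn' : (0 : ℝ) < n := by exact_mod_cast hn
  have key : ∀ p, p0 ≤ p → p ≤ p1 → lo + ρ ^ 2 < qq (m p) ∧ qq (m p) < hi := by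
    intro p a1 a2
    obtain ⟨b1, b2, -⟩ := h.pt p (a2.trans hK)
    have b3 := abs_le.1 b2
    refine ⟨by linarith [h.mono a1 (a2.trans hK)], ?_⟩
    rcases h2 with h2 | h2
    · linarith [h.mono a2 hK]
    · linarith [(qq_mem b1).2]
  refine Up.walk hp ?_ fun p a1 a2 => ?_
  · obtain ⟨b1, -, b3⟩ := h.pt p0 (hp.trans hK)
    refine ⟨b1, by nlinarith [(key p0 le_rfl hp).1, sq_nonneg ρ], (key p0 le_rfl hp).2, ?_⟩
    have : 0 ≤ 8 * A * ρ := by positivity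
    exact b3.trans_lt (mul_lt_mul_of_pos_right (by linarith) hn')
  · obtain ⟨b1, -, b3⟩ := h.pt p (by omega)
    obtain ⟨c1, -, c3⟩ := h.pt (p + 1) (by omega)
    have d := (h.st p (by omega)).2.2
    have : 0 ≤ ρ * √(n : ℝ) := by positivity
    exact seg1 hs hA hn b1 c1 hρ hρ1 (by linarith) (key p a1 a2.le).1
      (key (p + 1) (by omega) a2).1 (key p a1 a2.le).2 (key (p + 1) (by omega) a2).2 b3 c3 he

end Ch1

lemma gron1 {c Δ s e0 l D D' N : ℝ} (hN : 0 < N) (hc : 0 ≤ c) (hΔ : 0 ≤ Δ) (hs : 0 ≤ s)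
    (he : 0 < e0) (hl : 0 ≤ l) (h : D < (e0 + s * l) * Real.exp (c * l) * N)
    (h' : D' ≤ (1 + c * Δ) * max D 0 + s * Δ * N) :
    D' < (e0 + s * (l + Δ)) * Real.exp (c * (l + Δ)) * N := by
  have h1 : max D 0 < (e0 + s * l) * Real.exp (c * l) * N := max_lt h (by positivity)
  have h2 : 1 + c * Δ ≤ Real.exp (c * Δ) := by linarith [Real.add_one_le_exp (c * Δ)]
  have h3 : (1 + c * Δ) * max D 0 < Real.exp (c * Δ) * ((e0 + s * l) * Real.exp (c * l) * N) :=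
    (mul_lt_mul_of_pos_left h1 (by positivity)).trans_le
      (mul_le_mul_of_nonneg_right h2 (by positivity))
  have h4 : 1 ≤ Real.exp (c * (l + Δ)) := Real.one_le_exp (by positivity)
  have h5 : s * Δ * N ≤ s * Δ * Real.exp (c * (l + Δ)) * N :=
    mul_le_mul_of_nonneg_right (le_mul_of_one_le_right (by positivity) h4) hN.le
  have h6 : Real.exp (c * (l + Δ)) = Real.exp (c * Δ) * Real.exp (c * l) := by
    rw [← Real.exp_add]; ring_nf
  calc D' < Real.exp (c * Δ) * ((e0 + s * l) * Real.exp (c * l) * N) +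
        s * Δ * Real.exp (c * (l + Δ)) * N := by linarith
    _ = _ := by rw [h6]; ring

/-- **the chain below `b`** -/
theorem stage1 {V : (Fin n → ℝ) → ℝ} {A P b c Δ s ρ e e0 E : ℝ} (hn : 0 < n) (hs : Seg V A)
    (hA : 0 ≤ A) (hV : ContinuousOn V (box n)) (hρ : 0 < ρ) (hρ1 : ρ ≤ 1) (hΔ : 0 < Δ)
    (hΔρ : Δ ≤ ρ ^ 2) (hs0 : 0 ≤ s) (hs1 : s ≤ 1) (hc : 0 ≤ c) (he : 0 ≤ e) (hb1 : b ≤ 1)
    (hb : 5 * ρ ^ 2 + s ≤ b) (he0 : (1 + c) * e + s + 8 * A * ρ < e0)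
    (hE : (e0 + s) * Real.exp c ≤ E) (h0 : n * P - V 0 ≤ e * n)
    (hst : Stp (dom1 V P b E) (G1 V P c Δ s ρ))
    {K K' : ℕ} {q q' : ℕ → ℝ} {m m' : ℕ → Fin n → ℝ} (h : Ch1 V P b ρ e K q m)
    (h' : Ch1 V P b ρ e K' q' m') :
    JoinedIn (W1 V P (b - (11 * ρ ^ 2 + 2 * s)) 2 E) (m K) (m' K') := by
  have hn' : (0 : ℝ) < n := by exact_mod_cast hn
  have hAρ : 0 ≤ 8 * A * ρ := by positivity
  have hce : 0 ≤ c * e := mul_nonneg hc he
  have he0' : 0 < e0 := by nlinarith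
  have hρ2 : 0 < ρ ^ 2 := by positivity
  have hρ21 : ρ ^ 2 ≤ 1 := pow_le_one₀ hρ.le hρ1
  set S : ℝ → Set (Fin n → ℝ) := fun l => W1 V P (l - (5 * ρ ^ 2 + s * l))
    (l + (5 * ρ ^ 2 + s * l)) ((e0 + s * l) * Real.exp (c * l)) with hS
  have hexp : ∀ l, 0 ≤ l → e0 ≤ (e0 + s * l) * Real.exp (c * l) := fun l hl =>
    (le_add_of_nonneg_right (mul_nonneg hs0 hl)).trans
      (le_mul_of_one_le_right (by positivity) (Real.one_le_exp (mul_nonneg hc hl)))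
  have hexp' : ∀ l, 0 ≤ l → l ≤ 1 → (e0 + s * l) * Real.exp (c * l) ≤ E := fun l hl hl1 =>
    le_trans (mul_le_mul (by nlinarith) (Real.exp_le_exp.2 (by nlinarith)) (Real.exp_pos _).le
      (by positivity)) hE
  -- the anchors
  have start : ∀ {K : ℕ} {q : ℕ → ℝ} {m : ℕ → Fin n → ℝ}, Ch1 V P b ρ e K q m →
      JoinedIn (S 0) 0 (m (Ch1.ix K q ρ 0)) := by
    intro K q m h
    obtain ⟨a1, a2, a3⟩ := h.pt _ (Ch1.ix_le (K := K) (q := q) (ρ := ρ) 0)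
    obtain ⟨a4, a5⟩ := h.ix_spec le_rfl (by linarith)
    have a6 := abs_le.1 a2
    have z0 : qq (0 : Fin n → ℝ) = 0 := by simp [qq]
    have a7 : nrm (m (Ch1.ix K q ρ 0) - 0) ≤ 2 * ρ * √n := by
      refine nrm_le_of_ds (by positivity) ?_
      rw [ds, sub_zero, ← n_qq hn]
      nlinarith
    refine seg1 hs hA hn (fun i => by simp) a1 hρ.le hρ1 a7 ?_ ?_ ?_ ?_ h0 a3 ?_
    · rw [z0]; linarith
    · linarith [(qq_mem a1).1]
    · rw [z0]; linarith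
    · linarith
    · linarith [hexp 0 le_rfl]
  have anchor : ∀ {K : ℕ} {q : ℕ → ℝ} {m : ℕ → Fin n → ℝ}, Ch1 V P b ρ e K q m → ∀ l, 0 ≤ l →
      l + Δ ≤ b → ∀ z ∈ G1 V P c Δ s ρ (m (Ch1.ix K q ρ l)),
      JoinedIn (S (l + Δ)) (m (Ch1.ix K q ρ (l + Δ))) z := by
    intro K q m h l hl hlb z ⟨z1, z2, z3, z4⟩
    obtain ⟨a1, a2, a3⟩ := h.pt _ (Ch1.ix_le (K := K) (q := q) (ρ := ρ) l)
    obtain ⟨a4, a5⟩ := h.ix_spec hl (by linarith)
    obtain ⟨a8, a9⟩ := h.ix_spec (l := l + Δ) (by linarith) hlb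
    have a6 := abs_le.1 a2
    have z5 := abs_le.1 z3
    have s1 : 0 ≤ s * (l + Δ) := by positivity
    have s2 : s * Δ ≤ Δ := mul_le_of_le_one_left hΔ.le hs1
    have s3 := hexp (l + Δ) (by linarith)
    refine (h.walk hs hA hn hρ.le hρ1 (h.ix_mono hl (by linarith) (by linarith)) (Ch1.ix_le _)
      (by linarith) (Or.inl (by linarith)) (by linarith)).symm.trans ?_
    have d : 0 ≤ ρ * √(n : ℝ) := by positivity
    refine seg1 (a := (1 + c) * e + s) hs hA hn a1 z1 hρ.le hρ1 (by linarith) (by linarith)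
      (by linarith) (by linarith) (by linarith) ?_ ?_ (by linarith)
    · exact a3.trans (mul_le_mul_of_nonneg_right (by linarith) hn'.le)
    · have b1 : max (n * P - V (m (Ch1.ix K q ρ l))) 0 ≤ e * n := max_le a3 (by positivity)
      have b2 : c * Δ ≤ c := mul_le_of_le_one_right hc (by linarith)
      have b3 := mul_le_mul (show 1 + c * Δ ≤ 1 + c by linarith) b1 (le_max_right _ _)
        (by linarith)
      have b4 : s * Δ * n ≤ s * n :=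
        mul_le_mul_of_nonneg_right (mul_le_of_le_one_right hs0 (by linarith)) hn'.le
      linarith
  have ind : ∀ j : ℕ, j * Δ ≤ b - (5 * ρ ^ 2 + s) →
      JoinedIn (S (j * Δ)) (m (Ch1.ix K q ρ (j * Δ))) (m' (Ch1.ix K' q' ρ (j * Δ))) := by
    intro j
    induction j with
    | zero =>
      intro _
      simp only [Nat.cast_zero, zero_mul]
      exact (start h).symm.trans (start h')
    | succ j ih =>
      intro hj
      have e1 : ((j + 1 : ℕ) : ℝ) * Δ = j * Δ + Δ := by push_cast; ring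
      rw [e1] at hj ⊢
      have hl : 0 ≤ j * Δ := by positivity
      have s2 : s * (j * Δ) ≤ s := mul_le_of_le_one_right hs0 (by linarith)
      refine hst.lift (S := S (j * Δ)) ?_ (isOpen_W1 hV _ _ _ _) ?_ (ih (by linarith))
        (anchor h _ hl (by linarith)) (anchor h' _ hl (by linarith))
      · rintro x ⟨x1, -, x3, x4⟩
        exact ⟨x1, by linarith, x4.le.trans
          (mul_le_mul_of_nonneg_right (hexp' _ hl (by linarith)) hn'.le)⟩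
      · rintro x ⟨-, x2, x3, x4⟩ z ⟨z1, -, z3, z4⟩
        have z5 := abs_le.1 z3
        exact ⟨z1, by nlinarith, by nlinarith, gron1 hn' hc hΔ.le hs0 he0' hl x4 z4⟩
  set N := ⌊(b - (5 * ρ ^ 2 + s)) / Δ⌋₊ with hN
  have hN1 : N * Δ ≤ b - (5 * ρ ^ 2 + s) := by
    rw [← le_div_iff₀ hΔ]; exact Nat.floor_le (div_nonneg (by linarith) hΔ.le)
  have hN2 : b - (5 * ρ ^ 2 + s) < N * Δ + Δ := by
    have := Nat.lt_floor_add_one ((b - (5 * ρ ^ 2 + s)) / Δ)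
    rw [div_lt_iff₀ hΔ] at this
    linarith
  have hl : 0 ≤ N * Δ := by positivity
  have s2 : s * (N * Δ) ≤ s := mul_le_of_le_one_right hs0 (by linarith)
  have fin : ∀ {K : ℕ} {q : ℕ → ℝ} {m : ℕ → Fin n → ℝ}, Ch1 V P b ρ e K q m →
      JoinedIn (W1 V P (b - (11 * ρ ^ 2 + 2 * s)) 2 E) (m (Ch1.ix K q ρ (N * Δ))) (m K) := by
    intro K q m h
    obtain ⟨a4, -⟩ := h.ix_spec hl (by linarith)
    refine h.walk hs hA hn hρ.le hρ1 (Ch1.ix_le _) le_rfl (by linarith) (Or.inr one_lt_two) ?_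
    linarith [hexp 0 le_rfl, hexp' 0 le_rfl zero_le_one]
  refine (fin h).symm.trans (((ind N hN1).mono ?_).trans (fin h'))
  rintro x ⟨x1, x2, -, x4⟩
  exact ⟨x1, by linarith, by linarith [(qq_mem x1).2],
    x4.trans_le (mul_le_mul_of_nonneg_right (hexp' _ hl (by linarith)) hn'.le)⟩

lemma gron2 {c τ s e2 t q q' D D' N : ℝ} (hN : 0 < N) (hc : 0 ≤ c) (hτ : 0 ≤ τ) (hs : 0 ≤ s)
    (he : 0 < e2) (hse : s ≤ e2) (ht : 0 ≤ t) (hq : 0 ≤ q) (hq0 : 0 ≤ q') (hq' : q - s * τ ≤ q')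
    (h : D < (e2 + s * t) * Real.exp (2 * c * s * t) * Real.exp (2 * c * q) * N)
    (h' : D' ≤ D + c * (q' - q + s * τ) * (max D 0 + s * N) + s * τ * N) :
    D' < (e2 + s * (t + τ)) * Real.exp (2 * c * s * (t + τ)) * Real.exp (2 * c * q') * N := by
  set M := (e2 + s * t) * Real.exp (2 * c * s * t) * Real.exp (2 * c * q) with hM
  have m1 : e2 ≤ M := by
    have a1 : 1 ≤ Real.exp (2 * c * s * t) := Real.one_le_exp (by positivity)
    have a2 : 1 ≤ Real.exp (2 * c * q) := Real.one_le_exp (by positivity)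
    have a3 : e2 ≤ e2 + s * t := le_add_of_nonneg_right (by positivity)
    exact a3.trans ((le_mul_of_one_le_right (by positivity) a1).trans
      (le_mul_of_one_le_right (by positivity) a2))
  have u0 : 0 ≤ q' - q + s * τ := by linarith
  have h1 : max D 0 ≤ M * N := max_le h.le (mul_nonneg (by linarith) hN.le)
  have h2 : s * N ≤ M * N := mul_le_mul_of_nonneg_right (by linarith) hN.le
  have h3 := mul_le_mul_of_nonneg_left (add_le_add h1 h2) (mul_nonneg hc u0)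
  have h4 : 1 + 2 * c * (q' - q + s * τ) ≤ Real.exp (2 * c * (q' - q + s * τ)) := by
    linarith [Real.add_one_le_exp (2 * c * (q' - q + s * τ))]
  have h5 := mul_le_mul_of_nonneg_left h4 (mul_nonneg (by linarith : 0 ≤ M) hN.le)
  have h6 : M * N * Real.exp (2 * c * (q' - q + s * τ)) =
      (e2 + s * t) * (Real.exp (2 * c * s * (t + τ)) * Real.exp (2 * c * q')) * N := by
    have : Real.exp (2 * c * s * (t + τ)) * Real.exp (2 * c * q') = Real.exp (2 * c * s * t) *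
        Real.exp (2 * c * q) * Real.exp (2 * c * (q' - q + s * τ)) := by
      rw [← Real.exp_add, ← Real.exp_add, ← Real.exp_add]; ring_nf
    rw [this, hM]; ring
  have h7 : 1 ≤ Real.exp (2 * c * s * (t + τ)) * Real.exp (2 * c * q') := by
    rw [← Real.exp_add]; exact Real.one_le_exp (by positivity)
  have h8 : s * τ * N ≤ s * τ * (Real.exp (2 * c * s * (t + τ)) * Real.exp (2 * c * q')) * N :=
    mul_le_mul_of_nonneg_right (le_mul_of_one_le_right (by positivity) h7) hN.le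
  calc D' < (e2 + s * t) * (Real.exp (2 * c * s * (t + τ)) * Real.exp (2 * c * q')) * N +
        s * τ * (Real.exp (2 * c * s * (t + τ)) * Real.exp (2 * c * q')) * N := by
        rw [← h6]; nlinarith
    _ = _ := by ring

/-- the chain of ancestors above `b` -/
structure Ch2 (V : (Fin n → ℝ) → ℝ) (F : ℕ → (Fin n → ℝ) → ℝ) (b ρ e Y : ℝ) (N : ℕ)
    (y μ : ℕ → Fin n → ℝ) : Prop where
  st : ∀ k < N, nrm (y (k + 1) - y k) ≤ ρ * √n ∧ nrm (μ (k + 1) - μ k) ≤ ρ * √n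
  pt : ∀ k ≤ N, μ k ∈ box n ∧ b - ρ ^ 2 ≤ qq (μ k) ∧ nrm (y k) ≤ Y * √n ∧
    Df V (F k) (y k, μ k) ≤ e * n

/-- **the chain above `b`** -/
theorem stage2 {V : (Fin n → ℝ) → ℝ} {F : ℕ → (Fin n → ℝ) → ℝ} {A b c τ s ρ e e2 w lo Y Ym E : ℝ}
    {N : ℕ} (hn : 0 < n) (hs : Seg V A) (hA : 1 ≤ A) (hV : ContinuousOn V (box n))
    (hF : ∀ k ≤ N, ELip (√n) (F k)) (hρ : 0 < ρ) (hρ1 : ρ ≤ 1) (hτ : 0 < τ) (hτ1 : τ ≤ 1)
    (hs0 : 0 ≤ s) (hs1 : s ≤ 1) (hc : 0 ≤ c) (he : 0 ≤ e) (hw : 2 * ρ ^ 2 < w) (hlo : lo ≤ b - w)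
    (hY : 1 ≤ Y) (hYm : Y + 8 + 7 * (N * τ) ≤ Ym)
    (he2 : e + 2 * c * (e + s) + s + 14 * A * ρ < e2)
    (hE : (e2 + s * (N * τ)) * Real.exp (2 * c * s * (N * τ)) * Real.exp (2 * c) ≤ E)
    (hst : ∀ k < N, Stp (dom2 V (F k) lo Ym E) (G2 V (F k) (F (k + 1)) b c τ s ρ))
    {y μ y' μ' : ℕ → Fin n → ℝ} (h : Ch2 V F b ρ e Y N y μ) (h' : Ch2 V F b ρ e Y N y' μ')
    (h0 : JoinedIn (W2 V (F 0) (b - w) (Y + 8) e2 (2 * c)) (y 0, μ 0) (y' 0, μ' 0)) :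
    JoinedIn (dom2 V (F N) lo Ym E) (y N, μ N) (y' N, μ' N) := by
  have hn' : (0 : ℝ) < n := by exact_mod_cast hn
  have hsq : 0 < √(n : ℝ) := Real.sqrt_pos.2 hn'
  have hAρ : 0 < 14 * A * ρ := by positivity
  have hce : 0 ≤ 2 * c * (e + s) := by positivity
  have he2' : 0 < e2 := by linarith
  have hρ2 : 0 < ρ ^ 2 := by positivity
  set S : ℕ → Set ((Fin n → ℝ) × (Fin n → ℝ)) := fun k => W2 V (F k) (b - w) (Y + 8 + 7 * (k * τ))
    ((e2 + s * (k * τ)) * Real.exp (2 * c * s * (k * τ))) (2 * c) with hS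
  have sub : ∀ k ≤ N, S k ⊆ dom2 V (F k) lo Ym E := by
    rintro k hk x ⟨x1, x2, x3, x4⟩
    have a1 : (k : ℝ) * τ ≤ N * τ := mul_le_mul_of_nonneg_right (by exact_mod_cast hk) hτ.le
    refine ⟨x1, by linarith, x3.le.trans (mul_le_mul_of_nonneg_right (by linarith) hsq.le),
      x4.le.trans (mul_le_mul_of_nonneg_right (le_trans ?_ hE) hn'.le)⟩
    have a2 : 2 * c * qq x.2 ≤ 2 * c := mul_le_of_le_one_right (by positivity) (qq_mem x1).2
    have a3 : 2 * c * s * (k * τ) ≤ 2 * c * s * (N * τ) :=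
      mul_le_mul_of_nonneg_left a1 (by positivity)
    have a4 := mul_le_mul_of_nonneg_left a1 hs0
    exact mul_le_mul (mul_le_mul (by linarith) (Real.exp_le_exp.2 a3) (Real.exp_pos _).le
      (by positivity)) (Real.exp_le_exp.2 a2) (Real.exp_pos _).le (by positivity)
  have anchor : ∀ {y μ : ℕ → Fin n → ℝ}, Ch2 V F b ρ e Y N y μ → ∀ k < N,
      ∀ z ∈ G2 V (F k) (F (k + 1)) b c τ s ρ (y k, μ k),
      JoinedIn (S (k + 1)) (y (k + 1), μ (k + 1)) z := by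
    intro y μ h k hk z ⟨z1, z2, z3, z4, z5, z6, z7⟩
    obtain ⟨a1, a2, a3, a4⟩ := h.pt k hk.le
    obtain ⟨b1, b2, b3, b4⟩ := h.pt (k + 1) hk
    obtain ⟨c1, c2⟩ := h.st k hk
    have t0 : 0 ≤ ((k + 1 : ℕ) : ℝ) * τ := by positivity
    simp only at z2 z3 z4 z5 z6 z7
    refine seg2 (a := e + 2 * c * (e + s) + s) hs hA (hF _ hk) hn b1 z1 hρ.le hρ1 (by positivity)
      (by positivity) ?_ ?_ (by simp only; linarith) ?_ ?_ ?_ ?_ ?_ ?_
    · have := nrm_tri z.1 (y k) (y (k + 1))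
      rw [nrm_sub_comm (y k)] at this
      simp only; linarith
    · have := nrm_tri z.2 (μ k) (μ (k + 1))
      rw [nrm_sub_comm (μ k)] at this
      simp only; linarith
    · rw [min_eq_right a2] at z4; linarith
    · exact b3.trans_lt (mul_lt_mul_of_pos_right (by linarith) hsq)
    · exact (z6 Y hY a3).trans_lt (mul_lt_mul_of_pos_right (by linarith) hsq)
    · exact b4.trans (mul_le_mul_of_nonneg_right (by linarith) hn'.le)
    · have d1 : max (Df V (F k) (y k, μ k)) 0 ≤ e * n := max_le a4 (by positivity)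
      have d2 : s * τ ≤ s := mul_le_of_le_one_right hs0 hτ1
      have d3 : c * (qq z.2 - qq (μ k) + s * τ) ≤ c * 2 :=
        mul_le_mul_of_nonneg_left (by linarith [(qq_mem z1).2, (qq_mem a1).1]) hc
      have d4 := mul_le_mul d3 (add_le_add d1 (le_refl (s * n))) (by positivity) (by positivity)
      have d5 := mul_le_mul_of_nonneg_right d2 hn'.le
      linarith
    · refine he2.trans_le ((le_add_of_nonneg_right (mul_nonneg hs0 t0)).trans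
        (le_mul_of_one_le_right (by positivity) (Real.one_le_exp (by positivity))))
  have ind : ∀ k ≤ N, JoinedIn (S k) (y k, μ k) (y' k, μ' k) := by
    intro k
    induction k with
    | zero => intro _; simpa [hS] using h0
    | succ k ih =>
      intro hk
      refine (hst k hk).lift (sub k (by omega)) (isOpen_W2 hV (hF _ hk).continuous _ _ _ _) ?_
        (ih (by omega)) (anchor h k hk) (anchor h' k hk)
      rintro x ⟨x1, x2, x3, x4⟩ z ⟨z1, -, -, z4, z5, z6, z7⟩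
      have e1 : ((k + 1 : ℕ) : ℝ) * τ = k * τ + τ := by push_cast; ring
      have t0 : 0 ≤ (k : ℝ) * τ := by positivity
      refine ⟨z1, (lt_min x2 (by linarith)).trans_le z4, ?_, ?_⟩
      · obtain ⟨Y', y1, y2⟩ : ∃ Y', max 1 (nrm x.1 / √n) ≤ Y' ∧ Y' < Y + 8 + 7 * (k * τ) :=
          ⟨_, le_rfl, max_lt (by linarith) ((div_lt_iff₀ hsq).2 x3)⟩
        refine (z6 Y' ((le_max_left _ _).trans y1)
          ((div_le_iff₀ hsq).1 ((le_max_right _ _).trans y1))).trans_lt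
          (mul_lt_mul_of_pos_right ?_ hsq)
        rw [e1]; linarith
      · rw [e1]
        exact gron2 hn' hc hτ.le hs0 he2' (by linarith) t0 (qq_mem x1).1 (qq_mem z1).1 z5 x4 z7
  exact (ind N le_rfl).mono (sub N le_rfl)

/-- **no cut** (deterministic form) -/
theorem no_cut {β C b : ℝ} {S : Site β C b} {W : Matrix (Fin n) (Fin n) ℝ}
    {F : ℕ → (Fin n → ℝ) → ℝ} {A c Δ τ s1 s2 ρ e e1 eF e0 e2 E1 E2 lo Y Ym r : ℝ} {N : ℕ}
    {B : Set (Cube n)} (hn : 0 < n) (hs : Seg (V S W) A) (hA : 1 ≤ A)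
    (hV : ContinuousOn (V S W) (box n)) (hF : ∀ k ≤ N, ELip (√n) (F k)) (hρ : 0 < ρ)
    (hρ1 : ρ ≤ 1) (hΔ : 0 < Δ) (hΔρ : Δ ≤ ρ ^ 2) (hτ : 0 < τ) (hτ1 : τ ≤ 1) (hs1 : 0 ≤ s1)
    (hs1' : s1 ≤ 1) (hs2 : 0 ≤ s2) (hs2' : s2 ≤ 1) (hc : 0 ≤ c) (he : 0 ≤ e) (he1 : 0 ≤ e1)
    (heF : 0 ≤ eF) (hb : 5 * ρ ^ 2 + s1 ≤ b) (hlo : lo ≤ b - (11 * ρ ^ 2 + 2 * s1)) (hY : 1 ≤ Y)
    (hYm : Y + 8 + 7 * (N * τ) ≤ Ym) (he0 : (1 + c) * (e + e1) + s1 + 8 * A * ρ < e0)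
    (hE1 : (e0 + s1) * Real.exp c ≤ E1) (he2 : e + 2 * c * (e + s2) + s2 + 14 * A * ρ < e2)
    (he2' : E1 + eF ≤ e2) (he2'' : e + eF + 14 * A * ρ < e2)
    (hE2 : (e2 + s2 * (N * τ)) * Real.exp (2 * c * s2 * (N * τ)) * Real.exp (2 * c) ≤ E2)
    (hF0 : F 0 0 ≤ n * (S.P + eF))
    (st1 : Stp (dom1 (V S W) (S.P + e1) b E1) (G1 (V S W) (S.P + e1) c Δ s1 ρ))
    (st2 : ∀ k < N, Stp (dom2 (V S W) (F k) lo Ym E2) (G2 (V S W) (F k) (F (k + 1)) b c τ s2 ρ))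
    (en1 : ∀ x ∈ dom2 (V S W) (F N) lo Ym E2, 1 - qq x.2 < r)
    (en2 : ∀ x ∈ dom2 (V S W) (F N) lo Ym E2, ∀ σ, ds (sv σ) x.2 < r * n → σ ∉ bd B)
    (h : Anc S W F (ρ ^ 2) e Y r N B) (h' : Anc S W F (ρ ^ 2) e Y r N Bᶜ) : False := by
  have hn' : (0 : ℝ) < n := by exact_mod_cast hn
  have hsq : 0 < √(n : ℝ) := Real.sqrt_pos.2 hn'
  have hρ2 : 0 < ρ ^ 2 := by positivity
  have hAρ : 0 < 14 * A * ρ := by positivity
  have key : ∀ {B : Set (Cube n)}, Anc S W F (ρ ^ 2) e Y r N B →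
      ∃ (K : ℕ) (q : ℕ → ℝ) (m y μ : ℕ → Fin n → ℝ) (X : Cube n),
        Ch1 (V S W) (S.P + e1) b ρ (e + e1) K q m ∧ Ch2 (V S W) F b ρ e Y N y μ ∧
        JoinedIn (W2 (V S W) (F 0) (b - (11 * ρ ^ 2 + 2 * s1)) (Y + 8) e2 (2 * c))
          (0, m K) (y 0, μ 0) ∧ X ∈ B ∧ d2 X (μ N) < r * n := by
    rintro B ⟨K, q, m, y, μ, X, a1, a2, a3, a4, a5, a6, a7, a8, a9, a10⟩
    have c2 : Ch2 (V S W) F b ρ e Y N y μ :=
      ⟨fun k hk => ⟨nrm_le_of_ds hρ.le (a7 k hk).1, nrm_le_of_ds hρ.le (a7 k hk).2⟩,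
        fun k hk => ⟨(a8 k hk).1, (a8 k hk).2.1, (a8 k hk).2.2.1, by
          have := (a8 k hk).2.2.2
          simp only [Df]; linarith⟩⟩
    refine ⟨K, q, m, y, μ, X, ⟨a1, a2, fun p hp => ⟨(a3 p hp).1, (a3 p hp).2.1,
      nrm_le_of_ds hρ.le (a3 p hp).2.2⟩, fun p hp => ⟨(a4 p hp).1, (a4 p hp).2.1, by
        linarith [(a4 p hp).2.2]⟩⟩, c2, ?_, a9, by rwa [d2_eq]⟩
    obtain ⟨b1, b2, b3⟩ := a4 K le_rfl
    obtain ⟨d1, d2, d3, d4⟩ := c2.pt 0 (Nat.zero_le N)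
    have b4 := abs_le.1 b2
    have g1 := nrm_le_of_ds hρ.le a5
    have g2 := nrm_le_of_ds hρ.le a6
    have g3 : 0 ≤ ρ * √(n : ℝ) := by positivity
    refine seg2 (a := e + eF) hs hA (hF 0 (Nat.zero_le N)) hn b1 d1 hρ.le hρ1 (by positivity)
      (by positivity) (by simp only; linarith) (by simp only; linarith) (by simp only; linarith)
      (by simp only; linarith) ?_ ?_ ?_ ?_ he2''
    · simp only [nrm_zero]; positivity
    · exact d3.trans_lt (mul_lt_mul_of_pos_right (by linarith) hsq)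
    · simp only [Df, zero_dotProduct]; linarith
    · exact d4.trans (mul_le_mul_of_nonneg_right (by linarith) hn'.le)
  obtain ⟨K, q, m, y, μ, X, a1, a2, a3, a4, a5⟩ := key h
  obtain ⟨K', q', m', y', μ', X', b1, b2, b3, b4, b5⟩ := key h'
  have j1 := stage1 hn hs (by linarith) hV hρ hρ1 hΔ hΔρ hs1 hs1' hc (by linarith) S.b1 hb he0 hE1
    (by rw [V_zero]; nlinarith) st1 a1 b1
  have j2 : JoinedIn (W2 (V S W) (F 0) (b - (11 * ρ ^ 2 + 2 * s1)) (Y + 8) e2 (2 * c))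
      (0, m K) (0, m' K') := by
    refine (j1.map (f := fun m => ((0 : Fin n → ℝ), m)) (by fun_prop)).mono ?_
    rintro _ ⟨x, ⟨x1, x2, -, x4⟩, rfl⟩
    refine ⟨x1, x2, by simp only [nrm_zero]; positivity, ?_⟩
    have g1 : 1 ≤ Real.exp (2 * c * qq x) := Real.one_le_exp (mul_nonneg (by positivity) (qq_mem x1).1)
    have g2 : e2 * n ≤ e2 * Real.exp (2 * c * qq x) * n :=
      mul_le_mul_of_nonneg_right (le_mul_of_one_le_right (by linarith) g1) hn'.le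
    have g3 := mul_le_mul_of_nonneg_right he2' hn'.le
    have g4 := mul_nonneg hn'.le he1
    simp only [Df, zero_dotProduct]
    linarith
  have j3 := stage2 hn hs hA hV hF hρ hρ1 hτ hτ1 hs2 hs2' hc he (by linarith) hlo hY hYm he2 hE2 st2
    a2 b2 (a3.symm.trans (j2.trans b3))
  refine not_joined_of_ball (μ := Prod.snd) continuous_snd.continuousOn (fun x hx => ?_)
    (fun x hx σ hσ => en2 x hx σ (by rwa [← d2_eq])) a4 b4 a5 b5 j3
  refine (d2_rnd_le_norm fun i => (hx.1 i).le).trans_lt ?_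
  rw [← dot_self_eq, ← n_qq hn]
  nlinarith [en1 x hx]

end Crest.Agent.T157.Up

end
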