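import Crest.Agent.T157.UpB_74
import Crest.Agent.T157.StB_44
import Crest.Agent.T157.SlaB_4
import Crest.Agent.T157.ConcS_16

/-!
# Row 157, part D (helper74): the top of the upper half, the steps are liftable
-/

set_option autoImplicit false

noncomputable section

namespace Crest.Agent.T157.Up

open MeasureTheory Matrix Set Filter
open scoped ENNReal
open Crest.Agent.T157.E Crest.Agent.T157.Eig Crest.Agent.T157.St Crest.Agent.T157.Lift
open Crest.Agent.T157.Conc (ELip en)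
open Crest.Agent.T157.Sc (SC1 SC2)

variable {n : ℕ} {β C b : ℝ}

theorem rep_of_ball {X Y : Type*} [TopologicalSpace Y] {f : X → (Fin n ⊕ Fin n → ℝ) → Y} {x : X}
    (hn : 0 < n) (hf : Continuous (f x)) {T : Set Y} {p : ℝ} (hp : p * (24 * n) ≤ 1 / 8)
    (h : Ball p 1 fun ξ => f x ξ ∈ T) : ∃ z, Rep (Conc.gv _) f T (1 / 4) x z := by
  obtain ⟨B, hB, h⟩ := h
  have hn1 : (1 : ℝ) ≤ n := by exact_mod_cast hn
  have h1 : √(2 * n : ℝ) ≤ 2 * n := Real.sqrt_le_iff.2 ⟨by positivity, by nlinarith⟩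
  refine exists_rep_of_slack hf (ρ := 1) (R := √(2 * n) + 4) (24 * n) (by omega)
    (by push_cast; linarith) h ?_
  have t1 := Conc.tail_lip (Conc.elip_en (ι := Fin n ⊕ Fin n)) (t := 4) (by norm_num)
  have t2 : ∫ z, en z ∂Conc.gv (Fin n ⊕ Fin n) ≤ √(2 * n) := by
    have := Nrm.integral_nrm_le (ι := Fin n ⊕ Fin n)
    rw [Fintype.card_sum, Fintype.card_fin, Nat.cast_add, ← two_mul] at this
    simpa only [Up.en_eq_nrm] using this
  have t3 : Real.exp (-4 ^ 2 / (2 * 1 ^ 2)) ≤ 1 / 16 := by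
    have e : (-4 ^ 2 / (2 * 1 ^ 2) : ℝ) = -(2 + 2 + 2 + 2) := by norm_num
    have := Real.add_one_le_exp 2
    rw [e, Real.exp_neg, one_div, Real.exp_add, Real.exp_add, Real.exp_add]
    refine inv_anti₀ (by norm_num) ?_
    have a : 9 ≤ Real.exp 2 * Real.exp 2 := by nlinarith
    nlinarith
  have t4 : Conc.gv (Fin n ⊕ Fin n) {ξ | √(2 * n) + 4 < en ξ} ≤ ENNReal.ofReal (1 / 16) := by
    rw [← ofReal_measureReal]
    refine ENNReal.ofReal_le_ofReal (le_trans (measureReal_mono fun ξ hξ => ?_) (t1.trans t3))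
    simp only [mem_ofPred_eq] at hξ ⊢
    linarith
  have t5 : ((24 * n : ℕ) : ℝ≥0∞) * Conc.gv (Fin n ⊕ Fin n) B ≤ ENNReal.ofReal (1 / 8) := by
    refine (mul_le_mul_right hB _).trans ?_
    rw [← ENNReal.ofReal_natCast, ← ENNReal.ofReal_mul (Nat.cast_nonneg _)]
    refine ENNReal.ofReal_le_ofReal ?_
    push_cast; linarith
  calc _ ≤ ENNReal.ofReal (1 / 8) + 2 * ENNReal.ofReal (1 / 16) :=
        add_le_add t5 (mul_le_mul_right t4 _)
    _ = ENNReal.ofReal (1 / 4) := by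
        rw [two_mul, ← ENNReal.ofReal_add (by norm_num) (by norm_num),
          ← ENNReal.ofReal_add (by norm_num) (by norm_num)]
        norm_num
    _ = 1 / 4 := by
        rw [ENNReal.ofReal_div_of_pos (by norm_num)]; simp

lemma fst_sub (ξ ξ' : Fin n ⊕ Fin n → ℝ) : St.fst (ξ - ξ') = St.fst ξ - St.fst ξ' := rfl

lemma ball_comp_fst {p : ℝ} {Q : (Fin n → ℝ) → Prop} (h : Ball p 1 Q) :
    Ball p 1 fun ξ : Fin n ⊕ Fin n → ℝ => Q (St.fst ξ) := by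
  obtain ⟨B, hB, h⟩ := h
  have hm := R339.Guerra.mp_comp (Sum.inl : Fin n → Fin n ⊕ Fin n) Sum.inl_injective
  refine ⟨St.fst ⁻¹' B, ?_, fun ξ hξ ξ' h' => h _ hξ _ ?_⟩
  · refine le_trans ?_ hB
    have := Measure.le_map_apply hm.measurable.aemeasurable (μ := E.gv (Fin n ⊕ Fin n)) B
    rw [hm.map_eq] at this
    exact this
  · rw [← fst_sub, Up.en_eq_nrm]
    exact (nrm_fst_le _).trans h'

lemma sqrt_mul_n {τ : ℝ} : √(n * τ) = √n * √τ := Real.sqrt_mul (Nat.cast_nonneg n) τ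

/-- Markov's inequality for the majorants -/
lemma ball_mart {F' : (Fin n → ℝ) → ℝ} (hF : ELip (√n) F') {y m : Fin n → ℝ} (hm : m ∈ box n)
    {τ c : ℝ} (hτ : 0 ≤ τ) (h : ∫ z, Real.exp (F' (y + √τ • z)) ∂E.gv (Fin n) ≤ Real.exp c)
    (a : ℝ) : Ball (Real.exp (-a)) 1 fun g : Fin n → ℝ =>
      F' (y + τ • m + √τ • g) ≤ c + (√τ * (m ⬝ᵥ g) + τ * (m ⬝ᵥ m) / 2) + a + 2 * √(n * τ) := by
  set X : (Fin n → ℝ) → ℝ := fun g => F' (y + τ • m + √τ • g) - √τ * (m ⬝ᵥ g) - τ * (m ⬝ᵥ m) / 2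
    with hX
  have hs := Real.sqrt_nonneg τ
  have hss := Real.mul_self_sqrt hτ
  have l1 : ELip (2 * √(n * τ)) X := by
    have a1 := Sla.elip_affine hF (y + τ • m) √τ
    have a2 := ((elip_lin m).const_mul √τ).neg
    refine ((a1.add a2).sub_const (τ * (m ⬝ᵥ m) / 2)).mono ?_
    rw [abs_of_nonneg hs, sqrt_mul_n]
    nlinarith [mul_le_mul_of_nonneg_left (nrm_box hm) hs]
  have e1 : ∫ g, Real.exp (X g) ∂E.gv (Fin n) = ∫ z, Real.exp (F' (y + √τ • z)) ∂E.gv (Fin n) := by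
    have := SL.cm (-(√τ • m)) fun z => Real.exp (F' (y + τ • m + √τ • z))
    have e2 : ∀ z : Fin n → ℝ, y + τ • m + √τ • (-(√τ • m) + z) = y + √τ • z := fun z => by
      rw [smul_add, smul_neg, smul_smul, hss]; abel
    simp only [e2] at this
    refine Eq.trans (integral_congr_ae (.of_forall fun g => ?_)) this.symm
    simp only [hX, ← Real.exp_add, dotProduct_neg, neg_dotProduct, dotProduct_smul,
      smul_dotProduct, smul_eq_mul, dotProduct_comm g m]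
    congr 1
    linear_combination (m ⬝ᵥ m / 2) * hss
  have i1 : Integrable (fun g => Real.exp (X g)) (E.gv (Fin n)) := by
    simpa using l1.integrable_exp 1
  have c1 := Conc.chernoff (μ := E.gv (Fin n)) (X := X) l1.continuous.measurable.aemeasurable
    (t := 1) (c := c) zero_le_one
    (by simpa using Conc.lint_ex_le_of_integral i1 (e1.le.trans h)) (c + a)
  refine ⟨{g | c + a ≤ X g}, c1.trans (le_of_eq ?_), fun g hg g' h' => ?_⟩
  · rw [Conc.ex]; congr 2; ring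
  · have b1 := (le_abs_self _).trans (l1 g' g)
    have b2 := mul_le_mul_of_nonneg_left h' (show 0 ≤ 2 * √(n * τ) by positivity)
    simp only [mem_ofPred_eq, not_le] at hg
    simp only [hX] at b1 hg
    linarith

lemma ball_dot (y : Fin n → ℝ) {x : ℝ} (hx : 1 ≤ x) :
    Ball (Real.exp (-x ^ 2 / 2)) 1 fun g : Fin n → ℝ => y ⬝ᵥ g ≤ 2 * x * nrm y := by
  refine (ball_upper (elip_lin y) (nrm_nonneg y) hx).mono le_rfl fun g hg => ?_
  rw [int_odd (elip_lin y).continuous (fun ξ => dotProduct_neg _ _), zero_add] at hg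
  exact hg

lemma abs_le_of_sq {c C1 E k N : ℝ} (hN : 0 < N) (hc : 0 < c) (hC : 0 ≤ C1) (hE : C1 ^ 2 * E ≤ c)
    (h : c * N * k ^ 2 ≤ E * N) : C1 * |k| ≤ 1 := by
  have h1 : c * k ^ 2 ≤ E := le_of_mul_le_mul_right (by linarith) hN
  have h2 : c * (C1 * |k|) ^ 2 ≤ c * 1 := by
    rw [mul_pow, sq_abs]
    nlinarith [mul_le_mul_of_nonneg_left h1 (sq_nonneg C1)]
  exact (sq_le_one_iff₀ (by positivity)).1 (le_of_mul_le_mul_left h2 hc)

/-- the conclusion of `Step1Stmt` -/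
def Raw1 (S : Site β C b) (A : Matrix (Fin n) (Fin n) ℝ) (C1 η Δ : ℝ) : Prop :=
  ∀ m ∈ box n, C1 * |kap S m| ≤ 1 → ∀ x : ℝ, 1 ≤ x →
    Ball (20 * Real.exp (-x ^ 2 / 2)) 1 fun ξ =>
      step1 S A η Δ m ξ ∈ box n ∧
      V S A m - C1 * (n * Δ * (kap S m ^ 2 + η ^ 2) + x * √(n * Δ) / η ^ 10) ≤
        V S A (step1 S A η Δ m ξ) ∧
      n * |qq (step1 S A η Δ m ξ) - qq m - Δ| ≤ C1 * (n * Δ * η ^ 2 + x * √(n * Δ) / η ^ 10) ∧
      (step1 S A η Δ m ξ - m) ⬝ᵥ (step1 S A η Δ m ξ - m) ≤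
        2 * n * Δ + C1 * x * √(n * Δ) / η ^ 10 ∧
      |m ⬝ᵥ (step1 S A η Δ m ξ - m)| ≤ C1 * x * √(n * Δ) / η ^ 10

theorem stp1 {S : Site β C b} {A : Matrix (Fin n) (Fin n) ℝ} {C1 η Δ c cg e1 E s σ ρ x : ℝ}
    (hn : 0 < n) (h : Raw1 S A C1 η Δ)
    (hc1 : ∀ ξ, ContinuousOn (fun m => step1 S A η Δ m ξ) (box n))
    (hc2 : ∀ m, Continuous (step1 S A η Δ m)) (sc : SC1 S A c e1) (hc : 0 < c) (hC : 0 ≤ C1)
    (hE : C1 ^ 2 * E ≤ c) (hcg : C1 ≤ cg * c) (hΔ : 0 < Δ) (hx : 1 ≤ x)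
    (hp : 22 * Real.exp (-x ^ 2 / 2) * (24 * n) ≤ 1 / 8)
    (hσ : C1 * x * √(n * Δ) / η ^ 10 ≤ σ * (n * Δ)) (hσ1 : σ ≤ 1) (hs : C1 * η ^ 2 + σ ≤ s)
    (hρ : 0 ≤ ρ) (hρΔ : 3 * Δ ≤ ρ ^ 2) :
    Stp (dom1 (V S A) (S.P + e1) b E) (G1 (V S A) (S.P + e1) cg Δ s ρ) := by
  have hn' : (0 : ℝ) < n := by exact_mod_cast hn
  refine ⟨_, inferInstance, step1 S A η Δ, fun ξ => (hc1 ξ).mono fun m hm => hm.1, ?_⟩
  rintro m ⟨m1, m2, m3⟩
  have k1 := sc m m1 m2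
  refine rep_of_ball hn (hc2 m) hp ((h m m1 (abs_le_of_sq hn' hc hC hE (by linarith)) x hx).mono
    (by linarith [Real.exp_pos (-x ^ 2 / 2)]) ?_)
  rintro ξ ⟨a1, a2, a3, a4, -⟩
  have e : C1 * x * √(n * Δ) / η ^ 10 = C1 * (x * √(n * Δ) / η ^ 10) := by ring
  have hnΔ : 0 < n * Δ := by positivity
  have b1 := mul_le_mul_of_nonneg_right hs hnΔ.le
  refine ⟨a1, nrm_le_of_ds hρ ?_, le_of_mul_le_mul_left ?_ hn', ?_⟩
  · have := mul_le_mul_of_nonneg_right hσ1 hnΔ.le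
    have := mul_le_mul_of_nonneg_right hρΔ hn'.le
    rw [ds]; linarith
  · linarith
  · have b2 : c * n * kap S m ^ 2 ≤ max (n * (S.P + e1) - V S A m) 0 :=
      le_trans (by linarith) (le_max_left _ _)
    have b3 : 0 ≤ cg := by
      by_contra h0
      nlinarith [mul_neg_of_neg_of_pos (not_le.1 h0) hc]
    have b4 := mul_le_mul_of_nonneg_left b2 (mul_nonneg b3 hΔ.le)
    have b5 := mul_le_mul_of_nonneg_right hcg (show 0 ≤ n * Δ * kap S m ^ 2 by positivity)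
    have b6 := le_max_left (n * (S.P + e1) - V S A m) 0
    nlinarith

/-- the conclusion of `Step2L` -/
def Raw2 (S : Site β C b) (A : Matrix (Fin n) (Fin n) ℝ) (C1 η τ : ℝ) : Prop :=
  ∀ y : Fin n → ℝ, ∀ m ∈ box n,
    b - η ^ 4 ≤ qq m → C1 * max (-kap S m) 0 ≤ 1 → ∀ Y : ℝ, 1 ≤ Y → nrm y ≤ Y * √n →
    ∀ x : ℝ, 1 ≤ x → ∃ k : ℝ, 0 ≤ k ∧ k ≤ 2 / η ∧ (1 - qq m) ^ 2 ≤ C1 * (k + η ^ 2) ∧
    Ball (20 * Real.exp (-x ^ 2 / 2)) 1 fun ξ =>
      (step2 S A η τ (y, m) ξ).2 ∈ box n ∧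
      V S A m + y ⬝ᵥ m + (√τ * (m ⬝ᵥ fun i => ξ (Sum.inl i)) + τ * (m ⬝ᵥ m) / 2 + n * τ / 2) -
          C1 * (n * τ * (k * (max (-kap S m) 0 ^ 2 + η ^ 2) + η ^ 2) +
            x * Y * √(n * τ) / η ^ 10) ≤
        V S A (step2 S A η τ (y, m) ξ).2 +
          (step2 S A η τ (y, m) ξ).1 ⬝ᵥ (step2 S A η τ (y, m) ξ).2 ∧
      n * |qq (step2 S A η τ (y, m) ξ).2 - qq m - τ * k| ≤
        C1 * (n * τ * η ^ 2 * (1 + k) + x * √(n * τ) / η ^ 10) ∧
      ((step2 S A η τ (y, m) ξ).2 - m) ⬝ᵥ ((step2 S A η τ (y, m) ξ).2 - m) ≤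
        C1 * (n * τ / η + x * √(n * τ) / η ^ 10) ∧
      nrm ((step2 S A η τ (y, m) ξ).1 - y) ≤ τ * √n + √τ * (√n + x + 1)

lemma nrm_next {y u : Fin n → ℝ} {τ Y : ℝ} (hτ : 0 ≤ τ) (hY : 1 ≤ Y) (hy : nrm y ≤ Y * √n)
    (h1 : y ⬝ᵥ u ≤ 2 * τ * √n * nrm y) (h2 : nrm u ≤ 3 * √τ * √n) :
    nrm (y + u) ≤ (Y + 7 * τ) * √n := by
  have hn : (0 : ℝ) ≤ n := Nat.cast_nonneg n
  have hs := Real.sqrt_nonneg (n : ℝ)
  have a1 : y ⬝ᵥ y ≤ (Y * √n) ^ 2 := (nrm_le_iff (by positivity)).1 hy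
  have a2 : u ⬝ᵥ u ≤ (3 * √τ * √n) ^ 2 := (nrm_le_iff (by positivity)).1 h2
  have a3 := mul_le_mul_of_nonneg_left hy (show 0 ≤ 2 * τ * √n by positivity)
  rw [nrm_le_iff (by positivity), add_dotProduct, dotProduct_add, dotProduct_add,
    dotProduct_comm u y]
  simp only [mul_pow, Real.sq_sqrt hn, Real.sq_sqrt hτ] at a1 a2 ⊢
  have a4 : 2 * τ * √n * (Y * √n) = 2 * τ * Y * n := by
    rw [show 2 * τ * √n * (Y * √n) = 2 * τ * Y * (√n * √n) by ring, Real.mul_self_sqrt hn]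
  have a5 : τ * n ≤ τ * Y * n := by nlinarith [mul_nonneg hτ hn]
  nlinarith [mul_nonneg (mul_nonneg hτ hτ) hn]

theorem stp2 {S : Site β C b} {A : Matrix (Fin n) (Fin n) ℝ} {F F' : (Fin n → ℝ) → ℝ}
    {C1 η τ c cg c0 E s ρ x Y : ℝ} (hn : 0 < n) (h : Raw2 S A C1 η τ)
    (hc1 : ∀ ξ, ContinuousOn (fun x => step2 S A η τ x ξ) {x | x.2 ∈ box n})
    (hc2 : ∀ x, Continuous (step2 S A η τ x)) (hF : ELip (√n) F')
    (sup : ∀ y, ∫ z, Real.exp (F' (y + √τ • z)) ∂gv (Fin n) ≤ Real.exp (F y + n * τ / 2))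
    (dom : ∀ y, ∀ m ∈ box n, b - η ^ 4 ≤ qq m →
      V S A m + y ⬝ᵥ m + c * n * max (-kap S m) 0 ^ 2 ≤ F y)
    (hc : 0 < c) (hc' : c ≤ 1) (hC : 1 ≤ C1) (hE : C1 ^ 2 * E ≤ c) (hcg : C1 ≤ cg * c)
    (hη : 0 < η) (hs : 8 * C1 * η ≤ s) (hs1 : s ≤ 1) (hτ : 0 < τ) (hx : 1 ≤ x) (hY : 1 ≤ Y)
    (hp : 22 * Real.exp (-x ^ 2 / 2) * (24 * n) ≤ 1 / 8)
    (hσ : C1 * x * Y * √(n * τ) / η ^ 10 ≤ η ^ 2 * (n * τ)) (hc0 : 0 ≤ c0) (hb : b ≤ 1 - c0)
    (hc0' : 2 * C1 * (C1 + 2) * η ^ 2 ≤ c0 ^ 2) (hρ : 0 ≤ ρ) (hρ1 : ρ ≤ 1)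
    (hρτ : (9 + C1 / η) * τ ≤ ρ ^ 2) :
    Stp (dom2 (V S A) F (b - η ^ 4) Y E) (G2 (V S A) F F' b cg τ s ρ) := by
  have hn' : (0 : ℝ) < n := by exact_mod_cast hn
  have hnτ : 0 < n * τ := by positivity
  have hq := Real.sqrt_pos.2 hnτ
  have hqq := Real.mul_self_sqrt hnτ.le
  have hη8 : η ≤ 1 / 8 := by nlinarith
  have hη2 : η ^ 2 ≤ η / 8 := by nlinarith
  have hCη : 0 < C1 / η := by positivity
  have hτρ : 9 * τ ≤ ρ ^ 2 := by nlinarith
  have hτ1 : τ ≤ 1 := by nlinarith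
  have hη10 : η ^ 10 ≤ 1 := pow_le_one₀ hη.le (by linarith)
  have g0 : 0 < x * √(n * τ) / η ^ 10 := by positivity
  have g1 : C1 * (x * √(n * τ) / η ^ 10) ≤ η ^ 2 * (n * τ) := by
    refine le_trans ?_ hσ
    rw [show C1 * x * Y * √(n * τ) / η ^ 10 = C1 * (x * √(n * τ) / η ^ 10) * Y by ring]
    exact le_mul_of_one_le_right (by positivity) hY
  have g2 : x * √(n * τ) ≤ η ^ 2 * (n * τ) := by
    refine le_trans ?_ ((le_mul_of_one_le_left g0.le hC).trans g1)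
    rw [le_div_iff₀ (by positivity)]
    exact mul_le_of_le_one_right (by positivity) hη10
  have g3 : 2 * x ≤ √(n * τ) := by
    refine le_of_mul_le_mul_right ?_ hq
    rw [hqq]; nlinarith
  have g4 : √τ * (2 * x) ≤ τ * √n := by
    refine (mul_le_mul_of_nonneg_left g3 (Real.sqrt_nonneg τ)).trans (le_of_eq ?_)
    rw [sqrt_mul_n, mul_left_comm, Real.mul_self_sqrt hτ.le, mul_comm]
  have g5 : τ ≤ √τ := Real.le_sqrt_of_sq_le (by nlinarith)
  have g6 : 0 ≤ cg := by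
    by_contra h0
    nlinarith [mul_neg_of_neg_of_pos (not_le.1 h0) hc]
  refine ⟨_, inferInstance, step2 S A η τ, fun ξ => (hc1 ξ).mono fun m hm => hm.1, ?_⟩
  rintro ⟨y, m⟩ ⟨m1, m2, m3, m4⟩
  simp only at m1 m2 m3
  have k1 : c * n * max (-kap S m) 0 ^ 2 ≤ Df (V S A) F (y, m) := by
    have := dom y m m1 m2
    simp only [Df]; linarith
  have k2 := abs_le_of_sq hn' hc (by linarith) hE (k1.trans m4)
  rw [abs_of_nonneg (le_max_right _ _)] at k2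
  obtain ⟨k, k0, kη, kl, hB⟩ := h y m m1 m2 k2 Y hY m3 x hx
  have hB2 := ball_comp_fst (ball_mart hF m1 hτ.le (sup y) (x ^ 2 / 2))
  have hB3 := ball_comp_fst (ball_dot y hx)
  have p0 := Real.exp_pos (-x ^ 2 / 2)
  refine rep_of_ball hn (hc2 _) hp (((hB.and hB2 (by positivity) (by positivity)).and hB3
    (by positivity) p0.le).mono (by rw [← neg_div]; linarith) ?_)
  rintro ξ ⟨⟨⟨a1, a2, a3, a4, a5⟩, a6⟩, a7⟩
  have ey : (step2 S A η τ (y, m) ξ).1 = y + τ • m + √τ • St.fst ξ := rfl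
  have ef : (fun i => ξ (Sum.inl i)) = St.fst ξ := rfl
  rw [ef] at a2
  rw [← ey] at a6
  set z := step2 S A η τ (y, m) ξ with hz
  have hsn := Real.sqrt_nonneg (n : ℝ)
  have b1 : nrm (z.1 - y) ≤ 3 * √τ * √n := by
    have := mul_le_mul_of_nonneg_left (show x + 1 ≤ 2 * x by linarith) (Real.sqrt_nonneg τ)
    have := mul_le_mul_of_nonneg_right g5 hsn
    linarith
  have b2 : |qq z.2 - qq m - τ * k| ≤ (C1 * η ^ 2 * (1 + k) + η ^ 2) * τ :=
    le_of_mul_le_mul_left (by linarith) hn'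
  have b3 := abs_le.1 b2
  have b4 : η ^ 2 * k ≤ 2 * η := by
    rw [le_div_iff₀ hη] at kη
    nlinarith
  have b5 : C1 * η ^ 2 * (1 + k) + η ^ 2 ≤ s := by
    have := mul_le_mul_of_nonneg_left (show η ^ 2 * (1 + k) ≤ 3 * η by nlinarith)
      (show 0 ≤ C1 by linarith)
    nlinarith
  have b6 := mul_le_mul_of_nonneg_right b5 hτ.le
  have b7 : 0 ≤ τ * k := by positivity
  refine ⟨a1, b1.trans (mul_le_mul_of_nonneg_right ?_ hsn), nrm_le_of_ds hρ ?_, ?_,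
    by simp only; linarith, fun Y' y1 y2 => ?_, ?_⟩
  · refine le_of_sq_le_sq ?_ hρ
    rw [mul_pow, Real.sq_sqrt hτ.le]; linarith
  · have := mul_le_mul_of_nonneg_right hρτ hn'.le
    have e : C1 * (n * τ / η) = C1 / η * τ * n := by ring
    have : η ^ 2 * (n * τ) ≤ 1 * (n * τ) := mul_le_mul_of_nonneg_right (by nlinarith) hnτ.le
    simp only [ds]; linarith
  · rcases le_total (qq m) b with q1 | q1
    · refine (min_le_left _ _).trans ?_
      have d1 : c0 ^ 2 ≤ (1 - qq m) ^ 2 := pow_le_pow_left₀ hc0 (by linarith) 2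
      have d2 : 2 * (C1 + 2) * η ^ 2 ≤ k + η ^ 2 :=
        le_of_mul_le_mul_left (by linarith) (show 0 < C1 by linarith)
      have d3 : C1 * η ^ 2 ≤ 1 / 2 := by nlinarith
      have d4 := mul_le_mul_of_nonneg_right d3 k0
      have d5 : C1 * η ^ 2 * (1 + k) + η ^ 2 ≤ k := by nlinarith [sq_nonneg η]
      have d6 := mul_le_mul_of_nonneg_right d5 hτ.le
      simp only; linarith
    · refine (min_le_right _ _).trans ?_
      have := mul_le_mul_of_nonneg_right hs1 hτ.le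
      linarith
  · have e : z.1 = y + (z.1 - y) := by abel
    rw [e]
    refine nrm_next hτ.le y1 y2 ?_ b1
    have e2 : z.1 - y = τ • m + √τ • St.fst ξ := by rw [ey]; abel
    rw [e2, dotProduct_add, dotProduct_smul, dotProduct_smul, smul_eq_mul, smul_eq_mul]
    have d1 := mul_le_mul_of_nonneg_left ((dot_le y m).trans
      (mul_le_mul_of_nonneg_left (nrm_box m1) (nrm_nonneg y))) hτ.le
    have d2 := mul_le_mul_of_nonneg_left a7 (Real.sqrt_nonneg τ)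
    have d3 := mul_le_mul_of_nonneg_right g4 (nrm_nonneg y)
    linarith
  · set D := Df (V S A) F (y, m) with hD
    set κ := max (-kap S m) 0 ^ 2 with hκ
    have κ0 : 0 ≤ κ := sq_nonneg _
    have d1 : C1 * (n * κ) ≤ cg * max D 0 := by
      have := mul_le_mul_of_nonneg_left (k1.trans (le_max_left D 0)) g6
      have := mul_le_mul_of_nonneg_right hcg (show 0 ≤ n * κ by positivity)
      linarith
    have d2 : C1 * (η ^ 2 * n) ≤ cg * (s * n) :=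
      mul_le_mul (hcg.trans (mul_le_of_le_one_right g6 hc'))
        (mul_le_mul_of_nonneg_right (by nlinarith) hn'.le) (by positivity) g6
    have d3 : τ * k * (C1 * (n * κ) + C1 * (η ^ 2 * n)) ≤
        (qq z.2 - qq m + s * τ) * (cg * max D 0 + cg * (s * n)) :=
      mul_le_mul (by linarith) (add_le_add d1 d2) (by positivity) (by linarith)
    have d4 : x ^ 2 / 2 ≤ x * √(n * τ) := by nlinarith
    have d5 : √(n * τ) ≤ x * √(n * τ) := le_mul_of_one_le_left hq.le hx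
    have d6 : (C1 * η ^ 2 + 4 * η ^ 2) * (n * τ) ≤ s * (n * τ) :=
      mul_le_mul_of_nonneg_right (by nlinarith) hnτ.le
    have e : C1 * x * Y * √(n * τ) / η ^ 10 = C1 * (x * Y * √(n * τ) / η ^ 10) := by ring
    have e3 : D = F y - V S A m - y ⬝ᵥ m := rfl
    change F' z.1 - V S A z.2 - z.1 ⬝ᵥ z.2 ≤
      D + cg * (qq z.2 - qq m + s * τ) * (max D 0 + s * n) + s * τ * n
    linarith

end Crest.Agent.T157.Up

end
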