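import Crest.Agent.T157.UpDef_74

/-!
# Row 157, part D (helper74): the family of majorants, statement
-/

set_option autoImplicit false

noncomputable section

namespace Crest.Agent.T157.Up

open MeasureTheory
open Crest.Agent.T157.E
open Crest.Agent.T157.Conc (ELip)

/-- the supermartingale family built from the majorants `L k` and the weight `w` of a bad set -/
def FamStmt : Prop :=
  ∀ (n N : ℕ) (τ a Lb : ℝ) (L : ℕ → (Fin n → ℝ) → ℝ) (w : Cube n → ℝ), 0 ≤ τ →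
    (∀ k ≤ N, ELip (√n) (L k) ∧
      ∫ z, Real.exp (L k (√(k * τ) • z)) ∂gv (Fin n) ≤ Real.exp (a + n * (k * τ) / 2)) →
    (∀ x, 0 ≤ w x) → Real.exp Lb * ∑ x, w x ≤ Real.exp a →
    ∃ F : ℕ → (Fin n → ℝ) → ℝ,
      (∀ k ≤ N, ELip (√n) (F k) ∧ (∀ y, L k y ≤ F k y) ∧
        ∫ z, Real.exp (F k (√(k * τ) • z)) ∂gv (Fin n) ≤
          (N + 2) * Real.exp (a + n * (k * τ) / 2)) ∧
      (∀ k < N, ∀ y, ∫ z, Real.exp (F (k + 1) (y + √τ • z)) ∂gv (Fin n) ≤
        Real.exp (F k y + n * τ / 2)) ∧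
      ∀ y σ, Real.exp Lb * tilt w y σ ≤ Real.exp (F N y)

end Crest.Agent.T157.Up

end
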