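import Crest.Agent.T157.UpC_74
import Crest.Agent.T157.UpDef2_74
import Crest.Agent.T157.An_51

/-!
# Row 157, part D (helper74): the top of the upper half, the end and the parameters
-/

set_option autoImplicit false

noncomputable section

namespace Crest.Agent.T157.Up

open MeasureTheory Matrix Set Filter
open Crest.Agent.T157.E Crest.Agent.T157.Eig Crest.Agent.T157.St Crest.Agent.T157.Lift
open Crest.Agent.T157.Conc (ELip en)
open Crest.Agent.T157.Sc (SC1 SC2)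
open Crest.Agent.T157.Cut (bd)
open Crest.Agent.T157.An (pow_dom exp_small sc2_mono)

variable {n : ℕ} {β C b : ℝ}

lemma log_ising_sub {A : Matrix (Fin n) (Fin n) ℝ} {CA Y ρ : ℝ} (hA : opn A ≤ CA) {y : Fin n → ℝ}
    (hy : nrm y ≤ Y * √n) {σ σ' : Cube n} (h : nrm (sv σ' - sv σ) ≤ ρ * √n) :
    Real.log (ising A y σ') - (CA + Y) * ρ * n ≤ Real.log (ising A y σ) := by
  have hn : (0 : ℝ) ≤ n := Nat.cast_nonneg n
  have hs := Real.sqrt_nonneg (n : ℝ)
  have hss := Real.mul_self_sqrt hn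
  have hA0 := opn_nonneg A
  have e : sv σ' ⬝ᵥ A *ᵥ sv σ' - sv σ ⬝ᵥ A *ᵥ sv σ =
      (sv σ' - sv σ) ⬝ᵥ A *ᵥ sv σ' + sv σ ⬝ᵥ A *ᵥ (sv σ' - sv σ) := by
    simp only [sub_dotProduct, mulVec_sub, dotProduct_sub]; ring
  have d0 := nrm_nonneg (sv σ' - sv σ)
  have a1 : (sv σ' - sv σ) ⬝ᵥ A *ᵥ sv σ' ≤ ρ * √n * (CA * √n) := by
    refine (dot_le _ _).trans (mul_le_mul h ((nrm_mulVec_le _ _).trans ?_) (nrm_nonneg _)
      (d0.trans h))
    rw [Sla.nrm_sv]; exact mul_le_mul_of_nonneg_right hA hs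
  have a2 : sv σ ⬝ᵥ A *ᵥ (sv σ' - sv σ) ≤ √n * (CA * (ρ * √n)) := by
    refine (dot_le _ _).trans ?_
    rw [Sla.nrm_sv]
    exact mul_le_mul_of_nonneg_left ((nrm_mulVec_le _ _).trans
      (mul_le_mul hA h d0 (hA0.trans hA))) hs
  have a3 : y ⬝ᵥ (sv σ' - sv σ) ≤ Y * √n * (ρ * √n) :=
    (dot_le _ _).trans (mul_le_mul hy h d0 ((nrm_nonneg _).trans hy))
  rw [dotProduct_sub] at a3
  have e1 : ρ * √n * (CA * √n) = CA * ρ * n := by linear_combination (CA * ρ) * hss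
  have e2 : √n * (CA * (ρ * √n)) = CA * ρ * n := by linear_combination (CA * ρ) * hss
  have e3 : Y * √n * (ρ * √n) = Y * ρ * n := by linear_combination (Y * ρ) * hss
  simp only [ising, Real.log_exp]
  linarith

/-- the conclusion of `EndStmt` -/
def RawE (S : Site β C b) (A : Matrix (Fin n) (Fin n) ℝ) (C1 : ℝ) : Prop :=
  ∀ y : Fin n → ℝ, ∀ m ∈ box n, b ≤ qq m → ∀ Y : ℝ, 1 ≤ Y → nrm y ≤ Y * √n →
    V S A m + y ⬝ᵥ m - C1 * Y * n * √(1 - qq m) ≤ Real.log (ising A y (sgn m)) ∧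
      (sv (sgn m) - m) ⬝ᵥ (sv (sgn m) - m) ≤ n * (1 - qq m)

lemma end2 {S : Site β C b} {A : Matrix (Fin n) (Fin n) ℝ} {C1 CA Y ρ : ℝ} (h : RawE S A C1)
    (hA : opn A ≤ CA) (hC : 0 ≤ C1) {y m : Fin n → ℝ} (hm : m ∈ box n) (hb : b ≤ qq m)
    (hY : 1 ≤ Y) (hy : nrm y ≤ Y * √n) (hρ : 0 ≤ ρ) (hq : 1 - qq m ≤ ρ ^ 2) {σ : Cube n}
    (hσ : ds (sv σ) m ≤ ρ ^ 2 * n) :
    V S A m + y ⬝ᵥ m - (C1 + 2 * CA + 2) * Y * ρ * n ≤ Real.log (ising A y σ) := by
  have hn : (0 : ℝ) ≤ n := Nat.cast_nonneg n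
  obtain ⟨h1, h2⟩ := h y m hm hb Y hY hy
  have a1 : nrm (sv (sgn m) - m) ≤ ρ * √n :=
    nrm_le_of_ds hρ (h2.trans (by rw [mul_comm]; exact mul_le_mul_of_nonneg_right hq hn))
  have a2 := nrm_le_of_ds hρ hσ
  have a3 := nrm_tri (sv (sgn m)) m (sv σ)
  rw [nrm_sub_comm m] at a3
  have a4 := log_ising_sub hA hy (σ := σ) (σ' := sgn m) (ρ := 2 * ρ) (by linarith)
  have a5 : √(1 - qq m) ≤ ρ := Real.sqrt_le_iff.2 ⟨hρ, hq⟩
  have a6 := mul_le_mul_of_nonneg_left a5 (show 0 ≤ C1 * Y * n by positivity)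
  have a7 := mul_le_mul_of_nonneg_left hY
    (show 0 ≤ CA * ρ * n from mul_nonneg (mul_nonneg ((opn_nonneg A).trans hA) hρ) hn)
  linarith

open Classical in
lemma sum_indicator_eq {w : Cube n → ℝ} (hw : ∀ x, 0 < w x) (B : Set (Cube n)) :
    ∑ x, B.indicator w x = mass w B * Zw w := by
  have h0 : (∑ x, w x) ≠ 0 := (Finset.sum_pos (fun x _ => hw x) Finset.univ_nonempty).ne'
  rw [mass, Zw, Finset.sum_mul, Finset.sum_filter]
  refine Finset.sum_congr rfl fun x _ => ?_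
  by_cases hx : x ∈ B <;> simp [hx, prob, h0]

set_option maxHeartbeats 1600000 in
/-- **no cut**, with the parameters -/
theorem det (hFam : FamStmt) {S : Site β C b} {A : Matrix (Fin n) (Fin n) ℝ} {Γ : ℝ → ℝ}
    {C1 C2 C3 C4 Cs CA c c0 K u x τ : ℝ} {N : ℕ} {B : Set (Cube n)} (hn : 0 < n)
    (hC1 : 1 ≤ C1) (hC2 : 1 ≤ C2) (hC3 : 1 ≤ C3) (hC4 : 1 ≤ C4) (hCs : 1 ≤ Cs) (hCA : 1 ≤ CA)
    (hc : 0 < c) (hc1 : c ≤ 1) (hc0 : 0 < c0) (hb0 : c0 ≤ b) (hb1 : b ≤ 1 - c0)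
    (hK : 100 + 30 * C1 + 30 * C2 + 30 * C3 + 30 * C4 + 10 * Cs + 50 * CA +
      (1 + (C1 + C2) / c) * (5 + Cs) + 9 * Real.exp (2 * ((C1 + C2) / c)) + C1 ^ 2 / c +
      C2 ^ 2 / c + 6 / c0 + 2 * C2 * (C2 + 2) / c0 ^ 2 + 2 ^ 16 * (Nat.factorial 16) ≤ K)
    (u0 : 0 < u) (hu : K * u ≤ 1) (hτ : τ = u ^ 7560) (t1 : 1 ≤ N * τ * u) (t2 : N * τ * u ≤ 2)
    (t3 : (N + 2) * u ^ 7561 ≤ 4) (hx : 1 ≤ x * u ^ 6000) (hxn : (n : ℝ) = x ^ 4)
    (hn2 : (1622016 : ℝ) ≤ n) (opA : opn A ≤ CA)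
    (r1 : Raw1 S A C1 (u ^ 126) τ) (r2 : Raw2 S A C2 (u ^ 42) τ) (seg : Seg (V S A) C3)
    (re : RawE S A C4) (hV : ContinuousOn (V S A) (box n))
    (c1 : ∀ ξ, ContinuousOn (fun m => step1 S A (u ^ 126) τ m ξ) (box n))
    (c2 : ∀ m, Continuous (step1 S A (u ^ 126) τ m))
    (c3 : ∀ ξ, ContinuousOn (fun x => step2 S A (u ^ 42) τ x ξ) {x | x.2 ∈ box n})
    (c4 : ∀ x, Continuous (step2 S A (u ^ 42) τ x))
    (sc1 : SC1 S A c (Cs * (u ^ 42) ^ 2))
    (sc2 : ∀ k ≤ N, SC2 S Γ A c (Cs * (1 + k * τ) * (u ^ 42) ^ 2) ((u ^ 42) ^ 4) (k * τ))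
    (hΓ : ∀ s ∈ Icc b 1, 1 - Real.exp (-(N * τ) / 2) ≤ Γ (s + N * τ / β ^ 2))
    (hZ : Real.log (Zw (ising A 0)) ≤ n * (S.P + u ^ 100))
    (hbd : mass (ising A 0) (bd B) ≤ Real.exp (-(n * u ^ 4)))
    (anc : ∀ F, Mom S.P τ (u ^ 43) N F → Anc S A F (u ^ 210) (u ^ 42) (u ^ 2)⁻¹ (u ^ 14) N B ∧
      Anc S A F (u ^ 210) (u ^ 42) (u ^ 2)⁻¹ (u ^ 14) N Bᶜ) : False := by
  have hn' : (0 : ℝ) < n := by exact_mod_cast hn
  set g := (C1 + C2) / c with hg
  have g0 : 0 < g := by positivity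
  have gc : g * c = C1 + C2 := div_mul_cancel₀ _ hc.ne'
  have k1 : 0 < (1 + g) * (5 + Cs) := by positivity
  have k2 : 0 < Real.exp (2 * g) := Real.exp_pos _
  have k3 : 0 < C1 ^ 2 / c := by positivity
  have k4 : 0 < C2 ^ 2 / c := by positivity
  have k5 : 0 < 6 / c0 := by positivity
  have k6 : 0 < 2 * C2 * (C2 + 2) / c0 ^ 2 := by positivity
  have k7 : (0 : ℝ) < 2 ^ 16 * (Nat.factorial 16) := by positivity
  have k8 : 0 ≤ g * Cs := by positivity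
  have K100 : 100 ≤ K := by linarith
  have q1 : 3 * Cs ≤ K := by linarith
  have q2 : (2 : ℝ) ^ 16 * (Nat.factorial 16) ≤ K := by
    generalize (2 : ℝ) ^ 16 * (Nat.factorial 16) = f at hK k7 ⊢
    linarith
  have q3 : C1 ^ 2 / c ≤ K := by linarith
  have q4 : C2 ^ 2 / c ≤ K := by linarith
  have q5 : 6 / c0 ≤ K := by linarith
  have q6 : (1 + g) * (1 + Cs) + 2 + 8 * C3 ≤ K := by linarith
  have q7 : 9 * Real.exp (2 * g) ≤ K := by linarith
  have q8 : 4 * g + 3 + 14 * C3 ≤ K := by linarith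
  have q9 : C1 + 1 ≤ K := by linarith
  have q10 : 9 + 23 * C2 ≤ K := by linarith
  have q11 : 2 * C2 * (C2 + 2) / c0 ^ 2 ≤ K := by linarith
  have q12 : 23 * (C4 + 2 * CA + 2) + 2 ≤ K := by linarith
  clear hK k1 k3 k4 k5 k6 k7 k8
  have u1 : u ≤ 1 := by nlinarith
  have d := fun (c' : ℝ) (h : c' ≤ K) (a b : ℕ) (hab : b < a) => pow_dom u0 u1 hu h hab
  have hp := fun k : ℕ => pow_pos u0 k
  have hl : ∀ a b : ℕ, b ≤ a → u ^ a ≤ u ^ b := fun a b h => pow_le_pow_of_le_one u0.le u1 h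
  have h1 : ∀ a : ℕ, u ^ a ≤ 1 := fun a => pow_le_one₀ u0.le u1
  have τ0 : 0 < τ := hτ ▸ hp _
  have T0 : 0 ≤ N * τ := by positivity
  have x0 : 0 < x := (pos_iff_pos_of_mul_pos (by linarith : 0 < x * u ^ 6000)).2 (hp _)
  have x1 : 1 ≤ x := hx.trans (mul_le_of_le_one_right x0.le (h1 _))
  have sq : √(n * τ) = x ^ 2 * u ^ 3780 := by
    rw [hxn, hτ, show x ^ 4 * u ^ 7560 = (x ^ 2 * u ^ 3780) ^ 2 by ring, Real.sqrt_sq (by positivity)]
  have hq : √(n * τ) * √(n * τ) = n * τ := Real.mul_self_sqrt (by positivity)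
  have hpx : 22 * Real.exp (-x ^ 2 / 2) * (24 * n) ≤ 1 / 8 := by
    have a1 := Real.pow_div_factorial_le_exp (x ^ 2 / 2) (by positivity) 4
    have a2 : (x ^ 2 / 2) ^ 4 / (Nat.factorial 4 : ℕ) = n * n / 384 := by
      rw [hxn]; norm_num [Nat.factorial]; ring
    rw [a2] at a1
    rw [neg_div, Real.exp_neg, mul_right_comm, ← div_eq_mul_inv, div_le_iff₀ (Real.exp_pos _)]
    nlinarith
  have slack : ∀ (c' : ℝ) (j : ℕ), c' ≤ K → j ≤ 126 →
      c' * x * (u ^ 2)⁻¹ * √(n * τ) / (u ^ j) ^ 10 ≤ (u ^ j) ^ 2 * (n * τ) := by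
    intro c' j a1 a2
    have a3 : c' * u ^ (2218 - 12 * j) ≤ 1 := by
      have := d c' a1 (2218 - 12 * j) 0 (by omega)
      rwa [pow_zero] at this
    have a4 : u ^ 6000 = u ^ (2218 - 12 * j) * (u ^ 2 * (u ^ j) ^ 12 * u ^ 3780) := by
      rw [← pow_mul, ← pow_add, ← pow_add, ← pow_add,
        show 2218 - 12 * j + (2 + j * 12 + 3780) = 6000 by omega]
    have a5 : c' ≤ x * (u ^ 2 * (u ^ j) ^ 12 * u ^ 3780) := by
      refine le_of_mul_le_mul_right ?_ (hp (2218 - 12 * j))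
      rw [a4] at hx
      linarith
    rw [div_le_iff₀ (by positivity)]
    have a6 : c' * x * (u ^ 2)⁻¹ ≤ (u ^ j) ^ 12 * √(n * τ) := by
      rw [← div_eq_mul_inv, div_le_iff₀ (hp 2), sq]
      calc c' * x ≤ x * (u ^ 2 * (u ^ j) ^ 12 * u ^ 3780) * x :=
            mul_le_mul_of_nonneg_right a5 x0.le
        _ = _ := by ring
    calc _ ≤ (u ^ j) ^ 12 * √(n * τ) * √(n * τ) :=
          mul_le_mul_of_nonneg_right a6 (Real.sqrt_nonneg _)
      _ = _ := by rw [mul_assoc, hq]; ring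
  have Y1 : 1 ≤ (u ^ 2)⁻¹ := (one_le_inv₀ (hp 2)).2 (h1 2)
  -- the family
  choose! L L1 L2 L3 using sc2
  obtain ⟨F, F1, F2, F3⟩ := hFam n N τ (n * (S.P + u ^ 82)) (n * u ^ 4) L
    ((bd B).indicator (ising A 0)) τ0.le (fun k hk => ⟨L1 k hk, (L3 k hk).trans
      (Real.exp_le_exp.2 (by
        have a1 : (k : ℝ) * τ ≤ N * τ := mul_le_mul_of_nonneg_right (by exact_mod_cast hk) τ0.le
        have a2 : (1 + k * τ) * u ≤ 3 := by nlinarith
        have a3 := mul_le_mul_of_nonneg_left a2 (by positivity : 0 ≤ Cs * u ^ 83)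
        have a4 := d (3 * Cs) (by linarith) 83 82 (by norm_num)
        have a5 : Cs * (1 + k * τ) * (u ^ 42) ^ 2 = Cs * u ^ 83 * ((1 + k * τ) * u) := by ring
        have a6 := mul_le_mul_of_nonneg_left
          (show Cs * (1 + k * τ) * (u ^ 42) ^ 2 ≤ u ^ 82 by linarith) hn'.le
        linarith))⟩)
    (fun σ => indicator_nonneg (fun _ _ => (Real.exp_pos _).le) σ) (by
      have w0 : ∀ σ, 0 < ising A 0 σ := fun σ => Real.exp_pos _
      have z0 : 0 < Zw (ising A 0) := Finset.sum_pos (fun x _ => w0 x) Finset.univ_nonempty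
      rw [sum_indicator_eq w0, ← Real.exp_log z0]
      calc _ ≤ Real.exp (n * u ^ 4) * (Real.exp (-(n * u ^ 4)) * Real.exp (n * (S.P + u ^ 82))) := by
            gcongr
            exact hZ.trans (mul_le_mul_of_nonneg_left (by linarith [hl 100 82 (by norm_num)]) hn'.le)
        _ = _ := by rw [← mul_assoc, ← Real.exp_add, add_neg_cancel, Real.exp_zero, one_mul])
  have mom : Mom S.P τ (u ^ 43) N F := fun k hk => ⟨(F1 k hk).1, (F1 k hk).2.2.trans (by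
    have a1 : (N + 2 : ℝ) ≤ n * u ^ 44 := by
      refine le_of_mul_le_mul_right (t3.trans ?_) (hp 7561)
      have a2 : 1 ≤ (x * u ^ 6000) ^ 4 := one_le_pow₀ hx
      have a3 := d 4 (by linarith) 24000 7605 (by norm_num)
      have a4 := mul_le_mul_of_nonneg_left a3 hn'.le
      have a5 : (x * u ^ 6000) ^ 4 = n * u ^ 24000 := by rw [hxn]; ring
      have a6 : n * u ^ 44 * u ^ 7561 = n * u ^ 7605 := by ring
      linarith
    have a2 : (N + 2 : ℝ) ≤ Real.exp (n * u ^ 44) := by linarith [Real.add_one_le_exp (n * u ^ 44)]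
    refine (mul_le_mul_of_nonneg_right a2 (Real.exp_pos _).le).trans ?_
    rw [← Real.exp_add]
    have a3 := mul_le_mul_of_nonneg_left (show u ^ 44 + u ^ 82 ≤ u ^ 43 by
      linarith [d 2 (by linarith) 44 43 (by norm_num), hl 82 44 (by norm_num)]) hn'.le
    exact Real.exp_le_exp.2 (by linarith))⟩
  obtain ⟨an1, an2⟩ := anc F mom
  have ρ2 : (u ^ 105) ^ 2 = u ^ 210 := by ring
  rw [← ρ2] at an1 an2
  have e84 : (u ^ 42) ^ 2 = u ^ 84 := by ring
  have T40 : u ^ 41 * (N * τ) ≤ 2 * u ^ 40 := by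
    have := mul_le_mul_of_nonneg_left t2 (hp 40).le
    calc _ = u ^ 40 * (N * τ * u) := by ring
      _ ≤ _ := by linarith
  have en1 : ∀ z ∈ dom2 (V S A) (F N) (b - (u ^ 42) ^ 4) (23 * (u ^ 2)⁻¹) (u ^ 38),
      1 - qq z.2 < u ^ 14 := by
    rintro z ⟨z1, z2, -, z4⟩
    have a1 := (L2 N le_rfl z.1 z.2 z1 z2).trans ((F1 N le_rfl).2.1 z.1)
    have a2 := hΓ (max (qq z.2) b) ⟨le_max_right _ _, max_le (qq_mem z1).2 S.b1⟩
    have a3 := (exp_small u0 t1).trans (d _ q2 16 15 (by norm_num))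
    set γ := Γ (max (qq z.2) b + N * τ / β ^ 2)
    have a5 : c * n * (qq z.2 - γ) ^ 2 ≤ u ^ 38 * n := by
      have := mul_nonneg (mul_nonneg hc.le hn'.le) (sq_nonneg (max (-kap S z.2) 0))
      simp only [Df] at z4
      linarith
    have a6 : c * (qq z.2 - γ) ^ 2 ≤ u ^ 38 := le_of_mul_le_mul_right (by linarith) hn'
    have a7 := d (C1 ^ 2 / c) (by linarith) 38 36 (by norm_num)
    rw [div_mul_eq_mul_div, div_le_iff₀ hc] at a7
    have a8 : u ^ 38 ≤ C1 ^ 2 * u ^ 38 := le_mul_of_one_le_left (hp _).le (one_le_pow₀ hC1)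
    have a9 : (qq z.2 - γ) ^ 2 ≤ (u ^ 18) ^ 2 :=
      le_of_mul_le_mul_left (by rw [show (u ^ 18) ^ 2 = u ^ 36 by ring]; linarith) hc
    have a10 := (abs_le_of_sq_le_sq' a9 (hp _).le).1
    linarith [d 3 (by linarith) 15 14 (by norm_num), hl 18 15 (by norm_num), hp 15]
  refine no_cut (A := C3) (c := g) (Δ := τ) (τ := τ) (s1 := u ^ 251) (s2 := u ^ 41)
    (e1 := Cs * (u ^ 42) ^ 2) (eF := u ^ 43) (e0 := u ^ 41) (e2 := u ^ 39) (E1 := u ^ 40)
    (E2 := u ^ 38) (lo := b - (u ^ 42) ^ 4) (Ym := 23 * (u ^ 2)⁻¹) hn seg hC3 hV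
    (fun k hk => (F1 k hk).1) (hp 105) (h1 _) τ0 ?_ τ0 (hτ ▸ h1 _) (hp _).le (h1 _) (hp _).le (h1 _)
    g0.le (hp _).le (by positivity) (hp _).le ?_ ?_ Y1 ?_ ?_ ?_ ?_ ?_ ?_ ?_ ?_
    (stp1 (σ := (u ^ 126) ^ 2) hn r1 c1 c2 sc1 hc (by linarith) ?_ (by linarith) τ0 x1 hpx ?_
      (by rw [← pow_mul]; exact h1 _) ?_ (hp _).le ?_)
    (fun k hk => stp2 hn r2 c3 c4 (F1 _ hk).1 (F2 k hk) (fun y m m1 m2 => ?_) hc hc1 hC2 ?_
      (by linarith) (hp _) ?_ (h1 _) τ0 x1 (by linarith) hpx ?_ hc0.le hb1 ?_ (hp _).le (h1 _) ?_)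
    en1 (fun z hz σ hσ hbad => ?_) an1 an2
  · rw [ρ2, hτ]; exact hl _ _ (by norm_num)
  · have a1 := d (6 / c0) (by linarith) 210 0 (by norm_num)
    rw [pow_zero, div_mul_eq_mul_div, div_le_one hc0] at a1
    rw [ρ2]; linarith [hl 251 210 (by norm_num)]
  · rw [ρ2, show (u ^ 42) ^ 4 = u ^ 168 by ring]
    linarith [d 13 (by linarith) 210 168 (by norm_num), hl 251 210 (by norm_num)]
  · have a1 : N * τ ≤ 2 * (u ^ 2)⁻¹ := by
      rw [← div_eq_mul_inv, le_div_iff₀ (hp 2)]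
      nlinarith [mul_le_mul_of_nonneg_left u1 (mul_nonneg T0 u0.le)]
    linarith
  · have a1 := mul_le_mul_of_nonneg_left (hl 84 42 (by norm_num)) (by linarith : 0 ≤ Cs)
    have a2 := mul_le_mul_of_nonneg_left (add_le_add_right a1 (u ^ 42)) (by linarith : 0 ≤ 1 + g)
    have a3 := mul_le_mul_of_nonneg_left (hl 105 42 (by norm_num)) (by linarith : 0 ≤ C3)
    have a4 := d ((1 + g) * (1 + Cs) + 2 + 8 * C3) (by linarith) 42 41 (by norm_num)
    rw [e84]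
    linarith [hl 251 42 (by norm_num), hp 42]
  · have a1 : Real.exp g ≤ Real.exp (2 * g) := Real.exp_le_exp.2 (by linarith)
    have a2 := d (2 * Real.exp (2 * g)) (by linarith) 41 40 (by norm_num)
    have a3 := mul_le_mul (show u ^ 41 + u ^ 251 ≤ 2 * u ^ 41 by linarith [hl 251 41 (by norm_num)])
      a1 (Real.exp_pos _).le (by positivity)
    linarith
  · have a1 := mul_le_mul_of_nonneg_left (hl 42 41 (by norm_num)) g0.le
    have a3 := mul_le_mul_of_nonneg_left (hl 105 41 (by norm_num)) (by linarith : 0 ≤ C3)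
    have a4 := d (4 * g + 3 + 14 * C3) (by linarith) 41 39 (by norm_num)
    linarith [hl 42 41 (by norm_num), hp 41]
  · linarith [d 2 (by linarith) 40 39 (by norm_num), hl 43 40 (by norm_num)]
  · have a3 := mul_le_mul_of_nonneg_left (hl 105 42 (by norm_num)) (by linarith : 0 ≤ C3)
    have a4 := d (3 + 14 * C3) (by linarith) 42 39 (by norm_num)
    linarith [hl 43 42 (by norm_num), hp 42]
  · have a1 := d (4 * g) (by linarith) 40 0 (by norm_num)
    have a2 := mul_le_mul_of_nonneg_left T40 (by linarith : 0 ≤ 2 * g)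
    have a3 : Real.exp (2 * g * u ^ 41 * (N * τ)) ≤ 3 :=
      (Real.exp_le_exp.2 (by rw [pow_zero] at a1; linarith)).trans
        (Real.exp_one_lt_d9.le.trans (by norm_num))
    have a4 := mul_le_mul (show u ^ 39 + u ^ 41 * (N * τ) ≤ 3 * u ^ 39 by
      linarith [hl 40 39 (by norm_num)]) a3 (Real.exp_pos _).le (by positivity)
    have a5 := mul_le_mul_of_nonneg_right a4 k2.le
    have a6 := d (9 * Real.exp (2 * g)) (by linarith) 39 38 (by norm_num)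
    linarith
  · have := (mom 0 (Nat.zero_le N)).2
    simp only [Nat.cast_zero, zero_mul, Real.sqrt_zero, zero_smul, integral_const, probReal_univ,
      smul_eq_mul, one_mul, zero_div, add_zero] at this
    exact Real.exp_le_exp.1 this
  · have a1 := d (C1 ^ 2 / c) (by linarith) 40 0 (by norm_num)
    rwa [pow_zero, div_mul_eq_mul_div, div_le_one hc] at a1
  · refine le_trans ?_ (slack C1 126 (by linarith) le_rfl)
    exact div_le_div_of_nonneg_right (mul_le_mul_of_nonneg_right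
      (le_mul_of_one_le_right (by positivity) Y1) (Real.sqrt_nonneg _)) (by positivity)
  · rw [show (u ^ 126) ^ 2 = u ^ 252 by ring]
    linarith [d (C1 + 1) q9 252 251 (by norm_num)]
  · rw [ρ2, hτ]; exact d 3 (by linarith) _ _ (by norm_num)
  · have a1 := (L2 k hk.le y m m1 m2).trans ((F1 k hk.le).2.1 y)
    have := mul_nonneg (mul_nonneg hc.le hn'.le)
      (sq_nonneg (qq m - Γ (max (qq m) b + k * τ / β ^ 2)))
    linarith
  · have a1 := d (C2 ^ 2 / c) (by linarith) 38 0 (by norm_num)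
    rwa [pow_zero, div_mul_eq_mul_div, div_le_one hc] at a1
  · exact d (8 * C2) (by linarith) _ _ (by norm_num)
  · refine le_trans (le_of_eq ?_) (slack (23 * C2) 42 (by linarith) (by norm_num))
    ring
  · have a1 := d (2 * C2 * (C2 + 2) / c0 ^ 2) (by linarith) 84 0 (by norm_num)
    rwa [pow_zero, div_mul_eq_mul_div, div_le_one (by positivity), ← e84] at a1
  · have e : (9 + C2 / u ^ 42) * τ = 9 * u ^ 7560 + C2 * u ^ 7518 := by
      rw [hτ, show 7560 = 7518 + 42 from rfl, pow_add]; field_simp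
    rw [e, ρ2]
    linarith [d (9 + C2) (by linarith) 7518 210 (by norm_num), hl 7560 7518 (by norm_num)]
  · have a0 := en1 z hz
    obtain ⟨z1, -, z3, z4⟩ := hz
    have a1 := d (6 / c0) (by linarith) 14 0 (by norm_num)
    rw [pow_zero, div_mul_eq_mul_div, div_le_one hc0] at a1
    have e14 : (u ^ 7) ^ 2 = u ^ 14 := by ring
    have a2 := end2 re opA (by linarith) z1 (by linarith [hp 14]) (by linarith) z3 (hp 7).le
      (by rw [e14]; exact a0.le) (by rw [e14]; exact hσ.le)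
    have a3 := F3 z.1 σ
    have e2 : tilt ((bd B).indicator (ising A 0)) z.1 σ =
        Real.exp (Real.log (ising A z.1 σ)) := by
      rw [Real.exp_log (show 0 < ising A z.1 σ from Real.exp_pos _), tilt, indicator_of_mem hbad,
        ← tilt, tilt_ising, zero_add]
    rw [e2, ← Real.exp_add, Real.exp_le_exp] at a3
    have e3 : (C4 + 2 * CA + 2) * (23 * (u ^ 2)⁻¹) * u ^ 7 * n =
        23 * (C4 + 2 * CA + 2) * u ^ 5 * n := by field_simp
    have a4 := mul_lt_mul_of_pos_right (show 23 * (C4 + 2 * CA + 2) * u ^ 5 + u ^ 38 < u ^ 4 by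
      linarith [d (23 * (C4 + 2 * CA + 2) + 2) (by linarith) 5 4 (by norm_num),
        hl 38 5 (by norm_num), hp 5]) hn'
    simp only [Df] at z4
    linarith

end Crest.Agent.T157.Up

end
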