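import Crest.Agent.T157.UwA_98

/-!
# Row 157, part B, block S3 (helper98): (HAD), (U3), combinations of Wick words
-/

set_option autoImplicit false
set_option maxHeartbeats 400000
set_option linter.unusedSectionVars false

noncomputable section

namespace Crest.Agent.T157.Uw

open Matrix Finset
open Crest.Agent.T157.Eig Crest.Agent.T157.Fr

variable {ι : Type*} [Fintype ι] [DecidableEq ι] {s R K : ℝ} {J : Matrix ι ι ℝ} {k : ℕ}

/-! ### (HAD) -/

lemma hs_cx (H : Matrix ι ι ℝ) : hs (cx H) = √(∑ i, ∑ j, H i j ^ 2) := by simp [hs, cx]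

lemma col_sq_le (A : Matrix ι ι ℝ) (j : ι) : ∑ i, A i j ^ 2 ≤ opn A ^ 2 := by
  have := mulVec_dot_le A (Pi.single j 1)
  simpa [dotProduct, sq, Pi.single_apply] using this

lemma row_sq_le (A : Matrix ι ι ℝ) (i : ι) : ∑ j, A i j ^ 2 ≤ opn A ^ 2 := by
  simpa [opn_transpose] using col_sq_le Aᵀ i

/-- **(HAD)** -/
theorem opn_had {X Y : ι → ι → ℝ} {a b : ℝ} (ha : 0 ≤ a) (hb : 0 ≤ b)
    (hX : ∀ i, ∑ j, X i j ^ 2 ≤ a ^ 2) (hY : ∀ j, ∑ i, Y i j ^ 2 ≤ b ^ 2) :
    opn (of fun i j => X i j * Y i j) ≤ a * b := by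
  refine opn_le_of_bil (by positivity) fun u v => ?_
  have h := sum_mul_sq_le_sq_mul_sq (univ : Finset (ι × ι)) (fun p => u p.1 * X p.1 p.2)
    fun p => Y p.1 p.2 * v p.2
  simp only [Fintype.sum_prod_type, mul_pow] at h
  have h1 : ∑ i, ∑ j, u i ^ 2 * X i j ^ 2 ≤ a ^ 2 * nrm u ^ 2 := by
    rw [nrm_sq, dotProduct, mul_sum]
    exact sum_le_sum fun i _ => by
      rw [← mul_sum]; nlinarith [mul_le_mul_of_nonneg_left (hX i) (sq_nonneg (u i))]
  have h2 : ∑ i, ∑ j, Y i j ^ 2 * v j ^ 2 ≤ b ^ 2 * nrm v ^ 2 := by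
    rw [sum_comm, nrm_sq, dotProduct, mul_sum]
    exact sum_le_sum fun j _ => by
      rw [← sum_mul]; nlinarith [mul_le_mul_of_nonneg_left (hY j) (sq_nonneg (v j))]
  refine le_of_sq_le_sq ?_ (mul_nonneg (by positivity) (mul_nonneg (nrm_nonneg _) (nrm_nonneg _)))
  have e : u ⬝ᵥ (of fun i j => X i j * Y i j) *ᵥ v = ∑ i, ∑ j, u i * X i j * (Y i j * v j) := by
    simp only [dotProduct, mulVec, of_apply, mul_sum]
    exact sum_congr rfl fun i _ => sum_congr rfl fun j _ => by ring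
  rw [e]
  refine h.trans ((mul_le_mul h1 h2 (by positivity) (by positivity)).trans (le_of_eq (by ring)))

/-- Schur's test -/
theorem opn_schur {X : Matrix ι ι ℝ} {a : ℝ} (ha : 0 ≤ a) (h1 : ∀ i, ∑ j, |X i j| ≤ a)
    (h2 : ∀ j, ∑ i, |X i j| ≤ a) : opn X ≤ a := by
  have h := opn_had (X := fun i j => √|X i j|) (Y := fun i j => SignType.sign (X i j) * √|X i j|)
    (Real.sqrt_nonneg a) (Real.sqrt_nonneg a)
    (fun i => by simpa [Real.sq_sqrt ha] using h1 i) fun j => by
      rw [Real.sq_sqrt ha]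
      refine le_trans (sum_le_sum fun i _ => ?_) (h2 j)
      rw [mul_pow, Real.sq_sqrt (abs_nonneg _)]
      rcases lt_trichotomy (X i j) 0 with h | h | h <;> simp [h]
  rw [Real.mul_self_sqrt ha] at h
  convert h using 2
  ext i j
  rw [of_apply, mul_left_comm, Real.mul_self_sqrt (abs_nonneg _), sign_mul_abs]

lemma dg_mul_le (A H : Matrix ι ι ℝ) : nrm (A * H).diag ≤ opn A * √(∑ i, ∑ j, H i j ^ 2) := by
  have := dg3 A H 1
  rw [Matrix.mul_one, hs_cx] at this
  exact this.trans (mul_le_of_le_one_right (mul_nonneg (opn_nonneg _) (Real.sqrt_nonneg _))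
    opn_one_le)

lemma dg_mul_le' (H B : Matrix ι ι ℝ) : nrm (H * B).diag ≤ √(∑ i, ∑ j, H i j ^ 2) * opn B := by
  have := dg3 1 H B
  rw [Matrix.one_mul, hs_cx] at this
  exact this.trans (mul_le_mul_of_nonneg_right (mul_le_of_le_one_left (Real.sqrt_nonneg _)
    opn_one_le) (opn_nonneg _))

lemma hs_mul_le_real (A H : Matrix ι ι ℝ) :
    √(∑ i, ∑ j, (A * H) i j ^ 2) ≤ opn A * √(∑ i, ∑ j, H i j ^ 2) := by
  simpa only [← cx_mul, cop_cx, hs_cx] using hs_mul_le (cx A) (cx H)

lemma hs_mul_le_real' (H B : Matrix ι ι ℝ) :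
    √(∑ i, ∑ j, (H * B) i j ^ 2) ≤ √(∑ i, ∑ j, H i j ^ 2) * opn B := by
  simpa only [← cx_mul, cop_cx, hs_cx] using hs_mul_le' (cx H) (cx B)

/-! ### (U3) -/

/-- the two lists of diagonals agree off the site `i` -/
def Off (i : ι) (l l' : List (ι → ℝ)) : Prop := List.Forall₂ (fun a a' => ∀ j, j ≠ i → a' j = a j) l l'

lemma Off.refl (i : ι) (l : List (ι → ℝ)) : Off i l l := List.forall₂_same.2 fun _ _ _ _ => rfl
lemma Off.append {i : ι} {l l' m m' : List (ι → ℝ)} (h : Off i l l') (h' : Off i m m') :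
    Off i (l ++ m) (l' ++ m') := List.rel_append h h'
lemma off_update (i : ι) (c : ℝ) (l : List (ι → ℝ)) :
    Off i l (l.map fun a => Function.update a i c) :=
  List.forall₂_map_right_iff.2 (List.forall₂_same.2 fun _ _ _ hj => Function.update_of_ne hj _ _)
lemma Bd.update {l : List (ι → ℝ)} (h : Bd l) (i : ι) {c : ℝ} (hc : |c| ≤ 1) :
    Bd (l.map fun a => Function.update a i c) := fun a ha j => by
  obtain ⟨b, hb, rfl⟩ := List.mem_map.1 ha
  by_cases e : j = i
  · subst e; simpa using hc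
  · rw [Function.update_of_ne e]; exact h b hb j

lemma off_le (hs : s ^ 2 * Fintype.card ι ≤ 1) (hR : opn J ≤ R) {i : ι} (j : ι)
    {l l' : List (ι → ℝ)} (h : Off i l l') : Bd l → Bd l' → ∀ (p : List (ι → ℝ)) (N : ℕ), Bd p →
      p.length + l.length ≤ N → |Vk s J (p ++ l') i j - Vk s J (p ++ l) i j| ≤
        ∑ q ∈ range l.length, 2 * (1 + R) ^ N * (|Wk s J (p ++ l.take q) i i| + s ^ 2) := by
  have R0 : 0 ≤ R := (opn_nonneg _).trans hR
  induction h with
  | nil => simp
  | @cons a a' m m' ha hm ih =>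
    intro hl hl' p N hp hN
    have i1 := ih (bd_cons.1 hl).2 (bd_cons.1 hl').2 (p ++ [a]) N
      (bd_append.2 ⟨hp, bd_cons.2 ⟨(bd_cons.1 hl).1, Bd.nil⟩⟩) (by simp at hN ⊢; omega)
    simp only [List.append_assoc, List.singleton_append] at i1
    have e0 : a' = a + Pi.single i (a' i - a i) := by
      ext j
      by_cases e : j = i
      · subst e; simp
      · simp [e, ha j e]
    have c2 : |a' i - a i| ≤ 2 := by
      linarith [abs_sub (a' i) (a i), (bd_cons.1 hl).1 i, (bd_cons.1 hl').1 i]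
    set c := a' i - a i
    have e1 : Vk s J (p ++ a' :: m') i j - Vk s J (p ++ a :: m') i j =
        c * (Wk s J p i i * Vk s J m' i j - s ^ 2 * (Vk s J p * Uk s J m') i j) := by
      have h1 := congrFun₂ (Wk_mul (s := s) (J := J) p m' (Pi.single i c)) i j
      rw [mul_apply, Matrix.add_apply, Matrix.smul_apply, eta, sum_pi_single', if_pos (mem_univ _),
        sum_eq_single i (fun b _ hb => by simp [hb]) (by simp), mul_diagonal, Pi.single_eq_same,
        smul_eq_mul] at h1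
      rw [e0, Vk_add, Matrix.add_apply]
      linarith
    have hl2 : m'.length = m.length := hm.length_eq.symm
    have b1 : |Vk s J m' i j| ≤ (1 + R) ^ N := (abs_entry_le _ i j).trans
      ((opn_VU hs hR (bd_cons.1 hl').2).1.trans
        (pow_le_pow_right₀ (by linarith) (by simp at hN; omega)))
    have b2 : |(Vk s J p * Uk s J m') i j| ≤ (1 + R) ^ N := (abs_entry_le _ i j).trans
      ((opn_mul_le' (opn_VU hs hR hp).1 (opn_VU hs hR (bd_cons.1 hl').2).2).trans (by
        rw [← pow_add]; exact pow_le_pow_right₀ (by linarith) (by simp at hN; omega)))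
    have b3 : |Vk s J (p ++ a' :: m') i j - Vk s J (p ++ a :: m') i j| ≤
        2 * (1 + R) ^ N * (|Wk s J p i i| + s ^ 2) := by
      rw [e1, abs_mul, mul_assoc]
      refine mul_le_mul c2 ((abs_sub _ _).trans ?_) (abs_nonneg _) (by norm_num)
      rw [abs_mul, abs_mul, abs_of_nonneg (sq_nonneg s)]
      nlinarith [mul_le_mul_of_nonneg_left b1 (abs_nonneg (Wk s J p i i)),
        mul_le_mul_of_nonneg_left b2 (sq_nonneg s)]
    rw [List.length_cons, sum_range_succ']
    simp only [List.take_succ_cons, List.take_zero, List.append_nil]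
    linarith [abs_sub_le (Vk s J (p ++ a' :: m') i j) (Vk s J (p ++ a :: m') i j)
      (Vk s J (p ++ a :: m) i j)]

lemma nrm_const_le (hs : s ^ 2 * Fintype.card ι ≤ 1) : nrm (fun _ : ι => s ^ 2) ≤ 1 := by
  rw [nrm_le_iff zero_le_one]
  simp only [dotProduct, sum_const, card_univ, nsmul_eq_mul]
  rcases Nat.eq_zero_or_pos (Fintype.card ι) with h | h
  · simp [h]
  · have : (1 : ℝ) ≤ Fintype.card ι := by exact_mod_cast h
    have h2 : s ^ 2 ≤ 1 := by nlinarith [sq_nonneg s]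
    nlinarith [sq_nonneg s]

/-- **(U3)** change of the diagonals at the site of the row -/
theorem UW.u3 (h : UW s J R k K) (hs : s ^ 2 * Fintype.card ι ≤ 1) {l : List (ι → ℝ)}
    (hk : l.length ≤ k) (hl : Bd l) : ∃ r : ι → ℝ, (∀ i, 0 ≤ r i) ∧
      nrm r ≤ l.length * (2 * (1 + R) ^ l.length * (K + 1)) ∧
      ∀ i l', Off i l l' → Bd l' → ∀ j, |Vk s J l' i j - Vk s J l i j| ≤ r i := by
  have R0 : 0 ≤ R := (opn_nonneg _).trans h.op
  refine ⟨∑ q ∈ range l.length, (2 * (1 + R) ^ l.length) •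
    ((fun i => |Wk s J (l.take q) i i|) + fun _ => s ^ 2), fun i => ?_, ?_, fun i l' ho hl' j => ?_⟩
  · rw [Finset.sum_apply]
    exact sum_nonneg fun q _ => by simp only [Pi.smul_apply, Pi.add_apply, smul_eq_mul]; positivity
  · refine (nrm_sum_le _ _).trans ((sum_le_card_nsmul _ _ _ fun q hq => ?_).trans (by
      rw [card_range, nsmul_eq_mul]))
    rw [nrm_smul, abs_of_nonneg (by positivity)]
    refine mul_le_mul_of_nonneg_left ((nrm_add_le _ _).trans (add_le_add ?_ (nrm_const_le hs)))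
      (by positivity)
    have := h.dg (l.take q ++ [1]) (by simp) (by have := mem_range.1 hq; simp; omega)
      (bd_append.2 ⟨hl.take q, bd_one⟩)
    simpa [nrm, dotProduct, Wk] using this
  · simpa [Finset.sum_apply, mul_add] using off_le hs h.op j ho hl hl' [] l.length Bd.nil (by simp)

lemma sum_four_le (r : ι → ℝ) : ∑ i, r i ^ 4 ≤ nrm r ^ 4 := by
  have h : ∀ i, r i ^ 2 ≤ nrm r ^ 2 := fun i => by
    rw [← sq_abs]; exact pow_le_pow_left₀ (abs_nonneg _) (abs_apply_le_nrm r i) 2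
  calc _ ≤ ∑ i, nrm r ^ 2 * (r i * r i) := sum_le_sum fun i _ => by
        nlinarith [mul_le_mul_of_nonneg_right (h i) (sq_nonneg (r i))]
    _ = _ := by rw [← mul_sum, ← dotProduct, ← nrm_sq]; ring

/-- fourth powers of the entries, any last diagonal -/
theorem UW.four' (h : UW s J R k K) (hJ : Jᵀ = J) (hK : 0 ≤ K) (hs : s ^ 2 * Fintype.card ι ≤ 1)
    {l : List (ι → ℝ)} (h0 : l ≠ []) (h1 : 2 * l.length ≤ k) (hl : Bd l) :
    ∑ i, ∑ j, Vk s J l i j ^ 4 ≤ 2 * ((l.length + 1) * K) ^ 2 + 2 := by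
  obtain ⟨l0, b, rfl⟩ := (List.eq_nil_or_concat' l).resolve_left h0
  obtain ⟨h2, h3⟩ := bd_append.1 hl
  have := h.four hJ hK hs (l := l0) (by simp at h1; omega) h2
  rw [← Wk_mul_diag, List.length_append, List.length_singleton]
  refine le_trans (sum_le_sum fun i _ => sum_le_sum fun j _ => ?_)
    (this.trans (le_of_eq (by push_cast; ring)))
  rw [mul_diagonal, mul_pow]
  refine mul_le_of_le_one_right (by positivity) ?_
  rw [← (by decide : Even 4).pow_abs]
  exact pow_le_one₀ (abs_nonneg _) ((bd_cons.1 h3).1 j)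

/-- **(U3)**, diagonal entries and maximal entries of the rows -/
theorem UW.u3' (h : UW s J R k K) (hJ : Jᵀ = J) (hK : 0 ≤ K) (hs : s ^ 2 * Fintype.card ι ≤ 1)
    {l : List (ι → ℝ)} (h0 : l ≠ []) (h1 : 2 * l.length ≤ k) (hl : Bd l) : ∃ x M : ι → ℝ,
      nrm x ≤ K + l.length * (2 * (1 + R) ^ l.length * (K + 1)) ∧
      ∑ i, M i ^ 4 ≤ 8 * (2 * ((l.length + 1) * K) ^ 2 + 2) +
        8 * (l.length * (2 * (1 + R) ^ l.length * (K + 1))) ^ 4 ∧
      ∀ i l', Off i l l' → Bd l' → |Vk s J l' i i| ≤ x i ∧ ∀ j, |Vk s J l' i j| ≤ M i := by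
  obtain ⟨r, r0, r1, r2⟩ := h.u3 hs (l := l) (by omega) hl
  refine ⟨(fun i => |Vk s J l i i|) + r, fun i => √√(∑ j, Vk s J l i j ^ 4) + r i,
    (nrm_add_le _ _).trans (add_le_add ?_ r1), ?_, fun i l' ho hl' => ⟨?_, fun j => ?_⟩⟩
  · simpa [nrm, dotProduct] using h.dg l h0 (by omega) hl
  · have e : ∀ i, √√(∑ j, Vk s J l i j ^ 4) ^ 4 = ∑ j, Vk s J l i j ^ 4 := fun i => by
      rw [show 4 = 2 * 2 from rfl, pow_mul, Real.sq_sqrt (Real.sqrt_nonneg _),
        Real.sq_sqrt (sum_nonneg fun _ _ => (by decide : Even (2 * 2)).pow_nonneg _)]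
    have b : ∀ x y : ℝ, (x + y) ^ 4 ≤ 8 * x ^ 4 + 8 * y ^ 4 := fun x y => by
      nlinarith [sq_nonneg (x - y), sq_nonneg (x + y), sq_nonneg (x ^ 2 - y ^ 2),
        mul_nonneg (sq_nonneg (x - y)) (sq_nonneg (x + y)),
        mul_nonneg (sq_nonneg (x - y)) (add_nonneg (sq_nonneg x) (sq_nonneg y))]
    refine (sum_le_sum fun i _ => b _ _).trans ?_
    simp only [e, sum_add_distrib, ← mul_sum]
    have := (sum_four_le r).trans (pow_le_pow_left₀ (nrm_nonneg _) r1 4)
    linarith [h.four' hJ hK hs h0 h1 hl]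
  · have := r2 i l' ho hl' i
    simp only [Pi.add_apply]
    linarith [abs_sub_abs_le_abs_sub (Vk s J l' i i) (Vk s J l i i)]
  · have h2 : |Vk s J l i j| ≤ √√(∑ j, Vk s J l i j ^ 4) :=
      Real.le_sqrt_of_sq_le (Real.le_sqrt_of_sq_le (by
        rw [sq_abs, ← pow_mul]
        exact single_le_sum (f := fun j => Vk s J l i j ^ 4) (fun _ _ => by positivity)
          (mem_univ j)))
    linarith [abs_sub_abs_le_abs_sub (Vk s J l' i j) (Vk s J l i j), r2 i l' ho hl' j]

/-! ### combinations of Wick words -/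

/-- sums of `N` terms `c d Vk l` -/
inductive Cmb (s : ℝ) (J : Matrix ι ι ℝ) (k : ℕ) : ℕ → Matrix ι ι ℝ → Prop
  | zero : Cmb s J k 0 0
  | term {N : ℕ} {B : Matrix ι ι ℝ} (c : ℝ) (d : ι → ℝ) (l : List (ι → ℝ)) : |c| ≤ 1 →
      (∀ i, |d i| ≤ 1) → Bd l → l.length ≤ k → Cmb s J k N B →
      Cmb s J k (N + 1) (c • (diagonal d * Vk s J l) + B)

namespace Cmb

variable {N N' k' : ℕ} {B B' : Matrix ι ι ℝ}

lemma succ (h : Cmb s J k N B) : Cmb s J k (N + 1) B := by
  simpa using term 0 0 [] (by simp) (by simp) Bd.nil (by simp) h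

lemma mono (h : Cmb s J k N B) (hk : k ≤ k') (hN : N ≤ N') : Cmb s J k' N' B := by
  have : Cmb s J k' N B := by
    induction h with
    | zero => exact zero
    | term c d l h1 h2 h3 h4 _ ih => exact term c d l h1 h2 h3 (h4.trans hk) (ih (by omega))
  induction hN with
  | refl => exact this
  | step _ ih => exact ih.succ

lemma single {d : ι → ℝ} {l : List (ι → ℝ)} (hd : ∀ i, |d i| ≤ 1) (hl : Bd l) (hk : l.length ≤ k) :
    Cmb s J k 1 (diagonal d * Vk s J l) := by simpa using term 1 d l (by simp) hd hl hk zero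

lemma vk {l : List (ι → ℝ)} (hl : Bd l) (hk : l.length ≤ k) : Cmb s J k 1 (Vk s J l) := by
  simpa using single (s := s) (J := J) (d := fun _ => 1) (by simp) hl hk

lemma uk {l : List (ι → ℝ)} (hl : Bd l) (hk : l.length ≤ k + 1) : Cmb s J k 1 (Uk s J l) := by
  cases l with
  | nil => exact zero.succ
  | cons b l => exact single (bd_cons.1 hl).1 (bd_cons.1 hl).2 (by simpa using hk)

lemma diag {d : ι → ℝ} (hd : ∀ i, |d i| ≤ 1) : Cmb s J k 1 (diagonal d) := by
  simpa using single (s := s) (J := J) (k := k) hd Bd.nil (by simp)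

lemma self : Cmb s J 1 1 J := by
  have := vk (s := s) (J := J) (k := 1) (l := [] ++ [1]) bd_one le_rfl
  rwa [← Wk, Wk_nil] at this

lemma add (h : Cmb s J k N B) (h' : Cmb s J k N' B') : Cmb s J k (N + N') (B + B') := by
  induction h with
  | zero => simpa using h'
  | term c d l h1 h2 h3 h4 _ ih =>
    rw [Nat.add_right_comm, add_assoc (c • _)]; exact term c d l h1 h2 h3 h4 ih

lemma smul (h : Cmb s J k N B) {c : ℝ} (hc : |c| ≤ 1) : Cmb s J k N (c • B) := by
  induction h with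
  | zero => simpa using zero
  | term c' d l h1 h2 h3 h4 _ ih =>
    rw [smul_add, smul_smul]
    exact term _ d l (by rw [abs_mul]; exact mul_le_one₀ hc (abs_nonneg _) h1) h2 h3 h4 ih

lemma sub (h : Cmb s J k N B) (h' : Cmb s J k N' B') : Cmb s J k (N + N') (B - B') := by
  simpa [sub_eq_add_neg] using h.add (h'.smul (c := -1) (by simp))

lemma diag_mul (h : Cmb s J k N B) {e : ι → ℝ} (he : ∀ i, |e i| ≤ 1) :
    Cmb s J k N (diagonal e * B) := by
  induction h with
  | zero => simpa using zero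
  | term c d l h1 h2 h3 h4 _ ih =>
    rw [Matrix.mul_add, Matrix.mul_smul, ← Matrix.mul_assoc, diagonal_mul_diagonal]
    exact term c _ l h1 (abs_mul_le_one' he h2) h3 h4 ih

lemma mul_diag (h : Cmb s J k N B) {e : ι → ℝ} (he : ∀ i, |e i| ≤ 1) :
    Cmb s J k N (B * diagonal e) := by
  induction h with
  | zero => simpa using zero
  | term c d l h1 h2 h3 h4 _ ih =>
    rw [Matrix.add_mul, Matrix.smul_mul, Matrix.mul_assoc]
    rcases List.eq_nil_or_concat' l with rfl | ⟨l0, b, rfl⟩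
    · rw [Vk_nil, Matrix.one_mul, diagonal_mul_diagonal, ← Matrix.mul_one (diagonal _)]
      exact term c _ [] h1 (abs_mul_le_one' h2 he) h3 h4 ih
    · rw [(Uw.mul_diag b e l0).1]
      exact term c d _ h1 h2 (bd_append.2 ⟨(bd_append.1 h3).1, bd_cons.2
        ⟨abs_mul_le_one' (bd_cons.1 (bd_append.1 h3).2).1 he, Bd.nil⟩⟩) (by simpa using h4) ih

lemma J_mul (hs : s ^ 2 * Fintype.card ι ≤ 1) (h : Cmb s J k N B) :
    Cmb s J (k + 1) (2 * N) (J * B) := by
  induction h with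
  | zero => simpa using zero
  | @term N B c d l h1 h2 h3 h4 _ ih =>
    have e : J * (diagonal d * Vk s J l) = Vk s J (d :: l) + eta s d • Uk s J l := by
      rw [Vk_cons, sub_add_cancel]
    rw [Matrix.mul_add, Matrix.mul_smul, e, show 2 * (N + 1) = 1 + 1 + 2 * N by ring]
    exact (((vk (bd_cons.2 ⟨h2, h3⟩) (by simpa using h4)).add ((uk h3 (by omega)).smul
      (abs_eta_le hs zero_le_one h2))).smul h1).add ih

lemma VU_mul (hs : s ^ 2 * Fintype.card ι ≤ 1) (h : Cmb s J k N B) : ∀ m : List (ι → ℝ), Bd m →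
    Cmb s J (k + m.length) (3 ^ m.length * N) (Vk s J m * B) ∧
      Cmb s J (k + m.length) (3 ^ m.length * N) (Uk s J m * B)
  | [], _ => ⟨by simpa using h, by simpa using zero.mono le_rfl (Nat.zero_le _)⟩
  | a :: m, hm => by
    obtain ⟨h1, h2⟩ := VU_mul hs h m (bd_cons.1 hm).2
    have h3 := h1.diag_mul (bd_cons.1 hm).1
    rw [Vk_cons, Uk_cons, Matrix.sub_mul, Matrix.smul_mul, Matrix.mul_assoc, Matrix.mul_assoc,
      List.length_cons]
    refine ⟨((h3.J_mul hs).sub ((h2.smul (abs_eta_le hs zero_le_one (bd_cons.1 hm).1)).mono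
      (Nat.le_succ _) le_rfl)).mono le_rfl (le_of_eq (by ring)), h3.mono (by omega) ?_⟩
    exact Nat.mul_le_mul_right _ (Nat.pow_le_pow_right (by norm_num) (Nat.le_succ _))

/-- **(A4)** products -/
theorem mul (hs : s ^ 2 * Fintype.card ι ≤ 1) (h : Cmb s J k N B) (h' : Cmb s J k' N' B') :
    Cmb s J (k' + k) (N * (3 ^ k * N')) (B * B') := by
  induction h with
  | zero => simpa using zero
  | @term N B c d l h1 h2 h3 h4 _ ih =>
    rw [Matrix.add_mul, Matrix.smul_mul, Matrix.mul_assoc, Nat.succ_mul, Nat.add_comm (N * _)]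
    exact (((((h'.VU_mul hs l h3).1.diag_mul h2).smul h1).mono (by omega) (Nat.mul_le_mul_right _
      (Nat.pow_le_pow_right (by norm_num) h4)))).add ih

lemma transpose (hJ : Jᵀ = J) (h : Cmb s J k N B) : Cmb s J k N Bᵀ := by
  induction h with
  | zero => simpa using zero
  | term c d l h1 h2 h3 h4 _ ih =>
    rw [transpose_add, transpose_smul]
    rcases List.eq_nil_or_concat' l with rfl | ⟨l0, b, rfl⟩
    · rw [Vk_nil, Matrix.mul_one, diagonal_transpose, ← Matrix.mul_one (diagonal _)]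
      exact term c _ [] h1 h2 h3 h4 ih
    · rw [← Wk_mul_diag, transpose_mul, transpose_mul, diagonal_transpose, diagonal_transpose,
        (rev hJ l0).1, Matrix.mul_assoc, Wk_mul_diag]
      exact term c b _ h1 (bd_cons.1 (bd_append.1 h3).2).1 (bd_append.2
        ⟨(bd_append.1 h3).1.reverse, bd_cons.2 ⟨h2, Bd.nil⟩⟩) (by simpa using h4) ih

lemma opn_le (hs : s ^ 2 * Fintype.card ι ≤ 1) (hR : opn J ≤ R) (h : Cmb s J k N B) :
    opn B ≤ N * (1 + R) ^ k := by
  have R0 : 0 ≤ R := (opn_nonneg _).trans hR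
  induction h with
  | zero => simpa using (opn_smul (0 : ℝ) (1 : Matrix ι ι ℝ)).le
  | term c d l h1 h2 h3 h4 _ ih =>
    have := opn_smul_le h1 (opn_mul_le' (opn_diagonal_le zero_le_one h2)
      ((opn_VU hs hR h3).1.trans (pow_le_pow_right₀ (by linarith) h4)))
    refine (opn_add_le _ _).trans ?_
    push_cast
    linarith

/-- **(U1)** -/
theorem dg (h : Cmb s J k N B) (hU : UW s J R k K) (hK : 0 ≤ K) :
    ∃ d0 : ι → ℝ, (∀ i, |d0 i| ≤ N) ∧ nrm (B.diag - d0) ≤ N * K := by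
  induction h with
  | zero => exact ⟨0, by simp, by simp [nrm]⟩
  | @term N B c d l h1 h2 h3 h4 _ ih =>
    obtain ⟨d0, b1, b2⟩ := ih
    by_cases h0 : l = []
    · subst h0
      refine ⟨c • d + d0, fun i => (abs_add_le _ _).trans ?_, ?_⟩
      · have := abs_mul_le_one' (a := fun _ => c) (fun _ => h1) h2 i
        push_cast
        exact (add_le_add this (b1 i)).trans (le_of_eq (add_comm _ _))
      · rw [Vk_nil, Matrix.mul_one, diag_add, diag_smul, diag_diagonal, add_sub_add_left_eq_sub]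
        push_cast; linarith
    · refine ⟨d0, fun i => (b1 i).trans (by simp), ?_⟩
      rw [diag_add, diag_smul, add_sub_assoc]
      refine (nrm_add_le _ _).trans ?_
      rw [nrm_smul]
      have := mul_le_mul h1 ((nrm_diag_mul h2 _).trans (hU.dg l h0 h4 h3)) (nrm_nonneg _) zero_le_one
      push_cast; linarith

/-- **(U2)** -/
theorem four (h : Cmb s J k N B) (hU : UW s J R (2 * k) K) (hJ : Jᵀ = J) (hK : 0 ≤ K)
    (hs : s ^ 2 * Fintype.card ι ≤ 1) :
    ∑ i, ∑ j ∈ univ.erase i, B i j ^ 4 ≤ 16 ^ N * (2 * ((k + 1) * K) ^ 2 + 2) := by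
  induction h with
  | zero => simp; positivity
  | @term N B c d l h1 h2 h3 h4 _ ih =>
    have b : ∀ x y : ℝ, (x + y) ^ 4 ≤ 8 * x ^ 4 + 8 * y ^ 4 := fun x y => by
      nlinarith [sq_nonneg (x - y), sq_nonneg (x + y), sq_nonneg (x ^ 2 - y ^ 2),
        mul_nonneg (sq_nonneg (x - y)) (sq_nonneg (x + y)),
        mul_nonneg (sq_nonneg (x - y)) (add_nonneg (sq_nonneg x) (sq_nonneg y))]
    have h5 : ∑ i, ∑ j ∈ univ.erase i, (c • (diagonal d * Vk s J l)) i j ^ 4 ≤
        2 * ((k + 1) * K) ^ 2 + 2 := by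
      by_cases h0 : l = []
      · subst h0
        refine le_trans (le_of_eq (sum_eq_zero fun i _ => sum_eq_zero fun j hj => ?_))
          (by positivity)
        simp [diagonal_apply_ne _ (mem_erase.1 hj).1.symm]
      · refine le_trans (sum_le_sum fun i _ => le_trans (sum_le_sum fun j _ => ?_)
          (sum_le_sum_of_subset_of_nonneg (erase_subset _ _) fun _ _ _ => by positivity))
          ((hU.four' hJ hK hs h0 (by omega) h3).trans ?_)
        · rw [Matrix.smul_apply, diagonal_mul, smul_eq_mul, ← mul_assoc, mul_pow]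
          refine mul_le_of_le_one_left (by positivity) ?_
          rw [← (by decide : Even 4).pow_abs]
          exact pow_le_one₀ (abs_nonneg _) (abs_mul_le_one' (a := fun _ => c) (fun _ => h1) h2 i)
        · have : (l.length : ℝ) ≤ k := by exact_mod_cast h4
          gcongr
    refine (sum_le_sum fun i _ => sum_le_sum fun j _ => b _ _).trans ?_
    simp only [sum_add_distrib, ← mul_sum]
    have h6 : (1 : ℝ) ≤ 16 ^ N := one_le_pow₀ (by norm_num)
    have h7 : 0 ≤ 2 * ((k + 1) * K) ^ 2 + 2 := by positivity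
    rw [pow_succ]
    nlinarith [mul_le_mul_of_nonneg_right h6 h7]

end Cmb

end Crest.Agent.T157.Uw
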