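import Crest.Agent.T157.VgDef_54
import Crest.Agent.T157.CascB_65
import Crest.Agent.R166.GaussPi_93

/-!
Row 157, part D (helper54): site decoupling and removal of idle Gaussian coordinates in cascades.
-/

set_option autoImplicit false

noncomputable section

namespace Crest.Agent.T157.Vg

open MeasureTheory ProbabilityTheory Matrix Real
open Crest.Agent.T157.E Crest.Agent.T157.Casc Crest.Agent.T157.SL

section sel
variable {Ω : Type*} [Fintype Ω]

theorem int_sel {ι κ : Type} [Fintype ι] [Fintype κ] (e : κ → ι) (he : Function.Injective e)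
    {G : (κ → ℝ) → ℝ} (hG : Continuous G) :
    ∫ g : ι → ℝ, G (fun k => g (e k)) ∂gv ι = ∫ g, G g ∂gv κ := by
  have mp : MeasurePreserving (fun g : ι → ℝ => fun k => g (e k)) (gv ι) (gv κ) :=
    R339.Guerra.mp_comp e he
  rw [← mp.map_eq, integral_map mp.measurable.aemeasurable hG.aestronglyMeasurable]

/-- a level only using some of its Gaussian coordinates -/
theorem step_sel {F : (Ω → ℝ) → ℝ} (hF : Lg F) {l l' : Lv Ω} (e : l'.ι → l.ι)
    (he : Function.Injective e) (hm : l.m = l'.m) (hf : ∀ g, l.fld g = l'.fld fun k => g (e k))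
    (z : Ω → ℝ) : step l F z = step l' F z := by
  simp only [step, hf, hm]
  rw [int_sel e he (hF.eg.cont_fld l' z), int_sel e he ((hF.exp l'.m).cont_fld l' z)]

/-- a level without features is idle -/
theorem step_zero (F : (Ω → ℝ) → ℝ) {l : Lv Ω} (h0 : ∀ x i, l.A x i = 0) (z : Ω → ℝ) :
    step l F z = F z := by
  have : ∀ g, l.fld g = 0 := fun g => funext fun x => by simp [Lv.fld, h0]
  simp only [step, this, add_zero, integral_const, probReal_univ, one_smul, log_exp]
  split_ifs with h
  · rfl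
  · rw [inv_mul_cancel_left₀ h]

theorem X_zero (w : Ω → ℝ) : ∀ (L : List (Lv Ω)), (∀ l ∈ L, ∀ x i, l.A x i = 0) → ∀ z,
    X w L z = log (∑ x, w x * exp (z x))
  | [], _, _ => rfl
  | l :: L, h, z => by
    rw [X, step_zero _ (h l (by simp)), X_zero w L fun k hk => h k (by simp [hk])]

end sel

variable {𝒜 : Type} [Fintype 𝒜] {n : ℕ}

theorem wt_prod {w : Fin n → 𝒜 → ℝ} (hw : ∀ i, Wt (w i)) :
    Wt fun s : Fin n → 𝒜 => ∏ i, w i (s i) := by
  classical
  refine ⟨fun s => Finset.prod_nonneg fun i _ => (hw i).nn _, ?_⟩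
  rw [← Fintype.piFinset_univ, ← Finset.prod_univ_sum]
  exact Finset.prod_pos fun i _ => (hw i).pos

omit [Fintype 𝒜] in
theorem prodL_fld (l : Lv 𝒜) (g : Fin n × l.ι → ℝ) (s : Fin n → 𝒜) :
    (prodL n l).fld g s = ∑ i, l.fld (fun k => g (i, k)) (s i) :=
  Fintype.sum_prod_type (f := fun p : Fin n × l.ι => l.A (s p.1) p.2 * g p)

/-- site decoupling -/
theorem X_prod {w : Fin n → 𝒜 → ℝ} (hw : ∀ i, Wt (w i)) : ∀ (L : List (Lv 𝒜)) (h : Fin n → 𝒜 → ℝ),
    X (fun s : Fin n → 𝒜 => ∏ i, w i (s i)) (L.map (prodL n)) (fun s => ∑ i, h i (s i)) =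
      ∑ i, X (w i) L (h i)
  | [], h => by
    classical
    simp only [List.map_nil, X, exp_sum, ← Finset.prod_mul_distrib]
    rw [← Fintype.piFinset_univ, ← Finset.prod_univ_sum (fun _ => Finset.univ)
      fun i a => w i a * exp (h i a), log_prod fun i _ => (wt_exp (hw i) (h i)).pos.ne']
  | l :: L, h => by
    have e : ∀ g : Fin n × l.ι → ℝ, X (fun s : Fin n → 𝒜 => ∏ i, w i (s i)) (L.map (prodL n))
        ((fun s => ∑ i, h i (s i)) + (prodL n l).fld g) =
        ∑ i, X (w i) L (h i + l.fld fun k => g (i, k)) := by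
      intro g
      rw [← X_prod hw L]
      congr 1
      funext s
      simp only [Pi.add_apply, prodL_fld, Finset.sum_add_distrib]
    have inj : ∀ i : Fin n, Function.Injective fun k : l.ι => (i, k) := fun i a b hab =>
      (Prod.ext_iff.1 hab).2
    simp only [List.map_cons, X, step]
    change (if l.m = 0 then ∫ g : Fin n × l.ι → ℝ, _ ∂gv (Fin n × l.ι) else
      l.m⁻¹ * log (∫ g : Fin n × l.ι → ℝ, exp (l.m * _) ∂gv (Fin n × l.ι))) = _
    simp only [e]
    split_ifs with hm
    · rw [integral_finsetSum]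
      · exact Finset.sum_congr rfl fun i _ =>
          int_sel _ (inj i) ((lg_X (hw i) L).eg.cont_fld l (h i))
      · exact fun i _ => (R339.Guerra.mp_comp _ (inj i)).integrable_comp_of_integrable
          ((lg_X (hw i) L).eg.int l (h i))
    · rw [← Finset.mul_sum, ← log_prod fun i _ => ((lg_X (hw i) L).Z_pos l (h i)).ne',
        ← integral_fintype_prod_eq_prod (μ := fun _ : Fin n => gv l.ι)
          fun i g => exp (l.m * X (w i) L (h i + l.fld g))]
      congr 2
      have mp : MeasurePreserving (MeasurableEquiv.curry (Fin n) l.ι ℝ) (gv (Fin n × l.ι))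
          (Measure.pi fun _ : Fin n => gv l.ι) := R166.GaussPi93.mp_curry
      rw [← mp.integral_comp']
      refine integral_congr_ae (.of_forall fun g => ?_)
      simp only [Finset.mul_sum, exp_sum]
      rfl

end Crest.Agent.T157.Vg

end
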