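import Crest.Agent.T157.WpDef_93
import Crest.Agent.T157.StA_87
import Crest.Agent.T157.RecB_77
import Crest.Agent.T157.StLnk_10

/-!
# Row 157, part C: smoothing through the Gaussian channel (helper93)

`SS K G x = E G(K x + √K z)`; transfer of `∫ SS K G` and `∫ (SS K G)²` between two laws at the cost
`√D2`; the smoothed posterior mean is a `C¹` observable; `smooth_wp` transfers a weak Poincaré
inequality from a compactly supported law to a finite weight.
-/

set_option autoImplicit false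
set_option linter.unusedSectionVars false

noncomputable section

namespace Crest.Agent.T157.Wp

open MeasureTheory ProbabilityTheory Matrix Filter Topology Finset Real
open Crest.Agent.T157.E Crest.Agent.T157.St Crest.Agent.T157.St.A87 Crest.Agent.T157.SL
open Crest.Agent.T157.Rec

variable {ι : Type*} [Fintype ι] [DecidableEq ι] {μ ν : Measure (ι → ℝ)} {K : ℝ}
  {G : (ι → ℝ) → ℝ}

/-- smoothing through the channel -/
def SS (K : ℝ) (G : (ι → ℝ) → ℝ) (x : ι → ℝ) : ℝ := ∫ z, G (K • x + √K • z) ∂gv ι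

lemma SS_eq (K : ℝ) (G : (ι → ℝ) → ℝ) (x : ι → ℝ) : SS K G x = IK K fun y => G (K • x + y) := rfl

lemma mg_SS (h : MG G) (K : ℝ) : MG (SS K G) := mg_smul (mg_IK h K) K

lemma abs_SS_le {B : ℝ} (hB : ∀ y, |G y| ≤ B) (K : ℝ) (x : ι → ℝ) : |SS K G x| ≤ B := by
  have := abs_IK_le (K := K) (F := fun y => G (K • x + y)) (MG.const B) fun y => hB _
  rwa [IK_const] at this

lemma int_SS (hμ : Cp μ) (hK : 0 ≤ K) (h : MG G) :
    ∫ x, SS K G x ∂μ = IK K fun y => Mf K μ y * G y := by
  have := bayes hμ hK (Bs.const 1) h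
  simpa only [Mf_eq, SS, one_mul] using this

lemma IK_abs_D (hμ : Cp μ) (hν : Cp ν) (hK : 0 ≤ K) :
    IK K (fun y => |Mf K ν y - Mf K μ y|) ≤ √(D2 K μ ν) := by
  rw [D2_eq hμ hν hK]
  simpa only [abs_sub_comm (Mf K ν _)] using IK_abs_le_sqrt ((mg_Mf hμ hK).sub (mg_Mf hν hK))

/-- transfer of a smoothed bounded observable -/
lemma transfer (hμ : Cp μ) (hν : Cp ν) (hK : 0 ≤ K) (h : MG G) {B : ℝ} (hB : ∀ y, |G y| ≤ B) :
    ∫ x, SS K G x ∂ν ≤ ∫ x, SS K G x ∂μ + B * √(D2 K μ ν) := by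
  have B0 : 0 ≤ B := (abs_nonneg _).trans (hB 0)
  have a := mg_Mf hμ hK
  have b := mg_Mf hν hK
  rw [int_SS hμ hK h, int_SS hν hK h, ← sub_le_iff_le_add', ← IK_sub (b.mul h) (a.mul h)]
  refine le_trans (IK_mono ((b.mul h).sub (a.mul h)) ((b.sub a).abs.const_mul B) fun y => ?_) ?_
  · rw [← sub_mul, mul_comm B]
    exact (le_abs_self _).trans ((abs_mul _ _).trans_le (by gcongr; exact hB y))
  · rw [IK_const_mul]
    exact mul_le_mul_of_nonneg_left (IK_abs_D hμ hν hK) B0

lemma Un_SS (hμ : Cp μ) (hK : 0 ≤ K) (h : MG G) (y : ι → ℝ) :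
    Un K μ (SS K G) y = IK K fun y' => Mf (K + K) μ (y + y') * G y' := by
  have := swap hμ (add_nonneg hK hK) (Bs.const 1) h y K
  rw [Mf_eq, this, Un]
  refine integral_congr_ae (.of_forall fun x => ?_)
  simp only [one_mul, ew_add, mul_assoc, IK_const_mul]
  rw [mul_comm, SS, ← cmK hK]
  simp only [mul_comm (G _)]

/-- transfer of the square of a smoothed bounded observable -/
lemma transfer_sq (hμ : Cp μ) (hν : Cp ν) (hK : 0 ≤ K) (h : MG G) {B : ℝ} (hB : ∀ y, |G y| ≤ B) :
    ∫ x, SS K G x ^ 2 ∂ν ≤ ∫ x, SS K G x ^ 2 ∂μ + B ^ 2 * √(D2 (K + K) μ ν) := by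
  have B0 : 0 ≤ B := (abs_nonneg _).trans (hB 0)
  have h2 := add_nonneg hK hK
  have e : ∀ {ρ : Measure (ι → ℝ)}, Cp ρ →
      ∫ x, SS K G x ^ 2 ∂ρ = IK K fun y => Un K ρ (SS K G) y * G y := fun hρ => by
    rw [← bayes hρ hK (Bs.of_mg hρ (mg_SS h K)) h]
    simp only [sq, SS]
  have a := mg_Un hμ hK (Bs.of_mg hμ (mg_SS h K))
  have b := mg_Un hν hK (Bs.of_mg hν (mg_SS h K))
  have c := ((mg_Mf hν h2).sub (mg_Mf hμ h2)).abs
  rw [e hμ, e hν, ← sub_le_iff_le_add', ← IK_sub (b.mul h) (a.mul h)]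
  refine le_trans (IK_mono ((b.mul h).sub (a.mul h)) ((mg_IK c K).const_mul (B ^ 2))
    fun y => ?_) ?_
  · have a' := (mg_shift (mg_Mf hμ h2) y).mul h
    have b' := (mg_shift (mg_Mf hν h2) y).mul h
    have h1 : |Un K ν (SS K G) y - Un K μ (SS K G) y| ≤
        B * IK K fun y' => |Mf (K + K) ν (y + y') - Mf (K + K) μ (y + y')| := by
      rw [Un_SS hμ hK h, Un_SS hν hK h, ← IK_sub b' a', ← IK_const_mul]
      refine abs_IK_le ((mg_shift c y).const_mul B) fun y' => ?_
      rw [← sub_mul, abs_mul, mul_comm B]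
      gcongr; exact hB y'
    rw [← sub_mul]
    refine (le_abs_self _).trans ((abs_mul _ _).trans_le ?_)
    rw [sq, mul_assoc, mul_comm B]
    exact mul_le_mul h1 (hB y) (abs_nonneg _) ((abs_nonneg _).trans h1)
  · rw [IK_const_mul, IK_IK hK hK c]
    exact mul_le_mul_of_nonneg_left (IK_abs_D hμ hν h2) (sq_nonneg B)

/-- the second stage of the channel -/
def PP (K : ℝ) (G : (ι → ℝ) → ℝ) (w : ι → ℝ) : ℝ := IK (K / 2) fun y => G ((1 / 2 : ℝ) • w + y)

lemma mg_PP (h : MG G) (K : ℝ) : MG (PP K G) := mg_smul (mg_IK h (K / 2)) (1 / 2)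

lemma SS_PP (hK : 0 ≤ K) (h : MG G) (x : ι → ℝ) : SS (K + K) (PP K G) x = SS K G x := by
  have h2 : 0 ≤ K / 2 := by positivity
  have e : (1 / 2 : ℝ) * √(K + K) = √(K / 2) := by
    rw [show K / 2 = (1 / 2) ^ 2 * (K + K) by ring, sqrt_mul (by positivity), sqrt_sq (by norm_num)]
  have := IK_IK h2 h2 (mg_shift h (K • x))
  rw [add_halves] at this
  rw [SS_eq K, ← this, SS, IK]
  refine integral_congr_ae (.of_forall fun z => ?_)
  simp only [PP, smul_add, smul_smul, e, add_assoc]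
  rw [show (1 / 2 : ℝ) * (K + K) = K by ring]

/-! ### the smoothed posterior mean -/

/-- a vector as a linear form -/
def dual (v : ι → ℝ) : (ι → ℝ) →L[ℝ] ℝ := ∑ k, v k • ContinuousLinearMap.proj k

lemma dual_apply (v x : ι → ℝ) : dual v x = v ⬝ᵥ x := by simp [dual, dotProduct]

lemma norm_dual_le {v : ι → ℝ} {M : ℝ} (h : ∀ k, |v k| ≤ M) (hM : 0 ≤ M) :
    ‖dual v‖ ≤ Fintype.card ι * M := by
  refine ContinuousLinearMap.opNorm_le_bound _ (by positivity) fun x => ?_
  rw [dual_apply, dotProduct, Real.norm_eq_abs]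
  refine (abs_sum_le_sum_abs _ _).trans ?_
  calc ∑ k, |v k * x k| ≤ ∑ _k : ι, M * ‖x‖ := sum_le_sum fun k _ => by
        rw [abs_mul]; exact mul_le_mul (h k) (norm_le_pi_norm x k) (abs_nonneg _) hM
    _ = _ := by simp [mul_assoc]

lemma continuous_dual : Continuous (dual (ι := ι)) := by
  unfold dual; fun_prop

variable {Ω : Type*} [Fintype Ω] {φ : Ω → ι → ℝ} {w u : Ω → ℝ}

lemma cont_cv (hw : Wt w) (φ : Ω → ι → ℝ) (s : ℝ) (u : Ω → ℝ) :
    Continuous fun y => covV (post φ w s y) u φ :=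
  continuous_pi fun k => by
    have := (eg_cov (φ := φ) (I := Set.univ) hw u fun x => φ x k).cont
    rw [Set.univ_prod_univ, continuousOn_univ] at this
    exact this.comp (f := fun y : ι → ℝ => (s, y)) (by fun_prop)

lemma abs_cv_le (hw : Wt w) (hu : ∀ x, |u x| ≤ 1) (φ : Ω → ι → ℝ) (k : ι) :
    |covV w u φ k| ≤ 2 * ∑ x, ∑ l, |φ x l| := by
  have h : ∀ x, |φ x k| ≤ ∑ x, ∑ l, |φ x l| := fun x =>
    (single_le_sum (f := fun l => |φ x l|) (fun _ _ => abs_nonneg _) (mem_univ k)).trans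
      (single_le_sum (f := fun x => ∑ l, |φ x l|) (fun _ _ => by positivity) (mem_univ x))
  rw [covV, hw.cov_eq']
  refine hw.abs_mean_le fun x => ?_
  have h1 := hw.abs_mean_le h
  rw [abs_mul]
  refine (mul_le_of_le_one_left (abs_nonneg _) (hu x)).trans ((abs_sub _ _).trans ?_)
  linarith [h x]

lemma hasFDerivAt_pm (hw : Wt w) (φ : Ω → ι → ℝ) (s : ℝ) (u : Ω → ℝ) (y : ι → ℝ) :
    HasFDerivAt (fun y => mean (post φ w s y) u) (dual (covV (post φ w s y) u φ)) y := by
  have hd : DifferentiableAt ℝ (fun y => mean (post φ w s y) u) y := by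
    have h0 := (hw.post φ s y).pos.ne'
    simp only [mean, prob, post, dotProduct] at h0 ⊢
    fun_prop (disch := assumption)
  refine hd.hasFDerivAt.congr_fderiv ?_
  ext1 v
  have l : HasDerivAt (fun r : ℝ => y + r • v) v 0 := by
    simpa using ((hasDerivAt_id (0 : ℝ)).smul_const v).const_add y
  have h1 := hd.hasFDerivAt.comp_hasDerivAt_of_eq 0 l (by simp)
  have h2 := df_mean (φ := φ) (I := Set.univ) hw u (fun r => (s, y + r • v)) (0, v) 0
    ((hasDerivAt_const _ s).prodMk l) (Set.mem_univ _)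
  rw [h1.unique h2, dual_apply]
  simp [dotProduct]

/-- the gradient of the smoothed posterior mean -/
def VV (φ : Ω → ι → ℝ) (w u : Ω → ℝ) (K : ℝ) (x : ι → ℝ) : ι → ℝ :=
  fun k => K * SS K (fun y => covV (post φ w K y) u φ k) x

lemma hg_SS (hw : Wt w) (hu : ∀ x, |u x| ≤ 1) (φ : Ω → ι → ℝ) (K : ℝ) :
    HG (SS K fun y => mean (post φ w K y) u) (VV φ w u K) := by
  set M := 2 * ∑ x, ∑ l, |φ x l|
  have M0 : 0 ≤ M := by positivity
  have hM : ∀ y k, |covV (post φ w K y) u φ k| ≤ M := fun y k => abs_cv_le (hw.post φ K y) hu φ k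
  have cc := cont_cv hw φ K u
  have key : ∀ x, HasFDerivAt (SS K fun y => mean (post φ w K y) u) (dual (VV φ w u K x)) x := by
    intro x
    have hi : Integrable (fun z => K • dual (covV (post φ w K (K • x + √K • z)) u φ)) (gv ι) :=
      Integrable.of_bound (((continuous_dual.comp (cc.comp (by fun_prop))).const_smul
        K).aestronglyMeasurable) (|K| * (Fintype.card ι * M)) (.of_forall fun z => by
          rw [norm_smul, Real.norm_eq_abs]
          exact mul_le_mul_of_nonneg_left (norm_dual_le (hM _) M0) (abs_nonneg K))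
    have h := hasFDerivAt_integral_of_dominated_of_fderiv_le (μ := gv ι) (𝕜 := ℝ) (x₀ := x)
      (F := fun x z => mean (post φ w K (K • x + √K • z)) u)
      (F' := fun x z => K • dual (covV (post φ w K (K • x + √K • z)) u φ))
      (bound := fun _ => |K| * (Fintype.card ι * M)) univ_mem
      (.of_forall fun x => ((mg_pm hw K u).affine (K • x) √K).meas.aestronglyMeasurable)
      ((mg_pm hw K u).affine (K • x) √K).int hi.aestronglyMeasurable
      (.of_forall fun z x _ => by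
        rw [norm_smul, Real.norm_eq_abs]
        exact mul_le_mul_of_nonneg_left (norm_dual_le (hM _) M0) (abs_nonneg K))
      (integrable_const _)
      (.of_forall fun z x _ => by
        have l : HasFDerivAt (fun x : ι → ℝ => K • x + √K • z)
            (K • ContinuousLinearMap.id ℝ (ι → ℝ)) x :=
          ((hasFDerivAt_id x).const_smul K).add_const _
        refine ((hasFDerivAt_pm hw φ K u _).comp x l).congr_fderiv ?_
        ext1 v; simp)
    refine h.congr_fderiv ?_
    ext1 v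
    rw [ContinuousLinearMap.integral_apply hi, dual_apply, dotProduct]
    simp only [_root_.smul_apply, dual_apply, smul_eq_mul, dotProduct, mul_sum, VV, SS]
    rw [integral_finsetSum]
    · exact sum_congr rfl fun k _ => by
        rw [← integral_const_mul, ← integral_mul_const]; simp only [mul_assoc]
    · exact fun k _ => ((((mg_pcov hw K u _).affine (K • x) √K).int.mul_const (v k)).const_mul K)
  refine ⟨abs_SS_le (fun y => (hw.post φ K y).abs_mean_le hu) K,
    continuous_iff_continuousAt.2 fun x => (key x).continuousAt,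
    continuous_pi fun k => continuous_const.mul ?_, fun x x' θ hx => ?_⟩
  · refine continuous_of_dominated (bound := fun _ => M)
      (fun x => ((mg_pcov hw K u _).affine (K • x) √K).meas.aestronglyMeasurable)
      (fun x => .of_forall fun z => hM _ k) (integrable_const _) (.of_forall fun z => ?_)
    exact (continuous_apply k).comp (cc.comp (by fun_prop))
  · have := (key (x θ)).comp_hasDerivAt θ hx
    rwa [dual_apply] at this

lemma sum_PP_le (hw : Wt w) (hu : ∀ x, |u x| ≤ 1) (φ : Ω → ι → ℝ) (hK : 0 < K) (y : ι → ℝ) :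
    ∑ k, PP K (fun y => covV (post φ w K y) u φ k) y ^ 2 ≤ 2 / K := by
  have h2 : 0 < K / 2 := by positivity
  have m := mg_shift (mg_pm (φ := φ) hw K u) ((1 / 2 : ℝ) • y)
  have hb := IK_bessel h2.le m
  have e : ∀ k, IK (K / 2) (fun y' => y' k * mean (post φ w K ((1 / 2 : ℝ) • y + y')) u) =
      K / 2 * PP K (fun y => covV (post φ w K y) u φ k) y := fun k => by
    simp only [IK, PP, Pi.smul_apply, smul_eq_mul, mul_assoc, integral_const_mul]
    rw [stein_post hw, ← mul_assoc, mul_self_sqrt h2.le]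
  have h1 : IK (K / 2) (fun y' => mean (post φ w K ((1 / 2 : ℝ) • y + y')) u ^ 2) ≤ 1 := by
    exact (IK_mono (mg_sq m) (.const 1) fun y' =>
      (sq_le_one_iff_abs_le_one _).2 ((hw.post φ K _).abs_mean_le hu)).trans_eq (IK_const 1)
  simp only [e, mul_pow, ← mul_sum] at hb
  rw [le_div_iff₀ hK]
  nlinarith [mul_le_mul_of_nonneg_left h1 h2.le]

lemma int_VV_le [Nonempty Ω] (hw : ∀ x, 0 < w x) (hu : ∀ x, |u x| ≤ 1) (φ : Ω → ι → ℝ)
    (hK : 0 < K) (hν : Cp ν) :
    ∫ x, VV φ w u K x ⬝ᵥ VV φ w u K x ∂ν ≤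
      K ^ 2 * (slE φ w K fun _ y => covV (post φ w K y) u φ ⬝ᵥ covV (post φ w K y) u φ) +
        2 * K * √(D2 (K + K) (dm w φ) ν) := by
  have hW := Wt.of_pos hw
  have hμ := Lnk10.cp_dm hw φ
  have h2 := add_nonneg hK.le hK.le
  have mc : ∀ k, MG fun y => covV (post φ w K y) u φ k := fun k => mg_pcov hW K u _
  have mP : ∀ k, MG (PP K fun y => covV (post φ w K y) u φ k) := fun k => mg_PP (mc k) K
  set Q : (ι → ℝ) → ℝ := fun y => ∑ k, PP K (fun y => covV (post φ w K y) u φ k) y ^ 2 with hQ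
  have mQ : MG Q := .sum _ fun k _ => mg_sq (mP k)
  have mN : MG fun y => covV (post φ w K y) u φ ⬝ᵥ covV (post φ w K y) u φ :=
    .sum _ fun k _ => (mc k).mul (mc k)
  have h1 : ∀ x, VV φ w u K x ⬝ᵥ VV φ w u K x ≤ K ^ 2 * SS (K + K) Q x := fun x => by
    rw [SS_eq, hQ, IK_sum _ fun k _ => mg_shift (mg_sq (mP k)) _, mul_sum]
    refine sum_le_sum fun k _ => ?_
    rw [VV, ← sq, mul_pow, ← SS_PP hK.le (mc k), SS_eq]
    exact mul_le_mul_of_nonneg_left (IK_sq_le (mg_shift (mP k) _)) (sq_nonneg K)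
  have h3 : ∀ y, Q y ≤ PP K (fun y => covV (post φ w K y) u φ ⬝ᵥ covV (post φ w K y) u φ) y :=
    fun y => by
    simp only [hQ, PP, dotProduct, ← sq]
    rw [IK_sum _ fun k _ => mg_shift (mg_sq (mc k)) _]
    exact sum_le_sum fun k _ => IK_sq_le (mg_shift (mc k) _)
  have h4 := transfer hμ hν h2 mQ (B := 2 / K) fun y => by
    rw [abs_of_nonneg (sum_nonneg fun k _ => sq_nonneg _)]; exact sum_PP_le hW hu φ hK y
  have h5 : ∫ x, SS (K + K) Q x ∂dm w φ ≤
      slE φ w K fun _ y => covV (post φ w K y) u φ ⬝ᵥ covV (post φ w K y) u φ := by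
    rw [Lnk10.integral_dm hW.nn]
    refine hW.mean_mono fun x => ?_
    refine le_trans ?_ (SS_PP hK.le mN (φ x)).le
    exact IK_mono (mg_shift mQ _) (mg_shift (mg_PP mN K) _) fun y => h3 _
  have mV : MG fun x => VV φ w u K x ⬝ᵥ VV φ w u K x :=
    .sum _ fun k _ => ((mg_SS (mc k) K).const_mul K).mul ((mg_SS (mc k) K).const_mul K)
  refine (integral_mono ((Bs.of_mg hν mV).int hν)
    ((Bs.of_mg hν ((mg_SS mQ _).const_mul (K ^ 2))).int hν) h1).trans ?_
  rw [integral_const_mul]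
  have e : 2 * K = K ^ 2 * (2 / K) := by field_simp
  rw [e, mul_assoc, ← mul_add]
  exact mul_le_mul_of_nonneg_left (by linarith) (sq_nonneg K)

/-- **transfer of a weak Poincaré inequality through the channel** -/
theorem smooth_wp [Nonempty Ω] (hw : ∀ x, 0 < w x) (hu : ∀ x, |u x| ≤ 1) (φ : Ω → ι → ℝ)
    (hK : 0 < K) (hν : Cp ν) {β κ : ℝ} (hβ : 0 ≤ β)
    (h : ∀ F V, HG F V → ∃ m : ℝ, |m| ≤ 1 ∧
      ∫ x, (F x - m) ^ 2 ∂ν ≤ β * ∫ x, V x ⬝ᵥ V x ∂ν + κ) :
    var w u ≤ 2 * (slE φ w K fun _ y => var (post φ w K y) u) +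
      2 * β * (K ^ 2 * slE φ w K fun _ y => covV (post φ w K y) u φ ⬝ᵥ covV (post φ w K y) u φ) +
        2 * κ + (8 + 4 * β * K) * √(D2 (K + K) (dm w φ) ν) := by
  have hW := Wt.of_pos hw
  have hμ := Lnk10.cp_dm hw φ
  have h2 := add_nonneg hK.le hK.le
  obtain ⟨m, hm, H⟩ := h _ _ (hg_SS hW hu φ K)
  have mp := mg_pm (φ := φ) hW K u
  set F := SS K fun y => mean (post φ w K y) u with hF
  have e1 : ∀ x, F x - m = SS K (fun y => mean (post φ w K y) u - m) x := fun x => by
    rw [SS_eq, IK_sub (mg_shift mp _) (.const m), IK_const]; rfl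
  have h1 := transfer_sq hν hμ hK.le (mp.sub (.const m)) (B := 2) fun y =>
    (abs_sub _ _).trans (by linarith [(hW.post φ K y).abs_mean_le hu])
  simp only [← e1] at h1
  rw [Lnk10.integral_dm hW.nn, show D2 (K + K) ν (dm w φ) = D2 (K + K) (dm w φ) ν by
    rw [D2, D2, Xk_comm hν hμ h2]; ring] at h1
  have h3 := int_VV_le hw hu φ hK hν
  have h4 : (mean w fun x => (u x - F (φ x)) ^ 2) ≤ slE φ w K fun _ y => var (post φ w K y) u := by
    rw [← slE_var hW hK.le]
    refine hW.mean_mono fun x => ?_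
    have := IK_sq_le (K := K) (mg_shift (mp.sub (.const (u x))) (K • φ x))
    rw [IK_sub (mg_shift mp _) (.const _), IK_const] at this
    rw [sub_sq_comm]
    exact this
  have h5 : var w u ≤ mean w fun x => (u x - m) ^ 2 := by
    have a : (mean w fun x => (u x - m) ^ 2) = var w u + (mean w u - m) ^ 2 := by
      have b : ∀ x, (u x - m) ^ 2 = (u x - mean w u) ^ 2 + (2 * (mean w u - m) * u x +
          ((mean w u - m) ^ 2 - 2 * (mean w u - m) * mean w u)) := fun x => by ring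
      simp only [b]
      rw [mean_add, mean_add, mean_const_mul, hW.mean_const]
      simp only [mean, var]; ring
    nlinarith [sq_nonneg (mean w u - m)]
  have h6 : (mean w fun x => (u x - m) ^ 2) ≤
      2 * (mean w fun x => (u x - F (φ x)) ^ 2) + 2 * mean w fun x => (F (φ x) - m) ^ 2 := by
    rw [← mean_const_mul, ← mean_const_mul, ← mean_add]
    exact hW.mean_mono fun x => by nlinarith [sq_nonneg (u x - F (φ x) - (F (φ x) - m))]
  nlinarith [mul_le_mul_of_nonneg_left h3 hβ]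

end Crest.Agent.T157.Wp

end
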