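import Crest.Agent.T157.WpA_93
import Crest.Agent.T157.StConv_10
import Crest.Agent.T157.StSph_38
import Crest.Agent.T157.EdBase_88

/-!
# Row 157, part C: `wpGlue : WPGlue` (helper93)
-/

set_option autoImplicit false
set_option linter.unusedSectionVars false

noncomputable section

namespace Crest.Agent.T157.Wp

open MeasureTheory ProbabilityTheory Matrix Filter Topology Finset Real
open Crest.ProbabilityR.SpinGlassDynamics
open Crest.Agent.T157.E Crest.Agent.T157.St Crest.Agent.T157.SL Crest.Agent.T157.Ed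
open Crest.Agent.T157.Top Crest.Agent.T157.Cond Crest.Agent.T157.Eig

section gen
variable {ι : Type*} [Fintype ι] [DecidableEq ι] {Ω : Type*} [Fintype Ω]

lemma post_smul (φ : Ω → ι → ℝ) (w : Ω → ℝ) {a K : ℝ} (ha : 0 ≤ a) (hK : 0 ≤ K) (x : Ω)
    (z : ι → ℝ) : post (fun x => a • φ x) w K (K • a • φ x + √K • z) =
      post φ w (K * a ^ 2) ((K * a ^ 2) • φ x + √(K * a ^ 2) • z) := by
  funext x'
  rw [sqrt_mul hK, sqrt_sq ha]
  simp only [post, add_dotProduct, smul_dotProduct, dotProduct_smul, smul_eq_mul]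
  congr 2; ring

lemma slE_var_smul (φ : Ω → ι → ℝ) (w u : Ω → ℝ) {a K : ℝ} (ha : 0 ≤ a) (hK : 0 ≤ K) :
    (slE (fun x => a • φ x) w K fun _ y => var (post (fun x => a • φ x) w K y) u) =
      slE φ w (K * a ^ 2) fun _ y => var (post φ w (K * a ^ 2) y) u := by
  simp only [slE, post_smul φ w ha hK]

lemma slE_cov_smul (φ : Ω → ι → ℝ) (w u : Ω → ℝ) {a K : ℝ} (ha : 0 ≤ a) (hK : 0 ≤ K) :
    (slE (fun x => a • φ x) w K fun _ y => covV (post (fun x => a • φ x) w K y) u (fun x => a • φ x) ⬝ᵥ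
        covV (post (fun x => a • φ x) w K y) u fun x => a • φ x) =
      a ^ 2 * slE φ w (K * a ^ 2) fun _ y =>
        covV (post φ w (K * a ^ 2) y) u φ ⬝ᵥ covV (post φ w (K * a ^ 2) y) u φ := by
  have e : ∀ v : Ω → ℝ, covV v u (fun x => a • φ x) = a • covV v u φ := fun v => by
    funext k; simp only [covV, Pi.smul_apply, smul_eq_mul, cov_const_mul]
  simp only [slE, post_smul φ w ha hK, e, smul_dotProduct, dotProduct_smul, smul_eq_mul,
    integral_const_mul, mul_sum]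
  exact sum_congr rfl fun x _ => by ring

lemma HG.orth {F : (ι → ℝ) → ℝ} {V : (ι → ℝ) → ι → ℝ} (h : HG F V) (O : Matrix ι ι ℝ) :
    HG (fun x => F (O *ᵥ x)) fun x => Oᵀ *ᵥ V (O *ᵥ x) := by
  have c : ∀ A : Matrix ι ι ℝ, Continuous fun x : ι → ℝ => A *ᵥ x := fun A => by fun_prop
  refine ⟨fun x => h.bdd _, h.cF.comp (c O), (c Oᵀ).comp (h.cV.comp (c O)), fun x x' θ hx => ?_⟩
  have h1 : HasDerivAt (fun s => O *ᵥ x s) (O *ᵥ x') θ :=
    hasDerivAt_pi.2 fun i => HasDerivAt.fun_sum fun j _ => (hasDerivAt_pi.1 hx j).const_mul (O i j)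
  have h2 := h.der _ _ θ h1
  rwa [dotProduct_mulVec, ← mulVec_transpose] at h2

end gen

theorem wpGlue : WPGlue := by
  intro hG hCl hS hC η ε hη hε
  have hL := lnkGlue sphStmt
  obtain ⟨C, -, hG⟩ := hG
  obtain ⟨L, w₁, hL0, hG⟩ := hG (ε / 4) (by positivity)
  obtain ⟨w₀, w, β, h0, h1, hβ, hS⟩ := hS L C w₁ (η / 8) hL0 (by positivity)
  obtain ⟨C₁, K, hK, hC⟩ := hC (η / (8 * (1 + β))) (ε / 4) (by positivity) (by positivity)
  set D := η / (4 * (8 + 4 * β * K)) with hD
  have D0 : 0 < D := by positivity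
  refine ⟨2 * (1 + β) * C₁, ?_⟩
  filter_upwards [hG _ h0, hG _ h1, hS, hC, eventually_ge_atTop 1,
    whp_iff.1 (hCl.2 (K + K) (D ^ 2) (by positivity) (by positivity)) (ε / 4) (by positivity)]
    with n g0 g1 hS hC hn hD2
  have split : ∀ A B : Set (Pair n → ℝ), disorderLaw n A ≤ disorderLaw n B + disorderLaw n (A \ B) :=
    fun A B => (measure_mono (Set.subset_sdiff_union A B)).trans ((measure_union_le _ _).trans_eq (add_comm _ _))
  refine (split _ _).trans (((add_le_add hC ((Conv10.disorder_le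
      (B := ({W | ¬ (W.IsHermitian ∧ Gd n (Lam n W) (sx n ^ 2) L w₀ C)} ∪
        {W | ¬ (W.IsHermitian ∧ Gd n (Lam n W) (sx n ^ 2) L w C)}) ∪
        {W | ¬ D2 (K + K) (muW n W) (nuW n W) ≤ D ^ 2}) ?_).trans
      ((measure_union_le _ _).trans (add_le_add ((measure_union_le _ _).trans
        (add_le_add g0 g1)) hD2)))).trans (le_of_eq ?_)))
  · rintro g ⟨⟨u, hu, hbad⟩, hc⟩ d
    by_contra hB
    simp only [Set.mem_union, Set.mem_ofPred_eq, not_or, not_not] at hB
    obtain ⟨⟨⟨hW, G0⟩, -, G1⟩, hB⟩ := hB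
    have hc' := not_lt.1 fun h => hc ⟨u, hu, h⟩
    have t0 : 0 < sx n ^ 2 := pow_pos (sx_pos hn) 2
    obtain ⟨O, hO, -, hν⟩ := (hL n hn).2.2.2.1 _ hW
    have cν := ((hL n hn).1 (Wmat n g d)).2.1
    have hO' : O * Oᵀ = 1 := mul_eq_one_comm.1 hO
    have mO : Measurable fun x : Fin n → ℝ => O *ᵥ x := by fun_prop
    have key := smooth_wp (gibbsWeight_pos 1 g) hu (hat n) hK cν hβ (κ := η / 8) fun F V h => by
      obtain ⟨m, hm, H⟩ := hS _ _ t0 G0 G1 _ _ (h.orth O)
      refine ⟨m, hm, ?_⟩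
      have cV : Continuous fun x => V x ⬝ᵥ V x := h.cV.dotProduct h.cV
      have cF : Continuous fun x => (F x - m) ^ 2 := (h.cF.sub continuous_const).pow 2
      rw [hν, integral_map mO.aemeasurable cF.aestronglyMeasurable,
        integral_map mO.aemeasurable cV.aestronglyMeasurable]
      refine H.trans_eq ?_
      simp only [Sph38.dot_orth (O := Oᵀ) (by rwa [transpose_transpose])]
    have a0 : 0 ≤ (sx n ^ 2)⁻¹ := by positivity
    have e1 : ((sx n ^ 2)⁻¹) ^ 2 = (Soft.N23 n)⁻¹ := by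
      rw [inv_pow, ← pow_mul, ← tau_eq]; rfl
    have e2 : hat n = fun x => (sx n ^ 2)⁻¹ • sv x := rfl
    have e3 : √(D2 (K + K) (dm (gibbsWeight n 1 g) (hat n)) (nuW n (Wmat n g d))) ≤ D := by
      rw [(hL n hn).2.2.1 g d] at hB
      exact sqrt_le_iff.2 ⟨D0.le, hB⟩
    have e4 : (8 + 4 * β * K) * D = η / 4 := by rw [hD]; field_simp
    have e5 : 2 * (1 + β) * (η / (8 * (1 + β))) = η / 4 := by field_simp; ring
    have k2 := mul_le_mul_of_nonneg_left e3 (show 0 ≤ 8 + 4 * β * K by positivity)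
    conv_rhs at key => rw [e2, slE_var_smul _ _ _ a0 hK.le, slE_cov_smul _ _ _ a0 hK.le, e1,
      ← div_eq_mul_inv, ← mul_assoc (K ^ 2), ← div_eq_mul_inv]
    have hW := Wt.of_pos (gibbsWeight_pos (n := n) 1 g)
    have v0 : 0 ≤ eV n g (K / Soft.N23 n) u :=
      hW.mean_nonneg fun x => integral_nonneg fun z => (hW.post _ _ _).var_nonneg u
    have c0 : 0 ≤ K ^ 2 / Soft.N23 n * eC n g (K / Soft.N23 n) u :=
      mul_nonneg (by positivity)
        (hW.mean_nonneg fun x => integral_nonneg fun z => SL.dot_self_nonneg _)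
    have k3 := mul_le_mul_of_nonneg_left hc' (show 0 ≤ 2 * (1 + β) by positivity)
    rw [gibbsVar_eq] at hbad
    simp only [eV, eC] at k3 v0 c0
    rw [← e2] at key
    nlinarith [mul_nonneg hβ v0]
  · rw [← ENNReal.ofReal_add (by positivity) (by positivity),
      ← ENNReal.ofReal_add (by positivity) (by positivity),
      ← ENNReal.ofReal_add (by positivity) (by positivity)]
    congr 1; ring

end Crest.Agent.T157.Wp

end
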