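import Crest.Agent.T157.Ws_32
import Crest.Agent.T157.LowB_85
import Crest.Agent.T157.Glue_34
import Crest.Agent.T157.Cut0_10

/-!
# Row 157, part B (helper32): from warm entropy decay and a lower bound to `R30`
-/

set_option autoImplicit false

namespace Crest.Agent.T157.Rv

open Crest.Agent.T157.Top

/-- upper half `U`, lower half `L`, at one rate `0 < λ ≤ (1 - β)²` -/
def BOf (U L : ℝ → ℝ → Prop) : Prop := ∀ β : ℝ, 0 < β → β < 1 →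
  ∃ lam : ℝ, 0 < lam ∧ lam ≤ (1 - β) ^ 2 ∧ U β lam ∧ L β lam

theorem BOf.imp {U L U' L' : ℝ → ℝ → Prop} (h : BOf U L)
    (H : ∀ β lam, 0 < β → β < 1 → 0 < lam → U β lam → L β lam → U' β lam ∧ L' β lam) :
    BOf U' L' := fun β h0 h1 => by
  obtain ⟨lam, hl, h2, hU, hL⟩ := h β h0 h1
  exact ⟨lam, hl, h2, H β lam h0 h1 hl hU hL⟩

theorem cutoff_ux_cut (hA : At0) (h : BOf Low.UX CutLow) : CutoffStmt :=
  h.imp fun _ _ h0 h1 hl hU hL => ⟨cutUp_of_ux hA h0.le h1 hl hU, hL⟩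

theorem cutoff_ux_lb (hA : At0) (hS : TopL.SubGHi) (h : Low.BStmt) : CutoffStmt :=
  BOf.imp (U := Low.UX) (L := Low.LB) h fun _ _ h0 h1 hl hU hL =>
    ⟨cutUp_of_ux hA h0.le h1 hl hU,
      Low.cutLow_of (Glue.AtTight.poinHi hA) hS h0.le h1 hl hU.ue hL⟩

theorem BOf.ux_of_uw {L : ℝ → ℝ → Prop} (hA : At0) (h : BOf UW L) : BOf Low.UX L :=
  h.imp fun _ _ h0 h1 hl hU hL => ⟨Rv.ux_of_uw hA h0.le h1 hl hU, hL⟩

theorem BOf.uw_of_ub {L : ℝ → ℝ → Prop} (h : BOf UB L) : BOf UW L :=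
  h.imp fun _ _ _ _ hl hU hL => ⟨Rv.uw_of_ub hl hU, hL⟩

theorem BOf.uw_of_dw {L : ℝ → ℝ → Prop} (h : BOf DW L) : BOf UW L :=
  h.imp fun _ _ _ _ hl hU hL => ⟨Rv.uw_of_dw hl hU, hL⟩

theorem BOf.uw_of_di {L : ℝ → ℝ → Prop} (h : BOf DI L) : BOf UW L :=
  h.imp fun _ _ _ _ hl hU hL => ⟨Rv.uw_of_dw hl (dw_of_di hU), hL⟩

theorem BOf.uw_of_mw {L : ℝ → ℝ → Prop} (h : BOf MW L) : BOf UW L :=
  h.imp fun _ _ _ _ hl hU hL => ⟨Rv.uw_of_dw hl (dw_of_mw hU), hL⟩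

/-- (UW) gives the second moment bound of the overlap -/
theorem u2_of_uw (hA : At0) (hS : TopL.SubGHi) {β lam : ℝ} (h0 : 0 ≤ β) (h1 : β < 1) (hl : 0 < lam)
    (h : UW β lam) : Low.U2 β lam :=
  Low.u2_of hS h0 h1 hl (ux_of_uw hA h0 h1 hl h).ue

theorem r30_of_cutoff (h : CutoffStmt) : R30 := Chain22.r30_of h Cut0.cut0Stmt

end Crest.Agent.T157.Rv
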