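import Crest.Agent.T157.WsA_32

/-!
# Row 157, part B (helper32): `MW → DW`, `DI → DW → UW`, `UB → UW`, `UW → UX → CutUp`
-/

set_option autoImplicit false

noncomputable section

namespace Crest.Agent.T157.Rv

open Matrix Real Filter Set Topology
open Crest.ProbabilityR.SpinGlassDynamics
open Crest.Agent.T157.E Crest.Agent.T157.Top
open Crest.Agent.T157.Chain22 (sg IsP hbRC isP_hbCt isP_prob' prob_pos' sg_eq sg_add mean_sg)
open Crest.Agent.T157.Low (Hx tn UX)
open Crest.Agent.T157.Eig (opn nrm)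

variable {n : ℕ} {β lam : ℝ}

/-! ### numbers -/

theorem ev_le (A : ℝ) {e : ℝ} (he : 0 < e) : ∀ᶠ n : ℕ in atTop, A ≤ (n : ℝ) ^ e :=
  ((tendsto_rpow_atTop he).comp tendsto_natCast_atTop_atTop).eventually_ge_atTop A

theorem rp (hn : 0 < n) (a : ℝ) : (n : ℝ) ^ a = exp (a * log n) := by
  rw [rpow_def_of_pos (by exact_mod_cast hn), mul_comm]

theorem ev_log (A : ℝ) : ∀ᶠ n : ℕ in atTop, A ≤ log n :=
  (tendsto_log_atTop.comp tendsto_natCast_atTop_atTop).eventually_ge_atTop A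

theorem two_tn (hl : 0 < lam) (n : ℕ) : 2 * lam * tn lam n = log n := by
  rw [tn]; field_simp

theorem le_log {t : ℝ} (hl : 0 < lam) (ht : t ≤ tn lam n) : 2 * lam * t ≤ log n := by
  rw [← two_tn hl n]; exact mul_le_mul_of_nonneg_left ht (by positivity)

theorem cast_eq (hn : 0 < n) : (n : ℝ) = exp (log n) := (exp_log (by exact_mod_cast hn)).symm

theorem ev_small {a : ℝ} (ha : 0 < a) (A : ℝ) :
    ∀ᶠ n : ℕ in atTop, A * n * exp (-((n : ℝ) ^ a / 2)) ≤ 1 := by
  filter_upwards [(Chain22.tendsto_exp_neg_rpow_mul ha A).eventually (ge_mem_nhds one_pos)] with n h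
  linarith

/-! ### crude bounds of the Gibbs weight -/

theorem crude_L (h0 : 0 ≤ β) (h1 : β < 1) {g : Pair n → ℝ} (hK : opn (Jmat n g) ≤ 18) (x : Cube n) :
    log (1 / prob (gibbsWeight n β g) x) ≤ 19 * n := by
  refine (Chain22.log_inv_prob_gibbs_le hK x).trans ?_
  rw [abs_of_nonneg h0]
  nlinarith [mul_nonneg (Nat.cast_nonneg (α := ℝ) n) (sub_nonneg.2 h1.le)]

theorem crude_lf (h0 : 0 ≤ β) (h1 : β < 1) {g : Pair n → ℝ} (hK : opn (Jmat n g) ≤ 18) (i : Fin n)
    (x : Cube n) : Ent.lf (gibbsWeight n β g) i x ≤ 36 * √n := by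
  rw [gibbsWeight_eq_ising, Ent.lf_ising (by rw [transpose_smul, Jmat_transpose])]
  have e1 := (Eig.abs_apply_le_nrm (Jmat n g *ᵥ sv x) i).trans (Eig.nrm_mulVec_le _ _)
  rw [nrm, sv_dot_self] at e1
  have e2 := mul_le_mul_of_nonneg_right hK (sqrt_nonneg (n : ℝ))
  simp only [Pi.zero_apply, zero_add, smul_mulVec, Pi.smul_apply, Matrix.smul_apply, Jmat_diag,
    smul_eq_mul,
    mul_zero, zero_mul, sub_zero, abs_mul, abs_of_nonneg h0]
  nlinarith [abs_nonneg ((Jmat n g *ᵥ sv x) i)]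

/-! ### the chain -/

/-- whp strong warm start: after `24 K c log n` every start is warm at the level `n^(1-c)` -/
theorem ev_warm (h0 : 0 ≤ β) (h1 : β < 1) {K c : ℝ} (hK : 0 < K) (hc : 0 < c) (hc' : c ≤ 1 / 4) :
    ∀ᶠ n : ℕ in atTop, ∀ g : Pair n → ℝ, Ent.AT (gibbsWeight n β g) K 0 → opn (Jmat n g) ≤ 18 →
      ∀ x, ∃ f, Warm (gibbsWeight n β g) ((n : ℝ) ^ (1 - c)) f ∧ ∀ s, 0 ≤ s →
        Hx (gibbsWeight n β g) (s + 24 * K * c * log n) x ≤
          2 * ent (gibbsWeight n β g) (sg (gibbsWeight n β g) s f) + 4 := by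
  filter_upwards [eventually_gt_atTop 0, ev_le 76 hc, ev_le 36 (by norm_num : (0 : ℝ) < 1 / 8),
    ev_small (by norm_num : (0 : ℝ) < 1 / 8) 19] with n hn a1 a2 a3 g hA hJ x
  have hn' : (0 : ℝ) < n := by exact_mod_cast hn
  have n1 : (1 : ℝ) ≤ n := by exact_mod_cast hn
  have l0 : 0 ≤ log (n : ℝ) := log_nonneg n1
  have s1 : 1 ≤ √(n : ℝ) := one_le_sqrt.2 n1
  obtain ⟨f, hf, H⟩ := warm_start hn (gibbsWeight_pos β g) hA hK (η := 1 / (36 * √n))
    (by positivity) (by rw [div_le_one (by positivity)]; linarith)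
    (fun i x => by
      rw [one_div, ← div_eq_inv_mul, div_le_one (by positivity)]; exact crude_lf h0 h1 hJ i x)
    (crude_L h0 h1 hJ) (t := 24 * K * c * log n) (m := (n : ℝ) ^ (1 - c)) (by positivity)
    (one_le_rpow n1 (by linarith)) x
  refine ⟨f, hf, fun s hs => (H s hs).trans ?_⟩
  have e1 : (n : ℝ) * exp (-(24 * K * c * log n / (12 * K))) * (n : ℝ) ^ c = (n : ℝ) ^ (1 - c) := by
    rw [rp hn, rp hn]
    nth_rewrite 1 [cast_eq hn]
    rw [← exp_add, ← exp_add]; congr 1; field_simp; ring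
  have e2 : (n : ℝ) ^ (1 / 8 : ℝ) * (n : ℝ) ^ (1 / 8 : ℝ) * √n ≤ (n : ℝ) ^ (1 - c) := by
    rw [sqrt_eq_rpow, ← rpow_add hn', ← rpow_add hn']
    exact rpow_le_rpow_of_exponent_le n1 (by linarith)
  set u := (n : ℝ) * exp (-(24 * K * c * log n / (12 * K))) with hu
  have u0 : 0 ≤ u := by positivity
  have p0 : 0 ≤ (n : ℝ) ^ (1 / 8 : ℝ) := by positivity
  have e3 : 1 / (36 * √(n : ℝ)) * (2 * (19 * n * exp (-(24 * K * c * log n / (12 * K)))) -
      (n : ℝ) ^ (1 - c)) ≤ -((n : ℝ) ^ (1 / 8 : ℝ) / 2) := by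
    rw [one_div, ← div_eq_inv_mul, div_le_iff₀ (by positivity), mul_assoc 19, ← hu]
    have b1 := mul_le_mul_of_nonneg_left a1 u0
    have b2 := mul_le_mul_of_nonneg_right (mul_le_mul_of_nonneg_left a2 p0) (sqrt_nonneg (n : ℝ))
    linarith
  have e4 := mul_le_mul_of_nonneg_left (exp_le_exp.2 e3) (by positivity : (0 : ℝ) ≤ 19 * n)
  linarith

theorem ux_of_uw (hA : At0) (h0 : 0 ≤ β) (h1 : β < 1) (hl : 0 < lam) (h : UW β lam) : UX β lam := by
  intro e he
  obtain ⟨K, hK, hA⟩ := hA β h0 h1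
  set c := min (1 / 4) (e / (192 * lam * K)) with hc
  have c0 : 0 < c := lt_min (by norm_num) (by positivity)
  have c1 : 2 * lam * (24 * K * c) ≤ e / 4 := by
    have := min_le_right (1 / 4) (e / (192 * lam * K))
    rw [← hc, le_div_iff₀ (by positivity)] at this
    linarith
  refine ((hA.and Chain22.whp_opn').and (h c c0 (e / 4) (by positivity))).mono ?_
  filter_upwards [eventually_gt_atTop 0, ev_warm h0 h1 hK c0 (min_le_left _ _),
    ev_le 19 (by positivity : 0 < e / 2)] with n hn hW a1 g hg t t0 t1 x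
  obtain ⟨⟨g1, g2⟩, g3⟩ := hg
  have hw := gibbsWeight_pos β g
  have n1 : (1 : ℝ) ≤ n := by exact_mod_cast hn
  have l0 : 0 ≤ log (n : ℝ) := log_nonneg n1
  have l1 := le_log hl t1
  have c2 := mul_le_mul_of_nonneg_right c1 l0
  have e0 : (n : ℝ) ^ (1 + e) * exp (-(2 * lam * t)) =
      (n : ℝ) ^ (e / 2) * exp ((1 + e / 2) * log n - 2 * lam * t) := by
    rw [rp hn, rp hn, ← exp_add, ← exp_add]; congr 1; ring
  rw [e0]
  refine le_trans ?_ (mul_le_mul_of_nonneg_right a1 (exp_pos _).le)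
  rcases le_total t (24 * K * c * log n) with h2 | h2
  · rw [Hx_eq hn hw t0]
    refine (ent_sg_self hn hw t0 (dl_nn hw x)).trans
      ((ent_le_crude hw (crude_L h0 h1 g2) (dl_nn hw x)).trans ?_)
    rw [mean_dl hw, mul_one]
    nth_rewrite 1 [cast_eq hn]
    have := mul_le_mul_of_nonneg_left h2 (by positivity : 0 ≤ 2 * lam)
    gcongr
    nlinarith
  · obtain ⟨f, hf, H⟩ := hW g g1 g2 x
    have b0 : 0 ≤ 24 * K * c * log n := by positivity
    have b1 := H (t - 24 * K * c * log n) (by linarith)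
    have b2 := g3 f hf (t - 24 * K * c * log n) (by linarith) (by linarith)
    rw [sub_add_cancel] at b1
    rw [rp hn, ← exp_add] at b2
    have b3 : exp ((1 + e / 4) * log n + -(2 * lam * (t - 24 * K * c * log n))) ≤
        exp ((1 + e / 2) * log n - 2 * lam * t) := exp_le_exp.2 (by nlinarith)
    have b4 : 1 ≤ exp ((1 + e / 2) * log n - 2 * lam * t) := one_le_exp (by nlinarith)
    linarith

theorem tv_sq_le_Hx {w : Cube n → ℝ} (hn : 0 < n) (hw : ∀ x, 0 < w x) {t : ℝ} (ht : 0 ≤ t)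
    (x : Cube n) : tv (hbCt w t x) (prob w) ^ 2 ≤ Hx w t x :=
  Ent.tv_sq_le_kl (isP_hbCt hn hw ht x) (isP_prob' hw) (Ent.AC.of_pos _ (prob_pos' hw))

/-- **TOP**: the entropy bound up to the cutoff time gives the upper half of the cutoff -/
theorem cutUp_of_ux (hA : At0) (h0 : 0 ≤ β) (h1 : β < 1) (hl : 0 < lam) (h : UX β lam) :
    CutUp β lam := by
  intro ε hε η hη
  obtain ⟨K, hK, hA⟩ := hA β h0 h1
  have e0 : 0 < ε / (4 * lam * K) := by positivity
  refine (hA.and (h _ e0)).mono ?_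
  filter_upwards [eventually_gt_atTop 0, ev_le (2 / η ^ 2) e0] with n hn a1 g hg x
  have hw := gibbsWeight_pos β g
  have n1 : (1 : ℝ) ≤ n := by exact_mod_cast hn
  have l0 : 0 ≤ log (n : ℝ) := log_nonneg n1
  have t0 : 0 ≤ tn lam n := by rw [tn]; positivity
  have b1 := hg.2 _ t0 le_rfl x
  have b2 := hg.1.ent_sg_le hn hw hK le_rfl (sg_nn hn hw t0 (dl_nn hw x)) (t := ε * tn lam n)
    (by positivity)
  rw [← sg_add hn hw, ← Hx_eq hn hw t0, ← Hx_eq hn hw (by positivity), zero_mul, add_zero] at b2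
  have b3 := (tv_sq_le_Hx hn hw (by positivity) x).trans
    (b2.trans (mul_le_mul_of_nonneg_left b1 (exp_pos _).le))
  have b4 : exp (-(ε * tn lam n / K)) * ((n : ℝ) ^ (1 + ε / (4 * lam * K)) *
      exp (-(2 * lam * tn lam n))) = ((n : ℝ) ^ (ε / (4 * lam * K)))⁻¹ := by
    rw [rp hn, rp hn, ← exp_add, ← exp_add, ← exp_neg, two_tn hl, tn]; congr 1; field_simp; ring
  rw [b4] at b3
  have b5 : ((n : ℝ) ^ (ε / (4 * lam * K)))⁻¹ ≤ η ^ 2 / 2 := by
    rw [inv_le_comm₀ (by positivity) (by positivity), inv_div]; exact a1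
  rw [stateTV_eq, show (1 + ε) * (log n / (2 * lam)) = ε * tn lam n + tn lam n by rw [tn]; ring]
  exact lt_of_pow_lt_pow_left₀ 2 hη.le (by nlinarith [pow_pos hη 2])

theorem uw_of_ub (hl : 0 < lam) (h : UB β lam) : UW β lam := by
  intro c hc e he
  set e' := min (min lam (e / 2)) (min (e * lam / 2) (e / (8 * lam))) with he'
  have p1 : e' ≤ lam := (min_le_left _ _).trans (min_le_left _ _)
  have p2 : e' ≤ e / 2 := (min_le_left _ _).trans (min_le_right _ _)
  have p3 : e' ≤ e * lam / 2 := (min_le_right _ _).trans (min_le_left _ _)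
  have p4 : e' * (8 * lam) ≤ e := (le_div_iff₀ (by positivity)).1
    ((min_le_right _ _).trans (min_le_right _ _))
  have p0 : 0 < e' := lt_min (lt_min hl (by positivity)) (lt_min (by positivity) (by positivity))
  obtain ⟨δ, d0, d1, h⟩ := h c hc e' p0
  refine h.mono ?_
  filter_upwards [eventually_gt_atTop 0, ev_le 2 (by positivity : 0 < lam * δ),
    ev_le 3 (by positivity : 0 < e / 2), ev_log 1] with n hn a1 a2 a3 g hg f hf t t0 t1
  have hw := gibbsWeight_pos β g
  have n1 : (1 : ℝ) ≤ n := by exact_mod_cast hn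
  have l1 := le_log hl t1
  have T0 : 0 < δ * log n := by positivity
  set k := ⌊t / (δ * log n)⌋₊ with hk
  have k1 : k * (δ * log n) ≤ t := (le_div_iff₀ T0).1 (Nat.floor_le (by positivity))
  have k2 : t ≤ (k + 1) * (δ * log n) := ((div_lt_iff₀ T0).1 (Nat.lt_floor_add_one _)).le
  have r1 : (n : ℝ) ^ (e' * δ) * exp (-(2 * lam * (δ * log n))) =
      exp ((e' - 2 * lam) * (δ * log n)) := by rw [rp hn, ← exp_add]; congr 1; ring
  have r2 : exp ((e' - 2 * lam) * (δ * log n)) ≤ 1 / 2 := by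
    rw [rp hn] at a1
    have : exp ((e' - 2 * lam) * (δ * log n)) ≤ (exp (lam * δ * log n))⁻¹ := by
      rw [← exp_neg]; exact exp_le_exp.2 (by nlinarith)
    exact this.trans (by rw [one_div]; exact inv_anti₀ two_pos a1)
  rw [r1] at hg
  have b1 := ent_block hn hw T0.le (exp_pos _).le r2 (by positivity) hg hf k
  have b2 := ent_sg_self hn hw (t := t - k * (δ * log n)) (by linarith)
    (sg_nn hn hw (t := k * (δ * log n)) (by positivity) fun x => (hf.1 x).le)
  rw [← sg_add hn hw, sub_add_cancel] at b2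
  have b3 : ent (gibbsWeight n β g) f ≤ exp (log n) := (hf.ent_le hw).trans (by
    rw [rp hn]; exact exp_le_exp.2 (by nlinarith))
  have b4 : exp ((e' - 2 * lam) * (δ * log n)) ^ k * ent (gibbsWeight n β g) f ≤
      exp ((1 + e / 2) * log n - 2 * lam * t) := by
    refine (mul_le_mul_of_nonneg_left b3 (by positivity)).trans ?_
    rw [← exp_nat_mul, ← exp_add, exp_le_exp]
    have q1 : e' * (k * (δ * log n)) ≤ e * lam / 2 * t := by gcongr
    have q2 : 2 * lam * (δ * log n) ≤ e / 4 * log n := by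
      have : 2 * lam * δ ≤ e / 4 := by nlinarith
      nlinarith
    nlinarith [mul_le_mul_of_nonneg_left k2 (by positivity : 0 ≤ 2 * lam),
      mul_le_mul_of_nonneg_left l1 he.le]
  have b5 : (n : ℝ) ^ e' ≤ exp ((1 + e / 2) * log n - 2 * lam * t) := by
    rw [rp hn]; exact exp_le_exp.2 (by nlinarith)
  have e0 : (n : ℝ) ^ (1 + e) * exp (-(2 * lam * t)) =
      (n : ℝ) ^ (e / 2) * exp ((1 + e / 2) * log n - 2 * lam * t) := by
    rw [rp hn, rp hn, ← exp_add, ← exp_add]; congr 1; ring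
  rw [e0]
  refine le_trans ?_ (mul_le_mul_of_nonneg_right a2 (exp_pos _).le)
  linarith

theorem uw_of_dw (hl : 0 < lam) (h : DW β lam) : UW β lam := by
  intro c hc e he
  set d := min (lam / 2) (e * lam / 4) with hd
  have d0 : 0 < d := lt_min (by positivity) (by positivity)
  have d1 : d ≤ lam / 2 := min_le_left _ _
  have d2 : d ≤ e * lam / 4 := min_le_right _ _
  set e' := min (e / 2) (e / (8 * lam)) with he'
  have p0 : 0 < e' := lt_min (by positivity) (by positivity)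
  have p1 : e' ≤ e / 2 := min_le_left _ _
  have p2 : e' * (8 * lam) ≤ e := (le_div_iff₀ (by positivity)).1 (min_le_right _ _)
  obtain ⟨τ, κ, hτ, h⟩ := h (lam - d / 2) (by linarith) (by linarith) d d0 c hc e' p0
  refine h.mono ?_
  filter_upwards [eventually_gt_atTop 0, hτ, ev_le (1 + 1 / lam) (by positivity : 0 < e / 2)]
    with n hn ⟨q0, q1, q2, q3⟩ a2 g hg f hf t t0 t1
  have hw := gibbsWeight_pos β g
  have n1 : (1 : ℝ) ≤ n := by exact_mod_cast hn
  have l0 : 0 ≤ log (n : ℝ) := log_nonneg n1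
  have l1 := le_log hl t1
  have k1 : κ n * exp (2 * (lam - d) * τ n) ≤ d :=
    (mul_le_mul_of_nonneg_left (exp_le_exp.2 (by nlinarith)) q2).trans q3
  have k2 : κ n ≤ d := le_trans (le_mul_of_one_le_right q2 (one_le_exp (by nlinarith))) k1
  have b1 := ent_delay hn hw (b := 2 * (lam - d)) (N := 1 / lam * (n : ℝ) ^ e') q0 (by linarith) q2
    (by positivity) hg (by linarith) (by
      have : lam * (1 / lam * (n : ℝ) ^ e') = (n : ℝ) ^ e' := by field_simp
      nlinarith [mul_nonneg (by linarith : 0 ≤ 2 * (lam - d / 2) - κ n - lam)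
        (by positivity : 0 ≤ 1 / lam * (n : ℝ) ^ e')]) hf t0
  have b3 : ent (gibbsWeight n β g) f ≤ exp (log n) := (hf.ent_le hw).trans (by
    rw [rp hn]; exact exp_le_exp.2 (by nlinarith))
  have b4 : ent (gibbsWeight n β g) f * exp (-(2 * (lam - d) * (t - τ n))) ≤
      exp ((1 + e / 2) * log n - 2 * lam * t) := by
    refine (mul_le_mul_of_nonneg_right b3 (by positivity)).trans ?_
    rw [← exp_add, exp_le_exp]
    have r1 : 2 * lam * τ n ≤ e / 4 * log n := by
      nlinarith [mul_le_mul_of_nonneg_left q1 (by positivity : 0 ≤ 2 * lam),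
        mul_le_mul_of_nonneg_right p2 l0]
    nlinarith [mul_le_mul_of_nonneg_right d2 t0, mul_le_mul_of_nonneg_left l1 he.le,
      mul_pos d0 q0]
  have b5 : (n : ℝ) ^ e' ≤ exp ((1 + e / 2) * log n - 2 * lam * t) := by
    rw [rp hn]; exact exp_le_exp.2 (by nlinarith)
  have e0 : (n : ℝ) ^ (1 + e) * exp (-(2 * lam * t)) =
      (n : ℝ) ^ (e / 2) * exp ((1 + e / 2) * log n - 2 * lam * t) := by
    rw [rp hn, rp hn, ← exp_add, ← exp_add]; congr 1; ring
  rw [e0]
  refine le_trans ?_ (mul_le_mul_of_nonneg_right a2 (exp_pos _).le)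
  nlinarith [mul_le_mul_of_nonneg_left b5 (by positivity : 0 ≤ 1 / lam)]

theorem dw_of_mw (h : MW β lam) : DW β lam := by
  intro a ha hal d hd c hc e he
  refine ⟨fun n => e * log n, fun _ => 0, ?_, (h a ha hal c hc e he).mono ?_⟩
  · filter_upwards [ev_log 1] with n h1
    exact ⟨by positivity, le_rfl, le_rfl, by simpa using hd.le⟩
  · filter_upwards [eventually_gt_atTop 0, ev_log 1] with n hn h1 g hg f hf
    simpa using hg _ (hf.sg hn (gibbsWeight_pos β g) (by positivity))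

theorem dw_of_di (h : DI β lam) : DW β lam := by
  intro a ha hal d hd c hc e he
  obtain ⟨τ, κ, hτ, h⟩ := h a ha hal (d / (2 * exp (2 * a))) (by positivity) c hc (e / 2)
    (by positivity)
  refine ⟨fun n => τ n + 1, fun n => 2 * κ n, ?_, h.mono ?_⟩
  · filter_upwards [hτ, ev_log (2 / e)] with n ⟨q0, q1, q2, q3⟩ h1
    rw [div_le_iff₀ he] at h1
    rw [le_div_iff₀ (by positivity)] at q3
    refine ⟨by linarith, by linarith, by linarith, ?_⟩
    rw [mul_add, exp_add, mul_one]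
    linarith
  · filter_upwards [eventually_gt_atTop 0, hτ] with n hn ⟨q0, q1, q2, q3⟩ g hg f hf
    have hw := gibbsWeight_pos β g
    obtain ⟨u, u0, u1, hu⟩ := exists_II_le hn hw hf.1
    have b1 := hg _ (hf.sg hn hw u0.le) (τ n + 1 - u) (by linarith) (by linarith)
    rw [← sg_add hn hw, sub_add_cancel] at b1
    have b2 := ent_sg_self hn hw u0.le fun x => (hf.1 x).le
    have b3 : (n : ℝ) ^ (e / 2) ≤ (n : ℝ) ^ e :=
      rpow_le_rpow_of_exponent_le (by exact_mod_cast hn) (by linarith)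
    nlinarith [mul_le_mul_of_nonneg_left (add_le_add b2 hu) q2]

end Crest.Agent.T157.Rv

end
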