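import Crest.Agent.T157.ZMd_23
import Crest.Agent.T157.PosE_23

/-!
# Row 157, part B (Z): Brownian bridge labels; the TAP point is an explicit orbit (helper23)
-/

set_option autoImplicit false

noncomputable section

namespace Crest.Agent.T157.Md

open MeasureTheory ProbabilityTheory Matrix Filter Set Topology Complex
open Crest.ProbabilityR.SpinGlassDynamics
open Crest.Agent.T157.E Crest.Agent.T157.Eig Crest.Agent.T157.Cond Crest.Agent.T157.Tap
open Crest.Agent.T157.SL Crest.Agent.T157.Pos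

variable {n M : ℕ}

/-- independent standard Gaussian labels -/
def Lab {Ω : Type*} [MeasurableSpace Ω] (P : Measure Ω) (Z : Fin M → Ω → V n) : Prop :=
  (∀ k, Measurable (Z k)) ∧ ∀ (c : Fin M → ℝ) (u : V n),
    CF P (fun ω => u ⬝ᵥ ∑ k, c k • Z k ω) = cexp (-(((∑ k, c k ^ 2) * (u ⬝ᵥ u) : ℝ) : ℂ) / 2)

theorem lab_gv : Lab (gv (Fin M × Fin n)) fun k z i => z (k, i) := by
  refine ⟨fun k => by fun_prop, fun c u => ?_⟩
  have := CF_gv (fun p : Fin M × Fin n => c p.1 * u p.2)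
  convert this using 4
  · simp only [dotProduct, Fintype.sum_prod_type, Finset.sum_apply, Pi.smul_apply, smul_eq_mul,
      Finset.mul_sum]
    rw [Finset.sum_comm]
    exact Finset.sum_congr rfl fun k _ => Finset.sum_congr rfl fun i _ => by ring
  · simp only [dotProduct, Fintype.sum_prod_type, Finset.sum_mul_sum]
    norm_cast
    exact Finset.sum_congr rfl fun k _ => Finset.sum_congr rfl fun i _ => by ring

theorem lab_pi : Lab (Measure.pi fun _ : Fin M => gv (Fin n)) fun k z => z k := by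
  refine ⟨fun k => by fun_prop, fun c u => ?_⟩
  have h1 := integral_fintype_prod_eq_prod (μ := fun _ : Fin M => gv (Fin n))
    fun k (x : V n) => cexp (((c k • u) ⬝ᵥ x : ℝ) * I)
  have h2 : ∀ k, ∫ x, cexp (((c k • u) ⬝ᵥ x : ℝ) * I) ∂gv (Fin n) =
      cexp (-((c k ^ 2 * (u ⬝ᵥ u) : ℝ) : ℂ) / 2) := fun k => by
    rw [show c k ^ 2 * (u ⬝ᵥ u) = (c k • u) ⬝ᵥ (c k • u) by simp [sq, mul_assoc]]
    exact CF_gv _
  simp only [h2, ← Complex.exp_sum] at h1
  convert h1 using 2
  · rw [CF]; congr 1; funext z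
    simp only [dotProduct_sum, dotProduct_smul, smul_dotProduct, ofReal_sum, Finset.sum_mul]
  · rw [Finset.sum_mul, ofReal_sum, ← Finset.sum_div, Finset.sum_neg_distrib]

section lab
variable {Ω : Type*} [MeasurableSpace Ω] {P : Measure Ω} [IsProbabilityMeasure P]
  {Z : Fin M → Ω → V n}

omit [IsProbabilityMeasure P] in
lemma Lab.meas (hZ : Lab P Z) (c : Fin M → ℝ) : Measurable fun ω => ∑ k, c k • Z k ω :=
  Finset.measurable_sum _ fun k _ => (hZ.1 k).const_smul (c k)

lemma Lab.map (hZ : Lab P Z) (a : ℝ) (c : Fin M → ℝ) {t : ℝ} (h : a ^ 2 + ∑ k, c k ^ 2 = t) :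
    ((gv (Fin n)).prod P).map (fun p => a • p.1 + ∑ k, c k • Z k p.2) =
      (gv (Fin n)).map fun g => √t • g := by
  have t0 : 0 ≤ t := by rw [← h]; positivity
  refine ext_vec ((measurable_fst.const_smul a).add ((hZ.meas c).comp measurable_snd))
    (by fun_prop) fun u => ?_
  simp only [dotProduct_add, dotProduct_smul, ← smul_dotProduct]
  rw [CF_prod (gv (Fin n)) P (fun g => (a • u) ⬝ᵥ g) (fun ω => u ⬝ᵥ ∑ k, c k • Z k ω), hZ.2,
    CF_gv, CF_gv, ← Complex.exp_add, ← add_div, ← neg_add, ← ofReal_add]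
  congr 4
  simp only [dotProduct_smul, smul_dotProduct, smul_eq_mul, ← mul_assoc, Real.mul_self_sqrt t0]
  rw [← h]; ring

/-- the field at an earlier time, from the field and independent labels -/
theorem Lab.law (hZ : Lab P Z) {w : Cube n → ℝ} {r t a : ℝ} {c : Fin M → ℝ} (hr : 0 ≤ r)
    (h1 : a * r = t) (h2 : a ^ 2 * r + ∑ k, c k ^ 2 = t) :
    MeasurePreserving (fun p : V n × Ω => a • p.1 + ∑ k, c k • Z k p.2) ((law sv w r).prod P)
      (law sv w t) := by
  have hm : Measurable fun p : V n × Ω => a • p.1 + ∑ k, c k • Z k p.2 :=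
    (measurable_fst.const_smul a).add ((hZ.meas c).comp measurable_snd)
  refine ⟨hm, ?_⟩
  rw [SL.law, SL.law, ← Measure.sum_fintype, Measure.prod_sum_left, Measure.sum_fintype,
    Measure.map_finset_sum' hm.aemeasurable]
  refine Finset.sum_congr rfl fun x _ => ?_
  rw [Measure.prod_smul_left, Measure.map_smul]
  congr 1
  have h3 := hZ.map (a * √r) c (t := t) (by rw [mul_pow, Real.sq_sqrt hr, h2])
  have h4 := congrArg (Measure.map fun v : V n => t • sv x + v) h3
  have hm' : Measurable fun p : V n × Ω => (a * √r) • p.1 + ∑ k, c k • Z k p.2 :=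
    (measurable_fst.const_smul (a * √r)).add ((hZ.meas c).comp measurable_snd)
  rw [Measure.map_map (by fun_prop) hm', Measure.map_map (by fun_prop) (by fun_prop)] at h4
  conv_lhs => rw [← Measure.map_id (μ := P), Measure.map_prod_map _ _ (by fun_prop) measurable_id,
    Measure.map_map hm (by fun_prop)]
  refine Eq.trans ?_ h4
  congr 1; funext p
  simp only [Function.comp_apply, Prod.map_fst, Prod.map_snd, id, smul_add, smul_smul, h1, add_assoc]

end lab

/-- coefficients of the bridge -/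
def cS (r : ℝ) (S : Finset (Fin M)) (k : Fin M) : ℝ :=
  √(r / M) * ((if k ∈ S then 1 else 0) - S.card / M)

lemma cS_sq {r : ℝ} (hr : 0 ≤ r) (hM : 0 < M) (S : Finset (Fin M)) :
    ((S.card : ℝ) / M) ^ 2 * r + ∑ k, cS r S k ^ 2 = S.card / M * r := by
  have hM' : (0 : ℝ) < M := by positivity
  have e : ∀ k, cS r S k ^ 2 = r / M * ((1 - 2 * (S.card / M)) * (if k ∈ S then 1 else 0) +
      (S.card / M) ^ 2) := fun k => by
    rw [cS, mul_pow, Real.sq_sqrt (by positivity)]
    split_ifs <;> ring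
  simp only [e, ← Finset.mul_sum, Finset.sum_add_distrib, Finset.sum_ite_mem, Finset.univ_inter,
    Finset.sum_const, Finset.card_univ, Fintype.card_fin, nsmul_eq_mul]
  field_simp; ring

/-- the labels below `i` -/
def lw (M i : ℕ) : Finset (Fin M) := Finset.univ.filter fun k => (k : ℕ) < i

lemma card_lw {i : ℕ} (h : i ≤ M) : (lw M i).card = i := by
  rw [lw, Fin.card_filter_val_lt, min_eq_right h]

/-- the bridge at the time `i r / M` -/
def yB (r : ℝ) (i : ℕ) (y : V n) (z : Fin M → V n) : V n :=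
  ((i : ℝ) / M) • y + ∑ k, cS r (lw M i) k • z k

lemma yB_top (hM : 0 < M) (r : ℝ) (y : V n) (z : Fin M → V n) : yB r M y z = y := by
  have hM' : (M : ℝ) ≠ 0 := by positivity
  simp [yB, cS, lw, hM']

lemma yB_succ (r : ℝ) (i : Fin M) (y : V n) (z : Fin M → V n) :
    yB r (i + 1) y z - yB r i y z = ((1 : ℝ) / M) • y + ∑ k, cS r {i} k • z k := by
  have e : ∀ k, cS r (lw M (i + 1)) k = cS r (lw M i) k + cS r {i} k := fun k => by
    rw [cS, cS, cS, card_lw i.2, card_lw i.2.le]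
    simp only [lw, Finset.mem_filter, Finset.mem_univ, true_and,
      Finset.card_singleton, Finset.mem_singleton, Fin.ext_iff]
    push_cast
    split_ifs <;> first | ring1 | omega
  simp only [yB, e, add_smul, Finset.sum_add_distrib]
  push_cast
  rw [add_div, add_smul]; abel

/-! ### exponentially typical events with labels -/

/-- `Q n W ω` fails with exponentially small `μ n W`-mass, whp in `W` -/
def TypM {Ω : ℕ → Type} [∀ n, MeasurableSpace (Ω n)] (μ : ∀ n, Mx n → Measure (Ω n))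
    (Q : ∀ n, Mx n → Ω n → Prop) : Prop :=
  ∃ κ > (0 : ℝ), Top.Whp GOE fun n W => (μ n W).real {ω | ¬ Q n W ω} ≤ Real.exp (-κ * n)

section typ
variable {Ω Ω' : ℕ → Type} [∀ n, MeasurableSpace (Ω n)] [∀ n, MeasurableSpace (Ω' n)]
  {μ : ∀ n, Mx n → Measure (Ω n)} [∀ n W, IsFiniteMeasure (μ n W)] {P Q : ∀ n, Mx n → Ω n → Prop}

lemma TypM.mono' (h : TypM μ P) {R : ∀ n, Mx n → Prop} (hR : Top.Whp GOE R)
    (hPQ : ∀ᶠ n in atTop, ∀ W y, R n W → P n W y → Q n W y) : TypM μ Q := by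
  obtain ⟨κ, hκ, h⟩ := h
  exact ⟨κ, hκ, (h.and hR).mono (hPQ.mono fun n hn W hW => le_trans
    (measureReal_mono fun y hy hy' => hy (hn W y hW.2 hy')) hW.1)⟩

lemma TypM.mono (h : TypM μ P) (hPQ : ∀ᶠ n in atTop, ∀ W y, P n W y → Q n W y) : TypM μ Q :=
  h.mono' Top.whp_true (hPQ.mono fun _ hn W y _ => hn W y)

lemma TypM.and (h : TypM μ P) (h' : TypM μ Q) : TypM μ fun n W y => P n W y ∧ Q n W y := by
  obtain ⟨κ, hκ, h⟩ := h
  obtain ⟨κ', hκ', h'⟩ := h'
  have k0 := lt_min hκ hκ'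
  refine ⟨_, half_pos k0, (h.and h').mono ((Kr50.ev_exp 2 k0).mono fun n hn' W hW =>
    le_trans ?_ hn')⟩
  have hn : (0 : ℝ) ≤ n := Nat.cast_nonneg n
  have e1 : Real.exp (-κ * n) ≤ Real.exp (-min κ κ' * n) :=
    Real.exp_le_exp.2 (by nlinarith [min_le_left κ κ'])
  have e2 : Real.exp (-κ' * n) ≤ Real.exp (-min κ κ' * n) :=
    Real.exp_le_exp.2 (by nlinarith [min_le_right κ κ'])
  refine le_trans (measureReal_mono (s₂ := {y | ¬ P n W y} ∪ {y | ¬ Q n W y})
    fun y hy => not_and_or.1 hy) ((measureReal_union_le _ _).trans ?_)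
  linarith [hW.1, hW.2]

lemma TypM.range {R : ℕ → ∀ n, Mx n → Ω n → Prop} (N : ℕ) (h : ∀ j < N, TypM μ (R j)) :
    TypM μ fun n W y => ∀ j < N, R j n W y := by
  induction N with
  | zero => exact ⟨1, one_pos, Top.whp_of_eventually (.of_forall fun n W => by
      simp [Real.exp_nonneg])⟩
  | succ N ih =>
    exact ((ih fun j hj => h j (by omega)).and (h N (by omega))).mono
      (.of_forall fun _ _ _ hh j hj => (Nat.lt_succ_iff_lt_or_eq.1 hj).elim (hh.1 j)
        fun e => e ▸ hh.2)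

omit [∀ n W, IsFiniteMeasure (μ n W)] in
lemma TypM.comp [∀ n W, IsFiniteMeasure (μ n W)] (h : TypM μ P) {ν : ∀ n, Mx n → Measure (Ω' n)}
    {T : ∀ n, Ω' n → Ω n} (hT : ∀ n W, MeasurePreserving (T n) (ν n W) (μ n W)) :
    TypM ν fun n W ω => P n W (T n ω) := by
  obtain ⟨κ, hκ, h⟩ := h
  exact ⟨κ, hκ, h.imp fun n W hW => le_trans (ENNReal.toReal_mono (measure_ne_top _ _)
    ((hT n W).measure_preimage_le {ω | ¬ P n W ω})) hW⟩

end typ

instance (β s : ℝ) (W : Mx n) : IsProbabilityMeasure (law sv (ising (β • W) 0) s) :=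
  isProb_law (Cov15.wt_ising _ _)

lemma typ_nrm (β : ℝ) {t R : ℝ} (ht : 0 ≤ t) (h1 : t ≤ 1) (hR : t ≤ (R / 10) ^ 2) (h0 : 0 < R) :
    Typ β t fun n _ y => nrm y ≤ R / 2 * √n := by
  refine ⟨1 / 2, one_half_pos, Top.whp_of_eventually ?_⟩
  filter_upwards [eventually_gt_atTop 0] with n hn W
  refine (Cov15.law_tail (Cov15.wt_ising _ _) t
    (measurableSet_le continuous_nrm.measurable measurable_const).compl fun σ g hg hc =>
      hc ?_).trans_eq (by congr 1; ring)
  have := Cov15.nrm_path hn ht h1 hR h0 σ hg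
  rw [mem_ofPred_eq]; linarith

lemma goodB_mono {J : Mx n} {b c c' r : ℝ} {p : V n} (h : GoodB J b c r p) (hc : c' ≤ c) :
    GoodB J b c' r p := fun q h1 h2 => ⟨fun u => le_trans
      (mul_le_mul_of_nonneg_right hc (Eig.dot_self_nonneg u)) ((h q h1 h2).1 u),
    (h q h1 h2).2.trans (by linarith)⟩

lemma orb_succ (J : Mx n) (b η : ℝ) (K : ℕ) (y : ℕ → V n) (X : V n) (j : ℕ) :
    orb J b η K y X (j + 1) = orb J b η K (fun i => y (i + 1)) (orb J b η K y X 1) j := by
  induction j with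
  | zero => rfl
  | succ j ih => rw [orb, ih]; rfl

lemma exists_small {r d : ℝ} (hr : 0 < r) (hd : 0 < d) : ∃ m : ℕ, 0 < m ∧ r / m ≤ d := by
  obtain ⟨m, hm⟩ := exists_nat_gt (r / d)
  have m0 : (0 : ℝ) < m := lt_trans (by positivity) hm
  exact ⟨m, by exact_mod_cast m0, by rw [div_le_iff₀ m0]; rw [div_lt_iff₀ hd] at hm; linarith⟩

/-- **(SOL)** the TAP point of the field at the level `r` is an explicit orbit driven by the field
and by independent Gaussian labels -/
theorem sol {β r ε : ℝ} (hβ : β ∈ Ioo (0 : ℝ) 1) (hr : 0 < r) (hε : 0 < ε) :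
    ∃ (η : ℝ) (K N L M : ℕ), 0 < η ∧ η ≤ 1 ∧ L + N = M ∧
      ∀ (Ω : ℕ → Type) [∀ n, MeasurableSpace (Ω n)] (P : ∀ n, Measure (Ω n))
        [∀ n, IsProbabilityMeasure (P n)] (Z : ∀ n, Fin M → Ω n → V n), (∀ n, Lab (P n) (Z n)) →
      TypM (fun n W => (law sv (ising (β • W) 0) r).prod (P n)) fun n W p =>
        ∃ x, Ymap (β • W) (β ^ 2) x = p.1 ∧ nrm (orb (β • W) (β ^ 2) η K
          (fun j => yB r (L + j - 1) p.1 fun k => Z n k p.2) 0 (N + 1) - x) ≤ ε * √n := by
  have hβ' : β ∈ Icc (0 : ℝ) 1 := ⟨hβ.1.le, hβ.2.le⟩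
  have b1 : 0 < 1 - β := sub_pos.2 hβ.2
  set c0 := (1 - β) ^ 2 / 2 with hc0
  have c00 : 0 < c0 := by positivity
  have c01 : c0 ≤ 1 := by rw [hc0]; nlinarith [hβ.1]
  set R0 := c0 * ((1 - β) / 4) / 22 with hR0
  have R00 : 0 < R0 := by positivity
  obtain ⟨m, m0, hm⟩ := exists_small hr (lt_min one_pos (show 0 < (R0 / 10) ^ 2 by positivity))
  have m0' : (0 : ℝ) < m := by positivity
  obtain ⟨c1, hc1, r1, hr1, hG⟩ := LpAll.allGoodStmt β ⟨hβ.1, hβ.2.le⟩ (r / m) (by positivity) r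
  set c := min c1 c0 with hc
  have c' : 0 < c := lt_min hc1 c00
  have cc : c ≤ c0 := min_le_right _ _
  set ρ := c * min (r1 / 44) (ε / 7) with hρ
  have ρ0 : 0 < ρ := by positivity
  obtain ⟨L, L0, hL⟩ := exists_small (show 0 < r / m by positivity)
    (lt_min one_pos (show 0 < (2 * ρ / 10) ^ 2 by positivity))
  have L0' : (0 : ℝ) < L := by positivity
  obtain ⟨K0, hK0⟩ := exists_K (η := c / 72) (by positivity) ⟨c00, c01⟩ (by linarith)
    (θ := ρ / c / (R0 / 2 / c0)) (by positivity)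
  obtain ⟨K1, hK1⟩ := exists_K (η := c / 72) (by positivity) ⟨c', cc.trans c01⟩ le_rfl one_half_pos
  obtain ⟨N, hN⟩ : ∃ N, L + N = L * m := Nat.exists_eq_add_of_le (Nat.le_mul_of_pos_right L m0)
    |>.imp fun _ h => h.symm
  have M0 : 0 < L * m := by positivity
  refine ⟨c / 72, max K0 K1, N, L, L * m, by positivity, by linarith, hN,
    fun Ω _ P _ Z hZ => ?_⟩
  have mp : ∀ (S : Finset (Fin (L * m))) {t : ℝ}, (S.card : ℝ) / (L * m : ℕ) * r = t → ∀ n (W : Mx n),
      MeasurePreserving (fun p : V n × Ω n => ((S.card : ℝ) / (L * m : ℕ)) • p.1 +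
        ∑ k, cS r S k • Z n k p.2) ((law sv (ising (β • W) 0) r).prod (P n))
          (law sv (ising (β • W) 0) t) :=
    fun S t ht n W => (hZ n).law hr.le ht ((cS_sq hr.le M0 S).trans ht)
  have h1 := TypM.comp (typ_nrm β (by positivity) (hm.trans (min_le_left _ _))
    (hm.trans (min_le_right _ _)) R00) (mp (lw _ L) (by
      rw [card_lw (by omega)]; push_cast; field_simp))
  have h2 := TypM.range (μ := fun n W => (law sv (ising (β • W) 0) r).prod (P n)) N
    (R := fun j n W p => ¬ BadY β c1 (r1 * √n) W (yB r (L + j) p.1 fun k => Z n k p.2))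
    fun j hj => by
      have hj' : ((L + j : ℕ) : ℝ) ≤ (L * m : ℕ) := by exact_mod_cast (by omega)
      obtain ⟨κ, hκ, w⟩ := hG (((L + j : ℕ) : ℝ) / (L * m : ℕ) * r) ⟨by
        rw [div_le_iff₀ m0']; push_cast
        rw [show ((L : ℝ) + j) / (L * m) * r * m = r + j / L * r by field_simp]
        exact le_add_of_nonneg_right (by positivity),
        mul_le_of_le_one_left hr.le ((div_le_one (by positivity)).2 hj')⟩
      have := TypM.comp (P := fun n W y => ¬ BadY β c1 (r1 * √n) W y)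
        ⟨κ, hκ, w.imp fun n W hW => by simpa only [not_not] using hW⟩
        (mp (lw _ (L + j)) (by rw [card_lw (by omega)]))
      simpa only [yB, card_lw (show L + j ≤ L * m by omega)] using this
  have h3 := TypM.range (μ := fun n W => (law sv (ising (β • W) 0) r).prod (P n)) N
    (R := fun j n _ p => nrm (yB r (L + j + 1) p.1 (fun k => Z n k p.2) -
      yB r (L + j) p.1 fun k => Z n k p.2) ≤ ρ * √n) fun j hj => by
      have := TypM.comp (typ_nrm β (by positivity) (hL.trans (min_le_left _ _))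
        (hL.trans (min_le_right _ _)) (by positivity)) (mp {⟨L + j, by omega⟩} (by
          rw [Finset.card_singleton]; push_cast; field_simp))
      refine this.mono (.of_forall fun n W p hp => ?_)
      rw [yB_succ r ⟨L + j, by omega⟩]
      rw [Finset.card_singleton, Nat.cast_one] at hp
      exact hp.trans_eq (by ring)
  refine ((h1.and h2).and h3).mono' (Cov15.whp_symm.and (Cov15.whp_opn
    (δ := (1 - β) ^ 2 / 4) (by positivity))) ?_
  filter_upwards [eventually_gt_atTop 0] with n hn W p ⟨hS, hop⟩ ⟨⟨a1, a2⟩, a3⟩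
  have s0 : (0 : ℝ) < √n := by positivity
  have hS' : (β • W)ᵀ = β • W := by rw [transpose_smul, hS]
  have hJ : opn (β • W) ≤ 3 := by
    rw [opn_smul, abs_of_pos hβ.1]; nlinarith [hβ.1, hβ.2, opn_nonneg W]
  have hb : β ^ 2 ∈ Icc (0 : ℝ) 1 := ⟨sq_nonneg _, pow_le_one₀ hβ'.1 hβ'.2⟩
  rw [card_lw (by omega)] at a1
  have e0 : R0 / 2 * √(n : ℝ) / c0 = (1 - β) / 4 * √n / 44 := by rw [hR0]; field_simp; norm_num
  have e1 : ρ * √(n : ℝ) / c = min (r1 / 44) (ε / 7) * √n := by rw [hρ]; field_simp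
  obtain ⟨x1, d1, -, -, d2⟩ := level hS' hJ hb ⟨c00, c01⟩ (Cov15.good_zero hn hβ' hop)
    (η := c / 72) (by positivity) (by linarith) (y1 := yB r L p.1 fun k => Z n k p.2) (X := 0)
    (e := 0) (ρ := R0 / 2 * √n) (by rw [Cov15.Ymap_zero, sub_zero]; exact a1)
    (by rw [sub_zero, nrm_zero]) (by rw [e0]; linarith [mul_pos b1 s0])
  have u1 := mul_le_mul_of_nonneg_right (min_le_left (r1 / 44) (ε / 7)) s0.le
  have u2 := mul_le_mul_of_nonneg_right (min_le_right (r1 / 44) (ε / 7)) s0.le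
  obtain ⟨x, d3, d4⟩ := follow hS' hJ hb ⟨c', cc.trans c01⟩ (η := c / 72) (by positivity) le_rfl
    (hK1 _ (le_max_right K0 K1)) le_rfl (r := r1 * √n) (ρ := ρ * √n) (N := N)
    (by rw [e1]; linarith [mul_pos hr1 s0])
    (y := fun j => yB r (L + j) p.1 fun k => Z n k p.2)
    (X := (md (β • W) (β ^ 2) (c / 72) (yB r L p.1 fun k => Z n k p.2))^[max K0 K1] 0)
    (fun j hj x hx => goodB_mono (not_not.1 fun hc => a2 j hj ⟨x, hx, hc⟩) (min_le_left _ _))
    a3 d1 ((d2 _).trans (by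
      have := mul_le_mul_of_nonneg_left (hK0 _ (le_max_left K0 K1))
        (show 0 ≤ 7 * (R0 / 2 * √(n : ℝ) / c0) by positivity)
      rw [show 7 * (R0 / 2 * √(n : ℝ) / c0) * (ρ / c / (R0 / 2 / c0)) = 7 * (ρ * √n / c) by
        field_simp] at this
      linarith)) N le_rfl
  rw [hN, yB_top M0] at d3
  refine ⟨x, d3, ?_⟩
  rw [orb_succ]
  rw [e1] at d4
  exact d4.trans (by linarith)

end Crest.Agent.T157.Md

end
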