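import Crest.Agent.T157.ZDef_73
import Crest.Agent.T157.ZBr_23

/-!
# Row 157, part B (Z): typical fields are anchored (helper23)
-/

set_option autoImplicit false

noncomputable section

namespace Crest.Agent.T157.Z

open MeasureTheory ProbabilityTheory Matrix Filter Set Topology
open Crest.ProbabilityR.SpinGlassDynamics
open Crest.Agent.T157.E Crest.Agent.T157.Eig Crest.Agent.T157.Cond Crest.Agent.T157.Tap
open Crest.Agent.T157.Pos

namespace An23

variable {n : ℕ} {β η c r : ℝ} {W J : Mx n}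

lemma nrm_ymap (h : Nd η W J) (hβ : β ∈ Icc (0 : ℝ) 1) (b : ℝ) (x : V n) :
    nrm (Ymap (β • J) b x - Ymap (β • W) b x) ≤ 2 := by
  obtain ⟨d, rfl, hd, -⟩ := h
  have e : Ymap (β • J) b x - Ymap (β • (J + diagonal d)) b x = β • (diagonal d *ᵥ th x) := by
    simp only [Ymap, smul_add, add_mulVec, smul_mulVec]; abel
  have h2 : nrm (diagonal d *ᵥ th x) ≤ nrm d := Real.sqrt_le_sqrt (Finset.sum_le_sum fun i _ => by
    rw [mulVec_diagonal, ← sq, ← sq, mul_pow]
    exact mul_le_of_le_one_right (sq_nonneg _) ((sq_le_one_iff_abs_le_one _).2 (cb_th x i)))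
  rw [e, nrm_smul, abs_of_nonneg hβ.1]
  nlinarith [hβ.1, hβ.2, nrm_nonneg (diagonal d *ᵥ th x)]

lemma symm_nd (h : Nd η W J) (hS : Wᵀ = W) : (β • J)ᵀ = β • J := by
  obtain ⟨d, rfl, -⟩ := h
  rw [transpose_add, diagonal_transpose, add_left_inj] at hS
  rw [transpose_smul, hS]

lemma good_nd (h : Nd η W J) (η0 : 0 ≤ η) (hβ : β ∈ Icc (0 : ℝ) 1) {b : ℝ} {p : V n}
    (hG : GoodB (β • W) b c r p) : GoodB (β • J) b (c - η) r p := by
  obtain ⟨d, rfl, -, hd⟩ := h
  intro q h1 h2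
  obtain ⟨h3, h4⟩ := hG q h1 h2
  refine ⟨fun u => ?_, by linarith⟩
  have e : NN (B1 (β • J) b q) (dd q) = NN (B1 (β • (J + diagonal d)) b q) (dd q) +
      diagonal fun i => β * d i * dd q i ^ 2 := by
    simp only [NN, B1, B0, smul_add, ← diagonal_smul, Matrix.mul_add, Matrix.add_mul,
      Matrix.mul_sub, Matrix.sub_mul, diagonal_mul_diagonal]
    rw [show (fun i => dd q i * (β • d) i * dd q i) = fun i => β * d i * dd q i ^ 2 from
      funext fun i => by simp only [Pi.smul_apply, smul_eq_mul]; ring]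
    abel
  have h5 : -η * (u ⬝ᵥ u) ≤ u ⬝ᵥ diagonal (fun i => β * d i * dd q i ^ 2) *ᵥ u := by
    rw [dotProduct, dotProduct, Finset.mul_sum]
    refine Finset.sum_le_sum fun i _ => ?_
    have t0 : dd q i ^ 2 ≤ 1 := by
      rw [dd, Real.sq_sqrt (sub_nonneg.2 ((sq_le_one_iff_abs_le_one _).2 (h1 i)))]
      linarith [sq_nonneg (q i)]
    have t1 : |β * d i * dd q i ^ 2| ≤ η := by
      rw [abs_mul, abs_mul, abs_of_nonneg hβ.1, abs_of_nonneg (sq_nonneg (dd q i))]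
      exact (mul_le_of_le_one_right (mul_nonneg hβ.1 (abs_nonneg _)) t0).trans
        ((mul_le_of_le_one_left (abs_nonneg _) hβ.2).trans (hd i))
    rw [mulVec_diagonal]
    nlinarith [mul_self_nonneg (u i), (abs_le.1 t1).1]
  rw [e, add_mulVec, dotProduct_add]
  linarith [h3 u]

lemma good_sub {b r' : ℝ} {p p' : V n} (hG : GoodB J b c r p) (h : nrm (p' - p) + r' ≤ r) :
    GoodB J b c r' p' := fun q h1 h2 => hG q h1 (by
  have := nrm_add_le (q - p') (p' - p)
  rw [sub_add_sub_cancel] at this; linarith)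

lemma ev_le (A : ℝ) {r : ℝ} (hr : 0 < r) : ∀ᶠ n : ℕ in atTop, A ≤ r * √(n : ℝ) :=
  (ev_sq (M := A ^ 2) hr).mono fun _ hn => (abs_le_of_sq_le_sq' hn.2 (by positivity)).2

end An23

open An23 in
theorem ancStmt : AncStmt := by
  intro β hβ s hs
  have hβ' : β ∈ Ioc (0 : ℝ) 1 := ⟨hβ.1, hβ.2.le⟩
  have hβ1 : β ∈ Icc (0 : ℝ) 1 := ⟨hβ.1.le, hβ.2.le⟩
  obtain ⟨c, r, ρ, M, c0, r0, ρ0, hρ, M0, hA⟩ := accR hβ' hs
  obtain ⟨K, ρ1, K0, ρ10, hK⟩ := Pos.cov hβ' hs.le (Or.inr hs)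
  have m1 := min_le_left (ρ / 8) ρ1
  have m2 := min_le_right (ρ / 8) ρ1
  refine ⟨⟨c / 2, r / 2, min (ρ / 8) ρ1, √M + 2 / c + K⟩, ⟨half_pos c0, half_pos r0,
    lt_min (by positivity) ρ10, by dsimp only; linarith, by positivity⟩,
    Typ.toJ (P := fun n J y => y ∈ An _ (β • J) (β ^ 2)) ((hA.and hK).mono'
      ((adm_offd (c / 2) (half_pos c0)).and Cov15.whp_symm) ?_)⟩
  filter_upwards [ev_le (8 / c) (half_pos r0), eventually_gt_atTop 0] with n hn n0 W y ⟨hW, hS⟩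
    ⟨h1, h2⟩
  have s0 : (0 : ℝ) < √n := by positivity
  have hS' : (β • W)ᵀ = β • W := by rw [transpose_smul, hS]
  obtain ⟨x, hx⟩ := (exStmt n _ (β ^ 2) hS').1 y
  obtain ⟨g1, g2⟩ := h1 x hx
  have g3 := good_nd hW (half_pos c0).le hβ1 g1
  rw [sub_half] at g3
  have c8 : 0 < 8 / c := by positivity
  obtain ⟨x1, a1, a2⟩ := ((exStmt n _ (β ^ 2) (symm_nd hW hS)).2 (c / 2) (r / 2 * √n) (th x)
    (half_pos c0) (good_sub g3 (by rw [sub_self, nrm_zero]; nlinarith))).2 x y (by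
      have := nrm_ymap hW hβ1 (β ^ 2) x
      rw [hx, ← nrm_neg, neg_sub] at this
      have t := div_le_div_of_nonneg_right this (half_pos c0).le
      rw [show 2 / (c / 2) = 8 / c / 2 by ring] at t
      rw [sub_self, nrm_zero]; linarith)
  refine ⟨x1, a1, good_sub g3 (by dsimp only; linarith), fun v hv => ⟨fun x' b1 b2 => ?_,
    fun u => ?_⟩⟩
  · dsimp only at hv b2 ⊢
    obtain ⟨E1, E2⟩ := (exStmt n _ (β ^ 2) hS').2 c (r * √n) (th x) c0 g1
    have v1 : nrm v ≤ ρ / 8 * √n := hv.trans (by gcongr)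
    obtain ⟨x2, d1, d2⟩ := E2 x (y + v) (by
      rw [sub_self, nrm_zero, zero_add, hx, add_sub_cancel_left, div_lt_iff₀ c0]
      nlinarith)
    have d3 := Real.le_sqrt_of_sq_le (g2 v x2 (v1.trans (by nlinarith)) d1 d2.le)
    have d4 := E1 x2 x' d2.le (by
      have := nrm_add_le (th x' - th x1) (th x1 - th x)
      rw [sub_add_sub_cancel] at this; linarith)
    have d5 := nrm_ymap hW hβ1 (β ^ 2) x'
    rw [b1, ← d1] at d5
    have d6 : nrm (th x2 - th x') ≤ 2 / c := by rw [le_div_iff₀ c0]; linarith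
    have d7 := nrm_add_le (mag (ising (β • W) (y + v)) - th x2) (th x2 - th x')
    rw [sub_add_sub_cancel] at d7
    rw [hW.mag]; linarith
  · rw [hW.covM]
    exact (h2 v (hv.trans (by dsimp only; gcongr)) u).trans (mul_le_mul_of_nonneg_right
      (le_add_of_nonneg_left (by positivity)) (Eig.dot_self_nonneg u))

end Crest.Agent.T157.Z

end
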