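import Crest.Agent.T157.ZDef_73
import Crest.Agent.T157.TapEx_80

/-!
# Row 157, part B, package (Z) (helper66): the TAP branch (`Z.BrStmt`)
-/

set_option autoImplicit false

noncomputable section

namespace Crest.Agent.T157.Z

open Matrix Filter Set Topology
open Crest.Agent.T157.E Crest.Agent.T157.Eig Crest.Agent.T157.Tap
open Crest.Agent.T157.Conc (en ELip)

namespace Br66

variable {n : ℕ} {P : Pm} {J : Mx n} {b : ℝ}

lemma nrm_zero : nrm (0 : V n) = 0 := nrm_eq_zero.2 rfl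
lemma nrm_comm (u v : V n) : nrm (u - v) = nrm (v - u) := by rw [← nrm_neg, neg_sub]
lemma nrm_tri (u v w : V n) : nrm (u - w) ≤ nrm (u - v) + nrm (v - w) := by
  rw [← sub_add_sub_cancel u v w]; exact nrm_add_le _ _
lemma en_eq (u : V n) : en u = nrm u := by simp [en, nrm, dotProduct, sq]

lemma good_mono {c r r' : ℝ} {p q : V n} (h : GoodB J b c r p) (e : r' + nrm (q - p) ≤ r) :
    GoodB J b c r' q := fun p' h1 h2 => h p' h1 (by linarith [nrm_tri p' q p])

/-- a Fréchet derivative from the derivatives along lines -/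
lemma fd_of_line {f : V n → V n} {M : Mx n} {x : V n} (hf : DifferentiableAt ℝ f x)
    (h : ∀ v, HasDerivAt (fun s : ℝ => f (x + s • v)) (M *ᵥ v) 0) :
    HasFDerivAt f (LinearMap.toContinuousLinearMap (toLin' M)) x := by
  convert hf.hasFDerivAt using 1
  ext1 v
  have h1 : HasFDerivAt f (fderiv ℝ f x) (x + (0 : ℝ) • v) := by simpa using hf.hasFDerivAt
  exact (h v).unique (h1.comp_hasDerivAt 0 (Ex80.hasDerivAt_line x v 0))

lemma diff_th : Differentiable ℝ (th : V n → V n) := differentiable_pi.2 fun i x =>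
  (hasDerivAt_tanh' _).differentiableAt.comp x (differentiableAt_apply (𝕜 := ℝ) i x)

lemma fd_th (x : V n) : HasFDerivAt (th : V n → V n)
    (LinearMap.toContinuousLinearMap (toLin' (diagonal fun i => dd (th x) i * dd (th x) i))) x :=
  fd_of_line (diff_th x) fun v => (hasDerivAt_th (Ex80.hasDerivAt_line x v 0)).congr_deriv <| by
    funext i; rw [mulVec_diagonal, (cb_th _).dd_mul, zero_smul, add_zero]

lemma diff_F (J : Mx n) (b : ℝ) :
    Differentiable ℝ fun p : V n => J *ᵥ p - (b * avg (DD p)) • p := differentiable_pi.2 fun i => by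
  simp only [mulVec, dotProduct, avg, DD, Pi.sub_apply, Pi.smul_apply, smul_eq_mul]
  fun_prop

lemma Ymap_eq (J : Mx n) (b : ℝ) (x : V n) :
    Ymap J b x = x - (J *ᵥ th x - (b * avg (DD (th x))) • th x) := by rw [Ymap]; abel

lemma fd_Y (J : Mx n) (b : ℝ) (x : V n) : HasFDerivAt (Ymap J b) (LinearMap.toContinuousLinearMap
    (toLin' (1 - B1 J b (th x) * diagonal fun i => dd (th x) i * dd (th x) i))) x := by
  refine fd_of_line ?_ fun v => ?_
  · rw [funext (Ymap_eq J b)]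
    exact differentiableAt_id.sub (((diff_F J b).comp diff_th) x)
  · simpa using hasDerivAt_Ymap J 0 (b := fun _ => b) (t := fun _ => 0) (hasDerivAt_const _ b)
      (hasDerivAt_const (0 : ℝ) (0 : ℝ)) (Ex80.hasDerivAt_line x v 0)

section br
variable (hP : P.Ok) (hn : 0 < √(n : ℝ)) (hM : 4 * P.M ≤ P.R * √n) (hJ : Jᵀ = J)
include hP hn

include hJ in
lemma ex {y0 x0 y : V n} (h : Anc P J b y0 x0) (hy : nrm (y - y0) ≤ P.ρ * √n) :
    ∃ x, Sol P J b y x ∧ nrm (th x - th x0) ≤ P.R * √n / 2 := by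
  obtain ⟨hc, hR, -, h4, -⟩ := hP
  have := mul_pos hR hn
  obtain ⟨x, h1, h2⟩ := ((exStmt n J b hJ).2 P.c (P.R * √n / 2) (th x0) hc
    (good_mono h.2.1 (by rw [sub_self, nrm_zero]; linarith))).2 x0 y (by
      rw [sub_self, nrm_zero, zero_add, h.1, div_lt_iff₀ hc]
      nlinarith [mul_pos hc this, mul_le_mul_of_nonneg_right h4 hn.le])
  exact ⟨x, ⟨h1, y0, x0, h, hy, h2.le⟩, h2.le⟩

lemma acc {y x : V n} (h : Sol P J b y x) : nrm (mag (ising J y) - th x) ≤ P.M ∧
    GoodB J b P.c (P.R * √n / 2) (th x) ∧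
    ∀ u : V n, u ⬝ᵥ covM (ising J y) *ᵥ u ≤ P.M * (u ⬝ᵥ u) := by
  obtain ⟨h1, y0, x0, ha, hy, hx⟩ := h
  have := mul_pos hP.2.1 hn
  have h2 := ha.2.2 (y - y0) hy
  rw [add_sub_cancel] at h2
  exact ⟨h2.1 x h1 (by linarith), good_mono ha.2.1 (by linarith), h2.2⟩

include hM hJ

lemma uniq {y x x' : V n} (h : Sol P J b y x) (h' : Sol P J b y x') : x = x' := by
  obtain ⟨h1, h2, -⟩ := acc hP hn h
  have h3 := (acc hP hn h').1
  have := mul_pos hP.2.1 hn
  have h4 := ((exStmt n J b hJ).2 _ _ _ hP.1 h2).1 x x' (by rw [sub_self, nrm_zero]; linarith)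
    (by linarith [nrm_tri (th x') (mag (ising J y)) (th x), nrm_comm (th x') (mag (ising J y))])
  rw [h.1, h'.1, sub_self, nrm_zero] at h4
  have h5 : th x = th x' := sub_eq_zero.1 (nrm_eq_zero.1
    ((nonpos_of_mul_nonpos_right h4 hP.1).antisymm (nrm_nonneg _)))
  rw [← Ex80.ath_th x, h5, Ex80.ath_th]

lemma near {y0 x0 y : V n} (h : Anc P J b y0 x0) (hy : nrm (y - y0) ≤ P.ρ * √n) :
    Sol P J b y (xs P J b y) ∧ nrm (pp P J b y - th x0) ≤ P.R * √n / 2 := by
  obtain ⟨x, h1, h2⟩ := ex hP hn hJ h hy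
  have h3 : Sol P J b y (xs P J b y) := Classical.epsilon_spec ⟨x, h1⟩
  exact ⟨h3, by rwa [pp, uniq hP hn hM hJ h3 h1]⟩

lemma sol {y : V n} (hy : y ∈ NB P J b 1) : Sol P J b y (xs P J b y) := by
  obtain ⟨y0, ⟨x0, h⟩, h1⟩ := hy
  exact (near hP hn hM hJ h (by rwa [one_mul] at h1)).1

lemma lip {y0 x0 y y' : V n} (h : Anc P J b y0 x0) (hy : nrm (y - y0) ≤ P.ρ * √n)
    (hy' : nrm (y' - y0) ≤ P.ρ * √n) : P.c * nrm (pp P J b y - pp P J b y') ≤ nrm (y - y') := by
  obtain ⟨h1, h2⟩ := near hP hn hM hJ h hy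
  obtain ⟨h3, h4⟩ := near hP hn hM hJ h hy'
  have := mul_pos hP.2.1 hn
  have h5 := ((exStmt n J b hJ).2 _ _ _ hP.1 h.2.1).1 _ _ (h2.trans (by linarith))
    (h4.trans (by linarith))
  rwa [h1.1, h3.1] at h5

omit hM hJ in
lemma pos {y : V n} (h : Sol P J b y (xs P J b y)) :
    Pos P.c (NN (B1 J b (pp P J b y)) (dd (pp P J b y))) :=
  ((acc hP hn h).2.1 _ (cb_th _) (by
    rw [sub_self, nrm_zero]; exact (half_pos (mul_pos hP.2.1 hn)).le)).1

lemma der {y : V n} (hy : y ∈ NB P J b (1 / 2)) :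
    HasFDerivAt (pp P J b) (LinearMap.toContinuousLinearMap (toLin' (Gp P J b y))) y := by
  obtain ⟨y0, ⟨x0, h⟩, h1⟩ := hy
  have hρ := mul_pos hP.2.2.1 hn
  have cn : Tendsto (fun y' => nrm (y' - y)) (𝓝 y) (𝓝 0) :=
    (continuous_nrm.comp (continuous_id.sub continuous_const)).tendsto' y 0 (by simp)
  have h2 : nrm (y - y0) ≤ P.ρ * √n := by linarith
  have ev : ∀ᶠ y' in 𝓝 y, nrm (y' - y0) ≤ P.ρ * √n :=
    (cn.eventually_lt_const (half_pos hρ)).mono fun y' e => by linarith [nrm_tri y' y y0]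
  have eY : ∀ᶠ y' in 𝓝 y, Ymap J b (xs P J b y') = y' :=
    ev.mono fun y' e => (near hP hn hM hJ h e).1.1
  have cp : ContinuousAt (pp P J b) y := continuousAt_pi.2 fun i => by
    refine tendsto_iff_norm_sub_tendsto_zero.2 (squeeze_zero' (.of_forall fun _ => norm_nonneg _)
      (ev.mono fun y' e => ?_) (by simpa using cn.div_const P.c))
    rw [le_div_iff₀ hP.1, mul_comm]
    exact (mul_le_mul_of_nonneg_left (abs_apply_le_nrm (pp P J b y' - pp P J b y) i) hP.1.le).trans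
      (lip hP hn hM hJ h e h2)
  have cx : ContinuousAt (xs P J b) y :=
    (continuousAt_id.add ((diff_F J b).continuous.continuousAt.comp cp)).congr
      (eY.mono fun y' e => (eq_add_of_sub_eq ((Ymap_eq J b _).symm.trans e)).symm)
  have hu := (pos hP hn (near hP hn hM hJ h h2).1).isUnit_det hP.1
  have h3 := HasFDerivAt.of_local_left_inverse (f' := (toLin'OfInv (RR_mul_sub hu)
    (sub_mul_RR hu)).toContinuousLinearEquiv) cx (fd_Y J b _) eY
  refine ((fd_th _).comp y h3).congr_fderiv ?_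
  ext1 v
  rw [Gp, GG_eq hu]
  exact mulVec_mulVec v (diagonal _) (RR _ _)

end br

/-- one bump -/
def bump (a : ℝ) (y y0 : V n) : ℝ := max 0 (min 1 (2 - 4 * nrm (y - y0) / a))

lemma bump_le (a : ℝ) (y y0 : V n) : bump a y y0 ≤ 1 := max_le zero_le_one (min_le_left _ _)
lemma chi_nn (y : V n) : 0 ≤ chi P J b y := Real.iSup_nonneg fun _ => le_max_left _ _
lemma chi_le (y : V n) : chi P J b y ≤ 1 := Real.iSup_le (fun _ => bump_le _ _ _) zero_le_one
lemma le_chi (y : V n) (y0 : An P J b) : bump (P.ρ * √n) y y0 ≤ chi P J b y :=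
  le_ciSup (f := fun y0 : An P J b => bump (P.ρ * √n) y y0)
    ⟨1, by rintro _ ⟨y0, rfl⟩; exact bump_le _ _ _⟩ y0

lemma chi_lip (h : 0 < P.ρ * √n) (y y' : V n) :
    chi P J b y ≤ chi P J b y' + 4 / (P.ρ * √n) * nrm (y - y') := by
  have h0 : 0 ≤ 4 / (P.ρ * √n) * nrm (y - y') := mul_nonneg (by positivity) (nrm_nonneg _)
  refine Real.iSup_le (fun y0 => le_trans ?_ (add_le_add_left (le_chi y' y0) _))
    (add_nonneg (chi_nn _) h0)
  have h1 := mul_le_mul_of_nonneg_left (nrm_tri y' y y0) (show 0 ≤ 4 / (P.ρ * √n) by positivity)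
  rw [nrm_comm y' y] at h1
  rw [bump, mul_div_right_comm, mul_div_right_comm, ← max_add_add_right, ← min_add_add_right]
  exact max_le_max (by linarith) (min_le_min (by linarith) (by linarith))

end Br66

open Br66 in
/-- **task 916** -/
theorem brStmt : BrStmt := fun P hP b _ => by
  have t : Tendsto (fun n : ℕ => P.R * √(n : ℝ)) atTop atTop :=
    (Real.tendsto_sqrt_atTop.comp tendsto_natCast_atTop_atTop).const_mul_atTop hP.2.1
  filter_upwards [t.eventually_ge_atTop (4 * P.M), eventually_gt_atTop 0] with n hM n0 J hJ _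
  have hn : 0 < √(n : ℝ) := by positivity
  have hρ := mul_pos hP.2.2.1 hn
  refine ⟨fun y hy => ⟨sol hP hn hM hJ hy, acc hP hn (sol hP hn hM hJ hy)⟩,
    fun _ _ _ => uniq hP hn hM hJ, fun _ ⟨_, h⟩ _ _ => lip hP hn hM hJ h, fun _ => der hP hn hM hJ,
    fun y hy => ⟨GG_symm (B1_symm hJ _ _) _,
      opn_GG_le (pos hP hn (sol hP hn hM hJ hy)) hP.1 (ub_dd _).abs_le⟩,
    fun y => ⟨chi_nn y, chi_le y⟩, fun y hy => ?_, fun y ⟨y0, h0, h⟩ => ?_, fun y y' => ?_⟩
  · by_contra h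
    refine hy ((Real.iSup_le (fun y0 => max_le le_rfl ((min_le_right _ _).trans ?_)) le_rfl).antisymm
      (chi_nn y))
    have := not_le.1 fun e => h ⟨y0, y0.2, e⟩
    rw [sub_nonpos, le_div_iff₀ hρ]; linarith
  · refine (chi_le y).antisymm (le_trans (le_max_of_le_right (le_min le_rfl ?_)) (le_chi y ⟨y0, h0⟩))
    rw [le_sub_comm, div_le_iff₀ hρ]; linarith
  · rw [en_eq, abs_le]
    have := chi_lip (J := J) (b := b) hρ y' y
    rw [nrm_comm] at this
    exact ⟨by linarith, by linarith [chi_lip (J := J) (b := b) hρ y y']⟩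

end Crest.Agent.T157.Z

end
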