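import Crest.Agent.T157.ZFw_73
import Crest.Agent.T157.KRv_47
import Crest.Agent.T157.LmDefB_76

/-!
# Row 157, part B, kernel route (helper73): the collective observables have limits

Covariance, and exact back-propagation along the chain inside the approximable words.
-/

set_option autoImplicit false

noncomputable section

namespace Crest.Agent.T157.Zf

open MeasureTheory ProbabilityTheory Matrix Filter Set
open Crest.Agent.T157.E Crest.Agent.T157.Eig Crest.Agent.T157.Tap Crest.Agent.T157.Z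
open Crest.Agent.T157.Rec (grad)
open Crest.Agent.T157.Pl (cmul)

variable {n m : ℕ}

/-! ### scalar regularity -/

/-- covariant, bounded, Lipschitz, differentiable in the field -/
structure Sc (f : Sf) (C : ℝ) : Prop where
  pos : 0 ≤ C
  gauge : ∀ n (J : Mx n) s x y, Jᵀ = J → f n (Lm.cj s J) (cmul s x) (sv s * y) = f n J x y
  perm : ∀ n (J : Mx n) (e : Equiv.Perm (Fin n)) x y, Jᵀ = J →
    f n (J.submatrix e e) (x ∘ e) (y ∘ e) = f n J x y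
  lip : ∀ n (J J' : Mx n) x y y', Jᵀ = J → J'ᵀ = J' →
    |f n J x y - f n J' x y'| ≤ C * (nrm (y - y') + √n * opn (J - J'))
  grad : ∀ n (J : Mx n) x y, Jᵀ = J →
    grad (fun s => f n J s y) x ⬝ᵥ grad (fun s => f n J s y) x ≤ C ^ 2
  sup : ∀ n (J : Mx n) x y, Jᵀ = J → |f n J x y| ≤ C * √n
  diff : ∀ n (J : Mx n) x, Jᵀ = J → Differentiable ℝ (f n J x)

/-- normalised gradient in the spin -/
def ga (f : Sf) : Vf := fun n J s y => √(n : ℝ) • grad (fun s => f n J s y) s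
/-- normalised gradient in the field -/
def gb (f : Sf) : Vf := fun n J s y k => √(n : ℝ) * fderiv ℝ (f n J s) y (Pi.single k 1)
/-- normalised gradient of a function of the spin -/
def gt (Φ : Lm.Of) : Vf := fun n J s _ => √(n : ℝ) • grad (Φ n J) s

/-! ### Gaussian rows -/

section rows

variable {ι : Type} [Fintype ι]

/-- the spin is seen only through noisy rows -/
def Ad (c d : ι → ℝ) : Prop := ∀ l, c l ≠ 0 → d l ≠ 0
/-- the sufficient statistic -/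
def hr (c d : ι → ℝ) (u : ι → V n) : V n := ∑ l, (c l / d l ^ 2) • u l
/-- the signal to noise ratio -/
def lm (c d : ι → ℝ) : ℝ := ∑ l, c l ^ 2 / d l ^ 2
/-- mean over the rows with a local multiplier -/
def Gm (c d : ι → ℝ) (φ : ℝ → ℝ) (Y : Cube n → (ι → V n) → V n) (s : Cube n) : V n :=
  fun k => ∫ u, φ (sv s k * hr c d u k) * Y s u k ∂(RL c d (sv s))
/-- the multiplier of the derivative -/
def ph1 (l t : ℝ) : ℝ := Kv.rho l (t - l)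
/-- the likelihood ratio of a flip -/
def ph2 (t : ℝ) : ℝ := Real.exp (-2 * t)
/-- mean under `N (l, l)` -/
def gl (l : ℝ) (f : ℝ → ℝ) : ℝ := ∫ z, f (l + √l * z) ∂gaussianReal 0 1
/-- square integrable under `N (l, l)` -/
def G2 (l : ℝ) (φ : ℝ → ℝ) : Prop :=
  Measurable φ ∧ Integrable (fun z => φ (l + √l * z) ^ 2) (gaussianReal 0 1)
/-- bounded and Lipschitz -/
def BLp (Λ : ℝ) (φ : ℝ → ℝ) : Prop := (∀ t, |φ t| ≤ Λ) ∧ ∀ t t', |φ t - φ t'| ≤ Λ * |t - t'|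
/-- multipliers with all moments -/
structure Mu (l : ℝ) (φ : ℝ → ℝ) : Prop where
  g2 : G2 l φ
  cl : ∀ Λ ≥ (1 : ℝ), BLp (2 * Λ) (fun t => min (φ t) Λ) ∧ G2 l (fun t => min (φ t) Λ) ∧
    gl l (fun t => min (φ t) Λ ^ 2) ≤ gl l fun t => φ t ^ 2
  tail : ∀ p : ℕ, ∃ C : ℝ, ∀ Λ ≥ (1 : ℝ), gl l (fun t => (φ t - min (φ t) Λ) ^ 2) ≤ C / Λ ^ p

/-- measurable for symmetric couplings -/
def Ms {α : ℕ → Type} [∀ n, MeasurableSpace (α n)] (U : ∀ n, Mx n → (ι → V n) → α n) : Prop :=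
  ∀ n (J : Mx n), Jᵀ = J → Measurable (U n J)
/-- bounded in `ℓ²` for symmetric couplings -/
def Bn (U : Nt ι) : Prop := ∃ M : ℝ, ∀ n (J : Mx n), Jᵀ = J → ∀ a, nrm (U n J a) ≤ M * √n

end rows

/-! ### fields -/

/-- the field maps approximable words to approximable words -/
def Tr (β : ℝ) (F : Vf) : Prop := ∀ (ι : Type) [Fintype ι] (c d : ι → ℝ)
  (S : ∀ n, Mx n → (ι → V n) → Cube n) (Y : Nt ι), Ms S → Ms Y →
  Ap β c d (fun n J a => sv (S n J a)) → Ap β c d Y →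
  Ap β c d fun n J a => F n J (S n J a) (Y n J a)

/-- the same with extra rows -/
def Tr2 (β : ℝ) {κ : Type} (F : ∀ n, Mx n → Cube n → V n → (κ → V n) → V n) : Prop :=
  ∀ (ι : Type) [Fintype ι] (c d : ι → ℝ) (S : ∀ n, Mx n → (ι → V n) → Cube n) (Y : Nt ι)
    (U : κ → Nt ι), Ms S → Ms Y → (∀ l, Ms (U l)) → Ap β c d (fun n J a => sv (S n J a)) →
    Ap β c d Y → (∀ l, Ap β c d (U l)) →
    Ap β c d fun n J a => F n J (S n J a) (Y n J a) fun l => U l n J a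

/-- `B² = A - A² / 8` -/
def BB (J : Mx n) : Mx n := (√8)⁻¹ • Sq.rt ((8 : ℝ) • AA J - AA J * AA J)
/-- rows of a step: `s + w / √8`, `z` -/
def c1 : Fin 2 → ℝ := ![1, 0]
def d1 : Fin 2 → ℝ := ![(√8)⁻¹, 1]
/-- the field of the product law, read off the rows -/
def xu (J : Mx n) (y u z : V n) : V n := y + AA J *ᵥ u + BB J *ᵥ z
/-- mean of a field under the product law -/
def Sm (x y : V n) (a : Cube n → V n → V n) : V n := fun k => mean (ising 0 x) fun s => a s y k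
/-- rows of the base: `s + w / √8`, `z`, `s + w'`, labels -/
def cb (m : ℕ) : Fin 3 ⊕ Fin m → ℝ := Sum.elim ![1, 0, 1] 0
def db (m : ℕ) : Fin 3 ⊕ Fin m → ℝ := Sum.elim ![(√8)⁻¹, 1, 1] 1
/-- the rows `x`, `y`, `s + w'`, labels -/
def Tb (J : Mx n) (y : V n) (u : Fin 3 ⊕ Fin m → V n) : Fin 3 ⊕ Fin m → V n :=
  Sum.elim ![xu J y (u (.inl 0)) (u (.inl 1)), y, u (.inl 2)] fun l => u (.inr l)
/-- `E tanh (1 + Z)` -/
def kz : ℝ := ∫ z, Real.tanh (1 + z) ∂gaussianReal 0 1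
def Xb (X : Nt (Fin 2 ⊕ Fin m)) : Nt (Fin 3 ⊕ Fin m) :=
  fun n J a => X n J (Sum.elim ![a (.inl 0), a (.inl 1)] fun l => a (.inr l))
/-- an unbiased bounded estimator of `s - th x` -/
def Ub (m : ℕ) : Nt (Fin 3 ⊕ Fin m) := fun _ _ a => kz⁻¹ • th (a (.inl 2)) - th (a (.inl 0))
def gx (X : Nt (Fin 2 ⊕ Fin m)) : Nt (Fin 3 ⊕ Fin m) := fun n J a =>
  adj (.inl 0) (Xb X) (Ub m) n J a - DD (th (a (.inl 0))) * Xb X n J a
/-- the integrand of `ga (Ps0 X)` -/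
def g0a (X : Nt (Fin 2 ⊕ Fin m)) : Nt (Fin 3 ⊕ Fin m) := fun n J a =>
  AA J *ᵥ gx X n J a + kz⁻¹ • (DD (th (a (.inl 2))) * Xb X n J a)
/-- the integrand of `gb (Ps0 X)` -/
def g0b (X : Nt (Fin 2 ⊕ Fin m)) : Nt (Fin 3 ⊕ Fin m) := fun n J a =>
  gx X n J a + adj (.inl 1) (Xb X) (Ub m) n J a

/-! ### generic leaves -/

/-- the exact gradient through Gaussian rows -/
def GsStmt : Prop := ∀ (ι : Type) [Fintype ι] [DecidableEq ι] (c d : ι → ℝ), Ad c d →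
  ∀ (n : ℕ) (G : Cube n → (ι → V n) → ℝ) (L : ℝ), (∀ s, Differentiable ℝ (G s)) →
  (∀ s u u', |G s u - G s u'| ≤ L * nA (u - u')) → ∀ s,
  grad (fun s => ∫ u, G s u ∂(RL c d (sv s))) s =
    Gm c d (ph1 (lm c d))
      (fun s u k => ∑ l, c l * fderiv ℝ (G s) u (Pi.single l (Pi.single k 1))) s +
    Gm c d ph2 (fun s u => grad (fun s => G s u) s) s

/-- errors of the means over the rows -/
structure GmStmt : Prop where
  err : ∀ (ι : Type) [Fintype ι] (c d : ι → ℝ), Ad c d → ∀ (n : ℕ) (φ φ' : ℝ → ℝ)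
    (Y Y' : Cube n → (ι → V n) → V n) s, G2 (lm c d) φ → G2 (lm c d) φ' → Measurable (Y s) →
    Measurable (Y' s) → Integrable (fun u => nrm (Y s u) ^ 2) (RL c d (sv s)) →
    Integrable (fun u => nrm (Y s u - Y' s u) ^ 2) (RL c d (sv s)) →
    nrm (Gm c d φ Y s - Gm c d φ' Y' s) ^ 2 ≤
      2 * gl (lm c d) (fun t => (φ t - φ' t) ^ 2) * ∫ u, nrm (Y s u) ^ 2 ∂(RL c d (sv s)) +
      2 * gl (lm c d) (fun t => φ' t ^ 2) * ∫ u, nrm (Y s u - Y' s u) ^ 2 ∂(RL c d (sv s))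
  meas : ∀ (ι : Type) [Fintype ι] (c d : ι → ℝ) (n : ℕ) (φ : ℝ → ℝ)
    (Y : V n → Cube n → (ι → V n) → V n) s, Measurable φ →
    Measurable (fun p : V n × (ι → V n) => Y p.1 s p.2) → Measurable fun y => Gm c d φ (Y y) s

/-- the multipliers -/
def MuStmt : Prop := ∀ l ≥ (0 : ℝ), Mu l (ph1 l) ∧ Mu l ph2 ∧ Mu l fun _ => 1

/-- label means of approximable words -/
def AvStmt : Prop := ∀ (ι κ : Type) [Fintype ι] [Fintype κ], ∀ β ∈ Icc (0 : ℝ) 1,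
  ∀ (c d : ι → ℝ) (U : Nt (ι ⊕ κ)), Bn U → Ms U → Ap β (Sum.elim c 0) (Sum.elim d 1) U →
  Ap β c d fun n J a i => ∫ w, U n J (Sum.elim a fun l j => w (l, j)) i ∂gv (κ × Fin n)

/-- the steps preserve the approximable words -/
structure TrStmt : Prop where
  xu : ∀ (ι : Type) [Fintype ι], ∀ β ∈ Icc (0 : ℝ) 1, ∀ (c d : ι → ℝ) (Y U Z : Nt ι),
    Ap β c d Y → Ap β c d U → Ap β c d Z →
    Ap β c d (fun n J a => AA J *ᵥ U n J a) ∧
      Ap β c d fun n J a => xu J (Y n J a) (U n J a) (Z n J a)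
  sm : ∀ (ι : Type) [Fintype ι], ∀ β ∈ Icc (0 : ℝ) 1, ∀ (c d : ι → ℝ) (X Y : Nt ι) (F : Vf)
    (M : ℝ), (∀ n (J : Mx n) s, Jᵀ = J → Measurable (F n J s) ∧ ∀ y, nrm (F n J s y) ≤ M * √n) →
    Tr β F → Ms X → Ms Y → Ap β c d X → Ap β c d Y →
    Ap β c d fun n J a => Sm (X n J a) (Y n J a) (F n J)
  gm : ∀ (κ : Type) [Fintype κ], ∀ β ∈ Icc (0 : ℝ) 1, ∀ (c d : κ → ℝ) (φ : ℝ → ℝ) (M : ℝ)
    (F : ∀ n, Mx n → Cube n → V n → (κ → V n) → V n), Ad c d → Mu (lm c d) φ →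
    (∀ n (J : Mx n) s, Jᵀ = J → (∀ y u, nrm (F n J s y u) ≤ M * √n) ∧
      Measurable fun p : V n × (κ → V n) => F n J s p.1 p.2) → Tr2 β F →
    Tr β fun n J s y => Gm c d φ (fun s u => F n J s y u) s
  congr : ∀ β ∈ Icc (0 : ℝ) 1, ∀ F G : Vf, Tr β F → (∀ n (J : Mx n), Jᵀ = J → G n J = F n J) →
    Tr β G
  net : ∀ (κ : Type) [Fintype κ] (ι : Type) [Fintype ι], ∀ β ∈ Icc (0 : ℝ) 1, ∀ (c d : ι → ℝ)
    (X : Nt κ) (U : κ → Nt ι), Nw False X → (∀ l, Ap β c d (U l)) →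
    Ap β c d fun n J a => X n J fun l => U l n J a

/-- back-propagation at approximable rows -/
def Bp2Stmt : Prop := ∀ (κ : Type) [Fintype κ] [DecidableEq κ] (ι : Type) [Fintype ι],
  ∀ β ∈ Icc (0 : ℝ) 1, ∀ (c d : ι → ℝ) (j : κ) (X : Nt κ) (W : κ → Nt ι), Nw True X →
  (∀ l, Ap β c d (W l)) → ∀ U : Nt ι, Ap β c d U → Ap β c d fun n J a k =>
    fderiv ℝ (fun b => U n J a ⬝ᵥ X n J b) (fun l => W l n J a) (Pi.single j (Pi.single k 1))

/-- the kernel: law of the field, product means -/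
structure KeStmt : Prop where
  op : ∀ (n : ℕ) (J : Mx n), Jᵀ = J → (AA J)ᵀ = AA J ∧ opn (AA J) ≤ 7 ∧ opn (BB J) ≤ 3
  law : ∀ (n : ℕ) (J : Mx n) s y, Jᵀ = J →
    (RL c1 d1 (sv s)).map (fun u => xu J y (u 0) (u 1)) = (gv (Fin n)).map (xr J s y)
  jen : ∀ (n : ℕ) (a b : Cube n → V n → V n) x y,
    nrm (Sm x y a - Sm x y b) ^ 2 ≤ mean (ising 0 x) fun s => nrm (a s y - b s y) ^ 2
  meas : ∀ (n : ℕ) (a : Cube n → V n → V n), (∀ s, Measurable (a s)) →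
    Measurable fun p : V n × V n => Sm p.1 p.2 a

/-! ### the chain -/

/-- scalar regularity along the chain -/
structure ScStmt : Prop where
  base : ∀ (m : ℕ) (X : Nt (Fin 2 ⊕ Fin m)), Nw True X → Bd X → ∃ C, Sc (Ps0 X) C
  step : ∀ f C, Sc f C → ∃ C', Sc (Ky f) C'
  add : ∀ f g C C', Sc f C → Sc g C' → Sc (fun n J s y => f n J s y + g n J s y) (C + C')
  zero : Sc (fun _ _ _ _ => 0) 0
  top : ∀ f C, Sc f C → ∀ r ≥ (0 : ℝ), ∃ B, ∀ n, Lm.Cov (Ew r f n) B ∧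
    ∀ (J : Mx n) x y, Jᵀ = J → |Ew r f n J x - Ew r f n J y| ≤ B * √n
  nrm : ∀ f C, Sc f C → ∀ n (J : Mx n) s, Jᵀ = J → Measurable (ga f n J s) ∧
    Measurable (gb f n J s) ∧ ∀ y, nrm (ga f n J s y) ≤ C * √n ∧ nrm (gb f n J s y) ≤ C * √n

/-- the exact recursion of the gradients -/
structure ExStmt : Prop where
  base : ∀ (m : ℕ) (X : Nt (Fin 2 ⊕ Fin m)), Nw True X → Bd X → ∃ C, ∀ n (J : Mx n) s y, Jᵀ = J →
    ga (Ps0 X) n J s y = Gm (cb m) (db m) (ph1 (lm (cb m) (db m)))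
      (fun _ u => g0a X n J (Tb J y u)) s ∧
    gb (Ps0 X) n J s y = Gm (cb m) (db m) (fun _ => 1) (fun _ u => g0b X n J (Tb J y u)) s ∧
    ∀ a, nrm (g0a X n J a) ≤ C * √n ∧ nrm (g0b X n J a) ≤ C * √n
  step : ∀ f C, Sc f C → ∀ n (J : Mx n) s y, Jᵀ = J →
    ga (Ky f) n J s y = Gm c1 d1 (ph1 (lm c1 d1)) (fun _ u => AA J *ᵥ
      (DD (th (xu J y (u 0) (u 1))) * Sm (xu J y (u 0) (u 1)) y (ga f n J))) s ∧
    gb (Ky f) n J s y = Gm c1 d1 (fun _ => 1) (fun _ u =>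
      DD (th (xu J y (u 0) (u 1))) * Sm (xu J y (u 0) (u 1)) y (ga f n J) +
        Sm (xu J y (u 0) (u 1)) y (gb f n J)) s
  top : ∀ f C, Sc f C → ∀ r ≥ (0 : ℝ), ∀ n (J : Mx n) s y, Jᵀ = J → gt (Ew r f) n J s y =
    Gm (fun _ : Unit => r) (fun _ => √r) (ph1 (lm (fun _ : Unit => r) fun _ => √r))
      (fun s u => r • gb f n J s (u ())) s +
    Gm (fun _ : Unit => r) (fun _ => √r) ph2 (fun s u => ga f n J s (u ())) s

/-- the exact gradients are approximable -/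
structure ChStmt : Prop where
  base : ∀ β ∈ Icc (0 : ℝ) 1, ∀ (m : ℕ) (X : Nt (Fin 2 ⊕ Fin m)), Nw True X → Bd X →
    Tr β (ga (Ps0 X)) ∧ Tr β (gb (Ps0 X))
  step : ∀ β ∈ Icc (0 : ℝ) 1, ∀ f C, Sc f C → Tr β (ga f) → Tr β (gb f) →
    Tr β (ga (Ky f)) ∧ Tr β (gb (Ky f))
  top : ∀ β ∈ Icc (0 : ℝ) 1, ∀ f C, Sc f C → ∀ r ≥ (0 : ℝ), Tr β (ga f) → Tr β (gb f) →
    Tr β (gt (Ew r f))

def FinStmt : Prop := ∀ β ∈ Icc (0 : ℝ) 1, ∀ (Φ : Lm.Of) (B : ℝ), (∀ n, Lm.Cov (Φ n) B) →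
  Tr β (gt Φ) → Lm.NetG β Φ

/-- **output** -/
def FOut : Prop := ∀ β : ℝ, 0 ≤ β → β < 1 → ∀ Φ ∈ FF, Lm.Lim β (Lm.Of.ob β Φ)

def TrGlue : Prop := SmpStmt → ThStmt → AvStmt → GmStmt → TrStmt
def Bp2Glue : Prop := TrStmt → Bp2Stmt
def ExGlue : Prop := GsStmt → KeStmt → ExStmt
def ChGlue : Prop := MuStmt → TrStmt → Bp2Stmt → KeStmt → ScStmt → ExStmt → ChStmt
def OutGlue : Prop := Lm.SeamStmt → ScStmt → TrStmt → ChStmt → FinStmt → FOut

end Crest.Agent.T157.Zf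

end
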