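import Crest.Agent.T157.ZMd_23

/-!
# Row 157, part B (Z): the response of the TAP point (GRAD), deterministic core (helper23)
-/

set_option autoImplicit false

noncomputable section

namespace Crest.Agent.T157.Md

open Matrix Set
open Crest.Agent.T157.E Crest.Agent.T157.Eig Crest.Agent.T157.Tap
open Crest.Agent.T157.Lp (cav)

lemma tanh_taylor (a b : ℝ) {C : ℝ} (hC : ∀ t ∈ uIcc a b, |Real.tanh a ^ 2 - Real.tanh t ^ 2| ≤ C) :
    |(1 - Real.tanh a ^ 2) * (b - a) - (Real.tanh b - Real.tanh a)| ≤ C * |b - a| := by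
  have := (convex_uIcc a b).norm_image_sub_le_of_norm_hasDerivWithin_le (C := C)
    (f := fun t => Real.tanh t - (1 - Real.tanh a ^ 2) * t)
    (f' := fun t => Real.tanh a ^ 2 - Real.tanh t ^ 2) (fun t _ => (((SE.hasDerivAt_tanh t).sub
      ((hasDerivAt_id t).const_mul (1 - Real.tanh a ^ 2))).congr_deriv (by ring)).hasDerivWithinAt)
    hC left_mem_uIcc right_mem_uIcc
  rw [Real.norm_eq_abs, Real.norm_eq_abs, abs_sub_comm] at this
  exact le_trans (le_of_eq (by congr 1; ring)) this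

lemma tanh_t1 (a b : ℝ) :
    |(1 - Real.tanh a ^ 2) * (b - a) - (Real.tanh b - Real.tanh a)| ≤ |b - a| := by
  simpa using tanh_taylor a b (C := 1) fun t _ => abs_le.2
    ⟨by linarith [SE.tanh_sq_le t, sq_nonneg (Real.tanh a)],
      by linarith [SE.tanh_sq_le a, sq_nonneg (Real.tanh t)]⟩

lemma tanh_t2 (a b : ℝ) :
    |(1 - Real.tanh a ^ 2) * (b - a) - (Real.tanh b - Real.tanh a)| ≤ 2 * (b - a) ^ 2 := by
  refine (tanh_taylor a b (C := 2 * |b - a|) fun t ht => ?_).trans_eq (by rw [← sq_abs]; ring)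
  rw [sq_sub_sq, abs_mul]
  refine mul_le_mul ((abs_add_le _ _).trans (by linarith [SE.abs_tanh_le a, SE.abs_tanh_le t]))
    ((SE.abs_tanh_sub_le _ _).trans ?_) (abs_nonneg _) zero_le_two
  rw [abs_sub_comm]; exact abs_sub_left_of_mem_uIcc ht

variable {n : ℕ} {J : Mx n} {b c r η : ℝ} {p p0 : V n}

/-- residual of the equation `v = e + B D v` (`D v = (D⁻¹ - B)⁻¹ e` is the response) -/
def rs (J : Mx n) (b : ℝ) (p e v : V n) : V n := v - e - B1 J b p *ᵥ (DD p * v)
/-- Richardson step -/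
def rich (J : Mx n) (b η : ℝ) (p e v : V n) : V n := v - η • rs J b p e v
/-- excess over the level `A` -/
def exc (A : ℝ) (v : V n) : ℝ := nrm fun i => max (|v i| - A) 0

lemma nrm_mul_le {d : V n} (h : ∀ i, |d i| ≤ 1) (v : V n) : nrm (d * v) ≤ nrm v :=
  Real.sqrt_le_sqrt (Finset.sum_le_sum fun i _ => by
    rw [← sq, ← sq, Pi.mul_apply, mul_pow]
    exact mul_le_of_le_one_left (sq_nonneg _) ((sq_le_one_iff_abs_le_one _).2 (h i)))

lemma abs_DD (hp : Cb p) (i : Fin n) : |DD p i| ≤ 1 := by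
  rw [abs_of_nonneg (hp.DD_nonneg i)]; exact DD_le p i

lemma Ymap_taylor (hb : b ∈ Icc (0 : ℝ) 1) (J : Mx n) (x x' : V n) :
    nrm (Ymap J b x' - Ymap J b x - (x' - x - B1 J b (th x) *ᵥ (th x' - th x))) ≤
      3 * nrm (th x' - th x) ^ 2 / √n := by
  rcases Nat.eq_zero_or_pos n with rfl | hn
  · simp [nrm]
  have hn' : (0 : ℝ) < n := by positivity
  have s0 : (0 : ℝ) < √n := by positivity
  set p := th x
  set q := th x'
  have e : Ymap J b x' - Ymap J b x - (x' - x - B1 J b p *ᵥ (q - p)) =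
      -((b / n * ((q - p) ⬝ᵥ (q - p))) • p + (b / n * ((p + q) ⬝ᵥ (q - p))) • (q - p)) := by
    rw [(cb_th x).B1_eq]
    simp only [Ymap, add_mulVec, sub_mulVec, smul_mulVec, one_mulVec, vecMulVec_mulVec,
      op_smul_eq_smul, mulVec_sub, Lp.G1.avg_DD_eq hn, sub_dotProduct, dotProduct_sub,
      add_dotProduct, dotProduct_comm q p]
    ext i
    simp only [Pi.add_apply, Pi.sub_apply, Pi.neg_apply, Pi.smul_apply, smul_eq_mul]
    field_simp; ring
  rw [e, nrm_neg]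
  refine (nrm_add_le _ _).trans ?_
  have b0 : 0 ≤ b / n := div_nonneg hb.1 hn'.le
  have b1 : b / n * √n ≤ 1 / √n := by
    rw [div_mul_eq_mul_div, div_le_div_iff₀ hn' s0, mul_assoc, Real.mul_self_sqrt hn'.le]
    exact mul_le_mul_of_nonneg_right hb.2 hn'.le
  have h1 := (abs_dot_le (p + q) (q - p)).trans (mul_le_mul_of_nonneg_right ((nrm_add_le p q).trans
    (add_le_add (cb_th x).nrm_le (cb_th x').nrm_le)) (nrm_nonneg _))
  rw [nrm_smul, nrm_smul, abs_mul, abs_mul, abs_of_nonneg b0, ← nrm_sq, abs_sq]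
  have d0 := nrm_nonneg (q - p)
  calc _ ≤ b / n * nrm (q - p) ^ 2 * √n + b / n * ((√n + √n) * nrm (q - p)) * nrm (q - p) := by
        gcongr; exact (cb_th x).nrm_le
    _ = 3 * nrm (q - p) ^ 2 * (b / n * √n) := by ring
    _ ≤ 3 * nrm (q - p) ^ 2 * (1 / √n) := by gcongr
    _ = _ := by ring

/-- the first-order identity, for any `v` -/
theorem grad_id (hS : Jᵀ = J) (hb : b ∈ Icc (0 : ℝ) 1) (x x' e v : V n) {A : ℝ} (hA : 0 ≤ A) :
    |e ⬝ᵥ (th x' - th x) - (DD (th x) * v) ⬝ᵥ (Ymap J b x' - Ymap J b x)| ≤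
      nrm (rs J b (th x) e v) * nrm (th x' - th x) + exc A v * nrm (x' - x) +
        2 * A * nrm (x' - x) ^ 2 + nrm v * (3 * nrm (th x' - th x) ^ 2 / √n) := by
  set R := Ymap J b x' - Ymap J b x - (x' - x - B1 J b (th x) *ᵥ (th x' - th x)) with hR
  have e1 : e ⬝ᵥ (th x' - th x) - (DD (th x) * v) ⬝ᵥ (Ymap J b x' - Ymap J b x) =
      -(rs J b (th x) e v ⬝ᵥ (th x' - th x) + v ⬝ᵥ (DD (th x) * (x' - x) - (th x' - th x)) +
        (DD (th x) * v) ⬝ᵥ R) := by
    have e2 : (DD (th x) * v) ⬝ᵥ (x' - x) = v ⬝ᵥ (DD (th x) * (x' - x)) :=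
      Finset.sum_congr rfl fun i _ => by simp only [Pi.mul_apply]; ring
    have e3 : (DD (th x) * v) ⬝ᵥ B1 J b (th x) *ᵥ (th x' - th x) =
        (B1 J b (th x) *ᵥ (DD (th x) * v)) ⬝ᵥ (th x' - th x) := by
      rw [dotProduct_mulVec, ← mulVec_transpose, B1_symm hS]
    rw [hR, dotProduct_sub _ (Ymap J b x' - Ymap J b x), dotProduct_sub _ (x' - x), e2, e3, rs,
      sub_dotProduct, sub_dotProduct, dotProduct_sub v (DD (th x) * (x' - x))]
    ring
  have h1 := abs_dot_le (rs J b (th x) e v) (th x' - th x)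
  have h2 := (abs_dot_le (DD (th x) * v) R).trans (mul_le_mul (nrm_mul_le (abs_DD (cb_th x)) v)
    (Ymap_taylor hb J x x') (nrm_nonneg _) (nrm_nonneg _))
  have h3 : |v ⬝ᵥ (DD (th x) * (x' - x) - (th x' - th x))| ≤
      (fun i => max (|v i| - A) 0) ⬝ᵥ (fun i => |(x' - x) i|) + 2 * A * ((x' - x) ⬝ᵥ (x' - x)) := by
    rw [dotProduct, dotProduct, dotProduct, Finset.mul_sum, ← Finset.sum_add_distrib]
    refine (Finset.abs_sum_le_sum_abs _ _).trans (Finset.sum_le_sum fun i _ => ?_)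
    have t1 := mul_le_mul_of_nonneg_left (tanh_t1 (x i) (x' i)) (le_max_right (|v i| - A) 0)
    have t2 := mul_le_mul_of_nonneg_left (tanh_t2 (x i) (x' i)) hA
    have t3 := mul_le_mul_of_nonneg_right (show |v i| ≤ max (|v i| - A) 0 + A by
      linarith [le_max_left (|v i| - A) 0]) (abs_nonneg ((1 - Real.tanh (x i) ^ 2) * (x' i - x i) -
        (Real.tanh (x' i) - Real.tanh (x i))))
    rw [abs_mul]
    simp only [Pi.sub_apply, Pi.mul_apply, DD, th]
    linarith
  have h4 := (le_abs_self _).trans (abs_dot_le (fun i => max (|v i| - A) 0) fun i => |(x' - x) i|)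
  rw [show nrm (fun i => |(x' - x) i|) = nrm (x' - x) by simp [nrm, dotProduct]] at h4
  rw [e1, abs_neg, nrm_sq (x' - x), exc]
  linarith [abs_add_three (rs J b (th x) e v ⬝ᵥ (th x' - th x))
    (v ⬝ᵥ (DD (th x) * (x' - x) - (th x' - th x))) ((DD (th x) * v) ⬝ᵥ R)]

/-- **(GRAD)** on a good ball -/
theorem grad_ball (hS : Jᵀ = J) (hJ : opn J ≤ 3) (hb : b ∈ Icc (0 : ℝ) 1) (hc : c ∈ Ioc (0 : ℝ) 1)
    (hG : GoodB J b c r p0) {x x' : V n} (hx : nrm (th x - p0) ≤ r) (hx' : nrm (th x' - p0) ≤ r)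
    (e v : V n) {A : ℝ} (hA : 0 ≤ A) :
    |e ⬝ᵥ (th x' - th x) - (DD (th x) * v) ⬝ᵥ (Ymap J b x' - Ymap J b x)| ≤
      (nrm (rs J b (th x) e v) + 7 * exc A v) * (nrm (Ymap J b x' - Ymap J b x) / c) +
        (98 * A + 3 * nrm v / √n) * (nrm (Ymap J b x' - Ymap J b x) / c) ^ 2 := by
  have h1 := (((exStmt n J b hS).2 c r p0 hc.1 hG).1 x' x hx' hx)
  have h2 := Lp.G1.cav_lip hJ hb (Ymap J b x') (Ymap J b x) (cb_th x') (cb_th x)
  rw [Lp.G1.cav_Ymap, Lp.G1.cav_Ymap] at h2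
  set Y := nrm (Ymap J b x' - Ymap J b x)
  have h3 : nrm (th x' - th x) ≤ Y / c := by rw [le_div_iff₀ hc.1]; linarith
  have h4 : nrm (x' - x) ≤ 7 * (Y / c) := by linarith [le_div_self (nrm_nonneg _ : 0 ≤ Y) hc.1 hc.2]
  have x0 : 0 ≤ exc A v := nrm_nonneg _
  have v0 := nrm_nonneg v
  have r0 := nrm_nonneg (rs J b (th x) e v)
  have d0 := nrm_nonneg (th x' - th x)
  have d1 := nrm_nonneg (x' - x)
  calc _ ≤ _ := grad_id hS hb x x' e v hA
    _ ≤ nrm (rs J b (th x) e v) * (Y / c) + exc A v * (7 * (Y / c)) +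
        2 * A * (7 * (Y / c)) ^ 2 + nrm v * (3 * (Y / c) ^ 2 / √n) := by gcongr
    _ = _ := by ring

lemma contr {N : Mx n} (hN : Nᵀ = N) (hP : Pos c N) (h7 : opn N ≤ 7) (hc : c ≤ 1) (h0 : 0 ≤ η)
    (hη : η ≤ 1 / 7) (u : V n) : nrm (u - η • N *ᵥ u) ≤ (1 - η * c) * nrm u := by
  have h1 : opn (1 - η • N) ≤ 1 - η * c := by
    refine opn_le_of_quad (herm_iff.2 (by simp [transpose_sub, transpose_smul, hN]))
      (by nlinarith) fun v => ?_
    have v0 := Eig.dot_self_nonneg v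
    have a1 := mul_le_mul_of_nonneg_left (hP v) h0
    have a2 : v ⬝ᵥ N *ᵥ v ≤ 7 * (v ⬝ᵥ v) := (le_abs_self _).trans ((abs_dot_le _ _).trans (by
      rw [← nrm_mul_self, mul_left_comm]
      exact mul_le_mul_of_nonneg_left ((nrm_mulVec_le _ _).trans
        (mul_le_mul_of_nonneg_right h7 (nrm_nonneg _))) (nrm_nonneg _)))
    have a3 := mul_le_mul_of_nonneg_left a2 h0
    have a4 := mul_le_mul_of_nonneg_right (show η * 7 ≤ 1 by linarith) v0
    have a5 := mul_nonneg (show 0 ≤ 1 - η * c by nlinarith) v0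
    rw [sub_mulVec, one_mulVec, smul_mulVec, dotProduct_sub, dotProduct_smul, smul_eq_mul, abs_le]
    constructor <;> linarith
  have := (nrm_mulVec_le (1 - η • N) u).trans (mul_le_mul_of_nonneg_right h1 (nrm_nonneg _))
  rwa [sub_mulVec, one_mulVec, smul_mulVec] at this

/-- the perturbed Richardson iteration kills the residual -/
theorem rich_iter (hS : Jᵀ = J) (hJ : opn J ≤ 3) (hb : b ∈ Icc (0 : ℝ) 1) (hc : c ∈ Ioc (0 : ℝ) 1)
    (hp : Cb p) (hP : Pos c (NN (B1 J b p) (dd p))) (h0 : 0 < η) (hη : η ≤ 1 / 7) {e : V n}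
    {v : ℕ → V n} {a ε : ℝ} (ha : nrm (rs J b p e (v 0)) ≤ a) (hε : 0 ≤ ε) (K : ℕ)
    (hv : ∀ k < K, nrm (v (k + 1) - rich J b η p e (v k)) ≤ ε) :
    nrm (rs J b p e (v K)) ≤ 12 * a * (1 - η * c / 2) ^ K + 49 * ε / (η * c) := by
  have hB : ∀ u, nrm (B1 J b p *ᵥ u) ≤ 6 * nrm u := fun u => (nrm_mulVec_le _ _).trans
    (mul_le_mul_of_nonneg_right (by linarith [opn_B1_le hJ hb hp]) (nrm_nonneg _))
  have hd := (ub_dd p).abs_le
  have eD : ∀ u : V n, DD p * u = dd p * (dd p * u) := fun u => funext fun i => by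
    simp only [Pi.mul_apply, ← mul_assoc, hp.dd_mul]
  have eN : ∀ u : V n, NN (B1 J b p) (dd p) *ᵥ u = u - dd p * B1 J b p *ᵥ (dd p * u) := fun u => by
    rw [NN, sub_mulVec, one_mulVec, ← mulVec_mulVec, ← mulVec_mulVec]
    congr 1; ext i; rw [mulVec_diagonal]; congr 3; ext j; rw [mulVec_diagonal]; rfl
  have h7 : opn (NN (B1 J b p) (dd p)) ≤ 7 := opn_le_of_nrm (by norm_num) fun u => by
    rw [eN]
    linarith [nrm_sub_le u (dd p * B1 J b p *ᵥ (dd p * u)), nrm_mul_le hd (B1 J b p *ᵥ (dd p * u)),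
      hB (dd p * u), nrm_mul_le hd u]
  have a0 : 0 ≤ a := (nrm_nonneg _).trans ha
  have t0 := mul_pos h0 hc.1
  have t1 : η * c ≤ η := mul_le_of_le_one_right h0.le hc.2
  set μ := 1 - η * c / 2 with hμ
  set E := 7 * ε / (η * c) with hE
  have E0 : 0 ≤ E := by positivity
  have E1 : η * c * E = 7 * ε := by rw [hE, mul_div_cancel₀ _ t0.ne']
  rw [show 49 * ε / (η * c) = 7 * E by rw [hE]; ring]
  suffices H : nrm (dd p * rs J b p e (v K)) ≤ a * μ ^ K + E ∧
      nrm (rs J b p e (v K)) ≤ 12 * a * μ ^ K + 7 * E from H.2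
  induction K with
  | zero => exact ⟨by linarith [nrm_mul_le hd (rs J b p e (v 0))], by linarith⟩
  | succ k ih =>
    obtain ⟨i1, i2⟩ := ih fun j hj => hv j (by omega)
    set z := rs J b p e (v k) with hz
    set w := v (k + 1) - rich J b η p e (v k) with hw
    have w1 : nrm (w - B1 J b p *ᵥ (DD p * w)) ≤ 7 * ε := by
      linarith [nrm_sub_le w (B1 J b p *ᵥ (DD p * w)), hB (DD p * w), nrm_mul_le (abs_DD hp) w,
        hv k (by omega)]
    have e1 : rs J b p e (v (k + 1)) =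
        (1 - η) • z + η • B1 J b p *ᵥ (DD p * z) + (w - B1 J b p *ᵥ (DD p * w)) := by
      have : v (k + 1) = v k - η • z + w := by rw [hw, rich, ← hz]; abel
      rw [rs, this, mul_add, mul_sub, mul_smul_comm, mulVec_add, mulVec_sub, mulVec_smul]
      conv_rhs => rw [sub_smul, one_smul]; enter [1, 1, 1]; rw [hz, rs]
      abel
    have e2 : dd p * rs J b p e (v (k + 1)) = (dd p * z - η • NN (B1 J b p) (dd p) *ᵥ (dd p * z)) +
        dd p * (w - B1 J b p *ᵥ (DD p * w)) := by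
      rw [e1, eN, ← eD, mul_add, mul_add, mul_smul_comm, mul_smul_comm]; module
    have m0 : 0 ≤ a * μ ^ k := mul_nonneg a0 (pow_nonneg (by linarith) _)
    constructor
    · rw [e2]
      refine (nrm_add_le _ _).trans ?_
      have u1 := (contr (NN_symm (B1_symm hS b p) _) hP h7 hc.2 h0.le hη (dd p * z)).trans
        (mul_le_mul_of_nonneg_left i1 (by linarith))
      have u2 := mul_le_mul_of_nonneg_left (show 1 - η * c ≤ μ by linarith) m0
      rw [pow_succ]; linarith [nrm_mul_le hd (w - B1 J b p *ᵥ (DD p * w))]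
    · rw [e1]
      refine (nrm_add_le _ _).trans (le_trans (add_le_add (nrm_add_le _ _) w1) ?_)
      rw [nrm_smul, nrm_smul, abs_of_pos h0, abs_of_nonneg (by linarith), eD]
      have u1 := mul_le_mul_of_nonneg_left i2 (show 0 ≤ 1 - η by linarith)
      have u2 := mul_le_mul_of_nonneg_left ((hB _).trans (mul_le_mul_of_nonneg_left
        ((nrm_mul_le hd (dd p * z)).trans i1) (by norm_num))) h0.le
      have u3 := mul_le_mul_of_nonneg_left t1 m0
      have u4 := mul_le_mul_of_nonneg_right t1 E0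
      rw [pow_succ, hμ]; rw [hμ] at u1 u2 u3; linarith

/-- dependence of the word `B D v` on the point and on the vector -/
theorem BD_sub (hJ : opn J ≤ 3) (hb : b ∈ Icc (0 : ℝ) 1) {q v w : V n} (hp : Cb p) (hq : Cb q)
    {A : ℝ} (hw : ∀ i, |w i| ≤ A) :
    nrm (B1 J b q *ᵥ (DD q * w) - B1 J b p *ᵥ (DD p * v)) ≤
      18 * A * nrm (q - p) + 6 * nrm (w - v) := by
  rcases Nat.eq_zero_or_pos n with rfl | hn
  · simp [nrm]
  have hn' : (0 : ℝ) < n := by positivity
  have s0 : (0 : ℝ) < √n := by positivity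
  have A0 : 0 ≤ A := (abs_nonneg _).trans (hw ⟨0, hn⟩)
  set u := DD q * w with hu
  have u1 : nrm u ≤ A * √n := (nrm_mul_le (abs_DD hq) w).trans ((nrm_le_iff (by positivity)).2 (by
    rw [mul_pow, Real.sq_sqrt hn'.le, mul_comm, ← nsmul_eq_mul, ← Fin.sum_const]
    exact Finset.sum_le_sum fun i _ => by
      rw [← sq, ← sq_abs]; exact pow_le_pow_left₀ (abs_nonneg _) (hw i) 2))
  have h1 : nrm (u - DD p * v) ≤ 2 * A * nrm (q - p) + nrm (w - v) := by
    have e : u - DD p * v = (-(2 * A)) • ((fun i => (p i + q i) / 2 * (w i / A)) * (q - p)) +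
        DD p * (w - v) := by
      ext i
      rcases A0.eq_or_lt with h | h
      · have : w i = 0 := abs_nonpos_iff.1 (h ▸ hw i)
        simp [hu, this]
      · simp only [hu, DD, Pi.sub_apply, Pi.mul_apply, Pi.add_apply, Pi.smul_apply, smul_eq_mul]
        field_simp; ring
    rw [e]
    refine (nrm_add_le _ _).trans (add_le_add ?_ (nrm_mul_le (abs_DD hp) _))
    rw [nrm_smul, abs_neg, abs_of_nonneg (by positivity)]
    refine mul_le_mul_of_nonneg_left (nrm_mul_le (fun i => ?_) _) (by positivity)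
    rw [abs_mul, abs_div, abs_div, abs_two, abs_of_nonneg A0]
    exact mul_le_one₀ (by linarith [abs_add_le (p i) (q i), hp i, hq i]) (by positivity)
      (div_le_one_of_le₀ (hw i) A0)
  have h2 : nrm (B1 J b q *ᵥ u - B1 J b p *ᵥ u) ≤ 6 * A * nrm (q - p) := by
    have e : B1 J b q *ᵥ u - B1 J b p *ᵥ u = (b / n) • (((p + q) ⬝ᵥ (q - p)) • u +
        (2 * ((q - p) ⬝ᵥ u)) • q + (2 * (p ⬝ᵥ u)) • (q - p)) := by
      rw [hp.B1_eq, hq.B1_eq]
      simp only [add_mulVec, sub_mulVec, smul_mulVec, one_mulVec, vecMulVec_mulVec,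
        op_smul_eq_smul, Lp.G1.avg_DD_eq hn, sub_dotProduct, dotProduct_sub, add_dotProduct,
        dotProduct_comm q p]
      ext i
      simp only [Pi.add_apply, Pi.sub_apply, Pi.smul_apply, smul_eq_mul]
      field_simp; ring
    have d0 := nrm_nonneg (q - p)
    have a1 := (abs_dot_le (p + q) (q - p)).trans (mul_le_mul_of_nonneg_right
      ((nrm_add_le p q).trans (add_le_add hp.nrm_le hq.nrm_le)) d0)
    have a2 := (abs_dot_le (q - p) u).trans (mul_le_mul_of_nonneg_left u1 d0)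
    have a3 := (abs_dot_le p u).trans (mul_le_mul hp.nrm_le u1 (nrm_nonneg _) s0.le)
    rw [e, nrm_smul, abs_of_nonneg (div_nonneg hb.1 hn'.le)]
    calc _ ≤ 1 / n * ((√n + √n) * nrm (q - p) * (A * √n) + 2 * (nrm (q - p) * (A * √n)) * √n +
          2 * (√n * (A * √n)) * nrm (q - p)) := by
          refine mul_le_mul (div_le_div_of_nonneg_right hb.2 hn'.le) ((nrm_add_le _ _).trans
            (add_le_add ((nrm_add_le _ _).trans (add_le_add ?_ ?_)) ?_)) (nrm_nonneg _)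
            (by positivity) <;> rw [nrm_smul]
          · gcongr; exact nrm_nonneg _
          · rw [abs_mul, abs_two]; gcongr; exacts [nrm_nonneg _, hq.nrm_le]
          · rw [abs_mul, abs_two]; gcongr
      _ = 6 * A * nrm (q - p) * (√n * √n / n) := by ring
      _ = _ := by rw [Real.mul_self_sqrt hn'.le, div_self hn'.ne', mul_one]
  have h3 := (nrm_mulVec_le (B1 J b p) (u - DD p * v)).trans (mul_le_mul
    (show opn (B1 J b p) ≤ 6 by linarith [opn_B1_le hJ hb hp]) h1 (nrm_nonneg _) (by norm_num))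
  have h4 := nrm_add_le (B1 J b q *ᵥ u - B1 J b p *ᵥ u) (B1 J b p *ᵥ (u - DD p * v))
  rw [mulVec_sub, sub_add_sub_cancel] at h4
  rw [mulVec_sub] at h3
  linarith

end Crest.Agent.T157.Md

end
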