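import Crest.Agent.T157.LpG1_17
import Crest.Agent.T157.TapEx_80
import Crest.Agent.T157.TapSE_6

/-!
# Row 157, part B (Z): mirror descent follows the TAP point (helper23)
-/

set_option autoImplicit false

noncomputable section

namespace Crest.Agent.T157.Md

open Matrix Set Filter
open Crest.Agent.T157.E Crest.Agent.T157.Eig Crest.Agent.T157.Tap
open Crest.Agent.T157.Lp (cav)

/-- Bregman divergence of `log cosh` -/
def br (a b : ℝ) : ℝ := Real.log (Real.cosh a) - Real.log (Real.cosh b) - Real.tanh b * (a - b)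

lemma br_three (a b c : ℝ) : br a c - br b c = (Real.tanh a - Real.tanh c) * (a - b) - br b a := by
  simp only [br]; ring

lemma le_br (a b : ℝ) : (Real.tanh a - Real.tanh b) ^ 2 / 2 ≤ br a b := by
  have hd : ∀ x, HasDerivAt (fun x => br x b - (Real.tanh x - Real.tanh b) ^ 2 / 2)
      ((Real.tanh x - Real.tanh b) * Real.tanh x ^ 2) x := fun x => by
    have h1 := (Real.hasDerivAt_cosh x).log (Real.cosh_pos x).ne'
    rw [← Real.tanh_eq_sinh_div_cosh] at h1
    have h2 := ((h1.sub_const (Real.log (Real.cosh b))).sub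
      (((hasDerivAt_id x).sub_const b).const_mul (Real.tanh b))).sub
        ((((SE.hasDerivAt_tanh x).sub_const (Real.tanh b)).pow 2).div_const 2)
    refine (h2.congr_deriv ?_).congr_of_eventuallyEq (.of_forall fun _ => rfl)
    simp only [Nat.cast_ofNat]; ring
  have h0 : br b b - (Real.tanh b - Real.tanh b) ^ 2 / 2 = 0 := by simp [br]
  rw [← sub_nonneg, ← h0]
  rcases le_total b a with h | h
  · refine monotoneOn_of_deriv_nonneg (convex_Ici b) (fun x _ => (hd x).continuousAt.continuousWithinAt)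
      (fun x _ => (hd x).differentiableAt.differentiableWithinAt) (fun x hx => ?_) self_mem_Ici h h
    rw [(hd x).deriv]
    exact mul_nonneg (sub_nonneg.2 (SE.monotone_tanh (interior_subset hx))) (sq_nonneg _)
  · refine antitoneOn_of_deriv_nonpos (convex_Iic b) (fun x _ => (hd x).continuousAt.continuousWithinAt)
      (fun x _ => (hd x).differentiableAt.differentiableWithinAt) (fun x hx => ?_) h self_mem_Iic h
    rw [(hd x).deriv]
    exact mul_nonpos_of_nonpos_of_nonneg (sub_nonpos.2 (SE.monotone_tanh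
      (mem_Iic.1 (interior_subset hx))))
      (sq_nonneg _)

lemma br_le (a b : ℝ) : br a b ≤ (Real.tanh a - Real.tanh b) * (a - b) := by
  have h1 := br_three a b b
  have h2 : br b b = 0 := by simp [br]
  linarith [le_br b a, sq_nonneg (Real.tanh b - Real.tanh a)]

lemma tanh_seg (a b : ℝ) {t : ℝ} (ht : t ∈ Icc (0 : ℝ) 1) :
    |Real.tanh (b + t * (a - b)) - Real.tanh b| ≤ |Real.tanh a - Real.tanh b| := by
  rcases le_total b a with h | h
  · have h1 := SE.monotone_tanh (show b ≤ b + t * (a - b) by nlinarith [ht.1])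
    have h2 := SE.monotone_tanh (show b + t * (a - b) ≤ a by nlinarith [ht.2])
    rw [abs_of_nonneg (by linarith), abs_of_nonneg (by linarith)]; linarith
  · have h1 := SE.monotone_tanh (show b + t * (a - b) ≤ b by nlinarith [ht.1])
    have h2 := SE.monotone_tanh (show a ≤ b + t * (a - b) by nlinarith [ht.2])
    rw [abs_of_nonpos (by linarith), abs_of_nonpos (by linarith)]; linarith

variable {n : ℕ} {J : Mx n} {b c r η : ℝ} {p0 y xs : V n}

/-- Bregman divergence -/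
def Br (x x' : V n) : ℝ := ∑ i, br (x i) (x' i)

lemma le_Br (x x' : V n) : nrm (th x - th x') ^ 2 / 2 ≤ Br x x' := by
  rw [nrm_sq, dotProduct, Finset.sum_div]
  exact Finset.sum_le_sum fun i _ => by rw [← sq]; exact le_br (x i) (x' i)

lemma Br_le (x x' : V n) : Br x x' ≤ (th x - th x') ⬝ᵥ (x - x') :=
  Finset.sum_le_sum fun i _ => br_le (x i) (x' i)

lemma Br_le_sq (x x' : V n) : Br x x' ≤ nrm (x - x') ^ 2 :=
  (Br_le x x').trans ((le_abs_self _).trans ((abs_dot_le _ _).trans (by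
    rw [sq]; exact mul_le_mul_of_nonneg_right (SE.nrm_th_sub_le _ _) (nrm_nonneg _))))

lemma Br_three (x x' z : V n) : Br x z - Br x' z = (th x - th z) ⬝ᵥ (x - x') - Br x' x := by
  simp only [Br, dotProduct, ← Finset.sum_sub_distrib]
  exact Finset.sum_congr rfl fun i _ => br_three _ _ _

/-- one step of mirror descent on the TAP free energy -/
def md (J : Mx n) (b η : ℝ) (y x : V n) : V n := x - η • (Ymap J b x - y)

lemma md_eq (J : Mx n) (b η : ℝ) (y x : V n) :
    md J b η y x = (1 - η) • x + η • cav J b y (th x) := by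
  simp only [md, Ymap, cav]; module

lemma cav_fix (h : Ymap J b xs = y) : cav J b y (th xs) = xs := by rw [← h, Lp.G1.cav_Ymap]

lemma cav_sub (hJ : opn J ≤ 3) (hb : b ∈ Icc (0 : ℝ) 1) (y x x' : V n) :
    nrm (cav J b y (th x) - cav J b y (th x')) ≤ 6 * nrm (th x - th x') := by
  simpa [nrm_zero] using Lp.G1.cav_lip hJ hb y y (cb_th x) (cb_th x')

lemma md_sub (hJ : opn J ≤ 3) (hb : b ∈ Icc (0 : ℝ) 1) (hη : η ∈ Icc (0 : ℝ) 1)
    (h : Ymap J b xs = y) (x : V n) :
    nrm (md J b η y x - xs) ≤ (1 - η) * nrm (x - xs) + η * (6 * nrm (th x - th xs)) := by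
  have e : md J b η y x - xs = (1 - η) • (x - xs) + η • (cav J b y (th x) - cav J b y (th xs)) := by
    rw [md_eq, cav_fix h]; module
  rw [e]
  refine (nrm_add_le _ _).trans ?_
  rw [nrm_smul, nrm_smul, abs_of_nonneg hη.1, abs_of_nonneg (sub_nonneg.2 hη.2)]
  exact add_le_add le_rfl (mul_le_mul_of_nonneg_left (cav_sub hJ hb y x xs) hη.1)

lemma md_th (hJ : opn J ≤ 3) (hb : b ∈ Icc (0 : ℝ) 1) (h0 : 0 ≤ η) (hη : η ≤ 1 / 6)
    (h : Ymap J b xs = y) (x : V n) : nrm (th (md J b η y x) - th xs) ≤ 2 * nrm (th x - th xs) := by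
  have e : md J b η y x - (xs + (1 - η) • (x - xs)) =
      η • (cav J b y (th x) - cav J b y (th xs)) := by rw [md_eq, cav_fix h]; module
  have h1 := SE.nrm_th_sub_le (md J b η y x) (xs + (1 - η) • (x - xs))
  rw [e, nrm_smul, abs_of_nonneg h0] at h1
  have h2 : nrm (th (xs + (1 - η) • (x - xs)) - th xs) ≤ nrm (th x - th xs) :=
    Real.sqrt_le_sqrt (Finset.sum_le_sum fun i _ => by
      rw [← sq, ← sq]
      exact sq_le_sq.2 (tanh_seg (x i) (xs i) ⟨by linarith, by linarith⟩))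
  have h3 := nrm_add_le (th (md J b η y x) - th (xs + (1 - η) • (x - xs)))
    (th (xs + (1 - η) • (x - xs)) - th xs)
  rw [sub_add_sub_cancel] at h3
  nlinarith [mul_le_mul_of_nonneg_left (cav_sub hJ hb y x xs) h0, nrm_nonneg (th x - th xs)]

/-- contraction of the Bregman divergence on a good ball -/
theorem md_step (hJ : opn J ≤ 3) (hb : b ∈ Icc (0 : ℝ) 1) (hc : c ∈ Ioc (0 : ℝ) 1)
    (hG : GoodB J b c r p0) (h0 : 0 ≤ η) (hη : η ≤ c / 72) (h : Ymap J b xs = y) {x : V n}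
    (hx : nrm (th xs - p0) + 2 * nrm (th x - th xs) ≤ r) :
    (1 + η * c / 14) * Br (md J b η y x) xs ≤ Br x xs := by
  have η6 : η ≤ 1 / 6 := by linarith [hc.2]
  set x' := md J b η y x with hx'
  have h1 := md_th hJ hb h0 η6 h x
  rw [← hx'] at h1
  have h2 : nrm (th x' - p0) ≤ r := by
    have := nrm_add_le (th x' - th xs) (th xs - p0)
    rw [sub_add_sub_cancel] at this; linarith
  have h3 := Ex80.mono hc.1 hG (p := th xs) (q := th x') (th_lt xs) (th_lt x')
    (by linarith [nrm_nonneg (th x - th xs)]) h2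
  rw [Ex80.ath_th, Ex80.ath_th, h, ← nrm_sq] at h3
  set D := th x' - th xs with hD
  set G := D ⬝ᵥ (Ymap J b x' - y) with hGd
  have e1 : Ymap J b x' - y = x' - cav J b y (th x') := by simp only [Ymap, cav]; abel
  have h4 : D ⬝ᵥ (x' - xs) ≤ G + 6 * nrm D ^ 2 := by
    have e : x' - xs = (Ymap J b x' - y) + (cav J b y (th x') - cav J b y (th xs)) := by
      rw [e1, cav_fix h]; abel
    have t := (le_abs_self _).trans ((abs_dot_le D _).trans
      (mul_le_mul_of_nonneg_left (cav_sub hJ hb y x' xs) (nrm_nonneg _)))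
    rw [e, dotProduct_add]; nlinarith
  have h5 : (1 - η) * (D ⬝ᵥ (x' - x)) ≤ -η * G + η * (nrm D * (6 * nrm (th x - th x'))) := by
    have e : (1 - η) • (x' - x) =
        -η • (Ymap J b x' - y) + η • (cav J b y (th x) - cav J b y (th x')) := by
      rw [e1]; conv_lhs => rw [hx', md_eq]
      conv_rhs => enter [1, 2, 1]; rw [hx', md_eq]
      module
    have t := (le_abs_self _).trans ((abs_dot_le D _).trans
      (mul_le_mul_of_nonneg_left (cav_sub hJ hb y x x') (nrm_nonneg _)))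
    rw [← smul_eq_mul, ← dotProduct_smul, e, dotProduct_add, dotProduct_smul, dotProduct_smul,
      smul_eq_mul, smul_eq_mul]
    exact add_le_add le_rfl (mul_le_mul_of_nonneg_left t h0)
  have h6 := Br_three x' x xs
  have h7 := le_Br x x'
  have h8 := Br_le x' xs
  have h9 := le_Br x' xs
  rw [← hD] at h6 h8 h9
  set u := nrm (th x - th x')
  set d := nrm D
  have G0 : 0 ≤ G := le_trans (mul_nonneg hc.1.le (sq_nonneg _)) h3
  have k1 : η * (d * (6 * u)) ≤ 36 * η * (η * d ^ 2) + u ^ 2 / 4 := by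
    nlinarith [sq_nonneg (6 * η * d - u / 2)]
  have k2 : η * d ^ 2 ≤ G / 72 := by nlinarith [sq_nonneg d]
  have k3 : u ^ 2 / 4 ≤ (1 - η) * Br x x' := by nlinarith [sq_nonneg u]
  have k4 : η * G / 2 ≤ (1 - η) * (Br x xs - Br x' xs) := by
    have := mul_le_mul_of_nonneg_left k2 h0
    have e : (1 - η) * (Br x xs - Br x' xs) = -((1 - η) * (D ⬝ᵥ (x' - x))) + (1 - η) * Br x x' := by
      rw [show Br x xs - Br x' xs = -(D ⬝ᵥ (x' - x) - Br x x') by linarith]; ring
    linarith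
  have k5 : c * Br x' xs ≤ 7 * G := by nlinarith [hc.1, hc.2]
  have k6 : 0 ≤ Br x xs - Br x' xs :=
    nonneg_of_mul_nonneg_right (a := 1 - η) (by nlinarith) (by linarith)
  nlinarith [mul_le_mul_of_nonneg_left k5 h0]

/-- geometric convergence on a good ball -/
theorem md_iter (hJ : opn J ≤ 3) (hb : b ∈ Icc (0 : ℝ) 1) (hc : c ∈ Ioc (0 : ℝ) 1)
    (hG : GoodB J b c r p0) (h0 : 0 ≤ η) (hη : η ≤ c / 72) (h : Ymap J b xs = y) {x : V n} {a : ℝ}
    (ha : nrm (x - xs) ≤ a) (hx : nrm (th xs - p0) + 3 * a ≤ r) (k : ℕ) :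
    nrm ((md J b η y)^[k] x - xs) ≤ 18 * a * (1 - η * c / 56) ^ k := by
  have a0 : 0 ≤ a := (nrm_nonneg _).trans ha
  have t0 : 0 ≤ η * c := mul_nonneg h0 hc.1.le
  have t1 : η * c ≤ η := mul_le_of_le_one_right h0 hc.2
  have η1 : η ≤ 1 / 72 := by linarith [hc.2]
  set μ := 1 - η * c / 56 with hμ
  have μ0 : 0 ≤ μ := by linarith
  suffices H : Br ((md J b η y)^[k] x) xs ≤ (a * μ ^ k) ^ 2 ∧
      nrm ((md J b η y)^[k] x - xs) ≤ 18 * a * μ ^ k from H.2
  induction k with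
  | zero => exact ⟨(Br_le_sq _ _).trans (by simpa using pow_le_pow_left₀ (nrm_nonneg _) ha 2),
      by simpa using ha.trans (by linarith)⟩
  | succ k ih =>
    rw [Function.iterate_succ_apply']
    set z := (md J b η y)^[k] x
    have m0 : 0 ≤ a * μ ^ k := by positivity
    have m1 : a * μ ^ k ≤ a := mul_le_of_le_one_right a0 (pow_le_one₀ μ0 (by linarith))
    have h1 : nrm (th z - th xs) ≤ 3 / 2 * (a * μ ^ k) :=
      abs_le_of_sq_le_sq' (by nlinarith [le_Br z xs, ih.1]) (by positivity) |>.2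
    have h2 := md_step hJ hb hc hG h0 hη h (x := z) (by linarith)
    have h3 := md_sub hJ hb ⟨h0, by linarith⟩ h z
    refine ⟨le_of_mul_le_mul_left (h2.trans (ih.1.trans ?_)) (by positivity), h3.trans ?_⟩
    · rw [pow_succ μ, ← mul_assoc, mul_pow (a * μ ^ k), mul_left_comm]
      refine le_mul_of_one_le_right (sq_nonneg _) ?_
      rw [hμ]; nlinarith [mul_nonneg t0 (sq_nonneg (η * c)), mul_nonneg t0 t0]
    · have u1 := mul_le_mul_of_nonneg_left ih.2 (show 0 ≤ 1 - η by linarith)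
      have u2 := mul_le_mul_of_nonneg_left h1 h0
      have u3 := mul_le_mul_of_nonneg_left (show 1 - η / 2 ≤ μ by linarith) m0
      rw [pow_succ]; nlinarith

/-- from one field to a neighbouring field -/
theorem level (hS : Jᵀ = J) (hJ : opn J ≤ 3) (hb : b ∈ Icc (0 : ℝ) 1) (hc : c ∈ Ioc (0 : ℝ) 1)
    {x0 y1 X : V n} (hG : GoodB J b c r (th x0)) (h0 : 0 ≤ η) (hη : η ≤ c / 72) {ρ e : ℝ}
    (hy : nrm (y1 - Ymap J b x0) ≤ ρ) (hX : nrm (X - x0) ≤ e) (hr : 3 * e + 22 * (ρ / c) < r) :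
    ∃ x1, Ymap J b x1 = y1 ∧ nrm (th x1 - th x0) ≤ ρ / c ∧ nrm (x1 - x0) ≤ 7 * (ρ / c) ∧
      ∀ k, nrm ((md J b η y1)^[k] X - x1) ≤ 18 * (e + 7 * (ρ / c)) * (1 - η * c / 56) ^ k := by
  have e0 : 0 ≤ e := (nrm_nonneg _).trans hX
  have ρ0 : 0 ≤ ρ := (nrm_nonneg _).trans hy
  have ρ1 : ρ ≤ ρ / c := le_div_self ρ0 hc.1 hc.2
  obtain ⟨E1, E2⟩ := (exStmt n J b hS).2 c r (th x0) hc.1 hG
  obtain ⟨x1, h1, h2⟩ := E2 x0 y1 (by
    rw [sub_self, nrm_zero, zero_add]
    linarith [div_le_div_of_nonneg_right hy hc.1.le])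
  have h3 : nrm (th x1 - th x0) ≤ ρ / c := by
    have := E1 x1 x0 h2.le (by rw [sub_self, nrm_zero]; linarith)
    rw [h1] at this
    rw [le_div_iff₀ hc.1]; linarith
  have h4 := Lp.G1.cav_lip hJ hb (Ymap J b x1) (Ymap J b x0) (cb_th x1) (cb_th x0)
  rw [Lp.G1.cav_Ymap, Lp.G1.cav_Ymap, h1] at h4
  refine ⟨x1, h1, h3, by linarith, md_iter hJ hb hc hG h0 hη h1 ?_ (by linarith)⟩
  have := nrm_sub_le (X - x0) (x1 - x0)
  rw [sub_sub_sub_cancel_right] at this; linarith

/-- the orbit: `K` steps at each of the fields `y 1, y 2, …` -/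
def orb (J : Mx n) (b η : ℝ) (K : ℕ) (y : ℕ → V n) (X : V n) : ℕ → V n
  | 0 => X
  | j + 1 => (md J b η (y (j + 1)))^[K] (orb J b η K y X j)

/-- **mirror descent follows the TAP point** along a chain of good fields -/
theorem follow (hS : Jᵀ = J) (hJ : opn J ≤ 3) (hb : b ∈ Icc (0 : ℝ) 1) (hc : c ∈ Ioc (0 : ℝ) 1)
    (h0 : 0 ≤ η) (hη : η ≤ c / 72) {K N : ℕ} {θ ρ : ℝ} (hK : 18 * (1 - η * c / 56) ^ K ≤ θ)
    (hθ : θ ≤ 1 / 2) (hr : 43 * (ρ / c) < r) {y : ℕ → V n} {X x0 : V n}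
    (hG : ∀ j < N, ∀ x, Ymap J b x = y j → GoodB J b c r (th x))
    (hy : ∀ j < N, nrm (y (j + 1) - y j) ≤ ρ) (hx0 : Ymap J b x0 = y 0)
    (hX : nrm (X - x0) ≤ 14 * θ * (ρ / c)) :
    ∀ j ≤ N, ∃ x, Ymap J b x = y j ∧ nrm (orb J b η K y X j - x) ≤ 14 * θ * (ρ / c) := by
  intro j
  induction j with
  | zero => exact fun _ => ⟨x0, hx0, hX⟩
  | succ j ih =>
    intro hj
    obtain ⟨x, h1, h2⟩ := ih (by omega)
    have ρ0 : 0 ≤ ρ / c := div_nonneg ((nrm_nonneg _).trans (hy j hj)) hc.1.le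
    have t := mul_le_mul_of_nonneg_right hθ ρ0
    obtain ⟨x1, a1, -, -, a2⟩ := level hS hJ hb hc (hG j hj x h1) h0 hη (y1 := y (j + 1)) (ρ := ρ)
      (by rw [h1]; exact hy j hj) (e := 7 * (ρ / c)) (h2.trans (by linarith)) (by linarith)
    exact ⟨x1, a1, (a2 K).trans (by nlinarith [mul_le_mul_of_nonneg_right hK ρ0])⟩

lemma exists_K (h0 : 0 < η) (hc : c ∈ Ioc (0 : ℝ) 1) (hη : η ≤ c / 72) {θ : ℝ} (hθ : 0 < θ) :
    ∃ K : ℕ, ∀ k ≥ K, 18 * (1 - η * c / 56) ^ k ≤ θ := by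
  have t0 := mul_pos h0 hc.1
  have t1 : η * c ≤ 1 := mul_le_one₀ (by linarith [hc.2]) hc.1.le hc.2
  obtain ⟨K, hK⟩ := exists_pow_lt_of_lt_one (show 0 < θ / 18 by positivity)
    (show 1 - η * c / 56 < 1 by linarith)
  exact ⟨K, fun k hk => by
    linarith [pow_le_pow_of_le_one (show 0 ≤ 1 - η * c / 56 by linarith) (by linarith) hk]⟩

end Crest.Agent.T157.Md

end
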