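import Crest.Agent.T157.LmNet_59
import Crest.Agent.T157.LmHyp_14
import Crest.Agent.T157.ZDefS_73

/-!
# Row 157, block B/S5 (helper59): networks on arbitrary Lipschitz equivariant rows; `Z.NetClGlue`
-/

set_option autoImplicit false

noncomputable section

namespace Crest.Agent.T157.Lm

open MeasureTheory ProbabilityTheory Real Filter Topology Matrix
open Crest.Agent.R238.Gap (E)
open Crest.Agent.R253.Meh74 (gam)
open Crest.Agent.T157.Tap (V Mx avg)
open Crest.Agent.T157.Eig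
open Crest.Agent.T157.Z (Nt Nw tJ nA)
open Net59 (cont_of_lip m2_of_lip av1 sq_co bd_one tail3)

namespace Nc59

variable {m n L : ℕ}

/-- Gaussian Poincaré inequality -/
theorem var_le' {F : E m → ℝ} {B : ℝ} (h : ∀ z z', |F z - F z'| ≤ B * ‖z - z'‖) :
    sq (fun z => F z - ∫ z', F z' ∂gam m) ≤ B ^ 2 := by
  have h1 := Hy14.lip m F B h 1
  obtain ⟨c, r, hr, e⟩ := Hm.mem_succ.1 (Hm.pr_mem (m := m) (0 + 1) F)
  have e' : ∀ z, Hm.pr 1 F z = c := fun z => by
    rw [show Hm.pr 1 F = _ from e]; simp [Hm.mem_zero.1 (hr _)]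
  simp only [e', Nat.cast_one, one_mul] at h1
  have h2 := (cont_of_lip h).aestronglyMeasurable (μ := gam m)
  have h3 := variance_le_expectation_sq (μ := gam m) (X := fun z => F z - c)
    (h2.sub aestronglyMeasurable_const)
  rw [variance_sub_const h2, variance_eq_integral h2.aemeasurable] at h3
  exact h3.trans h1

/-- Lipschitz equivariant rows -/
structure Rows (L : ℕ) (ι : Type) [Fintype ι] where
  f : ∀ n, E (Nv L n) → ι → V n
  lip : ∃ A ≥ (0 : ℝ), ∀ n z z', nA (f n z - f n z') ≤ A * ‖z - z'‖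
  eqv : ∀ n (p : Equiv.Perm (Fin n)) z, (fun l => f n (act p z) l ∘ p) = f n z

variable {ι : Type} [Fintype ι] (β : ℝ) (R : Rows L ι)

/-- the vector of a word -/
def W (X : Nt ι) (z : E (Nv L n)) : V n := X n (Jm β z) (R.f n z)
/-- the family of a word -/
def gf (X : Nt ι) : F1 L := fun n x z => X n (Jm β z) (R.f n z) (x ())

theorem lipW {X : Nt ι} (hX : Nw False X) : ∃ B ≥ (0 : ℝ), ∀ n (z z' : E (Nv L n)),
    nrm (W β R X z - W β R X z') ≤ B * ‖z - z'‖ := by
  obtain ⟨K, K0, hK⟩ := Z.L85.lip hX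
  obtain ⟨A, A0, hA⟩ := R.lip
  refine ⟨K * (A + 2 * |β|), by positivity, fun n z z' => (hK _ _ _ _ _).trans ?_⟩
  rw [mul_assoc, add_mul]
  refine mul_le_mul_of_nonneg_left (add_le_add (hA n z z')
    ((mul_le_mul_of_nonneg_left (Sk59.Jm_lip β z z') (sqrt_nonneg _)).trans ?_)) K0
  rw [← mul_assoc, mul_div_left_comm]
  exact mul_le_mul_of_nonneg_right (mul_le_of_le_one_right (by positivity) (div_self_le_one _))
    (norm_nonneg _)

theorem lip_gf {X : Nt ι} (hX : Nw False X) : ∃ B, ∀ n x z z',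
    |gf β R X n x z - gf β R X n x z'| ≤ B * ‖z - z'‖ :=
  let ⟨B, _, h⟩ := lipW β R hX
  ⟨B, fun n x z z' => (abs_apply_le_nrm (W β R X z - W β R X z') (x ())).trans (h n z z')⟩

theorem adm {X : Nt ι} (hX : Nw False X) : Adm (gf β R X) := by
  obtain ⟨B, h⟩ := lip_gf β R hX
  refine .of_forall fun n => ⟨fun x => m2_of_lip (h n x), fun p x z => ?_⟩
  have h1 := congrFun (Z.L85.perm hX n (Jm β (act p z)) (R.f n (act p z)) p) (x ())
  have e1 : (Jm β (act p z)).submatrix p p = Jm β z := by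
    ext i j; rw [submatrix_apply, Sk59.Jm_act]
  rw [e1, R.eqv] at h1
  exact h1.symm

theorem sube (hl : LinStmt) (hn : NlStmt) {X : Nt ι} (hX : Nw False X) (h : Cl (gf β R X)) :
    SubE (gf β R X) :=
  let ⟨B, hB⟩ := lip_gf β R hX
  hn.sub_of_lip _ _ B h.1 (hl.wk _ _ _ h).1.2.1 (.of_forall hB)

theorem cl_mul (h0 : 0 ≤ β) (h1 : β < 1) (hl : LinStmt) (hn : NlStmt) {X : Nt ι} (hX : Nw False X)
    (hB : Z.Bd X) (h : Cl (gf β R X)) : Cl (gf β R fun n J a => tJ J *ᵥ X n J a) := by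
  obtain ⟨K0, k0, hK⟩ := hn.Jv β
  have hG := hK (max K0 3) (le_max_left _ _) _ _ h
  set K := max K0 3 with hK'
  have K3 : 3 ≤ K := le_max_right _ _
  have hF := adm β R (hX.mul X hB)
  obtain ⟨M, hM⟩ := hB
  refine hl.closed _ _ _ hF fun ε hε => ⟨_, hG, ?_⟩
  have ht := (tail3 h0 h1 L).const_mul (((3 + K) * |M|) ^ 2)
  rw [mul_zero] at ht
  filter_upwards [hF, hG.1, ht.eventually_le_const hε, eventually_gt_atTop 0] with n a1 a2 a3 n0
  refine le_trans ?_ a3
  have n0' : (0 : ℝ) < n := Nat.cast_pos.2 n0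
  have hm : MeasurableSet {z : E (Nv L n) | 3 < opn (Jm β z)} :=
    measurableSet_lt measurable_const (continuous_opn.comp (Sk59.cont_Jm β)).measurable
  rw [n2, av1, div_le_iff₀ n0']
  refine (integral_finsetSum _ fun i _ => ((a1.1 fun _ => i).2.sub
    (a2.1 fun _ => i).2).integrable_sq).symm.trans_le ?_
  rw [mul_right_comm, mul_comm, ← smul_eq_mul, ← integral_indicator_const _ hm]
  refine integral_mono_of_nonneg (.of_forall fun z => Finset.sum_nonneg fun _ _ => sq_nonneg _)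
    ((integrable_const _).indicator hm) (.of_forall fun z => ?_)
  have e : ∑ i, ((gf β R fun n J a => tJ J *ᵥ X n J a) n (fun _ => i) -
      Jv β K (gf β R X) n fun _ => i) z ^ 2 = nrm ((tJ (Jm β z) - Jt β K z) *ᵥ W β R X z) ^ 2 := by
    rw [nrm_sq, sub_mulVec]; simp only [dotProduct, pow_two]; rfl
  refine e.trans_le ?_
  rw [Set.indicator_apply]
  split_ifs with hz
  · rw [← sq_sqrt n0'.le, ← mul_pow, mul_assoc]
    exact pow_le_pow_left₀ (nrm_nonneg _) ((nrm_mulVec_le _ _).trans (mul_le_mul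
      ((opn_sub_le _ _).trans (add_le_add (Z.L85.opn_tJ _) (Sk59.opn_rt (by linarith) _)))
      (Z.L85.nrm_le_of_bd (hM _ _ _)) (nrm_nonneg _) (by linarith))) 2
  · rw [Z.L85.tJ_eq (not_lt.1 hz), Jt, max_eq_left
      ((div_le_one (by linarith)).2 ((not_lt.1 hz).trans K3))]
    simp

theorem cl_sc (hn : NlStmt) {X Y U : Nt ι} (hX : Nw False X) (hY : Nw False Y)
    (bX : Z.Bd X) (bY : Z.Bd Y) (bZ : Z.Bd U) (cX : Cl (gf β R X)) (cY : Cl (gf β R Y))
    (cZ : Cl (gf β R U)) : Cl (gf β R fun n J a => avg (X n J a * Y n J a) • U n J a) := by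
  obtain ⟨A, hA⟩ := bX
  obtain ⟨B, hB⟩ := bY
  obtain ⟨M, hM⟩ := bZ
  obtain ⟨K1, k1, h1⟩ := lipW β R hX
  obtain ⟨K2, k2, h2⟩ := lipW β R hY
  have e : ∀ n z, (av fun y => gf β R X n y z * gf β R Y n y z) =
      W β R X z ⬝ᵥ W β R Y z / n := fun n z => av1 _
  have hL : ∀ n, 0 < n → ∀ z z', |(av fun y => gf β R X n y z * gf β R Y n y z) -
      av fun y => gf β R X n y z' * gf β R Y n y z'| ≤ (K1 * |B| + K2 * |A|) / √n * ‖z - z'‖ := by
    intro n n0 z z'
    have n0' : (0 : ℝ) < n := Nat.cast_pos.2 n0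
    have g1 := (abs_dot_le _ _).trans (mul_le_mul (h1 n z z') (Z.L85.nrm_le_of_bd
      (v := W β R Y z) (hB _ _ _)) (nrm_nonneg _) (by positivity))
    have g2 := (abs_dot_le _ _).trans (mul_le_mul (h2 n z z') (Z.L85.nrm_le_of_bd
      (v := W β R X z') (hA _ _ _)) (nrm_nonneg _) (by positivity))
    rw [e, e, ← sub_div, abs_div, abs_of_pos n0', div_le_iff₀ n0', show W β R X z ⬝ᵥ W β R Y z -
      W β R X z' ⬝ᵥ W β R Y z' = (W β R X z - W β R X z') ⬝ᵥ W β R Y z +
        (W β R Y z - W β R Y z') ⬝ᵥ W β R X z' by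
      rw [sub_dotProduct, sub_dotProduct, dotProduct_comm (W β R Y z),
        dotProduct_comm (W β R Y z')]; ring]
    refine ((abs_add_le _ _).trans (add_le_add g1 g2)).trans_eq ?_
    have := sqrt_pos.2 n0'
    rw [← mul_self_sqrt n0'.le, sqrt_mul_self this.le]
    field_simp
  have h := hn.avg _ _ _ _ M cX cY cZ (.of_forall fun n x z => hM _ _ _ _)
    ((eventually_gt_atTop 0).mono fun n n0 => m2_of_lip (hL n n0)) ?_
  · simp only [e] at h
    exact h
  have ht := tendsto_const_div_atTop_nhds_zero_nat ((K1 * |B| + K2 * |A|) ^ 2)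
  refine squeeze_zero' (.of_forall fun n => integral_nonneg fun _ => sq_nonneg _) ?_ ht
  filter_upwards [cX.1, cY.1, eventually_gt_atTop 0] with n a1 a2 n0
  have h3 := var_le' (hL n n0)
  rw [div_pow, sq_sqrt (Nat.cast_nonneg n)] at h3
  refine le_of_eq_of_le ?_ h3
  congr 3
  rw [ipx]
  simp only [av]
  rw [integral_div, integral_finsetSum (f := fun y z => gf β R X n y z * gf β R Y n y z) _
    fun y _ => (a1.1 y).2.integrable_mul (a2.1 y).2]

/-- **networks on rows of the limit class are in the limit class** -/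
theorem net (h0 : 0 ≤ β) (h1 : β < 1) (hl : LinStmt) (hn : NlStmt)
    (hi : ∀ j, Cl fun n (x : Unit → Fin n) z => R.f n z j (x ())) {X : Nt ι} (hX : Nw False X) :
    Cl (gf β R X) := by
  induction hX with
  | inp j => exact hi j
  | map φ X hφ _ hX ih =>
    obtain ⟨ho, K, hK⟩ := hφ
    refine hn.comp _ _ (fun l => gf β R (X l)) K φ ih (fun l => sube β R hl hn (hX l) (ih l))
      hK.continuous fun u => ?_
    have h2 := hK.dist_le_mul u 0
    have h3 : φ 0 = 0 := by linarith [ho 0, congrArg φ (neg_zero (G := Fin _ → ℝ))]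
    rw [h3, dist_zero_right, dist_zero_right, Real.norm_eq_abs] at h2
    exact h2.trans (mul_le_mul_of_nonneg_left (by linarith) K.2)
  | mul X hX hB ih => exact cl_mul β R h0 h1 hl hn hX hB ih
  | sc X Y Z hX hY _ bX bY bZ iX iY iZ => exact cl_sc β R hn hX hY bX bY bZ iX iY iZ

theorem nrm_site (z z' : E (Nv L n)) (l : Fin L) :
    nrm (fun i => co z (.inr (l, i)) - co z' (.inr (l, i))) ≤ ‖z - z'‖ := by
  refine (nrm_le_iff (norm_nonneg _)).2 ?_
  rw [EuclideanSpace.real_norm_sq_eq]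
  have hi : Function.Injective fun i : Fin n => ix _ n (.inr (l, i)) :=
    fun i j h => (Prod.mk.inj (Sum.inr.inj ((ix _ n).injective h))).2
  refine le_of_eq_of_le ?_ ((Finset.sum_map Finset.univ ⟨_, hi⟩ fun j => (z - z') j ^ 2).symm.trans_le
    (Finset.sum_le_sum_of_subset_of_nonneg (Finset.subset_univ _) fun _ _ _ => sq_nonneg _))
  simp only [dotProduct, pow_two, Function.Embedding.coeFn_mk]
  rfl

/-- the spin `1` with its labels -/
def labR (m : ℕ) : Rows m (Unit ⊕ Fin m) where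
  f _ z := Z.lab 1 fun p => co z (.inr p)
  lip := ⟨m, Nat.cast_nonneg m, fun n z z' => by
    rw [nA, Fintype.sum_sum_type]
    refine (add_le_add (le_of_eq ?_) (Finset.sum_le_sum fun l _ => nrm_site z z' l)).trans_eq
      (show 0 + _ = _ by simp)
    simp [Z.lab]⟩
  eqv n p z := by
    funext l i
    rcases l with l | l <;> simp [Z.lab, act, Sk59.co_pt]

end Nc59

end Crest.Agent.T157.Lm

namespace Crest.Agent.T157.Z

open Lm Lm.Nc59

theorem netClGlue : NetClGlue := fun hr _ hl hn _ β hβ m X hX =>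
  net β (labR m) hβ.1 hβ.2 hl hn (fun j => by
    rcases j with j | l
    · exact hl.rp _ _ _ (.const (hr.const 1)) (Net59.bd_one (B := 1) fun _ _ => by
        simp [Lm.sq, labR, lab])
    · exact hl.rp _ _ _ (RP.site l ()) (Net59.bd_one fun _ _ => Net59.sq_co _)) hX

end Crest.Agent.T157.Z

end
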