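import Crest.Agent.T157.ZDef_73
import Crest.Agent.T157.ConcM_16

/-!
# Row 157, package (Z) (helper2): the observables of a direction field, `Z.obStmt`
-/

set_option autoImplicit false

noncomputable section

namespace Crest.Agent.T157.Z

open MeasureTheory ProbabilityTheory Matrix Real
open Crest.Agent.T157.E Crest.Agent.T157.Eig Crest.Agent.T157.Tap
open Crest.Agent.T157.Conc (en ELip)

namespace Ob2

variable {n : ℕ} {P : Pm} {J : Mx n} {b K : ℝ} {e : V n → V n}

theorem en_eq (v : V n) : en v = nrm v := by simp only [en, nrm, dotProduct, sq]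

theorem nrm_le_of {v : V n} {c : ℝ} (hc : 0 ≤ c) (h : ∀ i, |v i| ≤ c) : nrm v ≤ c * √n := by
  rw [nrm_le_iff (by positivity), mul_pow, sq_sqrt (Nat.cast_nonneg n), dotProduct]
  refine (Finset.sum_le_sum (g := fun _ => c ^ 2) fun i _ => ?_).trans (by simp [mul_comm])
  rw [← sq]; exact sq_le_sq.2 ((h i).trans (le_abs_self c))

theorem cb_sv (x : Cube n) : Cb (sv x) := fun i => by
  simp only [sv, Crest.ProbabilityR.SpinGlassDynamics.spin]; split_ifs <;> simp

theorem nrm_sub_pp {σ : V n} (hσ : Cb σ) (y : V n) : nrm (σ - pp P J b y) ≤ 2 * √n :=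
  nrm_le_of zero_le_two fun i => (abs_sub _ _).trans (by
    linarith [hσ i, show |pp P J b y i| ≤ 1 from (abs_tanh_lt_one _).le])

theorem nb_mono (hP : P.Ok) {t t' : ℝ} (h : t ≤ t') {y : V n} (hy : y ∈ NB P J b t) :
    y ∈ NB P J b t' := by
  obtain ⟨y0, h0, h1⟩ := hy
  exact ⟨y0, h0, h1.trans (mul_le_mul_of_nonneg_right h (by have := hP.2.2.1; positivity))⟩

/-- the observable without the cut-off -/
theorem abs_g (hn : 0 < n) (hK : 0 ≤ K) {u w : V n} {c : ℝ} (hu : nrm u ≤ K * √n)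
    (hw : nrm w ≤ c) : |u ⬝ᵥ w / √n| ≤ K * c := by
  have s : 0 < √(n : ℝ) := sqrt_pos.2 (by exact_mod_cast hn)
  rw [abs_div, abs_of_pos s, div_le_iff₀ s]
  exact (Eig.abs_dot_le u w).trans ((mul_le_mul hu hw (nrm_nonneg _) (by positivity)).trans_eq
    (by ring))

theorem sup (hn : 0 < n) (hK : 0 ≤ K) (hB : Br P J b) (he : BL K e) {σ : V n} (hσ : Cb σ)
    (y : V n) : |Psi P J b e σ y| ≤ 2 * K * √n := by
  rw [Psi, mul_div_assoc, abs_mul, abs_of_nonneg (hB.chi01 y).1]
  exact (mul_le_of_le_one_left (abs_nonneg _) (hB.chi01 y).2).trans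
    ((abs_g hn hK (nrm_le_of hK (he.1 y)) (nrm_sub_pp hσ y)).trans_eq (by ring))

theorem lip (hP : P.Ok) (hn : 0 < n) (hK : 0 ≤ K) (hB : Br P J b) (he : BL K e) {σ : V n}
    (hσ : Cb σ) : ELip (8 * K / P.ρ + 2 * K + K / P.c) (Psi P J b e σ) := by
  have s : 0 < √(n : ℝ) := sqrt_pos.2 (by exact_mod_cast hn)
  obtain ⟨c0, -, ρ0, -⟩ := hP
  have key : ∀ y y', chi P J b y ≠ 0 → |Psi P J b e σ y - Psi P J b e σ y'| ≤
      (8 * K / P.ρ + 2 * K + K / P.c) * nrm (y - y') := fun y y' h => by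
    have d0 := nrm_nonneg (y - y')
    have a1 : 0 ≤ 2 * K * nrm (y - y') := by positivity
    have a2 : 0 ≤ K / P.c * nrm (y - y') := by positivity
    rcases le_or_gt (nrm (y - y')) (P.ρ * √n / 2) with hd | hd
    · obtain ⟨y0, h0, h1⟩ := hB.chi0 y h
      have h2 : nrm (y' - y0) ≤ P.ρ * √n := by
        have := nrm_sub_le (y - y0) (y - y')
        rw [show y - y0 - (y - y') = y' - y0 by abel] at this
        linarith
      have h3 := hB.lip y0 h0 y y' (by nlinarith [mul_pos ρ0 s]) h2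
      have h4 := hB.chiL y y'
      have h5 := abs_g hn hK (nrm_le_of hK (he.1 y)) (nrm_sub_pp (P := P) (J := J) (b := b) hσ y)
      have h6 : |(σ - pp P J b y) ⬝ᵥ (e y - e y') / √n| ≤ 2 * (K * nrm (y - y')) :=
        abs_g hn zero_le_two (nrm_sub_pp hσ y) (he.2 y y')
      have h7 : |e y' ⬝ᵥ (pp P J b y - pp P J b y') / √n| ≤ K * (nrm (y - y') / P.c) :=
        abs_g hn hK (nrm_le_of hK (he.1 y')) (by rw [le_div_iff₀ c0]; linarith)
      have e1 : Psi P J b e σ y - Psi P J b e σ y' =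
          (chi P J b y - chi P J b y') * (e y ⬝ᵥ (σ - pp P J b y) / √n) + chi P J b y' *
            ((σ - pp P J b y) ⬝ᵥ (e y - e y') / √n - e y' ⬝ᵥ (pp P J b y - pp P J b y') / √n) := by
        simp only [Psi, dotProduct_sub, sub_dotProduct, dotProduct_comm σ,
          dotProduct_comm (pp P J b y)]
        ring
      rw [en_eq] at h4
      rw [e1]
      refine (abs_add_le _ _).trans ?_
      rw [abs_mul, abs_mul, abs_of_nonneg (hB.chi01 y').1]
      refine (add_le_add (mul_le_mul h4 h5 (abs_nonneg _) (by positivity))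
        ((mul_le_of_le_one_left (abs_nonneg _) (hB.chi01 y').2).trans ((abs_sub _ _).trans
          (add_le_add h6 h7)))).trans_eq ?_
      field_simp
      ring
    · have h1 : 4 * K * √n ≤ 8 * K / P.ρ * nrm (y - y') := by
        rw [div_mul_eq_mul_div, le_div_iff₀ ρ0]
        nlinarith [mul_le_mul_of_nonneg_left hd.le hK]
      linarith [abs_sub (Psi P J b e σ y) (Psi P J b e σ y'), sup hn hK hB he hσ y,
        sup hn hK hB he hσ y']
  intro y y'
  rw [en_eq]
  by_cases h : chi P J b y = 0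
  · by_cases h' : chi P J b y' = 0
    · simp only [Psi, h, h', zero_mul, zero_div, sub_self, abs_zero]
      have := nrm_nonneg (y - y')
      positivity
    · rw [abs_sub_comm, ← nrm_neg, neg_sub]; exact key y' y h'
  · exact key y y' h

theorem wt (J : Mx n) (y : V n) : SL.Wt (ising J y) := .of_pos fun _ => exp_pos _

theorem loc (hP : P.Ok) (hn : 0 < n) (hK : 0 ≤ K) (hB : Br P J b) (he : BL K e) (y : V n) :
    mean (ising J y) (fun x => Psi P J b e (sv x) y ^ 2) ≤ K ^ 2 * (P.M + P.M ^ 2) := by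
  have n0 : (0 : ℝ) < n := by exact_mod_cast hn
  have M0 := hP.2.2.2.2
  by_cases h : chi P J b y = 0
  · refine (wt J y).mean_le fun x => ?_
    rw [Psi, h, zero_mul, zero_div, zero_pow two_ne_zero]; positivity
  obtain ⟨-, h1, -, h2⟩ := hB.sol y (nb_mono hP (by norm_num) (hB.chi0 y h))
  have h3 := nrm_le_of hK (he.1 y)
  have h4 : e y ⬝ᵥ e y ≤ K ^ 2 * n := by
    rw [← nrm_sq, ← sq_sqrt n0.le, ← mul_pow]; exact pow_le_pow_left₀ (nrm_nonneg _) h3 2
  have h5 : (e y ⬝ᵥ (mag (ising J y) - pp P J b y)) ^ 2 ≤ K ^ 2 * n * P.M ^ 2 :=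
    (dot_sq_le _ _).trans (mul_le_mul h4 (by
      rw [← nrm_sq]; exact pow_le_pow_left₀ (nrm_nonneg _) h1 2) (dot_self_nonneg _) (by positivity))
  have h6 := (h2 (e y)).trans (mul_le_mul_of_nonneg_left h4 M0)
  rw [covM, SL.covMat_quad, (wt J y).cov_eq] at h6
  rw [dotProduct_sub, mag, SL.meanV_dot] at h5
  have h7 : ∀ x, Psi P J b e (sv x) y ^ 2 ≤ (e y ⬝ᵥ sv x * (e y ⬝ᵥ sv x) -
      2 * (e y ⬝ᵥ pp P J b y) * (e y ⬝ᵥ sv x) + (e y ⬝ᵥ pp P J b y) ^ 2) / n := fun x => by
    rw [Psi, div_pow, sq_sqrt n0.le, mul_pow, dotProduct_sub]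
    refine div_le_div_of_nonneg_right ((mul_le_of_le_one_left (sq_nonneg _)
      (pow_le_one₀ (hB.chi01 y).1 (hB.chi01 y).2)).trans_eq (by ring)) n0.le
  refine ((wt J y).mean_mono h7).trans ?_
  rw [SL.mean_div_const, SL.mean_add, SL.mean_sub, SL.mean_const_mul, (wt J y).mean_const,
    div_le_iff₀ n0]
  nlinarith

/-- mean and mean square of a bounded Lipschitz function of a Gaussian vector -/
theorem sq_var {F : V n → ℝ} {L B : ℝ} (h : ELip L F) (hB : ∀ z, |F z| ≤ B) :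
    (∫ z, F z ∂gv (Fin n)) ^ 2 ≤ ∫ z, F z ^ 2 ∂gv (Fin n) ∧
      ∫ z, F z ^ 2 ∂gv (Fin n) ≤ (∫ z, F z ∂gv (Fin n)) ^ 2 + L ^ 2 := by
  have m : MemLp F 2 (gv (Fin n)) :=
    .of_bound h.continuous.aestronglyMeasurable B (.of_forall hB)
  have v1 := variance_eq_sub m
  have v2 := variance_eq_integral m.aemeasurable
  have v3 := variance_nonneg F (gv (Fin n))
  have v4 := Conc.var_lip h
  simp only [Pi.pow_apply] at v1
  constructor <;> linarith

end Ob2

open Ob2 in
theorem obStmt : ObStmt := fun P hP b r K hr => by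
  obtain ⟨L, hL⟩ : ∃ L, L = 8 * |K| / P.ρ + 2 * |K| + |K| / P.c := ⟨_, rfl⟩
  have M0 := hP.2.2.2.2
  have L0 : 0 ≤ L := by have := hP.1; have := hP.2.2.1; rw [hL]; positivity
  have a1 : 0 ≤ L ^ 2 * r := by positivity
  have a2 : 0 ≤ K ^ 2 * (P.M + P.M ^ 2) := by positivity
  have a3 : 0 ≤ |K| * P.M := by positivity
  have a4 := abs_nonneg K
  refine ⟨L + L ^ 2 * r + K ^ 2 * (P.M + P.M ^ 2) + |K| * P.M + 2 * |K|, by positivity,
    fun n J e hn hB he => ?_⟩
  have hK : 0 ≤ K := (abs_nonneg _).trans (he.1 0 ⟨0, hn⟩)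
  rw [abs_of_nonneg hK] at *
  have s := sqrt_nonneg (n : ℝ)
  have l := fun σ hσ => hL ▸ lip hP hn hK hB he (σ := σ) hσ
  have su := fun σ hσ => sup hn hK hB he (σ := σ) hσ
  have lo := loc hP hn hK hB he
  refine ⟨fun σ hσ => (l σ hσ).mono (by linarith), fun σ y hσ => (su σ hσ y).trans (by
    gcongr; linarith), fun σ y hy => ?_, fun y => (lo y).trans (by linarith), fun x => ?_,
    fun x => ?_, ?_⟩
  · rw [Psi, hB.chi1 y hy, one_mul, ← sub_div, ← dotProduct_sub, sub_sub_sub_cancel_left]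
    exact (abs_g hn hK (nrm_le_of hK (he.1 y)) (hB.sol y (nb_mono hP (by norm_num) hy)).2.1).trans
      (by linarith)
  · refine le_trans ?_ (mul_le_mul_of_nonneg_right (show 2 * K ≤ _ by linarith) s)
    simpa [Phi] using norm_integral_le_of_norm_le_const (μ := gv (Fin n)) (C := 2 * K * √n)
      (f := fun z => Psi P J b e (sv x) (r • sv x + √r • z))
      (.of_forall fun z => su _ (cb_sv x) (r • sv x + √r • z))
  · have := sq_var (F := fun z => Psi P J b e (sv x) (r • sv x + √r • z)) (L := L * √r)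
      (fun z z' => (l _ (cb_sv x) _ _).trans_eq (by
        rw [add_sub_add_left_eq_sub, ← smul_sub, Conc.en_smul, abs_of_nonneg (sqrt_nonneg r),
          mul_assoc])) fun z => su _ (cb_sv x) _
    rw [mul_pow, sq_sqrt hr] at this
    exact ⟨this.1, this.2.trans (add_le_add le_rfl (by linarith))⟩
  · have m : ∀ x, SL.MG fun y => Psi P J b e (sv x) y ^ 2 := fun x =>
      .of_bdd ((l _ (cb_sv x)).continuous.pow 2).measurable ((2 * K * √n) ^ 2) fun y => by
        rw [abs_pow]; exact pow_le_pow_left₀ (abs_nonneg _) (su _ (cb_sv x) y) 2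
    refine (SL.bayes (φ := sv) (wt J 0) hr (.of_mg m)).trans_le ((SL.slE_mono (wt J 0)
      (F' := fun _ _ => K ^ 2 * (P.M + P.M ^ 2)) (.of_mg fun _ => SL.mg_mean (wt J 0) r m)
      (fun _ => integrable_const _) fun _ y => ?_).trans ?_)
    · have := lo y
      rwa [mean, prob_post_sv, tilt_ising, zero_add]
    · rw [SL.slE_fun, (wt J 0).mean_const]; linarith

end Crest.Agent.T157.Z

end
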