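import Crest.Agent.T157.ZDef_73
import Crest.Agent.T157.ZGr_23

/-!
# Row 157, part B, package (Z): Richardson iteration and the words of the branch (helper54)
-/

set_option autoImplicit false
set_option linter.unusedVariables false

noncomputable section

namespace Crest.Agent.T157.Z

open Matrix Filter Set
open Crest.Agent.T157.E Crest.Agent.T157.Eig Crest.Agent.T157.Tap

namespace Ri54

section det
variable {n : ℕ} {J : Mx n} {b c η : ℝ} {p : V n}

/-- the word `D v` -/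
def Dw (p v : V n) : V n := fun i => (1 - min (p i ^ 2) 1) * v i
/-- the word `B₁ g` -/
def Bw (J : Mx n) (b : ℝ) (p g : V n) : V n :=
  J *ᵥ g - b • g + b • avg (p * p) • g + (2 * b) • avg (p * g) • p
/-- Richardson iterates -/
def it (J : Mx n) (b η : ℝ) (p u : V n) : ℕ → V n
  | 0 => 0
  | k + 1 => (1 - η) • it J b η p u k + η • Dw p (Bw J b p (it J b η p u k) + u)

theorem avg_DD (hn : n ≠ 0) (p : V n) : avg (DD p) = 1 - avg (p * p) := by
  have : (n : ℝ) ≠ 0 := Nat.cast_ne_zero.2 hn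
  simp only [avg, DD, Finset.sum_sub_distrib, sq, Pi.mul_apply]
  simp [sub_div, this]

theorem Dw_eq (hp : Cb p) (v : V n) : Dw p v = dd p * (dd p * v) := funext fun i => by
  simp only [Dw, Pi.mul_apply, ← mul_assoc, hp.dd_mul, min_eq_left (hp.sq_le i), DD]

theorem Bw_eq (hp : Cb p) (g : V n) : Bw J b p g = B1 J b p *ᵥ g := by
  rcases eq_or_ne n 0 with rfl | hn
  · exact Subsingleton.elim _ _
  rw [hp.B1_eq, avg_DD hn, add_mulVec, sub_mulVec, smul_mulVec, smul_mulVec, one_mulVec,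
    vecMulVec_mulVec, Bw, show avg (p * g) = (p ⬝ᵥ g) / n from rfl]
  ext i
  simp only [Pi.add_apply, Pi.sub_apply, Pi.smul_apply, smul_eq_mul, MulOpposite.smul_eq_mul_unop,
    MulOpposite.unop_op]
  ring

theorem dg (d v : V n) : diagonal d *ᵥ v = d * v := funext fun i => mulVec_diagonal _ _ _

theorem it_le (hS : Jᵀ = J) (hJ : opn J ≤ 3) (hb : b ∈ Icc (0 : ℝ) 1) (hc : c ∈ Ioc (0 : ℝ) 1)
    (hp : Cb p) (hP : Pos c (NN (B1 J b p) (dd p))) (u : V n) (k : ℕ) :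
    nrm (GG (B1 J b p) (dd p) *ᵥ u - it J b (1 / 7) p u k) ≤ (1 - 1 / 7 * c) ^ k * (1 / c * nrm u) := by
  have hd := (ub_dd p).abs_le
  have hB : ∀ u, nrm (B1 J b p *ᵥ u) ≤ 6 * nrm u := fun u => (nrm_mulVec_le _ _).trans
    (mul_le_mul_of_nonneg_right (by linarith [opn_B1_le hJ hb hp]) (nrm_nonneg _))
  have eN : ∀ u : V n, NN (B1 J b p) (dd p) *ᵥ u = u - dd p * B1 J b p *ᵥ (dd p * u) := fun u => by
    rw [NN, sub_mulVec, one_mulVec, ← mulVec_mulVec, ← mulVec_mulVec, dg, dg]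
  have h7 : opn (NN (B1 J b p) (dd p)) ≤ 7 := opn_le_of_nrm (by norm_num) fun u => by
    rw [eN]
    linarith [nrm_sub_le u (dd p * B1 J b p *ᵥ (dd p * u)), Md.nrm_mul_le hd (B1 J b p *ᵥ (dd p * u)),
      hB (dd p * u), Md.nrm_mul_le hd u]
  set h := (NN (B1 J b p) (dd p))⁻¹ *ᵥ (dd p * u) with hh
  have eG : GG (B1 J b p) (dd p) *ᵥ u = dd p * h := by
    rw [GG, ← mulVec_mulVec, ← mulVec_mulVec, dg, dg]
  have eh : h - dd p * B1 J b p *ᵥ (dd p * h) = dd p * u := by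
    rw [← eN, hh, mulVec_mulVec, mul_nonsing_inv _ (hP.isUnit_det hc.1), one_mulVec]
  suffices H : ∃ e, dd p * h - it J b (1 / 7) p u k = dd p * e ∧
      nrm e ≤ (1 - 1 / 7 * c) ^ k * (1 / c * nrm u) by
    obtain ⟨e, e1, e2⟩ := H
    rw [eG, e1]; exact (Md.nrm_mul_le hd e).trans e2
  induction k with
  | zero =>
    refine ⟨h, sub_zero _, ?_⟩
    rw [pow_zero, one_mul]
    exact (nrm_mulVec_le _ _).trans (mul_le_mul (hP.opn_inv_le hc.1) (Md.nrm_mul_le hd u)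
      (nrm_nonneg _) (by have := hc.1; positivity))
  | succ k ih =>
    obtain ⟨e, e1, e2⟩ := ih
    refine ⟨e - (1 / 7 : ℝ) • NN (B1 J b p) (dd p) *ᵥ e, ?_, ?_⟩
    · rw [it, Dw_eq hp, Bw_eq hp, eN, show it J b (1 / 7) p u k = dd p * h - dd p * e by
        rw [← e1]; abel, mul_add, ← eh, mulVec_sub]
      simp only [mul_sub, mul_add, mul_smul_comm]
      module
    · refine (Md.contr (NN_symm (B1_symm hS b p) _) hP h7 hc.2 (by norm_num) le_rfl e).trans ?_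
      rw [pow_succ', mul_assoc]
      exact mul_le_mul_of_nonneg_left e2 (by linarith [hc.2])

theorem el_D : EL fun u : Fin 1 → ℝ => 1 - min (u 0 ^ 2) 1 := by
  refine ⟨fun u => by simp, ⟨2, .of_dist_le_mul fun u v => ?_⟩, 1, fun u => ?_⟩
  · have e : ∀ a : ℝ, min (a ^ 2) 1 = min |a| 1 ^ 2 := fun a => by
      rcases le_total |a| 1 with h | h
      · rw [min_eq_left h, sq_abs, min_eq_left ((sq_le_one_iff_abs_le_one a).2 h)]
      · rw [min_eq_right h, one_pow, min_eq_right ((one_le_sq_iff_one_le_abs a).2 h)]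
    have h1 : |min |v 0| 1 - min |u 0| 1| ≤ dist u v :=
      (abs_min_sub_min_le_max _ _ _ _).trans (max_le ((abs_abs_sub_abs_le _ _).trans (by
        rw [abs_sub_comm]; exact dist_le_pi_dist u v 0)) (by simp))
    have h2 : |min |v 0| 1 + min |u 0| 1| ≤ 2 := by
      rw [abs_of_nonneg (by positivity)]; linarith [min_le_right |v 0| 1, min_le_right |u 0| 1]
    rw [Real.dist_eq, e, e, sub_sub_sub_cancel_left, sq_sub_sq, abs_mul]
    exact mul_le_mul h2 h1 (abs_nonneg _) zero_le_two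
  · rw [abs_le]
    constructor <;> linarith [min_le_right (u 0 ^ 2) 1, le_min (sq_nonneg (u 0)) zero_le_one]

end det

variable {ι : Type} [Fintype ι] {β b : ℝ} {c d : ι → ℝ} {p U W : Nt ι}

theorem congr (hH : HpStmt) (hA : ApA) (h : Ap β c d W) (e : Hp β c d fun n J a => U n J a = W n J a) :
    Ap β c d U := hA.lim ι β c d U fun ε hε => ⟨W, h, hH.mono ι β c d _ _ e (.of_forall fun n J a e => by
      rw [e, sub_self, nrm_eq_zero.2 rfl]; positivity)⟩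

theorem ap_add (hB : ApB) (hβ : β ∈ Icc (0 : ℝ) 1) (h : Ap β c d U) (h' : Ap β c d W) :
    Ap β c d fun n J a => U n J a + W n J a := by simpa using hB.add ι β hβ c d U W 1 1 h h'

theorem ap_smul (hB : ApB) (hβ : β ∈ Icc (0 : ℝ) 1) (s : ℝ) (h : Ap β c d U) :
    Ap β c d fun n J a => s • U n J a := by simpa using hB.add ι β hβ c d U U s 0 h h

theorem ap_sub (hB : ApB) (hβ : β ∈ Icc (0 : ℝ) 1) (h : Ap β c d U) (h' : Ap β c d W) :
    Ap β c d fun n J a => U n J a - W n J a := by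
  simpa [sub_eq_add_neg] using hB.add ι β hβ c d U W 1 (-1) h h'

theorem ap_D (hB : ApB) (hβ : β ∈ Icc (0 : ℝ) 1) (hp : Ap β c d p) (h : Ap β c d U) :
    Ap β c d fun n J a => Dw (p n J a) (U n J a) := by
  have := hB.ev ι β hβ c d 1 (fun u => 1 - min (u 0 ^ 2) 1) (fun _ => p) U el_D (fun _ => hp) h
  exact this

theorem ap_B (hB : ApB) (hβ : β ∈ Icc (0 : ℝ) 1) (b : ℝ) (hp : Ap β c d p) (h : Ap β c d U) :
    Ap β c d fun n J a => Bw J b (p n J a) (U n J a) :=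
  ap_add hB hβ (ap_add hB hβ (ap_sub hB hβ (hB.mul ι β hβ c d U h).1 (ap_smul hB hβ b h))
    (ap_smul hB hβ b (hB.sc ι β hβ c d p p U hp hp h))) (ap_smul hB hβ _ (hB.sc ι β hβ c d p U p hp h hp))

theorem ap_it (hB : ApB) (hβ : β ∈ Icc (0 : ℝ) 1) (b η : ℝ) (hp : Ap β c d p) (h : Ap β c d U) (k : ℕ) :
    Ap β c d fun n J a => it J b η (p n J a) (U n J a) k := by
  induction k with
  | zero => simpa [it] using ap_smul hB hβ 0 h
  | succ k ih => exact hB.add ι β hβ c d _ _ _ _ ih (ap_D hB hβ hp (ap_add hB hβ (ap_B hB hβ b hp ih) h))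

end Ri54

open Ri54

theorem richGlue : RichGlue := by
  intro hL hH hA hB ι _ β hβ b hb c0 hc0 c d p U hp hU h
  refine hA.lim ι β c d _ fun ε hε => ?_
  obtain ⟨C, C0, hC⟩ := (hA.bd ι β c d U hU).1
  obtain ⟨K, hK⟩ := hH.good ι β hβ c d
  have hc : min c0 1 ∈ Ioc (0 : ℝ) 1 := ⟨lt_min hc0 one_pos, min_le_right _ _⟩
  have h1 := hc.1
  obtain ⟨k, hk⟩ := exists_pow_lt_of_lt_one (show 0 < ε / (1 / min c0 1 * C + 1) by positivity)
    (show 1 - 1 / 7 * min c0 1 < 1 by linarith)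
  refine ⟨_, ap_it hB hβ b (1 / 7) hp hU k, hH.mono ι β c d _ _
    (hH.and ι β c d _ _ (hH.and ι β c d _ _ hK hC) h) (.of_forall fun n J a ⟨⟨g, u⟩, q, P⟩ => ?_)⟩
  refine (it_le g.1 g.2.1 hb hc q (fun v => le_trans (mul_le_mul_of_nonneg_right (min_le_left _ _)
    (Eig.dot_self_nonneg v)) (P v)) _ k).trans ?_
  have h2 : 0 ≤ (1 - 1 / 7 * min c0 1) ^ k := pow_nonneg (by linarith [hc.2]) _
  rw [lt_div_iff₀ (by positivity)] at hk
  calc _ ≤ (1 - 1 / 7 * min c0 1) ^ k * (1 / min c0 1 * (C * √n)) := by gcongr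
    _ = (1 - 1 / 7 * min c0 1) ^ k * (1 / min c0 1 * C) * √n := by ring
    _ ≤ _ := by gcongr; nlinarith

theorem xsGlue : XsGlue := by
  intro hL hH hA hB hS hR β hβ r hr P hP hT
  have hβ' : β ∈ Icc (0 : ℝ) 1 := Ioo_subset_Icc_self hβ
  have hb : β ^ 2 ∈ Icc (0 : ℝ) 1 := ⟨sq_nonneg _, pow_le_one₀ hβ'.1 hβ'.2⟩
  obtain ⟨K, hK⟩ := hH.good Unit β hβ' (fun _ => r) fun _ => √r
  have H := hH.and _ _ _ _ _ _ hK ((hH.ty β r hr _).1 hT)
  have nb : ∀ {n : ℕ} {J : Mx n} {y : V n}, y ∈ An P J (β ^ 2) → y ∈ NB P J (β ^ 2) 1 :=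
    fun {n J y} hy => ⟨y, hy, by
      rw [sub_self, nrm_eq_zero.2 rfl]; have := hP.2.2.1; positivity⟩
  have h1 : Rq β r fun _ J y => pp P J (β ^ 2) y := by
    refine hA.lim _ _ _ _ _ fun ε hε => ⟨_, hS β hβ r hr, hH.mono _ _ _ _ _ _ H ?_⟩
    have := (Real.tendsto_sqrt_atTop.comp tendsto_natCast_atTop_atTop).const_mul_atTop hε
    filter_upwards [hR P hP _ hb, this.eventually_ge_atTop P.M] with n h1 h2 J a ⟨g, y⟩
    rw [← nrm_neg, neg_sub]
    exact ((h1 J g.1 g.2.1).sol _ (nb y)).2.1.trans h2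
  refine ⟨h1, congr hH hA (ap_add hB hβ' (ap_sub hB hβ' (ap_add hB hβ'
    (hA.net _ β hβ' _ _ _ (.inp ())) (hB.mul _ β hβ' _ _ _ h1).1) (ap_smul hB hβ' (β ^ 2) h1))
    (ap_smul hB hβ' (β ^ 2) (hB.sc _ β hβ' _ _ _ _ _ h1 h1 h1))) (hH.mono _ _ _ _ _ _ H ?_)⟩
  filter_upwards [hR P hP _ hb, eventually_ne_atTop 0] with n h1 hn J a ⟨g, y⟩
  have := ((h1 J g.1 g.2.1).sol _ (nb y)).1.1
  rw [Ymap, avg_DD hn] at this
  conv_rhs => enter [1, 1, 1]; rw [← this]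
  simp only [pp]
  module

end Crest.Agent.T157.Z
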