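import Crest.Agent.T157.ZDefS_73
import Crest.Agent.T157.LmLim_32

/-!
# Row 157, part B: change of the number of layers; planted means (helper33)
-/

set_option autoImplicit false
set_option linter.unusedSectionVars false

noncomputable section

namespace Crest.Agent.T157.Z

open MeasureTheory ProbabilityTheory Matrix Filter Set Topology
open Crest.ProbabilityR.SpinGlassDynamics
open Crest.Agent.T157.E Crest.Agent.T157.Eig Crest.Agent.T157.Tap
open Crest.Agent.T157.Lm (Fam Nv co pt ix Jm Wk Adm n2 ipx av RP M2 Cv)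
open Crest.Agent.T157.Lm.Lim32 (co_pt mp_cp)
open Crest.Agent.R253.Meh74 (gam)

namespace Wk33

variable {L n : ℕ}

/-- positions of the coupling variables -/
def ps (L n : ℕ) (j : Fin (Nv 0 n)) : Fin (Nv L n) :=
  ix L n (Sum.map id (fun p => p.1.elim0) ((ix 0 n).symm j))

lemma ps_inj : Function.Injective (ps L n) := fun _ _ h =>
  (ix 0 n).symm.injective (Function.injective_id.sumMap (fun p _ _ => p.1.elim0)
    ((ix L n).injective h))

lemma pj_eq (z : R238.Gap.E (Nv L n)) : pj z = WithLp.toLp 2 fun j => z (ps L n j) := by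
  refine congrArg (WithLp.toLp 2) (funext fun j => ?_)
  rw [ps]
  rcases (ix 0 n).symm j with e | p
  · rfl
  · exact p.1.elim0

lemma mp_pj : MeasurePreserving (pj : R238.Gap.E (Nv L n) → _) (gam _) (gam _) := by
  have e : (pj : R238.Gap.E (Nv L n) → _) = fun z => WithLp.toLp 2 fun j => z (ps L n j) :=
    funext pj_eq
  rw [e]
  refine ⟨by fun_prop, ?_⟩
  have h := (R339.Guerra.mp_comp (ps L n) ps_inj).map_eq
  rw [gam, gam, ← map_pi_eq_stdGaussian, ← map_pi_eq_stdGaussian,
    Measure.map_map (by fun_prop) (by fun_prop)]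
  refine Eq.trans ?_ (congrArg (Measure.map (WithLp.toLp 2)) h)
  rw [Measure.map_map (by fun_prop) (by fun_prop)]
  rfl

lemma rp_lift (L : ℕ) {C : Type} {q : Fam 0 C} (h : RP C q) : RP C (lift L q) := by
  induction h with
  | edge a b =>
    exact (RP.edge a b).congr (.of_forall fun n => by funext x z; simp [lift, pj, co_pt])
  | site l a => exact l.elim0
  | eq a b => exact RP.eq a b
  | const h => exact RP.const h
  | add _ _ h1 h2 => exact h1.add h2
  | mul _ _ h1 h2 => exact h1.mul h2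
  | sum _ h1 => exact h1.sum
  | congr _ h h1 => exact h1.congr (h.mono fun n hn => by funext x z; simp only [lift, hn])

lemma m2_pj {f : R238.Gap.E (Nv 0 n) → ℝ} (h : M2 f) : M2 fun z : R238.Gap.E (Nv L n) => f (pj z) :=
  ⟨h.1.comp mp_pj.measurable, h.2.comp_measurePreserving mp_pj⟩

variable {C : Type} [Fintype C] [DecidableEq C]

lemma ipx_lift {F G : Fam 0 C} (hF : ∀ x, M2 (F n x)) (hG : ∀ x, M2 (G n x)) :
    ipx (lift L F) (lift L G) n = ipx F G n :=
  congrArg av (funext fun x => R339.Guerra.mp_int mp_pj (f := fun z => F n x z * G n x z)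
    ((hF x).1.mul (hG x).1).aestronglyMeasurable)

lemma n2_lift {F : Fam 0 C} (hF : ∀ x, M2 (F n x)) : n2 (lift L F) n = n2 F n :=
  congrArg av (funext fun x => R339.Guerra.mp_int mp_pj (f := fun z => F n x z ^ 2)
    ((hF x).1.pow_const 2).aestronglyMeasurable)

lemma av_mono {a b : (C → Fin n) → ℝ} (h : ∀ x, a x ≤ b x) : av a ≤ av b :=
  div_le_div_of_nonneg_right (Finset.sum_le_sum fun x _ => h x) (by positivity)

lemma av_lin (s t : ℝ) (a b : (C → Fin n) → ℝ) :
    av (fun x => s * a x + t * b x) = s * av a + t * av b := by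
  simp only [av, Finset.sum_add_distrib, ← Finset.mul_sum]; ring

lemma abs_av_le (a : (C → Fin n) → ℝ) : |av a| ≤ av fun x => |a x| := by
  rw [av, abs_div, abs_of_nonneg (a := (n : ℝ) ^ _) (by positivity)]
  exact div_le_div_of_nonneg_right (Finset.abs_sum_le_sum_abs _ _) (by positivity)

lemma abs_ipx_le {F G : Fam L C} (hF : ∀ x, M2 (F n x)) (hG : ∀ x, M2 (G n x)) {t : ℝ}
    (ht : 0 < t) : |ipx F G n| ≤ 1 / t * n2 F n + t * n2 G n := by
  rw [n2, n2, ← av_lin]
  refine (abs_av_le _).trans (av_mono fun x => ?_)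
  rw [Lm.sq, Lm.sq, ← integral_const_mul, ← integral_const_mul, ← integral_add
    ((hF x).2.integrable_sq.const_mul _) ((hG x).2.integrable_sq.const_mul _)]
  refine norm_integral_le_of_norm_le (f := fun z => F n x z * G n x z) (((hF x).2.integrable_sq.const_mul _).add
    ((hG x).2.integrable_sq.const_mul _)) (.of_forall fun z => ?_)
  rw [Real.norm_eq_abs, abs_mul, ← sq_abs (F n x z), ← sq_abs (G n x z)]
  have e : 1 / t * |F n x z| ^ 2 + t * |G n x z| ^ 2 - 2 * (|F n x z| * |G n x z|) =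
      (|F n x z| - t * |G n x z|) ^ 2 / t := by field_simp; ring
  have : 0 ≤ (|F n x z| - t * |G n x z|) ^ 2 / t := by positivity
  nlinarith [mul_nonneg (abs_nonneg (F n x z)) (abs_nonneg (G n x z))]

lemma ipx_sub {F G H : Fam L C} (hF : ∀ x, M2 (F n x)) (hG : ∀ x, M2 (G n x))
    (hH : ∀ x, M2 (H n x)) : ipx (F - G) H n = ipx F H n - ipx G H n := by
  have := av_lin 1 (-1) (fun x => ∫ z, F n x z * H n x z ∂gam _)
    fun x => ∫ z, G n x z * H n x z ∂gam _
  simp only [one_mul, neg_mul, ← sub_eq_add_neg] at this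
  rw [ipx, ipx, ipx, ← this]
  refine congrArg av (funext fun x => ?_)
  simp only [Pi.sub_apply, sub_mul]
  exact integral_sub ((hF x).2.integrable_mul (hH x).2) ((hG x).2.integrable_mul (hH x).2)

lemma n2_le {F G : Fam L C} (hF : ∀ x, M2 (F n x)) (hG : ∀ x, M2 (G n x)) :
    n2 F n ≤ 2 * n2 (F - G) n + 2 * n2 G n := by
  rw [n2, n2, n2, ← av_lin]
  refine av_mono fun x => ?_
  have i := ((hF x).2.sub (hG x).2).integrable_sq
  rw [Lm.sq, Lm.sq, Lm.sq, ← integral_const_mul, ← integral_const_mul]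
  refine le_of_le_of_eq (integral_mono (hF x).2.integrable_sq ((i.const_mul 2).add
    ((hG x).2.integrable_sq.const_mul 2)) fun z => ?_)
    (integral_add (i.const_mul 2) ((hG x).2.integrable_sq.const_mul 2))
  simp only [Pi.add_apply, Pi.sub_apply]
  nlinarith [sq_nonneg (F n x z - 2 * G n x z)]

lemma cv_of_approx {a : ℕ → ℝ}
    (h : ∀ δ > (0 : ℝ), ∃ b, Cv b ∧ ∀ᶠ n in atTop, |a n - b n| ≤ δ) : Cv a := by
  refine cauchySeq_tendsto_of_complete (Metric.cauchySeq_iff.2 fun ε hε => ?_)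
  obtain ⟨b, ⟨l, hl⟩, hb⟩ := h (ε / 4) (by positivity)
  obtain ⟨N, hN⟩ := eventually_atTop.1 (hb.and (Metric.tendsto_nhds.1 hl (ε / 4) (by positivity)))
  refine ⟨N, fun m hm k hk => ?_⟩
  have h1 := hN m hm
  have h2 := hN k hk
  rw [Real.dist_eq, abs_le, abs_lt] at h1 h2
  rw [Real.dist_eq, abs_lt]
  constructor <;> linarith [h1.1.1, h1.1.2, h1.2.1, h1.2.2, h2.1.1, h2.1.2, h2.2.1, h2.2.2]

lemma Jm_eq (β : ℝ) (z : R238.Gap.E (Nv L n)) : Jm β z = β • Jmat n (Lm.Lim32.cp β z) := by
  ext i j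
  simp only [Jm, of_apply, Matrix.smul_apply, smul_eq_mul]
  rcases lt_trichotomy i j with h | rfl | h
  · rw [if_neg h.ne, Jmat_apply_lt _ h]
    simp only [Lm.Lim32.cp, Lm.Lim32.ps, co, Pl.th]; ring
  · rw [if_pos rfl, Jmat_diag, mul_zero]
  · rw [if_neg h.ne', Jmat_apply_gt _ h, Sym2.eq_swap]
    simp only [Lm.Lim32.cp, Lm.Lim32.ps, co, Pl.th]; ring

lemma sy_Jmat (β : ℝ) (g : Pair n → ℝ) : Sy (β • Jmat n g) :=
  ⟨by rw [transpose_smul, Jmat_transpose], fun i => by simp [Jmat_diag]⟩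

end Wk33

open Wk33 in
theorem wkLGlue : WkLGlue := by
  intro _ hp C _ _ F hF h
  refine ⟨hF, ?_, fun q hq ⟨B, hB⟩ => cv_of_approx fun δ hδ => ?_⟩
  · obtain ⟨L, G, ⟨hG, ⟨B, hB⟩, -⟩, h1⟩ := h 1 one_pos
    refine ⟨2 * 1 + 2 * B, ?_⟩
    filter_upwards [hF, hG, hB, h1] with n a1 a2 a3 a4
    have := n2_le (F := lift L F) (fun x => m2_pj (a1.1 x)) a2.1
    rw [n2_lift a1.1] at this
    linarith
  · have b0 : 0 < |B| + 1 := by positivity
    set t := δ / (|B| + 1) with ht
    have t0 : 0 < t := by positivity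
    obtain ⟨L, G, ⟨hG, -, hc⟩, h1⟩ := h (t ^ 2) (by positivity)
    have hA := hp.eqv 0 C q hq
    refine ⟨_, hc (lift L q) (rp_lift L hq) ⟨B, ?_⟩, ?_⟩
    · filter_upwards [hA, hB] with n a1 a2
      rwa [n2_lift a1.1]
    filter_upwards [hF, hG, hA, hB, h1] with n a1 a2 a3 a4 a5
    have m1 : ∀ x, M2 (lift L F n x) := fun x => m2_pj (a1.1 x)
    have m3 : ∀ x, M2 (lift L q n x) := fun x => m2_pj (a3.1 x)
    rw [← ipx_lift (L := L) a1.1 a3.1, ← ipx_sub m1 a2.1 m3]
    refine (abs_ipx_le (F := lift L F - G) (fun x => ⟨(m1 x).1.sub (a2.1 x).1,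
      (m1 x).2.sub (a2.1 x).2⟩) m3 t0).trans ?_
    rw [n2_lift a3.1]
    calc _ ≤ 1 / t * t ^ 2 + t * |B| := by gcongr; exact a4.trans (le_abs_self _)
      _ = t * (|B| + 1) := by field_simp; ring
      _ = δ := by rw [ht]; field_simp

open Wk33 in
theorem plTGlue : PlTGlue := by
  intro _ h2 β hβ L f B ε hε hg hb _ hm hw
  obtain ⟨C, hC⟩ := h2 β hβ.1 hβ.2
  set t := ε / (2 * ((|B| + 1) * (|C| + 1))) with ht
  have t0 : 0 < t := by positivity
  filter_upwards [Top.whp_iff.1 hw (ε * t / (2 * (|B| + 1))) (by positivity)] with n hn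
  have hb' : ∀ g x, 0 ≤ f n (β • Jmat n g) x ∧ f n (β • Jmat n g) x ≤ |B| + 1 := fun g x =>
    ⟨(hb n _ x (sy_Jmat β g)).1, (hb n _ x (sy_Jmat β g)).2.trans (by linarith [le_abs_self B])⟩
  have e := Pl.planted_inv false β (F := fun x g => f n (β • Jmat n g) x)
    (G := fun ξ => f n (β • Jmat n ξ) (Pl.one n)) (fun x ξ => by
      rw [← hg n _ x (sy_Jmat β _), Pl.Jmat_gauge, ← Matrix.smul_mul, ← Matrix.mul_smul]
      exact congrArg (f n · _) (TapPl.cj_cj (Pl.isSign_sv x) _))
    ((integrable_const (|B| + 1)).mono' (hm n _).aestronglyMeasurable (.of_forall fun g => by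
      rw [Real.norm_of_nonneg (hb' g _).1]; exact (hb' g _).2))
  simp only [Jm_eq]
  rw [R339.Guerra.mp_int (mp_cp β) (f := fun ξ => f n (β • Jmat n ξ) (Pl.one n))
    (hm n _).aestronglyMeasurable, ← e]
  set S := {g | ¬ mean (gibbsWeight n β g) (f n (β • Jmat n g)) ≤ ε} with hS
  have mS : MeasurableSet S := (measurableSet_le (Finset.measurable_sum _ fun x _ =>
    (Pl.continuous_prob β x).measurable.mul (hm n x)) measurable_const).compl
  have i1 := (Pl.integrable_LR (n := n) false β).const_mul ε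
  have i2 := (hC n).1.const_mul ((|B| + 1) * t)
  have i3 : Integrable (fun g => (|B| + 1) / t * S.indicator (fun _ => (1 : ℝ)) g)
      (disorderLaw n) := ((integrable_const _).indicator mS).const_mul _
  have h1 := integral_mono_of_nonneg (μ := disorderLaw n)
    (f := fun g => Pl.LR false n β g * mean (gibbsWeight n β g) fun x => f n (β • Jmat n g) x)
    (.of_forall fun g => mul_nonneg (div_pos (Pl.Z_pos β g) (Pl.EZ_pos _ _ _)).le
      ((Pl.wt_gibbs β g).mean_nonneg fun x => (hb' g x).1)) ((i1.add i2).add i3)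
    (.of_forall fun g => by
      have l0 : 0 ≤ Pl.LR false n β g := (div_pos (Pl.Z_pos β g) (Pl.EZ_pos _ _ _)).le
      have p2 : 0 ≤ (|B| + 1) * t * Pl.LR false n β g ^ 2 := by positivity
      simp only [Pi.add_apply]
      by_cases hgS : g ∈ S
      · rw [indicator_of_mem hgS, mul_one]
        have a1 := mul_le_mul_of_nonneg_left ((Pl.wt_gibbs β g).mean_le fun x => (hb' g x).2) l0
        have a2 : Pl.LR false n β g ≤ t * Pl.LR false n β g ^ 2 + 1 / t := by
          have : t * Pl.LR false n β g ^ 2 + 1 / t - 2 * Pl.LR false n β g =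
              (t * Pl.LR false n β g - 1) ^ 2 / t := by field_simp; ring
          have : 0 ≤ (t * Pl.LR false n β g - 1) ^ 2 / t := by positivity
          linarith
        have a3 := mul_le_mul_of_nonneg_left a2 (show 0 ≤ |B| + 1 by positivity)
        have a4 : (|B| + 1) / t = (|B| + 1) * (1 / t) := by ring
        nlinarith [mul_nonneg hε.le l0]
      · rw [indicator_of_notMem hgS, mul_zero, add_zero]
        have a1 := mul_le_mul_of_nonneg_left (not_not.1 hgS) l0
        exact a1.trans (by linarith))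
  refine h1.trans ?_
  simp only [Pi.add_apply]
  erw [integral_add (i1.add i2) i3, integral_add i1 i2]
  rw [integral_const_mul, integral_const_mul, integral_const_mul, integral_indicator_const _ mS,
    smul_eq_mul, mul_one]
  erw [Pl.integral_LR]
  have b1 : (|B| + 1) * t * ∫ g, Pl.LR false n β g ^ 2 ∂disorderLaw n ≤ ε / 2 :=
    calc _ ≤ (|B| + 1) * t * (|C| + 1) := by
          gcongr; exact (hC n).2.trans (by linarith [le_abs_self C])
      _ = _ := by rw [ht]; field_simp
  have b2 : (|B| + 1) / t * (disorderLaw n).real S ≤ ε / 2 :=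
    calc _ ≤ (|B| + 1) / t * (ε * t / (2 * (|B| + 1))) := by
          gcongr; exact ENNReal.toReal_le_of_le_ofReal (by positivity) hn
      _ = _ := by field_simp
  rw [Pl.couplingLaw_false]
  linarith

end Crest.Agent.T157.Z

end
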