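import Crest.Agent.T157.ZDefF_73

/-!
# Row 157, part B, kernel route (helper62): label means of approximable words
-/

set_option autoImplicit false

noncomputable section

namespace Crest.Agent.T157.Zf

open MeasureTheory ProbabilityTheory Matrix Filter Set Real
open Crest.ProbabilityR.SpinGlassDynamics
open Crest.Agent.T157.E Crest.Agent.T157.Eig Crest.Agent.T157.Tap Crest.Agent.T157.Z
open scoped Topology

namespace Av62

variable {n : ℕ} {ι μ ν : Type} [Fintype ι] [Fintype μ] [Fintype ν]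

/-- the law of the labels -/
def Lb (μ : Type) [Fintype μ] (n : ℕ) : Measure (μ → V n) :=
  (gv (μ × Fin n)).map fun w l j => w (l, j)

theorem RL_eq (σ : V n) : RL (0 : μ → ℝ) 1 σ = Lb μ n := by
  rw [RL, Lb]; congr 1; funext w l j; simp [rows]

instance : IsProbabilityMeasure (Lb μ n) := RL_eq (μ := μ) (0 : V n) ▸ inferInstance

omit [Fintype μ] in
theorem mcu : Measurable fun (w : μ × Fin n → ℝ) (l : μ) (j : Fin n) => w (l, j) := by fun_prop

omit [Fintype ι] [Fintype μ] in
theorem mel : Measurable fun p : (ι → V n) × (μ → V n) => (Sum.elim p.1 p.2 : ι ⊕ μ → V n) :=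
  (MeasurableEquiv.sumPiEquivProdPi fun _ : ι ⊕ μ => V n).symm.measurable

omit [Fintype ι] [Fintype μ] in
theorem mel1 (a : ι → V n) : Measurable fun b : μ → V n => (Sum.elim a b : ι ⊕ μ → V n) :=
  mel.comp measurable_prodMk_left

theorem emb (f : μ ↪ ν) : (Lb ν n).map (fun b l => b (f l)) = Lb μ n := by
  rw [← RL_eq 0, Hp58.law_emb]; exact RL_eq 0

theorem pair (f : μ ⊕ μ ↪ ν) : (Lb ν n).map (fun b => (fun l => b (f (.inl l)),
    fun l => b (f (.inr l)))) = (Lb μ n).prod (Lb μ n) := by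
  have m1 : Measurable fun (b : ν → V n) l => b (f l) := by fun_prop
  have m2 : Measurable fun b : μ ⊕ μ → V n => (fun l => b (.inl l), fun l => b (.inr l)) := by
    fun_prop
  have e := Hp58.split (0 : μ → ℝ) 1 (0 : μ → ℝ) 1 (0 : V n)
  rw [Sum.elim_zero_zero, Sum.elim_one_one, RL_eq, RL_eq, ← emb f] at e
  have e2 := congrArg (Measure.map fun b : μ ⊕ μ → V n =>
    (fun l => b (.inl l), fun l => b (.inr l))) e
  rw [Measure.map_map m2 m1, Measure.map_map m2 mel] at e2
  exact e2.trans Measure.map_id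

theorem split (c d : ι → ℝ) (σ : V n) {B : Set (ι ⊕ μ → V n)} (hB : MeasurableSet B) :
    RL (Sum.elim c (0 : μ → ℝ)) (Sum.elim d 1) σ B =
      ∫⁻ a, Lb μ n {b | Sum.elim a b ∈ B} ∂(RL c d σ) := by
  rw [Hp58.split, Measure.map_apply mel hB, Measure.prod_apply (mel hB), RL_eq]
  rfl

/-- events that are likely given the rows -/
theorem fresh (β : ℝ) (c d : ι → ℝ) {k : ℝ} (hk : 0 < k) {P : ∀ n, Mx n → (ι ⊕ μ → V n) → Prop}
    (hm : ∀ n J, MeasurableSet {a | ¬ P n J a})
    (h : ∀ n J a, (Lb μ n).real {b | ¬ P n J (Sum.elim a b)} ≤ exp (-k * n)) :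
    Hp β (Sum.elim c 0) (Sum.elim d 1) P := by
  refine ⟨k, hk, Top.whp_of_eventually (.of_forall fun n g =>
    (Hp58.wt_gibbs n β g).mean_le fun x => ?_)⟩
  rw [Measure.real, split c d _ (hm n _)]
  refine ENNReal.toReal_le_of_le_ofReal (exp_pos _).le ((lintegral_mono (g := fun _ =>
    ENNReal.ofReal (exp (-k * n))) fun a => ?_).trans_eq (by simp))
  exact (ENNReal.le_ofReal_iff_toReal_le (measure_ne_top _ _) (exp_pos _).le).2 (h n _ a)

section gen
variable {α : Type} [MeasurableSpace α] (ρ : Measure α) [IsProbabilityMeasure ρ]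

theorem ib {f : α → ℝ} (hf : Measurable f) {K : ℝ} (h : ∀ a, |f a| ≤ K) : Integrable f ρ :=
  Integrable.of_bound hf.aestronglyMeasurable K (.of_forall h)

theorem ico {D : α → V n} (hD : Measurable D) {K : ℝ} (hK : ∀ a, nrm (D a) ≤ K) (i : Fin n) :
    Integrable (fun a => D a i) ρ :=
  ib ρ ((measurable_pi_apply i).comp hD) fun a => (abs_apply_le_nrm _ i).trans (hK a)

theorem nrm_int {D : α → V n} (hD : Measurable D) {K : ℝ} (hK : ∀ a, nrm (D a) ≤ K) :
    nrm (fun i => ∫ a, D a i ∂ρ) ≤ ∫ a, nrm (D a) ∂ρ := by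
  obtain ⟨v, hv⟩ : ∃ v : V n, v = fun i => ∫ a, D a i ∂ρ := ⟨_, rfl⟩
  have i1 := fun i => (ico ρ hD hK i).const_mul (v i)
  have i2 := ib ρ (continuous_nrm.measurable.comp hD) (K := K) fun a =>
    (abs_of_nonneg (nrm_nonneg _)).trans_le (hK a)
  have e : nrm v * nrm v ≤ nrm v * ∫ a, nrm (D a) ∂ρ := by
    rw [nrm_mul_self, ← integral_const_mul]
    calc v ⬝ᵥ v = ∫ a, ∑ i, v i * D a i ∂ρ := by
          rw [integral_finsetSum _ fun i _ => i1 i]
          exact Finset.sum_congr rfl fun i _ => by rw [integral_const_mul]; congr 1; rw [hv]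
      _ ≤ _ := integral_mono (integrable_finsetSum _ fun i _ => i1 i) (i2.const_mul _)
          fun a => dot_le v (D a)
  rw [← hv]
  rcases (nrm_nonneg v).eq_or_lt with h0 | h0
  · rw [← h0]; exact integral_nonneg fun a => nrm_nonneg _
  · exact le_of_mul_le_mul_left e h0

theorem jen {D : α → V n} (hD : Measurable D) {K δ : ℝ} (δ0 : 0 ≤ δ) (hK : ∀ a, nrm (D a) ≤ K) :
    nrm (fun i => ∫ a, D a i ∂ρ) ≤ δ + K * ρ.real {a | ¬ nrm (D a) ≤ δ} := by
  have hB : MeasurableSet {a | ¬ nrm (D a) ≤ δ} :=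
    (measurableSet_le (continuous_nrm.measurable.comp hD) measurable_const).compl
  have i1 := (integrable_const (μ := ρ) K).indicator hB
  refine (nrm_int ρ hD hK).trans ((integral_mono_of_nonneg (.of_forall fun a => nrm_nonneg _)
    ((integrable_const δ).add i1) (.of_forall fun a => ?_)).trans_eq ?_)
  · by_cases ha : nrm (D a) ≤ δ
    · simp only [Pi.add_apply, indicator, mem_ofPred_eq, ha, not_true_eq_false, if_false, add_zero]
    · have := hK a
      simp only [Pi.add_apply, indicator, mem_ofPred_eq, ha, not_false_eq_true, if_true]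
      linarith
  · simp only [Pi.add_apply]
    rw [integral_add (integrable_const _) i1, integral_indicator_const _ hB]
    simp [mul_comm]

/-- the mean of orthogonal bounded variables -/
theorem avg_sq {N : ℕ} {Y : Fin N → α → ℝ} (hY : ∀ t, Measurable (Y t)) {B : ℝ}
    (hB : ∀ t a, |Y t a| ≤ B) (ho : ∀ t s, s ≠ t → ∫ a, Y t a * Y s a ∂ρ = 0) :
    ∫ a, (∑ t, Y t a) ^ 2 ∂ρ ≤ N * B ^ 2 := by
  have b : ∀ t s a, |Y t a * Y s a| ≤ B ^ 2 := fun t s a => by
    rw [abs_mul, sq]
    exact mul_le_mul (hB t a) (hB s a) (abs_nonneg _) ((abs_nonneg _).trans (hB t a))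
  have i1 : ∀ t s, Integrable (fun a => Y t a * Y s a) ρ := fun t s =>
    ib ρ ((hY t).mul (hY s)) (b t s)
  simp only [sq (∑ t, Y t _), Finset.sum_mul_sum]
  rw [integral_finsetSum _ fun t _ => integrable_finsetSum _ fun s _ => i1 t s]
  refine (Finset.sum_le_sum (g := fun _ => B ^ 2) fun t _ => ?_).trans_eq (by simp)
  rw [integral_finsetSum _ fun s _ => i1 t s,
    Finset.sum_eq_single t (fun s _ h => ho t s h) fun h => absurd (Finset.mem_univ t) h]
  exact (integral_mono (i1 t t) (integrable_const _) fun a =>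
    (le_abs_self _).trans (b t t a)).trans_eq (by simp)

end gen

/-- the mean over the labels -/
def av (Y : Nt (ι ⊕ μ)) : Nt ι := fun n J a i => ∫ b, Y n J (Sum.elim a b) i ∂(Lb μ n)

omit [Fintype ι] in
theorem meas_av {Y : Nt (ι ⊕ μ)} {J : Mx n} (h : Measurable (Y n J)) : Measurable (av Y n J) :=
  measurable_pi_lambda _ fun i => (StronglyMeasurable.integral_prod_right'
    (f := fun p : (ι → V n) × (μ → V n) => Y n J (Sum.elim p.1 p.2) i)
    ((measurable_pi_apply i).comp (h.comp mel)).stronglyMeasurable).measurable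

/-- a small word has a small mean -/
theorem cond {β : ℝ} {c d : ι → ℝ} {D : Nt (ι ⊕ μ)} {K δ η : ℝ} (K0 : 0 ≤ K) (δ0 : 0 ≤ δ)
    (η0 : 0 < η) (hD : ∀ n (J : Mx n), Jᵀ = J → Measurable (D n J) ∧ ∀ a, nrm (D n J a) ≤ K * √n)
    (h : Hp β (Sum.elim c 0) (Sum.elim d 1) fun n J a => nrm (D n J a) ≤ δ * √n) :
    Hp β c d fun n J a => nrm (av D n J a) ≤ (δ + K * η) * √n := by
  obtain ⟨k, k0, hW⟩ := h
  have hev : ∀ᶠ n : ℕ in atTop, exp (-(k / 2) * n) ≤ η :=
    (tendsto_exp_atBot.comp (tendsto_natCast_atTop_atTop.const_mul_atTop_of_neg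
      (by linarith))).eventually (eventually_le_nhds η0)
  refine ⟨k / 2, by linarith, hW.mono ?_⟩
  filter_upwards [hev] with n hn g hg
  have hw := Hp58.wt_gibbs n β g
  obtain ⟨m1, b1⟩ := hD n (β • Jmat n g) (by rw [transpose_smul, Jmat_transpose])
  generalize β • Jmat n g = J at *
  have hB : MeasurableSet {a | ¬ nrm (D n J a) ≤ δ * √n} :=
    (measurableSet_le (continuous_nrm.measurable.comp m1) measurable_const).compl
  refine le_of_mul_le_mul_left ?_ η0
  rw [← SL.mean_const_mul]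
  refine (hw.mean_mono fun x => ?_).trans (hg.trans ?_)
  · have a1 := mul_meas_ge_le_lintegral₀ (μ := RL c d (sv x))
      (measurable_measure_prodMk_left (ν := Lb μ n) (mel hB)).aemeasurable (ENNReal.ofReal η)
    have a2 := ENNReal.toReal_mono (measure_ne_top _ _) (a1.trans_eq (split c d (sv x) hB).symm)
    rw [ENNReal.toReal_mul, ENNReal.toReal_ofReal η0.le] at a2
    refine le_trans (mul_le_mul_of_nonneg_left (measureReal_mono fun a ha => ?_) η0.le) a2
    refine (ENNReal.ofReal_le_iff_le_toReal (measure_ne_top _ _)).2 (le_of_not_ge fun hc => ha ?_)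
    refine (jen (Lb μ n) (m1.comp (mel1 a)) (δ := δ * √n) (by positivity) fun b => b1 _).trans ?_
    have := mul_le_mul_of_nonneg_left hc (show 0 ≤ K * √n by positivity)
    exact (add_le_add le_rfl this).trans_eq (by ring)
  · have := mul_le_mul_of_nonneg_right hn (exp_pos (-(k / 2) * n)).le
    rwa [← exp_add, show -(k / 2) * n + -(k / 2) * n = -k * n by ring] at this

theorem tailL {F : (ν → V n) → ℝ} (hF : Measurable F) {L t : ℝ} (L0 : 0 ≤ L) (ht : 0 ≤ t)
    (h : ∀ b b', |F b - F b'| ≤ L * nA (b - b')) :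
    (Lb ν n).real {b | t ≤ F b - ∫ b, F b ∂(Lb ν n)} ≤
      exp (-t ^ 2 / (2 * (L * Fintype.card ν + 1) ^ 2)) := by
  classical
  rw [Lb, integral_map mcu.aemeasurable hF.aestronglyMeasurable, map_measureReal_apply mcu
    (measurableSet_le measurable_const (hF.sub_const _))]
  refine Conc.tail_lip (F := fun w => F fun l j => w (l, j)) (fun w w' => (h _ _).trans ?_) ht
  have e : Conc.en (w - w') = nrm (w - w') := by simp only [Conc.en, nrm, dotProduct, sq]
  have a : nA ((fun l j => w (l, j)) - fun l j => w' (l, j)) ≤ Fintype.card ν * nrm (w - w') :=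
    (Finset.sum_le_sum (g := fun _ => nrm (w - w')) fun l _ => Hp58.nrm_row_le (w - w') l).trans_eq
      (by simp)
  rw [e]
  nlinarith [mul_le_mul_of_nonneg_left a L0, nrm_nonneg (w - w')]

/-- the label mean of a bounded network -/
theorem ap_av (β : ℝ) (c d : ι → ℝ) {X : Nt (ι ⊕ μ)} (hX : Nw False X) (hb : Bd X) :
    Ap β c d (av X) := fun ε hε => by
  obtain ⟨M, M0, hM⟩ := A48.Bd.pos hb
  obtain ⟨N, hN⟩ := exists_nat_gt (16 * M ^ 2 / ε ^ 2)
  have N0 : (0 : ℝ) < N := lt_of_le_of_lt (by positivity) hN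
  let e := Fintype.equivFin (Fin N × μ)
  obtain ⟨X', hX'⟩ : ∃ X' : Nt (ι ⊕ Fin (Fintype.card (Fin N × μ))), X' = fun n J a =>
      lc (fun (_ : Unit) (_ : Fin N) => (N : ℝ)⁻¹)
        (fun t => X n J fun j => a (Sum.map id (fun l => e (t, l)) j)) () := ⟨_, rfl⟩
  have w1 : Nw False X' := hX' ▸ lipStmt.comp _ _ _ _ _ (lipStmt.lin _ _ _ _ ()) fun t =>
    A48.rel lipStmt hX _
  have mX : ∀ n J, Measurable (X n J) := fun n J =>
    ((lipStmt.cont _ _ _ hX n).comp (Continuous.prodMk_right J)).measurable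
  have mX' : ∀ n J, Measurable (X' n J) := fun n J =>
    ((lipStmt.cont _ _ _ w1 n).comp (Continuous.prodMk_right J)).measurable
  have b1 : ∀ n J a i, |X' n J a i| ≤ M := fun n J a i => by
    rw [hX']
    refine (Finset.abs_sum_le_sum_abs _ _).trans ((Finset.sum_le_sum (g := fun _ => (N : ℝ)⁻¹ * M)
      fun t _ => ?_).trans_eq ?_)
    · rw [abs_mul, abs_of_pos (inv_pos.2 N0)]
      exact mul_le_mul_of_nonneg_left (hM _ _ _ _) (inv_pos.2 N0).le
    · simp [N0.ne']
  obtain ⟨L, L0, hL⟩ := lipStmt.lip _ _ _ w1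
  refine ⟨_, X', w1, ⟨M, b1⟩, fresh β c d (k := (ε / 2) ^ 2 /
    (2 * (L * Fintype.card (Fin (Fintype.card (Fin N × μ))) + 1) ^ 2)) (by positivity)
    (fun n J => (measurableSet_le (continuous_nrm.measurable.comp (((meas_av (mX n J)).comp
      (by fun_prop)).sub (mX' n J))) measurable_const).compl) fun n J a => ?_⟩
  have mD : Measurable fun b => av X n J a - X' n J (Sum.elim a b) :=
    measurable_const.sub ((mX' n J).comp (mel1 a))
  have mF : Measurable fun b => nrm (av X n J a - X' n J (Sum.elim a b)) :=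
    continuous_nrm.measurable.comp mD
  have bA : ∀ i, |av X n J a i| ≤ M := fun i => by
    simpa [av] using norm_integral_le_of_norm_le_const (μ := Lb μ n) (C := M)
      (f := fun b => X n J (Sum.elim a b) i) (.of_forall fun b => hM _ _ _ _)
  have bD : ∀ b i, |(av X n J a - X' n J (Sum.elim a b)) i| ≤ 2 * M := fun b i =>
    (abs_sub _ _).trans (by linarith [bA i, b1 n J (Sum.elim a b) i])
  have s1 : ∀ i, ∫ b, (av X n J a - X' n J (Sum.elim a b)) i ^ 2 ∂(Lb _ n) ≤ (ε / 2) ^ 2 := fun i => by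
    obtain ⟨G, hG⟩ : ∃ G : (μ → V n) → ℝ, G = fun b =>
      (N : ℝ)⁻¹ * (av X n J a i - X n J (Sum.elim a b) i) := ⟨_, rfl⟩
    have m0 : Measurable fun b => X n J (Sum.elim a b) i :=
      (measurable_pi_apply i).comp ((mX n J).comp (mel1 a))
    have mG : Measurable G := hG ▸ (measurable_const.sub m0).const_mul _
    have G0 : ∫ b, G b ∂(Lb μ n) = 0 := by
      rw [hG, integral_const_mul, integral_sub (integrable_const _) (ib _ m0 fun b => hM _ _ _ _)]
      simp [av]
    have k := avg_sq (Lb (Fin (Fintype.card (Fin N × μ))) n) (Y := fun t b => G fun l => b (e (t, l)))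
      (B := (N : ℝ)⁻¹ * (2 * M)) (fun t => mG.comp (by fun_prop)) (fun t b => by
        rw [hG, abs_mul, abs_of_pos (inv_pos.2 N0)]
        exact mul_le_mul_of_nonneg_left ((abs_sub _ _).trans (by
          linarith [bA i, hM n J (Sum.elim a fun l => b (e (t, l))) i])) (inv_pos.2 N0).le)
      fun t s h => by
        let f : μ ⊕ μ ↪ Fin (Fintype.card (Fin N × μ)) :=
          ⟨Sum.elim (fun l => e (t, l)) fun l => e (s, l), by
            rintro (x | x) (y | y) hxy <;> have := Prod.mk.inj (e.injective hxy)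
            exacts [congrArg _ this.2, absurd this.1.symm h, absurd this.1 h, congrArg _ this.2]⟩
        have := integral_prod_mul (μ := Lb μ n) (ν := Lb μ n) G G
        rw [G0, mul_zero, ← pair f, integral_map (by fun_prop)
          (f := fun z : (μ → V n) × (μ → V n) => G z.1 * G z.2)
          ((mG.comp measurable_fst).mul (mG.comp measurable_snd)).aestronglyMeasurable] at this
        exact this
    refine le_trans (le_of_eq ?_) (k.trans ?_)
    · congr 1; funext b; congr 1
      have : ∀ t, (fun j => (Sum.elim a b : _ → V n) (Sum.map id (fun l => e (t, l)) j)) =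
          Sum.elim a fun l => b (e (t, l)) := fun t => funext (by rintro (j | j) <;> rfl)
      simp only [hG, hX', lc, Pi.sub_apply, this, mul_sub, Finset.sum_sub_distrib]
      simp [N0.ne']
    · rw [div_lt_iff₀ (by positivity)] at hN
      rw [show N * ((N : ℝ)⁻¹ * (2 * M)) ^ 2 = 4 * M ^ 2 / N by field_simp; ring, div_le_iff₀ N0]
      linarith
  have l2 : MemLp (fun b => nrm (av X n J a - X' n J (Sum.elim a b))) 2 (Lb _ n) :=
    MemLp.of_bound mF.aestronglyMeasurable (|2 * M| * √n) (.of_forall fun b =>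
      (abs_of_nonneg (nrm_nonneg _)).trans_le (L85.nrm_le_of_bd (bD b)))
  have s2 : ∫ b, nrm (av X n J a - X' n J (Sum.elim a b)) ∂(Lb _ n) ≤ ε / 2 * √n := by
    have v := variance_nonneg (fun b => nrm (av X n J a - X' n J (Sum.elim a b))) (Lb _ n)
    rw [variance_eq_sub l2] at v
    refine (abs_le_of_sq_le_sq' ((sub_nonneg.1 v).trans ?_) (by positivity)).2
    simp only [Pi.pow_apply, nrm_sq, dotProduct, ← sq]
    rw [integral_finsetSum (f := fun i b => (av X n J a - X' n J (Sum.elim a b)) i ^ 2) _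
      fun i _ => (MemLp.of_bound ((measurable_pi_apply i).comp
      mD).aestronglyMeasurable _ (.of_forall fun b => bD b i)).integrable_sq, mul_pow,
      sq_sqrt n.cast_nonneg]
    exact (Finset.sum_le_sum fun i _ => s1 i).trans_eq (by simp [mul_comm])
  refine le_trans (measureReal_mono fun b hb => ?_) ((tailL mF L0 (t := ε / 2 * √n) (by positivity)
    fun b b' => ?_).trans_eq ?_)
  · have : ε * √n < nrm (av X n J a - X' n J (Sum.elim a b)) := not_le.1 hb
    simp only [mem_ofPred_eq]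
    linarith
  · have k : ∀ b b', nrm (av X n J a - X' n J (Sum.elim a b)) -
        nrm (av X n J a - X' n J (Sum.elim a b')) ≤ L * nA (b' - b) := fun b b' => by
      have h1 := A48.tri (av X n J a) (X' n J (Sum.elim a b')) (X' n J (Sum.elim a b))
      have h2 := hL n J J (Sum.elim a b') (Sum.elim a b)
      have h3 : nA (Sum.elim a b' - Sum.elim a b) = nA (b' - b) := by
        simp only [nA, Fintype.sum_sum_type, Pi.sub_apply, Sum.elim_inl, Sum.elim_inr, sub_self,
          nrm_zero, Finset.sum_const_zero, zero_add]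
      rw [h3, sub_self, opn_zero, mul_zero, add_zero] at h2
      linarith
    have h4 : nA (b' - b) = nA (b - b') := Finset.sum_congr rfl fun l _ => by
      rw [← nrm_neg, Pi.sub_apply, Pi.sub_apply, neg_sub]
    exact abs_le.2 ⟨by linarith [k b' b], h4 ▸ k b b'⟩
  · rw [mul_pow, sq_sqrt n.cast_nonneg]; congr 1; ring

end Av62

open Av62

theorem avStmt : AvStmt := fun ι κ _ _ β hβ c d U ⟨M, hM⟩ hm hU => by
  refine apA.lim ι β c d _ fun ε hε => ?_
  obtain ⟨m, X, h1, h2, h3⟩ := hU (ε / 2) (by positivity)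
  obtain ⟨M', hM'⟩ := h2
  let r := Equiv.sumAssoc ι κ (Fin m)
  have w1 := A48.rel lipStmt h1 r
  have mX : ∀ n J, Measurable fun a : ι ⊕ κ ⊕ Fin m → V n => X n J fun j => a (r j) := fun n J =>
    ((lipStmt.cont _ _ _ w1 n).comp (Continuous.prodMk_right J)).measurable
  have mU : ∀ n (J : Mx n), Jᵀ = J → Measurable fun a : ι ⊕ κ ⊕ Fin m → V n =>
      U n J fun l => a (r (.inl l)) := fun n J hJ => (hm n J hJ).comp (by fun_prop)
  have bU : ∀ n (J : Mx n), Jᵀ = J → ∀ a, nrm (U n J a) ≤ |M| * √n := fun n J hJ a =>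
    (hM n J hJ a).trans (mul_le_mul_of_nonneg_right (le_abs_self M) (sqrt_nonneg _))
  have bX : ∀ n J a, nrm (X n J a) ≤ |M'| * √n := fun n J a => L85.nrm_le_of_bd (hM' n J a)
  have h4 := A48.emb' hpStmt (c' := Sum.elim c (0 : κ ⊕ Fin m → ℝ)) (d' := Sum.elim d 1)
    r.toEmbedding (by rintro ((l | l) | l) <;> rfl) (by rintro ((l | l) | l) <;> rfl) h3
  have h5 := cond (D := fun n J a => (U n J fun l => a (r (.inl l))) - X n J fun j => a (r j))
    (K := |M| + |M'|) (δ := ε / 2) (η := ε / 2 / (|M| + |M'| + 1)) (by positivity) (by positivity)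
    (by positivity) (fun n J hJ => ⟨(mU n J hJ).sub (mX n J), fun a => (nrm_sub_le _ _).trans
      ((add_le_add (bU n J hJ _) (bX n J _)).trans_eq (by ring))⟩) h4
  obtain ⟨K, hK⟩ := hpStmt.good ι β hβ c d
  refine ⟨_, ap_av β c d w1 ⟨M', fun n J a i => hM' _ _ _ _⟩,
    A48.imp hpStmt (hpStmt.and _ _ _ _ _ _ h5 hK) fun n J a h => ?_⟩
  obtain ⟨h6, hJ, -⟩ := h
  refine le_trans (le_of_eq ?_) (h6.trans (mul_le_mul_of_nonneg_right ?_ (sqrt_nonneg _)))
  · congr 1; funext i
    have m0 : Measurable fun b : κ → V n => U n J (Sum.elim a b) i :=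
      (measurable_pi_apply i).comp ((hm n J hJ).comp (mel1 a))
    have m1 : Measurable fun (b : κ ⊕ Fin m → V n) l =>
        b ((Function.Embedding.inl : κ ↪ κ ⊕ Fin m) l) :=
      measurable_pi_lambda _ fun l => measurable_pi_apply _
    simp only [av, Pi.sub_apply]
    rw [integral_sub (ico _ (D := fun b => U n J fun l => Sum.elim a b (r (.inl l)))
      ((mU n J hJ).comp (mel1 a)) (fun b => bU n J hJ _) i)
      (ico _ (D := fun b => X n J fun j => Sum.elim a b (r j)) ((mX n J).comp (mel1 a))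
        (fun b => bX n J _) i),
      ← integral_map mcu.aemeasurable m0.aestronglyMeasurable, ← Lb,
      ← emb (Function.Embedding.inl : κ ↪ κ ⊕ Fin m), integral_map m1.aemeasurable
        m0.aestronglyMeasurable]
    congr 2; funext b; congr 1
    exact funext (by rintro (l | l) <;> rfl)
  · have : (|M| + |M'|) * (ε / 2 / (|M| + |M'| + 1)) ≤ ε / 2 := by
      rw [← mul_div_assoc, div_le_iff₀ (by positivity)]; nlinarith
    linarith

end Crest.Agent.T157.Zf

end
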