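import Crest.Agent.T157.ZDefF_73
import Crest.Agent.T157.TapAlg_29

/-!
# Row 157, part B, kernel route (helper27): the base observable as a mean over rows
-/

set_option autoImplicit false

noncomputable section

namespace Crest.Agent.T157.Zf

open MeasureTheory ProbabilityTheory Matrix Filter Set
open Crest.Agent.T157.E Crest.Agent.T157.Eig Crest.Agent.T157.Tap Crest.Agent.T157.Z
open Crest.Agent.T157.Z.Hp58 (meas_rows law_emb split)
open Crest.ProbabilityR.SpinGlassDynamics (spin)

namespace Ex27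

variable {n m : ℕ}

theorem int_tanh (a : ℝ) : Integrable (fun z => Real.tanh (a + z)) (gaussianReal 0 1) :=
  Integrable.of_bound (continuous_tanh'.comp (by fun_prop)).aestronglyMeasurable 1
    (.of_forall fun _ => (Real.abs_tanh_lt_one _).le)

theorem int_neg (f : ℝ → ℝ) (hf : Continuous f) :
    ∫ z, f (-z) ∂gaussianReal 0 1 = ∫ z, f z ∂gaussianReal 0 1 := by
  rw [← integral_map (φ := fun z : ℝ => -z) (by fun_prop) hf.aestronglyMeasurable, gaussianReal_map_neg,
    neg_zero]

theorem kz_neg : ∫ z, Real.tanh (-1 + z) ∂gaussianReal 0 1 = -kz := by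
  rw [kz, ← integral_neg, ← int_neg _ (continuous_tanh'.comp' (by fun_prop))]
  exact integral_congr_ae (.of_forall fun z => by
    simp only; rw [← Real.tanh_neg]; congr 1; ring)

theorem kz_pos : 0 < kz := by
  have hm : StrictMono Real.tanh := strictMono_of_deriv_pos fun x => by
    rw [(hasDerivAt_tanh' x).deriv]; linarith [Real.tanh_sq_lt_one x]
  have h : ∀ z : ℝ, 0 < Real.tanh (1 + z) - Real.tanh (-1 + z) := fun z => sub_pos.2 (hm (by linarith))
  have := (integral_pos_iff_support_of_nonneg (fun z => (h z).le) ((int_tanh 1).sub (int_tanh (-1)))).2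
    (by rw [eq_univ_of_forall (s := Function.support _) fun z => (h z).ne']; simp)
  rw [integral_sub (int_tanh 1) (int_tanh (-1)), kz_neg, ← kz] at this
  linarith

theorem int_th (s : Cube n) (i : Fin n) :
    ∫ b, Real.tanh (b () i) ∂ RL (fun _ : Unit => 1) (fun _ => 1) (sv s) = kz * sv s i := by
  have hc : Continuous fun z : ℝ => Real.tanh (sv s i + z) := continuous_tanh'.comp (by fun_prop)
  rw [RL, integral_map (meas_rows _ _ _).aemeasurable
    (continuous_tanh'.comp' (by fun_prop)).aestronglyMeasurable]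
  have h := (measurePreserving_eval (fun _ : Unit × Fin n => gaussianReal 0 1) ((), i)).map_eq
  have e : ∫ z, Real.tanh (sv s i + z) ∂gaussianReal 0 1 = kz * sv s i := by
    cases hs : s i
    · rw [show sv s i = -1 by simp [sv, spin, hs], kz_neg]; ring
    · rw [show sv s i = 1 by simp [sv, spin, hs], kz]; ring
  rw [← e, ← h, integral_map (measurable_pi_apply _).aemeasurable hc.aestronglyMeasurable]
  simp [rows]

theorem int_split {ι κ : Type} [Fintype ι] [Fintype κ] (c d : ι → ℝ) (c' d' : κ → ℝ) (σ : V n)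
    {F : (ι ⊕ κ → V n) → ℝ} (hF : Continuous F) {B : ℝ} (hB : ∀ a, |F a| ≤ B) :
    ∫ u, F u ∂ RL (Sum.elim c c') (Sum.elim d d') σ =
      ∫ a, ∫ b, F (Sum.elim a b) ∂ RL c' d' σ ∂ RL c d σ := by
  have me : Measurable fun p : (ι → V n) × (κ → V n) => (Sum.elim p.1 p.2 : ι ⊕ κ → V n) :=
    (MeasurableEquiv.sumPiEquivProdPi fun _ : ι ⊕ κ => V n).symm.measurable
  rw [split, integral_map me.aemeasurable hF.aestronglyMeasurable, integral_prod]
  exact Integrable.of_bound (hF.measurable.comp me).aestronglyMeasurable B (.of_forall fun _ => hB _)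

theorem cont_th : Continuous (th : V n → V n) :=
  continuous_pi fun i => continuous_tanh'.comp (continuous_apply i)

theorem int_unit (s : Cube n) (x p : V n) :
    ∫ b, x ⬝ᵥ (kz⁻¹ • th (b ()) - p) ∂ RL (fun _ : Unit => 1) (fun _ => 1) (sv s) = x ⬝ᵥ (sv s - p) := by
  have hi : ∀ i, Integrable (fun b : Unit → V n => Real.tanh (b () i))
      (RL (fun _ : Unit => 1) (fun _ => 1) (sv s)) := fun i =>
    Integrable.of_bound (continuous_tanh'.comp' (by fun_prop)).aestronglyMeasurable 1
      (.of_forall fun _ => (Real.abs_tanh_lt_one _).le)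
  simp only [dotProduct, Pi.sub_apply, Pi.smul_apply, smul_eq_mul, th]
  rw [integral_finsetSum _ fun i _ => (((hi i).const_mul _).sub' (integrable_const _)).const_mul _]
  refine Finset.sum_congr rfl fun i _ => ?_
  rw [integral_const_mul, integral_sub ((hi i).const_mul _) (integrable_const _), integral_const_mul,
    int_th, ← mul_assoc, inv_mul_cancel₀ kz_pos.ne', one_mul]
  simp

/-- the rows read by `X` -/
def R2 (m : ℕ) : Fin 2 ⊕ Fin m → Fin 3 ⊕ Fin m := Sum.elim ![.inl 0, .inl 1] .inr

theorem Xb_eq (X : Nt (Fin 2 ⊕ Fin m)) (J : Mx n) (a : Fin 3 ⊕ Fin m → V n) :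
    Xb X n J a = X n J fun l => a (R2 m l) := by
  unfold Xb
  congr 1
  funext l
  rcases l with l | l
  · fin_cases l <;> rfl
  · rfl

/-- the rows of the base inside three blocks -/
def F3 (m : ℕ) : Fin 3 ⊕ Fin m ↪ (Fin 2 ⊕ Fin m) ⊕ Unit :=
  ⟨Sum.elim ![.inl (.inl 0), .inl (.inl 1), .inr ()] fun l => .inl (.inr l), by
    rintro (a | a) (b | b) h
    · fin_cases a <;> fin_cases b <;> simp_all
    · fin_cases a <;> simp_all
    · fin_cases b <;> simp_all
    · simp_all⟩

theorem cont_Tb (J : Mx n) : Continuous fun p : V n × (Fin 3 ⊕ Fin m → V n) => Tb J p.1 p.2 := by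
  refine continuous_pi fun l => ?_
  rcases l with l | l
  · fin_cases l <;> simp [Tb, xu] <;> fun_prop
  · simp [Tb]; fun_prop

theorem abs_dot {x u : V n} {M N : ℝ} (hx : ∀ i, |x i| ≤ M) (hu : ∀ i, |u i| ≤ N) :
    |x ⬝ᵥ u| ≤ n * (M * N) := by
  refine (Finset.abs_sum_le_sum_abs _ _).trans ((Finset.sum_le_card_nsmul _ _ (M * N) fun i _ => ?_).trans
    (by simp))
  rw [abs_mul]
  exact mul_le_mul (hx i) (hu i) (abs_nonneg _) ((abs_nonneg _).trans (hx i))

theorem abs_U (u x : V n) (i : Fin n) : |(kz⁻¹ • th u - th x) i| ≤ kz⁻¹ + 1 := by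
  have k0 := (inv_pos.2 kz_pos).le
  refine (abs_sub _ _).trans (add_le_add ?_ (Real.abs_tanh_lt_one _).le)
  rw [Pi.smul_apply, smul_eq_mul, abs_mul, abs_of_nonneg k0]
  exact mul_le_of_le_one_right k0 (Real.abs_tanh_lt_one _).le

/-- **the representation** -/
theorem rep (hK : KeStmt) {X : Nt (Fin 2 ⊕ Fin m)} (hX : Nw True X) (hb : Bd X) {J : Mx n}
    (hJ : Jᵀ = J) (s : Cube n) (y : V n) :
    ∫ z, Eb2 X n J (xr J s y z) y ⬝ᵥ (sv s - th (xr J s y z)) ∂gv (Fin n) =
      ∫ u, Xb X n J (Tb J y u) ⬝ᵥ Ub m n J (Tb J y u) ∂ RL (cb m) (db m) (sv s) := by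
  obtain ⟨M, hM⟩ := hb
  have cX : Continuous (X n J) := (lipStmt.diff _ X hX n J).continuous
  have cT : Continuous fun u : Fin 3 ⊕ Fin m → V n => Tb J y u := 
    (cont_Tb J).comp' (f := fun u => (y, u)) (by fun_prop)
  have cG : Continuous fun u => Xb X n J (Tb J y u) ⬝ᵥ Ub m n J (Tb J y u) := by
    have := @cont_th n
    simp only [Xb_eq, Ub]
    fun_prop
  have e1 : cb m = Sum.elim (Sum.elim c1 0) (fun _ : Unit => (1 : ℝ)) ∘ F3 m := by
    funext l; rcases l with l | l
    · fin_cases l <;> rfl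
    · rfl
  have e2 : db m = Sum.elim (Sum.elim d1 1) (fun _ : Unit => (1 : ℝ)) ∘ F3 m := by
    funext l; rcases l with l | l
    · fin_cases l <;> rfl
    · rfl
  have cl : ∀ x : V n × (Fin m × Fin n → ℝ) → V n, Continuous x →
      Continuous fun p => X n J (lab2 (x p) y p.2) := fun x hx => cX.comp' (continuous_pi fun l => by
    rcases l with l | l
    · fin_cases l <;> simp [lab2] <;> fun_prop
    · simp [lab2]; fun_prop)
  have mE : Measurable fun x => Eb2 X n J x y ⬝ᵥ (sv s - th x) := by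
    refine Finset.measurable_sum _ fun i _ => Measurable.mul ?_ (by
      exact ((continuous_apply i).comp (continuous_const.sub cont_th)).measurable)
    exact (StronglyMeasurable.integral_prod_right' (ν := gv (Fin m × Fin n))
      ((continuous_apply i).comp (cl Prod.fst continuous_fst)).stronglyMeasurable).measurable
  rw [e1, e2, ← law_emb, integral_map (Measurable.aemeasurable (by fun_prop)) cG.aestronglyMeasurable,
    int_split (B := n * (M * (kz⁻¹ + 1))) _ _ _ _ _ (cG.comp' (by fun_prop)) fun a =>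
      abs_dot (fun i => hM _ _ _ i) (abs_U _ _)]
  have e3 : ∀ (a : Fin 2 ⊕ Fin m → V n) (b : Unit → V n),
      Xb X n J (Tb J y fun l => Sum.elim a b (F3 m l)) ⬝ᵥ Ub m n J (Tb J y fun l => Sum.elim a b (F3 m l)) =
      X n J (Sum.elim ![xu J y (a (.inl 0)) (a (.inl 1)), y] fun l => a (.inr l)) ⬝ᵥ
        (kz⁻¹ • th (b ()) - th (xu J y (a (.inl 0)) (a (.inl 1)))) := fun _ _ => rfl
  simp only [e3, int_unit]
  have cx : Continuous fun a : Fin 2 ⊕ Fin m → V n => xu J y (a (.inl 0)) (a (.inl 1)) := by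
    unfold xu; fun_prop
  have cy : Continuous fun a : Fin 2 ⊕ Fin m → V n =>
      X n J (Sum.elim ![xu J y (a (.inl 0)) (a (.inl 1)), y] fun l => a (.inr l)) ⬝ᵥ
        (sv s - th (xu J y (a (.inl 0)) (a (.inl 1)))) := (cX.comp' (continuous_pi fun l => by
      rcases l with l | l
      · fin_cases l <;> simp <;> fun_prop
      · simp; fun_prop)).dotProduct (continuous_const.sub (cont_th.comp' cx))
  rw [int_split (B := n * (M * (1 + 1))) _ _ _ _ _ cy fun a =>
      abs_dot (fun i => hM _ _ _ i) fun i => (abs_sub _ _).trans (add_le_add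
        (by cases h : s i <;> simp [sv, spin, h]) (Real.abs_tanh_lt_one _).le)]
  have e4 : ∀ x v : V n, ∫ b, X n J (Sum.elim ![x, y] b) ⬝ᵥ v ∂ RL (0 : Fin m → ℝ) 1 (sv s) =
      Eb2 X n J x y ⬝ᵥ v := fun x v => by
    have c2 : Continuous fun w => X n J (lab2 x y w) :=
      (cl (fun _ => x) continuous_const).comp' (f := fun w => (x, w)) (by fun_prop)
    rw [RL, integral_map (meas_rows _ _ _).aemeasurable ((cX.comp' (continuous_pi fun l => by
      rcases l with l | l <;> simp <;> fun_prop)).dotProduct continuous_const).aestronglyMeasurable]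
    have e5 : ∀ w, (Sum.elim ![x, y] (rows (0 : Fin m → ℝ) 1 (sv s) w) : Fin 2 ⊕ Fin m → V n) =
        lab2 x y w := fun w => by
      unfold lab2; congr 1; funext l i; simp [rows]
    simp only [e5, dotProduct, Eb2]
    rw [integral_finsetSum _ fun i _ => (Integrable.of_bound ((continuous_apply i).comp'
      c2).aestronglyMeasurable M (.of_forall fun _ => hM _ _ _ i)).mul_const _]
    exact Finset.sum_congr rfl fun i _ => integral_mul_const _ _
  simp only [Sum.elim_inl, Sum.elim_inr, e4]
  rw [← integral_map (φ := xr J s y) (by unfold xr; fun_prop) mE.aestronglyMeasurable,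
    ← hK.law n J s y hJ, integral_map (by unfold xu; fun_prop) mE.aestronglyMeasurable]

end Ex27

end Crest.Agent.T157.Zf

end
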