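import Crest.Agent.T157.ZfExA_27

/-!
# Row 157, part B, kernel route (helper27): the exact gradients of the base observable
-/

set_option autoImplicit false

noncomputable section

namespace Crest.Agent.T157.Zf

open MeasureTheory ProbabilityTheory Matrix Filter Set
open Crest.Agent.T157.E Crest.Agent.T157.Eig Crest.Agent.T157.Tap Crest.Agent.T157.Z
open Crest.Agent.T157.Z.ApB11 (fd_dot nrm_mono)
open Crest.Agent.T157.Rec (grad)

namespace Ex27

variable {n m : ℕ}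

theorem fd_le {E : Type} [NormedAddCommGroup E] [NormedSpace ℝ E] {φ : E → ℝ} {a v : E} {K : ℝ}
    (h : DifferentiableAt ℝ φ a) (K0 : 0 ≤ K) (hl : ∀ t : ℝ, |φ (a + t • v) - φ a| ≤ K * |t|) :
    |fderiv ℝ φ a v| ≤ K :=
  HasDerivAt.le_of_lip' (h.hasFDerivAt.hasLineDerivAt v) K0 (.of_forall fun t => by simpa using hl t)

theorem fd_row {ι : Type} [Fintype ι] [DecidableEq ι] (L : (ι → V n) →L[ℝ] ℝ) (j : ι) (v : V n) :
    L (Pi.single j v) = (fun k => L (Pi.single j (Pi.single k 1))) ⬝ᵥ v := by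
  have h : (Pi.single j v : ι → V n) = ∑ k, v k • (Pi.single j (Pi.single k 1) : ι → V n) := by
    funext l i
    by_cases hl : l = j
    · subst hl; simp [Finset.sum_apply, Pi.single_apply]
    · simp [Finset.sum_apply, Pi.single_eq_of_ne hl]
  rw [h, map_sum]
  exact Finset.sum_congr rfl fun k _ => by rw [map_smul, smul_eq_mul, mul_comm]

theorem nA_single {ι : Type} [Fintype ι] [DecidableEq ι] (j : ι) (v : V n) :
    nA (Pi.single j v : ι → V n) = nrm v := by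
  rw [nA, Finset.sum_eq_single j (fun l _ hl => by simp [Pi.single_eq_of_ne hl]) (by simp)]; simp

theorem nA3 (a : Fin 3 ⊕ Fin m → V n) : nA a =
    nrm (a (.inl 0)) + nrm (a (.inl 1)) + nrm (a (.inl 2)) + ∑ l, nrm (a (.inr l)) := by
  simp [nA, Fin.sum_univ_three]

theorem nA_R2 (a : Fin 3 ⊕ Fin m → V n) : nA (fun l => a (R2 m l)) ≤ nA a := by
  rw [nA3]; simp [nA, R2, nrm_nonneg]

theorem nrm_le {x : V n} {M : ℝ} (h : ∀ i, |x i| ≤ M) (M0 : 0 ≤ M) : nrm x ≤ M * √n := by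
  rw [nrm_le_iff (by positivity), mul_pow, Real.sq_sqrt (Nat.cast_nonneg n)]
  refine (Finset.sum_le_card_nsmul _ _ (M ^ 2) fun i _ => ?_).trans (by simp [mul_comm])
  rw [← sq]; exact sq_le_sq' (neg_le_of_abs_le (h i)) (le_of_abs_le (h i))

theorem th_lip (x y : V n) : nrm (th x - th y) ≤ nrm (x - y) := by
  rw [← Z.ApB11.nrm_abs (x - y)]
  refine nrm_mono fun i => ?_
  have h : ∀ u : ℝ, ‖1 - Real.tanh u ^ 2‖ ≤ 1 := fun u => by
    rw [Real.norm_eq_abs, abs_le]
    constructor <;> nlinarith [Real.tanh_sq_lt_one u, sq_nonneg (Real.tanh u)]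
  exact (Convex.norm_image_sub_le_of_norm_hasDerivWithin_le (s := univ)
    (fun u _ => (hasDerivAt_tanh' u).hasDerivWithinAt) (fun u _ => h u) convex_univ
    (mem_univ (y i)) (mem_univ (x i))).trans_eq (one_mul _)

theorem nrm_DD (p x : V n) : nrm (DD (th p) * x) ≤ nrm x := by
  rw [← Z.ApB11.nrm_abs x]
  refine nrm_mono fun i => ?_
  rw [Pi.mul_apply, abs_mul]
  refine mul_le_of_le_one_left (abs_nonneg _) (abs_le.2 ?_)
  simp only [DD, th]
  constructor <;> nlinarith [Real.tanh_sq_lt_one (p i), sq_nonneg (Real.tanh (p i))]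

theorem Ub_lip (J : Mx n) (a a' : Fin 3 ⊕ Fin m → V n) :
    nrm (Ub m n J a - Ub m n J a') ≤ (kz⁻¹ + 1) * nA (a - a') := by
  have k0 := (inv_pos.2 kz_pos).le
  have e : Ub m n J a - Ub m n J a' = kz⁻¹ • (th (a (.inl 2)) - th (a' (.inl 2))) -
      (th (a (.inl 0)) - th (a' (.inl 0))) := by simp only [Ub, smul_sub]; abel
  have h : ∀ j, nrm (a j - a' j) ≤ nA (a - a') := fun j =>
    Finset.single_le_sum (f := fun l => nrm ((a - a') l)) (fun _ _ => nrm_nonneg _) (Finset.mem_univ j)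
  rw [e]
  refine (nrm_sub_le _ _).trans ?_
  rw [nrm_smul, abs_of_nonneg k0]
  nlinarith [(th_lip _ _).trans (h (.inl 2)), (th_lip _ _).trans (h (.inl 0))]

/-- the rows `Tb` are linear in the field and the rows -/
def TL (J : Mx n) : (V n × (Fin 3 ⊕ Fin m → V n)) →L[ℝ] (Fin 3 ⊕ Fin m → V n) :=
  LinearMap.toContinuousLinearMap
    { toFun := fun p => Tb J p.1 p.2
      map_add' := fun p q => by
        funext l
        rcases l with l | l
        · fin_cases l <;> simp [Tb, xu, mulVec_add]; abel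
        · simp [Tb]
      map_smul' := fun c p => by
        funext l
        rcases l with l | l
        · fin_cases l <;> simp [Tb, xu, mulVec_smul]
        · simp [Tb] }

theorem TL_apply (J : Mx n) (y : V n) (u : Fin 3 ⊕ Fin m → V n) : TL J (y, u) = Tb J y u := rfl

theorem nA_Tb (hK : KeStmt) {J : Mx n} (hJ : Jᵀ = J) (y : V n) (u : Fin 3 ⊕ Fin m → V n) :
    nA (Tb J y u) ≤ 2 * nrm y + 7 * nA u := by
  obtain ⟨-, h1, h2⟩ := hK.op n J hJ
  have a1 := (nrm_mulVec_le (AA J) (u (.inl 0))).trans (mul_le_mul_of_nonneg_right h1 (nrm_nonneg _))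
  have a2 := (nrm_mulVec_le (BB J) (u (.inl 1))).trans (mul_le_mul_of_nonneg_right h2 (nrm_nonneg _))
  have a3 := nrm_add_le (y + AA J *ᵥ u (.inl 0)) (BB J *ᵥ u (.inl 1))
  have a4 := nrm_add_le y (AA J *ᵥ u (.inl 0))
  have a5 : 0 ≤ ∑ l, nrm (u (.inr l)) := Finset.sum_nonneg fun _ _ => nrm_nonneg _
  have e : nA (Tb J y u) = nrm (y + AA J *ᵥ u (.inl 0) + BB J *ᵥ u (.inl 1)) + nrm y +
      nrm (u (.inl 2)) + ∑ l, nrm (u (.inr l)) := nA3 _
  rw [e, nA3]
  linarith [nrm_nonneg (u (.inl 1)), nrm_nonneg (u (.inl 2))]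

theorem Tb0 (J : Mx n) (e : V n) : Tb J 0 (Pi.single (.inl 0) e) =
    (Pi.single (.inl 0) (AA J *ᵥ e) : Fin 3 ⊕ Fin m → V n) := by
  funext l
  rcases l with l | l
  · fin_cases l <;> simp [Tb, xu]
  · simp [Tb]

theorem Tb2 (J : Mx n) (e : V n) : Tb J 0 (Pi.single (.inl 2) e) =
    (Pi.single (.inl 2) e : Fin 3 ⊕ Fin m → V n) := by
  funext l
  rcases l with l | l
  · fin_cases l <;> simp [Tb, xu]
  · simp [Tb]

theorem Tby (J : Mx n) (e : V n) : Tb J e 0 =
    (Pi.single (.inl 0) e + Pi.single (.inl 1) e : Fin 3 ⊕ Fin m → V n) := by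
  funext l
  rcases l with l | l
  · fin_cases l <;> simp [Tb, xu]
  · simp [Tb]

section net

variable {X : Nt (Fin 2 ⊕ Fin m)} (hX : Nw True X) (J : Mx n)
include hX

theorem dXb : Differentiable ℝ (Xb X n J) := by
  have := lipStmt.diff _ X hX n J
  rw [show Xb X n J = fun a => X n J fun l => a (R2 m l) from funext (Xb_eq X J)]
  fun_prop

theorem dg : Differentiable ℝ fun a => Xb X n J a ⬝ᵥ Ub m n J a := by
  have h1 := differentiable_pi.1 (dXb hX J)
  have h2 : Differentiable ℝ Real.tanh := fun x => (hasDerivAt_tanh' x).differentiableAt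
  simp only [dotProduct, Ub, th, Pi.sub_apply, Pi.smul_apply, smul_eq_mul]
  fun_prop

theorem fd_g (a v : Fin 3 ⊕ Fin m → V n) : fderiv ℝ (fun a => Xb X n J a ⬝ᵥ Ub m n J a) a v =
    fderiv ℝ (fun a' => Ub m n J a ⬝ᵥ Xb X n J a') a v +
      (kz⁻¹ • (DD (th (a (.inl 2))) * Xb X n J a)) ⬝ᵥ v (.inl 2) -
      (DD (th (a (.inl 0))) * Xb X n J a) ⬝ᵥ v (.inl 0) := by
  have hl : HasDerivAt (fun t : ℝ => Xb X n J (a + t • v)) (fderiv ℝ (Xb X n J) a v) 0 :=
    (dXb hX J a).hasFDerivAt.hasLineDerivAt v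
  have ht : ∀ l i, HasDerivAt (fun t : ℝ => Real.tanh (a l i + t * v l i))
      ((1 - Real.tanh (a l i) ^ 2) * v l i) 0 := fun l i => by
    have := (hasDerivAt_tanh' _).comp (0 : ℝ)
      (((hasDerivAt_id' (0 : ℝ)).mul_const (v l i)).const_add (a l i))
    rw [zero_mul, add_zero, one_mul] at this
    exact this
  have h := HasDerivAt.fun_sum (u := Finset.univ) fun i _ => (hasDerivAt_pi.1 hl i).fun_mul
    (((ht (.inl 2) i).const_mul kz⁻¹).fun_sub (ht (.inl 0) i))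
  rw [HasDerivAt.unique ((dg hX J a).hasFDerivAt.hasLineDerivAt v) h, fd_dot (dXb hX J a)]
  simp only [dotProduct, ← Finset.sum_add_distrib, ← Finset.sum_sub_distrib]
  exact Finset.sum_congr rfl fun i _ => by simp [Ub, DD, th]; ring

theorem fd_0 (a : Fin 3 ⊕ Fin m → V n) (v : V n) :
    fderiv ℝ (fun a => Xb X n J a ⬝ᵥ Ub m n J a) a (Pi.single (.inl 0) v) = gx X n J a ⬝ᵥ v := by
  rw [fd_g hX, fd_row, gx, sub_dotProduct]; simp; rfl

theorem fd_1 (a : Fin 3 ⊕ Fin m → V n) (v : V n) :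
    fderiv ℝ (fun a => Xb X n J a ⬝ᵥ Ub m n J a) a (Pi.single (.inl 1) v) =
      adj (.inl 1) (Xb X) (Ub m) n J a ⬝ᵥ v := by
  rw [fd_g hX, fd_row]; simp; rfl

theorem fd_2 (a : Fin 3 ⊕ Fin m → V n) (v : V n) :
    fderiv ℝ (fun a => Xb X n J a ⬝ᵥ Ub m n J a) a (Pi.single (.inl 2) v) =
      (kz⁻¹ • (DD (th (a (.inl 2))) * Xb X n J a)) ⬝ᵥ v := by
  have h : |fderiv ℝ (fun a' => Ub m n J a ⬝ᵥ Xb X n J a') a (Pi.single (.inl 2) v)| ≤ 0 :=
    fd_le ((Z.ApB11.hd_dot (dXb hX J a).hasFDerivAt _).differentiableAt) le_rfl fun t => by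
      have : Xb X n J (a + t • (Pi.single (.inl 2) v : Fin 3 ⊕ Fin m → V n)) = Xb X n J a := by
        simp [Xb]
      simp only [this, sub_self, abs_zero, zero_mul, le_refl]
  rw [fd_g hX, abs_nonpos_iff.1 h]; simp

end net

/-- the constants of a network -/
structure Cn (X : Nt (Fin 2 ⊕ Fin m)) (L M : ℝ) : Prop where
  L0 : 0 ≤ L
  M0 : 0 ≤ M
  lip : ∀ n J a a', nrm (Xb X n J a - Xb X n J a') ≤ L * nA (a - a')
  bd : ∀ n J a, nrm (Xb X n J a) ≤ M * √n

theorem cn {X : Nt (Fin 2 ⊕ Fin m)} (hX : Nw True X) (hb : Bd X) : ∃ L M, Cn X L M := by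
  obtain ⟨L, L0, hL⟩ := lipStmt.lip _ _ X hX
  obtain ⟨M, hM⟩ := hb
  refine ⟨L, |M|, L0, abs_nonneg _, fun n J a a' => ?_, fun n J a =>
    nrm_le (fun i => (hM _ _ _ i).trans (le_abs_self M)) (abs_nonneg _)⟩
  rw [Xb_eq, Xb_eq]
  refine (hL _ _ _ _ _).trans (mul_le_mul_of_nonneg_left ?_ L0)
  rw [sub_self, opn_zero, mul_zero, add_zero]
  exact nA_R2 (a - a')

theorem nrm_Ub (J : Mx n) (a : Fin 3 ⊕ Fin m → V n) : nrm (Ub m n J a) ≤ (kz⁻¹ + 1) * √n :=
  nrm_le (abs_U _ _) (by have := kz_pos; positivity)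

variable {X : Nt (Fin 2 ⊕ Fin m)} {L M : ℝ}

theorem Cn.g_lip (h : Cn X L M) (J : Mx n) (a a' : Fin 3 ⊕ Fin m → V n) :
    |Xb X n J a ⬝ᵥ Ub m n J a - Xb X n J a' ⬝ᵥ Ub m n J a'| ≤
      (L + M) * (kz⁻¹ + 1) * √n * nA (a - a') := by
  have e : Xb X n J a ⬝ᵥ Ub m n J a - Xb X n J a' ⬝ᵥ Ub m n J a' =
      (Xb X n J a - Xb X n J a') ⬝ᵥ Ub m n J a + Xb X n J a' ⬝ᵥ (Ub m n J a - Ub m n J a') := by
    rw [sub_dotProduct, dotProduct_sub]; ring
  have a1 := (abs_dot_le _ _).trans (mul_le_mul (h.lip n J a a') (nrm_Ub J a) (nrm_nonneg _)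
    ((nrm_nonneg _).trans (h.lip n J a a')))
  have a2 := (abs_dot_le _ _).trans (mul_le_mul (h.bd n J a') (Ub_lip J a a') (nrm_nonneg _)
    ((nrm_nonneg _).trans (h.bd n J a')))
  rw [e]
  linarith [abs_add_le ((Xb X n J a - Xb X n J a') ⬝ᵥ Ub m n J a)
    (Xb X n J a' ⬝ᵥ (Ub m n J a - Ub m n J a'))]

theorem Cn.adj_le (h : Cn X L M) (hX : Nw True X) (j : Fin 3 ⊕ Fin m) (J : Mx n)
    (a : Fin 3 ⊕ Fin m → V n) : nrm (adj j (Xb X) (Ub m) n J a) ≤ L * ((kz⁻¹ + 1) * √n) := by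
  set w := adj j (Xb X) (Ub m) n J a with hw
  have L0 := h.L0
  have U0 := (nrm_nonneg _).trans (nrm_Ub J a)
  have w0 := nrm_nonneg w
  have h1 : |fderiv ℝ (fun a' => Ub m n J a ⬝ᵥ Xb X n J a') a (Pi.single j w)| ≤
      L * ((kz⁻¹ + 1) * √n) * nrm w :=
    fd_le ((Z.ApB11.hd_dot (dXb hX J a).hasFDerivAt _).differentiableAt) (by positivity) fun t => by
      rw [← dotProduct_sub]
      refine (abs_dot_le _ _).trans ((mul_le_mul (nrm_Ub J a) (h.lip n J _ a) (nrm_nonneg _) U0).trans_eq ?_)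
      rw [add_sub_cancel_left, ← Pi.single_smul, nA_single, nrm_smul]; ring
  rw [fd_row] at h1
  replace h1 : |w ⬝ᵥ w| ≤ _ := h1
  rw [← nrm_mul_self, abs_mul_self] at h1
  rcases w0.eq_or_lt with e | e
  · rw [← e]; positivity
  · exact le_of_mul_le_mul_right h1 e

end Ex27

open Ex27 in
theorem exBase (hG : GsStmt) (hK : KeStmt) (m : ℕ) (X : Nt (Fin 2 ⊕ Fin m)) (hX : Nw True X)
    (hb : Bd X) : ∃ C, ∀ n (J : Mx n) s y, Jᵀ = J →
    ga (Ps0 X) n J s y = Gm (cb m) (db m) (ph1 (lm (cb m) (db m)))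
      (fun _ u => g0a X n J (Tb J y u)) s ∧
    gb (Ps0 X) n J s y = Gm (cb m) (db m) (fun _ => 1) (fun _ u => g0b X n J (Tb J y u)) s ∧
    ∀ a, nrm (g0a X n J a) ≤ C * √n ∧ nrm (g0b X n J a) ≤ C * √n := by
  obtain ⟨L, M, h⟩ := cn hX hb
  have ⟨L0, M0, k0⟩ := And.intro h.L0 <| And.intro h.M0 (inv_pos.2 kz_pos).le
  refine ⟨7 * (L * (kz⁻¹ + 1) + M) + kz⁻¹ * M, fun n J s y hJ => ?_⟩
  obtain ⟨sA, oA, -⟩ := hK.op n J hJ
  set g := fun a => Xb X n J a ⬝ᵥ Ub m n J a with hg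
  set K := (L + M) * (kz⁻¹ + 1) * √n with hKd
  have K0 : 0 ≤ K := by positivity
  have eP : ∀ s y, Ps0 X n J s y = (∫ u, g (Tb J y u) ∂(RL (cb m) (db m) (sv s))) / √n :=
    fun s y => by rw [Ps0, rep hK hX hb hJ]
  have lp : ∀ y y' u u', |g (Tb J y u) - g (Tb J y' u')| ≤ K * (2 * nrm (y - y') + 7 * nA (u - u')) :=
    fun y y' u u' => (h.g_lip J _ _).trans (mul_le_mul_of_nonneg_left (by
      rw [← TL_apply, ← TL_apply, ← map_sub]; exact nA_Tb hK hJ _ _) K0)
  have du : ∀ u, HasFDerivAt (fun u => g (Tb J y u))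
      ((fderiv ℝ g (Tb J y u)).comp ((TL J).comp (.inr ℝ _ _))) u := fun u =>
    (dg hX J _).hasFDerivAt.comp u ((TL J).hasFDerivAt.comp u (hasFDerivAt_prodMk_right y u))
  have dy : ∀ u, HasFDerivAt (fun y => g (Tb J y u))
      ((fderiv ℝ g (Tb J y u)).comp ((TL J).comp (.inl ℝ _ _))) y := fun u =>
    (dg hX J _).hasFDerivAt.comp y ((TL J).hasFDerivAt.comp y (hasFDerivAt_prodMk_left y u))
  refine ⟨funext fun k => ?_, funext fun k => ?_, fun a => ?_⟩
  · have n0 : √(n : ℝ) ≠ 0 := (Real.sqrt_pos.2 (by exact_mod_cast k.pos)).ne'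
    have ad : Ad (cb m) (db m) := fun l _ => by
      rcases l with l | l
      · fin_cases l <;> simp [db]
      · simp [db]
    have e := congrFun (hG _ _ _ ad n (fun _ u => g (Tb J y u)) (K * 7)
      (fun _ u => (du u).differentiableAt) (fun _ u u' => by
        simpa [mul_assoc] using lp y y u u') s) k
    have e1 : ga (Ps0 X) n J s y k =
        grad (fun s => ∫ u, g (Tb J y u) ∂(RL (cb m) (db m) (sv s))) s k := by
      simp only [ga, eP, Pi.smul_apply, smul_eq_mul, grad, SL.incr]; field_simp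
    rw [e1, e]
    simp only [Pi.add_apply, Gm, grad, SL.incr, sub_self, zero_div, mul_zero, integral_zero, add_zero]
    refine integral_congr_ae (.of_forall fun u => ?_)
    simp only [(du u).fderiv]
    congr 1
    simp only [cb, Fintype.sum_sum_type, Fin.sum_univ_three, Sum.elim_inl, Sum.elim_inr, cons_val,
      Pi.zero_apply, zero_mul, Finset.sum_const_zero, one_mul, add_zero, ContinuousLinearMap.comp_apply,
      ContinuousLinearMap.inr_apply, TL_apply, Tb0, Tb2]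
    rw [hg, fd_0 hX, fd_2 hX, dotProduct_mulVec, ← mulVec_transpose, sA]
    simp [g0a]
  · have n0 : √(n : ℝ) ≠ 0 := (Real.sqrt_pos.2 (by exact_mod_cast k.pos)).ne'
    have cg : Continuous fun p : (Fin 3 ⊕ Fin m → V n) × V n => g (Tb J p.2 p.1) :=
      (dg hX J).continuous.comp' ((cont_Tb J).comp' (f := Prod.swap) continuous_swap)
    obtain ⟨i1, i2⟩ := hasFDerivAt_integral_of_dominated_loc_of_lip' (μ := RL (cb m) (db m) (sv s))
      (F := fun y u => g (Tb J y u)) (bound := fun _ => K * (2 * √n)) (x₀ := y) univ_mem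
      (fun x _ => (cg.comp' (f := fun u => (u, x)) (by fun_prop)).aestronglyMeasurable)
      (Integrable.of_bound (cg.comp' (f := fun u => (u, y)) (by fun_prop)).aestronglyMeasurable
        (M * √n * ((kz⁻¹ + 1) * √n)) (.of_forall fun u => (abs_dot_le _ _).trans
          (mul_le_mul (h.bd _ _ _) (nrm_Ub J _) (nrm_nonneg _) (by positivity))))
      (F' := fun u => fderiv ℝ (fun y => g (Tb J y u)) y)
      ((measurable_fderiv_with_param ℝ (f := fun u y => g (Tb J y u)) cg).comp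
        (measurable_id.prodMk measurable_const)).aestronglyMeasurable
      (.of_forall fun u x _ => (lp x y u u).trans (by
        have := nrm_le (x := x - y) (fun i => norm_le_pi_norm (x - y) i) (norm_nonneg _)
        rw [sub_self, show nA (0 : Fin 3 ⊕ Fin m → V n) = 0 by simp [nA], mul_assoc K]
        exact mul_le_mul_of_nonneg_left (by linarith) K0))
      (integrable_const _) (.of_forall fun u => (dy u).differentiableAt.hasFDerivAt)
    rw [gb, show Ps0 X n J s = fun y => (√n)⁻¹ * ∫ u, g (Tb J y u) ∂(RL (cb m) (db m) (sv s)) from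
      funext fun y => by rw [eP, div_eq_inv_mul], (i2.const_mul _).fderiv,
      _root_.smul_apply, smul_eq_mul, mul_inv_cancel_left₀ n0,
      ContinuousLinearMap.integral_apply i1, Gm]
    refine integral_congr_ae (.of_forall fun u => ?_)
    simp only [(dy u).fderiv, ContinuousLinearMap.comp_apply, ContinuousLinearMap.inl_apply, TL_apply,
      Tby, map_add]
    rw [hg, fd_0 hX, fd_1 hX]
    simp [g0b]
  · have a0 := h.adj_le hX (.inl 0) J a
    have a1 := h.adj_le hX (.inl 1) J a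
    have a2 := (nrm_DD (a (.inl 0)) _).trans (h.bd n J a)
    have a3 := (nrm_DD (a (.inl 2)) _).trans (h.bd n J a)
    have a4 : nrm (gx X n J a) ≤ L * ((kz⁻¹ + 1) * √n) + M * √n :=
      (nrm_sub_le _ _).trans (add_le_add a0 a2)
    have a5 := (nrm_mulVec_le (AA J) (gx X n J a)).trans (mul_le_mul oA a4 (nrm_nonneg _) (by norm_num))
    have a6 := mul_le_mul_of_nonneg_left a3 k0
    have p1 : 0 ≤ L * ((kz⁻¹ + 1) * √n) := by positivity
    have p2 : 0 ≤ M * √n := by positivity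
    have p3 : 0 ≤ kz⁻¹ * (M * √n) := by positivity
    refine ⟨(nrm_add_le _ _).trans ?_, (nrm_add_le _ _).trans (by linarith)⟩
    rw [nrm_smul, abs_of_nonneg k0]; linarith

end Crest.Agent.T157.Zf

end
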