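import Crest.Agent.T157.ZDefF_73
import Crest.Agent.T157.KCov_47
import Crest.Agent.T157.KRg_75

/-!
# Row 157, part B, kernel route: the kernel step (`Zf.keStmt`, `Zf.sc_step`, helper15)
-/

set_option autoImplicit false
set_option linter.unusedVariables false

noncomputable section

namespace Crest.Agent.T157.Zf

open MeasureTheory ProbabilityTheory Matrix Filter Set
open Crest.Agent.T157.E Crest.Agent.T157.Eig Crest.Agent.T157.Tap Crest.Agent.T157.Z
open Crest.Agent.T157.Rec (grad)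
open Crest.Agent.T157.Pl (cmul)
open Crest.Agent.T157.Conc (en ELip)

namespace Ke15

variable {n : ℕ} {J J' : Mx n}

/-! ### the matrices -/

theorem tJ_sy (h : Jᵀ = J) : (tJ J)ᵀ = tJ J := by rw [tJ, transpose_smul, h]

theorem AA_sy (h : Jᵀ = J) : (AA J)ᵀ = AA J := by
  rw [AA, transpose_add, tJ_sy h, transpose_smul, transpose_one]

theorem g1_AA (h : Jᵀ = J) : Sq.G1 (AA J) :=
  Sq.g1_shift (herm_iff.2 (tJ_sy h)) (L85.opn_tJ J) (by norm_num)

theorem opn_AA (J : Mx n) : opn (AA J) ≤ 7 :=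
  (Sq.opn_shift (L85.opn_tJ J) (by norm_num)).trans (by norm_num)

theorem QQ_sy (J : Mx n) : (QQ J)ᵀ = QQ J := Sq.rt_symm _

theorem QQ_mul (h : Jᵀ = J) : QQ J * QQ J = AA J := (g1_AA h).mul

theorem opn_QQ (h : Jᵀ = J) : opn (QQ J) ≤ 3 := by
  have h1 : opn (QQ J) ^ 2 = opn (AA J) := (g1_AA h).opn_rt
  nlinarith [opn_AA J, opn_nonneg (QQ J)]

theorem M_eq (J : Mx n) :
    (8 : ℝ) • AA J - AA J * AA J = -(tJ J * tJ J) + (16 : ℝ) • (1 : Mx n) := by
  simp only [AA, smul_add, Matrix.add_mul, Matrix.mul_add, Matrix.smul_mul, Matrix.mul_smul,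
    Matrix.one_mul, Matrix.mul_one, smul_smul]
  module

theorem opn_TT (J : Mx n) : opn (-(tJ J * tJ J)) ≤ 9 := by
  rw [opn_neg]
  nlinarith [opn_mul_le (tJ J) (tJ J), L85.opn_tJ J, opn_nonneg (tJ J)]

theorem g1_M (h : Jᵀ = J) : Sq.G1 ((8 : ℝ) • AA J - AA J * AA J) := by
  rw [M_eq]
  exact Sq.g1_shift (herm_iff.2 (by rw [transpose_neg, transpose_mul, tJ_sy h])) (opn_TT J)
    (by norm_num)

theorem s8 : (√8 : ℝ)⁻¹ * (√8)⁻¹ = 1 / 8 := by
  rw [← mul_inv, Real.mul_self_sqrt (by norm_num)]; norm_num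

theorem opn_BB (h : Jᵀ = J) : opn (BB J) ≤ 3 := by
  have h1 := (g1_M h).opn_rt
  have h2 : opn ((8 : ℝ) • AA J - AA J * AA J) ≤ 9 + 16 := by
    rw [M_eq]; exact Sq.opn_shift (opn_TT J) (by norm_num)
  have h3 : opn (BB J) ^ 2 ≤ 3 ^ 2 := by
    rw [BB, opn_smul, mul_pow, sq_abs, h1, sq, s8]
    linarith
  exact (pow_le_pow_iff_left₀ (opn_nonneg _) (by norm_num) two_ne_zero).1 h3

theorem BB_sy (J : Mx n) : (BB J)ᵀ = BB J := by rw [BB, transpose_smul, Sq.rt_symm]

theorem BB_mul (h : Jᵀ = J) : BB J * BB J = AA J - (1 / 8 : ℝ) • (AA J * AA J) := by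
  rw [BB, Matrix.smul_mul, Matrix.mul_smul, smul_smul, (g1_M h).mul, s8, smul_sub, smul_smul]
  norm_num

theorem dot_sy {M : Mx n} (h : Mᵀ = M) (t v : V n) : t ⬝ᵥ M *ᵥ v = (M *ᵥ t) ⬝ᵥ v := by
  rw [dotProduct_mulVec, ← mulVec_transpose, h]

theorem sq_sy {M : Mx n} (h : Mᵀ = M) (t : V n) : (M *ᵥ t) ⬝ᵥ (M *ᵥ t) = t ⬝ᵥ (M * M) *ᵥ t := by
  rw [← dot_sy h, mulVec_mulVec]

theorem QQ_lip (h : Jᵀ = J) (h' : J'ᵀ = J') :
    opn (AA J - AA J') ≤ 2 * opn (J - J') ∧ opn (QQ J - QQ J') ≤ opn (J - J') := by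
  have h1 : opn (AA J - AA J') ≤ 2 * opn (J - J') := by
    rw [AA, AA, add_sub_add_right_eq_sub]; exact L85.tJ_lip J J'
  exact ⟨h1, (Sq.rt_lip (g1_AA h) (g1_AA h')).trans (by linarith)⟩

theorem cj_one (s : Cube n) : Lm.cj s 1 = 1 := by
  rw [Lm.cj, Matrix.mul_one, diagonal_mul_diagonal, ← diagonal_one]
  congr 1
  funext i
  exact L85.sgn_mul (Pl.isSign_sv s) i

theorem AA_cj (s : Cube n) (J : Mx n) : AA (Lm.cj s J) = Lm.cj s (AA J) := by
  have h := cj_one s
  simp only [Lm.cj] at h ⊢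
  rw [AA, AA, L85.tJ_gauge (Pl.isSign_sv s), Matrix.mul_add, Matrix.add_mul, Matrix.mul_smul,
    Matrix.smul_mul, h]

theorem QQ_cj (h : Jᵀ = J) (s : Cube n) : QQ (Lm.cj s J) = Lm.cj s (QQ J) := by
  ext i j
  rw [QQ, Sq.rt_sign (g1_AA h) (L85.sgn_mul (Pl.isSign_sv s)) fun i j => by
    rw [AA_cj, Lm.cj, mul_diagonal, diagonal_mul]; ring]
  rw [Lm.cj, mul_diagonal, diagonal_mul, QQ]; ring

theorem AA_pe (e : Equiv.Perm (Fin n)) (J : Mx n) : AA (J.submatrix e e) = (AA J).submatrix e e := by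
  rw [AA, AA, L85.tJ_perm, submatrix_add, submatrix_smul]
  simp

theorem QQ_pe (h : Jᵀ = J) (e : Equiv.Perm (Fin n)) :
    QQ (J.submatrix e e) = (QQ J).submatrix e e := by
  ext i j
  exact Sq.rt_perm (g1_AA h) e (fun i j => by rw [AA_pe]; rfl) i j

theorem xr_cj (h : Jᵀ = J) (s x : Cube n) (y z : V n) :
    xr (Lm.cj s J) (cmul s x) (sv s * y) (sv s * z) = sv s * xr J x y z := by
  rw [xr, xr, AA_cj, QQ_cj h, Pl.sv_cmul, Lm.cj, Lm.cj, Kv.cj_mulVec, Kv.cj_mulVec, mul_add, mul_add]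

theorem xr_pe (h : Jᵀ = J) (e : Equiv.Perm (Fin n)) (x : Cube n) (y z : V n) :
    xr (J.submatrix e e) (x ∘ e) (y ∘ e) (z ∘ e) = xr J x y z ∘ e := by
  rw [xr, xr, AA_pe, QQ_pe h, Kv.sv_perm, Kv.sub_mulVec, Kv.sub_mulVec]; rfl

/-! ### product means -/

theorem dp (t : Cube n) : Differentiable ℝ fun h : V n => prob (ising 0 h) t := by
  have h1 : ∀ t, Differentiable ℝ fun h : V n => ising 0 h t := fun t => by
    unfold ising dotProduct; fun_prop
  simp only [prob, div_eq_mul_inv]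
  exact (h1 t).mul ((Differentiable.fun_sum fun t _ => h1 t).inv fun h => (K75.wt_prod h).pos.ne')

theorem cm {X : Type} [TopologicalSpace X] {a : Cube n → X → ℝ} {hh : X → V n}
    (ha : ∀ t, Continuous (a t)) (h : Continuous hh) :
    Continuous fun x => mean (ising 0 (hh x)) fun t => a t x :=
  continuous_finsetSum _ fun t _ => ((dp t).continuous.comp h).mul (ha t)

theorem nrm_sv (s : Cube n) : nrm (sv s) = √n := by
  rw [nrm]
  congr 1
  simp [dotProduct, L85.sgn_mul (Pl.isSign_sv s)]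

theorem nrm_le_sup (v : V n) : nrm v ≤ √n * ‖v‖ := by
  rw [nrm_le_iff (by positivity), mul_pow, Real.sq_sqrt (Nat.cast_nonneg n)]
  calc v ⬝ᵥ v ≤ ∑ i : Fin n, ‖v‖ ^ 2 := Finset.sum_le_sum fun i _ => by
        rw [← sq, ← sq_abs]
        exact pow_le_pow_left₀ (abs_nonneg _) (norm_le_pi_norm v i) 2
    _ = _ := by simp

theorem law (h : Jᵀ = J) (s : Cube n) (y : V n) :
    (RL c1 d1 (sv s)).map (fun u => xu J y (u 0) (u 1)) = (gv (Fin n)).map (xr J s y) := by
  have m1 : Measurable fun u : Fin 2 → V n => xu J y (u 0) (u 1) :=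
    Continuous.measurable (by unfold xu; fun_prop)
  have m2 : Measurable (xr J s y) := Continuous.measurable (by unfold xr; fun_prop)
  have m3 := Hp58.meas_rows c1 d1 (sv s)
  rw [RL, Measure.map_map m1 m3]
  refine Cond.ext_vec (m1.comp m3) m2 fun t => ?_
  have e1 : ∀ w, t ⬝ᵥ ((fun u : Fin 2 → V n => xu J y (u 0) (u 1)) ∘ rows c1 d1 (sv s)) w =
      t ⬝ᵥ (y + AA J *ᵥ sv s) + (fun q : Fin 2 × Fin n =>
        (![(√8)⁻¹ • AA J *ᵥ t, BB J *ᵥ t] : Fin 2 → V n) q.1 q.2) ⬝ᵥ w := fun w => by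
    have r0 : rows c1 d1 (sv s) w 0 = sv s + (√8)⁻¹ • fun i => w (0, i) := by
      funext i; simp [rows, c1, d1]
    have r1 : rows c1 d1 (sv s) w 1 = fun i => w (1, i) := by
      funext i; simp [rows, c1, d1]
    rw [Function.comp, xu, r0, r1, mulVec_add, mulVec_smul]
    simp only [dotProduct_add, dotProduct_smul, dot_sy (AA_sy h) t fun i => w (0, i),
      dot_sy (BB_sy J) t fun i => w (1, i)]
    simp only [dotProduct, Fintype.sum_prod_type, Fin.sum_univ_two, cons_val_zero, cons_val_one,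
      Pi.smul_apply, smul_eq_mul, Finset.mul_sum, mul_assoc, add_assoc]
  have e2 : ∀ z, t ⬝ᵥ xr J s y z = t ⬝ᵥ (y + AA J *ᵥ sv s) + (QQ J *ᵥ t) ⬝ᵥ z := fun z => by
    rw [xr, dotProduct_add, dot_sy (QQ_sy J)]
  simp only [e1, e2, Hp58.CF_aff]
  congr 5
  have e3 : ((√8)⁻¹ • AA J *ᵥ t) ⬝ᵥ ((√8)⁻¹ • AA J *ᵥ t) + (BB J *ᵥ t) ⬝ᵥ (BB J *ᵥ t) =
      (QQ J *ᵥ t) ⬝ᵥ (QQ J *ᵥ t) := by
    rw [smul_dotProduct, dotProduct_smul, smul_smul, s8, sq_sy (AA_sy h), sq_sy (BB_sy J),
      sq_sy (QQ_sy J), BB_mul h, QQ_mul h, sub_mulVec, smul_mulVec, dotProduct_sub, dotProduct_smul]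
    ring
  rw [← e3]
  simp only [dotProduct, Fintype.sum_prod_type, Fin.sum_univ_two, cons_val_zero, cons_val_one]

/-! ### one step -/

variable {f : Sf} {C : ℝ}

theorem pt_lip (hf : Sc f C) (h : Jᵀ = J) (h' : J'ᵀ = J') (x x' y y' : V n) :
    |mean (ising 0 x) (fun s => f n J s y) - mean (ising 0 x') fun s => f n J' s y'| ≤
      C * (nrm (y - y') + √n * opn (J - J')) + C * nrm (x - x') := by
  have := K75.abs_prod_sub (F := fun s => f n J s y) (F' := fun s => f n J' s y') hf.pos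
    (fun s => hf.grad n J' s y' h') (fun s => hf.lip n J J' s y y' h h') x x'
  rwa [K75.en_eq] at this

theorem pt_bd (hf : Sc f C) (h : Jᵀ = J) (x y : V n) :
    |mean (ising 0 x) fun s => f n J s y| ≤ C * √n :=
  (K75.wt_prod x).abs_mean_le fun s => hf.sup n J s y h

theorem pt_cont (hf : Sc f C) (h : Jᵀ = J) (s : Cube n) : Continuous fun p : V n × V n =>
    mean (ising 0 (xr J s p.2 p.1)) fun t => f n J t p.2 :=
  cm (fun t => (hf.diff n J t h).continuous.comp continuous_snd) (by unfold xr; fun_prop)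

theorem pt_int (hf : Sc f C) (h : Jᵀ = J) (s : Cube n) (y : V n) :
    Integrable (fun z => mean (ising 0 (xr J s y z)) fun t => f n J t y) (gv (Fin n)) :=
  Integrable.of_bound (C := C * √n)
    ((pt_cont hf h s).comp (continuous_id.prodMk continuous_const)).aestronglyMeasurable
    (.of_forall fun z => pt_bd hf h _ y)

theorem step_lip (hf : Sc f C) (h : Jᵀ = J) (h' : J'ᵀ = J') (x : Cube n) (y y' : V n) :
    |Ky f n J x y - Ky f n J' x y'| ≤ 4 * C * (nrm (y - y') + √n * opn (J - J')) := by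
  have C0 := hf.pos
  have o0 := opn_nonneg (J - J')
  have n0 := nrm_nonneg (y - y')
  obtain ⟨hA, hQ⟩ := QQ_lip h h'
  have hx : ∀ z, nrm (xr J x y z - xr J' x y' z) ≤
      nrm (y - y') + 2 * (√n * opn (J - J')) + opn (J - J') * nrm z := fun z => by
    have e : xr J x y z - xr J' x y' z =
        (y - y') + (AA J - AA J') *ᵥ sv x + (QQ J - QQ J') *ᵥ z := by
      simp only [xr, sub_mulVec]; abel
    have h1 := (nrm_mulVec_le (AA J - AA J') (sv x)).trans
      (mul_le_mul_of_nonneg_right hA (nrm_nonneg _))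
    have h2 := (nrm_mulVec_le (QQ J - QQ J') z).trans (mul_le_mul_of_nonneg_right hQ (nrm_nonneg _))
    rw [nrm_sv] at h1
    rw [e]
    linarith [nrm_add_le (y - y' + (AA J - AA J') *ᵥ sv x) ((QQ J - QQ J') *ᵥ z),
      nrm_add_le (y - y') ((AA J - AA J') *ᵥ sv x)]
  have i1 := pt_int hf h x y
  have i2 := pt_int hf h' x y'
  have i3 := (Nrm.integrable_nrm (ι := Fin n)).const_mul (C * opn (J - J'))
  have hm : ∫ z, nrm z ∂(gv (Fin n)) ≤ √n := by simpa using Nrm.integral_nrm_le (ι := Fin n)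
  rw [Ky, Ky, ← integral_sub i1 i2]
  refine abs_integral_le_integral_abs.trans ((integral_mono (i1.sub i2).abs
    ((integrable_const (C * (2 * nrm (y - y') + 3 * (√n * opn (J - J'))))).add i3) fun z => ?_).trans ?_)
  · have h1 := pt_lip hf h h' (xr J x y z) (xr J' x y' z) y y'
    have h2 := mul_le_mul_of_nonneg_left (hx z) C0
    simp only [Pi.add_apply, Pi.sub_apply]
    linarith
  · rw [integral_add' (integrable_const _) i3, integral_const, probReal_univ, one_smul,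
      integral_const_mul]
    have h1 := mul_le_mul_of_nonneg_left hm (mul_nonneg C0 o0)
    have h2 := mul_nonneg C0 n0
    linarith

theorem step_grad (hf : Sc f C) (h : Jᵀ = J) (x : Cube n) (y : V n) :
    grad (fun s => Ky f n J s y) x ⬝ᵥ grad (fun s => Ky f n J s y) x ≤
      (8 * Real.exp 14 * C) ^ 2 := by
  have C0 := hf.pos
  have hE := K75.elip_prod_lin (F := fun s => f n J s y) C0 (fun s => hf.grad n J s y h) y (QQ J)
  have e : (fun s => Ky f n J s y) = Rec.Pm (fun s => QQ J *ᵥ sv s) 1 fun _ u =>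
      mean (ising 0 (y + (QQ J)ᵀ *ᵥ u)) fun s => f n J s y := by
    funext s
    simp only [Ky, Rec.Pm, xr, one_smul, Real.sqrt_one, QQ_sy, mulVec_add, mulVec_mulVec, QQ_mul h,
      add_assoc]
  have hG : Kc.FG (fun s : Cube n => QQ J *ᵥ sv s) 7 :=
    Kc.fg_opn (by rw [QQ_sy, QQ_mul h]; exact opn_AA J)
  rw [e]
  refine (hG.grad_le zero_le_one (K75.mg_of_elip hE) _ x).trans
    ((mul_le_mul_of_nonneg_left (K75.var_Pm (Ψ := fun _ u =>
      mean (ising 0 (y + (QQ J)ᵀ *ᵥ u)) fun s => f n J s y) (p := x) zero_le_one hE)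
      (Kc.Ga_nonneg zero_le_one (by norm_num))).trans ?_)
  have h1 : (C * opn (QQ J)) ^ 2 ≤ (C * 3) ^ 2 :=
    pow_le_pow_left₀ (mul_nonneg C0 (opn_nonneg _)) (mul_le_mul_of_nonneg_left (opn_QQ h) C0) 2
  have h2 : Kc.Ga 1 7 = 7 * Real.exp 14 ^ 2 := by
    rw [Kc.Ga, ← Real.exp_nat_mul]; norm_num
  have h3 := mul_le_mul_of_nonneg_left h1 (by positivity : 0 ≤ 7 * Real.exp 14 ^ 2)
  have h4 : 0 ≤ Real.exp 14 ^ 2 * C ^ 2 := by positivity
  rw [h2]
  nlinarith

theorem step_diff (hf : Sc f C) (h : Jᵀ = J) (x : Cube n) : Differentiable ℝ (Ky f n J x) := by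
  intro y0
  have C0 := hf.pos
  have hd : ∀ z, Differentiable ℝ fun y => mean (ising 0 (xr J x y z)) fun t => f n J t y := fun z =>
    Differentiable.fun_sum fun t _ =>
      ((dp t).comp (by unfold xr; fun_prop)).mul (hf.diff n J t h)
  have hm := (measurable_fderiv_with_param ℝ
    (f := fun z y => mean (ising 0 (xr J x y z)) fun t => f n J t y) (pt_cont hf h x)).comp
    (measurable_id.prodMk (measurable_const (a := y0)))
  refine (hasFDerivAt_integral_of_dominated_loc_of_lip' (μ := gv (Fin n)) (s := univ)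
    (F := fun y z => mean (ising 0 (xr J x y z)) fun t => f n J t y)
    (F' := fun z => fderiv ℝ (fun y => mean (ising 0 (xr J x y z)) fun t => f n J t y) y0)
    (bound := fun _ => 2 * C * √n) univ_mem (fun y _ => (pt_int hf h x y).1) (pt_int hf h x y0)
    hm.aestronglyMeasurable (.of_forall fun z y _ => ?_) (integrable_const _)
    (.of_forall fun z => (hd z y0).hasFDerivAt)).2.differentiableAt
  have h1 := pt_lip hf h h (xr J x y z) (xr J x y0 z) y y0
  have e : xr J x y z - xr J x y0 z = y - y0 := by simp only [xr]; abel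
  rw [e, sub_self, opn_zero, mul_zero, add_zero] at h1
  have h2 := mul_le_mul_of_nonneg_left (nrm_le_sup (y - y0)) C0
  rw [Real.norm_eq_abs]
  linarith

end Ke15

open Ke15

theorem keStmt : KeStmt where
  op n J h := ⟨AA_sy h, opn_AA J, opn_BB h⟩
  law n J s y h := law h s y
  jen n a b x y := by
    simp only [nrm_sq, dotProduct, SL.mean_sum]
    refine Finset.sum_le_sum fun k _ => ?_
    have := Kc.mean_sub_sq_le (K75.wt_prod x) (fun s => a s y k - b s y k) 0
    simpa only [sub_zero, SL.mean_sub, sq, Sm, Pi.sub_apply] using this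
  meas n a ha := measurable_pi_lambda _ fun k => Finset.measurable_sum _ fun s _ =>
    ((dp s).continuous.measurable.comp measurable_fst).mul
      ((measurable_pi_apply k).comp ((ha s).comp measurable_snd))

theorem sc_step : ∀ f C, Sc f C → ∃ C', Sc (Ky f) C' := by
  intro f C hf
  have C0 := hf.pos
  have e1 : 1 ≤ Real.exp 14 := Real.one_le_exp (by norm_num)
  have hC : 4 * C ≤ 8 * Real.exp 14 * C := by nlinarith
  refine ⟨8 * Real.exp 14 * C, by positivity, fun n J s x y h => ?_, fun n J e x y h => ?_,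
    fun n J J' x y y' h h' => (step_lip hf h h' x y y').trans ?_, fun n J x y h => step_grad hf h x y,
    fun n J x y h => ?_, fun n J x h => step_diff hf h x⟩
  · rw [Ky, Ky, ← (Kv.iso_sign (Pl.isSign_sv s)).int]
    refine integral_congr_ae (.of_forall fun z => ?_)
    simp only [xr_cj h]
    refine Kv.mean_equiv (Pl.gauge s) (fun t => ?_) fun t => hf.gauge n J s t y h
    simpa using Kv.ising_gauge s 0 (xr J x y z) t
  · rw [Ky, Ky, ← (Kv.iso_perm e).int]
    refine integral_congr_ae (.of_forall fun z => ?_)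
    simp only [xr_pe h]
    refine Kv.mean_equiv (Kv.pe e) (fun t => ?_) fun t => hf.perm n J e t y h
    simpa [Kv.pe_apply] using Kv.ising_perm e 0 (xr J x y z) t
  · exact mul_le_mul_of_nonneg_right hC
      (add_nonneg (nrm_nonneg _) (mul_nonneg (Real.sqrt_nonneg _) (opn_nonneg _)))
  · have := norm_integral_le_of_norm_le_const (μ := gv (Fin n)) (C := C * √n)
      (f := fun z => mean (ising 0 (xr J x y z)) fun t => f n J t y)
      (.of_forall fun z => pt_bd hf h _ y)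
    rw [probReal_univ, mul_one] at this
    exact this.trans (mul_le_mul_of_nonneg_right (by linarith) (Real.sqrt_nonneg _))

end Crest.Agent.T157.Zf

end
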